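import Vale.Agent.Lib.P154.PChain.BW.L

set_option linter.all false

namespace Vale.Agent.Lib.P154.PChain.BW.S0

open Vale.Agent.Lib.P154.Chain

noncomputable def pc0 : PT := (PT.nd (nat_lit 3042000) (PT.nd (nat_lit 2948166) (PT.nd (nat_lit 2854488) (PT.nd (nat_lit 2823210) (PT.nd (nat_lit 2792010) (PT.nd (nat_lit 2791932) PT.nil (PT.lf (nat_lit 76) (nat_lit 6) (nat_lit 1) (nat_lit 3) (nat_lit 105) (nat_lit 89) (nat_lit 106))) (PT.nd (nat_lit 31122) (PT.lf (nat_lit 76) (nat_lit 6) (nat_lit 1) (nat_lit 1) (nat_lit 106) (nat_lit 89) (nat_lit 105)) (PT.lf (nat_lit 152) (nat_lit 6) (nat_lit 2) (nat_lit 3) (nat_lit 104) (nat_lit 90) (nat_lit 106)))) (PT.nd (nat_lit 78) (PT.lf (nat_lit 228) (nat_lit 3) (nat_lit 3) (nat_lit 1) (nat_lit 105) (nat_lit 90) (nat_lit 105)) (PT.nd (nat_lit 31122) (PT.lf (nat_lit 152) (nat_lit 6) (nat_lit 2) (nat_lit 1) (nat_lit 106) (nat_lit 90) (nat_lit 104))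 (PT.lf (nat_lit 304) (nat_lit 6) (nat_lit 4) (nat_lit 3) (nat_lit 104) (nat_lit 91) (nat_lit 105))))) (PT.nd (nat_lit 31278) (PT.nd (nat_lit 31122) (PT.lf (nat_lit 304) (nat_lit 6) (nat_lit 4) (nat_lit 1) (nat_lit 105) (nat_lit 91) (nat_lit 104)) (PT.nd (nat_lit 78) (PT.lf (nat_lit 380) (nat_lit 6) (nat_lit 5) (nat_lit 3) (nat_lit 103) (nat_lit 92) (nat_lit 105)) (PT.lf (nat_lit 456) (nat_lit 3) (nat_lit 6) (nat_lit 1) (nat_lit 104) (nat_lit 92) (nat_lit 104)))) (PT.nd (nat_lit 31200) (PT.nd (nat_lit 31122) (PT.lf (nat_lit 380) (nat_lit 6) (nat_lit 5) (nat_lit 1) (nat_lit 105) (nat_lit 92) (nat_lit 103)) (PT.lf (nat_lit 532) (nat_lit 6) (nat_lit 7) (nat_lit 3) (nat_lit 103) (nat_lit 93) (nat_lit 104))) (PT.nd (nat_lit 31122) (PT.lf (nat_lit 532) (nat_lit 6) (nat_lit 7) (nat_lit 1) (nat_lit 104) (nat_lit 93) (nat_lit 103)) (PT.lf (nat_lit 608) (nat_lit 6) (nat_lit 8) (nat_lit 3) (nat_lit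 102) (nat_lit 94) (nat_lit 104)))))) (PT.nd (nat_lit 62400) (PT.nd (nat_lit 31200) (PT.nd (nat_lit 78) (PT.lf (nat_lit 684) (nat_lit 3) (nat_lit 9) (nat_lit 1) (nat_lit 103) (nat_lit 94) (nat_lit 103)) (PT.nd (nat_lit 31044) (PT.lf (nat_lit 608) (nat_lit 6) (nat_lit 8) (nat_lit 1) (nat_lit 104) (nat_lit 94) (nat_lit 102)) (PT.lf (nat_lit 760) (nat_lit 6) (nat_lit 10) (nat_lit 3) (nat_lit 101) (nat_lit 95) (nat_lit 104)))) (PT.nd (nat_lit 156) (PT.nd (nat_lit 78) (PT.lf (nat_lit 836) (nat_lit 6) (nat_lit 11) (nat_lit 3) (nat_lit 102) (nat_lit 95) (nat_lit 103)) (PT.lf (nat_lit 836) (nat_lit 6) (nat_lit 11) (nat_lit 1) (nat_lit 103) (nat_lit 95) (nat_lit 102))) (PT.nd (nat_lit 30966) (PT.lf (nat_lit 760) (nat_lit 6) (nat_lit 10) (nat_lit 1) (nat_lit 104) (nat_lit 95) (nat_lit 101)) (PT.lf (nat_lit 912) (nat_lit 6) (nat_lit 12) (nat_lit 3) (nat_lit 100) (nat_lit 96) (nat_lit 104)))))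 (PT.nd (nat_lit 234) (PT.nd (nat_lit 78) (PT.lf (nat_lit 988) (nat_lit 6) (nat_lit 13) (nat_lit 3) (nat_lit 101) (nat_lit 96) (nat_lit 103)) (PT.nd (nat_lit 78) (PT.lf (nat_lit 1064) (nat_lit 3) (nat_lit 14) (nat_lit 1) (nat_lit 102) (nat_lit 96) (nat_lit 102)) (PT.lf (nat_lit 988) (nat_lit 6) (nat_lit 13) (nat_lit 1) (nat_lit 103) (nat_lit 96) (nat_lit 101)))) (PT.nd (nat_lit 31044) (PT.nd (nat_lit 30966) (PT.lf (nat_lit 912) (nat_lit 6) (nat_lit 12) (nat_lit 1) (nat_lit 104) (nat_lit 96) (nat_lit 100)) (PT.lf (nat_lit 1216) (nat_lit 6) (nat_lit 16) (nat_lit 3) (nat_lit 100) (nat_lit 97) (nat_lit 103))) (PT.nd (nat_lit 78) (PT.lf (nat_lit 1292) (nat_lit 6) (nat_lit 17) (nat_lit 3) (nat_lit 101) (nat_lit 97) (nat_lit 102)) (PT.lf (nat_lit 1292) (nat_lit 6) (nat_lit 17) (nat_lit 1) (nat_lit 102) (nat_lit 97) (nat_lit 101))))))) (PT.nd (nat_lit 93366) (PT.nd (nat_lit 62166) (PT.nd (nat_lit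 31122) (PT.nd (nat_lit 30966) (PT.lf (nat_lit 1216) (nat_lit 6) (nat_lit 16) (nat_lit 1) (nat_lit 103) (nat_lit 97) (nat_lit 100)) (PT.nd (nat_lit 78) (PT.lf (nat_lit 1140) (nat_lit 6) (nat_lit 15) (nat_lit 3) (nat_lit 99) (nat_lit 98) (nat_lit 103)) (PT.lf (nat_lit 1444) (nat_lit 6) (nat_lit 19) (nat_lit 3) (nat_lit 100) (nat_lit 98) (nat_lit 102)))) (PT.nd (nat_lit 78) (PT.lf (nat_lit 1520) (nat_lit 3) (nat_lit 20) (nat_lit 1) (nat_lit 101) (nat_lit 98) (nat_lit 101)) (PT.nd (nat_lit 78) (PT.lf (nat_lit 1444) (nat_lit 6) (nat_lit 19) (nat_lit 1) (nat_lit 102) (nat_lit 98) (nat_lit 100)) (PT.lf (nat_lit 1140) (nat_lit 6) (nat_lit 15) (nat_lit 1) (nat_lit 103) (nat_lit 98) (nat_lit 99))))) (PT.nd (nat_lit 234) (PT.nd (nat_lit 78) (PT.lf (nat_lit 1140) (nat_lit 6) (nat_lit 15) (nat_lit 5) (nat_lit 98) (nat_lit 99) (nat_lit 103)) (PT.nd (nat_lit 78) (PT.lf (nat_lit 1368) (nat_lit 3)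 (nat_lit 18) (nat_lit 3) (nat_lit 99) (nat_lit 99) (nat_lit 102)) (PT.lf (nat_lit 1596) (nat_lit 6) (nat_lit 21) (nat_lit 3) (nat_lit 100) (nat_lit 99) (nat_lit 101)))) (PT.nd (nat_lit 156) (PT.nd (nat_lit 78) (PT.lf (nat_lit 1596) (nat_lit 6) (nat_lit 21) (nat_lit 1) (nat_lit 101) (nat_lit 99) (nat_lit 100)) (PT.lf (nat_lit 1368) (nat_lit 3) (nat_lit 18) (nat_lit 0) (nat_lit 102) (nat_lit 99) (nat_lit 99))) (PT.nd (nat_lit 30732) (PT.lf (nat_lit 1140) (nat_lit 6) (nat_lit 15) (nat_lit 0) (nat_lit 103) (nat_lit 99) (nat_lit 98)) (PT.lf (nat_lit 912) (nat_lit 6) (nat_lit 12) (nat_lit 5) (nat_lit 96) (nat_lit 100) (nat_lit 104)))))) (PT.nd (nat_lit 546) (PT.nd (nat_lit 234) (PT.nd (nat_lit 78) (PT.lf (nat_lit 1216) (nat_lit 6) (nat_lit 16) (nat_lit 5) (nat_lit 97) (nat_lit 100) (nat_lit 103)) (PT.nd (nat_lit 78) (PT.lf (nat_lit 1444) (nat_lit 6) (nat_lit 19) (nat_lit 5) (nat_lit 98)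 (nat_lit 100) (nat_lit 102)) (PT.lf (nat_lit 1596) (nat_lit 6) (nat_lit 21) (nat_lit 5) (nat_lit 99) (nat_lit 100) (nat_lit 101)))) (PT.nd (nat_lit 156) (PT.nd (nat_lit 78) (PT.lf (nat_lit 1672) (nat_lit 1) (nat_lit 22) (nat_lit 0) (nat_lit 100) (nat_lit 100) (nat_lit 100)) (PT.lf (nat_lit 1596) (nat_lit 6) (nat_lit 21) (nat_lit 0) (nat_lit 101) (nat_lit 100) (nat_lit 99))) (PT.nd (nat_lit 78) (PT.lf (nat_lit 1444) (nat_lit 6) (nat_lit 19) (nat_lit 0) (nat_lit 102) (nat_lit 100) (nat_lit 98)) (PT.lf (nat_lit 1216) (nat_lit 6) (nat_lit 16) (nat_lit 0) (nat_lit 103) (nat_lit 100) (nat_lit 97))))) (PT.nd (nat_lit 30732) (PT.nd (nat_lit 30576) (PT.lf (nat_lit 912) (nat_lit 6) (nat_lit 12) (nat_lit 0) (nat_lit 104) (nat_lit 100) (nat_lit 96)) (PT.nd (nat_lit 78) (PT.lf (nat_lit 760) (nat_lit 6) (nat_lit 10) (nat_lit 5) (nat_lit 95) (nat_lit 101) (nat_lit 104)) (PT.lf (nat_lit 988) (nat_lit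 6) (nat_lit 13) (nat_lit 5) (nat_lit 96) (nat_lit 101) (nat_lit 103)))) (PT.nd (nat_lit 156) (PT.nd (nat_lit 78) (PT.lf (nat_lit 1292) (nat_lit 6) (nat_lit 17) (nat_lit 5) (nat_lit 97) (nat_lit 101) (nat_lit 102)) (PT.lf (nat_lit 1520) (nat_lit 3) (nat_lit 20) (nat_lit 4) (nat_lit 98) (nat_lit 101) (nat_lit 101))) (PT.nd (nat_lit 78) (PT.lf (nat_lit 1596) (nat_lit 6) (nat_lit 21) (nat_lit 4) (nat_lit 99) (nat_lit 101) (nat_lit 100)) (PT.lf (nat_lit 1596) (nat_lit 6) (nat_lit 21) (nat_lit 2) (nat_lit 100) (nat_lit 101) (nat_lit 99))))))))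
noncomputable def pc1 : PT := (PT.nd (nat_lit 62790) (PT.nd (nat_lit 31434) (PT.nd (nat_lit 30888) (PT.nd (nat_lit 234) (PT.nd (nat_lit 78) (PT.lf (nat_lit 1520) (nat_lit 3) (nat_lit 20) (nat_lit 0) (nat_lit 101) (nat_lit 101) (nat_lit 98)) (PT.nd (nat_lit 78) (PT.lf (nat_lit 1292) (nat_lit 6) (nat_lit 17) (nat_lit 0) (nat_lit 102) (nat_lit 101) (nat_lit 97)) (PT.lf (nat_lit 988) (nat_lit 6) (nat_lit 13) (nat_lit 0) (nat_lit 103) (nat_lit 101) (nat_lit 96)))) (PT.nd (nat_lit 30498) (PT.lf (nat_lit 760) (nat_lit 6) (nat_lit 10) (nat_lit 0) (nat_lit 104) (nat_lit 101) (nat_lit 95)) (PT.nd (nat_lit 78) (PT.lf (nat_lit 608) (nat_lit 6) (nat_lit 8) (nat_lit 5) (nat_lit 94) (nat_lit 102) (nat_lit 104)) (PT.lf (nat_lit 836) (nat_lit 6) (nat_lit 11) (nat_lit 5) (nat_lit 95) (nat_lit 102) (nat_lit 103))))) (PT.nd (nat_lit 234) (PT.nd (nat_lit 78) (PT.lf (nat_lit 1064) (nat_lit 3) (nat_lit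 14) (nat_lit 4) (nat_lit 96) (nat_lit 102) (nat_lit 102)) (PT.nd (nat_lit 78) (PT.lf (nat_lit 1292) (nat_lit 6) (nat_lit 17) (nat_lit 4) (nat_lit 97) (nat_lit 102) (nat_lit 101)) (PT.lf (nat_lit 1444) (nat_lit 6) (nat_lit 19) (nat_lit 4) (nat_lit 98) (nat_lit 102) (nat_lit 100)))) (PT.nd (nat_lit 156) (PT.nd (nat_lit 78) (PT.lf (nat_lit 1368) (nat_lit 3) (nat_lit 18) (nat_lit 2) (nat_lit 99) (nat_lit 102) (nat_lit 99)) (PT.lf (nat_lit 1444) (nat_lit 6) (nat_lit 19) (nat_lit 2) (nat_lit 100) (nat_lit 102) (nat_lit 98))) (PT.nd (nat_lit 78) (PT.lf (nat_lit 1292) (nat_lit 6) (nat_lit 17) (nat_lit 2) (nat_lit 101) (nat_lit 102) (nat_lit 97)) (PT.lf (nat_lit 1064) (nat_lit 3) (nat_lit 14) (nat_lit 0) (nat_lit 102) (nat_lit 102) (nat_lit 96)))))) (PT.nd (nat_lit 30810) (PT.nd (nat_lit 30498) (PT.nd (nat_lit 78) (PT.lf (nat_lit 836) (nat_lit 6) (nat_lit 11) (nat_lit 0) (nat_lit 103) (nat_lit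 102) (nat_lit 95)) (PT.nd (nat_lit 30342) (PT.lf (nat_lit 608) (nat_lit 6) (nat_lit 8) (nat_lit 0) (nat_lit 104) (nat_lit 102) (nat_lit 94)) (PT.lf (nat_lit 380) (nat_lit 6) (nat_lit 5) (nat_lit 5) (nat_lit 92) (nat_lit 103) (nat_lit 105)))) (PT.nd (nat_lit 156) (PT.nd (nat_lit 78) (PT.lf (nat_lit 532) (nat_lit 6) (nat_lit 7) (nat_lit 5) (nat_lit 93) (nat_lit 103) (nat_lit 104)) (PT.lf (nat_lit 684) (nat_lit 3) (nat_lit 9) (nat_lit 4) (nat_lit 94) (nat_lit 103) (nat_lit 103))) (PT.nd (nat_lit 78) (PT.lf (nat_lit 836) (nat_lit 6) (nat_lit 11) (nat_lit 4) (nat_lit 95) (nat_lit 103) (nat_lit 102)) (PT.lf (nat_lit 988) (nat_lit 6) (nat_lit 13) (nat_lit 4) (nat_lit 96) (nat_lit 103) (nat_lit 101))))) (PT.nd (nat_lit 234) (PT.nd (nat_lit 78) (PT.lf (nat_lit 1216) (nat_lit 6) (nat_lit 16) (nat_lit 4) (nat_lit 97) (nat_lit 103) (nat_lit 100)) (PT.nd (nat_lit 78) (PT.lf (nat_lit 1140) (nat_lit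 6) (nat_lit 15) (nat_lit 4) (nat_lit 98) (nat_lit 103) (nat_lit 99)) (PT.lf (nat_lit 1140) (nat_lit 6) (nat_lit 15) (nat_lit 2) (nat_lit 99) (nat_lit 103) (nat_lit 98)))) (PT.nd (nat_lit 156) (PT.nd (nat_lit 78) (PT.lf (nat_lit 1216) (nat_lit 6) (nat_lit 16) (nat_lit 2) (nat_lit 100) (nat_lit 103) (nat_lit 97)) (PT.lf (nat_lit 988) (nat_lit 6) (nat_lit 13) (nat_lit 2) (nat_lit 101) (nat_lit 103) (nat_lit 96))) (PT.nd (nat_lit 78) (PT.lf (nat_lit 836) (nat_lit 6) (nat_lit 11) (nat_lit 2) (nat_lit 102) (nat_lit 103) (nat_lit 95)) (PT.lf (nat_lit 684) (nat_lit 3) (nat_lit 9) (nat_lit 0) (nat_lit 103) (nat_lit 103) (nat_lit 94))))))) (PT.nd (nat_lit 31356) (PT.nd (nat_lit 30576) (PT.nd (nat_lit 30264) (PT.nd (nat_lit 78) (PT.lf (nat_lit 532) (nat_lit 6) (nat_lit 7) (nat_lit 0) (nat_lit 104) (nat_lit 103) (nat_lit 93)) (PT.nd (nat_lit 30108) (PT.lf (nat_lit 380) (nat_lit 6) (nat_lit 5)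 (nat_lit 0) (nat_lit 105) (nat_lit 103) (nat_lit 92)) (PT.lf (nat_lit 152) (nat_lit 6) (nat_lit 2) (nat_lit 5) (nat_lit 90) (nat_lit 104) (nat_lit 106)))) (PT.nd (nat_lit 156) (PT.nd (nat_lit 78) (PT.lf (nat_lit 304) (nat_lit 6) (nat_lit 4) (nat_lit 5) (nat_lit 91) (nat_lit 104) (nat_lit 105)) (PT.lf (nat_lit 456) (nat_lit 3) (nat_lit 6) (nat_lit 4) (nat_lit 92) (nat_lit 104) (nat_lit 104))) (PT.nd (nat_lit 78) (PT.lf (nat_lit 532) (nat_lit 6) (nat_lit 7) (nat_lit 4) (nat_lit 93) (nat_lit 104) (nat_lit 103)) (PT.lf (nat_lit 608) (nat_lit 6) (nat_lit 8) (nat_lit 4) (nat_lit 94) (nat_lit 104) (nat_lit 102))))) (PT.nd (nat_lit 468) (PT.nd (nat_lit 78) (PT.lf (nat_lit 760) (nat_lit 6) (nat_lit 10) (nat_lit 4) (nat_lit 95) (nat_lit 104) (nat_lit 101)) (PT.nd (nat_lit 312) (PT.lf (nat_lit 912) (nat_lit 6) (nat_lit 12) (nat_lit 4) (nat_lit 96) (nat_lit 104) (nat_lit 100)) (PT.lf (nat_lit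 912) (nat_lit 6) (nat_lit 12) (nat_lit 2) (nat_lit 100) (nat_lit 104) (nat_lit 96)))) (PT.nd (nat_lit 156) (PT.nd (nat_lit 78) (PT.lf (nat_lit 760) (nat_lit 6) (nat_lit 10) (nat_lit 2) (nat_lit 101) (nat_lit 104) (nat_lit 95)) (PT.lf (nat_lit 608) (nat_lit 6) (nat_lit 8) (nat_lit 2) (nat_lit 102) (nat_lit 104) (nat_lit 94))) (PT.nd (nat_lit 78) (PT.lf (nat_lit 532) (nat_lit 6) (nat_lit 7) (nat_lit 2) (nat_lit 103) (nat_lit 104) (nat_lit 93)) (PT.lf (nat_lit 456) (nat_lit 3) (nat_lit 6) (nat_lit 0) (nat_lit 104) (nat_lit 104) (nat_lit 92)))))) (PT.nd (nat_lit 31200) (PT.nd (nat_lit 30108) (PT.nd (nat_lit 78) (PT.lf (nat_lit 304) (nat_lit 6) (nat_lit 4) (nat_lit 0) (nat_lit 105) (nat_lit 104) (nat_lit 91)) (PT.nd (nat_lit 29952) (PT.lf (nat_lit 152) (nat_lit 6) (nat_lit 2) (nat_lit 0) (nat_lit 106) (nat_lit 104) (nat_lit 90)) (PT.lf (nat_lit 76) (nat_lit 6) (nat_lit 1) (nat_lit 5) (nat_lit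 89) (nat_lit 105) (nat_lit 106)))) (PT.nd (nat_lit 156) (PT.nd (nat_lit 78) (PT.lf (nat_lit 228) (nat_lit 3) (nat_lit 3) (nat_lit 4) (nat_lit 90) (nat_lit 105) (nat_lit 105)) (PT.lf (nat_lit 304) (nat_lit 6) (nat_lit 4) (nat_lit 4) (nat_lit 91) (nat_lit 105) (nat_lit 104))) (PT.nd (nat_lit 858) (PT.lf (nat_lit 380) (nat_lit 6) (nat_lit 5) (nat_lit 4) (nat_lit 92) (nat_lit 105) (nat_lit 103)) (PT.lf (nat_lit 380) (nat_lit 6) (nat_lit 5) (nat_lit 2) (nat_lit 103) (nat_lit 105) (nat_lit 92))))) (PT.nd (nat_lit 30108) (PT.nd (nat_lit 78) (PT.lf (nat_lit 304) (nat_lit 6) (nat_lit 4) (nat_lit 2) (nat_lit 104) (nat_lit 105) (nat_lit 91)) (PT.nd (nat_lit 78) (PT.lf (nat_lit 228) (nat_lit 3) (nat_lit 3) (nat_lit 0) (nat_lit 105) (nat_lit 105) (nat_lit 90)) (PT.lf (nat_lit 76) (nat_lit 6) (nat_lit 1) (nat_lit 0) (nat_lit 106) (nat_lit 105) (nat_lit 89)))) (PT.nd (nat_lit 1170) (PT.nd (nat_lit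 78) (PT.lf (nat_lit 76) (nat_lit 6) (nat_lit 1) (nat_lit 4) (nat_lit 89) (nat_lit 106) (nat_lit 105)) (PT.lf (nat_lit 152) (nat_lit 6) (nat_lit 2) (nat_lit 4) (nat_lit 90) (nat_lit 106) (nat_lit 104))) (PT.nd (nat_lit 78) (PT.lf (nat_lit 152) (nat_lit 6) (nat_lit 2) (nat_lit 2) (nat_lit 104) (nat_lit 106) (nat_lit 90)) (PT.lf (nat_lit 76) (nat_lit 6) (nat_lit 1) (nat_lit 2) (nat_lit 105) (nat_lit 106) (nat_lit 89))))))))
noncomputable def xc0 : XT := (XT.nd (nat_lit 249210) (nat_lit 0) (nat_lit 0) (XT.nd (nat_lit 186732) (nat_lit 0) (nat_lit 0) (XT.nd (nat_lit 93366) (nat_lit 0) (nat_lit 0) (XT.nd (nat_lit 31200) (nat_lit 0) (nat_lit 0) (XT.nd (nat_lit 78) (nat_lit 0) (nat_lit 0) (XT.lf (nat_lit 0) (nat_lit 19251455942923) (nat_lit 152) (nat_lit 53739395210043) (nat_lit 0) (nat_lit 19251455942923) (nat_lit 1) (nat_lit 5) (nat_lit 3) (nat_lit 4) (nat_lit 1) (nat_lit 4) (nat_lit 284)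 (nat_lit 158) (nat_lit 158)) (XT.nd (nat_lit 31044) (nat_lit 0) (nat_lit 0) (XT.lf (nat_lit 0) (nat_lit 44278384308463) (nat_lit 152) (nat_lit 123600534882664) (nat_lit 0) (nat_lit 44278381006258) (nat_lit 1) (nat_lit 5) (nat_lit 3) (nat_lit 4) (nat_lit 1) (nat_lit 4) (nat_lit 285) (nat_lit 158) (nat_lit 157)) (XT.lf (nat_lit 0) (nat_lit 14556835397208) (nat_lit 152) (nat_lit 40634771175795) (nat_lit 0) (nat_lit 14556835397208) (nat_lit 1) (nat_lit 5) (nat_lit 3) (nat_lit 4) (nat_lit 1) (nat_lit 4) (nat_lit 282) (nat_lit 159) (nat_lit 159)))) (XT.nd (nat_lit 31200) (nat_lit 0) (nat_lit 0) (XT.nd (nat_lit 78) (nat_lit 0) (nat_lit 0) (XT.lf (nat_lit 0) (nat_lit 33480762399282) (nat_lit 152) (nat_lit 93459888488829) (nat_lit 0) (nat_lit 33480758601746) (nat_lit 1) (nat_lit 5) (nat_lit 3) (nat_lit 4) (nat_lit 1) (nat_lit 4) (nat_lit 283) (nat_lit 159) (nat_lit 158)) (XT.lf (nat_lit 0)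 (nat_lit 38502913890778) (nat_lit 152) (nat_lit 107478793788287) (nat_lit 0) (nat_lit 38502906791037) (nat_lit 1) (nat_lit 5) (nat_lit 3) (nat_lit 4) (nat_lit 1) (nat_lit 4) (nat_lit 284) (nat_lit 159) (nat_lit 157))) (XT.nd (nat_lit 78) (nat_lit 0) (nat_lit 0) (XT.lf (nat_lit 0) (nat_lit 29113673100090) (nat_lit 152) (nat_lit 81269546225022) (nat_lit 0) (nat_lit 29113664935387) (nat_lit 1) (nat_lit 5) (nat_lit 3) (nat_lit 4) (nat_lit 1) (nat_lit 4) (nat_lit 282) (nat_lit 160) (nat_lit 158)) (XT.lf (nat_lit 0) (nat_lit 33480762912351) (nat_lit 152) (nat_lit 93459895730463) (nat_lit 0) (nat_lit 33480751445443) (nat_lit 1) (nat_lit 5) (nat_lit 3) (nat_lit 4) (nat_lit 1) (nat_lit 4) (nat_lit 283) (nat_lit 160) (nat_lit 157))))) (XT.nd (nat_lit 62244) (nat_lit 0) (nat_lit 0) (XT.nd (nat_lit 31122) (nat_lit 0) (nat_lit 0) (XT.lf (nat_lit 0) (nat_lit 8322849710085) (nat_lit 152) (nat_lit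 23233210933083) (nat_lit 0) (nat_lit 8322849710085) (nat_lit 1) (nat_lit 5) (nat_lit 3) (nat_lit 4) (nat_lit 1) (nat_lit 4) (nat_lit 278) (nat_lit 161) (nat_lit 161)) (XT.nd (nat_lit 78) (nat_lit 0) (nat_lit 0) (XT.lf (nat_lit 0) (nat_lit 6293222802512) (nat_lit 152) (nat_lit 17567748438459) (nat_lit 0) (nat_lit 6293222802512) (nat_lit 1) (nat_lit 5) (nat_lit 3) (nat_lit 4) (nat_lit 1) (nat_lit 4) (nat_lit 276) (nat_lit 162) (nat_lit 162)) (XT.lf (nat_lit 0) (nat_lit 14474474779908) (nat_lit 152) (nat_lit 40405691806333) (nat_lit 0) (nat_lit 14474469004330) (nat_lit 1) (nat_lit 5) (nat_lit 3) (nat_lit 4) (nat_lit 1) (nat_lit 4) (nat_lit 277) (nat_lit 162) (nat_lit 161)))) (XT.nd (nat_lit 156) (nat_lit 0) (nat_lit 0) (XT.nd (nat_lit 78) (nat_lit 0) (nat_lit 0) (XT.lf (nat_lit 0) (nat_lit 4758526174431) (nat_lit 152) (nat_lit 13283860318908) (nat_lit 0) (nat_lit 4758526174431) (nat_lit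 1) (nat_lit 5) (nat_lit 3) (nat_lit 4) (nat_lit 1) (nat_lit 4) (nat_lit 274) (nat_lit 163) (nat_lit 163)) (XT.lf (nat_lit 0) (nat_lit 10944681885440) (nat_lit 152) (nat_lit 30552729691047) (nat_lit 0) (nat_lit 10944675243526) (nat_lit 1) (nat_lit 5) (nat_lit 3) (nat_lit 4) (nat_lit 1) (nat_lit 4) (nat_lit 275) (nat_lit 163) (nat_lit 162))) (XT.nd (nat_lit 78) (nat_lit 0) (nat_lit 0) (XT.lf (nat_lit 0) (nat_lit 12586449111665) (nat_lit 152) (nat_lit 35135502767925) (nat_lit 0) (nat_lit 12586436694172) (nat_lit 1) (nat_lit 5) (nat_lit 3) (nat_lit 4) (nat_lit 1) (nat_lit 4) (nat_lit 276) (nat_lit 163) (nat_lit 161)) (XT.lf (nat_lit 0) (nat_lit 14474475560222) (nat_lit 152) (nat_lit 40405702819953) (nat_lit 0) (nat_lit 14474458120488) (nat_lit 1) (nat_lit 5) (nat_lit 3) (nat_lit 4) (nat_lit 1) (nat_lit 4) (nat_lit 277) (nat_lit 163) (nat_lit 160)))))) (XT.nd (nat_lit 31278) (nat_lit 0)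 (nat_lit 0) (XT.nd (nat_lit 234) (nat_lit 0) (nat_lit 0) (XT.nd (nat_lit 78) (nat_lit 0) (nat_lit 0) (XT.lf (nat_lit 0) (nat_lit 3598066878699) (nat_lit 152) (nat_lit 10044643234177) (nat_lit 0) (nat_lit 3598066878699) (nat_lit 1) (nat_lit 5) (nat_lit 3) (nat_lit 4) (nat_lit 1) (nat_lit 4) (nat_lit 272) (nat_lit 164) (nat_lit 164)) (XT.nd (nat_lit 78) (nat_lit 0) (nat_lit 0) (XT.lf (nat_lit 0) (nat_lit 8275636257895) (nat_lit 152) (nat_lit 23102508039800) (nat_lit 0) (nat_lit 8275628619693) (nat_lit 1) (nat_lit 5) (nat_lit 3) (nat_lit 4) (nat_lit 1) (nat_lit 4) (nat_lit 273) (nat_lit 164) (nat_lit 163)) (XT.lf (nat_lit 0) (nat_lit 9517056381498) (nat_lit 152) (nat_lit 26567727412473) (nat_lit 0) (nat_lit 9517042101382) (nat_lit 1) (nat_lit 5) (nat_lit 3) (nat_lit 4) (nat_lit 1) (nat_lit 4) (nat_lit 274) (nat_lit 164) (nat_lit 162)))) (XT.nd (nat_lit 30888) (nat_lit 0) (nat_lit 0)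 (XT.nd (nat_lit 78) (nat_lit 0) (nat_lit 0) (XT.lf (nat_lit 0) (nat_lit 10944682782801) (nat_lit 152) (nat_lit 30552742356709) (nat_lit 0) (nat_lit 10944662727108) (nat_lit 1) (nat_lit 5) (nat_lit 3) (nat_lit 4) (nat_lit 1) (nat_lit 4) (nat_lit 275) (nat_lit 164) (nat_lit 161)) (XT.lf (nat_lit 0) (nat_lit 12586447282700) (nat_lit 152) (nat_lit 35135520556200) (nat_lit 0) (nat_lit 12586422204764) (nat_lit 1) (nat_lit 5) (nat_lit 3) (nat_lit 4) (nat_lit 1) (nat_lit 4) (nat_lit 276) (nat_lit 164) (nat_lit 160))) (XT.nd (nat_lit 78) (nat_lit 0) (nat_lit 0) (XT.lf (nat_lit 0) (nat_lit 2720583548012) (nat_lit 152) (nat_lit 7595350205075) (nat_lit 0) (nat_lit 2720583548012) (nat_lit 1) (nat_lit 5) (nat_lit 3) (nat_lit 4) (nat_lit 1) (nat_lit 4) (nat_lit 270) (nat_lit 165) (nat_lit 165)) (XT.lf (nat_lit 0) (nat_lit 6257436962846) (nat_lit 152) (nat_lit 17469108363044) (nat_lit 0) (nat_lit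 6257428178914) (nat_lit 1) (nat_lit 5) (nat_lit 3) (nat_lit 4) (nat_lit 1) (nat_lit 4) (nat_lit 271) (nat_lit 165) (nat_lit 164))))) (XT.nd (nat_lit 312) (nat_lit 0) (nat_lit 0) (XT.nd (nat_lit 156) (nat_lit 0) (nat_lit 0) (XT.nd (nat_lit 78) (nat_lit 0) (nat_lit 0) (XT.lf (nat_lit 0) (nat_lit 7196138394930) (nat_lit 152) (nat_lit 20089294259210) (nat_lit 0) (nat_lit 7196121972797) (nat_lit 1) (nat_lit 5) (nat_lit 3) (nat_lit 4) (nat_lit 1) (nat_lit 4) (nat_lit 272) (nat_lit 165) (nat_lit 163)) (XT.lf (nat_lit 0) (nat_lit 8275637289860) (nat_lit 152) (nat_lit 23102522605311) (nat_lit 0) (nat_lit 8275614225812) (nat_lit 1) (nat_lit 5) (nat_lit 3) (nat_lit 4) (nat_lit 1) (nat_lit 4) (nat_lit 273) (nat_lit 165) (nat_lit 162))) (XT.nd (nat_lit 78) (nat_lit 0) (nat_lit 0) (XT.lf (nat_lit 0) (nat_lit 9517054278189) (nat_lit 152) (nat_lit 26567747868990) (nat_lit 0) (nat_lit 9517025438563)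 (nat_lit 1) (nat_lit 5) (nat_lit 3) (nat_lit 4) (nat_lit 1) (nat_lit 4) (nat_lit 274) (nat_lit 165) (nat_lit 161)) (XT.lf (nat_lit 0) (nat_lit 10944677953166) (nat_lit 152) (nat_lit 30552767935840) (nat_lit 0) (nat_lit 10944644091299) (nat_lit 1) (nat_lit 5) (nat_lit 3) (nat_lit 4) (nat_lit 1) (nat_lit 4) (nat_lit 275) (nat_lit 165) (nat_lit 160)))) (XT.nd (nat_lit 30732) (nat_lit 0) (nat_lit 0) (XT.nd (nat_lit 30654) (nat_lit 0) (nat_lit 0) (XT.lf (nat_lit 0) (nat_lit 12586440082346) (nat_lit 152) (nat_lit 35135550589777) (nat_lit 0) (nat_lit 12586401853312) (nat_lit 1) (nat_lit 5) (nat_lit 3) (nat_lit 4) (nat_lit 1) (nat_lit 4) (nat_lit 276) (nat_lit 165) (nat_lit 159)) (XT.lf (nat_lit 0) (nat_lit 2057069293830) (nat_lit 152) (nat_lit 5743356316760) (nat_lit 0) (nat_lit 2057069293830) (nat_lit 1) (nat_lit 5) (nat_lit 3) (nat_lit 4) (nat_lit 1) (nat_lit 4) (nat_lit 268) (nat_lit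 166) (nat_lit 166))) (XT.nd (nat_lit 78) (nat_lit 0) (nat_lit 0) (XT.lf (nat_lit 0) (nat_lit 4731368398590) (nat_lit 152) (nat_lit 13209492853625) (nat_lit 0) (nat_lit 4731358297069) (nat_lit 1) (nat_lit 5) (nat_lit 3) (nat_lit 4) (nat_lit 1) (nat_lit 4) (nat_lit 269) (nat_lit 166) (nat_lit 165)) (XT.lf (nat_lit 0) (nat_lit 5441172429184) (nat_lit 152) (nat_lit 15190709369634) (nat_lit 0) (nat_lit 5441153543731) (nat_lit 1) (nat_lit 5) (nat_lit 3) (nat_lit 4) (nat_lit 1) (nat_lit 4) (nat_lit 270) (nat_lit 166) (nat_lit 164))))))) (XT.nd (nat_lit 31278) (nat_lit 0) (nat_lit 0) (XT.nd (nat_lit 624) (nat_lit 0) (nat_lit 0) (XT.nd (nat_lit 234) (nat_lit 0) (nat_lit 0) (XT.nd (nat_lit 78) (nat_lit 0) (nat_lit 0) (XT.lf (nat_lit 0) (nat_lit 6257438149606) (nat_lit 152) (nat_lit 17469125113382) (nat_lit 0) (nat_lit 6257411625951) (nat_lit 1) (nat_lit 5) (nat_lit 3) (nat_lit 4) (nat_lit 1)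 (nat_lit 4) (nat_lit 271) (nat_lit 166) (nat_lit 163)) (XT.nd (nat_lit 78) (nat_lit 0) (nat_lit 0) (XT.lf (nat_lit 0) (nat_lit 7196135976124) (nat_lit 152) (nat_lit 20089317784204) (nat_lit 0) (nat_lit 7196102810555) (nat_lit 1) (nat_lit 5) (nat_lit 3) (nat_lit 4) (nat_lit 1) (nat_lit 4) (nat_lit 272) (nat_lit 166) (nat_lit 162)) (XT.lf (nat_lit 0) (nat_lit 8275631735779) (nat_lit 152) (nat_lit 23102552021311) (nat_lit 0) (nat_lit 8275592794632) (nat_lit 1) (nat_lit 5) (nat_lit 3) (nat_lit 4) (nat_lit 1) (nat_lit 4) (nat_lit 273) (nat_lit 166) (nat_lit 161)))) (XT.nd (nat_lit 234) (nat_lit 0) (nat_lit 0) (XT.nd (nat_lit 78) (nat_lit 0) (nat_lit 0) (XT.lf (nat_lit 0) (nat_lit 9517045997782) (nat_lit 152) (nat_lit 26567782407604) (nat_lit 0) (nat_lit 9517002034393) (nat_lit 1) (nat_lit 5) (nat_lit 3) (nat_lit 4) (nat_lit 1) (nat_lit 4) (nat_lit 274) (nat_lit 166) (nat_lit 160)) (XT.lf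 (nat_lit 0) (nat_lit 10944667302041) (nat_lit 152) (nat_lit 30552806928900) (nat_lit 0) (nat_lit 10944618971486) (nat_lit 1) (nat_lit 5) (nat_lit 3) (nat_lit 4) (nat_lit 1) (nat_lit 4) (nat_lit 275) (nat_lit 166) (nat_lit 159))) (XT.nd (nat_lit 78) (nat_lit 0) (nat_lit 0) (XT.lf (nat_lit 0) (nat_lit 14474447593469) (nat_lit 152) (nat_lit 40405805204378) (nat_lit 0) (nat_lit 14474392163172) (nat_lit 1) (nat_lit 5) (nat_lit 3) (nat_lit 4) (nat_lit 1) (nat_lit 4) (nat_lit 277) (nat_lit 166) (nat_lit 157)) (XT.lf (nat_lit 0) (nat_lit 16645667499382) (nat_lit 152) (nat_lit 46466555011774) (nat_lit 0) (nat_lit 16645609197603) (nat_lit 1) (nat_lit 5) (nat_lit 3) (nat_lit 4) (nat_lit 1) (nat_lit 4) (nat_lit 278) (nat_lit 166) (nat_lit 156))))) (XT.nd (nat_lit 30342) (nat_lit 0) (nat_lit 0) (XT.nd (nat_lit 156) (nat_lit 0) (nat_lit 0) (XT.nd (nat_lit 78) (nat_lit 0) (nat_lit 0) (XT.lf (nat_lit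 0) (nat_lit 19142567476932) (nat_lit 152) (nat_lit 53436422765996) (nat_lit 0) (nat_lit 19142506678210) (nat_lit 1) (nat_lit 5) (nat_lit 3) (nat_lit 4) (nat_lit 1) (nat_lit 4) (nat_lit 279) (nat_lit 166) (nat_lit 155)) (XT.lf (nat_lit 0) (nat_lit 22013999916982) (nat_lit 152) (nat_lit 61451775444842) (nat_lit 0) (nat_lit 22013936947007) (nat_lit 1) (nat_lit 5) (nat_lit 3) (nat_lit 4) (nat_lit 1) (nat_lit 4) (nat_lit 280) (nat_lit 166) (nat_lit 154))) (XT.nd (nat_lit 30108) (nat_lit 0) (nat_lit 0) (XT.lf (nat_lit 0) (nat_lit 25316145019446) (nat_lit 152) (nat_lit 70669435165943) (nat_lit 0) (nat_lit 25316080161425) (nat_lit 1) (nat_lit 5) (nat_lit 3) (nat_lit 4) (nat_lit 1) (nat_lit 4) (nat_lit 281) (nat_lit 166) (nat_lit 153)) (XT.lf (nat_lit 0) (nat_lit 1555344783266) (nat_lit 152) (nat_lit 4343009919982) (nat_lit 0) (nat_lit 1555344783266) (nat_lit 1) (nat_lit 5) (nat_lit 3) (nat_lit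 4) (nat_lit 1) (nat_lit 4) (nat_lit 266) (nat_lit 167) (nat_lit 167)))) (XT.nd (nat_lit 156) (nat_lit 0) (nat_lit 0) (XT.nd (nat_lit 78) (nat_lit 0) (nat_lit 0) (XT.lf (nat_lit 0) (nat_lit 3577418377712) (nat_lit 152) (nat_lit 9988662139797) (nat_lit 0) (nat_lit 3577406760962) (nat_lit 1) (nat_lit 5) (nat_lit 3) (nat_lit 4) (nat_lit 1) (nat_lit 4) (nat_lit 267) (nat_lit 167) (nat_lit 166)) (XT.lf (nat_lit 0) (nat_lit 4114144720795) (nat_lit 152) (nat_lit 11486722936927) (nat_lit 0) (nat_lit 4114123002523) (nat_lit 1) (nat_lit 5) (nat_lit 3) (nat_lit 4) (nat_lit 1) (nat_lit 4) (nat_lit 268) (nat_lit 167) (nat_lit 165))) (XT.nd (nat_lit 78) (nat_lit 0) (nat_lit 0) (XT.lf (nat_lit 0) (nat_lit 4731369763364) (nat_lit 152) (nat_lit 13209512116514) (nat_lit 0) (nat_lit 4731339261161) (nat_lit 1) (nat_lit 5) (nat_lit 3) (nat_lit 4) (nat_lit 1) (nat_lit 4) (nat_lit 269) (nat_lit 167) (nat_lit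 164)) (XT.lf (nat_lit 0) (nat_lit 5441169647558) (nat_lit 152) (nat_lit 15190736423378) (nat_lit 0) (nat_lit 5441131507153) (nat_lit 1) (nat_lit 5) (nat_lit 3) (nat_lit 4) (nat_lit 1) (nat_lit 4) (nat_lit 270) (nat_lit 167) (nat_lit 163)))))) (XT.nd (nat_lit 624) (nat_lit 0) (nat_lit 0) (XT.nd (nat_lit 234) (nat_lit 0) (nat_lit 0) (XT.nd (nat_lit 78) (nat_lit 0) (nat_lit 0) (XT.lf (nat_lit 0) (nat_lit 6257431762413) (nat_lit 152) (nat_lit 17469158941782) (nat_lit 0) (nat_lit 6257386980094) (nat_lit 1) (nat_lit 5) (nat_lit 3) (nat_lit 4) (nat_lit 1) (nat_lit 4) (nat_lit 271) (nat_lit 167) (nat_lit 162)) (XT.nd (nat_lit 78) (nat_lit 0) (nat_lit 0) (XT.lf (nat_lit 0) (nat_lit 7196126453656) (nat_lit 152) (nat_lit 20089357503610) (nat_lit 0) (nat_lit 7196075895759) (nat_lit 1) (nat_lit 5) (nat_lit 3) (nat_lit 4) (nat_lit 1) (nat_lit 4) (nat_lit 272) (nat_lit 167) (nat_lit 161)) (XT.lf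 (nat_lit 0) (nat_lit 8275619486986) (nat_lit 152) (nat_lit 23102596863331) (nat_lit 0) (nat_lit 8275563906847) (nat_lit 1) (nat_lit 5) (nat_lit 3) (nat_lit 4) (nat_lit 1) (nat_lit 4) (nat_lit 273) (nat_lit 167) (nat_lit 160)))) (XT.nd (nat_lit 234) (nat_lit 0) (nat_lit 0) (XT.nd (nat_lit 156) (nat_lit 0) (nat_lit 0) (XT.lf (nat_lit 0) (nat_lit 9517031378271) (nat_lit 152) (nat_lit 26567831704070) (nat_lit 0) (nat_lit 9516971430965) (nat_lit 1) (nat_lit 5) (nat_lit 3) (nat_lit 4) (nat_lit 1) (nat_lit 4) (nat_lit 274) (nat_lit 167) (nat_lit 159)) (XT.lf (nat_lit 0) (nat_lit 12586408896118) (nat_lit 152) (nat_lit 35135649994369) (nat_lit 0) (nat_lit 12586341849072) (nat_lit 1) (nat_lit 5) (nat_lit 3) (nat_lit 4) (nat_lit 1) (nat_lit 4) (nat_lit 276) (nat_lit 167) (nat_lit 157))) (XT.nd (nat_lit 78) (nat_lit 0) (nat_lit 0) (XT.lf (nat_lit 0) (nat_lit 14474427561074) (nat_lit 152) (nat_lit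 40405864671348) (nat_lit 0) (nat_lit 14474357642545) (nat_lit 1) (nat_lit 5) (nat_lit 3) (nat_lit 4) (nat_lit 1) (nat_lit 4) (nat_lit 277) (nat_lit 167) (nat_lit 156)) (XT.lf (nat_lit 0) (nat_lit 16645646111522) (nat_lit 152) (nat_lit 46466617025589) (nat_lit 0) (nat_lit 16645573696051) (nat_lit 1) (nat_lit 5) (nat_lit 3) (nat_lit 4) (nat_lit 1) (nat_lit 4) (nat_lit 278) (nat_lit 167) (nat_lit 155))))) (XT.nd (nat_lit 30186) (nat_lit 0) (nat_lit 0) (XT.nd (nat_lit 156) (nat_lit 0) (nat_lit 0) (XT.nd (nat_lit 78) (nat_lit 0) (nat_lit 0) (XT.lf (nat_lit 0) (nat_lit 19142544910405) (nat_lit 152) (nat_lit 53436486994458) (nat_lit 0) (nat_lit 19142470323681) (nat_lit 1) (nat_lit 5) (nat_lit 3) (nat_lit 4) (nat_lit 1) (nat_lit 4) (nat_lit 279) (nat_lit 167) (nat_lit 154)) (XT.lf (nat_lit 0) (nat_lit 22013976325528) (nat_lit 152) (nat_lit 61451841599084) (nat_lit 0) (nat_lit 22013899850757)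 (nat_lit 1) (nat_lit 5) (nat_lit 3) (nat_lit 4) (nat_lit 1) (nat_lit 4) (nat_lit 280) (nat_lit 167) (nat_lit 153))) (XT.nd (nat_lit 29952) (nat_lit 0) (nat_lit 0) (XT.lf (nat_lit 0) (nat_lit 25316120536752) (nat_lit 152) (nat_lit 70669502994776) (nat_lit 0) (nat_lit 25316042420201) (nat_lit 1) (nat_lit 5) (nat_lit 3) (nat_lit 4) (nat_lit 1) (nat_lit 4) (nat_lit 281) (nat_lit 167) (nat_lit 152)) (XT.lf (nat_lit 0) (nat_lit 1175954701408) (nat_lit 152) (nat_lit 3284177971842) (nat_lit 0) (nat_lit 1175954701408) (nat_lit 1) (nat_lit 5) (nat_lit 3) (nat_lit 4) (nat_lit 1) (nat_lit 4) (nat_lit 264) (nat_lit 168) (nat_lit 168)))) (XT.nd (nat_lit 156) (nat_lit 0) (nat_lit 0) (XT.nd (nat_lit 78) (nat_lit 0) (nat_lit 0) (XT.lf (nat_lit 0) (nat_lit 2704839995867) (nat_lit 152) (nat_lit 7553309557650) (nat_lit 0) (nat_lit 2704826636605) (nat_lit 1) (nat_lit 5) (nat_lit 3) (nat_lit 4) (nat_lit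 1) (nat_lit 4) (nat_lit 265) (nat_lit 168) (nat_lit 167)) (XT.lf (nat_lit 0) (nat_lit 3110696619638) (nat_lit 152) (nat_lit 8686031688881) (nat_lit 0) (nat_lit 3110671643626) (nat_lit 1) (nat_lit 5) (nat_lit 3) (nat_lit 4) (nat_lit 1) (nat_lit 4) (nat_lit 266) (nat_lit 168) (nat_lit 166))) (XT.nd (nat_lit 78) (nat_lit 0) (nat_lit 0) (XT.lf (nat_lit 0) (nat_lit 3577419947201) (nat_lit 152) (nat_lit 9988684292119) (nat_lit 0) (nat_lit 3577384869668) (nat_lit 1) (nat_lit 5) (nat_lit 3) (nat_lit 4) (nat_lit 1) (nat_lit 4) (nat_lit 267) (nat_lit 168) (nat_lit 165)) (XT.lf (nat_lit 0) (nat_lit 4114141521924) (nat_lit 152) (nat_lit 11486754048732) (nat_lit 0) (nat_lit 4114097660458) (nat_lit 1) (nat_lit 5) (nat_lit 3) (nat_lit 4) (nat_lit 1) (nat_lit 4) (nat_lit 268) (nat_lit 168) (nat_lit 164))))))))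
noncomputable def xc1 : XT := (XT.nd (nat_lit 62010) (nat_lit 0) (nat_lit 0) (XT.nd (nat_lit 31122) (nat_lit 0) (nat_lit 0) (XT.nd (nat_lit 780) (nat_lit 0) (nat_lit 0) (XT.nd (nat_lit 234) (nat_lit 0) (nat_lit 0) (XT.nd (nat_lit 78) (nat_lit 0) (nat_lit 0) (XT.lf (nat_lit 0) (nat_lit 4731362418092) (nat_lit 152) (nat_lit 13209551019174) (nat_lit 0) (nat_lit 4731310918425) (nat_lit 1) (nat_lit 5) (nat_lit 3) (nat_lit 4) (nat_lit 1) (nat_lit 4) (nat_lit 269) (nat_lit 168) (nat_lit 163)) (XT.nd (nat_lit 78) (nat_lit 0) (nat_lit 0) (XT.lf (nat_lit 0) (nat_lit 5441158696720) (nat_lit 152) (nat_lit 15190782100694) (nat_lit 0) (nat_lit 5441100555138) (nat_lit 1) (nat_lit 5) (nat_lit 3) (nat_lit 4) (nat_lit 1) (nat_lit 4) (nat_lit 270) (nat_lit 168) (nat_lit 162)) (XT.lf (nat_lit 0) (nat_lit 6257417676301) (nat_lit 152) (nat_lit 17469210510105) (nat_lit 0) (nat_lit 6257353759141) (nat_lit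 1) (nat_lit 5) (nat_lit 3) (nat_lit 4) (nat_lit 1) (nat_lit 4) (nat_lit 271) (nat_lit 168) (nat_lit 161)))) (XT.nd (nat_lit 390) (nat_lit 0) (nat_lit 0) (XT.nd (nat_lit 312) (nat_lit 0) (nat_lit 0) (XT.lf (nat_lit 0) (nat_lit 7196109641218) (nat_lit 152) (nat_lit 20089414194546) (nat_lit 0) (nat_lit 7196040701817) (nat_lit 1) (nat_lit 5) (nat_lit 3) (nat_lit 4) (nat_lit 1) (nat_lit 4) (nat_lit 272) (nat_lit 168) (nat_lit 160)) (XT.lf (nat_lit 0) (nat_lit 12586384300079) (nat_lit 152) (nat_lit 35135721310255) (nat_lit 0) (nat_lit 12586301022287) (nat_lit 1) (nat_lit 5) (nat_lit 3) (nat_lit 4) (nat_lit 1) (nat_lit 4) (nat_lit 276) (nat_lit 168) (nat_lit 156))) (XT.nd (nat_lit 78) (nat_lit 0) (nat_lit 0) (XT.lf (nat_lit 0) (nat_lit 14474401609569) (nat_lit 152) (nat_lit 40405938534079) (nat_lit 0) (nat_lit 14474315834836) (nat_lit 1) (nat_lit 5) (nat_lit 3) (nat_lit 4) (nat_lit 1) (nat_lit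 4) (nat_lit 277) (nat_lit 168) (nat_lit 155)) (XT.lf (nat_lit 0) (nat_lit 16645618981351) (nat_lit 152) (nat_lit 46466693102967) (nat_lit 0) (nat_lit 16645531035364) (nat_lit 1) (nat_lit 5) (nat_lit 3) (nat_lit 4) (nat_lit 1) (nat_lit 4) (nat_lit 278) (nat_lit 168) (nat_lit 154))))) (XT.nd (nat_lit 30030) (nat_lit 0) (nat_lit 0) (XT.nd (nat_lit 156) (nat_lit 0) (nat_lit 0) (XT.nd (nat_lit 78) (nat_lit 0) (nat_lit 0) (XT.lf (nat_lit 0) (nat_lit 19142516755307) (nat_lit 152) (nat_lit 53436564997616) (nat_lit 0) (nat_lit 19142426921274) (nat_lit 1) (nat_lit 5) (nat_lit 3) (nat_lit 4) (nat_lit 1) (nat_lit 4) (nat_lit 279) (nat_lit 168) (nat_lit 153)) (XT.lf (nat_lit 0) (nat_lit 22013947279190) (nat_lit 152) (nat_lit 61451921276834) (nat_lit 0) (nat_lit 22013855803376) (nat_lit 1) (nat_lit 5) (nat_lit 3) (nat_lit 4) (nat_lit 1) (nat_lit 4) (nat_lit 280) (nat_lit 168) (nat_lit 152))) (XT.nd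 (nat_lit 29796) (nat_lit 0) (nat_lit 0) (XT.lf (nat_lit 0) (nat_lit 25316090715422) (nat_lit 152) (nat_lit 70669584128692) (nat_lit 0) (nat_lit 25315997811974) (nat_lit 1) (nat_lit 5) (nat_lit 3) (nat_lit 4) (nat_lit 1) (nat_lit 4) (nat_lit 281) (nat_lit 168) (nat_lit 151)) (XT.lf (nat_lit 0) (nat_lit 889064882537) (nat_lit 152) (nat_lit 2483584678100) (nat_lit 0) (nat_lit 889064882537) (nat_lit 1) (nat_lit 5) (nat_lit 3) (nat_lit 4) (nat_lit 1) (nat_lit 4) (nat_lit 262) (nat_lit 169) (nat_lit 169)))) (XT.nd (nat_lit 156) (nat_lit 0) (nat_lit 0) (XT.nd (nat_lit 78) (nat_lit 0) (nat_lit 0) (XT.lf (nat_lit 0) (nat_lit 2045015039859) (nat_lit 152) (nat_lit 5711900015406) (nat_lit 0) (nat_lit 2044999676708) (nat_lit 1) (nat_lit 5) (nat_lit 3) (nat_lit 4) (nat_lit 1) (nat_lit 4) (nat_lit 263) (nat_lit 169) (nat_lit 168)) (XT.lf (nat_lit 0) (nat_lit 2351917513887) (nat_lit 152) (nat_lit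 6568369569938) (nat_lit 0) (nat_lit 2351888791473) (nat_lit 1) (nat_lit 5) (nat_lit 3) (nat_lit 4) (nat_lit 1) (nat_lit 4) (nat_lit 264) (nat_lit 169) (nat_lit 167))) (XT.nd (nat_lit 78) (nat_lit 0) (nat_lit 0) (XT.lf (nat_lit 0) (nat_lit 2704841800781) (nat_lit 152) (nat_lit 7553335032820) (nat_lit 0) (nat_lit 2704801461617) (nat_lit 1) (nat_lit 5) (nat_lit 3) (nat_lit 4) (nat_lit 1) (nat_lit 4) (nat_lit 265) (nat_lit 169) (nat_lit 166)) (XT.lf (nat_lit 0) (nat_lit 3110692940936) (nat_lit 152) (nat_lit 8686067467457) (nat_lit 0) (nat_lit 3110642500251) (nat_lit 1) (nat_lit 5) (nat_lit 3) (nat_lit 4) (nat_lit 1) (nat_lit 4) (nat_lit 266) (nat_lit 169) (nat_lit 165)))))) (XT.nd (nat_lit 702) (nat_lit 0) (nat_lit 0) (XT.nd (nat_lit 234) (nat_lit 0) (nat_lit 0) (XT.nd (nat_lit 78) (nat_lit 0) (nat_lit 0) (XT.lf (nat_lit 0) (nat_lit 3577411500139) (nat_lit 152) (nat_lit 9988729030179)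 (nat_lit 0) (nat_lit 3577352275522) (nat_lit 1) (nat_lit 5) (nat_lit 3) (nat_lit 4) (nat_lit 1) (nat_lit 4) (nat_lit 267) (nat_lit 169) (nat_lit 164)) (XT.nd (nat_lit 78) (nat_lit 0) (nat_lit 0) (XT.lf (nat_lit 0) (nat_lit 4114128928460) (nat_lit 152) (nat_lit 11486806577646) (nat_lit 0) (nat_lit 4114062065641) (nat_lit 1) (nat_lit 5) (nat_lit 3) (nat_lit 4) (nat_lit 1) (nat_lit 4) (nat_lit 268) (nat_lit 169) (nat_lit 163)) (XT.lf (nat_lit 0) (nat_lit 4731346219063) (nat_lit 152) (nat_lit 13209610322745) (nat_lit 0) (nat_lit 4731272714330) (nat_lit 1) (nat_lit 5) (nat_lit 3) (nat_lit 4) (nat_lit 1) (nat_lit 4) (nat_lit 269) (nat_lit 169) (nat_lit 162)))) (XT.nd (nat_lit 156) (nat_lit 0) (nat_lit 0) (XT.nd (nat_lit 78) (nat_lit 0) (nat_lit 0) (XT.lf (nat_lit 0) (nat_lit 5441139362416) (nat_lit 152) (nat_lit 15190847295271) (nat_lit 0) (nat_lit 5441060082105) (nat_lit 1) (nat_lit 5)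 (nat_lit 3) (nat_lit 4) (nat_lit 1) (nat_lit 4) (nat_lit 270) (nat_lit 169) (nat_lit 161)) (XT.lf (nat_lit 0) (nat_lit 6257395615671) (nat_lit 152) (nat_lit 17469280827294) (nat_lit 0) (nat_lit 6257311313118) (nat_lit 1) (nat_lit 5) (nat_lit 3) (nat_lit 4) (nat_lit 1) (nat_lit 4) (nat_lit 271) (nat_lit 169) (nat_lit 160))) (XT.nd (nat_lit 234) (nat_lit 0) (nat_lit 0) (XT.lf (nat_lit 0) (nat_lit 7196085209870) (nat_lit 152) (nat_lit 20089488966182) (nat_lit 0) (nat_lit 7195996540151) (nat_lit 1) (nat_lit 5) (nat_lit 3) (nat_lit 4) (nat_lit 1) (nat_lit 4) (nat_lit 272) (nat_lit 169) (nat_lit 159)) (XT.lf (nat_lit 0) (nat_lit 10944597739551) (nat_lit 152) (nat_lit 30553013427954) (nat_lit 0) (nat_lit 10944499098607) (nat_lit 1) (nat_lit 5) (nat_lit 3) (nat_lit 4) (nat_lit 1) (nat_lit 4) (nat_lit 275) (nat_lit 169) (nat_lit 156))))) (XT.nd (nat_lit 312) (nat_lit 0) (nat_lit 0) (XT.nd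 (nat_lit 156) (nat_lit 0) (nat_lit 0) (XT.nd (nat_lit 78) (nat_lit 0) (nat_lit 0) (XT.lf (nat_lit 0) (nat_lit 12586353100382) (nat_lit 152) (nat_lit 35135808799240) (nat_lit 0) (nat_lit 12586251962497) (nat_lit 1) (nat_lit 5) (nat_lit 3) (nat_lit 4) (nat_lit 1) (nat_lit 4) (nat_lit 276) (nat_lit 169) (nat_lit 155)) (XT.lf (nat_lit 0) (nat_lit 14474369231206) (nat_lit 152) (nat_lit 40406028237711) (nat_lit 0) (nat_lit 14474265922068) (nat_lit 1) (nat_lit 5) (nat_lit 3) (nat_lit 4) (nat_lit 1) (nat_lit 4) (nat_lit 277) (nat_lit 169) (nat_lit 154))) (XT.nd (nat_lit 78) (nat_lit 0) (nat_lit 0) (XT.lf (nat_lit 0) (nat_lit 16645585578061) (nat_lit 152) (nat_lit 46466784732379) (nat_lit 0) (nat_lit 16645480380876) (nat_lit 1) (nat_lit 5) (nat_lit 3) (nat_lit 4) (nat_lit 1) (nat_lit 4) (nat_lit 278) (nat_lit 169) (nat_lit 153)) (XT.lf (nat_lit 0) (nat_lit 19142482460777) (nat_lit 152) (nat_lit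 53436658301620) (nat_lit 0) (nat_lit 19142375621812) (nat_lit 1) (nat_lit 5) (nat_lit 3) (nat_lit 4) (nat_lit 1) (nat_lit 4) (nat_lit 279) (nat_lit 169) (nat_lit 152)))) (XT.nd (nat_lit 29718) (nat_lit 0) (nat_lit 0) (XT.nd (nat_lit 78) (nat_lit 0) (nat_lit 0) (XT.lf (nat_lit 0) (nat_lit 22013912209667) (nat_lit 152) (nat_lit 61452016037004) (nat_lit 0) (nat_lit 22013803943068) (nat_lit 1) (nat_lit 5) (nat_lit 3) (nat_lit 4) (nat_lit 1) (nat_lit 4) (nat_lit 280) (nat_lit 169) (nat_lit 151)) (XT.lf (nat_lit 0) (nat_lit 25316054971993) (nat_lit 152) (nat_lit 70669680155095) (nat_lit 0) (nat_lit 25315945463973) (nat_lit 1) (nat_lit 5) (nat_lit 3) (nat_lit 4) (nat_lit 1) (nat_lit 4) (nat_lit 281) (nat_lit 169) (nat_lit 150))) (XT.nd (nat_lit 78) (nat_lit 0) (nat_lit 0) (XT.lf (nat_lit 0) (nat_lit 672116090092) (nat_lit 152) (nat_lit 1878262274319) (nat_lit 0) (nat_lit 672116090092) (nat_lit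 1) (nat_lit 5) (nat_lit 3) (nat_lit 4) (nat_lit 1) (nat_lit 4) (nat_lit 260) (nat_lit 170) (nat_lit 170)) (XT.lf (nat_lit 0) (nat_lit 1546057688739) (nat_lit 152) (nat_lit 4319606775077) (nat_lit 0) (nat_lit 1546040021115) (nat_lit 1) (nat_lit 5) (nat_lit 3) (nat_lit 4) (nat_lit 1) (nat_lit 4) (nat_lit 261) (nat_lit 170) (nat_lit 169))))))) (XT.nd (nat_lit 1248) (nat_lit 0) (nat_lit 0) (XT.nd (nat_lit 546) (nat_lit 0) (nat_lit 0) (XT.nd (nat_lit 234) (nat_lit 0) (nat_lit 0) (XT.nd (nat_lit 78) (nat_lit 0) (nat_lit 0) (XT.lf (nat_lit 0) (nat_lit 1778139092807) (nat_lit 152) (nat_lit 4967185026393) (nat_lit 0) (nat_lit 1778106062030) (nat_lit 1) (nat_lit 5) (nat_lit 3) (nat_lit 4) (nat_lit 1) (nat_lit 4) (nat_lit 262) (nat_lit 170) (nat_lit 168)) (XT.nd (nat_lit 78) (nat_lit 0) (nat_lit 0) (XT.lf (nat_lit 0) (nat_lit 2045017115510) (nat_lit 152) (nat_lit 5711929311852) (nat_lit 0) (nat_lit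 2044970725471) (nat_lit 1) (nat_lit 5) (nat_lit 3) (nat_lit 4) (nat_lit 1) (nat_lit 4) (nat_lit 263) (nat_lit 170) (nat_lit 167)) (XT.lf (nat_lit 0) (nat_lit 2351913283380) (nat_lit 152) (nat_lit 6568410715301) (nat_lit 0) (nat_lit 2351855276592) (nat_lit 1) (nat_lit 5) (nat_lit 3) (nat_lit 4) (nat_lit 1) (nat_lit 4) (nat_lit 264) (nat_lit 170) (nat_lit 166)))) (XT.nd (nat_lit 156) (nat_lit 0) (nat_lit 0) (XT.nd (nat_lit 78) (nat_lit 0) (nat_lit 0) (XT.lf (nat_lit 0) (nat_lit 2704832086659) (nat_lit 152) (nat_lit 7553386481589) (nat_lit 0) (nat_lit 2704763978349) (nat_lit 1) (nat_lit 5) (nat_lit 3) (nat_lit 4) (nat_lit 1) (nat_lit 4) (nat_lit 265) (nat_lit 170) (nat_lit 165)) (XT.lf (nat_lit 0) (nat_lit 3110678458453) (nat_lit 152) (nat_lit 8686127875709) (nat_lit 0) (nat_lit 3110601566212) (nat_lit 1) (nat_lit 5) (nat_lit 3) (nat_lit 4) (nat_lit 1) (nat_lit 4) (nat_lit 266) (nat_lit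 170) (nat_lit 164))) (XT.nd (nat_lit 78) (nat_lit 0) (nat_lit 0) (XT.lf (nat_lit 0) (nat_lit 3577392871255) (nat_lit 152) (nat_lit 9988797229285) (nat_lit 0) (nat_lit 3577308340812) (nat_lit 1) (nat_lit 5) (nat_lit 3) (nat_lit 4) (nat_lit 1) (nat_lit 4) (nat_lit 267) (nat_lit 170) (nat_lit 163)) (XT.lf (nat_lit 0) (nat_lit 4114106694011) (nat_lit 152) (nat_lit 11486881551409) (nat_lit 0) (nat_lit 4114015521653) (nat_lit 1) (nat_lit 5) (nat_lit 3) (nat_lit 4) (nat_lit 1) (nat_lit 4) (nat_lit 268) (nat_lit 170) (nat_lit 162))))) (XT.nd (nat_lit 312) (nat_lit 0) (nat_lit 0) (XT.nd (nat_lit 156) (nat_lit 0) (nat_lit 0) (XT.nd (nat_lit 78) (nat_lit 0) (nat_lit 0) (XT.lf (nat_lit 0) (nat_lit 4731320849339) (nat_lit 152) (nat_lit 13209691187513) (nat_lit 0) (nat_lit 4731223901404) (nat_lit 1) (nat_lit 5) (nat_lit 3) (nat_lit 4) (nat_lit 1) (nat_lit 4) (nat_lit 269) (nat_lit 170) (nat_lit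 161)) (XT.lf (nat_lit 0) (nat_lit 5441111266366) (nat_lit 152) (nat_lit 15190933282652) (nat_lit 0) (nat_lit 5441009296189) (nat_lit 1) (nat_lit 5) (nat_lit 3) (nat_lit 4) (nat_lit 1) (nat_lit 4) (nat_lit 270) (nat_lit 170) (nat_lit 160))) (XT.nd (nat_lit 78) (nat_lit 0) (nat_lit 0) (XT.lf (nat_lit 0) (nat_lit 6257365148903) (nat_lit 152) (nat_lit 17469371269123) (nat_lit 0) (nat_lit 6257258811559) (nat_lit 1) (nat_lit 5) (nat_lit 3) (nat_lit 4) (nat_lit 1) (nat_lit 4) (nat_lit 271) (nat_lit 170) (nat_lit 159)) (XT.lf (nat_lit 0) (nat_lit 7196052681608) (nat_lit 152) (nat_lit 20089583281442) (nat_lit 0) (nat_lit 7195942546728) (nat_lit 1) (nat_lit 5) (nat_lit 3) (nat_lit 4) (nat_lit 1) (nat_lit 4) (nat_lit 272) (nat_lit 170) (nat_lit 158)))) (XT.nd (nat_lit 234) (nat_lit 0) (nat_lit 0) (XT.nd (nat_lit 156) (nat_lit 0) (nat_lit 0) (XT.lf (nat_lit 0) (nat_lit 8275539490122) (nat_lit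 152) (nat_lit 23102834337243) (nat_lit 0) (nat_lit 8275426053037) (nat_lit 1) (nat_lit 5) (nat_lit 3) (nat_lit 4) (nat_lit 1) (nat_lit 4) (nat_lit 273) (nat_lit 170) (nat_lit 157)) (XT.lf (nat_lit 0) (nat_lit 10944560504434) (nat_lit 152) (nat_lit 30553116587131) (nat_lit 0) (nat_lit 10944441698924) (nat_lit 1) (nat_lit 5) (nat_lit 3) (nat_lit 4) (nat_lit 1) (nat_lit 4) (nat_lit 275) (nat_lit 170) (nat_lit 155))) (XT.nd (nat_lit 78) (nat_lit 0) (nat_lit 0) (XT.lf (nat_lit 0) (nat_lit 12586314686599) (nat_lit 152) (nat_lit 35135914173065) (nat_lit 0) (nat_lit 12586193709836) (nat_lit 1) (nat_lit 5) (nat_lit 3) (nat_lit 4) (nat_lit 1) (nat_lit 4) (nat_lit 276) (nat_lit 170) (nat_lit 154)) (XT.lf (nat_lit 0) (nat_lit 14474329792496) (nat_lit 152) (nat_lit 40406135537315) (nat_lit 0) (nat_lit 14474206927687) (nat_lit 1) (nat_lit 5) (nat_lit 3) (nat_lit 4) (nat_lit 1) (nat_lit 4) (nat_lit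 277) (nat_lit 170) (nat_lit 153)))))) (XT.nd (nat_lit 30030) (nat_lit 0) (nat_lit 0) (XT.nd (nat_lit 29718) (nat_lit 0) (nat_lit 0) (XT.nd (nat_lit 78) (nat_lit 0) (nat_lit 0) (XT.lf (nat_lit 0) (nat_lit 16645545248111) (nat_lit 152) (nat_lit 46466893706575) (nat_lit 0) (nat_lit 16645420741521) (nat_lit 1) (nat_lit 5) (nat_lit 3) (nat_lit 4) (nat_lit 1) (nat_lit 4) (nat_lit 278) (nat_lit 170) (nat_lit 152)) (XT.nd (nat_lit 78) (nat_lit 0) (nat_lit 0) (XT.lf (nat_lit 0) (nat_lit 19142441355834) (nat_lit 152) (nat_lit 53436768731982) (nat_lit 0) (nat_lit 19142315421611) (nat_lit 1) (nat_lit 5) (nat_lit 3) (nat_lit 4) (nat_lit 1) (nat_lit 4) (nat_lit 279) (nat_lit 170) (nat_lit 151)) (XT.lf (nat_lit 0) (nat_lit 22013870430819) (nat_lit 152) (nat_lit 61452127733598) (nat_lit 0) (nat_lit 22013743255173) (nat_lit 1) (nat_lit 5) (nat_lit 3) (nat_lit 4) (nat_lit 1) (nat_lit 4) (nat_lit 280)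 (nat_lit 170) (nat_lit 150)))) (XT.nd (nat_lit 156) (nat_lit 0) (nat_lit 0) (XT.nd (nat_lit 78) (nat_lit 0) (nat_lit 0) (XT.lf (nat_lit 0) (nat_lit 508049930959) (nat_lit 152) (nat_lit 1420598889195) (nat_lit 0) (nat_lit 508049930959) (nat_lit 1) (nat_lit 5) (nat_lit 3) (nat_lit 4) (nat_lit 1) (nat_lit 4) (nat_lit 258) (nat_lit 171) (nat_lit 171)) (XT.lf (nat_lit 0) (nat_lit 1168734124962) (nat_lit 152) (nat_lit 3266921520911) (nat_lit 0) (nat_lit 1168713807194) (nat_lit 1) (nat_lit 5) (nat_lit 3) (nat_lit 4) (nat_lit 1) (nat_lit 4) (nat_lit 259) (nat_lit 171) (nat_lit 170))) (XT.nd (nat_lit 78) (nat_lit 0) (nat_lit 0) (XT.lf (nat_lit 0) (nat_lit 1344242907076) (nat_lit 152) (nat_lit 3756542569360) (nat_lit 0) (nat_lit 1344204921684) (nat_lit 1) (nat_lit 5) (nat_lit 3) (nat_lit 4) (nat_lit 1) (nat_lit 4) (nat_lit 260) (nat_lit 171) (nat_lit 169)) (XT.lf (nat_lit 0) (nat_lit 1546060075737)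 (nat_lit 152) (nat_lit 4319640465990) (nat_lit 0) (nat_lit 1546006727193) (nat_lit 1) (nat_lit 5) (nat_lit 3) (nat_lit 4) (nat_lit 1) (nat_lit 4) (nat_lit 261) (nat_lit 171) (nat_lit 168))))) (XT.nd (nat_lit 312) (nat_lit 0) (nat_lit 0) (XT.nd (nat_lit 156) (nat_lit 0) (nat_lit 0) (XT.nd (nat_lit 78) (nat_lit 0) (nat_lit 0) (XT.lf (nat_lit 0) (nat_lit 1778134227724) (nat_lit 152) (nat_lit 4967232343559) (nat_lit 0) (nat_lit 1778067519917) (nat_lit 1) (nat_lit 5) (nat_lit 3) (nat_lit 4) (nat_lit 1) (nat_lit 4) (nat_lit 262) (nat_lit 171) (nat_lit 167)) (XT.lf (nat_lit 0) (nat_lit 2045005944270) (nat_lit 152) (nat_lit 5711988477935) (nat_lit 0) (nat_lit 2044927619713) (nat_lit 1) (nat_lit 5) (nat_lit 3) (nat_lit 4) (nat_lit 1) (nat_lit 4) (nat_lit 263) (nat_lit 171) (nat_lit 166))) (XT.nd (nat_lit 78) (nat_lit 0) (nat_lit 0) (XT.lf (nat_lit 0) (nat_lit 2351896628525) (nat_lit 152) (nat_lit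 6568480184789) (nat_lit 0) (nat_lit 2351808202447) (nat_lit 1) (nat_lit 5) (nat_lit 3) (nat_lit 4) (nat_lit 1) (nat_lit 4) (nat_lit 264) (nat_lit 171) (nat_lit 165)) (XT.lf (nat_lit 0) (nat_lit 2704810663443) (nat_lit 152) (nat_lit 7553464910561) (nat_lit 0) (nat_lit 2704713453433) (nat_lit 1) (nat_lit 5) (nat_lit 3) (nat_lit 4) (nat_lit 1) (nat_lit 4) (nat_lit 265) (nat_lit 171) (nat_lit 164)))) (XT.nd (nat_lit 156) (nat_lit 0) (nat_lit 0) (XT.nd (nat_lit 78) (nat_lit 0) (nat_lit 0) (XT.lf (nat_lit 0) (nat_lit 3110652888836) (nat_lit 152) (nat_lit 8686214095536) (nat_lit 0) (nat_lit 3110548040625) (nat_lit 1) (nat_lit 5) (nat_lit 3) (nat_lit 4) (nat_lit 1) (nat_lit 4) (nat_lit 266) (nat_lit 171) (nat_lit 163)) (XT.lf (nat_lit 0) (nat_lit 3577363696072) (nat_lit 152) (nat_lit 9988890223768) (nat_lit 0) (nat_lit 3577252205947) (nat_lit 1) (nat_lit 5) (nat_lit 3) (nat_lit 4) (nat_lit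 1) (nat_lit 4) (nat_lit 267) (nat_lit 171) (nat_lit 162))) (XT.nd (nat_lit 78) (nat_lit 0) (nat_lit 0) (XT.lf (nat_lit 0) (nat_lit 4114074383553) (nat_lit 152) (nat_lit 11486980436898) (nat_lit 0) (nat_lit 4113957117850) (nat_lit 1) (nat_lit 5) (nat_lit 3) (nat_lit 4) (nat_lit 1) (nat_lit 4) (nat_lit 268) (nat_lit 171) (nat_lit 161)) (XT.lf (nat_lit 0) (nat_lit 4731285812555) (nat_lit 152) (nat_lit 13209795195616) (nat_lit 0) (nat_lit 4731163524610) (nat_lit 1) (nat_lit 5) (nat_lit 3) (nat_lit 4) (nat_lit 1) (nat_lit 4) (nat_lit 269) (nat_lit 171) (nat_lit 160))))))))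
noncomputable def xc2 : XT := (XT.nd (nat_lit 61308) (nat_lit 0) (nat_lit 0) (XT.nd (nat_lit 30654) (nat_lit 0) (nat_lit 0) (XT.nd (nat_lit 624) (nat_lit 0) (nat_lit 0) (XT.nd (nat_lit 234) (nat_lit 0) (nat_lit 0) (XT.nd (nat_lit 78) (nat_lit 0) (nat_lit 0) (XT.lf (nat_lit 0) (nat_lit 5441073858864) (nat_lit 152) (nat_lit 15191041745202) (nat_lit 0) (nat_lit 5440947203753) (nat_lit 1) (nat_lit 5) (nat_lit 3) (nat_lit 4) (nat_lit 1) (nat_lit 4) (nat_lit 270) (nat_lit 171) (nat_lit 159)) (XT.nd (nat_lit 78) (nat_lit 0) (nat_lit 0) (XT.lf (nat_lit 0) (nat_lit 6257325679907) (nat_lit 152) (nat_lit 17469483605104) (nat_lit 0) (nat_lit 6257195227259) (nat_lit 1) (nat_lit 5) (nat_lit 3) (nat_lit 4) (nat_lit 1) (nat_lit 4) (nat_lit 271) (nat_lit 171) (nat_lit 158)) (XT.lf (nat_lit 0) (nat_lit 7196011420009) (nat_lit 152) (nat_lit 20089698985625) (nat_lit 0) (nat_lit 7195877665156) (nat_lit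 1) (nat_lit 5) (nat_lit 3) (nat_lit 4) (nat_lit 1) (nat_lit 4) (nat_lit 272) (nat_lit 171) (nat_lit 157)))) (XT.nd (nat_lit 234) (nat_lit 0) (nat_lit 0) (XT.nd (nat_lit 156) (nat_lit 0) (nat_lit 0) (XT.lf (nat_lit 0) (nat_lit 8275496669737) (nat_lit 152) (nat_lit 23102952970297) (nat_lit 0) (nat_lit 8275360043401) (nat_lit 1) (nat_lit 5) (nat_lit 3) (nat_lit 4) (nat_lit 1) (nat_lit 4) (nat_lit 273) (nat_lit 171) (nat_lit 156)) (XT.lf (nat_lit 0) (nat_lit 10944515149917) (nat_lit 152) (nat_lit 30553239981676) (nat_lit 0) (nat_lit 10944373855386) (nat_lit 1) (nat_lit 5) (nat_lit 3) (nat_lit 4) (nat_lit 1) (nat_lit 4) (nat_lit 275) (nat_lit 171) (nat_lit 154))) (XT.nd (nat_lit 78) (nat_lit 0) (nat_lit 0) (XT.lf (nat_lit 0) (nat_lit 12586268307156) (nat_lit 152) (nat_lit 35136039493390) (nat_lit 0) (nat_lit 12586125124578) (nat_lit 1) (nat_lit 5) (nat_lit 3) (nat_lit 4) (nat_lit 1) (nat_lit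 4) (nat_lit 276) (nat_lit 171) (nat_lit 153)) (XT.lf (nat_lit 0) (nat_lit 14474282521812) (nat_lit 152) (nat_lit 40406262532232) (nat_lit 0) (nat_lit 14474137697455) (nat_lit 1) (nat_lit 5) (nat_lit 3) (nat_lit 4) (nat_lit 1) (nat_lit 4) (nat_lit 277) (nat_lit 171) (nat_lit 152))))) (XT.nd (nat_lit 29718) (nat_lit 0) (nat_lit 0) (XT.nd (nat_lit 29562) (nat_lit 0) (nat_lit 0) (XT.nd (nat_lit 78) (nat_lit 0) (nat_lit 0) (XT.lf (nat_lit 0) (nat_lit 16645497202435) (nat_lit 152) (nat_lit 46467022157658) (nat_lit 0) (nat_lit 16645350950443) (nat_lit 1) (nat_lit 5) (nat_lit 3) (nat_lit 4) (nat_lit 1) (nat_lit 4) (nat_lit 278) (nat_lit 171) (nat_lit 151)) (XT.lf (nat_lit 0) (nat_lit 19142392636252) (nat_lit 152) (nat_lit 53436898449297) (nat_lit 0) (nat_lit 19142245142839) (nat_lit 1) (nat_lit 5) (nat_lit 3) (nat_lit 4) (nat_lit 1) (nat_lit 4) (nat_lit 279) (nat_lit 171) (nat_lit 150)))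 (XT.nd (nat_lit 78) (nat_lit 0) (nat_lit 0) (XT.lf (nat_lit 0) (nat_lit 383967384575) (nat_lit 152) (nat_lit 1074594033521) (nat_lit 0) (nat_lit 383967384575) (nat_lit 1) (nat_lit 5) (nat_lit 3) (nat_lit 4) (nat_lit 1) (nat_lit 4) (nat_lit 256) (nat_lit 172) (nat_lit 172)) (XT.lf (nat_lit 0) (nat_lit 883377160843) (nat_lit 152) (nat_lit 2471041964225) (nat_lit 0) (nat_lit 883353795409) (nat_lit 1) (nat_lit 5) (nat_lit 3) (nat_lit 4) (nat_lit 1) (nat_lit 4) (nat_lit 257) (nat_lit 172) (nat_lit 171)))) (XT.nd (nat_lit 156) (nat_lit 0) (nat_lit 0) (XT.nd (nat_lit 78) (nat_lit 0) (nat_lit 0) (XT.lf (nat_lit 0) (nat_lit 1016112197844) (nat_lit 152) (nat_lit 2841218502219) (nat_lit 0) (nat_lit 1016068514643) (nat_lit 1) (nat_lit 5) (nat_lit 3) (nat_lit 4) (nat_lit 1) (nat_lit 4) (nat_lit 258) (nat_lit 172) (nat_lit 170)) (XT.lf (nat_lit 0) (nat_lit 1168736870010) (nat_lit 152) (nat_lit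 3266960265461) (nat_lit 0) (nat_lit 1168675519184) (nat_lit 1) (nat_lit 5) (nat_lit 3) (nat_lit 4) (nat_lit 1) (nat_lit 4) (nat_lit 259) (nat_lit 172) (nat_lit 169))) (XT.nd (nat_lit 78) (nat_lit 0) (nat_lit 0) (XT.lf (nat_lit 0) (nat_lit 1344237312231) (nat_lit 152) (nat_lit 3756596984102) (nat_lit 0) (nat_lit 1344160598254) (nat_lit 1) (nat_lit 5) (nat_lit 3) (nat_lit 4) (nat_lit 1) (nat_lit 4) (nat_lit 260) (nat_lit 172) (nat_lit 168)) (XT.lf (nat_lit 0) (nat_lit 1546047228811) (nat_lit 152) (nat_lit 4319708506985) (nat_lit 0) (nat_lit 1545957155571) (nat_lit 1) (nat_lit 5) (nat_lit 3) (nat_lit 4) (nat_lit 1) (nat_lit 4) (nat_lit 261) (nat_lit 172) (nat_lit 167)))))) (XT.nd (nat_lit 546) (nat_lit 0) (nat_lit 0) (XT.nd (nat_lit 234) (nat_lit 0) (nat_lit 0) (XT.nd (nat_lit 78) (nat_lit 0) (nat_lit 0) (XT.lf (nat_lit 0) (nat_lit 1778115074640) (nat_lit 152) (nat_lit 4967312233472)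 (nat_lit 0) (nat_lit 1778013384651) (nat_lit 1) (nat_lit 5) (nat_lit 3) (nat_lit 4) (nat_lit 1) (nat_lit 4) (nat_lit 262) (nat_lit 172) (nat_lit 166)) (XT.nd (nat_lit 78) (nat_lit 0) (nat_lit 0) (XT.lf (nat_lit 0) (nat_lit 2044981307571) (nat_lit 152) (nat_lit 5712078671253) (nat_lit 0) (nat_lit 2044869516060) (nat_lit 1) (nat_lit 5) (nat_lit 3) (nat_lit 4) (nat_lit 1) (nat_lit 4) (nat_lit 263) (nat_lit 172) (nat_lit 165)) (XT.lf (nat_lit 0) (nat_lit 2351867223465) (nat_lit 152) (nat_lit 6568579337590) (nat_lit 0) (nat_lit 2351746648022) (nat_lit 1) (nat_lit 5) (nat_lit 3) (nat_lit 4) (nat_lit 1) (nat_lit 4) (nat_lit 264) (nat_lit 172) (nat_lit 164)))) (XT.nd (nat_lit 156) (nat_lit 0) (nat_lit 0) (XT.nd (nat_lit 78) (nat_lit 0) (nat_lit 0) (XT.lf (nat_lit 0) (nat_lit 2704777111982) (nat_lit 152) (nat_lit 7553571854217) (nat_lit 0) (nat_lit 2704648898338) (nat_lit 1) (nat_lit 5) (nat_lit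 3) (nat_lit 4) (nat_lit 1) (nat_lit 4) (nat_lit 265) (nat_lit 172) (nat_lit 163)) (XT.lf (nat_lit 0) (nat_lit 3110615731810) (nat_lit 152) (nat_lit 8686327813848) (nat_lit 0) (nat_lit 3110480876251) (nat_lit 1) (nat_lit 5) (nat_lit 3) (nat_lit 4) (nat_lit 1) (nat_lit 4) (nat_lit 266) (nat_lit 172) (nat_lit 162))) (XT.nd (nat_lit 78) (nat_lit 0) (nat_lit 0) (XT.lf (nat_lit 0) (nat_lit 3577323403771) (nat_lit 152) (nat_lit 9989009833086) (nat_lit 0) (nat_lit 3577182772635) (nat_lit 1) (nat_lit 5) (nat_lit 3) (nat_lit 4) (nat_lit 1) (nat_lit 4) (nat_lit 267) (nat_lit 172) (nat_lit 161)) (XT.lf (nat_lit 0) (nat_lit 4114031364926) (nat_lit 152) (nat_lit 11487105168829) (nat_lit 0) (nat_lit 4113885711548) (nat_lit 1) (nat_lit 5) (nat_lit 3) (nat_lit 4) (nat_lit 1) (nat_lit 4) (nat_lit 268) (nat_lit 172) (nat_lit 160))))) (XT.nd (nat_lit 312) (nat_lit 0) (nat_lit 0) (XT.nd (nat_lit 156)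 (nat_lit 0) (nat_lit 0) (XT.nd (nat_lit 78) (nat_lit 0) (nat_lit 0) (XT.lf (nat_lit 0) (nat_lit 4731240423210) (nat_lit 152) (nat_lit 13209924381994) (nat_lit 0) (nat_lit 4731090402666) (nat_lit 1) (nat_lit 5) (nat_lit 3) (nat_lit 4) (nat_lit 1) (nat_lit 4) (nat_lit 269) (nat_lit 172) (nat_lit 159)) (XT.lf (nat_lit 0) (nat_lit 5441026408025) (nat_lit 152) (nat_lit 15191174805012) (nat_lit 0) (nat_lit 5440872589944) (nat_lit 1) (nat_lit 5) (nat_lit 3) (nat_lit 4) (nat_lit 1) (nat_lit 4) (nat_lit 270) (nat_lit 172) (nat_lit 158))) (XT.nd (nat_lit 78) (nat_lit 0) (nat_lit 0) (XT.lf (nat_lit 0) (nat_lit 6257276436465) (nat_lit 152) (nat_lit 17469620033115) (nat_lit 0) (nat_lit 6257119316178) (nat_lit 1) (nat_lit 5) (nat_lit 3) (nat_lit 4) (nat_lit 1) (nat_lit 4) (nat_lit 271) (nat_lit 172) (nat_lit 157)) (XT.lf (nat_lit 0) (nat_lit 7195960617781) (nat_lit 152) (nat_lit 20089838342507)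 (nat_lit 0) (nat_lit 7195800626012) (nat_lit 1) (nat_lit 5) (nat_lit 3) (nat_lit 4) (nat_lit 1) (nat_lit 4) (nat_lit 272) (nat_lit 172) (nat_lit 156)))) (XT.nd (nat_lit 312) (nat_lit 0) (nat_lit 0) (XT.nd (nat_lit 234) (nat_lit 0) (nat_lit 0) (XT.lf (nat_lit 0) (nat_lit 8275444512043) (nat_lit 152) (nat_lit 23103094874023) (nat_lit 0) (nat_lit 8275282023332) (nat_lit 1) (nat_lit 5) (nat_lit 3) (nat_lit 4) (nat_lit 1) (nat_lit 4) (nat_lit 273) (nat_lit 172) (nat_lit 155)) (XT.lf (nat_lit 0) (nat_lit 12586213054628) (nat_lit 152) (nat_lit 35136187212136) (nat_lit 0) (nat_lit 12586044864838) (nat_lit 1) (nat_lit 5) (nat_lit 3) (nat_lit 4) (nat_lit 1) (nat_lit 4) (nat_lit 276) (nat_lit 172) (nat_lit 152))) (XT.nd (nat_lit 78) (nat_lit 0) (nat_lit 0) (XT.lf (nat_lit 0) (nat_lit 14474226494293) (nat_lit 152) (nat_lit 40406411707144) (nat_lit 0) (nat_lit 14474056876868) (nat_lit 1) (nat_lit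 5) (nat_lit 3) (nat_lit 4) (nat_lit 1) (nat_lit 4) (nat_lit 277) (nat_lit 172) (nat_lit 151)) (XT.lf (nat_lit 0) (nat_lit 16645440501009) (nat_lit 152) (nat_lit 46467172598802) (nat_lit 0) (nat_lit 16645269642163) (nat_lit 1) (nat_lit 5) (nat_lit 3) (nat_lit 4) (nat_lit 1) (nat_lit 4) (nat_lit 278) (nat_lit 172) (nat_lit 150))))))) (XT.nd (nat_lit 1170) (nat_lit 0) (nat_lit 0) (XT.nd (nat_lit 546) (nat_lit 0) (nat_lit 0) (XT.nd (nat_lit 234) (nat_lit 0) (nat_lit 0) (XT.nd (nat_lit 78) (nat_lit 0) (nat_lit 0) (XT.lf (nat_lit 0) (nat_lit 290114449897) (nat_lit 152) (nat_lit 813027230002) (nat_lit 0) (nat_lit 290114449897) (nat_lit 1) (nat_lit 5) (nat_lit 3) (nat_lit 4) (nat_lit 1) (nat_lit 4) (nat_lit 254) (nat_lit 173) (nat_lit 173)) (XT.nd (nat_lit 78) (nat_lit 0) (nat_lit 0) (XT.lf (nat_lit 0) (nat_lit 667553237529) (nat_lit 152) (nat_lit 1869359669201) (nat_lit 0) (nat_lit 667526367281)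 (nat_lit 1) (nat_lit 5) (nat_lit 3) (nat_lit 4) (nat_lit 1) (nat_lit 4) (nat_lit 255) (nat_lit 173) (nat_lit 172)) (XT.lf (nat_lit 0) (nat_lit 767948955465) (nat_lit 152) (nat_lit 2149211899445) (nat_lit 0) (nat_lit 767898719783) (nat_lit 1) (nat_lit 5) (nat_lit 3) (nat_lit 4) (nat_lit 1) (nat_lit 4) (nat_lit 256) (nat_lit 173) (nat_lit 171)))) (XT.nd (nat_lit 156) (nat_lit 0) (nat_lit 0) (XT.nd (nat_lit 78) (nat_lit 0) (nat_lit 0) (XT.lf (nat_lit 0) (nat_lit 883380317647) (nat_lit 152) (nat_lit 2471086520458) (nat_lit 0) (nat_lit 883309764198) (nat_lit 1) (nat_lit 5) (nat_lit 3) (nat_lit 4) (nat_lit 1) (nat_lit 4) (nat_lit 257) (nat_lit 173) (nat_lit 170)) (XT.lf (nat_lit 0) (nat_lit 1016105763772) (nat_lit 152) (nat_lit 2841281079172) (nat_lit 0) (nat_lit 1016017542698) (nat_lit 1) (nat_lit 5) (nat_lit 3) (nat_lit 4) (nat_lit 1) (nat_lit 4) (nat_lit 258) (nat_lit 173) (nat_lit 169)))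 (XT.nd (nat_lit 78) (nat_lit 0) (nat_lit 0) (XT.lf (nat_lit 0) (nat_lit 1168722096045) (nat_lit 152) (nat_lit 3267038512606) (nat_lit 0) (nat_lit 1168618511819) (nat_lit 1) (nat_lit 5) (nat_lit 3) (nat_lit 4) (nat_lit 1) (nat_lit 4) (nat_lit 259) (nat_lit 173) (nat_lit 168)) (XT.lf (nat_lit 0) (nat_lit 1344215286185) (nat_lit 152) (nat_lit 3756688857501) (nat_lit 0) (nat_lit 1344098342697) (nat_lit 1) (nat_lit 5) (nat_lit 3) (nat_lit 4) (nat_lit 1) (nat_lit 4) (nat_lit 260) (nat_lit 173) (nat_lit 167))))) (XT.nd (nat_lit 312) (nat_lit 0) (nat_lit 0) (XT.nd (nat_lit 156) (nat_lit 0) (nat_lit 0) (XT.nd (nat_lit 78) (nat_lit 0) (nat_lit 0) (XT.lf (nat_lit 0) (nat_lit 1546018896608) (nat_lit 152) (nat_lit 4319812229301) (nat_lit 0) (nat_lit 1545890336370) (nat_lit 1) (nat_lit 5) (nat_lit 3) (nat_lit 4) (nat_lit 1) (nat_lit 4) (nat_lit 261) (nat_lit 173) (nat_lit 166)) (XT.lf (nat_lit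 0) (nat_lit 1778081258822) (nat_lit 152) (nat_lit 4967426259193) (nat_lit 0) (nat_lit 1777942597062) (nat_lit 1) (nat_lit 5) (nat_lit 3) (nat_lit 4) (nat_lit 1) (nat_lit 4) (nat_lit 262) (nat_lit 173) (nat_lit 165))) (XT.nd (nat_lit 78) (nat_lit 0) (nat_lit 0) (XT.lf (nat_lit 0) (nat_lit 2044942723391) (nat_lit 152) (nat_lit 5712201656457) (nat_lit 0) (nat_lit 2044795277700) (nat_lit 1) (nat_lit 5) (nat_lit 3) (nat_lit 4) (nat_lit 1) (nat_lit 4) (nat_lit 263) (nat_lit 173) (nat_lit 164)) (XT.lf (nat_lit 0) (nat_lit 2351824492885) (nat_lit 152) (nat_lit 6568710113650) (nat_lit 0) (nat_lit 2351669408992) (nat_lit 1) (nat_lit 5) (nat_lit 3) (nat_lit 4) (nat_lit 1) (nat_lit 4) (nat_lit 264) (nat_lit 173) (nat_lit 163)))) (XT.nd (nat_lit 156) (nat_lit 0) (nat_lit 0) (XT.nd (nat_lit 78) (nat_lit 0) (nat_lit 0) (XT.lf (nat_lit 0) (nat_lit 2704730775836) (nat_lit 152) (nat_lit 7553709404932)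 (nat_lit 0) (nat_lit 2704569050029) (nat_lit 1) (nat_lit 5) (nat_lit 3) (nat_lit 4) (nat_lit 1) (nat_lit 4) (nat_lit 265) (nat_lit 173) (nat_lit 162)) (XT.lf (nat_lit 0) (nat_lit 3110566260389) (nat_lit 152) (nat_lit 8686471255569) (nat_lit 0) (nat_lit 3110398759004) (nat_lit 1) (nat_lit 5) (nat_lit 3) (nat_lit 4) (nat_lit 1) (nat_lit 4) (nat_lit 266) (nat_lit 173) (nat_lit 161))) (XT.nd (nat_lit 78) (nat_lit 0) (nat_lit 0) (XT.lf (nat_lit 0) (nat_lit 3577271206025) (nat_lit 152) (nat_lit 9989158397421) (nat_lit 0) (nat_lit 3577098682398) (nat_lit 1) (nat_lit 5) (nat_lit 3) (nat_lit 4) (nat_lit 1) (nat_lit 4) (nat_lit 267) (nat_lit 173) (nat_lit 160)) (XT.lf (nat_lit 0) (nat_lit 4113976796461) (nat_lit 152) (nat_lit 11487258187611) (nat_lit 0) (nat_lit 4113799905668) (nat_lit 1) (nat_lit 5) (nat_lit 3) (nat_lit 4) (nat_lit 1) (nat_lit 4) (nat_lit 268) (nat_lit 173) (nat_lit 159))))))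 (XT.nd (nat_lit 29952) (nat_lit 0) (nat_lit 0) (XT.nd (nat_lit 234) (nat_lit 0) (nat_lit 0) (XT.nd (nat_lit 78) (nat_lit 0) (nat_lit 0) (XT.lf (nat_lit 0) (nat_lit 4731183793252) (nat_lit 152) (nat_lit 13210081274207) (nat_lit 0) (nat_lit 4731003104922) (nat_lit 1) (nat_lit 5) (nat_lit 3) (nat_lit 4) (nat_lit 1) (nat_lit 4) (nat_lit 269) (nat_lit 173) (nat_lit 158)) (XT.nd (nat_lit 78) (nat_lit 0) (nat_lit 0) (XT.lf (nat_lit 0) (nat_lit 5440967985463) (nat_lit 152) (nat_lit 15191335065427) (nat_lit 0) (nat_lit 5440783994928) (nat_lit 1) (nat_lit 5) (nat_lit 3) (nat_lit 4) (nat_lit 1) (nat_lit 4) (nat_lit 270) (nat_lit 173) (nat_lit 157)) (XT.lf (nat_lit 0) (nat_lit 6257216455117) (nat_lit 152) (nat_lit 17469783222401) (nat_lit 0) (nat_lit 6257029593099) (nat_lit 1) (nat_lit 5) (nat_lit 3) (nat_lit 4) (nat_lit 1) (nat_lit 4) (nat_lit 271) (nat_lit 173) (nat_lit 156)))) (XT.nd (nat_lit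 858) (nat_lit 0) (nat_lit 0) (XT.nd (nat_lit 78) (nat_lit 0) (nat_lit 0) (XT.lf (nat_lit 0) (nat_lit 7195899280967) (nat_lit 152) (nat_lit 20090004078637) (nat_lit 0) (nat_lit 7195709922008) (nat_lit 1) (nat_lit 5) (nat_lit 3) (nat_lit 4) (nat_lit 1) (nat_lit 4) (nat_lit 272) (nat_lit 173) (nat_lit 155)) (XT.lf (nat_lit 0) (nat_lit 8275381996564) (nat_lit 152) (nat_lit 23103262824801) (nat_lit 0) (nat_lit 8275190466351) (nat_lit 1) (nat_lit 5) (nat_lit 3) (nat_lit 4) (nat_lit 1) (nat_lit 4) (nat_lit 273) (nat_lit 173) (nat_lit 154))) (XT.nd (nat_lit 78) (nat_lit 0) (nat_lit 0) (XT.lf (nat_lit 0) (nat_lit 33480377794969) (nat_lit 152) (nat_lit 93460943506691) (nat_lit 0) (nat_lit 33480175367736) (nat_lit 1) (nat_lit 5) (nat_lit 3) (nat_lit 4) (nat_lit 1) (nat_lit 4) (nat_lit 283) (nat_lit 173) (nat_lit 144)) (XT.lf (nat_lit 0) (nat_lit 38502519024750) (nat_lit 152) (nat_lit 107479868087337)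 (nat_lit 0) (nat_lit 38502316130822) (nat_lit 1) (nat_lit 5) (nat_lit 3) (nat_lit 4) (nat_lit 1) (nat_lit 4) (nat_lit 284) (nat_lit 173) (nat_lit 143))))) (XT.nd (nat_lit 312) (nat_lit 0) (nat_lit 0) (XT.nd (nat_lit 156) (nat_lit 0) (nat_lit 0) (XT.nd (nat_lit 78) (nat_lit 0) (nat_lit 0) (XT.lf (nat_lit 0) (nat_lit 219115139222) (nat_lit 152) (nat_lit 615317111442) (nat_lit 0) (nat_lit 219115139222) (nat_lit 1) (nat_lit 5) (nat_lit 3) (nat_lit 4) (nat_lit 1) (nat_lit 4) (nat_lit 252) (nat_lit 174) (nat_lit 174)) (XT.lf (nat_lit 0) (nat_lit 504298323393) (nat_lit 152) (nat_lit 1414535952544) (nat_lit 0) (nat_lit 504267422608) (nat_lit 1) (nat_lit 5) (nat_lit 3) (nat_lit 4) (nat_lit 1) (nat_lit 4) (nat_lit 253) (nat_lit 174) (nat_lit 173))) (XT.nd (nat_lit 78) (nat_lit 0) (nat_lit 0) (XT.lf (nat_lit 0) (nat_lit 580245214054) (nat_lit 152) (nat_lit 1626081867268) (nat_lit 0) (nat_lit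 580187443021) (nat_lit 1) (nat_lit 5) (nat_lit 3) (nat_lit 4) (nat_lit 1) (nat_lit 4) (nat_lit 254) (nat_lit 174) (nat_lit 172)) (XT.lf (nat_lit 0) (nat_lit 667556867855) (nat_lit 152) (nat_lit 1869410908869) (nat_lit 0) (nat_lit 667475731388) (nat_lit 1) (nat_lit 5) (nat_lit 3) (nat_lit 4) (nat_lit 1) (nat_lit 4) (nat_lit 255) (nat_lit 174) (nat_lit 171)))) (XT.nd (nat_lit 156) (nat_lit 0) (nat_lit 0) (XT.nd (nat_lit 78) (nat_lit 0) (nat_lit 0) (XT.lf (nat_lit 0) (nat_lit 767941556282) (nat_lit 152) (nat_lit 2149283862941) (nat_lit 0) (nat_lit 767840102047) (nat_lit 1) (nat_lit 5) (nat_lit 3) (nat_lit 4) (nat_lit 1) (nat_lit 4) (nat_lit 256) (nat_lit 174) (nat_lit 170)) (XT.lf (nat_lit 0) (nat_lit 883363327587) (nat_lit 152) (nat_lit 2471176504674) (nat_lit 0) (nat_lit 883244205728) (nat_lit 1) (nat_lit 5) (nat_lit 3) (nat_lit 4) (nat_lit 1) (nat_lit 4) (nat_lit 257) (nat_lit 174)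 (nat_lit 169))) (XT.nd (nat_lit 78) (nat_lit 0) (nat_lit 0) (XT.lf (nat_lit 0) (nat_lit 1016080433819) (nat_lit 152) (nat_lit 2841386733581) (nat_lit 0) (nat_lit 1015945948808) (nat_lit 1) (nat_lit 5) (nat_lit 3) (nat_lit 4) (nat_lit 1) (nat_lit 4) (nat_lit 258) (nat_lit 174) (nat_lit 168)) (XT.lf (nat_lit 0) (nat_lit 1168689514011) (nat_lit 152) (nat_lit 3267157793269) (nat_lit 0) (nat_lit 1168541669737) (nat_lit 1) (nat_lit 5) (nat_lit 3) (nat_lit 4) (nat_lit 1) (nat_lit 4) (nat_lit 259) (nat_lit 174) (nat_lit 167))))))))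
noncomputable def xc3 : XT := (XT.nd (nat_lit 31590) (nat_lit 0) (nat_lit 0) (XT.nd (nat_lit 1872) (nat_lit 0) (nat_lit 0) (XT.nd (nat_lit 546) (nat_lit 0) (nat_lit 0) (XT.nd (nat_lit 234) (nat_lit 0) (nat_lit 0) (XT.nd (nat_lit 78) (nat_lit 0) (nat_lit 0) (XT.lf (nat_lit 0) (nat_lit 1344176397994) (nat_lit 152) (nat_lit 3756819987080) (nat_lit 0) (nat_lit 1344016936970) (nat_lit 1) (nat_lit 5) (nat_lit 3) (nat_lit 4) (nat_lit 1) (nat_lit 4) (nat_lit 260) (nat_lit 174) (nat_lit 166)) (XT.nd (nat_lit 78) (nat_lit 0) (nat_lit 0) (XT.lf (nat_lit 0) (nat_lit 1545974524801) (nat_lit 152) (nat_lit 4319953662286) (nat_lit 0) (nat_lit 1545804962256) (nat_lit 1) (nat_lit 5) (nat_lit 3) (nat_lit 4) (nat_lit 1) (nat_lit 4) (nat_lit 261) (nat_lit 174) (nat_lit 165)) (XT.lf (nat_lit 0) (nat_lit 1778032118654) (nat_lit 152) (nat_lit 4967576651661) (nat_lit 0) (nat_lit 1777853772178) (nat_lit 1)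 (nat_lit 5) (nat_lit 3) (nat_lit 4) (nat_lit 1) (nat_lit 4) (nat_lit 262) (nat_lit 174) (nat_lit 164)))) (XT.nd (nat_lit 156) (nat_lit 0) (nat_lit 0) (XT.nd (nat_lit 78) (nat_lit 0) (nat_lit 0) (XT.lf (nat_lit 0) (nat_lit 2044889436823) (nat_lit 152) (nat_lit 5712359839780) (nat_lit 0) (nat_lit 2044703452145) (nat_lit 1) (nat_lit 5) (nat_lit 3) (nat_lit 4) (nat_lit 1) (nat_lit 4) (nat_lit 263) (nat_lit 174) (nat_lit 163)) (XT.lf (nat_lit 0) (nat_lit 2351767600751) (nat_lit 152) (nat_lit 6568875071629) (nat_lit 0) (nat_lit 2351574974158) (nat_lit 1) (nat_lit 5) (nat_lit 3) (nat_lit 4) (nat_lit 1) (nat_lit 4) (nat_lit 264) (nat_lit 174) (nat_lit 162))) (XT.nd (nat_lit 78) (nat_lit 0) (nat_lit 0) (XT.lf (nat_lit 0) (nat_lit 2704670748427) (nat_lit 152) (nat_lit 7553880253917) (nat_lit 0) (nat_lit 2704472346257) (nat_lit 1) (nat_lit 5) (nat_lit 3) (nat_lit 4) (nat_lit 1) (nat_lit 4) (nat_lit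 265) (nat_lit 174) (nat_lit 161)) (XT.lf (nat_lit 0) (nat_lit 3110503506655) (nat_lit 152) (nat_lit 8686647227168) (nat_lit 0) (nat_lit 3110300082243) (nat_lit 1) (nat_lit 5) (nat_lit 3) (nat_lit 4) (nat_lit 1) (nat_lit 4) (nat_lit 266) (nat_lit 174) (nat_lit 160))))) (XT.nd (nat_lit 312) (nat_lit 0) (nat_lit 0) (XT.nd (nat_lit 156) (nat_lit 0) (nat_lit 0) (XT.nd (nat_lit 78) (nat_lit 0) (nat_lit 0) (XT.lf (nat_lit 0) (nat_lit 3577206081572) (nat_lit 152) (nat_lit 9989338823466) (nat_lit 0) (nat_lit 3576998289993) (nat_lit 1) (nat_lit 5) (nat_lit 3) (nat_lit 4) (nat_lit 1) (nat_lit 4) (nat_lit 267) (nat_lit 174) (nat_lit 159)) (XT.lf (nat_lit 0) (nat_lit 4113909610515) (nat_lit 152) (nat_lit 11487442487088) (nat_lit 0) (nat_lit 4113698021400) (nat_lit 1) (nat_lit 5) (nat_lit 3) (nat_lit 4) (nat_lit 1) (nat_lit 4) (nat_lit 268) (nat_lit 174) (nat_lit 158))) (XT.nd (nat_lit 78) (nat_lit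 0) (nat_lit 0) (XT.lf (nat_lit 0) (nat_lit 4731114814702) (nat_lit 152) (nat_lit 13210268941886) (nat_lit 0) (nat_lit 4730899923382) (nat_lit 1) (nat_lit 5) (nat_lit 3) (nat_lit 4) (nat_lit 1) (nat_lit 4) (nat_lit 269) (nat_lit 174) (nat_lit 157)) (XT.lf (nat_lit 0) (nat_lit 5440897448127) (nat_lit 152) (nat_lit 15191525661976) (nat_lit 0) (nat_lit 5440679685324) (nat_lit 1) (nat_lit 5) (nat_lit 3) (nat_lit 4) (nat_lit 1) (nat_lit 4) (nat_lit 270) (nat_lit 174) (nat_lit 156)))) (XT.nd (nat_lit 858) (nat_lit 0) (nat_lit 0) (XT.nd (nat_lit 78) (nat_lit 0) (nat_lit 0) (XT.lf (nat_lit 0) (nat_lit 6257144562315) (nat_lit 152) (nat_lit 17469976365795) (nat_lit 0) (nat_lit 6256924302571) (nat_lit 1) (nat_lit 5) (nat_lit 3) (nat_lit 4) (nat_lit 1) (nat_lit 4) (nat_lit 271) (nat_lit 174) (nat_lit 155)) (XT.lf (nat_lit 0) (nat_lit 7195826209500) (nat_lit 152) (nat_lit 20090199436679) (nat_lit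 0) (nat_lit 7195603778502) (nat_lit 1) (nat_lit 5) (nat_lit 3) (nat_lit 4) (nat_lit 1) (nat_lit 4) (nat_lit 272) (nat_lit 174) (nat_lit 154))) (XT.nd (nat_lit 78) (nat_lit 0) (nat_lit 0) (XT.lf (nat_lit 0) (nat_lit 29113219004157) (nat_lit 152) (nat_lit 81270781668930) (nat_lit 0) (nat_lit 29112985676140) (nat_lit 1) (nat_lit 5) (nat_lit 3) (nat_lit 4) (nat_lit 1) (nat_lit 4) (nat_lit 282) (nat_lit 174) (nat_lit 144)) (XT.lf (nat_lit 0) (nat_lit 33480298554703) (nat_lit 152) (nat_lit 93461150455558) (nat_lit 0) (nat_lit 33480064759989) (nat_lit 1) (nat_lit 5) (nat_lit 3) (nat_lit 4) (nat_lit 1) (nat_lit 4) (nat_lit 283) (nat_lit 174) (nat_lit 143)))))) (XT.nd (nat_lit 29094) (nat_lit 0) (nat_lit 0) (XT.nd (nat_lit 28782) (nat_lit 0) (nat_lit 0) (XT.nd (nat_lit 28626) (nat_lit 0) (nat_lit 0) (XT.lf (nat_lit 0) (nat_lit 38502439564184) (nat_lit 152) (nat_lit 107480075450137) (nat_lit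 0) (nat_lit 38502205363647) (nat_lit 1) (nat_lit 5) (nat_lit 3) (nat_lit 4) (nat_lit 1) (nat_lit 4) (nat_lit 284) (nat_lit 174) (nat_lit 142)) (XT.nd (nat_lit 78) (nat_lit 0) (nat_lit 0) (XT.lf (nat_lit 0) (nat_lit 165391500345) (nat_lit 152) (nat_lit 465902615354) (nat_lit 0) (nat_lit 165391500345) (nat_lit 1) (nat_lit 5) (nat_lit 3) (nat_lit 4) (nat_lit 1) (nat_lit 4) (nat_lit 250) (nat_lit 175) (nat_lit 175)) (XT.lf (nat_lit 0) (nat_lit 380783979452) (nat_lit 152) (nat_lit 1070778600973) (nat_lit 0) (nat_lit 380748443549) (nat_lit 1) (nat_lit 5) (nat_lit 3) (nat_lit 4) (nat_lit 1) (nat_lit 4) (nat_lit 251) (nat_lit 175) (nat_lit 174)))) (XT.nd (nat_lit 156) (nat_lit 0) (nat_lit 0) (XT.nd (nat_lit 78) (nat_lit 0) (nat_lit 0) (XT.lf (nat_lit 0) (nat_lit 438249039845) (nat_lit 152) (nat_lit 1230665741239) (nat_lit 0) (nat_lit 438182603156) (nat_lit 1) (nat_lit 5) (nat_lit 3) (nat_lit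 4) (nat_lit 1) (nat_lit 4) (nat_lit 252) (nat_lit 175) (nat_lit 173)) (XT.lf (nat_lit 0) (nat_lit 504302498268) (nat_lit 152) (nat_lit 1414594878161) (nat_lit 0) (nat_lit 504209191330) (nat_lit 1) (nat_lit 5) (nat_lit 3) (nat_lit 4) (nat_lit 1) (nat_lit 4) (nat_lit 253) (nat_lit 175) (nat_lit 172))) (XT.nd (nat_lit 78) (nat_lit 0) (nat_lit 0) (XT.lf (nat_lit 0) (nat_lit 580236704994) (nat_lit 152) (nat_lit 1626164625289) (nat_lit 0) (nat_lit 580120032624) (nat_lit 1) (nat_lit 5) (nat_lit 3) (nat_lit 4) (nat_lit 1) (nat_lit 4) (nat_lit 254) (nat_lit 175) (nat_lit 171)) (XT.lf (nat_lit 0) (nat_lit 667537329286) (nat_lit 152) (nat_lit 1869514390718) (nat_lit 0) (nat_lit 667400339147) (nat_lit 1) (nat_lit 5) (nat_lit 3) (nat_lit 4) (nat_lit 1) (nat_lit 4) (nat_lit 255) (nat_lit 175) (nat_lit 170))))) (XT.nd (nat_lit 312) (nat_lit 0) (nat_lit 0) (XT.nd (nat_lit 156) (nat_lit 0) (nat_lit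 0) (XT.nd (nat_lit 78) (nat_lit 0) (nat_lit 0) (XT.lf (nat_lit 0) (nat_lit 767912426836) (nat_lit 152) (nat_lit 2149405365511) (nat_lit 0) (nat_lit 767757769073) (nat_lit 1) (nat_lit 5) (nat_lit 3) (nat_lit 4) (nat_lit 1) (nat_lit 4) (nat_lit 256) (nat_lit 175) (nat_lit 169)) (XT.lf (nat_lit 0) (nat_lit 883325858248) (nat_lit 152) (nat_lit 2471313677437) (nat_lit 0) (nat_lit 883155837334) (nat_lit 1) (nat_lit 5) (nat_lit 3) (nat_lit 4) (nat_lit 1) (nat_lit 4) (nat_lit 257) (nat_lit 175) (nat_lit 168))) (XT.nd (nat_lit 78) (nat_lit 0) (nat_lit 0) (XT.lf (nat_lit 0) (nat_lit 1016035712399) (nat_lit 152) (nat_lit 2841537532597) (nat_lit 0) (nat_lit 1015852332222) (nat_lit 1) (nat_lit 5) (nat_lit 3) (nat_lit 4) (nat_lit 1) (nat_lit 4) (nat_lit 258) (nat_lit 175) (nat_lit 167)) (XT.lf (nat_lit 0) (nat_lit 1168638486434) (nat_lit 152) (nat_lit 3267320441201) (nat_lit 0) (nat_lit 1168443489507)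 (nat_lit 1) (nat_lit 5) (nat_lit 3) (nat_lit 4) (nat_lit 1) (nat_lit 4) (nat_lit 259) (nat_lit 175) (nat_lit 166)))) (XT.nd (nat_lit 156) (nat_lit 0) (nat_lit 0) (XT.nd (nat_lit 78) (nat_lit 0) (nat_lit 0) (XT.lf (nat_lit 0) (nat_lit 1344119886801) (nat_lit 152) (nat_lit 3756992938419) (nat_lit 0) (nat_lit 1343914788353) (nat_lit 1) (nat_lit 5) (nat_lit 3) (nat_lit 4) (nat_lit 1) (nat_lit 4) (nat_lit 260) (nat_lit 175) (nat_lit 165)) (XT.lf (nat_lit 0) (nat_lit 1545913245248) (nat_lit 152) (nat_lit 4320135573107) (nat_lit 0) (nat_lit 1545699362868) (nat_lit 1) (nat_lit 5) (nat_lit 3) (nat_lit 4) (nat_lit 1) (nat_lit 4) (nat_lit 261) (nat_lit 175) (nat_lit 164))) (XT.nd (nat_lit 78) (nat_lit 0) (nat_lit 0) (XT.lf (nat_lit 0) (nat_lit 1777966692700) (nat_lit 152) (nat_lit 4967766353337) (nat_lit 0) (nat_lit 1777745172119) (nat_lit 1) (nat_lit 5) (nat_lit 3) (nat_lit 4) (nat_lit 1) (nat_lit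 4) (nat_lit 262) (nat_lit 175) (nat_lit 163)) (XT.lf (nat_lit 0) (nat_lit 2044820405303) (nat_lit 152) (nat_lit 5712556316113) (nat_lit 0) (nat_lit 2044592242807) (nat_lit 1) (nat_lit 5) (nat_lit 3) (nat_lit 4) (nat_lit 1) (nat_lit 4) (nat_lit 263) (nat_lit 175) (nat_lit 162))))))) (XT.nd (nat_lit 1560) (nat_lit 0) (nat_lit 0) (XT.nd (nat_lit 546) (nat_lit 0) (nat_lit 0) (XT.nd (nat_lit 234) (nat_lit 0) (nat_lit 0) (XT.nd (nat_lit 78) (nat_lit 0) (nat_lit 0) (XT.lf (nat_lit 0) (nat_lit 2351695433956) (nat_lit 152) (nat_lit 6569077438968) (nat_lit 0) (nat_lit 2351461495883) (nat_lit 1) (nat_lit 5) (nat_lit 3) (nat_lit 4) (nat_lit 1) (nat_lit 4) (nat_lit 264) (nat_lit 175) (nat_lit 161)) (XT.nd (nat_lit 78) (nat_lit 0) (nat_lit 0) (XT.lf (nat_lit 0) (nat_lit 2704595855307) (nat_lit 152) (nat_lit 7554087743870) (nat_lit 0) (nat_lit 2704356894992) (nat_lit 1) (nat_lit 5) (nat_lit 3) (nat_lit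 4) (nat_lit 1) (nat_lit 4) (nat_lit 265) (nat_lit 175) (nat_lit 160)) (XT.lf (nat_lit 0) (nat_lit 3110426242816) (nat_lit 152) (nat_lit 8686859171567) (nat_lit 0) (nat_lit 3110182915334) (nat_lit 1) (nat_lit 5) (nat_lit 3) (nat_lit 4) (nat_lit 1) (nat_lit 4) (nat_lit 266) (nat_lit 175) (nat_lit 159)))) (XT.nd (nat_lit 156) (nat_lit 0) (nat_lit 0) (XT.nd (nat_lit 78) (nat_lit 0) (nat_lit 0) (XT.lf (nat_lit 0) (nat_lit 3577126756239) (nat_lit 152) (nat_lit 9989554641297) (nat_lit 0) (nat_lit 3576879631221) (nat_lit 1) (nat_lit 5) (nat_lit 3) (nat_lit 4) (nat_lit 1) (nat_lit 4) (nat_lit 267) (nat_lit 175) (nat_lit 158)) (XT.lf (nat_lit 0) (nat_lit 4113828492579) (nat_lit 152) (nat_lit 11487661673120) (nat_lit 0) (nat_lit 4113578065355) (nat_lit 1) (nat_lit 5) (nat_lit 3) (nat_lit 4) (nat_lit 1) (nat_lit 4) (nat_lit 268) (nat_lit 175) (nat_lit 157))) (XT.nd (nat_lit 78) (nat_lit 0) (nat_lit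 0) (XT.lf (nat_lit 0) (nat_lit 4731032137980) (nat_lit 152) (nat_lit 13210491056789) (nat_lit 0) (nat_lit 4730778839274) (nat_lit 1) (nat_lit 5) (nat_lit 3) (nat_lit 4) (nat_lit 1) (nat_lit 4) (nat_lit 269) (nat_lit 175) (nat_lit 156)) (XT.lf (nat_lit 0) (nat_lit 5440813415940) (nat_lit 152) (nat_lit 15191750323723) (nat_lit 0) (nat_lit 5440557620292) (nat_lit 1) (nat_lit 5) (nat_lit 3) (nat_lit 4) (nat_lit 1) (nat_lit 4) (nat_lit 270) (nat_lit 175) (nat_lit 155))))) (XT.nd (nat_lit 312) (nat_lit 0) (nat_lit 0) (XT.nd (nat_lit 156) (nat_lit 0) (nat_lit 0) (XT.nd (nat_lit 78) (nat_lit 0) (nat_lit 0) (XT.lf (nat_lit 0) (nat_lit 6257059351462) (nat_lit 152) (nat_lit 17470203242190) (nat_lit 0) (nat_lit 6256801384560) (nat_lit 1) (nat_lit 5) (nat_lit 3) (nat_lit 4) (nat_lit 1) (nat_lit 4) (nat_lit 271) (nat_lit 175) (nat_lit 154)) (XT.lf (nat_lit 0) (nat_lit 7195739973719) (nat_lit 152)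 (nat_lit 20090428238853) (nat_lit 0) (nat_lit 7195480118771) (nat_lit 1) (nat_lit 5) (nat_lit 3) (nat_lit 4) (nat_lit 1) (nat_lit 4) (nat_lit 272) (nat_lit 175) (nat_lit 153))) (XT.nd (nat_lit 78) (nat_lit 0) (nat_lit 0) (XT.lf (nat_lit 0) (nat_lit 8275220773148) (nat_lit 152) (nat_lit 23103690585388) (nat_lit 0) (nat_lit 8274959276420) (nat_lit 1) (nat_lit 5) (nat_lit 3) (nat_lit 4) (nat_lit 1) (nat_lit 4) (nat_lit 273) (nat_lit 175) (nat_lit 152)) (XT.lf (nat_lit 0) (nat_lit 9516622026258) (nat_lit 152) (nat_lit 26568945414661) (nat_lit 0) (nat_lit 9516359101896) (nat_lit 1) (nat_lit 5) (nat_lit 3) (nat_lit 4) (nat_lit 1) (nat_lit 4) (nat_lit 274) (nat_lit 175) (nat_lit 151)))) (XT.nd (nat_lit 546) (nat_lit 0) (nat_lit 0) (XT.nd (nat_lit 78) (nat_lit 0) (nat_lit 0) (XT.lf (nat_lit 0) (nat_lit 10944232018437) (nat_lit 152) (nat_lit 30553991190723) (nat_lit 0) (nat_lit 10943967852654)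 (nat_lit 1) (nat_lit 5) (nat_lit 3) (nat_lit 4) (nat_lit 1) (nat_lit 4) (nat_lit 275) (nat_lit 175) (nat_lit 150)) (XT.lf (nat_lit 0) (nat_lit 12585982249532) (nat_lit 152) (nat_lit 35136796200497) (nat_lit 0) (nat_lit 12585717004251) (nat_lit 1) (nat_lit 5) (nat_lit 3) (nat_lit 4) (nat_lit 1) (nat_lit 4) (nat_lit 276) (nat_lit 175) (nat_lit 149))) (XT.nd (nat_lit 78) (nat_lit 0) (nat_lit 0) (XT.lf (nat_lit 0) (nat_lit 29113127624506) (nat_lit 152) (nat_lit 81271020136150) (nat_lit 0) (nat_lit 29112858293889) (nat_lit 1) (nat_lit 5) (nat_lit 3) (nat_lit 4) (nat_lit 1) (nat_lit 4) (nat_lit 282) (nat_lit 175) (nat_lit 143)) (XT.lf (nat_lit 0) (nat_lit 33480206954751) (nat_lit 152) (nat_lit 93461389336711) (nat_lit 0) (nat_lit 33479937218311) (nat_lit 1) (nat_lit 5) (nat_lit 3) (nat_lit 4) (nat_lit 1) (nat_lit 4) (nat_lit 283) (nat_lit 175) (nat_lit 142)))))) (XT.nd (nat_lit 28938) (nat_lit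 0) (nat_lit 0) (XT.nd (nat_lit 28626) (nat_lit 0) (nat_lit 0) (XT.nd (nat_lit 28470) (nat_lit 0) (nat_lit 0) (XT.lf (nat_lit 0) (nat_lit 38502347772666) (nat_lit 152) (nat_lit 107480314691233) (nat_lit 0) (nat_lit 38502077683336) (nat_lit 1) (nat_lit 5) (nat_lit 3) (nat_lit 4) (nat_lit 1) (nat_lit 4) (nat_lit 284) (nat_lit 175) (nat_lit 141)) (XT.nd (nat_lit 78) (nat_lit 0) (nat_lit 0) (XT.lf (nat_lit 0) (nat_lit 124725057335) (nat_lit 152) (nat_lit 353018962057) (nat_lit 0) (nat_lit 124725057335) (nat_lit 1) (nat_lit 5) (nat_lit 3) (nat_lit 4) (nat_lit 1) (nat_lit 4) (nat_lit 248) (nat_lit 176) (nat_lit 176)) (XT.lf (nat_lit 0) (nat_lit 287308689829) (nat_lit 152) (nat_lit 811026586241) (nat_lit 0) (nat_lit 287267823540) (nat_lit 1) (nat_lit 5) (nat_lit 3) (nat_lit 4) (nat_lit 1) (nat_lit 4) (nat_lit 249) (nat_lit 176) (nat_lit 175)))) (XT.nd (nat_lit 156) (nat_lit 0) (nat_lit 0)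 (XT.nd (nat_lit 78) (nat_lit 0) (nat_lit 0) (XT.lf (nat_lit 0) (nat_lit 330804576299) (nat_lit 152) (nat_lit 931841476814) (nat_lit 0) (nat_lit 330728174107) (nat_lit 1) (nat_lit 5) (nat_lit 3) (nat_lit 4) (nat_lit 1) (nat_lit 4) (nat_lit 250) (nat_lit 176) (nat_lit 174)) (XT.lf (nat_lit 0) (nat_lit 380788780557) (nat_lit 152) (nat_lit 1070846365433) (nat_lit 0) (nat_lit 380681477580) (nat_lit 1) (nat_lit 5) (nat_lit 3) (nat_lit 4) (nat_lit 1) (nat_lit 4) (nat_lit 251) (nat_lit 176) (nat_lit 173))) (XT.nd (nat_lit 78) (nat_lit 0) (nat_lit 0) (XT.lf (nat_lit 0) (nat_lit 438239254425) (nat_lit 152) (nat_lit 1230760912962) (nat_lit 0) (nat_lit 438105081199) (nat_lit 1) (nat_lit 5) (nat_lit 3) (nat_lit 4) (nat_lit 1) (nat_lit 4) (nat_lit 252) (nat_lit 176) (nat_lit 172)) (XT.lf (nat_lit 0) (nat_lit 504280028913) (nat_lit 152) (nat_lit 1414713882288) (nat_lit 0) (nat_lit 504122490254)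 (nat_lit 1) (nat_lit 5) (nat_lit 3) (nat_lit 4) (nat_lit 1) (nat_lit 4) (nat_lit 253) (nat_lit 176) (nat_lit 171))))) (XT.nd (nat_lit 312) (nat_lit 0) (nat_lit 0) (XT.nd (nat_lit 156) (nat_lit 0) (nat_lit 0) (XT.nd (nat_lit 78) (nat_lit 0) (nat_lit 0) (XT.lf (nat_lit 0) (nat_lit 580203206131) (nat_lit 152) (nat_lit 1626304353245) (nat_lit 0) (nat_lit 580025349704) (nat_lit 1) (nat_lit 5) (nat_lit 3) (nat_lit 4) (nat_lit 1) (nat_lit 4) (nat_lit 254) (nat_lit 176) (nat_lit 170)) (XT.lf (nat_lit 0) (nat_lit 667494239546) (nat_lit 152) (nat_lit 1869672139395) (nat_lit 0) (nat_lit 667298715494) (nat_lit 1) (nat_lit 5) (nat_lit 3) (nat_lit 4) (nat_lit 1) (nat_lit 4) (nat_lit 255) (nat_lit 176) (nat_lit 169))) (XT.nd (nat_lit 78) (nat_lit 0) (nat_lit 0) (XT.lf (nat_lit 0) (nat_lit 767860997203) (nat_lit 152) (nat_lit 2149578784380) (nat_lit 0) (nat_lit 767650110000) (nat_lit 1) (nat_lit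 5) (nat_lit 3) (nat_lit 4) (nat_lit 1) (nat_lit 4) (nat_lit 256) (nat_lit 176) (nat_lit 168)) (XT.lf (nat_lit 0) (nat_lit 883267176535) (nat_lit 152) (nat_lit 2471500722559) (nat_lit 0) (nat_lit 883042930069) (nat_lit 1) (nat_lit 5) (nat_lit 3) (nat_lit 4) (nat_lit 1) (nat_lit 4) (nat_lit 257) (nat_lit 176) (nat_lit 167)))) (XT.nd (nat_lit 156) (nat_lit 0) (nat_lit 0) (XT.nd (nat_lit 78) (nat_lit 0) (nat_lit 0) (XT.lf (nat_lit 0) (nat_lit 1015970724528) (nat_lit 152) (nat_lit 2841736426636) (nat_lit 0) (nat_lit 1015734861312) (nat_lit 1) (nat_lit 5) (nat_lit 3) (nat_lit 4) (nat_lit 1) (nat_lit 4) (nat_lit 258) (nat_lit 176) (nat_lit 166)) (XT.lf (nat_lit 0) (nat_lit 1168568014947) (nat_lit 152) (nat_lit 3267529638646) (nat_lit 0) (nat_lit 1168322050210) (nat_lit 1) (nat_lit 5) (nat_lit 3) (nat_lit 4) (nat_lit 1) (nat_lit 4) (nat_lit 259) (nat_lit 176) (nat_lit 165))) (XT.nd (nat_lit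 78) (nat_lit 0) (nat_lit 0) (XT.lf (nat_lit 0) (nat_lit 1344044646954) (nat_lit 152) (nat_lit 3757211095347) (nat_lit 0) (nat_lit 1343789898285) (nat_lit 1) (nat_lit 5) (nat_lit 3) (nat_lit 4) (nat_lit 1) (nat_lit 4) (nat_lit 260) (nat_lit 176) (nat_lit 164)) (XT.lf (nat_lit 0) (nat_lit 1545833859000) (nat_lit 152) (nat_lit 4320361520890) (nat_lit 0) (nat_lit 1545571472130) (nat_lit 1) (nat_lit 5) (nat_lit 3) (nat_lit 4) (nat_lit 1) (nat_lit 4) (nat_lit 261) (nat_lit 176) (nat_lit 163))))))))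
noncomputable def xc4 : XT := (XT.nd (nat_lit 31044) (nat_lit 0) (nat_lit 0) (XT.nd (nat_lit 1092) (nat_lit 0) (nat_lit 0) (XT.nd (nat_lit 546) (nat_lit 0) (nat_lit 0) (XT.nd (nat_lit 234) (nat_lit 0) (nat_lit 0) (XT.nd (nat_lit 78) (nat_lit 0) (nat_lit 0) (XT.lf (nat_lit 0) (nat_lit 1777883700886) (nat_lit 152) (nat_lit 4967999075777) (nat_lit 0) (nat_lit 1777614672101) (nat_lit 1) (nat_lit 5) (nat_lit 3) (nat_lit 4) (nat_lit 1) (nat_lit 4) (nat_lit 262) (nat_lit 176) (nat_lit 162)) (XT.nd (nat_lit 78) (nat_lit 0) (nat_lit 0) (XT.lf (nat_lit 0) (nat_lit 2044734278215) (nat_lit 152) (nat_lit 5712794929558) (nat_lit 0) (nat_lit 2044459473852) (nat_lit 1) (nat_lit 5) (nat_lit 3) (nat_lit 4) (nat_lit 1) (nat_lit 4) (nat_lit 263) (nat_lit 176) (nat_lit 161)) (XT.lf (nat_lit 0) (nat_lit 2351606580542) (nat_lit 152) (nat_lit 6569321175026) (nat_lit 0) (nat_lit 2351326753938) (nat_lit 1)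 (nat_lit 5) (nat_lit 3) (nat_lit 4) (nat_lit 1) (nat_lit 4) (nat_lit 264) (nat_lit 176) (nat_lit 160)))) (XT.nd (nat_lit 156) (nat_lit 0) (nat_lit 0) (XT.nd (nat_lit 78) (nat_lit 0) (nat_lit 0) (XT.lf (nat_lit 0) (nat_lit 2704504631174) (nat_lit 152) (nat_lit 7554335934375) (nat_lit 0) (nat_lit 2704220437404) (nat_lit 1) (nat_lit 5) (nat_lit 3) (nat_lit 4) (nat_lit 1) (nat_lit 4) (nat_lit 265) (nat_lit 176) (nat_lit 159)) (XT.lf (nat_lit 0) (nat_lit 3110332957189) (nat_lit 152) (nat_lit 8687111235504) (nat_lit 0) (nat_lit 3110044965883) (nat_lit 1) (nat_lit 5) (nat_lit 3) (nat_lit 4) (nat_lit 1) (nat_lit 4) (nat_lit 266) (nat_lit 176) (nat_lit 158))) (XT.nd (nat_lit 78) (nat_lit 0) (nat_lit 0) (XT.lf (nat_lit 0) (nat_lit 3577031678009) (nat_lit 152) (nat_lit 9989810073435) (nat_lit 0) (nat_lit 3576740384497) (nat_lit 1) (nat_lit 5) (nat_lit 3) (nat_lit 4) (nat_lit 1) (nat_lit 4) (nat_lit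 267) (nat_lit 176) (nat_lit 157)) (XT.lf (nat_lit 0) (nat_lit 4113731855563) (nat_lit 152) (nat_lit 11487920034129) (nat_lit 0) (nat_lit 4113437690568) (nat_lit 1) (nat_lit 5) (nat_lit 3) (nat_lit 4) (nat_lit 1) (nat_lit 4) (nat_lit 268) (nat_lit 176) (nat_lit 156))))) (XT.nd (nat_lit 234) (nat_lit 0) (nat_lit 0) (XT.nd (nat_lit 78) (nat_lit 0) (nat_lit 0) (XT.lf (nat_lit 0) (nat_lit 4730934145498) (nat_lit 152) (nat_lit 13210751964643) (nat_lit 0) (nat_lit 4730637483562) (nat_lit 1) (nat_lit 5) (nat_lit 3) (nat_lit 4) (nat_lit 1) (nat_lit 4) (nat_lit 269) (nat_lit 176) (nat_lit 155)) (XT.nd (nat_lit 78) (nat_lit 0) (nat_lit 0) (XT.lf (nat_lit 0) (nat_lit 5440714244792) (nat_lit 152) (nat_lit 15192013446224) (nat_lit 0) (nat_lit 5440415411602) (nat_lit 1) (nat_lit 5) (nat_lit 3) (nat_lit 4) (nat_lit 1) (nat_lit 4) (nat_lit 270) (nat_lit 176) (nat_lit 154)) (XT.lf (nat_lit 0) (nat_lit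 6256959155387) (nat_lit 152) (nat_lit 17470468290471) (nat_lit 0) (nat_lit 6256658434151) (nat_lit 1) (nat_lit 5) (nat_lit 3) (nat_lit 4) (nat_lit 1) (nat_lit 4) (nat_lit 271) (nat_lit 176) (nat_lit 153)))) (XT.nd (nat_lit 156) (nat_lit 0) (nat_lit 0) (XT.nd (nat_lit 78) (nat_lit 0) (nat_lit 0) (XT.lf (nat_lit 0) (nat_lit 7195638886404) (nat_lit 152) (nat_lit 20090694961726) (nat_lit 0) (nat_lit 7195336523388) (nat_lit 1) (nat_lit 5) (nat_lit 3) (nat_lit 4) (nat_lit 1) (nat_lit 4) (nat_lit 272) (nat_lit 176) (nat_lit 152)) (XT.lf (nat_lit 0) (nat_lit 8275118910841) (nat_lit 152) (nat_lit 23103958764427) (nat_lit 0) (nat_lit 8274815120190) (nat_lit 1) (nat_lit 5) (nat_lit 3) (nat_lit 4) (nat_lit 1) (nat_lit 4) (nat_lit 273) (nat_lit 176) (nat_lit 151))) (XT.nd (nat_lit 78) (nat_lit 0) (nat_lit 0) (XT.lf (nat_lit 0) (nat_lit 9516519490045) (nat_lit 152) (nat_lit 26569214859932) (nat_lit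 0) (nat_lit 9516214457973) (nat_lit 1) (nat_lit 5) (nat_lit 3) (nat_lit 4) (nat_lit 1) (nat_lit 4) (nat_lit 274) (nat_lit 176) (nat_lit 150)) (XT.lf (nat_lit 0) (nat_lit 10944128896219) (nat_lit 152) (nat_lit 30554261737065) (nat_lit 0) (nat_lit 10943822784650) (nat_lit 1) (nat_lit 5) (nat_lit 3) (nat_lit 4) (nat_lit 1) (nat_lit 4) (nat_lit 275) (nat_lit 176) (nat_lit 149)))))) (XT.nd (nat_lit 29328) (nat_lit 0) (nat_lit 0) (XT.nd (nat_lit 29016) (nat_lit 0) (nat_lit 0) (XT.nd (nat_lit 78) (nat_lit 0) (nat_lit 0) (XT.lf (nat_lit 0) (nat_lit 12585878617744) (nat_lit 152) (nat_lit 35137067704292) (nat_lit 0) (nat_lit 12585571567482) (nat_lit 1) (nat_lit 5) (nat_lit 3) (nat_lit 4) (nat_lit 1) (nat_lit 4) (nat_lit 276) (nat_lit 176) (nat_lit 148)) (XT.nd (nat_lit 28860) (nat_lit 0) (nat_lit 0) (XT.lf (nat_lit 0) (nat_lit 14473889844823) (nat_lit 152) (nat_lit 40407296356625) (nat_lit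 0) (nat_lit 14473581978306) (nat_lit 1) (nat_lit 5) (nat_lit 3) (nat_lit 4) (nat_lit 1) (nat_lit 4) (nat_lit 277) (nat_lit 176) (nat_lit 147)) (XT.lf (nat_lit 0) (nat_lit 93925182241) (nat_lit 152) (nat_lit 267772149958) (nat_lit 0) (nat_lit 93925182241) (nat_lit 1) (nat_lit 5) (nat_lit 3) (nat_lit 4) (nat_lit 1) (nat_lit 4) (nat_lit 246) (nat_lit 177) (nat_lit 177)))) (XT.nd (nat_lit 156) (nat_lit 0) (nat_lit 0) (XT.nd (nat_lit 78) (nat_lit 0) (nat_lit 0) (XT.lf (nat_lit 0) (nat_lit 216535135805) (nat_lit 152) (nat_lit 614821364439) (nat_lit 0) (nat_lit 216488139573) (nat_lit 1) (nat_lit 5) (nat_lit 3) (nat_lit 4) (nat_lit 1) (nat_lit 4) (nat_lit 247) (nat_lit 177) (nat_lit 176)) (XT.lf (nat_lit 0) (nat_lit 249474926622) (nat_lit 152) (nat_lit 706079607137) (nat_lit 0) (nat_lit 249387064101) (nat_lit 1) (nat_lit 5) (nat_lit 3) (nat_lit 4) (nat_lit 1) (nat_lit 4) (nat_lit 248) (nat_lit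 177) (nat_lit 175))) (XT.nd (nat_lit 78) (nat_lit 0) (nat_lit 0) (XT.lf (nat_lit 0) (nat_lit 287314211100) (nat_lit 152) (nat_lit 811104515369) (nat_lit 0) (nat_lit 287190812676) (nat_lit 1) (nat_lit 5) (nat_lit 3) (nat_lit 4) (nat_lit 1) (nat_lit 4) (nat_lit 249) (nat_lit 177) (nat_lit 174)) (XT.lf (nat_lit 0) (nat_lit 330793323067) (nat_lit 152) (nat_lit 931950924296) (nat_lit 0) (nat_lit 330639023857) (nat_lit 1) (nat_lit 5) (nat_lit 3) (nat_lit 4) (nat_lit 1) (nat_lit 4) (nat_lit 250) (nat_lit 177) (nat_lit 173))))) (XT.nd (nat_lit 312) (nat_lit 0) (nat_lit 0) (XT.nd (nat_lit 156) (nat_lit 0) (nat_lit 0) (XT.nd (nat_lit 78) (nat_lit 0) (nat_lit 0) (XT.lf (nat_lit 0) (nat_lit 380762940800) (nat_lit 152) (nat_lit 1070983220179) (nat_lit 0) (nat_lit 380581771342) (nat_lit 1) (nat_lit 5) (nat_lit 3) (nat_lit 4) (nat_lit 1) (nat_lit 4) (nat_lit 251) (nat_lit 177) (nat_lit 172)) (XT.lf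 (nat_lit 0) (nat_lit 438200730733) (nat_lit 152) (nat_lit 1230921600112) (nat_lit 0) (nat_lit 437996195842) (nat_lit 1) (nat_lit 5) (nat_lit 3) (nat_lit 4) (nat_lit 1) (nat_lit 4) (nat_lit 252) (nat_lit 177) (nat_lit 171))) (XT.nd (nat_lit 78) (nat_lit 0) (nat_lit 0) (XT.lf (nat_lit 0) (nat_lit 504230475712) (nat_lit 152) (nat_lit 1414895293266) (nat_lit 0) (nat_lit 504005623053) (nat_lit 1) (nat_lit 5) (nat_lit 3) (nat_lit 4) (nat_lit 1) (nat_lit 4) (nat_lit 253) (nat_lit 177) (nat_lit 170)) (XT.lf (nat_lit 0) (nat_lit 580144062053) (nat_lit 152) (nat_lit 1626503784944) (nat_lit 0) (nat_lit 579901541769) (nat_lit 1) (nat_lit 5) (nat_lit 3) (nat_lit 4) (nat_lit 1) (nat_lit 4) (nat_lit 254) (nat_lit 177) (nat_lit 169)))) (XT.nd (nat_lit 156) (nat_lit 0) (nat_lit 0) (XT.nd (nat_lit 78) (nat_lit 0) (nat_lit 0) (XT.lf (nat_lit 0) (nat_lit 667426755575) (nat_lit 152) (nat_lit 1869887241286)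 (nat_lit 0) (nat_lit 667168872139) (nat_lit 1) (nat_lit 5) (nat_lit 3) (nat_lit 4) (nat_lit 1) (nat_lit 4) (nat_lit 255) (nat_lit 177) (nat_lit 168)) (XT.lf (nat_lit 0) (nat_lit 767786261151) (nat_lit 152) (nat_lit 2149807512525) (nat_lit 0) (nat_lit 767515018453) (nat_lit 1) (nat_lit 5) (nat_lit 3) (nat_lit 4) (nat_lit 1) (nat_lit 4) (nat_lit 256) (nat_lit 177) (nat_lit 167))) (XT.nd (nat_lit 78) (nat_lit 0) (nat_lit 0) (XT.lf (nat_lit 0) (nat_lit 883186134325) (nat_lit 152) (nat_lit 2471741299621) (nat_lit 0) (nat_lit 882903274878) (nat_lit 1) (nat_lit 5) (nat_lit 3) (nat_lit 4) (nat_lit 1) (nat_lit 4) (nat_lit 257) (nat_lit 177) (nat_lit 166)) (XT.lf (nat_lit 0) (nat_lit 1015884198703) (nat_lit 152) (nat_lit 2841987307103) (nat_lit 0) (nat_lit 1015591237734) (nat_lit 1) (nat_lit 5) (nat_lit 3) (nat_lit 4) (nat_lit 1) (nat_lit 4) (nat_lit 258) (nat_lit 177) (nat_lit 165))))))) (XT.nd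 (nat_lit 1170) (nat_lit 0) (nat_lit 0) (XT.nd (nat_lit 546) (nat_lit 0) (nat_lit 0) (XT.nd (nat_lit 234) (nat_lit 0) (nat_lit 0) (XT.nd (nat_lit 78) (nat_lit 0) (nat_lit 0) (XT.lf (nat_lit 0) (nat_lit 1168476720762) (nat_lit 152) (nat_lit 3267789478596) (nat_lit 0) (nat_lit 1168174975861) (nat_lit 1) (nat_lit 5) (nat_lit 3) (nat_lit 4) (nat_lit 1) (nat_lit 4) (nat_lit 259) (nat_lit 177) (nat_lit 164)) (XT.nd (nat_lit 78) (nat_lit 0) (nat_lit 0) (XT.lf (nat_lit 0) (nat_lit 1343949206368) (nat_lit 152) (nat_lit 3757478726152) (nat_lit 0) (nat_lit 1343639823266) (nat_lit 1) (nat_lit 5) (nat_lit 3) (nat_lit 4) (nat_lit 1) (nat_lit 4) (nat_lit 260) (nat_lit 177) (nat_lit 163)) (XT.lf (nat_lit 0) (nat_lit 1545734812848) (nat_lit 152) (nat_lit 4320635926352) (nat_lit 0) (nat_lit 1545418787831) (nat_lit 1) (nat_lit 5) (nat_lit 3) (nat_lit 4) (nat_lit 1) (nat_lit 4) (nat_lit 261) (nat_lit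 177) (nat_lit 162)))) (XT.nd (nat_lit 156) (nat_lit 0) (nat_lit 0) (XT.nd (nat_lit 78) (nat_lit 0) (nat_lit 0) (XT.lf (nat_lit 0) (nat_lit 1777781519460) (nat_lit 152) (nat_lit 4968279372244) (nat_lit 0) (nat_lit 1777459718865) (nat_lit 1) (nat_lit 5) (nat_lit 3) (nat_lit 4) (nat_lit 1) (nat_lit 4) (nat_lit 262) (nat_lit 177) (nat_lit 161)) (XT.lf (nat_lit 0) (nat_lit 2044629370462) (nat_lit 152) (nat_lit 5713080348639) (nat_lit 0) (nat_lit 2044302547626) (nat_lit 1) (nat_lit 5) (nat_lit 3) (nat_lit 4) (nat_lit 1) (nat_lit 4) (nat_lit 263) (nat_lit 177) (nat_lit 160))) (XT.nd (nat_lit 78) (nat_lit 0) (nat_lit 0) (XT.lf (nat_lit 0) (nat_lit 2351499302071) (nat_lit 152) (nat_lit 6569611048554) (nat_lit 0) (nat_lit 2351168112069) (nat_lit 1) (nat_lit 5) (nat_lit 3) (nat_lit 4) (nat_lit 1) (nat_lit 4) (nat_lit 264) (nat_lit 177) (nat_lit 159)) (XT.lf (nat_lit 0) (nat_lit 2704395291210)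 (nat_lit 152) (nat_lit 7554629681334) (nat_lit 0) (nat_lit 2704060303671) (nat_lit 1) (nat_lit 5) (nat_lit 3) (nat_lit 4) (nat_lit 1) (nat_lit 4) (nat_lit 265) (nat_lit 177) (nat_lit 158))))) (XT.nd (nat_lit 312) (nat_lit 0) (nat_lit 0) (XT.nd (nat_lit 156) (nat_lit 0) (nat_lit 0) (XT.nd (nat_lit 78) (nat_lit 0) (nat_lit 0) (XT.lf (nat_lit 0) (nat_lit 3110221824621) (nat_lit 152) (nat_lit 8687408350664) (nat_lit 0) (nat_lit 3109883534877) (nat_lit 1) (nat_lit 5) (nat_lit 3) (nat_lit 4) (nat_lit 1) (nat_lit 4) (nat_lit 266) (nat_lit 177) (nat_lit 157)) (XT.lf (nat_lit 0) (nat_lit 3576918986656) (nat_lit 152) (nat_lit 9990110117467) (nat_lit 0) (nat_lit 3576577825428) (nat_lit 1) (nat_lit 5) (nat_lit 3) (nat_lit 4) (nat_lit 1) (nat_lit 4) (nat_lit 267) (nat_lit 177) (nat_lit 156))) (XT.nd (nat_lit 78) (nat_lit 0) (nat_lit 0) (XT.lf (nat_lit 0) (nat_lit 4113617808743) (nat_lit 152) (nat_lit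 11488222625005) (nat_lit 0) (nat_lit 4113274150575) (nat_lit 1) (nat_lit 5) (nat_lit 3) (nat_lit 4) (nat_lit 1) (nat_lit 4) (nat_lit 268) (nat_lit 177) (nat_lit 155)) (XT.lf (nat_lit 0) (nat_lit 4730818920013) (nat_lit 152) (nat_lit 13211056770166) (nat_lit 0) (nat_lit 4730473090590) (nat_lit 1) (nat_lit 5) (nat_lit 3) (nat_lit 4) (nat_lit 1) (nat_lit 4) (nat_lit 269) (nat_lit 177) (nat_lit 154)))) (XT.nd (nat_lit 156) (nat_lit 0) (nat_lit 0) (XT.nd (nat_lit 78) (nat_lit 0) (nat_lit 0) (XT.lf (nat_lit 0) (nat_lit 5440597994380) (nat_lit 152) (nat_lit 15192320177528) (nat_lit 0) (nat_lit 5440250276911) (nat_lit 1) (nat_lit 5) (nat_lit 3) (nat_lit 4) (nat_lit 1) (nat_lit 4) (nat_lit 270) (nat_lit 177) (nat_lit 153)) (XT.lf (nat_lit 0) (nat_lit 6256842013734) (nat_lit 152) (nat_lit 17470776696366) (nat_lit 0) (nat_lit 6256492654486) (nat_lit 1) (nat_lit 5) (nat_lit 3) (nat_lit 4) (nat_lit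 1) (nat_lit 4) (nat_lit 271) (nat_lit 177) (nat_lit 152))) (XT.nd (nat_lit 78) (nat_lit 0) (nat_lit 0) (XT.lf (nat_lit 0) (nat_lit 7195520969759) (nat_lit 152) (nat_lit 20091004823787) (nat_lit 0) (nat_lit 7195170182876) (nat_lit 1) (nat_lit 5) (nat_lit 3) (nat_lit 4) (nat_lit 1) (nat_lit 4) (nat_lit 272) (nat_lit 177) (nat_lit 151)) (XT.lf (nat_lit 0) (nat_lit 8275000320290) (nat_lit 152) (nat_lit 23104269892720) (nat_lit 0) (nat_lit 8274648291986) (nat_lit 1) (nat_lit 5) (nat_lit 3) (nat_lit 4) (nat_lit 1) (nat_lit 4) (nat_lit 273) (nat_lit 177) (nat_lit 150)))))) (XT.nd (nat_lit 29172) (nat_lit 0) (nat_lit 0) (XT.nd (nat_lit 234) (nat_lit 0) (nat_lit 0) (XT.nd (nat_lit 78) (nat_lit 0) (nat_lit 0) (XT.lf (nat_lit 0) (nat_lit 9516400313489) (nat_lit 152) (nat_lit 26569527089296) (nat_lit 0) (nat_lit 9516047205688) (nat_lit 1) (nat_lit 5) (nat_lit 3) (nat_lit 4) (nat_lit 1) (nat_lit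 4) (nat_lit 274) (nat_lit 177) (nat_lit 149)) (XT.nd (nat_lit 78) (nat_lit 0) (nat_lit 0) (XT.lf (nat_lit 0) (nat_lit 10944009210093) (nat_lit 152) (nat_lit 30554574923882) (nat_lit 0) (nat_lit 10943655163599) (nat_lit 1) (nat_lit 5) (nat_lit 3) (nat_lit 4) (nat_lit 1) (nat_lit 4) (nat_lit 275) (nat_lit 177) (nat_lit 148)) (XT.lf (nat_lit 0) (nat_lit 12585758488513) (nat_lit 152) (nat_lit 35137381723678) (nat_lit 0) (nat_lit 12585403625765) (nat_lit 1) (nat_lit 5) (nat_lit 3) (nat_lit 4) (nat_lit 1) (nat_lit 4) (nat_lit 276) (nat_lit 177) (nat_lit 147)))) (XT.nd (nat_lit 28782) (nat_lit 0) (nat_lit 0) (XT.nd (nat_lit 28704) (nat_lit 0) (nat_lit 0) (XT.lf (nat_lit 0) (nat_lit 14473769330285) (nat_lit 152) (nat_lit 40407611099982) (nat_lit 0) (nat_lit 14473413757749) (nat_lit 1) (nat_lit 5) (nat_lit 3) (nat_lit 4) (nat_lit 1) (nat_lit 4) (nat_lit 277) (nat_lit 177) (nat_lit 146)) (XT.lf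 (nat_lit 0) (nat_lit 70578319732) (nat_lit 152) (nat_lit 203439177436) (nat_lit 0) (nat_lit 70578319732) (nat_lit 1) (nat_lit 5) (nat_lit 3) (nat_lit 4) (nat_lit 1) (nat_lit 4) (nat_lit 244) (nat_lit 178) (nat_lit 178))) (XT.nd (nat_lit 78) (nat_lit 0) (nat_lit 0) (XT.lf (nat_lit 0) (nat_lit 162913434533) (nat_lit 152) (nat_lit 466697340569) (nat_lit 0) (nat_lit 162859388866) (nat_lit 1) (nat_lit 5) (nat_lit 3) (nat_lit 4) (nat_lit 1) (nat_lit 4) (nat_lit 245) (nat_lit 178) (nat_lit 177)) (XT.lf (nat_lit 0) (nat_lit 187878898226) (nat_lit 152) (nat_lit 535592235392) (nat_lit 0) (nat_lit 187777856327) (nat_lit 1) (nat_lit 5) (nat_lit 3) (nat_lit 4) (nat_lit 1) (nat_lit 4) (nat_lit 246) (nat_lit 178) (nat_lit 176))))) (XT.nd (nat_lit 312) (nat_lit 0) (nat_lit 0) (XT.nd (nat_lit 156) (nat_lit 0) (nat_lit 0) (XT.nd (nat_lit 78) (nat_lit 0) (nat_lit 0) (XT.lf (nat_lit 0) (nat_lit 216541485268)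 (nat_lit 152) (nat_lit 614910982937) (nat_lit 0) (nat_lit 216399577080) (nat_lit 1) (nat_lit 5) (nat_lit 3) (nat_lit 4) (nat_lit 1) (nat_lit 4) (nat_lit 247) (nat_lit 178) (nat_lit 175)) (XT.lf (nat_lit 0) (nat_lit 249461985405) (nat_lit 152) (nat_lit 706205471742) (nat_lit 0) (nat_lit 249284541313) (nat_lit 1) (nat_lit 5) (nat_lit 3) (nat_lit 4) (nat_lit 1) (nat_lit 4) (nat_lit 248) (nat_lit 178) (nat_lit 174))) (XT.nd (nat_lit 78) (nat_lit 0) (nat_lit 0) (XT.lf (nat_lit 0) (nat_lit 287284495379) (nat_lit 152) (nat_lit 811261898327) (nat_lit 0) (nat_lit 287076150502) (nat_lit 1) (nat_lit 5) (nat_lit 3) (nat_lit 4) (nat_lit 1) (nat_lit 4) (nat_lit 249) (nat_lit 178) (nat_lit 173)) (XT.lf (nat_lit 0) (nat_lit 330749020821) (nat_lit 152) (nat_lit 932135714518) (nat_lit 0) (nat_lit 330513805696) (nat_lit 1) (nat_lit 5) (nat_lit 3) (nat_lit 4) (nat_lit 1) (nat_lit 4) (nat_lit 250) (nat_lit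 178) (nat_lit 172)))) (XT.nd (nat_lit 156) (nat_lit 0) (nat_lit 0) (XT.nd (nat_lit 78) (nat_lit 0) (nat_lit 0) (XT.lf (nat_lit 0) (nat_lit 380705954619) (nat_lit 152) (nat_lit 1071191842804) (nat_lit 0) (nat_lit 380447374061) (nat_lit 1) (nat_lit 5) (nat_lit 3) (nat_lit 4) (nat_lit 1) (nat_lit 4) (nat_lit 251) (nat_lit 178) (nat_lit 171)) (XT.lf (nat_lit 0) (nat_lit 438132715043) (nat_lit 152) (nat_lit 1231150946565) (nat_lit 0) (nat_lit 437853816717) (nat_lit 1) (nat_lit 5) (nat_lit 3) (nat_lit 4) (nat_lit 1) (nat_lit 4) (nat_lit 252) (nat_lit 178) (nat_lit 170))) (XT.nd (nat_lit 78) (nat_lit 0) (nat_lit 0) (XT.lf (nat_lit 0) (nat_lit 504152869146) (nat_lit 152) (nat_lit 1415142660441) (nat_lit 0) (nat_lit 503856303195) (nat_lit 1) (nat_lit 5) (nat_lit 3) (nat_lit 4) (nat_lit 1) (nat_lit 4) (nat_lit 253) (nat_lit 178) (nat_lit 169)) (XT.lf (nat_lit 0) (nat_lit 580058115593) (nat_lit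 152) (nat_lit 1626766822310) (nat_lit 0) (nat_lit 579746186491) (nat_lit 1) (nat_lit 5) (nat_lit 3) (nat_lit 4) (nat_lit 1) (nat_lit 4) (nat_lit 254) (nat_lit 178) (nat_lit 168))))))))
noncomputable def xc5 : XT := (XT.nd (nat_lit 30810) (nat_lit 0) (nat_lit 0) (XT.nd (nat_lit 1170) (nat_lit 0) (nat_lit 0) (XT.nd (nat_lit 546) (nat_lit 0) (nat_lit 0) (XT.nd (nat_lit 234) (nat_lit 0) (nat_lit 0) (XT.nd (nat_lit 78) (nat_lit 0) (nat_lit 0) (XT.lf (nat_lit 0) (nat_lit 667333557034) (nat_lit 152) (nat_lit 1870163904907) (nat_lit 0) (nat_lit 667008268670) (nat_lit 1) (nat_lit 5) (nat_lit 3) (nat_lit 4) (nat_lit 1) (nat_lit 4) (nat_lit 255) (nat_lit 178) (nat_lit 167)) (XT.nd (nat_lit 78) (nat_lit 0) (nat_lit 0) (XT.lf (nat_lit 0) (nat_lit 767686756453) (nat_lit 152) (nat_lit 2150096025062) (nat_lit 0) (nat_lit 767349851339) (nat_lit 1) (nat_lit 5) (nat_lit 3) (nat_lit 4) (nat_lit 1) (nat_lit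 4) (nat_lit 256) (nat_lit 178) (nat_lit 166)) (XT.lf (nat_lit 0) (nat_lit 883081146012) (nat_lit 152) (nat_lit 2472040115564) (nat_lit 0) (nat_lit 882734139376) (nat_lit 1) (nat_lit 5) (nat_lit 3) (nat_lit 4) (nat_lit 1) (nat_lit 4) (nat_lit 257) (nat_lit 178) (nat_lit 165)))) (XT.nd (nat_lit 156) (nat_lit 0) (nat_lit 0) (XT.nd (nat_lit 78) (nat_lit 0) (nat_lit 0) (XT.lf (nat_lit 0) (nat_lit 1015774442030) (nat_lit 152) (nat_lit 2842295082529) (nat_lit 0) (nat_lit 1015418651462) (nat_lit 1) (nat_lit 5) (nat_lit 3) (nat_lit 4) (nat_lit 1) (nat_lit 4) (nat_lit 258) (nat_lit 178) (nat_lit 164)) (XT.lf (nat_lit 0) (nat_lit 1168362817688) (nat_lit 152) (nat_lit 3268105044877) (nat_lit 0) (nat_lit 1167999388918) (nat_lit 1) (nat_lit 5) (nat_lit 3) (nat_lit 4) (nat_lit 1) (nat_lit 4) (nat_lit 259) (nat_lit 178) (nat_lit 163))) (XT.nd (nat_lit 78) (nat_lit 0) (nat_lit 0) (XT.lf (nat_lit 0)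 (nat_lit 1343831697728) (nat_lit 152) (nat_lit 3757801067089) (nat_lit 0) (nat_lit 1343461627044) (nat_lit 1) (nat_lit 5) (nat_lit 3) (nat_lit 4) (nat_lit 1) (nat_lit 4) (nat_lit 260) (nat_lit 178) (nat_lit 162)) (XT.lf (nat_lit 0) (nat_lit 1545614168933) (nat_lit 152) (nat_lit 4320964158295) (nat_lit 0) (nat_lit 1545238322671) (nat_lit 1) (nat_lit 5) (nat_lit 3) (nat_lit 4) (nat_lit 1) (nat_lit 4) (nat_lit 261) (nat_lit 178) (nat_lit 161))))) (XT.nd (nat_lit 312) (nat_lit 0) (nat_lit 0) (XT.nd (nat_lit 156) (nat_lit 0) (nat_lit 0) (XT.nd (nat_lit 78) (nat_lit 0) (nat_lit 0) (XT.lf (nat_lit 0) (nat_lit 1777658149219) (nat_lit 152) (nat_lit 4968612726801) (nat_lit 0) (nat_lit 1777277280715) (nat_lit 1) (nat_lit 5) (nat_lit 3) (nat_lit 4) (nat_lit 1) (nat_lit 4) (nat_lit 262) (nat_lit 178) (nat_lit 160)) (XT.lf (nat_lit 0) (nat_lit 2044503629503) (nat_lit 152) (nat_lit 5713418157642)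 (nat_lit 0) (nat_lit 2044118393833) (nat_lit 1) (nat_lit 5) (nat_lit 3) (nat_lit 4) (nat_lit 1) (nat_lit 4) (nat_lit 263) (nat_lit 178) (nat_lit 159))) (XT.nd (nat_lit 78) (nat_lit 0) (nat_lit 0) (XT.lf (nat_lit 0) (nat_lit 2351371499618) (nat_lit 152) (nat_lit 6569952730989) (nat_lit 0) (nat_lit 2350982466412) (nat_lit 1) (nat_lit 5) (nat_lit 3) (nat_lit 4) (nat_lit 1) (nat_lit 4) (nat_lit 264) (nat_lit 178) (nat_lit 158)) (XT.lf (nat_lit 0) (nat_lit 2704265696153) (nat_lit 152) (nat_lit 7554974731970) (nat_lit 0) (nat_lit 2703873360742) (nat_lit 1) (nat_lit 5) (nat_lit 3) (nat_lit 4) (nat_lit 1) (nat_lit 4) (nat_lit 265) (nat_lit 178) (nat_lit 157)))) (XT.nd (nat_lit 156) (nat_lit 0) (nat_lit 0) (XT.nd (nat_lit 78) (nat_lit 0) (nat_lit 0) (XT.lf (nat_lit 0) (nat_lit 3110090670779) (nat_lit 152) (nat_lit 8687756330172) (nat_lit 0) (nat_lit 3109695463885) (nat_lit 1) (nat_lit 5) (nat_lit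 3) (nat_lit 4) (nat_lit 1) (nat_lit 4) (nat_lit 266) (nat_lit 178) (nat_lit 156)) (XT.lf (nat_lit 0) (nat_lit 3576786477347) (nat_lit 152) (nat_lit 9990460643819) (nat_lit 0) (nat_lit 3576388773512) (nat_lit 1) (nat_lit 5) (nat_lit 3) (nat_lit 4) (nat_lit 1) (nat_lit 4) (nat_lit 267) (nat_lit 178) (nat_lit 155))) (XT.nd (nat_lit 78) (nat_lit 0) (nat_lit 0) (XT.lf (nat_lit 0) (nat_lit 4113484120769) (nat_lit 152) (nat_lit 11488575366004) (nat_lit 0) (nat_lit 4113084245680) (nat_lit 1) (nat_lit 5) (nat_lit 3) (nat_lit 4) (nat_lit 1) (nat_lit 4) (nat_lit 268) (nat_lit 178) (nat_lit 154)) (XT.lf (nat_lit 0) (nat_lit 4730684207112) (nat_lit 152) (nat_lit 13211411436945) (nat_lit 0) (nat_lit 4730282443976) (nat_lit 1) (nat_lit 5) (nat_lit 3) (nat_lit 4) (nat_lit 1) (nat_lit 4) (nat_lit 269) (nat_lit 178) (nat_lit 153)))))) (XT.nd (nat_lit 546) (nat_lit 0) (nat_lit 0) (XT.nd (nat_lit 234)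 (nat_lit 0) (nat_lit 0) (XT.nd (nat_lit 78) (nat_lit 0) (nat_lit 0) (XT.lf (nat_lit 0) (nat_lit 5440462390238) (nat_lit 152) (nat_lit 15192676518898) (nat_lit 0) (nat_lit 5440058985323) (nat_lit 1) (nat_lit 5) (nat_lit 3) (nat_lit 4) (nat_lit 1) (nat_lit 4) (nat_lit 270) (nat_lit 178) (nat_lit 152)) (XT.nd (nat_lit 78) (nat_lit 0) (nat_lit 0) (XT.lf (nat_lit 0) (nat_lit 6256705634601) (nat_lit 152) (nat_lit 17471134493903) (nat_lit 0) (nat_lit 6256300802051) (nat_lit 1) (nat_lit 5) (nat_lit 3) (nat_lit 4) (nat_lit 1) (nat_lit 4) (nat_lit 271) (nat_lit 178) (nat_lit 151)) (XT.lf (nat_lit 0) (nat_lit 7195383916720) (nat_lit 152) (nat_lit 20091363887556) (nat_lit 0) (nat_lit 7194977842748) (nat_lit 1) (nat_lit 5) (nat_lit 3) (nat_lit 4) (nat_lit 1) (nat_lit 4) (nat_lit 272) (nat_lit 178) (nat_lit 150)))) (XT.nd (nat_lit 156) (nat_lit 0) (nat_lit 0) (XT.nd (nat_lit 78) (nat_lit 0) (nat_lit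 0) (XT.lf (nat_lit 0) (nat_lit 8274862681245) (nat_lit 152) (nat_lit 23104630057560) (nat_lit 0) (nat_lit 8274455527777) (nat_lit 1) (nat_lit 5) (nat_lit 3) (nat_lit 4) (nat_lit 1) (nat_lit 4) (nat_lit 273) (nat_lit 178) (nat_lit 149)) (XT.lf (nat_lit 0) (nat_lit 9516262164874) (nat_lit 152) (nat_lit 26569888211589) (nat_lit 0) (nat_lit 9515854072713) (nat_lit 1) (nat_lit 5) (nat_lit 3) (nat_lit 4) (nat_lit 1) (nat_lit 4) (nat_lit 274) (nat_lit 178) (nat_lit 148))) (XT.nd (nat_lit 78) (nat_lit 0) (nat_lit 0) (XT.lf (nat_lit 0) (nat_lit 10943870618374) (nat_lit 152) (nat_lit 30554936878743) (nat_lit 0) (nat_lit 10943461709958) (nat_lit 1) (nat_lit 5) (nat_lit 3) (nat_lit 4) (nat_lit 1) (nat_lit 4) (nat_lit 275) (nat_lit 178) (nat_lit 147)) (XT.lf (nat_lit 0) (nat_lit 12585619511487) (nat_lit 152) (nat_lit 35137744402511) (nat_lit 0) (nat_lit 12585209893284) (nat_lit 1) (nat_lit 5)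 (nat_lit 3) (nat_lit 4) (nat_lit 1) (nat_lit 4) (nat_lit 276) (nat_lit 178) (nat_lit 146))))) (XT.nd (nat_lit 28782) (nat_lit 0) (nat_lit 0) (XT.nd (nat_lit 28626) (nat_lit 0) (nat_lit 0) (XT.nd (nat_lit 28548) (nat_lit 0) (nat_lit 0) (XT.lf (nat_lit 0) (nat_lit 14473630018208) (nat_lit 152) (nat_lit 40407974408356) (nat_lit 0) (nat_lit 14473219782799) (nat_lit 1) (nat_lit 5) (nat_lit 3) (nat_lit 4) (nat_lit 1) (nat_lit 4) (nat_lit 277) (nat_lit 178) (nat_lit 145)) (XT.lf (nat_lit 0) (nat_lit 52858345693) (nat_lit 152) (nat_lit 154938951961) (nat_lit 0) (nat_lit 52858345693) (nat_lit 1) (nat_lit 5) (nat_lit 3) (nat_lit 4) (nat_lit 1) (nat_lit 4) (nat_lit 242) (nat_lit 179) (nat_lit 179))) (XT.nd (nat_lit 78) (nat_lit 0) (nat_lit 0) (XT.lf (nat_lit 0) (nat_lit 122244989114) (nat_lit 152) (nat_lit 354964906845) (nat_lit 0) (nat_lit 122182836597) (nat_lit 1) (nat_lit 5) (nat_lit 3) (nat_lit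 4) (nat_lit 1) (nat_lit 4) (nat_lit 243) (nat_lit 179) (nat_lit 178)) (XT.lf (nat_lit 0) (nat_lit 141189453270) (nat_lit 152) (nat_lit 406933480670) (nat_lit 0) (nat_lit 141073255086) (nat_lit 1) (nat_lit 5) (nat_lit 3) (nat_lit 4) (nat_lit 1) (nat_lit 4) (nat_lit 244) (nat_lit 179) (nat_lit 177)))) (XT.nd (nat_lit 156) (nat_lit 0) (nat_lit 0) (XT.nd (nat_lit 78) (nat_lit 0) (nat_lit 0) (XT.lf (nat_lit 0) (nat_lit 162920736415) (nat_lit 152) (nat_lit 466800401842) (nat_lit 0) (nat_lit 162757541999) (nat_lit 1) (nat_lit 5) (nat_lit 3) (nat_lit 4) (nat_lit 1) (nat_lit 4) (nat_lit 245) (nat_lit 179) (nat_lit 176)) (XT.lf (nat_lit 0) (nat_lit 187864015826) (nat_lit 152) (nat_lit 535736979687) (nat_lit 0) (nat_lit 187659955121) (nat_lit 1) (nat_lit 5) (nat_lit 3) (nat_lit 4) (nat_lit 1) (nat_lit 4) (nat_lit 246) (nat_lit 179) (nat_lit 175))) (XT.nd (nat_lit 78) (nat_lit 0) (nat_lit 0)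 (XT.lf (nat_lit 0) (nat_lit 216507312188) (nat_lit 152) (nat_lit 615091973338) (nat_lit 0) (nat_lit 216267715580) (nat_lit 1) (nat_lit 5) (nat_lit 3) (nat_lit 4) (nat_lit 1) (nat_lit 4) (nat_lit 247) (nat_lit 179) (nat_lit 174)) (XT.lf (nat_lit 0) (nat_lit 249411037822) (nat_lit 152) (nat_lit 706417980497) (nat_lit 0) (nat_lit 249140540428) (nat_lit 1) (nat_lit 5) (nat_lit 3) (nat_lit 4) (nat_lit 1) (nat_lit 4) (nat_lit 248) (nat_lit 179) (nat_lit 173))))))) (XT.nd (nat_lit 1170) (nat_lit 0) (nat_lit 0) (XT.nd (nat_lit 546) (nat_lit 0) (nat_lit 0) (XT.nd (nat_lit 234) (nat_lit 0) (nat_lit 0) (XT.nd (nat_lit 78) (nat_lit 0) (nat_lit 0) (XT.lf (nat_lit 0) (nat_lit 287218961271) (nat_lit 152) (nat_lit 811501814346) (nat_lit 0) (nat_lit 286921593629) (nat_lit 1) (nat_lit 5) (nat_lit 3) (nat_lit 4) (nat_lit 1) (nat_lit 4) (nat_lit 249) (nat_lit 179) (nat_lit 172)) (XT.nd (nat_lit 78) (nat_lit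 0) (nat_lit 0) (XT.lf (nat_lit 0) (nat_lit 330670802778) (nat_lit 152) (nat_lit 932399462940) (nat_lit 0) (nat_lit 330350069702) (nat_lit 1) (nat_lit 5) (nat_lit 3) (nat_lit 4) (nat_lit 1) (nat_lit 4) (nat_lit 250) (nat_lit 179) (nat_lit 171)) (XT.lf (nat_lit 0) (nat_lit 380616707067) (nat_lit 152) (nat_lit 1071476315055) (nat_lit 0) (nat_lit 380275656224) (nat_lit 1) (nat_lit 5) (nat_lit 3) (nat_lit 4) (nat_lit 1) (nat_lit 4) (nat_lit 251) (nat_lit 179) (nat_lit 170)))) (XT.nd (nat_lit 156) (nat_lit 0) (nat_lit 0) (XT.nd (nat_lit 78) (nat_lit 0) (nat_lit 0) (XT.lf (nat_lit 0) (nat_lit 438033876615) (nat_lit 152) (nat_lit 1231453439537) (nat_lit 0) (nat_lit 437675158147) (nat_lit 1) (nat_lit 5) (nat_lit 3) (nat_lit 4) (nat_lit 1) (nat_lit 4) (nat_lit 252) (nat_lit 179) (nat_lit 169)) (XT.lf (nat_lit 0) (nat_lit 504045690824) (nat_lit 152) (nat_lit 1415460823605) (nat_lit 0) (nat_lit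 503671609205) (nat_lit 1) (nat_lit 5) (nat_lit 3) (nat_lit 4) (nat_lit 1) (nat_lit 4) (nat_lit 253) (nat_lit 179) (nat_lit 168))) (XT.nd (nat_lit 78) (nat_lit 0) (nat_lit 0) (XT.lf (nat_lit 0) (nat_lit 579943685191) (nat_lit 152) (nat_lit 1627098611728) (nat_lit 0) (nat_lit 579556244309) (nat_lit 1) (nat_lit 5) (nat_lit 3) (nat_lit 4) (nat_lit 1) (nat_lit 4) (nat_lit 254) (nat_lit 179) (nat_lit 167)) (XT.lf (nat_lit 0) (nat_lit 667212820474) (nat_lit 152) (nat_lit 1870507543241) (nat_lit 0) (nat_lit 666813762843) (nat_lit 1) (nat_lit 5) (nat_lit 3) (nat_lit 4) (nat_lit 1) (nat_lit 4) (nat_lit 255) (nat_lit 179) (nat_lit 166))))) (XT.nd (nat_lit 312) (nat_lit 0) (nat_lit 0) (XT.nd (nat_lit 156) (nat_lit 0) (nat_lit 0) (XT.nd (nat_lit 78) (nat_lit 0) (nat_lit 0) (XT.lf (nat_lit 0) (nat_lit 767560536278) (nat_lit 152) (nat_lit 2150449966802) (nat_lit 0) (nat_lit 767151377125) (nat_lit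 1) (nat_lit 5) (nat_lit 3) (nat_lit 4) (nat_lit 1) (nat_lit 4) (nat_lit 256) (nat_lit 179) (nat_lit 165)) (XT.lf (nat_lit 0) (nat_lit 882950157476) (nat_lit 152) (nat_lit 2472403016787) (nat_lit 0) (nat_lit 882532214391) (nat_lit 1) (nat_lit 5) (nat_lit 3) (nat_lit 4) (nat_lit 1) (nat_lit 4) (nat_lit 257) (nat_lit 179) (nat_lit 164))) (XT.nd (nat_lit 78) (nat_lit 0) (nat_lit 0) (XT.lf (nat_lit 0) (nat_lit 1015639307093) (nat_lit 152) (nat_lit 2842665774607) (nat_lit 0) (nat_lit 1015213725806) (nat_lit 1) (nat_lit 5) (nat_lit 3) (nat_lit 4) (nat_lit 1) (nat_lit 4) (nat_lit 258) (nat_lit 179) (nat_lit 163)) (XT.lf (nat_lit 0) (nat_lit 1168224077185) (nat_lit 152) (nat_lit 3268482511612) (nat_lit 0) (nat_lit 1167791853984) (nat_lit 1) (nat_lit 5) (nat_lit 3) (nat_lit 4) (nat_lit 1) (nat_lit 4) (nat_lit 259) (nat_lit 179) (nat_lit 162)))) (XT.nd (nat_lit 156) (nat_lit 0) (nat_lit 0) (XT.nd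 (nat_lit 78) (nat_lit 0) (nat_lit 0) (XT.lf (nat_lit 0) (nat_lit 1343689821950) (nat_lit 152) (nat_lit 3758184424829) (nat_lit 0) (nat_lit 1343251823171) (nat_lit 1) (nat_lit 5) (nat_lit 3) (nat_lit 4) (nat_lit 1) (nat_lit 4) (nat_lit 260) (nat_lit 179) (nat_lit 161)) (XT.lf (nat_lit 0) (nat_lit 1545469566830) (nat_lit 152) (nat_lit 4321352638648) (nat_lit 0) (nat_lit 1545026545809) (nat_lit 1) (nat_lit 5) (nat_lit 3) (nat_lit 4) (nat_lit 1) (nat_lit 4) (nat_lit 261) (nat_lit 179) (nat_lit 160))) (XT.nd (nat_lit 78) (nat_lit 0) (nat_lit 0) (XT.lf (nat_lit 0) (nat_lit 1777511176397) (nat_lit 152) (nat_lit 4969005661601) (nat_lit 0) (nat_lit 1777063788210) (nat_lit 1) (nat_lit 5) (nat_lit 3) (nat_lit 4) (nat_lit 1) (nat_lit 4) (nat_lit 262) (nat_lit 179) (nat_lit 159)) (XT.lf (nat_lit 0) (nat_lit 2044354595188) (nat_lit 152) (nat_lit 5713814965874) (nat_lit 0) (nat_lit 2043903409465)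 (nat_lit 1) (nat_lit 5) (nat_lit 3) (nat_lit 4) (nat_lit 1) (nat_lit 4) (nat_lit 263) (nat_lit 179) (nat_lit 158)))))) (XT.nd (nat_lit 546) (nat_lit 0) (nat_lit 0) (XT.nd (nat_lit 234) (nat_lit 0) (nat_lit 0) (XT.nd (nat_lit 78) (nat_lit 0) (nat_lit 0) (XT.lf (nat_lit 0) (nat_lit 2351220672699) (nat_lit 152) (nat_lit 6570352907422) (nat_lit 0) (nat_lit 2350766184771) (nat_lit 1) (nat_lit 5) (nat_lit 3) (nat_lit 4) (nat_lit 1) (nat_lit 4) (nat_lit 264) (nat_lit 179) (nat_lit 157)) (XT.nd (nat_lit 78) (nat_lit 0) (nat_lit 0) (XT.lf (nat_lit 0) (nat_lit 2704113310449) (nat_lit 152) (nat_lit 7555377837275) (nat_lit 0) (nat_lit 2703655951037) (nat_lit 1) (nat_lit 5) (nat_lit 3) (nat_lit 4) (nat_lit 1) (nat_lit 4) (nat_lit 265) (nat_lit 179) (nat_lit 156)) (XT.lf (nat_lit 0) (nat_lit 3109936929609) (nat_lit 152) (nat_lit 8688161982321) (nat_lit 0) (nat_lit 3109477073256) (nat_lit 1) (nat_lit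 5) (nat_lit 3) (nat_lit 4) (nat_lit 1) (nat_lit 4) (nat_lit 266) (nat_lit 179) (nat_lit 155)))) (XT.nd (nat_lit 156) (nat_lit 0) (nat_lit 0) (XT.nd (nat_lit 78) (nat_lit 0) (nat_lit 0) (XT.lf (nat_lit 0) (nat_lit 3576631557511) (nat_lit 152) (nat_lit 9990868510615) (nat_lit 0) (nat_lit 3576169529905) (nat_lit 1) (nat_lit 5) (nat_lit 3) (nat_lit 4) (nat_lit 1) (nat_lit 4) (nat_lit 267) (nat_lit 179) (nat_lit 154)) (XT.lf (nat_lit 0) (nat_lit 4113328176006) (nat_lit 152) (nat_lit 11488985158580) (nat_lit 0) (nat_lit 4112864260353) (nat_lit 1) (nat_lit 5) (nat_lit 3) (nat_lit 4) (nat_lit 1) (nat_lit 4) (nat_lit 268) (nat_lit 179) (nat_lit 153))) (XT.nd (nat_lit 78) (nat_lit 0) (nat_lit 0) (XT.lf (nat_lit 0) (nat_lit 4730527371108) (nat_lit 152) (nat_lit 13211822904113) (nat_lit 0) (nat_lit 4730061813676) (nat_lit 1) (nat_lit 5) (nat_lit 3) (nat_lit 4) (nat_lit 1) (nat_lit 4) (nat_lit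 269) (nat_lit 179) (nat_lit 152)) (XT.lf (nat_lit 0) (nat_lit 5440304779243) (nat_lit 152) (nat_lit 15193089442232) (nat_lit 0) (nat_lit 5439837794175) (nat_lit 1) (nat_lit 5) (nat_lit 3) (nat_lit 4) (nat_lit 1) (nat_lit 4) (nat_lit 270) (nat_lit 179) (nat_lit 151))))) (XT.nd (nat_lit 312) (nat_lit 0) (nat_lit 0) (XT.nd (nat_lit 156) (nat_lit 0) (nat_lit 0) (XT.nd (nat_lit 78) (nat_lit 0) (nat_lit 0) (XT.lf (nat_lit 0) (nat_lit 6256547349699) (nat_lit 152) (nat_lit 17471548683469) (nat_lit 0) (nat_lit 6256079123211) (nat_lit 1) (nat_lit 5) (nat_lit 3) (nat_lit 4) (nat_lit 1) (nat_lit 4) (nat_lit 271) (nat_lit 179) (nat_lit 150)) (XT.lf (nat_lit 0) (nat_lit 7195225045813) (nat_lit 152) (nat_lit 20091779178193) (nat_lit 0) (nat_lit 7194755739828) (nat_lit 1) (nat_lit 5) (nat_lit 3) (nat_lit 4) (nat_lit 1) (nat_lit 4) (nat_lit 272) (nat_lit 179) (nat_lit 149))) (XT.nd (nat_lit 78) (nat_lit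 0) (nat_lit 0) (XT.lf (nat_lit 0) (nat_lit 8274703300768) (nat_lit 152) (nat_lit 23105046305650) (nat_lit 0) (nat_lit 8274233056090) (nat_lit 1) (nat_lit 5) (nat_lit 3) (nat_lit 4) (nat_lit 1) (nat_lit 4) (nat_lit 273) (nat_lit 179) (nat_lit 148)) (XT.lf (nat_lit 0) (nat_lit 9516102341294) (nat_lit 152) (nat_lit 26570305292247) (nat_lit 0) (nat_lit 9515631280361) (nat_lit 1) (nat_lit 5) (nat_lit 3) (nat_lit 4) (nat_lit 1) (nat_lit 4) (nat_lit 274) (nat_lit 179) (nat_lit 147)))) (XT.nd (nat_lit 156) (nat_lit 0) (nat_lit 0) (XT.nd (nat_lit 78) (nat_lit 0) (nat_lit 0) (XT.lf (nat_lit 0) (nat_lit 10943710409485) (nat_lit 152) (nat_lit 30555354683373) (nat_lit 0) (nat_lit 10943238638766) (nat_lit 1) (nat_lit 5) (nat_lit 3) (nat_lit 4) (nat_lit 1) (nat_lit 4) (nat_lit 275) (nat_lit 179) (nat_lit 146)) (XT.lf (nat_lit 0) (nat_lit 12585458967547) (nat_lit 152) (nat_lit 35138162836682) (nat_lit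 0) (nat_lit 12584986579622) (nat_lit 1) (nat_lit 5) (nat_lit 3) (nat_lit 4) (nat_lit 1) (nat_lit 4) (nat_lit 276) (nat_lit 179) (nat_lit 145))) (XT.nd (nat_lit 28392) (nat_lit 0) (nat_lit 0) (XT.lf (nat_lit 0) (nat_lit 14473469182920) (nat_lit 152) (nat_lit 40408393389954) (nat_lit 0) (nat_lit 14472996258294) (nat_lit 1) (nat_lit 5) (nat_lit 3) (nat_lit 4) (nat_lit 1) (nat_lit 4) (nat_lit 277) (nat_lit 179) (nat_lit 144)) (XT.lf (nat_lit 0) (nat_lit 39383148964) (nat_lit 152) (nat_lit 118432269544) (nat_lit 0) (nat_lit 39383148964) (nat_lit 1) (nat_lit 5) (nat_lit 3) (nat_lit 4) (nat_lit 1) (nat_lit 4) (nat_lit 240) (nat_lit 180) (nat_lit 180))))))))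
noncomputable def xc6 : XT := (XT.nd (nat_lit 2340) (nat_lit 0) (nat_lit 0) (XT.nd (nat_lit 1170) (nat_lit 0) (nat_lit 0) (XT.nd (nat_lit 546) (nat_lit 0) (nat_lit 0) (XT.nd (nat_lit 234) (nat_lit 0) (nat_lit 0) (XT.nd (nat_lit 78) (nat_lit 0) (nat_lit 0) (XT.lf (nat_lit 0) (nat_lit 91352655742) (nat_lit 152) (nat_lit 270790334888) (nat_lit 0) (nat_lit 91281180348) (nat_lit 1) (nat_lit 5) (nat_lit 3) (nat_lit 4) (nat_lit 1) (nat_lit 4) (nat_lit 241) (nat_lit 180) (nat_lit 179)) (XT.nd (nat_lit 78) (nat_lit 0) (nat_lit 0) (XT.lf (nat_lit 0) (nat_lit 105754427261) (nat_lit 152) (nat_lit 309941298589) (nat_lit 0) (nat_lit 105620799350) (nat_lit 1) (nat_lit 5) (nat_lit 3) (nat_lit 4) (nat_lit 1) (nat_lit 4) (nat_lit 242) (nat_lit 180) (nat_lit 178)) (XT.lf (nat_lit 0) (nat_lit 122253386278) (nat_lit 152) (nat_lit 355083427309) (nat_lit 0) (nat_lit 122065712699) (nat_lit 1) (nat_lit 5)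 (nat_lit 3) (nat_lit 4) (nat_lit 1) (nat_lit 4) (nat_lit 243) (nat_lit 180) (nat_lit 177)))) (XT.nd (nat_lit 156) (nat_lit 0) (nat_lit 0) (XT.nd (nat_lit 78) (nat_lit 0) (nat_lit 0) (XT.lf (nat_lit 0) (nat_lit 141172338511) (nat_lit 152) (nat_lit 407099936610) (nat_lit 0) (nat_lit 140937668700) (nat_lit 1) (nat_lit 5) (nat_lit 3) (nat_lit 4) (nat_lit 1) (nat_lit 4) (nat_lit 244) (nat_lit 180) (nat_lit 176)) (XT.lf (nat_lit 0) (nat_lit 162881437374) (nat_lit 152) (nat_lit 467008540804) (nat_lit 0) (nat_lit 162605901274) (nat_lit 1) (nat_lit 5) (nat_lit 3) (nat_lit 4) (nat_lit 1) (nat_lit 4) (nat_lit 245) (nat_lit 180) (nat_lit 175))) (XT.nd (nat_lit 78) (nat_lit 0) (nat_lit 0) (XT.lf (nat_lit 0) (nat_lit 187805426105) (nat_lit 152) (nat_lit 535981364755) (nat_lit 0) (nat_lit 187494354103) (nat_lit 1) (nat_lit 5) (nat_lit 3) (nat_lit 4) (nat_lit 1) (nat_lit 4) (nat_lit 246) (nat_lit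 180) (nat_lit 174)) (XT.lf (nat_lit 0) (nat_lit 216431947964) (nat_lit 152) (nat_lit 615367876760) (nat_lit 0) (nat_lit 216089975176) (nat_lit 1) (nat_lit 5) (nat_lit 3) (nat_lit 4) (nat_lit 1) (nat_lit 4) (nat_lit 247) (nat_lit 180) (nat_lit 173))))) (XT.nd (nat_lit 312) (nat_lit 0) (nat_lit 0) (XT.nd (nat_lit 156) (nat_lit 0) (nat_lit 0) (XT.nd (nat_lit 78) (nat_lit 0) (nat_lit 0) (XT.lf (nat_lit 0) (nat_lit 249321087072) (nat_lit 152) (nat_lit 706721291182) (nat_lit 0) (nat_lit 248952244035) (nat_lit 1) (nat_lit 5) (nat_lit 3) (nat_lit 4) (nat_lit 1) (nat_lit 4) (nat_lit 248) (nat_lit 180) (nat_lit 172)) (XT.lf (nat_lit 0) (nat_lit 287116326587) (nat_lit 152) (nat_lit 811828957435) (nat_lit 0) (nat_lit 286724118117) (nat_lit 1) (nat_lit 5) (nat_lit 3) (nat_lit 4) (nat_lit 1) (nat_lit 4) (nat_lit 249) (nat_lit 180) (nat_lit 171))) (XT.nd (nat_lit 78) (nat_lit 0) (nat_lit 0) (XT.lf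 (nat_lit 0) (nat_lit 330557138585) (nat_lit 152) (nat_lit 932747329857) (nat_lit 0) (nat_lit 330144612347) (nat_lit 1) (nat_lit 5) (nat_lit 3) (nat_lit 4) (nat_lit 1) (nat_lit 4) (nat_lit 250) (nat_lit 180) (nat_lit 170)) (XT.lf (nat_lit 0) (nat_lit 380493451997) (nat_lit 152) (nat_lit 1071842202693) (nat_lit 0) (nat_lit 380063258135) (nat_lit 1) (nat_lit 5) (nat_lit 3) (nat_lit 4) (nat_lit 1) (nat_lit 4) (nat_lit 251) (nat_lit 180) (nat_lit 169)))) (XT.nd (nat_lit 156) (nat_lit 0) (nat_lit 0) (XT.nd (nat_lit 78) (nat_lit 0) (nat_lit 0) (XT.lf (nat_lit 0) (nat_lit 437902281652) (nat_lit 152) (nat_lit 1231834997368) (nat_lit 0) (nat_lit 437456724638) (nat_lit 1) (nat_lit 5) (nat_lit 3) (nat_lit 4) (nat_lit 1) (nat_lit 4) (nat_lit 252) (nat_lit 180) (nat_lit 168)) (XT.lf (nat_lit 0) (nat_lit 503906843780) (nat_lit 152) (nat_lit 1415856007689) (nat_lit 0) (nat_lit 503447927504) (nat_lit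 1) (nat_lit 5) (nat_lit 3) (nat_lit 4) (nat_lit 1) (nat_lit 4) (nat_lit 253) (nat_lit 180) (nat_lit 167))) (XT.nd (nat_lit 78) (nat_lit 0) (nat_lit 0) (XT.lf (nat_lit 0) (nat_lit 579798531990) (nat_lit 152) (nat_lit 1627505644729) (nat_lit 0) (nat_lit 579327998963) (nat_lit 1) (nat_lit 5) (nat_lit 3) (nat_lit 4) (nat_lit 1) (nat_lit 4) (nat_lit 254) (nat_lit 180) (nat_lit 166)) (XT.lf (nat_lit 0) (nat_lit 667062183658) (nat_lit 152) (nat_lit 1870924879647) (nat_lit 0) (nat_lit 666581549110) (nat_lit 1) (nat_lit 5) (nat_lit 3) (nat_lit 4) (nat_lit 1) (nat_lit 4) (nat_lit 255) (nat_lit 180) (nat_lit 165)))))) (XT.nd (nat_lit 546) (nat_lit 0) (nat_lit 0) (XT.nd (nat_lit 234) (nat_lit 0) (nat_lit 0) (XT.nd (nat_lit 78) (nat_lit 0) (nat_lit 0) (XT.lf (nat_lit 0) (nat_lit 767405131101) (nat_lit 152) (nat_lit 2150876262692) (nat_lit 0) (nat_lit 766915712621) (nat_lit 1) (nat_lit 5) (nat_lit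 3) (nat_lit 4) (nat_lit 1) (nat_lit 4) (nat_lit 256) (nat_lit 180) (nat_lit 164)) (XT.nd (nat_lit 78) (nat_lit 0) (nat_lit 0) (XT.lf (nat_lit 0) (nat_lit 882790605898) (nat_lit 152) (nat_lit 2472837103531) (nat_lit 0) (nat_lit 882293549217) (nat_lit 1) (nat_lit 5) (nat_lit 3) (nat_lit 4) (nat_lit 1) (nat_lit 4) (nat_lit 257) (nat_lit 180) (nat_lit 163)) (XT.lf (nat_lit 0) (nat_lit 1015476149949) (nat_lit 152) (nat_lit 2843106636008) (nat_lit 0) (nat_lit 1014972451353) (nat_lit 1) (nat_lit 5) (nat_lit 3) (nat_lit 4) (nat_lit 1) (nat_lit 4) (nat_lit 258) (nat_lit 180) (nat_lit 162)))) (XT.nd (nat_lit 156) (nat_lit 0) (nat_lit 0) (XT.nd (nat_lit 78) (nat_lit 0) (nat_lit 0) (XT.lf (nat_lit 0) (nat_lit 1168057784766) (nat_lit 152) (nat_lit 3268929264018) (nat_lit 0) (nat_lit 1167548310593) (nat_lit 1) (nat_lit 5) (nat_lit 3) (nat_lit 4) (nat_lit 1) (nat_lit 4) (nat_lit 259) (nat_lit 180)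 (nat_lit 161)) (XT.lf (nat_lit 0) (nat_lit 1343520803206) (nat_lit 152) (nat_lit 3758636299849) (nat_lit 0) (nat_lit 1343006306791) (nat_lit 1) (nat_lit 5) (nat_lit 3) (nat_lit 4) (nat_lit 1) (nat_lit 4) (nat_lit 260) (nat_lit 180) (nat_lit 160))) (XT.nd (nat_lit 78) (nat_lit 0) (nat_lit 0) (XT.lf (nat_lit 0) (nat_lit 1545298177367) (nat_lit 152) (nat_lit 4321808968115) (nat_lit 0) (nat_lit 1544779313786) (nat_lit 1) (nat_lit 5) (nat_lit 3) (nat_lit 4) (nat_lit 1) (nat_lit 4) (nat_lit 261) (nat_lit 180) (nat_lit 159)) (XT.lf (nat_lit 0) (nat_lit 1777337725441) (nat_lit 152) (nat_lit 4969465864499) (nat_lit 0) (nat_lit 1776815064323) (nat_lit 1) (nat_lit 5) (nat_lit 3) (nat_lit 4) (nat_lit 1) (nat_lit 4) (nat_lit 262) (nat_lit 180) (nat_lit 158))))) (XT.nd (nat_lit 312) (nat_lit 0) (nat_lit 0) (XT.nd (nat_lit 156) (nat_lit 0) (nat_lit 0) (XT.nd (nat_lit 78) (nat_lit 0) (nat_lit 0)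 (XT.lf (nat_lit 0) (nat_lit 2044179351628) (nat_lit 152) (nat_lit 5714278536974) (nat_lit 0) (nat_lit 2043653388305) (nat_lit 1) (nat_lit 5) (nat_lit 3) (nat_lit 4) (nat_lit 1) (nat_lit 4) (nat_lit 263) (nat_lit 180) (nat_lit 157)) (XT.lf (nat_lit 0) (nat_lit 2351043870354) (nat_lit 152) (nat_lit 6570819407393) (nat_lit 0) (nat_lit 2350515035548) (nat_lit 1) (nat_lit 5) (nat_lit 3) (nat_lit 4) (nat_lit 1) (nat_lit 4) (nat_lit 264) (nat_lit 180) (nat_lit 156))) (XT.nd (nat_lit 78) (nat_lit 0) (nat_lit 0) (XT.lf (nat_lit 0) (nat_lit 2703935152637) (nat_lit 152) (nat_lit 7555846884090) (nat_lit 0) (nat_lit 2703403820890) (nat_lit 1) (nat_lit 5) (nat_lit 3) (nat_lit 4) (nat_lit 1) (nat_lit 4) (nat_lit 265) (nat_lit 180) (nat_lit 155)) (XT.lf (nat_lit 0) (nat_lit 3109757593131) (nat_lit 152) (nat_lit 8688633243783) (nat_lit 0) (nat_lit 3109224090130) (nat_lit 1) (nat_lit 5) (nat_lit 3)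 (nat_lit 4) (nat_lit 1) (nat_lit 4) (nat_lit 266) (nat_lit 180) (nat_lit 154)))) (XT.nd (nat_lit 156) (nat_lit 0) (nat_lit 0) (XT.nd (nat_lit 78) (nat_lit 0) (nat_lit 0) (XT.lf (nat_lit 0) (nat_lit 3576451196107) (nat_lit 152) (nat_lit 9991341697858) (nat_lit 0) (nat_lit 3575915805059) (nat_lit 1) (nat_lit 5) (nat_lit 3) (nat_lit 4) (nat_lit 1) (nat_lit 4) (nat_lit 267) (nat_lit 180) (nat_lit 153)) (XT.lf (nat_lit 0) (nat_lit 4113146923361) (nat_lit 152) (nat_lit 11489460020415) (nat_lit 0) (nat_lit 4112609890534) (nat_lit 1) (nat_lit 5) (nat_lit 3) (nat_lit 4) (nat_lit 1) (nat_lit 4) (nat_lit 268) (nat_lit 180) (nat_lit 152))) (XT.nd (nat_lit 78) (nat_lit 0) (nat_lit 0) (XT.lf (nat_lit 0) (nat_lit 4730345343471) (nat_lit 152) (nat_lit 13212299222113) (nat_lit 0) (nat_lit 4729806883010) (nat_lit 1) (nat_lit 5) (nat_lit 3) (nat_lit 4) (nat_lit 1) (nat_lit 4) (nat_lit 269) (nat_lit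 180) (nat_lit 151)) (XT.lf (nat_lit 0) (nat_lit 5440122077700) (nat_lit 152) (nat_lit 15193567026465) (nat_lit 0) (nat_lit 5439582375817) (nat_lit 1) (nat_lit 5) (nat_lit 3) (nat_lit 4) (nat_lit 1) (nat_lit 4) (nat_lit 270) (nat_lit 180) (nat_lit 150))))))) (XT.nd (nat_lit 29406) (nat_lit 0) (nat_lit 0) (XT.nd (nat_lit 28782) (nat_lit 0) (nat_lit 0) (XT.nd (nat_lit 234) (nat_lit 0) (nat_lit 0) (XT.nd (nat_lit 78) (nat_lit 0) (nat_lit 0) (XT.lf (nat_lit 0) (nat_lit 6256364062151) (nat_lit 152) (nat_lit 17472027368772) (nat_lit 0) (nat_lit 6255823280771) (nat_lit 1) (nat_lit 5) (nat_lit 3) (nat_lit 4) (nat_lit 1) (nat_lit 4) (nat_lit 271) (nat_lit 180) (nat_lit 149)) (XT.nd (nat_lit 78) (nat_lit 0) (nat_lit 0) (XT.lf (nat_lit 0) (nat_lit 7195041248695) (nat_lit 152) (nat_lit 20092258820950) (nat_lit 0) (nat_lit 7194499528622) (nat_lit 1) (nat_lit 5) (nat_lit 3) (nat_lit 4) (nat_lit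 1) (nat_lit 4) (nat_lit 272) (nat_lit 180) (nat_lit 148)) (XT.lf (nat_lit 0) (nat_lit 8274519060546) (nat_lit 152) (nat_lit 23105526780975) (nat_lit 0) (nat_lit 8273976524219) (nat_lit 1) (nat_lit 5) (nat_lit 3) (nat_lit 4) (nat_lit 1) (nat_lit 4) (nat_lit 273) (nat_lit 180) (nat_lit 147)))) (XT.nd (nat_lit 156) (nat_lit 0) (nat_lit 0) (XT.nd (nat_lit 78) (nat_lit 0) (nat_lit 0) (XT.lf (nat_lit 0) (nat_lit 9515917715763) (nat_lit 152) (nat_lit 26570786491544) (nat_lit 0) (nat_lit 9515374469649) (nat_lit 1) (nat_lit 5) (nat_lit 3) (nat_lit 4) (nat_lit 1) (nat_lit 4) (nat_lit 274) (nat_lit 180) (nat_lit 146)) (XT.lf (nat_lit 0) (nat_lit 10943525448905) (nat_lit 152) (nat_lit 30555836512211) (nat_lit 0) (nat_lit 10942981585585) (nat_lit 1) (nat_lit 5) (nat_lit 3) (nat_lit 4) (nat_lit 1) (nat_lit 4) (nat_lit 275) (nat_lit 180) (nat_lit 145))) (XT.nd (nat_lit 28314) (nat_lit 0) (nat_lit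 0) (XT.lf (nat_lit 0) (nat_lit 12585273715619) (nat_lit 152) (nat_lit 35138645212946) (nat_lit 0) (nat_lit 12584729315598) (nat_lit 1) (nat_lit 5) (nat_lit 3) (nat_lit 4) (nat_lit 1) (nat_lit 4) (nat_lit 276) (nat_lit 180) (nat_lit 144)) (XT.lf (nat_lit 0) (nat_lit 29106161134) (nat_lit 152) (nat_lit 91019397151) (nat_lit 0) (nat_lit 29106161134) (nat_lit 1) (nat_lit 5) (nat_lit 3) (nat_lit 4) (nat_lit 1) (nat_lit 4) (nat_lit 238) (nat_lit 181) (nat_lit 181))))) (XT.nd (nat_lit 312) (nat_lit 0) (nat_lit 0) (XT.nd (nat_lit 156) (nat_lit 0) (nat_lit 0) (XT.nd (nat_lit 78) (nat_lit 0) (nat_lit 0) (XT.lf (nat_lit 0) (nat_lit 67831295700) (nat_lit 152) (nat_lit 207500145624) (nat_lit 0) (nat_lit 67749098996) (nat_lit 1) (nat_lit 5) (nat_lit 3) (nat_lit 4) (nat_lit 1) (nat_lit 4) (nat_lit 239) (nat_lit 181) (nat_lit 180)) (XT.lf (nat_lit 0) (nat_lit 78809694186) (nat_lit 152) (nat_lit 236937442956)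 (nat_lit 0) (nat_lit 78656022088) (nat_lit 1) (nat_lit 5) (nat_lit 3) (nat_lit 4) (nat_lit 1) (nat_lit 4) (nat_lit 240) (nat_lit 181) (nat_lit 179))) (XT.nd (nat_lit 78) (nat_lit 0) (nat_lit 0) (XT.lf (nat_lit 0) (nat_lit 91362312480) (nat_lit 152) (nat_lit 270926633421) (nat_lit 0) (nat_lit 91146487865) (nat_lit 1) (nat_lit 5) (nat_lit 3) (nat_lit 4) (nat_lit 1) (nat_lit 4) (nat_lit 241) (nat_lit 181) (nat_lit 178)) (XT.lf (nat_lit 0) (nat_lit 105734745288) (nat_lit 152) (nat_lit 310132722919) (nat_lit 0) (nat_lit 105464875005) (nat_lit 1) (nat_lit 5) (nat_lit 3) (nat_lit 4) (nat_lit 1) (nat_lit 4) (nat_lit 242) (nat_lit 181) (nat_lit 177)))) (XT.nd (nat_lit 156) (nat_lit 0) (nat_lit 0) (XT.nd (nat_lit 78) (nat_lit 0) (nat_lit 0) (XT.lf (nat_lit 0) (nat_lit 122208192380) (nat_lit 152) (nat_lit 355322787115) (nat_lit 0) (nat_lit 121891325866) (nat_lit 1) (nat_lit 5) (nat_lit 3) (nat_lit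 4) (nat_lit 1) (nat_lit 4) (nat_lit 243) (nat_lit 181) (nat_lit 176)) (XT.lf (nat_lit 0) (nat_lit 141104960332) (nat_lit 152) (nat_lit 407380979438) (nat_lit 0) (nat_lit 140747227529) (nat_lit 1) (nat_lit 5) (nat_lit 3) (nat_lit 4) (nat_lit 1) (nat_lit 4) (nat_lit 244) (nat_lit 181) (nat_lit 175))) (XT.nd (nat_lit 78) (nat_lit 0) (nat_lit 0) (XT.lf (nat_lit 0) (nat_lit 162794768516) (nat_lit 152) (nat_lit 467325829738) (nat_lit 0) (nat_lit 162401499809) (nat_lit 1) (nat_lit 5) (nat_lit 3) (nat_lit 4) (nat_lit 1) (nat_lit 4) (nat_lit 245) (nat_lit 181) (nat_lit 174)) (XT.lf (nat_lit 0) (nat_lit 187701982744) (nat_lit 152) (nat_lit 536330172043) (nat_lit 0) (nat_lit 187277813251) (nat_lit 1) (nat_lit 5) (nat_lit 3) (nat_lit 4) (nat_lit 1) (nat_lit 4) (nat_lit 246) (nat_lit 181) (nat_lit 173)))))) (XT.nd (nat_lit 546) (nat_lit 0) (nat_lit 0) (XT.nd (nat_lit 234) (nat_lit 0) (nat_lit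 0) (XT.nd (nat_lit 78) (nat_lit 0) (nat_lit 0) (XT.lf (nat_lit 0) (nat_lit 216313918077) (nat_lit 152) (nat_lit 615744091312) (nat_lit 0) (nat_lit 215862878336) (nat_lit 1) (nat_lit 5) (nat_lit 3) (nat_lit 4) (nat_lit 1) (nat_lit 4) (nat_lit 247) (nat_lit 181) (nat_lit 172)) (XT.nd (nat_lit 78) (nat_lit 0) (nat_lit 0) (XT.lf (nat_lit 0) (nat_lit 249190373250) (nat_lit 152) (nat_lit 707121338137) (nat_lit 0) (nat_lit 248715968077) (nat_lit 1) (nat_lit 5) (nat_lit 3) (nat_lit 4) (nat_lit 1) (nat_lit 4) (nat_lit 248) (nat_lit 181) (nat_lit 171)) (XT.lf (nat_lit 0) (nat_lit 286974583256) (nat_lit 152) (nat_lit 812249728219) (nat_lit 0) (nat_lit 286479860314) (nat_lit 1) (nat_lit 5) (nat_lit 3) (nat_lit 4) (nat_lit 1) (nat_lit 4) (nat_lit 249) (nat_lit 181) (nat_lit 170)))) (XT.nd (nat_lit 156) (nat_lit 0) (nat_lit 0) (XT.nd (nat_lit 78) (nat_lit 0) (nat_lit 0) (XT.lf (nat_lit 0) (nat_lit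 330405804377) (nat_lit 152) (nat_lit 933186121362) (nat_lit 0) (nat_lit 329893413811) (nat_lit 1) (nat_lit 5) (nat_lit 3) (nat_lit 4) (nat_lit 1) (nat_lit 4) (nat_lit 250) (nat_lit 181) (nat_lit 169)) (XT.lf (nat_lit 0) (nat_lit 380333777897) (nat_lit 152) (nat_lit 1072296664390) (nat_lit 0) (nat_lit 379806024179) (nat_lit 1) (nat_lit 5) (nat_lit 3) (nat_lit 4) (nat_lit 1) (nat_lit 4) (nat_lit 251) (nat_lit 181) (nat_lit 168))) (XT.nd (nat_lit 78) (nat_lit 0) (nat_lit 0) (XT.lf (nat_lit 0) (nat_lit 437735355470) (nat_lit 152) (nat_lit 1232303085319) (nat_lit 0) (nat_lit 437194242490) (nat_lit 1) (nat_lit 5) (nat_lit 3) (nat_lit 4) (nat_lit 1) (nat_lit 4) (nat_lit 252) (nat_lit 181) (nat_lit 167)) (XT.lf (nat_lit 0) (nat_lit 503733611441) (nat_lit 152) (nat_lit 1416335944557) (nat_lit 0) (nat_lit 503180881711) (nat_lit 1) (nat_lit 5) (nat_lit 3) (nat_lit 4) (nat_lit 1) (nat_lit 4)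 (nat_lit 253) (nat_lit 181) (nat_lit 166))))) (XT.nd (nat_lit 312) (nat_lit 0) (nat_lit 0) (XT.nd (nat_lit 156) (nat_lit 0) (nat_lit 0) (XT.nd (nat_lit 78) (nat_lit 0) (nat_lit 0) (XT.lf (nat_lit 0) (nat_lit 579619816036) (nat_lit 152) (nat_lit 1627995885002) (nat_lit 0) (nat_lit 579056984784) (nat_lit 1) (nat_lit 5) (nat_lit 3) (nat_lit 4) (nat_lit 1) (nat_lit 4) (nat_lit 254) (nat_lit 181) (nat_lit 165)) (XT.lf (nat_lit 0) (nat_lit 666878699343) (nat_lit 152) (nat_lit 1871424079403) (nat_lit 0) (nat_lit 666307084160) (nat_lit 1) (nat_lit 5) (nat_lit 3) (nat_lit 4) (nat_lit 1) (nat_lit 4) (nat_lit 255) (nat_lit 181) (nat_lit 164))) (XT.nd (nat_lit 78) (nat_lit 0) (nat_lit 0) (XT.lf (nat_lit 0) (nat_lit 767217500385) (nat_lit 152) (nat_lit 2151383253303) (nat_lit 0) (nat_lit 766638247001) (nat_lit 1) (nat_lit 5) (nat_lit 3) (nat_lit 4) (nat_lit 1) (nat_lit 4) (nat_lit 256) (nat_lit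 181) (nat_lit 163)) (XT.lf (nat_lit 0) (nat_lit 882599369617) (nat_lit 152) (nat_lit 2473350868799) (nat_lit 0) (nat_lit 882013474318) (nat_lit 1) (nat_lit 5) (nat_lit 3) (nat_lit 4) (nat_lit 1) (nat_lit 4) (nat_lit 257) (nat_lit 181) (nat_lit 162)))) (XT.nd (nat_lit 156) (nat_lit 0) (nat_lit 0) (XT.nd (nat_lit 78) (nat_lit 0) (nat_lit 0) (XT.lf (nat_lit 0) (nat_lit 1015281778393) (nat_lit 152) (nat_lit 2843626292281) (nat_lit 0) (nat_lit 1014690107516) (nat_lit 1) (nat_lit 5) (nat_lit 3) (nat_lit 4) (nat_lit 1) (nat_lit 4) (nat_lit 258) (nat_lit 181) (nat_lit 161)) (XT.lf (nat_lit 0) (nat_lit 1167860686884) (nat_lit 152) (nat_lit 3269454042905) (nat_lit 0) (nat_lit 1167263993766) (nat_lit 1) (nat_lit 5) (nat_lit 3) (nat_lit 4) (nat_lit 1) (nat_lit 4) (nat_lit 259) (nat_lit 181) (nat_lit 160))) (XT.nd (nat_lit 78) (nat_lit 0) (nat_lit 0) (XT.lf (nat_lit 0) (nat_lit 1343321334606)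 (nat_lit 152) (nat_lit 3759165533183) (nat_lit 0) (nat_lit 1342720274321) (nat_lit 1) (nat_lit 5) (nat_lit 3) (nat_lit 4) (nat_lit 1) (nat_lit 4) (nat_lit 260) (nat_lit 181) (nat_lit 159)) (XT.lf (nat_lit 0) (nat_lit 1545096647273) (nat_lit 152) (nat_lit 4322342074880) (nat_lit 0) (nat_lit 1544491789452) (nat_lit 1) (nat_lit 5) (nat_lit 3) (nat_lit 4) (nat_lit 1) (nat_lit 4) (nat_lit 261) (nat_lit 181) (nat_lit 158))))))))
noncomputable def xc7 : XT := (XT.nd (nat_lit 30342) (nat_lit 0) (nat_lit 0) (XT.nd (nat_lit 1404) (nat_lit 0) (nat_lit 0) (XT.nd (nat_lit 546) (nat_lit 0) (nat_lit 0) (XT.nd (nat_lit 234) (nat_lit 0) (nat_lit 0) (XT.nd (nat_lit 78) (nat_lit 0) (nat_lit 0) (XT.lf (nat_lit 0) (nat_lit 1777134402743) (nat_lit 152) (nat_lit 4970002339466) (nat_lit 0) (nat_lit 1776526242717) (nat_lit 1) (nat_lit 5) (nat_lit 3) (nat_lit 4) (nat_lit 1) (nat_lit 4) (nat_lit 262) (nat_lit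 181) (nat_lit 157)) (XT.nd (nat_lit 78) (nat_lit 0) (nat_lit 0) (XT.lf (nat_lit 0) (nat_lit 2043974470145) (nat_lit 152) (nat_lit 5714817940812) (nat_lit 0) (nat_lit 2043363438635) (nat_lit 1) (nat_lit 5) (nat_lit 3) (nat_lit 4) (nat_lit 1) (nat_lit 4) (nat_lit 263) (nat_lit 181) (nat_lit 156)) (XT.lf (nat_lit 0) (nat_lit 2350837633405) (nat_lit 152) (nat_lit 6571361358075) (nat_lit 0) (nat_lit 2350224104954) (nat_lit 1) (nat_lit 5) (nat_lit 3) (nat_lit 4) (nat_lit 1) (nat_lit 4) (nat_lit 264) (nat_lit 181) (nat_lit 155)))) (XT.nd (nat_lit 156) (nat_lit 0) (nat_lit 0) (XT.nd (nat_lit 78) (nat_lit 0) (nat_lit 0) (XT.lf (nat_lit 0) (nat_lit 2703727737022) (nat_lit 152) (nat_lit 7556391049419) (nat_lit 0) (nat_lit 2703112037318) (nat_lit 1) (nat_lit 5) (nat_lit 3) (nat_lit 4) (nat_lit 1) (nat_lit 4) (nat_lit 265) (nat_lit 181) (nat_lit 154)) (XT.lf (nat_lit 0) (nat_lit 3109549152590)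 (nat_lit 152) (nat_lit 8689179334893) (nat_lit 0) (nat_lit 3108931564838) (nat_lit 1) (nat_lit 5) (nat_lit 3) (nat_lit 4) (nat_lit 1) (nat_lit 4) (nat_lit 266) (nat_lit 181) (nat_lit 153))) (XT.nd (nat_lit 78) (nat_lit 0) (nat_lit 0) (XT.lf (nat_lit 0) (nat_lit 3576241864325) (nat_lit 152) (nat_lit 9991889463558) (nat_lit 0) (nat_lit 3575622634794) (nat_lit 1) (nat_lit 5) (nat_lit 3) (nat_lit 4) (nat_lit 1) (nat_lit 4) (nat_lit 267) (nat_lit 181) (nat_lit 152)) (XT.lf (nat_lit 0) (nat_lit 4112936816587) (nat_lit 152) (nat_lit 11490009242282) (nat_lit 0) (nat_lit 4112316159421) (nat_lit 1) (nat_lit 5) (nat_lit 3) (nat_lit 4) (nat_lit 1) (nat_lit 4) (nat_lit 268) (nat_lit 181) (nat_lit 151))))) (XT.nd (nat_lit 312) (nat_lit 0) (nat_lit 0) (XT.nd (nat_lit 156) (nat_lit 0) (nat_lit 0) (XT.nd (nat_lit 78) (nat_lit 0) (nat_lit 0) (XT.lf (nat_lit 0) (nat_lit 4730134562791) (nat_lit 152)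 (nat_lit 13212849710212) (nat_lit 0) (nat_lit 4729512664204) (nat_lit 1) (nat_lit 5) (nat_lit 3) (nat_lit 4) (nat_lit 1) (nat_lit 4) (nat_lit 269) (nat_lit 181) (nat_lit 150)) (XT.lf (nat_lit 0) (nat_lit 5439910711014) (nat_lit 152) (nat_lit 15194118615635) (nat_lit 0) (nat_lit 5439287732930) (nat_lit 1) (nat_lit 5) (nat_lit 3) (nat_lit 4) (nat_lit 1) (nat_lit 4) (nat_lit 270) (nat_lit 181) (nat_lit 149))) (XT.nd (nat_lit 78) (nat_lit 0) (nat_lit 0) (XT.lf (nat_lit 0) (nat_lit 6256152185895) (nat_lit 152) (nat_lit 17472579915395) (nat_lit 0) (nat_lit 6255528269119) (nat_lit 1) (nat_lit 5) (nat_lit 3) (nat_lit 4) (nat_lit 1) (nat_lit 4) (nat_lit 271) (nat_lit 181) (nat_lit 148)) (XT.lf (nat_lit 0) (nat_lit 7194828929335) (nat_lit 152) (nat_lit 20092812200141) (nat_lit 0) (nat_lit 7194204196304) (nat_lit 1) (nat_lit 5) (nat_lit 3) (nat_lit 4) (nat_lit 1) (nat_lit 4) (nat_lit 272) (nat_lit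 181) (nat_lit 147)))) (XT.nd (nat_lit 156) (nat_lit 0) (nat_lit 0) (XT.nd (nat_lit 78) (nat_lit 0) (nat_lit 0) (XT.lf (nat_lit 0) (nat_lit 8274306355879) (nat_lit 152) (nat_lit 23106080884138) (nat_lit 0) (nat_lit 8273680913061) (nat_lit 1) (nat_lit 5) (nat_lit 3) (nat_lit 4) (nat_lit 1) (nat_lit 4) (nat_lit 273) (nat_lit 181) (nat_lit 146)) (XT.lf (nat_lit 0) (nat_lit 9515704676045) (nat_lit 152) (nat_lit 26571341224248) (nat_lit 0) (nat_lit 9515078616022) (nat_lit 1) (nat_lit 5) (nat_lit 3) (nat_lit 4) (nat_lit 1) (nat_lit 4) (nat_lit 274) (nat_lit 181) (nat_lit 145))) (XT.nd (nat_lit 312) (nat_lit 0) (nat_lit 0) (XT.lf (nat_lit 0) (nat_lit 10943312117838) (nat_lit 152) (nat_lit 30556391792342) (nat_lit 0) (nat_lit 10942685521114) (nat_lit 1) (nat_lit 5) (nat_lit 3) (nat_lit 4) (nat_lit 1) (nat_lit 4) (nat_lit 275) (nat_lit 181) (nat_lit 144)) (XT.lf (nat_lit 0) (nat_lit 19141172715688)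 (nat_lit 152) (nat_lit 53440081992482) (nat_lit 0) (nat_lit 19140544586695) (nat_lit 1) (nat_lit 5) (nat_lit 3) (nat_lit 4) (nat_lit 1) (nat_lit 4) (nat_lit 279) (nat_lit 181) (nat_lit 140)))))) (XT.nd (nat_lit 28314) (nat_lit 0) (nat_lit 0) (XT.nd (nat_lit 28002) (nat_lit 0) (nat_lit 0) (XT.nd (nat_lit 27846) (nat_lit 0) (nat_lit 0) (XT.lf (nat_lit 0) (nat_lit 22012598263642) (nat_lit 152) (nat_lit 61455447621190) (nat_lit 0) (nat_lit 22011969867814) (nat_lit 1) (nat_lit 5) (nat_lit 3) (nat_lit 4) (nat_lit 1) (nat_lit 4) (nat_lit 280) (nat_lit 181) (nat_lit 139)) (XT.nd (nat_lit 78) (nat_lit 0) (nat_lit 0) (XT.lf (nat_lit 0) (nat_lit 21234308233) (nat_lit 152) (nat_lit 70511465269) (nat_lit 0) (nat_lit 21234308233) (nat_lit 1) (nat_lit 5) (nat_lit 3) (nat_lit 4) (nat_lit 1) (nat_lit 4) (nat_lit 236) (nat_lit 182) (nat_lit 182)) (XT.lf (nat_lit 0) (nat_lit 49859102793) (nat_lit 152)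 (nat_lit 160055232120) (nat_lit 0) (nat_lit 49764576584) (nat_lit 1) (nat_lit 5) (nat_lit 3) (nat_lit 4) (nat_lit 1) (nat_lit 4) (nat_lit 237) (nat_lit 182) (nat_lit 181)))) (XT.nd (nat_lit 156) (nat_lit 0) (nat_lit 0) (XT.nd (nat_lit 78) (nat_lit 0) (nat_lit 0) (XT.lf (nat_lit 0) (nat_lit 58262227964) (nat_lit 152) (nat_lit 182122633750) (nat_lit 0) (nat_lit 58085505050) (nat_lit 1) (nat_lit 5) (nat_lit 3) (nat_lit 4) (nat_lit 1) (nat_lit 4) (nat_lit 238) (nat_lit 182) (nat_lit 180)) (XT.lf (nat_lit 0) (nat_lit 67842400949) (nat_lit 152) (nat_lit 207656888937) (nat_lit 0) (nat_lit 67594202641) (nat_lit 1) (nat_lit 5) (nat_lit 3) (nat_lit 4) (nat_lit 1) (nat_lit 4) (nat_lit 239) (nat_lit 182) (nat_lit 179))) (XT.nd (nat_lit 78) (nat_lit 0) (nat_lit 0) (XT.lf (nat_lit 0) (nat_lit 78787059917) (nat_lit 152) (nat_lit 237157580936) (nat_lit 0) (nat_lit 78476709092) (nat_lit 1) (nat_lit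 5) (nat_lit 3) (nat_lit 4) (nat_lit 1) (nat_lit 4) (nat_lit 240) (nat_lit 182) (nat_lit 178)) (XT.lf (nat_lit 0) (nat_lit 91310339498) (nat_lit 152) (nat_lit 271201897198) (nat_lit 0) (nat_lit 90945943007) (nat_lit 1) (nat_lit 5) (nat_lit 3) (nat_lit 4) (nat_lit 1) (nat_lit 4) (nat_lit 241) (nat_lit 182) (nat_lit 177))))) (XT.nd (nat_lit 312) (nat_lit 0) (nat_lit 0) (XT.nd (nat_lit 156) (nat_lit 0) (nat_lit 0) (XT.nd (nat_lit 78) (nat_lit 0) (nat_lit 0) (XT.lf (nat_lit 0) (nat_lit 105657260382) (nat_lit 152) (nat_lit 310455922172) (nat_lit 0) (nat_lit 105245867658) (nat_lit 1) (nat_lit 5) (nat_lit 3) (nat_lit 4) (nat_lit 1) (nat_lit 4) (nat_lit 242) (nat_lit 182) (nat_lit 176)) (XT.lf (nat_lit 0) (nat_lit 122108523193) (nat_lit 152) (nat_lit 355687669390) (nat_lit 0) (nat_lit 121656264181) (nat_lit 1) (nat_lit 5) (nat_lit 3) (nat_lit 4) (nat_lit 1) (nat_lit 4) (nat_lit 243) (nat_lit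 182) (nat_lit 175))) (XT.nd (nat_lit 78) (nat_lit 0) (nat_lit 0) (XT.lf (nat_lit 0) (nat_lit 140986000466) (nat_lit 152) (nat_lit 407782107819) (nat_lit 0) (nat_lit 140498205550) (nat_lit 1) (nat_lit 5) (nat_lit 3) (nat_lit 4) (nat_lit 1) (nat_lit 4) (nat_lit 244) (nat_lit 182) (nat_lit 174)) (XT.lf (nat_lit 0) (nat_lit 162659034146) (nat_lit 152) (nat_lit 467758476473) (nat_lit 0) (nat_lit 162140338444) (nat_lit 1) (nat_lit 5) (nat_lit 3) (nat_lit 4) (nat_lit 1) (nat_lit 4) (nat_lit 245) (nat_lit 182) (nat_lit 173)))) (XT.nd (nat_lit 156) (nat_lit 0) (nat_lit 0) (XT.nd (nat_lit 78) (nat_lit 0) (nat_lit 0) (XT.lf (nat_lit 0) (nat_lit 187551661848) (nat_lit 152) (nat_lit 536790226042) (nat_lit 0) (nat_lit 187006095899) (nat_lit 1) (nat_lit 5) (nat_lit 3) (nat_lit 4) (nat_lit 1) (nat_lit 4) (nat_lit 246) (nat_lit 182) (nat_lit 172)) (XT.lf (nat_lit 0) (nat_lit 216150913247) (nat_lit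 152) (nat_lit 616227977713) (nat_lit 0) (nat_lit 215581981864) (nat_lit 1) (nat_lit 5) (nat_lit 3) (nat_lit 4) (nat_lit 1) (nat_lit 4) (nat_lit 247) (nat_lit 182) (nat_lit 171))) (XT.nd (nat_lit 78) (nat_lit 0) (nat_lit 0) (XT.lf (nat_lit 0) (nat_lit 249016338912) (nat_lit 152) (nat_lit 707625948368) (nat_lit 0) (nat_lit 248427089761) (nat_lit 1) (nat_lit 5) (nat_lit 3) (nat_lit 4) (nat_lit 1) (nat_lit 4) (nat_lit 248) (nat_lit 182) (nat_lit 170)) (XT.lf (nat_lit 0) (nat_lit 286790958041) (nat_lit 152) (nat_lit 812772359170) (nat_lit 0) (nat_lit 286184041265) (nat_lit 1) (nat_lit 5) (nat_lit 3) (nat_lit 4) (nat_lit 1) (nat_lit 4) (nat_lit 249) (nat_lit 182) (nat_lit 169))))))) (XT.nd (nat_lit 1170) (nat_lit 0) (nat_lit 0) (XT.nd (nat_lit 546) (nat_lit 0) (nat_lit 0) (XT.nd (nat_lit 234) (nat_lit 0) (nat_lit 0) (XT.nd (nat_lit 78) (nat_lit 0) (nat_lit 0) (XT.lf (nat_lit 0) (nat_lit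 330213839269) (nat_lit 152) (nat_lit 933724422506) (nat_lit 0) (nat_lit 329591559342) (nat_lit 1) (nat_lit 5) (nat_lit 3) (nat_lit 4) (nat_lit 1) (nat_lit 4) (nat_lit 250) (nat_lit 182) (nat_lit 168)) (XT.nd (nat_lit 78) (nat_lit 0) (nat_lit 0) (XT.lf (nat_lit 0) (nat_lit 380134560707) (nat_lit 152) (nat_lit 1072848591788) (nat_lit 0) (nat_lit 379498921518) (nat_lit 1) (nat_lit 5) (nat_lit 3) (nat_lit 4) (nat_lit 1) (nat_lit 4) (nat_lit 251) (nat_lit 182) (nat_lit 167)) (XT.lf (nat_lit 0) (nat_lit 437529832123) (nat_lit 152) (nat_lit 1232866861633) (nat_lit 0) (nat_lit 436882576184) (nat_lit 1) (nat_lit 5) (nat_lit 3) (nat_lit 4) (nat_lit 1) (nat_lit 4) (nat_lit 252) (nat_lit 182) (nat_lit 166)))) (XT.nd (nat_lit 156) (nat_lit 0) (nat_lit 0) (XT.nd (nat_lit 78) (nat_lit 0) (nat_lit 0) (XT.lf (nat_lit 0) (nat_lit 503522604480) (nat_lit 152) (nat_lit 1416910024276) (nat_lit 0) (nat_lit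 502865247019) (nat_lit 1) (nat_lit 5) (nat_lit 3) (nat_lit 4) (nat_lit 1) (nat_lit 4) (nat_lit 253) (nat_lit 182) (nat_lit 165)) (XT.lf (nat_lit 0) (nat_lit 579404040713) (nat_lit 152) (nat_lit 1628578924205) (nat_lit 0) (nat_lit 578737899320) (nat_lit 1) (nat_lit 5) (nat_lit 3) (nat_lit 4) (nat_lit 1) (nat_lit 4) (nat_lit 254) (nat_lit 182) (nat_lit 164))) (XT.nd (nat_lit 78) (nat_lit 0) (nat_lit 0) (XT.lf (nat_lit 0) (nat_lit 666658777620) (nat_lit 152) (nat_lit 1872014909461) (nat_lit 0) (nat_lit 665984998026) (nat_lit 1) (nat_lit 5) (nat_lit 3) (nat_lit 4) (nat_lit 1) (nat_lit 4) (nat_lit 255) (nat_lit 182) (nat_lit 163)) (XT.lf (nat_lit 0) (nat_lit 766993973096) (nat_lit 152) (nat_lit 2151980858017) (nat_lit 0) (nat_lit 766313551587) (nat_lit 1) (nat_lit 5) (nat_lit 3) (nat_lit 4) (nat_lit 1) (nat_lit 4) (nat_lit 256) (nat_lit 182) (nat_lit 162))))) (XT.nd (nat_lit 312) (nat_lit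 0) (nat_lit 0) (XT.nd (nat_lit 156) (nat_lit 0) (nat_lit 0) (XT.nd (nat_lit 78) (nat_lit 0) (nat_lit 0) (XT.lf (nat_lit 0) (nat_lit 882372707053) (nat_lit 152) (nat_lit 2473954364519) (nat_lit 0) (nat_lit 881686509966) (nat_lit 1) (nat_lit 5) (nat_lit 3) (nat_lit 4) (nat_lit 1) (nat_lit 4) (nat_lit 257) (nat_lit 182) (nat_lit 161)) (XT.lf (nat_lit 0) (nat_lit 1015052389503) (nat_lit 152) (nat_lit 2844234910615) (nat_lit 0) (nat_lit 1014361170175) (nat_lit 1) (nat_lit 5) (nat_lit 3) (nat_lit 4) (nat_lit 1) (nat_lit 4) (nat_lit 258) (nat_lit 182) (nat_lit 160))) (XT.nd (nat_lit 78) (nat_lit 0) (nat_lit 0) (XT.lf (nat_lit 0) (nat_lit 1167628927276) (nat_lit 152) (nat_lit 3270067115685) (nat_lit 0) (nat_lit 1166933340782) (nat_lit 1) (nat_lit 5) (nat_lit 3) (nat_lit 4) (nat_lit 1) (nat_lit 4) (nat_lit 259) (nat_lit 182) (nat_lit 159)) (XT.lf (nat_lit 0) (nat_lit 1343087513504) (nat_lit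 152) (nat_lit 3759782479395) (nat_lit 0) (nat_lit 1342388129473) (nat_lit 1) (nat_lit 5) (nat_lit 3) (nat_lit 4) (nat_lit 1) (nat_lit 4) (nat_lit 260) (nat_lit 182) (nat_lit 158)))) (XT.nd (nat_lit 156) (nat_lit 0) (nat_lit 0) (XT.nd (nat_lit 78) (nat_lit 0) (nat_lit 0) (XT.lf (nat_lit 0) (nat_lit 1544861033567) (nat_lit 152) (nat_lit 4322962389294) (nat_lit 0) (nat_lit 1544158347331) (nat_lit 1) (nat_lit 5) (nat_lit 3) (nat_lit 4) (nat_lit 1) (nat_lit 4) (nat_lit 261) (nat_lit 182) (nat_lit 157)) (XT.lf (nat_lit 0) (nat_lit 1776897230252) (nat_lit 152) (nat_lit 4970625582750) (nat_lit 0) (nat_lit 1776191672533) (nat_lit 1) (nat_lit 5) (nat_lit 3) (nat_lit 4) (nat_lit 1) (nat_lit 4) (nat_lit 262) (nat_lit 182) (nat_lit 156))) (XT.nd (nat_lit 78) (nat_lit 0) (nat_lit 0) (XT.lf (nat_lit 0) (nat_lit 2043735942187) (nat_lit 152) (nat_lit 5715443730941) (nat_lit 0) (nat_lit 2043027887527)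 (nat_lit 1) (nat_lit 5) (nat_lit 3) (nat_lit 4) (nat_lit 1) (nat_lit 4) (nat_lit 263) (nat_lit 182) (nat_lit 155)) (XT.lf (nat_lit 0) (nat_lit 2350597926782) (nat_lit 152) (nat_lit 6571989362851) (nat_lit 0) (nat_lit 2349887700868) (nat_lit 1) (nat_lit 5) (nat_lit 3) (nat_lit 4) (nat_lit 1) (nat_lit 4) (nat_lit 264) (nat_lit 182) (nat_lit 154)))))) (XT.nd (nat_lit 546) (nat_lit 0) (nat_lit 0) (XT.nd (nat_lit 234) (nat_lit 0) (nat_lit 0) (XT.nd (nat_lit 78) (nat_lit 0) (nat_lit 0) (XT.lf (nat_lit 0) (nat_lit 2703487005472) (nat_lit 152) (nat_lit 7557020979975) (nat_lit 0) (nat_lit 2702774891512) (nat_lit 1) (nat_lit 5) (nat_lit 3) (nat_lit 4) (nat_lit 1) (nat_lit 4) (nat_lit 265) (nat_lit 182) (nat_lit 153)) (XT.nd (nat_lit 78) (nat_lit 0) (nat_lit 0) (XT.lf (nat_lit 0) (nat_lit 3109307529799) (nat_lit 152) (nat_lit 8689810940040) (nat_lit 0) (nat_lit 3108593774059) (nat_lit 1) (nat_lit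 5) (nat_lit 3) (nat_lit 4) (nat_lit 1) (nat_lit 4) (nat_lit 266) (nat_lit 182) (nat_lit 152)) (XT.lf (nat_lit 0) (nat_lit 3575999466542) (nat_lit 152) (nat_lit 9992522524872) (nat_lit 0) (nat_lit 3575284283167) (nat_lit 1) (nat_lit 5) (nat_lit 3) (nat_lit 4) (nat_lit 1) (nat_lit 4) (nat_lit 267) (nat_lit 182) (nat_lit 151)))) (XT.nd (nat_lit 156) (nat_lit 0) (nat_lit 0) (XT.nd (nat_lit 78) (nat_lit 0) (nat_lit 0) (XT.lf (nat_lit 0) (nat_lit 4112693744898) (nat_lit 152) (nat_lit 11490643569828) (nat_lit 0) (nat_lit 4111977320102) (nat_lit 1) (nat_lit 5) (nat_lit 3) (nat_lit 4) (nat_lit 1) (nat_lit 4) (nat_lit 268) (nat_lit 182) (nat_lit 150)) (XT.lf (nat_lit 0) (nat_lit 4729890905097) (nat_lit 152) (nat_lit 13213485138829) (nat_lit 0) (nat_lit 4729173400804) (nat_lit 1) (nat_lit 5) (nat_lit 3) (nat_lit 4) (nat_lit 1) (nat_lit 4) (nat_lit 269) (nat_lit 182) (nat_lit 149))) (XT.nd (nat_lit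 78) (nat_lit 0) (nat_lit 0) (XT.lf (nat_lit 0) (nat_lit 5439666543750) (nat_lit 152) (nat_lit 15194755001705) (nat_lit 0) (nat_lit 5438948100764) (nat_lit 1) (nat_lit 5) (nat_lit 3) (nat_lit 4) (nat_lit 1) (nat_lit 4) (nat_lit 270) (nat_lit 182) (nat_lit 148)) (XT.lf (nat_lit 0) (nat_lit 6255907575527) (nat_lit 152) (nat_lit 17473217134033) (nat_lit 0) (nat_lit 6255188316287) (nat_lit 1) (nat_lit 5) (nat_lit 3) (nat_lit 4) (nat_lit 1) (nat_lit 4) (nat_lit 271) (nat_lit 182) (nat_lit 147))))) (XT.nd (nat_lit 468) (nat_lit 0) (nat_lit 0) (XT.nd (nat_lit 156) (nat_lit 0) (nat_lit 0) (XT.nd (nat_lit 78) (nat_lit 0) (nat_lit 0) (XT.lf (nat_lit 0) (nat_lit 7194583933659) (nat_lit 152) (nat_lit 20093450142751) (nat_lit 0) (nat_lit 7193863964632) (nat_lit 1) (nat_lit 5) (nat_lit 3) (nat_lit 4) (nat_lit 1) (nat_lit 4) (nat_lit 272) (nat_lit 182) (nat_lit 146)) (XT.lf (nat_lit 0) (nat_lit 8274061025152)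 (nat_lit 152) (nat_lit 23106719456289) (nat_lit 0) (nat_lit 8273340438920) (nat_lit 1) (nat_lit 5) (nat_lit 3) (nat_lit 4) (nat_lit 1) (nat_lit 4) (nat_lit 273) (nat_lit 182) (nat_lit 145))) (XT.nd (nat_lit 234) (nat_lit 0) (nat_lit 0) (XT.lf (nat_lit 0) (nat_lit 9515459053971) (nat_lit 152) (nat_lit 26571980343825) (nat_lit 0) (nat_lit 9514737931037) (nat_lit 1) (nat_lit 5) (nat_lit 3) (nat_lit 4) (nat_lit 1) (nat_lit 4) (nat_lit 274) (nat_lit 182) (nat_lit 144)) (XT.lf (nat_lit 0) (nat_lit 14472823585644) (nat_lit 152) (nat_lit 40410072781806) (nat_lit 0) (nat_lit 14472101237302) (nat_lit 1) (nat_lit 5) (nat_lit 3) (nat_lit 4) (nat_lit 1) (nat_lit 4) (nat_lit 277) (nat_lit 182) (nat_lit 141)))) (XT.nd (nat_lit 156) (nat_lit 0) (nat_lit 0) (XT.nd (nat_lit 78) (nat_lit 0) (nat_lit 0) (XT.lf (nat_lit 0) (nat_lit 16644034210181) (nat_lit 152) (nat_lit 46470840028389) (nat_lit 0) (nat_lit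 16643311554979) (nat_lit 1) (nat_lit 5) (nat_lit 3) (nat_lit 4) (nat_lit 1) (nat_lit 4) (nat_lit 278) (nat_lit 182) (nat_lit 140)) (XT.lf (nat_lit 0) (nat_lit 19140926116969) (nat_lit 152) (nat_lit 53440722947119) (nat_lit 0) (nat_lit 19140203194931) (nat_lit 1) (nat_lit 5) (nat_lit 3) (nat_lit 4) (nat_lit 1) (nat_lit 4) (nat_lit 279) (nat_lit 182) (nat_lit 139))) (XT.nd (nat_lit 78) (nat_lit 0) (nat_lit 0) (XT.lf (nat_lit 0) (nat_lit 22012351538965) (nat_lit 152) (nat_lit 61456088812495) (nat_lit 0) (nat_lit 22011628384897) (nat_lit 1) (nat_lit 5) (nat_lit 3) (nat_lit 4) (nat_lit 1) (nat_lit 4) (nat_lit 280) (nat_lit 182) (nat_lit 138)) (XT.lf (nat_lit 0) (nat_lit 25314490538775) (nat_lit 152) (nat_lit 70673760000144) (nat_lit 0) (nat_lit 25313767182941) (nat_lit 1) (nat_lit 5) (nat_lit 3) (nat_lit 4) (nat_lit 1) (nat_lit 4) (nat_lit 281) (nat_lit 182) (nat_lit 137))))))))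
noncomputable def xc8 : XT := (XT.nd (nat_lit 2262) (nat_lit 0) (nat_lit 0) (XT.nd (nat_lit 1092) (nat_lit 0) (nat_lit 0) (XT.nd (nat_lit 546) (nat_lit 0) (nat_lit 0) (XT.nd (nat_lit 234) (nat_lit 0) (nat_lit 0) (XT.nd (nat_lit 78) (nat_lit 0) (nat_lit 0) (XT.lf (nat_lit 0) (nat_lit 15165936835) (nat_lit 152) (nat_lit 55257681123) (nat_lit 0) (nat_lit 15165936835) (nat_lit 1) (nat_lit 5) (nat_lit 3) (nat_lit 4) (nat_lit 1) (nat_lit 4) (nat_lit 234) (nat_lit 183) (nat_lit 183)) (XT.nd (nat_lit 78) (nat_lit 0) (nat_lit 0) (XT.lf (nat_lit 0) (nat_lit 36054877655) (nat_lit 152) (nat_lit 124653357886) (nat_lit 0) (nat_lit 35946172515) (nat_lit 1) (nat_lit 5) (nat_lit 3) (nat_lit 4) (nat_lit 1) (nat_lit 4) (nat_lit 235) (nat_lit 183) (nat_lit 182)) (XT.lf (nat_lit 0) (nat_lit 42526008017) (nat_lit 152) (nat_lit 141119345902) (nat_lit 0) (nat_lit 42322776667) (nat_lit 1) (nat_lit 5) (nat_lit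 3) (nat_lit 4) (nat_lit 1) (nat_lit 4) (nat_lit 236) (nat_lit 183) (nat_lit 181)))) (XT.nd (nat_lit 156) (nat_lit 0) (nat_lit 0) (XT.nd (nat_lit 78) (nat_lit 0) (nat_lit 0) (XT.lf (nat_lit 0) (nat_lit 49871873830) (nat_lit 152) (nat_lit 160235486931) (nat_lit 0) (nat_lit 49586445776) (nat_lit 1) (nat_lit 5) (nat_lit 3) (nat_lit 4) (nat_lit 1) (nat_lit 4) (nat_lit 237) (nat_lit 183) (nat_lit 180)) (XT.lf (nat_lit 0) (nat_lit 58236198553) (nat_lit 152) (nat_lit 182375792427) (nat_lit 0) (nat_lit 57879295105) (nat_lit 1) (nat_lit 5) (nat_lit 3) (nat_lit 4) (nat_lit 1) (nat_lit 4) (nat_lit 238) (nat_lit 183) (nat_lit 179))) (XT.nd (nat_lit 78) (nat_lit 0) (nat_lit 0) (XT.lf (nat_lit 0) (nat_lit 67782632020) (nat_lit 152) (nat_lit 207973442281) (nat_lit 0) (nat_lit 67363576054) (nat_lit 1) (nat_lit 5) (nat_lit 3) (nat_lit 4) (nat_lit 1) (nat_lit 4) (nat_lit 239) (nat_lit 183) (nat_lit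 178)) (XT.lf (nat_lit 0) (nat_lit 78697952275) (nat_lit 152) (nat_lit 237529260076) (nat_lit 0) (nat_lit 78224850643) (nat_lit 1) (nat_lit 5) (nat_lit 3) (nat_lit 4) (nat_lit 1) (nat_lit 4) (nat_lit 240) (nat_lit 183) (nat_lit 177))))) (XT.nd (nat_lit 234) (nat_lit 0) (nat_lit 0) (XT.nd (nat_lit 78) (nat_lit 0) (nat_lit 0) (XT.lf (nat_lit 0) (nat_lit 91195719934) (nat_lit 152) (nat_lit 271621511814) (nat_lit 0) (nat_lit 90675622069) (nat_lit 1) (nat_lit 5) (nat_lit 3) (nat_lit 4) (nat_lit 1) (nat_lit 4) (nat_lit 241) (nat_lit 183) (nat_lit 176)) (XT.nd (nat_lit 78) (nat_lit 0) (nat_lit 0) (XT.lf (nat_lit 0) (nat_lit 105520456536) (nat_lit 152) (nat_lit 310917219810) (nat_lit 0) (nat_lit 104959492383) (nat_lit 1) (nat_lit 5) (nat_lit 3) (nat_lit 4) (nat_lit 1) (nat_lit 4) (nat_lit 242) (nat_lit 183) (nat_lit 175)) (XT.lf (nat_lit 0) (nat_lit 121952428668) (nat_lit 152) (nat_lit 356185213135)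 (nat_lit 0) (nat_lit 121355928611) (nat_lit 1) (nat_lit 5) (nat_lit 3) (nat_lit 4) (nat_lit 1) (nat_lit 4) (nat_lit 243) (nat_lit 183) (nat_lit 174)))) (XT.nd (nat_lit 156) (nat_lit 0) (nat_lit 0) (XT.nd (nat_lit 78) (nat_lit 0) (nat_lit 0) (XT.lf (nat_lit 0) (nat_lit 140813131436) (nat_lit 152) (nat_lit 408311169917) (nat_lit 0) (nat_lit 140185730594) (nat_lit 1) (nat_lit 5) (nat_lit 3) (nat_lit 4) (nat_lit 1) (nat_lit 4) (nat_lit 244) (nat_lit 183) (nat_lit 173)) (XT.lf (nat_lit 0) (nat_lit 162471578591) (nat_lit 152) (nat_lit 468314945835) (nat_lit 0) (nat_lit 161817307501) (nat_lit 1) (nat_lit 5) (nat_lit 3) (nat_lit 4) (nat_lit 1) (nat_lit 4) (nat_lit 245) (nat_lit 183) (nat_lit 172))) (XT.nd (nat_lit 78) (nat_lit 0) (nat_lit 0) (XT.lf (nat_lit 0) (nat_lit 187351522359) (nat_lit 152) (nat_lit 537370527807) (nat_lit 0) (nat_lit 186673885835) (nat_lit 1) (nat_lit 5) (nat_lit 3)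 (nat_lit 4) (nat_lit 1) (nat_lit 4) (nat_lit 246) (nat_lit 183) (nat_lit 171)) (XT.lf (nat_lit 0) (nat_lit 215939744249) (nat_lit 152) (nat_lit 616829003308) (nat_lit 0) (nat_lit 215241789957) (nat_lit 1) (nat_lit 5) (nat_lit 3) (nat_lit 4) (nat_lit 1) (nat_lit 4) (nat_lit 247) (nat_lit 183) (nat_lit 170)))))) (XT.nd (nat_lit 546) (nat_lit 0) (nat_lit 0) (XT.nd (nat_lit 234) (nat_lit 0) (nat_lit 0) (XT.nd (nat_lit 78) (nat_lit 0) (nat_lit 0) (XT.lf (nat_lit 0) (nat_lit 248795579037) (nat_lit 152) (nat_lit 708244994683) (nat_lit 0) (nat_lit 248079957121) (nat_lit 1) (nat_lit 5) (nat_lit 3) (nat_lit 4) (nat_lit 1) (nat_lit 4) (nat_lit 248) (nat_lit 183) (nat_lit 169)) (XT.nd (nat_lit 78) (nat_lit 0) (nat_lit 0) (XT.lf (nat_lit 0) (nat_lit 286561858273) (nat_lit 152) (nat_lit 813407075677) (nat_lit 0) (nat_lit 285830873205) (nat_lit 1) (nat_lit 5) (nat_lit 3) (nat_lit 4) (nat_lit 1)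 (nat_lit 4) (nat_lit 249) (nat_lit 183) (nat_lit 168)) (XT.lf (nat_lit 0) (nat_lit 329977487420) (nat_lit 152) (nat_lit 934372765267) (nat_lit 0) (nat_lit 329233143090) (nat_lit 1) (nat_lit 5) (nat_lit 3) (nat_lit 4) (nat_lit 1) (nat_lit 4) (nat_lit 250) (nat_lit 183) (nat_lit 167)))) (XT.nd (nat_lit 156) (nat_lit 0) (nat_lit 0) (XT.nd (nat_lit 78) (nat_lit 0) (nat_lit 0) (XT.lf (nat_lit 0) (nat_lit 379891902701) (nat_lit 152) (nat_lit 1073508783466) (nat_lit 0) (nat_lit 379135941621) (nat_lit 1) (nat_lit 5) (nat_lit 3) (nat_lit 4) (nat_lit 1) (nat_lit 4) (nat_lit 251) (nat_lit 183) (nat_lit 166)) (XT.lf (nat_lit 0) (nat_lit 437281690502) (nat_lit 152) (nat_lit 1233537356716) (nat_lit 0) (nat_lit 436515627901) (nat_lit 1) (nat_lit 5) (nat_lit 3) (nat_lit 4) (nat_lit 1) (nat_lit 4) (nat_lit 252) (nat_lit 183) (nat_lit 165))) (XT.nd (nat_lit 78) (nat_lit 0) (nat_lit 0) (XT.lf (nat_lit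 0) (nat_lit 503269694497) (nat_lit 152) (nat_lit 1417589478843) (nat_lit 0) (nat_lit 502494847964) (nat_lit 1) (nat_lit 5) (nat_lit 3) (nat_lit 4) (nat_lit 1) (nat_lit 4) (nat_lit 253) (nat_lit 183) (nat_lit 164)) (XT.lf (nat_lit 0) (nat_lit 579146984330) (nat_lit 152) (nat_lit 1629266169626) (nat_lit 0) (nat_lit 578364499595) (nat_lit 1) (nat_lit 5) (nat_lit 3) (nat_lit 4) (nat_lit 1) (nat_lit 4) (nat_lit 254) (nat_lit 183) (nat_lit 163))))) (XT.nd (nat_lit 312) (nat_lit 0) (nat_lit 0) (XT.nd (nat_lit 156) (nat_lit 0) (nat_lit 0) (XT.nd (nat_lit 78) (nat_lit 0) (nat_lit 0) (XT.lf (nat_lit 0) (nat_lit 666398115671) (nat_lit 152) (nat_lit 1872708929539) (nat_lit 0) (nat_lit 665608989022) (nat_lit 1) (nat_lit 5) (nat_lit 3) (nat_lit 4) (nat_lit 1) (nat_lit 4) (nat_lit 255) (nat_lit 183) (nat_lit 162)) (XT.lf (nat_lit 0) (nat_lit 766730175872) (nat_lit 152) (nat_lit 2152680769101) (nat_lit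 0) (nat_lit 765935273645) (nat_lit 1) (nat_lit 5) (nat_lit 3) (nat_lit 4) (nat_lit 1) (nat_lit 4) (nat_lit 256) (nat_lit 183) (nat_lit 161))) (XT.nd (nat_lit 78) (nat_lit 0) (nat_lit 0) (XT.lf (nat_lit 0) (nat_lit 882106183503) (nat_lit 152) (nat_lit 2474659398216) (nat_lit 0) (nat_lit 881306259035) (nat_lit 1) (nat_lit 5) (nat_lit 3) (nat_lit 4) (nat_lit 1) (nat_lit 4) (nat_lit 257) (nat_lit 183) (nat_lit 160)) (XT.lf (nat_lit 0) (nat_lit 1014783495235) (nat_lit 152) (nat_lit 2844944398758) (nat_lit 0) (nat_lit 1013979203600) (nat_lit 1) (nat_lit 5) (nat_lit 3) (nat_lit 4) (nat_lit 1) (nat_lit 4) (nat_lit 258) (nat_lit 183) (nat_lit 159)))) (XT.nd (nat_lit 156) (nat_lit 0) (nat_lit 0) (XT.nd (nat_lit 78) (nat_lit 0) (nat_lit 0) (XT.lf (nat_lit 0) (nat_lit 1167357971515) (nat_lit 152) (nat_lit 3270780477260) (nat_lit 0) (nat_lit 1166549882343) (nat_lit 1) (nat_lit 5) (nat_lit 3) (nat_lit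 4) (nat_lit 1) (nat_lit 4) (nat_lit 259) (nat_lit 183) (nat_lit 158)) (XT.lf (nat_lit 0) (nat_lit 1342814765138) (nat_lit 152) (nat_lit 3760499209171) (nat_lit 0) (nat_lit 1342003373762) (nat_lit 1) (nat_lit 5) (nat_lit 3) (nat_lit 4) (nat_lit 1) (nat_lit 4) (nat_lit 260) (nat_lit 183) (nat_lit 157))) (XT.nd (nat_lit 78) (nat_lit 0) (nat_lit 0) (XT.lf (nat_lit 0) (nat_lit 1544586726417) (nat_lit 152) (nat_lit 4323682047942) (nat_lit 0) (nat_lit 1543772463557) (nat_lit 1) (nat_lit 5) (nat_lit 3) (nat_lit 4) (nat_lit 1) (nat_lit 4) (nat_lit 261) (nat_lit 183) (nat_lit 156)) (XT.lf (nat_lit 0) (nat_lit 1776621567635) (nat_lit 152) (nat_lit 4971347788243) (nat_lit 0) (nat_lit 1775804807834) (nat_lit 1) (nat_lit 5) (nat_lit 3) (nat_lit 4) (nat_lit 1) (nat_lit 4) (nat_lit 262) (nat_lit 183) (nat_lit 155))))))) (XT.nd (nat_lit 1326) (nat_lit 0) (nat_lit 0) (XT.nd (nat_lit 546) (nat_lit 0)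 (nat_lit 0) (XT.nd (nat_lit 234) (nat_lit 0) (nat_lit 0) (XT.nd (nat_lit 78) (nat_lit 0) (nat_lit 0) (XT.lf (nat_lit 0) (nat_lit 2043459100905) (nat_lit 152) (nat_lit 5716168151080) (nat_lit 0) (nat_lit 2042640169850) (nat_lit 1) (nat_lit 5) (nat_lit 3) (nat_lit 4) (nat_lit 1) (nat_lit 4) (nat_lit 263) (nat_lit 183) (nat_lit 154)) (XT.nd (nat_lit 78) (nat_lit 0) (nat_lit 0) (XT.lf (nat_lit 0) (nat_lit 2350320060573) (nat_lit 152) (nat_lit 6572715708771) (nat_lit 0) (nat_lit 2349499241471) (nat_lit 1) (nat_lit 5) (nat_lit 3) (nat_lit 4) (nat_lit 1) (nat_lit 4) (nat_lit 264) (nat_lit 183) (nat_lit 153)) (XT.lf (nat_lit 0) (nat_lit 2703208248022) (nat_lit 152) (nat_lit 7557749000486) (nat_lit 0) (nat_lit 2702385787141) (nat_lit 1) (nat_lit 5) (nat_lit 3) (nat_lit 4) (nat_lit 1) (nat_lit 4) (nat_lit 265) (nat_lit 183) (nat_lit 152)))) (XT.nd (nat_lit 156) (nat_lit 0) (nat_lit 0) (XT.nd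 (nat_lit 78) (nat_lit 0) (nat_lit 0) (XT.lf (nat_lit 0) (nat_lit 3109027997357) (nat_lit 152) (nat_lit 8690540416718) (nat_lit 0) (nat_lit 3108204108842) (nat_lit 1) (nat_lit 5) (nat_lit 3) (nat_lit 4) (nat_lit 1) (nat_lit 4) (nat_lit 266) (nat_lit 183) (nat_lit 151)) (XT.lf (nat_lit 0) (nat_lit 3575719260194) (nat_lit 152) (nat_lit 9993253267782) (nat_lit 0) (nat_lit 3574894130257) (nat_lit 1) (nat_lit 5) (nat_lit 3) (nat_lit 4) (nat_lit 1) (nat_lit 4) (nat_lit 267) (nat_lit 183) (nat_lit 150))) (XT.nd (nat_lit 78) (nat_lit 0) (nat_lit 0) (XT.lf (nat_lit 0) (nat_lit 4112412952545) (nat_lit 152) (nat_lit 11491375413808) (nat_lit 0) (nat_lit 4111586743112) (nat_lit 1) (nat_lit 5) (nat_lit 3) (nat_lit 4) (nat_lit 1) (nat_lit 4) (nat_lit 268) (nat_lit 183) (nat_lit 149)) (XT.lf (nat_lit 0) (nat_lit 4729609603174) (nat_lit 152) (nat_lit 13214217940262) (nat_lit 0) (nat_lit 4728782455047)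 (nat_lit 1) (nat_lit 5) (nat_lit 3) (nat_lit 4) (nat_lit 1) (nat_lit 4) (nat_lit 269) (nat_lit 183) (nat_lit 148))))) (XT.nd (nat_lit 468) (nat_lit 0) (nat_lit 0) (XT.nd (nat_lit 156) (nat_lit 0) (nat_lit 0) (XT.nd (nat_lit 78) (nat_lit 0) (nat_lit 0) (XT.lf (nat_lit 0) (nat_lit 5439384798723) (nat_lit 152) (nat_lit 15195488635706) (nat_lit 0) (nat_lit 5438556834342) (nat_lit 1) (nat_lit 5) (nat_lit 3) (nat_lit 4) (nat_lit 1) (nat_lit 4) (nat_lit 270) (nat_lit 183) (nat_lit 147)) (XT.lf (nat_lit 0) (nat_lit 6255625445192) (nat_lit 152) (nat_lit 17473951492007) (nat_lit 0) (nat_lit 6254796771025) (nat_lit 1) (nat_lit 5) (nat_lit 3) (nat_lit 4) (nat_lit 1) (nat_lit 4) (nat_lit 271) (nat_lit 183) (nat_lit 146))) (XT.nd (nat_lit 78) (nat_lit 0) (nat_lit 0) (XT.lf (nat_lit 0) (nat_lit 7194301468274) (nat_lit 152) (nat_lit 20094185130265) (nat_lit 0) (nat_lit 7193472176900) (nat_lit 1)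 (nat_lit 5) (nat_lit 3) (nat_lit 4) (nat_lit 1) (nat_lit 4) (nat_lit 272) (nat_lit 183) (nat_lit 145)) (XT.lf (nat_lit 0) (nat_lit 8273778268419) (nat_lit 152) (nat_lit 23107454991230) (nat_lit 0) (nat_lit 8272948440344) (nat_lit 1) (nat_lit 5) (nat_lit 3) (nat_lit 4) (nat_lit 1) (nat_lit 4) (nat_lit 273) (nat_lit 183) (nat_lit 144)))) (XT.nd (nat_lit 156) (nat_lit 0) (nat_lit 0) (XT.nd (nat_lit 78) (nat_lit 0) (nat_lit 0) (XT.lf (nat_lit 0) (nat_lit 12584530613537) (nat_lit 152) (nat_lit 35140577763475) (nat_lit 0) (nat_lit 12583699560054) (nat_lit 1) (nat_lit 5) (nat_lit 3) (nat_lit 4) (nat_lit 1) (nat_lit 4) (nat_lit 276) (nat_lit 183) (nat_lit 141)) (XT.lf (nat_lit 0) (nat_lit 14472539997117) (nat_lit 152) (nat_lit 40410809879640) (nat_lit 0) (nat_lit 14471708636774) (nat_lit 1) (nat_lit 5) (nat_lit 3) (nat_lit 4) (nat_lit 1) (nat_lit 4) (nat_lit 277) (nat_lit 183) (nat_lit 140)))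 (XT.nd (nat_lit 78) (nat_lit 0) (nat_lit 0) (XT.lf (nat_lit 0) (nat_lit 16643750476803) (nat_lit 152) (nat_lit 46471577398390) (nat_lit 0) (nat_lit 16642918849625) (nat_lit 1) (nat_lit 5) (nat_lit 3) (nat_lit 4) (nat_lit 1) (nat_lit 4) (nat_lit 278) (nat_lit 183) (nat_lit 139)) (XT.lf (nat_lit 0) (nat_lit 19140642257633) (nat_lit 152) (nat_lit 53441460553788) (nat_lit 0) (nat_lit 19139810398424) (nat_lit 1) (nat_lit 5) (nat_lit 3) (nat_lit 4) (nat_lit 1) (nat_lit 4) (nat_lit 279) (nat_lit 183) (nat_lit 138)))))) (XT.nd (nat_lit 27924) (nat_lit 0) (nat_lit 0) (XT.nd (nat_lit 27612) (nat_lit 0) (nat_lit 0) (XT.nd (nat_lit 78) (nat_lit 0) (nat_lit 0) (XT.lf (nat_lit 0) (nat_lit 22012067570101) (nat_lit 152) (nat_lit 61456826624962) (nat_lit 0) (nat_lit 22011235509126) (nat_lit 1) (nat_lit 5) (nat_lit 3) (nat_lit 4) (nat_lit 1) (nat_lit 4) (nat_lit 280) (nat_lit 183) (nat_lit 137)) (XT.nd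 (nat_lit 27456) (nat_lit 0) (nat_lit 0) (XT.lf (nat_lit 0) (nat_lit 25314206474668) (nat_lit 152) (nat_lit 70674497991565) (nat_lit 0) (nat_lit 25313374238245) (nat_lit 1) (nat_lit 5) (nat_lit 3) (nat_lit 4) (nat_lit 1) (nat_lit 4) (nat_lit 281) (nat_lit 183) (nat_lit 136)) (XT.lf (nat_lit 0) (nat_lit 10443838602) (nat_lit 152) (nat_lit 44014761318) (nat_lit 0) (nat_lit 10443838602) (nat_lit 1) (nat_lit 5) (nat_lit 3) (nat_lit 4) (nat_lit 1) (nat_lit 4) (nat_lit 232) (nat_lit 184) (nat_lit 184)))) (XT.nd (nat_lit 156) (nat_lit 0) (nat_lit 0) (XT.nd (nat_lit 78) (nat_lit 0) (nat_lit 0) (XT.lf (nat_lit 0) (nat_lit 25370035158) (nat_lit 152) (nat_lit 98428746028) (nat_lit 0) (nat_lit 25245024247) (nat_lit 1) (nat_lit 5) (nat_lit 3) (nat_lit 4) (nat_lit 1) (nat_lit 4) (nat_lit 233) (nat_lit 184) (nat_lit 183)) (XT.lf (nat_lit 0) (nat_lit 30397873953) (nat_lit 152) (nat_lit 110626239915)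 (nat_lit 0) (nat_lit 30164157901) (nat_lit 1) (nat_lit 5) (nat_lit 3) (nat_lit 4) (nat_lit 1) (nat_lit 4) (nat_lit 234) (nat_lit 184) (nat_lit 182))) (XT.nd (nat_lit 78) (nat_lit 0) (nat_lit 0) (XT.lf (nat_lit 0) (nat_lit 36069564347) (nat_lit 152) (nat_lit 124860650918) (nat_lit 0) (nat_lit 35741322085) (nat_lit 1) (nat_lit 5) (nat_lit 3) (nat_lit 4) (nat_lit 1) (nat_lit 4) (nat_lit 235) (nat_lit 184) (nat_lit 181)) (XT.lf (nat_lit 0) (nat_lit 42496074196) (nat_lit 152) (nat_lit 141410478380) (nat_lit 0) (nat_lit 42085635230) (nat_lit 1) (nat_lit 5) (nat_lit 3) (nat_lit 4) (nat_lit 1) (nat_lit 4) (nat_lit 236) (nat_lit 184) (nat_lit 180))))) (XT.nd (nat_lit 312) (nat_lit 0) (nat_lit 0) (XT.nd (nat_lit 156) (nat_lit 0) (nat_lit 0) (XT.nd (nat_lit 78) (nat_lit 0) (nat_lit 0) (XT.lf (nat_lit 0) (nat_lit 49803139561) (nat_lit 152) (nat_lit 160599523276) (nat_lit 0) (nat_lit 49321225201)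 (nat_lit 1) (nat_lit 5) (nat_lit 3) (nat_lit 4) (nat_lit 1) (nat_lit 4) (nat_lit 237) (nat_lit 184) (nat_lit 179)) (XT.lf (nat_lit 0) (nat_lit 58133724766) (nat_lit 152) (nat_lit 182803223438) (nat_lit 0) (nat_lit 57589657888) (nat_lit 1) (nat_lit 5) (nat_lit 3) (nat_lit 4) (nat_lit 1) (nat_lit 4) (nat_lit 238) (nat_lit 184) (nat_lit 178))) (XT.nd (nat_lit 78) (nat_lit 0) (nat_lit 0) (XT.lf (nat_lit 0) (nat_lit 67650819520) (nat_lit 152) (nat_lit 208455999089) (nat_lit 0) (nat_lit 67052706976) (nat_lit 1) (nat_lit 5) (nat_lit 3) (nat_lit 4) (nat_lit 1) (nat_lit 4) (nat_lit 239) (nat_lit 184) (nat_lit 177)) (XT.lf (nat_lit 0) (nat_lit 78540627852) (nat_lit 152) (nat_lit 238059752360) (nat_lit 0) (nat_lit 77895519076) (nat_lit 1) (nat_lit 5) (nat_lit 3) (nat_lit 4) (nat_lit 1) (nat_lit 4) (nat_lit 240) (nat_lit 184) (nat_lit 176)))) (XT.nd (nat_lit 156) (nat_lit 0) (nat_lit 0) (XT.nd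 (nat_lit 78) (nat_lit 0) (nat_lit 0) (XT.lf (nat_lit 0) (nat_lit 91016211229) (nat_lit 152) (nat_lit 272193687120) (nat_lit 0) (nat_lit 90330236164) (nat_lit 1) (nat_lit 5) (nat_lit 3) (nat_lit 4) (nat_lit 1) (nat_lit 4) (nat_lit 241) (nat_lit 184) (nat_lit 175)) (XT.lf (nat_lit 0) (nat_lit 105321657152) (nat_lit 152) (nat_lit 311525641223) (nat_lit 0) (nat_lit 104600146184) (nat_lit 1) (nat_lit 5) (nat_lit 3) (nat_lit 4) (nat_lit 1) (nat_lit 4) (nat_lit 242) (nat_lit 184) (nat_lit 174))) (XT.nd (nat_lit 78) (nat_lit 0) (nat_lit 0) (XT.lf (nat_lit 0) (nat_lit 121736854780) (nat_lit 152) (nat_lit 356825152901) (nat_lit 0) (nat_lit 120984443026) (nat_lit 1) (nat_lit 5) (nat_lit 3) (nat_lit 4) (nat_lit 1) (nat_lit 4) (nat_lit 243) (nat_lit 184) (nat_lit 173)) (XT.lf (nat_lit 0) (nat_lit 140582971024) (nat_lit 152) (nat_lit 408978516948) (nat_lit 0) (nat_lit 139803689021) (nat_lit 1)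 (nat_lit 5) (nat_lit 3) (nat_lit 4) (nat_lit 1) (nat_lit 4) (nat_lit 244) (nat_lit 184) (nat_lit 172))))))))
noncomputable def xc9 : XT := (XT.nd (nat_lit 2574) (nat_lit 0) (nat_lit 0) (XT.nd (nat_lit 1170) (nat_lit 0) (nat_lit 0) (XT.nd (nat_lit 546) (nat_lit 0) (nat_lit 0) (XT.nd (nat_lit 234) (nat_lit 0) (nat_lit 0) (XT.nd (nat_lit 78) (nat_lit 0) (nat_lit 0) (XT.lf (nat_lit 0) (nat_lit 162228734243) (nat_lit 152) (nat_lit 469006125268) (nat_lit 0) (nat_lit 161426086808) (nat_lit 1) (nat_lit 5) (nat_lit 3) (nat_lit 4) (nat_lit 1) (nat_lit 4) (nat_lit 245) (nat_lit 184) (nat_lit 171)) (XT.nd (nat_lit 78) (nat_lit 0) (nat_lit 0) (XT.lf (nat_lit 0) (nat_lit 187097648503) (nat_lit 152) (nat_lit 538082431070) (nat_lit 0) (nat_lit 186274683299) (nat_lit 1) (nat_lit 5) (nat_lit 3) (nat_lit 4) (nat_lit 1) (nat_lit 4) (nat_lit 246) (nat_lit 184) (nat_lit 170)) (XT.lf (nat_lit 0) (nat_lit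 215676279516) (nat_lit 152) (nat_lit 617558927291) (nat_lit 0) (nat_lit 214835646688) (nat_lit 1) (nat_lit 5) (nat_lit 3) (nat_lit 4) (nat_lit 1) (nat_lit 4) (nat_lit 247) (nat_lit 184) (nat_lit 169)))) (XT.nd (nat_lit 156) (nat_lit 0) (nat_lit 0) (XT.nd (nat_lit 78) (nat_lit 0) (nat_lit 0) (XT.lf (nat_lit 0) (nat_lit 248523774411) (nat_lit 152) (nat_lit 708990588858) (nat_lit 0) (nat_lit 247667778431) (nat_lit 1) (nat_lit 5) (nat_lit 3) (nat_lit 4) (nat_lit 1) (nat_lit 4) (nat_lit 248) (nat_lit 184) (nat_lit 168)) (XT.lf (nat_lit 0) (nat_lit 286282801566) (nat_lit 152) (nat_lit 814166296107) (nat_lit 0) (nat_lit 285413446324) (nat_lit 1) (nat_lit 5) (nat_lit 3) (nat_lit 4) (nat_lit 1) (nat_lit 4) (nat_lit 249) (nat_lit 184) (nat_lit 167))) (XT.nd (nat_lit 78) (nat_lit 0) (nat_lit 0) (XT.lf (nat_lit 0) (nat_lit 329692124556) (nat_lit 152) (nat_lit 935143834613) (nat_lit 0) (nat_lit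 328811152564) (nat_lit 1) (nat_lit 5) (nat_lit 3) (nat_lit 4) (nat_lit 1) (nat_lit 4) (nat_lit 250) (nat_lit 184) (nat_lit 166)) (XT.lf (nat_lit 0) (nat_lit 379601056222) (nat_lit 152) (nat_lit 1074290156217) (nat_lit 0) (nat_lit 378709982708) (nat_lit 1) (nat_lit 5) (nat_lit 3) (nat_lit 4) (nat_lit 1) (nat_lit 4) (nat_lit 251) (nat_lit 184) (nat_lit 165))))) (XT.nd (nat_lit 312) (nat_lit 0) (nat_lit 0) (XT.nd (nat_lit 156) (nat_lit 0) (nat_lit 0) (XT.nd (nat_lit 78) (nat_lit 0) (nat_lit 0) (XT.lf (nat_lit 0) (nat_lit 436986075662) (nat_lit 152) (nat_lit 1234327688950) (nat_lit 0) (nat_lit 436086218217) (nat_lit 1) (nat_lit 5) (nat_lit 3) (nat_lit 4) (nat_lit 1) (nat_lit 4) (nat_lit 252) (nat_lit 184) (nat_lit 164)) (XT.lf (nat_lit 0) (nat_lit 502969933256) (nat_lit 152) (nat_lit 1418387601932) (nat_lit 0) (nat_lit 502062437609) (nat_lit 1) (nat_lit 5) (nat_lit 3) (nat_lit 4) (nat_lit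 1) (nat_lit 4) (nat_lit 253) (nat_lit 184) (nat_lit 163))) (XT.nd (nat_lit 78) (nat_lit 0) (nat_lit 0) (XT.lf (nat_lit 0) (nat_lit 578843617523) (nat_lit 152) (nat_lit 1630071067372) (nat_lit 0) (nat_lit 577929479962) (nat_lit 1) (nat_lit 5) (nat_lit 3) (nat_lit 4) (nat_lit 1) (nat_lit 4) (nat_lit 254) (nat_lit 184) (nat_lit 162)) (XT.lf (nat_lit 0) (nat_lit 666091613589) (nat_lit 152) (nat_lit 1873519718291) (nat_lit 0) (nat_lit 665171700450) (nat_lit 1) (nat_lit 5) (nat_lit 3) (nat_lit 4) (nat_lit 1) (nat_lit 4) (nat_lit 255) (nat_lit 184) (nat_lit 161)))) (XT.nd (nat_lit 156) (nat_lit 0) (nat_lit 0) (XT.nd (nat_lit 78) (nat_lit 0) (nat_lit 0) (XT.lf (nat_lit 0) (nat_lit 766420947465) (nat_lit 152) (nat_lit 2153496680466) (nat_lit 0) (nat_lit 765496012084) (nat_lit 1) (nat_lit 5) (nat_lit 3) (nat_lit 4) (nat_lit 1) (nat_lit 4) (nat_lit 256) (nat_lit 184) (nat_lit 160)) (XT.lf (nat_lit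 0) (nat_lit 881794584378) (nat_lit 152) (nat_lit 2475479764027) (nat_lit 0) (nat_lit 880865281831) (nat_lit 1) (nat_lit 5) (nat_lit 3) (nat_lit 4) (nat_lit 1) (nat_lit 4) (nat_lit 257) (nat_lit 184) (nat_lit 159))) (XT.nd (nat_lit 78) (nat_lit 0) (nat_lit 0) (XT.lf (nat_lit 0) (nat_lit 1014469834615) (nat_lit 152) (nat_lit 2845768638002) (nat_lit 0) (nat_lit 1013536734532) (nat_lit 1) (nat_lit 5) (nat_lit 3) (nat_lit 4) (nat_lit 1) (nat_lit 4) (nat_lit 258) (nat_lit 184) (nat_lit 158)) (XT.lf (nat_lit 0) (nat_lit 1167042518291) (nat_lit 152) (nat_lit 3271608084706) (nat_lit 0) (nat_lit 1166106116003) (nat_lit 1) (nat_lit 5) (nat_lit 3) (nat_lit 4) (nat_lit 1) (nat_lit 4) (nat_lit 259) (nat_lit 184) (nat_lit 157)))))) (XT.nd (nat_lit 546) (nat_lit 0) (nat_lit 0) (XT.nd (nat_lit 234) (nat_lit 0) (nat_lit 0) (XT.nd (nat_lit 78) (nat_lit 0) (nat_lit 0) (XT.lf (nat_lit 0) (nat_lit 1342497753130)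 (nat_lit 152) (nat_lit 3761329745487) (nat_lit 0) (nat_lit 1341558479358) (nat_lit 1) (nat_lit 5) (nat_lit 3) (nat_lit 4) (nat_lit 1) (nat_lit 4) (nat_lit 260) (nat_lit 184) (nat_lit 156)) (XT.nd (nat_lit 78) (nat_lit 0) (nat_lit 0) (XT.lf (nat_lit 0) (nat_lit 1544268358942) (nat_lit 152) (nat_lit 4324515131102) (nat_lit 0) (nat_lit 1543326588229) (nat_lit 1) (nat_lit 5) (nat_lit 3) (nat_lit 4) (nat_lit 1) (nat_lit 4) (nat_lit 261) (nat_lit 184) (nat_lit 155)) (XT.lf (nat_lit 0) (nat_lit 1776302021495) (nat_lit 152) (nat_lit 4972183086050) (nat_lit 0) (nat_lit 1775358079528) (nat_lit 1) (nat_lit 5) (nat_lit 3) (nat_lit 4) (nat_lit 1) (nat_lit 4) (nat_lit 262) (nat_lit 184) (nat_lit 154)))) (XT.nd (nat_lit 156) (nat_lit 0) (nat_lit 0) (XT.nd (nat_lit 78) (nat_lit 0) (nat_lit 0) (XT.lf (nat_lit 0) (nat_lit 2043138529838) (nat_lit 152) (nat_lit 5717005374668) (nat_lit 0) (nat_lit 2042192699824)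 (nat_lit 1) (nat_lit 5) (nat_lit 3) (nat_lit 4) (nat_lit 1) (nat_lit 4) (nat_lit 263) (nat_lit 184) (nat_lit 153)) (XT.lf (nat_lit 0) (nat_lit 2349998598264) (nat_lit 152) (nat_lit 6573554606950) (nat_lit 0) (nat_lit 2349051126471) (nat_lit 1) (nat_lit 5) (nat_lit 3) (nat_lit 4) (nat_lit 1) (nat_lit 4) (nat_lit 264) (nat_lit 184) (nat_lit 152))) (XT.nd (nat_lit 78) (nat_lit 0) (nat_lit 0) (XT.lf (nat_lit 0) (nat_lit 2702886010722) (nat_lit 152) (nat_lit 7558589354832) (nat_lit 0) (nat_lit 2701937111295) (nat_lit 1) (nat_lit 5) (nat_lit 3) (nat_lit 4) (nat_lit 1) (nat_lit 4) (nat_lit 265) (nat_lit 184) (nat_lit 151)) (XT.lf (nat_lit 0) (nat_lit 3108705086151) (nat_lit 152) (nat_lit 8691382037295) (nat_lit 0) (nat_lit 3107754945302) (nat_lit 1) (nat_lit 5) (nat_lit 3) (nat_lit 4) (nat_lit 1) (nat_lit 4) (nat_lit 266) (nat_lit 184) (nat_lit 150))))) (XT.nd (nat_lit 312) (nat_lit 0) (nat_lit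 0) (XT.nd (nat_lit 156) (nat_lit 0) (nat_lit 0) (XT.nd (nat_lit 78) (nat_lit 0) (nat_lit 0) (XT.lf (nat_lit 0) (nat_lit 3575395762983) (nat_lit 152) (nat_lit 9994095989430) (nat_lit 0) (nat_lit 3574444542637) (nat_lit 1) (nat_lit 5) (nat_lit 3) (nat_lit 4) (nat_lit 1) (nat_lit 4) (nat_lit 267) (nat_lit 184) (nat_lit 149)) (XT.lf (nat_lit 0) (nat_lit 4112088945764) (nat_lit 152) (nat_lit 11492219092909) (nat_lit 0) (nat_lit 4111136786726) (nat_lit 1) (nat_lit 5) (nat_lit 3) (nat_lit 4) (nat_lit 1) (nat_lit 4) (nat_lit 268) (nat_lit 184) (nat_lit 148))) (XT.nd (nat_lit 78) (nat_lit 0) (nat_lit 0) (XT.lf (nat_lit 0) (nat_lit 4729285153288) (nat_lit 152) (nat_lit 13215062451932) (nat_lit 0) (nat_lit 4728332177995) (nat_lit 1) (nat_lit 5) (nat_lit 3) (nat_lit 4) (nat_lit 1) (nat_lit 4) (nat_lit 269) (nat_lit 184) (nat_lit 147)) (XT.lf (nat_lit 0) (nat_lit 5439059963530) (nat_lit 152) (nat_lit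 15196333871348) (nat_lit 0) (nat_lit 5438106278450) (nat_lit 1) (nat_lit 5) (nat_lit 3) (nat_lit 4) (nat_lit 1) (nat_lit 4) (nat_lit 270) (nat_lit 184) (nat_lit 146)))) (XT.nd (nat_lit 390) (nat_lit 0) (nat_lit 0) (XT.nd (nat_lit 78) (nat_lit 0) (nat_lit 0) (XT.lf (nat_lit 0) (nat_lit 6255300274948) (nat_lit 152) (nat_lit 17474797357189) (nat_lit 0) (nat_lit 6254345972663) (nat_lit 1) (nat_lit 5) (nat_lit 3) (nat_lit 4) (nat_lit 1) (nat_lit 4) (nat_lit 271) (nat_lit 184) (nat_lit 145)) (XT.lf (nat_lit 0) (nat_lit 7193976006682) (nat_lit 152) (nat_lit 20095031542874) (nat_lit 0) (nat_lit 7193021167696) (nat_lit 1) (nat_lit 5) (nat_lit 3) (nat_lit 4) (nat_lit 1) (nat_lit 4) (nat_lit 272) (nat_lit 184) (nat_lit 144))) (XT.nd (nat_lit 78) (nat_lit 0) (nat_lit 0) (XT.lf (nat_lit 0) (nat_lit 12584204320152) (nat_lit 152) (nat_lit 35141425738977) (nat_lit 0) (nat_lit 12583247948897) (nat_lit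 1) (nat_lit 5) (nat_lit 3) (nat_lit 4) (nat_lit 1) (nat_lit 4) (nat_lit 276) (nat_lit 184) (nat_lit 140)) (XT.lf (nat_lit 0) (nat_lit 14472213558881) (nat_lit 152) (nat_lit 40411658127309) (nat_lit 0) (nat_lit 14471256920791) (nat_lit 1) (nat_lit 5) (nat_lit 3) (nat_lit 4) (nat_lit 1) (nat_lit 4) (nat_lit 277) (nat_lit 184) (nat_lit 139))))))) (XT.nd (nat_lit 28392) (nat_lit 0) (nat_lit 0) (XT.nd (nat_lit 27768) (nat_lit 0) (nat_lit 0) (XT.nd (nat_lit 234) (nat_lit 0) (nat_lit 0) (XT.nd (nat_lit 78) (nat_lit 0) (nat_lit 0) (XT.lf (nat_lit 0) (nat_lit 16643423912609) (nat_lit 152) (nat_lit 46472425882727) (nat_lit 0) (nat_lit 16642467042489) (nat_lit 1) (nat_lit 5) (nat_lit 3) (nat_lit 4) (nat_lit 1) (nat_lit 4) (nat_lit 278) (nat_lit 184) (nat_lit 138)) (XT.nd (nat_lit 78) (nat_lit 0) (nat_lit 0) (XT.lf (nat_lit 0) (nat_lit 19140315583910) (nat_lit 152) (nat_lit 53442309243924) (nat_lit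 0) (nat_lit 19139358512024) (nat_lit 1) (nat_lit 5) (nat_lit 3) (nat_lit 4) (nat_lit 1) (nat_lit 4) (nat_lit 279) (nat_lit 184) (nat_lit 137)) (XT.lf (nat_lit 0) (nat_lit 22011740801136) (nat_lit 152) (nat_lit 61457675494052) (nat_lit 0) (nat_lit 22010783553801) (nat_lit 1) (nat_lit 5) (nat_lit 3) (nat_lit 4) (nat_lit 1) (nat_lit 4) (nat_lit 280) (nat_lit 184) (nat_lit 136)))) (XT.nd (nat_lit 27378) (nat_lit 0) (nat_lit 0) (XT.nd (nat_lit 27300) (nat_lit 0) (nat_lit 0) (XT.lf (nat_lit 0) (nat_lit 25313879622884) (nat_lit 152) (nat_lit 70675347016268) (nat_lit 0) (nat_lit 25312922222985) (nat_lit 1) (nat_lit 5) (nat_lit 3) (nat_lit 4) (nat_lit 1) (nat_lit 4) (nat_lit 281) (nat_lit 184) (nat_lit 135)) (XT.lf (nat_lit 0) (nat_lit 6719685652) (nat_lit 152) (nat_lit 35848301055) (nat_lit 0) (nat_lit 6719685652) (nat_lit 1) (nat_lit 5) (nat_lit 3) (nat_lit 4) (nat_lit 1) (nat_lit 4) (nat_lit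 230) (nat_lit 185) (nat_lit 185))) (XT.nd (nat_lit 78) (nat_lit 0) (nat_lit 0) (XT.lf (nat_lit 0) (nat_lit 17006864330) (nat_lit 152) (nat_lit 79225106673) (nat_lit 0) (nat_lit 16863101781) (nat_lit 1) (nat_lit 5) (nat_lit 3) (nat_lit 4) (nat_lit 1) (nat_lit 4) (nat_lit 231) (nat_lit 185) (nat_lit 184)) (XT.lf (nat_lit 0) (nat_lit 20963577529) (nat_lit 152) (nat_lit 88157031954) (nat_lit 0) (nat_lit 20694804068) (nat_lit 1) (nat_lit 5) (nat_lit 3) (nat_lit 4) (nat_lit 1) (nat_lit 4) (nat_lit 232) (nat_lit 185) (nat_lit 183))))) (XT.nd (nat_lit 312) (nat_lit 0) (nat_lit 0) (XT.nd (nat_lit 156) (nat_lit 0) (nat_lit 0) (XT.nd (nat_lit 78) (nat_lit 0) (nat_lit 0) (XT.lf (nat_lit 0) (nat_lit 25386924854) (nat_lit 152) (nat_lit 98667133014) (nat_lit 0) (nat_lit 25009446253) (nat_lit 1) (nat_lit 5) (nat_lit 3) (nat_lit 4) (nat_lit 1) (nat_lit 4) (nat_lit 233) (nat_lit 185) (nat_lit 182))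 (XT.lf (nat_lit 0) (nat_lit 30363450058) (nat_lit 152) (nat_lit 110961042265) (nat_lit 0) (nat_lit 29891445247) (nat_lit 1) (nat_lit 5) (nat_lit 3) (nat_lit 4) (nat_lit 1) (nat_lit 4) (nat_lit 234) (nat_lit 185) (nat_lit 181))) (XT.nd (nat_lit 78) (nat_lit 0) (nat_lit 0) (XT.lf (nat_lit 0) (nat_lit 35990519938) (nat_lit 152) (nat_lit 125279292714) (nat_lit 0) (nat_lit 35436318424) (nat_lit 1) (nat_lit 5) (nat_lit 3) (nat_lit 4) (nat_lit 1) (nat_lit 4) (nat_lit 235) (nat_lit 185) (nat_lit 180)) (XT.lf (nat_lit 0) (nat_lit 42378229340) (nat_lit 152) (nat_lit 141902024043) (nat_lit 0) (nat_lit 41752552431) (nat_lit 1) (nat_lit 5) (nat_lit 3) (nat_lit 4) (nat_lit 1) (nat_lit 4) (nat_lit 236) (nat_lit 185) (nat_lit 179)))) (XT.nd (nat_lit 156) (nat_lit 0) (nat_lit 0) (XT.nd (nat_lit 78) (nat_lit 0) (nat_lit 0) (XT.lf (nat_lit 0) (nat_lit 49651555186) (nat_lit 152) (nat_lit 161154463605)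 (nat_lit 0) (nat_lit 48963725761) (nat_lit 1) (nat_lit 5) (nat_lit 3) (nat_lit 4) (nat_lit 1) (nat_lit 4) (nat_lit 237) (nat_lit 185) (nat_lit 178)) (XT.lf (nat_lit 0) (nat_lit 57952801679) (nat_lit 152) (nat_lit 183413289565) (nat_lit 0) (nat_lit 57210926586) (nat_lit 1) (nat_lit 5) (nat_lit 3) (nat_lit 4) (nat_lit 1) (nat_lit 4) (nat_lit 238) (nat_lit 185) (nat_lit 177))) (XT.nd (nat_lit 78) (nat_lit 0) (nat_lit 0) (XT.lf (nat_lit 0) (nat_lit 67444384510) (nat_lit 152) (nat_lit 209114000692) (nat_lit 0) (nat_lit 66655513185) (nat_lit 1) (nat_lit 5) (nat_lit 3) (nat_lit 4) (nat_lit 1) (nat_lit 4) (nat_lit 239) (nat_lit 185) (nat_lit 176)) (XT.lf (nat_lit 0) (nat_lit 78312008561) (nat_lit 152) (nat_lit 238759436985) (nat_lit 0) (nat_lit 77482270947) (nat_lit 1) (nat_lit 5) (nat_lit 3) (nat_lit 4) (nat_lit 1) (nat_lit 4) (nat_lit 240) (nat_lit 185) (nat_lit 175)))))) (XT.nd (nat_lit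 546) (nat_lit 0) (nat_lit 0) (XT.nd (nat_lit 234) (nat_lit 0) (nat_lit 0) (XT.nd (nat_lit 78) (nat_lit 0) (nat_lit 0) (XT.lf (nat_lit 0) (nat_lit 90768301258) (nat_lit 152) (nat_lit 272929617852) (nat_lit 0) (nat_lit 89903027741) (nat_lit 1) (nat_lit 5) (nat_lit 3) (nat_lit 4) (nat_lit 1) (nat_lit 4) (nat_lit 241) (nat_lit 185) (nat_lit 174)) (XT.nd (nat_lit 78) (nat_lit 0) (nat_lit 0) (XT.lf (nat_lit 0) (nat_lit 105056972677) (nat_lit 152) (nat_lit 312293090308) (nat_lit 0) (nat_lit 104160798375) (nat_lit 1) (nat_lit 5) (nat_lit 3) (nat_lit 4) (nat_lit 1) (nat_lit 4) (nat_lit 242) (nat_lit 185) (nat_lit 173)) (XT.lf (nat_lit 0) (nat_lit 121457583780) (nat_lit 152) (nat_lit 357620009249) (nat_lit 0) (nat_lit 120534539230) (nat_lit 1) (nat_lit 5) (nat_lit 3) (nat_lit 4) (nat_lit 1) (nat_lit 4) (nat_lit 243) (nat_lit 185) (nat_lit 172)))) (XT.nd (nat_lit 156) (nat_lit 0) (nat_lit 0)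 (XT.nd (nat_lit 78) (nat_lit 0) (nat_lit 0) (XT.lf (nat_lit 0) (nat_lit 140291016089) (nat_lit 152) (nat_lit 409797205699) (nat_lit 0) (nat_lit 139344606105) (nat_lit 1) (nat_lit 5) (nat_lit 3) (nat_lit 4) (nat_lit 1) (nat_lit 4) (nat_lit 244) (nat_lit 185) (nat_lit 171)) (XT.lf (nat_lit 0) (nat_lit 161925749800) (nat_lit 152) (nat_lit 469845537849) (nat_lit 0) (nat_lit 160959022048) (nat_lit 1) (nat_lit 5) (nat_lit 3) (nat_lit 4) (nat_lit 1) (nat_lit 4) (nat_lit 245) (nat_lit 185) (nat_lit 170))) (XT.nd (nat_lit 78) (nat_lit 0) (nat_lit 0) (XT.lf (nat_lit 0) (nat_lit 186785073183) (nat_lit 152) (nat_lit 538939864371) (nat_lit 0) (nat_lit 185800677806) (nat_lit 1) (nat_lit 5) (nat_lit 3) (nat_lit 4) (nat_lit 1) (nat_lit 4) (nat_lit 246) (nat_lit 185) (nat_lit 169)) (XT.lf (nat_lit 0) (nat_lit 215355364303) (nat_lit 152) (nat_lit 618432030785) (nat_lit 0) (nat_lit 214355605774) (nat_lit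 1) (nat_lit 5) (nat_lit 3) (nat_lit 4) (nat_lit 1) (nat_lit 4) (nat_lit 247) (nat_lit 185) (nat_lit 168))))) (XT.nd (nat_lit 312) (nat_lit 0) (nat_lit 0) (XT.nd (nat_lit 156) (nat_lit 0) (nat_lit 0) (XT.nd (nat_lit 78) (nat_lit 0) (nat_lit 0) (XT.lf (nat_lit 0) (nat_lit 248195607117) (nat_lit 152) (nat_lit 709877318606) (nat_lit 0) (nat_lit 247182489326) (nat_lit 1) (nat_lit 5) (nat_lit 3) (nat_lit 4) (nat_lit 1) (nat_lit 4) (nat_lit 248) (nat_lit 185) (nat_lit 167)) (XT.lf (nat_lit 0) (nat_lit 285948328114) (nat_lit 152) (nat_lit 815064874771) (nat_lit 0) (nat_lit 284923593574) (nat_lit 1) (nat_lit 5) (nat_lit 3) (nat_lit 4) (nat_lit 1) (nat_lit 4) (nat_lit 249) (nat_lit 185) (nat_lit 166))) (XT.nd (nat_lit 78) (nat_lit 0) (nat_lit 0) (XT.lf (nat_lit 0) (nat_lit 329352167489) (nat_lit 152) (nat_lit 936052716683) (nat_lit 0) (nat_lit 328317331427) (nat_lit 1) (nat_lit 5) (nat_lit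 3) (nat_lit 4) (nat_lit 1) (nat_lit 4) (nat_lit 250) (nat_lit 185) (nat_lit 165)) (XT.lf (nat_lit 0) (nat_lit 379256330794) (nat_lit 152) (nat_lit 1075207997770) (nat_lit 0) (nat_lit 378212710801) (nat_lit 1) (nat_lit 5) (nat_lit 3) (nat_lit 4) (nat_lit 1) (nat_lit 4) (nat_lit 251) (nat_lit 185) (nat_lit 164)))) (XT.nd (nat_lit 156) (nat_lit 0) (nat_lit 0) (XT.nd (nat_lit 78) (nat_lit 0) (nat_lit 0) (XT.lf (nat_lit 0) (nat_lit 436637203834) (nat_lit 152) (nat_lit 1235253321358) (nat_lit 0) (nat_lit 435585945638) (nat_lit 1) (nat_lit 5) (nat_lit 3) (nat_lit 4) (nat_lit 1) (nat_lit 4) (nat_lit 252) (nat_lit 185) (nat_lit 163)) (XT.lf (nat_lit 0) (nat_lit 502617455862) (nat_lit 152) (nat_lit 1419320008996) (nat_lit 0) (nat_lit 501559555752) (nat_lit 1) (nat_lit 5) (nat_lit 3) (nat_lit 4) (nat_lit 1) (nat_lit 4) (nat_lit 253) (nat_lit 185) (nat_lit 162))) (XT.nd (nat_lit 78) (nat_lit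 0) (nat_lit 0) (XT.lf (nat_lit 0) (nat_lit 578488004854) (nat_lit 152) (nat_lit 1631009365442) (nat_lit 0) (nat_lit 577424329167) (nat_lit 1) (nat_lit 5) (nat_lit 3) (nat_lit 4) (nat_lit 1) (nat_lit 4) (nat_lit 254) (nat_lit 185) (nat_lit 161)) (XT.lf (nat_lit 0) (nat_lit 665733274594) (nat_lit 152) (nat_lit 1874463138974) (nat_lit 0) (nat_lit 664664576665) (nat_lit 1) (nat_lit 5) (nat_lit 3) (nat_lit 4) (nat_lit 1) (nat_lit 4) (nat_lit 255) (nat_lit 185) (nat_lit 160))))))))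
noncomputable def xc10 : XT := (XT.nd (nat_lit 29718) (nat_lit 0) (nat_lit 0) (XT.nd (nat_lit 1170) (nat_lit 0) (nat_lit 0) (XT.nd (nat_lit 546) (nat_lit 0) (nat_lit 0) (XT.nd (nat_lit 234) (nat_lit 0) (nat_lit 0) (XT.nd (nat_lit 78) (nat_lit 0) (nat_lit 0) (XT.lf (nat_lit 0) (nat_lit 766060237752) (nat_lit 152) (nat_lit 2154444555596) (nat_lit 0) (nat_lit 764987172656) (nat_lit 1) (nat_lit 5) (nat_lit 3) (nat_lit 4) (nat_lit 1) (nat_lit 4) (nat_lit 256) (nat_lit 185) (nat_lit 159)) (XT.nd (nat_lit 78) (nat_lit 0) (nat_lit 0) (XT.lf (nat_lit 0) (nat_lit 881431813171) (nat_lit 152) (nat_lit 2476431512589) (nat_lit 0) (nat_lit 880354950539) (nat_lit 1) (nat_lit 5) (nat_lit 3) (nat_lit 4) (nat_lit 1) (nat_lit 4) (nat_lit 257) (nat_lit 185) (nat_lit 158)) (XT.lf (nat_lit 0) (nat_lit 1014105270805) (nat_lit 152) (nat_lit 2846723754765) (nat_lit 0) (nat_lit 1013025105968) (nat_lit 1) (nat_lit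 5) (nat_lit 3) (nat_lit 4) (nat_lit 1) (nat_lit 4) (nat_lit 258) (nat_lit 185) (nat_lit 157)))) (XT.nd (nat_lit 156) (nat_lit 0) (nat_lit 0) (XT.nd (nat_lit 78) (nat_lit 0) (nat_lit 0) (XT.lf (nat_lit 0) (nat_lit 1166676395695) (nat_lit 152) (nat_lit 3272566130340) (nat_lit 0) (nat_lit 1165593359375) (nat_lit 1) (nat_lit 5) (nat_lit 3) (nat_lit 4) (nat_lit 1) (nat_lit 4) (nat_lit 259) (nat_lit 185) (nat_lit 156)) (XT.lf (nat_lit 0) (nat_lit 1342130275068) (nat_lit 152) (nat_lit 3762290337966) (nat_lit 0) (nat_lit 1341044741806) (nat_lit 1) (nat_lit 5) (nat_lit 3) (nat_lit 4) (nat_lit 1) (nat_lit 4) (nat_lit 260) (nat_lit 185) (nat_lit 155))) (XT.nd (nat_lit 78) (nat_lit 0) (nat_lit 0) (XT.lf (nat_lit 0) (nat_lit 1543899702214) (nat_lit 152) (nat_lit 4325477938228) (nat_lit 0) (nat_lit 1542811997699) (nat_lit 1) (nat_lit 5) (nat_lit 3) (nat_lit 4) (nat_lit 1) (nat_lit 4) (nat_lit 261)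 (nat_lit 185) (nat_lit 154)) (XT.lf (nat_lit 0) (nat_lit 1775932339840) (nat_lit 152) (nat_lit 4973147818956) (nat_lit 0) (nat_lit 1774842747279) (nat_lit 1) (nat_lit 5) (nat_lit 3) (nat_lit 4) (nat_lit 1) (nat_lit 4) (nat_lit 262) (nat_lit 185) (nat_lit 153))))) (XT.nd (nat_lit 312) (nat_lit 0) (nat_lit 0) (XT.nd (nat_lit 156) (nat_lit 0) (nat_lit 0) (XT.nd (nat_lit 78) (nat_lit 0) (nat_lit 0) (XT.lf (nat_lit 0) (nat_lit 2042767956942) (nat_lit 152) (nat_lit 5717971782165) (nat_lit 0) (nat_lit 2041676722601) (nat_lit 1) (nat_lit 5) (nat_lit 3) (nat_lit 4) (nat_lit 1) (nat_lit 4) (nat_lit 263) (nat_lit 185) (nat_lit 152)) (XT.lf (nat_lit 0) (nat_lit 2349627250377) (nat_lit 152) (nat_lit 6574522470614) (nat_lit 0) (nat_lit 2348534588401) (nat_lit 1) (nat_lit 5) (nat_lit 3) (nat_lit 4) (nat_lit 1) (nat_lit 4) (nat_lit 264) (nat_lit 185) (nat_lit 151))) (XT.nd (nat_lit 78) (nat_lit 0)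 (nat_lit 0) (XT.lf (nat_lit 0) (nat_lit 2702513988929) (nat_lit 152) (nat_lit 7559558484728) (nat_lit 0) (nat_lit 2701420085532) (nat_lit 1) (nat_lit 5) (nat_lit 3) (nat_lit 4) (nat_lit 1) (nat_lit 4) (nat_lit 265) (nat_lit 185) (nat_lit 150)) (XT.lf (nat_lit 0) (nat_lit 3108332478352) (nat_lit 152) (nat_lit 8692352268262) (nat_lit 0) (nat_lit 3107237495458) (nat_lit 1) (nat_lit 5) (nat_lit 3) (nat_lit 4) (nat_lit 1) (nat_lit 4) (nat_lit 266) (nat_lit 185) (nat_lit 149)))) (XT.nd (nat_lit 156) (nat_lit 0) (nat_lit 0) (XT.nd (nat_lit 78) (nat_lit 0) (nat_lit 0) (XT.lf (nat_lit 0) (nat_lit 3575022645614) (nat_lit 152) (nat_lit 9995067177850) (nat_lit 0) (nat_lit 3573926724027) (nat_lit 1) (nat_lit 5) (nat_lit 3) (nat_lit 4) (nat_lit 1) (nat_lit 4) (nat_lit 267) (nat_lit 185) (nat_lit 148)) (XT.lf (nat_lit 0) (nat_lit 4111715385291) (nat_lit 152) (nat_lit 11493191113897) (nat_lit 0)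 (nat_lit 4110618647450) (nat_lit 1) (nat_lit 5) (nat_lit 3) (nat_lit 4) (nat_lit 1) (nat_lit 4) (nat_lit 268) (nat_lit 185) (nat_lit 147))) (XT.nd (nat_lit 78) (nat_lit 0) (nat_lit 0) (XT.lf (nat_lit 0) (nat_lit 4728911207508) (nat_lit 152) (nat_lit 13216035196892) (nat_lit 0) (nat_lit 4727813759880) (nat_lit 1) (nat_lit 5) (nat_lit 3) (nat_lit 4) (nat_lit 1) (nat_lit 4) (nat_lit 269) (nat_lit 185) (nat_lit 146)) (XT.lf (nat_lit 0) (nat_lit 5438685682699) (nat_lit 152) (nat_lit 15197307245849) (nat_lit 0) (nat_lit 5437587617865) (nat_lit 1) (nat_lit 5) (nat_lit 3) (nat_lit 4) (nat_lit 1) (nat_lit 4) (nat_lit 270) (nat_lit 185) (nat_lit 145)))))) (XT.nd (nat_lit 27924) (nat_lit 0) (nat_lit 0) (XT.nd (nat_lit 468) (nat_lit 0) (nat_lit 0) (XT.nd (nat_lit 312) (nat_lit 0) (nat_lit 0) (XT.lf (nat_lit 0) (nat_lit 6254925702770) (nat_lit 152) (nat_lit 17475771279117) (nat_lit 0) (nat_lit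 6253827101235) (nat_lit 1) (nat_lit 5) (nat_lit 3) (nat_lit 4) (nat_lit 1) (nat_lit 4) (nat_lit 271) (nat_lit 185) (nat_lit 144)) (XT.nd (nat_lit 78) (nat_lit 0) (nat_lit 0) (XT.lf (nat_lit 0) (nat_lit 10942081481259) (nat_lit 152) (nat_lit 30559590960169) (nat_lit 0) (nat_lit 10940981347456) (nat_lit 1) (nat_lit 5) (nat_lit 3) (nat_lit 4) (nat_lit 1) (nat_lit 4) (nat_lit 275) (nat_lit 185) (nat_lit 140)) (XT.lf (nat_lit 0) (nat_lit 12583828771329) (nat_lit 152) (nat_lit 35142401495965) (nat_lit 0) (nat_lit 12582728370690) (nat_lit 1) (nat_lit 5) (nat_lit 3) (nat_lit 4) (nat_lit 1) (nat_lit 4) (nat_lit 276) (nat_lit 185) (nat_lit 139)))) (XT.nd (nat_lit 156) (nat_lit 0) (nat_lit 0) (XT.nd (nat_lit 78) (nat_lit 0) (nat_lit 0) (XT.lf (nat_lit 0) (nat_lit 14471837884100) (nat_lit 152) (nat_lit 40412634120965) (nat_lit 0) (nat_lit 14470737251430) (nat_lit 1) (nat_lit 5) (nat_lit 3) (nat_lit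 4) (nat_lit 1) (nat_lit 4) (nat_lit 277) (nat_lit 185) (nat_lit 138)) (XT.lf (nat_lit 0) (nat_lit 16643048128299) (nat_lit 152) (nat_lit 46473402082181) (nat_lit 0) (nat_lit 16641947293865) (nat_lit 1) (nat_lit 5) (nat_lit 3) (nat_lit 4) (nat_lit 1) (nat_lit 4) (nat_lit 278) (nat_lit 185) (nat_lit 137))) (XT.nd (nat_lit 78) (nat_lit 0) (nat_lit 0) (XT.lf (nat_lit 0) (nat_lit 19139939704358) (nat_lit 152) (nat_lit 53443285622332) (nat_lit 0) (nat_lit 19138838694475) (nat_lit 1) (nat_lit 5) (nat_lit 3) (nat_lit 4) (nat_lit 1) (nat_lit 4) (nat_lit 279) (nat_lit 185) (nat_lit 136)) (XT.lf (nat_lit 0) (nat_lit 22011364838765) (nat_lit 152) (nat_lit 61458652028074) (nat_lit 0) (nat_lit 22010263676318) (nat_lit 1) (nat_lit 5) (nat_lit 3) (nat_lit 4) (nat_lit 1) (nat_lit 4) (nat_lit 280) (nat_lit 185) (nat_lit 135))))) (XT.nd (nat_lit 312) (nat_lit 0) (nat_lit 0) (XT.nd (nat_lit 156) (nat_lit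 0) (nat_lit 0) (XT.nd (nat_lit 78) (nat_lit 0) (nat_lit 0) (XT.lf (nat_lit 0) (nat_lit 3727087467) (nat_lit 152) (nat_lit 30058306545) (nat_lit 0) (nat_lit 3727087467) (nat_lit 1) (nat_lit 5) (nat_lit 3) (nat_lit 4) (nat_lit 1) (nat_lit 4) (nat_lit 228) (nat_lit 186) (nat_lit 186)) (XT.lf (nat_lit 0) (nat_lit 10356626605) (nat_lit 152) (nat_lit 65424221438) (nat_lit 0) (nat_lit 10191299675) (nat_lit 1) (nat_lit 5) (nat_lit 3) (nat_lit 4) (nat_lit 1) (nat_lit 4) (nat_lit 229) (nat_lit 186) (nat_lit 185))) (XT.nd (nat_lit 78) (nat_lit 0) (nat_lit 0) (XT.lf (nat_lit 0) (nat_lit 13526656678) (nat_lit 152) (nat_lit 71843237826) (nat_lit 0) (nat_lit 13217567198) (nat_lit 1) (nat_lit 5) (nat_lit 3) (nat_lit 4) (nat_lit 1) (nat_lit 4) (nat_lit 230) (nat_lit 186) (nat_lit 184)) (XT.lf (nat_lit 0) (nat_lit 17026287480) (nat_lit 152) (nat_lit 79499251707) (nat_lit 0) (nat_lit 16592187088) (nat_lit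 1) (nat_lit 5) (nat_lit 3) (nat_lit 4) (nat_lit 1) (nat_lit 4) (nat_lit 231) (nat_lit 186) (nat_lit 183)))) (XT.nd (nat_lit 156) (nat_lit 0) (nat_lit 0) (XT.nd (nat_lit 78) (nat_lit 0) (nat_lit 0) (XT.lf (nat_lit 0) (nat_lit 20923990049) (nat_lit 152) (nat_lit 88542054657) (nat_lit 0) (nat_lit 20381184517) (nat_lit 1) (nat_lit 5) (nat_lit 3) (nat_lit 4) (nat_lit 1) (nat_lit 4) (nat_lit 232) (nat_lit 186) (nat_lit 182)) (XT.lf (nat_lit 0) (nat_lit 25296023784) (nat_lit 152) (nat_lit 99148571081) (nat_lit 0) (nat_lit 24658692042) (nat_lit 1) (nat_lit 5) (nat_lit 3) (nat_lit 4) (nat_lit 1) (nat_lit 4) (nat_lit 233) (nat_lit 186) (nat_lit 181))) (XT.nd (nat_lit 78) (nat_lit 0) (nat_lit 0) (XT.lf (nat_lit 0) (nat_lit 30227928474) (nat_lit 152) (nat_lit 111526319778) (nat_lit 0) (nat_lit 29508400029) (nat_lit 1) (nat_lit 5) (nat_lit 3) (nat_lit 4) (nat_lit 1) (nat_lit 4) (nat_lit 234) (nat_lit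 186) (nat_lit 180)) (XT.lf (nat_lit 0) (nat_lit 35816197907) (nat_lit 152) (nat_lit 125917474093) (nat_lit 0) (nat_lit 35025194068) (nat_lit 1) (nat_lit 5) (nat_lit 3) (nat_lit 4) (nat_lit 1) (nat_lit 4) (nat_lit 235) (nat_lit 186) (nat_lit 179))))))) (XT.nd (nat_lit 1170) (nat_lit 0) (nat_lit 0) (XT.nd (nat_lit 546) (nat_lit 0) (nat_lit 0) (XT.nd (nat_lit 234) (nat_lit 0) (nat_lit 0) (XT.nd (nat_lit 78) (nat_lit 0) (nat_lit 0) (XT.lf (nat_lit 0) (nat_lit 42170167790) (nat_lit 152) (nat_lit 142603600089) (nat_lit 0) (nat_lit 41317011434) (nat_lit 1) (nat_lit 5) (nat_lit 3) (nat_lit 4) (nat_lit 1) (nat_lit 4) (nat_lit 236) (nat_lit 186) (nat_lit 178)) (XT.nd (nat_lit 78) (nat_lit 0) (nat_lit 0) (XT.lf (nat_lit 0) (nat_lit 49414154925) (nat_lit 152) (nat_lit 161911165448) (nat_lit 0) (nat_lit 48506952901) (nat_lit 1) (nat_lit 5) (nat_lit 3) (nat_lit 4) (nat_lit 1) (nat_lit 4) (nat_lit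 237) (nat_lit 186) (nat_lit 177)) (XT.lf (nat_lit 0) (nat_lit 57689889494) (nat_lit 152) (nat_lit 184217926884) (nat_lit 0) (nat_lit 56735691238) (nat_lit 1) (nat_lit 5) (nat_lit 3) (nat_lit 4) (nat_lit 1) (nat_lit 4) (nat_lit 238) (nat_lit 186) (nat_lit 176)))) (XT.nd (nat_lit 156) (nat_lit 0) (nat_lit 0) (XT.nd (nat_lit 78) (nat_lit 0) (nat_lit 0) (XT.lf (nat_lit 0) (nat_lit 67159288044) (nat_lit 152) (nat_lit 209960321033) (nat_lit 0) (nat_lit 66164223499) (nat_lit 1) (nat_lit 5) (nat_lit 3) (nat_lit 4) (nat_lit 1) (nat_lit 4) (nat_lit 239) (nat_lit 186) (nat_lit 175)) (XT.lf (nat_lit 0) (nat_lit 78007621415) (nat_lit 152) (nat_lit 239642003433) (nat_lit 0) (nat_lit 76977020967) (nat_lit 1) (nat_lit 5) (nat_lit 3) (nat_lit 4) (nat_lit 1) (nat_lit 4) (nat_lit 240) (nat_lit 186) (nat_lit 174))) (XT.nd (nat_lit 78) (nat_lit 0) (nat_lit 0) (XT.lf (nat_lit 0) (nat_lit 90447139609) (nat_lit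 152) (nat_lit 273843702652) (nat_lit 0) (nat_lit 89385638375) (nat_lit 1) (nat_lit 5) (nat_lit 3) (nat_lit 4) (nat_lit 1) (nat_lit 4) (nat_lit 241) (nat_lit 186) (nat_lit 173)) (XT.lf (nat_lit 0) (nat_lit 104721224503) (nat_lit 152) (nat_lit 313234582372) (nat_lit 0) (nat_lit 103632853021) (nat_lit 1) (nat_lit 5) (nat_lit 3) (nat_lit 4) (nat_lit 1) (nat_lit 4) (nat_lit 242) (nat_lit 186) (nat_lit 172))))) (XT.nd (nat_lit 312) (nat_lit 0) (nat_lit 0) (XT.nd (nat_lit 156) (nat_lit 0) (nat_lit 0) (XT.nd (nat_lit 78) (nat_lit 0) (nat_lit 0) (XT.lf (nat_lit 0) (nat_lit 121109151671) (nat_lit 152) (nat_lit 358585333717) (nat_lit 0) (nat_lit 119997414756) (nat_lit 1) (nat_lit 5) (nat_lit 3) (nat_lit 4) (nat_lit 1) (nat_lit 4) (nat_lit 243) (nat_lit 186) (nat_lit 171)) (XT.lf (nat_lit 0) (nat_lit 139931554471) (nat_lit 152) (nat_lit 410783253996) (nat_lit 0) (nat_lit 138799499788) (nat_lit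 1) (nat_lit 5) (nat_lit 3) (nat_lit 4) (nat_lit 1) (nat_lit 4) (nat_lit 244) (nat_lit 186) (nat_lit 170))) (XT.nd (nat_lit 78) (nat_lit 0) (nat_lit 0) (XT.lf (nat_lit 0) (nat_lit 161556697305) (nat_lit 152) (nat_lit 470849606867) (nat_lit 0) (nat_lit 160406974998) (nat_lit 1) (nat_lit 5) (nat_lit 3) (nat_lit 4) (nat_lit 1) (nat_lit 4) (nat_lit 245) (nat_lit 186) (nat_lit 169)) (XT.lf (nat_lit 0) (nat_lit 186407680795) (nat_lit 152) (nat_lit 539959603581) (nat_lit 0) (nat_lit 185242595336) (nat_lit 1) (nat_lit 5) (nat_lit 3) (nat_lit 4) (nat_lit 1) (nat_lit 4) (nat_lit 246) (nat_lit 186) (nat_lit 168)))) (XT.nd (nat_lit 156) (nat_lit 0) (nat_lit 0) (XT.nd (nat_lit 78) (nat_lit 0) (nat_lit 0) (XT.lf (nat_lit 0) (nat_lit 214970719834) (nat_lit 152) (nat_lit 619465396248) (nat_lit 0) (nat_lit 213792275112) (nat_lit 1) (nat_lit 5) (nat_lit 3) (nat_lit 4) (nat_lit 1) (nat_lit 4) (nat_lit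 247) (nat_lit 186) (nat_lit 167)) (XT.lf (nat_lit 0) (nat_lit 247804656490) (nat_lit 152) (nat_lit 710922532986) (nat_lit 0) (nat_lit 246614595019) (nat_lit 1) (nat_lit 5) (nat_lit 3) (nat_lit 4) (nat_lit 1) (nat_lit 4) (nat_lit 248) (nat_lit 186) (nat_lit 166))) (XT.nd (nat_lit 78) (nat_lit 0) (nat_lit 0) (XT.lf (nat_lit 0) (nat_lit 285551893873) (nat_lit 152) (nat_lit 816120392557) (nat_lit 0) (nat_lit 284351730880) (nat_lit 1) (nat_lit 5) (nat_lit 3) (nat_lit 4) (nat_lit 1) (nat_lit 4) (nat_lit 249) (nat_lit 186) (nat_lit 165)) (XT.lf (nat_lit 0) (nat_lit 328950964887) (nat_lit 152) (nat_lit 937117193951) (nat_lit 0) (nat_lit 327742017962) (nat_lit 1) (nat_lit 5) (nat_lit 3) (nat_lit 4) (nat_lit 1) (nat_lit 4) (nat_lit 250) (nat_lit 186) (nat_lit 164)))))) (XT.nd (nat_lit 546) (nat_lit 0) (nat_lit 0) (XT.nd (nat_lit 234) (nat_lit 0) (nat_lit 0) (XT.nd (nat_lit 78) (nat_lit 0) (nat_lit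 0) (XT.lf (nat_lit 0) (nat_lit 378850981791) (nat_lit 152) (nat_lit 1076280265894) (nat_lit 0) (nat_lit 377634396665) (nat_lit 1) (nat_lit 5) (nat_lit 3) (nat_lit 4) (nat_lit 1) (nat_lit 4) (nat_lit 251) (nat_lit 186) (nat_lit 163)) (XT.nd (nat_lit 78) (nat_lit 0) (nat_lit 0) (XT.lf (nat_lit 0) (nat_lit 436228249264) (nat_lit 152) (nat_lit 1236332364139) (nat_lit 0) (nat_lit 435005022224) (nat_lit 1) (nat_lit 5) (nat_lit 3) (nat_lit 4) (nat_lit 1) (nat_lit 4) (nat_lit 252) (nat_lit 186) (nat_lit 162)) (XT.lf (nat_lit 0) (nat_lit 502205366018) (nat_lit 152) (nat_lit 1420404942782) (nat_lit 0) (nat_lit 500976363400) (nat_lit 1) (nat_lit 5) (nat_lit 3) (nat_lit 4) (nat_lit 1) (nat_lit 4) (nat_lit 253) (nat_lit 186) (nat_lit 161)))) (XT.nd (nat_lit 156) (nat_lit 0) (nat_lit 0) (XT.nd (nat_lit 78) (nat_lit 0) (nat_lit 0) (XT.lf (nat_lit 0) (nat_lit 578073188684) (nat_lit 152) (nat_lit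 1632099421842) (nat_lit 0) (nat_lit 576839163825) (nat_lit 1) (nat_lit 5) (nat_lit 3) (nat_lit 4) (nat_lit 1) (nat_lit 4) (nat_lit 254) (nat_lit 186) (nat_lit 160)) (XT.lf (nat_lit 0) (nat_lit 665316087707) (nat_lit 152) (nat_lit 1875557649820) (nat_lit 0) (nat_lit 664077695680) (nat_lit 1) (nat_lit 5) (nat_lit 3) (nat_lit 4) (nat_lit 1) (nat_lit 4) (nat_lit 255) (nat_lit 186) (nat_lit 159))) (XT.nd (nat_lit 78) (nat_lit 0) (nat_lit 0) (XT.lf (nat_lit 0) (nat_lit 765640989370) (nat_lit 152) (nat_lit 2155542939874) (nat_lit 0) (nat_lit 764398799808) (nat_lit 1) (nat_lit 5) (nat_lit 3) (nat_lit 4) (nat_lit 1) (nat_lit 4) (nat_lit 256) (nat_lit 186) (nat_lit 158)) (XT.lf (nat_lit 0) (nat_lit 881010772186) (nat_lit 152) (nat_lit 2477533265069) (nat_lit 0) (nat_lit 879765280418) (nat_lit 1) (nat_lit 5) (nat_lit 3) (nat_lit 4) (nat_lit 1) (nat_lit 4) (nat_lit 257) (nat_lit 186) (nat_lit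 157))))) (XT.nd (nat_lit 312) (nat_lit 0) (nat_lit 0) (XT.nd (nat_lit 156) (nat_lit 0) (nat_lit 0) (XT.nd (nat_lit 78) (nat_lit 0) (nat_lit 0) (XT.lf (nat_lit 0) (nat_lit 1013682671034) (nat_lit 152) (nat_lit 2847828436115) (nat_lit 0) (nat_lit 1012434307783) (nat_lit 1) (nat_lit 5) (nat_lit 3) (nat_lit 4) (nat_lit 1) (nat_lit 4) (nat_lit 258) (nat_lit 186) (nat_lit 156)) (XT.lf (nat_lit 0) (nat_lit 1166252440459) (nat_lit 152) (nat_lit 3273673358535) (nat_lit 0) (nat_lit 1165001580266) (nat_lit 1) (nat_lit 5) (nat_lit 3) (nat_lit 4) (nat_lit 1) (nat_lit 4) (nat_lit 259) (nat_lit 186) (nat_lit 155))) (XT.nd (nat_lit 78) (nat_lit 0) (nat_lit 0) (XT.lf (nat_lit 0) (nat_lit 1341705141165) (nat_lit 152) (nat_lit 3763399780808) (nat_lit 0) (nat_lit 1340452109719) (nat_lit 1) (nat_lit 5) (nat_lit 3) (nat_lit 4) (nat_lit 1) (nat_lit 4) (nat_lit 260) (nat_lit 186) (nat_lit 154)) (XT.lf (nat_lit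 0) (nat_lit 1543473543385) (nat_lit 152) (nat_lit 4326589306850) (nat_lit 0) (nat_lit 1542218623892) (nat_lit 1) (nat_lit 5) (nat_lit 3) (nat_lit 4) (nat_lit 1) (nat_lit 4) (nat_lit 261) (nat_lit 186) (nat_lit 153)))) (XT.nd (nat_lit 156) (nat_lit 0) (nat_lit 0) (XT.nd (nat_lit 78) (nat_lit 0) (nat_lit 0) (XT.lf (nat_lit 0) (nat_lit 1775505289770) (nat_lit 152) (nat_lit 4974260862170) (nat_lit 0) (nat_lit 1774248728498) (nat_lit 1) (nat_lit 5) (nat_lit 3) (nat_lit 4) (nat_lit 1) (nat_lit 4) (nat_lit 262) (nat_lit 186) (nat_lit 152)) (XT.lf (nat_lit 0) (nat_lit 2042340131880) (nat_lit 152) (nat_lit 5719086281545) (nat_lit 0) (nat_lit 2041082142973) (nat_lit 1) (nat_lit 5) (nat_lit 3) (nat_lit 4) (nat_lit 1) (nat_lit 4) (nat_lit 263) (nat_lit 186) (nat_lit 151))) (XT.nd (nat_lit 78) (nat_lit 0) (nat_lit 0) (XT.lf (nat_lit 0) (nat_lit 2349198751409) (nat_lit 152) (nat_lit 6575638236225)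 (nat_lit 0) (nat_lit 2347939521081) (nat_lit 1) (nat_lit 5) (nat_lit 3) (nat_lit 4) (nat_lit 1) (nat_lit 4) (nat_lit 264) (nat_lit 186) (nat_lit 150)) (XT.lf (nat_lit 0) (nat_lit 2702084903956) (nat_lit 152) (nat_lit 7560675351411) (nat_lit 0) (nat_lit 2700824594131) (nat_lit 1) (nat_lit 5) (nat_lit 3) (nat_lit 4) (nat_lit 1) (nat_lit 4) (nat_lit 265) (nat_lit 186) (nat_lit 149))))))))
noncomputable def xc11 : XT := (XT.nd (nat_lit 29406) (nat_lit 0) (nat_lit 0) (XT.nd (nat_lit 28236) (nat_lit 0) (nat_lit 0) (XT.nd (nat_lit 546) (nat_lit 0) (nat_lit 0) (XT.nd (nat_lit 234) (nat_lit 0) (nat_lit 0) (XT.nd (nat_lit 78) (nat_lit 0) (nat_lit 0) (XT.lf (nat_lit 0) (nat_lit 3107902883809) (nat_lit 152) (nat_lit 8693470092398) (nat_lit 0) (nat_lit 3106641635291) (nat_lit 1) (nat_lit 5) (nat_lit 3) (nat_lit 4) (nat_lit 1) (nat_lit 4) (nat_lit 266) (nat_lit 186) (nat_lit 148)) (XT.nd (nat_lit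 78) (nat_lit 0) (nat_lit 0) (XT.lf (nat_lit 0) (nat_lit 3574592607967) (nat_lit 152) (nat_lit 9996185834554) (nat_lit 0) (nat_lit 3573330543194) (nat_lit 1) (nat_lit 5) (nat_lit 3) (nat_lit 4) (nat_lit 1) (nat_lit 4) (nat_lit 267) (nat_lit 186) (nat_lit 147)) (XT.lf (nat_lit 0) (nat_lit 4111284962336) (nat_lit 152) (nat_lit 11494310494573) (nat_lit 0) (nat_lit 4110022187777) (nat_lit 1) (nat_lit 5) (nat_lit 3) (nat_lit 4) (nat_lit 1) (nat_lit 4) (nat_lit 268) (nat_lit 186) (nat_lit 146)))) (XT.nd (nat_lit 156) (nat_lit 0) (nat_lit 0) (XT.nd (nat_lit 78) (nat_lit 0) (nat_lit 0) (XT.lf (nat_lit 0) (nat_lit 4728480449502) (nat_lit 152) (nat_lit 13217155207109) (nat_lit 0) (nat_lit 4727217057737) (nat_lit 1) (nat_lit 5) (nat_lit 3) (nat_lit 4) (nat_lit 1) (nat_lit 4) (nat_lit 269) (nat_lit 186) (nat_lit 145)) (XT.lf (nat_lit 0) (nat_lit 5438254633345) (nat_lit 152) (nat_lit 15198427803492)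 (nat_lit 0) (nat_lit 5436990704879) (nat_lit 1) (nat_lit 5) (nat_lit 3) (nat_lit 4) (nat_lit 1) (nat_lit 4) (nat_lit 270) (nat_lit 186) (nat_lit 144))) (XT.nd (nat_lit 78) (nat_lit 0) (nat_lit 0) (XT.lf (nat_lit 0) (nat_lit 6254494400069) (nat_lit 152) (nat_lit 17476892312784) (nat_lit 0) (nat_lit 6253230004907) (nat_lit 1) (nat_lit 5) (nat_lit 3) (nat_lit 4) (nat_lit 1) (nat_lit 4) (nat_lit 271) (nat_lit 186) (nat_lit 143)) (XT.lf (nat_lit 0) (nat_lit 7193169658155) (nat_lit 152) (nat_lit 20097127388426) (nat_lit 0) (nat_lit 7191904857170) (nat_lit 1) (nat_lit 5) (nat_lit 3) (nat_lit 4) (nat_lit 1) (nat_lit 4) (nat_lit 272) (nat_lit 186) (nat_lit 142))))) (XT.nd (nat_lit 390) (nat_lit 0) (nat_lit 0) (XT.nd (nat_lit 234) (nat_lit 0) (nat_lit 0) (XT.nd (nat_lit 156) (nat_lit 0) (nat_lit 0) (XT.lf (nat_lit 0) (nat_lit 8272645793087) (nat_lit 152) (nat_lit 23110398499290) (nat_lit 0)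 (nat_lit 8271380639213) (nat_lit 1) (nat_lit 5) (nat_lit 3) (nat_lit 4) (nat_lit 1) (nat_lit 4) (nat_lit 273) (nat_lit 186) (nat_lit 141)) (XT.lf (nat_lit 0) (nat_lit 10941649455261) (nat_lit 152) (nat_lit 30560713352873) (nat_lit 0) (nat_lit 10940383727692) (nat_lit 1) (nat_lit 5) (nat_lit 3) (nat_lit 4) (nat_lit 1) (nat_lit 4) (nat_lit 275) (nat_lit 186) (nat_lit 139))) (XT.nd (nat_lit 78) (nat_lit 0) (nat_lit 0) (XT.lf (nat_lit 0) (nat_lit 12583396619373) (nat_lit 152) (nat_lit 35143524125336) (nat_lit 0) (nat_lit 12582130659773) (nat_lit 1) (nat_lit 5) (nat_lit 3) (nat_lit 4) (nat_lit 1) (nat_lit 4) (nat_lit 276) (nat_lit 186) (nat_lit 138)) (XT.lf (nat_lit 0) (nat_lit 14471405622615) (nat_lit 152) (nat_lit 40413756956134) (nat_lit 0) (nat_lit 14470139461249) (nat_lit 1) (nat_lit 5) (nat_lit 3) (nat_lit 4) (nat_lit 1) (nat_lit 4) (nat_lit 277) (nat_lit 186) (nat_lit 137)))) (XT.nd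 (nat_lit 156) (nat_lit 0) (nat_lit 0) (XT.nd (nat_lit 78) (nat_lit 0) (nat_lit 0) (XT.lf (nat_lit 0) (nat_lit 16642615771572) (nat_lit 152) (nat_lit 46474525096305) (nat_lit 0) (nat_lit 16641349434758) (nat_lit 1) (nat_lit 5) (nat_lit 3) (nat_lit 4) (nat_lit 1) (nat_lit 4) (nat_lit 278) (nat_lit 186) (nat_lit 136)) (XT.lf (nat_lit 0) (nat_lit 19139507264812) (nat_lit 152) (nat_lit 53444408792069) (nat_lit 0) (nat_lit 19138240775434) (nat_lit 1) (nat_lit 5) (nat_lit 3) (nat_lit 4) (nat_lit 1) (nat_lit 4) (nat_lit 279) (nat_lit 186) (nat_lit 135))) (XT.nd (nat_lit 27066) (nat_lit 0) (nat_lit 0) (XT.lf (nat_lit 0) (nat_lit 22010932327202) (nat_lit 152) (nat_lit 61459775333127) (nat_lit 0) (nat_lit 22009665705159) (nat_lit 1) (nat_lit 5) (nat_lit 3) (nat_lit 4) (nat_lit 1) (nat_lit 4) (nat_lit 280) (nat_lit 186) (nat_lit 134)) (XT.lf (nat_lit 0) (nat_lit 1261159259) (nat_lit 152) (nat_lit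 26123014971) (nat_lit 0) (nat_lit 1261159259) (nat_lit 1) (nat_lit 5) (nat_lit 3) (nat_lit 4) (nat_lit 1) (nat_lit 4) (nat_lit 226) (nat_lit 187) (nat_lit 187)))))) (XT.nd (nat_lit 546) (nat_lit 0) (nat_lit 0) (XT.nd (nat_lit 234) (nat_lit 0) (nat_lit 0) (XT.nd (nat_lit 78) (nat_lit 0) (nat_lit 0) (XT.lf (nat_lit 0) (nat_lit 4952640540) (nat_lit 152) (nat_lit 55816568275) (nat_lit 0) (nat_lit 4762514570) (nat_lit 1) (nat_lit 5) (nat_lit 3) (nat_lit 4) (nat_lit 1) (nat_lit 4) (nat_lit 227) (nat_lit 187) (nat_lit 186)) (XT.nd (nat_lit 78) (nat_lit 0) (nat_lit 0) (XT.lf (nat_lit 0) (nat_lit 7554553115) (nat_lit 152) (nat_lit 60285244164) (nat_lit 0) (nat_lit 7199100214) (nat_lit 1) (nat_lit 5) (nat_lit 3) (nat_lit 4) (nat_lit 1) (nat_lit 4) (nat_lit 228) (nat_lit 187) (nat_lit 185)) (XT.lf (nat_lit 0) (nat_lit 10378963228) (nat_lit 152) (nat_lit 65739488227) (nat_lit 0) (nat_lit 9879747778)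 (nat_lit 1) (nat_lit 5) (nat_lit 3) (nat_lit 4) (nat_lit 1) (nat_lit 4) (nat_lit 229) (nat_lit 187) (nat_lit 184)))) (XT.nd (nat_lit 156) (nat_lit 0) (nat_lit 0) (XT.nd (nat_lit 78) (nat_lit 0) (nat_lit 0) (XT.lf (nat_lit 0) (nat_lit 13481131076) (nat_lit 152) (nat_lit 72286013934) (nat_lit 0) (nat_lit 12856904714) (nat_lit 1) (nat_lit 5) (nat_lit 3) (nat_lit 4) (nat_lit 1) (nat_lit 4) (nat_lit 230) (nat_lit 187) (nat_lit 183)) (XT.lf (nat_lit 0) (nat_lit 16921751249) (nat_lit 152) (nat_lit 80052905483) (nat_lit 0) (nat_lit 16188819746) (nat_lit 1) (nat_lit 5) (nat_lit 3) (nat_lit 4) (nat_lit 1) (nat_lit 4) (nat_lit 231) (nat_lit 187) (nat_lit 182))) (XT.nd (nat_lit 78) (nat_lit 0) (nat_lit 0) (XT.lf (nat_lit 0) (nat_lit 20768140227) (nat_lit 152) (nat_lit 89192123796) (nat_lit 0) (nat_lit 19940682516) (nat_lit 1) (nat_lit 5) (nat_lit 3) (nat_lit 4) (nat_lit 1) (nat_lit 4) (nat_lit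 232) (nat_lit 187) (nat_lit 181)) (XT.lf (nat_lit 0) (nat_lit 25095553448) (nat_lit 152) (nat_lit 99882479667) (nat_lit 0) (nat_lit 24185899033) (nat_lit 1) (nat_lit 5) (nat_lit 3) (nat_lit 4) (nat_lit 1) (nat_lit 4) (nat_lit 233) (nat_lit 187) (nat_lit 180))))) (XT.nd (nat_lit 312) (nat_lit 0) (nat_lit 0) (XT.nd (nat_lit 156) (nat_lit 0) (nat_lit 0) (XT.nd (nat_lit 78) (nat_lit 0) (nat_lit 0) (XT.lf (nat_lit 0) (nat_lit 29988657692) (nat_lit 152) (nat_lit 112333132231) (nat_lit 0) (nat_lit 29007527882) (nat_lit 1) (nat_lit 5) (nat_lit 3) (nat_lit 4) (nat_lit 1) (nat_lit 4) (nat_lit 234) (nat_lit 187) (nat_lit 179)) (XT.lf (nat_lit 0) (nat_lit 35543187607) (nat_lit 152) (nat_lit 126787681213) (nat_lit 0) (nat_lit 34499905279) (nat_lit 1) (nat_lit 5) (nat_lit 3) (nat_lit 4) (nat_lit 1) (nat_lit 4) (nat_lit 235) (nat_lit 187) (nat_lit 178))) (XT.nd (nat_lit 78) (nat_lit 0) (nat_lit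 0) (XT.lf (nat_lit 0) (nat_lit 41867818778) (nat_lit 152) (nat_lit 143528933006) (nat_lit 0) (nat_lit 40770490783) (nat_lit 1) (nat_lit 5) (nat_lit 3) (nat_lit 4) (nat_lit 1) (nat_lit 4) (nat_lit 236) (nat_lit 187) (nat_lit 177)) (XT.lf (nat_lit 0) (nat_lit 49086293989) (nat_lit 152) (nat_lit 162884433840) (nat_lit 0) (nat_lit 47941969762) (nat_lit 1) (nat_lit 5) (nat_lit 3) (nat_lit 4) (nat_lit 1) (nat_lit 4) (nat_lit 237) (nat_lit 187) (nat_lit 176)))) (XT.nd (nat_lit 156) (nat_lit 0) (nat_lit 0) (XT.nd (nat_lit 78) (nat_lit 0) (nat_lit 0) (XT.lf (nat_lit 0) (nat_lit 57339844276) (nat_lit 152) (nat_lit 185232878298) (nat_lit 0) (nat_lit 56154653761) (nat_lit 1) (nat_lit 5) (nat_lit 3) (nat_lit 4) (nat_lit 1) (nat_lit 4) (nat_lit 238) (nat_lit 187) (nat_lit 175)) (XT.lf (nat_lit 0) (nat_lit 66789952147) (nat_lit 152) (nat_lit 211011518554) (nat_lit 0) (nat_lit 65569225728) (nat_lit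 1) (nat_lit 5) (nat_lit 3) (nat_lit 4) (nat_lit 1) (nat_lit 4) (nat_lit 239) (nat_lit 187) (nat_lit 174))) (XT.nd (nat_lit 78) (nat_lit 0) (nat_lit 0) (XT.lf (nat_lit 0) (nat_lit 77621511014) (nat_lit 152) (nat_lit 240724719307) (nat_lit 0) (nat_lit 76369883810) (nat_lit 1) (nat_lit 5) (nat_lit 3) (nat_lit 4) (nat_lit 1) (nat_lit 4) (nat_lit 240) (nat_lit 187) (nat_lit 173)) (XT.lf (nat_lit 0) (nat_lit 90046442683) (nat_lit 152) (nat_lit 274953825791) (nat_lit 0) (nat_lit 88767945231) (nat_lit 1) (nat_lit 5) (nat_lit 3) (nat_lit 4) (nat_lit 1) (nat_lit 4) (nat_lit 241) (nat_lit 187) (nat_lit 172))))))) (XT.nd (nat_lit 1170) (nat_lit 0) (nat_lit 0) (XT.nd (nat_lit 546) (nat_lit 0) (nat_lit 0) (XT.nd (nat_lit 234) (nat_lit 0) (nat_lit 0) (XT.nd (nat_lit 78) (nat_lit 0) (nat_lit 0) (XT.lf (nat_lit 0) (nat_lit 104307843642) (nat_lit 152) (nat_lit 314368537914) (nat_lit 0) (nat_lit 103005980756)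 (nat_lit 1) (nat_lit 5) (nat_lit 3) (nat_lit 4) (nat_lit 1) (nat_lit 4) (nat_lit 242) (nat_lit 187) (nat_lit 171)) (XT.nd (nat_lit 78) (nat_lit 0) (nat_lit 0) (XT.lf (nat_lit 0) (nat_lit 120684741301) (nat_lit 152) (nat_lit 359740013088) (nat_lit 0) (nat_lit 119362560648) (nat_lit 1) (nat_lit 5) (nat_lit 3) (nat_lit 4) (nat_lit 1) (nat_lit 4) (nat_lit 243) (nat_lit 187) (nat_lit 170)) (XT.lf (nat_lit 0) (nat_lit 139497553224) (nat_lit 152) (nat_lit 411955954088) (nat_lit 0) (nat_lit 138157704946) (nat_lit 1) (nat_lit 5) (nat_lit 3) (nat_lit 4) (nat_lit 1) (nat_lit 4) (nat_lit 244) (nat_lit 187) (nat_lit 169)))) (XT.nd (nat_lit 156) (nat_lit 0) (nat_lit 0) (XT.nd (nat_lit 78) (nat_lit 0) (nat_lit 0) (XT.lf (nat_lit 0) (nat_lit 161114356166) (nat_lit 152) (nat_lit 472037977150) (nat_lit 0) (nat_lit 159759144736) (nat_lit 1) (nat_lit 5) (nat_lit 3) (nat_lit 4) (nat_lit 1) (nat_lit 4)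 (nat_lit 245) (nat_lit 187) (nat_lit 168)) (XT.lf (nat_lit 0) (nat_lit 185958087574) (nat_lit 152) (nat_lit 541161600118) (nat_lit 0) (nat_lit 184589516882) (nat_lit 1) (nat_lit 5) (nat_lit 3) (nat_lit 4) (nat_lit 1) (nat_lit 4) (nat_lit 246) (nat_lit 187) (nat_lit 167))) (XT.nd (nat_lit 78) (nat_lit 0) (nat_lit 0) (XT.lf (nat_lit 0) (nat_lit 214514820456) (nat_lit 152) (nat_lit 620679241702) (nat_lit 0) (nat_lit 213134633014) (nat_lit 1) (nat_lit 5) (nat_lit 3) (nat_lit 4) (nat_lit 1) (nat_lit 4) (nat_lit 247) (nat_lit 187) (nat_lit 166)) (XT.lf (nat_lit 0) (nat_lit 247343273497) (nat_lit 152) (nat_lit 712146681845) (nat_lit 0) (nat_lit 245952984534) (nat_lit 1) (nat_lit 5) (nat_lit 3) (nat_lit 4) (nat_lit 1) (nat_lit 4) (nat_lit 248) (nat_lit 187) (nat_lit 165))))) (XT.nd (nat_lit 312) (nat_lit 0) (nat_lit 0) (XT.nd (nat_lit 156) (nat_lit 0) (nat_lit 0) (XT.nd (nat_lit 78) (nat_lit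 0) (nat_lit 0) (XT.lf (nat_lit 0) (nat_lit 285085742519) (nat_lit 152) (nat_lit 817353500899) (nat_lit 0) (nat_lit 283686669624) (nat_lit 1) (nat_lit 5) (nat_lit 3) (nat_lit 4) (nat_lit 1) (nat_lit 4) (nat_lit 249) (nat_lit 187) (nat_lit 164)) (XT.lf (nat_lit 0) (nat_lit 328480667132) (nat_lit 152) (nat_lit 938358093149) (nat_lit 0) (nat_lit 327073956035) (nat_lit 1) (nat_lit 5) (nat_lit 3) (nat_lit 4) (nat_lit 1) (nat_lit 4) (nat_lit 250) (nat_lit 187) (nat_lit 163))) (XT.nd (nat_lit 78) (nat_lit 0) (nat_lit 0) (XT.lf (nat_lit 0) (nat_lit 378377078471) (nat_lit 152) (nat_lit 1077527939747) (nat_lit 0) (nat_lit 376963725460) (nat_lit 1) (nat_lit 5) (nat_lit 3) (nat_lit 4) (nat_lit 1) (nat_lit 4) (nat_lit 251) (nat_lit 187) (nat_lit 162)) (XT.lf (nat_lit 0) (nat_lit 435751210669) (nat_lit 152) (nat_lit 1237585928998) (nat_lit 0) (nat_lit 434332082080) (nat_lit 1) (nat_lit 5) (nat_lit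 3) (nat_lit 4) (nat_lit 1) (nat_lit 4) (nat_lit 252) (nat_lit 187) (nat_lit 161)))) (XT.nd (nat_lit 156) (nat_lit 0) (nat_lit 0) (XT.nd (nat_lit 78) (nat_lit 0) (nat_lit 0) (XT.lf (nat_lit 0) (nat_lit 501725601097) (nat_lit 152) (nat_lit 1421663630255) (nat_lit 0) (nat_lit 500301450267) (nat_lit 1) (nat_lit 5) (nat_lit 3) (nat_lit 4) (nat_lit 1) (nat_lit 4) (nat_lit 253) (nat_lit 187) (nat_lit 160)) (XT.lf (nat_lit 0) (nat_lit 577591053045) (nat_lit 152) (nat_lit 1633362563761) (nat_lit 0) (nat_lit 576162535048) (nat_lit 1) (nat_lit 5) (nat_lit 3) (nat_lit 4) (nat_lit 1) (nat_lit 4) (nat_lit 254) (nat_lit 187) (nat_lit 159))) (XT.nd (nat_lit 78) (nat_lit 0) (nat_lit 0) (XT.lf (nat_lit 0) (nat_lit 664831890574) (nat_lit 152) (nat_lit 1876824665171) (nat_lit 0) (nat_lit 663399575040) (nat_lit 1) (nat_lit 5) (nat_lit 3) (nat_lit 4) (nat_lit 1) (nat_lit 4) (nat_lit 255) (nat_lit 187)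 (nat_lit 158)) (XT.lf (nat_lit 0) (nat_lit 765154999634) (nat_lit 152) (nat_lit 2156813323427) (nat_lit 0) (nat_lit 763719381895) (nat_lit 1) (nat_lit 5) (nat_lit 3) (nat_lit 4) (nat_lit 1) (nat_lit 4) (nat_lit 256) (nat_lit 187) (nat_lit 157)))))) (XT.nd (nat_lit 546) (nat_lit 0) (nat_lit 0) (XT.nd (nat_lit 234) (nat_lit 0) (nat_lit 0) (XT.nd (nat_lit 78) (nat_lit 0) (nat_lit 0) (XT.lf (nat_lit 0) (nat_lit 880523223663) (nat_lit 152) (nat_lit 2478806577493) (nat_lit 0) (nat_lit 879084734442) (nat_lit 1) (nat_lit 5) (nat_lit 3) (nat_lit 4) (nat_lit 1) (nat_lit 4) (nat_lit 257) (nat_lit 187) (nat_lit 156)) (XT.nd (nat_lit 78) (nat_lit 0) (nat_lit 0) (XT.lf (nat_lit 0) (nat_lit 1013193767046) (nat_lit 152) (nat_lit 2849104295384) (nat_lit 0) (nat_lit 1011752780883) (nat_lit 1) (nat_lit 5) (nat_lit 3) (nat_lit 4) (nat_lit 1) (nat_lit 4) (nat_lit 258) (nat_lit 187) (nat_lit 155)) (XT.lf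 (nat_lit 0) (nat_lit 1165762357805) (nat_lit 152) (nat_lit 3274951432450) (nat_lit 0) (nat_lit 1164319200388) (nat_lit 1) (nat_lit 5) (nat_lit 3) (nat_lit 4) (nat_lit 1) (nat_lit 4) (nat_lit 259) (nat_lit 187) (nat_lit 154)))) (XT.nd (nat_lit 156) (nat_lit 0) (nat_lit 0) (XT.nd (nat_lit 78) (nat_lit 0) (nat_lit 0) (XT.lf (nat_lit 0) (nat_lit 1341214033585) (nat_lit 152) (nat_lit 3764679780504) (nat_lit 0) (nat_lit 1339768988121) (nat_lit 1) (nat_lit 5) (nat_lit 3) (nat_lit 4) (nat_lit 1) (nat_lit 4) (nat_lit 260) (nat_lit 187) (nat_lit 153)) (XT.lf (nat_lit 0) (nat_lit 1542981544564) (nat_lit 152) (nat_lit 4327870981137) (nat_lit 0) (nat_lit 1541534857321) (nat_lit 1) (nat_lit 5) (nat_lit 3) (nat_lit 4) (nat_lit 1) (nat_lit 4) (nat_lit 261) (nat_lit 187) (nat_lit 152))) (XT.nd (nat_lit 78) (nat_lit 0) (nat_lit 0) (XT.lf (nat_lit 0) (nat_lit 1775012515957) (nat_lit 152) (nat_lit 4975543992623)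 (nat_lit 0) (nat_lit 1773564401079) (nat_lit 1) (nat_lit 5) (nat_lit 3) (nat_lit 4) (nat_lit 1) (nat_lit 4) (nat_lit 262) (nat_lit 187) (nat_lit 151)) (XT.lf (nat_lit 0) (nat_lit 2041846684161) (nat_lit 152) (nat_lit 5720370678231) (nat_lit 0) (nat_lit 2040397327862) (nat_lit 1) (nat_lit 5) (nat_lit 3) (nat_lit 4) (nat_lit 1) (nat_lit 4) (nat_lit 263) (nat_lit 187) (nat_lit 150))))) (XT.nd (nat_lit 312) (nat_lit 0) (nat_lit 0) (XT.nd (nat_lit 156) (nat_lit 0) (nat_lit 0) (XT.nd (nat_lit 78) (nat_lit 0) (nat_lit 0) (XT.lf (nat_lit 0) (nat_lit 2348704717684) (nat_lit 152) (nat_lit 6576923733982) (nat_lit 0) (nat_lit 2347254281889) (nat_lit 1) (nat_lit 5) (nat_lit 3) (nat_lit 4) (nat_lit 1) (nat_lit 4) (nat_lit 264) (nat_lit 187) (nat_lit 149)) (XT.lf (nat_lit 0) (nat_lit 2701590360661) (nat_lit 152) (nat_lit 7561961806620) (nat_lit 0) (nat_lit 2700138986173) (nat_lit 1) (nat_lit 5)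 (nat_lit 3) (nat_lit 4) (nat_lit 1) (nat_lit 4) (nat_lit 265) (nat_lit 187) (nat_lit 148))) (XT.nd (nat_lit 78) (nat_lit 0) (nat_lit 0) (XT.lf (nat_lit 0) (nat_lit 3107407897410) (nat_lit 152) (nat_lit 8694757380175) (nat_lit 0) (nat_lit 3105955706667) (nat_lit 1) (nat_lit 5) (nat_lit 3) (nat_lit 4) (nat_lit 1) (nat_lit 4) (nat_lit 266) (nat_lit 187) (nat_lit 147)) (XT.lf (nat_lit 0) (nat_lit 3574097236260) (nat_lit 152) (nat_lit 9997473846303) (nat_lit 0) (nat_lit 3572644335731) (nat_lit 1) (nat_lit 5) (nat_lit 3) (nat_lit 4) (nat_lit 1) (nat_lit 4) (nat_lit 267) (nat_lit 187) (nat_lit 146)))) (XT.nd (nat_lit 156) (nat_lit 0) (nat_lit 0) (XT.nd (nat_lit 78) (nat_lit 0) (nat_lit 0) (XT.lf (nat_lit 0) (nat_lit 4110789255579) (nat_lit 152) (nat_lit 11495599135864) (nat_lit 0) (nat_lit 4109335737844) (nat_lit 1) (nat_lit 5) (nat_lit 3) (nat_lit 4) (nat_lit 1) (nat_lit 4) (nat_lit 268)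 (nat_lit 187) (nat_lit 145)) (XT.lf (nat_lit 0) (nat_lit 4727984451397) (nat_lit 152) (nat_lit 13218444395826) (nat_lit 0) (nat_lit 4726530396961) (nat_lit 1) (nat_lit 5) (nat_lit 3) (nat_lit 4) (nat_lit 1) (nat_lit 4) (nat_lit 269) (nat_lit 187) (nat_lit 144))) (XT.nd (nat_lit 78) (nat_lit 0) (nat_lit 0) (XT.lf (nat_lit 0) (nat_lit 5437758381893) (nat_lit 152) (nat_lit 15199717468233) (nat_lit 0) (nat_lit 5436303860761) (nat_lit 1) (nat_lit 5) (nat_lit 3) (nat_lit 4) (nat_lit 1) (nat_lit 4) (nat_lit 270) (nat_lit 187) (nat_lit 143)) (XT.lf (nat_lit 0) (nat_lit 6253997928317) (nat_lit 152) (nat_lit 17478182391458) (nat_lit 0) (nat_lit 6252543001362) (nat_lit 1) (nat_lit 5) (nat_lit 3) (nat_lit 4) (nat_lit 1) (nat_lit 4) (nat_lit 271) (nat_lit 187) (nat_lit 142))))))))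
noncomputable def xc12 : XT := (XT.nd (nat_lit 29328) (nat_lit 0) (nat_lit 0) (XT.nd (nat_lit 28158) (nat_lit 0) (nat_lit 0) (XT.nd (nat_lit 27612) (nat_lit 0) (nat_lit 0) (XT.nd (nat_lit 390) (nat_lit 0) (nat_lit 0) (XT.nd (nat_lit 78) (nat_lit 0) (nat_lit 0) (XT.lf (nat_lit 0) (nat_lit 7192672994836) (nat_lit 152) (nat_lit 20098417827042) (nat_lit 0) (nat_lit 7191217714992) (nat_lit 1) (nat_lit 5) (nat_lit 3) (nat_lit 4) (nat_lit 1) (nat_lit 4) (nat_lit 272) (nat_lit 187) (nat_lit 141)) (XT.nd (nat_lit 234) (nat_lit 0) (nat_lit 0) (XT.lf (nat_lit 0) (nat_lit 8272148963189) (nat_lit 152) (nat_lit 23111689250900) (nat_lit 0) (nat_lit 8270693376484) (nat_lit 1) (nat_lit 5) (nat_lit 3) (nat_lit 4) (nat_lit 1) (nat_lit 4) (nat_lit 273) (nat_lit 187) (nat_lit 140)) (XT.lf (nat_lit 0) (nat_lit 12582899409137) (nat_lit 152) (nat_lit 35144815591579) (nat_lit 0) (nat_lit 12581443121801) (nat_lit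 1) (nat_lit 5) (nat_lit 3) (nat_lit 4) (nat_lit 1) (nat_lit 4) (nat_lit 276) (nat_lit 187) (nat_lit 137)))) (XT.nd (nat_lit 156) (nat_lit 0) (nat_lit 0) (XT.nd (nat_lit 78) (nat_lit 0) (nat_lit 0) (XT.lf (nat_lit 0) (nat_lit 14470908317137) (nat_lit 152) (nat_lit 40415048601332) (nat_lit 0) (nat_lit 14469451854352) (nat_lit 1) (nat_lit 5) (nat_lit 3) (nat_lit 4) (nat_lit 1) (nat_lit 4) (nat_lit 277) (nat_lit 187) (nat_lit 136)) (XT.lf (nat_lit 0) (nat_lit 16642118383275) (nat_lit 152) (nat_lit 46475816897116) (nat_lit 0) (nat_lit 16640661767926) (nat_lit 1) (nat_lit 5) (nat_lit 3) (nat_lit 4) (nat_lit 1) (nat_lit 4) (nat_lit 278) (nat_lit 187) (nat_lit 135))) (XT.nd (nat_lit 26988) (nat_lit 0) (nat_lit 152) (XT.lf (nat_lit 0) (nat_lit 19139009804498) (nat_lit 152) (nat_lit 53445700728196) (nat_lit 0) (nat_lit 19137553056485) (nat_lit 1) (nat_lit 5) (nat_lit 3) (nat_lit 4) (nat_lit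 1) (nat_lit 4) (nat_lit 279) (nat_lit 187) (nat_lit 134)) (XT.lf (nat_lit 0) (nat_lit 20363334176) (nat_lit 76) (nat_lit 798949666) (nat_lit 76) (nat_lit 798949666) (nat_lit 3) (nat_lit 4) (nat_lit 4) (nat_lit 5) (nat_lit 4) (nat_lit 4) (nat_lit 224) (nat_lit 188) (nat_lit 188))))) (XT.nd (nat_lit 234) (nat_lit 0) (nat_lit 0) (XT.nd (nat_lit 78) (nat_lit 0) (nat_lit 0) (XT.lf (nat_lit 0) (nat_lit 434682137) (nat_lit 152) (nat_lit 49503770810) (nat_lit 0) (nat_lit 216037271) (nat_lit 1) (nat_lit 5) (nat_lit 3) (nat_lit 4) (nat_lit 1) (nat_lit 4) (nat_lit 225) (nat_lit 188) (nat_lit 187)) (XT.nd (nat_lit 78) (nat_lit 0) (nat_lit 0) (XT.lf (nat_lit 0) (nat_lit 2637753425) (nat_lit 152) (nat_lit 52439955677) (nat_lit 0) (nat_lit 2228982588) (nat_lit 1) (nat_lit 5) (nat_lit 3) (nat_lit 4) (nat_lit 1) (nat_lit 4) (nat_lit 226) (nat_lit 188) (nat_lit 186)) (XT.lf (nat_lit 0) (nat_lit 4978327656)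 (nat_lit 152) (nat_lit 56179125083) (nat_lit 0) (nat_lit 4404229888) (nat_lit 1) (nat_lit 5) (nat_lit 3) (nat_lit 4) (nat_lit 1) (nat_lit 4) (nat_lit 227) (nat_lit 188) (nat_lit 185)))) (XT.nd (nat_lit 156) (nat_lit 0) (nat_lit 0) (XT.nd (nat_lit 78) (nat_lit 0) (nat_lit 0) (XT.lf (nat_lit 0) (nat_lit 7502198673) (nat_lit 152) (nat_lit 60794436688) (nat_lit 0) (nat_lit 6784338357) (nat_lit 1) (nat_lit 5) (nat_lit 3) (nat_lit 4) (nat_lit 1) (nat_lit 4) (nat_lit 228) (nat_lit 188) (nat_lit 184)) (XT.lf (nat_lit 0) (nat_lit 10258746562) (nat_lit 152) (nat_lit 66376190070) (nat_lit 0) (nat_lit 9415875334) (nat_lit 1) (nat_lit 5) (nat_lit 3) (nat_lit 4) (nat_lit 1) (nat_lit 4) (nat_lit 229) (nat_lit 188) (nat_lit 183))) (XT.nd (nat_lit 78) (nat_lit 0) (nat_lit 0) (XT.lf (nat_lit 0) (nat_lit 13301903781) (nat_lit 152) (nat_lit 73033593444) (nat_lit 0) (nat_lit 12350327413) (nat_lit 1) (nat_lit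 5) (nat_lit 3) (nat_lit 4) (nat_lit 1) (nat_lit 4) (nat_lit 230) (nat_lit 188) (nat_lit 182)) (XT.lf (nat_lit 0) (nat_lit 16691210363) (nat_lit 152) (nat_lit 80896900357) (nat_lit 0) (nat_lit 15645107785) (nat_lit 1) (nat_lit 5) (nat_lit 3) (nat_lit 4) (nat_lit 1) (nat_lit 4) (nat_lit 231) (nat_lit 188) (nat_lit 181)))))) (XT.nd (nat_lit 546) (nat_lit 0) (nat_lit 0) (XT.nd (nat_lit 234) (nat_lit 0) (nat_lit 0) (XT.nd (nat_lit 78) (nat_lit 0) (nat_lit 0) (XT.lf (nat_lit 0) (nat_lit 20492978828) (nat_lit 152) (nat_lit 90119958117) (nat_lit 0) (nat_lit 19364679547) (nat_lit 1) (nat_lit 5) (nat_lit 3) (nat_lit 4) (nat_lit 1) (nat_lit 4) (nat_lit 232) (nat_lit 188) (nat_lit 180)) (XT.nd (nat_lit 78) (nat_lit 0) (nat_lit 0) (XT.lf (nat_lit 0) (nat_lit 24781591602) (nat_lit 152) (nat_lit 100883217854) (nat_lit 0) (nat_lit 23581816926) (nat_lit 1) (nat_lit 5) (nat_lit 3) (nat_lit 4) (nat_lit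 1) (nat_lit 4) (nat_lit 233) (nat_lit 188) (nat_lit 179)) (XT.lf (nat_lit 0) (nat_lit 29640956327) (nat_lit 152) (nat_lit 113397265085) (nat_lit 0) (nat_lit 28379029134) (nat_lit 1) (nat_lit 5) (nat_lit 3) (nat_lit 4) (nat_lit 1) (nat_lit 4) (nat_lit 234) (nat_lit 188) (nat_lit 178)))) (XT.nd (nat_lit 156) (nat_lit 0) (nat_lit 0) (XT.nd (nat_lit 78) (nat_lit 0) (nat_lit 0) (XT.lf (nat_lit 0) (nat_lit 35166147530) (nat_lit 152) (nat_lit 127906939864) (nat_lit 0) (nat_lit 33850174670) (nat_lit 1) (nat_lit 5) (nat_lit 3) (nat_lit 4) (nat_lit 1) (nat_lit 4) (nat_lit 235) (nat_lit 188) (nat_lit 177)) (XT.lf (nat_lit 0) (nat_lit 41465266777) (nat_lit 152) (nat_lit 144696127133) (nat_lit 0) (nat_lit 40102297685) (nat_lit 1) (nat_lit 5) (nat_lit 3) (nat_lit 4) (nat_lit 1) (nat_lit 4) (nat_lit 236) (nat_lit 188) (nat_lit 176))) (XT.nd (nat_lit 78) (nat_lit 0) (nat_lit 0) (XT.lf (nat_lit 0)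 (nat_lit 48661557707) (nat_lit 152) (nat_lit 164093310990) (nat_lit 0) (nat_lit 47257722326) (nat_lit 1) (nat_lit 5) (nat_lit 3) (nat_lit 4) (nat_lit 1) (nat_lit 4) (nat_lit 237) (nat_lit 188) (nat_lit 175)) (XT.lf (nat_lit 0) (nat_lit 56895817315) (nat_lit 152) (nat_lit 186478001554) (nat_lit 0) (nat_lit 55456446031) (nat_lit 1) (nat_lit 5) (nat_lit 3) (nat_lit 4) (nat_lit 1) (nat_lit 4) (nat_lit 238) (nat_lit 188) (nat_lit 174))))) (XT.nd (nat_lit 312) (nat_lit 0) (nat_lit 0) (XT.nd (nat_lit 156) (nat_lit 0) (nat_lit 0) (XT.nd (nat_lit 78) (nat_lit 0) (nat_lit 0) (XT.lf (nat_lit 0) (nat_lit 66329150682) (nat_lit 152) (nat_lit 212288160162) (nat_lit 0) (nat_lit 64858878612) (nat_lit 1) (nat_lit 5) (nat_lit 3) (nat_lit 4) (nat_lit 1) (nat_lit 4) (nat_lit 239) (nat_lit 188) (nat_lit 173)) (XT.lf (nat_lit 0) (nat_lit 77146123024) (nat_lit 152) (nat_lit 242028768180) (nat_lit 0) (nat_lit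 75648980706) (nat_lit 1) (nat_lit 5) (nat_lit 3) (nat_lit 4) (nat_lit 1) (nat_lit 4) (nat_lit 240) (nat_lit 188) (nat_lit 172))) (XT.nd (nat_lit 78) (nat_lit 0) (nat_lit 0) (XT.lf (nat_lit 0) (nat_lit 89558370758) (nat_lit 152) (nat_lit 276281707066) (nat_lit 0) (nat_lit 88037863006) (nat_lit 1) (nat_lit 5) (nat_lit 3) (nat_lit 4) (nat_lit 1) (nat_lit 4) (nat_lit 241) (nat_lit 188) (nat_lit 171)) (XT.lf (nat_lit 0) (nat_lit 103808742209) (nat_lit 152) (nat_lit 315717143019) (nat_lit 0) (nat_lit 102267916689) (nat_lit 1) (nat_lit 5) (nat_lit 3) (nat_lit 4) (nat_lit 1) (nat_lit 4) (nat_lit 242) (nat_lit 188) (nat_lit 170)))) (XT.nd (nat_lit 156) (nat_lit 0) (nat_lit 0) (XT.nd (nat_lit 78) (nat_lit 0) (nat_lit 0) (XT.lf (nat_lit 0) (nat_lit 120176048991) (nat_lit 152) (nat_lit 361106638913) (nat_lit 0) (nat_lit 118617555847) (nat_lit 1) (nat_lit 5) (nat_lit 3) (nat_lit 4) (nat_lit 1)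 (nat_lit 4) (nat_lit 243) (nat_lit 188) (nat_lit 169)) (XT.lf (nat_lit 0) (nat_lit 138980521021) (nat_lit 152) (nat_lit 413338250105) (nat_lit 0) (nat_lit 137406664725) (nat_lit 1) (nat_lit 5) (nat_lit 3) (nat_lit 4) (nat_lit 1) (nat_lit 4) (nat_lit 244) (nat_lit 188) (nat_lit 168))) (XT.nd (nat_lit 78) (nat_lit 0) (nat_lit 0) (XT.lf (nat_lit 0) (nat_lit 160590071881) (nat_lit 152) (nat_lit 473433899422) (nat_lit 0) (nat_lit 159002856323) (nat_lit 1) (nat_lit 5) (nat_lit 3) (nat_lit 4) (nat_lit 1) (nat_lit 4) (nat_lit 245) (nat_lit 188) (nat_lit 167)) (XT.lf (nat_lit 0) (nat_lit 185427497133) (nat_lit 152) (nat_lit 542569371306) (nat_lit 0) (nat_lit 183828664825) (nat_lit 1) (nat_lit 5) (nat_lit 3) (nat_lit 4) (nat_lit 1) (nat_lit 4) (nat_lit 246) (nat_lit 188) (nat_lit 166))))))) (XT.nd (nat_lit 1170) (nat_lit 0) (nat_lit 0) (XT.nd (nat_lit 546) (nat_lit 0) (nat_lit 0) (XT.nd (nat_lit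 234) (nat_lit 0) (nat_lit 0) (XT.nd (nat_lit 78) (nat_lit 0) (nat_lit 0) (XT.lf (nat_lit 0) (nat_lit 213978746399) (nat_lit 152) (nat_lit 622097316296) (nat_lit 0) (nat_lit 212369812570) (nat_lit 1) (nat_lit 5) (nat_lit 3) (nat_lit 4) (nat_lit 1) (nat_lit 4) (nat_lit 247) (nat_lit 188) (nat_lit 165)) (XT.nd (nat_lit 78) (nat_lit 0) (nat_lit 0) (XT.lf (nat_lit 0) (nat_lit 246802431080) (nat_lit 152) (nat_lit 713573715922) (nat_lit 0) (nat_lit 245184713318) (nat_lit 1) (nat_lit 5) (nat_lit 3) (nat_lit 4) (nat_lit 1) (nat_lit 4) (nat_lit 248) (nat_lit 188) (nat_lit 164)) (XT.lf (nat_lit 0) (nat_lit 284540753701) (nat_lit 152) (nat_lit 818788325831) (nat_lit 0) (nat_lit 282915397738) (nat_lit 1) (nat_lit 5) (nat_lit 3) (nat_lit 4) (nat_lit 1) (nat_lit 4) (nat_lit 249) (nat_lit 188) (nat_lit 163)))) (XT.nd (nat_lit 156) (nat_lit 0) (nat_lit 0) (XT.nd (nat_lit 78) (nat_lit 0) (nat_lit 0)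 (XT.lf (nat_lit 0) (nat_lit 327932072748) (nat_lit 152) (nat_lit 939799692737) (nat_lit 0) (nat_lit 326300074871) (nat_lit 1) (nat_lit 5) (nat_lit 3) (nat_lit 4) (nat_lit 1) (nat_lit 4) (nat_lit 250) (nat_lit 188) (nat_lit 162)) (XT.lf (nat_lit 0) (nat_lit 377825348812) (nat_lit 152) (nat_lit 1078975430341) (nat_lit 0) (nat_lit 376187575357) (nat_lit 1) (nat_lit 5) (nat_lit 3) (nat_lit 4) (nat_lit 1) (nat_lit 4) (nat_lit 251) (nat_lit 188) (nat_lit 161))) (XT.nd (nat_lit 78) (nat_lit 0) (nat_lit 0) (XT.lf (nat_lit 0) (nat_lit 435196754684) (nat_lit 152) (nat_lit 1239038542205) (nat_lit 0) (nat_lit 433553958988) (nat_lit 1) (nat_lit 5) (nat_lit 3) (nat_lit 4) (nat_lit 1) (nat_lit 4) (nat_lit 252) (nat_lit 188) (nat_lit 160)) (XT.lf (nat_lit 0) (nat_lit 501168774394) (nat_lit 152) (nat_lit 1423120697909) (nat_lit 0) (nat_lit 499521611531) (nat_lit 1) (nat_lit 5) (nat_lit 3) (nat_lit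 4) (nat_lit 1) (nat_lit 4) (nat_lit 253) (nat_lit 188) (nat_lit 159))))) (XT.nd (nat_lit 312) (nat_lit 0) (nat_lit 0) (XT.nd (nat_lit 156) (nat_lit 0) (nat_lit 0) (XT.nd (nat_lit 78) (nat_lit 0) (nat_lit 0) (XT.lf (nat_lit 0) (nat_lit 577032164848) (nat_lit 152) (nat_lit 1634823504847) (nat_lit 0) (nat_lit 575381204449) (nat_lit 1) (nat_lit 5) (nat_lit 3) (nat_lit 4) (nat_lit 1) (nat_lit 4) (nat_lit 254) (nat_lit 188) (nat_lit 158)) (XT.lf (nat_lit 0) (nat_lit 664271209773) (nat_lit 152) (nat_lit 1878288974459) (nat_lit 0) (nat_lit 662616947168) (nat_lit 1) (nat_lit 5) (nat_lit 3) (nat_lit 4) (nat_lit 1) (nat_lit 4) (nat_lit 255) (nat_lit 188) (nat_lit 157))) (XT.nd (nat_lit 78) (nat_lit 0) (nat_lit 0) (XT.lf (nat_lit 0) (nat_lit 764592760047) (nat_lit 152) (nat_lit 2158280561585) (nat_lit 0) (nat_lit 762935625960) (nat_lit 1) (nat_lit 5) (nat_lit 3) (nat_lit 4) (nat_lit 1) (nat_lit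 4) (nat_lit 256) (nat_lit 188) (nat_lit 156)) (XT.lf (nat_lit 0) (nat_lit 879959628611) (nat_lit 152) (nat_lit 2480276362495) (nat_lit 0) (nat_lit 878299997582) (nat_lit 1) (nat_lit 5) (nat_lit 3) (nat_lit 4) (nat_lit 1) (nat_lit 4) (nat_lit 257) (nat_lit 188) (nat_lit 155)))) (XT.nd (nat_lit 156) (nat_lit 0) (nat_lit 0) (XT.nd (nat_lit 78) (nat_lit 0) (nat_lit 0) (XT.lf (nat_lit 0) (nat_lit 1012628993328) (nat_lit 152) (nat_lit 2850576295034) (nat_lit 0) (nat_lit 1010967191046) (nat_lit 1) (nat_lit 5) (nat_lit 3) (nat_lit 4) (nat_lit 1) (nat_lit 4) (nat_lit 258) (nat_lit 188) (nat_lit 154)) (XT.lf (nat_lit 0) (nat_lit 1165196559160) (nat_lit 152) (nat_lit 3276425357880) (nat_lit 0) (nat_lit 1163532868831) (nat_lit 1) (nat_lit 5) (nat_lit 3) (nat_lit 4) (nat_lit 1) (nat_lit 4) (nat_lit 259) (nat_lit 188) (nat_lit 153))) (XT.nd (nat_lit 78) (nat_lit 0) (nat_lit 0) (XT.lf (nat_lit 0)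 (nat_lit 1340647343699) (nat_lit 152) (nat_lit 3766155380525) (nat_lit 0) (nat_lit 1338982011590) (nat_lit 1) (nat_lit 5) (nat_lit 3) (nat_lit 4) (nat_lit 1) (nat_lit 4) (nat_lit 260) (nat_lit 188) (nat_lit 152)) (XT.lf (nat_lit 0) (nat_lit 1542414079686) (nat_lit 152) (nat_lit 4329348037325) (nat_lit 0) (nat_lit 1540747319943) (nat_lit 1) (nat_lit 5) (nat_lit 3) (nat_lit 4) (nat_lit 1) (nat_lit 4) (nat_lit 261) (nat_lit 188) (nat_lit 151)))))) (XT.nd (nat_lit 546) (nat_lit 0) (nat_lit 0) (XT.nd (nat_lit 234) (nat_lit 0) (nat_lit 0) (XT.nd (nat_lit 78) (nat_lit 0) (nat_lit 0) (XT.lf (nat_lit 0) (nat_lit 1774444377173) (nat_lit 152) (nat_lit 4977022315043) (nat_lit 0) (nat_lit 1772776376008) (nat_lit 1) (nat_lit 5) (nat_lit 3) (nat_lit 4) (nat_lit 1) (nat_lit 4) (nat_lit 262) (nat_lit 188) (nat_lit 150)) (XT.nd (nat_lit 78) (nat_lit 0) (nat_lit 0) (XT.lf (nat_lit 0) (nat_lit 2041277959372)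 (nat_lit 152) (nat_lit 5721850101721) (nat_lit 0) (nat_lit 2039608878710) (nat_lit 1) (nat_lit 5) (nat_lit 3) (nat_lit 4) (nat_lit 1) (nat_lit 4) (nat_lit 263) (nat_lit 188) (nat_lit 149)) (XT.lf (nat_lit 0) (nat_lit 2348135483326) (nat_lit 152) (nat_lit 6578404114926) (nat_lit 0) (nat_lit 2346465463971) (nat_lit 1) (nat_lit 5) (nat_lit 3) (nat_lit 4) (nat_lit 1) (nat_lit 4) (nat_lit 264) (nat_lit 188) (nat_lit 148)))) (XT.nd (nat_lit 156) (nat_lit 0) (nat_lit 0) (XT.nd (nat_lit 78) (nat_lit 0) (nat_lit 0) (XT.lf (nat_lit 0) (nat_lit 2701020683198) (nat_lit 152) (nat_lit 7563443020132) (nat_lit 0) (nat_lit 2699349847589) (nat_lit 1) (nat_lit 5) (nat_lit 3) (nat_lit 4) (nat_lit 1) (nat_lit 4) (nat_lit 265) (nat_lit 188) (nat_lit 147)) (XT.lf (nat_lit 0) (nat_lit 3106837834640) (nat_lit 152) (nat_lit 8696239317659) (nat_lit 0) (nat_lit 3105166289244) (nat_lit 1) (nat_lit 5) (nat_lit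 3) (nat_lit 4) (nat_lit 1) (nat_lit 4) (nat_lit 266) (nat_lit 188) (nat_lit 146))) (XT.nd (nat_lit 78) (nat_lit 0) (nat_lit 0) (XT.lf (nat_lit 0) (nat_lit 3573526838439) (nat_lit 152) (nat_lit 9998956413328) (nat_lit 0) (nat_lit 3571854675838) (nat_lit 1) (nat_lit 5) (nat_lit 3) (nat_lit 4) (nat_lit 1) (nat_lit 4) (nat_lit 267) (nat_lit 188) (nat_lit 145)) (XT.lf (nat_lit 0) (nat_lit 4110218566410) (nat_lit 152) (nat_lit 11497082250316) (nat_lit 0) (nat_lit 4108545867108) (nat_lit 1) (nat_lit 5) (nat_lit 3) (nat_lit 4) (nat_lit 1) (nat_lit 4) (nat_lit 268) (nat_lit 188) (nat_lit 144))))) (XT.nd (nat_lit 312) (nat_lit 0) (nat_lit 0) (XT.nd (nat_lit 156) (nat_lit 0) (nat_lit 0) (XT.nd (nat_lit 78) (nat_lit 0) (nat_lit 0) (XT.lf (nat_lit 0) (nat_lit 4727413508881) (nat_lit 152) (nat_lit 13219927986301) (nat_lit 0) (nat_lit 4725740342883) (nat_lit 1) (nat_lit 5) (nat_lit 3) (nat_lit 4)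 (nat_lit 1) (nat_lit 4) (nat_lit 269) (nat_lit 188) (nat_lit 143)) (XT.lf (nat_lit 0) (nat_lit 5437187219077) (nat_lit 152) (nat_lit 15201201472642) (nat_lit 0) (nat_lit 5435513647255) (nat_lit 1) (nat_lit 5) (nat_lit 3) (nat_lit 4) (nat_lit 1) (nat_lit 4) (nat_lit 270) (nat_lit 188) (nat_lit 142))) (XT.nd (nat_lit 78) (nat_lit 0) (nat_lit 0) (XT.lf (nat_lit 0) (nat_lit 6253426573934) (nat_lit 152) (nat_lit 17479666755809) (nat_lit 0) (nat_lit 6251752649223) (nat_lit 1) (nat_lit 5) (nat_lit 3) (nat_lit 4) (nat_lit 1) (nat_lit 4) (nat_lit 271) (nat_lit 188) (nat_lit 141)) (XT.lf (nat_lit 0) (nat_lit 7192101473874) (nat_lit 152) (nat_lit 20099902504386) (nat_lit 0) (nat_lit 7190427242303) (nat_lit 1) (nat_lit 5) (nat_lit 3) (nat_lit 4) (nat_lit 1) (nat_lit 4) (nat_lit 272) (nat_lit 188) (nat_lit 140)))) (XT.nd (nat_lit 312) (nat_lit 0) (nat_lit 0) (XT.nd (nat_lit 234) (nat_lit 0) (nat_lit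 0) (XT.lf (nat_lit 0) (nat_lit 8271577297375) (nat_lit 152) (nat_lit 23113174200411) (nat_lit 0) (nat_lit 8269902798969) (nat_lit 1) (nat_lit 5) (nat_lit 3) (nat_lit 4) (nat_lit 1) (nat_lit 4) (nat_lit 273) (nat_lit 188) (nat_lit 139)) (XT.lf (nat_lit 0) (nat_lit 12582327412595) (nat_lit 152) (nat_lit 35146301162512) (nat_lit 0) (nat_lit 12580652304944) (nat_lit 1) (nat_lit 5) (nat_lit 3) (nat_lit 4) (nat_lit 1) (nat_lit 4) (nat_lit 276) (nat_lit 188) (nat_lit 136))) (XT.nd (nat_lit 26988) (nat_lit 0) (nat_lit 152) (XT.lf (nat_lit 0) (nat_lit 14470336237775) (nat_lit 152) (nat_lit 40416534327878) (nat_lit 0) (nat_lit 14468660977560) (nat_lit 1) (nat_lit 5) (nat_lit 3) (nat_lit 4) (nat_lit 1) (nat_lit 4) (nat_lit 277) (nat_lit 188) (nat_lit 135)) (XT.lf (nat_lit 0) (nat_lit 11784872440) (nat_lit 76) (nat_lit 2569724880) (nat_lit 76) (nat_lit 2569724880) (nat_lit 3) (nat_lit 4) (nat_lit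 4) (nat_lit 5) (nat_lit 4) (nat_lit 4) (nat_lit 222) (nat_lit 189) (nat_lit 189))))))))
noncomputable def xc13 : XT := (XT.nd (nat_lit 2340) (nat_lit 0) (nat_lit 0) (XT.nd (nat_lit 1170) (nat_lit 0) (nat_lit 0) (XT.nd (nat_lit 546) (nat_lit 0) (nat_lit 0) (XT.nd (nat_lit 234) (nat_lit 0) (nat_lit 0) (XT.nd (nat_lit 78) (nat_lit 152) (nat_lit 0) (XT.lf (nat_lit 0) (nat_lit 31645702864) (nat_lit 76) (nat_lit 3584568054) (nat_lit 76) (nat_lit 3295410219) (nat_lit 3) (nat_lit 4) (nat_lit 4) (nat_lit 5) (nat_lit 4) (nat_lit 4) (nat_lit 223) (nat_lit 189) (nat_lit 188)) (XT.nd (nat_lit 78) (nat_lit 152) (nat_lit 0) (XT.lf (nat_lit 0) (nat_lit 40547202097) (nat_lit 76) (nat_lit 1965842450) (nat_lit 76) (nat_lit 1425243019) (nat_lit 3) (nat_lit 4) (nat_lit 4) (nat_lit 5) (nat_lit 4) (nat_lit 4) (nat_lit 224) (nat_lit 189) (nat_lit 187)) (XT.lf (nat_lit 0) (nat_lit 257987269) (nat_lit 76)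 (nat_lit 215143691) (nat_lit 152) (nat_lit 49714476089) (nat_lit 1) (nat_lit 5) (nat_lit 2) (nat_lit 5) (nat_lit 3) (nat_lit 4) (nat_lit 225) (nat_lit 189) (nat_lit 186)))) (XT.nd (nat_lit 156) (nat_lit 0) (nat_lit 0) (XT.nd (nat_lit 78) (nat_lit 0) (nat_lit 0) (XT.lf (nat_lit 0) (nat_lit 2577545817) (nat_lit 152) (nat_lit 53025527080) (nat_lit 0) (nat_lit 1752006453) (nat_lit 1) (nat_lit 5) (nat_lit 3) (nat_lit 4) (nat_lit 1) (nat_lit 4) (nat_lit 226) (nat_lit 189) (nat_lit 185)) (XT.lf (nat_lit 0) (nat_lit 4840078491) (nat_lit 152) (nat_lit 56911332201) (nat_lit 0) (nat_lit 3870776579) (nat_lit 1) (nat_lit 5) (nat_lit 3) (nat_lit 4) (nat_lit 1) (nat_lit 4) (nat_lit 227) (nat_lit 189) (nat_lit 184))) (XT.nd (nat_lit 78) (nat_lit 0) (nat_lit 0) (XT.lf (nat_lit 0) (nat_lit 7296087284) (nat_lit 152) (nat_lit 61654153126) (nat_lit 0) (nat_lit 6201774460) (nat_lit 1) (nat_lit 5) (nat_lit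 3) (nat_lit 4) (nat_lit 1) (nat_lit 4) (nat_lit 228) (nat_lit 189) (nat_lit 183)) (XT.lf (nat_lit 0) (nat_lit 9993624544) (nat_lit 152) (nat_lit 67346784175) (nat_lit 0) (nat_lit 8790606579) (nat_lit 1) (nat_lit 5) (nat_lit 3) (nat_lit 4) (nat_lit 1) (nat_lit 4) (nat_lit 229) (nat_lit 189) (nat_lit 182))))) (XT.nd (nat_lit 312) (nat_lit 0) (nat_lit 0) (XT.nd (nat_lit 156) (nat_lit 0) (nat_lit 0) (XT.nd (nat_lit 78) (nat_lit 0) (nat_lit 0) (XT.lf (nat_lit 0) (nat_lit 12985468172) (nat_lit 152) (nat_lit 74100602913) (nat_lit 0) (nat_lit 11687923998) (nat_lit 1) (nat_lit 5) (nat_lit 3) (nat_lit 4) (nat_lit 1) (nat_lit 4) (nat_lit 230) (nat_lit 189) (nat_lit 181)) (XT.lf (nat_lit 0) (nat_lit 16330154241) (nat_lit 152) (nat_lit 82047749273) (nat_lit 0) (nat_lit 14950413363) (nat_lit 1) (nat_lit 5) (nat_lit 3) (nat_lit 4) (nat_lit 1) (nat_lit 4) (nat_lit 231) (nat_lit 189) (nat_lit 180)))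 (XT.nd (nat_lit 78) (nat_lit 0) (nat_lit 0) (XT.lf (nat_lit 0) (nat_lit 20093122259) (nat_lit 152) (nat_lit 91343710899) (nat_lit 0) (nat_lit 18641905986) (nat_lit 1) (nat_lit 5) (nat_lit 3) (nat_lit 4) (nat_lit 1) (nat_lit 4) (nat_lit 232) (nat_lit 189) (nat_lit 179)) (XT.lf (nat_lit 0) (nat_lit 24347995514) (nat_lit 152) (nat_lit 102170365303) (nat_lit 0) (nat_lit 22834626725) (nat_lit 1) (nat_lit 5) (nat_lit 3) (nat_lit 4) (nat_lit 1) (nat_lit 4) (nat_lit 233) (nat_lit 189) (nat_lit 178)))) (XT.nd (nat_lit 156) (nat_lit 0) (nat_lit 0) (XT.nd (nat_lit 78) (nat_lit 0) (nat_lit 0) (XT.lf (nat_lit 0) (nat_lit 29178021527) (nat_lit 152) (nat_lit 114739538331) (nat_lit 0) (nat_lit 27610607071) (nat_lit 1) (nat_lit 5) (nat_lit 3) (nat_lit 4) (nat_lit 1) (nat_lit 4) (nat_lit 234) (nat_lit 189) (nat_lit 177)) (XT.lf (nat_lit 0) (nat_lit 34677700806) (nat_lit 152) (nat_lit 129297148585)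 (nat_lit 0) (nat_lit 33063290117) (nat_lit 1) (nat_lit 5) (nat_lit 3) (nat_lit 4) (nat_lit 1) (nat_lit 4) (nat_lit 235) (nat_lit 189) (nat_lit 176))) (XT.nd (nat_lit 78) (nat_lit 0) (nat_lit 0) (XT.lf (nat_lit 0) (nat_lit 40954635772) (nat_lit 152) (nat_lit 146128018876) (nat_lit 0) (nat_lit 39299358795) (nat_lit 1) (nat_lit 5) (nat_lit 3) (nat_lit 4) (nat_lit 1) (nat_lit 4) (nat_lit 236) (nat_lit 189) (nat_lit 175)) (XT.lf (nat_lit 0) (nat_lit 48131636022) (nat_lit 152) (nat_lit 165561448840) (nat_lit 0) (nat_lit 46440823142) (nat_lit 1) (nat_lit 5) (nat_lit 3) (nat_lit 4) (nat_lit 1) (nat_lit 4) (nat_lit 237) (nat_lit 189) (nat_lit 174)))))) (XT.nd (nat_lit 546) (nat_lit 0) (nat_lit 0) (XT.nd (nat_lit 234) (nat_lit 0) (nat_lit 0) (XT.nd (nat_lit 78) (nat_lit 0) (nat_lit 0) (XT.lf (nat_lit 0) (nat_lit 56349121127) (nat_lit 152) (nat_lit 187977657757) (nat_lit 0) (nat_lit 54627407461)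 (nat_lit 1) (nat_lit 5) (nat_lit 3) (nat_lit 4) (nat_lit 1) (nat_lit 4) (nat_lit 238) (nat_lit 189) (nat_lit 173)) (XT.nd (nat_lit 78) (nat_lit 0) (nat_lit 0) (XT.lf (nat_lit 0) (nat_lit 65767867968) (nat_lit 152) (nat_lit 213815223630) (nat_lit 0) (nat_lit 64019284054) (nat_lit 1) (nat_lit 5) (nat_lit 3) (nat_lit 4) (nat_lit 1) (nat_lit 4) (nat_lit 239) (nat_lit 189) (nat_lit 172)) (XT.lf (nat_lit 0) (nat_lit 76572156376) (nat_lit 152) (nat_lit 243579664050) (nat_lit 0) (nat_lit 74800207028) (nat_lit 1) (nat_lit 5) (nat_lit 3) (nat_lit 4) (nat_lit 1) (nat_lit 4) (nat_lit 240) (nat_lit 189) (nat_lit 171)))) (XT.nd (nat_lit 156) (nat_lit 0) (nat_lit 0) (XT.nd (nat_lit 78) (nat_lit 0) (nat_lit 0) (XT.lf (nat_lit 0) (nat_lit 88973374601) (nat_lit 152) (nat_lit 277853326766) (nat_lit 0) (nat_lit 87181107485) (nat_lit 1) (nat_lit 5) (nat_lit 3) (nat_lit 4) (nat_lit 1) (nat_lit 4) (nat_lit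 241) (nat_lit 189) (nat_lit 170)) (XT.lf (nat_lit 0) (nat_lit 103214155175) (nat_lit 152) (nat_lit 317306783439) (nat_lit 0) (nat_lit 101404220434) (nat_lit 1) (nat_lit 5) (nat_lit 3) (nat_lit 4) (nat_lit 1) (nat_lit 4) (nat_lit 242) (nat_lit 189) (nat_lit 169))) (XT.nd (nat_lit 78) (nat_lit 0) (nat_lit 0) (XT.lf (nat_lit 0) (nat_lit 119573122064) (nat_lit 152) (nat_lit 362711949526) (nat_lit 0) (nat_lit 117747824172) (nat_lit 1) (nat_lit 5) (nat_lit 3) (nat_lit 4) (nat_lit 1) (nat_lit 4) (nat_lit 243) (nat_lit 189) (nat_lit 168)) (XT.lf (nat_lit 0) (nat_lit 138370342013) (nat_lit 152) (nat_lit 414957186972) (nat_lit 0) (nat_lit 136531684859) (nat_lit 1) (nat_lit 5) (nat_lit 3) (nat_lit 4) (nat_lit 1) (nat_lit 4) (nat_lit 244) (nat_lit 189) (nat_lit 167))))) (XT.nd (nat_lit 312) (nat_lit 0) (nat_lit 0) (XT.nd (nat_lit 156) (nat_lit 0) (nat_lit 0) (XT.nd (nat_lit 78) (nat_lit 0) (nat_lit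 0) (XT.lf (nat_lit 0) (nat_lit 159973586716) (nat_lit 152) (nat_lit 475064685205) (nat_lit 0) (nat_lit 158123312812) (nat_lit 1) (nat_lit 5) (nat_lit 3) (nat_lit 4) (nat_lit 1) (nat_lit 4) (nat_lit 245) (nat_lit 189) (nat_lit 166)) (XT.lf (nat_lit 0) (nat_lit 184805528352) (nat_lit 152) (nat_lit 544210460495) (nat_lit 0) (nat_lit 182945152927) (nat_lit 1) (nat_lit 5) (nat_lit 3) (nat_lit 4) (nat_lit 1) (nat_lit 4) (nat_lit 246) (nat_lit 189) (nat_lit 165))) (XT.nd (nat_lit 78) (nat_lit 0) (nat_lit 0) (XT.lf (nat_lit 0) (nat_lit 213352009258) (nat_lit 152) (nat_lit 623747364967) (nat_lit 0) (nat_lit 211482849901) (nat_lit 1) (nat_lit 5) (nat_lit 3) (nat_lit 4) (nat_lit 1) (nat_lit 4) (nat_lit 247) (nat_lit 189) (nat_lit 164)) (XT.lf (nat_lit 0) (nat_lit 246171547538) (nat_lit 152) (nat_lit 715231555449) (nat_lit 0) (nat_lit 244294749979) (nat_lit 1) (nat_lit 5) (nat_lit 3) (nat_lit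 4) (nat_lit 1) (nat_lit 4) (nat_lit 248) (nat_lit 189) (nat_lit 163)))) (XT.nd (nat_lit 156) (nat_lit 0) (nat_lit 0) (XT.nd (nat_lit 78) (nat_lit 0) (nat_lit 0) (XT.lf (nat_lit 0) (nat_lit 283906264593) (nat_lit 152) (nat_lit 820452940014) (nat_lit 0) (nat_lit 282022825119) (nat_lit 1) (nat_lit 5) (nat_lit 3) (nat_lit 4) (nat_lit 1) (nat_lit 4) (nat_lit 249) (nat_lit 189) (nat_lit 162)) (XT.lf (nat_lit 0) (nat_lit 327294448365) (nat_lit 152) (nat_lit 941470197926) (nat_lit 0) (nat_lit 325405233314) (nat_lit 1) (nat_lit 5) (nat_lit 3) (nat_lit 4) (nat_lit 1) (nat_lit 4) (nat_lit 250) (nat_lit 189) (nat_lit 161))) (XT.nd (nat_lit 78) (nat_lit 0) (nat_lit 0) (XT.lf (nat_lit 0) (nat_lit 377184998103) (nat_lit 152) (nat_lit 1080651058144) (nat_lit 0) (nat_lit 375290760811) (nat_lit 1) (nat_lit 5) (nat_lit 3) (nat_lit 4) (nat_lit 1) (nat_lit 4) (nat_lit 251) (nat_lit 189) (nat_lit 160))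 (XT.lf (nat_lit 0) (nat_lit 434554033258) (nat_lit 152) (nat_lit 1240718624454) (nat_lit 0) (nat_lit 432655428799) (nat_lit 1) (nat_lit 5) (nat_lit 3) (nat_lit 4) (nat_lit 1) (nat_lit 4) (nat_lit 252) (nat_lit 189) (nat_lit 159))))))) (XT.nd (nat_lit 1170) (nat_lit 0) (nat_lit 0) (XT.nd (nat_lit 546) (nat_lit 0) (nat_lit 0) (XT.nd (nat_lit 234) (nat_lit 0) (nat_lit 0) (XT.nd (nat_lit 78) (nat_lit 0) (nat_lit 0) (XT.lf (nat_lit 0) (nat_lit 500523991474) (nat_lit 152) (nat_lit 1424804653590) (nat_lit 0) (nat_lit 498621589478) (nat_lit 1) (nat_lit 5) (nat_lit 3) (nat_lit 4) (nat_lit 1) (nat_lit 4) (nat_lit 253) (nat_lit 189) (nat_lit 158)) (XT.nd (nat_lit 78) (nat_lit 0) (nat_lit 0) (XT.lf (nat_lit 0) (nat_lit 576385589324) (nat_lit 152) (nat_lit 1636510828729) (nat_lit 0) (nat_lit 574479885124) (nat_lit 1) (nat_lit 5) (nat_lit 3) (nat_lit 4) (nat_lit 1) (nat_lit 4) (nat_lit 254) (nat_lit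 189) (nat_lit 157)) (XT.lf (nat_lit 0) (nat_lit 663623075463) (nat_lit 152) (nat_lit 1879979227212) (nat_lit 0) (nat_lit 661714499780) (nat_lit 1) (nat_lit 5) (nat_lit 3) (nat_lit 4) (nat_lit 1) (nat_lit 4) (nat_lit 255) (nat_lit 189) (nat_lit 156)))) (XT.nd (nat_lit 156) (nat_lit 0) (nat_lit 0) (XT.nd (nat_lit 78) (nat_lit 0) (nat_lit 0) (XT.lf (nat_lit 0) (nat_lit 763943270272) (nat_lit 152) (nat_lit 2159973361182) (nat_lit 0) (nat_lit 762032197647) (nat_lit 1) (nat_lit 5) (nat_lit 3) (nat_lit 4) (nat_lit 1) (nat_lit 4) (nat_lit 256) (nat_lit 189) (nat_lit 155)) (XT.lf (nat_lit 0) (nat_lit 879308960170) (nat_lit 152) (nat_lit 2481971376740) (nat_lit 0) (nat_lit 877395716291) (nat_lit 1) (nat_lit 5) (nat_lit 3) (nat_lit 4) (nat_lit 1) (nat_lit 4) (nat_lit 257) (nat_lit 189) (nat_lit 154))) (XT.nd (nat_lit 78) (nat_lit 0) (nat_lit 0) (XT.lf (nat_lit 0) (nat_lit 1011977299960) (nat_lit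 152) (nat_lit 2852273235058) (nat_lit 0) (nat_lit 1010062168035) (nat_lit 1) (nat_lit 5) (nat_lit 3) (nat_lit 4) (nat_lit 1) (nat_lit 4) (nat_lit 258) (nat_lit 189) (nat_lit 153)) (XT.lf (nat_lit 0) (nat_lit 1164543974551) (nat_lit 152) (nat_lit 3278123972496) (nat_lit 0) (nat_lit 1162627200846) (nat_lit 1) (nat_lit 5) (nat_lit 3) (nat_lit 4) (nat_lit 1) (nat_lit 4) (nat_lit 259) (nat_lit 189) (nat_lit 152))))) (XT.nd (nat_lit 312) (nat_lit 0) (nat_lit 0) (XT.nd (nat_lit 156) (nat_lit 0) (nat_lit 0) (XT.nd (nat_lit 78) (nat_lit 0) (nat_lit 0) (XT.lf (nat_lit 0) (nat_lit 1339993984098) (nat_lit 152) (nat_lit 3767855451308) (nat_lit 0) (nat_lit 1338075782759) (nat_lit 1) (nat_lit 5) (nat_lit 3) (nat_lit 4) (nat_lit 1) (nat_lit 4) (nat_lit 260) (nat_lit 189) (nat_lit 151)) (XT.lf (nat_lit 0) (nat_lit 1541760046179) (nat_lit 152) (nat_lit 4331049374339) (nat_lit 0) (nat_lit 1539840603418)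 (nat_lit 1) (nat_lit 5) (nat_lit 3) (nat_lit 4) (nat_lit 1) (nat_lit 4) (nat_lit 261) (nat_lit 189) (nat_lit 150))) (XT.nd (nat_lit 78) (nat_lit 0) (nat_lit 0) (XT.lf (nat_lit 0) (nat_lit 1773789757661) (nat_lit 152) (nat_lit 4978724753128) (nat_lit 0) (nat_lit 1771869235403) (nat_lit 1) (nat_lit 5) (nat_lit 3) (nat_lit 4) (nat_lit 1) (nat_lit 4) (nat_lit 262) (nat_lit 189) (nat_lit 149)) (XT.lf (nat_lit 0) (nat_lit 2040622830290) (nat_lit 152) (nat_lit 5723553497260) (nat_lit 0) (nat_lit 2038701369339) (nat_lit 1) (nat_lit 5) (nat_lit 3) (nat_lit 4) (nat_lit 1) (nat_lit 4) (nat_lit 263) (nat_lit 189) (nat_lit 148)))) (XT.nd (nat_lit 156) (nat_lit 0) (nat_lit 0) (XT.nd (nat_lit 78) (nat_lit 0) (nat_lit 0) (XT.lf (nat_lit 0) (nat_lit 2347479911139) (nat_lit 152) (nat_lit 6580108343032) (nat_lit 0) (nat_lit 2345557633934) (nat_lit 1) (nat_lit 5) (nat_lit 3) (nat_lit 4) (nat_lit 1) (nat_lit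 4) (nat_lit 264) (nat_lit 189) (nat_lit 147)) (XT.lf (nat_lit 0) (nat_lit 2700364725704) (nat_lit 152) (nat_lit 7565147972211) (nat_lit 0) (nat_lit 2698441738712) (nat_lit 1) (nat_lit 5) (nat_lit 3) (nat_lit 4) (nat_lit 1) (nat_lit 4) (nat_lit 265) (nat_lit 189) (nat_lit 146))) (XT.nd (nat_lit 78) (nat_lit 0) (nat_lit 0) (XT.lf (nat_lit 0) (nat_lit 3106181542095) (nat_lit 152) (nat_lit 8697944899279) (nat_lit 0) (nat_lit 3104257937898) (nat_lit 1) (nat_lit 5) (nat_lit 3) (nat_lit 4) (nat_lit 1) (nat_lit 4) (nat_lit 266) (nat_lit 189) (nat_lit 145)) (XT.lf (nat_lit 0) (nat_lit 3572870254546) (nat_lit 152) (nat_lit 10000662542375) (nat_lit 0) (nat_lit 3570946113648) (nat_lit 1) (nat_lit 5) (nat_lit 3) (nat_lit 4) (nat_lit 1) (nat_lit 4) (nat_lit 267) (nat_lit 189) (nat_lit 144)))))) (XT.nd (nat_lit 27534) (nat_lit 0) (nat_lit 0) (XT.nd (nat_lit 234) (nat_lit 0) (nat_lit 0) (XT.nd (nat_lit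 78) (nat_lit 0) (nat_lit 0) (XT.lf (nat_lit 0) (nat_lit 4109561729171) (nat_lit 152) (nat_lit 11498788855385) (nat_lit 0) (nat_lit 4107637121576) (nat_lit 1) (nat_lit 5) (nat_lit 3) (nat_lit 4) (nat_lit 1) (nat_lit 4) (nat_lit 268) (nat_lit 189) (nat_lit 143)) (XT.nd (nat_lit 78) (nat_lit 0) (nat_lit 0) (XT.lf (nat_lit 0) (nat_lit 4726756451341) (nat_lit 152) (nat_lit 13221635005305) (nat_lit 0) (nat_lit 4724831437924) (nat_lit 1) (nat_lit 5) (nat_lit 3) (nat_lit 4) (nat_lit 1) (nat_lit 4) (nat_lit 269) (nat_lit 189) (nat_lit 142)) (XT.lf (nat_lit 0) (nat_lit 5436529969970) (nat_lit 152) (nat_lit 15202908851587) (nat_lit 0) (nat_lit 5434604603664) (nat_lit 1) (nat_lit 5) (nat_lit 3) (nat_lit 4) (nat_lit 1) (nat_lit 4) (nat_lit 270) (nat_lit 189) (nat_lit 141)))) (XT.nd (nat_lit 936) (nat_lit 0) (nat_lit 0) (XT.nd (nat_lit 78) (nat_lit 0) (nat_lit 0) (XT.lf (nat_lit 0) (nat_lit 6252769158248)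 (nat_lit 152) (nat_lit 17481374447748) (nat_lit 0) (nat_lit 6250843485081) (nat_lit 1) (nat_lit 5) (nat_lit 3) (nat_lit 4) (nat_lit 1) (nat_lit 4) (nat_lit 271) (nat_lit 189) (nat_lit 140)) (XT.lf (nat_lit 0) (nat_lit 7191443913337) (nat_lit 152) (nat_lit 20101610468493) (nat_lit 0) (nat_lit 7189517973335) (nat_lit 1) (nat_lit 5) (nat_lit 3) (nat_lit 4) (nat_lit 1) (nat_lit 4) (nat_lit 272) (nat_lit 189) (nat_lit 139))) (XT.nd (nat_lit 78) (nat_lit 0) (nat_lit 0) (XT.lf (nat_lit 0) (nat_lit 33475880187298) (nat_lit 152) (nat_lit 93472629263218) (nat_lit 0) (nat_lit 33473952850758) (nat_lit 1) (nat_lit 5) (nat_lit 3) (nat_lit 4) (nat_lit 1) (nat_lit 4) (nat_lit 283) (nat_lit 189) (nat_lit 128)) (XT.lf (nat_lit 0) (nat_lit 38498019908596) (nat_lit 152) (nat_lit 107491556678219) (nat_lit 0) (nat_lit 38496092522183) (nat_lit 1) (nat_lit 5) (nat_lit 3) (nat_lit 4) (nat_lit 1) (nat_lit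 4) (nat_lit 284) (nat_lit 189) (nat_lit 127))))) (XT.nd (nat_lit 312) (nat_lit 152) (nat_lit 0) (XT.nd (nat_lit 156) (nat_lit 0) (nat_lit 0) (XT.nd (nat_lit 78) (nat_lit 0) (nat_lit 0) (XT.lf (nat_lit 0) (nat_lit 4756412862) (nat_lit 76) (nat_lit 4203525967) (nat_lit 76) (nat_lit 4203525967) (nat_lit 3) (nat_lit 4) (nat_lit 4) (nat_lit 5) (nat_lit 4) (nat_lit 4) (nat_lit 220) (nat_lit 190) (nat_lit 190)) (XT.lf (nat_lit 0) (nat_lit 16161320272) (nat_lit 76) (nat_lit 6993440678) (nat_lit 76) (nat_lit 6660909168) (nat_lit 3) (nat_lit 4) (nat_lit 4) (nat_lit 5) (nat_lit 4) (nat_lit 4) (nat_lit 221) (nat_lit 190) (nat_lit 189))) (XT.nd (nat_lit 78) (nat_lit 0) (nat_lit 0) (XT.lf (nat_lit 0) (nat_lit 23363358687) (nat_lit 76) (nat_lit 5562584346) (nat_lit 76) (nat_lit 4940895000) (nat_lit 3) (nat_lit 4) (nat_lit 4) (nat_lit 5) (nat_lit 4) (nat_lit 4) (nat_lit 222) (nat_lit 190) (nat_lit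 188)) (XT.lf (nat_lit 0) (nat_lit 31259850415) (nat_lit 76) (nat_lit 4086487923) (nat_lit 76) (nat_lit 3213356981) (nat_lit 3) (nat_lit 4) (nat_lit 4) (nat_lit 5) (nat_lit 4) (nat_lit 4) (nat_lit 223) (nat_lit 190) (nat_lit 187)))) (XT.nd (nat_lit 156) (nat_lit 76) (nat_lit 0) (XT.nd (nat_lit 78) (nat_lit 76) (nat_lit 0) (XT.lf (nat_lit 0) (nat_lit 40005292035) (nat_lit 76) (nat_lit 2536271261) (nat_lit 76) (nat_lit 1444495453) (nat_lit 3) (nat_lit 4) (nat_lit 4) (nat_lit 5) (nat_lit 4) (nat_lit 4) (nat_lit 224) (nat_lit 190) (nat_lit 186)) (XT.lf (nat_lit 0) (nat_lit 364660470) (nat_lit 152) (nat_lit 497881767) (nat_lit 76) (nat_lit 49387067745) (nat_lit 2) (nat_lit 5) (nat_lit 4) (nat_lit 5) (nat_lit 3) (nat_lit 4) (nat_lit 225) (nat_lit 190) (nat_lit 185))) (XT.nd (nat_lit 78) (nat_lit 0) (nat_lit 0) (XT.lf (nat_lit 0) (nat_lit 2340517720) (nat_lit 152) (nat_lit 54014200982) (nat_lit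 0) (nat_lit 1082057972) (nat_lit 1) (nat_lit 5) (nat_lit 3) (nat_lit 4) (nat_lit 1) (nat_lit 4) (nat_lit 226) (nat_lit 190) (nat_lit 184)) (XT.lf (nat_lit 0) (nat_lit 4535188170) (nat_lit 152) (nat_lit 58027515422) (nat_lit 0) (nat_lit 3151717510) (nat_lit 1) (nat_lit 5) (nat_lit 3) (nat_lit 4) (nat_lit 1) (nat_lit 4) (nat_lit 227) (nat_lit 190) (nat_lit 183))))))))
noncomputable def xc14 : XT := (XT.nd (nat_lit 2340) (nat_lit 0) (nat_lit 0) (XT.nd (nat_lit 1170) (nat_lit 0) (nat_lit 0) (XT.nd (nat_lit 546) (nat_lit 0) (nat_lit 0) (XT.nd (nat_lit 234) (nat_lit 0) (nat_lit 0) (XT.nd (nat_lit 78) (nat_lit 0) (nat_lit 0) (XT.lf (nat_lit 0) (nat_lit 6932186334) (nat_lit 152) (nat_lit 62881214015) (nat_lit 0) (nat_lit 5440010534) (nat_lit 1) (nat_lit 5) (nat_lit 3) (nat_lit 4) (nat_lit 1) (nat_lit 4) (nat_lit 228) (nat_lit 190) (nat_lit 182)) (XT.nd (nat_lit 78) (nat_lit 0) (nat_lit 0)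 (XT.lf (nat_lit 0) (nat_lit 9578410003) (nat_lit 152) (nat_lit 68670260428) (nat_lit 0) (nat_lit 7991707993) (nat_lit 1) (nat_lit 5) (nat_lit 3) (nat_lit 4) (nat_lit 1) (nat_lit 4) (nat_lit 229) (nat_lit 190) (nat_lit 181)) (XT.lf (nat_lit 0) (nat_lit 12525633117) (nat_lit 152) (nat_lit 75507918613) (nat_lit 0) (nat_lit 10856734404) (nat_lit 1) (nat_lit 5) (nat_lit 3) (nat_lit 4) (nat_lit 1) (nat_lit 4) (nat_lit 230) (nat_lit 190) (nat_lit 180)))) (XT.nd (nat_lit 156) (nat_lit 0) (nat_lit 0) (XT.nd (nat_lit 78) (nat_lit 0) (nat_lit 0) (XT.lf (nat_lit 0) (nat_lit 15831518739) (nat_lit 152) (nat_lit 83527968839) (nat_lit 0) (nat_lit 14091144631) (nat_lit 1) (nat_lit 5) (nat_lit 3) (nat_lit 4) (nat_lit 1) (nat_lit 4) (nat_lit 231) (nat_lit 190) (nat_lit 179)) (XT.lf (nat_lit 0) (nat_lit 19560747238) (nat_lit 152) (nat_lit 92887325132) (nat_lit 0) (nat_lit 17758220614) (nat_lit 1) (nat_lit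 5) (nat_lit 3) (nat_lit 4) (nat_lit 1) (nat_lit 4) (nat_lit 232) (nat_lit 190) (nat_lit 178))) (XT.nd (nat_lit 78) (nat_lit 0) (nat_lit 0) (XT.lf (nat_lit 0) (nat_lit 23786281782) (nat_lit 152) (nat_lit 103769105332) (nat_lit 0) (nat_lit 21929709490) (nat_lit 1) (nat_lit 5) (nat_lit 3) (nat_lit 4) (nat_lit 1) (nat_lit 4) (nat_lit 233) (nat_lit 190) (nat_lit 177)) (XT.lf (nat_lit 0) (nat_lit 28590795871) (nat_lit 152) (nat_lit 116386213836) (nat_lit 0) (nat_lit 26687227347) (nat_lit 1) (nat_lit 5) (nat_lit 3) (nat_lit 4) (nat_lit 1) (nat_lit 4) (nat_lit 234) (nat_lit 190) (nat_lit 176))))) (XT.nd (nat_lit 312) (nat_lit 0) (nat_lit 0) (XT.nd (nat_lit 156) (nat_lit 0) (nat_lit 0) (XT.nd (nat_lit 78) (nat_lit 0) (nat_lit 0) (XT.lf (nat_lit 0) (nat_lit 34068290869) (nat_lit 152) (nat_lit 130985507113) (nat_lit 0) (nat_lit 32123856056) (nat_lit 1) (nat_lit 5) (nat_lit 3) (nat_lit 4) (nat_lit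 1) (nat_lit 4) (nat_lit 235) (nat_lit 190) (nat_lit 175)) (XT.lf (nat_lit 0) (nat_lit 40325935155) (nat_lit 152) (nat_lit 147852623510) (nat_lit 0) (nat_lit 38345964439) (nat_lit 1) (nat_lit 5) (nat_lit 3) (nat_lit 4) (nat_lit 1) (nat_lit 4) (nat_lit 236) (nat_lit 190) (nat_lit 174))) (XT.nd (nat_lit 78) (nat_lit 0) (nat_lit 0) (XT.lf (nat_lit 0) (nat_lit 47486160902) (nat_lit 152) (nat_lit 167317571827) (nat_lit 0) (nat_lit 45475289400) (nat_lit 1) (nat_lit 5) (nat_lit 3) (nat_lit 4) (nat_lit 1) (nat_lit 4) (nat_lit 237) (nat_lit 190) (nat_lit 173)) (XT.lf (nat_lit 0) (nat_lit 55689059481) (nat_lit 152) (nat_lit 189761188008) (nat_lit 0) (nat_lit 53651317731) (nat_lit 1) (nat_lit 5) (nat_lit 3) (nat_lit 4) (nat_lit 1) (nat_lit 4) (nat_lit 238) (nat_lit 190) (nat_lit 172)))) (XT.nd (nat_lit 156) (nat_lit 0) (nat_lit 0) (XT.nd (nat_lit 78) (nat_lit 0) (nat_lit 0) (XT.lf (nat_lit 0)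 (nat_lit 65095122388) (nat_lit 152) (nat_lit 215622586284) (nat_lit 0) (nat_lit 63034015205) (nat_lit 1) (nat_lit 5) (nat_lit 3) (nat_lit 4) (nat_lit 1) (nat_lit 4) (nat_lit 239) (nat_lit 190) (nat_lit 171)) (XT.lf (nat_lit 0) (nat_lit 75888381287) (nat_lit 152) (nat_lit 245407750534) (nat_lit 0) (nat_lit 73806956335) (nat_lit 1) (nat_lit 5) (nat_lit 3) (nat_lit 4) (nat_lit 1) (nat_lit 4) (nat_lit 240) (nat_lit 190) (nat_lit 170))) (XT.nd (nat_lit 78) (nat_lit 0) (nat_lit 0) (XT.lf (nat_lit 0) (nat_lit 88280008635) (nat_lit 152) (nat_lit 279699433970) (nat_lit 0) (nat_lit 86180916059) (nat_lit 1) (nat_lit 5) (nat_lit 3) (nat_lit 4) (nat_lit 1) (nat_lit 4) (nat_lit 241) (nat_lit 190) (nat_lit 169)) (XT.lf (nat_lit 0) (nat_lit 102512449315) (nat_lit 152) (nat_lit 319168560835) (nat_lit 0) (nat_lit 100397993588) (nat_lit 1) (nat_lit 5) (nat_lit 3) (nat_lit 4) (nat_lit 1) (nat_lit 4)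 (nat_lit 242) (nat_lit 190) (nat_lit 168)))))) (XT.nd (nat_lit 546) (nat_lit 0) (nat_lit 0) (XT.nd (nat_lit 234) (nat_lit 0) (nat_lit 0) (XT.nd (nat_lit 78) (nat_lit 0) (nat_lit 0) (XT.lf (nat_lit 0) (nat_lit 118864164124) (nat_lit 152) (nat_lit 364587353176) (nat_lit 0) (nat_lit 116736349135) (nat_lit 1) (nat_lit 5) (nat_lit 3) (nat_lit 4) (nat_lit 1) (nat_lit 4) (nat_lit 243) (nat_lit 190) (nat_lit 167)) (XT.nd (nat_lit 78) (nat_lit 0) (nat_lit 0) (XT.lf (nat_lit 0) (nat_lit 137655077916) (nat_lit 152) (nat_lit 416844439538) (nat_lit 0) (nat_lit 135515646176) (nat_lit 1) (nat_lit 5) (nat_lit 3) (nat_lit 4) (nat_lit 1) (nat_lit 4) (nat_lit 244) (nat_lit 190) (nat_lit 166)) (XT.lf (nat_lit 0) (nat_lit 159252839004) (nat_lit 152) (nat_lit 476962241177) (nat_lit 0) (nat_lit 157103305743) (nat_lit 1) (nat_lit 5) (nat_lit 3) (nat_lit 4) (nat_lit 1) (nat_lit 4) (nat_lit 245) (nat_lit 190)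 (nat_lit 165)))) (XT.nd (nat_lit 156) (nat_lit 0) (nat_lit 0) (XT.nd (nat_lit 78) (nat_lit 0) (nat_lit 0) (XT.lf (nat_lit 0) (nat_lit 184080012279) (nat_lit 152) (nat_lit 546116975951) (nat_lit 0) (nat_lit 181921695086) (nat_lit 1) (nat_lit 5) (nat_lit 3) (nat_lit 4) (nat_lit 1) (nat_lit 4) (nat_lit 246) (nat_lit 190) (nat_lit 164)) (XT.lf (nat_lit 0) (nat_lit 212622346784) (nat_lit 152) (nat_lit 625661671278) (nat_lit 0) (nat_lit 210456391389) (nat_lit 1) (nat_lit 5) (nat_lit 3) (nat_lit 4) (nat_lit 1) (nat_lit 4) (nat_lit 247) (nat_lit 190) (nat_lit 163))) (XT.nd (nat_lit 78) (nat_lit 0) (nat_lit 0) (XT.lf (nat_lit 0) (nat_lit 245438279498) (nat_lit 152) (nat_lit 717152636416) (nat_lit 0) (nat_lit 243265682189) (nat_lit 1) (nat_lit 5) (nat_lit 3) (nat_lit 4) (nat_lit 1) (nat_lit 4) (nat_lit 248) (nat_lit 190) (nat_lit 162)) (XT.lf (nat_lit 0) (nat_lit 283169861278) (nat_lit 152)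 (nat_lit 822379911986) (nat_lit 0) (nat_lit 280991488391) (nat_lit 1) (nat_lit 5) (nat_lit 3) (nat_lit 4) (nat_lit 1) (nat_lit 4) (nat_lit 249) (nat_lit 190) (nat_lit 161))))) (XT.nd (nat_lit 312) (nat_lit 0) (nat_lit 0) (XT.nd (nat_lit 156) (nat_lit 0) (nat_lit 0) (XT.nd (nat_lit 78) (nat_lit 0) (nat_lit 0) (XT.lf (nat_lit 0) (nat_lit 326555318725) (nat_lit 152) (nat_lit 943402292512) (nat_lit 0) (nat_lit 324371923597) (nat_lit 1) (nat_lit 5) (nat_lit 3) (nat_lit 4) (nat_lit 1) (nat_lit 4) (nat_lit 250) (nat_lit 190) (nat_lit 160)) (XT.lf (nat_lit 0) (nat_lit 376443497744) (nat_lit 152) (nat_lit 1082587607176) (nat_lit 0) (nat_lit 374255735450) (nat_lit 1) (nat_lit 5) (nat_lit 3) (nat_lit 4) (nat_lit 1) (nat_lit 4) (nat_lit 251) (nat_lit 190) (nat_lit 159))) (XT.nd (nat_lit 78) (nat_lit 0) (nat_lit 0) (XT.lf (nat_lit 0) (nat_lit 433810471405) (nat_lit 152) (nat_lit 1242659046919)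 (nat_lit 0) (nat_lit 431618911574) (nat_lit 1) (nat_lit 5) (nat_lit 3) (nat_lit 4) (nat_lit 1) (nat_lit 4) (nat_lit 252) (nat_lit 190) (nat_lit 158)) (XT.lf (nat_lit 0) (nat_lit 499778637017) (nat_lit 152) (nat_lit 1426748444256) (nat_lit 0) (nat_lit 497583774981) (nat_lit 1) (nat_lit 5) (nat_lit 3) (nat_lit 4) (nat_lit 1) (nat_lit 4) (nat_lit 253) (nat_lit 190) (nat_lit 157)))) (XT.nd (nat_lit 156) (nat_lit 0) (nat_lit 0) (XT.nd (nat_lit 78) (nat_lit 0) (nat_lit 0) (XT.lf (nat_lit 0) (nat_lit 575638676082) (nat_lit 152) (nat_lit 1638457548266) (nat_lit 0) (nat_lit 573440942563) (nat_lit 1) (nat_lit 5) (nat_lit 3) (nat_lit 4) (nat_lit 1) (nat_lit 4) (nat_lit 254) (nat_lit 190) (nat_lit 156)) (XT.lf (nat_lit 0) (nat_lit 662874806756) (nat_lit 152) (nat_lit 1881928493593) (nat_lit 0) (nat_lit 660674576295) (nat_lit 1) (nat_lit 5) (nat_lit 3) (nat_lit 4) (nat_lit 1) (nat_lit 4) (nat_lit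 255) (nat_lit 190) (nat_lit 155))) (XT.nd (nat_lit 78) (nat_lit 0) (nat_lit 0) (XT.lf (nat_lit 0) (nat_lit 763193822898) (nat_lit 152) (nat_lit 2161924842211) (nat_lit 0) (nat_lit 760991421184) (nat_lit 1) (nat_lit 5) (nat_lit 3) (nat_lit 4) (nat_lit 1) (nat_lit 4) (nat_lit 256) (nat_lit 190) (nat_lit 154)) (XT.lf (nat_lit 0) (nat_lit 878558487870) (nat_lit 152) (nat_lit 2483924783549) (nat_lit 0) (nat_lit 876354198109) (nat_lit 1) (nat_lit 5) (nat_lit 3) (nat_lit 4) (nat_lit 1) (nat_lit 4) (nat_lit 257) (nat_lit 190) (nat_lit 153))))))) (XT.nd (nat_lit 1950) (nat_lit 0) (nat_lit 0) (XT.nd (nat_lit 546) (nat_lit 0) (nat_lit 0) (XT.nd (nat_lit 234) (nat_lit 0) (nat_lit 0) (XT.nd (nat_lit 78) (nat_lit 0) (nat_lit 0) (XT.lf (nat_lit 0) (nat_lit 1011225936419) (nat_lit 152) (nat_lit 2854228316459) (nat_lit 0) (nat_lit 1009020004879) (nat_lit 1) (nat_lit 5) (nat_lit 3) (nat_lit 4) (nat_lit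 1) (nat_lit 4) (nat_lit 258) (nat_lit 190) (nat_lit 152)) (XT.nd (nat_lit 78) (nat_lit 0) (nat_lit 0) (XT.lf (nat_lit 0) (nat_lit 1163791836018) (nat_lit 152) (nat_lit 3280080510063) (nat_lit 0) (nat_lit 1161584476843) (nat_lit 1) (nat_lit 5) (nat_lit 3) (nat_lit 4) (nat_lit 1) (nat_lit 4) (nat_lit 259) (nat_lit 190) (nat_lit 151)) (XT.lf (nat_lit 0) (nat_lit 1339241171659) (nat_lit 152) (nat_lit 3769813255106) (nat_lit 0) (nat_lit 1337032571063) (nat_lit 1) (nat_lit 5) (nat_lit 3) (nat_lit 4) (nat_lit 1) (nat_lit 4) (nat_lit 260) (nat_lit 190) (nat_lit 150)))) (XT.nd (nat_lit 156) (nat_lit 0) (nat_lit 0) (XT.nd (nat_lit 78) (nat_lit 0) (nat_lit 0) (XT.lf (nat_lit 0) (nat_lit 1541006647735) (nat_lit 152) (nat_lit 4333008279209) (nat_lit 0) (nat_lit 1538796967642) (nat_lit 1) (nat_lit 5) (nat_lit 3) (nat_lit 4) (nat_lit 1) (nat_lit 4) (nat_lit 261) (nat_lit 190) (nat_lit 149)) (XT.lf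 (nat_lit 0) (nat_lit 1773035849647) (nat_lit 152) (nat_lit 4980684615451) (nat_lit 0) (nat_lit 1770825230861) (nat_lit 1) (nat_lit 5) (nat_lit 3) (nat_lit 4) (nat_lit 1) (nat_lit 4) (nat_lit 262) (nat_lit 190) (nat_lit 148))) (XT.nd (nat_lit 78) (nat_lit 0) (nat_lit 0) (XT.lf (nat_lit 0) (nat_lit 2039868479172) (nat_lit 152) (nat_lit 5725514192151) (nat_lit 0) (nat_lit 2037657044131) (nat_lit 1) (nat_lit 5) (nat_lit 3) (nat_lit 4) (nat_lit 1) (nat_lit 4) (nat_lit 263) (nat_lit 190) (nat_lit 147)) (XT.lf (nat_lit 0) (nat_lit 2346725174713) (nat_lit 152) (nat_lit 6582069761895) (nat_lit 0) (nat_lit 2344513029886) (nat_lit 1) (nat_lit 5) (nat_lit 3) (nat_lit 4) (nat_lit 1) (nat_lit 4) (nat_lit 264) (nat_lit 190) (nat_lit 146))))) (XT.nd (nat_lit 312) (nat_lit 0) (nat_lit 0) (XT.nd (nat_lit 156) (nat_lit 0) (nat_lit 0) (XT.nd (nat_lit 78) (nat_lit 0) (nat_lit 0) (XT.lf (nat_lit 0) (nat_lit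 2699609654227) (nat_lit 152) (nat_lit 7567110020614) (nat_lit 0) (nat_lit 2697396892194) (nat_lit 1) (nat_lit 5) (nat_lit 3) (nat_lit 4) (nat_lit 1) (nat_lit 4) (nat_lit 265) (nat_lit 190) (nat_lit 145)) (XT.lf (nat_lit 0) (nat_lit 3105426179270) (nat_lit 152) (nat_lit 8699907495109) (nat_lit 0) (nat_lit 3103212880537) (nat_lit 1) (nat_lit 5) (nat_lit 3) (nat_lit 4) (nat_lit 1) (nat_lit 4) (nat_lit 266) (nat_lit 190) (nat_lit 144))) (XT.nd (nat_lit 78) (nat_lit 0) (nat_lit 0) (XT.lf (nat_lit 0) (nat_lit 3572114638375) (nat_lit 152) (nat_lit 10002625614229) (nat_lit 0) (nat_lit 3569900872945) (nat_lit 1) (nat_lit 5) (nat_lit 3) (nat_lit 4) (nat_lit 1) (nat_lit 4) (nat_lit 267) (nat_lit 190) (nat_lit 143)) (XT.lf (nat_lit 0) (nat_lit 4108805892698) (nat_lit 152) (nat_lit 11500752341173) (nat_lit 0) (nat_lit 4106591721446) (nat_lit 1) (nat_lit 5) (nat_lit 3) (nat_lit 4) (nat_lit 1) (nat_lit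 4) (nat_lit 268) (nat_lit 190) (nat_lit 142)))) (XT.nd (nat_lit 156) (nat_lit 0) (nat_lit 0) (XT.nd (nat_lit 78) (nat_lit 0) (nat_lit 0) (XT.lf (nat_lit 0) (nat_lit 4726000423303) (nat_lit 152) (nat_lit 13223598851034) (nat_lit 0) (nat_lit 4723785899161) (nat_lit 1) (nat_lit 5) (nat_lit 3) (nat_lit 4) (nat_lit 1) (nat_lit 4) (nat_lit 269) (nat_lit 190) (nat_lit 141)) (XT.lf (nat_lit 0) (nat_lit 5435773775353) (nat_lit 152) (nat_lit 15204873010310) (nat_lit 0) (nat_lit 5433558944350) (nat_lit 1) (nat_lit 5) (nat_lit 3) (nat_lit 4) (nat_lit 1) (nat_lit 4) (nat_lit 270) (nat_lit 190) (nat_lit 140))) (XT.nd (nat_lit 78) (nat_lit 0) (nat_lit 0) (XT.lf (nat_lit 0) (nat_lit 6252012818779) (nat_lit 152) (nat_lit 17483338878638) (nat_lit 0) (nat_lit 6249797720941) (nat_lit 1) (nat_lit 5) (nat_lit 3) (nat_lit 4) (nat_lit 1) (nat_lit 4) (nat_lit 271) (nat_lit 190) (nat_lit 139)) (XT.lf (nat_lit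 0) (nat_lit 7190687447910) (nat_lit 152) (nat_lit 20103575136051) (nat_lit 0) (nat_lit 7188472118042) (nat_lit 1) (nat_lit 5) (nat_lit 3) (nat_lit 4) (nat_lit 1) (nat_lit 4) (nat_lit 272) (nat_lit 190) (nat_lit 138)))))) (XT.nd (nat_lit 26676) (nat_lit 0) (nat_lit 0) (XT.nd (nat_lit 26364) (nat_lit 0) (nat_lit 152) (XT.nd (nat_lit 26208) (nat_lit 0) (nat_lit 152) (XT.lf (nat_lit 0) (nat_lit 33475123062644) (nat_lit 152) (nat_lit 93474595169427) (nat_lit 0) (nat_lit 33472906518395) (nat_lit 1) (nat_lit 5) (nat_lit 3) (nat_lit 4) (nat_lit 1) (nat_lit 4) (nat_lit 283) (nat_lit 190) (nat_lit 127)) (XT.nd (nat_lit 78) (nat_lit 76) (nat_lit 0) (XT.lf (nat_lit 0) (nat_lit 4645587601) (nat_lit 152) (nat_lit 1076140621) (nat_lit 0) (nat_lit 4645587601) (nat_lit 4) (nat_lit 5) (nat_lit 6) (nat_lit 4) (nat_lit 4) (nat_lit 4) (nat_lit 218) (nat_lit 191) (nat_lit 191)) (XT.lf (nat_lit 0) (nat_lit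 3287795801) (nat_lit 76) (nat_lit 10213486962) (nat_lit 76) (nat_lit 9831075725) (nat_lit 3) (nat_lit 4) (nat_lit 4) (nat_lit 5) (nat_lit 4) (nat_lit 4) (nat_lit 219) (nat_lit 191) (nat_lit 190)))) (XT.nd (nat_lit 156) (nat_lit 0) (nat_lit 0) (XT.nd (nat_lit 78) (nat_lit 0) (nat_lit 0) (XT.lf (nat_lit 0) (nat_lit 9275481601) (nat_lit 76) (nat_lit 8893656708) (nat_lit 76) (nat_lit 8178713960) (nat_lit 3) (nat_lit 4) (nat_lit 4) (nat_lit 5) (nat_lit 4) (nat_lit 4) (nat_lit 220) (nat_lit 191) (nat_lit 189)) (XT.lf (nat_lit 0) (nat_lit 15717589956) (nat_lit 76) (nat_lit 7570648528) (nat_lit 76) (nat_lit 6566547944) (nat_lit 3) (nat_lit 4) (nat_lit 4) (nat_lit 5) (nat_lit 4) (nat_lit 4) (nat_lit 221) (nat_lit 191) (nat_lit 188))) (XT.nd (nat_lit 78) (nat_lit 0) (nat_lit 0) (XT.lf (nat_lit 0) (nat_lit 22740162116) (nat_lit 76) (nat_lit 6218577479) (nat_lit 76) (nat_lit 4963035299) (nat_lit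 3) (nat_lit 4) (nat_lit 4) (nat_lit 5) (nat_lit 4) (nat_lit 4) (nat_lit 222) (nat_lit 191) (nat_lit 187)) (XT.lf (nat_lit 0) (nat_lit 30480596232) (nat_lit 76) (nat_lit 4810989998) (nat_lit 76) (nat_lit 3336802952) (nat_lit 3) (nat_lit 4) (nat_lit 4) (nat_lit 5) (nat_lit 4) (nat_lit 4) (nat_lit 223) (nat_lit 191) (nat_lit 186))))) (XT.nd (nat_lit 312) (nat_lit 0) (nat_lit 0) (XT.nd (nat_lit 156) (nat_lit 76) (nat_lit 0) (XT.nd (nat_lit 78) (nat_lit 76) (nat_lit 0) (XT.lf (nat_lit 0) (nat_lit 39090335580) (nat_lit 76) (nat_lit 3320346328) (nat_lit 76) (nat_lit 1656033312) (nat_lit 3) (nat_lit 4) (nat_lit 4) (nat_lit 5) (nat_lit 4) (nat_lit 4) (nat_lit 224) (nat_lit 191) (nat_lit 185)) (XT.lf (nat_lit 0) (nat_lit 102173140) (nat_lit 152) (nat_lit 1609967695) (nat_lit 76) (nat_lit 48630317573) (nat_lit 2) (nat_lit 5) (nat_lit 4) (nat_lit 5) (nat_lit 3) (nat_lit 4) (nat_lit 225) (nat_lit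 191) (nat_lit 184))) (XT.nd (nat_lit 78) (nat_lit 0) (nat_lit 0) (XT.lf (nat_lit 0) (nat_lit 1922031627) (nat_lit 152) (nat_lit 55425321005) (nat_lit 0) (nat_lit 206029456) (nat_lit 1) (nat_lit 5) (nat_lit 3) (nat_lit 4) (nat_lit 1) (nat_lit 4) (nat_lit 226) (nat_lit 191) (nat_lit 183)) (XT.lf (nat_lit 0) (nat_lit 4057691447) (nat_lit 152) (nat_lit 59549513113) (nat_lit 0) (nat_lit 2232984136) (nat_lit 1) (nat_lit 5) (nat_lit 3) (nat_lit 4) (nat_lit 1) (nat_lit 4) (nat_lit 227) (nat_lit 191) (nat_lit 182)))) (XT.nd (nat_lit 156) (nat_lit 0) (nat_lit 0) (XT.nd (nat_lit 78) (nat_lit 0) (nat_lit 0) (XT.lf (nat_lit 0) (nat_lit 6403376021) (nat_lit 152) (nat_lit 64499627069) (nat_lit 0) (nat_lit 4484142501) (nat_lit 1) (nat_lit 5) (nat_lit 3) (nat_lit 4) (nat_lit 1) (nat_lit 4) (nat_lit 228) (nat_lit 191) (nat_lit 181)) (XT.lf (nat_lit 0) (nat_lit 9004979176) (nat_lit 152) (nat_lit 70372512928)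 (nat_lit 0) (nat_lit 7003548952) (nat_lit 1) (nat_lit 5) (nat_lit 3) (nat_lit 4) (nat_lit 1) (nat_lit 4) (nat_lit 229) (nat_lit 191) (nat_lit 180))) (XT.nd (nat_lit 78) (nat_lit 0) (nat_lit 0) (XT.lf (nat_lit 0) (nat_lit 11913401844) (nat_lit 152) (nat_lit 77283074980) (nat_lit 0) (nat_lit 9840496225) (nat_lit 1) (nat_lit 5) (nat_lit 3) (nat_lit 4) (nat_lit 1) (nat_lit 4) (nat_lit 230) (nat_lit 191) (nat_lit 179)) (XT.lf (nat_lit 0) (nat_lit 15185547947) (nat_lit 152) (nat_lit 85366519873) (nat_lit 0) (nat_lit 13050489811) (nat_lit 1) (nat_lit 5) (nat_lit 3) (nat_lit 4) (nat_lit 1) (nat_lit 4) (nat_lit 231) (nat_lit 191) (nat_lit 178))))))))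
noncomputable def xc15 : XT := (XT.nd (nat_lit 2340) (nat_lit 0) (nat_lit 0) (XT.nd (nat_lit 1170) (nat_lit 0) (nat_lit 0) (XT.nd (nat_lit 546) (nat_lit 0) (nat_lit 0) (XT.nd (nat_lit 234) (nat_lit 0) (nat_lit 0) (XT.nd (nat_lit 78) (nat_lit 0) (nat_lit 0) (XT.lf (nat_lit 0) (nat_lit 18885437734) (nat_lit 152) (nat_lit 94781001963) (nat_lit 0) (nat_lit 16696333931) (nat_lit 1) (nat_lit 5) (nat_lit 3) (nat_lit 4) (nat_lit 1) (nat_lit 4) (nat_lit 232) (nat_lit 191) (nat_lit 177)) (XT.nd (nat_lit 78) (nat_lit 0) (nat_lit 0) (XT.lf (nat_lit 0) (nat_lit 23085460354) (nat_lit 152) (nat_lit 105710717639) (nat_lit 0) (nat_lit 20849360319) (nat_lit 1) (nat_lit 5) (nat_lit 3) (nat_lit 4) (nat_lit 1) (nat_lit 4) (nat_lit 233) (nat_lit 191) (nat_lit 176)) (XT.lf (nat_lit 0) (nat_lit 27867790162) (nat_lit 152) (nat_lit 118369509165) (nat_lit 0) (nat_lit 25590823838) (nat_lit 1) (nat_lit 5) (nat_lit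 3) (nat_lit 4) (nat_lit 1) (nat_lit 4) (nat_lit 234) (nat_lit 191) (nat_lit 175)))) (XT.nd (nat_lit 156) (nat_lit 0) (nat_lit 0) (XT.nd (nat_lit 78) (nat_lit 0) (nat_lit 0) (XT.lf (nat_lit 0) (nat_lit 33325994480) (nat_lit 152) (nat_lit 133005048548) (nat_lit 0) (nat_lit 31013492253) (nat_lit 1) (nat_lit 5) (nat_lit 3) (nat_lit 4) (nat_lit 1) (nat_lit 4) (nat_lit 235) (nat_lit 191) (nat_lit 174)) (XT.lf (nat_lit 0) (nat_lit 39566864263) (nat_lit 152) (nat_lit 149903683299) (nat_lit 0) (nat_lit 37223461250) (nat_lit 1) (nat_lit 5) (nat_lit 3) (nat_lit 4) (nat_lit 1) (nat_lit 4) (nat_lit 236) (nat_lit 191) (nat_lit 173))) (XT.nd (nat_lit 78) (nat_lit 0) (nat_lit 0) (XT.lf (nat_lit 0) (nat_lit 46712503484) (nat_lit 152) (nat_lit 169396038880) (nat_lit 0) (nat_lit 44342230224) (nat_lit 1) (nat_lit 5) (nat_lit 3) (nat_lit 4) (nat_lit 1) (nat_lit 4) (nat_lit 237) (nat_lit 191) (nat_lit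 172)) (XT.lf (nat_lit 0) (nat_lit 54902718129) (nat_lit 152) (nat_lit 191863487464) (nat_lit 0) (nat_lit 52509079435) (nat_lit 1) (nat_lit 5) (nat_lit 3) (nat_lit 4) (nat_lit 1) (nat_lit 4) (nat_lit 238) (nat_lit 191) (nat_lit 171))))) (XT.nd (nat_lit 312) (nat_lit 0) (nat_lit 0) (XT.nd (nat_lit 156) (nat_lit 0) (nat_lit 0) (XT.nd (nat_lit 78) (nat_lit 0) (nat_lit 0) (XT.lf (nat_lit 0) (nat_lit 64297751527) (nat_lit 152) (nat_lit 217745609569) (nat_lit 0) (nat_lit 61883795065) (nat_lit 1) (nat_lit 5) (nat_lit 3) (nat_lit 4) (nat_lit 1) (nat_lit 4) (nat_lit 239) (nat_lit 191) (nat_lit 170)) (XT.lf (nat_lit 0) (nat_lit 75081419549) (nat_lit 152) (nat_lit 247548794540) (nat_lit 0) (nat_lit 72649795462) (nat_lit 1) (nat_lit 5) (nat_lit 3) (nat_lit 4) (nat_lit 1) (nat_lit 4) (nat_lit 240) (nat_lit 191) (nat_lit 169))) (XT.nd (nat_lit 78) (nat_lit 0) (nat_lit 0) (XT.lf (nat_lit 0) (nat_lit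 87464707004) (nat_lit 152) (nat_lit 281856148168) (nat_lit 0) (nat_lit 85017719766) (nat_lit 1) (nat_lit 5) (nat_lit 3) (nat_lit 4) (nat_lit 1) (nat_lit 4) (nat_lit 241) (nat_lit 191) (nat_lit 168)) (XT.lf (nat_lit 0) (nat_lit 101689895603) (nat_lit 152) (nat_lit 321338901287) (nat_lit 0) (nat_lit 99229549103) (nat_lit 1) (nat_lit 5) (nat_lit 3) (nat_lit 4) (nat_lit 1) (nat_lit 4) (nat_lit 242) (nat_lit 191) (nat_lit 167)))) (XT.nd (nat_lit 156) (nat_lit 0) (nat_lit 0) (XT.nd (nat_lit 78) (nat_lit 0) (nat_lit 0) (XT.lf (nat_lit 0) (nat_lit 118035304255) (nat_lit 152) (nat_lit 366769542544) (nat_lit 0) (nat_lit 115563341005) (nat_lit 1) (nat_lit 5) (nat_lit 3) (nat_lit 4) (nat_lit 1) (nat_lit 4) (nat_lit 243) (nat_lit 191) (nat_lit 166)) (XT.lf (nat_lit 0) (nat_lit 136820734431) (nat_lit 152) (nat_lit 419036932312) (nat_lit 0) (nat_lit 134338669660) (nat_lit 1) (nat_lit 5) (nat_lit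 3) (nat_lit 4) (nat_lit 1) (nat_lit 4) (nat_lit 244) (nat_lit 191) (nat_lit 165))) (XT.nd (nat_lit 78) (nat_lit 0) (nat_lit 0) (XT.lf (nat_lit 0) (nat_lit 158413727158) (nat_lit 152) (nat_lit 479163693434) (nat_lit 0) (nat_lit 155922878455) (nat_lit 1) (nat_lit 5) (nat_lit 3) (nat_lit 4) (nat_lit 1) (nat_lit 4) (nat_lit 245) (nat_lit 191) (nat_lit 164)) (XT.lf (nat_lit 0) (nat_lit 183236754033) (nat_lit 152) (nat_lit 548326219063) (nat_lit 0) (nat_lit 180738267128) (nat_lit 1) (nat_lit 5) (nat_lit 3) (nat_lit 4) (nat_lit 1) (nat_lit 4) (nat_lit 246) (nat_lit 191) (nat_lit 163)))))) (XT.nd (nat_lit 546) (nat_lit 0) (nat_lit 0) (XT.nd (nat_lit 234) (nat_lit 0) (nat_lit 0) (XT.nd (nat_lit 78) (nat_lit 0) (nat_lit 0) (XT.lf (nat_lit 0) (nat_lit 211775482972) (nat_lit 152) (nat_lit 627877689046) (nat_lit 0) (nat_lit 209270354152) (nat_lit 1) (nat_lit 5) (nat_lit 3) (nat_lit 4) (nat_lit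 1) (nat_lit 4) (nat_lit 247) (nat_lit 191) (nat_lit 162)) (XT.nd (nat_lit 78) (nat_lit 0) (nat_lit 0) (XT.lf (nat_lit 0) (nat_lit 244588280411) (nat_lit 152) (nat_lit 719374545190) (nat_lit 0) (nat_lit 242077376014) (nat_lit 1) (nat_lit 5) (nat_lit 3) (nat_lit 4) (nat_lit 1) (nat_lit 4) (nat_lit 248) (nat_lit 191) (nat_lit 161)) (XT.lf (nat_lit 0) (nat_lit 282317135865) (nat_lit 152) (nat_lit 824606943374) (nat_lit 0) (nat_lit 279801209227) (nat_lit 1) (nat_lit 5) (nat_lit 3) (nat_lit 4) (nat_lit 1) (nat_lit 4) (nat_lit 249) (nat_lit 191) (nat_lit 160)))) (XT.nd (nat_lit 156) (nat_lit 0) (nat_lit 0) (XT.nd (nat_lit 78) (nat_lit 0) (nat_lit 0) (XT.lf (nat_lit 0) (nat_lit 325700222594) (nat_lit 152) (nat_lit 945633778346) (nat_lit 0) (nat_lit 323179928789) (nat_lit 1) (nat_lit 5) (nat_lit 3) (nat_lit 4) (nat_lit 1) (nat_lit 4) (nat_lit 250) (nat_lit 191) (nat_lit 159)) (XT.lf (nat_lit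 0) (nat_lit 375586340120) (nat_lit 152) (nat_lit 1084822966442) (nat_lit 0) (nat_lit 373062248778) (nat_lit 1) (nat_lit 5) (nat_lit 3) (nat_lit 4) (nat_lit 1) (nat_lit 4) (nat_lit 251) (nat_lit 191) (nat_lit 158))) (XT.nd (nat_lit 78) (nat_lit 0) (nat_lit 0) (XT.lf (nat_lit 0) (nat_lit 432951521177) (nat_lit 152) (nat_lit 1244897774386) (nat_lit 0) (nat_lit 430424127630) (nat_lit 1) (nat_lit 5) (nat_lit 3) (nat_lit 4) (nat_lit 1) (nat_lit 4) (nat_lit 252) (nat_lit 191) (nat_lit 157)) (XT.lf (nat_lit 0) (nat_lit 498918128004) (nat_lit 152) (nat_lit 1428990100594) (nat_lit 0) (nat_lit 496387862974) (nat_lit 1) (nat_lit 5) (nat_lit 3) (nat_lit 4) (nat_lit 1) (nat_lit 4) (nat_lit 253) (nat_lit 191) (nat_lit 156))))) (XT.nd (nat_lit 312) (nat_lit 0) (nat_lit 0) (XT.nd (nat_lit 156) (nat_lit 0) (nat_lit 0) (XT.nd (nat_lit 78) (nat_lit 0) (nat_lit 0) (XT.lf (nat_lit 0) (nat_lit 574776811603)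 (nat_lit 152) (nat_lit 1640701751449) (nat_lit 0) (nat_lit 572244049631) (nat_lit 1) (nat_lit 5) (nat_lit 3) (nat_lit 4) (nat_lit 1) (nat_lit 4) (nat_lit 254) (nat_lit 191) (nat_lit 155)) (XT.lf (nat_lit 0) (nat_lit 662011763610) (nat_lit 152) (nat_lit 1884174911423) (nat_lit 0) (nat_lit 659476830385) (nat_lit 1) (nat_lit 5) (nat_lit 3) (nat_lit 4) (nat_lit 1) (nat_lit 4) (nat_lit 255) (nat_lit 191) (nat_lit 154))) (XT.nd (nat_lit 78) (nat_lit 0) (nat_lit 0) (XT.lf (nat_lit 0) (nat_lit 762329754826) (nat_lit 152) (nat_lit 2164173185821) (nat_lit 0) (nat_lit 759792933554) (nat_lit 1) (nat_lit 5) (nat_lit 3) (nat_lit 4) (nat_lit 1) (nat_lit 4) (nat_lit 256) (nat_lit 191) (nat_lit 153)) (XT.lf (nat_lit 0) (nat_lit 877693528557) (nat_lit 152) (nat_lit 2486174801750) (nat_lit 0) (nat_lit 875155065505) (nat_lit 1) (nat_lit 5) (nat_lit 3) (nat_lit 4) (nat_lit 1) (nat_lit 4) (nat_lit 257)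 (nat_lit 191) (nat_lit 152)))) (XT.nd (nat_lit 156) (nat_lit 0) (nat_lit 0) (XT.nd (nat_lit 78) (nat_lit 0) (nat_lit 0) (XT.lf (nat_lit 0) (nat_lit 1010360202114) (nat_lit 152) (nat_lit 2856479790827) (nat_lit 0) (nat_lit 1007820311428) (nat_lit 1) (nat_lit 5) (nat_lit 3) (nat_lit 4) (nat_lit 1) (nat_lit 4) (nat_lit 258) (nat_lit 191) (nat_lit 151)) (XT.lf (nat_lit 0) (nat_lit 1162925427807) (nat_lit 152) (nat_lit 3282333250663) (nat_lit 0) (nat_lit 1160384295700) (nat_lit 1) (nat_lit 5) (nat_lit 3) (nat_lit 4) (nat_lit 1) (nat_lit 4) (nat_lit 259) (nat_lit 191) (nat_lit 150))) (XT.nd (nat_lit 78) (nat_lit 0) (nat_lit 0) (XT.lf (nat_lit 0) (nat_lit 1338374177443) (nat_lit 152) (nat_lit 3772067096777) (nat_lit 0) (nat_lit 1335831965839) (nat_lit 1) (nat_lit 5) (nat_lit 3) (nat_lit 4) (nat_lit 1) (nat_lit 4) (nat_lit 260) (nat_lit 191) (nat_lit 149)) (XT.lf (nat_lit 0) (nat_lit 1540139143948)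 (nat_lit 152) (nat_lit 4335263078333) (nat_lit 0) (nat_lit 1537595993652) (nat_lit 1) (nat_lit 5) (nat_lit 3) (nat_lit 4) (nat_lit 1) (nat_lit 4) (nat_lit 261) (nat_lit 191) (nat_lit 148))))))) (XT.nd (nat_lit 27690) (nat_lit 0) (nat_lit 0) (XT.nd (nat_lit 546) (nat_lit 0) (nat_lit 0) (XT.nd (nat_lit 234) (nat_lit 0) (nat_lit 0) (XT.nd (nat_lit 78) (nat_lit 0) (nat_lit 0) (XT.lf (nat_lit 0) (nat_lit 1772167902756) (nat_lit 152) (nat_lit 4982940247143) (nat_lit 0) (nat_lit 1769623936205) (nat_lit 1) (nat_lit 5) (nat_lit 3) (nat_lit 4) (nat_lit 1) (nat_lit 4) (nat_lit 262) (nat_lit 191) (nat_lit 147)) (XT.nd (nat_lit 78) (nat_lit 0) (nat_lit 0) (XT.lf (nat_lit 0) (nat_lit 2039000146973) (nat_lit 152) (nat_lit 5727770547815) (nat_lit 0) (nat_lit 2036455470635) (nat_lit 1) (nat_lit 5) (nat_lit 3) (nat_lit 4) (nat_lit 1) (nat_lit 4) (nat_lit 263) (nat_lit 191) (nat_lit 146)) (XT.lf (nat_lit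 0) (nat_lit 2345856507464) (nat_lit 152) (nat_lit 6584326747100) (nat_lit 0) (nat_lit 2343311213921) (nat_lit 1) (nat_lit 5) (nat_lit 3) (nat_lit 4) (nat_lit 1) (nat_lit 4) (nat_lit 264) (nat_lit 191) (nat_lit 145)))) (XT.nd (nat_lit 156) (nat_lit 0) (nat_lit 0) (XT.nd (nat_lit 78) (nat_lit 0) (nat_lit 0) (XT.lf (nat_lit 0) (nat_lit 2698740695630) (nat_lit 152) (nat_lit 7569367553246) (nat_lit 0) (nat_lit 2696194865386) (nat_lit 1) (nat_lit 5) (nat_lit 3) (nat_lit 4) (nat_lit 1) (nat_lit 4) (nat_lit 265) (nat_lit 191) (nat_lit 144)) (XT.lf (nat_lit 0) (nat_lit 3104556967327) (nat_lit 152) (nat_lit 8702165503764) (nat_lit 0) (nat_lit 3102010670386) (nat_lit 1) (nat_lit 5) (nat_lit 3) (nat_lit 4) (nat_lit 1) (nat_lit 4) (nat_lit 266) (nat_lit 191) (nat_lit 143))) (XT.nd (nat_lit 78) (nat_lit 0) (nat_lit 0) (XT.lf (nat_lit 0) (nat_lit 3571245206131) (nat_lit 152) (nat_lit 10004884036817)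 (nat_lit 0) (nat_lit 3568698503367) (nat_lit 1) (nat_lit 5) (nat_lit 3) (nat_lit 4) (nat_lit 1) (nat_lit 4) (nat_lit 267) (nat_lit 191) (nat_lit 142)) (XT.lf (nat_lit 0) (nat_lit 4107936268888) (nat_lit 152) (nat_lit 11503011123704) (nat_lit 0) (nat_lit 4105389213235) (nat_lit 1) (nat_lit 5) (nat_lit 3) (nat_lit 4) (nat_lit 1) (nat_lit 4) (nat_lit 268) (nat_lit 191) (nat_lit 141))))) (XT.nd (nat_lit 312) (nat_lit 0) (nat_lit 0) (XT.nd (nat_lit 156) (nat_lit 0) (nat_lit 0) (XT.nd (nat_lit 78) (nat_lit 0) (nat_lit 0) (XT.lf (nat_lit 0) (nat_lit 4725130632913) (nat_lit 152) (nat_lit 13225857946558) (nat_lit 0) (nat_lit 4722583270400) (nat_lit 1) (nat_lit 5) (nat_lit 3) (nat_lit 4) (nat_lit 1) (nat_lit 4) (nat_lit 269) (nat_lit 191) (nat_lit 140)) (XT.lf (nat_lit 0) (nat_lit 5434903840111) (nat_lit 152) (nat_lit 15207132378002) (nat_lit 0) (nat_lit 5432356210763) (nat_lit 1) (nat_lit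 5) (nat_lit 3) (nat_lit 4) (nat_lit 1) (nat_lit 4) (nat_lit 270) (nat_lit 191) (nat_lit 139))) (XT.nd (nat_lit 78) (nat_lit 0) (nat_lit 0) (XT.lf (nat_lit 0) (nat_lit 6251142757580) (nat_lit 152) (nat_lit 17485598482998) (nat_lit 0) (nat_lit 6248594896201) (nat_lit 1) (nat_lit 5) (nat_lit 3) (nat_lit 4) (nat_lit 1) (nat_lit 4) (nat_lit 271) (nat_lit 191) (nat_lit 138)) (XT.lf (nat_lit 0) (nat_lit 7189817277182) (nat_lit 152) (nat_lit 20105834946209) (nat_lit 0) (nat_lit 7187269214038) (nat_lit 1) (nat_lit 5) (nat_lit 3) (nat_lit 4) (nat_lit 1) (nat_lit 4) (nat_lit 272) (nat_lit 191) (nat_lit 137)))) (XT.nd (nat_lit 156) (nat_lit 0) (nat_lit 0) (XT.nd (nat_lit 78) (nat_lit 0) (nat_lit 0) (XT.lf (nat_lit 0) (nat_lit 8269292769954) (nat_lit 152) (nat_lit 23119107263654) (nat_lit 0) (nat_lit 8266744531362) (nat_lit 1) (nat_lit 5) (nat_lit 3) (nat_lit 4) (nat_lit 1) (nat_lit 4) (nat_lit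 273) (nat_lit 191) (nat_lit 136)) (XT.lf (nat_lit 0) (nat_lit 9510689408581) (nat_lit 152) (nat_lit 26584370763285) (nat_lit 0) (nat_lit 9508141017424) (nat_lit 1) (nat_lit 5) (nat_lit 3) (nat_lit 4) (nat_lit 1) (nat_lit 4) (nat_lit 274) (nat_lit 191) (nat_lit 135))) (XT.nd (nat_lit 78) (nat_lit 0) (nat_lit 0) (XT.lf (nat_lit 0) (nat_lit 10938295388165) (nat_lit 152) (nat_lit 30569424078788) (nat_lit 0) (nat_lit 10935746864344) (nat_lit 1) (nat_lit 5) (nat_lit 3) (nat_lit 4) (nat_lit 1) (nat_lit 4) (nat_lit 275) (nat_lit 191) (nat_lit 134)) (XT.lf (nat_lit 0) (nat_lit 12580042130046) (nat_lit 152) (nat_lit 35152235644598) (nat_lit 0) (nat_lit 12577493490865) (nat_lit 1) (nat_lit 5) (nat_lit 3) (nat_lit 4) (nat_lit 1) (nat_lit 4) (nat_lit 276) (nat_lit 191) (nat_lit 133)))))) (XT.nd (nat_lit 546) (nat_lit 152) (nat_lit 0) (XT.nd (nat_lit 234) (nat_lit 76) (nat_lit 0) (XT.nd (nat_lit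 78) (nat_lit 0) (nat_lit 0) (XT.lf (nat_lit 0) (nat_lit 1235169635) (nat_lit 152) (nat_lit 5819073498) (nat_lit 0) (nat_lit 1235169635) (nat_lit 4) (nat_lit 5) (nat_lit 6) (nat_lit 4) (nat_lit 4) (nat_lit 4) (nat_lit 216) (nat_lit 192) (nat_lit 192)) (XT.nd (nat_lit 78) (nat_lit 0) (nat_lit 0) (XT.lf (nat_lit 0) (nat_lit 5923224428) (nat_lit 152) (nat_lit 7093119596) (nat_lit 0) (nat_lit 5483451505) (nat_lit 4) (nat_lit 5) (nat_lit 6) (nat_lit 4) (nat_lit 4) (nat_lit 4) (nat_lit 217) (nat_lit 192) (nat_lit 191)) (XT.lf (nat_lit 0) (nat_lit 9589127054) (nat_lit 152) (nat_lit 2400927466) (nat_lit 0) (nat_lit 8766942894) (nat_lit 4) (nat_lit 5) (nat_lit 6) (nat_lit 4) (nat_lit 4) (nat_lit 4) (nat_lit 218) (nat_lit 192) (nat_lit 190)))) (XT.nd (nat_lit 156) (nat_lit 0) (nat_lit 0) (XT.nd (nat_lit 78) (nat_lit 0) (nat_lit 0) (XT.lf (nat_lit 0) (nat_lit 2777505938) (nat_lit 76) (nat_lit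 10877275989) (nat_lit 76) (nat_lit 9722560318) (nat_lit 3) (nat_lit 4) (nat_lit 4) (nat_lit 5) (nat_lit 4) (nat_lit 4) (nat_lit 219) (nat_lit 192) (nat_lit 189)) (XT.lf (nat_lit 0) (nat_lit 8558805545) (nat_lit 76) (nat_lit 9648048810) (nat_lit 76) (nat_lit 8204175304) (nat_lit 3) (nat_lit 4) (nat_lit 4) (nat_lit 5) (nat_lit 4) (nat_lit 4) (nat_lit 220) (nat_lit 192) (nat_lit 188))) (XT.nd (nat_lit 78) (nat_lit 0) (nat_lit 0) (XT.lf (nat_lit 0) (nat_lit 14821447645) (nat_lit 76) (nat_lit 8403825913) (nat_lit 76) (nat_lit 6708510811) (nat_lit 3) (nat_lit 4) (nat_lit 4) (nat_lit 5) (nat_lit 4) (nat_lit 4) (nat_lit 221) (nat_lit 192) (nat_lit 187)) (XT.lf (nat_lit 0) (nat_lit 21687962192) (nat_lit 76) (nat_lit 7120263806) (nat_lit 76) (nat_lit 5206303838) (nat_lit 3) (nat_lit 4) (nat_lit 4) (nat_lit 5) (nat_lit 4) (nat_lit 4) (nat_lit 222) (nat_lit 192) (nat_lit 186))))) (XT.nd (nat_lit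 312) (nat_lit 0) (nat_lit 0) (XT.nd (nat_lit 156) (nat_lit 152) (nat_lit 0) (XT.nd (nat_lit 78) (nat_lit 0) (nat_lit 0) (XT.lf (nat_lit 0) (nat_lit 29292694035) (nat_lit 76) (nat_lit 5772249317) (nat_lit 76) (nat_lit 3668163378) (nat_lit 3) (nat_lit 4) (nat_lit 4) (nat_lit 5) (nat_lit 4) (nat_lit 4) (nat_lit 223) (nat_lit 192) (nat_lit 185)) (XT.lf (nat_lit 0) (nat_lit 37784431407) (nat_lit 76) (nat_lit 4333408251) (nat_lit 76) (nat_lit 2063995381) (nat_lit 3) (nat_lit 4) (nat_lit 4) (nat_lit 5) (nat_lit 4) (nat_lit 4) (nat_lit 224) (nat_lit 192) (nat_lit 184))) (XT.nd (nat_lit 78) (nat_lit 152) (nat_lit 0) (XT.lf (nat_lit 0) (nat_lit 47329316996) (nat_lit 76) (nat_lit 2775589368) (nat_lit 76) (nat_lit 362413949) (nat_lit 3) (nat_lit 4) (nat_lit 4) (nat_lit 5) (nat_lit 4) (nat_lit 4) (nat_lit 225) (nat_lit 192) (nat_lit 183)) (XT.lf (nat_lit 0) (nat_lit 373990004) (nat_lit 76) (nat_lit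 980510616) (nat_lit 152) (nat_lit 56346586254) (nat_lit 1) (nat_lit 5) (nat_lit 2) (nat_lit 5) (nat_lit 3) (nat_lit 4) (nat_lit 226) (nat_lit 192) (nat_lit 182)))) (XT.nd (nat_lit 156) (nat_lit 0) (nat_lit 0) (XT.nd (nat_lit 78) (nat_lit 0) (nat_lit 0) (XT.lf (nat_lit 0) (nat_lit 3398245996) (nat_lit 152) (nat_lit 61507103489) (nat_lit 0) (nat_lit 1096601239) (nat_lit 1) (nat_lit 5) (nat_lit 3) (nat_lit 4) (nat_lit 1) (nat_lit 4) (nat_lit 227) (nat_lit 192) (nat_lit 181)) (XT.lf (nat_lit 0) (nat_lit 5699310056) (nat_lit 152) (nat_lit 66541056892) (nat_lit 0) (nat_lit 3315468595) (nat_lit 1) (nat_lit 5) (nat_lit 3) (nat_lit 4) (nat_lit 1) (nat_lit 4) (nat_lit 228) (nat_lit 192) (nat_lit 180))) (XT.nd (nat_lit 78) (nat_lit 0) (nat_lit 0) (XT.lf (nat_lit 0) (nat_lit 8262112765) (nat_lit 152) (nat_lit 72486846618) (nat_lit 0) (nat_lit 5806795909) (nat_lit 1) (nat_lit 5) (nat_lit 3) (nat_lit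 4) (nat_lit 1) (nat_lit 4) (nat_lit 229) (nat_lit 192) (nat_lit 179)) (XT.lf (nat_lit 0) (nat_lit 11136795914) (nat_lit 152) (nat_lit 79460803336) (nat_lit 0) (nat_lit 8619326541) (nat_lit 1) (nat_lit 5) (nat_lit 3) (nat_lit 4) (nat_lit 1) (nat_lit 4) (nat_lit 230) (nat_lit 192) (nat_lit 178))))))))
noncomputable def xc16 : XT := (XT.nd (nat_lit 2262) (nat_lit 0) (nat_lit 0) (XT.nd (nat_lit 1092) (nat_lit 0) (nat_lit 0) (XT.nd (nat_lit 546) (nat_lit 0) (nat_lit 0) (XT.nd (nat_lit 234) (nat_lit 0) (nat_lit 0) (XT.nd (nat_lit 78) (nat_lit 0) (nat_lit 0) (XT.lf (nat_lit 0) (nat_lit 14379603305) (nat_lit 152) (nat_lit 87599374025) (nat_lit 0) (nat_lit 11808088265) (nat_lit 1) (nat_lit 5) (nat_lit 3) (nat_lit 4) (nat_lit 1) (nat_lit 4) (nat_lit 231) (nat_lit 192) (nat_lit 177)) (XT.nd (nat_lit 78) (nat_lit 0) (nat_lit 0) (XT.lf (nat_lit 0) (nat_lit 18053981168) (nat_lit 152) (nat_lit 97061791591)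 (nat_lit 0) (nat_lit 15435469896) (nat_lit 1) (nat_lit 5) (nat_lit 3) (nat_lit 4) (nat_lit 1) (nat_lit 4) (nat_lit 232) (nat_lit 192) (nat_lit 176)) (XT.lf (nat_lit 0) (nat_lit 22231819507) (nat_lit 152) (nat_lit 108033190290) (nat_lit 0) (nat_lit 19572441946) (nat_lit 1) (nat_lit 5) (nat_lit 3) (nat_lit 4) (nat_lit 1) (nat_lit 4) (nat_lit 233) (nat_lit 192) (nat_lit 175)))) (XT.nd (nat_lit 156) (nat_lit 0) (nat_lit 0) (XT.nd (nat_lit 78) (nat_lit 0) (nat_lit 0) (XT.lf (nat_lit 0) (nat_lit 26994858635) (nat_lit 152) (nat_lit 120728227922) (nat_lit 0) (nat_lit 24299945171) (nat_lit 1) (nat_lit 5) (nat_lit 3) (nat_lit 4) (nat_lit 1) (nat_lit 4) (nat_lit 234) (nat_lit 192) (nat_lit 174)) (XT.lf (nat_lit 0) (nat_lit 32436288450) (nat_lit 152) (nat_lit 135395285659) (nat_lit 0) (nat_lit 29710474200) (nat_lit 1) (nat_lit 5) (nat_lit 3) (nat_lit 4) (nat_lit 1) (nat_lit 4) (nat_lit 235) (nat_lit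 192) (nat_lit 173))) (XT.nd (nat_lit 78) (nat_lit 0) (nat_lit 0) (XT.lf (nat_lit 0) (nat_lit 38662571707) (nat_lit 152) (nat_lit 152321327674) (nat_lit 0) (nat_lit 35909887210) (nat_lit 1) (nat_lit 5) (nat_lit 3) (nat_lit 4) (nat_lit 1) (nat_lit 4) (nat_lit 236) (nat_lit 192) (nat_lit 172)) (XT.lf (nat_lit 0) (nat_lit 45795526994) (nat_lit 152) (nat_lit 171837515657) (nat_lit 0) (nat_lit 43019477063) (nat_lit 1) (nat_lit 5) (nat_lit 3) (nat_lit 4) (nat_lit 1) (nat_lit 4) (nat_lit 237) (nat_lit 192) (nat_lit 171))))) (XT.nd (nat_lit 234) (nat_lit 0) (nat_lit 0) (XT.nd (nat_lit 78) (nat_lit 0) (nat_lit 0) (XT.lf (nat_lit 0) (nat_lit 53974712130) (nat_lit 152) (nat_lit 194325688071) (nat_lit 0) (nat_lit 51178344431) (nat_lit 1) (nat_lit 5) (nat_lit 3) (nat_lit 4) (nat_lit 1) (nat_lit 4) (nat_lit 238) (nat_lit 192) (nat_lit 170)) (XT.nd (nat_lit 78) (nat_lit 0) (nat_lit 0) (XT.lf (nat_lit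 0) (nat_lit 63360154651) (nat_lit 152) (nat_lit 220225830897) (nat_lit 0) (nat_lit 60546119327) (nat_lit 1) (nat_lit 5) (nat_lit 3) (nat_lit 4) (nat_lit 1) (nat_lit 4) (nat_lit 239) (nat_lit 192) (nat_lit 169)) (XT.lf (nat_lit 0) (nat_lit 74135482780) (nat_lit 152) (nat_lit 250044686059) (nat_lit 0) (nat_lit 71306084305) (nat_lit 1) (nat_lit 5) (nat_lit 3) (nat_lit 4) (nat_lit 1) (nat_lit 4) (nat_lit 240) (nat_lit 192) (nat_lit 168)))) (XT.nd (nat_lit 156) (nat_lit 0) (nat_lit 0) (XT.nd (nat_lit 78) (nat_lit 0) (nat_lit 0) (XT.lf (nat_lit 0) (nat_lit 86511518154) (nat_lit 152) (nat_lit 284365665942) (nat_lit 0) (nat_lit 83668760417) (nat_lit 1) (nat_lit 5) (nat_lit 3) (nat_lit 4) (nat_lit 1) (nat_lit 4) (nat_lit 241) (nat_lit 192) (nat_lit 167)) (XT.lf (nat_lit 0) (nat_lit 100730400596) (nat_lit 152) (nat_lit 323860267977) (nat_lit 0) (nat_lit 97876026109) (nat_lit 1) (nat_lit 5)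 (nat_lit 3) (nat_lit 4) (nat_lit 1) (nat_lit 4) (nat_lit 242) (nat_lit 192) (nat_lit 166))) (XT.nd (nat_lit 78) (nat_lit 0) (nat_lit 0) (XT.lf (nat_lit 0) (nat_lit 117070325633) (nat_lit 152) (nat_lit 369301212640) (nat_lit 0) (nat_lit 114205849624) (nat_lit 1) (nat_lit 5) (nat_lit 3) (nat_lit 4) (nat_lit 1) (nat_lit 4) (nat_lit 243) (nat_lit 192) (nat_lit 165)) (XT.lf (nat_lit 0) (nat_lit 135850987448) (nat_lit 152) (nat_lit 421577561891) (nat_lit 0) (nat_lit 132977727508) (nat_lit 1) (nat_lit 5) (nat_lit 3) (nat_lit 4) (nat_lit 1) (nat_lit 4) (nat_lit 244) (nat_lit 192) (nat_lit 164)))))) (XT.nd (nat_lit 546) (nat_lit 0) (nat_lit 0) (XT.nd (nat_lit 234) (nat_lit 0) (nat_lit 0) (XT.nd (nat_lit 78) (nat_lit 0) (nat_lit 0) (XT.lf (nat_lit 0) (nat_lit 157439833775) (nat_lit 152) (nat_lit 481712113868) (nat_lit 0) (nat_lit 154558935632) (nat_lit 1) (nat_lit 5) (nat_lit 3) (nat_lit 4)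 (nat_lit 1) (nat_lit 4) (nat_lit 245) (nat_lit 192) (nat_lit 163)) (XT.nd (nat_lit 78) (nat_lit 0) (nat_lit 0) (XT.lf (nat_lit 0) (nat_lit 182259255083) (nat_lit 152) (nat_lit 550881414153) (nat_lit 0) (nat_lit 179371715026) (nat_lit 1) (nat_lit 5) (nat_lit 3) (nat_lit 4) (nat_lit 1) (nat_lit 4) (nat_lit 246) (nat_lit 192) (nat_lit 162)) (XT.lf (nat_lit 0) (nat_lit 210794848747) (nat_lit 152) (nat_lit 630438775142) (nat_lit 0) (nat_lit 207901533113) (nat_lit 1) (nat_lit 5) (nat_lit 3) (nat_lit 4) (nat_lit 1) (nat_lit 4) (nat_lit 247) (nat_lit 192) (nat_lit 161)))) (XT.nd (nat_lit 156) (nat_lit 0) (nat_lit 0) (XT.nd (nat_lit 78) (nat_lit 0) (nat_lit 0) (XT.lf (nat_lit 0) (nat_lit 243604919861) (nat_lit 152) (nat_lit 721940753899) (nat_lit 0) (nat_lit 240706581985) (nat_lit 1) (nat_lit 5) (nat_lit 3) (nat_lit 4) (nat_lit 1) (nat_lit 4) (nat_lit 248) (nat_lit 192) (nat_lit 160)) (XT.lf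 (nat_lit 0) (nat_lit 281331404597) (nat_lit 152) (nat_lit 827177606530) (nat_lit 0) (nat_lit 278428699554) (nat_lit 1) (nat_lit 5) (nat_lit 3) (nat_lit 4) (nat_lit 1) (nat_lit 4) (nat_lit 249) (nat_lit 192) (nat_lit 159))) (XT.nd (nat_lit 78) (nat_lit 0) (nat_lit 0) (XT.lf (nat_lit 0) (nat_lit 324712429832) (nat_lit 152) (nat_lit 948208314934) (nat_lit 0) (nat_lit 321805927253) (nat_lit 1) (nat_lit 5) (nat_lit 3) (nat_lit 4) (nat_lit 1) (nat_lit 4) (nat_lit 250) (nat_lit 192) (nat_lit 158)) (XT.lf (nat_lit 0) (nat_lit 374596754754) (nat_lit 152) (nat_lit 1087400871232) (nat_lit 0) (nat_lit 371686949970) (nat_lit 1) (nat_lit 5) (nat_lit 3) (nat_lit 4) (nat_lit 1) (nat_lit 4) (nat_lit 251) (nat_lit 192) (nat_lit 157))))) (XT.nd (nat_lit 312) (nat_lit 0) (nat_lit 0) (XT.nd (nat_lit 156) (nat_lit 0) (nat_lit 0) (XT.nd (nat_lit 78) (nat_lit 0) (nat_lit 0) (XT.lf (nat_lit 0) (nat_lit 431960377025)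 (nat_lit 152) (nat_lit 1247478608047) (nat_lit 0) (nat_lit 429047700758) (nat_lit 1) (nat_lit 5) (nat_lit 3) (nat_lit 4) (nat_lit 1) (nat_lit 4) (nat_lit 252) (nat_lit 192) (nat_lit 156)) (XT.lf (nat_lit 0) (nat_lit 497925628386) (nat_lit 152) (nat_lit 1431573481099) (nat_lit 0) (nat_lit 495010455178) (nat_lit 1) (nat_lit 5) (nat_lit 3) (nat_lit 4) (nat_lit 1) (nat_lit 4) (nat_lit 253) (nat_lit 192) (nat_lit 155))) (XT.nd (nat_lit 78) (nat_lit 0) (nat_lit 0) (XT.lf (nat_lit 0) (nat_lit 573783133320) (nat_lit 152) (nat_lit 1643287346601) (nat_lit 0) (nat_lit 570865788857) (nat_lit 1) (nat_lit 5) (nat_lit 3) (nat_lit 4) (nat_lit 1) (nat_lit 4) (nat_lit 254) (nat_lit 192) (nat_lit 154)) (XT.lf (nat_lit 0) (nat_lit 661017060400) (nat_lit 152) (nat_lit 1886762432355) (nat_lit 0) (nat_lit 658097827891) (nat_lit 1) (nat_lit 5) (nat_lit 3) (nat_lit 4) (nat_lit 1) (nat_lit 4) (nat_lit 255)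 (nat_lit 192) (nat_lit 153)))) (XT.nd (nat_lit 156) (nat_lit 0) (nat_lit 0) (XT.nd (nat_lit 78) (nat_lit 0) (nat_lit 0) (XT.lf (nat_lit 0) (nat_lit 761334160375) (nat_lit 152) (nat_lit 2166762381344) (nat_lit 0) (nat_lit 758413286087) (nat_lit 1) (nat_lit 5) (nat_lit 3) (nat_lit 4) (nat_lit 1) (nat_lit 4) (nat_lit 256) (nat_lit 192) (nat_lit 152)) (XT.lf (nat_lit 0) (nat_lit 876697159114) (nat_lit 152) (nat_lit 2488765453440) (nat_lit 0) (nat_lit 873774857191) (nat_lit 1) (nat_lit 5) (nat_lit 3) (nat_lit 4) (nat_lit 1) (nat_lit 4) (nat_lit 257) (nat_lit 192) (nat_lit 151))) (XT.nd (nat_lit 78) (nat_lit 0) (nat_lit 0) (XT.lf (nat_lit 0) (nat_lit 1009363158765) (nat_lit 152) (nat_lit 2859071708748) (nat_lit 0) (nat_lit 1006439615421) (nat_lit 1) (nat_lit 5) (nat_lit 3) (nat_lit 4) (nat_lit 1) (nat_lit 4) (nat_lit 258) (nat_lit 192) (nat_lit 150)) (XT.lf (nat_lit 0) (nat_lit 1161927798453)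 (nat_lit 152) (nat_lit 3284926269656) (nat_lit 0) (nat_lit 1159003175612) (nat_lit 1) (nat_lit 5) (nat_lit 3) (nat_lit 4) (nat_lit 1) (nat_lit 4) (nat_lit 259) (nat_lit 192) (nat_lit 149))))))) (XT.nd (nat_lit 1170) (nat_lit 0) (nat_lit 0) (XT.nd (nat_lit 546) (nat_lit 0) (nat_lit 0) (XT.nd (nat_lit 234) (nat_lit 0) (nat_lit 0) (XT.nd (nat_lit 78) (nat_lit 0) (nat_lit 0) (XT.lf (nat_lit 0) (nat_lit 1337376038519) (nat_lit 152) (nat_lit 3774661073223) (nat_lit 0) (nat_lit 1334450476985) (nat_lit 1) (nat_lit 5) (nat_lit 3) (nat_lit 4) (nat_lit 1) (nat_lit 4) (nat_lit 260) (nat_lit 192) (nat_lit 148)) (XT.nd (nat_lit 78) (nat_lit 0) (nat_lit 0) (XT.lf (nat_lit 0) (nat_lit 1539140561920) (nat_lit 152) (nat_lit 4337857887347) (nat_lit 0) (nat_lit 1536214184132) (nat_lit 1) (nat_lit 5) (nat_lit 3) (nat_lit 4) (nat_lit 1) (nat_lit 4) (nat_lit 261) (nat_lit 192) (nat_lit 147)) (XT.lf (nat_lit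 0) (nat_lit 1771168935420) (nat_lit 152) (nat_lit 4985535780129) (nat_lit 0) (nat_lit 1768241847845) (nat_lit 1) (nat_lit 5) (nat_lit 3) (nat_lit 4) (nat_lit 1) (nat_lit 4) (nat_lit 262) (nat_lit 192) (nat_lit 146)))) (XT.nd (nat_lit 156) (nat_lit 0) (nat_lit 0) (XT.nd (nat_lit 78) (nat_lit 0) (nat_lit 0) (XT.lf (nat_lit 0) (nat_lit 2038000844587) (nat_lit 152) (nat_lit 5730366710341) (nat_lit 0) (nat_lit 2035073139806) (nat_lit 1) (nat_lit 5) (nat_lit 3) (nat_lit 4) (nat_lit 1) (nat_lit 4) (nat_lit 263) (nat_lit 192) (nat_lit 145)) (XT.lf (nat_lit 0) (nat_lit 2344856913730) (nat_lit 152) (nat_lit 6586923457054) (nat_lit 0) (nat_lit 2341928672248) (nat_lit 1) (nat_lit 5) (nat_lit 3) (nat_lit 4) (nat_lit 1) (nat_lit 4) (nat_lit 264) (nat_lit 192) (nat_lit 144))) (XT.nd (nat_lit 78) (nat_lit 0) (nat_lit 0) (XT.lf (nat_lit 0) (nat_lit 2697740848550) (nat_lit 152) (nat_lit 7571964739223)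 (nat_lit 0) (nat_lit 2694812140372) (nat_lit 1) (nat_lit 5) (nat_lit 3) (nat_lit 4) (nat_lit 1) (nat_lit 4) (nat_lit 265) (nat_lit 192) (nat_lit 143)) (XT.lf (nat_lit 0) (nat_lit 3103556899945) (nat_lit 152) (nat_lit 8704763103675) (nat_lit 0) (nat_lit 3100627785944) (nat_lit 1) (nat_lit 5) (nat_lit 3) (nat_lit 4) (nat_lit 1) (nat_lit 4) (nat_lit 266) (nat_lit 192) (nat_lit 142))))) (XT.nd (nat_lit 312) (nat_lit 0) (nat_lit 0) (XT.nd (nat_lit 156) (nat_lit 0) (nat_lit 0) (XT.nd (nat_lit 78) (nat_lit 0) (nat_lit 0) (XT.lf (nat_lit 0) (nat_lit 3570244947183) (nat_lit 152) (nat_lit 10007481996670) (nat_lit 0) (nat_lit 3567315480293) (nat_lit 1) (nat_lit 5) (nat_lit 3) (nat_lit 4) (nat_lit 1) (nat_lit 4) (nat_lit 267) (nat_lit 192) (nat_lit 141)) (XT.lf (nat_lit 0) (nat_lit 4106935843361) (nat_lit 152) (nat_lit 11505609396549) (nat_lit 0) (nat_lit 4104006069610) (nat_lit 1) (nat_lit 5)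 (nat_lit 3) (nat_lit 4) (nat_lit 1) (nat_lit 4) (nat_lit 268) (nat_lit 192) (nat_lit 140))) (XT.nd (nat_lit 78) (nat_lit 0) (nat_lit 0) (XT.lf (nat_lit 0) (nat_lit 4724130062534) (nat_lit 152) (nat_lit 13228456491572) (nat_lit 0) (nat_lit 4721200021949) (nat_lit 1) (nat_lit 5) (nat_lit 3) (nat_lit 4) (nat_lit 1) (nat_lit 4) (nat_lit 269) (nat_lit 192) (nat_lit 139)) (XT.lf (nat_lit 0) (nat_lit 5433903143775) (nat_lit 152) (nat_lit 15209731159683) (nat_lit 0) (nat_lit 5430972871159) (nat_lit 1) (nat_lit 5) (nat_lit 3) (nat_lit 4) (nat_lit 1) (nat_lit 4) (nat_lit 270) (nat_lit 192) (nat_lit 138)))) (XT.nd (nat_lit 156) (nat_lit 0) (nat_lit 0) (XT.nd (nat_lit 78) (nat_lit 0) (nat_lit 0) (XT.lf (nat_lit 0) (nat_lit 6250141951715) (nat_lit 152) (nat_lit 17488197470477) (nat_lit 0) (nat_lit 6247211477333) (nat_lit 1) (nat_lit 5) (nat_lit 3) (nat_lit 4) (nat_lit 1) (nat_lit 4) (nat_lit 271)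 (nat_lit 192) (nat_lit 137)) (XT.lf (nat_lit 0) (nat_lit 7188816376075) (nat_lit 152) (nat_lit 20108434112643) (nat_lit 0) (nat_lit 7185885726245) (nat_lit 1) (nat_lit 5) (nat_lit 3) (nat_lit 4) (nat_lit 1) (nat_lit 4) (nat_lit 272) (nat_lit 192) (nat_lit 136))) (XT.nd (nat_lit 78) (nat_lit 0) (nat_lit 0) (XT.lf (nat_lit 0) (nat_lit 8268291786028) (nat_lit 152) (nat_lit 23121706585702) (nat_lit 0) (nat_lit 8265360983634) (nat_lit 1) (nat_lit 5) (nat_lit 3) (nat_lit 4) (nat_lit 1) (nat_lit 4) (nat_lit 273) (nat_lit 192) (nat_lit 135)) (XT.lf (nat_lit 0) (nat_lit 9509688352637) (nat_lit 152) (nat_lit 26586970220647) (nat_lit 0) (nat_lit 9506757417579) (nat_lit 1) (nat_lit 5) (nat_lit 3) (nat_lit 4) (nat_lit 1) (nat_lit 4) (nat_lit 274) (nat_lit 192) (nat_lit 134)))))) (XT.nd (nat_lit 26832) (nat_lit 0) (nat_lit 152) (XT.nd (nat_lit 26520) (nat_lit 0) (nat_lit 228) (XT.nd (nat_lit 78)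 (nat_lit 0) (nat_lit 0) (XT.lf (nat_lit 0) (nat_lit 10937294269598) (nat_lit 152) (nat_lit 30572023653816) (nat_lit 0) (nat_lit 10934363219179) (nat_lit 1) (nat_lit 5) (nat_lit 3) (nat_lit 4) (nat_lit 1) (nat_lit 4) (nat_lit 275) (nat_lit 192) (nat_lit 133)) (XT.nd (nat_lit 78) (nat_lit 0) (nat_lit 0) (XT.lf (nat_lit 0) (nat_lit 12579040957024) (nat_lit 152) (nat_lit 35154835321944) (nat_lit 0) (nat_lit 12576109806292) (nat_lit 1) (nat_lit 5) (nat_lit 3) (nat_lit 4) (nat_lit 1) (nat_lit 4) (nat_lit 276) (nat_lit 192) (nat_lit 132)) (XT.lf (nat_lit 0) (nat_lit 14467049545757) (nat_lit 152) (nat_lit 40425068931582) (nat_lit 0) (nat_lit 14464118307797) (nat_lit 1) (nat_lit 5) (nat_lit 3) (nat_lit 4) (nat_lit 1) (nat_lit 4) (nat_lit 277) (nat_lit 192) (nat_lit 131)))) (XT.nd (nat_lit 156) (nat_lit 152) (nat_lit 0) (XT.nd (nat_lit 78) (nat_lit 0) (nat_lit 0) (XT.lf (nat_lit 0) (nat_lit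 3525532581) (nat_lit 76) (nat_lit 1608629222) (nat_lit 76) (nat_lit 1608629222) (nat_lit 6) (nat_lit 4) (nat_lit 7) (nat_lit 5) (nat_lit 7) (nat_lit 4) (nat_lit 214) (nat_lit 193) (nat_lit 193)) (XT.lf (nat_lit 0) (nat_lit 13826288834) (nat_lit 76) (nat_lit 848460034) (nat_lit 76) (nat_lit 266860344) (nat_lit 6) (nat_lit 4) (nat_lit 7) (nat_lit 5) (nat_lit 7) (nat_lit 4) (nat_lit 215) (nat_lit 193) (nat_lit 192))) (XT.nd (nat_lit 78) (nat_lit 0) (nat_lit 0) (XT.lf (nat_lit 0) (nat_lit 2812983899) (nat_lit 152) (nat_lit 11924090153) (nat_lit 0) (nat_lit 1867472114) (nat_lit 4) (nat_lit 5) (nat_lit 6) (nat_lit 4) (nat_lit 4) (nat_lit 4) (nat_lit 216) (nat_lit 193) (nat_lit 191)) (XT.lf (nat_lit 0) (nat_lit 6124047984) (nat_lit 152) (nat_lit 7627708976) (nat_lit 0) (nat_lit 4796124962) (nat_lit 4) (nat_lit 5) (nat_lit 6) (nat_lit 4) (nat_lit 4) (nat_lit 4) (nat_lit 217) (nat_lit 193)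 (nat_lit 190))))) (XT.nd (nat_lit 312) (nat_lit 0) (nat_lit 0) (XT.nd (nat_lit 156) (nat_lit 0) (nat_lit 0) (XT.nd (nat_lit 78) (nat_lit 76) (nat_lit 0) (XT.lf (nat_lit 0) (nat_lit 9666627938) (nat_lit 152) (nat_lit 3151730953) (nat_lit 0) (nat_lit 8006173406) (nat_lit 4) (nat_lit 5) (nat_lit 6) (nat_lit 4) (nat_lit 4) (nat_lit 4) (nat_lit 218) (nat_lit 193) (nat_lit 189)) (XT.lf (nat_lit 0) (nat_lit 1746942280) (nat_lit 76) (nat_lit 11835429982) (nat_lit 76) (nat_lit 9885817615) (nat_lit 3) (nat_lit 4) (nat_lit 4) (nat_lit 5) (nat_lit 4) (nat_lit 4) (nat_lit 219) (nat_lit 193) (nat_lit 188))) (XT.nd (nat_lit 78) (nat_lit 0) (nat_lit 0) (XT.lf (nat_lit 0) (nat_lit 7348775632) (nat_lit 76) (nat_lit 10684988087) (nat_lit 76) (nat_lit 8483934123) (nat_lit 3) (nat_lit 4) (nat_lit 4) (nat_lit 5) (nat_lit 4) (nat_lit 4) (nat_lit 220) (nat_lit 193) (nat_lit 187)) (XT.lf (nat_lit 0) (nat_lit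 13455360119) (nat_lit 76) (nat_lit 9509274131) (nat_lit 76) (nat_lit 7089575301) (nat_lit 3) (nat_lit 4) (nat_lit 4) (nat_lit 5) (nat_lit 4) (nat_lit 4) (nat_lit 221) (nat_lit 193) (nat_lit 186)))) (XT.nd (nat_lit 156) (nat_lit 0) (nat_lit 0) (XT.nd (nat_lit 78) (nat_lit 0) (nat_lit 0) (XT.lf (nat_lit 0) (nat_lit 20186172394) (nat_lit 76) (nat_lit 8285285017) (nat_lit 76) (nat_lit 5675460216) (nat_lit 3) (nat_lit 4) (nat_lit 4) (nat_lit 5) (nat_lit 4) (nat_lit 4) (nat_lit 222) (nat_lit 193) (nat_lit 185)) (XT.lf (nat_lit 0) (nat_lit 27672902261) (nat_lit 76) (nat_lit 6989073131) (nat_lit 76) (nat_lit 4213921399) (nat_lit 3) (nat_lit 4) (nat_lit 4) (nat_lit 5) (nat_lit 4) (nat_lit 4) (nat_lit 223) (nat_lit 193) (nat_lit 184))) (XT.nd (nat_lit 78) (nat_lit 0) (nat_lit 0) (XT.lf (nat_lit 0) (nat_lit 36062029220) (nat_lit 76) (nat_lit 5595277805) (nat_lit 76) (nat_lit 2676363525) (nat_lit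 3) (nat_lit 4) (nat_lit 4) (nat_lit 5) (nat_lit 4) (nat_lit 4) (nat_lit 224) (nat_lit 193) (nat_lit 183)) (XT.lf (nat_lit 0) (nat_lit 45517688361) (nat_lit 76) (nat_lit 4076629132) (nat_lit 76) (nat_lit 1032703940) (nat_lit 3) (nat_lit 4) (nat_lit 4) (nat_lit 5) (nat_lit 4) (nat_lit 4) (nat_lit 225) (nat_lit 193) (nat_lit 182))))))))
noncomputable def xc17 : XT := (XT.nd (nat_lit 2340) (nat_lit 0) (nat_lit 0) (XT.nd (nat_lit 1170) (nat_lit 0) (nat_lit 0) (XT.nd (nat_lit 546) (nat_lit 0) (nat_lit 0) (XT.nd (nat_lit 234) (nat_lit 0) (nat_lit 0) (XT.nd (nat_lit 78) (nat_lit 76) (nat_lit 0) (XT.lf (nat_lit 0) (nat_lit 682515531) (nat_lit 152) (nat_lit 1685221940) (nat_lit 76) (nat_lit 55506689233) (nat_lit 2) (nat_lit 5) (nat_lit 4) (nat_lit 5) (nat_lit 3) (nat_lit 4) (nat_lit 226) (nat_lit 193) (nat_lit 181)) (XT.nd (nat_lit 78) (nat_lit 0) (nat_lit 0) (XT.lf (nat_lit 0) (nat_lit 2249666023)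 (nat_lit 76) (nat_lit 306995634) (nat_lit 152) (nat_lit 63644303631) (nat_lit 1) (nat_lit 5) (nat_lit 2) (nat_lit 5) (nat_lit 3) (nat_lit 4) (nat_lit 227) (nat_lit 193) (nat_lit 180)) (XT.lf (nat_lit 0) (nat_lit 4806213237) (nat_lit 152) (nat_lit 69045444501) (nat_lit 0) (nat_lit 1911123458) (nat_lit 1) (nat_lit 5) (nat_lit 3) (nat_lit 4) (nat_lit 1) (nat_lit 4) (nat_lit 228) (nat_lit 193) (nat_lit 179)))) (XT.nd (nat_lit 156) (nat_lit 0) (nat_lit 0) (XT.nd (nat_lit 78) (nat_lit 0) (nat_lit 0) (XT.lf (nat_lit 0) (nat_lit 7335276426) (nat_lit 152) (nat_lit 75054628893) (nat_lit 0) (nat_lit 4378034130) (nat_lit 1) (nat_lit 5) (nat_lit 3) (nat_lit 4) (nat_lit 1) (nat_lit 4) (nat_lit 229) (nat_lit 193) (nat_lit 178)) (XT.lf (nat_lit 0) (nat_lit 10180620863) (nat_lit 152) (nat_lit 82083711409) (nat_lit 0) (nat_lit 7169332901) (nat_lit 1) (nat_lit 5) (nat_lit 3) (nat_lit 4) (nat_lit 1)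 (nat_lit 4) (nat_lit 230) (nat_lit 193) (nat_lit 177))) (XT.nd (nat_lit 78) (nat_lit 0) (nat_lit 0) (XT.lf (nat_lit 0) (nat_lit 13397916331) (nat_lit 152) (nat_lit 90270217574) (nat_lit 0) (nat_lit 10339632136) (nat_lit 1) (nat_lit 5) (nat_lit 3) (nat_lit 4) (nat_lit 1) (nat_lit 4) (nat_lit 231) (nat_lit 193) (nat_lit 176)) (XT.lf (nat_lit 0) (nat_lit 17050109913) (nat_lit 152) (nat_lit 99774318162) (nat_lit 0) (nat_lit 13950959429) (nat_lit 1) (nat_lit 5) (nat_lit 3) (nat_lit 4) (nat_lit 1) (nat_lit 4) (nat_lit 232) (nat_lit 193) (nat_lit 175))))) (XT.nd (nat_lit 312) (nat_lit 0) (nat_lit 0) (XT.nd (nat_lit 156) (nat_lit 0) (nat_lit 0) (XT.nd (nat_lit 78) (nat_lit 0) (nat_lit 0) (XT.lf (nat_lit 0) (nat_lit 21208657572) (nat_lit 152) (nat_lit 110781962967) (nat_lit 0) (nat_lit 18073971185) (nat_lit 1) (nat_lit 5) (nat_lit 3) (nat_lit 4) (nat_lit 1) (nat_lit 4) (nat_lit 233) (nat_lit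 193) (nat_lit 174)) (XT.lf (nat_lit 0) (nat_lit 25954922197) (nat_lit 152) (nat_lit 123508518953) (nat_lit 0) (nat_lit 22789335024) (nat_lit 1) (nat_lit 5) (nat_lit 3) (nat_lit 4) (nat_lit 1) (nat_lit 4) (nat_lit 234) (nat_lit 193) (nat_lit 173))) (XT.nd (nat_lit 78) (nat_lit 0) (nat_lit 0) (XT.lf (nat_lit 0) (nat_lit 31381765486) (nat_lit 152) (nat_lit 138202983953) (nat_lit 0) (nat_lit 28189308065) (nat_lit 1) (nat_lit 5) (nat_lit 3) (nat_lit 4) (nat_lit 1) (nat_lit 4) (nat_lit 235) (nat_lit 193) (nat_lit 172)) (XT.lf (nat_lit 0) (nat_lit 37595364809) (nat_lit 152) (nat_lit 155152858371) (nat_lit 0) (nat_lit 34379541955) (nat_lit 1) (nat_lit 5) (nat_lit 3) (nat_lit 4) (nat_lit 1) (nat_lit 4) (nat_lit 236) (nat_lit 193) (nat_lit 171)))) (XT.nd (nat_lit 156) (nat_lit 0) (nat_lit 0) (XT.nd (nat_lit 78) (nat_lit 0) (nat_lit 0) (XT.lf (nat_lit 0) (nat_lit 44717290587) (nat_lit 152) (nat_lit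 174689770184) (nat_lit 0) (nat_lit 41481149965) (nat_lit 1) (nat_lit 5) (nat_lit 3) (nat_lit 4) (nat_lit 1) (nat_lit 4) (nat_lit 237) (nat_lit 193) (nat_lit 170)) (XT.lf (nat_lit 0) (nat_lit 52886884846) (nat_lit 152) (nat_lit 197195963319) (nat_lit 0) (nat_lit 49633076599) (nat_lit 1) (nat_lit 5) (nat_lit 3) (nat_lit 4) (nat_lit 1) (nat_lit 4) (nat_lit 238) (nat_lit 193) (nat_lit 169))) (XT.nd (nat_lit 78) (nat_lit 0) (nat_lit 0) (XT.lf (nat_lit 0) (nat_lit 62263987474) (nat_lit 152) (nat_lit 223111776336) (nat_lit 0) (nat_lit 58994816076) (nat_lit 1) (nat_lit 5) (nat_lit 3) (nat_lit 4) (nat_lit 1) (nat_lit 4) (nat_lit 239) (nat_lit 193) (nat_lit 168)) (XT.lf (nat_lit 0) (nat_lit 73032063522) (nat_lit 152) (nat_lit 252944257753) (nat_lit 0) (nat_lit 69749532861) (nat_lit 1) (nat_lit 5) (nat_lit 3) (nat_lit 4) (nat_lit 1) (nat_lit 4) (nat_lit 240) (nat_lit 193) (nat_lit 167))))))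 (XT.nd (nat_lit 546) (nat_lit 0) (nat_lit 0) (XT.nd (nat_lit 234) (nat_lit 0) (nat_lit 0) (XT.nd (nat_lit 78) (nat_lit 0) (nat_lit 0) (XT.lf (nat_lit 0) (nat_lit 85401792739) (nat_lit 152) (nat_lit 287277086552) (nat_lit 0) (nat_lit 82107645328) (nat_lit 1) (nat_lit 5) (nat_lit 3) (nat_lit 4) (nat_lit 1) (nat_lit 4) (nat_lit 241) (nat_lit 193) (nat_lit 166)) (XT.nd (nat_lit 78) (nat_lit 0) (nat_lit 0) (XT.lf (nat_lit 0) (nat_lit 99615191566) (nat_lit 152) (nat_lit 326781991993) (nat_lit 0) (nat_lit 96310942634) (nat_lit 1) (nat_lit 5) (nat_lit 3) (nat_lit 4) (nat_lit 1) (nat_lit 4) (nat_lit 242) (nat_lit 193) (nat_lit 165)) (XT.lf (nat_lit 0) (nat_lit 115950348241) (nat_lit 152) (nat_lit 372231896139) (nat_lit 0) (nat_lit 112637315378) (nat_lit 1) (nat_lit 5) (nat_lit 3) (nat_lit 4) (nat_lit 1) (nat_lit 4) (nat_lit 243) (nat_lit 193) (nat_lit 164)))) (XT.nd (nat_lit 156) (nat_lit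 0) (nat_lit 0) (XT.nd (nat_lit 78) (nat_lit 0) (nat_lit 0) (XT.lf (nat_lit 0) (nat_lit 134726863656) (nat_lit 152) (nat_lit 424516036245) (nat_lit 0) (nat_lit 131406192591) (nat_lit 1) (nat_lit 5) (nat_lit 3) (nat_lit 4) (nat_lit 1) (nat_lit 4) (nat_lit 244) (nat_lit 193) (nat_lit 163)) (XT.lf (nat_lit 0) (nat_lit 156312104417) (nat_lit 152) (nat_lit 484657362878) (nat_lit 0) (nat_lit 152984791437) (nat_lit 1) (nat_lit 5) (nat_lit 3) (nat_lit 4) (nat_lit 1) (nat_lit 4) (nat_lit 245) (nat_lit 193) (nat_lit 162))) (XT.nd (nat_lit 78) (nat_lit 0) (nat_lit 0) (XT.lf (nat_lit 0) (nat_lit 181128390450) (nat_lit 152) (nat_lit 553832554168) (nat_lit 0) (nat_lit 177795301893) (nat_lit 1) (nat_lit 5) (nat_lit 3) (nat_lit 4) (nat_lit 1) (nat_lit 4) (nat_lit 246) (nat_lit 193) (nat_lit 161)) (XT.lf (nat_lit 0) (nat_lit 209661257789) (nat_lit 152) (nat_lit 633395037771) (nat_lit 0) (nat_lit 206323146990)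 (nat_lit 1) (nat_lit 5) (nat_lit 3) (nat_lit 4) (nat_lit 1) (nat_lit 4) (nat_lit 247) (nat_lit 193) (nat_lit 160))))) (XT.nd (nat_lit 312) (nat_lit 0) (nat_lit 0) (XT.nd (nat_lit 156) (nat_lit 0) (nat_lit 0) (XT.nd (nat_lit 78) (nat_lit 0) (nat_lit 0) (XT.lf (nat_lit 0) (nat_lit 242468958184) (nat_lit 152) (nat_lit 724901470975) (nat_lit 0) (nat_lit 239126480218) (nat_lit 1) (nat_lit 5) (nat_lit 3) (nat_lit 4) (nat_lit 1) (nat_lit 4) (nat_lit 248) (nat_lit 193) (nat_lit 159)) (XT.lf (nat_lit 0) (nat_lit 280193381426) (nat_lit 152) (nat_lit 830142197038) (nat_lit 0) (nat_lit 276847105924) (nat_lit 1) (nat_lit 5) (nat_lit 3) (nat_lit 4) (nat_lit 1) (nat_lit 4) (nat_lit 249) (nat_lit 193) (nat_lit 158))) (XT.nd (nat_lit 78) (nat_lit 0) (nat_lit 0) (XT.lf (nat_lit 0) (nat_lit 323572614057) (nat_lit 152) (nat_lit 951176273643) (nat_lit 0) (nat_lit 320223036350) (nat_lit 1) (nat_lit 5)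 (nat_lit 3) (nat_lit 4) (nat_lit 1) (nat_lit 4) (nat_lit 250) (nat_lit 193) (nat_lit 157)) (XT.lf (nat_lit 0) (nat_lit 373455380194) (nat_lit 152) (nat_lit 1090371758812) (nat_lit 0) (nat_lit 370102931004) (nat_lit 1) (nat_lit 5) (nat_lit 3) (nat_lit 4) (nat_lit 1) (nat_lit 4) (nat_lit 251) (nat_lit 193) (nat_lit 156)))) (XT.nd (nat_lit 156) (nat_lit 0) (nat_lit 0) (XT.nd (nat_lit 78) (nat_lit 0) (nat_lit 0) (XT.lf (nat_lit 0) (nat_lit 430817647000) (nat_lit 152) (nat_lit 1250452042471) (nat_lit 0) (nat_lit 427462700868) (nat_lit 1) (nat_lit 5) (nat_lit 3) (nat_lit 4) (nat_lit 1) (nat_lit 4) (nat_lit 252) (nat_lit 193) (nat_lit 155)) (XT.lf (nat_lit 0) (nat_lit 496781719695) (nat_lit 152) (nat_lit 1434549130171) (nat_lit 0) (nat_lit 493424602310) (nat_lit 1) (nat_lit 5) (nat_lit 3) (nat_lit 4) (nat_lit 1) (nat_lit 4) (nat_lit 253) (nat_lit 193) (nat_lit 154))) (XT.nd (nat_lit 78)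 (nat_lit 0) (nat_lit 0) (XT.lf (nat_lit 0) (nat_lit 572638199701) (nat_lit 152) (nat_lit 1646264921453) (nat_lit 0) (nat_lit 569279194269) (nat_lit 1) (nat_lit 5) (nat_lit 3) (nat_lit 4) (nat_lit 1) (nat_lit 4) (nat_lit 254) (nat_lit 193) (nat_lit 153)) (XT.lf (nat_lit 0) (nat_lit 659871235541) (nat_lit 152) (nat_lit 1889741681799) (nat_lit 0) (nat_lit 656510588330) (nat_lit 1) (nat_lit 5) (nat_lit 3) (nat_lit 4) (nat_lit 1) (nat_lit 4) (nat_lit 255) (nat_lit 193) (nat_lit 152))))))) (XT.nd (nat_lit 1170) (nat_lit 0) (nat_lit 0) (XT.nd (nat_lit 546) (nat_lit 0) (nat_lit 0) (XT.nd (nat_lit 234) (nat_lit 0) (nat_lit 0) (XT.nd (nat_lit 78) (nat_lit 0) (nat_lit 0) (XT.lf (nat_lit 0) (nat_lit 760187560524) (nat_lit 152) (nat_lit 2169743086954) (nat_lit 0) (nat_lit 756825485678) (nat_lit 1) (nat_lit 5) (nat_lit 3) (nat_lit 4) (nat_lit 1) (nat_lit 4) (nat_lit 256) (nat_lit 193) (nat_lit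 151)) (XT.nd (nat_lit 78) (nat_lit 0) (nat_lit 0) (XT.lf (nat_lit 0) (nat_lit 875549885357) (nat_lit 152) (nat_lit 2491747425282) (nat_lit 0) (nat_lit 872186569089) (nat_lit 1) (nat_lit 5) (nat_lit 3) (nat_lit 4) (nat_lit 1) (nat_lit 4) (nat_lit 257) (nat_lit 193) (nat_lit 150)) (XT.lf (nat_lit 0) (nat_lit 1008215299003) (nat_lit 152) (nat_lit 2862054781661) (nat_lit 0) (nat_lit 1004850903239) (nat_lit 1) (nat_lit 5) (nat_lit 3) (nat_lit 4) (nat_lit 1) (nat_lit 4) (nat_lit 258) (nat_lit 193) (nat_lit 149)))) (XT.nd (nat_lit 156) (nat_lit 0) (nat_lit 0) (XT.nd (nat_lit 78) (nat_lit 0) (nat_lit 0) (XT.lf (nat_lit 0) (nat_lit 1160779429121) (nat_lit 152) (nat_lit 3287910300021) (nat_lit 0) (nat_lit 1157414094664) (nat_lit 1) (nat_lit 5) (nat_lit 3) (nat_lit 4) (nat_lit 1) (nat_lit 4) (nat_lit 259) (nat_lit 193) (nat_lit 148)) (XT.lf (nat_lit 0) (nat_lit 1336227226082) (nat_lit 152) (nat_lit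 3777645936157) (nat_lit 0) (nat_lit 1332861075371) (nat_lit 1) (nat_lit 5) (nat_lit 3) (nat_lit 4) (nat_lit 1) (nat_lit 4) (nat_lit 260) (nat_lit 193) (nat_lit 147))) (XT.nd (nat_lit 78) (nat_lit 0) (nat_lit 0) (XT.lf (nat_lit 0) (nat_lit 1537991364176) (nat_lit 152) (nat_lit 4340843474252) (nat_lit 0) (nat_lit 1534624503678) (nat_lit 1) (nat_lit 5) (nat_lit 3) (nat_lit 4) (nat_lit 1) (nat_lit 4) (nat_lit 261) (nat_lit 193) (nat_lit 146)) (XT.lf (nat_lit 0) (nat_lit 1770019402626) (nat_lit 152) (nat_lit 4988521996575) (nat_lit 0) (nat_lit 1766651924922) (nat_lit 1) (nat_lit 5) (nat_lit 3) (nat_lit 4) (nat_lit 1) (nat_lit 4) (nat_lit 262) (nat_lit 193) (nat_lit 145))))) (XT.nd (nat_lit 312) (nat_lit 0) (nat_lit 0) (XT.nd (nat_lit 156) (nat_lit 0) (nat_lit 0) (XT.nd (nat_lit 78) (nat_lit 0) (nat_lit 0) (XT.lf (nat_lit 0) (nat_lit 2036851020444) (nat_lit 152) (nat_lit 5733353474215)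 (nat_lit 0) (nat_lit 2033483006039) (nat_lit 1) (nat_lit 5) (nat_lit 3) (nat_lit 4) (nat_lit 1) (nat_lit 4) (nat_lit 263) (nat_lit 193) (nat_lit 144)) (XT.lf (nat_lit 0) (nat_lit 2343706836241) (nat_lit 152) (nat_lit 6589910696951) (nat_lit 0) (nat_lit 2340338355140) (nat_lit 1) (nat_lit 5) (nat_lit 3) (nat_lit 4) (nat_lit 1) (nat_lit 4) (nat_lit 264) (nat_lit 193) (nat_lit 143))) (XT.nd (nat_lit 78) (nat_lit 0) (nat_lit 0) (XT.lf (nat_lit 0) (nat_lit 2696590550759) (nat_lit 152) (nat_lit 7574952393054) (nat_lit 0) (nat_lit 2693221663836) (nat_lit 1) (nat_lit 5) (nat_lit 3) (nat_lit 4) (nat_lit 1) (nat_lit 4) (nat_lit 265) (nat_lit 193) (nat_lit 142)) (XT.lf (nat_lit 0) (nat_lit 3102406410589) (nat_lit 152) (nat_lit 8707751117447) (nat_lit 0) (nat_lit 3099037170776) (nat_lit 1) (nat_lit 5) (nat_lit 3) (nat_lit 4) (nat_lit 1) (nat_lit 4) (nat_lit 266) (nat_lit 193) (nat_lit 141))))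 (XT.nd (nat_lit 156) (nat_lit 0) (nat_lit 0) (XT.nd (nat_lit 78) (nat_lit 0) (nat_lit 0) (XT.lf (nat_lit 0) (nat_lit 3569094291247) (nat_lit 152) (nat_lit 10010470323435) (nat_lit 0) (nat_lit 3565724744574) (nat_lit 1) (nat_lit 5) (nat_lit 3) (nat_lit 4) (nat_lit 1) (nat_lit 4) (nat_lit 267) (nat_lit 193) (nat_lit 140)) (XT.lf (nat_lit 0) (nat_lit 4105785042573) (nat_lit 152) (nat_lit 11508597995483) (nat_lit 0) (nat_lit 4102415229065) (nat_lit 1) (nat_lit 5) (nat_lit 3) (nat_lit 4) (nat_lit 1) (nat_lit 4) (nat_lit 268) (nat_lit 193) (nat_lit 139))) (XT.nd (nat_lit 78) (nat_lit 0) (nat_lit 0) (XT.lf (nat_lit 0) (nat_lit 4722979135789) (nat_lit 152) (nat_lit 13231445327173) (nat_lit 0) (nat_lit 4719609090250) (nat_lit 1) (nat_lit 5) (nat_lit 3) (nat_lit 4) (nat_lit 1) (nat_lit 4) (nat_lit 269) (nat_lit 193) (nat_lit 138)) (XT.lf (nat_lit 0) (nat_lit 5432752107501) (nat_lit 152) (nat_lit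 15212720201082) (nat_lit 0) (nat_lit 5429381860196) (nat_lit 1) (nat_lit 5) (nat_lit 3) (nat_lit 4) (nat_lit 1) (nat_lit 4) (nat_lit 270) (nat_lit 193) (nat_lit 137)))))) (XT.nd (nat_lit 26676) (nat_lit 0) (nat_lit 152) (XT.nd (nat_lit 234) (nat_lit 0) (nat_lit 0) (XT.nd (nat_lit 78) (nat_lit 0) (nat_lit 0) (XT.lf (nat_lit 0) (nat_lit 6248990820199) (nat_lit 152) (nat_lit 17491186690831) (nat_lit 0) (nat_lit 6245620397446) (nat_lit 1) (nat_lit 5) (nat_lit 3) (nat_lit 4) (nat_lit 1) (nat_lit 4) (nat_lit 271) (nat_lit 193) (nat_lit 136)) (XT.nd (nat_lit 78) (nat_lit 0) (nat_lit 0) (XT.lf (nat_lit 0) (nat_lit 7187665161740) (nat_lit 152) (nat_lit 20111423488610) (nat_lit 0) (nat_lit 7184294586423) (nat_lit 1) (nat_lit 5) (nat_lit 3) (nat_lit 4) (nat_lit 1) (nat_lit 4) (nat_lit 272) (nat_lit 193) (nat_lit 135)) (XT.lf (nat_lit 0) (nat_lit 8267140499676) (nat_lit 152) (nat_lit 23124696096984)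 (nat_lit 0) (nat_lit 8263769791694) (nat_lit 1) (nat_lit 5) (nat_lit 3) (nat_lit 4) (nat_lit 1) (nat_lit 4) (nat_lit 273) (nat_lit 193) (nat_lit 134)))) (XT.nd (nat_lit 156) (nat_lit 0) (nat_lit 0) (XT.nd (nat_lit 78) (nat_lit 0) (nat_lit 0) (XT.lf (nat_lit 0) (nat_lit 9508537003662) (nat_lit 152) (nat_lit 26589959849596) (nat_lit 0) (nat_lit 9505166180320) (nat_lit 1) (nat_lit 5) (nat_lit 3) (nat_lit 4) (nat_lit 1) (nat_lit 4) (nat_lit 274) (nat_lit 193) (nat_lit 133)) (XT.lf (nat_lit 0) (nat_lit 10936142866167) (nat_lit 152) (nat_lit 30575013385083) (nat_lit 0) (nat_lit 10932771942513) (nat_lit 1) (nat_lit 5) (nat_lit 3) (nat_lit 4) (nat_lit 1) (nat_lit 4) (nat_lit 275) (nat_lit 193) (nat_lit 132))) (XT.nd (nat_lit 78) (nat_lit 0) (nat_lit 0) (XT.lf (nat_lit 0) (nat_lit 12577889506241) (nat_lit 152) (nat_lit 35157825142183) (nat_lit 0) (nat_lit 12574518495358) (nat_lit 1) (nat_lit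 5) (nat_lit 3) (nat_lit 4) (nat_lit 1) (nat_lit 4) (nat_lit 276) (nat_lit 193) (nat_lit 131)) (XT.lf (nat_lit 0) (nat_lit 14465898053799) (nat_lit 152) (nat_lit 40428058829187) (nat_lit 0) (nat_lit 14462526967064) (nat_lit 1) (nat_lit 5) (nat_lit 3) (nat_lit 4) (nat_lit 1) (nat_lit 4) (nat_lit 277) (nat_lit 193) (nat_lit 130))))) (XT.nd (nat_lit 312) (nat_lit 152) (nat_lit 0) (XT.nd (nat_lit 156) (nat_lit 76) (nat_lit 0) (XT.nd (nat_lit 78) (nat_lit 76) (nat_lit 0) (XT.lf (nat_lit 0) (nat_lit 1631890603) (nat_lit 152) (nat_lit 2337442904) (nat_lit 0) (nat_lit 1631890603) (nat_lit 7) (nat_lit 5) (nat_lit 9) (nat_lit 4) (nat_lit 7) (nat_lit 4) (nat_lit 212) (nat_lit 194) (nat_lit 194)) (XT.lf (nat_lit 0) (nat_lit 673686383) (nat_lit 76) (nat_lit 6131396201) (nat_lit 76) (nat_lit 5462556557) (nat_lit 6) (nat_lit 4) (nat_lit 7) (nat_lit 5) (nat_lit 7) (nat_lit 4) (nat_lit 213) (nat_lit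 194) (nat_lit 193))) (XT.nd (nat_lit 78) (nat_lit 76) (nat_lit 0) (XT.lf (nat_lit 0) (nat_lit 6791175895) (nat_lit 76) (nat_lit 3985304795) (nat_lit 76) (nat_lit 2734865460) (nat_lit 6) (nat_lit 4) (nat_lit 7) (nat_lit 5) (nat_lit 7) (nat_lit 4) (nat_lit 214) (nat_lit 194) (nat_lit 192)) (XT.lf (nat_lit 0) (nat_lit 48650618) (nat_lit 152) (nat_lit 1651579367) (nat_lit 76) (nat_lit 13289215179) (nat_lit 5) (nat_lit 5) (nat_lit 7) (nat_lit 5) (nat_lit 6) (nat_lit 4) (nat_lit 215) (nat_lit 194) (nat_lit 191)))) (XT.nd (nat_lit 156) (nat_lit 76) (nat_lit 0) (XT.nd (nat_lit 78) (nat_lit 0) (nat_lit 0) (XT.lf (nat_lit 0) (nat_lit 2902109916) (nat_lit 152) (nat_lit 12787514163) (nat_lit 0) (nat_lit 992587204) (nat_lit 4) (nat_lit 5) (nat_lit 6) (nat_lit 4) (nat_lit 4) (nat_lit 4) (nat_lit 216) (nat_lit 194) (nat_lit 190)) (XT.lf (nat_lit 0) (nat_lit 6089851330) (nat_lit 152) (nat_lit 8707347094)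 (nat_lit 0) (nat_lit 3847797107) (nat_lit 4) (nat_lit 5) (nat_lit 6) (nat_lit 4) (nat_lit 4) (nat_lit 4) (nat_lit 217) (nat_lit 194) (nat_lit 189))) (XT.nd (nat_lit 78) (nat_lit 76) (nat_lit 0) (XT.lf (nat_lit 0) (nat_lit 9525194178) (nat_lit 152) (nat_lit 4419381338) (nat_lit 0) (nat_lit 6993982120) (nat_lit 4) (nat_lit 5) (nat_lit 6) (nat_lit 4) (nat_lit 4) (nat_lit 4) (nat_lit 218) (nat_lit 194) (nat_lit 188)) (XT.lf (nat_lit 0) (nat_lit 175941626) (nat_lit 76) (nat_lit 13106695433) (nat_lit 76) (nat_lit 10324041779) (nat_lit 3) (nat_lit 4) (nat_lit 4) (nat_lit 5) (nat_lit 4) (nat_lit 4) (nat_lit 219) (nat_lit 194) (nat_lit 187))))))))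
noncomputable def xc18 : XT := (XT.nd (nat_lit 2340) (nat_lit 0) (nat_lit 0) (XT.nd (nat_lit 1170) (nat_lit 0) (nat_lit 0) (XT.nd (nat_lit 546) (nat_lit 152) (nat_lit 0) (XT.nd (nat_lit 234) (nat_lit 0) (nat_lit 0) (XT.nd (nat_lit 78) (nat_lit 0) (nat_lit 0) (XT.lf (nat_lit 0) (nat_lit 5621717365) (nat_lit 76) (nat_lit 12024762479) (nat_lit 76) (nat_lit 9023463958) (nat_lit 3) (nat_lit 4) (nat_lit 4) (nat_lit 5) (nat_lit 4) (nat_lit 4) (nat_lit 220) (nat_lit 194) (nat_lit 186)) (XT.nd (nat_lit 78) (nat_lit 0) (nat_lit 0) (XT.lf (nat_lit 0) (nat_lit 11592599579) (nat_lit 76) (nat_lit 10908621516) (nat_lit 76) (nat_lit 7717197025) (nat_lit 3) (nat_lit 4) (nat_lit 4) (nat_lit 5) (nat_lit 4) (nat_lit 4) (nat_lit 221) (nat_lit 194) (nat_lit 185)) (XT.lf (nat_lit 0) (nat_lit 18205409878) (nat_lit 76) (nat_lit 9736435004) (nat_lit 76) (nat_lit 6379683582) (nat_lit 3) (nat_lit 4) (nat_lit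 4) (nat_lit 5) (nat_lit 4) (nat_lit 4) (nat_lit 222) (nat_lit 194) (nat_lit 184)))) (XT.nd (nat_lit 156) (nat_lit 0) (nat_lit 0) (XT.nd (nat_lit 78) (nat_lit 0) (nat_lit 0) (XT.lf (nat_lit 0) (nat_lit 25589529332) (nat_lit 76) (nat_lit 8485268859) (nat_lit 76) (nat_lit 4984754889) (nat_lit 3) (nat_lit 4) (nat_lit 4) (nat_lit 5) (nat_lit 4) (nat_lit 4) (nat_lit 223) (nat_lit 194) (nat_lit 183)) (XT.lf (nat_lit 0) (nat_lit 33889429843) (nat_lit 76) (nat_lit 7130643744) (nat_lit 76) (nat_lit 3505118861) (nat_lit 3) (nat_lit 4) (nat_lit 4) (nat_lit 5) (nat_lit 4) (nat_lit 4) (nat_lit 224) (nat_lit 194) (nat_lit 182))) (XT.nd (nat_lit 78) (nat_lit 0) (nat_lit 0) (XT.lf (nat_lit 0) (nat_lit 43267500770) (nat_lit 76) (nat_lit 5646056122) (nat_lit 76) (nat_lit 1911826099) (nat_lit 3) (nat_lit 4) (nat_lit 4) (nat_lit 5) (nat_lit 4) (nat_lit 4) (nat_lit 225) (nat_lit 194) (nat_lit 181)) (XT.lf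 (nat_lit 0) (nat_lit 53907226109) (nat_lit 76) (nat_lit 4002459716) (nat_lit 76) (nat_lit 173703484) (nat_lit 3) (nat_lit 4) (nat_lit 4) (nat_lit 5) (nat_lit 4) (nat_lit 4) (nat_lit 226) (nat_lit 194) (nat_lit 180))))) (XT.nd (nat_lit 312) (nat_lit 0) (nat_lit 0) (XT.nd (nat_lit 156) (nat_lit 0) (nat_lit 0) (XT.nd (nat_lit 78) (nat_lit 76) (nat_lit 0) (XT.lf (nat_lit 0) (nat_lit 1588059051) (nat_lit 152) (nat_lit 496625974) (nat_lit 76) (nat_lit 64345703169) (nat_lit 2) (nat_lit 5) (nat_lit 4) (nat_lit 5) (nat_lit 3) (nat_lit 4) (nat_lit 227) (nat_lit 194) (nat_lit 179)) (XT.lf (nat_lit 0) (nat_lit 3706611928) (nat_lit 152) (nat_lit 72061788784) (nat_lit 0) (nat_lit 243630771) (nat_lit 1) (nat_lit 5) (nat_lit 3) (nat_lit 4) (nat_lit 1) (nat_lit 4) (nat_lit 228) (nat_lit 194) (nat_lit 178))) (XT.nd (nat_lit 78) (nat_lit 0) (nat_lit 0) (XT.lf (nat_lit 0) (nat_lit 6206336406) (nat_lit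 152) (nat_lit 78126098974) (nat_lit 0) (nat_lit 2689309582) (nat_lit 1) (nat_lit 5) (nat_lit 3) (nat_lit 4) (nat_lit 1) (nat_lit 4) (nat_lit 229) (nat_lit 194) (nat_lit 177)) (XT.lf (nat_lit 0) (nat_lit 9026168920) (nat_lit 152) (nat_lit 85203116965) (nat_lit 0) (nat_lit 5462145863) (nat_lit 1) (nat_lit 5) (nat_lit 3) (nat_lit 4) (nat_lit 1) (nat_lit 4) (nat_lit 230) (nat_lit 194) (nat_lit 176)))) (XT.nd (nat_lit 156) (nat_lit 0) (nat_lit 0) (XT.nd (nat_lit 78) (nat_lit 0) (nat_lit 0) (XT.lf (nat_lit 0) (nat_lit 12221280106) (nat_lit 152) (nat_lit 93431306153) (nat_lit 0) (nat_lit 8616390760) (nat_lit 1) (nat_lit 5) (nat_lit 3) (nat_lit 4) (nat_lit 1) (nat_lit 4) (nat_lit 231) (nat_lit 194) (nat_lit 175)) (XT.lf (nat_lit 0) (nat_lit 15854183009) (nat_lit 152) (nat_lit 102971652847) (nat_lit 0) (nat_lit 12213757760) (nat_lit 1) (nat_lit 5) (nat_lit 3) (nat_lit 4) (nat_lit 1) (nat_lit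 4) (nat_lit 232) (nat_lit 194) (nat_lit 174))) (XT.nd (nat_lit 78) (nat_lit 0) (nat_lit 0) (XT.lf (nat_lit 0) (nat_lit 19995956164) (nat_lit 152) (nat_lit 114010816006) (nat_lit 0) (nat_lit 16324630130) (nat_lit 1) (nat_lit 5) (nat_lit 3) (nat_lit 4) (nat_lit 1) (nat_lit 4) (nat_lit 233) (nat_lit 194) (nat_lit 173)) (XT.lf (nat_lit 0) (nat_lit 24727634263) (nat_lit 152) (nat_lit 126764779255) (nat_lit 0) (nat_lit 21029437981) (nat_lit 1) (nat_lit 5) (nat_lit 3) (nat_lit 4) (nat_lit 1) (nat_lit 4) (nat_lit 234) (nat_lit 194) (nat_lit 172)))))) (XT.nd (nat_lit 546) (nat_lit 0) (nat_lit 0) (XT.nd (nat_lit 234) (nat_lit 0) (nat_lit 0) (XT.nd (nat_lit 78) (nat_lit 0) (nat_lit 0) (XT.lf (nat_lit 0) (nat_lit 30141793618) (nat_lit 152) (nat_lit 141483076659) (nat_lit 0) (nat_lit 26420231902) (nat_lit 1) (nat_lit 5) (nat_lit 3) (nat_lit 4) (nat_lit 1) (nat_lit 4) (nat_lit 235) (nat_lit 194)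 (nat_lit 171)) (XT.nd (nat_lit 78) (nat_lit 0) (nat_lit 0) (XT.lf (nat_lit 0) (nat_lit 36344363432) (nat_lit 152) (nat_lit 158453674906) (nat_lit 0) (nat_lit 32602483949) (nat_lit 1) (nat_lit 5) (nat_lit 3) (nat_lit 4) (nat_lit 1) (nat_lit 4) (nat_lit 236) (nat_lit 194) (nat_lit 170)) (XT.lf (nat_lit 0) (nat_lit 43456698333) (nat_lit 152) (nat_lit 178008607440) (nat_lit 0) (nat_lit 39697151225) (nat_lit 1) (nat_lit 5) (nat_lit 3) (nat_lit 4) (nat_lit 1) (nat_lit 4) (nat_lit 237) (nat_lit 194) (nat_lit 169)))) (XT.nd (nat_lit 156) (nat_lit 0) (nat_lit 0) (XT.nd (nat_lit 78) (nat_lit 0) (nat_lit 0) (XT.lf (nat_lit 0) (nat_lit 51617952699) (nat_lit 152) (nat_lit 200530470766) (nat_lit 0) (nat_lit 47843042440) (nat_lit 1) (nat_lit 5) (nat_lit 3) (nat_lit 4) (nat_lit 1) (nat_lit 4) (nat_lit 238) (nat_lit 194) (nat_lit 168)) (XT.lf (nat_lit 0) (nat_lit 60987803246) (nat_lit 152) (nat_lit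 226459910038) (nat_lit 0) (nat_lit 57199533724) (nat_lit 1) (nat_lit 5) (nat_lit 3) (nat_lit 4) (nat_lit 1) (nat_lit 4) (nat_lit 239) (nat_lit 194) (nat_lit 167))) (XT.nd (nat_lit 78) (nat_lit 0) (nat_lit 0) (XT.lf (nat_lit 0) (nat_lit 71749573137) (nat_lit 152) (nat_lit 256304240370) (nat_lit 0) (nat_lit 67949686865) (nat_lit 1) (nat_lit 5) (nat_lit 3) (nat_lit 4) (nat_lit 1) (nat_lit 4) (nat_lit 240) (nat_lit 194) (nat_lit 166)) (XT.lf (nat_lit 0) (nat_lit 84113818739) (nat_lit 152) (nat_lit 290647372575) (nat_lit 0) (nat_lit 80303830945) (nat_lit 1) (nat_lit 5) (nat_lit 3) (nat_lit 4) (nat_lit 1) (nat_lit 4) (nat_lit 241) (nat_lit 194) (nat_lit 165))))) (XT.nd (nat_lit 312) (nat_lit 0) (nat_lit 0) (XT.nd (nat_lit 156) (nat_lit 0) (nat_lit 0) (XT.nd (nat_lit 78) (nat_lit 0) (nat_lit 0) (XT.lf (nat_lit 0) (nat_lit 98322449205) (nat_lit 152) (nat_lit 330161237499) (nat_lit 0) (nat_lit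 94503677480) (nat_lit 1) (nat_lit 5) (nat_lit 3) (nat_lit 4) (nat_lit 1) (nat_lit 4) (nat_lit 242) (nat_lit 194) (nat_lit 164)) (XT.lf (nat_lit 0) (nat_lit 114653459480) (nat_lit 152) (nat_lit 375618932500) (nat_lit 0) (nat_lit 110827049553) (nat_lit 1) (nat_lit 5) (nat_lit 3) (nat_lit 4) (nat_lit 1) (nat_lit 4) (nat_lit 243) (nat_lit 194) (nat_lit 163))) (XT.nd (nat_lit 78) (nat_lit 0) (nat_lit 0) (XT.lf (nat_lit 0) (nat_lit 133426369328) (nat_lit 152) (nat_lit 427909847263) (nat_lit 0) (nat_lit 129593317487) (nat_lit 1) (nat_lit 5) (nat_lit 3) (nat_lit 4) (nat_lit 1) (nat_lit 4) (nat_lit 244) (nat_lit 194) (nat_lit 162)) (XT.lf (nat_lit 0) (nat_lit 155008474814) (nat_lit 152) (nat_lit 488057064902) (nat_lit 0) (nat_lit 151169647395) (nat_lit 1) (nat_lit 5) (nat_lit 3) (nat_lit 4) (nat_lit 1) (nat_lit 4) (nat_lit 245) (nat_lit 194) (nat_lit 161)))) (XT.nd (nat_lit 156) (nat_lit 0)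 (nat_lit 0) (XT.nd (nat_lit 78) (nat_lit 0) (nat_lit 0) (XT.lf (nat_lit 0) (nat_lit 179822034522) (nat_lit 152) (nat_lit 557237378806) (nat_lit 0) (nat_lit 175978184862) (nat_lit 1) (nat_lit 5) (nat_lit 3) (nat_lit 4) (nat_lit 1) (nat_lit 4) (nat_lit 246) (nat_lit 194) (nat_lit 160)) (XT.lf (nat_lit 0) (nat_lit 208352531142) (nat_lit 152) (nat_lit 636804316855) (nat_lit 0) (nat_lit 204504314315) (nat_lit 1) (nat_lit 5) (nat_lit 3) (nat_lit 4) (nat_lit 1) (nat_lit 4) (nat_lit 247) (nat_lit 194) (nat_lit 159))) (XT.nd (nat_lit 78) (nat_lit 0) (nat_lit 0) (XT.lf (nat_lit 0) (nat_lit 241158170044) (nat_lit 152) (nat_lit 728314623491) (nat_lit 0) (nat_lit 237306155680) (nat_lit 1) (nat_lit 5) (nat_lit 3) (nat_lit 4) (nat_lit 1) (nat_lit 4) (nat_lit 248) (nat_lit 194) (nat_lit 158)) (XT.lf (nat_lit 0) (nat_lit 278880800682) (nat_lit 152) (nat_lit 833558717755) (nat_lit 0) (nat_lit 275025484114)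 (nat_lit 1) (nat_lit 5) (nat_lit 3) (nat_lit 4) (nat_lit 1) (nat_lit 4) (nat_lit 249) (nat_lit 194) (nat_lit 157))))))) (XT.nd (nat_lit 1170) (nat_lit 0) (nat_lit 0) (XT.nd (nat_lit 546) (nat_lit 0) (nat_lit 0) (XT.nd (nat_lit 234) (nat_lit 0) (nat_lit 0) (XT.nd (nat_lit 78) (nat_lit 0) (nat_lit 0) (XT.lf (nat_lit 0) (nat_lit 322258474528) (nat_lit 152) (nat_lit 954595723231) (nat_lit 0) (nat_lit 318400286477) (nat_lit 1) (nat_lit 5) (nat_lit 3) (nat_lit 4) (nat_lit 1) (nat_lit 4) (nat_lit 250) (nat_lit 194) (nat_lit 156)) (XT.nd (nat_lit 78) (nat_lit 0) (nat_lit 0) (XT.lf (nat_lit 0) (nat_lit 372139885199) (nat_lit 152) (nat_lit 1093793755244) (nat_lit 0) (nat_lit 368279200206) (nat_lit 1) (nat_lit 5) (nat_lit 3) (nat_lit 4) (nat_lit 1) (nat_lit 4) (nat_lit 251) (nat_lit 194) (nat_lit 155)) (XT.lf (nat_lit 0) (nat_lit 429500973339) (nat_lit 152) (nat_lit 1253876253551) (nat_lit 0)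 (nat_lit 425638117092) (nat_lit 1) (nat_lit 5) (nat_lit 3) (nat_lit 4) (nat_lit 1) (nat_lit 4) (nat_lit 252) (nat_lit 194) (nat_lit 154)))) (XT.nd (nat_lit 156) (nat_lit 0) (nat_lit 0) (XT.nd (nat_lit 78) (nat_lit 0) (nat_lit 0) (XT.lf (nat_lit 0) (nat_lit 495464021107) (nat_lit 152) (nat_lit 1437975267031) (nat_lit 0) (nat_lit 491599276814) (nat_lit 1) (nat_lit 5) (nat_lit 3) (nat_lit 4) (nat_lit 1) (nat_lit 4) (nat_lit 253) (nat_lit 194) (nat_lit 153)) (XT.lf (nat_lit 0) (nat_lit 571319609872) (nat_lit 152) (nat_lit 1649692732904) (nat_lit 0) (nat_lit 567453223800) (nat_lit 1) (nat_lit 5) (nat_lit 3) (nat_lit 4) (nat_lit 1) (nat_lit 4) (nat_lit 254) (nat_lit 194) (nat_lit 152))) (XT.nd (nat_lit 78) (nat_lit 0) (nat_lit 0) (XT.lf (nat_lit 0) (nat_lit 658551870720) (nat_lit 152) (nat_lit 1893170949416) (nat_lit 0) (nat_lit 654684057013) (nat_lit 1) (nat_lit 5) (nat_lit 3) (nat_lit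 4) (nat_lit 1) (nat_lit 4) (nat_lit 255) (nat_lit 194) (nat_lit 151)) (XT.lf (nat_lit 0) (nat_lit 758867521797) (nat_lit 152) (nat_lit 2173173620804) (nat_lit 0) (nat_lit 754998466669) (nat_lit 1) (nat_lit 5) (nat_lit 3) (nat_lit 4) (nat_lit 1) (nat_lit 4) (nat_lit 256) (nat_lit 194) (nat_lit 150))))) (XT.nd (nat_lit 312) (nat_lit 0) (nat_lit 0) (XT.nd (nat_lit 156) (nat_lit 0) (nat_lit 0) (XT.nd (nat_lit 78) (nat_lit 0) (nat_lit 0) (XT.lf (nat_lit 0) (nat_lit 874229260625) (nat_lit 152) (nat_lit 2495179060202) (nat_lit 0) (nat_lit 870359125999) (nat_lit 1) (nat_lit 5) (nat_lit 3) (nat_lit 4) (nat_lit 1) (nat_lit 4) (nat_lit 257) (nat_lit 194) (nat_lit 149)) (XT.lf (nat_lit 0) (nat_lit 1006894164701) (nat_lit 152) (nat_lit 2865487374035) (nat_lit 0) (nat_lit 1003023091383) (nat_lit 1) (nat_lit 5) (nat_lit 3) (nat_lit 4) (nat_lit 1) (nat_lit 4) (nat_lit 258) (nat_lit 194) (nat_lit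 148))) (XT.nd (nat_lit 78) (nat_lit 0) (nat_lit 0) (XT.lf (nat_lit 0) (nat_lit 1159457851715) (nat_lit 152) (nat_lit 3291343724963) (nat_lit 0) (nat_lit 1155585962142) (nat_lit 1) (nat_lit 5) (nat_lit 3) (nat_lit 4) (nat_lit 1) (nat_lit 4) (nat_lit 259) (nat_lit 194) (nat_lit 147)) (XT.lf (nat_lit 0) (nat_lit 1334905263368) (nat_lit 152) (nat_lit 3781080085070) (nat_lit 0) (nat_lit 1331032664009) (nat_lit 1) (nat_lit 5) (nat_lit 3) (nat_lit 4) (nat_lit 1) (nat_lit 4) (nat_lit 260) (nat_lit 194) (nat_lit 146)))) (XT.nd (nat_lit 156) (nat_lit 0) (nat_lit 0) (XT.nd (nat_lit 78) (nat_lit 0) (nat_lit 0) (XT.lf (nat_lit 0) (nat_lit 1536669066412) (nat_lit 152) (nat_lit 4344278252707) (nat_lit 0) (nat_lit 1532795849846) (nat_lit 1) (nat_lit 5) (nat_lit 3) (nat_lit 4) (nat_lit 1) (nat_lit 4) (nat_lit 261) (nat_lit 194) (nat_lit 145)) (XT.lf (nat_lit 0) (nat_lit 1768696813513) (nat_lit 152)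 (nat_lit 4991957322457) (nat_lit 0) (nat_lit 1764823060247) (nat_lit 1) (nat_lit 5) (nat_lit 3) (nat_lit 4) (nat_lit 1) (nat_lit 4) (nat_lit 262) (nat_lit 194) (nat_lit 144))) (XT.nd (nat_lit 78) (nat_lit 0) (nat_lit 0) (XT.lf (nat_lit 0) (nat_lit 2035528177985) (nat_lit 152) (nat_lit 5736789276120) (nat_lit 0) (nat_lit 2031653958023) (nat_lit 1) (nat_lit 5) (nat_lit 3) (nat_lit 4) (nat_lit 1) (nat_lit 4) (nat_lit 263) (nat_lit 194) (nat_lit 143)) (XT.lf (nat_lit 0) (nat_lit 2342383773481) (nat_lit 152) (nat_lit 6593346912789) (nat_lit 0) (nat_lit 2338509147696) (nat_lit 1) (nat_lit 5) (nat_lit 3) (nat_lit 4) (nat_lit 1) (nat_lit 4) (nat_lit 264) (nat_lit 194) (nat_lit 142)))))) (XT.nd (nat_lit 624) (nat_lit 0) (nat_lit 0) (XT.nd (nat_lit 234) (nat_lit 0) (nat_lit 0) (XT.nd (nat_lit 78) (nat_lit 0) (nat_lit 0) (XT.lf (nat_lit 0) (nat_lit 2695267296433) (nat_lit 152) (nat_lit 7578388968834)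 (nat_lit 0) (nat_lit 2691392317759) (nat_lit 1) (nat_lit 5) (nat_lit 3) (nat_lit 4) (nat_lit 1) (nat_lit 4) (nat_lit 265) (nat_lit 194) (nat_lit 141)) (XT.nd (nat_lit 78) (nat_lit 0) (nat_lit 0) (XT.lf (nat_lit 0) (nat_lit 3101082989683) (nat_lit 152) (nat_lit 8711188006221) (nat_lit 0) (nat_lit 3097207704149) (nat_lit 1) (nat_lit 5) (nat_lit 3) (nat_lit 4) (nat_lit 1) (nat_lit 4) (nat_lit 266) (nat_lit 194) (nat_lit 140)) (XT.lf (nat_lit 0) (nat_lit 3567770725490) (nat_lit 152) (nat_lit 10013907484377) (nat_lit 0) (nat_lit 3563895173120) (nat_lit 1) (nat_lit 5) (nat_lit 3) (nat_lit 4) (nat_lit 1) (nat_lit 4) (nat_lit 267) (nat_lit 194) (nat_lit 139)))) (XT.nd (nat_lit 234) (nat_lit 0) (nat_lit 0) (XT.nd (nat_lit 156) (nat_lit 0) (nat_lit 0) (XT.lf (nat_lit 0) (nat_lit 4104461350859) (nat_lit 152) (nat_lit 11512035393092) (nat_lit 0) (nat_lit 4100585566458) (nat_lit 1) (nat_lit 5)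 (nat_lit 3) (nat_lit 4) (nat_lit 1) (nat_lit 4) (nat_lit 268) (nat_lit 194) (nat_lit 138)) (XT.lf (nat_lit 0) (nat_lit 5431428211016) (nat_lit 152) (nat_lit 15216157983445) (nat_lit 0) (nat_lit 5427552049401) (nat_lit 1) (nat_lit 5) (nat_lit 3) (nat_lit 4) (nat_lit 1) (nat_lit 4) (nat_lit 270) (nat_lit 194) (nat_lit 136))) (XT.nd (nat_lit 78) (nat_lit 0) (nat_lit 0) (XT.lf (nat_lit 0) (nat_lit 6247666840894) (nat_lit 152) (nat_lit 17494624628806) (nat_lit 0) (nat_lit 6243790526716) (nat_lit 1) (nat_lit 5) (nat_lit 3) (nat_lit 4) (nat_lit 1) (nat_lit 4) (nat_lit 271) (nat_lit 194) (nat_lit 135)) (XT.lf (nat_lit 0) (nat_lit 7186341110418) (nat_lit 152) (nat_lit 20114861561901) (nat_lit 0) (nat_lit 7182464663575) (nat_lit 1) (nat_lit 5) (nat_lit 3) (nat_lit 4) (nat_lit 1) (nat_lit 4) (nat_lit 272) (nat_lit 194) (nat_lit 134))))) (XT.nd (nat_lit 312) (nat_lit 0) (nat_lit 0) (XT.nd (nat_lit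 156) (nat_lit 0) (nat_lit 0) (XT.nd (nat_lit 78) (nat_lit 0) (nat_lit 0) (XT.lf (nat_lit 0) (nat_lit 8265816385731) (nat_lit 152) (nat_lit 23128134287941) (nat_lit 0) (nat_lit 8261939823528) (nat_lit 1) (nat_lit 5) (nat_lit 3) (nat_lit 4) (nat_lit 1) (nat_lit 4) (nat_lit 273) (nat_lit 194) (nat_lit 133)) (XT.lf (nat_lit 0) (nat_lit 9507212835262) (nat_lit 152) (nat_lit 26593398142870) (nat_lit 0) (nat_lit 9503336172746) (nat_lit 1) (nat_lit 5) (nat_lit 3) (nat_lit 4) (nat_lit 1) (nat_lit 4) (nat_lit 274) (nat_lit 194) (nat_lit 132))) (XT.nd (nat_lit 78) (nat_lit 0) (nat_lit 0) (XT.lf (nat_lit 0) (nat_lit 10934818650415) (nat_lit 152) (nat_lit 30578451767329) (nat_lit 0) (nat_lit 10930941900670) (nat_lit 1) (nat_lit 5) (nat_lit 3) (nat_lit 4) (nat_lit 1) (nat_lit 4) (nat_lit 275) (nat_lit 194) (nat_lit 131)) (XT.lf (nat_lit 0) (nat_lit 12576565249313) (nat_lit 152) (nat_lit 35161263601797)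 (nat_lit 0) (nat_lit 12572688423717) (nat_lit 1) (nat_lit 5) (nat_lit 3) (nat_lit 4) (nat_lit 1) (nat_lit 4) (nat_lit 276) (nat_lit 194) (nat_lit 130)))) (XT.nd (nat_lit 26130) (nat_lit 0) (nat_lit 456) (XT.nd (nat_lit 26052) (nat_lit 0) (nat_lit 608) (XT.lf (nat_lit 0) (nat_lit 14464573761065) (nat_lit 152) (nat_lit 40431497356077) (nat_lit 0) (nat_lit 14460696869512) (nat_lit 1) (nat_lit 5) (nat_lit 3) (nat_lit 4) (nat_lit 1) (nat_lit 4) (nat_lit 277) (nat_lit 194) (nat_lit 129)) (XT.lf (nat_lit 0) (nat_lit 2420804719) (nat_lit 152) (nat_lit 1171157870) (nat_lit 152) (nat_lit 1171157870) (nat_lit 9) (nat_lit 4) (nat_lit 11) (nat_lit 5) (nat_lit 11) (nat_lit 4) (nat_lit 210) (nat_lit 195) (nat_lit 195))) (XT.nd (nat_lit 78) (nat_lit 0) (nat_lit 0) (XT.lf (nat_lit 0) (nat_lit 535854313) (nat_lit 76) (nat_lit 124794404) (nat_lit 152) (nat_lit 9663055057) (nat_lit 7) (nat_lit 5) (nat_lit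 8) (nat_lit 5) (nat_lit 9) (nat_lit 4) (nat_lit 211) (nat_lit 195) (nat_lit 194)) (XT.lf (nat_lit 0) (nat_lit 3860537531) (nat_lit 152) (nat_lit 4947150757) (nat_lit 0) (nat_lit 2422532296) (nat_lit 7) (nat_lit 5) (nat_lit 9) (nat_lit 4) (nat_lit 7) (nat_lit 4) (nat_lit 212) (nat_lit 195) (nat_lit 193))))))))
noncomputable def xc19 : XT := (XT.nd (nat_lit 2340) (nat_lit 0) (nat_lit 0) (XT.nd (nat_lit 1170) (nat_lit 76) (nat_lit 0) (XT.nd (nat_lit 546) (nat_lit 152) (nat_lit 0) (XT.nd (nat_lit 234) (nat_lit 76) (nat_lit 0) (XT.nd (nat_lit 78) (nat_lit 76) (nat_lit 0) (XT.lf (nat_lit 0) (nat_lit 114924456) (nat_lit 76) (nat_lit 7113856210) (nat_lit 76) (nat_lit 5094251284) (nat_lit 6) (nat_lit 4) (nat_lit 7) (nat_lit 5) (nat_lit 7) (nat_lit 4) (nat_lit 213) (nat_lit 195) (nat_lit 192)) (XT.nd (nat_lit 78) (nat_lit 76) (nat_lit 0) (XT.lf (nat_lit 0) (nat_lit 6006423301) (nat_lit 76)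 (nat_lit 5054031505) (nat_lit 76) (nat_lit 2528687718) (nat_lit 6) (nat_lit 4) (nat_lit 7) (nat_lit 5) (nat_lit 7) (nat_lit 4) (nat_lit 214) (nat_lit 195) (nat_lit 191)) (XT.lf (nat_lit 0) (nat_lit 108043586) (nat_lit 152) (nat_lit 2732822998) (nat_lit 76) (nat_lit 12245451360) (nat_lit 5) (nat_lit 5) (nat_lit 7) (nat_lit 5) (nat_lit 6) (nat_lit 4) (nat_lit 215) (nat_lit 195) (nat_lit 190)))) (XT.nd (nat_lit 156) (nat_lit 0) (nat_lit 0) (XT.nd (nat_lit 78) (nat_lit 0) (nat_lit 0) (XT.lf (nat_lit 0) (nat_lit 2559067058) (nat_lit 76) (nat_lit 188186432) (nat_lit 152) (nat_lit 14064918072) (nat_lit 4) (nat_lit 5) (nat_lit 5) (nat_lit 5) (nat_lit 6) (nat_lit 4) (nat_lit 216) (nat_lit 195) (nat_lit 189)) (XT.lf (nat_lit 0) (nat_lit 5819965400) (nat_lit 152) (nat_lit 10353157303) (nat_lit 0) (nat_lit 2619913697) (nat_lit 4) (nat_lit 5) (nat_lit 6) (nat_lit 4) (nat_lit 4) (nat_lit 4) (nat_lit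 217) (nat_lit 195) (nat_lit 188))) (XT.nd (nat_lit 78) (nat_lit 0) (nat_lit 0) (XT.lf (nat_lit 0) (nat_lit 9162058591) (nat_lit 152) (nat_lit 6228680475) (nat_lit 0) (nat_lit 5710565293) (nat_lit 4) (nat_lit 5) (nat_lit 6) (nat_lit 4) (nat_lit 4) (nat_lit 4) (nat_lit 218) (nat_lit 195) (nat_lit 187)) (XT.lf (nat_lit 0) (nat_lit 12831129446) (nat_lit 152) (nat_lit 1791185336) (nat_lit 0) (nat_lit 9160991282) (nat_lit 4) (nat_lit 5) (nat_lit 6) (nat_lit 4) (nat_lit 4) (nat_lit 4) (nat_lit 219) (nat_lit 195) (nat_lit 186))))) (XT.nd (nat_lit 312) (nat_lit 76) (nat_lit 0) (XT.nd (nat_lit 156) (nat_lit 0) (nat_lit 0) (XT.nd (nat_lit 78) (nat_lit 0) (nat_lit 0) (XT.lf (nat_lit 0) (nat_lit 3343840471) (nat_lit 76) (nat_lit 13693584965) (nat_lit 76) (nat_lit 9833320829) (nat_lit 3) (nat_lit 4) (nat_lit 4) (nat_lit 5) (nat_lit 4) (nat_lit 4) (nat_lit 220) (nat_lit 195) (nat_lit 185)) (XT.lf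 (nat_lit 0) (nat_lit 9196720710) (nat_lit 76) (nat_lit 12629246604) (nat_lit 76) (nat_lit 8603655538) (nat_lit 3) (nat_lit 4) (nat_lit 4) (nat_lit 5) (nat_lit 4) (nat_lit 4) (nat_lit 221) (nat_lit 195) (nat_lit 184))) (XT.nd (nat_lit 78) (nat_lit 0) (nat_lit 0) (XT.lf (nat_lit 0) (nat_lit 15706920595) (nat_lit 76) (nat_lit 11502105834) (nat_lit 76) (nat_lit 7332752219) (nat_lit 3) (nat_lit 4) (nat_lit 4) (nat_lit 5) (nat_lit 4) (nat_lit 4) (nat_lit 222) (nat_lit 195) (nat_lit 183)) (XT.lf (nat_lit 0) (nat_lit 23001813602) (nat_lit 76) (nat_lit 10290109898) (nat_lit 76) (nat_lit 5995745372) (nat_lit 3) (nat_lit 4) (nat_lit 4) (nat_lit 5) (nat_lit 4) (nat_lit 4) (nat_lit 223) (nat_lit 195) (nat_lit 182)))) (XT.nd (nat_lit 156) (nat_lit 76) (nat_lit 0) (XT.nd (nat_lit 78) (nat_lit 0) (nat_lit 0) (XT.lf (nat_lit 0) (nat_lit 31224125899) (nat_lit 76) (nat_lit 8969545835) (nat_lit 76) (nat_lit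 4566476168) (nat_lit 3) (nat_lit 4) (nat_lit 4) (nat_lit 5) (nat_lit 4) (nat_lit 4) (nat_lit 224) (nat_lit 195) (nat_lit 181)) (XT.lf (nat_lit 0) (nat_lit 40534728813) (nat_lit 76) (nat_lit 7514576520) (nat_lit 76) (nat_lit 3016980643) (nat_lit 3) (nat_lit 4) (nat_lit 4) (nat_lit 5) (nat_lit 4) (nat_lit 4) (nat_lit 225) (nat_lit 195) (nat_lit 180))) (XT.nd (nat_lit 78) (nat_lit 76) (nat_lit 0) (XT.lf (nat_lit 0) (nat_lit 51115786315) (nat_lit 76) (nat_lit 5896735162) (nat_lit 76) (nat_lit 1316942582) (nat_lit 3) (nat_lit 4) (nat_lit 4) (nat_lit 5) (nat_lit 4) (nat_lit 4) (nat_lit 226) (nat_lit 195) (nat_lit 179)) (XT.lf (nat_lit 0) (nat_lit 516430304) (nat_lit 152) (nat_lit 3540942819) (nat_lit 76) (nat_lit 62630893568) (nat_lit 2) (nat_lit 5) (nat_lit 4) (nat_lit 5) (nat_lit 3) (nat_lit 4) (nat_lit 227) (nat_lit 195) (nat_lit 178)))))) (XT.nd (nat_lit 546) (nat_lit 0) (nat_lit 0)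 (XT.nd (nat_lit 234) (nat_lit 0) (nat_lit 0) (XT.nd (nat_lit 78) (nat_lit 0) (nat_lit 0) (XT.lf (nat_lit 0) (nat_lit 569467897) (nat_lit 76) (nat_lit 1887689493) (nat_lit 152) (nat_lit 73839580877) (nat_lit 1) (nat_lit 5) (nat_lit 2) (nat_lit 5) (nat_lit 3) (nat_lit 4) (nat_lit 228) (nat_lit 195) (nat_lit 177)) (XT.nd (nat_lit 78) (nat_lit 0) (nat_lit 0) (XT.lf (nat_lit 0) (nat_lit 4853204747) (nat_lit 152) (nat_lit 81761350840) (nat_lit 0) (nat_lit 707582000) (nat_lit 1) (nat_lit 5) (nat_lit 3) (nat_lit 4) (nat_lit 1) (nat_lit 4) (nat_lit 229) (nat_lit 195) (nat_lit 176)) (XT.lf (nat_lit 0) (nat_lit 7650852980) (nat_lit 152) (nat_lit 88880051853) (nat_lit 0) (nat_lit 3464363944) (nat_lit 1) (nat_lit 5) (nat_lit 3) (nat_lit 4) (nat_lit 1) (nat_lit 4) (nat_lit 230) (nat_lit 195) (nat_lit 175)))) (XT.nd (nat_lit 156) (nat_lit 0) (nat_lit 0) (XT.nd (nat_lit 78) (nat_lit 0) (nat_lit 0)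 (XT.lf (nat_lit 0) (nat_lit 10826673486) (nat_lit 152) (nat_lit 97144487147) (nat_lit 0) (nat_lit 6604648547) (nat_lit 1) (nat_lit 5) (nat_lit 3) (nat_lit 4) (nat_lit 1) (nat_lit 4) (nat_lit 231) (nat_lit 195) (nat_lit 174)) (XT.lf (nat_lit 0) (nat_lit 14442801885) (nat_lit 152) (nat_lit 106716352195) (nat_lit 0) (nat_lit 10189876161) (nat_lit 1) (nat_lit 5) (nat_lit 3) (nat_lit 4) (nat_lit 1) (nat_lit 4) (nat_lit 232) (nat_lit 195) (nat_lit 173))) (XT.nd (nat_lit 78) (nat_lit 0) (nat_lit 0) (XT.lf (nat_lit 0) (nat_lit 18569988515) (nat_lit 152) (nat_lit 117782922617) (nat_lit 0) (nat_lit 14290192543) (nat_lit 1) (nat_lit 5) (nat_lit 3) (nat_lit 4) (nat_lit 1) (nat_lit 4) (nat_lit 233) (nat_lit 195) (nat_lit 172)) (XT.lf (nat_lit 0) (nat_lit 23288982680) (nat_lit 152) (nat_lit 130560718270) (nat_lit 0) (nat_lit 18985821274) (nat_lit 1) (nat_lit 5) (nat_lit 3) (nat_lit 4) (nat_lit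 1) (nat_lit 4) (nat_lit 234) (nat_lit 195) (nat_lit 171))))) (XT.nd (nat_lit 312) (nat_lit 0) (nat_lit 0) (XT.nd (nat_lit 156) (nat_lit 0) (nat_lit 0) (XT.nd (nat_lit 78) (nat_lit 0) (nat_lit 0) (XT.lf (nat_lit 0) (nat_lit 28692112526) (nat_lit 152) (nat_lit 145299739503) (nat_lit 0) (nat_lit 24368633352) (nat_lit 1) (nat_lit 5) (nat_lit 3) (nat_lit 4) (nat_lit 1) (nat_lit 4) (nat_lit 235) (nat_lit 195) (nat_lit 170)) (XT.lf (nat_lit 0) (nat_lit 34885091463) (nat_lit 152) (nat_lit 162288358470) (nat_lit 0) (nat_lit 30543944665) (nat_lit 1) (nat_lit 5) (nat_lit 3) (nat_lit 4) (nat_lit 1) (nat_lit 4) (nat_lit 236) (nat_lit 195) (nat_lit 169))) (XT.nd (nat_lit 78) (nat_lit 0) (nat_lit 0) (XT.lf (nat_lit 0) (nat_lit 41989086471) (nat_lit 152) (nat_lit 181858961196) (nat_lit 0) (nat_lit 37632576521) (nat_lit 1) (nat_lit 5) (nat_lit 3) (nat_lit 4) (nat_lit 1) (nat_lit 4) (nat_lit 237) (nat_lit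 195) (nat_lit 168)) (XT.lf (nat_lit 0) (nat_lit 50143088756) (nat_lit 152) (nat_lit 204394450777) (nat_lit 0) (nat_lit 45773219544) (nat_lit 1) (nat_lit 5) (nat_lit 3) (nat_lit 4) (nat_lit 1) (nat_lit 4) (nat_lit 238) (nat_lit 195) (nat_lit 167)))) (XT.nd (nat_lit 156) (nat_lit 0) (nat_lit 0) (XT.nd (nat_lit 78) (nat_lit 0) (nat_lit 0) (XT.lf (nat_lit 0) (nat_lit 59506633146) (nat_lit 152) (nat_lit 230335738965) (nat_lit 0) (nat_lit 55125147184) (nat_lit 1) (nat_lit 5) (nat_lit 3) (nat_lit 4) (nat_lit 1) (nat_lit 4) (nat_lit 239) (nat_lit 195) (nat_lit 166)) (XT.lf (nat_lit 0) (nat_lit 70262919422) (nat_lit 152) (nat_lit 260190372703) (nat_lit 0) (nat_lit 65871331938) (nat_lit 1) (nat_lit 5) (nat_lit 3) (nat_lit 4) (nat_lit 1) (nat_lit 4) (nat_lit 240) (nat_lit 195) (nat_lit 165))) (XT.nd (nat_lit 78) (nat_lit 0) (nat_lit 0) (XT.lf (nat_lit 0) (nat_lit 82622396663) (nat_lit 152) (nat_lit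 294542464391) (nat_lit 0) (nat_lit 78222025247) (nat_lit 1) (nat_lit 5) (nat_lit 3) (nat_lit 4) (nat_lit 1) (nat_lit 4) (nat_lit 241) (nat_lit 195) (nat_lit 164)) (XT.lf (nat_lit 0) (nat_lit 96826880728) (nat_lit 152) (nat_lit 334064120170) (nat_lit 0) (nat_lit 92418871111) (nat_lit 1) (nat_lit 5) (nat_lit 3) (nat_lit 4) (nat_lit 1) (nat_lit 4) (nat_lit 242) (nat_lit 195) (nat_lit 163))))))) (XT.nd (nat_lit 1170) (nat_lit 0) (nat_lit 0) (XT.nd (nat_lit 546) (nat_lit 0) (nat_lit 0) (XT.nd (nat_lit 234) (nat_lit 0) (nat_lit 0) (XT.nd (nat_lit 78) (nat_lit 0) (nat_lit 0) (XT.lf (nat_lit 0) (nat_lit 113154285437) (nat_lit 152) (nat_lit 379528589828) (nat_lit 0) (nat_lit 108739633905) (nat_lit 1) (nat_lit 5) (nat_lit 3) (nat_lit 4) (nat_lit 1) (nat_lit 4) (nat_lit 243) (nat_lit 195) (nat_lit 162)) (XT.nd (nat_lit 78) (nat_lit 0) (nat_lit 0) (XT.lf (nat_lit 0) (nat_lit 131924060011) (nat_lit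 152) (nat_lit 431825395596) (nat_lit 0) (nat_lit 127503632902) (nat_lit 1) (nat_lit 5) (nat_lit 3) (nat_lit 4) (nat_lit 1) (nat_lit 4) (nat_lit 244) (nat_lit 195) (nat_lit 161)) (XT.lf (nat_lit 0) (nat_lit 153503439171) (nat_lit 152) (nat_lit 491977735848) (nat_lit 0) (nat_lit 149077989820) (nat_lit 1) (nat_lit 5) (nat_lit 3) (nat_lit 4) (nat_lit 1) (nat_lit 4) (nat_lit 245) (nat_lit 195) (nat_lit 160)))) (XT.nd (nat_lit 156) (nat_lit 0) (nat_lit 0) (XT.nd (nat_lit 78) (nat_lit 0) (nat_lit 0) (XT.lf (nat_lit 0) (nat_lit 178314628161) (nat_lit 152) (nat_lit 561162504199) (nat_lit 0) (nat_lit 173884811643) (nat_lit 1) (nat_lit 5) (nat_lit 3) (nat_lit 4) (nat_lit 1) (nat_lit 4) (nat_lit 246) (nat_lit 195) (nat_lit 159)) (XT.lf (nat_lit 0) (nat_lit 206843063287) (nat_lit 152) (nat_lit 640733315680) (nat_lit 0) (nat_lit 202409449233) (nat_lit 1) (nat_lit 5) (nat_lit 3) (nat_lit 4) (nat_lit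 1) (nat_lit 4) (nat_lit 247) (nat_lit 195) (nat_lit 158))) (XT.nd (nat_lit 78) (nat_lit 0) (nat_lit 0) (XT.lf (nat_lit 0) (nat_lit 239646909585) (nat_lit 152) (nat_lit 732246990517) (nat_lit 0) (nat_lit 235209993326) (nat_lit 1) (nat_lit 5) (nat_lit 3) (nat_lit 4) (nat_lit 1) (nat_lit 4) (nat_lit 248) (nat_lit 195) (nat_lit 157)) (XT.lf (nat_lit 0) (nat_lit 277367981438) (nat_lit 152) (nat_lit 837494013652) (nat_lit 0) (nat_lit 272928193696) (nat_lit 1) (nat_lit 5) (nat_lit 3) (nat_lit 4) (nat_lit 1) (nat_lit 4) (nat_lit 249) (nat_lit 195) (nat_lit 156))))) (XT.nd (nat_lit 312) (nat_lit 0) (nat_lit 0) (XT.nd (nat_lit 156) (nat_lit 0) (nat_lit 0) (XT.nd (nat_lit 78) (nat_lit 0) (nat_lit 0) (XT.lf (nat_lit 0) (nat_lit 320744299818) (nat_lit 152) (nat_lit 958533565973) (nat_lit 0) (nat_lit 316302015134) (nat_lit 1) (nat_lit 5) (nat_lit 3) (nat_lit 4) (nat_lit 1) (nat_lit 4) (nat_lit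 250) (nat_lit 195) (nat_lit 155)) (XT.lf (nat_lit 0) (nat_lit 370624531823) (nat_lit 152) (nat_lit 1097733812633) (nat_lit 0) (nat_lit 366180075885) (nat_lit 1) (nat_lit 5) (nat_lit 3) (nat_lit 4) (nat_lit 1) (nat_lit 4) (nat_lit 251) (nat_lit 195) (nat_lit 154))) (XT.nd (nat_lit 78) (nat_lit 0) (nat_lit 0) (XT.lf (nat_lit 0) (nat_lit 427984595036) (nat_lit 152) (nat_lit 1257818236720) (nat_lit 0) (nat_lit 423538251052) (nat_lit 1) (nat_lit 5) (nat_lit 3) (nat_lit 4) (nat_lit 1) (nat_lit 4) (nat_lit 252) (nat_lit 195) (nat_lit 153)) (XT.lf (nat_lit 0) (nat_lit 493946751563) (nat_lit 152) (nat_lit 1441918924791) (nat_lit 0) (nat_lit 489498765799) (nat_lit 1) (nat_lit 5) (nat_lit 3) (nat_lit 4) (nat_lit 1) (nat_lit 4) (nat_lit 253) (nat_lit 195) (nat_lit 152)))) (XT.nd (nat_lit 156) (nat_lit 0) (nat_lit 0) (XT.nd (nat_lit 78) (nat_lit 0) (nat_lit 0) (XT.lf (nat_lit 0) (nat_lit 569801565337)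 (nat_lit 152) (nat_lit 1653637846831) (nat_lit 0) (nat_lit 565352151939) (nat_lit 1) (nat_lit 5) (nat_lit 3) (nat_lit 4) (nat_lit 1) (nat_lit 4) (nat_lit 254) (nat_lit 195) (nat_lit 151)) (XT.lf (nat_lit 0) (nat_lit 657033152278) (nat_lit 152) (nat_lit 1897117329575) (nat_lit 0) (nat_lit 652582497459) (nat_lit 1) (nat_lit 5) (nat_lit 3) (nat_lit 4) (nat_lit 1) (nat_lit 4) (nat_lit 255) (nat_lit 195) (nat_lit 150))) (XT.nd (nat_lit 78) (nat_lit 0) (nat_lit 0) (XT.lf (nat_lit 0) (nat_lit 757348217350) (nat_lit 152) (nat_lit 2177121102034) (nat_lit 0) (nat_lit 752896483034) (nat_lit 1) (nat_lit 5) (nat_lit 3) (nat_lit 4) (nat_lit 1) (nat_lit 4) (nat_lit 256) (nat_lit 195) (nat_lit 149)) (XT.lf (nat_lit 0) (nat_lit 872709446608) (nat_lit 152) (nat_lit 2499127498885) (nat_lit 0) (nat_lit 868256773599) (nat_lit 1) (nat_lit 5) (nat_lit 3) (nat_lit 4) (nat_lit 1) (nat_lit 4) (nat_lit 257)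 (nat_lit 195) (nat_lit 148)))))) (XT.nd (nat_lit 546) (nat_lit 0) (nat_lit 0) (XT.nd (nat_lit 234) (nat_lit 0) (nat_lit 0) (XT.nd (nat_lit 78) (nat_lit 0) (nat_lit 0) (XT.lf (nat_lit 0) (nat_lit 1005373907580) (nat_lit 152) (nat_lit 2869436645285) (nat_lit 0) (nat_lit 1000920418316) (nat_lit 1) (nat_lit 5) (nat_lit 3) (nat_lit 4) (nat_lit 1) (nat_lit 4) (nat_lit 258) (nat_lit 195) (nat_lit 147)) (XT.nd (nat_lit 78) (nat_lit 0) (nat_lit 0) (XT.lf (nat_lit 0) (nat_lit 1157937209286) (nat_lit 152) (nat_lit 3295293720186) (nat_lit 0) (nat_lit 1153483010235) (nat_lit 1) (nat_lit 5) (nat_lit 3) (nat_lit 4) (nat_lit 1) (nat_lit 4) (nat_lit 259) (nat_lit 195) (nat_lit 146)) (XT.lf (nat_lit 0) (nat_lit 1333384285889) (nat_lit 152) (nat_lit 3785030709834) (nat_lit 0) (nat_lit 1328929469633) (nat_lit 1) (nat_lit 5) (nat_lit 3) (nat_lit 4) (nat_lit 1) (nat_lit 4) (nat_lit 260) (nat_lit 195) (nat_lit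 145)))) (XT.nd (nat_lit 156) (nat_lit 0) (nat_lit 0) (XT.nd (nat_lit 78) (nat_lit 0) (nat_lit 0) (XT.lf (nat_lit 0) (nat_lit 1535147797584) (nat_lit 152) (nat_lit 4348229424898) (nat_lit 0) (nat_lit 1530692444627) (nat_lit 1) (nat_lit 5) (nat_lit 3) (nat_lit 4) (nat_lit 1) (nat_lit 4) (nat_lit 261) (nat_lit 195) (nat_lit 144)) (XT.lf (nat_lit 0) (nat_lit 1767175291339) (nat_lit 152) (nat_lit 4995908970671) (nat_lit 0) (nat_lit 1762719471686) (nat_lit 1) (nat_lit 5) (nat_lit 3) (nat_lit 4) (nat_lit 1) (nat_lit 4) (nat_lit 262) (nat_lit 195) (nat_lit 143))) (XT.nd (nat_lit 78) (nat_lit 0) (nat_lit 0) (XT.lf (nat_lit 0) (nat_lit 2034006435510) (nat_lit 152) (nat_lit 5740741338268) (nat_lit 0) (nat_lit 2029550210034) (nat_lit 1) (nat_lit 5) (nat_lit 3) (nat_lit 4) (nat_lit 1) (nat_lit 4) (nat_lit 263) (nat_lit 195) (nat_lit 142)) (XT.lf (nat_lit 0) (nat_lit 2340861839440) (nat_lit 152)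 (nat_lit 6597299334879) (nat_lit 0) (nat_lit 2336405261074) (nat_lit 1) (nat_lit 5) (nat_lit 3) (nat_lit 4) (nat_lit 1) (nat_lit 4) (nat_lit 264) (nat_lit 195) (nat_lit 141))))) (XT.nd (nat_lit 390) (nat_lit 0) (nat_lit 0) (XT.nd (nat_lit 156) (nat_lit 0) (nat_lit 0) (XT.nd (nat_lit 78) (nat_lit 0) (nat_lit 0) (XT.lf (nat_lit 0) (nat_lit 2693745195813) (nat_lit 152) (nat_lit 7582341703917) (nat_lit 0) (nat_lit 2689288310587) (nat_lit 1) (nat_lit 5) (nat_lit 3) (nat_lit 4) (nat_lit 1) (nat_lit 4) (nat_lit 265) (nat_lit 195) (nat_lit 140)) (XT.lf (nat_lit 0) (nat_lit 3099560744211) (nat_lit 152) (nat_lit 8715141013472) (nat_lit 0) (nat_lit 3095103592151) (nat_lit 1) (nat_lit 5) (nat_lit 3) (nat_lit 4) (nat_lit 1) (nat_lit 4) (nat_lit 266) (nat_lit 195) (nat_lit 139))) (XT.nd (nat_lit 78) (nat_lit 0) (nat_lit 0) (XT.lf (nat_lit 0) (nat_lit 3566248354060) (nat_lit 152) (nat_lit 10017860728295)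 (nat_lit 0) (nat_lit 3561790969969) (nat_lit 1) (nat_lit 5) (nat_lit 3) (nat_lit 4) (nat_lit 1) (nat_lit 4) (nat_lit 267) (nat_lit 195) (nat_lit 138)) (XT.lf (nat_lit 0) (nat_lit 4102938869900) (nat_lit 152) (nat_lit 11515988842809) (nat_lit 0) (nat_lit 4098481284044) (nat_lit 1) (nat_lit 5) (nat_lit 3) (nat_lit 4) (nat_lit 1) (nat_lit 4) (nat_lit 268) (nat_lit 195) (nat_lit 137)))) (XT.nd (nat_lit 156) (nat_lit 0) (nat_lit 0) (XT.nd (nat_lit 78) (nat_lit 0) (nat_lit 0) (XT.lf (nat_lit 0) (nat_lit 5429905551996) (nat_lit 152) (nat_lit 15220111767729) (nat_lit 0) (nat_lit 5425447638127) (nat_lit 1) (nat_lit 5) (nat_lit 3) (nat_lit 4) (nat_lit 1) (nat_lit 4) (nat_lit 270) (nat_lit 195) (nat_lit 135)) (XT.lf (nat_lit 0) (nat_lit 6246144109857) (nat_lit 152) (nat_lit 17498578548406) (nat_lit 0) (nat_lit 6241686063324) (nat_lit 1) (nat_lit 5) (nat_lit 3) (nat_lit 4) (nat_lit 1) (nat_lit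 4) (nat_lit 271) (nat_lit 195) (nat_lit 134))) (XT.nd (nat_lit 78) (nat_lit 0) (nat_lit 0) (XT.lf (nat_lit 0) (nat_lit 7184818316758) (nat_lit 152) (nat_lit 20118815599166) (nat_lit 0) (nat_lit 7180360154865) (nat_lit 1) (nat_lit 5) (nat_lit 3) (nat_lit 4) (nat_lit 1) (nat_lit 4) (nat_lit 272) (nat_lit 195) (nat_lit 133)) (XT.lf (nat_lit 0) (nat_lit 8264293537615) (nat_lit 152) (nat_lit 23132088427524) (nat_lit 0) (nat_lit 8259835275409) (nat_lit 1) (nat_lit 5) (nat_lit 3) (nat_lit 4) (nat_lit 1) (nat_lit 4) (nat_lit 273) (nat_lit 195) (nat_lit 132))))))))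
noncomputable def xc20 : XT := (XT.nd (nat_lit 28158) (nat_lit 0) (nat_lit 0) (XT.nd (nat_lit 26988) (nat_lit 0) (nat_lit 0) (XT.nd (nat_lit 26442) (nat_lit 0) (nat_lit 228) (XT.nd (nat_lit 26130) (nat_lit 0) (nat_lit 532) (XT.nd (nat_lit 78) (nat_lit 0) (nat_lit 0) (XT.lf (nat_lit 0) (nat_lit 9505689939794) (nat_lit 152) (nat_lit 26597352371426) (nat_lit 0) (nat_lit 9501231590359) (nat_lit 1) (nat_lit 5) (nat_lit 3) (nat_lit 4) (nat_lit 1) (nat_lit 4) (nat_lit 274) (nat_lit 195) (nat_lit 131)) (XT.nd (nat_lit 78) (nat_lit 0) (nat_lit 0) (XT.lf (nat_lit 0) (nat_lit 10933295713772) (nat_lit 152) (nat_lit 30582406073252) (nat_lit 0) (nat_lit 10928837288485) (nat_lit 1) (nat_lit 5) (nat_lit 3) (nat_lit 4) (nat_lit 1) (nat_lit 4) (nat_lit 275) (nat_lit 195) (nat_lit 130)) (XT.lf (nat_lit 0) (nat_lit 12575042276865) (nat_lit 152) (nat_lit 35165217974995) (nat_lit 0) (nat_lit 12570583785621)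 (nat_lit 1) (nat_lit 5) (nat_lit 3) (nat_lit 4) (nat_lit 1) (nat_lit 4) (nat_lit 276) (nat_lit 195) (nat_lit 129)))) (XT.nd (nat_lit 156) (nat_lit 228) (nat_lit 0) (XT.nd (nat_lit 78) (nat_lit 0) (nat_lit 0) (XT.lf (nat_lit 0) (nat_lit 709740965) (nat_lit 228) (nat_lit 2734260635) (nat_lit 0) (nat_lit 709740965) (nat_lit 11) (nat_lit 5) (nat_lit 14) (nat_lit 4) (nat_lit 11) (nat_lit 4) (nat_lit 208) (nat_lit 196) (nat_lit 196)) (XT.lf (nat_lit 0) (nat_lit 4567277414) (nat_lit 228) (nat_lit 756633243) (nat_lit 0) (nat_lit 3550055920) (nat_lit 11) (nat_lit 5) (nat_lit 14) (nat_lit 4) (nat_lit 11) (nat_lit 4) (nat_lit 209) (nat_lit 196) (nat_lit 195))) (XT.nd (nat_lit 78) (nat_lit 76) (nat_lit 0) (XT.lf (nat_lit 0) (nat_lit 4601577433) (nat_lit 152) (nat_lit 3427389793) (nat_lit 152) (nat_lit 1525627869) (nat_lit 9) (nat_lit 4) (nat_lit 11) (nat_lit 5) (nat_lit 11) (nat_lit 4) (nat_lit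 210) (nat_lit 196) (nat_lit 194)) (XT.lf (nat_lit 0) (nat_lit 1223587991) (nat_lit 228) (nat_lit 40213332) (nat_lit 76) (nat_lit 9112251210) (nat_lit 8) (nat_lit 5) (nat_lit 11) (nat_lit 5) (nat_lit 9) (nat_lit 4) (nat_lit 211) (nat_lit 196) (nat_lit 193))))) (XT.nd (nat_lit 234) (nat_lit 152) (nat_lit 0) (XT.nd (nat_lit 78) (nat_lit 76) (nat_lit 0) (XT.lf (nat_lit 0) (nat_lit 4224476936) (nat_lit 152) (nat_lit 5769272522) (nat_lit 0) (nat_lit 1320331581) (nat_lit 7) (nat_lit 5) (nat_lit 9) (nat_lit 4) (nat_lit 7) (nat_lit 4) (nat_lit 212) (nat_lit 196) (nat_lit 192)) (XT.nd (nat_lit 78) (nat_lit 76) (nat_lit 0) (XT.lf (nat_lit 0) (nat_lit 7457595119) (nat_lit 152) (nat_lit 923300094) (nat_lit 0) (nat_lit 4047710903) (nat_lit 7) (nat_lit 5) (nat_lit 9) (nat_lit 4) (nat_lit 7) (nat_lit 4) (nat_lit 213) (nat_lit 196) (nat_lit 191)) (XT.lf (nat_lit 0) (nat_lit 4681453525) (nat_lit 76)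 (nat_lit 6444348445) (nat_lit 76) (nat_lit 2594691305) (nat_lit 6) (nat_lit 4) (nat_lit 7) (nat_lit 5) (nat_lit 7) (nat_lit 4) (nat_lit 214) (nat_lit 196) (nat_lit 190)))) (XT.nd (nat_lit 156) (nat_lit 0) (nat_lit 0) (XT.nd (nat_lit 78) (nat_lit 152) (nat_lit 0) (XT.lf (nat_lit 0) (nat_lit 10863291492) (nat_lit 76) (nat_lit 4302061277) (nat_lit 76) (nat_lit 69992900) (nat_lit 6) (nat_lit 4) (nat_lit 7) (nat_lit 5) (nat_lit 7) (nat_lit 4) (nat_lit 215) (nat_lit 196) (nat_lit 189)) (XT.lf (nat_lit 0) (nat_lit 588380930) (nat_lit 76) (nat_lit 1808354333) (nat_lit 152) (nat_lit 14592531877) (nat_lit 4) (nat_lit 5) (nat_lit 5) (nat_lit 5) (nat_lit 6) (nat_lit 4) (nat_lit 216) (nat_lit 196) (nat_lit 188))) (XT.nd (nat_lit 78) (nat_lit 0) (nat_lit 0) (XT.lf (nat_lit 0) (nat_lit 5309109818) (nat_lit 152) (nat_lit 12597340239) (nat_lit 0) (nat_lit 1088450928) (nat_lit 4) (nat_lit 5) (nat_lit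 6) (nat_lit 4) (nat_lit 4) (nat_lit 4) (nat_lit 217) (nat_lit 196) (nat_lit 187)) (XT.lf (nat_lit 0) (nat_lit 8570116351) (nat_lit 152) (nat_lit 8615027697) (nat_lit 0) (nat_lit 4130812596) (nat_lit 4) (nat_lit 5) (nat_lit 6) (nat_lit 4) (nat_lit 4) (nat_lit 4) (nat_lit 218) (nat_lit 196) (nat_lit 186)))))) (XT.nd (nat_lit 546) (nat_lit 152) (nat_lit 0) (XT.nd (nat_lit 234) (nat_lit 0) (nat_lit 0) (XT.nd (nat_lit 78) (nat_lit 76) (nat_lit 0) (XT.lf (nat_lit 0) (nat_lit 12168677068) (nat_lit 152) (nat_lit 4301153675) (nat_lit 0) (nat_lit 7539247342) (nat_lit 4) (nat_lit 5) (nat_lit 6) (nat_lit 4) (nat_lit 4) (nat_lit 4) (nat_lit 219) (nat_lit 196) (nat_lit 185)) (XT.nd (nat_lit 78) (nat_lit 0) (nat_lit 0) (XT.lf (nat_lit 0) (nat_lit 470577796) (nat_lit 76) (nat_lit 15724106418) (nat_lit 76) (nat_lit 10929349761) (nat_lit 3) (nat_lit 4) (nat_lit 4) (nat_lit 5) (nat_lit 4) (nat_lit 4)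 (nat_lit 220) (nat_lit 196) (nat_lit 184)) (XT.lf (nat_lit 0) (nat_lit 6220847621) (nat_lit 76) (nat_lit 14704813799) (nat_lit 76) (nat_lit 9766294594) (nat_lit 3) (nat_lit 4) (nat_lit 4) (nat_lit 5) (nat_lit 4) (nat_lit 4) (nat_lit 221) (nat_lit 196) (nat_lit 183)))) (XT.nd (nat_lit 156) (nat_lit 0) (nat_lit 0) (XT.nd (nat_lit 78) (nat_lit 0) (nat_lit 0) (XT.lf (nat_lit 0) (nat_lit 12641821059) (nat_lit 76) (nat_lit 13616843238) (nat_lit 76) (nat_lit 8553313121) (nat_lit 3) (nat_lit 4) (nat_lit 4) (nat_lit 5) (nat_lit 4) (nat_lit 4) (nat_lit 222) (nat_lit 196) (nat_lit 182)) (XT.lf (nat_lit 0) (nat_lit 19859125852) (nat_lit 76) (nat_lit 12438908355) (nat_lit 76) (nat_lit 7266673097) (nat_lit 3) (nat_lit 4) (nat_lit 4) (nat_lit 5) (nat_lit 4) (nat_lit 4) (nat_lit 223) (nat_lit 196) (nat_lit 181))) (XT.nd (nat_lit 78) (nat_lit 0) (nat_lit 0) (XT.lf (nat_lit 0) (nat_lit 28013970136)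 (nat_lit 76) (nat_lit 11147962598) (nat_lit 76) (nat_lit 5881201130) (nat_lit 3) (nat_lit 4) (nat_lit 4) (nat_lit 5) (nat_lit 4) (nat_lit 4) (nat_lit 224) (nat_lit 196) (nat_lit 180)) (XT.lf (nat_lit 0) (nat_lit 37265905213) (nat_lit 76) (nat_lit 9718748331) (nat_lit 76) (nat_lit 4369790160) (nat_lit 3) (nat_lit 4) (nat_lit 4) (nat_lit 5) (nat_lit 4) (nat_lit 4) (nat_lit 225) (nat_lit 196) (nat_lit 179))))) (XT.nd (nat_lit 312) (nat_lit 0) (nat_lit 0) (XT.nd (nat_lit 156) (nat_lit 152) (nat_lit 0) (XT.nd (nat_lit 78) (nat_lit 0) (nat_lit 0) (XT.lf (nat_lit 0) (nat_lit 47795947204) (nat_lit 76) (nat_lit 8123302668) (nat_lit 76) (nat_lit 2702869103) (nat_lit 3) (nat_lit 4) (nat_lit 4) (nat_lit 5) (nat_lit 4) (nat_lit 4) (nat_lit 226) (nat_lit 196) (nat_lit 178)) (XT.lf (nat_lit 0) (nat_lit 59810118670) (nat_lit 76) (nat_lit 6330410367) (nat_lit 76) (nat_lit 847824285) (nat_lit 3) (nat_lit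 4) (nat_lit 4) (nat_lit 5) (nat_lit 4) (nat_lit 4) (nat_lit 227) (nat_lit 196) (nat_lit 177))) (XT.nd (nat_lit 78) (nat_lit 76) (nat_lit 0) (XT.lf (nat_lit 0) (nat_lit 1121989658) (nat_lit 152) (nat_lit 3124353983) (nat_lit 76) (nat_lit 72362840368) (nat_lit 2) (nat_lit 5) (nat_lit 4) (nat_lit 5) (nat_lit 3) (nat_lit 4) (nat_lit 228) (nat_lit 196) (nat_lit 176)) (XT.lf (nat_lit 0) (nat_lit 1559539692) (nat_lit 76) (nat_lit 1762863877) (nat_lit 152) (nat_lit 84341641540) (nat_lit 1) (nat_lit 5) (nat_lit 2) (nat_lit 5) (nat_lit 3) (nat_lit 4) (nat_lit 229) (nat_lit 196) (nat_lit 175)))) (XT.nd (nat_lit 156) (nat_lit 0) (nat_lit 0) (XT.nd (nat_lit 78) (nat_lit 0) (nat_lit 0) (XT.lf (nat_lit 0) (nat_lit 6027764688) (nat_lit 152) (nat_lit 93186456103) (nat_lit 0) (nat_lit 1136900105) (nat_lit 1) (nat_lit 5) (nat_lit 3) (nat_lit 4) (nat_lit 1) (nat_lit 4) (nat_lit 230) (nat_lit 196) (nat_lit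 174)) (XT.lf (nat_lit 0) (nat_lit 9186810690) (nat_lit 152) (nat_lit 101482409750) (nat_lit 0) (nat_lit 4265045322) (nat_lit 1) (nat_lit 5) (nat_lit 3) (nat_lit 4) (nat_lit 1) (nat_lit 4) (nat_lit 231) (nat_lit 196) (nat_lit 173))) (XT.nd (nat_lit 78) (nat_lit 0) (nat_lit 0) (XT.lf (nat_lit 0) (nat_lit 12788352565) (nat_lit 152) (nat_lit 111081682062) (nat_lit 0) (nat_lit 7839716948) (nat_lit 1) (nat_lit 5) (nat_lit 3) (nat_lit 4) (nat_lit 1) (nat_lit 4) (nat_lit 232) (nat_lit 196) (nat_lit 172)) (XT.lf (nat_lit 0) (nat_lit 16902855260) (nat_lit 152) (nat_lit 122172084887) (nat_lit 0) (nat_lit 11930854210) (nat_lit 1) (nat_lit 5) (nat_lit 3) (nat_lit 4) (nat_lit 1) (nat_lit 4) (nat_lit 233) (nat_lit 196) (nat_lit 171))))))) (XT.nd (nat_lit 1170) (nat_lit 0) (nat_lit 0) (XT.nd (nat_lit 546) (nat_lit 0) (nat_lit 0) (XT.nd (nat_lit 234) (nat_lit 0) (nat_lit 0) (XT.nd (nat_lit 78) (nat_lit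 0) (nat_lit 0) (XT.lf (nat_lit 0) (nat_lit 21610819916) (nat_lit 152) (nat_lit 134970604369) (nat_lit 0) (nat_lit 16618501098) (nat_lit 1) (nat_lit 5) (nat_lit 3) (nat_lit 4) (nat_lit 1) (nat_lit 4) (nat_lit 234) (nat_lit 196) (nat_lit 170)) (XT.nd (nat_lit 78) (nat_lit 0) (nat_lit 0) (XT.lf (nat_lit 0) (nat_lit 27004358885) (nat_lit 152) (nat_lit 149727646323) (nat_lit 0) (nat_lit 21994372442) (nat_lit 1) (nat_lit 5) (nat_lit 3) (nat_lit 4) (nat_lit 1) (nat_lit 4) (nat_lit 235) (nat_lit 196) (nat_lit 169)) (XT.lf (nat_lit 0) (nat_lit 33188997929) (nat_lit 152) (nat_lit 166731935483) (nat_lit 0) (nat_lit 28163648335) (nat_lit 1) (nat_lit 5) (nat_lit 3) (nat_lit 4) (nat_lit 1) (nat_lit 4) (nat_lit 236) (nat_lit 196) (nat_lit 168)))) (XT.nd (nat_lit 156) (nat_lit 0) (nat_lit 0) (XT.nd (nat_lit 78) (nat_lit 0) (nat_lit 0) (XT.lf (nat_lit 0) (nat_lit 40285740856) (nat_lit 152) (nat_lit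 186316164462) (nat_lit 0) (nat_lit 35247032000) (nat_lit 1) (nat_lit 5) (nat_lit 3) (nat_lit 4) (nat_lit 1) (nat_lit 4) (nat_lit 237) (nat_lit 196) (nat_lit 167)) (XT.lf (nat_lit 0) (nat_lit 48433436984) (nat_lit 152) (nat_lit 208863502959) (nat_lit 0) (nat_lit 43383111377) (nat_lit 1) (nat_lit 5) (nat_lit 3) (nat_lit 4) (nat_lit 1) (nat_lit 4) (nat_lit 238) (nat_lit 196) (nat_lit 166))) (XT.nd (nat_lit 78) (nat_lit 0) (nat_lit 0) (XT.lf (nat_lit 0) (nat_lit 57791497759) (nat_lit 152) (nat_lit 234815094553) (nat_lit 0) (nat_lit 52731070630) (nat_lit 1) (nat_lit 5) (nat_lit 3) (nat_lit 4) (nat_lit 1) (nat_lit 4) (nat_lit 239) (nat_lit 196) (nat_lit 165)) (XT.lf (nat_lit 0) (nat_lit 68543015673) (nat_lit 152) (nat_lit 264678687775) (nat_lit 0) (nat_lit 63473804613) (nat_lit 1) (nat_lit 5) (nat_lit 3) (nat_lit 4) (nat_lit 1) (nat_lit 4) (nat_lit 240) (nat_lit 196) (nat_lit 164))))) (XT.nd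 (nat_lit 312) (nat_lit 0) (nat_lit 0) (XT.nd (nat_lit 156) (nat_lit 0) (nat_lit 0) (XT.nd (nat_lit 78) (nat_lit 0) (nat_lit 0) (XT.lf (nat_lit 0) (nat_lit 80898346514) (nat_lit 152) (nat_lit 299038570317) (nat_lit 0) (nat_lit 75821497252) (nat_lit 1) (nat_lit 5) (nat_lit 3) (nat_lit 4) (nat_lit 1) (nat_lit 4) (nat_lit 241) (nat_lit 196) (nat_lit 163)) (XT.lf (nat_lit 0) (nat_lit 95099225013) (nat_lit 152) (nat_lit 338567000753) (nat_lit 0) (nat_lit 90015733837) (nat_lit 1) (nat_lit 5) (nat_lit 3) (nat_lit 4) (nat_lit 1) (nat_lit 4) (nat_lit 242) (nat_lit 196) (nat_lit 162))) (XT.nd (nat_lit 78) (nat_lit 0) (nat_lit 0) (XT.lf (nat_lit 0) (nat_lit 111423494447) (nat_lit 152) (nat_lit 384037361416) (nat_lit 0) (nat_lit 106334227693) (nat_lit 1) (nat_lit 5) (nat_lit 3) (nat_lit 4) (nat_lit 1) (nat_lit 4) (nat_lit 243) (nat_lit 196) (nat_lit 161)) (XT.lf (nat_lit 0) (nat_lit 130190542695)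 (nat_lit 152) (nat_lit 436339289798) (nat_lit 0) (nat_lit 125096253700) (nat_lit 1) (nat_lit 5) (nat_lit 3) (nat_lit 4) (nat_lit 1) (nat_lit 4) (nat_lit 244) (nat_lit 196) (nat_lit 160)))) (XT.nd (nat_lit 156) (nat_lit 0) (nat_lit 0) (XT.nd (nat_lit 78) (nat_lit 0) (nat_lit 0) (XT.lf (nat_lit 0) (nat_lit 151767551137) (nat_lit 152) (nat_lit 496496084497) (nat_lit 0) (nat_lit 146668894975) (nat_lit 1) (nat_lit 5) (nat_lit 3) (nat_lit 4) (nat_lit 1) (nat_lit 4) (nat_lit 245) (nat_lit 196) (nat_lit 159)) (XT.lf (nat_lit 0) (nat_lit 176576678633) (nat_lit 152) (nat_lit 565684726279) (nat_lit 0) (nat_lit 171474224935) (nat_lit 1) (nat_lit 5) (nat_lit 3) (nat_lit 4) (nat_lit 1) (nat_lit 4) (nat_lit 246) (nat_lit 196) (nat_lit 158))) (XT.nd (nat_lit 78) (nat_lit 0) (nat_lit 0) (XT.lf (nat_lit 0) (nat_lit 205103321156) (nat_lit 152) (nat_lit 645258905962) (nat_lit 0) (nat_lit 199997565253)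 (nat_lit 1) (nat_lit 5) (nat_lit 3) (nat_lit 4) (nat_lit 1) (nat_lit 4) (nat_lit 247) (nat_lit 196) (nat_lit 157)) (XT.lf (nat_lit 0) (nat_lit 237905608668) (nat_lit 152) (nat_lit 736775509670) (nat_lit 0) (nat_lit 232796981282) (nat_lit 1) (nat_lit 5) (nat_lit 3) (nat_lit 4) (nat_lit 1) (nat_lit 4) (nat_lit 248) (nat_lit 196) (nat_lit 156)))))) (XT.nd (nat_lit 546) (nat_lit 0) (nat_lit 0) (XT.nd (nat_lit 234) (nat_lit 0) (nat_lit 0) (XT.nd (nat_lit 78) (nat_lit 0) (nat_lit 0) (XT.lf (nat_lit 0) (nat_lit 275625325055) (nat_lit 152) (nat_lit 842025079649) (nat_lit 0) (nat_lit 270514200727) (nat_lit 1) (nat_lit 5) (nat_lit 3) (nat_lit 4) (nat_lit 1) (nat_lit 4) (nat_lit 249) (nat_lit 196) (nat_lit 155)) (XT.nd (nat_lit 78) (nat_lit 0) (nat_lit 0) (XT.lf (nat_lit 0) (nat_lit 319000464769) (nat_lit 152) (nat_lit 963066846617) (nat_lit 0) (nat_lit 313887169188) (nat_lit 1) (nat_lit 5)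 (nat_lit 3) (nat_lit 4) (nat_lit 1) (nat_lit 4) (nat_lit 250) (nat_lit 196) (nat_lit 154)) (XT.lf (nat_lit 0) (nat_lit 368879671847) (nat_lit 152) (nat_lit 1102269019058) (nat_lit 0) (nat_lit 363764488219) (nat_lit 1) (nat_lit 5) (nat_lit 3) (nat_lit 4) (nat_lit 1) (nat_lit 4) (nat_lit 251) (nat_lit 196) (nat_lit 153)))) (XT.nd (nat_lit 156) (nat_lit 0) (nat_lit 0) (XT.nd (nat_lit 78) (nat_lit 0) (nat_lit 0) (XT.lf (nat_lit 0) (nat_lit 426238843819) (nat_lit 152) (nat_lit 1262355117736) (nat_lit 0) (nat_lit 421122018412) (nat_lit 1) (nat_lit 5) (nat_lit 3) (nat_lit 4) (nat_lit 1) (nat_lit 4) (nat_lit 252) (nat_lit 196) (nat_lit 152)) (XT.lf (nat_lit 0) (nat_lit 492200225355) (nat_lit 152) (nat_lit 1446457261973) (nat_lit 0) (nat_lit 487081972313) (nat_lit 1) (nat_lit 5) (nat_lit 3) (nat_lit 4) (nat_lit 1) (nat_lit 4) (nat_lit 253) (nat_lit 196) (nat_lit 151))) (XT.nd (nat_lit 78)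 (nat_lit 0) (nat_lit 0) (XT.lf (nat_lit 0) (nat_lit 568054365222) (nat_lit 152) (nat_lit 1658177450245) (nat_lit 0) (nat_lit 562934870759) (nat_lit 1) (nat_lit 5) (nat_lit 3) (nat_lit 4) (nat_lit 1) (nat_lit 4) (nat_lit 254) (nat_lit 196) (nat_lit 150)) (XT.lf (nat_lit 0) (nat_lit 655285366159) (nat_lit 152) (nat_lit 1901658034060) (nat_lit 0) (nat_lit 650164792199) (nat_lit 1) (nat_lit 5) (nat_lit 3) (nat_lit 4) (nat_lit 1) (nat_lit 4) (nat_lit 255) (nat_lit 196) (nat_lit 149))))) (XT.nd (nat_lit 312) (nat_lit 0) (nat_lit 0) (XT.nd (nat_lit 156) (nat_lit 0) (nat_lit 0) (XT.nd (nat_lit 78) (nat_lit 0) (nat_lit 0) (XT.lf (nat_lit 0) (nat_lit 755599921661) (nat_lit 152) (nat_lit 2181662763972) (nat_lit 0) (nat_lit 750478409008) (nat_lit 1) (nat_lit 5) (nat_lit 3) (nat_lit 4) (nat_lit 1) (nat_lit 4) (nat_lit 256) (nat_lit 196) (nat_lit 148)) (XT.lf (nat_lit 0) (nat_lit 870960707814)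 (nat_lit 152) (nat_lit 2503669993391) (nat_lit 0) (nat_lit 865838378907) (nat_lit 1) (nat_lit 5) (nat_lit 3) (nat_lit 4) (nat_lit 1) (nat_lit 4) (nat_lit 257) (nat_lit 196) (nat_lit 147))) (XT.nd (nat_lit 78) (nat_lit 0) (nat_lit 0) (XT.lf (nat_lit 0) (nat_lit 1003624783478) (nat_lit 152) (nat_lit 2873979863764) (nat_lit 0) (nat_lit 998501744784) (nat_lit 1) (nat_lit 5) (nat_lit 3) (nat_lit 4) (nat_lit 1) (nat_lit 4) (nat_lit 258) (nat_lit 196) (nat_lit 146)) (XT.lf (nat_lit 0) (nat_lit 1156187750134) (nat_lit 152) (nat_lit 3299837568205) (nat_lit 0) (nat_lit 1151064094234) (nat_lit 1) (nat_lit 5) (nat_lit 3) (nat_lit 4) (nat_lit 1) (nat_lit 4) (nat_lit 259) (nat_lit 196) (nat_lit 145)))) (XT.nd (nat_lit 156) (nat_lit 0) (nat_lit 0) (XT.nd (nat_lit 78) (nat_lit 0) (nat_lit 0) (XT.lf (nat_lit 0) (nat_lit 1331634535389) (nat_lit 152) (nat_lit 3789575105280) (nat_lit 0) (nat_lit 1326510342788)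 (nat_lit 1) (nat_lit 5) (nat_lit 3) (nat_lit 4) (nat_lit 1) (nat_lit 4) (nat_lit 260) (nat_lit 196) (nat_lit 144)) (XT.lf (nat_lit 0) (nat_lit 1533397793738) (nat_lit 152) (nat_lit 4352774296368) (nat_lit 0) (nat_lit 1528273134441) (nat_lit 1) (nat_lit 5) (nat_lit 3) (nat_lit 4) (nat_lit 1) (nat_lit 4) (nat_lit 261) (nat_lit 196) (nat_lit 143))) (XT.nd (nat_lit 78) (nat_lit 0) (nat_lit 0) (XT.lf (nat_lit 0) (nat_lit 1765425067192) (nat_lit 152) (nat_lit 5000454256074) (nat_lit 0) (nat_lit 1760300002072) (nat_lit 1) (nat_lit 5) (nat_lit 3) (nat_lit 4) (nat_lit 1) (nat_lit 4) (nat_lit 262) (nat_lit 196) (nat_lit 142)) (XT.lf (nat_lit 0) (nat_lit 2032256019797) (nat_lit 152) (nat_lit 5745286983613) (nat_lit 0) (nat_lit 2027130601787) (nat_lit 1) (nat_lit 5) (nat_lit 3) (nat_lit 4) (nat_lit 1) (nat_lit 4) (nat_lit 263) (nat_lit 196) (nat_lit 141))))))))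
noncomputable def xc21 : XT := (XT.nd (nat_lit 28158) (nat_lit 0) (nat_lit 0) (XT.nd (nat_lit 26988) (nat_lit 0) (nat_lit 152) (XT.nd (nat_lit 624) (nat_lit 0) (nat_lit 0) (XT.nd (nat_lit 234) (nat_lit 0) (nat_lit 0) (XT.nd (nat_lit 78) (nat_lit 0) (nat_lit 0) (XT.lf (nat_lit 0) (nat_lit 2339111257147) (nat_lit 152) (nat_lit 6601845293217) (nat_lit 0) (nat_lit 2333985532277) (nat_lit 1) (nat_lit 5) (nat_lit 3) (nat_lit 4) (nat_lit 1) (nat_lit 4) (nat_lit 264) (nat_lit 196) (nat_lit 140)) (XT.nd (nat_lit 78) (nat_lit 0) (nat_lit 0) (XT.lf (nat_lit 0) (nat_lit 2691994468669) (nat_lit 152) (nat_lit 7586887934423) (nat_lit 0) (nat_lit 2686868476964) (nat_lit 1) (nat_lit 5) (nat_lit 3) (nat_lit 4) (nat_lit 1) (nat_lit 4) (nat_lit 265) (nat_lit 196) (nat_lit 139)) (XT.lf (nat_lit 0) (nat_lit 3097809891109) (nat_lit 152) (nat_lit 8719687480646) (nat_lit 0) (nat_lit 3092683667374) (nat_lit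 1) (nat_lit 5) (nat_lit 3) (nat_lit 4) (nat_lit 1) (nat_lit 4) (nat_lit 266) (nat_lit 196) (nat_lit 138)))) (XT.nd (nat_lit 234) (nat_lit 0) (nat_lit 0) (XT.nd (nat_lit 78) (nat_lit 0) (nat_lit 0) (XT.lf (nat_lit 0) (nat_lit 3564497391430) (nat_lit 152) (nat_lit 10022407401268) (nat_lit 0) (nat_lit 3559370965929) (nat_lit 1) (nat_lit 5) (nat_lit 3) (nat_lit 4) (nat_lit 1) (nat_lit 4) (nat_lit 267) (nat_lit 196) (nat_lit 137)) (XT.lf (nat_lit 0) (nat_lit 4101187812027) (nat_lit 152) (nat_lit 11520535694736) (nat_lit 0) (nat_lit 4096061211078) (nat_lit 1) (nat_lit 5) (nat_lit 3) (nat_lit 4) (nat_lit 1) (nat_lit 4) (nat_lit 268) (nat_lit 196) (nat_lit 136))) (XT.nd (nat_lit 78) (nat_lit 0) (nat_lit 0) (XT.lf (nat_lit 0) (nat_lit 5428154339287) (nat_lit 152) (nat_lit 15224658910584) (nat_lit 0) (nat_lit 5423027453109) (nat_lit 1) (nat_lit 5) (nat_lit 3) (nat_lit 4) (nat_lit 1) (nat_lit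 4) (nat_lit 270) (nat_lit 196) (nat_lit 134)) (XT.lf (nat_lit 0) (nat_lit 6244392834525) (nat_lit 152) (nat_lit 17503125808927) (nat_lit 0) (nat_lit 6239265832987) (nat_lit 1) (nat_lit 5) (nat_lit 3) (nat_lit 4) (nat_lit 1) (nat_lit 4) (nat_lit 271) (nat_lit 196) (nat_lit 133))))) (XT.nd (nat_lit 312) (nat_lit 0) (nat_lit 0) (XT.nd (nat_lit 156) (nat_lit 0) (nat_lit 0) (XT.nd (nat_lit 78) (nat_lit 0) (nat_lit 0) (XT.lf (nat_lit 0) (nat_lit 7183066986970) (nat_lit 152) (nat_lit 20123362962005) (nat_lit 0) (nat_lit 7177939885120) (nat_lit 1) (nat_lit 5) (nat_lit 3) (nat_lit 4) (nat_lit 1) (nat_lit 4) (nat_lit 272) (nat_lit 196) (nat_lit 132)) (XT.lf (nat_lit 0) (nat_lit 8262542160476) (nat_lit 152) (nat_lit 23136635879335) (nat_lit 0) (nat_lit 8257414971396) (nat_lit 1) (nat_lit 5) (nat_lit 3) (nat_lit 4) (nat_lit 1) (nat_lit 4) (nat_lit 273) (nat_lit 196) (nat_lit 131))) (XT.nd (nat_lit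 78) (nat_lit 0) (nat_lit 0) (XT.lf (nat_lit 0) (nat_lit 9503938521479) (nat_lit 152) (nat_lit 26601899900604) (nat_lit 0) (nat_lit 9498811256548) (nat_lit 1) (nat_lit 5) (nat_lit 3) (nat_lit 4) (nat_lit 1) (nat_lit 4) (nat_lit 274) (nat_lit 196) (nat_lit 130)) (XT.lf (nat_lit 0) (nat_lit 10931544259651) (nat_lit 152) (nat_lit 30586953669706) (nat_lit 0) (nat_lit 10926416928763) (nat_lit 1) (nat_lit 5) (nat_lit 3) (nat_lit 4) (nat_lit 1) (nat_lit 4) (nat_lit 275) (nat_lit 196) (nat_lit 129)))) (XT.nd (nat_lit 25896) (nat_lit 0) (nat_lit 760) (XT.nd (nat_lit 25818) (nat_lit 0) (nat_lit 988) (XT.lf (nat_lit 0) (nat_lit 12573290791610) (nat_lit 152) (nat_lit 35169765629950) (nat_lit 0) (nat_lit 12568163403367) (nat_lit 1) (nat_lit 5) (nat_lit 3) (nat_lit 4) (nat_lit 1) (nat_lit 4) (nat_lit 276) (nat_lit 196) (nat_lit 128)) (XT.lf (nat_lit 0) (nat_lit 506007901) (nat_lit 228) (nat_lit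 1606893227) (nat_lit 228) (nat_lit 1606893227) (nat_lit 14) (nat_lit 4) (nat_lit 17) (nat_lit 5) (nat_lit 17) (nat_lit 4) (nat_lit 206) (nat_lit 197) (nat_lit 197))) (XT.nd (nat_lit 78) (nat_lit 228) (nat_lit 0) (XT.lf (nat_lit 0) (nat_lit 5780113172) (nat_lit 228) (nat_lit 1705117676) (nat_lit 228) (nat_lit 359842250) (nat_lit 14) (nat_lit 4) (nat_lit 17) (nat_lit 5) (nat_lit 17) (nat_lit 4) (nat_lit 207) (nat_lit 197) (nat_lit 196)) (XT.lf (nat_lit 0) (nat_lit 2402710380) (nat_lit 228) (nat_lit 5719983371) (nat_lit 0) (nat_lit 215684168) (nat_lit 11) (nat_lit 5) (nat_lit 14) (nat_lit 4) (nat_lit 11) (nat_lit 4) (nat_lit 208) (nat_lit 197) (nat_lit 195)))))) (XT.nd (nat_lit 546) (nat_lit 228) (nat_lit 0) (XT.nd (nat_lit 234) (nat_lit 152) (nat_lit 0) (XT.nd (nat_lit 78) (nat_lit 228) (nat_lit 0) (XT.lf (nat_lit 0) (nat_lit 5388265630) (nat_lit 228) (nat_lit 1226758040) (nat_lit 0)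 (nat_lit 2316698989) (nat_lit 11) (nat_lit 5) (nat_lit 14) (nat_lit 4) (nat_lit 11) (nat_lit 4) (nat_lit 209) (nat_lit 197) (nat_lit 194)) (XT.nd (nat_lit 78) (nat_lit 76) (nat_lit 0) (XT.lf (nat_lit 0) (nat_lit 3876785139) (nat_lit 152) (nat_lit 4802079735) (nat_lit 152) (nat_lit 961347503) (nat_lit 9) (nat_lit 4) (nat_lit 11) (nat_lit 5) (nat_lit 11) (nat_lit 4) (nat_lit 210) (nat_lit 197) (nat_lit 193)) (XT.lf (nat_lit 0) (nat_lit 1599499338) (nat_lit 228) (nat_lit 1070648299) (nat_lit 76) (nat_lit 7810398977) (nat_lit 8) (nat_lit 5) (nat_lit 11) (nat_lit 5) (nat_lit 9) (nat_lit 4) (nat_lit 211) (nat_lit 197) (nat_lit 192)))) (XT.nd (nat_lit 156) (nat_lit 76) (nat_lit 0) (XT.nd (nat_lit 78) (nat_lit 0) (nat_lit 0) (XT.lf (nat_lit 0) (nat_lit 4294968619) (nat_lit 76) (nat_lit 70677978) (nat_lit 152) (nat_lit 7089584742) (nat_lit 7) (nat_lit 5) (nat_lit 8) (nat_lit 5) (nat_lit 9)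 (nat_lit 4) (nat_lit 212) (nat_lit 197) (nat_lit 191)) (XT.lf (nat_lit 0) (nat_lit 7482476265) (nat_lit 152) (nat_lit 2490382290) (nat_lit 0) (nat_lit 2615597632) (nat_lit 7) (nat_lit 5) (nat_lit 9) (nat_lit 4) (nat_lit 7) (nat_lit 4) (nat_lit 213) (nat_lit 197) (nat_lit 190))) (XT.nd (nat_lit 78) (nat_lit 0) (nat_lit 0) (XT.lf (nat_lit 0) (nat_lit 2790343247) (nat_lit 76) (nat_lit 8183457467) (nat_lit 76) (nat_lit 2934167597) (nat_lit 6) (nat_lit 4) (nat_lit 7) (nat_lit 5) (nat_lit 7) (nat_lit 4) (nat_lit 214) (nat_lit 197) (nat_lit 189)) (XT.lf (nat_lit 0) (nat_lit 8823588681) (nat_lit 76) (nat_lit 6097892056) (nat_lit 76) (nat_lit 516070675) (nat_lit 6) (nat_lit 4) (nat_lit 7) (nat_lit 5) (nat_lit 7) (nat_lit 4) (nat_lit 215) (nat_lit 197) (nat_lit 188))))) (XT.nd (nat_lit 312) (nat_lit 76) (nat_lit 0) (XT.nd (nat_lit 156) (nat_lit 0) (nat_lit 0) (XT.nd (nat_lit 78) (nat_lit 76)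 (nat_lit 0) (XT.lf (nat_lit 0) (nat_lit 1881562399) (nat_lit 152) (nat_lit 1825620058) (nat_lit 76) (nat_lit 13504100703) (nat_lit 5) (nat_lit 5) (nat_lit 7) (nat_lit 5) (nat_lit 6) (nat_lit 4) (nat_lit 216) (nat_lit 197) (nat_lit 187)) (XT.lf (nat_lit 0) (nat_lit 3730142355) (nat_lit 76) (nat_lit 852445164) (nat_lit 152) (nat_lit 14666656601) (nat_lit 4) (nat_lit 5) (nat_lit 5) (nat_lit 5) (nat_lit 6) (nat_lit 4) (nat_lit 217) (nat_lit 197) (nat_lit 186))) (XT.nd (nat_lit 78) (nat_lit 0) (nat_lit 0) (XT.lf (nat_lit 0) (nat_lit 7737785979) (nat_lit 152) (nat_lit 11625112404) (nat_lit 0) (nat_lit 2223815823) (nat_lit 4) (nat_lit 5) (nat_lit 6) (nat_lit 4) (nat_lit 4) (nat_lit 4) (nat_lit 218) (nat_lit 197) (nat_lit 185)) (XT.lf (nat_lit 0) (nat_lit 11275033532) (nat_lit 152) (nat_lit 7418735007) (nat_lit 0) (nat_lit 5595736446) (nat_lit 4) (nat_lit 5) (nat_lit 6) (nat_lit 4) (nat_lit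 4) (nat_lit 4) (nat_lit 219) (nat_lit 197) (nat_lit 184)))) (XT.nd (nat_lit 156) (nat_lit 0) (nat_lit 0) (XT.nd (nat_lit 78) (nat_lit 76) (nat_lit 0) (XT.lf (nat_lit 0) (nat_lit 15228239262) (nat_lit 152) (nat_lit 2782372949) (nat_lit 0) (nat_lit 9405179627) (nat_lit 4) (nat_lit 5) (nat_lit 6) (nat_lit 4) (nat_lit 4) (nat_lit 4) (nat_lit 220) (nat_lit 197) (nat_lit 183)) (XT.lf (nat_lit 0) (nat_lit 2606756708) (nat_lit 76) (nat_lit 17175932025) (nat_lit 76) (nat_lit 11227861478) (nat_lit 3) (nat_lit 4) (nat_lit 4) (nat_lit 5) (nat_lit 4) (nat_lit 4) (nat_lit 221) (nat_lit 197) (nat_lit 182))) (XT.nd (nat_lit 78) (nat_lit 0) (nat_lit 0) (XT.lf (nat_lit 0) (nat_lit 8950141932) (nat_lit 76) (nat_lit 16122022516) (nat_lit 76) (nat_lit 10065246828) (nat_lit 3) (nat_lit 4) (nat_lit 4) (nat_lit 5) (nat_lit 4) (nat_lit 4) (nat_lit 222) (nat_lit 197) (nat_lit 181)) (XT.lf (nat_lit 0) (nat_lit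 16099978712) (nat_lit 76) (nat_lit 14973705939) (nat_lit 76) (nat_lit 8822404042) (nat_lit 3) (nat_lit 4) (nat_lit 4) (nat_lit 5) (nat_lit 4) (nat_lit 4) (nat_lit 223) (nat_lit 197) (nat_lit 180))))))) (XT.nd (nat_lit 1170) (nat_lit 0) (nat_lit 0) (XT.nd (nat_lit 546) (nat_lit 0) (nat_lit 0) (XT.nd (nat_lit 234) (nat_lit 152) (nat_lit 0) (XT.nd (nat_lit 78) (nat_lit 0) (nat_lit 0) (XT.lf (nat_lit 0) (nat_lit 24196155159) (nat_lit 76) (nat_lit 13708515230) (nat_lit 76) (nat_lit 7475016629) (nat_lit 3) (nat_lit 4) (nat_lit 4) (nat_lit 5) (nat_lit 4) (nat_lit 4) (nat_lit 224) (nat_lit 197) (nat_lit 179)) (XT.nd (nat_lit 78) (nat_lit 0) (nat_lit 0) (XT.lf (nat_lit 0) (nat_lit 33397074725) (nat_lit 76) (nat_lit 12301696658) (nat_lit 76) (nat_lit 5996722663) (nat_lit 3) (nat_lit 4) (nat_lit 4) (nat_lit 5) (nat_lit 4) (nat_lit 4) (nat_lit 225) (nat_lit 197) (nat_lit 178)) (XT.lf (nat_lit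 0) (nat_lit 43882755403) (nat_lit 76) (nat_lit 10725725512) (nat_lit 76) (nat_lit 4358599000) (nat_lit 3) (nat_lit 4) (nat_lit 4) (nat_lit 5) (nat_lit 4) (nat_lit 4) (nat_lit 226) (nat_lit 197) (nat_lit 177)))) (XT.nd (nat_lit 156) (nat_lit 152) (nat_lit 0) (XT.nd (nat_lit 78) (nat_lit 0) (nat_lit 0) (XT.lf (nat_lit 0) (nat_lit 55858351813) (nat_lit 76) (nat_lit 8949767574) (nat_lit 76) (nat_lit 2528595395) (nat_lit 3) (nat_lit 4) (nat_lit 4) (nat_lit 5) (nat_lit 4) (nat_lit 4) (nat_lit 227) (nat_lit 197) (nat_lit 176)) (XT.lf (nat_lit 0) (nat_lit 69558169104) (nat_lit 76) (nat_lit 6939075840) (nat_lit 76) (nat_lit 470907429) (nat_lit 3) (nat_lit 4) (nat_lit 4) (nat_lit 5) (nat_lit 4) (nat_lit 4) (nat_lit 228) (nat_lit 197) (nat_lit 175))) (XT.nd (nat_lit 78) (nat_lit 76) (nat_lit 0) (XT.lf (nat_lit 0) (nat_lit 1689603652) (nat_lit 152) (nat_lit 2876386847) (nat_lit 76) (nat_lit 83472323334)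 (nat_lit 2) (nat_lit 5) (nat_lit 4) (nat_lit 5) (nat_lit 3) (nat_lit 4) (nat_lit 229) (nat_lit 197) (nat_lit 174)) (XT.lf (nat_lit 0) (nat_lit 2477517232) (nat_lit 76) (nat_lit 1718802691) (nat_lit 152) (nat_lit 96558954713) (nat_lit 1) (nat_lit 5) (nat_lit 2) (nat_lit 5) (nat_lit 3) (nat_lit 4) (nat_lit 230) (nat_lit 197) (nat_lit 173))))) (XT.nd (nat_lit 312) (nat_lit 0) (nat_lit 0) (XT.nd (nat_lit 156) (nat_lit 0) (nat_lit 0) (XT.nd (nat_lit 78) (nat_lit 0) (nat_lit 0) (XT.lf (nat_lit 0) (nat_lit 7269607447) (nat_lit 152) (nat_lit 106529946361) (nat_lit 0) (nat_lit 1551806239) (nat_lit 1) (nat_lit 5) (nat_lit 3) (nat_lit 4) (nat_lit 1) (nat_lit 4) (nat_lit 231) (nat_lit 197) (nat_lit 172)) (XT.lf (nat_lit 0) (nat_lit 10858465386) (nat_lit 152) (nat_lit 116153051076) (nat_lit 0) (nat_lit 5117298745) (nat_lit 1) (nat_lit 5) (nat_lit 3) (nat_lit 4) (nat_lit 1) (nat_lit 4) (nat_lit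 232) (nat_lit 197) (nat_lit 171))) (XT.nd (nat_lit 78) (nat_lit 0) (nat_lit 0) (XT.lf (nat_lit 0) (nat_lit 14961938573) (nat_lit 152) (nat_lit 127264177731) (nat_lit 0) (nat_lit 9200454163) (nat_lit 1) (nat_lit 5) (nat_lit 3) (nat_lit 4) (nat_lit 1) (nat_lit 4) (nat_lit 233) (nat_lit 197) (nat_lit 170)) (XT.lf (nat_lit 0) (nat_lit 19660312352) (nat_lit 152) (nat_lit 140080717933) (nat_lit 0) (nat_lit 13881160318) (nat_lit 1) (nat_lit 5) (nat_lit 3) (nat_lit 4) (nat_lit 1) (nat_lit 4) (nat_lit 234) (nat_lit 197) (nat_lit 169)))) (XT.nd (nat_lit 156) (nat_lit 0) (nat_lit 0) (XT.nd (nat_lit 78) (nat_lit 0) (nat_lit 0) (XT.lf (nat_lit 0) (nat_lit 25045511428) (nat_lit 152) (nat_lit 154853430079) (nat_lit 0) (nat_lit 19250996243) (nat_lit 1) (nat_lit 5) (nat_lit 3) (nat_lit 4) (nat_lit 1) (nat_lit 4) (nat_lit 235) (nat_lit 197) (nat_lit 168)) (XT.lf (nat_lit 0) (nat_lit 31222898391) (nat_lit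 152) (nat_lit 171871345493) (nat_lit 0) (nat_lit 25415023944) (nat_lit 1) (nat_lit 5) (nat_lit 3) (nat_lit 4) (nat_lit 1) (nat_lit 4) (nat_lit 236) (nat_lit 197) (nat_lit 167))) (XT.nd (nat_lit 78) (nat_lit 0) (nat_lit 0) (XT.lf (nat_lit 0) (nat_lit 38313335161) (nat_lit 152) (nat_lit 191467423389) (nat_lit 0) (nat_lit 32493843963) (nat_lit 1) (nat_lit 5) (nat_lit 3) (nat_lit 4) (nat_lit 1) (nat_lit 4) (nat_lit 237) (nat_lit 197) (nat_lit 166)) (XT.lf (nat_lit 0) (nat_lit 46455547673) (nat_lit 152) (nat_lit 214025065291) (nat_lit 0) (nat_lit 40625954954) (nat_lit 1) (nat_lit 5) (nat_lit 3) (nat_lit 4) (nat_lit 1) (nat_lit 4) (nat_lit 238) (nat_lit 197) (nat_lit 165)))))) (XT.nd (nat_lit 546) (nat_lit 0) (nat_lit 0) (XT.nd (nat_lit 234) (nat_lit 0) (nat_lit 0) (XT.nd (nat_lit 78) (nat_lit 0) (nat_lit 0) (XT.lf (nat_lit 0) (nat_lit 55808840087) (nat_lit 152) (nat_lit 239985616368) (nat_lit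 0) (nat_lit 49970463436) (nat_lit 1) (nat_lit 5) (nat_lit 3) (nat_lit 4) (nat_lit 1) (nat_lit 4) (nat_lit 239) (nat_lit 197) (nat_lit 164)) (XT.nd (nat_lit 78) (nat_lit 0) (nat_lit 0) (XT.lf (nat_lit 0) (nat_lit 66556211601) (nat_lit 152) (nat_lit 269857000445) (nat_lit 0) (nat_lit 60710196749) (nat_lit 1) (nat_lit 5) (nat_lit 3) (nat_lit 4) (nat_lit 1) (nat_lit 4) (nat_lit 240) (nat_lit 197) (nat_lit 163)) (XT.lf (nat_lit 0) (nat_lit 78907936875) (nat_lit 152) (nat_lit 304223657644) (nat_lit 0) (nat_lit 73055280109) (nat_lit 1) (nat_lit 5) (nat_lit 3) (nat_lit 4) (nat_lit 1) (nat_lit 4) (nat_lit 241) (nat_lit 197) (nat_lit 162)))) (XT.nd (nat_lit 156) (nat_lit 0) (nat_lit 0) (XT.nd (nat_lit 78) (nat_lit 0) (nat_lit 0) (XT.lf (nat_lit 0) (nat_lit 93105680100) (nat_lit 152) (nat_lit 343757979085) (nat_lit 0) (nat_lit 87247247756) (nat_lit 1) (nat_lit 5) (nat_lit 3) (nat_lit 4) (nat_lit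 1) (nat_lit 4) (nat_lit 242) (nat_lit 197) (nat_lit 161)) (XT.lf (nat_lit 0) (nat_lit 109427223208) (nat_lit 152) (nat_lit 389233462362) (nat_lit 0) (nat_lit 103563768622) (nat_lit 1) (nat_lit 5) (nat_lit 3) (nat_lit 4) (nat_lit 1) (nat_lit 4) (nat_lit 243) (nat_lit 197) (nat_lit 160))) (XT.nd (nat_lit 78) (nat_lit 0) (nat_lit 0) (XT.lf (nat_lit 0) (nat_lit 128191900738) (nat_lit 152) (nat_lit 441539845190) (nat_lit 0) (nat_lit 122324078986) (nat_lit 1) (nat_lit 5) (nat_lit 3) (nat_lit 4) (nat_lit 1) (nat_lit 4) (nat_lit 244) (nat_lit 197) (nat_lit 159)) (XT.lf (nat_lit 0) (nat_lit 149766847686) (nat_lit 152) (nat_lit 501700513321) (nat_lit 0) (nat_lit 143895228398) (nat_lit 1) (nat_lit 5) (nat_lit 3) (nat_lit 4) (nat_lit 1) (nat_lit 4) (nat_lit 245) (nat_lit 197) (nat_lit 158))))) (XT.nd (nat_lit 312) (nat_lit 0) (nat_lit 0) (XT.nd (nat_lit 156) (nat_lit 0) (nat_lit 0) (XT.nd (nat_lit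 78) (nat_lit 0) (nat_lit 0) (XT.lf (nat_lit 0) (nat_lit 174574182579) (nat_lit 152) (nat_lit 570892523305) (nat_lit 0) (nat_lit 168699261085) (nat_lit 1) (nat_lit 5) (nat_lit 3) (nat_lit 4) (nat_lit 1) (nat_lit 4) (nat_lit 246) (nat_lit 197) (nat_lit 157)) (XT.lf (nat_lit 0) (nat_lit 203099266316) (nat_lit 152) (nat_lit 650469631859) (nat_lit 0) (nat_lit 197221473339) (nat_lit 1) (nat_lit 5) (nat_lit 3) (nat_lit 4) (nat_lit 1) (nat_lit 4) (nat_lit 247) (nat_lit 197) (nat_lit 156))) (XT.nd (nat_lit 78) (nat_lit 0) (nat_lit 0) (XT.lf (nat_lit 0) (nat_lit 235900198362) (nat_lit 152) (nat_lit 741988782411) (nat_lit 0) (nat_lit 230019908443) (nat_lit 1) (nat_lit 5) (nat_lit 3) (nat_lit 4) (nat_lit 1) (nat_lit 4) (nat_lit 248) (nat_lit 197) (nat_lit 155)) (XT.lf (nat_lit 0) (nat_lit 273618736083) (nat_lit 152) (nat_lit 847240567038) (nat_lit 0) (nat_lit 267736274911) (nat_lit 1) (nat_lit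 5) (nat_lit 3) (nat_lit 4) (nat_lit 1) (nat_lit 4) (nat_lit 249) (nat_lit 197) (nat_lit 154)))) (XT.nd (nat_lit 156) (nat_lit 0) (nat_lit 0) (XT.nd (nat_lit 78) (nat_lit 0) (nat_lit 0) (XT.lf (nat_lit 0) (nat_lit 316992850870) (nat_lit 152) (nat_lit 968284259786) (nat_lit 0) (nat_lit 311108501652) (nat_lit 1) (nat_lit 5) (nat_lit 3) (nat_lit 4) (nat_lit 1) (nat_lit 4) (nat_lit 250) (nat_lit 197) (nat_lit 153)) (XT.lf (nat_lit 0) (nat_lit 366871166708) (nat_lit 152) (nat_lit 1107488106817) (nat_lit 0) (nat_lit 360985175709) (nat_lit 1) (nat_lit 5) (nat_lit 3) (nat_lit 4) (nat_lit 1) (nat_lit 4) (nat_lit 251) (nat_lit 197) (nat_lit 152))) (XT.nd (nat_lit 78) (nat_lit 0) (nat_lit 0) (XT.lf (nat_lit 0) (nat_lit 424229563688) (nat_lit 152) (nat_lit 1267575661662) (nat_lit 0) (nat_lit 418342145055) (nat_lit 1) (nat_lit 5) (nat_lit 3) (nat_lit 4) (nat_lit 1) (nat_lit 4) (nat_lit 252) (nat_lit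 197) (nat_lit 151)) (XT.lf (nat_lit 0) (nat_lit 490190271317) (nat_lit 152) (nat_lit 1451679072132) (nat_lit 0) (nat_lit 484301611263) (nat_lit 1) (nat_lit 5) (nat_lit 3) (nat_lit 4) (nat_lit 1) (nat_lit 4) (nat_lit 253) (nat_lit 197) (nat_lit 150))))))))
noncomputable def xc22 : XT := (XT.nd (nat_lit 28002) (nat_lit 0) (nat_lit 0) (XT.nd (nat_lit 1248) (nat_lit 0) (nat_lit 0) (XT.nd (nat_lit 546) (nat_lit 0) (nat_lit 0) (XT.nd (nat_lit 234) (nat_lit 0) (nat_lit 0) (XT.nd (nat_lit 78) (nat_lit 0) (nat_lit 0) (XT.lf (nat_lit 0) (nat_lit 566043825180) (nat_lit 152) (nat_lit 1663400361474) (nat_lit 0) (nat_lit 560154085629) (nat_lit 1) (nat_lit 5) (nat_lit 3) (nat_lit 4) (nat_lit 1) (nat_lit 4) (nat_lit 254) (nat_lit 197) (nat_lit 149)) (XT.nd (nat_lit 78) (nat_lit 0) (nat_lit 0) (XT.lf (nat_lit 0) (nat_lit 653274316547) (nat_lit 152) (nat_lit 1906881902743) (nat_lit 0) (nat_lit 647383638303)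 (nat_lit 1) (nat_lit 5) (nat_lit 3) (nat_lit 4) (nat_lit 1) (nat_lit 4) (nat_lit 255) (nat_lit 197) (nat_lit 148)) (XT.lf (nat_lit 0) (nat_lit 753588428944) (nat_lit 152) (nat_lit 2186887465222) (nat_lit 0) (nat_lit 747696934446) (nat_lit 1) (nat_lit 5) (nat_lit 3) (nat_lit 4) (nat_lit 1) (nat_lit 4) (nat_lit 256) (nat_lit 197) (nat_lit 147)))) (XT.nd (nat_lit 156) (nat_lit 0) (nat_lit 0) (XT.nd (nat_lit 78) (nat_lit 0) (nat_lit 0) (XT.lf (nat_lit 0) (nat_lit 868948829790) (nat_lit 152) (nat_lit 2508895418614) (nat_lit 0) (nat_lit 863056625505) (nat_lit 1) (nat_lit 5) (nat_lit 3) (nat_lit 4) (nat_lit 1) (nat_lit 4) (nat_lit 257) (nat_lit 197) (nat_lit 146)) (XT.lf (nat_lit 0) (nat_lit 1001612570403) (nat_lit 152) (nat_lit 2879205918527) (nat_lit 0) (nat_lit 995719748913) (nat_lit 1) (nat_lit 5) (nat_lit 3) (nat_lit 4) (nat_lit 1) (nat_lit 4) (nat_lit 258) (nat_lit 197) (nat_lit 145)))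 (XT.nd (nat_lit 78) (nat_lit 0) (nat_lit 0) (XT.lf (nat_lit 0) (nat_lit 1154175245711) (nat_lit 152) (nat_lit 3305064170395) (nat_lit 0) (nat_lit 1148281887519) (nat_lit 1) (nat_lit 5) (nat_lit 3) (nat_lit 4) (nat_lit 1) (nat_lit 4) (nat_lit 259) (nat_lit 197) (nat_lit 144)) (XT.lf (nat_lit 0) (nat_lit 1329621777620) (nat_lit 152) (nat_lit 3794802183494) (nat_lit 0) (nat_lit 1323727952732) (nat_lit 1) (nat_lit 5) (nat_lit 3) (nat_lit 4) (nat_lit 1) (nat_lit 4) (nat_lit 260) (nat_lit 197) (nat_lit 143))))) (XT.nd (nat_lit 312) (nat_lit 0) (nat_lit 0) (XT.nd (nat_lit 156) (nat_lit 0) (nat_lit 0) (XT.nd (nat_lit 78) (nat_lit 0) (nat_lit 0) (XT.lf (nat_lit 0) (nat_lit 1531384815667) (nat_lit 152) (nat_lit 4358001788514) (nat_lit 0) (nat_lit 1525490584957) (nat_lit 1) (nat_lit 5) (nat_lit 3) (nat_lit 4) (nat_lit 1) (nat_lit 4) (nat_lit 261) (nat_lit 197) (nat_lit 142)) (XT.lf (nat_lit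 0) (nat_lit 1763411897555) (nat_lit 152) (nat_lit 5005682108163) (nat_lit 0) (nat_lit 1757517313955) (nat_lit 1) (nat_lit 5) (nat_lit 3) (nat_lit 4) (nat_lit 1) (nat_lit 4) (nat_lit 262) (nat_lit 197) (nat_lit 141))) (XT.nd (nat_lit 78) (nat_lit 0) (nat_lit 0) (XT.lf (nat_lit 0) (nat_lit 2030242683581) (nat_lit 152) (nat_lit 5750515148695) (nat_lit 0) (nat_lit 2024347793120) (nat_lit 1) (nat_lit 5) (nat_lit 3) (nat_lit 4) (nat_lit 1) (nat_lit 4) (nat_lit 263) (nat_lit 197) (nat_lit 140)) (XT.lf (nat_lit 0) (nat_lit 2337097776079) (nat_lit 152) (nat_lit 6607073730467) (nat_lit 0) (nat_lit 2331202618784) (nat_lit 1) (nat_lit 5) (nat_lit 3) (nat_lit 4) (nat_lit 1) (nat_lit 4) (nat_lit 264) (nat_lit 197) (nat_lit 139)))) (XT.nd (nat_lit 156) (nat_lit 0) (nat_lit 0) (XT.nd (nat_lit 78) (nat_lit 0) (nat_lit 0) (XT.lf (nat_lit 0) (nat_lit 2689980861643) (nat_lit 152) (nat_lit 7592116608341)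 (nat_lit 0) (nat_lit 2684085472317) (nat_lit 1) (nat_lit 5) (nat_lit 3) (nat_lit 4) (nat_lit 1) (nat_lit 4) (nat_lit 265) (nat_lit 197) (nat_lit 138)) (XT.lf (nat_lit 0) (nat_lit 3095796174555) (nat_lit 152) (nat_lit 8724916360362) (nat_lit 0) (nat_lit 3089900583464) (nat_lit 1) (nat_lit 5) (nat_lit 3) (nat_lit 4) (nat_lit 1) (nat_lit 4) (nat_lit 266) (nat_lit 197) (nat_lit 137))) (XT.nd (nat_lit 78) (nat_lit 0) (nat_lit 0) (XT.lf (nat_lit 0) (nat_lit 3562483579634) (nat_lit 152) (nat_lit 10027636459938) (nat_lit 0) (nat_lit 3556587813094) (nat_lit 1) (nat_lit 5) (nat_lit 3) (nat_lit 4) (nat_lit 1) (nat_lit 4) (nat_lit 267) (nat_lit 197) (nat_lit 136)) (XT.lf (nat_lit 0) (nat_lit 4099173917412) (nat_lit 152) (nat_lit 11525764909019) (nat_lit 0) (nat_lit 4093277998308) (nat_lit 1) (nat_lit 5) (nat_lit 3) (nat_lit 4) (nat_lit 1) (nat_lit 4) (nat_lit 268) (nat_lit 197) (nat_lit 135))))))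 (XT.nd (nat_lit 26130) (nat_lit 0) (nat_lit 532) (XT.nd (nat_lit 234) (nat_lit 0) (nat_lit 0) (XT.nd (nat_lit 78) (nat_lit 0) (nat_lit 0) (XT.lf (nat_lit 0) (nat_lit 5426140310031) (nat_lit 152) (nat_lit 15229888377849) (nat_lit 0) (nat_lit 5420244142903) (nat_lit 1) (nat_lit 5) (nat_lit 3) (nat_lit 4) (nat_lit 1) (nat_lit 4) (nat_lit 270) (nat_lit 197) (nat_lit 133)) (XT.nd (nat_lit 78) (nat_lit 0) (nat_lit 0) (XT.lf (nat_lit 0) (nat_lit 6242378750814) (nat_lit 152) (nat_lit 17508355378510) (nat_lit 0) (nat_lit 6236482483373) (nat_lit 1) (nat_lit 5) (nat_lit 3) (nat_lit 4) (nat_lit 1) (nat_lit 4) (nat_lit 271) (nat_lit 197) (nat_lit 132)) (XT.lf (nat_lit 0) (nat_lit 7181052855908) (nat_lit 152) (nat_lit 20128592620560) (nat_lit 0) (nat_lit 7175156501237) (nat_lit 1) (nat_lit 5) (nat_lit 3) (nat_lit 4) (nat_lit 1) (nat_lit 4) (nat_lit 272) (nat_lit 197) (nat_lit 131)))) (XT.nd (nat_lit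 156) (nat_lit 0) (nat_lit 0) (XT.nd (nat_lit 78) (nat_lit 0) (nat_lit 0) (XT.lf (nat_lit 0) (nat_lit 8260527988237) (nat_lit 152) (nat_lit 23141865615258) (nat_lit 0) (nat_lit 8254631557715) (nat_lit 1) (nat_lit 5) (nat_lit 3) (nat_lit 4) (nat_lit 1) (nat_lit 4) (nat_lit 273) (nat_lit 197) (nat_lit 130)) (XT.lf (nat_lit 0) (nat_lit 9501924313435) (nat_lit 152) (nat_lit 26607129703802) (nat_lit 0) (nat_lit 9496027816956) (nat_lit 1) (nat_lit 5) (nat_lit 3) (nat_lit 4) (nat_lit 1) (nat_lit 4) (nat_lit 274) (nat_lit 197) (nat_lit 129))) (XT.nd (nat_lit 312) (nat_lit 0) (nat_lit 0) (XT.lf (nat_lit 0) (nat_lit 10929530020472) (nat_lit 152) (nat_lit 30592183531405) (nat_lit 0) (nat_lit 10923633466639) (nat_lit 1) (nat_lit 5) (nat_lit 3) (nat_lit 4) (nat_lit 1) (nat_lit 4) (nat_lit 275) (nat_lit 197) (nat_lit 128)) (XT.lf (nat_lit 0) (nat_lit 19127385665632) (nat_lit 152) (nat_lit 53475883037371)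 (nat_lit 0) (nat_lit 19121488948053) (nat_lit 1) (nat_lit 5) (nat_lit 3) (nat_lit 4) (nat_lit 1) (nat_lit 4) (nat_lit 279) (nat_lit 197) (nat_lit 124))))) (XT.nd (nat_lit 312) (nat_lit 380) (nat_lit 0) (XT.nd (nat_lit 156) (nat_lit 304) (nat_lit 0) (XT.nd (nat_lit 78) (nat_lit 228) (nat_lit 0) (XT.lf (nat_lit 0) (nat_lit 3380416040) (nat_lit 76) (nat_lit 28865892) (nat_lit 76) (nat_lit 28865892) (nat_lit 20) (nat_lit 4) (nat_lit 21) (nat_lit 5) (nat_lit 21) (nat_lit 4) (nat_lit 204) (nat_lit 198) (nat_lit 198)) (XT.lf (nat_lit 0) (nat_lit 2730015363) (nat_lit 228) (nat_lit 3212500731) (nat_lit 0) (nat_lit 1182948624) (nat_lit 17) (nat_lit 5) (nat_lit 20) (nat_lit 4) (nat_lit 17) (nat_lit 4) (nat_lit 205) (nat_lit 198) (nat_lit 197))) (XT.nd (nat_lit 78) (nat_lit 76) (nat_lit 0) (XT.lf (nat_lit 0) (nat_lit 802184211) (nat_lit 228) (nat_lit 4781020012) (nat_lit 228) (nat_lit 1888677847)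 (nat_lit 14) (nat_lit 4) (nat_lit 17) (nat_lit 5) (nat_lit 17) (nat_lit 4) (nat_lit 206) (nat_lit 198) (nat_lit 196)) (XT.lf (nat_lit 0) (nat_lit 703507422) (nat_lit 304) (nat_lit 2549605923) (nat_lit 76) (nat_lit 4647537653) (nat_lit 13) (nat_lit 5) (nat_lit 17) (nat_lit 5) (nat_lit 14) (nat_lit 4) (nat_lit 207) (nat_lit 198) (nat_lit 195)))) (XT.nd (nat_lit 156) (nat_lit 228) (nat_lit 0) (XT.nd (nat_lit 78) (nat_lit 0) (nat_lit 0) (XT.lf (nat_lit 0) (nat_lit 1887958813) (nat_lit 152) (nat_lit 1352658484) (nat_lit 228) (nat_lit 5182641803) (nat_lit 11) (nat_lit 5) (nat_lit 13) (nat_lit 5) (nat_lit 14) (nat_lit 4) (nat_lit 208) (nat_lit 198) (nat_lit 194)) (XT.lf (nat_lit 0) (nat_lit 6029083380) (nat_lit 228) (nat_lit 2176205728) (nat_lit 0) (nat_lit 843075722) (nat_lit 11) (nat_lit 5) (nat_lit 14) (nat_lit 4) (nat_lit 11) (nat_lit 4) (nat_lit 209) (nat_lit 198) (nat_lit 193))) (XT.nd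 (nat_lit 78) (nat_lit 76) (nat_lit 0) (XT.lf (nat_lit 0) (nat_lit 2653051837) (nat_lit 152) (nat_lit 6493281676) (nat_lit 152) (nat_lit 638434374) (nat_lit 9) (nat_lit 4) (nat_lit 11) (nat_lit 5) (nat_lit 11) (nat_lit 4) (nat_lit 210) (nat_lit 198) (nat_lit 192)) (XT.lf (nat_lit 0) (nat_lit 1773548960) (nat_lit 228) (nat_lit 2623316727) (nat_lit 76) (nat_lit 6245693065) (nat_lit 8) (nat_lit 5) (nat_lit 11) (nat_lit 5) (nat_lit 9) (nat_lit 4) (nat_lit 211) (nat_lit 198) (nat_lit 191))))))) (XT.nd (nat_lit 1170) (nat_lit 152) (nat_lit 0) (XT.nd (nat_lit 546) (nat_lit 76) (nat_lit 0) (XT.nd (nat_lit 234) (nat_lit 152) (nat_lit 0) (XT.nd (nat_lit 78) (nat_lit 76) (nat_lit 0) (XT.lf (nat_lit 0) (nat_lit 2427326780) (nat_lit 76) (nat_lit 1930586072) (nat_lit 152) (nat_lit 7287854624) (nat_lit 7) (nat_lit 5) (nat_lit 8) (nat_lit 5) (nat_lit 9) (nat_lit 4) (nat_lit 212) (nat_lit 198) (nat_lit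 190)) (XT.nd (nat_lit 78) (nat_lit 76) (nat_lit 0) (XT.lf (nat_lit 0) (nat_lit 7299152134) (nat_lit 152) (nat_lit 4627213806) (nat_lit 0) (nat_lit 880057546) (nat_lit 7) (nat_lit 5) (nat_lit 9) (nat_lit 4) (nat_lit 7) (nat_lit 4) (nat_lit 213) (nat_lit 198) (nat_lit 189)) (XT.lf (nat_lit 0) (nat_lit 296092483) (nat_lit 76) (nat_lit 10305384619) (nat_lit 76) (nat_lit 3553758520) (nat_lit 6) (nat_lit 4) (nat_lit 7) (nat_lit 5) (nat_lit 7) (nat_lit 4) (nat_lit 214) (nat_lit 198) (nat_lit 188)))) (XT.nd (nat_lit 156) (nat_lit 76) (nat_lit 0) (XT.nd (nat_lit 78) (nat_lit 76) (nat_lit 0) (XT.lf (nat_lit 0) (nat_lit 6200127019) (nat_lit 76) (nat_lit 8269142474) (nat_lit 76) (nat_lit 1228358540) (nat_lit 6) (nat_lit 4) (nat_lit 7) (nat_lit 5) (nat_lit 7) (nat_lit 4) (nat_lit 215) (nat_lit 198) (nat_lit 187)) (XT.lf (nat_lit 0) (nat_lit 1159257396) (nat_lit 152) (nat_lit 4799822128) (nat_lit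 76) (nat_lit 11528343593) (nat_lit 5) (nat_lit 5) (nat_lit 7) (nat_lit 5) (nat_lit 6) (nat_lit 4) (nat_lit 216) (nat_lit 198) (nat_lit 186))) (XT.nd (nat_lit 78) (nat_lit 0) (nat_lit 0) (XT.lf (nat_lit 0) (nat_lit 350583251) (nat_lit 76) (nat_lit 3305906817) (nat_lit 152) (nat_lit 15900006094) (nat_lit 4) (nat_lit 5) (nat_lit 5) (nat_lit 5) (nat_lit 6) (nat_lit 4) (nat_lit 217) (nat_lit 198) (nat_lit 185)) (XT.lf (nat_lit 0) (nat_lit 6598551637) (nat_lit 76) (nat_lit 52400923) (nat_lit 152) (nat_lit 15267596447) (nat_lit 4) (nat_lit 5) (nat_lit 5) (nat_lit 5) (nat_lit 6) (nat_lit 4) (nat_lit 218) (nat_lit 198) (nat_lit 184))))) (XT.nd (nat_lit 312) (nat_lit 0) (nat_lit 0) (XT.nd (nat_lit 156) (nat_lit 76) (nat_lit 0) (XT.nd (nat_lit 78) (nat_lit 0) (nat_lit 0) (XT.lf (nat_lit 0) (nat_lit 10132714509) (nat_lit 152) (nat_lit 11204925487) (nat_lit 0) (nat_lit 3292433380) (nat_lit 4)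 (nat_lit 5) (nat_lit 6) (nat_lit 4) (nat_lit 4) (nat_lit 4) (nat_lit 219) (nat_lit 198) (nat_lit 183)) (XT.lf (nat_lit 0) (nat_lit 14039558678) (nat_lit 152) (nat_lit 6649846321) (nat_lit 0) (nat_lit 7074266638) (nat_lit 4) (nat_lit 5) (nat_lit 6) (nat_lit 4) (nat_lit 4) (nat_lit 4) (nat_lit 220) (nat_lit 198) (nat_lit 182))) (XT.nd (nat_lit 78) (nat_lit 76) (nat_lit 0) (XT.lf (nat_lit 0) (nat_lit 18445753513) (nat_lit 152) (nat_lit 1563468946) (nat_lit 0) (nat_lit 11371756332) (nat_lit 4) (nat_lit 5) (nat_lit 6) (nat_lit 4) (nat_lit 4) (nat_lit 4) (nat_lit 221) (nat_lit 198) (nat_lit 181)) (XT.lf (nat_lit 0) (nat_lit 4559654708) (nat_lit 76) (nat_lit 19066658043) (nat_lit 76) (nat_lit 11898134652) (nat_lit 3) (nat_lit 4) (nat_lit 4) (nat_lit 5) (nat_lit 4) (nat_lit 4) (nat_lit 222) (nat_lit 198) (nat_lit 180)))) (XT.nd (nat_lit 156) (nat_lit 0) (nat_lit 0) (XT.nd (nat_lit 78) (nat_lit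 0) (nat_lit 0) (XT.lf (nat_lit 0) (nat_lit 11650823651) (nat_lit 76) (nat_lit 17944096514) (nat_lit 76) (nat_lit 10693376420) (nat_lit 3) (nat_lit 4) (nat_lit 4) (nat_lit 5) (nat_lit 4) (nat_lit 4) (nat_lit 223) (nat_lit 198) (nat_lit 179)) (XT.lf (nat_lit 0) (nat_lit 19695984587) (nat_lit 76) (nat_lit 16701301500) (nat_lit 76) (nat_lit 9379106011) (nat_lit 3) (nat_lit 4) (nat_lit 4) (nat_lit 5) (nat_lit 4) (nat_lit 4) (nat_lit 224) (nat_lit 198) (nat_lit 178))) (XT.nd (nat_lit 78) (nat_lit 0) (nat_lit 0) (XT.lf (nat_lit 0) (nat_lit 28852542840) (nat_lit 76) (nat_lit 15313957445) (nat_lit 76) (nat_lit 7929609439) (nat_lit 3) (nat_lit 4) (nat_lit 4) (nat_lit 5) (nat_lit 4) (nat_lit 4) (nat_lit 225) (nat_lit 198) (nat_lit 177)) (XT.lf (nat_lit 0) (nat_lit 39299648463) (nat_lit 76) (nat_lit 13754920662) (nat_lit 76) (nat_lit 6316526989) (nat_lit 3) (nat_lit 4) (nat_lit 4) (nat_lit 5)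 (nat_lit 4) (nat_lit 4) (nat_lit 226) (nat_lit 198) (nat_lit 176)))))) (XT.nd (nat_lit 546) (nat_lit 0) (nat_lit 0) (XT.nd (nat_lit 234) (nat_lit 152) (nat_lit 0) (XT.nd (nat_lit 78) (nat_lit 0) (nat_lit 0) (XT.lf (nat_lit 0) (nat_lit 51241701347) (nat_lit 76) (nat_lit 11993688256) (nat_lit 76) (nat_lit 4508298351) (nat_lit 3) (nat_lit 4) (nat_lit 4) (nat_lit 5) (nat_lit 4) (nat_lit 4) (nat_lit 227) (nat_lit 198) (nat_lit 175)) (XT.nd (nat_lit 78) (nat_lit 0) (nat_lit 0) (XT.lf (nat_lit 0) (nat_lit 64912350353) (nat_lit 76) (nat_lit 9995801334) (nat_lit 76) (nat_lit 2469545140) (nat_lit 3) (nat_lit 4) (nat_lit 4) (nat_lit 5) (nat_lit 4) (nat_lit 4) (nat_lit 228) (nat_lit 198) (nat_lit 174)) (XT.lf (nat_lit 0) (nat_lit 80579064702) (nat_lit 76) (nat_lit 7722170802) (nat_lit 76) (nat_lit 160378705) (nat_lit 3) (nat_lit 4) (nat_lit 4) (nat_lit 5) (nat_lit 4) (nat_lit 4) (nat_lit 229)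 (nat_lit 198) (nat_lit 173)))) (XT.nd (nat_lit 156) (nat_lit 0) (nat_lit 0) (XT.nd (nat_lit 78) (nat_lit 76) (nat_lit 0) (XT.lf (nat_lit 0) (nat_lit 2244984120) (nat_lit 152) (nat_lit 2765977023) (nat_lit 76) (nat_lit 96186031502) (nat_lit 2) (nat_lit 5) (nat_lit 4) (nat_lit 5) (nat_lit 3) (nat_lit 4) (nat_lit 230) (nat_lit 198) (nat_lit 172)) (XT.lf (nat_lit 0) (nat_lit 3366382311) (nat_lit 76) (nat_lit 1743359754) (nat_lit 152) (nat_lit 110714682186) (nat_lit 1) (nat_lit 5) (nat_lit 2) (nat_lit 5) (nat_lit 3) (nat_lit 4) (nat_lit 231) (nat_lit 198) (nat_lit 171))) (XT.nd (nat_lit 78) (nat_lit 0) (nat_lit 0) (XT.lf (nat_lit 0) (nat_lit 8615381687) (nat_lit 152) (nat_lit 122029681675) (nat_lit 0) (nat_lit 1969356848) (nat_lit 1) (nat_lit 5) (nat_lit 3) (nat_lit 4) (nat_lit 1) (nat_lit 4) (nat_lit 232) (nat_lit 198) (nat_lit 170)) (XT.lf (nat_lit 0) (nat_lit 12709263997) (nat_lit 152)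 (nat_lit 133158829050) (nat_lit 0) (nat_lit 6045571534) (nat_lit 1) (nat_lit 5) (nat_lit 3) (nat_lit 4) (nat_lit 1) (nat_lit 4) (nat_lit 233) (nat_lit 198) (nat_lit 169))))) (XT.nd (nat_lit 312) (nat_lit 0) (nat_lit 0) (XT.nd (nat_lit 156) (nat_lit 0) (nat_lit 0) (XT.nd (nat_lit 78) (nat_lit 0) (nat_lit 0) (XT.lf (nat_lit 0) (nat_lit 17399297883) (nat_lit 152) (nat_lit 145991039445) (nat_lit 0) (nat_lit 10720242268) (nat_lit 1) (nat_lit 5) (nat_lit 3) (nat_lit 4) (nat_lit 1) (nat_lit 4) (nat_lit 234) (nat_lit 198) (nat_lit 168)) (XT.lf (nat_lit 0) (nat_lit 22777244878) (nat_lit 152) (nat_lit 160777377844) (nat_lit 0) (nat_lit 16084830001) (nat_lit 1) (nat_lit 5) (nat_lit 3) (nat_lit 4) (nat_lit 1) (nat_lit 4) (nat_lit 235) (nat_lit 198) (nat_lit 167))) (XT.nd (nat_lit 78) (nat_lit 0) (nat_lit 0) (XT.lf (nat_lit 0) (nat_lit 28948325684) (nat_lit 152) (nat_lit 177807142175) (nat_lit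 0) (nat_lit 22244294057) (nat_lit 1) (nat_lit 5) (nat_lit 3) (nat_lit 4) (nat_lit 1) (nat_lit 4) (nat_lit 236) (nat_lit 198) (nat_lit 166)) (XT.lf (nat_lit 0) (nat_lit 36033278838) (nat_lit 152) (nat_lit 197413523476) (nat_lit 0) (nat_lit 29319145690) (nat_lit 1) (nat_lit 5) (nat_lit 3) (nat_lit 4) (nat_lit 1) (nat_lit 4) (nat_lit 237) (nat_lit 198) (nat_lit 165)))) (XT.nd (nat_lit 156) (nat_lit 0) (nat_lit 0) (XT.nd (nat_lit 78) (nat_lit 0) (nat_lit 0) (XT.lf (nat_lit 0) (nat_lit 44170722990) (nat_lit 152) (nat_lit 219980124862) (nat_lit 0) (nat_lit 37447805910) (nat_lit 1) (nat_lit 5) (nat_lit 3) (nat_lit 4) (nat_lit 1) (nat_lit 4) (nat_lit 238) (nat_lit 198) (nat_lit 164)) (XT.lf (nat_lit 0) (nat_lit 53519869003) (nat_lit 152) (nat_lit 245948466794) (nat_lit 0) (nat_lit 46789313721) (nat_lit 1) (nat_lit 5) (nat_lit 3) (nat_lit 4) (nat_lit 1) (nat_lit 4) (nat_lit 239) (nat_lit 198)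 (nat_lit 163))) (XT.nd (nat_lit 78) (nat_lit 0) (nat_lit 0) (XT.lf (nat_lit 0) (nat_lit 64263634951) (nat_lit 152) (nat_lit 275826625527) (nat_lit 0) (nat_lit 57526437755) (nat_lit 1) (nat_lit 5) (nat_lit 3) (nat_lit 4) (nat_lit 1) (nat_lit 4) (nat_lit 240) (nat_lit 198) (nat_lit 162)) (XT.lf (nat_lit 0) (nat_lit 76612224951) (nat_lit 152) (nat_lit 310199173732) (nat_lit 0) (nat_lit 69869252177) (nat_lit 1) (nat_lit 5) (nat_lit 3) (nat_lit 4) (nat_lit 1) (nat_lit 4) (nat_lit 241) (nat_lit 198) (nat_lit 161))))))))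
noncomputable def xc23 : XT := (XT.nd (nat_lit 2418) (nat_lit 0) (nat_lit 0) (XT.nd (nat_lit 1170) (nat_lit 0) (nat_lit 0) (XT.nd (nat_lit 546) (nat_lit 0) (nat_lit 0) (XT.nd (nat_lit 234) (nat_lit 0) (nat_lit 0) (XT.nd (nat_lit 78) (nat_lit 0) (nat_lit 0) (XT.lf (nat_lit 0) (nat_lit 90807241850) (nat_lit 152) (nat_lit 349738617786) (nat_lit 0) (nat_lit 84059246834) (nat_lit 1) (nat_lit 5) (nat_lit 3) (nat_lit 4) (nat_lit 1) (nat_lit 4) (nat_lit 242) (nat_lit 198) (nat_lit 160)) (XT.nd (nat_lit 78) (nat_lit 0) (nat_lit 0) (XT.lf (nat_lit 0) (nat_lit 107126414240) (nat_lit 152) (nat_lit 395218555510) (nat_lit 0) (nat_lit 100374052058) (nat_lit 1) (nat_lit 5) (nat_lit 3) (nat_lit 4) (nat_lit 1) (nat_lit 4) (nat_lit 243) (nat_lit 198) (nat_lit 159)) (XT.lf (nat_lit 0) (nat_lit 125889030276) (nat_lit 152) (nat_lit 447528811770) (nat_lit 0) (nat_lit 119132870558) (nat_lit 1) (nat_lit 5)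 (nat_lit 3) (nat_lit 4) (nat_lit 1) (nat_lit 4) (nat_lit 244) (nat_lit 198) (nat_lit 158)))) (XT.nd (nat_lit 156) (nat_lit 0) (nat_lit 0) (XT.nd (nat_lit 78) (nat_lit 0) (nat_lit 0) (XT.lf (nat_lit 0) (nat_lit 147462184620) (nat_lit 152) (nat_lit 507692848102) (nat_lit 0) (nat_lit 140702722697) (nat_lit 1) (nat_lit 5) (nat_lit 3) (nat_lit 4) (nat_lit 1) (nat_lit 4) (nat_lit 245) (nat_lit 198) (nat_lit 157)) (XT.lf (nat_lit 0) (nat_lit 172267960727) (nat_lit 152) (nat_lit 576887786957) (nat_lit 0) (nat_lit 165505627321) (nat_lit 1) (nat_lit 5) (nat_lit 3) (nat_lit 4) (nat_lit 1) (nat_lit 4) (nat_lit 246) (nat_lit 198) (nat_lit 156))) (XT.nd (nat_lit 78) (nat_lit 0) (nat_lit 0) (XT.lf (nat_lit 0) (nat_lit 200791688998) (nat_lit 152) (nat_lit 656467442355) (nat_lit 0) (nat_lit 194026858650) (nat_lit 1) (nat_lit 5) (nat_lit 3) (nat_lit 4) (nat_lit 1) (nat_lit 4) (nat_lit 247) (nat_lit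 198) (nat_lit 155)) (XT.lf (nat_lit 0) (nat_lit 233591442378) (nat_lit 152) (nat_lit 747988807555) (nat_lit 0) (nat_lit 226824440777) (nat_lit 1) (nat_lit 5) (nat_lit 3) (nat_lit 4) (nat_lit 1) (nat_lit 4) (nat_lit 248) (nat_lit 198) (nat_lit 154))))) (XT.nd (nat_lit 312) (nat_lit 0) (nat_lit 0) (XT.nd (nat_lit 156) (nat_lit 0) (nat_lit 0) (XT.nd (nat_lit 78) (nat_lit 0) (nat_lit 0) (XT.lf (nat_lit 0) (nat_lit 271308955173) (nat_lit 152) (nat_lit 853242517961) (nat_lit 0) (nat_lit 264540065525) (nat_lit 1) (nat_lit 5) (nat_lit 3) (nat_lit 4) (nat_lit 1) (nat_lit 4) (nat_lit 249) (nat_lit 198) (nat_lit 153)) (XT.lf (nat_lit 0) (nat_lit 314682178719) (nat_lit 152) (nat_lit 974287885301) (nat_lit 0) (nat_lit 307911647291) (nat_lit 1) (nat_lit 5) (nat_lit 3) (nat_lit 4) (nat_lit 1) (nat_lit 4) (nat_lit 250) (nat_lit 198) (nat_lit 152))) (XT.nd (nat_lit 78) (nat_lit 0) (nat_lit 0) (XT.lf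 (nat_lit 0) (nat_lit 364559719565) (nat_lit 152) (nat_lit 1113493188499) (nat_lit 0) (nat_lit 357787760502) (nat_lit 1) (nat_lit 5) (nat_lit 3) (nat_lit 4) (nat_lit 1) (nat_lit 4) (nat_lit 251) (nat_lit 198) (nat_lit 151)) (XT.lf (nat_lit 0) (nat_lit 421917442639) (nat_lit 152) (nat_lit 1273582009576) (nat_lit 0) (nat_lit 415144242155) (nat_lit 1) (nat_lit 5) (nat_lit 3) (nat_lit 4) (nat_lit 1) (nat_lit 4) (nat_lit 252) (nat_lit 198) (nat_lit 150)))) (XT.nd (nat_lit 156) (nat_lit 0) (nat_lit 0) (XT.nd (nat_lit 78) (nat_lit 0) (nat_lit 0) (XT.lf (nat_lit 0) (nat_lit 487877564263) (nat_lit 152) (nat_lit 1457686521116) (nat_lit 0) (nat_lit 481103284283) (nat_lit 1) (nat_lit 5) (nat_lit 3) (nat_lit 4) (nat_lit 1) (nat_lit 4) (nat_lit 253) (nat_lit 198) (nat_lit 149)) (XT.lf (nat_lit 0) (nat_lit 563730608556) (nat_lit 152) (nat_lit 1669408767912) (nat_lit 0) (nat_lit 556955389882) (nat_lit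 1) (nat_lit 5) (nat_lit 3) (nat_lit 4) (nat_lit 1) (nat_lit 4) (nat_lit 254) (nat_lit 198) (nat_lit 148))) (XT.nd (nat_lit 78) (nat_lit 0) (nat_lit 0) (XT.lf (nat_lit 0) (nat_lit 650960656818) (nat_lit 152) (nat_lit 1912891141748) (nat_lit 0) (nat_lit 644184621890) (nat_lit 1) (nat_lit 5) (nat_lit 3) (nat_lit 4) (nat_lit 1) (nat_lit 4) (nat_lit 255) (nat_lit 198) (nat_lit 147)) (XT.lf (nat_lit 0) (nat_lit 751274383908) (nat_lit 152) (nat_lit 2192897428200) (nat_lit 0) (nat_lit 744497639194) (nat_lit 1) (nat_lit 5) (nat_lit 3) (nat_lit 4) (nat_lit 1) (nat_lit 4) (nat_lit 256) (nat_lit 198) (nat_lit 146)))))) (XT.nd (nat_lit 546) (nat_lit 0) (nat_lit 0) (XT.nd (nat_lit 234) (nat_lit 0) (nat_lit 0) (XT.nd (nat_lit 78) (nat_lit 0) (nat_lit 0) (XT.lf (nat_lit 0) (nat_lit 866634449703) (nat_lit 152) (nat_lit 2514906011132) (nat_lit 0) (nat_lit 859857087783) (nat_lit 1) (nat_lit 5) (nat_lit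 3) (nat_lit 4) (nat_lit 1) (nat_lit 4) (nat_lit 257) (nat_lit 198) (nat_lit 145)) (XT.nd (nat_lit 78) (nat_lit 0) (nat_lit 0) (XT.lf (nat_lit 0) (nat_lit 999297898969) (nat_lit 152) (nat_lit 2885217058473) (nat_lit 0) (nat_lit 992520000348) (nat_lit 1) (nat_lit 5) (nat_lit 3) (nat_lit 4) (nat_lit 1) (nat_lit 4) (nat_lit 258) (nat_lit 198) (nat_lit 144)) (XT.lf (nat_lit 0) (nat_lit 1151860320930) (nat_lit 152) (nat_lit 3311075786364) (nat_lit 0) (nat_lit 1145081955612) (nat_lit 1) (nat_lit 5) (nat_lit 3) (nat_lit 4) (nat_lit 1) (nat_lit 4) (nat_lit 259) (nat_lit 198) (nat_lit 143)))) (XT.nd (nat_lit 156) (nat_lit 0) (nat_lit 0) (XT.nd (nat_lit 78) (nat_lit 0) (nat_lit 0) (XT.lf (nat_lit 0) (nat_lit 1327306632537) (nat_lit 152) (nat_lit 3800814213396) (nat_lit 0) (nat_lit 1320527861397) (nat_lit 1) (nat_lit 5) (nat_lit 3) (nat_lit 4) (nat_lit 1) (nat_lit 4) (nat_lit 260) (nat_lit 198)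 (nat_lit 142)) (XT.lf (nat_lit 0) (nat_lit 1529069479019) (nat_lit 152) (nat_lit 4364014178359) (nat_lit 0) (nat_lit 1522290354990) (nat_lit 1) (nat_lit 5) (nat_lit 3) (nat_lit 4) (nat_lit 1) (nat_lit 4) (nat_lit 261) (nat_lit 198) (nat_lit 141))) (XT.nd (nat_lit 78) (nat_lit 0) (nat_lit 0) (XT.lf (nat_lit 0) (nat_lit 1761096394328) (nat_lit 152) (nat_lit 5011694811001) (nat_lit 0) (nat_lit 1754316963438) (nat_lit 1) (nat_lit 5) (nat_lit 3) (nat_lit 4) (nat_lit 1) (nat_lit 4) (nat_lit 262) (nat_lit 198) (nat_lit 140)) (XT.lf (nat_lit 0) (nat_lit 2027927035502) (nat_lit 152) (nat_lit 5756528123700) (nat_lit 0) (nat_lit 2021147337777) (nat_lit 1) (nat_lit 5) (nat_lit 3) (nat_lit 4) (nat_lit 1) (nat_lit 4) (nat_lit 263) (nat_lit 198) (nat_lit 139))))) (XT.nd (nat_lit 312) (nat_lit 0) (nat_lit 0) (XT.nd (nat_lit 156) (nat_lit 0) (nat_lit 0) (XT.nd (nat_lit 78) (nat_lit 0) (nat_lit 0)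 (XT.lf (nat_lit 0) (nat_lit 2334782002042) (nat_lit 152) (nat_lit 6613086942140) (nat_lit 0) (nat_lit 2328002072287) (nat_lit 1) (nat_lit 5) (nat_lit 3) (nat_lit 4) (nat_lit 1) (nat_lit 4) (nat_lit 264) (nat_lit 198) (nat_lit 138)) (XT.lf (nat_lit 0) (nat_lit 2687664978078) (nat_lit 152) (nat_lit 7598130025812) (nat_lit 0) (nat_lit 2680884846557) (nat_lit 1) (nat_lit 5) (nat_lit 3) (nat_lit 4) (nat_lit 1) (nat_lit 4) (nat_lit 265) (nat_lit 198) (nat_lit 137))) (XT.nd (nat_lit 78) (nat_lit 0) (nat_lit 0) (XT.lf (nat_lit 0) (nat_lit 3093480195748) (nat_lit 152) (nat_lit 8730929956788) (nat_lit 0) (nat_lit 3086699888778) (nat_lit 1) (nat_lit 5) (nat_lit 3) (nat_lit 4) (nat_lit 1) (nat_lit 4) (nat_lit 266) (nat_lit 198) (nat_lit 136)) (XT.lf (nat_lit 0) (nat_lit 3560167518007) (nat_lit 152) (nat_lit 10033650211977) (nat_lit 0) (nat_lit 3553387058473) (nat_lit 1) (nat_lit 5) (nat_lit 3)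 (nat_lit 4) (nat_lit 1) (nat_lit 4) (nat_lit 267) (nat_lit 198) (nat_lit 135)))) (XT.nd (nat_lit 234) (nat_lit 0) (nat_lit 0) (XT.nd (nat_lit 156) (nat_lit 0) (nat_lit 0) (XT.lf (nat_lit 0) (nat_lit 4096857783768) (nat_lit 152) (nat_lit 11531778796374) (nat_lit 0) (nat_lit 4090077191570) (nat_lit 1) (nat_lit 5) (nat_lit 3) (nat_lit 4) (nat_lit 1) (nat_lit 4) (nat_lit 268) (nat_lit 198) (nat_lit 134)) (XT.lf (nat_lit 0) (nat_lit 5423824059309) (nat_lit 152) (nat_lit 15235902485188) (nat_lit 0) (nat_lit 5417043251438) (nat_lit 1) (nat_lit 5) (nat_lit 3) (nat_lit 4) (nat_lit 1) (nat_lit 4) (nat_lit 270) (nat_lit 198) (nat_lit 132))) (XT.nd (nat_lit 78) (nat_lit 0) (nat_lit 0) (XT.lf (nat_lit 0) (nat_lit 6240062452740) (nat_lit 152) (nat_lit 17514369574821) (nat_lit 0) (nat_lit 6233281557640) (nat_lit 1) (nat_lit 5) (nat_lit 3) (nat_lit 4) (nat_lit 1) (nat_lit 4) (nat_lit 271) (nat_lit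 198) (nat_lit 131)) (XT.lf (nat_lit 0) (nat_lit 7178736516657) (nat_lit 152) (nat_lit 20134606894238) (nat_lit 0) (nat_lit 7171955545706) (nat_lit 1) (nat_lit 5) (nat_lit 3) (nat_lit 4) (nat_lit 1) (nat_lit 4) (nat_lit 272) (nat_lit 198) (nat_lit 130))))))) (XT.nd (nat_lit 26364) (nat_lit 0) (nat_lit 152) (XT.nd (nat_lit 25740) (nat_lit 0) (nat_lit 760) (XT.nd (nat_lit 390) (nat_lit 0) (nat_lit 0) (XT.nd (nat_lit 78) (nat_lit 0) (nat_lit 0) (XT.lf (nat_lit 0) (nat_lit 8258211613182) (nat_lit 152) (nat_lit 23147879956211) (nat_lit 0) (nat_lit 8251430576273) (nat_lit 1) (nat_lit 5) (nat_lit 3) (nat_lit 4) (nat_lit 1) (nat_lit 4) (nat_lit 273) (nat_lit 198) (nat_lit 129)) (XT.nd (nat_lit 234) (nat_lit 0) (nat_lit 0) (XT.lf (nat_lit 0) (nat_lit 9499607907245) (nat_lit 152) (nat_lit 26613144103256) (nat_lit 0) (nat_lit 9492826812982) (nat_lit 1) (nat_lit 5) (nat_lit 3) (nat_lit 4) (nat_lit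 1) (nat_lit 4) (nat_lit 274) (nat_lit 198) (nat_lit 128)) (XT.lf (nat_lit 0) (nat_lit 14456968478080) (nat_lit 152) (nat_lit 40451243983429) (nat_lit 0) (nat_lit 14450187252864) (nat_lit 1) (nat_lit 5) (nat_lit 3) (nat_lit 4) (nat_lit 1) (nat_lit 4) (nat_lit 277) (nat_lit 198) (nat_lit 125)))) (XT.nd (nat_lit 156) (nat_lit 0) (nat_lit 0) (XT.nd (nat_lit 78) (nat_lit 0) (nat_lit 0) (XT.lf (nat_lit 0) (nat_lit 16628178110766) (nat_lit 152) (nat_lit 46512013093646) (nat_lit 0) (nat_lit 16621396852757) (nat_lit 1) (nat_lit 5) (nat_lit 3) (nat_lit 4) (nat_lit 1) (nat_lit 4) (nat_lit 278) (nat_lit 198) (nat_lit 124)) (XT.lf (nat_lit 0) (nat_lit 19125069155073) (nat_lit 152) (nat_lit 53481897632928) (nat_lit 0) (nat_lit 19118287868549) (nat_lit 1) (nat_lit 5) (nat_lit 3) (nat_lit 4) (nat_lit 1) (nat_lit 4) (nat_lit 279) (nat_lit 198) (nat_lit 123))) (XT.nd (nat_lit 78) (nat_lit 0) (nat_lit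 0) (XT.lf (nat_lit 0) (nat_lit 21996493827087) (nat_lit 152) (nat_lit 61497264907479) (nat_lit 0) (nat_lit 21989712515767) (nat_lit 1) (nat_lit 5) (nat_lit 3) (nat_lit 4) (nat_lit 1) (nat_lit 4) (nat_lit 280) (nat_lit 198) (nat_lit 122)) (XT.lf (nat_lit 0) (nat_lit 25298632174737) (nat_lit 152) (nat_lit 70714937320497) (nat_lit 0) (nat_lit 25291850841856) (nat_lit 1) (nat_lit 5) (nat_lit 3) (nat_lit 4) (nat_lit 1) (nat_lit 4) (nat_lit 281) (nat_lit 198) (nat_lit 121))))) (XT.nd (nat_lit 312) (nat_lit 456) (nat_lit 0) (XT.nd (nat_lit 156) (nat_lit 228) (nat_lit 0) (XT.nd (nat_lit 78) (nat_lit 76) (nat_lit 0) (XT.lf (nat_lit 0) (nat_lit 1491427393) (nat_lit 76) (nat_lit 285092459) (nat_lit 0) (nat_lit 1491427393) (nat_lit 21) (nat_lit 5) (nat_lit 22) (nat_lit 0) (nat_lit 21) (nat_lit 4) (nat_lit 202) (nat_lit 199) (nat_lit 199)) (XT.lf (nat_lit 0) (nat_lit 2886018115) (nat_lit 76) (nat_lit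 2919235502) (nat_lit 76) (nat_lit 873239739) (nat_lit 20) (nat_lit 4) (nat_lit 21) (nat_lit 5) (nat_lit 21) (nat_lit 4) (nat_lit 203) (nat_lit 199) (nat_lit 198))) (XT.nd (nat_lit 78) (nat_lit 152) (nat_lit 0) (XT.lf (nat_lit 0) (nat_lit 1609619288) (nat_lit 152) (nat_lit 364441043) (nat_lit 76) (nat_lit 4924551397) (nat_lit 19) (nat_lit 5) (nat_lit 21) (nat_lit 5) (nat_lit 20) (nat_lit 4) (nat_lit 204) (nat_lit 199) (nat_lit 197)) (XT.lf (nat_lit 0) (nat_lit 3539793599) (nat_lit 152) (nat_lit 605314703) (nat_lit 228) (nat_lit 3043225322) (nat_lit 17) (nat_lit 5) (nat_lit 19) (nat_lit 5) (nat_lit 20) (nat_lit 4) (nat_lit 205) (nat_lit 199) (nat_lit 196)))) (XT.nd (nat_lit 156) (nat_lit 152) (nat_lit 0) (XT.nd (nat_lit 78) (nat_lit 76) (nat_lit 0) (XT.lf (nat_lit 0) (nat_lit 168584038) (nat_lit 228) (nat_lit 6621041786) (nat_lit 228) (nat_lit 779768153) (nat_lit 14) (nat_lit 4) (nat_lit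 17) (nat_lit 5) (nat_lit 17) (nat_lit 4) (nat_lit 206) (nat_lit 199) (nat_lit 195)) (XT.lf (nat_lit 0) (nat_lit 1560803657) (nat_lit 304) (nat_lit 3502767262) (nat_lit 76) (nat_lit 2953165204) (nat_lit 13) (nat_lit 5) (nat_lit 17) (nat_lit 5) (nat_lit 14) (nat_lit 4) (nat_lit 207) (nat_lit 199) (nat_lit 194))) (XT.nd (nat_lit 78) (nat_lit 0) (nat_lit 0) (XT.lf (nat_lit 0) (nat_lit 673521928) (nat_lit 152) (nat_lit 3241155971) (nat_lit 228) (nat_lit 4654349286) (nat_lit 11) (nat_lit 5) (nat_lit 13) (nat_lit 5) (nat_lit 14) (nat_lit 4) (nat_lit 208) (nat_lit 199) (nat_lit 193)) (XT.lf (nat_lit 0) (nat_lit 5555595834) (nat_lit 152) (nat_lit 987565552) (nat_lit 228) (nat_lit 2676879889) (nat_lit 11) (nat_lit 5) (nat_lit 13) (nat_lit 5) (nat_lit 14) (nat_lit 4) (nat_lit 209) (nat_lit 199) (nat_lit 192)))))) (XT.nd (nat_lit 546) (nat_lit 152) (nat_lit 0) (XT.nd (nat_lit 234) (nat_lit 228)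 (nat_lit 0) (XT.nd (nat_lit 78) (nat_lit 76) (nat_lit 0) (XT.lf (nat_lit 0) (nat_lit 906434919) (nat_lit 152) (nat_lit 8534084348) (nat_lit 152) (nat_lit 550570616) (nat_lit 9) (nat_lit 4) (nat_lit 11) (nat_lit 5) (nat_lit 11) (nat_lit 4) (nat_lit 210) (nat_lit 199) (nat_lit 191)) (XT.nd (nat_lit 78) (nat_lit 0) (nat_lit 0) (XT.lf (nat_lit 0) (nat_lit 1749142177) (nat_lit 228) (nat_lit 4728596912) (nat_lit 76) (nat_lit 4387519661) (nat_lit 8) (nat_lit 5) (nat_lit 11) (nat_lit 5) (nat_lit 9) (nat_lit 4) (nat_lit 211) (nat_lit 199) (nat_lit 190)) (XT.lf (nat_lit 0) (nat_lit 4142171033) (nat_lit 228) (nat_lit 23357793) (nat_lit 76) (nat_lit 7732731507) (nat_lit 8) (nat_lit 5) (nat_lit 11) (nat_lit 5) (nat_lit 9) (nat_lit 4) (nat_lit 212) (nat_lit 199) (nat_lit 189)))) (XT.nd (nat_lit 156) (nat_lit 152) (nat_lit 0) (XT.nd (nat_lit 78) (nat_lit 0) (nat_lit 0) (XT.lf (nat_lit 0) (nat_lit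 5648816037) (nat_lit 76) (nat_lit 1309441074) (nat_lit 152) (nat_lit 6120382302) (nat_lit 7) (nat_lit 5) (nat_lit 8) (nat_lit 5) (nat_lit 9) (nat_lit 4) (nat_lit 213) (nat_lit 199) (nat_lit 188)) (XT.lf (nat_lit 0) (nat_lit 10119563075) (nat_lit 152) (nat_lit 2596363775) (nat_lit 0) (nat_lit 1733503715) (nat_lit 7) (nat_lit 5) (nat_lit 9) (nat_lit 4) (nat_lit 7) (nat_lit 4) (nat_lit 214) (nat_lit 199) (nat_lit 187))) (XT.nd (nat_lit 78) (nat_lit 76) (nat_lit 0) (XT.lf (nat_lit 0) (nat_lit 2941577907) (nat_lit 76) (nat_lit 10858293518) (nat_lit 76) (nat_lit 2220792562) (nat_lit 6) (nat_lit 4) (nat_lit 7) (nat_lit 5) (nat_lit 7) (nat_lit 4) (nat_lit 215) (nat_lit 199) (nat_lit 186)) (XT.lf (nat_lit 0) (nat_lit 191324600) (nat_lit 152) (nat_lit 8444797930) (nat_lit 76) (nat_lit 9190621762) (nat_lit 5) (nat_lit 5) (nat_lit 7) (nat_lit 5) (nat_lit 6) (nat_lit 4) (nat_lit 216) (nat_lit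 199) (nat_lit 185))))) (XT.nd (nat_lit 312) (nat_lit 76) (nat_lit 0) (XT.nd (nat_lit 156) (nat_lit 0) (nat_lit 0) (XT.nd (nat_lit 78) (nat_lit 76) (nat_lit 0) (XT.lf (nat_lit 0) (nat_lit 2618516792) (nat_lit 152) (nat_lit 3416460688) (nat_lit 76) (nat_lit 13871818291) (nat_lit 5) (nat_lit 5) (nat_lit 7) (nat_lit 5) (nat_lit 6) (nat_lit 4) (nat_lit 217) (nat_lit 199) (nat_lit 184)) (XT.lf (nat_lit 0) (nat_lit 2410899372) (nat_lit 76) (nat_lit 2994913695) (nat_lit 152) (nat_lit 16894521231) (nat_lit 4) (nat_lit 5) (nat_lit 5) (nat_lit 5) (nat_lit 6) (nat_lit 4) (nat_lit 218) (nat_lit 199) (nat_lit 183))) (XT.nd (nat_lit 78) (nat_lit 0) (nat_lit 0) (XT.lf (nat_lit 0) (nat_lit 8719370278) (nat_lit 152) (nat_lit 15733802756) (nat_lit 0) (nat_lit 584273519) (nat_lit 4) (nat_lit 5) (nat_lit 6) (nat_lit 4) (nat_lit 4) (nat_lit 4) (nat_lit 219) (nat_lit 199) (nat_lit 182)) (XT.lf (nat_lit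 0) (nat_lit 12585900047) (nat_lit 152) (nat_lit 11249404365) (nat_lit 0) (nat_lit 4342098148) (nat_lit 4) (nat_lit 5) (nat_lit 6) (nat_lit 4) (nat_lit 4) (nat_lit 4) (nat_lit 220) (nat_lit 199) (nat_lit 181)))) (XT.nd (nat_lit 156) (nat_lit 76) (nat_lit 0) (XT.nd (nat_lit 78) (nat_lit 0) (nat_lit 0) (XT.lf (nat_lit 0) (nat_lit 16957038882) (nat_lit 152) (nat_lit 6224488534) (nat_lit 0) (nat_lit 8618710773) (nat_lit 4) (nat_lit 5) (nat_lit 6) (nat_lit 4) (nat_lit 4) (nat_lit 4) (nat_lit 221) (nat_lit 199) (nat_lit 180)) (XT.lf (nat_lit 0) (nat_lit 21918309064) (nat_lit 152) (nat_lit 560741692) (nat_lit 0) (nat_lit 13497784251) (nat_lit 4) (nat_lit 5) (nat_lit 6) (nat_lit 4) (nat_lit 4) (nat_lit 4) (nat_lit 222) (nat_lit 199) (nat_lit 179))) (XT.nd (nat_lit 78) (nat_lit 0) (nat_lit 0) (XT.lf (nat_lit 0) (nat_lit 6424611983) (nat_lit 76) (nat_lit 21408196420) (nat_lit 76) (nat_lit 12916196213)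 (nat_lit 3) (nat_lit 4) (nat_lit 4) (nat_lit 5) (nat_lit 4) (nat_lit 4) (nat_lit 223) (nat_lit 199) (nat_lit 178)) (XT.lf (nat_lit 0) (nat_lit 14425411606) (nat_lit 76) (nat_lit 20184875923) (nat_lit 76) (nat_lit 11630723199) (nat_lit 3) (nat_lit 4) (nat_lit 4) (nat_lit 5) (nat_lit 4) (nat_lit 4) (nat_lit 224) (nat_lit 199) (nat_lit 177))))))))
noncomputable def xc24 : XT := (XT.nd (nat_lit 2262) (nat_lit 0) (nat_lit 0) (XT.nd (nat_lit 1092) (nat_lit 0) (nat_lit 0) (XT.nd (nat_lit 546) (nat_lit 76) (nat_lit 0) (XT.nd (nat_lit 234) (nat_lit 76) (nat_lit 0) (XT.nd (nat_lit 78) (nat_lit 0) (nat_lit 0) (XT.lf (nat_lit 0) (nat_lit 23543394804) (nat_lit 76) (nat_lit 18814466230) (nat_lit 76) (nat_lit 10206267840) (nat_lit 3) (nat_lit 4) (nat_lit 4) (nat_lit 5) (nat_lit 4) (nat_lit 4) (nat_lit 225) (nat_lit 199) (nat_lit 176)) (XT.nd (nat_lit 78) (nat_lit 0) (nat_lit 0) (XT.lf (nat_lit 0)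 (nat_lit 33956956900) (nat_lit 76) (nat_lit 17270154980) (nat_lit 76) (nat_lit 8614960357) (nat_lit 3) (nat_lit 4) (nat_lit 4) (nat_lit 5) (nat_lit 4) (nat_lit 4) (nat_lit 226) (nat_lit 199) (nat_lit 175)) (XT.lf (nat_lit 0) (nat_lit 45869841500) (nat_lit 76) (nat_lit 15521727385) (nat_lit 76) (nat_lit 6825666473) (nat_lit 3) (nat_lit 4) (nat_lit 4) (nat_lit 5) (nat_lit 4) (nat_lit 4) (nat_lit 227) (nat_lit 199) (nat_lit 174)))) (XT.nd (nat_lit 156) (nat_lit 76) (nat_lit 0) (XT.nd (nat_lit 78) (nat_lit 0) (nat_lit 0) (XT.lf (nat_lit 0) (nat_lit 59515126782) (nat_lit 76) (nat_lit 13534975081) (nat_lit 76) (nat_lit 4803378266) (nat_lit 3) (nat_lit 4) (nat_lit 4) (nat_lit 5) (nat_lit 4) (nat_lit 4) (nat_lit 228) (nat_lit 199) (nat_lit 173)) (XT.lf (nat_lit 0) (nat_lit 75159785718) (nat_lit 76) (nat_lit 11271026826) (nat_lit 76) (nat_lit 2508529226) (nat_lit 3) (nat_lit 4) (nat_lit 4)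 (nat_lit 5) (nat_lit 4) (nat_lit 4) (nat_lit 229) (nat_lit 199) (nat_lit 172))) (XT.nd (nat_lit 78) (nat_lit 0) (nat_lit 0) (XT.lf (nat_lit 0) (nat_lit 94540665) (nat_lit 152) (nat_lit 8586105417) (nat_lit 76) (nat_lit 93010426897) (nat_lit 2) (nat_lit 5) (nat_lit 4) (nat_lit 5) (nat_lit 3) (nat_lit 4) (nat_lit 230) (nat_lit 199) (nat_lit 171)) (XT.lf (nat_lit 0) (nat_lit 2810041697) (nat_lit 152) (nat_lit 2771143632) (nat_lit 76) (nat_lit 110759765844) (nat_lit 2) (nat_lit 5) (nat_lit 4) (nat_lit 5) (nat_lit 3) (nat_lit 4) (nat_lit 231) (nat_lit 199) (nat_lit 170))))) (XT.nd (nat_lit 234) (nat_lit 0) (nat_lit 0) (XT.nd (nat_lit 78) (nat_lit 0) (nat_lit 0) (XT.lf (nat_lit 0) (nat_lit 4262445514) (nat_lit 76) (nat_lit 1828483120) (nat_lit 152) (nat_lit 127073781880) (nat_lit 1) (nat_lit 5) (nat_lit 2) (nat_lit 5) (nat_lit 3) (nat_lit 4) (nat_lit 232) (nat_lit 199) (nat_lit 169)) (XT.nd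 (nat_lit 78) (nat_lit 0) (nat_lit 0) (XT.lf (nat_lit 0) (nat_lit 10100757464) (nat_lit 152) (nat_lit 139971368980) (nat_lit 0) (nat_lit 2404480356) (nat_lit 1) (nat_lit 5) (nat_lit 3) (nat_lit 4) (nat_lit 1) (nat_lit 4) (nat_lit 233) (nat_lit 199) (nat_lit 168)) (XT.lf (nat_lit 0) (nat_lit 14783539269) (nat_lit 152) (nat_lit 152817205629) (nat_lit 0) (nat_lit 7073902899) (nat_lit 1) (nat_lit 5) (nat_lit 3) (nat_lit 4) (nat_lit 1) (nat_lit 4) (nat_lit 234) (nat_lit 199) (nat_lit 167)))) (XT.nd (nat_lit 156) (nat_lit 0) (nat_lit 0) (XT.nd (nat_lit 78) (nat_lit 0) (nat_lit 0) (XT.lf (nat_lit 0) (nat_lit 20155180107) (nat_lit 152) (nat_lit 167615392945) (nat_lit 0) (nat_lit 12433926987) (nat_lit 1) (nat_lit 5) (nat_lit 3) (nat_lit 4) (nat_lit 1) (nat_lit 4) (nat_lit 235) (nat_lit 199) (nat_lit 166)) (XT.lf (nat_lit 0) (nat_lit 26320777298) (nat_lit 152) (nat_lit 184655460681) (nat_lit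 0) (nat_lit 18589422656) (nat_lit 1) (nat_lit 5) (nat_lit 3) (nat_lit 4) (nat_lit 1) (nat_lit 4) (nat_lit 236) (nat_lit 199) (nat_lit 165))) (XT.nd (nat_lit 78) (nat_lit 0) (nat_lit 0) (XT.lf (nat_lit 0) (nat_lit 33400962092) (nat_lit 152) (nat_lit 204270801466) (nat_lit 0) (nat_lit 25660823518) (nat_lit 1) (nat_lit 5) (nat_lit 3) (nat_lit 4) (nat_lit 1) (nat_lit 4) (nat_lit 237) (nat_lit 199) (nat_lit 164)) (XT.lf (nat_lit 0) (nat_lit 41534259843) (nat_lit 152) (nat_lit 226845193707) (nat_lit 0) (nat_lit 33786483067) (nat_lit 1) (nat_lit 5) (nat_lit 3) (nat_lit 4) (nat_lit 1) (nat_lit 4) (nat_lit 238) (nat_lit 199) (nat_lit 163)))))) (XT.nd (nat_lit 546) (nat_lit 0) (nat_lit 0) (XT.nd (nat_lit 234) (nat_lit 0) (nat_lit 0) (XT.nd (nat_lit 78) (nat_lit 0) (nat_lit 0) (XT.lf (nat_lit 0) (nat_lit 50879800290) (nat_lit 152) (nat_lit 252820310295) (nat_lit 0) (nat_lit 43125381600) (nat_lit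 1) (nat_lit 5) (nat_lit 3) (nat_lit 4) (nat_lit 1) (nat_lit 4) (nat_lit 239) (nat_lit 199) (nat_lit 162)) (XT.nd (nat_lit 78) (nat_lit 0) (nat_lit 0) (XT.lf (nat_lit 0) (nat_lit 61620430963) (nat_lit 152) (nat_lit 282704360033) (nat_lit 0) (nat_lit 53860236695) (nat_lit 1) (nat_lit 5) (nat_lit 3) (nat_lit 4) (nat_lit 1) (nat_lit 4) (nat_lit 240) (nat_lit 199) (nat_lit 161)) (XT.lf (nat_lit 0) (nat_lit 73966294637) (nat_lit 152) (nat_lit 317082030852) (nat_lit 0) (nat_lit 66201078128) (nat_lit 1) (nat_lit 5) (nat_lit 3) (nat_lit 4) (nat_lit 1) (nat_lit 4) (nat_lit 241) (nat_lit 199) (nat_lit 160)))) (XT.nd (nat_lit 156) (nat_lit 0) (nat_lit 0) (XT.nd (nat_lit 78) (nat_lit 0) (nat_lit 0) (XT.lf (nat_lit 0) (nat_lit 88158940818) (nat_lit 152) (nat_lit 356625929353) (nat_lit 0) (nat_lit 80389357142) (nat_lit 1) (nat_lit 5) (nat_lit 3) (nat_lit 4) (nat_lit 1) (nat_lit 4) (nat_lit 242)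 (nat_lit 199) (nat_lit 159)) (XT.lf (nat_lit 0) (nat_lit 104476051714) (nat_lit 152) (nat_lit 402109740508) (nat_lit 0) (nat_lit 96702670502) (nat_lit 1) (nat_lit 5) (nat_lit 3) (nat_lit 4) (nat_lit 1) (nat_lit 4) (nat_lit 243) (nat_lit 199) (nat_lit 158))) (XT.nd (nat_lit 78) (nat_lit 0) (nat_lit 0) (XT.lf (nat_lit 0) (nat_lit 123236875146) (nat_lit 152) (nat_lit 454423364970) (nat_lit 0) (nat_lit 115460191729) (nat_lit 1) (nat_lit 5) (nat_lit 3) (nat_lit 4) (nat_lit 1) (nat_lit 4) (nat_lit 244) (nat_lit 199) (nat_lit 157)) (XT.lf (nat_lit 0) (nat_lit 144808470705) (nat_lit 152) (nat_lit 514590330173) (nat_lit 0) (nat_lit 137028915805) (nat_lit 1) (nat_lit 5) (nat_lit 3) (nat_lit 4) (nat_lit 1) (nat_lit 4) (nat_lit 245) (nat_lit 199) (nat_lit 156))))) (XT.nd (nat_lit 312) (nat_lit 0) (nat_lit 0) (XT.nd (nat_lit 156) (nat_lit 0) (nat_lit 0) (XT.nd (nat_lit 78) (nat_lit 0) (nat_lit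 0) (XT.lf (nat_lit 0) (nat_lit 169612891346) (nat_lit 152) (nat_lit 583787815872) (nat_lit 0) (nat_lit 161830839504) (nat_lit 1) (nat_lit 5) (nat_lit 3) (nat_lit 4) (nat_lit 1) (nat_lit 4) (nat_lit 246) (nat_lit 199) (nat_lit 155)) (XT.lf (nat_lit 0) (nat_lit 198135440951) (nat_lit 152) (nat_lit 663369685918) (nat_lit 0) (nat_lit 190351217856) (nat_lit 1) (nat_lit 5) (nat_lit 3) (nat_lit 4) (nat_lit 1) (nat_lit 4) (nat_lit 247) (nat_lit 199) (nat_lit 154))) (XT.nd (nat_lit 78) (nat_lit 0) (nat_lit 0) (XT.lf (nat_lit 0) (nat_lit 230934169405) (nat_lit 152) (nat_lit 754892976897) (nat_lit 0) (nat_lit 223148058263) (nat_lit 1) (nat_lit 5) (nat_lit 3) (nat_lit 4) (nat_lit 1) (nat_lit 4) (nat_lit 248) (nat_lit 199) (nat_lit 153)) (XT.lf (nat_lit 0) (nat_lit 268650790959) (nat_lit 152) (nat_lit 860148361895) (nat_lit 0) (nat_lit 260863038037) (nat_lit 1) (nat_lit 5) (nat_lit 3) (nat_lit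 4) (nat_lit 1) (nat_lit 4) (nat_lit 249) (nat_lit 199) (nat_lit 152)))) (XT.nd (nat_lit 156) (nat_lit 0) (nat_lit 0) (XT.nd (nat_lit 78) (nat_lit 0) (nat_lit 0) (XT.lf (nat_lit 0) (nat_lit 312023239513) (nat_lit 152) (nat_lit 981195185401) (nat_lit 0) (nat_lit 304234058957) (nat_lit 1) (nat_lit 5) (nat_lit 3) (nat_lit 4) (nat_lit 1) (nat_lit 4) (nat_lit 250) (nat_lit 199) (nat_lit 151)) (XT.lf (nat_lit 0) (nat_lit 361900106452) (nat_lit 152) (nat_lit 1120401754832) (nat_lit 0) (nat_lit 354109684475) (nat_lit 1) (nat_lit 5) (nat_lit 3) (nat_lit 4) (nat_lit 1) (nat_lit 4) (nat_lit 251) (nat_lit 199) (nat_lit 150))) (XT.nd (nat_lit 78) (nat_lit 0) (nat_lit 0) (XT.lf (nat_lit 0) (nat_lit 419257243521) (nat_lit 152) (nat_lit 1280491676979) (nat_lit 0) (nat_lit 411465742047) (nat_lit 1) (nat_lit 5) (nat_lit 3) (nat_lit 4) (nat_lit 1) (nat_lit 4) (nat_lit 252) (nat_lit 199) (nat_lit 149))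 (XT.lf (nat_lit 0) (nat_lit 485216855576) (nat_lit 152) (nat_lit 1464597145973) (nat_lit 0) (nat_lit 477424415409) (nat_lit 1) (nat_lit 5) (nat_lit 3) (nat_lit 4) (nat_lit 1) (nat_lit 4) (nat_lit 253) (nat_lit 199) (nat_lit 148))))))) (XT.nd (nat_lit 1248) (nat_lit 0) (nat_lit 0) (XT.nd (nat_lit 546) (nat_lit 0) (nat_lit 0) (XT.nd (nat_lit 234) (nat_lit 0) (nat_lit 0) (XT.nd (nat_lit 78) (nat_lit 0) (nat_lit 0) (XT.lf (nat_lit 0) (nat_lit 561069456764) (nat_lit 152) (nat_lit 1676320225336) (nat_lit 0) (nat_lit 553276200342) (nat_lit 1) (nat_lit 5) (nat_lit 3) (nat_lit 4) (nat_lit 1) (nat_lit 4) (nat_lit 254) (nat_lit 199) (nat_lit 147)) (XT.nd (nat_lit 78) (nat_lit 0) (nat_lit 0) (XT.lf (nat_lit 0) (nat_lit 648299119719) (nat_lit 152) (nat_lit 1919803323145) (nat_lit 0) (nat_lit 640505153510) (nat_lit 1) (nat_lit 5) (nat_lit 3) (nat_lit 4) (nat_lit 1) (nat_lit 4) (nat_lit 255) (nat_lit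 199) (nat_lit 146)) (XT.lf (nat_lit 0) (nat_lit 748612511758) (nat_lit 152) (nat_lit 2199810239137) (nat_lit 0) (nat_lit 740817928344) (nat_lit 1) (nat_lit 5) (nat_lit 3) (nat_lit 4) (nat_lit 1) (nat_lit 4) (nat_lit 256) (nat_lit 199) (nat_lit 145)))) (XT.nd (nat_lit 156) (nat_lit 0) (nat_lit 0) (XT.nd (nat_lit 78) (nat_lit 0) (nat_lit 0) (XT.lf (nat_lit 0) (nat_lit 863972286205) (nat_lit 152) (nat_lit 2521819369497) (nat_lit 0) (nat_lit 856177166090) (nat_lit 1) (nat_lit 5) (nat_lit 3) (nat_lit 4) (nat_lit 1) (nat_lit 4) (nat_lit 257) (nat_lit 199) (nat_lit 144)) (XT.lf (nat_lit 0) (nat_lit 996635482124) (nat_lit 152) (nat_lit 2892130892860) (nat_lit 0) (nat_lit 988839895313) (nat_lit 1) (nat_lit 5) (nat_lit 3) (nat_lit 4) (nat_lit 1) (nat_lit 4) (nat_lit 258) (nat_lit 199) (nat_lit 143))) (XT.nd (nat_lit 78) (nat_lit 0) (nat_lit 0) (XT.lf (nat_lit 0) (nat_lit 1149197683784) (nat_lit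 152) (nat_lit 3317990034685) (nat_lit 0) (nat_lit 1141401691150) (nat_lit 1) (nat_lit 5) (nat_lit 3) (nat_lit 4) (nat_lit 1) (nat_lit 4) (nat_lit 259) (nat_lit 199) (nat_lit 142)) (XT.lf (nat_lit 0) (nat_lit 1324643803826) (nat_lit 152) (nat_lit 3807728821660) (nat_lit 0) (nat_lit 1316847458302) (nat_lit 1) (nat_lit 5) (nat_lit 3) (nat_lit 4) (nat_lit 1) (nat_lit 4) (nat_lit 260) (nat_lit 199) (nat_lit 141))))) (XT.nd (nat_lit 312) (nat_lit 0) (nat_lit 0) (XT.nd (nat_lit 156) (nat_lit 0) (nat_lit 0) (XT.nd (nat_lit 78) (nat_lit 0) (nat_lit 0) (XT.lf (nat_lit 0) (nat_lit 1526406483728) (nat_lit 152) (nat_lit 4370929099615) (nat_lit 0) (nat_lit 1518609831344) (nat_lit 1) (nat_lit 5) (nat_lit 3) (nat_lit 4) (nat_lit 1) (nat_lit 4) (nat_lit 261) (nat_lit 199) (nat_lit 140)) (XT.lf (nat_lit 0) (nat_lit 1758433254185) (nat_lit 152) (nat_lit 5018610004425) (nat_lit 0) (nat_lit 1750636334966)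 (nat_lit 1) (nat_lit 5) (nat_lit 3) (nat_lit 4) (nat_lit 1) (nat_lit 4) (nat_lit 262) (nat_lit 199) (nat_lit 139))) (XT.nd (nat_lit 78) (nat_lit 0) (nat_lit 0) (XT.lf (nat_lit 0) (nat_lit 2025263769401) (nat_lit 152) (nat_lit 5763443553793) (nat_lit 0) (nat_lit 2017466618152) (nat_lit 1) (nat_lit 5) (nat_lit 3) (nat_lit 4) (nat_lit 1) (nat_lit 4) (nat_lit 263) (nat_lit 199) (nat_lit 138)) (XT.lf (nat_lit 0) (nat_lit 2332118626413) (nat_lit 152) (nat_lit 6620002578031) (nat_lit 0) (nat_lit 2324321273399) (nat_lit 1) (nat_lit 5) (nat_lit 3) (nat_lit 4) (nat_lit 1) (nat_lit 4) (nat_lit 264) (nat_lit 199) (nat_lit 137)))) (XT.nd (nat_lit 156) (nat_lit 0) (nat_lit 0) (XT.nd (nat_lit 78) (nat_lit 0) (nat_lit 0) (XT.lf (nat_lit 0) (nat_lit 2685001507207) (nat_lit 152) (nat_lit 7605045840657) (nat_lit 0) (nat_lit 2677203978743) (nat_lit 1) (nat_lit 5) (nat_lit 3) (nat_lit 4) (nat_lit 1) (nat_lit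 4) (nat_lit 265) (nat_lit 199) (nat_lit 136)) (XT.lf (nat_lit 0) (nat_lit 3090816642057) (nat_lit 152) (nat_lit 8737845927246) (nat_lit 0) (nat_lit 3083018961030) (nat_lit 1) (nat_lit 5) (nat_lit 3) (nat_lit 4) (nat_lit 1) (nat_lit 4) (nat_lit 266) (nat_lit 199) (nat_lit 135))) (XT.nd (nat_lit 78) (nat_lit 0) (nat_lit 0) (XT.lf (nat_lit 0) (nat_lit 3557503892299) (nat_lit 152) (nat_lit 10040566317751) (nat_lit 0) (nat_lit 3549706078608) (nat_lit 1) (nat_lit 5) (nat_lit 3) (nat_lit 4) (nat_lit 1) (nat_lit 4) (nat_lit 267) (nat_lit 199) (nat_lit 134)) (XT.lf (nat_lit 0) (nat_lit 4094194095437) (nat_lit 152) (nat_lit 11538695019813) (nat_lit 0) (nat_lit 4086396166386) (nat_lit 1) (nat_lit 5) (nat_lit 3) (nat_lit 4) (nat_lit 1) (nat_lit 4) (nat_lit 268) (nat_lit 199) (nat_lit 133)))))) (XT.nd (nat_lit 702) (nat_lit 0) (nat_lit 0) (XT.nd (nat_lit 234) (nat_lit 0) (nat_lit 0) (XT.nd (nat_lit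 78) (nat_lit 0) (nat_lit 0) (XT.lf (nat_lit 0) (nat_lit 5421160269171) (nat_lit 152) (nat_lit 15242818899917) (nat_lit 0) (nat_lit 5413362152577) (nat_lit 1) (nat_lit 5) (nat_lit 3) (nat_lit 4) (nat_lit 1) (nat_lit 4) (nat_lit 270) (nat_lit 199) (nat_lit 131)) (XT.nd (nat_lit 78) (nat_lit 0) (nat_lit 0) (XT.lf (nat_lit 0) (nat_lit 6237398621426) (nat_lit 152) (nat_lit 17521286066917) (nat_lit 0) (nat_lit 6229600428981) (nat_lit 1) (nat_lit 5) (nat_lit 3) (nat_lit 4) (nat_lit 1) (nat_lit 4) (nat_lit 271) (nat_lit 199) (nat_lit 130)) (XT.lf (nat_lit 0) (nat_lit 7176072649538) (nat_lit 152) (nat_lit 20141523453610) (nat_lit 0) (nat_lit 7168274391136) (nat_lit 1) (nat_lit 5) (nat_lit 3) (nat_lit 4) (nat_lit 1) (nat_lit 4) (nat_lit 272) (nat_lit 199) (nat_lit 129)))) (XT.nd (nat_lit 312) (nat_lit 0) (nat_lit 0) (XT.nd (nat_lit 234) (nat_lit 0) (nat_lit 0) (XT.lf (nat_lit 0) (nat_lit 8255547714928)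 (nat_lit 152) (nat_lit 23154796574084) (nat_lit 0) (nat_lit 8247749399171) (nat_lit 1) (nat_lit 5) (nat_lit 3) (nat_lit 4) (nat_lit 1) (nat_lit 4) (nat_lit 273) (nat_lit 199) (nat_lit 128)) (XT.lf (nat_lit 0) (nat_lit 12566296099209) (nat_lit 152) (nat_lit 35187926788521) (nat_lit 0) (nat_lit 12558497652499) (nat_lit 1) (nat_lit 5) (nat_lit 3) (nat_lit 4) (nat_lit 1) (nat_lit 4) (nat_lit 276) (nat_lit 199) (nat_lit 125))) (XT.nd (nat_lit 78) (nat_lit 0) (nat_lit 0) (XT.lf (nat_lit 0) (nat_lit 14454304490937) (nat_lit 152) (nat_lit 40458160768320) (nat_lit 0) (nat_lit 14446506011434) (nat_lit 1) (nat_lit 5) (nat_lit 3) (nat_lit 4) (nat_lit 1) (nat_lit 4) (nat_lit 277) (nat_lit 199) (nat_lit 124)) (XT.lf (nat_lit 0) (nat_lit 16625514108143) (nat_lit 152) (nat_lit 46518929907622) (nat_lit 0) (nat_lit 16617715600125) (nat_lit 1) (nat_lit 5) (nat_lit 3) (nat_lit 4) (nat_lit 1) (nat_lit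 4) (nat_lit 278) (nat_lit 199) (nat_lit 123))))) (XT.nd (nat_lit 25194) (nat_lit 0) (nat_lit 1368) (XT.nd (nat_lit 156) (nat_lit 0) (nat_lit 0) (XT.nd (nat_lit 78) (nat_lit 0) (nat_lit 0) (XT.lf (nat_lit 0) (nat_lit 19122405138990) (nat_lit 152) (nat_lit 53488814472195) (nat_lit 0) (nat_lit 19114606606177) (nat_lit 1) (nat_lit 5) (nat_lit 3) (nat_lit 4) (nat_lit 1) (nat_lit 4) (nat_lit 279) (nat_lit 199) (nat_lit 122)) (XT.lf (nat_lit 0) (nat_lit 21993829799299) (nat_lit 152) (nat_lit 61504181768739) (nat_lit 0) (nat_lit 21986031244924) (nat_lit 1) (nat_lit 5) (nat_lit 3) (nat_lit 4) (nat_lit 1) (nat_lit 4) (nat_lit 280) (nat_lit 199) (nat_lit 121))) (XT.nd (nat_lit 24960) (nat_lit 0) (nat_lit 1596) (XT.lf (nat_lit 0) (nat_lit 25295968136771) (nat_lit 152) (nat_lit 70721854200881) (nat_lit 0) (nat_lit 25288169563647) (nat_lit 1) (nat_lit 5) (nat_lit 3) (nat_lit 4) (nat_lit 1) (nat_lit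 4) (nat_lit 281) (nat_lit 199) (nat_lit 120)) (XT.lf (nat_lit 0) (nat_lit 1073741823) (nat_lit 0) (nat_lit 0) (nat_lit 0) (nat_lit 0) (nat_lit 22) (nat_lit 0) (nat_lit 1) (nat_lit 0) (nat_lit 1) (nat_lit 0) (nat_lit 200) (nat_lit 200) (nat_lit 200)))) (XT.nd (nat_lit 156) (nat_lit 152) (nat_lit 0) (XT.nd (nat_lit 78) (nat_lit 0) (nat_lit 0) (XT.lf (nat_lit 0) (nat_lit 2593786771) (nat_lit 76) (nat_lit 3631301479) (nat_lit 0) (nat_lit 240891643) (nat_lit 21) (nat_lit 5) (nat_lit 22) (nat_lit 0) (nat_lit 21) (nat_lit 4) (nat_lit 201) (nat_lit 200) (nat_lit 199)) (XT.lf (nat_lit 0) (nat_lit 5126278919) (nat_lit 76) (nat_lit 719493895) (nat_lit 0) (nat_lit 727388029) (nat_lit 21) (nat_lit 5) (nat_lit 22) (nat_lit 0) (nat_lit 21) (nat_lit 4) (nat_lit 202) (nat_lit 200) (nat_lit 198))) (XT.nd (nat_lit 78) (nat_lit 0) (nat_lit 0) (XT.lf (nat_lit 0) (nat_lit 914409519) (nat_lit 152) (nat_lit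 4212037172) (nat_lit 76) (nat_lit 1617387176) (nat_lit 19) (nat_lit 5) (nat_lit 21) (nat_lit 5) (nat_lit 20) (nat_lit 4) (nat_lit 203) (nat_lit 200) (nat_lit 197)) (XT.lf (nat_lit 0) (nat_lit 3144191333) (nat_lit 152) (nat_lit 965073013) (nat_lit 76) (nat_lit 2879407993) (nat_lit 19) (nat_lit 5) (nat_lit 21) (nat_lit 5) (nat_lit 20) (nat_lit 4) (nat_lit 204) (nat_lit 200) (nat_lit 196))))))))
noncomputable def xc25 : XT := (XT.nd (nat_lit 2340) (nat_lit 0) (nat_lit 0) (XT.nd (nat_lit 1170) (nat_lit 228) (nat_lit 0) (XT.nd (nat_lit 546) (nat_lit 304) (nat_lit 0) (XT.nd (nat_lit 234) (nat_lit 380) (nat_lit 0) (XT.nd (nat_lit 78) (nat_lit 304) (nat_lit 0) (XT.lf (nat_lit 0) (nat_lit 2742139327) (nat_lit 152) (nat_lit 2752046316) (nat_lit 228) (nat_lit 1815375099) (nat_lit 17) (nat_lit 5) (nat_lit 19) (nat_lit 5) (nat_lit 20) (nat_lit 4) (nat_lit 205) (nat_lit 200) (nat_lit 195)) (XT.nd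 (nat_lit 78) (nat_lit 228) (nat_lit 0) (XT.lf (nat_lit 0) (nat_lit 209292972) (nat_lit 228) (nat_lit 875851716) (nat_lit 76) (nat_lit 6635055205) (nat_lit 16) (nat_lit 5) (nat_lit 19) (nat_lit 5) (nat_lit 17) (nat_lit 5) (nat_lit 206) (nat_lit 200) (nat_lit 194)) (XT.lf (nat_lit 0) (nat_lit 2260855287) (nat_lit 304) (nat_lit 4928192452) (nat_lit 76) (nat_lit 1008787009) (nat_lit 13) (nat_lit 5) (nat_lit 17) (nat_lit 5) (nat_lit 14) (nat_lit 4) (nat_lit 207) (nat_lit 200) (nat_lit 193)))) (XT.nd (nat_lit 156) (nat_lit 228) (nat_lit 0) (XT.nd (nat_lit 78) (nat_lit 152) (nat_lit 0) (XT.lf (nat_lit 0) (nat_lit 4471233125) (nat_lit 304) (nat_lit 945045689) (nat_lit 76) (nat_lit 3357282425) (nat_lit 13) (nat_lit 5) (nat_lit 17) (nat_lit 5) (nat_lit 14) (nat_lit 4) (nat_lit 208) (nat_lit 200) (nat_lit 192)) (XT.lf (nat_lit 0) (nat_lit 3717544304) (nat_lit 152) (nat_lit 3233423536) (nat_lit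 228) (nat_lit 2497581519) (nat_lit 11) (nat_lit 5) (nat_lit 13) (nat_lit 5) (nat_lit 14) (nat_lit 4) (nat_lit 209) (nat_lit 200) (nat_lit 191))) (XT.nd (nat_lit 78) (nat_lit 228) (nat_lit 0) (XT.lf (nat_lit 0) (nat_lit 8948060502) (nat_lit 152) (nat_lit 706217054) (nat_lit 228) (nat_lit 595872603) (nat_lit 11) (nat_lit 5) (nat_lit 13) (nat_lit 5) (nat_lit 14) (nat_lit 4) (nat_lit 210) (nat_lit 200) (nat_lit 190)) (XT.lf (nat_lit 0) (nat_lit 1525801464) (nat_lit 228) (nat_lit 7427679118) (nat_lit 76) (nat_lit 2199523200) (nat_lit 8) (nat_lit 5) (nat_lit 11) (nat_lit 5) (nat_lit 9) (nat_lit 4) (nat_lit 211) (nat_lit 200) (nat_lit 189))))) (XT.nd (nat_lit 312) (nat_lit 228) (nat_lit 0) (XT.nd (nat_lit 156) (nat_lit 0) (nat_lit 0) (XT.nd (nat_lit 78) (nat_lit 76) (nat_lit 0) (XT.lf (nat_lit 0) (nat_lit 3839852398) (nat_lit 228) (nat_lit 2834880846) (nat_lit 76) (nat_lit 5524068899) (nat_lit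 8) (nat_lit 5) (nat_lit 11) (nat_lit 5) (nat_lit 9) (nat_lit 4) (nat_lit 212) (nat_lit 200) (nat_lit 188)) (XT.lf (nat_lit 0) (nat_lit 2455200605) (nat_lit 76) (nat_lit 3999820613) (nat_lit 152) (nat_lit 6955123761) (nat_lit 7) (nat_lit 5) (nat_lit 8) (nat_lit 5) (nat_lit 9) (nat_lit 4) (nat_lit 213) (nat_lit 200) (nat_lit 187))) (XT.nd (nat_lit 78) (nat_lit 0) (nat_lit 0) (XT.lf (nat_lit 0) (nat_lit 8656735979) (nat_lit 76) (nat_lit 817212313) (nat_lit 152) (nat_lit 5329063077) (nat_lit 7) (nat_lit 5) (nat_lit 8) (nat_lit 5) (nat_lit 9) (nat_lit 4) (nat_lit 214) (nat_lit 200) (nat_lit 186)) (XT.lf (nat_lit 0) (nat_lit 12942252260) (nat_lit 152) (nat_lit 925378189) (nat_lit 0) (nat_lit 2539039698) (nat_lit 7) (nat_lit 5) (nat_lit 9) (nat_lit 4) (nat_lit 7) (nat_lit 4) (nat_lit 215) (nat_lit 200) (nat_lit 185)))) (XT.nd (nat_lit 156) (nat_lit 76) (nat_lit 0) (XT.nd (nat_lit 78) (nat_lit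 76) (nat_lit 0) (XT.lf (nat_lit 0) (nat_lit 5349598375) (nat_lit 76) (nat_lit 11736263410) (nat_lit 76) (nat_lit 1142924878) (nat_lit 6) (nat_lit 4) (nat_lit 7) (nat_lit 5) (nat_lit 7) (nat_lit 4) (nat_lit 216) (nat_lit 200) (nat_lit 184)) (XT.lf (nat_lit 0) (nat_lit 1337737018) (nat_lit 152) (nat_lit 7882530873) (nat_lit 76) (nat_lit 11103322120) (nat_lit 5) (nat_lit 5) (nat_lit 7) (nat_lit 5) (nat_lit 6) (nat_lit 4) (nat_lit 217) (nat_lit 200) (nat_lit 183))) (XT.nd (nat_lit 78) (nat_lit 76) (nat_lit 0) (XT.lf (nat_lit 0) (nat_lit 3983219291) (nat_lit 152) (nat_lit 2338506534) (nat_lit 76) (nat_lit 16417031986) (nat_lit 5) (nat_lit 5) (nat_lit 7) (nat_lit 5) (nat_lit 6) (nat_lit 4) (nat_lit 218) (nat_lit 200) (nat_lit 182)) (XT.lf (nat_lit 0) (nat_lit 4290665570) (nat_lit 76) (nat_lit 2834034194) (nat_lit 152) (nat_lit 18377292400) (nat_lit 4) (nat_lit 5) (nat_lit 5) (nat_lit 5)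 (nat_lit 6) (nat_lit 4) (nat_lit 219) (nat_lit 200) (nat_lit 181)))))) (XT.nd (nat_lit 546) (nat_lit 152) (nat_lit 0) (XT.nd (nat_lit 234) (nat_lit 76) (nat_lit 0) (XT.nd (nat_lit 78) (nat_lit 0) (nat_lit 0) (XT.lf (nat_lit 0) (nat_lit 10838822221) (nat_lit 152) (nat_lit 16671038434) (nat_lit 0) (nat_lit 1155218687) (nat_lit 4) (nat_lit 5) (nat_lit 6) (nat_lit 4) (nat_lit 4) (nat_lit 4) (nat_lit 220) (nat_lit 200) (nat_lit 180)) (XT.nd (nat_lit 78) (nat_lit 0) (nat_lit 0) (XT.lf (nat_lit 0) (nat_lit 15179477578) (nat_lit 152) (nat_lit 11699567424) (nat_lit 0) (nat_lit 5413677340) (nat_lit 4) (nat_lit 5) (nat_lit 6) (nat_lit 4) (nat_lit 4) (nat_lit 4) (nat_lit 221) (nat_lit 200) (nat_lit 179)) (XT.lf (nat_lit 0) (nat_lit 20114240387) (nat_lit 152) (nat_lit 6082294339) (nat_lit 0) (nat_lit 10276964754) (nat_lit 4) (nat_lit 5) (nat_lit 6) (nat_lit 4) (nat_lit 4) (nat_lit 4) (nat_lit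 222) (nat_lit 200) (nat_lit 178)))) (XT.nd (nat_lit 156) (nat_lit 0) (nat_lit 0) (XT.nd (nat_lit 78) (nat_lit 0) (nat_lit 0) (XT.lf (nat_lit 0) (nat_lit 319091741) (nat_lit 76) (nat_lit 25433781523) (nat_lit 76) (nat_lit 15534353373) (nat_lit 3) (nat_lit 4) (nat_lit 4) (nat_lit 5) (nat_lit 4) (nat_lit 4) (nat_lit 223) (nat_lit 200) (nat_lit 177)) (XT.lf (nat_lit 0) (nat_lit 8281316309) (nat_lit 76) (nat_lit 24227395388) (nat_lit 76) (nat_lit 14273921572) (nat_lit 3) (nat_lit 4) (nat_lit 4) (nat_lit 5) (nat_lit 4) (nat_lit 4) (nat_lit 224) (nat_lit 200) (nat_lit 176))) (XT.nd (nat_lit 78) (nat_lit 0) (nat_lit 0) (XT.lf (nat_lit 0) (nat_lit 17365755980) (nat_lit 76) (nat_lit 22871711229) (nat_lit 76) (nat_lit 12871241180) (nat_lit 3) (nat_lit 4) (nat_lit 4) (nat_lit 5) (nat_lit 4) (nat_lit 4) (nat_lit 225) (nat_lit 200) (nat_lit 175)) (XT.lf (nat_lit 0) (nat_lit 27750149793) (nat_lit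 76) (nat_lit 21340204789) (nat_lit 76) (nat_lit 11298868452) (nat_lit 3) (nat_lit 4) (nat_lit 4) (nat_lit 5) (nat_lit 4) (nat_lit 4) (nat_lit 226) (nat_lit 200) (nat_lit 174))))) (XT.nd (nat_lit 312) (nat_lit 152) (nat_lit 0) (XT.nd (nat_lit 156) (nat_lit 0) (nat_lit 0) (XT.nd (nat_lit 78) (nat_lit 0) (nat_lit 0) (XT.lf (nat_lit 0) (nat_lit 39637670668) (nat_lit 76) (nat_lit 19602911813) (nat_lit 76) (nat_lit 9526039572) (nat_lit 3) (nat_lit 4) (nat_lit 4) (nat_lit 5) (nat_lit 4) (nat_lit 4) (nat_lit 227) (nat_lit 200) (nat_lit 173)) (XT.lf (nat_lit 0) (nat_lit 53260900537) (nat_lit 76) (nat_lit 17625841785) (nat_lit 76) (nat_lit 7518068759) (nat_lit 3) (nat_lit 4) (nat_lit 4) (nat_lit 5) (nat_lit 4) (nat_lit 4) (nat_lit 228) (nat_lit 200) (nat_lit 172))) (XT.nd (nat_lit 78) (nat_lit 0) (nat_lit 0) (XT.lf (nat_lit 0) (nat_lit 68886380853) (nat_lit 76) (nat_lit 15370312902) (nat_lit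 76) (nat_lit 5235669627) (nat_lit 3) (nat_lit 4) (nat_lit 4) (nat_lit 5) (nat_lit 4) (nat_lit 4) (nat_lit 229) (nat_lit 200) (nat_lit 171)) (XT.lf (nat_lit 0) (nat_lit 86819827535) (nat_lit 76) (nat_lit 12792195249) (nat_lit 76) (nat_lit 2634186541) (nat_lit 3) (nat_lit 4) (nat_lit 4) (nat_lit 5) (nat_lit 4) (nat_lit 4) (nat_lit 230) (nat_lit 200) (nat_lit 170)))) (XT.nd (nat_lit 156) (nat_lit 76) (nat_lit 0) (XT.nd (nat_lit 78) (nat_lit 0) (nat_lit 0) (XT.lf (nat_lit 0) (nat_lit 307252164) (nat_lit 152) (nat_lit 9517734321) (nat_lit 76) (nat_lit 107088799294) (nat_lit 2) (nat_lit 5) (nat_lit 4) (nat_lit 5) (nat_lit 3) (nat_lit 4) (nat_lit 231) (nat_lit 200) (nat_lit 169)) (XT.lf (nat_lit 0) (nat_lit 3404183081) (nat_lit 152) (nat_lit 2877000474) (nat_lit 76) (nat_lit 127483998862) (nat_lit 2) (nat_lit 5) (nat_lit 4) (nat_lit 5) (nat_lit 3) (nat_lit 4) (nat_lit 232) (nat_lit 200)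 (nat_lit 168))) (XT.nd (nat_lit 78) (nat_lit 0) (nat_lit 0) (XT.lf (nat_lit 0) (nat_lit 5197544558) (nat_lit 76) (nat_lit 1969386516) (nat_lit 152) (nat_lit 145947247926) (nat_lit 1) (nat_lit 5) (nat_lit 2) (nat_lit 5) (nat_lit 3) (nat_lit 4) (nat_lit 233) (nat_lit 200) (nat_lit 167)) (XT.lf (nat_lit 0) (nat_lit 11761858626) (nat_lit 152) (nat_lit 160692771911) (nat_lit 0) (nat_lit 2870800787) (nat_lit 1) (nat_lit 5) (nat_lit 3) (nat_lit 4) (nat_lit 1) (nat_lit 4) (nat_lit 234) (nat_lit 200) (nat_lit 166))))))) (XT.nd (nat_lit 1170) (nat_lit 0) (nat_lit 0) (XT.nd (nat_lit 546) (nat_lit 0) (nat_lit 0) (XT.nd (nat_lit 234) (nat_lit 0) (nat_lit 0) (XT.nd (nat_lit 78) (nat_lit 0) (nat_lit 0) (XT.lf (nat_lit 0) (nat_lit 17128015849) (nat_lit 152) (nat_lit 175501262633) (nat_lit 0) (nat_lit 8226856488) (nat_lit 1) (nat_lit 5) (nat_lit 3) (nat_lit 4) (nat_lit 1) (nat_lit 4) (nat_lit 235)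 (nat_lit 200) (nat_lit 165)) (XT.nd (nat_lit 78) (nat_lit 0) (nat_lit 0) (XT.lf (nat_lit 0) (nat_lit 23288844679) (nat_lit 152) (nat_lit 192550289852) (nat_lit 0) (nat_lit 14378901387) (nat_lit 1) (nat_lit 5) (nat_lit 3) (nat_lit 4) (nat_lit 1) (nat_lit 4) (nat_lit 236) (nat_lit 200) (nat_lit 164)) (XT.lf (nat_lit 0) (nat_lit 30364883071) (nat_lit 152) (nat_lit 212173421492) (nat_lit 0) (nat_lit 21447301578) (nat_lit 1) (nat_lit 5) (nat_lit 3) (nat_lit 4) (nat_lit 1) (nat_lit 4) (nat_lit 237) (nat_lit 200) (nat_lit 163)))) (XT.nd (nat_lit 156) (nat_lit 0) (nat_lit 0) (XT.nd (nat_lit 78) (nat_lit 0) (nat_lit 0) (XT.lf (nat_lit 0) (nat_lit 38494575256) (nat_lit 152) (nat_lit 234754588389) (nat_lit 0) (nat_lit 29570351849) (nat_lit 1) (nat_lit 5) (nat_lit 3) (nat_lit 4) (nat_lit 1) (nat_lit 4) (nat_lit 238) (nat_lit 200) (nat_lit 162)) (XT.lf (nat_lit 0) (nat_lit 47836980429) (nat_lit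 152) (nat_lit 260735595983) (nat_lit 0) (nat_lit 38906981443) (nat_lit 1) (nat_lit 5) (nat_lit 3) (nat_lit 4) (nat_lit 1) (nat_lit 4) (nat_lit 239) (nat_lit 200) (nat_lit 161))) (XT.nd (nat_lit 78) (nat_lit 0) (nat_lit 0) (XT.lf (nat_lit 0) (nat_lit 58574884776) (nat_lit 152) (nat_lit 290624768335) (nat_lit 0) (nat_lit 49639863549) (nat_lit 1) (nat_lit 5) (nat_lit 3) (nat_lit 4) (nat_lit 1) (nat_lit 4) (nat_lit 240) (nat_lit 200) (nat_lit 160)) (XT.lf (nat_lit 0) (nat_lit 70918377732) (nat_lit 152) (nat_lit 325006893600) (nat_lit 0) (nat_lit 61978989338) (nat_lit 1) (nat_lit 5) (nat_lit 3) (nat_lit 4) (nat_lit 1) (nat_lit 4) (nat_lit 241) (nat_lit 200) (nat_lit 159))))) (XT.nd (nat_lit 312) (nat_lit 0) (nat_lit 0) (XT.nd (nat_lit 156) (nat_lit 0) (nat_lit 0) (XT.nd (nat_lit 78) (nat_lit 0) (nat_lit 0) (XT.lf (nat_lit 0) (nat_lit 85108962419) (nat_lit 152) (nat_lit 364554665533) (nat_lit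 0) (nat_lit 76165776489) (nat_lit 1) (nat_lit 5) (nat_lit 3) (nat_lit 4) (nat_lit 1) (nat_lit 4) (nat_lit 242) (nat_lit 200) (nat_lit 158)) (XT.lf (nat_lit 0) (nat_lit 101424280711) (nat_lit 152) (nat_lit 410041844890) (nat_lit 0) (nat_lit 92477792576) (nat_lit 1) (nat_lit 5) (nat_lit 3) (nat_lit 4) (nat_lit 1) (nat_lit 4) (nat_lit 243) (nat_lit 200) (nat_lit 157))) (XT.nd (nat_lit 78) (nat_lit 0) (nat_lit 0) (XT.lf (nat_lit 0) (nat_lit 120183545358) (nat_lit 152) (nat_lit 462358398222) (nat_lit 0) (nat_lit 111234185740) (nat_lit 1) (nat_lit 5) (nat_lit 3) (nat_lit 4) (nat_lit 1) (nat_lit 4) (nat_lit 244) (nat_lit 200) (nat_lit 156)) (XT.lf (nat_lit 0) (nat_lit 141753785451) (nat_lit 152) (nat_lit 522527910270) (nat_lit 0) (nat_lit 132801928891) (nat_lit 1) (nat_lit 5) (nat_lit 3) (nat_lit 4) (nat_lit 1) (nat_lit 4) (nat_lit 245) (nat_lit 200) (nat_lit 155)))) (XT.nd (nat_lit 156)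 (nat_lit 0) (nat_lit 0) (XT.nd (nat_lit 78) (nat_lit 0) (nat_lit 0) (XT.lf (nat_lit 0) (nat_lit 166557027426) (nat_lit 152) (nat_lit 591727610616) (nat_lit 0) (nat_lit 157602999613) (nat_lit 1) (nat_lit 5) (nat_lit 3) (nat_lit 4) (nat_lit 1) (nat_lit 4) (nat_lit 246) (nat_lit 200) (nat_lit 154)) (XT.lf (nat_lit 0) (nat_lit 195078552105) (nat_lit 152) (nat_lit 671311406442) (nat_lit 0) (nat_lit 186122636245) (nat_lit 1) (nat_lit 5) (nat_lit 3) (nat_lit 4) (nat_lit 1) (nat_lit 4) (nat_lit 247) (nat_lit 200) (nat_lit 153))) (XT.nd (nat_lit 78) (nat_lit 0) (nat_lit 0) (XT.lf (nat_lit 0) (nat_lit 227876389317) (nat_lit 152) (nat_lit 762836372013) (nat_lit 0) (nat_lit 218918831678) (nat_lit 1) (nat_lit 5) (nat_lit 3) (nat_lit 4) (nat_lit 1) (nat_lit 4) (nat_lit 248) (nat_lit 200) (nat_lit 152)) (XT.lf (nat_lit 0) (nat_lit 265592235879) (nat_lit 152) (nat_lit 868093213178) (nat_lit 0) (nat_lit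 256633250605) (nat_lit 1) (nat_lit 5) (nat_lit 3) (nat_lit 4) (nat_lit 1) (nat_lit 4) (nat_lit 249) (nat_lit 200) (nat_lit 151)))))) (XT.nd (nat_lit 546) (nat_lit 0) (nat_lit 0) (XT.nd (nat_lit 234) (nat_lit 0) (nat_lit 0) (XT.nd (nat_lit 78) (nat_lit 0) (nat_lit 0) (XT.lf (nat_lit 0) (nat_lit 308964010528) (nat_lit 152) (nat_lit 989141302915) (nat_lit 0) (nat_lit 300003783832) (nat_lit 1) (nat_lit 5) (nat_lit 3) (nat_lit 4) (nat_lit 1) (nat_lit 4) (nat_lit 250) (nat_lit 200) (nat_lit 150)) (XT.nd (nat_lit 78) (nat_lit 0) (nat_lit 0) (XT.lf (nat_lit 0) (nat_lit 358840291462) (nat_lit 152) (nat_lit 1128348973416) (nat_lit 0) (nat_lit 349878985270) (nat_lit 1) (nat_lit 5) (nat_lit 3) (nat_lit 4) (nat_lit 1) (nat_lit 4) (nat_lit 251) (nat_lit 200) (nat_lit 149)) (XT.lf (nat_lit 0) (nat_lit 416196918961) (nat_lit 152) (nat_lit 1288439853017) (nat_lit 0) (nat_lit 407234674076) (nat_lit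 1) (nat_lit 5) (nat_lit 3) (nat_lit 4) (nat_lit 1) (nat_lit 4) (nat_lit 252) (nat_lit 200) (nat_lit 148)))) (XT.nd (nat_lit 156) (nat_lit 0) (nat_lit 0) (XT.nd (nat_lit 78) (nat_lit 0) (nat_lit 0) (XT.lf (nat_lit 0) (nat_lit 482156087911) (nat_lit 152) (nat_lit 1472546154579) (nat_lit 0) (nat_lit 473193026771) (nat_lit 1) (nat_lit 5) (nat_lit 3) (nat_lit 4) (nat_lit 1) (nat_lit 4) (nat_lit 253) (nat_lit 200) (nat_lit 147)) (XT.lf (nat_lit 0) (nat_lit 558008303792) (nat_lit 152) (nat_lit 1684269957914) (nat_lit 0) (nat_lit 549044532865) (nat_lit 1) (nat_lit 5) (nat_lit 3) (nat_lit 4) (nat_lit 1) (nat_lit 4) (nat_lit 254) (nat_lit 200) (nat_lit 146))) (XT.nd (nat_lit 78) (nat_lit 0) (nat_lit 0) (XT.lf (nat_lit 0) (nat_lit 645237631696) (nat_lit 152) (nat_lit 1927753685264) (nat_lit 0) (nat_lit 636273243564) (nat_lit 1) (nat_lit 5) (nat_lit 3) (nat_lit 4) (nat_lit 1) (nat_lit 4) (nat_lit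 255) (nat_lit 200) (nat_lit 145)) (XT.lf (nat_lit 0) (nat_lit 745550732387) (nat_lit 152) (nat_lit 2207761148683) (nat_lit 0) (nat_lit 736585807554) (nat_lit 1) (nat_lit 5) (nat_lit 3) (nat_lit 4) (nat_lit 1) (nat_lit 4) (nat_lit 256) (nat_lit 200) (nat_lit 144))))) (XT.nd (nat_lit 312) (nat_lit 0) (nat_lit 0) (XT.nd (nat_lit 156) (nat_lit 0) (nat_lit 0) (XT.nd (nat_lit 78) (nat_lit 0) (nat_lit 0) (XT.lf (nat_lit 0) (nat_lit 860910253488) (nat_lit 152) (nat_lit 2529770755066) (nat_lit 0) (nat_lit 851944861958) (nat_lit 1) (nat_lit 5) (nat_lit 3) (nat_lit 4) (nat_lit 1) (nat_lit 4) (nat_lit 257) (nat_lit 200) (nat_lit 143)) (XT.lf (nat_lit 0) (nat_lit 993573229106) (nat_lit 152) (nat_lit 2900082692363) (nat_lit 0) (nat_lit 984607431754) (nat_lit 1) (nat_lit 5) (nat_lit 3) (nat_lit 4) (nat_lit 1) (nat_lit 4) (nat_lit 258) (nat_lit 200) (nat_lit 142))) (XT.nd (nat_lit 78) (nat_lit 0)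 (nat_lit 0) (XT.lf (nat_lit 0) (nat_lit 1146135239199) (nat_lit 152) (nat_lit 3325942194130) (nat_lit 0) (nat_lit 1137169088958) (nat_lit 1) (nat_lit 5) (nat_lit 3) (nat_lit 4) (nat_lit 1) (nat_lit 4) (nat_lit 259) (nat_lit 200) (nat_lit 141)) (XT.lf (nat_lit 0) (nat_lit 1321581192662) (nat_lit 152) (nat_lit 3815681294098) (nat_lit 0) (nat_lit 1312614735560) (nat_lit 1) (nat_lit 5) (nat_lit 3) (nat_lit 4) (nat_lit 1) (nat_lit 4) (nat_lit 260) (nat_lit 200) (nat_lit 140)))) (XT.nd (nat_lit 156) (nat_lit 0) (nat_lit 0) (XT.nd (nat_lit 78) (nat_lit 0) (nat_lit 0) (XT.lf (nat_lit 0) (nat_lit 1523343727713) (nat_lit 152) (nat_lit 4378881844221) (nat_lit 0) (nat_lit 1514377003776) (nat_lit 1) (nat_lit 5) (nat_lit 3) (nat_lit 4) (nat_lit 1) (nat_lit 4) (nat_lit 261) (nat_lit 200) (nat_lit 139)) (XT.lf (nat_lit 0) (nat_lit 1755370372212) (nat_lit 152) (nat_lit 5026562985699) (nat_lit 0) (nat_lit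 1746403416245) (nat_lit 1) (nat_lit 5) (nat_lit 3) (nat_lit 4) (nat_lit 1) (nat_lit 4) (nat_lit 262) (nat_lit 200) (nat_lit 138))) (XT.nd (nat_lit 78) (nat_lit 0) (nat_lit 0) (XT.lf (nat_lit 0) (nat_lit 2022200777900) (nat_lit 152) (nat_lit 5771396740864) (nat_lit 0) (nat_lit 2013233620167) (nat_lit 1) (nat_lit 5) (nat_lit 3) (nat_lit 4) (nat_lit 1) (nat_lit 4) (nat_lit 263) (nat_lit 200) (nat_lit 137)) (XT.lf (nat_lit 0) (nat_lit 2329055539669) (nat_lit 152) (nat_lit 6627955944057) (nat_lit 0) (nat_lit 2320088206488) (nat_lit 1) (nat_lit 5) (nat_lit 3) (nat_lit 4) (nat_lit 1) (nat_lit 4) (nat_lit 264) (nat_lit 200) (nat_lit 136))))))))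
noncomputable def xc26 : XT := (XT.nd (nat_lit 28002) (nat_lit 0) (nat_lit 0) (XT.nd (nat_lit 26832) (nat_lit 0) (nat_lit 228) (XT.nd (nat_lit 1170) (nat_lit 0) (nat_lit 0) (XT.nd (nat_lit 858) (nat_lit 0) (nat_lit 0) (XT.nd (nat_lit 78) (nat_lit 0) (nat_lit 0) (XT.lf (nat_lit 0) (nat_lit 2681938337643) (nat_lit 152) (nat_lit 7612999362297) (nat_lit 0) (nat_lit 2672970851898) (nat_lit 1) (nat_lit 5) (nat_lit 3) (nat_lit 4) (nat_lit 1) (nat_lit 4) (nat_lit 265) (nat_lit 200) (nat_lit 135)) (XT.nd (nat_lit 78) (nat_lit 0) (nat_lit 0) (XT.lf (nat_lit 0) (nat_lit 3087753400477) (nat_lit 152) (nat_lit 8745799584201) (nat_lit 0) (nat_lit 3078785782068) (nat_lit 1) (nat_lit 5) (nat_lit 3) (nat_lit 4) (nat_lit 1) (nat_lit 4) (nat_lit 266) (nat_lit 200) (nat_lit 134)) (XT.lf (nat_lit 0) (nat_lit 3554440588096) (nat_lit 152) (nat_lit 10048520092372) (nat_lit 0) (nat_lit 3545472854326) (nat_lit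 1) (nat_lit 5) (nat_lit 3) (nat_lit 4) (nat_lit 1) (nat_lit 4) (nat_lit 267) (nat_lit 200) (nat_lit 133)))) (XT.nd (nat_lit 156) (nat_lit 0) (nat_lit 0) (XT.nd (nat_lit 78) (nat_lit 0) (nat_lit 0) (XT.lf (nat_lit 0) (nat_lit 12563232496193) (nat_lit 152) (nat_lit 35195881124593) (nat_lit 0) (nat_lit 12554264211973) (nat_lit 1) (nat_lit 5) (nat_lit 3) (nat_lit 4) (nat_lit 1) (nat_lit 4) (nat_lit 276) (nat_lit 200) (nat_lit 124)) (XT.lf (nat_lit 0) (nat_lit 14451240872441) (nat_lit 152) (nat_lit 40466115133477) (nat_lit 0) (nat_lit 14442272559706) (nat_lit 1) (nat_lit 5) (nat_lit 3) (nat_lit 4) (nat_lit 1) (nat_lit 4) (nat_lit 277) (nat_lit 200) (nat_lit 123))) (XT.nd (nat_lit 78) (nat_lit 0) (nat_lit 0) (XT.lf (nat_lit 0) (nat_lit 16622450476187) (nat_lit 152) (nat_lit 46526884298071) (nat_lit 0) (nat_lit 16613482138656) (nat_lit 1) (nat_lit 5) (nat_lit 3) (nat_lit 4) (nat_lit 1) (nat_lit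 4) (nat_lit 278) (nat_lit 200) (nat_lit 122)) (XT.lf (nat_lit 0) (nat_lit 19119341495329) (nat_lit 152) (nat_lit 53496768884637) (nat_lit 0) (nat_lit 19110373136236) (nat_lit 1) (nat_lit 5) (nat_lit 3) (nat_lit 4) (nat_lit 1) (nat_lit 4) (nat_lit 279) (nat_lit 200) (nat_lit 121))))) (XT.nd (nat_lit 25350) (nat_lit 0) (nat_lit 912) (XT.nd (nat_lit 25194) (nat_lit 0) (nat_lit 1292) (XT.nd (nat_lit 25116) (nat_lit 0) (nat_lit 1520) (XT.lf (nat_lit 0) (nat_lit 21990766145460) (nat_lit 152) (nat_lit 61512136200305) (nat_lit 0) (nat_lit 21981797767618) (nat_lit 1) (nat_lit 5) (nat_lit 3) (nat_lit 4) (nat_lit 1) (nat_lit 4) (nat_lit 280) (nat_lit 200) (nat_lit 120)) (XT.lf (nat_lit 0) (nat_lit 1237943686) (nat_lit 0) (nat_lit 1237943686) (nat_lit 76) (nat_lit 789474811) (nat_lit 21) (nat_lit 5) (nat_lit 21) (nat_lit 3) (nat_lit 22) (nat_lit 0) (nat_lit 201) (nat_lit 201) (nat_lit 198)))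 (XT.nd (nat_lit 78) (nat_lit 0) (nat_lit 0) (XT.lf (nat_lit 0) (nat_lit 548358705) (nat_lit 228) (nat_lit 1271824304) (nat_lit 228) (nat_lit 4850283680) (nat_lit 18) (nat_lit 3) (nat_lit 21) (nat_lit 3) (nat_lit 21) (nat_lit 5) (nat_lit 202) (nat_lit 201) (nat_lit 197)) (XT.lf (nat_lit 76) (nat_lit 1794642841) (nat_lit 0) (nat_lit 739823676) (nat_lit 228) (nat_lit 4338485826) (nat_lit 19) (nat_lit 5) (nat_lit 18) (nat_lit 3) (nat_lit 21) (nat_lit 5) (nat_lit 203) (nat_lit 201) (nat_lit 196)))) (XT.nd (nat_lit 156) (nat_lit 304) (nat_lit 0) (XT.nd (nat_lit 78) (nat_lit 152) (nat_lit 0) (XT.lf (nat_lit 0) (nat_lit 4581148267) (nat_lit 152) (nat_lit 1926720427) (nat_lit 76) (nat_lit 640729430) (nat_lit 19) (nat_lit 5) (nat_lit 21) (nat_lit 5) (nat_lit 20) (nat_lit 4) (nat_lit 204) (nat_lit 201) (nat_lit 195)) (XT.lf (nat_lit 0) (nat_lit 1566230840) (nat_lit 152) (nat_lit 5183641141)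 (nat_lit 228) (nat_lit 749711482) (nat_lit 17) (nat_lit 5) (nat_lit 19) (nat_lit 5) (nat_lit 20) (nat_lit 4) (nat_lit 205) (nat_lit 201) (nat_lit 194))) (XT.nd (nat_lit 78) (nat_lit 228) (nat_lit 0) (XT.lf (nat_lit 0) (nat_lit 1052468716) (nat_lit 228) (nat_lit 2405171827) (nat_lit 76) (nat_lit 4467302928) (nat_lit 16) (nat_lit 5) (nat_lit 19) (nat_lit 5) (nat_lit 17) (nat_lit 5) (nat_lit 206) (nat_lit 201) (nat_lit 193)) (XT.lf (nat_lit 0) (nat_lit 1529756905) (nat_lit 228) (nat_lit 1343222026) (nat_lit 304) (nat_lit 5566168178) (nat_lit 13) (nat_lit 5) (nat_lit 16) (nat_lit 5) (nat_lit 17) (nat_lit 5) (nat_lit 207) (nat_lit 201) (nat_lit 192)))))) (XT.nd (nat_lit 546) (nat_lit 228) (nat_lit 0) (XT.nd (nat_lit 234) (nat_lit 304) (nat_lit 0) (XT.nd (nat_lit 78) (nat_lit 152) (nat_lit 0) (XT.lf (nat_lit 0) (nat_lit 4927208727) (nat_lit 304) (nat_lit 2986432917) (nat_lit 76) (nat_lit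 1126315878) (nat_lit 13) (nat_lit 5) (nat_lit 17) (nat_lit 5) (nat_lit 14) (nat_lit 4) (nat_lit 208) (nat_lit 201) (nat_lit 191)) (XT.nd (nat_lit 78) (nat_lit 0) (nat_lit 0) (XT.lf (nat_lit 0) (nat_lit 1366112500) (nat_lit 152) (nat_lit 5856047440) (nat_lit 228) (nat_lit 2521948195) (nat_lit 11) (nat_lit 5) (nat_lit 13) (nat_lit 5) (nat_lit 14) (nat_lit 4) (nat_lit 209) (nat_lit 201) (nat_lit 190)) (XT.lf (nat_lit 0) (nat_lit 6500502291) (nat_lit 152) (nat_lit 3344973301) (nat_lit 228) (nat_lit 713488947) (nat_lit 11) (nat_lit 5) (nat_lit 13) (nat_lit 5) (nat_lit 14) (nat_lit 4) (nat_lit 210) (nat_lit 201) (nat_lit 189)))) (XT.nd (nat_lit 156) (nat_lit 76) (nat_lit 0) (XT.nd (nat_lit 78) (nat_lit 0) (nat_lit 0) (XT.lf (nat_lit 0) (nat_lit 719176227) (nat_lit 152) (nat_lit 396394745) (nat_lit 228) (nat_lit 10393390591) (nat_lit 8) (nat_lit 5) (nat_lit 10) (nat_lit 5) (nat_lit 11) (nat_lit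 5) (nat_lit 211) (nat_lit 201) (nat_lit 188)) (XT.lf (nat_lit 0) (nat_lit 3344531592) (nat_lit 228) (nat_lit 6278347853) (nat_lit 76) (nat_lit 2945470192) (nat_lit 8) (nat_lit 5) (nat_lit 11) (nat_lit 5) (nat_lit 9) (nat_lit 4) (nat_lit 212) (nat_lit 201) (nat_lit 187))) (XT.nd (nat_lit 78) (nat_lit 76) (nat_lit 0) (XT.lf (nat_lit 0) (nat_lit 5798317135) (nat_lit 228) (nat_lit 1291866771) (nat_lit 76) (nat_lit 6714434462) (nat_lit 8) (nat_lit 5) (nat_lit 11) (nat_lit 5) (nat_lit 9) (nat_lit 4) (nat_lit 213) (nat_lit 201) (nat_lit 186)) (XT.lf (nat_lit 0) (nat_lit 4702261162) (nat_lit 76) (nat_lit 4000972033) (nat_lit 152) (nat_lit 6511977915) (nat_lit 7) (nat_lit 5) (nat_lit 8) (nat_lit 5) (nat_lit 9) (nat_lit 4) (nat_lit 214) (nat_lit 201) (nat_lit 185))))) (XT.nd (nat_lit 312) (nat_lit 76) (nat_lit 0) (XT.nd (nat_lit 156) (nat_lit 76) (nat_lit 0) (XT.nd (nat_lit 78) (nat_lit 76)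 (nat_lit 0) (XT.lf (nat_lit 0) (nat_lit 11588968520) (nat_lit 76) (nat_lit 419079663) (nat_lit 152) (nat_lit 4835888269) (nat_lit 7) (nat_lit 5) (nat_lit 8) (nat_lit 5) (nat_lit 9) (nat_lit 4) (nat_lit 215) (nat_lit 201) (nat_lit 184)) (XT.lf (nat_lit 0) (nat_lit 542061959) (nat_lit 76) (nat_lit 15350555790) (nat_lit 76) (nat_lit 2812763577) (nat_lit 6) (nat_lit 4) (nat_lit 7) (nat_lit 5) (nat_lit 7) (nat_lit 4) (nat_lit 216) (nat_lit 201) (nat_lit 183))) (XT.nd (nat_lit 78) (nat_lit 76) (nat_lit 0) (XT.lf (nat_lit 0) (nat_lit 7639209233) (nat_lit 76) (nat_lit 12929009814) (nat_lit 76) (nat_lit 247455052) (nat_lit 6) (nat_lit 4) (nat_lit 7) (nat_lit 5) (nat_lit 7) (nat_lit 4) (nat_lit 217) (nat_lit 201) (nat_lit 182)) (XT.lf (nat_lit 0) (nat_lit 2383549728) (nat_lit 152) (nat_lit 7681933757) (nat_lit 76) (nat_lit 13172682136) (nat_lit 5) (nat_lit 5) (nat_lit 7) (nat_lit 5) (nat_lit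 6) (nat_lit 4) (nat_lit 218) (nat_lit 201) (nat_lit 181)))) (XT.nd (nat_lit 156) (nat_lit 0) (nat_lit 0) (XT.nd (nat_lit 78) (nat_lit 76) (nat_lit 0) (XT.lf (nat_lit 0) (nat_lit 5315617104) (nat_lit 152) (nat_lit 1486694039) (nat_lit 76) (nat_lit 19230770869) (nat_lit 5) (nat_lit 5) (nat_lit 7) (nat_lit 5) (nat_lit 6) (nat_lit 4) (nat_lit 219) (nat_lit 201) (nat_lit 180)) (XT.lf (nat_lit 0) (nat_lit 6082190768) (nat_lit 76) (nat_lit 2797803553) (nat_lit 152) (nat_lit 20338871503) (nat_lit 4) (nat_lit 5) (nat_lit 5) (nat_lit 5) (nat_lit 6) (nat_lit 4) (nat_lit 220) (nat_lit 201) (nat_lit 179))) (XT.nd (nat_lit 78) (nat_lit 0) (nat_lit 0) (XT.lf (nat_lit 0) (nat_lit 13078291227) (nat_lit 152) (nat_lit 18095826725) (nat_lit 0) (nat_lit 1693948855) (nat_lit 4) (nat_lit 5) (nat_lit 6) (nat_lit 4) (nat_lit 4) (nat_lit 4) (nat_lit 221) (nat_lit 201) (nat_lit 178)) (XT.lf (nat_lit 0) (nat_lit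 17990004147) (nat_lit 152) (nat_lit 12518965603) (nat_lit 0) (nat_lit 6543509258) (nat_lit 4) (nat_lit 5) (nat_lit 6) (nat_lit 4) (nat_lit 4) (nat_lit 4) (nat_lit 222) (nat_lit 201) (nat_lit 177))))))) (XT.nd (nat_lit 1170) (nat_lit 0) (nat_lit 0) (XT.nd (nat_lit 546) (nat_lit 152) (nat_lit 0) (XT.nd (nat_lit 234) (nat_lit 0) (nat_lit 0) (XT.nd (nat_lit 78) (nat_lit 76) (nat_lit 0) (XT.lf (nat_lit 0) (nat_lit 23595380734) (nat_lit 152) (nat_lit 6181128112) (nat_lit 0) (nat_lit 12094840178) (nat_lit 4) (nat_lit 5) (nat_lit 6) (nat_lit 4) (nat_lit 4) (nat_lit 4) (nat_lit 223) (nat_lit 201) (nat_lit 176)) (XT.nd (nat_lit 78) (nat_lit 0) (nat_lit 0) (XT.lf (nat_lit 0) (nat_lit 1143488136) (nat_lit 76) (nat_lit 28907952669) (nat_lit 76) (nat_lit 17360415881) (nat_lit 3) (nat_lit 4) (nat_lit 4) (nat_lit 5) (nat_lit 4) (nat_lit 4) (nat_lit 224) (nat_lit 201) (nat_lit 175)) (XT.lf (nat_lit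 0) (nat_lit 10198759523) (nat_lit 76) (nat_lit 27565073320) (nat_lit 76) (nat_lit 15976670243) (nat_lit 3) (nat_lit 4) (nat_lit 4) (nat_lit 5) (nat_lit 4) (nat_lit 4) (nat_lit 225) (nat_lit 201) (nat_lit 174)))) (XT.nd (nat_lit 156) (nat_lit 0) (nat_lit 0) (XT.nd (nat_lit 78) (nat_lit 0) (nat_lit 0) (XT.lf (nat_lit 0) (nat_lit 20557789611) (nat_lit 76) (nat_lit 26044701499) (nat_lit 76) (nat_lit 14420762519) (nat_lit 3) (nat_lit 4) (nat_lit 4) (nat_lit 5) (nat_lit 4) (nat_lit 4) (nat_lit 226) (nat_lit 201) (nat_lit 173)) (XT.lf (nat_lit 0) (nat_lit 32423255073) (nat_lit 76) (nat_lit 24317090800) (nat_lit 76) (nat_lit 12662251034) (nat_lit 3) (nat_lit 4) (nat_lit 4) (nat_lit 5) (nat_lit 4) (nat_lit 4) (nat_lit 227) (nat_lit 201) (nat_lit 172))) (XT.nd (nat_lit 78) (nat_lit 0) (nat_lit 0) (XT.lf (nat_lit 0) (nat_lit 46027306322) (nat_lit 76) (nat_lit 22348440143) (nat_lit 76) (nat_lit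 10666730129) (nat_lit 3) (nat_lit 4) (nat_lit 4) (nat_lit 5) (nat_lit 4) (nat_lit 4) (nat_lit 228) (nat_lit 201) (nat_lit 171)) (XT.lf (nat_lit 0) (nat_lit 61636109577) (nat_lit 76) (nat_lit 20100232452) (nat_lit 76) (nat_lit 8395157005) (nat_lit 3) (nat_lit 4) (nat_lit 4) (nat_lit 5) (nat_lit 4) (nat_lit 4) (nat_lit 229) (nat_lit 201) (nat_lit 170))))) (XT.nd (nat_lit 312) (nat_lit 76) (nat_lit 0) (XT.nd (nat_lit 156) (nat_lit 76) (nat_lit 0) (XT.nd (nat_lit 78) (nat_lit 0) (nat_lit 0) (XT.lf (nat_lit 0) (nat_lit 79555054467) (nat_lit 76) (nat_lit 17528481053) (nat_lit 76) (nat_lit 5803087838) (nat_lit 3) (nat_lit 4) (nat_lit 4) (nat_lit 5) (nat_lit 4) (nat_lit 4) (nat_lit 230) (nat_lit 201) (nat_lit 169)) (XT.lf (nat_lit 0) (nat_lit 100134729045) (nat_lit 76) (nat_lit 14582869072) (nat_lit 76) (nat_lit 2839808232) (nat_lit 3) (nat_lit 4) (nat_lit 4) (nat_lit 5) (nat_lit 4) (nat_lit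 4) (nat_lit 231) (nat_lit 201) (nat_lit 168))) (XT.nd (nat_lit 78) (nat_lit 0) (nat_lit 0) (XT.lf (nat_lit 0) (nat_lit 503457493) (nat_lit 152) (nat_lit 10675990380) (nat_lit 76) (nat_lit 123248004528) (nat_lit 2) (nat_lit 5) (nat_lit 4) (nat_lit 5) (nat_lit 3) (nat_lit 4) (nat_lit 232) (nat_lit 201) (nat_lit 167)) (XT.lf (nat_lit 0) (nat_lit 4045347503) (nat_lit 152) (nat_lit 3074286120) (nat_lit 76) (nat_lit 146689977248) (nat_lit 2) (nat_lit 5) (nat_lit 4) (nat_lit 5) (nat_lit 3) (nat_lit 4) (nat_lit 233) (nat_lit 201) (nat_lit 166)))) (XT.nd (nat_lit 156) (nat_lit 0) (nat_lit 0) (XT.nd (nat_lit 78) (nat_lit 0) (nat_lit 0) (XT.lf (nat_lit 0) (nat_lit 6200792284) (nat_lit 76) (nat_lit 2163948314) (nat_lit 152) (nat_lit 167697481628) (nat_lit 1) (nat_lit 5) (nat_lit 2) (nat_lit 5) (nat_lit 3) (nat_lit 4) (nat_lit 234) (nat_lit 201) (nat_lit 165)) (XT.lf (nat_lit 0) (nat_lit 13636524975)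 (nat_lit 152) (nat_lit 184589275663) (nat_lit 0) (nat_lit 3381306258) (nat_lit 1) (nat_lit 5) (nat_lit 3) (nat_lit 4) (nat_lit 1) (nat_lit 4) (nat_lit 235) (nat_lit 201) (nat_lit 164))) (XT.nd (nat_lit 78) (nat_lit 0) (nat_lit 0) (XT.lf (nat_lit 0) (nat_lit 19793207404) (nat_lit 152) (nat_lit 201646093737) (nat_lit 0) (nat_lit 9530350485) (nat_lit 1) (nat_lit 5) (nat_lit 3) (nat_lit 4) (nat_lit 1) (nat_lit 4) (nat_lit 236) (nat_lit 201) (nat_lit 163)) (XT.lf (nat_lit 0) (nat_lit 26865640231) (nat_lit 152) (nat_lit 221276000033) (nat_lit 0) (nat_lit 16596141398) (nat_lit 1) (nat_lit 5) (nat_lit 3) (nat_lit 4) (nat_lit 1) (nat_lit 4) (nat_lit 237) (nat_lit 201) (nat_lit 162)))))) (XT.nd (nat_lit 546) (nat_lit 0) (nat_lit 0) (XT.nd (nat_lit 234) (nat_lit 0) (nat_lit 0) (XT.nd (nat_lit 78) (nat_lit 0) (nat_lit 0) (XT.lf (nat_lit 0) (nat_lit 34992197142) (nat_lit 152) (nat_lit 243863057936)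 (nat_lit 0) (nat_lit 24716922730) (nat_lit 1) (nat_lit 5) (nat_lit 3) (nat_lit 4) (nat_lit 1) (nat_lit 4) (nat_lit 238) (nat_lit 201) (nat_lit 161)) (XT.nd (nat_lit 78) (nat_lit 0) (nat_lit 0) (XT.lf (nat_lit 0) (nat_lit 44331875988) (nat_lit 152) (nat_lit 269849188143) (nat_lit 0) (nat_lit 34051579335) (nat_lit 1) (nat_lit 5) (nat_lit 3) (nat_lit 4) (nat_lit 1) (nat_lit 4) (nat_lit 239) (nat_lit 201) (nat_lit 160)) (XT.lf (nat_lit 0) (nat_lit 55067409617) (nat_lit 152) (nat_lit 299742814942) (nat_lit 0) (nat_lit 44782745798) (nat_lit 1) (nat_lit 5) (nat_lit 3) (nat_lit 4) (nat_lit 1) (nat_lit 4) (nat_lit 240) (nat_lit 201) (nat_lit 159)))) (XT.nd (nat_lit 156) (nat_lit 0) (nat_lit 0) (XT.nd (nat_lit 78) (nat_lit 0) (nat_lit 0) (XT.lf (nat_lit 0) (nat_lit 67408841079) (nat_lit 152) (nat_lit 334128813639) (nat_lit 0) (nat_lit 57120379724) (nat_lit 1) (nat_lit 5) (nat_lit 3) (nat_lit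 4) (nat_lit 1) (nat_lit 4) (nat_lit 241) (nat_lit 201) (nat_lit 158)) (XT.lf (nat_lit 0) (nat_lit 81597633163) (nat_lit 152) (nat_lit 373679953773) (nat_lit 0) (nat_lit 71305869602) (nat_lit 1) (nat_lit 5) (nat_lit 3) (nat_lit 4) (nat_lit 1) (nat_lit 4) (nat_lit 242) (nat_lit 201) (nat_lit 157))) (XT.nd (nat_lit 78) (nat_lit 0) (nat_lit 0) (XT.lf (nat_lit 0) (nat_lit 97911392669) (nat_lit 152) (nat_lit 419170062001) (nat_lit 0) (nat_lit 87616757626) (nat_lit 1) (nat_lit 5) (nat_lit 3) (nat_lit 4) (nat_lit 1) (nat_lit 4) (nat_lit 243) (nat_lit 201) (nat_lit 156)) (XT.lf (nat_lit 0) (nat_lit 116669301851) (nat_lit 152) (nat_lit 471489162178) (nat_lit 0) (nat_lit 106372169865) (nat_lit 1) (nat_lit 5) (nat_lit 3) (nat_lit 4) (nat_lit 1) (nat_lit 4) (nat_lit 244) (nat_lit 201) (nat_lit 155))))) (XT.nd (nat_lit 312) (nat_lit 0) (nat_lit 0) (XT.nd (nat_lit 156) (nat_lit 0) (nat_lit 0) (XT.nd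 (nat_lit 78) (nat_lit 0) (nat_lit 0) (XT.lf (nat_lit 0) (nat_lit 138238363278) (nat_lit 152) (nat_lit 531660888873) (nat_lit 0) (nat_lit 127939060039) (nat_lit 1) (nat_lit 5) (nat_lit 3) (nat_lit 4) (nat_lit 1) (nat_lit 4) (nat_lit 245) (nat_lit 201) (nat_lit 154)) (XT.lf (nat_lit 0) (nat_lit 163040580326) (nat_lit 152) (nat_lit 600862514999) (nat_lit 0) (nat_lit 152739389040) (nat_lit 1) (nat_lit 5) (nat_lit 3) (nat_lit 4) (nat_lit 1) (nat_lit 4) (nat_lit 246) (nat_lit 201) (nat_lit 153))) (XT.nd (nat_lit 78) (nat_lit 0) (nat_lit 0) (XT.lf (nat_lit 0) (nat_lit 191561213764) (nat_lit 152) (nat_lit 680447985416) (nat_lit 0) (nat_lit 181258380698) (nat_lit 1) (nat_lit 5) (nat_lit 3) (nat_lit 4) (nat_lit 1) (nat_lit 4) (nat_lit 247) (nat_lit 201) (nat_lit 152)) (XT.lf (nat_lit 0) (nat_lit 224358275984) (nat_lit 152) (nat_lit 771974407154) (nat_lit 0) (nat_lit 214054015285) (nat_lit 1)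 (nat_lit 5) (nat_lit 3) (nat_lit 4) (nat_lit 1) (nat_lit 4) (nat_lit 248) (nat_lit 201) (nat_lit 151)))) (XT.nd (nat_lit 156) (nat_lit 0) (nat_lit 0) (XT.nd (nat_lit 78) (nat_lit 0) (nat_lit 0) (XT.lf (nat_lit 0) (nat_lit 262073448640) (nat_lit 152) (nat_lit 877232514550) (nat_lit 0) (nat_lit 251767946519) (nat_lit 1) (nat_lit 5) (nat_lit 3) (nat_lit 4) (nat_lit 1) (nat_lit 4) (nat_lit 249) (nat_lit 201) (nat_lit 150)) (XT.lf (nat_lit 0) (nat_lit 305444637283) (nat_lit 152) (nat_lit 998281705359) (nat_lit 0) (nat_lit 295138055665) (nat_lit 1) (nat_lit 5) (nat_lit 3) (nat_lit 4) (nat_lit 1) (nat_lit 4) (nat_lit 250) (nat_lit 201) (nat_lit 149))) (XT.nd (nat_lit 78) (nat_lit 0) (nat_lit 0) (XT.lf (nat_lit 0) (nat_lit 355320408648) (nat_lit 152) (nat_lit 1137490333313) (nat_lit 0) (nat_lit 345012888337) (nat_lit 1) (nat_lit 5) (nat_lit 3) (nat_lit 4) (nat_lit 1) (nat_lit 4) (nat_lit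 251) (nat_lit 201) (nat_lit 148)) (XT.lf (nat_lit 0) (nat_lit 412676593043) (nat_lit 152) (nat_lit 1297582045482) (nat_lit 0) (nat_lit 402368256477) (nat_lit 1) (nat_lit 5) (nat_lit 3) (nat_lit 4) (nat_lit 1) (nat_lit 4) (nat_lit 252) (nat_lit 201) (nat_lit 147))))))))
noncomputable def xc27 : XT := (XT.nd (nat_lit 27768) (nat_lit 0) (nat_lit 0) (XT.nd (nat_lit 1170) (nat_lit 0) (nat_lit 0) (XT.nd (nat_lit 546) (nat_lit 0) (nat_lit 0) (XT.nd (nat_lit 234) (nat_lit 0) (nat_lit 0) (XT.nd (nat_lit 78) (nat_lit 0) (nat_lit 0) (XT.lf (nat_lit 0) (nat_lit 478635376685) (nat_lit 152) (nat_lit 1481689071015) (nat_lit 0) (nat_lit 468326330333) (nat_lit 1) (nat_lit 5) (nat_lit 3) (nat_lit 4) (nat_lit 1) (nat_lit 4) (nat_lit 253) (nat_lit 201) (nat_lit 146)) (XT.nd (nat_lit 78) (nat_lit 0) (nat_lit 0) (XT.lf (nat_lit 0) (nat_lit 554487257515) (nat_lit 152) (nat_lit 1693413503892) (nat_lit 0)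 (nat_lit 544177593957) (nat_lit 1) (nat_lit 5) (nat_lit 3) (nat_lit 4) (nat_lit 1) (nat_lit 4) (nat_lit 254) (nat_lit 201) (nat_lit 145)) (XT.lf (nat_lit 0) (nat_lit 641716294071) (nat_lit 152) (nat_lit 1936897778668) (nat_lit 0) (nat_lit 631406093812) (nat_lit 1) (nat_lit 5) (nat_lit 3) (nat_lit 4) (nat_lit 1) (nat_lit 4) (nat_lit 255) (nat_lit 201) (nat_lit 144)))) (XT.nd (nat_lit 156) (nat_lit 0) (nat_lit 0) (XT.nd (nat_lit 78) (nat_lit 0) (nat_lit 0) (XT.lf (nat_lit 0) (nat_lit 742029141416) (nat_lit 152) (nat_lit 2216905718111) (nat_lit 0) (nat_lit 731718474461) (nat_lit 1) (nat_lit 5) (nat_lit 3) (nat_lit 4) (nat_lit 1) (nat_lit 4) (nat_lit 256) (nat_lit 201) (nat_lit 143)) (XT.lf (nat_lit 0) (nat_lit 857388442215) (nat_lit 152) (nat_lit 2538915738428) (nat_lit 0) (nat_lit 847077369438) (nat_lit 1) (nat_lit 5) (nat_lit 3) (nat_lit 4) (nat_lit 1) (nat_lit 4) (nat_lit 257) (nat_lit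 201) (nat_lit 142))) (XT.nd (nat_lit 78) (nat_lit 0) (nat_lit 0) (XT.lf (nat_lit 0) (nat_lit 990051226267) (nat_lit 152) (nat_lit 2909228035667) (nat_lit 0) (nat_lit 979739800600) (nat_lit 1) (nat_lit 5) (nat_lit 3) (nat_lit 4) (nat_lit 1) (nat_lit 4) (nat_lit 258) (nat_lit 201) (nat_lit 141)) (XT.lf (nat_lit 0) (nat_lit 1142613069782) (nat_lit 152) (nat_lit 3335087850427) (nat_lit 0) (nat_lit 1132301337255) (nat_lit 1) (nat_lit 5) (nat_lit 3) (nat_lit 4) (nat_lit 1) (nat_lit 4) (nat_lit 259) (nat_lit 201) (nat_lit 140))))) (XT.nd (nat_lit 312) (nat_lit 0) (nat_lit 0) (XT.nd (nat_lit 156) (nat_lit 0) (nat_lit 0) (XT.nd (nat_lit 78) (nat_lit 0) (nat_lit 0) (XT.lf (nat_lit 0) (nat_lit 1318058878393) (nat_lit 152) (nat_lit 3824827222562) (nat_lit 0) (nat_lit 1307746879030) (nat_lit 1) (nat_lit 5) (nat_lit 3) (nat_lit 4) (nat_lit 1) (nat_lit 4) (nat_lit 260) (nat_lit 201) (nat_lit 139))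 (XT.lf (nat_lit 0) (nat_lit 1519821287486) (nat_lit 152) (nat_lit 4388028009354) (nat_lit 0) (nat_lit 1509509056093) (nat_lit 1) (nat_lit 5) (nat_lit 3) (nat_lit 4) (nat_lit 1) (nat_lit 4) (nat_lit 261) (nat_lit 201) (nat_lit 138))) (XT.nd (nat_lit 78) (nat_lit 0) (nat_lit 0) (XT.lf (nat_lit 0) (nat_lit 1751847822456) (nat_lit 152) (nat_lit 5035709356629) (nat_lit 0) (nat_lit 1741535389298) (nat_lit 1) (nat_lit 5) (nat_lit 3) (nat_lit 4) (nat_lit 1) (nat_lit 4) (nat_lit 262) (nat_lit 201) (nat_lit 137)) (XT.lf (nat_lit 0) (nat_lit 2018678132902) (nat_lit 152) (nat_lit 5780543290750) (nat_lit 0) (nat_lit 2008365524295) (nat_lit 1) (nat_lit 5) (nat_lit 3) (nat_lit 4) (nat_lit 1) (nat_lit 4) (nat_lit 263) (nat_lit 201) (nat_lit 136)))) (XT.nd (nat_lit 156) (nat_lit 0) (nat_lit 0) (XT.nd (nat_lit 78) (nat_lit 0) (nat_lit 0) (XT.lf (nat_lit 0) (nat_lit 2325532811852) (nat_lit 152) (nat_lit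 6637102649555) (nat_lit 0) (nat_lit 2315220050681) (nat_lit 1) (nat_lit 5) (nat_lit 3) (nat_lit 4) (nat_lit 1) (nat_lit 4) (nat_lit 264) (nat_lit 201) (nat_lit 135)) (XT.lf (nat_lit 0) (nat_lit 2678415537809) (nat_lit 152) (nat_lit 7622146203110) (nat_lit 0) (nat_lit 2668102643974) (nat_lit 1) (nat_lit 5) (nat_lit 3) (nat_lit 4) (nat_lit 1) (nat_lit 4) (nat_lit 265) (nat_lit 201) (nat_lit 134))) (XT.nd (nat_lit 78) (nat_lit 0) (nat_lit 0) (XT.lf (nat_lit 0) (nat_lit 3084230538020) (nat_lit 152) (nat_lit 8754946542680) (nat_lit 0) (nat_lit 3073917528824) (nat_lit 1) (nat_lit 5) (nat_lit 3) (nat_lit 4) (nat_lit 1) (nat_lit 4) (nat_lit 266) (nat_lit 201) (nat_lit 133)) (XT.lf (nat_lit 0) (nat_lit 3550917671183) (nat_lit 152) (nat_lit 10057667153169) (nat_lit 0) (nat_lit 3540604561675) (nat_lit 1) (nat_lit 5) (nat_lit 3) (nat_lit 4) (nat_lit 1) (nat_lit 4) (nat_lit 267) (nat_lit 201)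 (nat_lit 132)))))) (XT.nd (nat_lit 858) (nat_lit 0) (nat_lit 0) (XT.nd (nat_lit 234) (nat_lit 0) (nat_lit 0) (XT.nd (nat_lit 78) (nat_lit 0) (nat_lit 0) (XT.lf (nat_lit 0) (nat_lit 4087607772514) (nat_lit 152) (nat_lit 11555796046521) (nat_lit 0) (nat_lit 4077294575777) (nat_lit 1) (nat_lit 5) (nat_lit 3) (nat_lit 4) (nat_lit 1) (nat_lit 4) (nat_lit 268) (nat_lit 201) (nat_lit 131)) (XT.nd (nat_lit 78) (nat_lit 0) (nat_lit 0) (XT.lf (nat_lit 0) (nat_lit 4704801300517) (nat_lit 152) (nat_lit 13278644440216) (nat_lit 0) (nat_lit 4694488027928) (nat_lit 1) (nat_lit 5) (nat_lit 3) (nat_lit 4) (nat_lit 1) (nat_lit 4) (nat_lit 269) (nat_lit 201) (nat_lit 130)) (XT.lf (nat_lit 0) (nat_lit 5414573780738) (nat_lit 152) (nat_lit 15259920237607) (nat_lit 0) (nat_lit 5404260442193) (nat_lit 1) (nat_lit 5) (nat_lit 3) (nat_lit 4) (nat_lit 1) (nat_lit 4) (nat_lit 270) (nat_lit 201) (nat_lit 129))))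 (XT.nd (nat_lit 468) (nat_lit 0) (nat_lit 0) (XT.nd (nat_lit 390) (nat_lit 0) (nat_lit 0) (XT.lf (nat_lit 0) (nat_lit 6230812066054) (nat_lit 152) (nat_lit 17538387530384) (nat_lit 0) (nat_lit 6220498670153) (nat_lit 1) (nat_lit 5) (nat_lit 3) (nat_lit 4) (nat_lit 1) (nat_lit 4) (nat_lit 271) (nat_lit 201) (nat_lit 128)) (XT.lf (nat_lit 0) (nat_lit 12559709319444) (nat_lit 152) (nat_lit 35205028673610) (nat_lit 0) (nat_lit 12549395731282) (nat_lit 1) (nat_lit 5) (nat_lit 3) (nat_lit 4) (nat_lit 1) (nat_lit 4) (nat_lit 276) (nat_lit 201) (nat_lit 123))) (XT.nd (nat_lit 78) (nat_lit 0) (nat_lit 0) (XT.lf (nat_lit 0) (nat_lit 14447717682232) (nat_lit 152) (nat_lit 40475262707785) (nat_lit 0) (nat_lit 14437404069275) (nat_lit 1) (nat_lit 5) (nat_lit 3) (nat_lit 4) (nat_lit 1) (nat_lit 4) (nat_lit 277) (nat_lit 201) (nat_lit 122)) (XT.lf (nat_lit 0) (nat_lit 16618927274273) (nat_lit 152)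 (nat_lit 46536031894371) (nat_lit 0) (nat_lit 16608613639754) (nat_lit 1) (nat_lit 5) (nat_lit 3) (nat_lit 4) (nat_lit 1) (nat_lit 4) (nat_lit 278) (nat_lit 201) (nat_lit 121))))) (XT.nd (nat_lit 25428) (nat_lit 0) (nat_lit 1064) (XT.nd (nat_lit 25272) (nat_lit 0) (nat_lit 1292) (XT.nd (nat_lit 78) (nat_lit 0) (nat_lit 0) (XT.lf (nat_lit 0) (nat_lit 19115818283237) (nat_lit 152) (nat_lit 53505916500062) (nat_lit 0) (nat_lit 19105504629969) (nat_lit 1) (nat_lit 5) (nat_lit 3) (nat_lit 4) (nat_lit 1) (nat_lit 4) (nat_lit 279) (nat_lit 201) (nat_lit 120)) (XT.lf (nat_lit 0) (nat_lit 21987242924517) (nat_lit 152) (nat_lit 61521283832359) (nat_lit 0) (nat_lit 21976929254946) (nat_lit 1) (nat_lit 5) (nat_lit 3) (nat_lit 4) (nat_lit 1) (nat_lit 4) (nat_lit 280) (nat_lit 201) (nat_lit 119))) (XT.nd (nat_lit 78) (nat_lit 0) (nat_lit 0) (XT.lf (nat_lit 0) (nat_lit 1180815351) (nat_lit 228)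 (nat_lit 1117158727) (nat_lit 228) (nat_lit 1117158727) (nat_lit 18) (nat_lit 3) (nat_lit 21) (nat_lit 3) (nat_lit 21) (nat_lit 5) (nat_lit 202) (nat_lit 202) (nat_lit 196)) (XT.lf (nat_lit 76) (nat_lit 641043489) (nat_lit 0) (nat_lit 3508085790) (nat_lit 228) (nat_lit 2916755672) (nat_lit 19) (nat_lit 5) (nat_lit 18) (nat_lit 3) (nat_lit 21) (nat_lit 5) (nat_lit 203) (nat_lit 202) (nat_lit 195)))) (XT.nd (nat_lit 156) (nat_lit 0) (nat_lit 76) (XT.nd (nat_lit 78) (nat_lit 228) (nat_lit 0) (XT.lf (nat_lit 76) (nat_lit 4017384613) (nat_lit 0) (nat_lit 2014641876) (nat_lit 228) (nat_lit 1336978271) (nat_lit 19) (nat_lit 5) (nat_lit 18) (nat_lit 3) (nat_lit 21) (nat_lit 5) (nat_lit 204) (nat_lit 202) (nat_lit 194)) (XT.lf (nat_lit 0) (nat_lit 168358860) (nat_lit 228) (nat_lit 26031290) (nat_lit 304) (nat_lit 7565251574) (nat_lit 15) (nat_lit 5) (nat_lit 18) (nat_lit 3) (nat_lit 19) (nat_lit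 5) (nat_lit 205) (nat_lit 202) (nat_lit 193))) (XT.nd (nat_lit 78) (nat_lit 0) (nat_lit 0) (XT.lf (nat_lit 0) (nat_lit 1783536013) (nat_lit 228) (nat_lit 4386858128) (nat_lit 76) (nat_lit 2029900750) (nat_lit 16) (nat_lit 5) (nat_lit 19) (nat_lit 5) (nat_lit 17) (nat_lit 5) (nat_lit 206) (nat_lit 202) (nat_lit 192)) (XT.lf (nat_lit 0) (nat_lit 3444206886) (nat_lit 228) (nat_lit 678298174) (nat_lit 76) (nat_lit 4617631086) (nat_lit 16) (nat_lit 5) (nat_lit 19) (nat_lit 5) (nat_lit 17) (nat_lit 5) (nat_lit 207) (nat_lit 202) (nat_lit 191))))))) (XT.nd (nat_lit 1170) (nat_lit 228) (nat_lit 0) (XT.nd (nat_lit 546) (nat_lit 228) (nat_lit 0) (XT.nd (nat_lit 234) (nat_lit 304) (nat_lit 0) (XT.nd (nat_lit 78) (nat_lit 152) (nat_lit 0) (XT.lf (nat_lit 0) (nat_lit 3751976712) (nat_lit 228) (nat_lit 1576958641) (nat_lit 304) (nat_lit 4038881373) (nat_lit 13) (nat_lit 5) (nat_lit 16) (nat_lit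 5) (nat_lit 17) (nat_lit 5) (nat_lit 208) (nat_lit 202) (nat_lit 190)) (XT.nd (nat_lit 78) (nat_lit 152) (nat_lit 0) (XT.lf (nat_lit 0) (nat_lit 7426006593) (nat_lit 304) (nat_lit 1407185453) (nat_lit 76) (nat_lit 1269713783) (nat_lit 13) (nat_lit 5) (nat_lit 17) (nat_lit 5) (nat_lit 14) (nat_lit 4) (nat_lit 209) (nat_lit 202) (nat_lit 189)) (XT.lf (nat_lit 0) (nat_lit 3506095759) (nat_lit 152) (nat_lit 6409703455) (nat_lit 228) (nat_lit 1023084077) (nat_lit 11) (nat_lit 5) (nat_lit 13) (nat_lit 5) (nat_lit 14) (nat_lit 4) (nat_lit 210) (nat_lit 202) (nat_lit 188)))) (XT.nd (nat_lit 156) (nat_lit 76) (nat_lit 0) (XT.nd (nat_lit 78) (nat_lit 152) (nat_lit 0) (XT.lf (nat_lit 0) (nat_lit 739525743) (nat_lit 228) (nat_lit 2786144264) (nat_lit 76) (nat_lit 8380061284) (nat_lit 10) (nat_lit 5) (nat_lit 13) (nat_lit 5) (nat_lit 11) (nat_lit 5) (nat_lit 211) (nat_lit 202) (nat_lit 187)) (XT.lf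 (nat_lit 0) (nat_lit 2590204698) (nat_lit 152) (nat_lit 58745378) (nat_lit 228) (nat_lit 10364818138) (nat_lit 8) (nat_lit 5) (nat_lit 10) (nat_lit 5) (nat_lit 11) (nat_lit 5) (nat_lit 212) (nat_lit 202) (nat_lit 186))) (XT.nd (nat_lit 78) (nat_lit 76) (nat_lit 0) (XT.lf (nat_lit 0) (nat_lit 5048373833) (nat_lit 228) (nat_lit 5508581595) (nat_lit 76) (nat_lit 3701860485) (nat_lit 8) (nat_lit 5) (nat_lit 11) (nat_lit 5) (nat_lit 9) (nat_lit 4) (nat_lit 213) (nat_lit 202) (nat_lit 185)) (XT.lf (nat_lit 0) (nat_lit 2887147) (nat_lit 76) (nat_lit 7710655805) (nat_lit 152) (nat_lit 7992370959) (nat_lit 7) (nat_lit 5) (nat_lit 8) (nat_lit 5) (nat_lit 9) (nat_lit 4) (nat_lit 214) (nat_lit 202) (nat_lit 184))))) (XT.nd (nat_lit 312) (nat_lit 76) (nat_lit 0) (XT.nd (nat_lit 156) (nat_lit 152) (nat_lit 0) (XT.nd (nat_lit 78) (nat_lit 0) (nat_lit 0) (XT.lf (nat_lit 0) (nat_lit 6828228287) (nat_lit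 76) (nat_lit 4148322624) (nat_lit 152) (nat_lit 6364831760) (nat_lit 7) (nat_lit 5) (nat_lit 8) (nat_lit 5) (nat_lit 9) (nat_lit 4) (nat_lit 215) (nat_lit 202) (nat_lit 183)) (XT.lf (nat_lit 0) (nat_lit 14562642451) (nat_lit 76) (nat_lit 88206643) (nat_lit 152) (nat_lit 4583929907) (nat_lit 7) (nat_lit 5) (nat_lit 8) (nat_lit 5) (nat_lit 9) (nat_lit 4) (nat_lit 216) (nat_lit 202) (nat_lit 182))) (XT.nd (nat_lit 78) (nat_lit 76) (nat_lit 0) (XT.lf (nat_lit 0) (nat_lit 1916563515) (nat_lit 76) (nat_lit 17159492978) (nat_lit 76) (nat_lit 2306931541) (nat_lit 6) (nat_lit 4) (nat_lit 7) (nat_lit 5) (nat_lit 7) (nat_lit 4) (nat_lit 217) (nat_lit 202) (nat_lit 181)) (XT.lf (nat_lit 0) (nat_lit 475676293) (nat_lit 152) (nat_lit 13938562547) (nat_lit 76) (nat_lit 9409064438) (nat_lit 5) (nat_lit 5) (nat_lit 7) (nat_lit 5) (nat_lit 6) (nat_lit 4) (nat_lit 218) (nat_lit 202) (nat_lit 180))))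 (XT.nd (nat_lit 156) (nat_lit 76) (nat_lit 0) (XT.nd (nat_lit 78) (nat_lit 0) (nat_lit 0) (XT.lf (nat_lit 0) (nat_lit 3380138639) (nat_lit 152) (nat_lit 7788494712) (nat_lit 76) (nat_lit 15453961921) (nat_lit 5) (nat_lit 5) (nat_lit 7) (nat_lit 5) (nat_lit 6) (nat_lit 4) (nat_lit 219) (nat_lit 202) (nat_lit 179)) (XT.lf (nat_lit 0) (nat_lit 6668660932) (nat_lit 152) (nat_lit 800368485) (nat_lit 76) (nat_lit 22380932121) (nat_lit 5) (nat_lit 5) (nat_lit 7) (nat_lit 5) (nat_lit 6) (nat_lit 4) (nat_lit 220) (nat_lit 202) (nat_lit 178))) (XT.nd (nat_lit 78) (nat_lit 0) (nat_lit 0) (XT.lf (nat_lit 0) (nat_lit 7862515877) (nat_lit 76) (nat_lit 2868637965) (nat_lit 152) (nat_lit 22788556856) (nat_lit 4) (nat_lit 5) (nat_lit 5) (nat_lit 5) (nat_lit 6) (nat_lit 4) (nat_lit 221) (nat_lit 202) (nat_lit 177)) (XT.lf (nat_lit 0) (nat_lit 15504039200) (nat_lit 152) (nat_lit 19996690356) (nat_lit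 0) (nat_lit 2224371894) (nat_lit 4) (nat_lit 5) (nat_lit 6) (nat_lit 4) (nat_lit 4) (nat_lit 4) (nat_lit 222) (nat_lit 202) (nat_lit 176)))))) (XT.nd (nat_lit 546) (nat_lit 152) (nat_lit 0) (XT.nd (nat_lit 234) (nat_lit 0) (nat_lit 0) (XT.nd (nat_lit 78) (nat_lit 76) (nat_lit 0) (XT.lf (nat_lit 0) (nat_lit 21091986759) (nat_lit 152) (nat_lit 13689410115) (nat_lit 0) (nat_lit 7765323221) (nat_lit 4) (nat_lit 5) (nat_lit 6) (nat_lit 4) (nat_lit 4) (nat_lit 4) (nat_lit 223) (nat_lit 202) (nat_lit 175)) (XT.nd (nat_lit 78) (nat_lit 76) (nat_lit 0) (XT.lf (nat_lit 0) (nat_lit 27485541749) (nat_lit 152) (nat_lit 6493166609) (nat_lit 0) (nat_lit 14118011922) (nat_lit 4) (nat_lit 5) (nat_lit 6) (nat_lit 4) (nat_lit 4) (nat_lit 4) (nat_lit 224) (nat_lit 202) (nat_lit 174)) (XT.lf (nat_lit 0) (nat_lit 1902181589) (nat_lit 76) (nat_lit 32986379155) (nat_lit 76) (nat_lit 19583313424) (nat_lit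 3) (nat_lit 4) (nat_lit 4) (nat_lit 5) (nat_lit 4) (nat_lit 4) (nat_lit 225) (nat_lit 202) (nat_lit 173)))) (XT.nd (nat_lit 156) (nat_lit 0) (nat_lit 0) (XT.nd (nat_lit 78) (nat_lit 0) (nat_lit 0) (XT.lf (nat_lit 0) (nat_lit 12239156263) (nat_lit 76) (nat_lit 31475689611) (nat_lit 76) (nat_lit 18041723095) (nat_lit 3) (nat_lit 4) (nat_lit 4) (nat_lit 5) (nat_lit 4) (nat_lit 4) (nat_lit 226) (nat_lit 202) (nat_lit 172)) (XT.lf (nat_lit 0) (nat_lit 24085443106) (nat_lit 76) (nat_lit 29756498282) (nat_lit 76) (nat_lit 16295661518) (nat_lit 3) (nat_lit 4) (nat_lit 4) (nat_lit 5) (nat_lit 4) (nat_lit 4) (nat_lit 227) (nat_lit 202) (nat_lit 171))) (XT.nd (nat_lit 78) (nat_lit 0) (nat_lit 0) (XT.lf (nat_lit 0) (nat_lit 37672817294) (nat_lit 76) (nat_lit 27795168818) (nat_lit 76) (nat_lit 14310966621) (nat_lit 3) (nat_lit 4) (nat_lit 4) (nat_lit 5) (nat_lit 4) (nat_lit 4) (nat_lit 228) (nat_lit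 202) (nat_lit 170)) (XT.lf (nat_lit 0) (nat_lit 53267118757) (nat_lit 76) (nat_lit 25553327381) (nat_lit 76) (nat_lit 12048807415) (nat_lit 3) (nat_lit 4) (nat_lit 4) (nat_lit 5) (nat_lit 4) (nat_lit 4) (nat_lit 229) (nat_lit 202) (nat_lit 169))))) (XT.nd (nat_lit 312) (nat_lit 76) (nat_lit 0) (XT.nd (nat_lit 156) (nat_lit 76) (nat_lit 0) (XT.nd (nat_lit 78) (nat_lit 0) (nat_lit 0) (XT.lf (nat_lit 0) (nat_lit 71173453393) (nat_lit 76) (nat_lit 22987111856) (nat_lit 76) (nat_lit 9464924266) (nat_lit 3) (nat_lit 4) (nat_lit 4) (nat_lit 5) (nat_lit 4) (nat_lit 4) (nat_lit 230) (nat_lit 202) (nat_lit 168)) (XT.lf (nat_lit 0) (nat_lit 91742162533) (nat_lit 76) (nat_lit 20046313677) (nat_lit 76) (nat_lit 6508762936) (nat_lit 3) (nat_lit 4) (nat_lit 4) (nat_lit 5) (nat_lit 4) (nat_lit 4) (nat_lit 231) (nat_lit 202) (nat_lit 167))) (XT.nd (nat_lit 78) (nat_lit 76) (nat_lit 0) (XT.lf (nat_lit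 0) (nat_lit 115375677441) (nat_lit 76) (nat_lit 16673395490) (nat_lit 76) (nat_lit 3122485486) (nat_lit 3) (nat_lit 4) (nat_lit 4) (nat_lit 5) (nat_lit 4) (nat_lit 4) (nat_lit 232) (nat_lit 202) (nat_lit 166)) (XT.lf (nat_lit 0) (nat_lit 692486517) (nat_lit 152) (nat_lit 12073680741) (nat_lit 76) (nat_lit 141807708300) (nat_lit 2) (nat_lit 5) (nat_lit 4) (nat_lit 5) (nat_lit 3) (nat_lit 4) (nat_lit 233) (nat_lit 202) (nat_lit 165)))) (XT.nd (nat_lit 156) (nat_lit 0) (nat_lit 0) (XT.nd (nat_lit 78) (nat_lit 76) (nat_lit 0) (XT.lf (nat_lit 0) (nat_lit 4750854325) (nat_lit 152) (nat_lit 3358291476) (nat_lit 76) (nat_lit 168756520003) (nat_lit 2) (nat_lit 5) (nat_lit 4) (nat_lit 5) (nat_lit 3) (nat_lit 4) (nat_lit 234) (nat_lit 202) (nat_lit 164)) (XT.lf (nat_lit 0) (nat_lit 7299996981) (nat_lit 76) (nat_lit 2412286362) (nat_lit 152) (nat_lit 192744842257) (nat_lit 1) (nat_lit 5) (nat_lit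 2) (nat_lit 5) (nat_lit 3) (nat_lit 4) (nat_lit 235) (nat_lit 202) (nat_lit 163))) (XT.nd (nat_lit 78) (nat_lit 0) (nat_lit 0) (XT.lf (nat_lit 0) (nat_lit 15765472572) (nat_lit 152) (nat_lit 212120833716) (nat_lit 0) (nat_lit 3948906999) (nat_lit 1) (nat_lit 5) (nat_lit 3) (nat_lit 4) (nat_lit 1) (nat_lit 4) (nat_lit 236) (nat_lit 202) (nat_lit 162)) (XT.lf (nat_lit 0) (nat_lit 22834770125) (nat_lit 152) (nat_lit 231756631017) (nat_lit 0) (nat_lit 11012428974) (nat_lit 1) (nat_lit 5) (nat_lit 3) (nat_lit 4) (nat_lit 1) (nat_lit 4) (nat_lit 237) (nat_lit 202) (nat_lit 161))))))))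
noncomputable def xc28 : XT := (XT.nd (nat_lit 2262) (nat_lit 0) (nat_lit 0) (XT.nd (nat_lit 1092) (nat_lit 0) (nat_lit 0) (XT.nd (nat_lit 546) (nat_lit 0) (nat_lit 0) (XT.nd (nat_lit 234) (nat_lit 0) (nat_lit 0) (XT.nd (nat_lit 78) (nat_lit 0) (nat_lit 0) (XT.lf (nat_lit 0) (nat_lit 30958600709) (nat_lit 152) (nat_lit 254348811534) (nat_lit 0) (nat_lit 19131237317) (nat_lit 1) (nat_lit 5) (nat_lit 3) (nat_lit 4) (nat_lit 1) (nat_lit 4) (nat_lit 238) (nat_lit 202) (nat_lit 160)) (XT.nd (nat_lit 78) (nat_lit 0) (nat_lit 0) (XT.lf (nat_lit 0) (nat_lit 40295908837) (nat_lit 152) (nat_lit 280339396188) (nat_lit 0) (nat_lit 28464178279) (nat_lit 1) (nat_lit 5) (nat_lit 3) (nat_lit 4) (nat_lit 1) (nat_lit 4) (nat_lit 239) (nat_lit 202) (nat_lit 159)) (XT.lf (nat_lit 0) (nat_lit 51029380973) (nat_lit 152) (nat_lit 310236896418) (nat_lit 0) (nat_lit 39193852878) (nat_lit 1) (nat_lit 5) (nat_lit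 3) (nat_lit 4) (nat_lit 1) (nat_lit 4) (nat_lit 240) (nat_lit 202) (nat_lit 158)))) (XT.nd (nat_lit 156) (nat_lit 0) (nat_lit 0) (XT.nd (nat_lit 78) (nat_lit 0) (nat_lit 0) (XT.lf (nat_lit 0) (nat_lit 63369019831) (nat_lit 152) (nat_lit 344626263317) (nat_lit 0) (nat_lit 51530189531) (nat_lit 1) (nat_lit 5) (nat_lit 3) (nat_lit 4) (nat_lit 1) (nat_lit 4) (nat_lit 241) (nat_lit 202) (nat_lit 157)) (XT.lf (nat_lit 0) (nat_lit 77556253129) (nat_lit 152) (nat_lit 384180332322) (nat_lit 0) (nat_lit 65714551346) (nat_lit 1) (nat_lit 5) (nat_lit 3) (nat_lit 4) (nat_lit 1) (nat_lit 4) (nat_lit 242) (nat_lit 202) (nat_lit 156))) (XT.nd (nat_lit 78) (nat_lit 0) (nat_lit 0) (XT.lf (nat_lit 0) (nat_lit 93868657170) (nat_lit 152) (nat_lit 429672987394) (nat_lit 0) (nat_lit 82024458445) (nat_lit 1) (nat_lit 5) (nat_lit 3) (nat_lit 4) (nat_lit 1) (nat_lit 4) (nat_lit 243) (nat_lit 202) (nat_lit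 155)) (XT.lf (nat_lit 0) (nat_lit 112625387685) (nat_lit 152) (nat_lit 481994302218) (nat_lit 0) (nat_lit 100779017707) (nat_lit 1) (nat_lit 5) (nat_lit 3) (nat_lit 4) (nat_lit 1) (nat_lit 4) (nat_lit 244) (nat_lit 202) (nat_lit 154))))) (XT.nd (nat_lit 234) (nat_lit 0) (nat_lit 0) (XT.nd (nat_lit 78) (nat_lit 0) (nat_lit 0) (XT.lf (nat_lit 0) (nat_lit 134193424185) (nat_lit 152) (nat_lit 542167954693) (nat_lit 0) (nat_lit 122345166160) (nat_lit 1) (nat_lit 5) (nat_lit 3) (nat_lit 4) (nat_lit 1) (nat_lit 4) (nat_lit 245) (nat_lit 202) (nat_lit 153)) (XT.nd (nat_lit 78) (nat_lit 0) (nat_lit 0) (XT.lf (nat_lit 0) (nat_lit 158994749993) (nat_lit 152) (nat_lit 611371255411) (nat_lit 0) (nat_lit 147144850188) (nat_lit 1) (nat_lit 5) (nat_lit 3) (nat_lit 4) (nat_lit 1) (nat_lit 4) (nat_lit 246) (nat_lit 202) (nat_lit 152)) (XT.lf (nat_lit 0) (nat_lit 187514608439) (nat_lit 152) (nat_lit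 690958181995) (nat_lit 0) (nat_lit 175663280999) (nat_lit 1) (nat_lit 5) (nat_lit 3) (nat_lit 4) (nat_lit 1) (nat_lit 4) (nat_lit 247) (nat_lit 202) (nat_lit 151)))) (XT.nd (nat_lit 156) (nat_lit 0) (nat_lit 0) (XT.nd (nat_lit 78) (nat_lit 0) (nat_lit 0) (XT.lf (nat_lit 0) (nat_lit 220310996753) (nat_lit 152) (nat_lit 782485869964) (nat_lit 0) (nat_lit 208458427893) (nat_lit 1) (nat_lit 5) (nat_lit 3) (nat_lit 4) (nat_lit 1) (nat_lit 4) (nat_lit 248) (nat_lit 202) (nat_lit 150)) (XT.lf (nat_lit 0) (nat_lit 258025583404) (nat_lit 152) (nat_lit 887745078432) (nat_lit 0) (nat_lit 246171935047) (nat_lit 1) (nat_lit 5) (nat_lit 3) (nat_lit 4) (nat_lit 1) (nat_lit 4) (nat_lit 249) (nat_lit 202) (nat_lit 149))) (XT.nd (nat_lit 78) (nat_lit 0) (nat_lit 0) (XT.lf (nat_lit 0) (nat_lit 301396262477) (nat_lit 152) (nat_lit 1008795226694) (nat_lit 0) (nat_lit 289541675427) (nat_lit 1) (nat_lit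 5) (nat_lit 3) (nat_lit 4) (nat_lit 1) (nat_lit 4) (nat_lit 250) (nat_lit 202) (nat_lit 148)) (XT.lf (nat_lit 0) (nat_lit 351271590737) (nat_lit 152) (nat_lit 1148004687216) (nat_lit 0) (nat_lit 339416187432) (nat_lit 1) (nat_lit 5) (nat_lit 3) (nat_lit 4) (nat_lit 1) (nat_lit 4) (nat_lit 251) (nat_lit 202) (nat_lit 147)))))) (XT.nd (nat_lit 546) (nat_lit 0) (nat_lit 0) (XT.nd (nat_lit 234) (nat_lit 0) (nat_lit 0) (XT.nd (nat_lit 78) (nat_lit 0) (nat_lit 0) (XT.lf (nat_lit 0) (nat_lit 408627389824) (nat_lit 152) (nat_lit 1308097123356) (nat_lit 0) (nat_lit 396771276733) (nat_lit 1) (nat_lit 5) (nat_lit 3) (nat_lit 4) (nat_lit 1) (nat_lit 4) (nat_lit 252) (nat_lit 202) (nat_lit 146)) (XT.nd (nat_lit 78) (nat_lit 0) (nat_lit 0) (XT.lf (nat_lit 0) (nat_lit 474585838416) (nat_lit 152) (nat_lit 1492204778431) (nat_lit 0) (nat_lit 462729108119) (nat_lit 1) (nat_lit 5) (nat_lit 3) (nat_lit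 4) (nat_lit 1) (nat_lit 4) (nat_lit 253) (nat_lit 202) (nat_lit 145)) (XT.lf (nat_lit 0) (nat_lit 550437427898) (nat_lit 152) (nat_lit 1703929758735) (nat_lit 0) (nat_lit 538580160900) (nat_lit 1) (nat_lit 5) (nat_lit 3) (nat_lit 4) (nat_lit 1) (nat_lit 4) (nat_lit 254) (nat_lit 202) (nat_lit 144)))) (XT.nd (nat_lit 156) (nat_lit 0) (nat_lit 0) (XT.nd (nat_lit 78) (nat_lit 0) (nat_lit 0) (XT.lf (nat_lit 0) (nat_lit 637666211108) (nat_lit 152) (nat_lit 1947414509534) (nat_lit 0) (nat_lit 625808477414) (nat_lit 1) (nat_lit 5) (nat_lit 3) (nat_lit 4) (nat_lit 1) (nat_lit 4) (nat_lit 255) (nat_lit 202) (nat_lit 143)) (XT.lf (nat_lit 0) (nat_lit 737978838152) (nat_lit 152) (nat_lit 2227422862911) (nat_lit 0) (nat_lit 726120698635) (nat_lit 1) (nat_lit 5) (nat_lit 3) (nat_lit 4) (nat_lit 1) (nat_lit 4) (nat_lit 256) (nat_lit 202) (nat_lit 142))) (XT.nd (nat_lit 78) (nat_lit 0) (nat_lit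 0) (XT.lf (nat_lit 0) (nat_lit 853337947385) (nat_lit 152) (nat_lit 2549433243169) (nat_lit 0) (nat_lit 841479454979) (nat_lit 1) (nat_lit 5) (nat_lit 3) (nat_lit 4) (nat_lit 1) (nat_lit 4) (nat_lit 257) (nat_lit 202) (nat_lit 141)) (XT.lf (nat_lit 0) (nat_lit 986000564858) (nat_lit 152) (nat_lit 2919745853401) (nat_lit 0) (nat_lit 974141765591) (nat_lit 1) (nat_lit 5) (nat_lit 3) (nat_lit 4) (nat_lit 1) (nat_lit 4) (nat_lit 258) (nat_lit 202) (nat_lit 140))))) (XT.nd (nat_lit 312) (nat_lit 0) (nat_lit 0) (XT.nd (nat_lit 156) (nat_lit 0) (nat_lit 0) (XT.nd (nat_lit 78) (nat_lit 0) (nat_lit 0) (XT.lf (nat_lit 0) (nat_lit 1138562263521) (nat_lit 152) (nat_lit 3345605940329) (nat_lit 0) (nat_lit 1126703197419) (nat_lit 1) (nat_lit 5) (nat_lit 3) (nat_lit 4) (nat_lit 1) (nat_lit 4) (nat_lit 259) (nat_lit 202) (nat_lit 139)) (XT.lf (nat_lit 0) (nat_lit 1314007946174) (nat_lit 152) (nat_lit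 3835345549132) (nat_lit 0) (nat_lit 1302148648041) (nat_lit 1) (nat_lit 5) (nat_lit 3) (nat_lit 4) (nat_lit 1) (nat_lit 4) (nat_lit 260) (nat_lit 202) (nat_lit 138))) (XT.nd (nat_lit 78) (nat_lit 0) (nat_lit 0) (XT.lf (nat_lit 0) (nat_lit 1515770245738) (nat_lit 152) (nat_lit 4398546541722) (nat_lit 0) (nat_lit 1503910745840) (nat_lit 1) (nat_lit 5) (nat_lit 3) (nat_lit 4) (nat_lit 1) (nat_lit 4) (nat_lit 261) (nat_lit 202) (nat_lit 137)) (XT.lf (nat_lit 0) (nat_lit 1747796685466) (nat_lit 152) (nat_lit 5046228067952) (nat_lit 0) (nat_lit 1735937010120) (nat_lit 1) (nat_lit 5) (nat_lit 3) (nat_lit 4) (nat_lit 1) (nat_lit 4) (nat_lit 262) (nat_lit 202) (nat_lit 136)))) (XT.nd (nat_lit 156) (nat_lit 0) (nat_lit 0) (XT.nd (nat_lit 78) (nat_lit 0) (nat_lit 0) (XT.lf (nat_lit 0) (nat_lit 2014626913092) (nat_lit 152) (nat_lit 5791062157685) (nat_lit 0) (nat_lit 2002767085182) (nat_lit 1)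 (nat_lit 5) (nat_lit 3) (nat_lit 4) (nat_lit 1) (nat_lit 4) (nat_lit 263) (nat_lit 202) (nat_lit 135)) (XT.lf (nat_lit 0) (nat_lit 2321481520026) (nat_lit 152) (nat_lit 6647621651807) (nat_lit 0) (nat_lit 2309621559452) (nat_lit 1) (nat_lit 5) (nat_lit 3) (nat_lit 4) (nat_lit 1) (nat_lit 4) (nat_lit 264) (nat_lit 202) (nat_lit 134))) (XT.nd (nat_lit 78) (nat_lit 0) (nat_lit 0) (XT.lf (nat_lit 0) (nat_lit 2674364183360) (nat_lit 152) (nat_lit 7632665323028) (nat_lit 0) (nat_lit 2662504107425) (nat_lit 1) (nat_lit 5) (nat_lit 3) (nat_lit 4) (nat_lit 1) (nat_lit 4) (nat_lit 265) (nat_lit 202) (nat_lit 133)) (XT.lf (nat_lit 0) (nat_lit 3080179129115) (nat_lit 152) (nat_lit 8765465764915) (nat_lit 0) (nat_lit 3068318952867) (nat_lit 1) (nat_lit 5) (nat_lit 3) (nat_lit 4) (nat_lit 1) (nat_lit 4) (nat_lit 266) (nat_lit 202) (nat_lit 132))))))) (XT.nd (nat_lit 26598) (nat_lit 0) (nat_lit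 304) (XT.nd (nat_lit 702) (nat_lit 0) (nat_lit 0) (XT.nd (nat_lit 234) (nat_lit 0) (nat_lit 0) (XT.nd (nat_lit 78) (nat_lit 0) (nat_lit 0) (XT.lf (nat_lit 0) (nat_lit 3546866214927) (nat_lit 152) (nat_lit 10068186464376) (nat_lit 0) (nat_lit 3535005951450) (nat_lit 1) (nat_lit 5) (nat_lit 3) (nat_lit 4) (nat_lit 1) (nat_lit 4) (nat_lit 267) (nat_lit 202) (nat_lit 131)) (XT.nd (nat_lit 78) (nat_lit 0) (nat_lit 0) (XT.lf (nat_lit 0) (nat_lit 4083556275082) (nat_lit 152) (nat_lit 11566315435096) (nat_lit 0) (nat_lit 4071695935754) (nat_lit 1) (nat_lit 5) (nat_lit 3) (nat_lit 4) (nat_lit 1) (nat_lit 4) (nat_lit 268) (nat_lit 202) (nat_lit 130)) (XT.lf (nat_lit 0) (nat_lit 4700749767279) (nat_lit 152) (nat_lit 13289163896066) (nat_lit 0) (nat_lit 4688889361994) (nat_lit 1) (nat_lit 5) (nat_lit 3) (nat_lit 4) (nat_lit 1) (nat_lit 4) (nat_lit 269) (nat_lit 202) (nat_lit 129)))) (XT.nd (nat_lit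 156) (nat_lit 0) (nat_lit 0) (XT.nd (nat_lit 78) (nat_lit 0) (nat_lit 0) (XT.lf (nat_lit 0) (nat_lit 5410522216366) (nat_lit 152) (nat_lit 15270439751958) (nat_lit 0) (nat_lit 5398661753726) (nat_lit 1) (nat_lit 5) (nat_lit 3) (nat_lit 4) (nat_lit 1) (nat_lit 4) (nat_lit 270) (nat_lit 202) (nat_lit 128)) (XT.lf (nat_lit 0) (nat_lit 6226760474607) (nat_lit 152) (nat_lit 17548907095605) (nat_lit 0) (nat_lit 6214899962094) (nat_lit 1) (nat_lit 5) (nat_lit 3) (nat_lit 4) (nat_lit 1) (nat_lit 4) (nat_lit 271) (nat_lit 202) (nat_lit 127))) (XT.nd (nat_lit 78) (nat_lit 0) (nat_lit 0) (XT.lf (nat_lit 0) (nat_lit 7165434420969) (nat_lit 152) (nat_lit 20169144635904) (nat_lit 0) (nat_lit 7153573865088) (nat_lit 1) (nat_lit 5) (nat_lit 3) (nat_lit 4) (nat_lit 1) (nat_lit 4) (nat_lit 272) (nat_lit 202) (nat_lit 126)) (XT.lf (nat_lit 0) (nat_lit 8244909415270) (nat_lit 152) (nat_lit 23182417889948)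 (nat_lit 0) (nat_lit 8233048821678) (nat_lit 1) (nat_lit 5) (nat_lit 3) (nat_lit 4) (nat_lit 1) (nat_lit 4) (nat_lit 273) (nat_lit 202) (nat_lit 125))))) (XT.nd (nat_lit 25584) (nat_lit 0) (nat_lit 1064) (XT.nd (nat_lit 156) (nat_lit 0) (nat_lit 0) (XT.nd (nat_lit 78) (nat_lit 0) (nat_lit 0) (XT.lf (nat_lit 0) (nat_lit 12555657637242) (nat_lit 152) (nat_lit 35215548409355) (nat_lit 0) (nat_lit 12543796957545) (nat_lit 1) (nat_lit 5) (nat_lit 3) (nat_lit 4) (nat_lit 1) (nat_lit 4) (nat_lit 276) (nat_lit 202) (nat_lit 122)) (XT.lf (nat_lit 0) (nat_lit 14443665988325) (nat_lit 152) (nat_lit 40485782465523) (nat_lit 0) (nat_lit 14431805287067) (nat_lit 1) (nat_lit 5) (nat_lit 3) (nat_lit 4) (nat_lit 1) (nat_lit 4) (nat_lit 277) (nat_lit 202) (nat_lit 121))) (XT.nd (nat_lit 78) (nat_lit 0) (nat_lit 0) (XT.lf (nat_lit 0) (nat_lit 16614875570188) (nat_lit 152) (nat_lit 46546551671233) (nat_lit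 0) (nat_lit 16603014850181) (nat_lit 1) (nat_lit 5) (nat_lit 3) (nat_lit 4) (nat_lit 1) (nat_lit 4) (nat_lit 278) (nat_lit 202) (nat_lit 120)) (XT.lf (nat_lit 0) (nat_lit 19111766570302) (nat_lit 152) (nat_lit 53516436293553) (nat_lit 0) (nat_lit 19099905833991) (nat_lit 1) (nat_lit 5) (nat_lit 3) (nat_lit 4) (nat_lit 1) (nat_lit 4) (nat_lit 279) (nat_lit 202) (nat_lit 119)))) (XT.nd (nat_lit 156) (nat_lit 228) (nat_lit 0) (XT.nd (nat_lit 78) (nat_lit 0) (nat_lit 0) (XT.lf (nat_lit 0) (nat_lit 2876186577) (nat_lit 228) (nat_lit 394918921) (nat_lit 228) (nat_lit 394918921) (nat_lit 18) (nat_lit 3) (nat_lit 21) (nat_lit 3) (nat_lit 21) (nat_lit 5) (nat_lit 203) (nat_lit 203) (nat_lit 194)) (XT.lf (nat_lit 76) (nat_lit 2435935096) (nat_lit 0) (nat_lit 5046337483) (nat_lit 228) (nat_lit 178372997) (nat_lit 19) (nat_lit 5) (nat_lit 18) (nat_lit 3) (nat_lit 21) (nat_lit 5) (nat_lit 204)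 (nat_lit 203) (nat_lit 193))) (XT.nd (nat_lit 78) (nat_lit 0) (nat_lit 0) (XT.lf (nat_lit 0) (nat_lit 1115143748) (nat_lit 228) (nat_lit 2023436565) (nat_lit 304) (nat_lit 4923717893) (nat_lit 15) (nat_lit 5) (nat_lit 18) (nat_lit 3) (nat_lit 19) (nat_lit 5) (nat_lit 205) (nat_lit 203) (nat_lit 192)) (XT.lf (nat_lit 76) (nat_lit 1654069382) (nat_lit 0) (nat_lit 795676230) (nat_lit 304) (nat_lit 6096953769) (nat_lit 16) (nat_lit 5) (nat_lit 15) (nat_lit 5) (nat_lit 19) (nat_lit 5) (nat_lit 206) (nat_lit 203) (nat_lit 191)))))) (XT.nd (nat_lit 546) (nat_lit 228) (nat_lit 0) (XT.nd (nat_lit 234) (nat_lit 380) (nat_lit 0) (XT.nd (nat_lit 78) (nat_lit 228) (nat_lit 0) (XT.lf (nat_lit 0) (nat_lit 3993560210) (nat_lit 228) (nat_lit 3229539520) (nat_lit 76) (nat_lit 1882414314) (nat_lit 16) (nat_lit 5) (nat_lit 19) (nat_lit 5) (nat_lit 17) (nat_lit 5) (nat_lit 207) (nat_lit 203) (nat_lit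 190)) (XT.nd (nat_lit 78) (nat_lit 0) (nat_lit 0) (XT.lf (nat_lit 0) (nat_lit 876557173) (nat_lit 228) (nat_lit 4809702147) (nat_lit 304) (nat_lit 4076996200) (nat_lit 13) (nat_lit 5) (nat_lit 16) (nat_lit 5) (nat_lit 17) (nat_lit 5) (nat_lit 208) (nat_lit 203) (nat_lit 189)) (XT.lf (nat_lit 0) (nat_lit 5821583254) (nat_lit 228) (nat_lit 1837890574) (nat_lit 304) (nat_lit 2858541910) (nat_lit 13) (nat_lit 5) (nat_lit 16) (nat_lit 5) (nat_lit 17) (nat_lit 5) (nat_lit 209) (nat_lit 203) (nat_lit 188)))) (XT.nd (nat_lit 156) (nat_lit 152) (nat_lit 0) (XT.nd (nat_lit 78) (nat_lit 228) (nat_lit 0) (XT.lf (nat_lit 0) (nat_lit 9870506114) (nat_lit 304) (nat_lit 85399451) (nat_lit 76) (nat_lit 1440851776) (nat_lit 13) (nat_lit 5) (nat_lit 17) (nat_lit 5) (nat_lit 14) (nat_lit 4) (nat_lit 210) (nat_lit 203) (nat_lit 187)) (XT.lf (nat_lit 0) (nat_lit 221232724) (nat_lit 228) (nat_lit 6892803323)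 (nat_lit 76) (nat_lit 5262401153) (nat_lit 10) (nat_lit 5) (nat_lit 13) (nat_lit 5) (nat_lit 11) (nat_lit 5) (nat_lit 211) (nat_lit 203) (nat_lit 186))) (XT.nd (nat_lit 78) (nat_lit 152) (nat_lit 0) (XT.lf (nat_lit 0) (nat_lit 1974832945) (nat_lit 228) (nat_lit 1807384120) (nat_lit 76) (nat_lit 9726255373) (nat_lit 10) (nat_lit 5) (nat_lit 13) (nat_lit 5) (nat_lit 11) (nat_lit 5) (nat_lit 212) (nat_lit 203) (nat_lit 185)) (XT.lf (nat_lit 0) (nat_lit 4088853886) (nat_lit 228) (nat_lit 10496023743) (nat_lit 76) (nat_lit 211996147) (nat_lit 8) (nat_lit 5) (nat_lit 11) (nat_lit 5) (nat_lit 9) (nat_lit 4) (nat_lit 213) (nat_lit 203) (nat_lit 184))))) (XT.nd (nat_lit 312) (nat_lit 152) (nat_lit 0) (XT.nd (nat_lit 156) (nat_lit 0) (nat_lit 0) (XT.nd (nat_lit 78) (nat_lit 76) (nat_lit 0) (XT.lf (nat_lit 0) (nat_lit 6714637470) (nat_lit 228) (nat_lit 5040715007) (nat_lit 76) (nat_lit 4494999492)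 (nat_lit 8) (nat_lit 5) (nat_lit 11) (nat_lit 5) (nat_lit 9) (nat_lit 4) (nat_lit 214) (nat_lit 203) (nat_lit 183)) (XT.lf (nat_lit 0) (nat_lit 1238648873) (nat_lit 76) (nat_lit 8473519207) (nat_lit 152) (nat_lit 8213885000) (nat_lit 7) (nat_lit 5) (nat_lit 8) (nat_lit 5) (nat_lit 9) (nat_lit 4) (nat_lit 215) (nat_lit 203) (nat_lit 182))) (XT.nd (nat_lit 78) (nat_lit 0) (nat_lit 0) (XT.lf (nat_lit 0) (nat_lit 8926661359) (nat_lit 76) (nat_lit 4428192783) (nat_lit 152) (nat_lit 6469694261) (nat_lit 7) (nat_lit 5) (nat_lit 8) (nat_lit 5) (nat_lit 9) (nat_lit 4) (nat_lit 216) (nat_lit 203) (nat_lit 181)) (XT.lf (nat_lit 0) (nat_lit 17492969836) (nat_lit 152) (nat_lit 4344353809) (nat_lit 0) (nat_lit 178808131) (nat_lit 7) (nat_lit 5) (nat_lit 9) (nat_lit 4) (nat_lit 7) (nat_lit 4) (nat_lit 217) (nat_lit 203) (nat_lit 180)))) (XT.nd (nat_lit 156) (nat_lit 0) (nat_lit 0) (XT.nd (nat_lit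 78) (nat_lit 76) (nat_lit 0) (XT.lf (nat_lit 0) (nat_lit 3181887182) (nat_lit 76) (nat_lit 19360149491) (nat_lit 76) (nat_lit 1951461576) (nat_lit 6) (nat_lit 4) (nat_lit 7) (nat_lit 5) (nat_lit 7) (nat_lit 4) (nat_lit 218) (nat_lit 203) (nat_lit 179)) (XT.lf (nat_lit 0) (nat_lit 1102728999) (nat_lit 152) (nat_lit 15120017269) (nat_lit 76) (nat_lit 11085969726) (nat_lit 5) (nat_lit 5) (nat_lit 7) (nat_lit 5) (nat_lit 6) (nat_lit 4) (nat_lit 219) (nat_lit 203) (nat_lit 178))) (XT.nd (nat_lit 78) (nat_lit 0) (nat_lit 0) (XT.lf (nat_lit 0) (nat_lit 4370377923) (nat_lit 152) (nat_lit 8166047476) (nat_lit 76) (nat_lit 18002965445) (nat_lit 5) (nat_lit 5) (nat_lit 7) (nat_lit 5) (nat_lit 6) (nat_lit 4) (nat_lit 220) (nat_lit 203) (nat_lit 177)) (XT.lf (nat_lit 0) (nat_lit 8089150062) (nat_lit 152) (nat_lit 232839894) (nat_lit 76) (nat_lit 25938862579) (nat_lit 5) (nat_lit 5) (nat_lit 7)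 (nat_lit 5) (nat_lit 6) (nat_lit 4) (nat_lit 221) (nat_lit 203) (nat_lit 176))))))))
noncomputable def xc29 : XT := (XT.nd (nat_lit 2340) (nat_lit 0) (nat_lit 0) (XT.nd (nat_lit 1170) (nat_lit 0) (nat_lit 0) (XT.nd (nat_lit 546) (nat_lit 152) (nat_lit 0) (XT.nd (nat_lit 234) (nat_lit 76) (nat_lit 0) (XT.nd (nat_lit 78) (nat_lit 0) (nat_lit 0) (XT.lf (nat_lit 0) (nat_lit 9698223310) (nat_lit 76) (nat_lit 3035163437) (nat_lit 152) (nat_lit 25752288117) (nat_lit 4) (nat_lit 5) (nat_lit 5) (nat_lit 5) (nat_lit 6) (nat_lit 4) (nat_lit 222) (nat_lit 203) (nat_lit 175)) (XT.nd (nat_lit 78) (nat_lit 0) (nat_lit 0) (XT.lf (nat_lit 0) (nat_lit 18180498985) (nat_lit 152) (nat_lit 22381063189) (nat_lit 0) (nat_lit 2766973395) (nat_lit 4) (nat_lit 5) (nat_lit 6) (nat_lit 4) (nat_lit 4) (nat_lit 4) (nat_lit 223) (nat_lit 203) (nat_lit 174)) (XT.lf (nat_lit 0) (nat_lit 24560875125) (nat_lit 152)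 (nat_lit 15207925353) (nat_lit 0) (nat_lit 9111813632) (nat_lit 4) (nat_lit 5) (nat_lit 6) (nat_lit 4) (nat_lit 4) (nat_lit 4) (nat_lit 224) (nat_lit 203) (nat_lit 173)))) (XT.nd (nat_lit 156) (nat_lit 0) (nat_lit 0) (XT.nd (nat_lit 78) (nat_lit 76) (nat_lit 0) (XT.lf (nat_lit 0) (nat_lit 31873668969) (nat_lit 152) (nat_lit 7002014401) (nat_lit 0) (nat_lit 16393706690) (nat_lit 4) (nat_lit 5) (nat_lit 6) (nat_lit 4) (nat_lit 4) (nat_lit 4) (nat_lit 225) (nat_lit 203) (nat_lit 172)) (XT.lf (nat_lit 0) (nat_lit 2631493881) (nat_lit 76) (nat_lit 37739427587) (nat_lit 76) (nat_lit 22232595060) (nat_lit 3) (nat_lit 4) (nat_lit 4) (nat_lit 5) (nat_lit 4) (nat_lit 4) (nat_lit 226) (nat_lit 203) (nat_lit 171))) (XT.nd (nat_lit 78) (nat_lit 0) (nat_lit 0) (XT.lf (nat_lit 0) (nat_lit 14461103662) (nat_lit 76) (nat_lit 36027557451) (nat_lit 76) (nat_lit 20497359490) (nat_lit 3) (nat_lit 4) (nat_lit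 4) (nat_lit 5) (nat_lit 4) (nat_lit 4) (nat_lit 227) (nat_lit 203) (nat_lit 170)) (XT.lf (nat_lit 0) (nat_lit 28033976058) (nat_lit 76) (nat_lit 34072594241) (nat_lit 76) (nat_lit 18522078512) (nat_lit 3) (nat_lit 4) (nat_lit 4) (nat_lit 5) (nat_lit 4) (nat_lit 4) (nat_lit 228) (nat_lit 203) (nat_lit 169))))) (XT.nd (nat_lit 312) (nat_lit 152) (nat_lit 0) (XT.nd (nat_lit 156) (nat_lit 0) (nat_lit 0) (XT.nd (nat_lit 78) (nat_lit 0) (nat_lit 0) (XT.lf (nat_lit 0) (nat_lit 43615667267) (nat_lit 76) (nat_lit 31836288677) (nat_lit 76) (nat_lit 16268105324) (nat_lit 3) (nat_lit 4) (nat_lit 4) (nat_lit 5) (nat_lit 4) (nat_lit 4) (nat_lit 229) (nat_lit 203) (nat_lit 168)) (XT.lf (nat_lit 0) (nat_lit 61511036465) (nat_lit 76) (nat_lit 29274886954) (nat_lit 76) (nat_lit 13691340450) (nat_lit 3) (nat_lit 4) (nat_lit 4) (nat_lit 5) (nat_lit 4) (nat_lit 4) (nat_lit 230) (nat_lit 203) (nat_lit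 167))) (XT.nd (nat_lit 78) (nat_lit 0) (nat_lit 0) (XT.lf (nat_lit 0) (nat_lit 82070210441) (nat_lit 76) (nat_lit 26338274691) (nat_lit 76) (nat_lit 10741368924) (nat_lit 3) (nat_lit 4) (nat_lit 4) (nat_lit 5) (nat_lit 4) (nat_lit 4) (nat_lit 231) (nat_lit 203) (nat_lit 166)) (XT.lf (nat_lit 0) (nat_lit 105695433903) (nat_lit 76) (nat_lit 22968996431) (nat_lit 76) (nat_lit 7360473914) (nat_lit 3) (nat_lit 4) (nat_lit 4) (nat_lit 5) (nat_lit 4) (nat_lit 4) (nat_lit 232) (nat_lit 203) (nat_lit 165)))) (XT.nd (nat_lit 156) (nat_lit 76) (nat_lit 0) (XT.nd (nat_lit 78) (nat_lit 76) (nat_lit 0) (XT.lf (nat_lit 0) (nat_lit 132848939484) (nat_lit 76) (nat_lit 19101131511) (nat_lit 76) (nat_lit 3482507473) (nat_lit 3) (nat_lit 4) (nat_lit 4) (nat_lit 5) (nat_lit 4) (nat_lit 4) (nat_lit 233) (nat_lit 203) (nat_lit 164)) (XT.lf (nat_lit 0) (nat_lit 882189664) (nat_lit 152) (nat_lit 13730700190)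 (nat_lit 76) (nat_lit 163133687299) (nat_lit 2) (nat_lit 5) (nat_lit 4) (nat_lit 5) (nat_lit 3) (nat_lit 4) (nat_lit 234) (nat_lit 203) (nat_lit 163))) (XT.nd (nat_lit 78) (nat_lit 76) (nat_lit 0) (XT.lf (nat_lit 0) (nat_lit 5538117404) (nat_lit 152) (nat_lit 3728093752) (nat_lit 76) (nat_lit 194117669963) (nat_lit 2) (nat_lit 5) (nat_lit 4) (nat_lit 5) (nat_lit 3) (nat_lit 4) (nat_lit 235) (nat_lit 203) (nat_lit 162)) (XT.lf (nat_lit 0) (nat_lit 8522849726) (nat_lit 76) (nat_lit 2716470186) (nat_lit 152) (nat_lit 221575463405) (nat_lit 1) (nat_lit 5) (nat_lit 2) (nat_lit 5) (nat_lit 3) (nat_lit 4) (nat_lit 236) (nat_lit 203) (nat_lit 161)))))) (XT.nd (nat_lit 546) (nat_lit 0) (nat_lit 0) (XT.nd (nat_lit 234) (nat_lit 0) (nat_lit 0) (XT.nd (nat_lit 78) (nat_lit 0) (nat_lit 0) (XT.lf (nat_lit 0) (nat_lit 18193407901) (nat_lit 152) (nat_lit 243820370269) (nat_lit 0) (nat_lit 4586917759)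 (nat_lit 1) (nat_lit 5) (nat_lit 3) (nat_lit 4) (nat_lit 1) (nat_lit 4) (nat_lit 237) (nat_lit 203) (nat_lit 160)) (XT.nd (nat_lit 78) (nat_lit 0) (nat_lit 0) (XT.lf (nat_lit 0) (nat_lit 26314867768) (nat_lit 152) (nat_lit 266417005232) (nat_lit 0) (nat_lit 12704010459) (nat_lit 1) (nat_lit 5) (nat_lit 3) (nat_lit 4) (nat_lit 1) (nat_lit 4) (nat_lit 238) (nat_lit 203) (nat_lit 159)) (XT.lf (nat_lit 0) (nat_lit 35650114402) (nat_lit 152) (nat_lit 292411463317) (nat_lit 0) (nat_lit 22035459557) (nat_lit 1) (nat_lit 5) (nat_lit 3) (nat_lit 4) (nat_lit 1) (nat_lit 4) (nat_lit 239) (nat_lit 203) (nat_lit 158)))) (XT.nd (nat_lit 156) (nat_lit 0) (nat_lit 0) (XT.nd (nat_lit 78) (nat_lit 0) (nat_lit 0) (XT.lf (nat_lit 0) (nat_lit 46381793934) (nat_lit 152) (nat_lit 322312331749) (nat_lit 0) (nat_lit 32763836883) (nat_lit 1) (nat_lit 5) (nat_lit 3) (nat_lit 4) (nat_lit 1) (nat_lit 4) (nat_lit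 240) (nat_lit 203) (nat_lit 157)) (XT.lf (nat_lit 0) (nat_lit 58719874006) (nat_lit 152) (nat_lit 356704627519) (nat_lit 0) (nat_lit 45099045473) (nat_lit 1) (nat_lit 5) (nat_lit 3) (nat_lit 4) (nat_lit 1) (nat_lit 4) (nat_lit 241) (nat_lit 203) (nat_lit 156))) (XT.nd (nat_lit 78) (nat_lit 0) (nat_lit 0) (XT.lf (nat_lit 0) (nat_lit 72905751838) (nat_lit 152) (nat_lit 396261243369) (nat_lit 0) (nat_lit 59282426363) (nat_lit 1) (nat_lit 5) (nat_lit 3) (nat_lit 4) (nat_lit 1) (nat_lit 4) (nat_lit 242) (nat_lit 203) (nat_lit 155)) (XT.lf (nat_lit 0) (nat_lit 89216977213) (nat_lit 152) (nat_lit 441756113088) (nat_lit 0) (nat_lit 75591480485) (nat_lit 1) (nat_lit 5) (nat_lit 3) (nat_lit 4) (nat_lit 1) (nat_lit 4) (nat_lit 243) (nat_lit 203) (nat_lit 154))))) (XT.nd (nat_lit 312) (nat_lit 0) (nat_lit 0) (XT.nd (nat_lit 156) (nat_lit 0) (nat_lit 0) (XT.nd (nat_lit 78) (nat_lit 0) (nat_lit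 0) (XT.lf (nat_lit 0) (nat_lit 107972682802) (nat_lit 152) (nat_lit 494079353692) (nat_lit 0) (nat_lit 94345298027) (nat_lit 1) (nat_lit 5) (nat_lit 3) (nat_lit 4) (nat_lit 1) (nat_lit 4) (nat_lit 244) (nat_lit 203) (nat_lit 153)) (XT.lf (nat_lit 0) (nat_lit 129539828061) (nat_lit 152) (nat_lit 554254680759) (nat_lit 0) (nat_lit 115910801506) (nat_lit 1) (nat_lit 5) (nat_lit 3) (nat_lit 4) (nat_lit 1) (nat_lit 4) (nat_lit 245) (nat_lit 203) (nat_lit 152))) (XT.nd (nat_lit 78) (nat_lit 0) (nat_lit 0) (XT.lf (nat_lit 0) (nat_lit 154340378877) (nat_lit 152) (nat_lit 623459437643) (nat_lit 0) (nat_lit 140709924687) (nat_lit 1) (nat_lit 5) (nat_lit 3) (nat_lit 4) (nat_lit 1) (nat_lit 4) (nat_lit 246) (nat_lit 203) (nat_lit 151)) (XT.lf (nat_lit 0) (nat_lit 182859563417) (nat_lit 152) (nat_lit 703047630458) (nat_lit 0) (nat_lit 169227867806) (nat_lit 1) (nat_lit 5) (nat_lit 3) (nat_lit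 4) (nat_lit 1) (nat_lit 4) (nat_lit 247) (nat_lit 203) (nat_lit 150)))) (XT.nd (nat_lit 156) (nat_lit 0) (nat_lit 0) (XT.nd (nat_lit 78) (nat_lit 0) (nat_lit 0) (XT.lf (nat_lit 0) (nat_lit 215655365726) (nat_lit 152) (nat_lit 794576419499) (nat_lit 0) (nat_lit 202022590619) (nat_lit 1) (nat_lit 5) (nat_lit 3) (nat_lit 4) (nat_lit 1) (nat_lit 4) (nat_lit 248) (nat_lit 203) (nat_lit 149)) (XT.lf (nat_lit 0) (nat_lit 253369442807) (nat_lit 152) (nat_lit 899836585419) (nat_lit 0) (nat_lit 239735729007) (nat_lit 1) (nat_lit 5) (nat_lit 3) (nat_lit 4) (nat_lit 1) (nat_lit 4) (nat_lit 249) (nat_lit 203) (nat_lit 148))) (XT.nd (nat_lit 78) (nat_lit 0) (nat_lit 0) (XT.lf (nat_lit 0) (nat_lit 296739678776) (nat_lit 152) (nat_lit 1020887566249) (nat_lit 0) (nat_lit 283105148721) (nat_lit 1) (nat_lit 5) (nat_lit 3) (nat_lit 4) (nat_lit 1) (nat_lit 4) (nat_lit 250) (nat_lit 203) (nat_lit 147))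 (XT.lf (nat_lit 0) (nat_lit 346614621728) (nat_lit 152) (nat_lit 1160097750744) (nat_lit 0) (nat_lit 332979381886) (nat_lit 1) (nat_lit 5) (nat_lit 3) (nat_lit 4) (nat_lit 1) (nat_lit 4) (nat_lit 251) (nat_lit 203) (nat_lit 146))))))) (XT.nd (nat_lit 1170) (nat_lit 0) (nat_lit 0) (XT.nd (nat_lit 546) (nat_lit 0) (nat_lit 0) (XT.nd (nat_lit 234) (nat_lit 0) (nat_lit 0) (XT.nd (nat_lit 78) (nat_lit 0) (nat_lit 0) (XT.lf (nat_lit 0) (nat_lit 403970085765) (nat_lit 152) (nat_lit 1320190816425) (nat_lit 0) (nat_lit 390334228717) (nat_lit 1) (nat_lit 5) (nat_lit 3) (nat_lit 4) (nat_lit 1) (nat_lit 4) (nat_lit 252) (nat_lit 203) (nat_lit 145)) (XT.nd (nat_lit 78) (nat_lit 0) (nat_lit 0) (XT.lf (nat_lit 0) (nat_lit 469928243008) (nat_lit 152) (nat_lit 1504299018927) (nat_lit 0) (nat_lit 456291849260) (nat_lit 1) (nat_lit 5) (nat_lit 3) (nat_lit 4) (nat_lit 1) (nat_lit 4) (nat_lit 253) (nat_lit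 203) (nat_lit 144)) (XT.lf (nat_lit 0) (nat_lit 545779579144) (nat_lit 152) (nat_lit 1716024475254) (nat_lit 0) (nat_lit 532142718700) (nat_lit 1) (nat_lit 5) (nat_lit 3) (nat_lit 4) (nat_lit 1) (nat_lit 4) (nat_lit 254) (nat_lit 203) (nat_lit 143)))) (XT.nd (nat_lit 156) (nat_lit 0) (nat_lit 0) (XT.nd (nat_lit 78) (nat_lit 0) (nat_lit 0) (XT.lf (nat_lit 0) (nat_lit 633008142053) (nat_lit 152) (nat_lit 1959509639987) (nat_lit 0) (nat_lit 619370875785) (nat_lit 1) (nat_lit 5) (nat_lit 3) (nat_lit 4) (nat_lit 1) (nat_lit 4) (nat_lit 255) (nat_lit 203) (nat_lit 142)) (XT.lf (nat_lit 0) (nat_lit 733320577531) (nat_lit 152) (nat_lit 2239518353305) (nat_lit 0) (nat_lit 719682958374) (nat_lit 1) (nat_lit 5) (nat_lit 3) (nat_lit 4) (nat_lit 1) (nat_lit 4) (nat_lit 256) (nat_lit 203) (nat_lit 141))) (XT.nd (nat_lit 78) (nat_lit 0) (nat_lit 0) (XT.lf (nat_lit 0) (nat_lit 848679520184) (nat_lit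 152) (nat_lit 2561529046557) (nat_lit 0) (nat_lit 835041594167) (nat_lit 1) (nat_lit 5) (nat_lit 3) (nat_lit 4) (nat_lit 1) (nat_lit 4) (nat_lit 257) (nat_lit 203) (nat_lit 140)) (XT.lf (nat_lit 0) (nat_lit 981341992806) (nat_lit 152) (nat_lit 2931841928957) (nat_lit 0) (nat_lit 967703799954) (nat_lit 1) (nat_lit 5) (nat_lit 3) (nat_lit 4) (nat_lit 1) (nat_lit 4) (nat_lit 258) (nat_lit 203) (nat_lit 139))))) (XT.nd (nat_lit 312) (nat_lit 0) (nat_lit 0) (XT.nd (nat_lit 156) (nat_lit 0) (nat_lit 0) (XT.nd (nat_lit 78) (nat_lit 0) (nat_lit 0) (XT.lf (nat_lit 0) (nat_lit 1133903565511) (nat_lit 152) (nat_lit 3357702252553) (nat_lit 0) (nat_lit 1120265140628) (nat_lit 1) (nat_lit 5) (nat_lit 3) (nat_lit 4) (nat_lit 1) (nat_lit 4) (nat_lit 259) (nat_lit 203) (nat_lit 138)) (XT.lf (nat_lit 0) (nat_lit 1309349138635) (nat_lit 152) (nat_lit 3847442067154) (nat_lit 0) (nat_lit 1295710511987)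 (nat_lit 1) (nat_lit 5) (nat_lit 3) (nat_lit 4) (nat_lit 1) (nat_lit 4) (nat_lit 260) (nat_lit 203) (nat_lit 137))) (XT.nd (nat_lit 78) (nat_lit 0) (nat_lit 0) (XT.lf (nat_lit 0) (nat_lit 1511111342957) (nat_lit 152) (nat_lit 4410643238698) (nat_lit 0) (nat_lit 1497472540861) (nat_lit 1) (nat_lit 5) (nat_lit 3) (nat_lit 4) (nat_lit 1) (nat_lit 4) (nat_lit 261) (nat_lit 203) (nat_lit 136)) (XT.lf (nat_lit 0) (nat_lit 1743137699866) (nat_lit 152) (nat_lit 5058324920542) (nat_lit 0) (nat_lit 1729498745206) (nat_lit 1) (nat_lit 5) (nat_lit 3) (nat_lit 4) (nat_lit 1) (nat_lit 4) (nat_lit 262) (nat_lit 203) (nat_lit 135)))) (XT.nd (nat_lit 156) (nat_lit 0) (nat_lit 0) (XT.nd (nat_lit 78) (nat_lit 0) (nat_lit 0) (XT.lf (nat_lit 0) (nat_lit 2009967855476) (nat_lit 152) (nat_lit 5803159145590) (nat_lit 0) (nat_lit 1996328768151) (nat_lit 1) (nat_lit 5) (nat_lit 3) (nat_lit 4) (nat_lit 1) (nat_lit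 4) (nat_lit 263) (nat_lit 203) (nat_lit 134)) (XT.lf (nat_lit 0) (nat_lit 2316822399786) (nat_lit 152) (nat_lit 6659718757377) (nat_lit 0) (nat_lit 2303183197101) (nat_lit 1) (nat_lit 5) (nat_lit 3) (nat_lit 4) (nat_lit 1) (nat_lit 4) (nat_lit 264) (nat_lit 203) (nat_lit 133))) (XT.nd (nat_lit 78) (nat_lit 0) (nat_lit 0) (XT.lf (nat_lit 0) (nat_lit 2669705008665) (nat_lit 152) (nat_lit 7644762530916) (nat_lit 0) (nat_lit 2656065705667) (nat_lit 1) (nat_lit 5) (nat_lit 3) (nat_lit 4) (nat_lit 1) (nat_lit 4) (nat_lit 265) (nat_lit 203) (nat_lit 132)) (XT.lf (nat_lit 0) (nat_lit 3075519907068) (nat_lit 152) (nat_lit 8777563061776) (nat_lit 0) (nat_lit 3061880516841) (nat_lit 1) (nat_lit 5) (nat_lit 3) (nat_lit 4) (nat_lit 1) (nat_lit 4) (nat_lit 266) (nat_lit 203) (nat_lit 131)))))) (XT.nd (nat_lit 702) (nat_lit 0) (nat_lit 0) (XT.nd (nat_lit 234) (nat_lit 0) (nat_lit 0) (XT.nd (nat_lit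 78) (nat_lit 0) (nat_lit 0) (XT.lf (nat_lit 0) (nat_lit 3542206951703) (nat_lit 152) (nat_lit 10080283838604) (nat_lit 0) (nat_lit 3528567485625) (nat_lit 1) (nat_lit 5) (nat_lit 3) (nat_lit 4) (nat_lit 1) (nat_lit 4) (nat_lit 267) (nat_lit 203) (nat_lit 130)) (XT.nd (nat_lit 78) (nat_lit 0) (nat_lit 0) (XT.lf (nat_lit 0) (nat_lit 4078896976053) (nat_lit 152) (nat_lit 11578412876599) (nat_lit 0) (nat_lit 4065257444018) (nat_lit 1) (nat_lit 5) (nat_lit 3) (nat_lit 4) (nat_lit 1) (nat_lit 4) (nat_lit 268) (nat_lit 203) (nat_lit 129)) (XT.lf (nat_lit 0) (nat_lit 4696090437116) (nat_lit 152) (nat_lit 13301261396070) (nat_lit 0) (nat_lit 4682450847726) (nat_lit 1) (nat_lit 5) (nat_lit 3) (nat_lit 4) (nat_lit 1) (nat_lit 4) (nat_lit 269) (nat_lit 203) (nat_lit 128)))) (XT.nd (nat_lit 156) (nat_lit 0) (nat_lit 0) (XT.nd (nat_lit 78) (nat_lit 0) (nat_lit 0) (XT.lf (nat_lit 0) (nat_lit 5405862859129)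 (nat_lit 152) (nat_lit 15282537302832) (nat_lit 0) (nat_lit 5392223219866) (nat_lit 1) (nat_lit 5) (nat_lit 3) (nat_lit 4) (nat_lit 1) (nat_lit 4) (nat_lit 270) (nat_lit 203) (nat_lit 127)) (XT.lf (nat_lit 0) (nat_lit 6222101093828) (nat_lit 152) (nat_lit 17561004690714) (nat_lit 0) (nat_lit 6208461411196) (nat_lit 1) (nat_lit 5) (nat_lit 3) (nat_lit 4) (nat_lit 1) (nat_lit 4) (nat_lit 271) (nat_lit 203) (nat_lit 126))) (XT.nd (nat_lit 78) (nat_lit 0) (nat_lit 0) (XT.lf (nat_lit 0) (nat_lit 7160775019718) (nat_lit 152) (nat_lit 20181242269478) (nat_lit 0) (nat_lit 7147135299375) (nat_lit 1) (nat_lit 5) (nat_lit 3) (nat_lit 4) (nat_lit 1) (nat_lit 4) (nat_lit 272) (nat_lit 203) (nat_lit 125)) (XT.lf (nat_lit 0) (nat_lit 8240249996218) (nat_lit 152) (nat_lit 23194515556970) (nat_lit 0) (nat_lit 8226610243082) (nat_lit 1) (nat_lit 5) (nat_lit 3) (nat_lit 4) (nat_lit 1) (nat_lit 4) (nat_lit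 273) (nat_lit 203) (nat_lit 124))))) (XT.nd (nat_lit 25740) (nat_lit 0) (nat_lit 1064) (XT.nd (nat_lit 156) (nat_lit 0) (nat_lit 0) (XT.nd (nat_lit 78) (nat_lit 0) (nat_lit 0) (XT.lf (nat_lit 0) (nat_lit 12550998177545) (nat_lit 152) (nat_lit 35227646152747) (nat_lit 0) (nat_lit 12537358349536) (nat_lit 1) (nat_lit 5) (nat_lit 3) (nat_lit 4) (nat_lit 1) (nat_lit 4) (nat_lit 276) (nat_lit 203) (nat_lit 121)) (XT.lf (nat_lit 0) (nat_lit 14439006518450) (nat_lit 152) (nat_lit 40497880228039) (nat_lit 0) (nat_lit 14425366671692) (nat_lit 1) (nat_lit 5) (nat_lit 3) (nat_lit 4) (nat_lit 1) (nat_lit 4) (nat_lit 277) (nat_lit 203) (nat_lit 120))) (XT.nd (nat_lit 25506) (nat_lit 0) (nat_lit 1064) (XT.lf (nat_lit 0) (nat_lit 16610216091462) (nat_lit 152) (nat_lit 46558649450378) (nat_lit 0) (nat_lit 16596576228401) (nat_lit 1) (nat_lit 5) (nat_lit 3) (nat_lit 4) (nat_lit 1) (nat_lit 4) (nat_lit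 278) (nat_lit 203) (nat_lit 119)) (XT.lf (nat_lit 0) (nat_lit 208730616) (nat_lit 0) (nat_lit 208730616) (nat_lit 228) (nat_lit 3595252507) (nat_lit 15) (nat_lit 5) (nat_lit 15) (nat_lit 3) (nat_lit 18) (nat_lit 3) (nat_lit 204) (nat_lit 204) (nat_lit 192)))) (XT.nd (nat_lit 156) (nat_lit 0) (nat_lit 0) (XT.nd (nat_lit 78) (nat_lit 0) (nat_lit 0) (XT.lf (nat_lit 0) (nat_lit 2000774486) (nat_lit 228) (nat_lit 4463174429) (nat_lit 304) (nat_lit 1980452711) (nat_lit 15) (nat_lit 5) (nat_lit 18) (nat_lit 3) (nat_lit 19) (nat_lit 5) (nat_lit 205) (nat_lit 204) (nat_lit 191)) (XT.lf (nat_lit 0) (nat_lit 3184712211) (nat_lit 228) (nat_lit 990648856) (nat_lit 304) (nat_lit 4777486321) (nat_lit 15) (nat_lit 5) (nat_lit 18) (nat_lit 3) (nat_lit 19) (nat_lit 5) (nat_lit 206) (nat_lit 204) (nat_lit 190))) (XT.nd (nat_lit 78) (nat_lit 0) (nat_lit 76) (XT.lf (nat_lit 76) (nat_lit 3177741928) (nat_lit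 0) (nat_lit 1346455052) (nat_lit 304) (nat_lit 5019371041) (nat_lit 16) (nat_lit 5) (nat_lit 15) (nat_lit 5) (nat_lit 19) (nat_lit 5) (nat_lit 207) (nat_lit 204) (nat_lit 189)) (XT.lf (nat_lit 0) (nat_lit 6061398623) (nat_lit 228) (nat_lit 2341307062) (nat_lit 76) (nat_lit 1823021037) (nat_lit 16) (nat_lit 5) (nat_lit 19) (nat_lit 5) (nat_lit 17) (nat_lit 5) (nat_lit 208) (nat_lit 204) (nat_lit 188))))))))
noncomputable def xc30 : XT := (XT.nd (nat_lit 2340) (nat_lit 0) (nat_lit 0) (XT.nd (nat_lit 1170) (nat_lit 228) (nat_lit 0) (XT.nd (nat_lit 546) (nat_lit 304) (nat_lit 0) (XT.nd (nat_lit 234) (nat_lit 228) (nat_lit 0) (XT.nd (nat_lit 78) (nat_lit 152) (nat_lit 0) (XT.lf (nat_lit 0) (nat_lit 2318310345) (nat_lit 228) (nat_lit 5552364545) (nat_lit 304) (nat_lit 3135352874) (nat_lit 13) (nat_lit 5) (nat_lit 16) (nat_lit 5) (nat_lit 17) (nat_lit 5) (nat_lit 209) (nat_lit 204) (nat_lit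 187)) (XT.nd (nat_lit 78) (nat_lit 152) (nat_lit 0) (XT.lf (nat_lit 0) (nat_lit 7834185608) (nat_lit 228) (nat_lit 2132015095) (nat_lit 304) (nat_lit 1936720800) (nat_lit 13) (nat_lit 5) (nat_lit 16) (nat_lit 5) (nat_lit 17) (nat_lit 5) (nat_lit 210) (nat_lit 204) (nat_lit 186)) (XT.lf (nat_lit 0) (nat_lit 1164530455) (nat_lit 152) (nat_lit 11240895951) (nat_lit 228) (nat_lit 526061814) (nat_lit 11) (nat_lit 5) (nat_lit 13) (nat_lit 5) (nat_lit 14) (nat_lit 4) (nat_lit 211) (nat_lit 204) (nat_lit 185)))) (XT.nd (nat_lit 156) (nat_lit 152) (nat_lit 0) (XT.nd (nat_lit 78) (nat_lit 0) (nat_lit 0) (XT.lf (nat_lit 0) (nat_lit 1232137929) (nat_lit 228) (nat_lit 6712217923) (nat_lit 76) (nat_lit 6129313409) (nat_lit 10) (nat_lit 5) (nat_lit 13) (nat_lit 5) (nat_lit 11) (nat_lit 5) (nat_lit 212) (nat_lit 204) (nat_lit 184)) (XT.lf (nat_lit 0) (nat_lit 3121249449) (nat_lit 228) (nat_lit 1022399653)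 (nat_lit 76) (nat_lit 11252630272) (nat_lit 10) (nat_lit 5) (nat_lit 13) (nat_lit 5) (nat_lit 11) (nat_lit 5) (nat_lit 213) (nat_lit 204) (nat_lit 183))) (XT.nd (nat_lit 78) (nat_lit 0) (nat_lit 0) (XT.lf (nat_lit 0) (nat_lit 5492623328) (nat_lit 228) (nat_lit 10945076150) (nat_lit 76) (nat_lit 450630295) (nat_lit 8) (nat_lit 5) (nat_lit 11) (nat_lit 5) (nat_lit 9) (nat_lit 4) (nat_lit 214) (nat_lit 204) (nat_lit 182)) (XT.lf (nat_lit 0) (nat_lit 8409173403) (nat_lit 228) (nat_lit 4818256037) (nat_lit 76) (nat_lit 5349105699) (nat_lit 8) (nat_lit 5) (nat_lit 11) (nat_lit 5) (nat_lit 9) (nat_lit 4) (nat_lit 215) (nat_lit 204) (nat_lit 181))))) (XT.nd (nat_lit 312) (nat_lit 152) (nat_lit 0) (XT.nd (nat_lit 156) (nat_lit 76) (nat_lit 0) (XT.nd (nat_lit 78) (nat_lit 0) (nat_lit 0) (XT.lf (nat_lit 0) (nat_lit 2358532142) (nat_lit 76) (nat_lit 9446826884) (nat_lit 152) (nat_lit 8706957087)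 (nat_lit 7) (nat_lit 5) (nat_lit 8) (nat_lit 5) (nat_lit 9) (nat_lit 4) (nat_lit 216) (nat_lit 204) (nat_lit 180)) (XT.lf (nat_lit 0) (nat_lit 11077909205) (nat_lit 76) (nat_lit 4833534567) (nat_lit 152) (nat_lit 6797530432) (nat_lit 7) (nat_lit 5) (nat_lit 8) (nat_lit 5) (nat_lit 9) (nat_lit 4) (nat_lit 217) (nat_lit 204) (nat_lit 179))) (XT.nd (nat_lit 78) (nat_lit 76) (nat_lit 0) (XT.lf (nat_lit 0) (nat_lit 20607420940) (nat_lit 152) (nat_lit 4221411109) (nat_lit 0) (nat_lit 410706926) (nat_lit 7) (nat_lit 5) (nat_lit 9) (nat_lit 4) (nat_lit 7) (nat_lit 4) (nat_lit 218) (nat_lit 204) (nat_lit 178)) (XT.lf (nat_lit 0) (nat_lit 4398557133) (nat_lit 76) (nat_lit 21981928108) (nat_lit 76) (nat_lit 1713738699) (nat_lit 6) (nat_lit 4) (nat_lit 7) (nat_lit 5) (nat_lit 7) (nat_lit 4) (nat_lit 219) (nat_lit 204) (nat_lit 177)))) (XT.nd (nat_lit 156) (nat_lit 76) (nat_lit 0) (XT.nd (nat_lit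 78) (nat_lit 0) (nat_lit 0) (XT.lf (nat_lit 0) (nat_lit 1688328339) (nat_lit 152) (nat_lit 16700435996) (nat_lit 76) (nat_lit 12949655825) (nat_lit 5) (nat_lit 5) (nat_lit 7) (nat_lit 5) (nat_lit 6) (nat_lit 4) (nat_lit 220) (nat_lit 204) (nat_lit 176)) (XT.lf (nat_lit 0) (nat_lit 5391317212) (nat_lit 152) (nat_lit 8793055585) (nat_lit 76) (nat_lit 20878010818) (nat_lit 5) (nat_lit 5) (nat_lit 7) (nat_lit 5) (nat_lit 6) (nat_lit 4) (nat_lit 221) (nat_lit 204) (nat_lit 175))) (XT.nd (nat_lit 78) (nat_lit 0) (nat_lit 0) (XT.lf (nat_lit 0) (nat_lit 276787876) (nat_lit 76) (nat_lit 9354919891) (nat_lit 152) (nat_lit 29716191856) (nat_lit 4) (nat_lit 5) (nat_lit 5) (nat_lit 5) (nat_lit 6) (nat_lit 4) (nat_lit 222) (nat_lit 204) (nat_lit 174)) (XT.lf (nat_lit 0) (nat_lit 11649236619) (nat_lit 76) (nat_lit 3290989768) (nat_lit 152) (nat_lit 29271424516) (nat_lit 4) (nat_lit 5) (nat_lit 5)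 (nat_lit 5) (nat_lit 6) (nat_lit 4) (nat_lit 223) (nat_lit 204) (nat_lit 173)))))) (XT.nd (nat_lit 546) (nat_lit 152) (nat_lit 0) (XT.nd (nat_lit 234) (nat_lit 76) (nat_lit 0) (XT.nd (nat_lit 78) (nat_lit 0) (nat_lit 0) (XT.lf (nat_lit 0) (nat_lit 21172869791) (nat_lit 152) (nat_lit 25273095468) (nat_lit 0) (nat_lit 3340012384) (nat_lit 4) (nat_lit 5) (nat_lit 6) (nat_lit 4) (nat_lit 4) (nat_lit 4) (nat_lit 224) (nat_lit 204) (nat_lit 172)) (XT.nd (nat_lit 78) (nat_lit 0) (nat_lit 0) (XT.lf (nat_lit 0) (nat_lit 28475698532) (nat_lit 152) (nat_lit 17084655723) (nat_lit 0) (nat_lit 10615970877) (nat_lit 4) (nat_lit 5) (nat_lit 6) (nat_lit 4) (nat_lit 4) (nat_lit 4) (nat_lit 225) (nat_lit 204) (nat_lit 171)) (XT.lf (nat_lit 0) (nat_lit 36855321174) (nat_lit 152) (nat_lit 7700613575) (nat_lit 0) (nat_lit 18972228086) (nat_lit 4) (nat_lit 5) (nat_lit 6) (nat_lit 4) (nat_lit 4) (nat_lit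 4) (nat_lit 226) (nat_lit 204) (nat_lit 170)))) (XT.nd (nat_lit 156) (nat_lit 0) (nat_lit 0) (XT.nd (nat_lit 78) (nat_lit 0) (nat_lit 0) (XT.lf (nat_lit 0) (nat_lit 3361934450) (nat_lit 76) (nat_lit 43252962941) (nat_lit 76) (nat_lit 25349552085) (nat_lit 3) (nat_lit 4) (nat_lit 4) (nat_lit 5) (nat_lit 4) (nat_lit 4) (nat_lit 227) (nat_lit 204) (nat_lit 169)) (XT.lf (nat_lit 0) (nat_lit 16922196592) (nat_lit 76) (nat_lit 41303535604) (nat_lit 76) (nat_lit 23382457124) (nat_lit 3) (nat_lit 4) (nat_lit 4) (nat_lit 5) (nat_lit 4) (nat_lit 4) (nat_lit 228) (nat_lit 204) (nat_lit 168))) (XT.nd (nat_lit 78) (nat_lit 0) (nat_lit 0) (XT.lf (nat_lit 0) (nat_lit 32492922362) (nat_lit 76) (nat_lit 39072043843) (nat_lit 76) (nat_lit 21135602211) (nat_lit 3) (nat_lit 4) (nat_lit 4) (nat_lit 5) (nat_lit 4) (nat_lit 4) (nat_lit 229) (nat_lit 204) (nat_lit 167)) (XT.lf (nat_lit 0) (nat_lit 50378756397)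 (nat_lit 76) (nat_lit 36514828036) (nat_lit 76) (nat_lit 18565027142) (nat_lit 3) (nat_lit 4) (nat_lit 4) (nat_lit 5) (nat_lit 4) (nat_lit 4) (nat_lit 230) (nat_lit 204) (nat_lit 166))))) (XT.nd (nat_lit 312) (nat_lit 152) (nat_lit 0) (XT.nd (nat_lit 156) (nat_lit 0) (nat_lit 0) (XT.nd (nat_lit 78) (nat_lit 0) (nat_lit 0) (XT.lf (nat_lit 0) (nat_lit 70929638926) (nat_lit 76) (nat_lit 33581855700) (nat_lit 76) (nat_lit 15620438055) (nat_lit 3) (nat_lit 4) (nat_lit 4) (nat_lit 5) (nat_lit 4) (nat_lit 4) (nat_lit 231) (nat_lit 204) (nat_lit 165)) (XT.lf (nat_lit 0) (nat_lit 94547652434) (nat_lit 76) (nat_lit 30215742593) (nat_lit 76) (nat_lit 12244223427) (nat_lit 3) (nat_lit 4) (nat_lit 4) (nat_lit 5) (nat_lit 4) (nat_lit 4) (nat_lit 232) (nat_lit 204) (nat_lit 164))) (XT.nd (nat_lit 78) (nat_lit 0) (nat_lit 0) (XT.lf (nat_lit 0) (nat_lit 121694888490) (nat_lit 76) (nat_lit 26350629980)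 (nat_lit 76) (nat_lit 8370326883) (nat_lit 3) (nat_lit 4) (nat_lit 4) (nat_lit 5) (nat_lit 4) (nat_lit 4) (nat_lit 233) (nat_lit 204) (nat_lit 163)) (XT.lf (nat_lit 0) (nat_lit 152902488669) (nat_lit 76) (nat_lit 21910896095) (nat_lit 76) (nat_lit 3922954795) (nat_lit 3) (nat_lit 4) (nat_lit 4) (nat_lit 5) (nat_lit 4) (nat_lit 4) (nat_lit 234) (nat_lit 204) (nat_lit 162)))) (XT.nd (nat_lit 156) (nat_lit 76) (nat_lit 0) (XT.nd (nat_lit 78) (nat_lit 0) (nat_lit 0) (XT.lf (nat_lit 0) (nat_lit 1079418054) (nat_lit 152) (nat_lit 15673834397) (nat_lit 76) (nat_lit 187645194273) (nat_lit 2) (nat_lit 5) (nat_lit 4) (nat_lit 5) (nat_lit 3) (nat_lit 4) (nat_lit 235) (nat_lit 204) (nat_lit 161)) (XT.lf (nat_lit 0) (nat_lit 6425269745) (nat_lit 152) (nat_lit 4186028839) (nat_lit 76) (nat_lit 223271367309) (nat_lit 2) (nat_lit 5) (nat_lit 4) (nat_lit 5) (nat_lit 3) (nat_lit 4) (nat_lit 236) (nat_lit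 204) (nat_lit 160))) (XT.nd (nat_lit 78) (nat_lit 0) (nat_lit 0) (XT.lf (nat_lit 0) (nat_lit 9897952571) (nat_lit 76) (nat_lit 3080342128) (nat_lit 152) (nat_lit 254750455739) (nat_lit 1) (nat_lit 5) (nat_lit 2) (nat_lit 5) (nat_lit 3) (nat_lit 4) (nat_lit 237) (nat_lit 204) (nat_lit 159)) (XT.lf (nat_lit 0) (nat_lit 20970142673) (nat_lit 152) (nat_lit 280303755863) (nat_lit 0) (nat_lit 5309492065) (nat_lit 1) (nat_lit 5) (nat_lit 3) (nat_lit 4) (nat_lit 1) (nat_lit 4) (nat_lit 238) (nat_lit 204) (nat_lit 158))))))) (XT.nd (nat_lit 1170) (nat_lit 0) (nat_lit 0) (XT.nd (nat_lit 546) (nat_lit 0) (nat_lit 0) (XT.nd (nat_lit 234) (nat_lit 0) (nat_lit 0) (XT.nd (nat_lit 78) (nat_lit 0) (nat_lit 0) (XT.lf (nat_lit 0) (nat_lit 30303596704) (nat_lit 152) (nat_lit 306301582150) (nat_lit 0) (nat_lit 14639643890) (nat_lit 1) (nat_lit 5) (nat_lit 3) (nat_lit 4) (nat_lit 1) (nat_lit 4) (nat_lit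 239) (nat_lit 204) (nat_lit 157)) (XT.nd (nat_lit 78) (nat_lit 0) (nat_lit 0) (XT.lf (nat_lit 0) (nat_lit 41033717450) (nat_lit 152) (nat_lit 336205379453) (nat_lit 0) (nat_lit 25366893154) (nat_lit 1) (nat_lit 5) (nat_lit 3) (nat_lit 4) (nat_lit 1) (nat_lit 4) (nat_lit 240) (nat_lit 204) (nat_lit 156)) (XT.lf (nat_lit 0) (nat_lit 53370442057) (nat_lit 152) (nat_lit 370600222067) (nat_lit 0) (nat_lit 37701120819) (nat_lit 1) (nat_lit 5) (nat_lit 3) (nat_lit 4) (nat_lit 1) (nat_lit 4) (nat_lit 241) (nat_lit 204) (nat_lit 155)))) (XT.nd (nat_lit 156) (nat_lit 0) (nat_lit 0) (XT.nd (nat_lit 78) (nat_lit 0) (nat_lit 0) (XT.lf (nat_lit 0) (nat_lit 67555141223) (nat_lit 152) (nat_lit 410159052564) (nat_lit 0) (nat_lit 51883648731) (nat_lit 1) (nat_lit 5) (nat_lit 3) (nat_lit 4) (nat_lit 1) (nat_lit 4) (nat_lit 242) (nat_lit 204) (nat_lit 154)) (XT.lf (nat_lit 0) (nat_lit 83865341671) (nat_lit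 152) (nat_lit 455655848063) (nat_lit 0) (nat_lit 68191961133) (nat_lit 1) (nat_lit 5) (nat_lit 3) (nat_lit 4) (nat_lit 1) (nat_lit 4) (nat_lit 243) (nat_lit 204) (nat_lit 153))) (XT.nd (nat_lit 78) (nat_lit 0) (nat_lit 0) (XT.lf (nat_lit 0) (nat_lit 102620156019) (nat_lit 152) (nat_lit 507980763259) (nat_lit 0) (nat_lit 86945133701) (nat_lit 1) (nat_lit 5) (nat_lit 3) (nat_lit 4) (nat_lit 1) (nat_lit 4) (nat_lit 244) (nat_lit 204) (nat_lit 152)) (XT.lf (nat_lit 0) (nat_lit 124186526286) (nat_lit 152) (nat_lit 568157546492) (nat_lit 0) (nat_lit 108510076334) (nat_lit 1) (nat_lit 5) (nat_lit 3) (nat_lit 4) (nat_lit 1) (nat_lit 4) (nat_lit 245) (nat_lit 204) (nat_lit 151))))) (XT.nd (nat_lit 312) (nat_lit 0) (nat_lit 0) (XT.nd (nat_lit 156) (nat_lit 0) (nat_lit 0) (XT.nd (nat_lit 78) (nat_lit 0) (nat_lit 0) (XT.lf (nat_lit 0) (nat_lit 148986403196) (nat_lit 152) (nat_lit 637363569608)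 (nat_lit 0) (nat_lit 133308711822) (nat_lit 1) (nat_lit 5) (nat_lit 3) (nat_lit 4) (nat_lit 1) (nat_lit 4) (nat_lit 246) (nat_lit 204) (nat_lit 150)) (XT.lf (nat_lit 0) (nat_lit 177505001730) (nat_lit 152) (nat_lit 716952863494) (nat_lit 0) (nat_lit 161826230860) (nat_lit 1) (nat_lit 5) (nat_lit 3) (nat_lit 4) (nat_lit 1) (nat_lit 4) (nat_lit 247) (nat_lit 204) (nat_lit 149))) (XT.nd (nat_lit 78) (nat_lit 0) (nat_lit 0) (XT.lf (nat_lit 0) (nat_lit 210300294470) (nat_lit 152) (nat_lit 808482609988) (nat_lit 0) (nat_lit 194620584907) (nat_lit 1) (nat_lit 5) (nat_lit 3) (nat_lit 4) (nat_lit 1) (nat_lit 4) (nat_lit 248) (nat_lit 204) (nat_lit 148)) (XT.lf (nat_lit 0) (nat_lit 248013928447) (nat_lit 152) (nat_lit 913743608476) (nat_lit 0) (nat_lit 232333402629) (nat_lit 1) (nat_lit 5) (nat_lit 3) (nat_lit 4) (nat_lit 1) (nat_lit 4) (nat_lit 249) (nat_lit 204) (nat_lit 147)))) (XT.nd (nat_lit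 156) (nat_lit 0) (nat_lit 0) (XT.nd (nat_lit 78) (nat_lit 0) (nat_lit 0) (XT.lf (nat_lit 0) (nat_lit 291383779108) (nat_lit 152) (nat_lit 1034795313278) (nat_lit 0) (nat_lit 275702543503) (nat_lit 1) (nat_lit 5) (nat_lit 3) (nat_lit 4) (nat_lit 1) (nat_lit 4) (nat_lit 250) (nat_lit 204) (nat_lit 146)) (XT.lf (nat_lit 0) (nat_lit 341258387009) (nat_lit 152) (nat_lit 1174006127314) (nat_lit 0) (nat_lit 325576534199) (nat_lit 1) (nat_lit 5) (nat_lit 3) (nat_lit 4) (nat_lit 1) (nat_lit 4) (nat_lit 251) (nat_lit 204) (nat_lit 145))) (XT.nd (nat_lit 78) (nat_lit 0) (nat_lit 0) (XT.lf (nat_lit 0) (nat_lit 398613559698) (nat_lit 152) (nat_lit 1334099740422) (nat_lit 0) (nat_lit 382931170187) (nat_lit 1) (nat_lit 5) (nat_lit 3) (nat_lit 4) (nat_lit 1) (nat_lit 4) (nat_lit 252) (nat_lit 204) (nat_lit 144)) (XT.lf (nat_lit 0) (nat_lit 464571463595) (nat_lit 152) (nat_lit 1518208418947) (nat_lit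 0) (nat_lit 448888607388) (nat_lit 1) (nat_lit 5) (nat_lit 3) (nat_lit 4) (nat_lit 1) (nat_lit 4) (nat_lit 253) (nat_lit 204) (nat_lit 143)))))) (XT.nd (nat_lit 546) (nat_lit 0) (nat_lit 0) (XT.nd (nat_lit 234) (nat_lit 0) (nat_lit 0) (XT.nd (nat_lit 78) (nat_lit 0) (nat_lit 0) (XT.lf (nat_lit 0) (nat_lit 540422579430) (nat_lit 152) (nat_lit 1729934289207) (nat_lit 0) (nat_lit 524739317400) (nat_lit 1) (nat_lit 5) (nat_lit 3) (nat_lit 4) (nat_lit 1) (nat_lit 4) (nat_lit 254) (nat_lit 204) (nat_lit 142)) (XT.nd (nat_lit 78) (nat_lit 0) (nat_lit 0) (XT.lf (nat_lit 0) (nat_lit 627650950772) (nat_lit 152) (nat_lit 1973419813883) (nat_lit 0) (nat_lit 611967335853) (nat_lit 1) (nat_lit 5) (nat_lit 3) (nat_lit 4) (nat_lit 1) (nat_lit 4) (nat_lit 255) (nat_lit 204) (nat_lit 141)) (XT.lf (nat_lit 0) (nat_lit 727963219671) (nat_lit 152) (nat_lit 2253428840194) (nat_lit 0) (nat_lit 712279297891)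 (nat_lit 1) (nat_lit 5) (nat_lit 3) (nat_lit 4) (nat_lit 1) (nat_lit 4) (nat_lit 256) (nat_lit 204) (nat_lit 140)))) (XT.nd (nat_lit 156) (nat_lit 0) (nat_lit 0) (XT.nd (nat_lit 78) (nat_lit 0) (nat_lit 0) (XT.lf (nat_lit 0) (nat_lit 843322017473) (nat_lit 152) (nat_lit 2575439805613) (nat_lit 0) (nat_lit 827637828858) (nat_lit 1) (nat_lit 5) (nat_lit 3) (nat_lit 4) (nat_lit 1) (nat_lit 4) (nat_lit 257) (nat_lit 204) (nat_lit 139)) (XT.lf (nat_lit 0) (nat_lit 975984364137) (nat_lit 152) (nat_lit 2945752924681) (nat_lit 0) (nat_lit 960299943491) (nat_lit 1) (nat_lit 5) (nat_lit 3) (nat_lit 4) (nat_lit 1) (nat_lit 4) (nat_lit 258) (nat_lit 204) (nat_lit 138))) (XT.nd (nat_lit 78) (nat_lit 0) (nat_lit 0) (XT.lf (nat_lit 0) (nat_lit 1128545827313) (nat_lit 152) (nat_lit 3371613454075) (nat_lit 0) (nat_lit 1112861204902) (nat_lit 1) (nat_lit 5) (nat_lit 3) (nat_lit 4) (nat_lit 1) (nat_lit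 4) (nat_lit 259) (nat_lit 204) (nat_lit 137)) (XT.lf (nat_lit 0) (nat_lit 1303991305195) (nat_lit 152) (nat_lit 3861353447631) (nat_lit 0) (nat_lit 1288306507336) (nat_lit 1) (nat_lit 5) (nat_lit 3) (nat_lit 4) (nat_lit 1) (nat_lit 4) (nat_lit 260) (nat_lit 204) (nat_lit 136))))) (XT.nd (nat_lit 312) (nat_lit 0) (nat_lit 0) (XT.nd (nat_lit 156) (nat_lit 0) (nat_lit 0) (XT.nd (nat_lit 78) (nat_lit 0) (nat_lit 0) (XT.lf (nat_lit 0) (nat_lit 1505753426698) (nat_lit 152) (nat_lit 4424554774788) (nat_lit 0) (nat_lit 1490068476275) (nat_lit 1) (nat_lit 5) (nat_lit 3) (nat_lit 4) (nat_lit 1) (nat_lit 4) (nat_lit 261) (nat_lit 204) (nat_lit 135)) (XT.lf (nat_lit 0) (nat_lit 1737779711590) (nat_lit 152) (nat_lit 5072236591948) (nat_lit 0) (nat_lit 1722094628503) (nat_lit 1) (nat_lit 5) (nat_lit 3) (nat_lit 4) (nat_lit 1) (nat_lit 4) (nat_lit 262) (nat_lit 204) (nat_lit 134))) (XT.nd (nat_lit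 78) (nat_lit 0) (nat_lit 0) (XT.lf (nat_lit 0) (nat_lit 2004609804576) (nat_lit 152) (nat_lit 5817070934662) (nat_lit 0) (nat_lit 1988924606128) (nat_lit 1) (nat_lit 5) (nat_lit 3) (nat_lit 4) (nat_lit 1) (nat_lit 4) (nat_lit 263) (nat_lit 204) (nat_lit 133)) (XT.lf (nat_lit 0) (nat_lit 2311464294432) (nat_lit 152) (nat_lit 6673630648767) (nat_lit 0) (nat_lit 2295778995671) (nat_lit 1) (nat_lit 5) (nat_lit 3) (nat_lit 4) (nat_lit 1) (nat_lit 4) (nat_lit 264) (nat_lit 204) (nat_lit 132)))) (XT.nd (nat_lit 156) (nat_lit 0) (nat_lit 0) (XT.nd (nat_lit 78) (nat_lit 0) (nat_lit 0) (XT.lf (nat_lit 0) (nat_lit 2664346855958) (nat_lit 152) (nat_lit 7658674511278) (nat_lit 0) (nat_lit 2648661469968) (nat_lit 1) (nat_lit 5) (nat_lit 3) (nat_lit 4) (nat_lit 1) (nat_lit 4) (nat_lit 265) (nat_lit 204) (nat_lit 131)) (XT.lf (nat_lit 0) (nat_lit 3070161713185) (nat_lit 152) (nat_lit 8791475119505)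 (nat_lit 0) (nat_lit 3054476251344) (nat_lit 1) (nat_lit 5) (nat_lit 3) (nat_lit 4) (nat_lit 1) (nat_lit 4) (nat_lit 266) (nat_lit 204) (nat_lit 130))) (XT.nd (nat_lit 78) (nat_lit 0) (nat_lit 0) (XT.lf (nat_lit 0) (nat_lit 3536848722016) (nat_lit 152) (nat_lit 10094195963609) (nat_lit 0) (nat_lit 3521163194217) (nat_lit 1) (nat_lit 5) (nat_lit 3) (nat_lit 4) (nat_lit 1) (nat_lit 4) (nat_lit 267) (nat_lit 204) (nat_lit 129)) (XT.lf (nat_lit 0) (nat_lit 4073538715231) (nat_lit 152) (nat_lit 11592325060105) (nat_lit 0) (nat_lit 4057853130078) (nat_lit 1) (nat_lit 5) (nat_lit 3) (nat_lit 4) (nat_lit 1) (nat_lit 4) (nat_lit 268) (nat_lit 204) (nat_lit 128))))))))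
noncomputable def xc31 : XT := (XT.nd (nat_lit 28314) (nat_lit 0) (nat_lit 0) (XT.nd (nat_lit 27144) (nat_lit 0) (nat_lit 152) (XT.nd (nat_lit 26520) (nat_lit 0) (nat_lit 532) (XT.nd (nat_lit 234) (nat_lit 0) (nat_lit 0) (XT.nd (nat_lit 78) (nat_lit 0) (nat_lit 0) (XT.lf (nat_lit 0) (nat_lit 4690732149220) (nat_lit 152) (nat_lit 13315173630446) (nat_lit 0) (nat_lit 4675046514193) (nat_lit 1) (nat_lit 5) (nat_lit 3) (nat_lit 4) (nat_lit 1) (nat_lit 4) (nat_lit 269) (nat_lit 204) (nat_lit 127)) (XT.nd (nat_lit 78) (nat_lit 0) (nat_lit 0) (XT.lf (nat_lit 0) (nat_lit 5400504547691) (nat_lit 152) (nat_lit 15296449581443) (nat_lit 0) (nat_lit 5384818869296) (nat_lit 1) (nat_lit 5) (nat_lit 3) (nat_lit 4) (nat_lit 1) (nat_lit 4) (nat_lit 270) (nat_lit 204) (nat_lit 126)) (XT.lf (nat_lit 0) (nat_lit 6216742761918) (nat_lit 152) (nat_lit 17574917007790) (nat_lit 0) (nat_lit 6201057045812)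 (nat_lit 1) (nat_lit 5) (nat_lit 3) (nat_lit 4) (nat_lit 1) (nat_lit 4) (nat_lit 271) (nat_lit 204) (nat_lit 125)))) (XT.nd (nat_lit 26130) (nat_lit 0) (nat_lit 1064) (XT.nd (nat_lit 26052) (nat_lit 0) (nat_lit 1064) (XT.lf (nat_lit 0) (nat_lit 7155416670006) (nat_lit 152) (nat_lit 20195154620002) (nat_lit 0) (nat_lit 7139730921108) (nat_lit 1) (nat_lit 5) (nat_lit 3) (nat_lit 4) (nat_lit 1) (nat_lit 4) (nat_lit 272) (nat_lit 204) (nat_lit 124)) (XT.lf (nat_lit 0) (nat_lit 725668857) (nat_lit 0) (nat_lit 725668857) (nat_lit 228) (nat_lit 3000868984) (nat_lit 15) (nat_lit 5) (nat_lit 15) (nat_lit 3) (nat_lit 18) (nat_lit 3) (nat_lit 205) (nat_lit 205) (nat_lit 190))) (XT.nd (nat_lit 78) (nat_lit 0) (nat_lit 0) (XT.lf (nat_lit 0) (nat_lit 3955061877) (nat_lit 228) (nat_lit 3970647817) (nat_lit 304) (nat_lit 1508138655) (nat_lit 15) (nat_lit 5) (nat_lit 18) (nat_lit 3) (nat_lit 19) (nat_lit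 5) (nat_lit 206) (nat_lit 205) (nat_lit 189)) (XT.lf (nat_lit 0) (nat_lit 5100828798) (nat_lit 228) (nat_lit 128808987) (nat_lit 304) (nat_lit 4825081476) (nat_lit 15) (nat_lit 5) (nat_lit 18) (nat_lit 3) (nat_lit 19) (nat_lit 5) (nat_lit 207) (nat_lit 205) (nat_lit 188))))) (XT.nd (nat_lit 312) (nat_lit 380) (nat_lit 0) (XT.nd (nat_lit 156) (nat_lit 152) (nat_lit 0) (XT.nd (nat_lit 78) (nat_lit 0) (nat_lit 76) (XT.lf (nat_lit 76) (nat_lit 4618911451) (nat_lit 0) (nat_lit 1874644396) (nat_lit 304) (nat_lit 4265943394) (nat_lit 16) (nat_lit 5) (nat_lit 15) (nat_lit 5) (nat_lit 19) (nat_lit 5) (nat_lit 208) (nat_lit 205) (nat_lit 187)) (XT.lf (nat_lit 0) (nat_lit 8081235547) (nat_lit 228) (nat_lit 1654572395) (nat_lit 76) (nat_lit 1838057993) (nat_lit 16) (nat_lit 5) (nat_lit 19) (nat_lit 5) (nat_lit 17) (nat_lit 5) (nat_lit 209) (nat_lit 205) (nat_lit 186))) (XT.nd (nat_lit 78) (nat_lit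 0) (nat_lit 0) (XT.lf (nat_lit 0) (nat_lit 3656808954) (nat_lit 228) (nat_lit 6401254822) (nat_lit 304) (nat_lit 2431218939) (nat_lit 13) (nat_lit 5) (nat_lit 16) (nat_lit 5) (nat_lit 17) (nat_lit 5) (nat_lit 210) (nat_lit 205) (nat_lit 185)) (XT.lf (nat_lit 0) (nat_lit 9870836977) (nat_lit 228) (nat_lit 2465761356) (nat_lit 304) (nat_lit 1205979471) (nat_lit 13) (nat_lit 5) (nat_lit 16) (nat_lit 5) (nat_lit 17) (nat_lit 5) (nat_lit 211) (nat_lit 205) (nat_lit 184)))) (XT.nd (nat_lit 156) (nat_lit 152) (nat_lit 0) (XT.nd (nat_lit 78) (nat_lit 0) (nat_lit 0) (XT.lf (nat_lit 0) (nat_lit 299079185) (nat_lit 228) (nat_lit 12450858782) (nat_lit 76) (nat_lit 1986567141) (nat_lit 10) (nat_lit 5) (nat_lit 13) (nat_lit 5) (nat_lit 11) (nat_lit 5) (nat_lit 212) (nat_lit 205) (nat_lit 183)) (XT.lf (nat_lit 0) (nat_lit 2156255629) (nat_lit 228) (nat_lit 6800709667) (nat_lit 76) (nat_lit 7107350937)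 (nat_lit 10) (nat_lit 5) (nat_lit 13) (nat_lit 5) (nat_lit 11) (nat_lit 5) (nat_lit 213) (nat_lit 205) (nat_lit 182))) (XT.nd (nat_lit 78) (nat_lit 152) (nat_lit 0) (XT.lf (nat_lit 0) (nat_lit 4232303832) (nat_lit 228) (nat_lit 377202258) (nat_lit 76) (nat_lit 12991516567) (nat_lit 10) (nat_lit 5) (nat_lit 13) (nat_lit 5) (nat_lit 11) (nat_lit 5) (nat_lit 214) (nat_lit 205) (nat_lit 181)) (XT.lf (nat_lit 0) (nat_lit 6914204055) (nat_lit 228) (nat_lit 11735910424) (nat_lit 76) (nat_lit 674621608) (nat_lit 8) (nat_lit 5) (nat_lit 11) (nat_lit 5) (nat_lit 9) (nat_lit 4) (nat_lit 215) (nat_lit 205) (nat_lit 180)))))) (XT.nd (nat_lit 546) (nat_lit 152) (nat_lit 0) (XT.nd (nat_lit 234) (nat_lit 152) (nat_lit 0) (XT.nd (nat_lit 78) (nat_lit 76) (nat_lit 0) (XT.lf (nat_lit 0) (nat_lit 10190277438) (nat_lit 228) (nat_lit 4801057791) (nat_lit 76) (nat_lit 6287468743) (nat_lit 8) (nat_lit 5)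 (nat_lit 11) (nat_lit 5) (nat_lit 9) (nat_lit 4) (nat_lit 216) (nat_lit 205) (nat_lit 179)) (XT.nd (nat_lit 78) (nat_lit 0) (nat_lit 0) (XT.lf (nat_lit 0) (nat_lit 3418615131) (nat_lit 76) (nat_lit 10638731670) (nat_lit 152) (nat_lit 9454202417) (nat_lit 7) (nat_lit 5) (nat_lit 8) (nat_lit 5) (nat_lit 9) (nat_lit 4) (nat_lit 217) (nat_lit 205) (nat_lit 178)) (XT.lf (nat_lit 0) (nat_lit 13353772253) (nat_lit 76) (nat_lit 5362808886) (nat_lit 152) (nat_lit 7331248489) (nat_lit 7) (nat_lit 5) (nat_lit 8) (nat_lit 5) (nat_lit 9) (nat_lit 4) (nat_lit 218) (nat_lit 205) (nat_lit 177)))) (XT.nd (nat_lit 156) (nat_lit 76) (nat_lit 0) (XT.nd (nat_lit 78) (nat_lit 76) (nat_lit 0) (XT.lf (nat_lit 0) (nat_lit 24069426806) (nat_lit 152) (nat_lit 4268917088) (nat_lit 0) (nat_lit 627381074) (nat_lit 7) (nat_lit 5) (nat_lit 9) (nat_lit 4) (nat_lit 7) (nat_lit 4) (nat_lit 219) (nat_lit 205) (nat_lit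 176)) (XT.lf (nat_lit 0) (nat_lit 5617423404) (nat_lit 76) (nat_lit 25065800458) (nat_lit 76) (nat_lit 1569709059) (nat_lit 6) (nat_lit 4) (nat_lit 7) (nat_lit 5) (nat_lit 7) (nat_lit 4) (nat_lit 220) (nat_lit 205) (nat_lit 175))) (XT.nd (nat_lit 78) (nat_lit 0) (nat_lit 0) (XT.lf (nat_lit 0) (nat_lit 2259301590) (nat_lit 152) (nat_lit 18685589211) (nat_lit 76) (nat_lit 15043930769) (nat_lit 5) (nat_lit 5) (nat_lit 7) (nat_lit 5) (nat_lit 6) (nat_lit 4) (nat_lit 221) (nat_lit 205) (nat_lit 174)) (XT.lf (nat_lit 0) (nat_lit 6476296533) (nat_lit 152) (nat_lit 9659916372) (nat_lit 76) (nat_lit 24141735546) (nat_lit 5) (nat_lit 5) (nat_lit 7) (nat_lit 5) (nat_lit 6) (nat_lit 4) (nat_lit 222) (nat_lit 205) (nat_lit 173))))) (XT.nd (nat_lit 312) (nat_lit 76) (nat_lit 0) (XT.nd (nat_lit 156) (nat_lit 0) (nat_lit 0) (XT.nd (nat_lit 78) (nat_lit 0) (nat_lit 0) (XT.lf (nat_lit 0) (nat_lit 749853720)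 (nat_lit 76) (nat_lit 10584724671) (nat_lit 152) (nat_lit 33874745141) (nat_lit 4) (nat_lit 5) (nat_lit 5) (nat_lit 5) (nat_lit 6) (nat_lit 4) (nat_lit 223) (nat_lit 205) (nat_lit 172)) (XT.lf (nat_lit 0) (nat_lit 13771880949) (nat_lit 76) (nat_lit 3633826752) (nat_lit 152) (nat_lit 33402246459) (nat_lit 4) (nat_lit 5) (nat_lit 5) (nat_lit 5) (nat_lit 6) (nat_lit 4) (nat_lit 224) (nat_lit 205) (nat_lit 171))) (XT.nd (nat_lit 78) (nat_lit 0) (nat_lit 0) (XT.lf (nat_lit 0) (nat_lit 24549402118) (nat_lit 152) (nat_lit 28712356803) (nat_lit 0) (nat_lit 3960479634) (nat_lit 4) (nat_lit 5) (nat_lit 6) (nat_lit 4) (nat_lit 4) (nat_lit 4) (nat_lit 225) (nat_lit 205) (nat_lit 170)) (XT.lf (nat_lit 0) (nat_lit 32921489710) (nat_lit 152) (nat_lit 19341525398) (nat_lit 0) (nat_lit 12312249458) (nat_lit 4) (nat_lit 5) (nat_lit 6) (nat_lit 4) (nat_lit 4) (nat_lit 4) (nat_lit 226) (nat_lit 205)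 (nat_lit 169)))) (XT.nd (nat_lit 156) (nat_lit 0) (nat_lit 0) (XT.nd (nat_lit 78) (nat_lit 76) (nat_lit 0) (XT.lf (nat_lit 0) (nat_lit 42535303175) (nat_lit 152) (nat_lit 8589767626) (nat_lit 0) (nat_lit 21908395298) (nat_lit 4) (nat_lit 5) (nat_lit 6) (nat_lit 4) (nat_lit 4) (nat_lit 4) (nat_lit 227) (nat_lit 205) (nat_lit 168)) (XT.lf (nat_lit 0) (nat_lit 4120074513) (nat_lit 76) (nat_lit 49629467848) (nat_lit 76) (nat_lit 28987196820) (nat_lit 3) (nat_lit 4) (nat_lit 4) (nat_lit 5) (nat_lit 4) (nat_lit 4) (nat_lit 228) (nat_lit 205) (nat_lit 167))) (XT.nd (nat_lit 78) (nat_lit 0) (nat_lit 0) (XT.lf (nat_lit 0) (nat_lit 19681265120) (nat_lit 76) (nat_lit 47402162003) (nat_lit 76) (nat_lit 26746531712) (nat_lit 3) (nat_lit 4) (nat_lit 4) (nat_lit 5) (nat_lit 4) (nat_lit 4) (nat_lit 229) (nat_lit 205) (nat_lit 166)) (XT.lf (nat_lit 0) (nat_lit 37558807708) (nat_lit 76) (nat_lit 44848586122)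 (nat_lit 76) (nat_lit 24181339081) (nat_lit 3) (nat_lit 4) (nat_lit 4) (nat_lit 5) (nat_lit 4) (nat_lit 4) (nat_lit 230) (nat_lit 205) (nat_lit 165))))))) (XT.nd (nat_lit 1170) (nat_lit 0) (nat_lit 0) (XT.nd (nat_lit 546) (nat_lit 76) (nat_lit 0) (XT.nd (nat_lit 234) (nat_lit 76) (nat_lit 0) (XT.nd (nat_lit 78) (nat_lit 0) (nat_lit 0) (XT.lf (nat_lit 0) (nat_lit 58102480283) (nat_lit 76) (nat_lit 41918778939) (nat_lit 76) (nat_lit 21241430377) (nat_lit 3) (nat_lit 4) (nat_lit 4) (nat_lit 5) (nat_lit 4) (nat_lit 4) (nat_lit 231) (nat_lit 205) (nat_lit 164)) (XT.nd (nat_lit 78) (nat_lit 0) (nat_lit 0) (XT.lf (nat_lit 0) (nat_lit 81714224267) (nat_lit 76) (nat_lit 38555418139) (nat_lit 76) (nat_lit 17869285645) (nat_lit 3) (nat_lit 4) (nat_lit 4) (nat_lit 5) (nat_lit 4) (nat_lit 4) (nat_lit 232) (nat_lit 205) (nat_lit 163)) (XT.lf (nat_lit 0) (nat_lit 108856008562) (nat_lit 76) (nat_lit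 34692698838) (nat_lit 76) (nat_lit 13998928142) (nat_lit 3) (nat_lit 4) (nat_lit 4) (nat_lit 5) (nat_lit 4) (nat_lit 4) (nat_lit 233) (nat_lit 205) (nat_lit 162)))) (XT.nd (nat_lit 156) (nat_lit 76) (nat_lit 0) (XT.nd (nat_lit 78) (nat_lit 0) (nat_lit 0) (XT.lf (nat_lit 0) (nat_lit 140058868079) (nat_lit 76) (nat_lit 30255046092) (nat_lit 76) (nat_lit 9554633482) (nat_lit 3) (nat_lit 4) (nat_lit 4) (nat_lit 5) (nat_lit 4) (nat_lit 4) (nat_lit 234) (nat_lit 205) (nat_lit 161)) (XT.lf (nat_lit 0) (nat_lit 175933293548) (nat_lit 76) (nat_lit 25155636260) (nat_lit 76) (nat_lit 4449448072) (nat_lit 3) (nat_lit 4) (nat_lit 4) (nat_lit 5) (nat_lit 4) (nat_lit 4) (nat_lit 235) (nat_lit 205) (nat_lit 160))) (XT.nd (nat_lit 78) (nat_lit 0) (nat_lit 0) (XT.lf (nat_lit 0) (nat_lit 1290404440) (nat_lit 152) (nat_lit 17936840881) (nat_lit 76) (nat_lit 215823318501) (nat_lit 2) (nat_lit 5) (nat_lit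 4) (nat_lit 5) (nat_lit 3) (nat_lit 4) (nat_lit 236) (nat_lit 205) (nat_lit 159)) (XT.lf (nat_lit 0) (nat_lit 7431732970) (nat_lit 152) (nat_lit 4737351708) (nat_lit 76) (nat_lit 256789329003) (nat_lit 2) (nat_lit 5) (nat_lit 4) (nat_lit 5) (nat_lit 3) (nat_lit 4) (nat_lit 237) (nat_lit 205) (nat_lit 158))))) (XT.nd (nat_lit 312) (nat_lit 0) (nat_lit 0) (XT.nd (nat_lit 156) (nat_lit 0) (nat_lit 0) (XT.nd (nat_lit 78) (nat_lit 0) (nat_lit 0) (XT.lf (nat_lit 0) (nat_lit 11455745938) (nat_lit 76) (nat_lit 3509426652) (nat_lit 152) (nat_lit 292916651943) (nat_lit 1) (nat_lit 5) (nat_lit 2) (nat_lit 5) (nat_lit 3) (nat_lit 4) (nat_lit 238) (nat_lit 205) (nat_lit 157)) (XT.lf (nat_lit 0) (nat_lit 24151749962) (nat_lit 152) (nat_lit 322281515880) (nat_lit 0) (nat_lit 6132030538) (nat_lit 1) (nat_lit 5) (nat_lit 3) (nat_lit 4) (nat_lit 1) (nat_lit 4) (nat_lit 239) (nat_lit 205) (nat_lit 156)))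 (XT.nd (nat_lit 78) (nat_lit 0) (nat_lit 0) (XT.lf (nat_lit 0) (nat_lit 34880515242) (nat_lit 152) (nat_lit 352187860027) (nat_lit 0) (nat_lit 16858298877) (nat_lit 1) (nat_lit 5) (nat_lit 3) (nat_lit 4) (nat_lit 1) (nat_lit 4) (nat_lit 240) (nat_lit 205) (nat_lit 155)) (XT.lf (nat_lit 0) (nat_lit 47216061183) (nat_lit 152) (nat_lit 386584917288) (nat_lit 0) (nat_lit 29191673564) (nat_lit 1) (nat_lit 5) (nat_lit 3) (nat_lit 4) (nat_lit 1) (nat_lit 4) (nat_lit 241) (nat_lit 205) (nat_lit 154)))) (XT.nd (nat_lit 156) (nat_lit 0) (nat_lit 0) (XT.nd (nat_lit 78) (nat_lit 0) (nat_lit 0) (XT.lf (nat_lit 0) (nat_lit 61399735422) (nat_lit 152) (nat_lit 426145673565) (nat_lit 0) (nat_lit 43373459757) (nat_lit 1) (nat_lit 5) (nat_lit 3) (nat_lit 4) (nat_lit 1) (nat_lit 4) (nat_lit 242) (nat_lit 205) (nat_lit 153)) (XT.lf (nat_lit 0) (nat_lit 77709044630) (nat_lit 152) (nat_lit 471644143656)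 (nat_lit 0) (nat_lit 59681127184) (nat_lit 1) (nat_lit 5) (nat_lit 3) (nat_lit 4) (nat_lit 1) (nat_lit 4) (nat_lit 243) (nat_lit 205) (nat_lit 152))) (XT.nd (nat_lit 78) (nat_lit 0) (nat_lit 0) (XT.lf (nat_lit 0) (nat_lit 96463083986) (nat_lit 152) (nat_lit 523970515018) (nat_lit 0) (nat_lit 78433738906) (nat_lit 1) (nat_lit 5) (nat_lit 3) (nat_lit 4) (nat_lit 1) (nat_lit 4) (nat_lit 244) (nat_lit 205) (nat_lit 151)) (XT.lf (nat_lit 0) (nat_lit 118028780347) (nat_lit 152) (nat_lit 584148564483) (nat_lit 0) (nat_lit 99998193846) (nat_lit 1) (nat_lit 5) (nat_lit 3) (nat_lit 4) (nat_lit 1) (nat_lit 4) (nat_lit 245) (nat_lit 205) (nat_lit 150)))))) (XT.nd (nat_lit 546) (nat_lit 0) (nat_lit 0) (XT.nd (nat_lit 234) (nat_lit 0) (nat_lit 0) (XT.nd (nat_lit 78) (nat_lit 0) (nat_lit 0) (XT.lf (nat_lit 0) (nat_lit 142828071251) (nat_lit 152) (nat_lit 653355688670) (nat_lit 0) (nat_lit 124796405253)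 (nat_lit 1) (nat_lit 5) (nat_lit 3) (nat_lit 4) (nat_lit 1) (nat_lit 4) (nat_lit 246) (nat_lit 205) (nat_lit 149)) (XT.nd (nat_lit 78) (nat_lit 0) (nat_lit 0) (XT.lf (nat_lit 0) (nat_lit 171346160216) (nat_lit 152) (nat_lit 732945940010) (nat_lit 0) (nat_lit 153313555525) (nat_lit 1) (nat_lit 5) (nat_lit 3) (nat_lit 4) (nat_lit 1) (nat_lit 4) (nat_lit 247) (nat_lit 205) (nat_lit 148)) (XT.lf (nat_lit 0) (nat_lit 204141009851) (nat_lit 152) (nat_lit 824476519071) (nat_lit 0) (nat_lit 186107588906) (nat_lit 1) (nat_lit 5) (nat_lit 3) (nat_lit 4) (nat_lit 1) (nat_lit 4) (nat_lit 248) (nat_lit 205) (nat_lit 147)))) (XT.nd (nat_lit 156) (nat_lit 0) (nat_lit 0) (XT.nd (nat_lit 78) (nat_lit 0) (nat_lit 0) (XT.lf (nat_lit 0) (nat_lit 241854258520) (nat_lit 152) (nat_lit 929738241532) (nat_lit 0) (nat_lit 223820127788) (nat_lit 1) (nat_lit 5) (nat_lit 3) (nat_lit 4) (nat_lit 1) (nat_lit 4)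 (nat_lit 249) (nat_lit 205) (nat_lit 146)) (XT.lf (nat_lit 0) (nat_lit 285223774131) (nat_lit 152) (nat_lit 1050790575875) (nat_lit 0) (nat_lit 267189026193) (nat_lit 1) (nat_lit 5) (nat_lit 3) (nat_lit 4) (nat_lit 1) (nat_lit 4) (nat_lit 250) (nat_lit 205) (nat_lit 145))) (XT.nd (nat_lit 78) (nat_lit 0) (nat_lit 0) (XT.lf (nat_lit 0) (nat_lit 335098090684) (nat_lit 152) (nat_lit 1190001937337) (nat_lit 0) (nat_lit 317062806046) (nat_lit 1) (nat_lit 5) (nat_lit 3) (nat_lit 4) (nat_lit 1) (nat_lit 4) (nat_lit 251) (nat_lit 205) (nat_lit 144)) (XT.lf (nat_lit 0) (nat_lit 392453010027) (nat_lit 152) (nat_lit 1350096026469) (nat_lit 0) (nat_lit 374417258692) (nat_lit 1) (nat_lit 5) (nat_lit 3) (nat_lit 4) (nat_lit 1) (nat_lit 4) (nat_lit 252) (nat_lit 205) (nat_lit 143))))) (XT.nd (nat_lit 312) (nat_lit 0) (nat_lit 0) (XT.nd (nat_lit 156) (nat_lit 0) (nat_lit 0) (XT.nd (nat_lit 78) (nat_lit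 0) (nat_lit 0) (XT.lf (nat_lit 0) (nat_lit 458410693623) (nat_lit 152) (nat_lit 1534205118927) (nat_lit 0) (nat_lit 440374536465) (nat_lit 1) (nat_lit 5) (nat_lit 3) (nat_lit 4) (nat_lit 1) (nat_lit 4) (nat_lit 253) (nat_lit 205) (nat_lit 142)) (XT.lf (nat_lit 0) (nat_lit 534261617891) (nat_lit 152) (nat_lit 1745931349130) (nat_lit 0) (nat_lit 516225107844) (nat_lit 1) (nat_lit 5) (nat_lit 3) (nat_lit 4) (nat_lit 1) (nat_lit 4) (nat_lit 254) (nat_lit 205) (nat_lit 141))) (XT.nd (nat_lit 78) (nat_lit 0) (nat_lit 0) (XT.lf (nat_lit 0) (nat_lit 621489822654) (nat_lit 152) (nat_lit 1989417186798) (nat_lit 0) (nat_lit 603453005747) (nat_lit 1) (nat_lit 5) (nat_lit 3) (nat_lit 4) (nat_lit 1) (nat_lit 4) (nat_lit 255) (nat_lit 205) (nat_lit 140)) (XT.lf (nat_lit 0) (nat_lit 721801946701) (nat_lit 152) (nat_lit 2269426485277) (nat_lit 0) (nat_lit 703764862959) (nat_lit 1) (nat_lit 5) (nat_lit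 3) (nat_lit 4) (nat_lit 1) (nat_lit 4) (nat_lit 256) (nat_lit 205) (nat_lit 139)))) (XT.nd (nat_lit 156) (nat_lit 0) (nat_lit 0) (XT.nd (nat_lit 78) (nat_lit 0) (nat_lit 0) (XT.lf (nat_lit 0) (nat_lit 837160618546) (nat_lit 152) (nat_lit 2591437687365) (nat_lit 0) (nat_lit 819123302773) (nat_lit 1) (nat_lit 5) (nat_lit 3) (nat_lit 4) (nat_lit 1) (nat_lit 4) (nat_lit 257) (nat_lit 205) (nat_lit 138)) (XT.lf (nat_lit 0) (nat_lit 969822855681) (nat_lit 152) (nat_lit 2961751012231) (nat_lit 0) (nat_lit 951785338142) (nat_lit 1) (nat_lit 5) (nat_lit 3) (nat_lit 4) (nat_lit 1) (nat_lit 4) (nat_lit 258) (nat_lit 205) (nat_lit 137))) (XT.nd (nat_lit 78) (nat_lit 0) (nat_lit 0) (XT.lf (nat_lit 0) (nat_lit 1122384223615) (nat_lit 152) (nat_lit 3387611720579) (nat_lit 0) (nat_lit 1104346530628) (nat_lit 1) (nat_lit 5) (nat_lit 3) (nat_lit 4) (nat_lit 1) (nat_lit 4) (nat_lit 259) (nat_lit 205)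 (nat_lit 136)) (XT.lf (nat_lit 0) (nat_lit 1297829618678) (nat_lit 152) (nat_lit 3877351869748) (nat_lit 0) (nat_lit 1279791773127) (nat_lit 1) (nat_lit 5) (nat_lit 3) (nat_lit 4) (nat_lit 1) (nat_lit 4) (nat_lit 260) (nat_lit 205) (nat_lit 135))))))))
noncomputable def xc32 : XT := (XT.nd (nat_lit 28314) (nat_lit 0) (nat_lit 0) (XT.nd (nat_lit 27144) (nat_lit 0) (nat_lit 304) (XT.nd (nat_lit 546) (nat_lit 0) (nat_lit 0) (XT.nd (nat_lit 234) (nat_lit 0) (nat_lit 0) (XT.nd (nat_lit 78) (nat_lit 0) (nat_lit 0) (XT.lf (nat_lit 0) (nat_lit 1499591668164) (nat_lit 152) (nat_lit 4440553332221) (nat_lit 0) (nat_lit 1481553689949) (nat_lit 1) (nat_lit 5) (nat_lit 3) (nat_lit 4) (nat_lit 1) (nat_lit 4) (nat_lit 261) (nat_lit 205) (nat_lit 134)) (XT.nd (nat_lit 78) (nat_lit 0) (nat_lit 0) (XT.lf (nat_lit 0) (nat_lit 1731617890433) (nat_lit 152) (nat_lit 5088235267046) (nat_lit 0) (nat_lit 1713579796858)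 (nat_lit 1) (nat_lit 5) (nat_lit 3) (nat_lit 4) (nat_lit 1) (nat_lit 4) (nat_lit 262) (nat_lit 205) (nat_lit 133)) (XT.lf (nat_lit 0) (nat_lit 1998447928964) (nat_lit 152) (nat_lit 5833069712078) (nat_lit 0) (nat_lit 1980409735075) (nat_lit 1) (nat_lit 5) (nat_lit 3) (nat_lit 4) (nat_lit 1) (nat_lit 4) (nat_lit 263) (nat_lit 205) (nat_lit 132)))) (XT.nd (nat_lit 156) (nat_lit 0) (nat_lit 0) (XT.nd (nat_lit 78) (nat_lit 0) (nat_lit 0) (XT.lf (nat_lit 0) (nat_lit 2305302371467) (nat_lit 152) (nat_lit 6689629515155) (nat_lit 0) (nat_lit 2287264090350) (nat_lit 1) (nat_lit 5) (nat_lit 3) (nat_lit 4) (nat_lit 1) (nat_lit 4) (nat_lit 264) (nat_lit 205) (nat_lit 131)) (XT.lf (nat_lit 0) (nat_lit 2658184891817) (nat_lit 152) (nat_lit 7674673455033) (nat_lit 0) (nat_lit 2640146534849) (nat_lit 1) (nat_lit 5) (nat_lit 3) (nat_lit 4) (nat_lit 1) (nat_lit 4) (nat_lit 265) (nat_lit 205) (nat_lit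 130))) (XT.nd (nat_lit 78) (nat_lit 0) (nat_lit 0) (XT.lf (nat_lit 0) (nat_lit 3063999713240) (nat_lit 152) (nat_lit 8807474130536) (nat_lit 0) (nat_lit 3045961290314) (nat_lit 1) (nat_lit 5) (nat_lit 3) (nat_lit 4) (nat_lit 1) (nat_lit 4) (nat_lit 266) (nat_lit 205) (nat_lit 129)) (XT.lf (nat_lit 0) (nat_lit 3530686690935) (nat_lit 152) (nat_lit 10110195033141) (nat_lit 0) (nat_lit 3512648210655) (nat_lit 1) (nat_lit 5) (nat_lit 3) (nat_lit 4) (nat_lit 1) (nat_lit 4) (nat_lit 267) (nat_lit 205) (nat_lit 128))))) (XT.nd (nat_lit 234) (nat_lit 0) (nat_lit 0) (XT.nd (nat_lit 78) (nat_lit 0) (nat_lit 0) (XT.lf (nat_lit 0) (nat_lit 4067376657077) (nat_lit 152) (nat_lit 11608324180507) (nat_lit 0) (nat_lit 4049338126923) (nat_lit 1) (nat_lit 5) (nat_lit 3) (nat_lit 4) (nat_lit 1) (nat_lit 4) (nat_lit 268) (nat_lit 205) (nat_lit 127)) (XT.nd (nat_lit 78) (nat_lit 0) (nat_lit 0) (XT.lf (nat_lit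 0) (nat_lit 4684570067523) (nat_lit 152) (nat_lit 13331172795083) (nat_lit 0) (nat_lit 4666531494001) (nat_lit 1) (nat_lit 5) (nat_lit 3) (nat_lit 4) (nat_lit 1) (nat_lit 4) (nat_lit 269) (nat_lit 205) (nat_lit 126)) (XT.lf (nat_lit 0) (nat_lit 5394342445522) (nat_lit 152) (nat_lit 15312448784545) (nat_lit 0) (nat_lit 5376303834289) (nat_lit 1) (nat_lit 5) (nat_lit 3) (nat_lit 4) (nat_lit 1) (nat_lit 4) (nat_lit 270) (nat_lit 205) (nat_lit 125)))) (XT.nd (nat_lit 26208) (nat_lit 0) (nat_lit 1064) (XT.nd (nat_lit 78) (nat_lit 0) (nat_lit 0) (XT.lf (nat_lit 0) (nat_lit 6210580641948) (nat_lit 152) (nat_lit 17590916244340) (nat_lit 0) (nat_lit 6192541997922) (nat_lit 1) (nat_lit 5) (nat_lit 3) (nat_lit 4) (nat_lit 1) (nat_lit 4) (nat_lit 271) (nat_lit 205) (nat_lit 124)) (XT.lf (nat_lit 0) (nat_lit 7149254534557) (nat_lit 152) (nat_lit 20211153885637) (nat_lit 0) (nat_lit 7131215862015)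 (nat_lit 1) (nat_lit 5) (nat_lit 3) (nat_lit 4) (nat_lit 1) (nat_lit 4) (nat_lit 272) (nat_lit 205) (nat_lit 123))) (XT.nd (nat_lit 78) (nat_lit 0) (nat_lit 0) (XT.lf (nat_lit 0) (nat_lit 1201724214) (nat_lit 0) (nat_lit 1201724214) (nat_lit 228) (nat_lit 2593780883) (nat_lit 15) (nat_lit 5) (nat_lit 15) (nat_lit 3) (nat_lit 18) (nat_lit 3) (nat_lit 206) (nat_lit 206) (nat_lit 188)) (XT.lf (nat_lit 0) (nat_lit 5799112250) (nat_lit 228) (nat_lit 3687603948) (nat_lit 304) (nat_lit 1152596155) (nat_lit 15) (nat_lit 5) (nat_lit 18) (nat_lit 3) (nat_lit 19) (nat_lit 5) (nat_lit 207) (nat_lit 206) (nat_lit 187)))))) (XT.nd (nat_lit 546) (nat_lit 380) (nat_lit 0) (XT.nd (nat_lit 234) (nat_lit 380) (nat_lit 0) (XT.nd (nat_lit 78) (nat_lit 0) (nat_lit 0) (XT.lf (nat_lit 76) (nat_lit 676096102) (nat_lit 0) (nat_lit 6305497141) (nat_lit 304) (nat_lit 4394862164) (nat_lit 16) (nat_lit 5) (nat_lit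 15) (nat_lit 5) (nat_lit 19) (nat_lit 5) (nat_lit 208) (nat_lit 206) (nat_lit 186)) (XT.nd (nat_lit 78) (nat_lit 0) (nat_lit 76) (XT.lf (nat_lit 76) (nat_lit 6041054962) (nat_lit 0) (nat_lit 2402511065) (nat_lit 304) (nat_lit 3766830516) (nat_lit 16) (nat_lit 5) (nat_lit 15) (nat_lit 5) (nat_lit 19) (nat_lit 5) (nat_lit 209) (nat_lit 206) (nat_lit 185)) (XT.lf (nat_lit 0) (nat_lit 10133214552) (nat_lit 228) (nat_lit 1117933508) (nat_lit 76) (nat_lit 1918366918) (nat_lit 16) (nat_lit 5) (nat_lit 19) (nat_lit 5) (nat_lit 17) (nat_lit 5) (nat_lit 210) (nat_lit 206) (nat_lit 184)))) (XT.nd (nat_lit 156) (nat_lit 228) (nat_lit 0) (XT.nd (nat_lit 78) (nat_lit 0) (nat_lit 0) (XT.lf (nat_lit 0) (nat_lit 4954481191) (nat_lit 228) (nat_lit 7373568260) (nat_lit 304) (nat_lit 1907858781) (nat_lit 13) (nat_lit 5) (nat_lit 16) (nat_lit 5) (nat_lit 17) (nat_lit 5) (nat_lit 211) (nat_lit 206) (nat_lit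 183)) (XT.lf (nat_lit 0) (nat_lit 12002898084) (nat_lit 228) (nat_lit 2846169223) (nat_lit 304) (nat_lit 614665088) (nat_lit 13) (nat_lit 5) (nat_lit 16) (nat_lit 5) (nat_lit 17) (nat_lit 5) (nat_lit 212) (nat_lit 206) (nat_lit 182))) (XT.nd (nat_lit 78) (nat_lit 0) (nat_lit 0) (XT.lf (nat_lit 0) (nat_lit 986808028) (nat_lit 228) (nat_lit 13519930257) (nat_lit 76) (nat_lit 2335543965) (nat_lit 10) (nat_lit 5) (nat_lit 13) (nat_lit 5) (nat_lit 11) (nat_lit 5) (nat_lit 213) (nat_lit 206) (nat_lit 181)) (XT.lf (nat_lit 0) (nat_lit 3038708726) (nat_lit 228) (nat_lit 7126418428) (nat_lit 76) (nat_lit 8217794232) (nat_lit 10) (nat_lit 5) (nat_lit 13) (nat_lit 5) (nat_lit 11) (nat_lit 5) (nat_lit 214) (nat_lit 206) (nat_lit 180))))) (XT.nd (nat_lit 312) (nat_lit 152) (nat_lit 0) (XT.nd (nat_lit 156) (nat_lit 76) (nat_lit 0) (XT.nd (nat_lit 78) (nat_lit 0) (nat_lit 0) (XT.lf (nat_lit 0) (nat_lit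 186659170) (nat_lit 152) (nat_lit 5174319180) (nat_lit 228) (nat_lit 14799871131) (nat_lit 8) (nat_lit 5) (nat_lit 10) (nat_lit 5) (nat_lit 11) (nat_lit 5) (nat_lit 215) (nat_lit 206) (nat_lit 179)) (XT.lf (nat_lit 0) (nat_lit 8403272075) (nat_lit 228) (nat_lit 12852873813) (nat_lit 76) (nat_lit 894073274) (nat_lit 8) (nat_lit 5) (nat_lit 11) (nat_lit 5) (nat_lit 9) (nat_lit 4) (nat_lit 216) (nat_lit 206) (nat_lit 178))) (XT.nd (nat_lit 78) (nat_lit 76) (nat_lit 0) (XT.lf (nat_lit 0) (nat_lit 12111808108) (nat_lit 228) (nat_lit 4961718047) (nat_lit 76) (nat_lit 7333422469) (nat_lit 8) (nat_lit 5) (nat_lit 11) (nat_lit 5) (nat_lit 9) (nat_lit 4) (nat_lit 217) (nat_lit 206) (nat_lit 177)) (XT.lf (nat_lit 0) (nat_lit 4465474067) (nat_lit 76) (nat_lit 12064318928) (nat_lit 152) (nat_lit 10449801034) (nat_lit 7) (nat_lit 5) (nat_lit 8) (nat_lit 5) (nat_lit 9) (nat_lit 4) (nat_lit 218)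 (nat_lit 206) (nat_lit 176)))) (XT.nd (nat_lit 156) (nat_lit 152) (nat_lit 0) (XT.nd (nat_lit 78) (nat_lit 0) (nat_lit 0) (XT.lf (nat_lit 0) (nat_lit 15821243889) (nat_lit 76) (nat_lit 6019210660) (nat_lit 152) (nat_lit 8063516854) (nat_lit 7) (nat_lit 5) (nat_lit 8) (nat_lit 5) (nat_lit 9) (nat_lit 4) (nat_lit 219) (nat_lit 206) (nat_lit 175)) (XT.lf (nat_lit 0) (nat_lit 27960289012) (nat_lit 152) (nat_lit 4466377004) (nat_lit 0) (nat_lit 838742004) (nat_lit 7) (nat_lit 5) (nat_lit 9) (nat_lit 4) (nat_lit 7) (nat_lit 4) (nat_lit 220) (nat_lit 206) (nat_lit 174))) (XT.nd (nat_lit 78) (nat_lit 76) (nat_lit 0) (XT.lf (nat_lit 0) (nat_lit 6882783760) (nat_lit 76) (nat_lit 28664296714) (nat_lit 76) (nat_lit 1501883418) (nat_lit 6) (nat_lit 4) (nat_lit 7) (nat_lit 5) (nat_lit 7) (nat_lit 4) (nat_lit 221) (nat_lit 206) (nat_lit 173)) (XT.lf (nat_lit 0) (nat_lit 2838441819) (nat_lit 152)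 (nat_lit 21095299287) (nat_lit 76) (nat_lit 17415323085) (nat_lit 5) (nat_lit 5) (nat_lit 7) (nat_lit 5) (nat_lit 6) (nat_lit 4) (nat_lit 222) (nat_lit 206) (nat_lit 172))))))) (XT.nd (nat_lit 1170) (nat_lit 76) (nat_lit 0) (XT.nd (nat_lit 546) (nat_lit 76) (nat_lit 0) (XT.nd (nat_lit 234) (nat_lit 76) (nat_lit 0) (XT.nd (nat_lit 78) (nat_lit 76) (nat_lit 0) (XT.lf (nat_lit 0) (nat_lit 7656649701) (nat_lit 152) (nat_lit 10767053127) (nat_lit 76) (nat_lit 27862824313) (nat_lit 5) (nat_lit 5) (nat_lit 7) (nat_lit 5) (nat_lit 6) (nat_lit 4) (nat_lit 223) (nat_lit 206) (nat_lit 171)) (XT.nd (nat_lit 78) (nat_lit 0) (nat_lit 0) (XT.lf (nat_lit 0) (nat_lit 1188643811) (nat_lit 76) (nat_lit 12041292953) (nat_lit 152) (nat_lit 38729964099) (nat_lit 4) (nat_lit 5) (nat_lit 5) (nat_lit 5) (nat_lit 6) (nat_lit 4) (nat_lit 224) (nat_lit 206) (nat_lit 170)) (XT.lf (nat_lit 0) (nat_lit 16121412685)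 (nat_lit 76) (nat_lit 4064865618) (nat_lit 152) (nat_lit 38216067939) (nat_lit 4) (nat_lit 5) (nat_lit 5) (nat_lit 5) (nat_lit 6) (nat_lit 4) (nat_lit 225) (nat_lit 206) (nat_lit 169)))) (XT.nd (nat_lit 156) (nat_lit 76) (nat_lit 0) (XT.nd (nat_lit 78) (nat_lit 0) (nat_lit 0) (XT.lf (nat_lit 0) (nat_lit 28383496261) (nat_lit 152) (nat_lit 32753272338) (nat_lit 0) (nat_lit 4644884578) (nat_lit 4) (nat_lit 5) (nat_lit 6) (nat_lit 4) (nat_lit 4) (nat_lit 4) (nat_lit 226) (nat_lit 206) (nat_lit 168)) (XT.lf (nat_lit 0) (nat_lit 37991612146) (nat_lit 152) (nat_lit 22011503785) (nat_lit 0) (nat_lit 14237637311) (nat_lit 4) (nat_lit 5) (nat_lit 6) (nat_lit 4) (nat_lit 4) (nat_lit 4) (nat_lit 227) (nat_lit 206) (nat_lit 167))) (XT.nd (nat_lit 78) (nat_lit 76) (nat_lit 0) (XT.lf (nat_lit 0) (nat_lit 49030293415) (nat_lit 152) (nat_lit 9677145447) (nat_lit 0) (nat_lit 25262959318) (nat_lit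 4) (nat_lit 5) (nat_lit 6) (nat_lit 4) (nat_lit 4) (nat_lit 4) (nat_lit 228) (nat_lit 206) (nat_lit 166)) (XT.lf (nat_lit 0) (nat_lit 4930032680) (nat_lit 76) (nat_lit 56989623728) (nat_lit 76) (nat_lit 33210672881) (nat_lit 3) (nat_lit 4) (nat_lit 4) (nat_lit 5) (nat_lit 4) (nat_lit 4) (nat_lit 229) (nat_lit 206) (nat_lit 165))))) (XT.nd (nat_lit 312) (nat_lit 76) (nat_lit 0) (XT.nd (nat_lit 156) (nat_lit 0) (nat_lit 0) (XT.nd (nat_lit 78) (nat_lit 0) (nat_lit 0) (XT.lf (nat_lit 0) (nat_lit 22800365315) (nat_lit 76) (nat_lit 54439213000) (nat_lit 76) (nat_lit 30650160632) (nat_lit 3) (nat_lit 4) (nat_lit 4) (nat_lit 5) (nat_lit 4) (nat_lit 4) (nat_lit 230) (nat_lit 206) (nat_lit 164)) (XT.lf (nat_lit 0) (nat_lit 43337768365) (nat_lit 76) (nat_lit 51512158125) (nat_lit 76) (nat_lit 27714321825) (nat_lit 3) (nat_lit 4) (nat_lit 4) (nat_lit 5) (nat_lit 4) (nat_lit 4) (nat_lit 231) (nat_lit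 206) (nat_lit 163))) (XT.nd (nat_lit 78) (nat_lit 0) (nat_lit 0) (XT.lf (nat_lit 0) (nat_lit 66944060588) (nat_lit 76) (nat_lit 48151190636) (nat_lit 76) (nat_lit 24345716134) (nat_lit 3) (nat_lit 4) (nat_lit 4) (nat_lit 5) (nat_lit 4) (nat_lit 4) (nat_lit 232) (nat_lit 206) (nat_lit 162)) (XT.lf (nat_lit 0) (nat_lit 94081104222) (nat_lit 76) (nat_lit 44290552474) (nat_lit 76) (nat_lit 20478436058) (nat_lit 3) (nat_lit 4) (nat_lit 4) (nat_lit 5) (nat_lit 4) (nat_lit 4) (nat_lit 233) (nat_lit 206) (nat_lit 161)))) (XT.nd (nat_lit 156) (nat_lit 76) (nat_lit 0) (XT.nd (nat_lit 78) (nat_lit 0) (nat_lit 0) (XT.lf (nat_lit 0) (nat_lit 125279841424) (nat_lit 76) (nat_lit 39854709415) (nat_lit 76) (nat_lit 16036817421) (nat_lit 3) (nat_lit 4) (nat_lit 4) (nat_lit 5) (nat_lit 4) (nat_lit 4) (nat_lit 234) (nat_lit 206) (nat_lit 160)) (XT.lf (nat_lit 0) (nat_lit 161150682272) (nat_lit 76) (nat_lit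 34756873224) (nat_lit 76) (nat_lit 10933958989) (nat_lit 3) (nat_lit 4) (nat_lit 4) (nat_lit 5) (nat_lit 4) (nat_lit 4) (nat_lit 235) (nat_lit 206) (nat_lit 159))) (XT.nd (nat_lit 78) (nat_lit 76) (nat_lit 0) (XT.lf (nat_lit 0) (nat_lit 202395447564) (nat_lit 76) (nat_lit 28897303629) (nat_lit 76) (nat_lit 5070022227) (nat_lit 3) (nat_lit 4) (nat_lit 4) (nat_lit 5) (nat_lit 4) (nat_lit 4) (nat_lit 236) (nat_lit 206) (nat_lit 158)) (XT.lf (nat_lit 0) (nat_lit 1521071857) (nat_lit 152) (nat_lit 20560774443) (nat_lit 76) (nat_lit 248220517666) (nat_lit 2) (nat_lit 5) (nat_lit 4) (nat_lit 5) (nat_lit 3) (nat_lit 4) (nat_lit 237) (nat_lit 206) (nat_lit 157)))))) (XT.nd (nat_lit 546) (nat_lit 0) (nat_lit 0) (XT.nd (nat_lit 234) (nat_lit 0) (nat_lit 0) (XT.nd (nat_lit 78) (nat_lit 76) (nat_lit 0) (XT.lf (nat_lit 0) (nat_lit 8578759656) (nat_lit 152) (nat_lit 5390047881) (nat_lit 76) (nat_lit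 295328338258) (nat_lit 2) (nat_lit 5) (nat_lit 4) (nat_lit 5) (nat_lit 3) (nat_lit 4) (nat_lit 238) (nat_lit 206) (nat_lit 156)) (XT.nd (nat_lit 78) (nat_lit 0) (nat_lit 0) (XT.lf (nat_lit 0) (nat_lit 13229382295) (nat_lit 76) (nat_lit 4010913017) (nat_lit 152) (nat_lit 336819085722) (nat_lit 1) (nat_lit 5) (nat_lit 2) (nat_lit 5) (nat_lit 3) (nat_lit 4) (nat_lit 239) (nat_lit 206) (nat_lit 155)) (XT.lf (nat_lit 0) (nat_lit 27801798571) (nat_lit 152) (nat_lit 370572474179) (nat_lit 0) (nat_lit 7071581556) (nat_lit 1) (nat_lit 5) (nat_lit 3) (nat_lit 4) (nat_lit 1) (nat_lit 4) (nat_lit 240) (nat_lit 206) (nat_lit 154)))) (XT.nd (nat_lit 156) (nat_lit 0) (nat_lit 0) (XT.nd (nat_lit 78) (nat_lit 0) (nat_lit 0) (XT.lf (nat_lit 0) (nat_lit 40136319585) (nat_lit 152) (nat_lit 404971457220) (nat_lit 0) (nat_lit 19404214523) (nat_lit 1) (nat_lit 5) (nat_lit 3) (nat_lit 4) (nat_lit 1) (nat_lit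 4) (nat_lit 241) (nat_lit 206) (nat_lit 153)) (XT.lf (nat_lit 0) (nat_lit 54319102584) (nat_lit 152) (nat_lit 444533888089) (nat_lit 0) (nat_lit 33585355742) (nat_lit 1) (nat_lit 5) (nat_lit 3) (nat_lit 4) (nat_lit 1) (nat_lit 4) (nat_lit 242) (nat_lit 206) (nat_lit 152))) (XT.nd (nat_lit 78) (nat_lit 0) (nat_lit 0) (XT.lf (nat_lit 0) (nat_lit 70627636799) (nat_lit 152) (nat_lit 490033814346) (nat_lit 0) (nat_lit 49892462323) (nat_lit 1) (nat_lit 5) (nat_lit 3) (nat_lit 4) (nat_lit 1) (nat_lit 4) (nat_lit 243) (nat_lit 206) (nat_lit 151)) (XT.lf (nat_lit 0) (nat_lit 89381002249) (nat_lit 152) (nat_lit 542361451940) (nat_lit 0) (nat_lit 68644586352) (nat_lit 1) (nat_lit 5) (nat_lit 3) (nat_lit 4) (nat_lit 1) (nat_lit 4) (nat_lit 244) (nat_lit 206) (nat_lit 150))))) (XT.nd (nat_lit 312) (nat_lit 0) (nat_lit 0) (XT.nd (nat_lit 156) (nat_lit 0) (nat_lit 0) (XT.nd (nat_lit 78) (nat_lit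 0) (nat_lit 0) (XT.lf (nat_lit 0) (nat_lit 110946112605) (nat_lit 152) (nat_lit 602540602476) (nat_lit 0) (nat_lit 90208617211) (nat_lit 1) (nat_lit 5) (nat_lit 3) (nat_lit 4) (nat_lit 1) (nat_lit 4) (nat_lit 245) (nat_lit 206) (nat_lit 149)) (XT.lf (nat_lit 0) (nat_lit 135744893940) (nat_lit 152) (nat_lit 671748684116) (nat_lit 0) (nat_lit 115006459853) (nat_lit 1) (nat_lit 5) (nat_lit 3) (nat_lit 4) (nat_lit 1) (nat_lit 4) (nat_lit 246) (nat_lit 206) (nat_lit 148))) (XT.nd (nat_lit 78) (nat_lit 0) (nat_lit 0) (XT.lf (nat_lit 0) (nat_lit 164262539800) (nat_lit 152) (nat_lit 751339768024) (nat_lit 0) (nat_lit 143523289459) (nat_lit 1) (nat_lit 5) (nat_lit 3) (nat_lit 4) (nat_lit 1) (nat_lit 4) (nat_lit 247) (nat_lit 206) (nat_lit 147)) (XT.lf (nat_lit 0) (nat_lit 197057004128) (nat_lit 152) (nat_lit 842871071057) (nat_lit 0) (nat_lit 176317043999) (nat_lit 1) (nat_lit 5) (nat_lit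 3) (nat_lit 4) (nat_lit 1) (nat_lit 4) (nat_lit 248) (nat_lit 206) (nat_lit 146)))) (XT.nd (nat_lit 156) (nat_lit 0) (nat_lit 0) (XT.nd (nat_lit 78) (nat_lit 0) (nat_lit 0) (XT.lf (nat_lit 0) (nat_lit 234769917746) (nat_lit 152) (nat_lit 948133423059) (nat_lit 0) (nat_lit 214029340412) (nat_lit 1) (nat_lit 5) (nat_lit 3) (nat_lit 4) (nat_lit 1) (nat_lit 4) (nat_lit 249) (nat_lit 206) (nat_lit 145)) (XT.lf (nat_lit 0) (nat_lit 278139142009) (nat_lit 152) (nat_lit 1069186304829) (nat_lit 0) (nat_lit 257398027974) (nat_lit 1) (nat_lit 5) (nat_lit 3) (nat_lit 4) (nat_lit 1) (nat_lit 4) (nat_lit 250) (nat_lit 206) (nat_lit 144))) (XT.nd (nat_lit 78) (nat_lit 0) (nat_lit 0) (XT.lf (nat_lit 0) (nat_lit 328013205216) (nat_lit 152) (nat_lit 1208398142314) (nat_lit 0) (nat_lit 307271624485) (nat_lit 1) (nat_lit 5) (nat_lit 3) (nat_lit 4) (nat_lit 1) (nat_lit 4) (nat_lit 251) (nat_lit 206) (nat_lit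 143)) (XT.lf (nat_lit 0) (nat_lit 385367904257) (nat_lit 152) (nat_lit 1368492645379) (nat_lit 0) (nat_lit 364625917703) (nat_lit 1) (nat_lit 5) (nat_lit 3) (nat_lit 4) (nat_lit 1) (nat_lit 4) (nat_lit 252) (nat_lit 206) (nat_lit 142))))))))
noncomputable def xc33 : XT := (XT.nd (nat_lit 28548) (nat_lit 0) (nat_lit 0) (XT.nd (nat_lit 1170) (nat_lit 0) (nat_lit 0) (XT.nd (nat_lit 546) (nat_lit 0) (nat_lit 0) (XT.nd (nat_lit 234) (nat_lit 0) (nat_lit 0) (XT.nd (nat_lit 78) (nat_lit 0) (nat_lit 0) (XT.lf (nat_lit 0) (nat_lit 451325396287) (nat_lit 152) (nat_lit 1552602097780) (nat_lit 0) (nat_lit 430583056844) (nat_lit 1) (nat_lit 5) (nat_lit 3) (nat_lit 4) (nat_lit 1) (nat_lit 4) (nat_lit 253) (nat_lit 206) (nat_lit 141)) (XT.nd (nat_lit 78) (nat_lit 0) (nat_lit 0) (XT.lf (nat_lit 0) (nat_lit 527176153976) (nat_lit 152) (nat_lit 1764328640976) (nat_lit 0) (nat_lit 506433507673) (nat_lit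 1) (nat_lit 5) (nat_lit 3) (nat_lit 4) (nat_lit 1) (nat_lit 4) (nat_lit 254) (nat_lit 206) (nat_lit 140)) (XT.lf (nat_lit 0) (nat_lit 614404213888) (nat_lit 152) (nat_lit 2007814750812) (nat_lit 0) (nat_lit 593661300749) (nat_lit 1) (nat_lit 5) (nat_lit 3) (nat_lit 4) (nat_lit 1) (nat_lit 4) (nat_lit 255) (nat_lit 206) (nat_lit 139)))) (XT.nd (nat_lit 156) (nat_lit 0) (nat_lit 0) (XT.nd (nat_lit 78) (nat_lit 0) (nat_lit 0) (XT.lf (nat_lit 0) (nat_lit 714716211977) (nat_lit 152) (nat_lit 2287824285959) (nat_lit 0) (nat_lit 693973066808) (nat_lit 1) (nat_lit 5) (nat_lit 3) (nat_lit 4) (nat_lit 1) (nat_lit 4) (nat_lit 256) (nat_lit 206) (nat_lit 138)) (XT.lf (nat_lit 0) (nat_lit 830074774293) (nat_lit 152) (nat_lit 2609835693844) (nat_lit 0) (nat_lit 809331427358) (nat_lit 1) (nat_lit 5) (nat_lit 3) (nat_lit 4) (nat_lit 1) (nat_lit 4) (nat_lit 257) (nat_lit 206) (nat_lit 137))) (XT.nd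 (nat_lit 78) (nat_lit 0) (nat_lit 0) (XT.lf (nat_lit 0) (nat_lit 962736916186) (nat_lit 152) (nat_lit 2980149197665) (nat_lit 0) (nat_lit 941993393802) (nat_lit 1) (nat_lit 5) (nat_lit 3) (nat_lit 4) (nat_lit 1) (nat_lit 4) (nat_lit 258) (nat_lit 206) (nat_lit 136)) (XT.lf (nat_lit 0) (nat_lit 1115298201301) (nat_lit 152) (nat_lit 3406010061627) (nat_lit 0) (nat_lit 1094554526353) (nat_lit 1) (nat_lit 5) (nat_lit 3) (nat_lit 4) (nat_lit 1) (nat_lit 4) (nat_lit 259) (nat_lit 206) (nat_lit 135))))) (XT.nd (nat_lit 312) (nat_lit 0) (nat_lit 0) (XT.nd (nat_lit 156) (nat_lit 0) (nat_lit 0) (XT.nd (nat_lit 78) (nat_lit 0) (nat_lit 0) (XT.lf (nat_lit 0) (nat_lit 1290743524347) (nat_lit 152) (nat_lit 3895750346111) (nat_lit 0) (nat_lit 1269999716735) (nat_lit 1) (nat_lit 5) (nat_lit 3) (nat_lit 4) (nat_lit 1) (nat_lit 4) (nat_lit 260) (nat_lit 206) (nat_lit 134)) (XT.lf (nat_lit 0) (nat_lit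 1492505511209) (nat_lit 152) (nat_lit 4458951926249) (nat_lit 0) (nat_lit 1471761588238) (nat_lit 1) (nat_lit 5) (nat_lit 3) (nat_lit 4) (nat_lit 1) (nat_lit 4) (nat_lit 261) (nat_lit 206) (nat_lit 133))) (XT.nd (nat_lit 78) (nat_lit 0) (nat_lit 0) (XT.lf (nat_lit 0) (nat_lit 1724531679023) (nat_lit 152) (nat_lit 5106633963392) (nat_lit 0) (nat_lit 1703787655738) (nat_lit 1) (nat_lit 5) (nat_lit 3) (nat_lit 4) (nat_lit 1) (nat_lit 4) (nat_lit 262) (nat_lit 206) (nat_lit 132)) (XT.lf (nat_lit 0) (nat_lit 1991361670202) (nat_lit 152) (nat_lit 5851468497397) (nat_lit 0) (nat_lit 1970617559688) (nat_lit 1) (nat_lit 5) (nat_lit 3) (nat_lit 4) (nat_lit 1) (nat_lit 4) (nat_lit 263) (nat_lit 206) (nat_lit 131)))) (XT.nd (nat_lit 156) (nat_lit 0) (nat_lit 0) (XT.nd (nat_lit 78) (nat_lit 0) (nat_lit 0) (XT.lf (nat_lit 0) (nat_lit 2298216071529) (nat_lit 152) (nat_lit 6708028377841) (nat_lit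 0) (nat_lit 2277471885164) (nat_lit 1) (nat_lit 5) (nat_lit 3) (nat_lit 4) (nat_lit 1) (nat_lit 4) (nat_lit 264) (nat_lit 206) (nat_lit 130)) (XT.lf (nat_lit 0) (nat_lit 2651098556075) (nat_lit 152) (nat_lit 7693072384995) (nat_lit 0) (nat_lit 2630354303752) (nat_lit 1) (nat_lit 5) (nat_lit 3) (nat_lit 4) (nat_lit 1) (nat_lit 4) (nat_lit 265) (nat_lit 206) (nat_lit 129))) (XT.nd (nat_lit 78) (nat_lit 0) (nat_lit 0) (XT.lf (nat_lit 0) (nat_lit 3056913346362) (nat_lit 152) (nat_lit 8825873118998) (nat_lit 0) (nat_lit 3036169036685) (nat_lit 1) (nat_lit 5) (nat_lit 3) (nat_lit 4) (nat_lit 1) (nat_lit 4) (nat_lit 266) (nat_lit 206) (nat_lit 128)) (XT.lf (nat_lit 0) (nat_lit 3523600296984) (nat_lit 152) (nat_lit 10128594072473) (nat_lit 0) (nat_lit 3502855937434) (nat_lit 1) (nat_lit 5) (nat_lit 3) (nat_lit 4) (nat_lit 1) (nat_lit 4) (nat_lit 267) (nat_lit 206) (nat_lit 127)))))) (XT.nd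 (nat_lit 26754) (nat_lit 0) (nat_lit 532) (XT.nd (nat_lit 234) (nat_lit 0) (nat_lit 0) (XT.nd (nat_lit 78) (nat_lit 0) (nat_lit 0) (XT.lf (nat_lit 0) (nat_lit 4060290239583) (nat_lit 152) (nat_lit 11626723264074) (nat_lit 0) (nat_lit 4039545836664) (nat_lit 1) (nat_lit 5) (nat_lit 3) (nat_lit 4) (nat_lit 1) (nat_lit 4) (nat_lit 268) (nat_lit 206) (nat_lit 126)) (XT.nd (nat_lit 78) (nat_lit 0) (nat_lit 0) (XT.lf (nat_lit 0) (nat_lit 4677483629557) (nat_lit 152) (nat_lit 13349571917115) (nat_lit 0) (nat_lit 4656739188927) (nat_lit 1) (nat_lit 5) (nat_lit 3) (nat_lit 4) (nat_lit 1) (nat_lit 4) (nat_lit 269) (nat_lit 206) (nat_lit 125)) (XT.lf (nat_lit 0) (nat_lit 5387255989755) (nat_lit 152) (nat_lit 15330847940025) (nat_lit 0) (nat_lit 5366511516333) (nat_lit 1) (nat_lit 5) (nat_lit 3) (nat_lit 4) (nat_lit 1) (nat_lit 4) (nat_lit 270) (nat_lit 206) (nat_lit 124)))) (XT.nd (nat_lit 26364)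 (nat_lit 0) (nat_lit 1064) (XT.nd (nat_lit 26286) (nat_lit 0) (nat_lit 1064) (XT.lf (nat_lit 0) (nat_lit 6203494170701) (nat_lit 152) (nat_lit 17609315428905) (nat_lit 0) (nat_lit 6182749668764) (nat_lit 1) (nat_lit 5) (nat_lit 3) (nat_lit 4) (nat_lit 1) (nat_lit 4) (nat_lit 271) (nat_lit 206) (nat_lit 123)) (XT.lf (nat_lit 0) (nat_lit 1659642602) (nat_lit 0) (nat_lit 1659642602) (nat_lit 228) (nat_lit 2334667714) (nat_lit 15) (nat_lit 5) (nat_lit 15) (nat_lit 3) (nat_lit 18) (nat_lit 3) (nat_lit 207) (nat_lit 207) (nat_lit 186))) (XT.nd (nat_lit 78) (nat_lit 0) (nat_lit 0) (XT.lf (nat_lit 0) (nat_lit 7614756851) (nat_lit 228) (nat_lit 3576365681) (nat_lit 304) (nat_lit 885588945) (nat_lit 15) (nat_lit 5) (nat_lit 18) (nat_lit 3) (nat_lit 19) (nat_lit 5) (nat_lit 208) (nat_lit 207) (nat_lit 185)) (XT.lf (nat_lit 76) (nat_lit 1411690337) (nat_lit 0) (nat_lit 7465817373) (nat_lit 304)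 (nat_lit 4063652891) (nat_lit 16) (nat_lit 5) (nat_lit 15) (nat_lit 5) (nat_lit 19) (nat_lit 5) (nat_lit 209) (nat_lit 207) (nat_lit 184))))) (XT.nd (nat_lit 312) (nat_lit 380) (nat_lit 0) (XT.nd (nat_lit 156) (nat_lit 152) (nat_lit 0) (XT.nd (nat_lit 78) (nat_lit 0) (nat_lit 76) (XT.lf (nat_lit 76) (nat_lit 7498673919) (nat_lit 0) (nat_lit 2949405690) (nat_lit 304) (nat_lit 3470604138) (nat_lit 16) (nat_lit 5) (nat_lit 15) (nat_lit 5) (nat_lit 19) (nat_lit 5) (nat_lit 210) (nat_lit 207) (nat_lit 183)) (XT.lf (nat_lit 0) (nat_lit 12288201401) (nat_lit 228) (nat_lit 692183273) (nat_lit 76) (nat_lit 2058371655) (nat_lit 16) (nat_lit 5) (nat_lit 19) (nat_lit 5) (nat_lit 17) (nat_lit 5) (nat_lit 211) (nat_lit 207) (nat_lit 182))) (XT.nd (nat_lit 78) (nat_lit 0) (nat_lit 0) (XT.lf (nat_lit 0) (nat_lit 6264119074) (nat_lit 228) (nat_lit 8488771903) (nat_lit 304) (nat_lit 1522549509) (nat_lit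 13) (nat_lit 5) (nat_lit 16) (nat_lit 5) (nat_lit 17) (nat_lit 5) (nat_lit 212) (nat_lit 207) (nat_lit 181)) (XT.lf (nat_lit 0) (nat_lit 14295911670) (nat_lit 228) (nat_lit 3281067132) (nat_lit 304) (nat_lit 122962165) (nat_lit 13) (nat_lit 5) (nat_lit 16) (nat_lit 5) (nat_lit 17) (nat_lit 5) (nat_lit 213) (nat_lit 207) (nat_lit 180)))) (XT.nd (nat_lit 156) (nat_lit 152) (nat_lit 0) (XT.nd (nat_lit 78) (nat_lit 0) (nat_lit 0) (XT.lf (nat_lit 0) (nat_lit 1620929017) (nat_lit 228) (nat_lit 14944095718) (nat_lit 76) (nat_lit 2724432652) (nat_lit 10) (nat_lit 5) (nat_lit 13) (nat_lit 5) (nat_lit 11) (nat_lit 5) (nat_lit 214) (nat_lit 207) (nat_lit 179)) (XT.lf (nat_lit 0) (nat_lit 3917210500) (nat_lit 228) (nat_lit 7670316777) (nat_lit 76) (nat_lit 9483991273) (nat_lit 10) (nat_lit 5) (nat_lit 13) (nat_lit 5) (nat_lit 11) (nat_lit 5) (nat_lit 215) (nat_lit 207) (nat_lit 178))) (XT.nd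 (nat_lit 78) (nat_lit 0) (nat_lit 0) (XT.lf (nat_lit 0) (nat_lit 715855896) (nat_lit 152) (nat_lit 5837584014) (nat_lit 228) (nat_lit 16568562185) (nat_lit 8) (nat_lit 5) (nat_lit 10) (nat_lit 5) (nat_lit 11) (nat_lit 5) (nat_lit 216) (nat_lit 207) (nat_lit 177)) (XT.lf (nat_lit 0) (nat_lit 10005492499) (nat_lit 228) (nat_lit 14294284526) (nat_lit 76) (nat_lit 1117604625) (nat_lit 8) (nat_lit 5) (nat_lit 11) (nat_lit 5) (nat_lit 9) (nat_lit 4) (nat_lit 217) (nat_lit 207) (nat_lit 176))))))) (XT.nd (nat_lit 1170) (nat_lit 152) (nat_lit 0) (XT.nd (nat_lit 546) (nat_lit 152) (nat_lit 0) (XT.nd (nat_lit 234) (nat_lit 152) (nat_lit 0) (XT.nd (nat_lit 78) (nat_lit 76) (nat_lit 0) (XT.lf (nat_lit 0) (nat_lit 14225735509) (nat_lit 228) (nat_lit 5282914572) (nat_lit 76) (nat_lit 8511192674) (nat_lit 8) (nat_lit 5) (nat_lit 11) (nat_lit 5) (nat_lit 9) (nat_lit 4) (nat_lit 218) (nat_lit 207)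 (nat_lit 175)) (XT.nd (nat_lit 78) (nat_lit 0) (nat_lit 0) (XT.lf (nat_lit 0) (nat_lit 5539126305) (nat_lit 76) (nat_lit 13745254108) (nat_lit 152) (nat_lit 11697776486) (nat_lit 7) (nat_lit 5) (nat_lit 8) (nat_lit 5) (nat_lit 9) (nat_lit 4) (nat_lit 219) (nat_lit 207) (nat_lit 174)) (XT.lf (nat_lit 0) (nat_lit 18545587975) (nat_lit 76) (nat_lit 6810168207) (nat_lit 152) (nat_lit 8995222901) (nat_lit 7) (nat_lit 5) (nat_lit 8) (nat_lit 5) (nat_lit 9) (nat_lit 4) (nat_lit 220) (nat_lit 207) (nat_lit 173)))) (XT.nd (nat_lit 156) (nat_lit 76) (nat_lit 0) (XT.nd (nat_lit 78) (nat_lit 76) (nat_lit 0) (XT.lf (nat_lit 0) (nat_lit 32366391483) (nat_lit 152) (nat_lit 4801454427) (nat_lit 0) (nat_lit 1053213999) (nat_lit 7) (nat_lit 5) (nat_lit 9) (nat_lit 4) (nat_lit 7) (nat_lit 4) (nat_lit 221) (nat_lit 207) (nat_lit 172)) (XT.lf (nat_lit 0) (nat_lit 8234858673) (nat_lit 76) (nat_lit 32841919435)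 (nat_lit 76) (nat_lit 1497841167) (nat_lit 6) (nat_lit 4) (nat_lit 7) (nat_lit 5) (nat_lit 7) (nat_lit 4) (nat_lit 222) (nat_lit 207) (nat_lit 171))) (XT.nd (nat_lit 78) (nat_lit 0) (nat_lit 0) (XT.lf (nat_lit 0) (nat_lit 3445867820) (nat_lit 152) (nat_lit 23962332702) (nat_lit 76) (nat_lit 20114428883) (nat_lit 5) (nat_lit 5) (nat_lit 7) (nat_lit 5) (nat_lit 6) (nat_lit 4) (nat_lit 223) (nat_lit 207) (nat_lit 170)) (XT.lf (nat_lit 0) (nat_lit 8963112137) (nat_lit 152) (nat_lit 12123622854) (nat_lit 76) (nat_lit 32117732599) (nat_lit 5) (nat_lit 5) (nat_lit 7) (nat_lit 5) (nat_lit 6) (nat_lit 4) (nat_lit 224) (nat_lit 207) (nat_lit 169))))) (XT.nd (nat_lit 312) (nat_lit 76) (nat_lit 0) (XT.nd (nat_lit 156) (nat_lit 0) (nat_lit 0) (XT.nd (nat_lit 78) (nat_lit 0) (nat_lit 0) (XT.lf (nat_lit 0) (nat_lit 1613679159) (nat_lit 76) (nat_lit 13748325899) (nat_lit 152) (nat_lit 44368575681)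 (nat_lit 4) (nat_lit 5) (nat_lit 5) (nat_lit 5) (nat_lit 6) (nat_lit 4) (nat_lit 225) (nat_lit 207) (nat_lit 168)) (XT.lf (nat_lit 0) (nat_lit 18754180045) (nat_lit 76) (nat_lit 4588368506) (nat_lit 152) (nat_lit 43799884188) (nat_lit 4) (nat_lit 5) (nat_lit 5) (nat_lit 5) (nat_lit 6) (nat_lit 4) (nat_lit 226) (nat_lit 207) (nat_lit 167))) (XT.nd (nat_lit 78) (nat_lit 0) (nat_lit 0) (XT.lf (nat_lit 0) (nat_lit 32755715464) (nat_lit 152) (nat_lit 37465175865) (nat_lit 0) (nat_lit 5409921991) (nat_lit 4) (nat_lit 5) (nat_lit 6) (nat_lit 4) (nat_lit 4) (nat_lit 4) (nat_lit 227) (nat_lit 207) (nat_lit 166)) (XT.lf (nat_lit 0) (nat_lit 43790088545) (nat_lit 152) (nat_lit 25138370811) (nat_lit 0) (nat_lit 16432678321) (nat_lit 4) (nat_lit 5) (nat_lit 6) (nat_lit 4) (nat_lit 4) (nat_lit 4) (nat_lit 228) (nat_lit 207) (nat_lit 165)))) (XT.nd (nat_lit 156) (nat_lit 0) (nat_lit 0) (XT.nd (nat_lit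 78) (nat_lit 76) (nat_lit 0) (XT.lf (nat_lit 0) (nat_lit 56471563147) (nat_lit 152) (nat_lit 10976666357) (nat_lit 0) (nat_lit 29104051402) (nat_lit 4) (nat_lit 5) (nat_lit 6) (nat_lit 4) (nat_lit 4) (nat_lit 4) (nat_lit 229) (nat_lit 207) (nat_lit 164)) (XT.lf (nat_lit 0) (nat_lit 5814677084) (nat_lit 76) (nat_lit 65474351372) (nat_lit 76) (nat_lit 38098055695) (nat_lit 3) (nat_lit 4) (nat_lit 4) (nat_lit 5) (nat_lit 4) (nat_lit 4) (nat_lit 230) (nat_lit 207) (nat_lit 163))) (XT.nd (nat_lit 78) (nat_lit 0) (nat_lit 0) (XT.lf (nat_lit 0) (nat_lit 26346628374) (nat_lit 76) (nat_lit 62549689807) (nat_lit 76) (nat_lit 35165755929) (nat_lit 3) (nat_lit 4) (nat_lit 4) (nat_lit 5) (nat_lit 4) (nat_lit 4) (nat_lit 231) (nat_lit 207) (nat_lit 162)) (XT.lf (nat_lit 0) (nat_lit 49948179935) (nat_lit 76) (nat_lit 59190803458) (nat_lit 76) (nat_lit 31800227665) (nat_lit 3) (nat_lit 4) (nat_lit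 4) (nat_lit 5) (nat_lit 4) (nat_lit 4) (nat_lit 232) (nat_lit 207) (nat_lit 161)))))) (XT.nd (nat_lit 546) (nat_lit 76) (nat_lit 0) (XT.nd (nat_lit 234) (nat_lit 76) (nat_lit 0) (XT.nd (nat_lit 78) (nat_lit 0) (nat_lit 0) (XT.lf (nat_lit 0) (nat_lit 77081101254) (nat_lit 76) (nat_lit 55331974983) (nat_lit 76) (nat_lit 27935623612) (nat_lit 3) (nat_lit 4) (nat_lit 4) (nat_lit 5) (nat_lit 4) (nat_lit 4) (nat_lit 233) (nat_lit 207) (nat_lit 160)) (XT.nd (nat_lit 78) (nat_lit 0) (nat_lit 0) (XT.lf (nat_lit 0) (nat_lit 108276253836) (nat_lit 76) (nat_lit 50897705564) (nat_lit 76) (nat_lit 23496331952) (nat_lit 3) (nat_lit 4) (nat_lit 4) (nat_lit 5) (nat_lit 4) (nat_lit 4) (nat_lit 234) (nat_lit 207) (nat_lit 159)) (XT.lf (nat_lit 0) (nat_lit 144143977622) (nat_lit 76) (nat_lit 45801237757) (nat_lit 76) (nat_lit 18395496978) (nat_lit 3) (nat_lit 4) (nat_lit 4) (nat_lit 5) (nat_lit 4) (nat_lit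 4) (nat_lit 235) (nat_lit 207) (nat_lit 158)))) (XT.nd (nat_lit 156) (nat_lit 76) (nat_lit 0) (XT.nd (nat_lit 78) (nat_lit 0) (nat_lit 0) (XT.lf (nat_lit 0) (nat_lit 185386032425) (nat_lit 76) (nat_lit 39942858059) (nat_lit 76) (nat_lit 12533319745) (nat_lit 3) (nat_lit 4) (nat_lit 4) (nat_lit 5) (nat_lit 4) (nat_lit 4) (nat_lit 236) (nat_lit 207) (nat_lit 157)) (XT.lf (nat_lit 0) (nat_lit 232809328013) (nat_lit 76) (nat_lit 33207946000) (nat_lit 76) (nat_lit 5795105480) (nat_lit 3) (nat_lit 4) (nat_lit 4) (nat_lit 5) (nat_lit 4) (nat_lit 4) (nat_lit 237) (nat_lit 207) (nat_lit 156))) (XT.nd (nat_lit 78) (nat_lit 0) (nat_lit 0) (XT.lf (nat_lit 0) (nat_lit 1777290671) (nat_lit 152) (nat_lit 23594537059) (nat_lit 76) (nat_lit 285471516972) (nat_lit 2) (nat_lit 5) (nat_lit 4) (nat_lit 5) (nat_lit 3) (nat_lit 4) (nat_lit 238) (nat_lit 207) (nat_lit 155)) (XT.lf (nat_lit 0) (nat_lit 9889971896)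 (nat_lit 152) (nat_lit 6154769367) (nat_lit 76) (nat_lit 339643173045) (nat_lit 2) (nat_lit 5) (nat_lit 4) (nat_lit 5) (nat_lit 3) (nat_lit 4) (nat_lit 239) (nat_lit 207) (nat_lit 154))))) (XT.nd (nat_lit 312) (nat_lit 0) (nat_lit 0) (XT.nd (nat_lit 156) (nat_lit 0) (nat_lit 0) (XT.nd (nat_lit 78) (nat_lit 0) (nat_lit 0) (XT.lf (nat_lit 0) (nat_lit 15255585076) (nat_lit 76) (nat_lit 4593701097) (nat_lit 152) (nat_lit 387315435150) (nat_lit 1) (nat_lit 5) (nat_lit 2) (nat_lit 5) (nat_lit 3) (nat_lit 4) (nat_lit 240) (nat_lit 207) (nat_lit 153)) (XT.lf (nat_lit 0) (nat_lit 31992700581) (nat_lit 152) (nat_lit 426119578514) (nat_lit 0) (nat_lit 8147249933) (nat_lit 1) (nat_lit 5) (nat_lit 3) (nat_lit 4) (nat_lit 1) (nat_lit 4) (nat_lit 241) (nat_lit 207) (nat_lit 152))) (XT.nd (nat_lit 78) (nat_lit 0) (nat_lit 0) (XT.lf (nat_lit 0) (nat_lit 46174708587) (nat_lit 152) (nat_lit 465683465549)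 (nat_lit 0) (nat_lit 22327830305) (nat_lit 1) (nat_lit 5) (nat_lit 3) (nat_lit 4) (nat_lit 1) (nat_lit 4) (nat_lit 242) (nat_lit 207) (nat_lit 151)) (XT.lf (nat_lit 0) (nat_lit 62482568897) (nat_lit 152) (nat_lit 511184658038) (nat_lit 0) (nat_lit 38634449193) (nat_lit 1) (nat_lit 5) (nat_lit 3) (nat_lit 4) (nat_lit 1) (nat_lit 4) (nat_lit 243) (nat_lit 207) (nat_lit 150)))) (XT.nd (nat_lit 156) (nat_lit 0) (nat_lit 0) (XT.nd (nat_lit 78) (nat_lit 0) (nat_lit 0) (XT.lf (nat_lit 0) (nat_lit 81235348341) (nat_lit 152) (nat_lit 563513396703) (nat_lit 0) (nat_lit 57386149141) (nat_lit 1) (nat_lit 5) (nat_lit 3) (nat_lit 4) (nat_lit 1) (nat_lit 4) (nat_lit 244) (nat_lit 207) (nat_lit 149)) (XT.lf (nat_lit 0) (nat_lit 102799949127) (nat_lit 152) (nat_lit 623693504692) (nat_lit 0) (nat_lit 78949811234) (nat_lit 1) (nat_lit 5) (nat_lit 3) (nat_lit 4) (nat_lit 1) (nat_lit 4) (nat_lit 245)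 (nat_lit 207) (nat_lit 148))) (XT.nd (nat_lit 78) (nat_lit 0) (nat_lit 0) (XT.lf (nat_lit 0) (nat_lit 127598287358) (nat_lit 152) (nat_lit 692902418900) (nat_lit 0) (nat_lit 103747333210) (nat_lit 1) (nat_lit 5) (nat_lit 3) (nat_lit 4) (nat_lit 1) (nat_lit 4) (nat_lit 246) (nat_lit 207) (nat_lit 147)) (XT.lf (nat_lit 0) (nat_lit 156115547910) (nat_lit 152) (nat_lit 772494226780) (nat_lit 0) (nat_lit 132263883976) (nat_lit 1) (nat_lit 5) (nat_lit 3) (nat_lit 4) (nat_lit 1) (nat_lit 4) (nat_lit 247) (nat_lit 207) (nat_lit 146))))))))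
noncomputable def xc34 : XT := (XT.nd (nat_lit 28314) (nat_lit 0) (nat_lit 76) (XT.nd (nat_lit 1170) (nat_lit 0) (nat_lit 0) (XT.nd (nat_lit 546) (nat_lit 0) (nat_lit 0) (XT.nd (nat_lit 234) (nat_lit 0) (nat_lit 0) (XT.nd (nat_lit 78) (nat_lit 0) (nat_lit 0) (XT.lf (nat_lit 0) (nat_lit 188909677187) (nat_lit 152) (nat_lit 864026159354) (nat_lit 0) (nat_lit 165057396047) (nat_lit 1) (nat_lit 5) (nat_lit 3) (nat_lit 4) (nat_lit 1) (nat_lit 4) (nat_lit 248) (nat_lit 207) (nat_lit 145)) (XT.nd (nat_lit 78) (nat_lit 0) (nat_lit 0) (XT.lf (nat_lit 0) (nat_lit 226622299458) (nat_lit 152) (nat_lit 969289058783) (nat_lit 0) (nat_lit 202769481617) (nat_lit 1) (nat_lit 5) (nat_lit 3) (nat_lit 4) (nat_lit 1) (nat_lit 4) (nat_lit 249) (nat_lit 207) (nat_lit 144)) (XT.lf (nat_lit 0) (nat_lit 269991270374) (nat_lit 152) (nat_lit 1090342416576) (nat_lit 0) (nat_lit 246137985837) (nat_lit 1) (nat_lit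 5) (nat_lit 3) (nat_lit 4) (nat_lit 1) (nat_lit 4) (nat_lit 250) (nat_lit 207) (nat_lit 143)))) (XT.nd (nat_lit 156) (nat_lit 0) (nat_lit 0) (XT.nd (nat_lit 78) (nat_lit 0) (nat_lit 0) (XT.lf (nat_lit 0) (nat_lit 319865113280) (nat_lit 152) (nat_lit 1229554667995) (nat_lit 0) (nat_lit 296011422920) (nat_lit 1) (nat_lit 5) (nat_lit 3) (nat_lit 4) (nat_lit 1) (nat_lit 4) (nat_lit 251) (nat_lit 207) (nat_lit 142)) (XT.lf (nat_lit 0) (nat_lit 377219620755) (nat_lit 152) (nat_lit 1389649531002) (nat_lit 0) (nat_lit 353365577506) (nat_lit 1) (nat_lit 5) (nat_lit 3) (nat_lit 4) (nat_lit 1) (nat_lit 4) (nat_lit 252) (nat_lit 207) (nat_lit 141))) (XT.nd (nat_lit 78) (nat_lit 0) (nat_lit 0) (XT.lf (nat_lit 0) (nat_lit 443176946206) (nat_lit 152) (nat_lit 1573759296396) (nat_lit 0) (nat_lit 419322596096) (nat_lit 1) (nat_lit 5) (nat_lit 3) (nat_lit 4) (nat_lit 1) (nat_lit 4) (nat_lit 253) (nat_lit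 207) (nat_lit 140)) (XT.lf (nat_lit 0) (nat_lit 519027559043) (nat_lit 152) (nat_lit 1785486111759) (nat_lit 0) (nat_lit 495172942099) (nat_lit 1) (nat_lit 5) (nat_lit 3) (nat_lit 4) (nat_lit 1) (nat_lit 4) (nat_lit 254) (nat_lit 207) (nat_lit 139))))) (XT.nd (nat_lit 312) (nat_lit 0) (nat_lit 0) (XT.nd (nat_lit 156) (nat_lit 0) (nat_lit 0) (XT.nd (nat_lit 78) (nat_lit 0) (nat_lit 0) (XT.lf (nat_lit 0) (nat_lit 606255492997) (nat_lit 152) (nat_lit 2028972458263) (nat_lit 0) (nat_lit 582400644022) (nat_lit 1) (nat_lit 5) (nat_lit 3) (nat_lit 4) (nat_lit 1) (nat_lit 4) (nat_lit 255) (nat_lit 207) (nat_lit 138)) (XT.lf (nat_lit 0) (nat_lit 706567381558) (nat_lit 152) (nat_lit 2308982199209) (nat_lit 0) (nat_lit 682712330817) (nat_lit 1) (nat_lit 5) (nat_lit 3) (nat_lit 4) (nat_lit 1) (nat_lit 4) (nat_lit 256) (nat_lit 207) (nat_lit 137))) (XT.nd (nat_lit 78) (nat_lit 0) (nat_lit 0) (XT.lf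 (nat_lit 0) (nat_lit 821925848632) (nat_lit 152) (nat_lit 2630993786049) (nat_lit 0) (nat_lit 798070622442) (nat_lit 1) (nat_lit 5) (nat_lit 3) (nat_lit 4) (nat_lit 1) (nat_lit 4) (nat_lit 257) (nat_lit 207) (nat_lit 136)) (XT.lf (nat_lit 0) (nat_lit 954587907705) (nat_lit 152) (nat_lit 3001307445482) (nat_lit 0) (nat_lit 930732528952) (nat_lit 1) (nat_lit 5) (nat_lit 3) (nat_lit 4) (nat_lit 1) (nat_lit 4) (nat_lit 258) (nat_lit 207) (nat_lit 135)))) (XT.nd (nat_lit 156) (nat_lit 0) (nat_lit 0) (XT.nd (nat_lit 78) (nat_lit 0) (nat_lit 0) (XT.lf (nat_lit 0) (nat_lit 1107149120803) (nat_lit 152) (nat_lit 3427168444760) (nat_lit 0) (nat_lit 1083293609386) (nat_lit 1) (nat_lit 5) (nat_lit 3) (nat_lit 4) (nat_lit 1) (nat_lit 4) (nat_lit 259) (nat_lit 207) (nat_lit 134)) (XT.lf (nat_lit 0) (nat_lit 1282594381226) (nat_lit 152) (nat_lit 3916908846910) (nat_lit 0) (nat_lit 1258738754448)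 (nat_lit 1) (nat_lit 5) (nat_lit 3) (nat_lit 4) (nat_lit 1) (nat_lit 4) (nat_lit 260) (nat_lit 207) (nat_lit 133))) (XT.nd (nat_lit 78) (nat_lit 0) (nat_lit 0) (XT.lf (nat_lit 0) (nat_lit 1484356313633) (nat_lit 152) (nat_lit 4480110529366) (nat_lit 0) (nat_lit 1460500586543) (nat_lit 1) (nat_lit 5) (nat_lit 3) (nat_lit 4) (nat_lit 1) (nat_lit 4) (nat_lit 261) (nat_lit 207) (nat_lit 132)) (XT.lf (nat_lit 0) (nat_lit 1716382434095) (nat_lit 152) (nat_lit 5127792655481) (nat_lit 0) (nat_lit 1692526619775) (nat_lit 1) (nat_lit 5) (nat_lit 3) (nat_lit 4) (nat_lit 1) (nat_lit 4) (nat_lit 262) (nat_lit 207) (nat_lit 131)))))) (XT.nd (nat_lit 546) (nat_lit 0) (nat_lit 0) (XT.nd (nat_lit 234) (nat_lit 0) (nat_lit 0) (XT.nd (nat_lit 78) (nat_lit 0) (nat_lit 0) (XT.lf (nat_lit 0) (nat_lit 1983212384098) (nat_lit 152) (nat_lit 5872627266853) (nat_lit 0) (nat_lit 1959356493927) (nat_lit 1) (nat_lit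 5) (nat_lit 3) (nat_lit 4) (nat_lit 1) (nat_lit 4) (nat_lit 263) (nat_lit 207) (nat_lit 130)) (XT.nd (nat_lit 78) (nat_lit 0) (nat_lit 0) (XT.lf (nat_lit 0) (nat_lit 2290066749620) (nat_lit 152) (nat_lit 6729187214573) (nat_lit 0) (nat_lit 2266210793492) (nat_lit 1) (nat_lit 5) (nat_lit 3) (nat_lit 4) (nat_lit 1) (nat_lit 4) (nat_lit 264) (nat_lit 207) (nat_lit 129)) (XT.lf (nat_lit 0) (nat_lit 2642949203031) (nat_lit 152) (nat_lit 7714231280227) (nat_lit 0) (nat_lit 2619093189548) (nat_lit 1) (nat_lit 5) (nat_lit 3) (nat_lit 4) (nat_lit 1) (nat_lit 4) (nat_lit 265) (nat_lit 207) (nat_lit 128)))) (XT.nd (nat_lit 156) (nat_lit 0) (nat_lit 0) (XT.nd (nat_lit 78) (nat_lit 0) (nat_lit 0) (XT.lf (nat_lit 0) (nat_lit 3048763966244) (nat_lit 152) (nat_lit 8847032065101) (nat_lit 0) (nat_lit 3024907902888) (nat_lit 1) (nat_lit 5) (nat_lit 3) (nat_lit 4) (nat_lit 1) (nat_lit 4) (nat_lit 266)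 (nat_lit 207) (nat_lit 127)) (XT.lf (nat_lit 0) (nat_lit 3515450893323) (nat_lit 152) (nat_lit 10149753062810) (nat_lit 0) (nat_lit 3491594786599) (nat_lit 1) (nat_lit 5) (nat_lit 3) (nat_lit 4) (nat_lit 1) (nat_lit 4) (nat_lit 267) (nat_lit 207) (nat_lit 126))) (XT.nd (nat_lit 78) (nat_lit 0) (nat_lit 0) (XT.lf (nat_lit 0) (nat_lit 4052140815451) (nat_lit 152) (nat_lit 11647882292876) (nat_lit 0) (nat_lit 4028284671015) (nat_lit 1) (nat_lit 5) (nat_lit 3) (nat_lit 4) (nat_lit 1) (nat_lit 4) (nat_lit 268) (nat_lit 207) (nat_lit 125)) (XT.lf (nat_lit 0) (nat_lit 4669334187624) (nat_lit 152) (nat_lit 13370730979365) (nat_lit 0) (nat_lit 4645478010396) (nat_lit 1) (nat_lit 5) (nat_lit 3) (nat_lit 4) (nat_lit 1) (nat_lit 4) (nat_lit 269) (nat_lit 207) (nat_lit 124))))) (XT.nd (nat_lit 390) (nat_lit 0) (nat_lit 0) (XT.nd (nat_lit 234) (nat_lit 0) (nat_lit 0) (XT.nd (nat_lit 78) (nat_lit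 0) (nat_lit 0) (XT.lf (nat_lit 0) (nat_lit 5379106532342) (nat_lit 152) (nat_lit 15352007031361) (nat_lit 0) (nat_lit 5355250326598) (nat_lit 1) (nat_lit 5) (nat_lit 3) (nat_lit 4) (nat_lit 1) (nat_lit 4) (nat_lit 270) (nat_lit 207) (nat_lit 123)) (XT.lf (nat_lit 0) (nat_lit 6195344699828) (nat_lit 152) (nat_lit 17630474545532) (nat_lit 0) (nat_lit 6171488469288) (nat_lit 1) (nat_lit 5) (nat_lit 3) (nat_lit 4) (nat_lit 1) (nat_lit 4) (nat_lit 271) (nat_lit 207) (nat_lit 122))) (XT.nd (nat_lit 78) (nat_lit 0) (nat_lit 0) (XT.lf (nat_lit 0) (nat_lit 8213493492949) (nat_lit 152) (nat_lit 23263985617098) (nat_lit 0) (nat_lit 8189637222098) (nat_lit 1) (nat_lit 5) (nat_lit 3) (nat_lit 4) (nat_lit 1) (nat_lit 4) (nat_lit 273) (nat_lit 207) (nat_lit 120)) (XT.lf (nat_lit 0) (nat_lit 9454889638449) (nat_lit 152) (nat_lit 26729250043284) (nat_lit 0) (nat_lit 9431033351295) (nat_lit 1) (nat_lit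 5) (nat_lit 3) (nat_lit 4) (nat_lit 1) (nat_lit 4) (nat_lit 274) (nat_lit 207) (nat_lit 119)))) (XT.nd (nat_lit 26052) (nat_lit 0) (nat_lit 1064) (XT.nd (nat_lit 78) (nat_lit 0) (nat_lit 0) (XT.lf (nat_lit 0) (nat_lit 10882495189228) (nat_lit 152) (nat_lit 30714304164488) (nat_lit 0) (nat_lit 10858638887897) (nat_lit 1) (nat_lit 5) (nat_lit 3) (nat_lit 4) (nat_lit 1) (nat_lit 4) (nat_lit 275) (nat_lit 207) (nat_lit 118)) (XT.lf (nat_lit 0) (nat_lit 12524241558236) (nat_lit 152) (nat_lit 35297116430907) (nat_lit 0) (nat_lit 12500385244577) (nat_lit 1) (nat_lit 5) (nat_lit 3) (nat_lit 4) (nat_lit 1) (nat_lit 4) (nat_lit 276) (nat_lit 207) (nat_lit 117))) (XT.nd (nat_lit 78) (nat_lit 0) (nat_lit 0) (XT.lf (nat_lit 0) (nat_lit 2118539658) (nat_lit 0) (nat_lit 2118539658) (nat_lit 228) (nat_lit 2194750441) (nat_lit 15) (nat_lit 5) (nat_lit 15) (nat_lit 3) (nat_lit 18) (nat_lit 3) (nat_lit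 208) (nat_lit 208) (nat_lit 184)) (XT.lf (nat_lit 0) (nat_lit 9472114245) (nat_lit 228) (nat_lit 3610454667) (nat_lit 304) (nat_lit 685802233) (nat_lit 15) (nat_lit 5) (nat_lit 18) (nat_lit 3) (nat_lit 19) (nat_lit 5) (nat_lit 209) (nat_lit 208) (nat_lit 183))))))) (XT.nd (nat_lit 1170) (nat_lit 228) (nat_lit 0) (XT.nd (nat_lit 546) (nat_lit 380) (nat_lit 0) (XT.nd (nat_lit 234) (nat_lit 380) (nat_lit 0) (XT.nd (nat_lit 78) (nat_lit 0) (nat_lit 0) (XT.lf (nat_lit 76) (nat_lit 2102974942) (nat_lit 0) (nat_lit 8747879514) (nat_lit 304) (nat_lit 3924286951) (nat_lit 16) (nat_lit 5) (nat_lit 15) (nat_lit 5) (nat_lit 19) (nat_lit 5) (nat_lit 210) (nat_lit 208) (nat_lit 182)) (XT.nd (nat_lit 78) (nat_lit 0) (nat_lit 76) (XT.lf (nat_lit 76) (nat_lit 9040458533) (nat_lit 0) (nat_lit 3532850922) (nat_lit 304) (nat_lit 3339965304) (nat_lit 16) (nat_lit 5) (nat_lit 15) (nat_lit 5) (nat_lit 19)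 (nat_lit 5) (nat_lit 211) (nat_lit 208) (nat_lit 181)) (XT.lf (nat_lit 0) (nat_lit 14611586369) (nat_lit 228) (nat_lit 347284669) (nat_lit 76) (nat_lit 2255406949) (nat_lit 16) (nat_lit 5) (nat_lit 19) (nat_lit 5) (nat_lit 17) (nat_lit 5) (nat_lit 212) (nat_lit 208) (nat_lit 180)))) (XT.nd (nat_lit 156) (nat_lit 152) (nat_lit 0) (XT.nd (nat_lit 78) (nat_lit 76) (nat_lit 0) (XT.lf (nat_lit 0) (nat_lit 7632066390) (nat_lit 228) (nat_lit 9769020319) (nat_lit 304) (nat_lit 1243190468) (nat_lit 13) (nat_lit 5) (nat_lit 16) (nat_lit 5) (nat_lit 17) (nat_lit 5) (nat_lit 213) (nat_lit 208) (nat_lit 179)) (XT.lf (nat_lit 0) (nat_lit 273390154) (nat_lit 304) (nat_lit 3491574572) (nat_lit 76) (nat_lit 16525077812) (nat_lit 12) (nat_lit 5) (nat_lit 16) (nat_lit 5) (nat_lit 13) (nat_lit 5) (nat_lit 214) (nat_lit 208) (nat_lit 178))) (XT.nd (nat_lit 78) (nat_lit 0) (nat_lit 0) (XT.lf (nat_lit 0)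 (nat_lit 2231629644) (nat_lit 228) (nat_lit 16729132323) (nat_lit 76) (nat_lit 3162252250) (nat_lit 10) (nat_lit 5) (nat_lit 13) (nat_lit 5) (nat_lit 11) (nat_lit 5) (nat_lit 215) (nat_lit 208) (nat_lit 177)) (XT.lf (nat_lit 0) (nat_lit 4824410574) (nat_lit 228) (nat_lit 8423840161) (nat_lit 76) (nat_lit 10931941877) (nat_lit 10) (nat_lit 5) (nat_lit 13) (nat_lit 5) (nat_lit 11) (nat_lit 5) (nat_lit 216) (nat_lit 208) (nat_lit 176))))) (XT.nd (nat_lit 312) (nat_lit 152) (nat_lit 0) (XT.nd (nat_lit 156) (nat_lit 76) (nat_lit 0) (XT.nd (nat_lit 78) (nat_lit 0) (nat_lit 0) (XT.lf (nat_lit 0) (nat_lit 1202211862) (nat_lit 152) (nat_lit 6627865818) (nat_lit 228) (nat_lit 18712606727) (nat_lit 8) (nat_lit 5) (nat_lit 10) (nat_lit 5) (nat_lit 11) (nat_lit 5) (nat_lit 217) (nat_lit 208) (nat_lit 175)) (XT.lf (nat_lit 0) (nat_lit 11764713057) (nat_lit 228) (nat_lit 16070547916) (nat_lit 76)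 (nat_lit 1352859958) (nat_lit 8) (nat_lit 5) (nat_lit 11) (nat_lit 5) (nat_lit 9) (nat_lit 4) (nat_lit 218) (nat_lit 208) (nat_lit 174))) (XT.nd (nat_lit 78) (nat_lit 76) (nat_lit 0) (XT.lf (nat_lit 0) (nat_lit 16584288602) (nat_lit 228) (nat_lit 5755456725) (nat_lit 76) (nat_lit 9846666913) (nat_lit 8) (nat_lit 5) (nat_lit 11) (nat_lit 5) (nat_lit 9) (nat_lit 4) (nat_lit 219) (nat_lit 208) (nat_lit 173)) (XT.lf (nat_lit 0) (nat_lit 6675349601) (nat_lit 76) (nat_lit 15709716962) (nat_lit 152) (nat_lit 13210859062) (nat_lit 7) (nat_lit 5) (nat_lit 8) (nat_lit 5) (nat_lit 9) (nat_lit 4) (nat_lit 220) (nat_lit 208) (nat_lit 172)))) (XT.nd (nat_lit 156) (nat_lit 152) (nat_lit 0) (XT.nd (nat_lit 78) (nat_lit 0) (nat_lit 0) (XT.lf (nat_lit 0) (nat_lit 21592951693) (nat_lit 76) (nat_lit 7747062775) (nat_lit 152) (nat_lit 10134433382) (nat_lit 7) (nat_lit 5) (nat_lit 8) (nat_lit 5) (nat_lit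 9) (nat_lit 4) (nat_lit 221) (nat_lit 208) (nat_lit 171)) (XT.lf (nat_lit 0) (nat_lit 37381697365) (nat_lit 152) (nat_lit 5268455859) (nat_lit 0) (nat_lit 1278236322) (nat_lit 7) (nat_lit 5) (nat_lit 9) (nat_lit 4) (nat_lit 7) (nat_lit 4) (nat_lit 222) (nat_lit 208) (nat_lit 170))) (XT.nd (nat_lit 78) (nat_lit 76) (nat_lit 0) (XT.lf (nat_lit 0) (nat_lit 9711794354) (nat_lit 76) (nat_lit 37675941350) (nat_lit 76) (nat_lit 1549114874) (nat_lit 6) (nat_lit 4) (nat_lit 7) (nat_lit 5) (nat_lit 7) (nat_lit 4) (nat_lit 223) (nat_lit 208) (nat_lit 169)) (XT.lf (nat_lit 0) (nat_lit 4100108847) (nat_lit 152) (nat_lit 27331910223) (nat_lit 76) (nat_lit 23197232032) (nat_lit 5) (nat_lit 5) (nat_lit 7) (nat_lit 5) (nat_lit 6) (nat_lit 4) (nat_lit 224) (nat_lit 208) (nat_lit 168)))))) (XT.nd (nat_lit 546) (nat_lit 76) (nat_lit 0) (XT.nd (nat_lit 234) (nat_lit 76) (nat_lit 0) (XT.nd (nat_lit 78)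 (nat_lit 76) (nat_lit 0) (XT.lf (nat_lit 0) (nat_lit 10427023178) (nat_lit 152) (nat_lit 13746712034) (nat_lit 76) (nat_lit 36992469721) (nat_lit 5) (nat_lit 5) (nat_lit 7) (nat_lit 5) (nat_lit 6) (nat_lit 4) (nat_lit 225) (nat_lit 208) (nat_lit 167)) (XT.nd (nat_lit 78) (nat_lit 0) (nat_lit 0) (XT.lf (nat_lit 0) (nat_lit 2042300997) (nat_lit 76) (nat_lit 15735594824) (nat_lit 152) (nat_lit 50894649909) (nat_lit 4) (nat_lit 5) (nat_lit 5) (nat_lit 5) (nat_lit 6) (nat_lit 4) (nat_lit 226) (nat_lit 208) (nat_lit 166)) (XT.lf (nat_lit 0) (nat_lit 21729541803) (nat_lit 76) (nat_lit 5211423817) (nat_lit 152) (nat_lit 50257508447) (nat_lit 4) (nat_lit 5) (nat_lit 5) (nat_lit 5) (nat_lit 6) (nat_lit 4) (nat_lit 227) (nat_lit 208) (nat_lit 165)))) (XT.nd (nat_lit 156) (nat_lit 76) (nat_lit 0) (XT.nd (nat_lit 78) (nat_lit 0) (nat_lit 0) (XT.lf (nat_lit 0) (nat_lit 37755798503) (nat_lit 152)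 (nat_lit 42932901338) (nat_lit 0) (nat_lit 6273058475) (nat_lit 4) (nat_lit 5) (nat_lit 6) (nat_lit 4) (nat_lit 4) (nat_lit 4) (nat_lit 228) (nat_lit 208) (nat_lit 164)) (XT.lf (nat_lit 0) (nat_lit 50434015495) (nat_lit 152) (nat_lit 28776908253) (nat_lit 0) (nat_lit 18942491535) (nat_lit 4) (nat_lit 5) (nat_lit 6) (nat_lit 4) (nat_lit 4) (nat_lit 4) (nat_lit 229) (nat_lit 208) (nat_lit 163))) (XT.nd (nat_lit 78) (nat_lit 76) (nat_lit 0) (XT.lf (nat_lit 0) (nat_lit 65007874722) (nat_lit 152) (nat_lit 12508193981) (nat_lit 0) (nat_lit 33508712561) (nat_lit 4) (nat_lit 5) (nat_lit 6) (nat_lit 4) (nat_lit 4) (nat_lit 4) (nat_lit 230) (nat_lit 208) (nat_lit 162)) (XT.lf (nat_lit 0) (nat_lit 6796624962) (nat_lit 76) (nat_lit 75247325692) (nat_lit 76) (nat_lit 43741521616) (nat_lit 3) (nat_lit 4) (nat_lit 4) (nat_lit 5) (nat_lit 4) (nat_lit 4) (nat_lit 231) (nat_lit 208) (nat_lit 161)))))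 (XT.nd (nat_lit 312) (nat_lit 76) (nat_lit 0) (XT.nd (nat_lit 156) (nat_lit 0) (nat_lit 0) (XT.nd (nat_lit 78) (nat_lit 0) (nat_lit 0) (XT.lf (nat_lit 0) (nat_lit 30394054208) (nat_lit 76) (nat_lit 71890249029) (nat_lit 76) (nat_lit 40378669376) (nat_lit 3) (nat_lit 4) (nat_lit 4) (nat_lit 5) (nat_lit 4) (nat_lit 4) (nat_lit 232) (nat_lit 208) (nat_lit 160)) (XT.lf (nat_lit 0) (nat_lit 57523390906) (nat_lit 76) (nat_lit 68032994195) (nat_lit 76) (nat_lit 36516392300) (nat_lit 3) (nat_lit 4) (nat_lit 4) (nat_lit 5) (nat_lit 4) (nat_lit 4) (nat_lit 233) (nat_lit 208) (nat_lit 159))) (XT.nd (nat_lit 78) (nat_lit 0) (nat_lit 0) (XT.lf (nat_lit 0) (nat_lit 88715426426) (nat_lit 76) (nat_lit 63600093160) (nat_lit 76) (nat_lit 32079124098) (nat_lit 3) (nat_lit 4) (nat_lit 4) (nat_lit 5) (nat_lit 4) (nat_lit 4) (nat_lit 234) (nat_lit 208) (nat_lit 158)) (XT.lf (nat_lit 0) (nat_lit 124580439723)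 (nat_lit 76) (nat_lit 58504815250) (nat_lit 76) (nat_lit 26980048652) (nat_lit 3) (nat_lit 4) (nat_lit 4) (nat_lit 5) (nat_lit 4) (nat_lit 4) (nat_lit 235) (nat_lit 208) (nat_lit 157)))) (XT.nd (nat_lit 156) (nat_lit 76) (nat_lit 0) (XT.nd (nat_lit 78) (nat_lit 0) (nat_lit 0) (XT.lf (nat_lit 0) (nat_lit 165820137580) (nat_lit 76) (nat_lit 52647470248) (nat_lit 76) (nat_lit 21119401444) (nat_lit 3) (nat_lit 4) (nat_lit 4) (nat_lit 5) (nat_lit 4) (nat_lit 4) (nat_lit 236) (nat_lit 208) (nat_lit 156)) (XT.lf (nat_lit 0) (nat_lit 213241383649) (nat_lit 76) (nat_lit 45913457923) (nat_lit 76) (nat_lit 14382517636) (nat_lit 3) (nat_lit 4) (nat_lit 4) (nat_lit 5) (nat_lit 4) (nat_lit 4) (nat_lit 237) (nat_lit 208) (nat_lit 155))) (XT.nd (nat_lit 78) (nat_lit 76) (nat_lit 0) (XT.lf (nat_lit 0) (nat_lit 267771984920) (nat_lit 76) (nat_lit 38171025861) (nat_lit 76) (nat_lit 6637588633) (nat_lit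 3) (nat_lit 4) (nat_lit 4) (nat_lit 5) (nat_lit 4) (nat_lit 4) (nat_lit 238) (nat_lit 208) (nat_lit 154)) (XT.lf (nat_lit 0) (nat_lit 2065100177) (nat_lit 152) (nat_lit 27095643100) (nat_lit 76) (nat_lit 328305795864) (nat_lit 2) (nat_lit 5) (nat_lit 4) (nat_lit 5) (nat_lit 3) (nat_lit 4) (nat_lit 239) (nat_lit 208) (nat_lit 153))))))))
noncomputable def xc35 : XT := (XT.nd (nat_lit 2340) (nat_lit 0) (nat_lit 0) (XT.nd (nat_lit 1170) (nat_lit 0) (nat_lit 0) (XT.nd (nat_lit 546) (nat_lit 0) (nat_lit 0) (XT.nd (nat_lit 234) (nat_lit 0) (nat_lit 0) (XT.nd (nat_lit 78) (nat_lit 76) (nat_lit 0) (XT.lf (nat_lit 0) (nat_lit 11391916293) (nat_lit 152) (nat_lit 7044876496) (nat_lit 76) (nat_lit 390601432781) (nat_lit 2) (nat_lit 5) (nat_lit 4) (nat_lit 5) (nat_lit 3) (nat_lit 4) (nat_lit 240) (nat_lit 208) (nat_lit 152)) (XT.nd (nat_lit 78) (nat_lit 0) (nat_lit 0) (XT.lf (nat_lit 0) (nat_lit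 17575526193) (nat_lit 76) (nat_lit 5268503807) (nat_lit 152) (nat_lit 445392702459) (nat_lit 1) (nat_lit 5) (nat_lit 2) (nat_lit 5) (nat_lit 3) (nat_lit 4) (nat_lit 241) (nat_lit 208) (nat_lit 151)) (XT.lf (nat_lit 0) (nat_lit 36807206593) (nat_lit 152) (nat_lit 490008202026) (nat_lit 0) (nat_lit 9380627513) (nat_lit 1) (nat_lit 5) (nat_lit 3) (nat_lit 4) (nat_lit 1) (nat_lit 4) (nat_lit 242) (nat_lit 208) (nat_lit 150)))) (XT.nd (nat_lit 156) (nat_lit 0) (nat_lit 0) (XT.nd (nat_lit 78) (nat_lit 0) (nat_lit 0) (XT.lf (nat_lit 0) (nat_lit 53114480897) (nat_lit 152) (nat_lit 535510495586) (nat_lit 0) (nat_lit 25686822320) (nat_lit 1) (nat_lit 5) (nat_lit 3) (nat_lit 4) (nat_lit 1) (nat_lit 4) (nat_lit 243) (nat_lit 208) (nat_lit 149)) (XT.lf (nat_lit 0) (nat_lit 71866750772) (nat_lit 152) (nat_lit 587840191704) (nat_lit 0) (nat_lit 44438153502) (nat_lit 1) (nat_lit 5) (nat_lit 3) (nat_lit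 4) (nat_lit 1) (nat_lit 4) (nat_lit 244) (nat_lit 208) (nat_lit 148))) (XT.nd (nat_lit 78) (nat_lit 0) (nat_lit 0) (XT.lf (nat_lit 0) (nat_lit 93430908454) (nat_lit 152) (nat_lit 648021132261) (nat_lit 0) (nat_lit 66001494929) (nat_lit 1) (nat_lit 5) (nat_lit 3) (nat_lit 4) (nat_lit 1) (nat_lit 4) (nat_lit 245) (nat_lit 208) (nat_lit 147)) (XT.lf (nat_lit 0) (nat_lit 118228861376) (nat_lit 152) (nat_lit 717230770441) (nat_lit 0) (nat_lit 90798738065) (nat_lit 1) (nat_lit 5) (nat_lit 3) (nat_lit 4) (nat_lit 1) (nat_lit 4) (nat_lit 246) (nat_lit 208) (nat_lit 146))))) (XT.nd (nat_lit 312) (nat_lit 0) (nat_lit 0) (XT.nd (nat_lit 156) (nat_lit 0) (nat_lit 0) (XT.nd (nat_lit 78) (nat_lit 0) (nat_lit 0) (XT.lf (nat_lit 0) (nat_lit 146745786878) (nat_lit 152) (nat_lit 796823207862) (nat_lit 0) (nat_lit 119315046361) (nat_lit 1) (nat_lit 5) (nat_lit 3) (nat_lit 4) (nat_lit 1) (nat_lit 4)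 (nat_lit 247) (nat_lit 208) (nat_lit 145)) (XT.lf (nat_lit 0) (nat_lit 179539624807) (nat_lit 152) (nat_lit 888355687863) (nat_lit 0) (nat_lit 152108347590) (nat_lit 1) (nat_lit 5) (nat_lit 3) (nat_lit 4) (nat_lit 1) (nat_lit 4) (nat_lit 248) (nat_lit 208) (nat_lit 144))) (XT.nd (nat_lit 78) (nat_lit 0) (nat_lit 0) (XT.lf (nat_lit 0) (nat_lit 217251993731) (nat_lit 152) (nat_lit 993619063315) (nat_lit 0) (nat_lit 189820249817) (nat_lit 1) (nat_lit 5) (nat_lit 3) (nat_lit 4) (nat_lit 1) (nat_lit 4) (nat_lit 249) (nat_lit 208) (nat_lit 143)) (XT.lf (nat_lit 0) (nat_lit 260620744346) (nat_lit 152) (nat_lit 1114672835042) (nat_lit 0) (nat_lit 233188594610) (nat_lit 1) (nat_lit 5) (nat_lit 3) (nat_lit 4) (nat_lit 1) (nat_lit 4) (nat_lit 250) (nat_lit 208) (nat_lit 142)))) (XT.nd (nat_lit 156) (nat_lit 0) (nat_lit 0) (XT.nd (nat_lit 78) (nat_lit 0) (nat_lit 0) (XT.lf (nat_lit 0) (nat_lit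 310494395686) (nat_lit 152) (nat_lit 1253885446403) (nat_lit 0) (nat_lit 283061893060) (nat_lit 1) (nat_lit 5) (nat_lit 3) (nat_lit 4) (nat_lit 1) (nat_lit 4) (nat_lit 251) (nat_lit 208) (nat_lit 141)) (XT.lf (nat_lit 0) (nat_lit 367848736582) (nat_lit 152) (nat_lit 1413980622403) (nat_lit 0) (nat_lit 340415927096) (nat_lit 1) (nat_lit 5) (nat_lit 3) (nat_lit 4) (nat_lit 1) (nat_lit 4) (nat_lit 252) (nat_lit 208) (nat_lit 140))) (XT.nd (nat_lit 78) (nat_lit 0) (nat_lit 0) (XT.lf (nat_lit 0) (nat_lit 433805917181) (nat_lit 152) (nat_lit 1598090659965) (nat_lit 0) (nat_lit 406372840860) (nat_lit 1) (nat_lit 5) (nat_lit 3) (nat_lit 4) (nat_lit 1) (nat_lit 4) (nat_lit 253) (nat_lit 208) (nat_lit 139)) (XT.lf (nat_lit 0) (nat_lit 509656404061) (nat_lit 152) (nat_lit 1809817711996) (nat_lit 0) (nat_lit 482223095709) (nat_lit 1) (nat_lit 5) (nat_lit 3) (nat_lit 4) (nat_lit 1) (nat_lit 4)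 (nat_lit 254) (nat_lit 208) (nat_lit 138)))))) (XT.nd (nat_lit 546) (nat_lit 0) (nat_lit 0) (XT.nd (nat_lit 234) (nat_lit 0) (nat_lit 0) (XT.nd (nat_lit 78) (nat_lit 0) (nat_lit 0) (XT.lf (nat_lit 0) (nat_lit 596884228486) (nat_lit 152) (nat_lit 2053304264298) (nat_lit 0) (nat_lit 569450718369) (nat_lit 1) (nat_lit 5) (nat_lit 3) (nat_lit 4) (nat_lit 1) (nat_lit 4) (nat_lit 255) (nat_lit 208) (nat_lit 137)) (XT.nd (nat_lit 78) (nat_lit 0) (nat_lit 0) (XT.lf (nat_lit 0) (nat_lit 697196021805) (nat_lit 152) (nat_lit 2333314184198) (nat_lit 0) (nat_lit 669762336239) (nat_lit 1) (nat_lit 5) (nat_lit 3) (nat_lit 4) (nat_lit 1) (nat_lit 4) (nat_lit 256) (nat_lit 208) (nat_lit 136)) (XT.lf (nat_lit 0) (nat_lit 812554406059) (nat_lit 152) (nat_lit 2655325926651) (nat_lit 0) (nat_lit 785120567929) (nat_lit 1) (nat_lit 5) (nat_lit 3) (nat_lit 4) (nat_lit 1) (nat_lit 4) (nat_lit 257) (nat_lit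 208) (nat_lit 135)))) (XT.nd (nat_lit 156) (nat_lit 0) (nat_lit 0) (XT.nd (nat_lit 78) (nat_lit 0) (nat_lit 0) (XT.lf (nat_lit 0) (nat_lit 945216393116) (nat_lit 152) (nat_lit 3025639721401) (nat_lit 0) (nat_lit 917782422321) (nat_lit 1) (nat_lit 5) (nat_lit 3) (nat_lit 4) (nat_lit 1) (nat_lit 4) (nat_lit 258) (nat_lit 208) (nat_lit 134)) (XT.lf (nat_lit 0) (nat_lit 1097777543590) (nat_lit 152) (nat_lit 3451500838344) (nat_lit 0) (nat_lit 1070343457436) (nat_lit 1) (nat_lit 5) (nat_lit 3) (nat_lit 4) (nat_lit 1) (nat_lit 4) (nat_lit 259) (nat_lit 208) (nat_lit 133))) (XT.nd (nat_lit 78) (nat_lit 0) (nat_lit 0) (XT.lf (nat_lit 0) (nat_lit 1273222749558) (nat_lit 152) (nat_lit 3941241342812) (nat_lit 0) (nat_lit 1245788563090) (nat_lit 1) (nat_lit 5) (nat_lit 3) (nat_lit 4) (nat_lit 1) (nat_lit 4) (nat_lit 260) (nat_lit 208) (nat_lit 132)) (XT.lf (nat_lit 0) (nat_lit 1474984634614)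 (nat_lit 152) (nat_lit 4504443114240) (nat_lit 0) (nat_lit 1447550360917) (nat_lit 1) (nat_lit 5) (nat_lit 3) (nat_lit 4) (nat_lit 1) (nat_lit 4) (nat_lit 261) (nat_lit 208) (nat_lit 131))))) (XT.nd (nat_lit 312) (nat_lit 0) (nat_lit 0) (XT.nd (nat_lit 156) (nat_lit 0) (nat_lit 0) (XT.nd (nat_lit 78) (nat_lit 0) (nat_lit 0) (XT.lf (nat_lit 0) (nat_lit 1707010713899) (nat_lit 152) (nat_lit 5152125317722) (nat_lit 0) (nat_lit 1679576364352) (nat_lit 1) (nat_lit 5) (nat_lit 3) (nat_lit 4) (nat_lit 1) (nat_lit 4) (nat_lit 262) (nat_lit 208) (nat_lit 130)) (XT.lf (nat_lit 0) (nat_lit 1973840628097) (nat_lit 152) (nat_lit 5896959996370) (nat_lit 0) (nat_lit 1946406212592) (nat_lit 1) (nat_lit 5) (nat_lit 3) (nat_lit 4) (nat_lit 1) (nat_lit 4) (nat_lit 263) (nat_lit 208) (nat_lit 129))) (XT.nd (nat_lit 78) (nat_lit 0) (nat_lit 0) (XT.lf (nat_lit 0) (nat_lit 2280694962484) (nat_lit 152) (nat_lit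 6753520002590) (nat_lit 0) (nat_lit 2253260489625) (nat_lit 1) (nat_lit 5) (nat_lit 3) (nat_lit 4) (nat_lit 1) (nat_lit 4) (nat_lit 264) (nat_lit 208) (nat_lit 128)) (XT.lf (nat_lit 0) (nat_lit 2633577388821) (nat_lit 152) (nat_lit 7738564119115) (nat_lit 0) (nat_lit 2606142866088) (nat_lit 1) (nat_lit 5) (nat_lit 3) (nat_lit 4) (nat_lit 1) (nat_lit 4) (nat_lit 265) (nat_lit 208) (nat_lit 127)))) (XT.nd (nat_lit 156) (nat_lit 0) (nat_lit 0) (XT.nd (nat_lit 78) (nat_lit 0) (nat_lit 0) (XT.lf (nat_lit 0) (nat_lit 3039392128492) (nat_lit 152) (nat_lit 8871364948224) (nat_lit 0) (nat_lit 3011957562391) (nat_lit 1) (nat_lit 5) (nat_lit 3) (nat_lit 4) (nat_lit 1) (nat_lit 4) (nat_lit 266) (nat_lit 208) (nat_lit 126)) (XT.lf (nat_lit 0) (nat_lit 3506079035100) (nat_lit 152) (nat_lit 10174085984398) (nat_lit 0) (nat_lit 3478644431287) (nat_lit 1) (nat_lit 5) (nat_lit 3) (nat_lit 4) (nat_lit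 1) (nat_lit 4) (nat_lit 267) (nat_lit 208) (nat_lit 125))) (XT.nd (nat_lit 78) (nat_lit 0) (nat_lit 0) (XT.lf (nat_lit 0) (nat_lit 4042768939426) (nat_lit 152) (nat_lit 11672215247912) (nat_lit 0) (nat_lit 4015334302821) (nat_lit 1) (nat_lit 5) (nat_lit 3) (nat_lit 4) (nat_lit 1) (nat_lit 4) (nat_lit 268) (nat_lit 208) (nat_lit 124)) (XT.lf (nat_lit 0) (nat_lit 4659962296119) (nat_lit 152) (nat_lit 13395063963486) (nat_lit 0) (nat_lit 4632527630999) (nat_lit 1) (nat_lit 5) (nat_lit 3) (nat_lit 4) (nat_lit 1) (nat_lit 4) (nat_lit 269) (nat_lit 208) (nat_lit 123))))))) (XT.nd (nat_lit 27066) (nat_lit 0) (nat_lit 228) (XT.nd (nat_lit 546) (nat_lit 0) (nat_lit 0) (XT.nd (nat_lit 234) (nat_lit 0) (nat_lit 0) (XT.nd (nat_lit 78) (nat_lit 0) (nat_lit 0) (XT.lf (nat_lit 0) (nat_lit 5369734627377) (nat_lit 152) (nat_lit 15376340040773) (nat_lit 0) (nat_lit 5342299937461) (nat_lit 1) (nat_lit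 5) (nat_lit 3) (nat_lit 4) (nat_lit 1) (nat_lit 4) (nat_lit 270) (nat_lit 208) (nat_lit 122)) (XT.nd (nat_lit 78) (nat_lit 0) (nat_lit 0) (XT.lf (nat_lit 0) (nat_lit 6185972783158) (nat_lit 152) (nat_lit 17654807576937) (nat_lit 0) (nat_lit 6158538071680) (nat_lit 1) (nat_lit 5) (nat_lit 3) (nat_lit 4) (nat_lit 1) (nat_lit 4) (nat_lit 271) (nat_lit 208) (nat_lit 121)) (XT.lf (nat_lit 0) (nat_lit 7124646640424) (nat_lit 152) (nat_lit 20275045284642) (nat_lit 0) (nat_lit 7097211910197) (nat_lit 1) (nat_lit 5) (nat_lit 3) (nat_lit 4) (nat_lit 1) (nat_lit 4) (nat_lit 272) (nat_lit 208) (nat_lit 120)))) (XT.nd (nat_lit 156) (nat_lit 0) (nat_lit 0) (XT.nd (nat_lit 78) (nat_lit 0) (nat_lit 0) (XT.lf (nat_lit 0) (nat_lit 8204121557251) (nat_lit 152) (nat_lit 23288318684256) (nat_lit 0) (nat_lit 8176686810720) (nat_lit 1) (nat_lit 5) (nat_lit 3) (nat_lit 4) (nat_lit 1) (nat_lit 4) (nat_lit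 273) (nat_lit 208) (nat_lit 119)) (XT.lf (nat_lit 0) (nat_lit 9445517695055) (nat_lit 152) (nat_lit 26753583124903) (nat_lit 0) (nat_lit 9418082934347) (nat_lit 1) (nat_lit 5) (nat_lit 3) (nat_lit 4) (nat_lit 1) (nat_lit 4) (nat_lit 274) (nat_lit 208) (nat_lit 118))) (XT.nd (nat_lit 78) (nat_lit 0) (nat_lit 0) (XT.lf (nat_lit 0) (nat_lit 10873123239142) (nat_lit 152) (nat_lit 30738637258681) (nat_lit 0) (nat_lit 10845688466106) (nat_lit 1) (nat_lit 5) (nat_lit 3) (nat_lit 4) (nat_lit 1) (nat_lit 4) (nat_lit 275) (nat_lit 208) (nat_lit 117)) (XT.lf (nat_lit 0) (nat_lit 12514869602330) (nat_lit 152) (nat_lit 35321449536035) (nat_lit 0) (nat_lit 12487434818574) (nat_lit 1) (nat_lit 5) (nat_lit 3) (nat_lit 4) (nat_lit 1) (nat_lit 4) (nat_lit 276) (nat_lit 208) (nat_lit 116))))) (XT.nd (nat_lit 26208) (nat_lit 0) (nat_lit 836) (XT.nd (nat_lit 26052) (nat_lit 0) (nat_lit 1064) (XT.nd (nat_lit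 25974) (nat_lit 0) (nat_lit 1064) (XT.lf (nat_lit 0) (nat_lit 14402877909117) (nat_lit 152) (nat_lit 40591683675433) (nat_lit 0) (nat_lit 14375443116039) (nat_lit 1) (nat_lit 5) (nat_lit 3) (nat_lit 4) (nat_lit 1) (nat_lit 4) (nat_lit 277) (nat_lit 208) (nat_lit 115)) (XT.lf (nat_lit 0) (nat_lit 2595073474) (nat_lit 0) (nat_lit 2595073474) (nat_lit 228) (nat_lit 2153363816) (nat_lit 15) (nat_lit 5) (nat_lit 15) (nat_lit 3) (nat_lit 18) (nat_lit 3) (nat_lit 209) (nat_lit 209) (nat_lit 182))) (XT.nd (nat_lit 78) (nat_lit 0) (nat_lit 0) (XT.lf (nat_lit 0) (nat_lit 11433682887) (nat_lit 228) (nat_lit 3772162098) (nat_lit 304) (nat_lit 537160239) (nat_lit 15) (nat_lit 5) (nat_lit 18) (nat_lit 3) (nat_lit 19) (nat_lit 5) (nat_lit 210) (nat_lit 209) (nat_lit 181)) (XT.lf (nat_lit 76) (nat_lit 2781015554) (nat_lit 0) (nat_lit 10182700031) (nat_lit 304) (nat_lit 3946643511) (nat_lit 16) (nat_lit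 5) (nat_lit 15) (nat_lit 5) (nat_lit 19) (nat_lit 5) (nat_lit 211) (nat_lit 209) (nat_lit 180)))) (XT.nd (nat_lit 156) (nat_lit 228) (nat_lit 0) (XT.nd (nat_lit 78) (nat_lit 0) (nat_lit 76) (XT.lf (nat_lit 76) (nat_lit 10711826766) (nat_lit 0) (nat_lit 4169420812) (nat_lit 304) (nat_lit 3348537071) (nat_lit 16) (nat_lit 5) (nat_lit 15) (nat_lit 5) (nat_lit 19) (nat_lit 5) (nat_lit 212) (nat_lit 209) (nat_lit 179)) (XT.lf (nat_lit 0) (nat_lit 17166390304) (nat_lit 228) (nat_lit 60075973) (nat_lit 76) (nat_lit 2509241278) (nat_lit 16) (nat_lit 5) (nat_lit 19) (nat_lit 5) (nat_lit 17) (nat_lit 5) (nat_lit 213) (nat_lit 209) (nat_lit 178))) (XT.nd (nat_lit 78) (nat_lit 76) (nat_lit 0) (XT.lf (nat_lit 0) (nat_lit 9100754954) (nat_lit 228) (nat_lit 11239615431) (nat_lit 304) (nat_lit 1045743543) (nat_lit 13) (nat_lit 5) (nat_lit 16) (nat_lit 5) (nat_lit 17) (nat_lit 5) (nat_lit 214) (nat_lit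 209) (nat_lit 177)) (XT.lf (nat_lit 0) (nat_lit 618525454) (nat_lit 304) (nat_lit 3699844763) (nat_lit 76) (nat_lit 18965448741) (nat_lit 12) (nat_lit 5) (nat_lit 16) (nat_lit 5) (nat_lit 13) (nat_lit 5) (nat_lit 215) (nat_lit 209) (nat_lit 176)))))) (XT.nd (nat_lit 546) (nat_lit 228) (nat_lit 0) (XT.nd (nat_lit 234) (nat_lit 76) (nat_lit 0) (XT.nd (nat_lit 78) (nat_lit 152) (nat_lit 0) (XT.lf (nat_lit 0) (nat_lit 2844303220) (nat_lit 228) (nat_lit 18893263795) (nat_lit 76) (nat_lit 3658635230) (nat_lit 10) (nat_lit 5) (nat_lit 13) (nat_lit 5) (nat_lit 11) (nat_lit 5) (nat_lit 216) (nat_lit 209) (nat_lit 175)) (XT.nd (nat_lit 78) (nat_lit 152) (nat_lit 0) (XT.lf (nat_lit 0) (nat_lit 5789749664) (nat_lit 228) (nat_lit 9387208902) (nat_lit 76) (nat_lit 12590902848) (nat_lit 10) (nat_lit 5) (nat_lit 13) (nat_lit 5) (nat_lit 11) (nat_lit 5) (nat_lit 217) (nat_lit 209) (nat_lit 174)) (XT.lf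 (nat_lit 0) (nat_lit 1669105139) (nat_lit 152) (nat_lit 7557504445) (nat_lit 228) (nat_lit 21261471433) (nat_lit 8) (nat_lit 5) (nat_lit 10) (nat_lit 5) (nat_lit 11) (nat_lit 5) (nat_lit 218) (nat_lit 209) (nat_lit 173)))) (XT.nd (nat_lit 156) (nat_lit 76) (nat_lit 0) (XT.nd (nat_lit 78) (nat_lit 0) (nat_lit 0) (XT.lf (nat_lit 0) (nat_lit 13724805030) (nat_lit 228) (nat_lit 18202960510) (nat_lit 76) (nat_lit 1606915333) (nat_lit 8) (nat_lit 5) (nat_lit 11) (nat_lit 5) (nat_lit 9) (nat_lit 4) (nat_lit 219) (nat_lit 209) (nat_lit 172)) (XT.lf (nat_lit 0) (nat_lit 19241831906) (nat_lit 228) (nat_lit 6376888630) (nat_lit 76) (nat_lit 11368124672) (nat_lit 8) (nat_lit 5) (nat_lit 11) (nat_lit 5) (nat_lit 9) (nat_lit 4) (nat_lit 220) (nat_lit 209) (nat_lit 171))) (XT.nd (nat_lit 78) (nat_lit 0) (nat_lit 0) (XT.lf (nat_lit 0) (nat_lit 7907543800) (nat_lit 76) (nat_lit 17992582625) (nat_lit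 152) (nat_lit 15009815788) (nat_lit 7) (nat_lit 5) (nat_lit 8) (nat_lit 5) (nat_lit 9) (nat_lit 4) (nat_lit 221) (nat_lit 209) (nat_lit 170)) (XT.lf (nat_lit 0) (nat_lit 25032669889) (nat_lit 76) (nat_lit 8845129251) (nat_lit 152) (nat_lit 11495753056) (nat_lit 7) (nat_lit 5) (nat_lit 8) (nat_lit 5) (nat_lit 9) (nat_lit 4) (nat_lit 222) (nat_lit 209) (nat_lit 169))))) (XT.nd (nat_lit 312) (nat_lit 76) (nat_lit 0) (XT.nd (nat_lit 156) (nat_lit 76) (nat_lit 0) (XT.nd (nat_lit 78) (nat_lit 76) (nat_lit 0) (XT.lf (nat_lit 0) (nat_lit 43110197460) (nat_lit 152) (nat_lit 5867256010) (nat_lit 0) (nat_lit 1520663811) (nat_lit 7) (nat_lit 5) (nat_lit 9) (nat_lit 4) (nat_lit 7) (nat_lit 4) (nat_lit 223) (nat_lit 209) (nat_lit 168)) (XT.lf (nat_lit 0) (nat_lit 11351328635) (nat_lit 76) (nat_lit 43257566200) (nat_lit 76) (nat_lit 1650364927) (nat_lit 6) (nat_lit 4) (nat_lit 7) (nat_lit 5) (nat_lit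 7) (nat_lit 4) (nat_lit 224) (nat_lit 209) (nat_lit 167))) (XT.nd (nat_lit 78) (nat_lit 0) (nat_lit 0) (XT.lf (nat_lit 0) (nat_lit 4818989713) (nat_lit 152) (nat_lit 31261736541) (nat_lit 76) (nat_lit 26726449212) (nat_lit 5) (nat_lit 5) (nat_lit 7) (nat_lit 5) (nat_lit 6) (nat_lit 4) (nat_lit 225) (nat_lit 209) (nat_lit 166)) (XT.lf (nat_lit 0) (nat_lit 12081393646) (nat_lit 152) (nat_lit 15660927348) (nat_lit 76) (nat_lit 42584498766) (nat_lit 5) (nat_lit 5) (nat_lit 7) (nat_lit 5) (nat_lit 6) (nat_lit 4) (nat_lit 226) (nat_lit 209) (nat_lit 165)))) (XT.nd (nat_lit 156) (nat_lit 0) (nat_lit 0) (XT.nd (nat_lit 78) (nat_lit 0) (nat_lit 0) (XT.lf (nat_lit 0) (nat_lit 2489719843) (nat_lit 76) (nat_lit 18039238426) (nat_lit 152) (nat_lit 58431144466) (nat_lit 4) (nat_lit 5) (nat_lit 5) (nat_lit 5) (nat_lit 6) (nat_lit 4) (nat_lit 227) (nat_lit 209) (nat_lit 164)) (XT.lf (nat_lit 0) (nat_lit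 25111645853) (nat_lit 76) (nat_lit 5943836849) (nat_lit 152) (nat_lit 57711175645) (nat_lit 4) (nat_lit 5) (nat_lit 5) (nat_lit 5) (nat_lit 6) (nat_lit 4) (nat_lit 228) (nat_lit 209) (nat_lit 163))) (XT.nd (nat_lit 78) (nat_lit 0) (nat_lit 0) (XT.lf (nat_lit 0) (nat_lit 43484745382) (nat_lit 152) (nat_lit 49257864209) (nat_lit 0) (nat_lit 7253070695) (nat_lit 4) (nat_lit 5) (nat_lit 6) (nat_lit 4) (nat_lit 4) (nat_lit 4) (nat_lit 229) (nat_lit 209) (nat_lit 162)) (XT.lf (nat_lit 0) (nat_lit 58056141388) (nat_lit 152) (nat_lit 32993468552) (nat_lit 0) (nat_lit 21817824786) (nat_lit 4) (nat_lit 5) (nat_lit 6) (nat_lit 4) (nat_lit 4) (nat_lit 4) (nat_lit 230) (nat_lit 209) (nat_lit 161))))))))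
noncomputable def xc36 : XT := (XT.nd (nat_lit 2262) (nat_lit 0) (nat_lit 0) (XT.nd (nat_lit 1092) (nat_lit 0) (nat_lit 0) (XT.nd (nat_lit 546) (nat_lit 152) (nat_lit 0) (XT.nd (nat_lit 234) (nat_lit 0) (nat_lit 0) (XT.nd (nat_lit 78) (nat_lit 76) (nat_lit 0) (XT.lf (nat_lit 0) (nat_lit 74808641642) (nat_lit 152) (nat_lit 14297487479) (nat_lit 0) (nat_lit 38564549463) (nat_lit 4) (nat_lit 5) (nat_lit 6) (nat_lit 4) (nat_lit 4) (nat_lit 4) (nat_lit 231) (nat_lit 209) (nat_lit 160)) (XT.nd (nat_lit 78) (nat_lit 0) (nat_lit 0) (XT.lf (nat_lit 0) (nat_lit 7899102687) (nat_lit 76) (nat_lit 86497994764) (nat_lit 76) (nat_lit 50248880343) (nat_lit 3) (nat_lit 4) (nat_lit 4) (nat_lit 5) (nat_lit 4) (nat_lit 4) (nat_lit 232) (nat_lit 209) (nat_lit 159)) (XT.lf (nat_lit 0) (nat_lit 35025322323) (nat_lit 76) (nat_lit 82642108313) (nat_lit 76) (nat_lit 46388626725) (nat_lit 3) (nat_lit 4) (nat_lit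 4) (nat_lit 5) (nat_lit 4) (nat_lit 4) (nat_lit 233) (nat_lit 209) (nat_lit 158)))) (XT.nd (nat_lit 156) (nat_lit 0) (nat_lit 0) (XT.nd (nat_lit 78) (nat_lit 0) (nat_lit 0) (XT.lf (nat_lit 0) (nat_lit 66214647354) (nat_lit 76) (nat_lit 78210397176) (nat_lit 76) (nat_lit 41953118052) (nat_lit 3) (nat_lit 4) (nat_lit 4) (nat_lit 5) (nat_lit 4) (nat_lit 4) (nat_lit 234) (nat_lit 209) (nat_lit 157)) (XT.lf (nat_lit 0) (nat_lit 102077303705) (nat_lit 76) (nat_lit 73116153961) (nat_lit 76) (nat_lit 36855572632) (nat_lit 3) (nat_lit 4) (nat_lit 4) (nat_lit 5) (nat_lit 4) (nat_lit 4) (nat_lit 235) (nat_lit 209) (nat_lit 156))) (XT.nd (nat_lit 78) (nat_lit 0) (nat_lit 0) (XT.lf (nat_lit 0) (nat_lit 143314952042) (nat_lit 76) (nat_lit 67259708692) (nat_lit 76) (nat_lit 30996255880) (nat_lit 3) (nat_lit 4) (nat_lit 4) (nat_lit 5) (nat_lit 4) (nat_lit 4) (nat_lit 236) (nat_lit 209) (nat_lit 155))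 (XT.lf (nat_lit 0) (nat_lit 190734415921) (nat_lit 76) (nat_lit 60526478745) (nat_lit 76) (nat_lit 24260528991) (nat_lit 3) (nat_lit 4) (nat_lit 4) (nat_lit 5) (nat_lit 4) (nat_lit 4) (nat_lit 237) (nat_lit 209) (nat_lit 154))))) (XT.nd (nat_lit 234) (nat_lit 76) (nat_lit 0) (XT.nd (nat_lit 78) (nat_lit 76) (nat_lit 0) (XT.lf (nat_lit 0) (nat_lit 245263467461) (nat_lit 76) (nat_lit 52784727011) (nat_lit 76) (nat_lit 16516606004) (nat_lit 3) (nat_lit 4) (nat_lit 4) (nat_lit 5) (nat_lit 4) (nat_lit 4) (nat_lit 238) (nat_lit 209) (nat_lit 153)) (XT.nd (nat_lit 78) (nat_lit 76) (nat_lit 0) (XT.lf (nat_lit 0) (nat_lit 307968979410) (nat_lit 76) (nat_lit 43882984436) (nat_lit 76) (nat_lit 7612975382) (nat_lit 3) (nat_lit 4) (nat_lit 4) (nat_lit 5) (nat_lit 4) (nat_lit 4) (nat_lit 239) (nat_lit 209) (nat_lit 152)) (XT.lf (nat_lit 0) (nat_lit 2390907476) (nat_lit 152) (nat_lit 31131199759)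 (nat_lit 76) (nat_lit 377561912009) (nat_lit 2) (nat_lit 5) (nat_lit 4) (nat_lit 5) (nat_lit 3) (nat_lit 4) (nat_lit 240) (nat_lit 209) (nat_lit 151)))) (XT.nd (nat_lit 156) (nat_lit 0) (nat_lit 0) (XT.nd (nat_lit 78) (nat_lit 76) (nat_lit 0) (XT.lf (nat_lit 0) (nat_lit 13114653540) (nat_lit 152) (nat_lit 8076573356) (nat_lit 76) (nat_lit 449200557929) (nat_lit 2) (nat_lit 5) (nat_lit 4) (nat_lit 5) (nat_lit 3) (nat_lit 4) (nat_lit 241) (nat_lit 209) (nat_lit 150)) (XT.lf (nat_lit 0) (nat_lit 20235751799) (nat_lit 76) (nat_lit 6048002474) (nat_lit 152) (nat_lit 512186448688) (nat_lit 1) (nat_lit 5) (nat_lit 2) (nat_lit 5) (nat_lit 3) (nat_lit 4) (nat_lit 242) (nat_lit 209) (nat_lit 149))) (XT.nd (nat_lit 78) (nat_lit 0) (nat_lit 0) (XT.lf (nat_lit 0) (nat_lit 42340084123) (nat_lit 152) (nat_lit 563487267291) (nat_lit 0) (nat_lit 10796258569) (nat_lit 1) (nat_lit 5) (nat_lit 3) (nat_lit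 4) (nat_lit 1) (nat_lit 4) (nat_lit 243) (nat_lit 209) (nat_lit 148)) (XT.lf (nat_lit 0) (nat_lit 61091910893) (nat_lit 152) (nat_lit 615817795977) (nat_lit 0) (nat_lit 29547269085) (nat_lit 1) (nat_lit 5) (nat_lit 3) (nat_lit 4) (nat_lit 1) (nat_lit 4) (nat_lit 244) (nat_lit 209) (nat_lit 147)))))) (XT.nd (nat_lit 546) (nat_lit 0) (nat_lit 0) (XT.nd (nat_lit 234) (nat_lit 0) (nat_lit 0) (XT.nd (nat_lit 78) (nat_lit 0) (nat_lit 0) (XT.lf (nat_lit 0) (nat_lit 82655683267) (nat_lit 152) (nat_lit 675999460506) (nat_lit 0) (nat_lit 51110331673) (nat_lit 1) (nat_lit 5) (nat_lit 3) (nat_lit 4) (nat_lit 1) (nat_lit 4) (nat_lit 245) (nat_lit 209) (nat_lit 146)) (XT.nd (nat_lit 78) (nat_lit 0) (nat_lit 0) (XT.lf (nat_lit 0) (nat_lit 107453301139) (nat_lit 152) (nat_lit 745209728227) (nat_lit 0) (nat_lit 75907332339) (nat_lit 1) (nat_lit 5) (nat_lit 3) (nat_lit 4) (nat_lit 1) (nat_lit 4) (nat_lit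 246) (nat_lit 209) (nat_lit 145)) (XT.lf (nat_lit 0) (nat_lit 135969935293) (nat_lit 152) (nat_lit 824802713074) (nat_lit 0) (nat_lit 104423429792) (nat_lit 1) (nat_lit 5) (nat_lit 3) (nat_lit 4) (nat_lit 1) (nat_lit 4) (nat_lit 247) (nat_lit 209) (nat_lit 144)))) (XT.nd (nat_lit 156) (nat_lit 0) (nat_lit 0) (XT.nd (nat_lit 78) (nat_lit 0) (nat_lit 0) (XT.lf (nat_lit 0) (nat_lit 168763519876) (nat_lit 152) (nat_lit 916335669099) (nat_lit 0) (nat_lit 137216547679) (nat_lit 1) (nat_lit 5) (nat_lit 3) (nat_lit 4) (nat_lit 1) (nat_lit 4) (nat_lit 248) (nat_lit 209) (nat_lit 143)) (XT.lf (nat_lit 0) (nat_lit 206475668499) (nat_lit 152) (nat_lit 1021599458485) (nat_lit 0) (nat_lit 174928290479) (nat_lit 1) (nat_lit 5) (nat_lit 3) (nat_lit 4) (nat_lit 1) (nat_lit 4) (nat_lit 249) (nat_lit 209) (nat_lit 142))) (XT.nd (nat_lit 78) (nat_lit 0) (nat_lit 0) (XT.lf (nat_lit 0) (nat_lit 249844227548)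 (nat_lit 152) (nat_lit 1142653590153) (nat_lit 0) (nat_lit 218296496638) (nat_lit 1) (nat_lit 5) (nat_lit 3) (nat_lit 4) (nat_lit 1) (nat_lit 4) (nat_lit 250) (nat_lit 209) (nat_lit 141)) (XT.lf (nat_lit 0) (nat_lit 299717712308) (nat_lit 152) (nat_lit 1281866514508) (nat_lit 0) (nat_lit 268169674539) (nat_lit 1) (nat_lit 5) (nat_lit 3) (nat_lit 4) (nat_lit 1) (nat_lit 4) (nat_lit 251) (nat_lit 209) (nat_lit 140))))) (XT.nd (nat_lit 312) (nat_lit 0) (nat_lit 0) (XT.nd (nat_lit 156) (nat_lit 0) (nat_lit 0) (XT.nd (nat_lit 78) (nat_lit 0) (nat_lit 0) (XT.lf (nat_lit 0) (nat_lit 357071908353) (nat_lit 152) (nat_lit 1441961962676) (nat_lit 0) (nat_lit 325523603748) (nat_lit 1) (nat_lit 5) (nat_lit 3) (nat_lit 4) (nat_lit 1) (nat_lit 4) (nat_lit 252) (nat_lit 209) (nat_lit 139)) (XT.lf (nat_lit 0) (nat_lit 423028962994) (nat_lit 152) (nat_lit 1626072236905) (nat_lit 0) (nat_lit 391480426359)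 (nat_lit 1) (nat_lit 5) (nat_lit 3) (nat_lit 4) (nat_lit 1) (nat_lit 4) (nat_lit 253) (nat_lit 209) (nat_lit 138))) (XT.nd (nat_lit 78) (nat_lit 0) (nat_lit 0) (XT.lf (nat_lit 0) (nat_lit 498879340345) (nat_lit 152) (nat_lit 1837799494735) (nat_lit 0) (nat_lit 467330601944) (nat_lit 1) (nat_lit 5) (nat_lit 3) (nat_lit 4) (nat_lit 1) (nat_lit 4) (nat_lit 254) (nat_lit 209) (nat_lit 137)) (XT.lf (nat_lit 0) (nat_lit 586107069528) (nat_lit 152) (nat_lit 2081286225991) (nat_lit 0) (nat_lit 554558155679) (nat_lit 1) (nat_lit 5) (nat_lit 3) (nat_lit 4) (nat_lit 1) (nat_lit 4) (nat_lit 255) (nat_lit 209) (nat_lit 136)))) (XT.nd (nat_lit 156) (nat_lit 0) (nat_lit 0) (XT.nd (nat_lit 78) (nat_lit 0) (nat_lit 0) (XT.lf (nat_lit 0) (nat_lit 686418780027) (nat_lit 152) (nat_lit 2361296301505) (nat_lit 0) (nat_lit 654869713614) (nat_lit 1) (nat_lit 5) (nat_lit 3) (nat_lit 4) (nat_lit 1) (nat_lit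 4) (nat_lit 256) (nat_lit 209) (nat_lit 135)) (XT.lf (nat_lit 0) (nat_lit 801777092265) (nat_lit 152) (nat_lit 2683308179273) (nat_lit 0) (nat_lit 770227893187) (nat_lit 1) (nat_lit 5) (nat_lit 3) (nat_lit 4) (nat_lit 1) (nat_lit 4) (nat_lit 257) (nat_lit 209) (nat_lit 134))) (XT.nd (nat_lit 78) (nat_lit 0) (nat_lit 0) (XT.lf (nat_lit 0) (nat_lit 934439016698) (nat_lit 152) (nat_lit 3053622091688) (nat_lit 0) (nat_lit 902889702260) (nat_lit 1) (nat_lit 5) (nat_lit 3) (nat_lit 4) (nat_lit 1) (nat_lit 4) (nat_lit 258) (nat_lit 209) (nat_lit 133)) (XT.lf (nat_lit 0) (nat_lit 1087000112718) (nat_lit 152) (nat_lit 3479483310949) (nat_lit 0) (nat_lit 1055450697967) (nat_lit 1) (nat_lit 5) (nat_lit 3) (nat_lit 4) (nat_lit 1) (nat_lit 4) (nat_lit 259) (nat_lit 209) (nat_lit 132))))))) (XT.nd (nat_lit 1170) (nat_lit 0) (nat_lit 0) (XT.nd (nat_lit 546) (nat_lit 0) (nat_lit 0) (XT.nd (nat_lit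 234) (nat_lit 0) (nat_lit 0) (XT.nd (nat_lit 78) (nat_lit 0) (nat_lit 0) (XT.lf (nat_lit 0) (nat_lit 1262445271333) (nat_lit 152) (nat_lit 3969223904389) (nat_lit 0) (nat_lit 1230895769353) (nat_lit 1) (nat_lit 5) (nat_lit 3) (nat_lit 4) (nat_lit 1) (nat_lit 4) (nat_lit 260) (nat_lit 209) (nat_lit 131)) (XT.nd (nat_lit 78) (nat_lit 0) (nat_lit 0) (XT.lf (nat_lit 0) (nat_lit 1464207115213) (nat_lit 152) (nat_lit 4532425753185) (nat_lit 0) (nat_lit 1432657537382) (nat_lit 1) (nat_lit 5) (nat_lit 3) (nat_lit 4) (nat_lit 1) (nat_lit 4) (nat_lit 261) (nat_lit 209) (nat_lit 130)) (XT.lf (nat_lit 0) (nat_lit 1696233158693) (nat_lit 152) (nat_lit 5180108023943) (nat_lit 0) (nat_lit 1664683514905) (nat_lit 1) (nat_lit 5) (nat_lit 3) (nat_lit 4) (nat_lit 1) (nat_lit 4) (nat_lit 262) (nat_lit 209) (nat_lit 129)))) (XT.nd (nat_lit 156) (nat_lit 0) (nat_lit 0) (XT.nd (nat_lit 78) (nat_lit 0) (nat_lit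 0) (XT.lf (nat_lit 0) (nat_lit 1963063041756) (nat_lit 152) (nat_lit 5924942761091) (nat_lit 0) (nat_lit 1931513340613) (nat_lit 1) (nat_lit 5) (nat_lit 3) (nat_lit 4) (nat_lit 1) (nat_lit 4) (nat_lit 263) (nat_lit 209) (nat_lit 128)) (XT.lf (nat_lit 0) (nat_lit 2269917349070) (nat_lit 152) (nat_lit 6781502818182) (nat_lit 0) (nat_lit 2238367598053) (nat_lit 1) (nat_lit 5) (nat_lit 3) (nat_lit 4) (nat_lit 1) (nat_lit 4) (nat_lit 264) (nat_lit 209) (nat_lit 127))) (XT.nd (nat_lit 78) (nat_lit 0) (nat_lit 0) (XT.lf (nat_lit 0) (nat_lit 2622799751864) (nat_lit 152) (nat_lit 7766546978941) (nat_lit 0) (nat_lit 2591249957480) (nat_lit 1) (nat_lit 5) (nat_lit 3) (nat_lit 4) (nat_lit 1) (nat_lit 4) (nat_lit 265) (nat_lit 209) (nat_lit 126)) (XT.lf (nat_lit 0) (nat_lit 3028614471064) (nat_lit 152) (nat_lit 8899347846515) (nat_lit 0) (nat_lit 2997064638968) (nat_lit 1) (nat_lit 5) (nat_lit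 3) (nat_lit 4) (nat_lit 1) (nat_lit 4) (nat_lit 266) (nat_lit 209) (nat_lit 125))))) (XT.nd (nat_lit 312) (nat_lit 0) (nat_lit 0) (XT.nd (nat_lit 156) (nat_lit 0) (nat_lit 0) (XT.nd (nat_lit 78) (nat_lit 0) (nat_lit 0) (XT.lf (nat_lit 0) (nat_lit 3495301359870) (nat_lit 152) (nat_lit 10202068916137) (nat_lit 0) (nat_lit 3463751494981) (nat_lit 1) (nat_lit 5) (nat_lit 3) (nat_lit 4) (nat_lit 1) (nat_lit 4) (nat_lit 267) (nat_lit 209) (nat_lit 124)) (XT.lf (nat_lit 0) (nat_lit 4031991248716) (nat_lit 152) (nat_lit 11700198208736) (nat_lit 0) (nat_lit 4000441355312) (nat_lit 1) (nat_lit 5) (nat_lit 3) (nat_lit 4) (nat_lit 1) (nat_lit 4) (nat_lit 268) (nat_lit 209) (nat_lit 123))) (XT.nd (nat_lit 78) (nat_lit 0) (nat_lit 0) (XT.lf (nat_lit 0) (nat_lit 4649184591949) (nat_lit 152) (nat_lit 13423046949602) (nat_lit 0) (nat_lit 4617634673750) (nat_lit 1) (nat_lit 5) (nat_lit 3) (nat_lit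 4) (nat_lit 1) (nat_lit 4) (nat_lit 269) (nat_lit 209) (nat_lit 122)) (XT.lf (nat_lit 0) (nat_lit 5358956911502) (nat_lit 152) (nat_lit 15404323048882) (nat_lit 0) (nat_lit 5327406971741) (nat_lit 1) (nat_lit 5) (nat_lit 3) (nat_lit 4) (nat_lit 1) (nat_lit 4) (nat_lit 270) (nat_lit 209) (nat_lit 121)))) (XT.nd (nat_lit 156) (nat_lit 0) (nat_lit 0) (XT.nd (nat_lit 78) (nat_lit 0) (nat_lit 0) (XT.lf (nat_lit 0) (nat_lit 6175195057105) (nat_lit 152) (nat_lit 17682790604169) (nat_lit 0) (nat_lit 6143645098595) (nat_lit 1) (nat_lit 5) (nat_lit 3) (nat_lit 4) (nat_lit 1) (nat_lit 4) (nat_lit 271) (nat_lit 209) (nat_lit 120)) (XT.lf (nat_lit 0) (nat_lit 7113868905520) (nat_lit 152) (nat_lit 20303028328504) (nat_lit 0) (nat_lit 7082318930706) (nat_lit 1) (nat_lit 5) (nat_lit 3) (nat_lit 4) (nat_lit 1) (nat_lit 4) (nat_lit 272) (nat_lit 209) (nat_lit 119))) (XT.nd (nat_lit 78) (nat_lit 0)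 (nat_lit 0) (XT.lf (nat_lit 0) (nat_lit 8193343814651) (nat_lit 152) (nat_lit 23316301742579) (nat_lit 0) (nat_lit 8161793825660) (nat_lit 1) (nat_lit 5) (nat_lit 3) (nat_lit 4) (nat_lit 1) (nat_lit 4) (nat_lit 273) (nat_lit 209) (nat_lit 118)) (XT.lf (nat_lit 0) (nat_lit 9434739945763) (nat_lit 152) (nat_lit 26781566195800) (nat_lit 0) (nat_lit 9403189944444) (nat_lit 1) (nat_lit 5) (nat_lit 3) (nat_lit 4) (nat_lit 1) (nat_lit 4) (nat_lit 274) (nat_lit 209) (nat_lit 117)))))) (XT.nd (nat_lit 26520) (nat_lit 0) (nat_lit 532) (XT.nd (nat_lit 26208) (nat_lit 0) (nat_lit 1064) (XT.nd (nat_lit 78) (nat_lit 0) (nat_lit 0) (XT.lf (nat_lit 0) (nat_lit 10862345484031) (nat_lit 152) (nat_lit 30766620340512) (nat_lit 0) (nat_lit 10830795471992) (nat_lit 1) (nat_lit 5) (nat_lit 3) (nat_lit 4) (nat_lit 1) (nat_lit 4) (nat_lit 275) (nat_lit 209) (nat_lit 116)) (XT.nd (nat_lit 78) (nat_lit 0) (nat_lit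 0) (XT.lf (nat_lit 0) (nat_lit 12504091842159) (nat_lit 152) (nat_lit 35349432627373) (nat_lit 0) (nat_lit 12472541820798) (nat_lit 1) (nat_lit 5) (nat_lit 3) (nat_lit 4) (nat_lit 1) (nat_lit 4) (nat_lit 276) (nat_lit 209) (nat_lit 115)) (XT.lf (nat_lit 0) (nat_lit 14392100144545) (nat_lit 152) (nat_lit 40619666775040) (nat_lit 0) (nat_lit 14360550115078) (nat_lit 1) (nat_lit 5) (nat_lit 3) (nat_lit 4) (nat_lit 1) (nat_lit 4) (nat_lit 277) (nat_lit 209) (nat_lit 114)))) (XT.nd (nat_lit 156) (nat_lit 0) (nat_lit 0) (XT.nd (nat_lit 78) (nat_lit 0) (nat_lit 0) (XT.lf (nat_lit 0) (nat_lit 3104374470) (nat_lit 0) (nat_lit 3104374470) (nat_lit 228) (nat_lit 2196142157) (nat_lit 15) (nat_lit 5) (nat_lit 15) (nat_lit 3) (nat_lit 18) (nat_lit 3) (nat_lit 210) (nat_lit 210) (nat_lit 180)) (XT.lf (nat_lit 0) (nat_lit 13557621146) (nat_lit 228) (nat_lit 4050757098) (nat_lit 304) (nat_lit 427554821)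 (nat_lit 15) (nat_lit 5) (nat_lit 18) (nat_lit 3) (nat_lit 19) (nat_lit 5) (nat_lit 211) (nat_lit 210) (nat_lit 179))) (XT.nd (nat_lit 78) (nat_lit 0) (nat_lit 0) (XT.lf (nat_lit 76) (nat_lit 3472341324) (nat_lit 0) (nat_lit 11802837428) (nat_lit 304) (nat_lit 4110446099) (nat_lit 16) (nat_lit 5) (nat_lit 15) (nat_lit 5) (nat_lit 19) (nat_lit 5) (nat_lit 212) (nat_lit 210) (nat_lit 178)) (XT.lf (nat_lit 76) (nat_lit 12557012465) (nat_lit 0) (nat_lit 4875470797) (nat_lit 304) (nat_lit 3478475076) (nat_lit 16) (nat_lit 5) (nat_lit 15) (nat_lit 5) (nat_lit 19) (nat_lit 5) (nat_lit 213) (nat_lit 210) (nat_lit 177))))) (XT.nd (nat_lit 312) (nat_lit 152) (nat_lit 0) (XT.nd (nat_lit 156) (nat_lit 228) (nat_lit 0) (XT.nd (nat_lit 78) (nat_lit 0) (nat_lit 0) (XT.lf (nat_lit 0) (nat_lit 205794479) (nat_lit 228) (nat_lit 19818605922) (nat_lit 304) (nat_lit 2624477968) (nat_lit 13) (nat_lit 5)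 (nat_lit 16) (nat_lit 5) (nat_lit 17) (nat_lit 5) (nat_lit 214) (nat_lit 210) (nat_lit 176)) (XT.lf (nat_lit 0) (nat_lit 10710766953) (nat_lit 228) (nat_lit 12929521500) (nat_lit 304) (nat_lit 912302243) (nat_lit 13) (nat_lit 5) (nat_lit 16) (nat_lit 5) (nat_lit 17) (nat_lit 5) (nat_lit 215) (nat_lit 210) (nat_lit 175))) (XT.nd (nat_lit 78) (nat_lit 152) (nat_lit 0) (XT.lf (nat_lit 0) (nat_lit 941267808) (nat_lit 304) (nat_lit 4016283864) (nat_lit 76) (nat_lit 21781237136) (nat_lit 12) (nat_lit 5) (nat_lit 16) (nat_lit 5) (nat_lit 13) (nat_lit 5) (nat_lit 216) (nat_lit 210) (nat_lit 174)) (XT.lf (nat_lit 0) (nat_lit 3481103055) (nat_lit 228) (nat_lit 21466203553) (nat_lit 76) (nat_lit 4224099809) (nat_lit 10) (nat_lit 5) (nat_lit 13) (nat_lit 5) (nat_lit 11) (nat_lit 5) (nat_lit 217) (nat_lit 210) (nat_lit 173)))) (XT.nd (nat_lit 156) (nat_lit 0) (nat_lit 0) (XT.nd (nat_lit 78) (nat_lit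 152) (nat_lit 0) (XT.lf (nat_lit 0) (nat_lit 6840955028) (nat_lit 228) (nat_lit 10568290401) (nat_lit 76) (nat_lit 14494033314) (nat_lit 10) (nat_lit 5) (nat_lit 13) (nat_lit 5) (nat_lit 11) (nat_lit 5) (nat_lit 218) (nat_lit 210) (nat_lit 172)) (XT.lf (nat_lit 0) (nat_lit 2136152572) (nat_lit 152) (nat_lit 8642327657) (nat_lit 228) (nat_lit 24255587193) (nat_lit 8) (nat_lit 5) (nat_lit 10) (nat_lit 5) (nat_lit 11) (nat_lit 5) (nat_lit 219) (nat_lit 210) (nat_lit 171))) (XT.nd (nat_lit 78) (nat_lit 0) (nat_lit 0) (XT.lf (nat_lit 0) (nat_lit 15931264927) (nat_lit 228) (nat_lit 20723068409) (nat_lit 76) (nat_lit 1886611522) (nat_lit 8) (nat_lit 5) (nat_lit 11) (nat_lit 5) (nat_lit 9) (nat_lit 4) (nat_lit 220) (nat_lit 210) (nat_lit 170)) (XT.lf (nat_lit 0) (nat_lit 22256575511) (nat_lit 228) (nat_lit 7150520901) (nat_lit 76) (nat_lit 13106959799) (nat_lit 8) (nat_lit 5) (nat_lit 11)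 (nat_lit 5) (nat_lit 9) (nat_lit 4) (nat_lit 221) (nat_lit 210) (nat_lit 169))))))))
noncomputable def xc37 : XT := (XT.nd (nat_lit 2340) (nat_lit 0) (nat_lit 0) (XT.nd (nat_lit 1170) (nat_lit 152) (nat_lit 0) (XT.nd (nat_lit 546) (nat_lit 76) (nat_lit 0) (XT.nd (nat_lit 234) (nat_lit 228) (nat_lit 0) (XT.nd (nat_lit 78) (nat_lit 0) (nat_lit 0) (XT.lf (nat_lit 0) (nat_lit 9268262711) (nat_lit 76) (nat_lit 20635823984) (nat_lit 152) (nat_lit 17123161779) (nat_lit 7) (nat_lit 5) (nat_lit 8) (nat_lit 5) (nat_lit 9) (nat_lit 4) (nat_lit 222) (nat_lit 210) (nat_lit 168)) (XT.nd (nat_lit 78) (nat_lit 0) (nat_lit 0) (XT.lf (nat_lit 0) (nat_lit 28939385451) (nat_lit 76) (nat_lit 10123510782) (nat_lit 152) (nat_lit 13100006121) (nat_lit 7) (nat_lit 5) (nat_lit 8) (nat_lit 5) (nat_lit 9) (nat_lit 4) (nat_lit 223) (nat_lit 210) (nat_lit 167)) (XT.lf (nat_lit 0) (nat_lit 49668406088) (nat_lit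 152) (nat_lit 6602566923) (nat_lit 0) (nat_lit 1787093847) (nat_lit 7) (nat_lit 5) (nat_lit 9) (nat_lit 4) (nat_lit 7) (nat_lit 4) (nat_lit 224) (nat_lit 210) (nat_lit 166)))) (XT.nd (nat_lit 156) (nat_lit 76) (nat_lit 0) (XT.nd (nat_lit 78) (nat_lit 76) (nat_lit 0) (XT.lf (nat_lit 0) (nat_lit 13192224623) (nat_lit 76) (nat_lit 49693447745) (nat_lit 76) (nat_lit 1798776242) (nat_lit 6) (nat_lit 4) (nat_lit 7) (nat_lit 5) (nat_lit 7) (nat_lit 4) (nat_lit 225) (nat_lit 210) (nat_lit 165)) (XT.lf (nat_lit 0) (nat_lit 5620374684) (nat_lit 152) (nat_lit 35822482681) (nat_lit 76) (nat_lit 30772945800) (nat_lit 5) (nat_lit 5) (nat_lit 7) (nat_lit 5) (nat_lit 6) (nat_lit 4) (nat_lit 226) (nat_lit 210) (nat_lit 164))) (XT.nd (nat_lit 78) (nat_lit 76) (nat_lit 0) (XT.lf (nat_lit 0) (nat_lit 13961895313) (nat_lit 152) (nat_lit 17898314850) (nat_lit 76) (nat_lit 49004807674) (nat_lit 5) (nat_lit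 5) (nat_lit 7) (nat_lit 5) (nat_lit 6) (nat_lit 4) (nat_lit 227) (nat_lit 210) (nat_lit 163)) (XT.lf (nat_lit 0) (nat_lit 2969849802) (nat_lit 76) (nat_lit 20702254154) (nat_lit 152) (nat_lit 67121938685) (nat_lit 4) (nat_lit 5) (nat_lit 5) (nat_lit 5) (nat_lit 6) (nat_lit 4) (nat_lit 228) (nat_lit 210) (nat_lit 162))))) (XT.nd (nat_lit 312) (nat_lit 76) (nat_lit 0) (XT.nd (nat_lit 156) (nat_lit 0) (nat_lit 0) (XT.nd (nat_lit 78) (nat_lit 0) (nat_lit 0) (XT.lf (nat_lit 0) (nat_lit 28971150977) (nat_lit 76) (nat_lit 6798134085) (nat_lit 152) (nat_lit 66303610730) (nat_lit 4) (nat_lit 5) (nat_lit 5) (nat_lit 5) (nat_lit 6) (nat_lit 4) (nat_lit 229) (nat_lit 210) (nat_lit 161)) (XT.lf (nat_lit 0) (nat_lit 50057042901) (nat_lit 152) (nat_lit 56559608241) (nat_lit 0) (nat_lit 8370561317) (nat_lit 4) (nat_lit 5) (nat_lit 6) (nat_lit 4) (nat_lit 4) (nat_lit 4) (nat_lit 230) (nat_lit 210)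 (nat_lit 160))) (XT.nd (nat_lit 78) (nat_lit 0) (nat_lit 0) (XT.lf (nat_lit 0) (nat_lit 66807680606) (nat_lit 152) (nat_lit 37866892662) (nat_lit 0) (nat_lit 25116176781) (nat_lit 4) (nat_lit 5) (nat_lit 6) (nat_lit 4) (nat_lit 4) (nat_lit 4) (nat_lit 231) (nat_lit 210) (nat_lit 159)) (XT.lf (nat_lit 0) (nat_lit 86067431811) (nat_lit 152) (nat_lit 16376374798) (nat_lit 0) (nat_lit 44371560818) (nat_lit 4) (nat_lit 5) (nat_lit 6) (nat_lit 4) (nat_lit 4) (nat_lit 4) (nat_lit 232) (nat_lit 210) (nat_lit 158)))) (XT.nd (nat_lit 156) (nat_lit 0) (nat_lit 0) (XT.nd (nat_lit 78) (nat_lit 0) (nat_lit 0) (XT.lf (nat_lit 0) (nat_lit 9146715902) (nat_lit 76) (nat_lit 99445147830) (nat_lit 76) (nat_lit 57745479302) (nat_lit 3) (nat_lit 4) (nat_lit 4) (nat_lit 5) (nat_lit 4) (nat_lit 4) (nat_lit 233) (nat_lit 210) (nat_lit 157)) (XT.lf (nat_lit 0) (nat_lit 40333683986) (nat_lit 76) (nat_lit 95014471388)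 (nat_lit 76) (nat_lit 53311500654) (nat_lit 3) (nat_lit 4) (nat_lit 4) (nat_lit 5) (nat_lit 4) (nat_lit 4) (nat_lit 234) (nat_lit 210) (nat_lit 156))) (XT.nd (nat_lit 78) (nat_lit 0) (nat_lit 0) (XT.lf (nat_lit 0) (nat_lit 76194290818) (nat_lit 76) (nat_lit 89921127907) (nat_lit 76) (nat_lit 48215285690) (nat_lit 3) (nat_lit 4) (nat_lit 4) (nat_lit 5) (nat_lit 4) (nat_lit 4) (nat_lit 235) (nat_lit 210) (nat_lit 155)) (XT.lf (nat_lit 0) (nat_lit 117430156965) (nat_lit 76) (nat_lit 84065465016) (nat_lit 76) (nat_lit 42357125857) (nat_lit 3) (nat_lit 4) (nat_lit 4) (nat_lit 5) (nat_lit 4) (nat_lit 4) (nat_lit 236) (nat_lit 210) (nat_lit 154)))))) (XT.nd (nat_lit 546) (nat_lit 0) (nat_lit 0) (XT.nd (nat_lit 234) (nat_lit 152) (nat_lit 0) (XT.nd (nat_lit 78) (nat_lit 0) (nat_lit 0) (XT.lf (nat_lit 0) (nat_lit 164848071114) (nat_lit 76) (nat_lit 77332915396) (nat_lit 76) (nat_lit 35622404984)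 (nat_lit 3) (nat_lit 4) (nat_lit 4) (nat_lit 5) (nat_lit 4) (nat_lit 4) (nat_lit 237) (nat_lit 210) (nat_lit 153)) (XT.nd (nat_lit 78) (nat_lit 0) (nat_lit 0) (XT.lf (nat_lit 0) (nat_lit 219375775062) (nat_lit 76) (nat_lit 69591755253) (nat_lit 76) (nat_lit 27879356794) (nat_lit 3) (nat_lit 4) (nat_lit 4) (nat_lit 5) (nat_lit 4) (nat_lit 4) (nat_lit 238) (nat_lit 210) (nat_lit 152)) (XT.lf (nat_lit 0) (nat_lit 282080115191) (nat_lit 76) (nat_lit 60690527103) (nat_lit 76) (nat_lit 18976486865) (nat_lit 3) (nat_lit 4) (nat_lit 4) (nat_lit 5) (nat_lit 4) (nat_lit 4) (nat_lit 239) (nat_lit 210) (nat_lit 151)))) (XT.nd (nat_lit 156) (nat_lit 76) (nat_lit 0) (XT.nd (nat_lit 78) (nat_lit 76) (nat_lit 0) (XT.lf (nat_lit 0) (nat_lit 354187915548) (nat_lit 76) (nat_lit 50455076484) (nat_lit 76) (nat_lit 8739608611) (nat_lit 3) (nat_lit 4) (nat_lit 4) (nat_lit 5) (nat_lit 4) (nat_lit 4) (nat_lit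 240) (nat_lit 210) (nat_lit 150)) (XT.lf (nat_lit 0) (nat_lit 2761673860) (nat_lit 152) (nat_lit 35779110493) (nat_lit 76) (nat_lit 434203946836) (nat_lit 2) (nat_lit 5) (nat_lit 4) (nat_lit 5) (nat_lit 3) (nat_lit 4) (nat_lit 241) (nat_lit 210) (nat_lit 149))) (XT.nd (nat_lit 78) (nat_lit 76) (nat_lit 0) (XT.lf (nat_lit 0) (nat_lit 15092399625) (nat_lit 152) (nat_lit 9269129595) (nat_lit 76) (nat_lit 516587379033) (nat_lit 2) (nat_lit 5) (nat_lit 4) (nat_lit 5) (nat_lit 3) (nat_lit 4) (nat_lit 242) (nat_lit 210) (nat_lit 148)) (XT.lf (nat_lit 0) (nat_lit 23289183889) (nat_lit 76) (nat_lit 6947053958) (nat_lit 152) (nat_lit 589002953504) (nat_lit 1) (nat_lit 5) (nat_lit 2) (nat_lit 5) (nat_lit 3) (nat_lit 4) (nat_lit 243) (nat_lit 210) (nat_lit 147))))) (XT.nd (nat_lit 312) (nat_lit 0) (nat_lit 0) (XT.nd (nat_lit 156) (nat_lit 0) (nat_lit 0) (XT.nd (nat_lit 78) (nat_lit 0) (nat_lit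 0) (XT.lf (nat_lit 0) (nat_lit 48700016621) (nat_lit 152) (nat_lit 647993597430) (nat_lit 0) (nat_lit 12422152500) (nat_lit 1) (nat_lit 5) (nat_lit 3) (nat_lit 4) (nat_lit 1) (nat_lit 4) (nat_lit 244) (nat_lit 210) (nat_lit 146)) (XT.lf (nat_lit 0) (nat_lit 70263453944) (nat_lit 152) (nat_lit 708175891500) (nat_lit 0) (nat_lit 33984972618) (nat_lit 1) (nat_lit 5) (nat_lit 3) (nat_lit 4) (nat_lit 1) (nat_lit 4) (nat_lit 245) (nat_lit 210) (nat_lit 145))) (XT.nd (nat_lit 78) (nat_lit 0) (nat_lit 0) (XT.lf (nat_lit 0) (nat_lit 95060780468) (nat_lit 152) (nat_lit 777386706649) (nat_lit 0) (nat_lit 58781762441) (nat_lit 1) (nat_lit 5) (nat_lit 3) (nat_lit 4) (nat_lit 1) (nat_lit 4) (nat_lit 246) (nat_lit 210) (nat_lit 144)) (XT.lf (nat_lit 0) (nat_lit 123577161276) (nat_lit 152) (nat_lit 856980167519) (nat_lit 0) (nat_lit 87297676553) (nat_lit 1) (nat_lit 5) (nat_lit 3) (nat_lit 4) (nat_lit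 1) (nat_lit 4) (nat_lit 247) (nat_lit 210) (nat_lit 143)))) (XT.nd (nat_lit 156) (nat_lit 0) (nat_lit 0) (XT.nd (nat_lit 78) (nat_lit 0) (nat_lit 0) (XT.lf (nat_lit 0) (nat_lit 156370525557) (nat_lit 152) (nat_lit 948513537478) (nat_lit 0) (nat_lit 120090635011) (nat_lit 1) (nat_lit 5) (nat_lit 3) (nat_lit 4) (nat_lit 1) (nat_lit 4) (nat_lit 248) (nat_lit 210) (nat_lit 142)) (XT.lf (nat_lit 0) (nat_lit 194082482614) (nat_lit 152) (nat_lit 1053777686805) (nat_lit 0) (nat_lit 157802239179) (nat_lit 1) (nat_lit 5) (nat_lit 3) (nat_lit 4) (nat_lit 1) (nat_lit 4) (nat_lit 249) (nat_lit 210) (nat_lit 141))) (XT.nd (nat_lit 78) (nat_lit 0) (nat_lit 0) (XT.lf (nat_lit 0) (nat_lit 237450875084) (nat_lit 152) (nat_lit 1174832131467) (nat_lit 0) (nat_lit 201170324788) (nat_lit 1) (nat_lit 5) (nat_lit 3) (nat_lit 4) (nat_lit 1) (nat_lit 4) (nat_lit 250) (nat_lit 210) (nat_lit 140)) (XT.lf (nat_lit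 0) (nat_lit 287324214993) (nat_lit 152) (nat_lit 1314045327989) (nat_lit 0) (nat_lit 251043397862) (nat_lit 1) (nat_lit 5) (nat_lit 3) (nat_lit 4) (nat_lit 1) (nat_lit 4) (nat_lit 251) (nat_lit 210) (nat_lit 139))))))) (XT.nd (nat_lit 1170) (nat_lit 0) (nat_lit 0) (XT.nd (nat_lit 546) (nat_lit 0) (nat_lit 0) (XT.nd (nat_lit 234) (nat_lit 0) (nat_lit 0) (XT.nd (nat_lit 78) (nat_lit 0) (nat_lit 0) (XT.lf (nat_lit 0) (nat_lit 344678285079) (nat_lit 152) (nat_lit 1474141012825) (nat_lit 0) (nat_lit 308397235918) (nat_lit 1) (nat_lit 5) (nat_lit 3) (nat_lit 4) (nat_lit 1) (nat_lit 4) (nat_lit 252) (nat_lit 210) (nat_lit 138)) (XT.nd (nat_lit 78) (nat_lit 0) (nat_lit 0) (XT.lf (nat_lit 0) (nat_lit 410635230192) (nat_lit 152) (nat_lit 1658251492852) (nat_lit 0) (nat_lit 374353979265) (nat_lit 1) (nat_lit 5) (nat_lit 3) (nat_lit 4) (nat_lit 1) (nat_lit 4) (nat_lit 253) (nat_lit 210) (nat_lit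 137)) (XT.lf (nat_lit 0) (nat_lit 486485512301) (nat_lit 152) (nat_lit 1869978929637) (nat_lit 0) (nat_lit 450204085926) (nat_lit 1) (nat_lit 5) (nat_lit 3) (nat_lit 4) (nat_lit 1) (nat_lit 4) (nat_lit 254) (nat_lit 210) (nat_lit 136)))) (XT.nd (nat_lit 156) (nat_lit 0) (nat_lit 0) (XT.nd (nat_lit 78) (nat_lit 0) (nat_lit 0) (XT.lf (nat_lit 0) (nat_lit 573713158665) (nat_lit 152) (nat_lit 2113465816506) (nat_lit 0) (nat_lit 537431579726) (nat_lit 1) (nat_lit 5) (nat_lit 3) (nat_lit 4) (nat_lit 1) (nat_lit 4) (nat_lit 255) (nat_lit 210) (nat_lit 135)) (XT.lf (nat_lit 0) (nat_lit 674024797147) (nat_lit 152) (nat_lit 2393476027335) (nat_lit 0) (nat_lit 637743085543) (nat_lit 1) (nat_lit 5) (nat_lit 3) (nat_lit 4) (nat_lit 1) (nat_lit 4) (nat_lit 256) (nat_lit 210) (nat_lit 134))) (XT.nd (nat_lit 78) (nat_lit 0) (nat_lit 0) (XT.lf (nat_lit 0) (nat_lit 789383046761) (nat_lit 152) (nat_lit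 2715488022769) (nat_lit 0) (nat_lit 753101219798) (nat_lit 1) (nat_lit 5) (nat_lit 3) (nat_lit 4) (nat_lit 1) (nat_lit 4) (nat_lit 257) (nat_lit 210) (nat_lit 133)) (XT.lf (nat_lit 0) (nat_lit 922044916739) (nat_lit 152) (nat_lit 3085802037502) (nat_lit 0) (nat_lit 885762989462) (nat_lit 1) (nat_lit 5) (nat_lit 3) (nat_lit 4) (nat_lit 1) (nat_lit 4) (nat_lit 258) (nat_lit 210) (nat_lit 132))))) (XT.nd (nat_lit 312) (nat_lit 0) (nat_lit 0) (XT.nd (nat_lit 156) (nat_lit 0) (nat_lit 0) (XT.nd (nat_lit 78) (nat_lit 0) (nat_lit 0) (XT.lf (nat_lit 0) (nat_lit 1074605965407) (nat_lit 152) (nat_lit 3511663345735) (nat_lit 0) (nat_lit 1038323950901) (nat_lit 1) (nat_lit 5) (nat_lit 3) (nat_lit 4) (nat_lit 1) (nat_lit 4) (nat_lit 259) (nat_lit 210) (nat_lit 131)) (XT.lf (nat_lit 0) (nat_lit 1250051082846) (nat_lit 152) (nat_lit 4001404016543) (nat_lit 0) (nat_lit 1213768992489) (nat_lit 1)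 (nat_lit 5) (nat_lit 3) (nat_lit 4) (nat_lit 1) (nat_lit 4) (nat_lit 260) (nat_lit 210) (nat_lit 130))) (XT.nd (nat_lit 78) (nat_lit 0) (nat_lit 0) (XT.lf (nat_lit 0) (nat_lit 1451812890921) (nat_lit 152) (nat_lit 4564605932614) (nat_lit 0) (nat_lit 1415530734606) (nat_lit 1) (nat_lit 5) (nat_lit 3) (nat_lit 4) (nat_lit 1) (nat_lit 4) (nat_lit 261) (nat_lit 210) (nat_lit 129)) (XT.lf (nat_lit 0) (nat_lit 1683838903267) (nat_lit 152) (nat_lit 5212288261873) (nat_lit 0) (nat_lit 1647556689598) (nat_lit 1) (nat_lit 5) (nat_lit 3) (nat_lit 4) (nat_lit 1) (nat_lit 4) (nat_lit 262) (nat_lit 210) (nat_lit 128)))) (XT.nd (nat_lit 156) (nat_lit 0) (nat_lit 0) (XT.nd (nat_lit 78) (nat_lit 0) (nat_lit 0) (XT.lf (nat_lit 0) (nat_lit 1950668759256) (nat_lit 152) (nat_lit 5957123049891) (nat_lit 0) (nat_lit 1914386495714) (nat_lit 1) (nat_lit 5) (nat_lit 3) (nat_lit 4) (nat_lit 1) (nat_lit 4) (nat_lit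 263) (nat_lit 210) (nat_lit 127)) (XT.lf (nat_lit 0) (nat_lit 2257523043027) (nat_lit 152) (nat_lit 6813683151217) (nat_lit 0) (nat_lit 2221240736117) (nat_lit 1) (nat_lit 5) (nat_lit 3) (nat_lit 4) (nat_lit 1) (nat_lit 4) (nat_lit 264) (nat_lit 210) (nat_lit 126))) (XT.nd (nat_lit 78) (nat_lit 0) (nat_lit 0) (XT.lf (nat_lit 0) (nat_lit 2610405425350) (nat_lit 152) (nat_lit 7798727350441) (nat_lit 0) (nat_lit 2574123080728) (nat_lit 1) (nat_lit 5) (nat_lit 3) (nat_lit 4) (nat_lit 1) (nat_lit 4) (nat_lit 265) (nat_lit 210) (nat_lit 125)) (XT.lf (nat_lit 0) (nat_lit 3016220126748) (nat_lit 152) (nat_lit 8931528251463) (nat_lit 0) (nat_lit 2979937749333) (nat_lit 1) (nat_lit 5) (nat_lit 3) (nat_lit 4) (nat_lit 1) (nat_lit 4) (nat_lit 266) (nat_lit 210) (nat_lit 124)))))) (XT.nd (nat_lit 702) (nat_lit 0) (nat_lit 0) (XT.nd (nat_lit 390) (nat_lit 0) (nat_lit 0) (XT.nd (nat_lit 234) (nat_lit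 0) (nat_lit 0) (XT.lf (nat_lit 0) (nat_lit 3482907000074) (nat_lit 152) (nat_lit 10234249350171) (nat_lit 0) (nat_lit 3446624594145) (nat_lit 1) (nat_lit 5) (nat_lit 3) (nat_lit 4) (nat_lit 1) (nat_lit 4) (nat_lit 267) (nat_lit 210) (nat_lit 123)) (XT.nd (nat_lit 78) (nat_lit 0) (nat_lit 0) (XT.lf (nat_lit 0) (nat_lit 5346562516363) (nat_lit 152) (nat_lit 15436503549323) (nat_lit 0) (nat_lit 5310280045327) (nat_lit 1) (nat_lit 5) (nat_lit 3) (nat_lit 4) (nat_lit 1) (nat_lit 4) (nat_lit 270) (nat_lit 210) (nat_lit 120)) (XT.lf (nat_lit 0) (nat_lit 6162800653116) (nat_lit 152) (nat_lit 17714971121240) (nat_lit 0) (nat_lit 6126518165776) (nat_lit 1) (nat_lit 5) (nat_lit 3) (nat_lit 4) (nat_lit 1) (nat_lit 4) (nat_lit 271) (nat_lit 210) (nat_lit 119)))) (XT.nd (nat_lit 156) (nat_lit 0) (nat_lit 0) (XT.nd (nat_lit 78) (nat_lit 0) (nat_lit 0) (XT.lf (nat_lit 0) (nat_lit 7101474493835) (nat_lit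 152) (nat_lit 20335208860035) (nat_lit 0) (nat_lit 7065191992318) (nat_lit 1) (nat_lit 5) (nat_lit 3) (nat_lit 4) (nat_lit 1) (nat_lit 4) (nat_lit 272) (nat_lit 210) (nat_lit 118)) (XT.lf (nat_lit 0) (nat_lit 8180949396274) (nat_lit 152) (nat_lit 23348482286684) (nat_lit 0) (nat_lit 8144666882429) (nat_lit 1) (nat_lit 5) (nat_lit 3) (nat_lit 4) (nat_lit 1) (nat_lit 4) (nat_lit 273) (nat_lit 210) (nat_lit 117))) (XT.nd (nat_lit 78) (nat_lit 0) (nat_lit 0) (XT.lf (nat_lit 0) (nat_lit 9422345521566) (nat_lit 152) (nat_lit 26813746750839) (nat_lit 0) (nat_lit 9386062997001) (nat_lit 1) (nat_lit 5) (nat_lit 3) (nat_lit 4) (nat_lit 1) (nat_lit 4) (nat_lit 274) (nat_lit 210) (nat_lit 116)) (XT.lf (nat_lit 0) (nat_lit 10849951054774) (nat_lit 152) (nat_lit 30798800905060) (nat_lit 0) (nat_lit 10813668520887) (nat_lit 1) (nat_lit 5) (nat_lit 3) (nat_lit 4) (nat_lit 1) (nat_lit 4) (nat_lit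 275) (nat_lit 210) (nat_lit 115))))) (XT.nd (nat_lit 26442) (nat_lit 0) (nat_lit 836) (XT.nd (nat_lit 26286) (nat_lit 0) (nat_lit 1064) (XT.nd (nat_lit 26208) (nat_lit 0) (nat_lit 1064) (XT.lf (nat_lit 0) (nat_lit 12491697408501) (nat_lit 152) (nat_lit 35381613200189) (nat_lit 0) (nat_lit 12455414866509) (nat_lit 1) (nat_lit 5) (nat_lit 3) (nat_lit 4) (nat_lit 1) (nat_lit 4) (nat_lit 276) (nat_lit 210) (nat_lit 114)) (XT.lf (nat_lit 0) (nat_lit 3660798107) (nat_lit 0) (nat_lit 3660798107) (nat_lit 228) (nat_lit 2313672190) (nat_lit 15) (nat_lit 5) (nat_lit 15) (nat_lit 3) (nat_lit 18) (nat_lit 3) (nat_lit 211) (nat_lit 211) (nat_lit 178))) (XT.nd (nat_lit 78) (nat_lit 0) (nat_lit 0) (XT.lf (nat_lit 0) (nat_lit 15900440747) (nat_lit 228) (nat_lit 4441184035) (nat_lit 304) (nat_lit 347885055) (nat_lit 15) (nat_lit 5) (nat_lit 18) (nat_lit 3) (nat_lit 19) (nat_lit 5) (nat_lit 212) (nat_lit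 211) (nat_lit 177)) (XT.lf (nat_lit 76) (nat_lit 4200507031) (nat_lit 0) (nat_lit 13643382054) (nat_lit 304) (nat_lit 4403236880) (nat_lit 16) (nat_lit 5) (nat_lit 15) (nat_lit 5) (nat_lit 19) (nat_lit 5) (nat_lit 213) (nat_lit 211) (nat_lit 176)))) (XT.nd (nat_lit 156) (nat_lit 76) (nat_lit 0) (XT.nd (nat_lit 78) (nat_lit 152) (nat_lit 0) (XT.lf (nat_lit 76) (nat_lit 14620837820) (nat_lit 0) (nat_lit 5667764471) (nat_lit 304) (nat_lit 3718701873) (nat_lit 16) (nat_lit 5) (nat_lit 15) (nat_lit 5) (nat_lit 19) (nat_lit 5) (nat_lit 214) (nat_lit 211) (nat_lit 175)) (XT.lf (nat_lit 0) (nat_lit 449619091) (nat_lit 228) (nat_lit 22794843553) (nat_lit 304) (nat_lit 2765712418) (nat_lit 13) (nat_lit 5) (nat_lit 16) (nat_lit 5) (nat_lit 17) (nat_lit 5) (nat_lit 215) (nat_lit 211) (nat_lit 174))) (XT.nd (nat_lit 78) (nat_lit 76) (nat_lit 0) (XT.lf (nat_lit 0) (nat_lit 12502560640) (nat_lit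 228) (nat_lit 14871946893) (nat_lit 304) (nat_lit 829636932) (nat_lit 13) (nat_lit 5) (nat_lit 16) (nat_lit 5) (nat_lit 17) (nat_lit 5) (nat_lit 216) (nat_lit 211) (nat_lit 173)) (XT.lf (nat_lit 0) (nat_lit 1256343450) (nat_lit 304) (nat_lit 4438357737) (nat_lit 76) (nat_lit 25026472674) (nat_lit 12) (nat_lit 5) (nat_lit 16) (nat_lit 5) (nat_lit 13) (nat_lit 5) (nat_lit 217) (nat_lit 211) (nat_lit 172))))))))
noncomputable def xc38 : XT := (XT.nd (nat_lit 2340) (nat_lit 0) (nat_lit 0) (XT.nd (nat_lit 1170) (nat_lit 228) (nat_lit 0) (XT.nd (nat_lit 546) (nat_lit 228) (nat_lit 0) (XT.nd (nat_lit 234) (nat_lit 76) (nat_lit 0) (XT.nd (nat_lit 78) (nat_lit 152) (nat_lit 0) (XT.lf (nat_lit 0) (nat_lit 4162175395) (nat_lit 228) (nat_lit 24488742924) (nat_lit 76) (nat_lit 4870319162) (nat_lit 10) (nat_lit 5) (nat_lit 13) (nat_lit 5) (nat_lit 11) (nat_lit 5) (nat_lit 218) (nat_lit 211) (nat_lit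 171)) (XT.nd (nat_lit 78) (nat_lit 152) (nat_lit 0) (XT.lf (nat_lit 0) (nat_lit 8005278180) (nat_lit 228) (nat_lit 11981889472) (nat_lit 76) (nat_lit 16679098643) (nat_lit 10) (nat_lit 5) (nat_lit 13) (nat_lit 5) (nat_lit 11) (nat_lit 5) (nat_lit 219) (nat_lit 211) (nat_lit 170)) (XT.lf (nat_lit 0) (nat_lit 2620417924) (nat_lit 152) (nat_lit 9901775139) (nat_lit 228) (nat_lit 27746397896) (nat_lit 8) (nat_lit 5) (nat_lit 10) (nat_lit 5) (nat_lit 11) (nat_lit 5) (nat_lit 220) (nat_lit 211) (nat_lit 169)))) (XT.nd (nat_lit 156) (nat_lit 76) (nat_lit 0) (XT.nd (nat_lit 78) (nat_lit 0) (nat_lit 0) (XT.lf (nat_lit 0) (nat_lit 18432666682) (nat_lit 228) (nat_lit 23672484302) (nat_lit 76) (nat_lit 2198834924) (nat_lit 8) (nat_lit 5) (nat_lit 11) (nat_lit 5) (nat_lit 9) (nat_lit 4) (nat_lit 221) (nat_lit 211) (nat_lit 168)) (XT.lf (nat_lit 0) (nat_lit 25692202721) (nat_lit 228) (nat_lit 8084799585)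 (nat_lit 76) (nat_lit 15098422615) (nat_lit 8) (nat_lit 5) (nat_lit 11) (nat_lit 5) (nat_lit 9) (nat_lit 4) (nat_lit 222) (nat_lit 211) (nat_lit 167))) (XT.nd (nat_lit 78) (nat_lit 0) (nat_lit 0) (XT.lf (nat_lit 0) (nat_lit 10790515229) (nat_lit 76) (nat_lit 23689121185) (nat_lit 152) (nat_lit 19587192661) (nat_lit 7) (nat_lit 5) (nat_lit 8) (nat_lit 5) (nat_lit 9) (nat_lit 4) (nat_lit 223) (nat_lit 211) (nat_lit 166)) (XT.lf (nat_lit 0) (nat_lit 33395087279) (nat_lit 76) (nat_lit 11605449229) (nat_lit 152) (nat_lit 14974186705) (nat_lit 7) (nat_lit 5) (nat_lit 8) (nat_lit 5) (nat_lit 9) (nat_lit 4) (nat_lit 224) (nat_lit 211) (nat_lit 165))))) (XT.nd (nat_lit 312) (nat_lit 76) (nat_lit 0) (XT.nd (nat_lit 156) (nat_lit 76) (nat_lit 0) (XT.nd (nat_lit 78) (nat_lit 76) (nat_lit 0) (XT.lf (nat_lit 0) (nat_lit 57187989503) (nat_lit 152) (nat_lit 7483479381) (nat_lit 0) (nat_lit 2084141263)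 (nat_lit 7) (nat_lit 5) (nat_lit 9) (nat_lit 4) (nat_lit 7) (nat_lit 4) (nat_lit 225) (nat_lit 211) (nat_lit 164)) (XT.lf (nat_lit 0) (nat_lit 15275554871) (nat_lit 76) (nat_lit 57107575768) (nat_lit 76) (nat_lit 1993626006) (nat_lit 6) (nat_lit 4) (nat_lit 7) (nat_lit 5) (nat_lit 7) (nat_lit 4) (nat_lit 226) (nat_lit 211) (nat_lit 163))) (XT.nd (nat_lit 78) (nat_lit 0) (nat_lit 0) (XT.lf (nat_lit 0) (nat_lit 6522815774) (nat_lit 152) (nat_lit 41098679779) (nat_lit 76) (nat_lit 35417265142) (nat_lit 5) (nat_lit 5) (nat_lit 7) (nat_lit 5) (nat_lit 6) (nat_lit 4) (nat_lit 227) (nat_lit 211) (nat_lit 162)) (XT.lf (nat_lit 0) (nat_lit 16107818643) (nat_lit 152) (nat_lit 20498561812) (nat_lit 76) (nat_lit 56380204887) (nat_lit 5) (nat_lit 5) (nat_lit 7) (nat_lit 5) (nat_lit 6) (nat_lit 4) (nat_lit 228) (nat_lit 211) (nat_lit 161)))) (XT.nd (nat_lit 156) (nat_lit 0) (nat_lit 0) (XT.nd (nat_lit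 78) (nat_lit 0) (nat_lit 0) (XT.lf (nat_lit 0) (nat_lit 3495986616) (nat_lit 76) (nat_lit 23775176372) (nat_lit 152) (nat_lit 77134367521) (nat_lit 4) (nat_lit 5) (nat_lit 5) (nat_lit 5) (nat_lit 6) (nat_lit 4) (nat_lit 229) (nat_lit 211) (nat_lit 160)) (XT.lf (nat_lit 0) (nat_lit 33386962183) (nat_lit 76) (nat_lit 7789666453) (nat_lit 152) (nat_lit 76200576717) (nat_lit 4) (nat_lit 5) (nat_lit 5) (nat_lit 5) (nat_lit 6) (nat_lit 4) (nat_lit 230) (nat_lit 211) (nat_lit 159))) (XT.nd (nat_lit 78) (nat_lit 0) (nat_lit 0) (XT.lf (nat_lit 0) (nat_lit 57603093258) (nat_lit 152) (nat_lit 64977813674) (nat_lit 0) (nat_lit 9648474450) (nat_lit 4) (nat_lit 5) (nat_lit 6) (nat_lit 4) (nat_lit 4) (nat_lit 4) (nat_lit 231) (nat_lit 211) (nat_lit 158)) (XT.lf (nat_lit 0) (nat_lit 76861436108) (nat_lit 152) (nat_lit 43489764993) (nat_lit 0) (nat_lit 28903019764) (nat_lit 4) (nat_lit 5) (nat_lit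 6) (nat_lit 4) (nat_lit 4) (nat_lit 4) (nat_lit 232) (nat_lit 211) (nat_lit 157)))))) (XT.nd (nat_lit 546) (nat_lit 152) (nat_lit 0) (XT.nd (nat_lit 234) (nat_lit 0) (nat_lit 0) (XT.nd (nat_lit 78) (nat_lit 76) (nat_lit 0) (XT.lf (nat_lit 0) (nat_lit 99005897374) (nat_lit 152) (nat_lit 18783125307) (nat_lit 0) (nat_lit 51044178824) (nat_lit 4) (nat_lit 5) (nat_lit 6) (nat_lit 4) (nat_lit 4) (nat_lit 4) (nat_lit 233) (nat_lit 211) (nat_lit 156)) (XT.nd (nat_lit 78) (nat_lit 0) (nat_lit 0) (XT.lf (nat_lit 0) (nat_lit 10566169648) (nat_lit 76) (nat_lit 114341091159) (nat_lit 76) (nat_lit 66376501127) (nat_lit 3) (nat_lit 4) (nat_lit 4) (nat_lit 5) (nat_lit 4) (nat_lit 4) (nat_lit 234) (nat_lit 211) (nat_lit 155)) (XT.lf (nat_lit 0) (nat_lit 46424994289) (nat_lit 76) (nat_lit 109248530056) (nat_lit 76) (nat_lit 61281443082) (nat_lit 3) (nat_lit 4) (nat_lit 4) (nat_lit 5) (nat_lit 4) (nat_lit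 4) (nat_lit 235) (nat_lit 211) (nat_lit 154)))) (XT.nd (nat_lit 156) (nat_lit 0) (nat_lit 0) (XT.nd (nat_lit 78) (nat_lit 0) (nat_lit 0) (XT.lf (nat_lit 0) (nat_lit 87659310706) (nat_lit 76) (nat_lit 103393547493) (nat_lit 76) (nat_lit 55424289266) (nat_lit 3) (nat_lit 4) (nat_lit 4) (nat_lit 5) (nat_lit 4) (nat_lit 4) (nat_lit 236) (nat_lit 211) (nat_lit 153)) (XT.lf (nat_lit 0) (nat_lit 135075877262) (nat_lit 76) (nat_lit 96661589464) (nat_lit 76) (nat_lit 48690443190) (nat_lit 3) (nat_lit 4) (nat_lit 4) (nat_lit 5) (nat_lit 4) (nat_lit 4) (nat_lit 237) (nat_lit 211) (nat_lit 152))) (XT.nd (nat_lit 78) (nat_lit 0) (nat_lit 0) (XT.lf (nat_lit 0) (nat_lit 189602409391) (nat_lit 76) (nat_lit 88920943746) (nat_lit 76) (nat_lit 40948155692) (nat_lit 3) (nat_lit 4) (nat_lit 4) (nat_lit 5) (nat_lit 4) (nat_lit 4) (nat_lit 238) (nat_lit 211) (nat_lit 151)) (XT.lf (nat_lit 0) (nat_lit 252305730548)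 (nat_lit 76) (nat_lit 80020162923) (nat_lit 76) (nat_lit 32045947235) (nat_lit 3) (nat_lit 4) (nat_lit 4) (nat_lit 5) (nat_lit 4) (nat_lit 4) (nat_lit 239) (nat_lit 211) (nat_lit 150))))) (XT.nd (nat_lit 312) (nat_lit 76) (nat_lit 0) (XT.nd (nat_lit 156) (nat_lit 76) (nat_lit 0) (XT.nd (nat_lit 78) (nat_lit 0) (nat_lit 0) (XT.lf (nat_lit 0) (nat_lit 324412644841) (nat_lit 76) (nat_lit 69785101284) (nat_lit 76) (nat_lit 21809644174) (nat_lit 3) (nat_lit 4) (nat_lit 4) (nat_lit 5) (nat_lit 4) (nat_lit 4) (nat_lit 240) (nat_lit 211) (nat_lit 149)) (XT.lf (nat_lit 0) (nat_lit 407333939725) (nat_lit 76) (nat_lit 58015507622) (nat_lit 76) (nat_lit 10038971015) (nat_lit 3) (nat_lit 4) (nat_lit 4) (nat_lit 5) (nat_lit 4) (nat_lit 4) (nat_lit 241) (nat_lit 211) (nat_lit 148))) (XT.nd (nat_lit 78) (nat_lit 0) (nat_lit 0) (XT.lf (nat_lit 0) (nat_lit 3185097161) (nat_lit 152) (nat_lit 41129516402)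 (nat_lit 76) (nat_lit 499340397483) (nat_lit 2) (nat_lit 5) (nat_lit 4) (nat_lit 5) (nat_lit 3) (nat_lit 4) (nat_lit 242) (nat_lit 211) (nat_lit 147)) (XT.lf (nat_lit 0) (nat_lit 17364235414) (nat_lit 152) (nat_lit 10645185413) (nat_lit 76) (nat_lit 594080580341) (nat_lit 2) (nat_lit 5) (nat_lit 4) (nat_lit 5) (nat_lit 3) (nat_lit 4) (nat_lit 243) (nat_lit 211) (nat_lit 146)))) (XT.nd (nat_lit 156) (nat_lit 0) (nat_lit 0) (XT.nd (nat_lit 78) (nat_lit 0) (nat_lit 0) (XT.lf (nat_lit 0) (nat_lit 26796224475) (nat_lit 76) (nat_lit 7982950322) (nat_lit 152) (nat_lit 677344729242) (nat_lit 1) (nat_lit 5) (nat_lit 2) (nat_lit 5) (nat_lit 3) (nat_lit 4) (nat_lit 244) (nat_lit 211) (nat_lit 145)) (XT.lf (nat_lit 0) (nat_lit 56011763824) (nat_lit 152) (nat_lit 745179964112) (nat_lit 0) (nat_lit 14290356393) (nat_lit 1) (nat_lit 5) (nat_lit 3) (nat_lit 4) (nat_lit 1) (nat_lit 4) (nat_lit 245)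 (nat_lit 211) (nat_lit 144))) (XT.nd (nat_lit 78) (nat_lit 0) (nat_lit 0) (XT.lf (nat_lit 0) (nat_lit 80808837002) (nat_lit 152) (nat_lit 814391255283) (nat_lit 0) (nat_lit 39086962874) (nat_lit 1) (nat_lit 5) (nat_lit 3) (nat_lit 4) (nat_lit 1) (nat_lit 4) (nat_lit 246) (nat_lit 211) (nat_lit 143)) (XT.lf (nat_lit 0) (nat_lit 109324997508) (nat_lit 152) (nat_lit 893985130088) (nat_lit 0) (nat_lit 67602717558) (nat_lit 1) (nat_lit 5) (nat_lit 3) (nat_lit 4) (nat_lit 1) (nat_lit 4) (nat_lit 247) (nat_lit 211) (nat_lit 142))))))) (XT.nd (nat_lit 1170) (nat_lit 0) (nat_lit 0) (XT.nd (nat_lit 546) (nat_lit 0) (nat_lit 0) (XT.nd (nat_lit 234) (nat_lit 0) (nat_lit 0) (XT.nd (nat_lit 78) (nat_lit 0) (nat_lit 0) (XT.lf (nat_lit 0) (nat_lit 142118170224) (nat_lit 152) (nat_lit 985518859988) (nat_lit 0) (nat_lit 100395537384) (nat_lit 1) (nat_lit 5) (nat_lit 3) (nat_lit 4) (nat_lit 1) (nat_lit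 4) (nat_lit 248) (nat_lit 211) (nat_lit 141)) (XT.nd (nat_lit 78) (nat_lit 0) (nat_lit 0) (XT.lf (nat_lit 0) (nat_lit 179829960701) (nat_lit 152) (nat_lit 1090783322309) (nat_lit 0) (nat_lit 138107021001) (nat_lit 1) (nat_lit 5) (nat_lit 3) (nat_lit 4) (nat_lit 1) (nat_lit 4) (nat_lit 249) (nat_lit 211) (nat_lit 140)) (XT.lf (nat_lit 0) (nat_lit 223198208319) (nat_lit 152) (nat_lit 1211838039138) (nat_lit 0) (nat_lit 181475001784) (nat_lit 1) (nat_lit 5) (nat_lit 3) (nat_lit 4) (nat_lit 1) (nat_lit 4) (nat_lit 250) (nat_lit 211) (nat_lit 139)))) (XT.nd (nat_lit 156) (nat_lit 0) (nat_lit 0) (XT.nd (nat_lit 78) (nat_lit 0) (nat_lit 0) (XT.lf (nat_lit 0) (nat_lit 273071422271) (nat_lit 152) (nat_lit 1351051472328) (nat_lit 0) (nat_lit 231347983705) (nat_lit 1) (nat_lit 5) (nat_lit 3) (nat_lit 4) (nat_lit 1) (nat_lit 4) (nat_lit 251) (nat_lit 211) (nat_lit 138)) (XT.lf (nat_lit 0) (nat_lit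 330425382828) (nat_lit 152) (nat_lit 1511147362962) (nat_lit 0) (nat_lit 288701742497) (nat_lit 1) (nat_lit 5) (nat_lit 3) (nat_lit 4) (nat_lit 1) (nat_lit 4) (nat_lit 252) (nat_lit 211) (nat_lit 137))) (XT.nd (nat_lit 78) (nat_lit 0) (nat_lit 0) (XT.lf (nat_lit 0) (nat_lit 396382232699) (nat_lit 152) (nat_lit 1695258021944) (nat_lit 0) (nat_lit 354658416919) (nat_lit 1) (nat_lit 5) (nat_lit 3) (nat_lit 4) (nat_lit 1) (nat_lit 4) (nat_lit 253) (nat_lit 211) (nat_lit 136)) (XT.lf (nat_lit 0) (nat_lit 472232431989) (nat_lit 152) (nat_lit 1906985614342) (nat_lit 0) (nat_lit 430508463645) (nat_lit 1) (nat_lit 5) (nat_lit 3) (nat_lit 4) (nat_lit 1) (nat_lit 4) (nat_lit 254) (nat_lit 211) (nat_lit 135))))) (XT.nd (nat_lit 312) (nat_lit 0) (nat_lit 0) (XT.nd (nat_lit 156) (nat_lit 0) (nat_lit 0) (XT.nd (nat_lit 78) (nat_lit 0) (nat_lit 0) (XT.lf (nat_lit 0) (nat_lit 559460006335) (nat_lit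 152) (nat_lit 2150472636527) (nat_lit 0) (nat_lit 517735905327) (nat_lit 1) (nat_lit 5) (nat_lit 3) (nat_lit 4) (nat_lit 1) (nat_lit 4) (nat_lit 255) (nat_lit 211) (nat_lit 134)) (XT.lf (nat_lit 0) (nat_lit 659771582194) (nat_lit 152) (nat_lit 2430482965021) (nat_lit 0) (nat_lit 618047365826) (nat_lit 1) (nat_lit 5) (nat_lit 3) (nat_lit 4) (nat_lit 1) (nat_lit 4) (nat_lit 256) (nat_lit 211) (nat_lit 133))) (XT.nd (nat_lit 78) (nat_lit 0) (nat_lit 0) (XT.lf (nat_lit 0) (nat_lit 775129777354) (nat_lit 152) (nat_lit 2752495062773) (nat_lit 0) (nat_lit 733405460672) (nat_lit 1) (nat_lit 5) (nat_lit 3) (nat_lit 4) (nat_lit 1) (nat_lit 4) (nat_lit 257) (nat_lit 211) (nat_lit 132)) (XT.lf (nat_lit 0) (nat_lit 907791599979) (nat_lit 152) (nat_lit 3122809166479) (nat_lit 0) (nat_lit 866067196069) (nat_lit 1) (nat_lit 5) (nat_lit 3) (nat_lit 4) (nat_lit 1) (nat_lit 4) (nat_lit 258) (nat_lit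 211) (nat_lit 131)))) (XT.nd (nat_lit 156) (nat_lit 0) (nat_lit 0) (XT.nd (nat_lit 78) (nat_lit 0) (nat_lit 0) (XT.lf (nat_lit 0) (nat_lit 1060352607471) (nat_lit 152) (nat_lit 3548670552079) (nat_lit 0) (nat_lit 1018628127710) (nat_lit 1) (nat_lit 5) (nat_lit 3) (nat_lit 4) (nat_lit 1) (nat_lit 4) (nat_lit 259) (nat_lit 211) (nat_lit 130)) (XT.lf (nat_lit 0) (nat_lit 1235797689105) (nat_lit 152) (nat_lit 4038411290162) (nat_lit 0) (nat_lit 1194073143386) (nat_lit 1) (nat_lit 5) (nat_lit 3) (nat_lit 4) (nat_lit 1) (nat_lit 4) (nat_lit 260) (nat_lit 211) (nat_lit 129))) (XT.nd (nat_lit 78) (nat_lit 0) (nat_lit 0) (XT.lf (nat_lit 0) (nat_lit 1437559466045) (nat_lit 152) (nat_lit 4601613264734) (nat_lit 0) (nat_lit 1395834862972) (nat_lit 1) (nat_lit 5) (nat_lit 3) (nat_lit 4) (nat_lit 1) (nat_lit 4) (nat_lit 261) (nat_lit 211) (nat_lit 128)) (XT.lf (nat_lit 0) (nat_lit 1669585451317)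 (nat_lit 152) (nat_lit 5249295644863) (nat_lit 0) (nat_lit 1627860798370) (nat_lit 1) (nat_lit 5) (nat_lit 3) (nat_lit 4) (nat_lit 1) (nat_lit 4) (nat_lit 262) (nat_lit 211) (nat_lit 127)))))) (XT.nd (nat_lit 780) (nat_lit 0) (nat_lit 0) (XT.nd (nat_lit 234) (nat_lit 0) (nat_lit 0) (XT.nd (nat_lit 78) (nat_lit 0) (nat_lit 0) (XT.lf (nat_lit 0) (nat_lit 1936415283764) (nat_lit 152) (nat_lit 5994130477116) (nat_lit 0) (nat_lit 1894690587449) (nat_lit 1) (nat_lit 5) (nat_lit 3) (nat_lit 4) (nat_lit 1) (nat_lit 4) (nat_lit 263) (nat_lit 211) (nat_lit 126)) (XT.nd (nat_lit 78) (nat_lit 0) (nat_lit 0) (XT.lf (nat_lit 0) (nat_lit 2243269547063) (nat_lit 152) (nat_lit 6850690616907) (nat_lit 0) (nat_lit 2201544813037) (nat_lit 1) (nat_lit 5) (nat_lit 3) (nat_lit 4) (nat_lit 1) (nat_lit 4) (nat_lit 264) (nat_lit 211) (nat_lit 125)) (XT.lf (nat_lit 0) (nat_lit 2596151911585) (nat_lit 152) (nat_lit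 7835734849579) (nat_lit 0) (nat_lit 2554427144766) (nat_lit 1) (nat_lit 5) (nat_lit 3) (nat_lit 4) (nat_lit 1) (nat_lit 4) (nat_lit 265) (nat_lit 211) (nat_lit 124)))) (XT.nd (nat_lit 390) (nat_lit 0) (nat_lit 0) (XT.nd (nat_lit 312) (nat_lit 0) (nat_lit 0) (XT.lf (nat_lit 0) (nat_lit 3001966597503) (nat_lit 152) (nat_lit 8968535779686) (nat_lit 0) (nat_lit 2960241802169) (nat_lit 1) (nat_lit 5) (nat_lit 3) (nat_lit 4) (nat_lit 1) (nat_lit 4) (nat_lit 266) (nat_lit 211) (nat_lit 123)) (XT.lf (nat_lit 0) (nat_lit 5332308942925) (nat_lit 152) (nat_lit 15473511160583) (nat_lit 0) (nat_lit 5290584066180) (nat_lit 1) (nat_lit 5) (nat_lit 3) (nat_lit 4) (nat_lit 1) (nat_lit 4) (nat_lit 270) (nat_lit 211) (nat_lit 119))) (XT.nd (nat_lit 78) (nat_lit 0) (nat_lit 0) (XT.lf (nat_lit 0) (nat_lit 6148547071982) (nat_lit 152) (nat_lit 17751978746961) (nat_lit 0) (nat_lit 6106822181060) (nat_lit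 1) (nat_lit 5) (nat_lit 3) (nat_lit 4) (nat_lit 1) (nat_lit 4) (nat_lit 271) (nat_lit 211) (nat_lit 118)) (XT.lf (nat_lit 0) (nat_lit 7087220906009) (nat_lit 152) (nat_lit 20372216498331) (nat_lit 0) (nat_lit 7045496002759) (nat_lit 1) (nat_lit 5) (nat_lit 3) (nat_lit 4) (nat_lit 1) (nat_lit 4) (nat_lit 272) (nat_lit 211) (nat_lit 117))))) (XT.nd (nat_lit 26520) (nat_lit 0) (nat_lit 1064) (XT.nd (nat_lit 156) (nat_lit 0) (nat_lit 0) (XT.nd (nat_lit 78) (nat_lit 0) (nat_lit 0) (XT.lf (nat_lit 0) (nat_lit 8166695802628) (nat_lit 152) (nat_lit 23385489935914) (nat_lit 0) (nat_lit 8124970888658) (nat_lit 1) (nat_lit 5) (nat_lit 3) (nat_lit 4) (nat_lit 1) (nat_lit 4) (nat_lit 273) (nat_lit 211) (nat_lit 116)) (XT.lf (nat_lit 0) (nat_lit 9408091922860) (nat_lit 152) (nat_lit 26850754409577) (nat_lit 0) (nat_lit 9366366999569) (nat_lit 1) (nat_lit 5) (nat_lit 3) (nat_lit 4) (nat_lit 1) (nat_lit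 4) (nat_lit 274) (nat_lit 211) (nat_lit 115))) (XT.nd (nat_lit 78) (nat_lit 0) (nat_lit 0) (XT.lf (nat_lit 0) (nat_lit 10835697451667) (nat_lit 152) (nat_lit 30835808572065) (nat_lit 0) (nat_lit 10793972520270) (nat_lit 1) (nat_lit 5) (nat_lit 3) (nat_lit 4) (nat_lit 1) (nat_lit 4) (nat_lit 275) (nat_lit 211) (nat_lit 114)) (XT.lf (nat_lit 0) (nat_lit 12477443801569) (nat_lit 152) (nat_lit 35418620874384) (nat_lit 0) (nat_lit 12435718863123) (nat_lit 1) (nat_lit 5) (nat_lit 3) (nat_lit 4) (nat_lit 1) (nat_lit 4) (nat_lit 276) (nat_lit 211) (nat_lit 113)))) (XT.nd (nat_lit 156) (nat_lit 0) (nat_lit 0) (XT.nd (nat_lit 78) (nat_lit 0) (nat_lit 0) (XT.lf (nat_lit 0) (nat_lit 4278551068) (nat_lit 0) (nat_lit 4278551068) (nat_lit 228) (nat_lit 2500502762) (nat_lit 15) (nat_lit 5) (nat_lit 15) (nat_lit 3) (nat_lit 18) (nat_lit 3) (nat_lit 212) (nat_lit 212) (nat_lit 176)) (XT.lf (nat_lit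 0) (nat_lit 18519288657) (nat_lit 228) (nat_lit 4943137347) (nat_lit 304) (nat_lit 291332093) (nat_lit 15) (nat_lit 5) (nat_lit 18) (nat_lit 3) (nat_lit 19) (nat_lit 5) (nat_lit 213) (nat_lit 212) (nat_lit 175))) (XT.nd (nat_lit 78) (nat_lit 0) (nat_lit 0) (XT.lf (nat_lit 76) (nat_lit 4987342638) (nat_lit 0) (nat_lit 15742909409) (nat_lit 304) (nat_lit 4818901138) (nat_lit 16) (nat_lit 5) (nat_lit 15) (nat_lit 5) (nat_lit 19) (nat_lit 5) (nat_lit 214) (nat_lit 212) (nat_lit 174)) (XT.lf (nat_lit 76) (nat_lit 16950276147) (nat_lit 0) (nat_lit 6564033530) (nat_lit 304) (nat_lit 4063619090) (nat_lit 16) (nat_lit 5) (nat_lit 15) (nat_lit 5) (nat_lit 19) (nat_lit 5) (nat_lit 215) (nat_lit 212) (nat_lit 173))))))))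
noncomputable def xc39 : XT := (XT.nd (nat_lit 2340) (nat_lit 0) (nat_lit 0) (XT.nd (nat_lit 1170) (nat_lit 228) (nat_lit 0) (XT.nd (nat_lit 546) (nat_lit 304) (nat_lit 0) (XT.nd (nat_lit 234) (nat_lit 304) (nat_lit 0) (XT.nd (nat_lit 78) (nat_lit 76) (nat_lit 0) (XT.lf (nat_lit 0) (nat_lit 678086862) (nat_lit 228) (nat_lit 26216676319) (nat_lit 304) (nat_lit 2989690457) (nat_lit 13) (nat_lit 5) (nat_lit 16) (nat_lit 5) (nat_lit 17) (nat_lit 5) (nat_lit 216) (nat_lit 212) (nat_lit 172)) (XT.nd (nat_lit 78) (nat_lit 76) (nat_lit 0) (XT.lf (nat_lit 0) (nat_lit 14517966394) (nat_lit 228) (nat_lit 17105005216) (nat_lit 304) (nat_lit 788100886) (nat_lit 13) (nat_lit 5) (nat_lit 16) (nat_lit 5) (nat_lit 17) (nat_lit 5) (nat_lit 217) (nat_lit 212) (nat_lit 171)) (XT.lf (nat_lit 0) (nat_lit 1576277366) (nat_lit 304) (nat_lit 4967726742) (nat_lit 76) (nat_lit 28763846198) (nat_lit 12) (nat_lit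 5) (nat_lit 16) (nat_lit 5) (nat_lit 13) (nat_lit 5) (nat_lit 218) (nat_lit 212) (nat_lit 170)))) (XT.nd (nat_lit 156) (nat_lit 152) (nat_lit 0) (XT.nd (nat_lit 78) (nat_lit 0) (nat_lit 0) (XT.lf (nat_lit 0) (nat_lit 4906658136) (nat_lit 228) (nat_lit 28012798285) (nat_lit 76) (nat_lit 5610397759) (nat_lit 10) (nat_lit 5) (nat_lit 13) (nat_lit 5) (nat_lit 11) (nat_lit 5) (nat_lit 219) (nat_lit 212) (nat_lit 169)) (XT.lf (nat_lit 0) (nat_lit 9310553761) (nat_lit 228) (nat_lit 13649385000) (nat_lit 76) (nat_lit 19189251025) (nat_lit 10) (nat_lit 5) (nat_lit 13) (nat_lit 5) (nat_lit 11) (nat_lit 5) (nat_lit 220) (nat_lit 212) (nat_lit 168))) (XT.nd (nat_lit 78) (nat_lit 0) (nat_lit 0) (XT.lf (nat_lit 0) (nat_lit 3137369057) (nat_lit 152) (nat_lit 11359138448) (nat_lit 228) (nat_lit 31796805690) (nat_lit 8) (nat_lit 5) (nat_lit 10) (nat_lit 5) (nat_lit 11) (nat_lit 5) (nat_lit 221) (nat_lit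 212) (nat_lit 167)) (XT.lf (nat_lit 0) (nat_lit 21282037018) (nat_lit 228) (nat_lit 27103096555) (nat_lit 76) (nat_lit 2550763508) (nat_lit 8) (nat_lit 5) (nat_lit 11) (nat_lit 5) (nat_lit 9) (nat_lit 4) (nat_lit 222) (nat_lit 212) (nat_lit 166))))) (XT.nd (nat_lit 312) (nat_lit 228) (nat_lit 0) (XT.nd (nat_lit 156) (nat_lit 0) (nat_lit 0) (XT.nd (nat_lit 78) (nat_lit 76) (nat_lit 0) (XT.lf (nat_lit 0) (nat_lit 29619485594) (nat_lit 228) (nat_lit 9192945269) (nat_lit 76) (nat_lit 17382406308) (nat_lit 8) (nat_lit 5) (nat_lit 11) (nat_lit 5) (nat_lit 9) (nat_lit 4) (nat_lit 223) (nat_lit 212) (nat_lit 165)) (XT.lf (nat_lit 0) (nat_lit 12508913393) (nat_lit 76) (nat_lit 27210673561) (nat_lit 152) (nat_lit 22446297355) (nat_lit 7) (nat_lit 5) (nat_lit 8) (nat_lit 5) (nat_lit 9) (nat_lit 4) (nat_lit 224) (nat_lit 212) (nat_lit 164))) (XT.nd (nat_lit 78) (nat_lit 0) (nat_lit 0) (XT.lf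 (nat_lit 0) (nat_lit 38491151135) (nat_lit 76) (nat_lit 13318600699) (nat_lit 152) (nat_lit 17151641489) (nat_lit 7) (nat_lit 5) (nat_lit 8) (nat_lit 5) (nat_lit 9) (nat_lit 4) (nat_lit 225) (nat_lit 212) (nat_lit 163)) (XT.lf (nat_lit 0) (nat_lit 65818605700) (nat_lit 152) (nat_lit 8523224290) (nat_lit 0) (nat_lit 2418678020) (nat_lit 7) (nat_lit 5) (nat_lit 9) (nat_lit 4) (nat_lit 7) (nat_lit 4) (nat_lit 226) (nat_lit 212) (nat_lit 162)))) (XT.nd (nat_lit 156) (nat_lit 76) (nat_lit 0) (XT.nd (nat_lit 78) (nat_lit 76) (nat_lit 0) (XT.lf (nat_lit 0) (nat_lit 17645902510) (nat_lit 76) (nat_lit 65643550214) (nat_lit 76) (nat_lit 2235984333) (nat_lit 6) (nat_lit 4) (nat_lit 7) (nat_lit 5) (nat_lit 7) (nat_lit 4) (nat_lit 227) (nat_lit 212) (nat_lit 161)) (XT.lf (nat_lit 0) (nat_lit 7546141646) (nat_lit 152) (nat_lit 47190003255) (nat_lit 76) (nat_lit 40751312358) (nat_lit 5) (nat_lit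 5) (nat_lit 7) (nat_lit 5) (nat_lit 6) (nat_lit 4) (nat_lit 228) (nat_lit 212) (nat_lit 160))) (XT.nd (nat_lit 78) (nat_lit 76) (nat_lit 0) (XT.lf (nat_lit 0) (nat_lit 18563037966) (nat_lit 152) (nat_lit 23509451744) (nat_lit 76) (nat_lit 64855894269) (nat_lit 5) (nat_lit 5) (nat_lit 7) (nat_lit 5) (nat_lit 6) (nat_lit 4) (nat_lit 229) (nat_lit 212) (nat_lit 159)) (XT.lf (nat_lit 0) (nat_lit 4081374661) (nat_lit 76) (nat_lit 27316941746) (nat_lit 152) (nat_lit 88662282976) (nat_lit 4) (nat_lit 5) (nat_lit 5) (nat_lit 5) (nat_lit 6) (nat_lit 4) (nat_lit 230) (nat_lit 212) (nat_lit 158)))))) (XT.nd (nat_lit 546) (nat_lit 152) (nat_lit 0) (XT.nd (nat_lit 234) (nat_lit 76) (nat_lit 0) (XT.nd (nat_lit 78) (nat_lit 0) (nat_lit 0) (XT.lf (nat_lit 0) (nat_lit 38448041339) (nat_lit 76) (nat_lit 8936802437) (nat_lit 152) (nat_lit 87593933074) (nat_lit 4) (nat_lit 5) (nat_lit 5) (nat_lit 5)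 (nat_lit 6) (nat_lit 4) (nat_lit 231) (nat_lit 212) (nat_lit 157)) (XT.nd (nat_lit 78) (nat_lit 0) (nat_lit 0) (XT.lf (nat_lit 0) (nat_lit 66271908039) (nat_lit 152) (nat_lit 74674780015) (nat_lit 0) (nat_lit 11112629502) (nat_lit 4) (nat_lit 5) (nat_lit 6) (nat_lit 4) (nat_lit 4) (nat_lit 4) (nat_lit 232) (nat_lit 212) (nat_lit 156)) (XT.lf (nat_lit 0) (nat_lit 88415304386) (nat_lit 152) (nat_lit 49970007385) (nat_lit 0) (nat_lit 33253154366) (nat_lit 4) (nat_lit 5) (nat_lit 6) (nat_lit 4) (nat_lit 4) (nat_lit 4) (nat_lit 233) (nat_lit 212) (nat_lit 155)))) (XT.nd (nat_lit 156) (nat_lit 0) (nat_lit 0) (XT.nd (nat_lit 78) (nat_lit 76) (nat_lit 0) (XT.lf (nat_lit 0) (nat_lit 113878219251) (nat_lit 152) (nat_lit 21563009445) (nat_lit 0) (nat_lit 58713572290) (nat_lit 4) (nat_lit 5) (nat_lit 6) (nat_lit 4) (nat_lit 4) (nat_lit 4) (nat_lit 234) (nat_lit 212) (nat_lit 154)) (XT.lf (nat_lit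 0) (nat_lit 12186971360) (nat_lit 76) (nat_lit 131476505233) (nat_lit 76) (nat_lit 76309687018) (nat_lit 3) (nat_lit 4) (nat_lit 4) (nat_lit 5) (nat_lit 4) (nat_lit 4) (nat_lit 235) (nat_lit 212) (nat_lit 153))) (XT.nd (nat_lit 78) (nat_lit 0) (nat_lit 0) (XT.lf (nat_lit 0) (nat_lit 53419940185) (nat_lit 76) (nat_lit 125622114260) (nat_lit 76) (nat_lit 70453407999) (nat_lit 3) (nat_lit 4) (nat_lit 4) (nat_lit 5) (nat_lit 4) (nat_lit 4) (nat_lit 236) (nat_lit 212) (nat_lit 152)) (XT.lf (nat_lit 0) (nat_lit 100835334922) (nat_lit 76) (nat_lit 118890670657) (nat_lit 76) (nat_lit 63720322616) (nat_lit 3) (nat_lit 4) (nat_lit 4) (nat_lit 5) (nat_lit 4) (nat_lit 4) (nat_lit 237) (nat_lit 212) (nat_lit 151))))) (XT.nd (nat_lit 312) (nat_lit 152) (nat_lit 0) (XT.nd (nat_lit 156) (nat_lit 0) (nat_lit 0) (XT.nd (nat_lit 78) (nat_lit 0) (nat_lit 0) (XT.lf (nat_lit 0) (nat_lit 155360848078) (nat_lit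 76) (nat_lit 111150472266) (nat_lit 76) (nat_lit 55978696590) (nat_lit 3) (nat_lit 4) (nat_lit 4) (nat_lit 5) (nat_lit 4) (nat_lit 4) (nat_lit 238) (nat_lit 212) (nat_lit 150)) (XT.lf (nat_lit 0) (nat_lit 218063283171) (nat_lit 76) (nat_lit 102250080423) (nat_lit 76) (nat_lit 47077063326) (nat_lit 3) (nat_lit 4) (nat_lit 4) (nat_lit 5) (nat_lit 4) (nat_lit 4) (nat_lit 239) (nat_lit 212) (nat_lit 149))) (XT.nd (nat_lit 78) (nat_lit 0) (nat_lit 0) (XT.lf (nat_lit 0) (nat_lit 290169426974) (nat_lit 76) (nat_lit 92015357027) (nat_lit 76) (nat_lit 36841260433) (nat_lit 3) (nat_lit 4) (nat_lit 4) (nat_lit 5) (nat_lit 4) (nat_lit 4) (nat_lit 240) (nat_lit 212) (nat_lit 148)) (XT.lf (nat_lit 0) (nat_lit 373090051867) (nat_lit 76) (nat_lit 80246057490) (nat_lit 76) (nat_lit 25071022203) (nat_lit 3) (nat_lit 4) (nat_lit 4) (nat_lit 5) (nat_lit 4) (nat_lit 4) (nat_lit 241) (nat_lit 212) (nat_lit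 147)))) (XT.nd (nat_lit 156) (nat_lit 76) (nat_lit 0) (XT.nd (nat_lit 78) (nat_lit 76) (nat_lit 0) (XT.lf (nat_lit 0) (nat_lit 468447517900) (nat_lit 76) (nat_lit 66711912907) (nat_lit 76) (nat_lit 11536061366) (nat_lit 3) (nat_lit 4) (nat_lit 4) (nat_lit 5) (nat_lit 4) (nat_lit 4) (nat_lit 242) (nat_lit 212) (nat_lit 146)) (XT.lf (nat_lit 0) (nat_lit 3669797252) (nat_lit 152) (nat_lit 47286497235) (nat_lit 76) (nat_lit 574245887065) (nat_lit 2) (nat_lit 5) (nat_lit 4) (nat_lit 5) (nat_lit 3) (nat_lit 4) (nat_lit 243) (nat_lit 212) (nat_lit 145))) (XT.nd (nat_lit 78) (nat_lit 76) (nat_lit 0) (XT.lf (nat_lit 0) (nat_lit 19974901610) (nat_lit 152) (nat_lit 12231140070) (nat_lit 76) (nat_lit 683196519530) (nat_lit 2) (nat_lit 5) (nat_lit 4) (nat_lit 5) (nat_lit 3) (nat_lit 4) (nat_lit 244) (nat_lit 212) (nat_lit 144)) (XT.lf (nat_lit 0) (nat_lit 30825989340) (nat_lit 76) (nat_lit 9175733717)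 (nat_lit 152) (nat_lit 778939884914) (nat_lit 1) (nat_lit 5) (nat_lit 2) (nat_lit 5) (nat_lit 3) (nat_lit 4) (nat_lit 245) (nat_lit 212) (nat_lit 143))))))) (XT.nd (nat_lit 1170) (nat_lit 0) (nat_lit 0) (XT.nd (nat_lit 546) (nat_lit 0) (nat_lit 0) (XT.nd (nat_lit 234) (nat_lit 0) (nat_lit 0) (XT.nd (nat_lit 78) (nat_lit 0) (nat_lit 0) (XT.lf (nat_lit 0) (nat_lit 64418628368) (nat_lit 152) (nat_lit 856947376170) (nat_lit 0) (nat_lit 16437600602) (nat_lit 1) (nat_lit 5) (nat_lit 3) (nat_lit 4) (nat_lit 1) (nat_lit 4) (nat_lit 246) (nat_lit 212) (nat_lit 142)) (XT.nd (nat_lit 78) (nat_lit 0) (nat_lit 0) (XT.lf (nat_lit 0) (nat_lit 92934597308) (nat_lit 152) (nat_lit 936541610917) (nat_lit 0) (nat_lit 44953216653) (nat_lit 1) (nat_lit 5) (nat_lit 3) (nat_lit 4) (nat_lit 1) (nat_lit 4) (nat_lit 247) (nat_lit 212) (nat_lit 141)) (XT.lf (nat_lit 0) (nat_lit 125727603445) (nat_lit 152) (nat_lit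 1028075653810) (nat_lit 0) (nat_lit 77745915929) (nat_lit 1) (nat_lit 5) (nat_lit 3) (nat_lit 4) (nat_lit 1) (nat_lit 4) (nat_lit 248) (nat_lit 212) (nat_lit 140)))) (XT.nd (nat_lit 156) (nat_lit 0) (nat_lit 0) (XT.nd (nat_lit 78) (nat_lit 0) (nat_lit 0) (XT.lf (nat_lit 0) (nat_lit 163439249070) (nat_lit 152) (nat_lit 1133340388299) (nat_lit 0) (nat_lit 115457294720) (nat_lit 1) (nat_lit 5) (nat_lit 3) (nat_lit 4) (nat_lit 1) (nat_lit 4) (nat_lit 249) (nat_lit 212) (nat_lit 139)) (XT.lf (nat_lit 0) (nat_lit 206807370731) (nat_lit 152) (nat_lit 1254395341796) (nat_lit 0) (nat_lit 158825184349) (nat_lit 1) (nat_lit 5) (nat_lit 3) (nat_lit 4) (nat_lit 1) (nat_lit 4) (nat_lit 250) (nat_lit 212) (nat_lit 138))) (XT.nd (nat_lit 78) (nat_lit 0) (nat_lit 0) (XT.lf (nat_lit 0) (nat_lit 256680475154) (nat_lit 152) (nat_lit 1393608980784) (nat_lit 0) (nat_lit 208698087007) (nat_lit 1) (nat_lit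 5) (nat_lit 3) (nat_lit 4) (nat_lit 1) (nat_lit 4) (nat_lit 251) (nat_lit 212) (nat_lit 137)) (XT.lf (nat_lit 0) (nat_lit 314034340469) (nat_lit 152) (nat_lit 1553705050373) (nat_lit 0) (nat_lit 266051776874) (nat_lit 1) (nat_lit 5) (nat_lit 3) (nat_lit 4) (nat_lit 1) (nat_lit 4) (nat_lit 252) (nat_lit 212) (nat_lit 136))))) (XT.nd (nat_lit 312) (nat_lit 0) (nat_lit 0) (XT.nd (nat_lit 156) (nat_lit 0) (nat_lit 0) (XT.nd (nat_lit 78) (nat_lit 0) (nat_lit 0) (XT.lf (nat_lit 0) (nat_lit 379991107520) (nat_lit 152) (nat_lit 1737815864968) (nat_lit 0) (nat_lit 332008391361) (nat_lit 1) (nat_lit 5) (nat_lit 3) (nat_lit 4) (nat_lit 1) (nat_lit 4) (nat_lit 253) (nat_lit 212) (nat_lit 135)) (XT.lf (nat_lit 0) (nat_lit 455841234793) (nat_lit 152) (nat_lit 1949543592681) (nat_lit 0) (nat_lit 407858385970) (nat_lit 1) (nat_lit 5) (nat_lit 3) (nat_lit 4) (nat_lit 1) (nat_lit 4) (nat_lit 254) (nat_lit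 212) (nat_lit 134))) (XT.nd (nat_lit 78) (nat_lit 0) (nat_lit 0) (XT.lf (nat_lit 0) (nat_lit 543068746517) (nat_lit 152) (nat_lit 2193030732532) (nat_lit 0) (nat_lit 495085782333) (nat_lit 1) (nat_lit 5) (nat_lit 3) (nat_lit 4) (nat_lit 1) (nat_lit 4) (nat_lit 255) (nat_lit 212) (nat_lit 133)) (XT.lf (nat_lit 0) (nat_lit 643380267920) (nat_lit 152) (nat_lit 2473041163344) (nat_lit 0) (nat_lit 595397203424) (nat_lit 1) (nat_lit 5) (nat_lit 3) (nat_lit 4) (nat_lit 1) (nat_lit 4) (nat_lit 256) (nat_lit 212) (nat_lit 132)))) (XT.nd (nat_lit 156) (nat_lit 0) (nat_lit 0) (XT.nd (nat_lit 78) (nat_lit 0) (nat_lit 0) (XT.lf (nat_lit 0) (nat_lit 758738415727) (nat_lit 152) (nat_lit 2795053350069) (nat_lit 0) (nat_lit 710755264002) (nat_lit 1) (nat_lit 5) (nat_lit 3) (nat_lit 4) (nat_lit 1) (nat_lit 4) (nat_lit 257) (nat_lit 212) (nat_lit 131)) (XT.lf (nat_lit 0) (nat_lit 891400197177) (nat_lit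 152) (nat_lit 3165367531141) (nat_lit 0) (nat_lit 843416969601) (nat_lit 1) (nat_lit 5) (nat_lit 3) (nat_lit 4) (nat_lit 1) (nat_lit 4) (nat_lit 258) (nat_lit 212) (nat_lit 130))) (XT.nd (nat_lit 78) (nat_lit 0) (nat_lit 0) (XT.lf (nat_lit 0) (nat_lit 1043961168864) (nat_lit 152) (nat_lit 3591228984017) (nat_lit 0) (nat_lit 995977875330) (nat_lit 1) (nat_lit 5) (nat_lit 3) (nat_lit 4) (nat_lit 1) (nat_lit 4) (nat_lit 259) (nat_lit 212) (nat_lit 129)) (XT.lf (nat_lit 0) (nat_lit 1219406219364) (nat_lit 152) (nat_lit 4080969780601) (nat_lit 0) (nat_lit 1171422868475) (nat_lit 1) (nat_lit 5) (nat_lit 3) (nat_lit 4) (nat_lit 1) (nat_lit 4) (nat_lit 260) (nat_lit 212) (nat_lit 128)))))) (XT.nd (nat_lit 702) (nat_lit 0) (nat_lit 0) (XT.nd (nat_lit 234) (nat_lit 0) (nat_lit 0) (XT.nd (nat_lit 78) (nat_lit 0) (nat_lit 0) (XT.lf (nat_lit 0) (nat_lit 1421167969230) (nat_lit 152) (nat_lit 4644171806043)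 (nat_lit 0) (nat_lit 1373184568467) (nat_lit 1) (nat_lit 5) (nat_lit 3) (nat_lit 4) (nat_lit 1) (nat_lit 4) (nat_lit 261) (nat_lit 212) (nat_lit 127)) (XT.nd (nat_lit 78) (nat_lit 0) (nat_lit 0) (XT.lf (nat_lit 0) (nat_lit 1653193930959) (nat_lit 152) (nat_lit 5291854230406) (nat_lit 0) (nat_lit 1605210486829) (nat_lit 1) (nat_lit 5) (nat_lit 3) (nat_lit 4) (nat_lit 1) (nat_lit 4) (nat_lit 262) (nat_lit 212) (nat_lit 126)) (XT.lf (nat_lit 0) (nat_lit 1920023742934) (nat_lit 152) (nat_lit 6036689101125) (nat_lit 0) (nat_lit 1872040261092) (nat_lit 1) (nat_lit 5) (nat_lit 3) (nat_lit 4) (nat_lit 1) (nat_lit 4) (nat_lit 263) (nat_lit 212) (nat_lit 125)))) (XT.nd (nat_lit 156) (nat_lit 0) (nat_lit 0) (XT.nd (nat_lit 78) (nat_lit 0) (nat_lit 0) (XT.lf (nat_lit 0) (nat_lit 2226877988432) (nat_lit 152) (nat_lit 6893249274363) (nat_lit 0) (nat_lit 2178894473798) (nat_lit 1) (nat_lit 5) (nat_lit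 3) (nat_lit 4) (nat_lit 1) (nat_lit 4) (nat_lit 264) (nat_lit 212) (nat_lit 124)) (XT.lf (nat_lit 0) (nat_lit 2579760337474) (nat_lit 152) (nat_lit 7878293536121) (nat_lit 0) (nat_lit 2531776794324) (nat_lit 1) (nat_lit 5) (nat_lit 3) (nat_lit 4) (nat_lit 1) (nat_lit 4) (nat_lit 265) (nat_lit 212) (nat_lit 123))) (XT.nd (nat_lit 78) (nat_lit 0) (nat_lit 0) (XT.lf (nat_lit 0) (nat_lit 2985575009932) (nat_lit 152) (nat_lit 9011094491519) (nat_lit 0) (nat_lit 2937591441986) (nat_lit 1) (nat_lit 5) (nat_lit 3) (nat_lit 4) (nat_lit 1) (nat_lit 4) (nat_lit 266) (nat_lit 212) (nat_lit 122)) (XT.lf (nat_lit 0) (nat_lit 3452261858093) (nat_lit 152) (nat_lit 10313815637511) (nat_lit 0) (nat_lit 3404278268586) (nat_lit 1) (nat_lit 5) (nat_lit 3) (nat_lit 4) (nat_lit 1) (nat_lit 4) (nat_lit 267) (nat_lit 212) (nat_lit 121))))) (XT.nd (nat_lit 312) (nat_lit 0) (nat_lit 0) (XT.nd (nat_lit 156)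 (nat_lit 0) (nat_lit 0) (XT.nd (nat_lit 78) (nat_lit 0) (nat_lit 0) (XT.lf (nat_lit 0) (nat_lit 5315917316925) (nat_lit 152) (nat_lit 15516069944623) (nat_lit 0) (nat_lit 5267933678187) (nat_lit 1) (nat_lit 5) (nat_lit 3) (nat_lit 4) (nat_lit 1) (nat_lit 4) (nat_lit 270) (nat_lit 212) (nat_lit 118)) (XT.lf (nat_lit 0) (nat_lit 6132155439289) (nat_lit 152) (nat_lit 17794537543576) (nat_lit 0) (nat_lit 6084171788224) (nat_lit 1) (nat_lit 5) (nat_lit 3) (nat_lit 4) (nat_lit 1) (nat_lit 4) (nat_lit 271) (nat_lit 212) (nat_lit 117))) (XT.nd (nat_lit 78) (nat_lit 0) (nat_lit 0) (XT.lf (nat_lit 0) (nat_lit 7070829267497) (nat_lit 152) (nat_lit 20414775305879) (nat_lit 0) (nat_lit 7022845605711) (nat_lit 1) (nat_lit 5) (nat_lit 3) (nat_lit 4) (nat_lit 1) (nat_lit 4) (nat_lit 272) (nat_lit 212) (nat_lit 116)) (XT.lf (nat_lit 0) (nat_lit 8150304159056) (nat_lit 152) (nat_lit 23428048752970)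 (nat_lit 0) (nat_lit 8102320487949) (nat_lit 1) (nat_lit 5) (nat_lit 3) (nat_lit 4) (nat_lit 1) (nat_lit 4) (nat_lit 273) (nat_lit 212) (nat_lit 115)))) (XT.nd (nat_lit 26520) (nat_lit 0) (nat_lit 1064) (XT.nd (nat_lit 78) (nat_lit 0) (nat_lit 0) (XT.lf (nat_lit 0) (nat_lit 9391700274888) (nat_lit 152) (nat_lit 26893313234901) (nat_lit 0) (nat_lit 9343716595675) (nat_lit 1) (nat_lit 5) (nat_lit 3) (nat_lit 4) (nat_lit 1) (nat_lit 4) (nat_lit 274) (nat_lit 212) (nat_lit 114)) (XT.lf (nat_lit 0) (nat_lit 10819305799868) (nat_lit 152) (nat_lit 30878367404579) (nat_lit 0) (nat_lit 10771322113607) (nat_lit 1) (nat_lit 5) (nat_lit 3) (nat_lit 4) (nat_lit 1) (nat_lit 4) (nat_lit 275) (nat_lit 212) (nat_lit 113))) (XT.nd (nat_lit 78) (nat_lit 0) (nat_lit 0) (XT.lf (nat_lit 0) (nat_lit 4972230322) (nat_lit 0) (nat_lit 4972230322) (nat_lit 228) (nat_lit 2754428643) (nat_lit 15) (nat_lit 5)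 (nat_lit 15) (nat_lit 3) (nat_lit 18) (nat_lit 3) (nat_lit 213) (nat_lit 213) (nat_lit 174)) (XT.lf (nat_lit 0) (nat_lit 21473954582) (nat_lit 228) (nat_lit 5560430791) (nat_lit 304) (nat_lit 252812080) (nat_lit 15) (nat_lit 5) (nat_lit 18) (nat_lit 3) (nat_lit 19) (nat_lit 5) (nat_lit 214) (nat_lit 213) (nat_lit 173))))))))
noncomputable def xc40 : XT := (XT.nd (nat_lit 2262) (nat_lit 152) (nat_lit 0) (XT.nd (nat_lit 1092) (nat_lit 228) (nat_lit 0) (XT.nd (nat_lit 546) (nat_lit 304) (nat_lit 0) (XT.nd (nat_lit 234) (nat_lit 228) (nat_lit 0) (XT.nd (nat_lit 78) (nat_lit 152) (nat_lit 0) (XT.lf (nat_lit 76) (nat_lit 5853976777) (nat_lit 0) (nat_lit 18144436593) (nat_lit 304) (nat_lit 5356616253) (nat_lit 16) (nat_lit 5) (nat_lit 15) (nat_lit 5) (nat_lit 19) (nat_lit 5) (nat_lit 215) (nat_lit 213) (nat_lit 172)) (XT.nd (nat_lit 78) (nat_lit 152) (nat_lit 0) (XT.lf (nat_lit 76) (nat_lit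 19595889520) (nat_lit 0) (nat_lit 7583500101) (nat_lit 304) (nat_lit 4512187992) (nat_lit 16) (nat_lit 5) (nat_lit 15) (nat_lit 5) (nat_lit 19) (nat_lit 5) (nat_lit 216) (nat_lit 213) (nat_lit 171)) (XT.lf (nat_lit 0) (nat_lit 901557856) (nat_lit 228) (nat_lit 30151148453) (nat_lit 304) (nat_lit 3293812211) (nat_lit 13) (nat_lit 5) (nat_lit 16) (nat_lit 5) (nat_lit 17) (nat_lit 5) (nat_lit 217) (nat_lit 213) (nat_lit 170)))) (XT.nd (nat_lit 156) (nat_lit 152) (nat_lit 0) (XT.nd (nat_lit 78) (nat_lit 76) (nat_lit 0) (XT.lf (nat_lit 0) (nat_lit 16801537844) (nat_lit 228) (nat_lit 19672469639) (nat_lit 304) (nat_lit 780810093) (nat_lit 13) (nat_lit 5) (nat_lit 16) (nat_lit 5) (nat_lit 17) (nat_lit 5) (nat_lit 218) (nat_lit 213) (nat_lit 169)) (XT.lf (nat_lit 0) (nat_lit 1912138553) (nat_lit 304) (nat_lit 5609759360) (nat_lit 76) (nat_lit 33065873126) (nat_lit 12) (nat_lit 5) (nat_lit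 16) (nat_lit 5) (nat_lit 13) (nat_lit 5) (nat_lit 219) (nat_lit 213) (nat_lit 168))) (XT.nd (nat_lit 78) (nat_lit 0) (nat_lit 0) (XT.lf (nat_lit 0) (nat_lit 5733512382) (nat_lit 228) (nat_lit 32101858990) (nat_lit 76) (nat_lit 6459164019) (nat_lit 10) (nat_lit 5) (nat_lit 13) (nat_lit 5) (nat_lit 11) (nat_lit 5) (nat_lit 220) (nat_lit 213) (nat_lit 167)) (XT.lf (nat_lit 0) (nat_lit 10786141630) (nat_lit 228) (nat_lit 15598654457) (nat_lit 76) (nat_lit 22073905284) (nat_lit 10) (nat_lit 5) (nat_lit 13) (nat_lit 5) (nat_lit 11) (nat_lit 5) (nat_lit 221) (nat_lit 213) (nat_lit 166))))) (XT.nd (nat_lit 234) (nat_lit 152) (nat_lit 0) (XT.nd (nat_lit 78) (nat_lit 0) (nat_lit 0) (XT.lf (nat_lit 0) (nat_lit 3701651877) (nat_lit 152) (nat_lit 13041910567) (nat_lit 228) (nat_lit 36481977287) (nat_lit 8) (nat_lit 5) (nat_lit 10) (nat_lit 5) (nat_lit 11) (nat_lit 5) (nat_lit 222) (nat_lit 213)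 (nat_lit 165)) (XT.nd (nat_lit 78) (nat_lit 0) (nat_lit 0) (XT.lf (nat_lit 0) (nat_lit 24538214279) (nat_lit 228) (nat_lit 31077626905) (nat_lit 76) (nat_lit 2950091339) (nat_lit 8) (nat_lit 5) (nat_lit 11) (nat_lit 5) (nat_lit 9) (nat_lit 4) (nat_lit 223) (nat_lit 213) (nat_lit 164)) (XT.lf (nat_lit 0) (nat_lit 34117949049) (nat_lit 228) (nat_lit 10492813900) (nat_lit 76) (nat_lit 20004300563) (nat_lit 8) (nat_lit 5) (nat_lit 11) (nat_lit 5) (nat_lit 9) (nat_lit 4) (nat_lit 224) (nat_lit 213) (nat_lit 163)))) (XT.nd (nat_lit 156) (nat_lit 76) (nat_lit 0) (XT.nd (nat_lit 78) (nat_lit 0) (nat_lit 0) (XT.lf (nat_lit 0) (nat_lit 14460729327) (nat_lit 76) (nat_lit 31268217279) (nat_lit 152) (nat_lit 25753526114) (nat_lit 7) (nat_lit 5) (nat_lit 8) (nat_lit 5) (nat_lit 9) (nat_lit 4) (nat_lit 225) (nat_lit 213) (nat_lit 162)) (XT.lf (nat_lit 0) (nat_lit 44330457653) (nat_lit 76) (nat_lit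 15295471398) (nat_lit 152) (nat_lit 19672460891) (nat_lit 7) (nat_lit 5) (nat_lit 8) (nat_lit 5) (nat_lit 9) (nat_lit 4) (nat_lit 226) (nat_lit 213) (nat_lit 161))) (XT.nd (nat_lit 78) (nat_lit 76) (nat_lit 0) (XT.lf (nat_lit 0) (nat_lit 75731031920) (nat_lit 152) (nat_lit 9739116630) (nat_lit 0) (nat_lit 2798051041) (nat_lit 7) (nat_lit 5) (nat_lit 9) (nat_lit 4) (nat_lit 7) (nat_lit 4) (nat_lit 227) (nat_lit 213) (nat_lit 160)) (XT.lf (nat_lit 0) (nat_lit 20352534131) (nat_lit 76) (nat_lit 75467276002) (nat_lit 76) (nat_lit 2528519545) (nat_lit 6) (nat_lit 4) (nat_lit 7) (nat_lit 5) (nat_lit 7) (nat_lit 4) (nat_lit 228) (nat_lit 213) (nat_lit 159)))))) (XT.nd (nat_lit 546) (nat_lit 76) (nat_lit 0) (XT.nd (nat_lit 234) (nat_lit 0) (nat_lit 0) (XT.nd (nat_lit 78) (nat_lit 76) (nat_lit 0) (XT.lf (nat_lit 0) (nat_lit 8712016395) (nat_lit 152) (nat_lit 54212943447) (nat_lit 76) (nat_lit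 46880234124) (nat_lit 5) (nat_lit 5) (nat_lit 7) (nat_lit 5) (nat_lit 6) (nat_lit 4) (nat_lit 229) (nat_lit 213) (nat_lit 158)) (XT.nd (nat_lit 78) (nat_lit 76) (nat_lit 0) (XT.lf (nat_lit 0) (nat_lit 21377018446) (nat_lit 152) (nat_lit 26987556205) (nat_lit 76) (nat_lit 74598387028) (nat_lit 5) (nat_lit 5) (nat_lit 7) (nat_lit 5) (nat_lit 6) (nat_lit 4) (nat_lit 230) (nat_lit 213) (nat_lit 157)) (XT.lf (nat_lit 0) (nat_lit 4739698101) (nat_lit 76) (nat_lit 31395949108) (nat_lit 152) (nat_lit 101929686162) (nat_lit 4) (nat_lit 5) (nat_lit 5) (nat_lit 5) (nat_lit 6) (nat_lit 4) (nat_lit 231) (nat_lit 213) (nat_lit 156)))) (XT.nd (nat_lit 156) (nat_lit 0) (nat_lit 0) (XT.nd (nat_lit 78) (nat_lit 0) (nat_lit 0) (XT.lf (nat_lit 0) (nat_lit 44255349489) (nat_lit 76) (nat_lit 10261206369) (nat_lit 152) (nat_lit 100705249765) (nat_lit 4) (nat_lit 5) (nat_lit 5) (nat_lit 5) (nat_lit 6) (nat_lit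 4) (nat_lit 232) (nat_lit 213) (nat_lit 155)) (XT.lf (nat_lit 0) (nat_lit 76234131516) (nat_lit 152) (nat_lit 85838412358) (nat_lit 0) (nat_lit 12792290568) (nat_lit 4) (nat_lit 5) (nat_lit 6) (nat_lit 4) (nat_lit 4) (nat_lit 4) (nat_lit 233) (nat_lit 213) (nat_lit 154))) (XT.nd (nat_lit 78) (nat_lit 0) (nat_lit 0) (XT.lf (nat_lit 0) (nat_lit 101696241150) (nat_lit 152) (nat_lit 57432826181) (nat_lit 0) (nat_lit 38252228949) (nat_lit 4) (nat_lit 5) (nat_lit 6) (nat_lit 4) (nat_lit 4) (nat_lit 4) (nat_lit 234) (nat_lit 213) (nat_lit 153)) (XT.lf (nat_lit 0) (nat_lit 130976161796) (nat_lit 152) (nat_lit 24769041460) (nat_lit 0) (nat_lit 67530261548) (nat_lit 4) (nat_lit 5) (nat_lit 6) (nat_lit 4) (nat_lit 4) (nat_lit 4) (nat_lit 235) (nat_lit 213) (nat_lit 152))))) (XT.nd (nat_lit 312) (nat_lit 0) (nat_lit 0) (XT.nd (nat_lit 156) (nat_lit 0) (nat_lit 0) (XT.nd (nat_lit 78) (nat_lit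 0) (nat_lit 0) (XT.lf (nat_lit 0) (nat_lit 14042144675) (nat_lit 76) (nat_lit 151186072058) (nat_lit 76) (nat_lit 87738530031) (nat_lit 3) (nat_lit 4) (nat_lit 4) (nat_lit 5) (nat_lit 4) (nat_lit 4) (nat_lit 236) (nat_lit 213) (nat_lit 151)) (XT.lf (nat_lit 0) (nat_lit 61456520439) (nat_lit 76) (nat_lit 144455075782) (nat_lit 76) (nat_lit 81006106120) (nat_lit 3) (nat_lit 4) (nat_lit 4) (nat_lit 5) (nat_lit 4) (nat_lit 4) (nat_lit 237) (nat_lit 213) (nat_lit 150))) (XT.nd (nat_lit 78) (nat_lit 0) (nat_lit 0) (XT.lf (nat_lit 0) (nat_lit 115981147532) (nat_lit 76) (nat_lit 136715266371) (nat_lit 76) (nat_lit 73265055288) (nat_lit 3) (nat_lit 4) (nat_lit 4) (nat_lit 5) (nat_lit 4) (nat_lit 4) (nat_lit 238) (nat_lit 213) (nat_lit 149)) (XT.lf (nat_lit 0) (nat_lit 178682812135) (nat_lit 76) (nat_lit 127815212771) (nat_lit 76) (nat_lit 64363922191) (nat_lit 3) (nat_lit 4) (nat_lit 4) (nat_lit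 5) (nat_lit 4) (nat_lit 4) (nat_lit 239) (nat_lit 213) (nat_lit 148)))) (XT.nd (nat_lit 156) (nat_lit 0) (nat_lit 0) (XT.nd (nat_lit 78) (nat_lit 0) (nat_lit 0) (XT.lf (nat_lit 0) (nat_lit 250788285946) (nat_lit 76) (nat_lit 117580783500) (nat_lit 76) (nat_lit 54128554227) (nat_lit 3) (nat_lit 4) (nat_lit 4) (nat_lit 5) (nat_lit 4) (nat_lit 4) (nat_lit 240) (nat_lit 213) (nat_lit 147)) (XT.lf (nat_lit 0) (nat_lit 333708328237) (nat_lit 76) (nat_lit 105811739723) (nat_lit 76) (nat_lit 42358694196) (nat_lit 3) (nat_lit 4) (nat_lit 4) (nat_lit 5) (nat_lit 4) (nat_lit 4) (nat_lit 241) (nat_lit 213) (nat_lit 146))) (XT.nd (nat_lit 78) (nat_lit 0) (nat_lit 0) (XT.lf (nat_lit 0) (nat_lit 429065287661) (nat_lit 76) (nat_lit 92277817541) (nat_lit 76) (nat_lit 28824062227) (nat_lit 3) (nat_lit 4) (nat_lit 4) (nat_lit 5) (nat_lit 4) (nat_lit 4) (nat_lit 242) (nat_lit 213) (nat_lit 145)) (XT.lf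 (nat_lit 0) (nat_lit 538724843859) (nat_lit 76) (nat_lit 76714222824) (nat_lit 76) (nat_lit 13259850304) (nat_lit 3) (nat_lit 4) (nat_lit 4) (nat_lit 5) (nat_lit 4) (nat_lit 4) (nat_lit 243) (nat_lit 213) (nat_lit 144))))))) (XT.nd (nat_lit 1170) (nat_lit 0) (nat_lit 0) (XT.nd (nat_lit 546) (nat_lit 0) (nat_lit 0) (XT.nd (nat_lit 234) (nat_lit 0) (nat_lit 0) (XT.nd (nat_lit 78) (nat_lit 76) (nat_lit 0) (XT.lf (nat_lit 0) (nat_lit 4225511087) (nat_lit 152) (nat_lit 54370060381) (nat_lit 76) (nat_lit 660386119810) (nat_lit 2) (nat_lit 5) (nat_lit 4) (nat_lit 5) (nat_lit 3) (nat_lit 4) (nat_lit 244) (nat_lit 213) (nat_lit 143)) (XT.nd (nat_lit 78) (nat_lit 76) (nat_lit 0) (XT.lf (nat_lit 0) (nat_lit 22975697067) (nat_lit 152) (nat_lit 14057627221) (nat_lit 76) (nat_lit 785678910230) (nat_lit 2) (nat_lit 5) (nat_lit 4) (nat_lit 5) (nat_lit 3) (nat_lit 4) (nat_lit 245) (nat_lit 213) (nat_lit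 142)) (XT.lf (nat_lit 0) (nat_lit 35457699607) (nat_lit 76) (nat_lit 10548570786) (nat_lit 152) (nat_lit 895775912101) (nat_lit 1) (nat_lit 5) (nat_lit 2) (nat_lit 5) (nat_lit 3) (nat_lit 4) (nat_lit 246) (nat_lit 213) (nat_lit 141)))) (XT.nd (nat_lit 156) (nat_lit 0) (nat_lit 0) (XT.nd (nat_lit 78) (nat_lit 0) (nat_lit 0) (XT.lf (nat_lit 0) (nat_lit 74085278933) (nat_lit 152) (nat_lit 985482236805) (nat_lit 0) (nat_lit 18906031430) (nat_lit 1) (nat_lit 5) (nat_lit 3) (nat_lit 4) (nat_lit 1) (nat_lit 4) (nat_lit 247) (nat_lit 213) (nat_lit 140)) (XT.lf (nat_lit 0) (nat_lit 106878140218) (nat_lit 152) (nat_lit 1077016551867) (nat_lit 0) (nat_lit 51698625879) (nat_lit 1) (nat_lit 5) (nat_lit 3) (nat_lit 4) (nat_lit 1) (nat_lit 4) (nat_lit 248) (nat_lit 213) (nat_lit 139))) (XT.nd (nat_lit 78) (nat_lit 0) (nat_lit 0) (XT.lf (nat_lit 0) (nat_lit 144589659886) (nat_lit 152) (nat_lit 1182281523023)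 (nat_lit 0) (nat_lit 89409913517) (nat_lit 1) (nat_lit 5) (nat_lit 3) (nat_lit 4) (nat_lit 1) (nat_lit 4) (nat_lit 249) (nat_lit 213) (nat_lit 138)) (XT.lf (nat_lit 0) (nat_lit 187957672018) (nat_lit 152) (nat_lit 1303336682319) (nat_lit 0) (nat_lit 132777723883) (nat_lit 1) (nat_lit 5) (nat_lit 3) (nat_lit 4) (nat_lit 1) (nat_lit 4) (nat_lit 250) (nat_lit 213) (nat_lit 137))))) (XT.nd (nat_lit 312) (nat_lit 0) (nat_lit 0) (XT.nd (nat_lit 156) (nat_lit 0) (nat_lit 0) (XT.nd (nat_lit 78) (nat_lit 0) (nat_lit 0) (XT.lf (nat_lit 0) (nat_lit 237830681198) (nat_lit 152) (nat_lit 1442550500261) (nat_lit 0) (nat_lit 182650557615) (nat_lit 1) (nat_lit 5) (nat_lit 3) (nat_lit 4) (nat_lit 1) (nat_lit 4) (nat_lit 251) (nat_lit 213) (nat_lit 136)) (XT.lf (nat_lit 0) (nat_lit 295184463694) (nat_lit 152) (nat_lit 1602646725463) (nat_lit 0) (nat_lit 240004187547) (nat_lit 1) (nat_lit 5) (nat_lit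 3) (nat_lit 4) (nat_lit 1) (nat_lit 4) (nat_lit 252) (nat_lit 213) (nat_lit 135))) (XT.nd (nat_lit 78) (nat_lit 0) (nat_lit 0) (XT.lf (nat_lit 0) (nat_lit 361141158729) (nat_lit 152) (nat_lit 1786757675374) (nat_lit 0) (nat_lit 305960749918) (nat_lit 1) (nat_lit 5) (nat_lit 3) (nat_lit 4) (nat_lit 1) (nat_lit 4) (nat_lit 253) (nat_lit 213) (nat_lit 134)) (XT.lf (nat_lit 0) (nat_lit 436991223378) (nat_lit 152) (nat_lit 1998485520752) (nat_lit 0) (nat_lit 381810699207) (nat_lit 1) (nat_lit 5) (nat_lit 3) (nat_lit 4) (nat_lit 1) (nat_lit 4) (nat_lit 254) (nat_lit 213) (nat_lit 133)))) (XT.nd (nat_lit 156) (nat_lit 0) (nat_lit 0) (XT.nd (nat_lit 78) (nat_lit 0) (nat_lit 0) (XT.lf (nat_lit 0) (nat_lit 524218680647) (nat_lit 152) (nat_lit 2241972762921) (nat_lit 0) (nat_lit 469038056162) (nat_lit 1) (nat_lit 5) (nat_lit 3) (nat_lit 4) (nat_lit 1) (nat_lit 4) (nat_lit 255) (nat_lit 213)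 (nat_lit 132)) (XT.lf (nat_lit 0) (nat_lit 624530154698) (nat_lit 152) (nat_lit 2521983282706) (nat_lit 0) (nat_lit 569349442985) (nat_lit 1) (nat_lit 5) (nat_lit 3) (nat_lit 4) (nat_lit 1) (nat_lit 4) (nat_lit 256) (nat_lit 213) (nat_lit 131))) (XT.nd (nat_lit 78) (nat_lit 0) (nat_lit 0) (XT.lf (nat_lit 0) (nat_lit 739888261329) (nat_lit 152) (nat_lit 2843995546797) (nat_lit 0) (nat_lit 684707473765) (nat_lit 1) (nat_lit 5) (nat_lit 3) (nat_lit 4) (nat_lit 1) (nat_lit 4) (nat_lit 257) (nat_lit 213) (nat_lit 130)) (XT.lf (nat_lit 0) (nat_lit 872550006974) (nat_lit 152) (nat_lit 3214309795145) (nat_lit 0) (nat_lit 817369153452) (nat_lit 1) (nat_lit 5) (nat_lit 3) (nat_lit 4) (nat_lit 1) (nat_lit 4) (nat_lit 258) (nat_lit 213) (nat_lit 129)))))) (XT.nd (nat_lit 546) (nat_lit 0) (nat_lit 0) (XT.nd (nat_lit 234) (nat_lit 0) (nat_lit 0) (XT.nd (nat_lit 78) (nat_lit 0) (nat_lit 0) (XT.lf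 (nat_lit 0) (nat_lit 1025110947526) (nat_lit 152) (nat_lit 3640171306522) (nat_lit 0) (nat_lit 969930036650) (nat_lit 1) (nat_lit 5) (nat_lit 3) (nat_lit 4) (nat_lit 1) (nat_lit 4) (nat_lit 259) (nat_lit 213) (nat_lit 128)) (XT.nd (nat_lit 78) (nat_lit 0) (nat_lit 0) (XT.lf (nat_lit 0) (nat_lit 1200555970952) (nat_lit 152) (nat_lit 4129912153976) (nat_lit 0) (nat_lit 1145375010202) (nat_lit 1) (nat_lit 5) (nat_lit 3) (nat_lit 4) (nat_lit 1) (nat_lit 4) (nat_lit 260) (nat_lit 213) (nat_lit 127)) (XT.lf (nat_lit 0) (nat_lit 1402317697275) (nat_lit 152) (nat_lit 4693114223653) (nat_lit 0) (nat_lit 1347136693157) (nat_lit 1) (nat_lit 5) (nat_lit 3) (nat_lit 4) (nat_lit 1) (nat_lit 4) (nat_lit 261) (nat_lit 213) (nat_lit 126)))) (XT.nd (nat_lit 156) (nat_lit 0) (nat_lit 0) (XT.nd (nat_lit 78) (nat_lit 0) (nat_lit 0) (XT.lf (nat_lit 0) (nat_lit 1634343638533) (nat_lit 152) (nat_lit 5340796686482)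 (nat_lit 0) (nat_lit 1579162596704) (nat_lit 1) (nat_lit 5) (nat_lit 3) (nat_lit 4) (nat_lit 1) (nat_lit 4) (nat_lit 262) (nat_lit 213) (nat_lit 125)) (XT.lf (nat_lit 0) (nat_lit 1901173432707) (nat_lit 152) (nat_lit 6085631590648) (nat_lit 0) (nat_lit 1845992358085) (nat_lit 1) (nat_lit 5) (nat_lit 3) (nat_lit 4) (nat_lit 1) (nat_lit 4) (nat_lit 263) (nat_lit 213) (nat_lit 124))) (XT.nd (nat_lit 78) (nat_lit 0) (nat_lit 0) (XT.lf (nat_lit 0) (nat_lit 2208027662725) (nat_lit 152) (nat_lit 6942191792972) (nat_lit 0) (nat_lit 2152846559588) (nat_lit 1) (nat_lit 5) (nat_lit 3) (nat_lit 4) (nat_lit 1) (nat_lit 4) (nat_lit 264) (nat_lit 213) (nat_lit 123)) (XT.lf (nat_lit 0) (nat_lit 2560909998307) (nat_lit 152) (nat_lit 7927236080021) (nat_lit 0) (nat_lit 2505728870373) (nat_lit 1) (nat_lit 5) (nat_lit 3) (nat_lit 4) (nat_lit 1) (nat_lit 4) (nat_lit 265) (nat_lit 213) (nat_lit 122)))))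 (XT.nd (nat_lit 390) (nat_lit 0) (nat_lit 0) (XT.nd (nat_lit 156) (nat_lit 0) (nat_lit 0) (XT.nd (nat_lit 78) (nat_lit 0) (nat_lit 0) (XT.lf (nat_lit 0) (nat_lit 2966724659060) (nat_lit 152) (nat_lit 9060037057412) (nat_lit 0) (nat_lit 2911543509565) (nat_lit 1) (nat_lit 5) (nat_lit 3) (nat_lit 4) (nat_lit 1) (nat_lit 4) (nat_lit 266) (nat_lit 213) (nat_lit 121)) (XT.lf (nat_lit 0) (nat_lit 3433411497043) (nat_lit 152) (nat_lit 10362758222527) (nat_lit 0) (nat_lit 3378230328799) (nat_lit 1) (nat_lit 5) (nat_lit 3) (nat_lit 4) (nat_lit 1) (nat_lit 4) (nat_lit 267) (nat_lit 213) (nat_lit 120))) (XT.nd (nat_lit 156) (nat_lit 0) (nat_lit 0) (XT.lf (nat_lit 0) (nat_lit 3970101341696) (nat_lit 152) (nat_lit 11860887598164) (nat_lit 0) (nat_lit 3914920157148) (nat_lit 1) (nat_lit 5) (nat_lit 3) (nat_lit 4) (nat_lit 1) (nat_lit 4) (nat_lit 268) (nat_lit 213) (nat_lit 119)) (XT.lf (nat_lit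 0) (nat_lit 5297066932636) (nat_lit 152) (nat_lit 15565012573304) (nat_lit 0) (nat_lit 5241885721583) (nat_lit 1) (nat_lit 5) (nat_lit 3) (nat_lit 4) (nat_lit 1) (nat_lit 4) (nat_lit 270) (nat_lit 213) (nat_lit 117)))) (XT.nd (nat_lit 156) (nat_lit 0) (nat_lit 0) (XT.nd (nat_lit 78) (nat_lit 0) (nat_lit 0) (XT.lf (nat_lit 0) (nat_lit 6113305049181) (nat_lit 152) (nat_lit 17843480183190) (nat_lit 0) (nat_lit 6058123827408) (nat_lit 1) (nat_lit 5) (nat_lit 3) (nat_lit 4) (nat_lit 1) (nat_lit 4) (nat_lit 271) (nat_lit 213) (nat_lit 116)) (XT.lf (nat_lit 0) (nat_lit 7051978872328) (nat_lit 152) (nat_lit 20463717955002) (nat_lit 0) (nat_lit 6996797641234) (nat_lit 1) (nat_lit 5) (nat_lit 3) (nat_lit 4) (nat_lit 1) (nat_lit 4) (nat_lit 272) (nat_lit 213) (nat_lit 115))) (XT.nd (nat_lit 78) (nat_lit 0) (nat_lit 0) (XT.lf (nat_lit 0) (nat_lit 8131453759487) (nat_lit 152) (nat_lit 23476991410361)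 (nat_lit 0) (nat_lit 8076272520286) (nat_lit 1) (nat_lit 5) (nat_lit 3) (nat_lit 4) (nat_lit 1) (nat_lit 4) (nat_lit 273) (nat_lit 213) (nat_lit 114)) (XT.lf (nat_lit 0) (nat_lit 9372849871493) (nat_lit 152) (nat_lit 26942255899481) (nat_lit 0) (nat_lit 9317668625244) (nat_lit 1) (nat_lit 5) (nat_lit 3) (nat_lit 4) (nat_lit 1) (nat_lit 4) (nat_lit 274) (nat_lit 213) (nat_lit 113))))))))
noncomputable def xc41 : XT := (XT.nd (nat_lit 2340) (nat_lit 152) (nat_lit 0) (XT.nd (nat_lit 1170) (nat_lit 304) (nat_lit 0) (XT.nd (nat_lit 546) (nat_lit 380) (nat_lit 0) (XT.nd (nat_lit 234) (nat_lit 228) (nat_lit 0) (XT.nd (nat_lit 78) (nat_lit 0) (nat_lit 0) (XT.lf (nat_lit 0) (nat_lit 5757306151) (nat_lit 0) (nat_lit 5757306151) (nat_lit 228) (nat_lit 3075986487) (nat_lit 15) (nat_lit 5) (nat_lit 15) (nat_lit 3) (nat_lit 18) (nat_lit 3) (nat_lit 214) (nat_lit 214) (nat_lit 172)) (XT.nd (nat_lit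 78) (nat_lit 0) (nat_lit 0) (XT.lf (nat_lit 0) (nat_lit 24828713272) (nat_lit 228) (nat_lit 6300599637) (nat_lit 304) (nat_lit 228563892) (nat_lit 15) (nat_lit 5) (nat_lit 18) (nat_lit 3) (nat_lit 19) (nat_lit 5) (nat_lit 215) (nat_lit 214) (nat_lit 171)) (XT.lf (nat_lit 76) (nat_lit 6821701076) (nat_lit 0) (nat_lit 20896416466) (nat_lit 304) (nat_lit 6020131333) (nat_lit 16) (nat_lit 5) (nat_lit 15) (nat_lit 5) (nat_lit 19) (nat_lit 5) (nat_lit 216) (nat_lit 214) (nat_lit 170)))) (XT.nd (nat_lit 156) (nat_lit 76) (nat_lit 0) (XT.nd (nat_lit 78) (nat_lit 152) (nat_lit 0) (XT.lf (nat_lit 76) (nat_lit 22613210150) (nat_lit 0) (nat_lit 8747385450) (nat_lit 304) (nat_lit 5067296749) (nat_lit 16) (nat_lit 5) (nat_lit 15) (nat_lit 5) (nat_lit 19) (nat_lit 5) (nat_lit 217) (nat_lit 214) (nat_lit 169)) (XT.lf (nat_lit 0) (nat_lit 1128858047) (nat_lit 228) (nat_lit 34675310843) (nat_lit 304)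 (nat_lit 3678748456) (nat_lit 13) (nat_lit 5) (nat_lit 16) (nat_lit 5) (nat_lit 17) (nat_lit 5) (nat_lit 218) (nat_lit 214) (nat_lit 168))) (XT.nd (nat_lit 78) (nat_lit 76) (nat_lit 0) (XT.lf (nat_lit 0) (nat_lit 19401826358) (nat_lit 228) (nat_lit 22624635843) (nat_lit 304) (nat_lit 803031097) (nat_lit 13) (nat_lit 5) (nat_lit 16) (nat_lit 5) (nat_lit 17) (nat_lit 5) (nat_lit 219) (nat_lit 214) (nat_lit 167)) (XT.lf (nat_lit 0) (nat_lit 2274134824) (nat_lit 304) (nat_lit 6373244895) (nat_lit 76) (nat_lit 38016264491) (nat_lit 12) (nat_lit 5) (nat_lit 16) (nat_lit 5) (nat_lit 13) (nat_lit 5) (nat_lit 220) (nat_lit 214) (nat_lit 166))))) (XT.nd (nat_lit 312) (nat_lit 76) (nat_lit 0) (XT.nd (nat_lit 156) (nat_lit 152) (nat_lit 0) (XT.nd (nat_lit 78) (nat_lit 0) (nat_lit 0) (XT.lf (nat_lit 0) (nat_lit 6662239070) (nat_lit 228) (nat_lit 36831800193) (nat_lit 76) (nat_lit 7433487844) (nat_lit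 10) (nat_lit 5) (nat_lit 13) (nat_lit 5) (nat_lit 11) (nat_lit 5) (nat_lit 221) (nat_lit 214) (nat_lit 165)) (XT.lf (nat_lit 0) (nat_lit 12463801857) (nat_lit 228) (nat_lit 17864245976) (nat_lit 76) (nat_lit 25389729530) (nat_lit 10) (nat_lit 5) (nat_lit 13) (nat_lit 5) (nat_lit 11) (nat_lit 5) (nat_lit 222) (nat_lit 214) (nat_lit 164))) (XT.nd (nat_lit 78) (nat_lit 0) (nat_lit 0) (XT.lf (nat_lit 0) (nat_lit 4327733279) (nat_lit 152) (nat_lit 14982243544) (nat_lit 228) (nat_lit 41890493724) (nat_lit 8) (nat_lit 5) (nat_lit 10) (nat_lit 5) (nat_lit 11) (nat_lit 5) (nat_lit 223) (nat_lit 214) (nat_lit 163)) (XT.lf (nat_lit 0) (nat_lit 28267242609) (nat_lit 228) (nat_lit 35670511671) (nat_lit 76) (nat_lit 3405242700) (nat_lit 8) (nat_lit 5) (nat_lit 11) (nat_lit 5) (nat_lit 9) (nat_lit 4) (nat_lit 224) (nat_lit 214) (nat_lit 162)))) (XT.nd (nat_lit 156) (nat_lit 0) (nat_lit 0) (XT.nd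 (nat_lit 78) (nat_lit 76) (nat_lit 0) (XT.lf (nat_lit 0) (nat_lit 39277638091) (nat_lit 228) (nat_lit 12006945316) (nat_lit 76) (nat_lit 23015934916) (nat_lit 8) (nat_lit 5) (nat_lit 11) (nat_lit 5) (nat_lit 9) (nat_lit 4) (nat_lit 225) (nat_lit 214) (nat_lit 161)) (XT.lf (nat_lit 0) (nat_lit 16686911637) (nat_lit 76) (nat_lit 35940259084) (nat_lit 152) (nat_lit 29571401274) (nat_lit 7) (nat_lit 5) (nat_lit 8) (nat_lit 5) (nat_lit 9) (nat_lit 4) (nat_lit 226) (nat_lit 214) (nat_lit 160))) (XT.nd (nat_lit 78) (nat_lit 0) (nat_lit 0) (XT.lf (nat_lit 0) (nat_lit 51029654920) (nat_lit 76) (nat_lit 17573974032) (nat_lit 152) (nat_lit 22584065888) (nat_lit 7) (nat_lit 5) (nat_lit 8) (nat_lit 5) (nat_lit 9) (nat_lit 4) (nat_lit 227) (nat_lit 214) (nat_lit 159)) (XT.lf (nat_lit 0) (nat_lit 87120656739) (nat_lit 152) (nat_lit 11152656106) (nat_lit 0) (nat_lit 3230288994) (nat_lit 7) (nat_lit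 5) (nat_lit 9) (nat_lit 4) (nat_lit 7) (nat_lit 4) (nat_lit 228) (nat_lit 214) (nat_lit 158)))))) (XT.nd (nat_lit 546) (nat_lit 76) (nat_lit 0) (XT.nd (nat_lit 234) (nat_lit 76) (nat_lit 0) (XT.nd (nat_lit 78) (nat_lit 76) (nat_lit 0) (XT.lf (nat_lit 0) (nat_lit 23450590994) (nat_lit 76) (nat_lit 86770122227) (nat_lit 76) (nat_lit 2875387316) (nat_lit 6) (nat_lit 4) (nat_lit 7) (nat_lit 5) (nat_lit 7) (nat_lit 4) (nat_lit 229) (nat_lit 214) (nat_lit 157)) (XT.nd (nat_lit 78) (nat_lit 0) (nat_lit 0) (XT.lf (nat_lit 0) (nat_lit 10044492580) (nat_lit 152) (nat_lit 62302873398) (nat_lit 76) (nat_lit 53924537607) (nat_lit 5) (nat_lit 5) (nat_lit 7) (nat_lit 5) (nat_lit 6) (nat_lit 4) (nat_lit 230) (nat_lit 214) (nat_lit 156)) (XT.lf (nat_lit 0) (nat_lit 24605896192) (nat_lit 152) (nat_lit 30999157839) (nat_lit 76) (nat_lit 85798813225) (nat_lit 5) (nat_lit 5) (nat_lit 7) (nat_lit 5) (nat_lit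 6) (nat_lit 4) (nat_lit 231) (nat_lit 214) (nat_lit 155)))) (XT.nd (nat_lit 156) (nat_lit 0) (nat_lit 0) (XT.nd (nat_lit 78) (nat_lit 0) (nat_lit 0) (XT.lf (nat_lit 0) (nat_lit 5485524077) (nat_lit 76) (nat_lit 36091327184) (nat_lit 152) (nat_lit 117194988416) (nat_lit 4) (nat_lit 5) (nat_lit 5) (nat_lit 5) (nat_lit 6) (nat_lit 4) (nat_lit 232) (nat_lit 214) (nat_lit 154)) (XT.lf (nat_lit 0) (nat_lit 50923974747) (nat_lit 76) (nat_lit 11788200984) (nat_lit 152) (nat_lit 115790036647) (nat_lit 4) (nat_lit 5) (nat_lit 5) (nat_lit 5) (nat_lit 6) (nat_lit 4) (nat_lit 233) (nat_lit 214) (nat_lit 153))) (XT.nd (nat_lit 78) (nat_lit 0) (nat_lit 0) (XT.lf (nat_lit 0) (nat_lit 87685460900) (nat_lit 152) (nat_lit 98685754811) (nat_lit 0) (nat_lit 14720787569) (nat_lit 4) (nat_lit 5) (nat_lit 6) (nat_lit 4) (nat_lit 4) (nat_lit 4) (nat_lit 234) (nat_lit 214) (nat_lit 152)) (XT.lf (nat_lit 0)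 (nat_lit 116964772676) (nat_lit 152) (nat_lit 66023037585) (nat_lit 0) (nat_lit 43998457565) (nat_lit 4) (nat_lit 5) (nat_lit 6) (nat_lit 4) (nat_lit 4) (nat_lit 4) (nat_lit 235) (nat_lit 214) (nat_lit 151))))) (XT.nd (nat_lit 312) (nat_lit 0) (nat_lit 0) (XT.nd (nat_lit 156) (nat_lit 0) (nat_lit 0) (XT.nd (nat_lit 78) (nat_lit 76) (nat_lit 0) (XT.lf (nat_lit 0) (nat_lit 150634842895) (nat_lit 152) (nat_lit 28462908528) (nat_lit 0) (nat_lit 77667100149) (nat_lit 4) (nat_lit 5) (nat_lit 6) (nat_lit 4) (nat_lit 4) (nat_lit 4) (nat_lit 236) (nat_lit 214) (nat_lit 150)) (XT.lf (nat_lit 0) (nat_lit 16168978747) (nat_lit 76) (nat_lit 173854977982) (nat_lit 76) (nat_lit 100885993815) (nat_lit 3) (nat_lit 4) (nat_lit 4) (nat_lit 5) (nat_lit 4) (nat_lit 4) (nat_lit 237) (nat_lit 214) (nat_lit 149))) (XT.nd (nat_lit 78) (nat_lit 0) (nat_lit 0) (XT.lf (nat_lit 0) (nat_lit 70692835349) (nat_lit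 76) (nat_lit 166115506815) (nat_lit 76) (nat_lit 93145443151) (nat_lit 3) (nat_lit 4) (nat_lit 4) (nat_lit 5) (nat_lit 4) (nat_lit 4) (nat_lit 238) (nat_lit 214) (nat_lit 148)) (XT.lf (nat_lit 0) (nat_lit 133393829961) (nat_lit 76) (nat_lit 157215747340) (nat_lit 76) (nat_lit 84244744983) (nat_lit 3) (nat_lit 4) (nat_lit 4) (nat_lit 5) (nat_lit 4) (nat_lit 4) (nat_lit 239) (nat_lit 214) (nat_lit 147)))) (XT.nd (nat_lit 156) (nat_lit 0) (nat_lit 0) (XT.nd (nat_lit 78) (nat_lit 0) (nat_lit 0) (XT.lf (nat_lit 0) (nat_lit 205498721172) (nat_lit 76) (nat_lit 146981573829) (nat_lit 76) (nat_lit 74009755218) (nat_lit 3) (nat_lit 4) (nat_lit 4) (nat_lit 5) (nat_lit 4) (nat_lit 4) (nat_lit 240) (nat_lit 214) (nat_lit 146)) (XT.lf (nat_lit 0) (nat_lit 288418256853) (nat_lit 76) (nat_lit 135212752453) (nat_lit 76) (nat_lit 62240224055) (nat_lit 3) (nat_lit 4) (nat_lit 4) (nat_lit 5) (nat_lit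 4) (nat_lit 4) (nat_lit 241) (nat_lit 214) (nat_lit 145))) (XT.nd (nat_lit 78) (nat_lit 0) (nat_lit 0) (XT.lf (nat_lit 0) (nat_lit 383774775747) (nat_lit 76) (nat_lit 121679023663) (nat_lit 76) (nat_lit 48705878059) (nat_lit 3) (nat_lit 4) (nat_lit 4) (nat_lit 5) (nat_lit 4) (nat_lit 4) (nat_lit 242) (nat_lit 214) (nat_lit 144)) (XT.lf (nat_lit 0) (nat_lit 493433948875) (nat_lit 76) (nat_lit 106115597112) (nat_lit 76) (nat_lit 33141914808) (nat_lit 3) (nat_lit 4) (nat_lit 4) (nat_lit 5) (nat_lit 4) (nat_lit 4) (nat_lit 243) (nat_lit 214) (nat_lit 143))))))) (XT.nd (nat_lit 1170) (nat_lit 0) (nat_lit 0) (XT.nd (nat_lit 546) (nat_lit 0) (nat_lit 0) (XT.nd (nat_lit 234) (nat_lit 76) (nat_lit 0) (XT.nd (nat_lit 78) (nat_lit 76) (nat_lit 0) (XT.lf (nat_lit 0) (nat_lit 619541281798) (nat_lit 76) (nat_lit 88217970978) (nat_lit 76) (nat_lit 15243821977) (nat_lit 3) (nat_lit 4) (nat_lit 4)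 (nat_lit 5) (nat_lit 4) (nat_lit 4) (nat_lit 244) (nat_lit 214) (nat_lit 142)) (XT.nd (nat_lit 78) (nat_lit 0) (nat_lit 0) (XT.lf (nat_lit 0) (nat_lit 4863303155) (nat_lit 152) (nat_lit 62518453039) (nat_lit 76) (nat_lit 759446570625) (nat_lit 2) (nat_lit 5) (nat_lit 4) (nat_lit 5) (nat_lit 3) (nat_lit 4) (nat_lit 245) (nat_lit 214) (nat_lit 141)) (XT.lf (nat_lit 0) (nat_lit 26425499805) (nat_lit 152) (nat_lit 16160083131) (nat_lit 76) (nat_lit 903532949237) (nat_lit 2) (nat_lit 5) (nat_lit 4) (nat_lit 5) (nat_lit 3) (nat_lit 4) (nat_lit 246) (nat_lit 214) (nat_lit 140)))) (XT.nd (nat_lit 156) (nat_lit 0) (nat_lit 0) (XT.nd (nat_lit 78) (nat_lit 0) (nat_lit 0) (XT.lf (nat_lit 0) (nat_lit 40782261441) (nat_lit 76) (nat_lit 12128192518) (nat_lit 152) (nat_lit 1030138551808) (nat_lit 1) (nat_lit 5) (nat_lit 2) (nat_lit 5) (nat_lit 3) (nat_lit 4) (nat_lit 247) (nat_lit 214) (nat_lit 139))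 (XT.lf (nat_lit 0) (nat_lit 85200986698) (nat_lit 152) (nat_lit 1133299093468) (nat_lit 0) (nat_lit 21744046343) (nat_lit 1) (nat_lit 5) (nat_lit 3) (nat_lit 4) (nat_lit 1) (nat_lit 4) (nat_lit 248) (nat_lit 214) (nat_lit 138))) (XT.nd (nat_lit 78) (nat_lit 0) (nat_lit 0) (XT.lf (nat_lit 0) (nat_lit 122912396837) (nat_lit 152) (nat_lit 1238564270422) (nat_lit 0) (nat_lit 59455254716) (nat_lit 1) (nat_lit 5) (nat_lit 3) (nat_lit 4) (nat_lit 1) (nat_lit 4) (nat_lit 249) (nat_lit 214) (nat_lit 137)) (XT.lf (nat_lit 0) (nat_lit 166280313727) (nat_lit 152) (nat_lit 1359619608672) (nat_lit 0) (nat_lit 102822996158) (nat_lit 1) (nat_lit 5) (nat_lit 3) (nat_lit 4) (nat_lit 1) (nat_lit 4) (nat_lit 250) (nat_lit 214) (nat_lit 136))))) (XT.nd (nat_lit 312) (nat_lit 0) (nat_lit 0) (XT.nd (nat_lit 156) (nat_lit 0) (nat_lit 0) (XT.nd (nat_lit 78) (nat_lit 0) (nat_lit 0) (XT.lf (nat_lit 0) (nat_lit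 216153240088) (nat_lit 152) (nat_lit 1498833582228) (nat_lit 0) (nat_lit 152695769955) (nat_lit 1) (nat_lit 5) (nat_lit 3) (nat_lit 4) (nat_lit 1) (nat_lit 4) (nat_lit 251) (nat_lit 214) (nat_lit 135)) (XT.lf (nat_lit 0) (nat_lit 273506950567) (nat_lit 152) (nat_lit 1658929942745) (nat_lit 0) (nat_lit 210049347770) (nat_lit 1) (nat_lit 5) (nat_lit 3) (nat_lit 4) (nat_lit 1) (nat_lit 4) (nat_lit 252) (nat_lit 214) (nat_lit 134))) (XT.nd (nat_lit 78) (nat_lit 0) (nat_lit 0) (XT.lf (nat_lit 0) (nat_lit 339463582978) (nat_lit 152) (nat_lit 1843041010322) (nat_lit 0) (nat_lit 276005864821) (nat_lit 1) (nat_lit 5) (nat_lit 3) (nat_lit 4) (nat_lit 1) (nat_lit 4) (nat_lit 253) (nat_lit 214) (nat_lit 133)) (XT.lf (nat_lit 0) (nat_lit 415313593173) (nat_lit 152) (nat_lit 2054768958018) (nat_lit 0) (nat_lit 351855774702) (nat_lit 1) (nat_lit 5) (nat_lit 3) (nat_lit 4) (nat_lit 1) (nat_lit 4)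 (nat_lit 254) (nat_lit 214) (nat_lit 132)))) (XT.nd (nat_lit 156) (nat_lit 0) (nat_lit 0) (XT.nd (nat_lit 78) (nat_lit 0) (nat_lit 0) (XT.lf (nat_lit 0) (nat_lit 502541003089) (nat_lit 152) (nat_lit 2298256289159) (nat_lit 0) (nat_lit 439083097390) (nat_lit 1) (nat_lit 5) (nat_lit 3) (nat_lit 4) (nat_lit 1) (nat_lit 4) (nat_lit 255) (nat_lit 214) (nat_lit 131)) (XT.lf (nat_lit 0) (nat_lit 602852435965) (nat_lit 152) (nat_lit 2578266886311) (nat_lit 0) (nat_lit 539394454414) (nat_lit 1) (nat_lit 5) (nat_lit 3) (nat_lit 4) (nat_lit 1) (nat_lit 4) (nat_lit 256) (nat_lit 214) (nat_lit 130))) (XT.nd (nat_lit 78) (nat_lit 0) (nat_lit 0) (XT.lf (nat_lit 0) (nat_lit 718210506791) (nat_lit 152) (nat_lit 2900279217678) (nat_lit 0) (nat_lit 654752459283) (nat_lit 1) (nat_lit 5) (nat_lit 3) (nat_lit 4) (nat_lit 1) (nat_lit 4) (nat_lit 257) (nat_lit 214) (nat_lit 129)) (XT.lf (nat_lit 0) (nat_lit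 850872221301) (nat_lit 152) (nat_lit 3270593524527) (nat_lit 0) (nat_lit 787414116438) (nat_lit 1) (nat_lit 5) (nat_lit 3) (nat_lit 4) (nat_lit 1) (nat_lit 4) (nat_lit 258) (nat_lit 214) (nat_lit 128)))))) (XT.nd (nat_lit 546) (nat_lit 0) (nat_lit 0) (XT.nd (nat_lit 234) (nat_lit 0) (nat_lit 0) (XT.nd (nat_lit 78) (nat_lit 0) (nat_lit 0) (XT.lf (nat_lit 0) (nat_lit 1003433134779) (nat_lit 152) (nat_lit 3696455086774) (nat_lit 0) (nat_lit 939974980043) (nat_lit 1) (nat_lit 5) (nat_lit 3) (nat_lit 4) (nat_lit 1) (nat_lit 4) (nat_lit 259) (nat_lit 214) (nat_lit 127)) (XT.nd (nat_lit 78) (nat_lit 0) (nat_lit 0) (XT.lf (nat_lit 0) (nat_lit 1178878134662) (nat_lit 152) (nat_lit 4186195978463) (nat_lit 0) (nat_lit 1115419936558) (nat_lit 1) (nat_lit 5) (nat_lit 3) (nat_lit 4) (nat_lit 1) (nat_lit 4) (nat_lit 260) (nat_lit 214) (nat_lit 126)) (XT.lf (nat_lit 0) (nat_lit 1380639840514) (nat_lit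 152) (nat_lit 4749398086605) (nat_lit 0) (nat_lit 1317181604699) (nat_lit 1) (nat_lit 5) (nat_lit 3) (nat_lit 4) (nat_lit 1) (nat_lit 4) (nat_lit 261) (nat_lit 214) (nat_lit 125)))) (XT.nd (nat_lit 156) (nat_lit 0) (nat_lit 0) (XT.nd (nat_lit 78) (nat_lit 0) (nat_lit 0) (XT.lf (nat_lit 0) (nat_lit 1612665763970) (nat_lit 152) (nat_lit 5397080582881) (nat_lit 0) (nat_lit 1549207495363) (nat_lit 1) (nat_lit 5) (nat_lit 3) (nat_lit 4) (nat_lit 1) (nat_lit 4) (nat_lit 262) (nat_lit 214) (nat_lit 124)) (XT.lf (nat_lit 0) (nat_lit 1879495542664) (nat_lit 152) (nat_lit 6141915516133) (nat_lit 0) (nat_lit 1816037245541) (nat_lit 1) (nat_lit 5) (nat_lit 3) (nat_lit 4) (nat_lit 1) (nat_lit 4) (nat_lit 263) (nat_lit 214) (nat_lit 123))) (XT.nd (nat_lit 78) (nat_lit 0) (nat_lit 0) (XT.lf (nat_lit 0) (nat_lit 2186349759222) (nat_lit 152) (nat_lit 6998475743748) (nat_lit 0) (nat_lit 2122891437303)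 (nat_lit 1) (nat_lit 5) (nat_lit 3) (nat_lit 4) (nat_lit 1) (nat_lit 4) (nat_lit 264) (nat_lit 214) (nat_lit 122)) (XT.lf (nat_lit 0) (nat_lit 2539232083099) (nat_lit 152) (nat_lit 7983520052790) (nat_lit 0) (nat_lit 2475773739618) (nat_lit 1) (nat_lit 5) (nat_lit 3) (nat_lit 4) (nat_lit 1) (nat_lit 4) (nat_lit 265) (nat_lit 214) (nat_lit 121))))) (XT.nd (nat_lit 390) (nat_lit 0) (nat_lit 0) (XT.nd (nat_lit 156) (nat_lit 0) (nat_lit 0) (XT.nd (nat_lit 78) (nat_lit 0) (nat_lit 0) (XT.lf (nat_lit 0) (nat_lit 2945046733674) (nat_lit 152) (nat_lit 9116321049304) (nat_lit 0) (nat_lit 2881588371444) (nat_lit 1) (nat_lit 5) (nat_lit 3) (nat_lit 4) (nat_lit 1) (nat_lit 4) (nat_lit 266) (nat_lit 214) (nat_lit 120)) (XT.lf (nat_lit 0) (nat_lit 3411733562807) (nat_lit 152) (nat_lit 10419042231050) (nat_lit 0) (nat_lit 3348275184274) (nat_lit 1) (nat_lit 5) (nat_lit 3) (nat_lit 4) (nat_lit 1)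 (nat_lit 4) (nat_lit 267) (nat_lit 214) (nat_lit 119))) (XT.nd (nat_lit 156) (nat_lit 0) (nat_lit 0) (XT.lf (nat_lit 0) (nat_lit 3948423399764) (nat_lit 152) (nat_lit 11917171621147) (nat_lit 0) (nat_lit 3884965007053) (nat_lit 1) (nat_lit 5) (nat_lit 3) (nat_lit 4) (nat_lit 1) (nat_lit 4) (nat_lit 268) (nat_lit 214) (nat_lit 118)) (XT.lf (nat_lit 0) (nat_lit 5275388978192) (nat_lit 152) (nat_lit 15621296619795) (nat_lit 0) (nat_lit 5211930562433) (nat_lit 1) (nat_lit 5) (nat_lit 3) (nat_lit 4) (nat_lit 1) (nat_lit 4) (nat_lit 270) (nat_lit 214) (nat_lit 116)))) (XT.nd (nat_lit 156) (nat_lit 0) (nat_lit 0) (XT.nd (nat_lit 78) (nat_lit 0) (nat_lit 0) (XT.lf (nat_lit 0) (nat_lit 6091627089677) (nat_lit 152) (nat_lit 17899764239190) (nat_lit 0) (nat_lit 6028168664597) (nat_lit 1) (nat_lit 5) (nat_lit 3) (nat_lit 4) (nat_lit 1) (nat_lit 4) (nat_lit 271) (nat_lit 214) (nat_lit 115)) (XT.lf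 (nat_lit 0) (nat_lit 7030300908424) (nat_lit 152) (nat_lit 20520002019269) (nat_lit 0) (nat_lit 6966842475238) (nat_lit 1) (nat_lit 5) (nat_lit 3) (nat_lit 4) (nat_lit 1) (nat_lit 4) (nat_lit 272) (nat_lit 214) (nat_lit 114))) (XT.nd (nat_lit 312) (nat_lit 0) (nat_lit 0) (XT.lf (nat_lit 0) (nat_lit 8109775791756) (nat_lit 152) (nat_lit 23533275481818) (nat_lit 0) (nat_lit 8046317351522) (nat_lit 1) (nat_lit 5) (nat_lit 3) (nat_lit 4) (nat_lit 1) (nat_lit 4) (nat_lit 273) (nat_lit 214) (nat_lit 113)) (XT.lf (nat_lit 0) (nat_lit 14308532047996) (nat_lit 152) (nat_lit 40836640652670) (nat_lit 0) (nat_lit 14245073587638) (nat_lit 1) (nat_lit 5) (nat_lit 3) (nat_lit 4) (nat_lit 1) (nat_lit 4) (nat_lit 277) (nat_lit 214) (nat_lit 109))))))))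
noncomputable def xc42 : XT := (XT.nd (nat_lit 28470) (nat_lit 0) (nat_lit 0) (XT.nd (nat_lit 27300) (nat_lit 0) (nat_lit 152) (XT.nd (nat_lit 26676) (nat_lit 0) (nat_lit 532) (XT.nd (nat_lit 26364) (nat_lit 0) (nat_lit 1064) (XT.nd (nat_lit 78) (nat_lit 0) (nat_lit 0) (XT.lf (nat_lit 0) (nat_lit 16479741574688) (nat_lit 152) (nat_lit 46897409962044) (nat_lit 0) (nat_lit 16416283110825) (nat_lit 1) (nat_lit 5) (nat_lit 3) (nat_lit 4) (nat_lit 1) (nat_lit 4) (nat_lit 278) (nat_lit 214) (nat_lit 108)) (XT.nd (nat_lit 78) (nat_lit 0) (nat_lit 0) (XT.lf (nat_lit 0) (nat_lit 18976632526827) (nat_lit 152) (nat_lit 53867294674506) (nat_lit 0) (nat_lit 18913174059917) (nat_lit 1) (nat_lit 5) (nat_lit 3) (nat_lit 4) (nat_lit 1) (nat_lit 4) (nat_lit 279) (nat_lit 214) (nat_lit 107)) (XT.lf (nat_lit 0) (nat_lit 21848057118694) (nat_lit 152) (nat_lit 61882662099649) (nat_lit 0) (nat_lit 21784598649134)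 (nat_lit 1) (nat_lit 5) (nat_lit 3) (nat_lit 4) (nat_lit 1) (nat_lit 4) (nat_lit 280) (nat_lit 214) (nat_lit 106)))) (XT.nd (nat_lit 156) (nat_lit 0) (nat_lit 0) (XT.nd (nat_lit 78) (nat_lit 0) (nat_lit 0) (XT.lf (nat_lit 0) (nat_lit 6650574120) (nat_lit 0) (nat_lit 6650574120) (nat_lit 228) (nat_lit 3468116822) (nat_lit 15) (nat_lit 5) (nat_lit 15) (nat_lit 3) (nat_lit 18) (nat_lit 3) (nat_lit 215) (nat_lit 215) (nat_lit 170)) (XT.lf (nat_lit 0) (nat_lit 28654090586) (nat_lit 228) (nat_lit 7174690888) (nat_lit 304) (nat_lit 215839023) (nat_lit 15) (nat_lit 5) (nat_lit 18) (nat_lit 3) (nat_lit 19) (nat_lit 5) (nat_lit 216) (nat_lit 215) (nat_lit 169))) (XT.nd (nat_lit 78) (nat_lit 0) (nat_lit 0) (XT.lf (nat_lit 76) (nat_lit 7912727718) (nat_lit 0) (nat_lit 24053800966) (nat_lit 304) (nat_lit 6817308040) (nat_lit 16) (nat_lit 5) (nat_lit 15) (nat_lit 5) (nat_lit 19) (nat_lit 5) (nat_lit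 217) (nat_lit 215) (nat_lit 168)) (XT.lf (nat_lit 76) (nat_lit 26064123395) (nat_lit 0) (nat_lit 10079425466) (nat_lit 304) (nat_lit 5735353877) (nat_lit 16) (nat_lit 5) (nat_lit 15) (nat_lit 5) (nat_lit 19) (nat_lit 5) (nat_lit 218) (nat_lit 215) (nat_lit 167))))) (XT.nd (nat_lit 312) (nat_lit 152) (nat_lit 0) (XT.nd (nat_lit 156) (nat_lit 228) (nat_lit 0) (XT.nd (nat_lit 78) (nat_lit 0) (nat_lit 0) (XT.lf (nat_lit 0) (nat_lit 1367802266) (nat_lit 228) (nat_lit 39877734215) (nat_lit 304) (nat_lit 4148038541) (nat_lit 13) (nat_lit 5) (nat_lit 16) (nat_lit 5) (nat_lit 17) (nat_lit 5) (nat_lit 219) (nat_lit 215) (nat_lit 166)) (XT.lf (nat_lit 0) (nat_lit 22372635539) (nat_lit 228) (nat_lit 26019310999) (nat_lit 304) (nat_lit 851727341) (nat_lit 13) (nat_lit 5) (nat_lit 16) (nat_lit 5) (nat_lit 17) (nat_lit 5) (nat_lit 220) (nat_lit 215) (nat_lit 165))) (XT.nd (nat_lit 78) (nat_lit 152)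 (nat_lit 0) (XT.lf (nat_lit 0) (nat_lit 2672098516) (nat_lit 304) (nat_lit 7270268779) (nat_lit 76) (nat_lit 43711528660) (nat_lit 12) (nat_lit 5) (nat_lit 16) (nat_lit 5) (nat_lit 13) (nat_lit 5) (nat_lit 221) (nat_lit 215) (nat_lit 164)) (XT.lf (nat_lit 0) (nat_lit 7713521872) (nat_lit 228) (nat_lit 42292042700) (nat_lit 76) (nat_lit 8552631416) (nat_lit 10) (nat_lit 5) (nat_lit 13) (nat_lit 5) (nat_lit 11) (nat_lit 5) (nat_lit 222) (nat_lit 215) (nat_lit 163)))) (XT.nd (nat_lit 156) (nat_lit 0) (nat_lit 0) (XT.nd (nat_lit 78) (nat_lit 152) (nat_lit 0) (XT.lf (nat_lit 0) (nat_lit 14378543390) (nat_lit 228) (nat_lit 20487771985) (nat_lit 76) (nat_lit 29201771912) (nat_lit 10) (nat_lit 5) (nat_lit 13) (nat_lit 5) (nat_lit 11) (nat_lit 5) (nat_lit 223) (nat_lit 215) (nat_lit 162)) (XT.lf (nat_lit 0) (nat_lit 5030453663) (nat_lit 152) (nat_lit 17217516855) (nat_lit 228) (nat_lit 48125840822)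 (nat_lit 8) (nat_lit 5) (nat_lit 10) (nat_lit 5) (nat_lit 11) (nat_lit 5) (nat_lit 224) (nat_lit 215) (nat_lit 161))) (XT.nd (nat_lit 78) (nat_lit 0) (nat_lit 0) (XT.lf (nat_lit 0) (nat_lit 32543847856) (nat_lit 228) (nat_lit 40969096536) (nat_lit 76) (nat_lit 3925584991) (nat_lit 8) (nat_lit 5) (nat_lit 11) (nat_lit 5) (nat_lit 9) (nat_lit 4) (nat_lit 225) (nat_lit 215) (nat_lit 160)) (XT.lf (nat_lit 0) (nat_lit 45201039332) (nat_lit 228) (nat_lit 13762776778) (nat_lit 76) (nat_lit 26476634620) (nat_lit 8) (nat_lit 5) (nat_lit 11) (nat_lit 5) (nat_lit 9) (nat_lit 4) (nat_lit 226) (nat_lit 215) (nat_lit 159)))))) (XT.nd (nat_lit 546) (nat_lit 76) (nat_lit 0) (XT.nd (nat_lit 234) (nat_lit 228) (nat_lit 0) (XT.nd (nat_lit 78) (nat_lit 0) (nat_lit 0) (XT.lf (nat_lit 0) (nat_lit 19233103704) (nat_lit 76) (nat_lit 41317543098) (nat_lit 152) (nat_lit 33972968737) (nat_lit 7) (nat_lit 5)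 (nat_lit 8) (nat_lit 5) (nat_lit 9) (nat_lit 4) (nat_lit 227) (nat_lit 215) (nat_lit 158)) (XT.nd (nat_lit 78) (nat_lit 0) (nat_lit 0) (XT.lf (nat_lit 0) (nat_lit 58721629524) (nat_lit 76) (nat_lit 20198109399) (nat_lit 152) (nat_lit 25941986442) (nat_lit 7) (nat_lit 5) (nat_lit 8) (nat_lit 5) (nat_lit 9) (nat_lit 4) (nat_lit 228) (nat_lit 215) (nat_lit 157)) (XT.lf (nat_lit 0) (nat_lit 100211416899) (nat_lit 152) (nat_lit 12789767742) (nat_lit 0) (nat_lit 3724307048) (nat_lit 7) (nat_lit 5) (nat_lit 9) (nat_lit 4) (nat_lit 7) (nat_lit 4) (nat_lit 229) (nat_lit 215) (nat_lit 156)))) (XT.nd (nat_lit 156) (nat_lit 76) (nat_lit 0) (XT.nd (nat_lit 78) (nat_lit 76) (nat_lit 0) (XT.lf (nat_lit 0) (nat_lit 27002339753) (nat_lit 76) (nat_lit 99772600731) (nat_lit 76) (nat_lit 3282188675) (nat_lit 6) (nat_lit 4) (nat_lit 7) (nat_lit 5) (nat_lit 7) (nat_lit 4) (nat_lit 230) (nat_lit 215) (nat_lit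 155)) (XT.lf (nat_lit 0) (nat_lit 11570579492) (nat_lit 152) (nat_lit 71616537629) (nat_lit 76) (nat_lit 62022494894) (nat_lit 5) (nat_lit 5) (nat_lit 7) (nat_lit 5) (nat_lit 6) (nat_lit 4) (nat_lit 231) (nat_lit 215) (nat_lit 154))) (XT.nd (nat_lit 78) (nat_lit 76) (nat_lit 0) (XT.lf (nat_lit 0) (nat_lit 28313661512) (nat_lit 152) (nat_lit 35621408229) (nat_lit 76) (nat_lit 98676701857) (nat_lit 5) (nat_lit 5) (nat_lit 7) (nat_lit 5) (nat_lit 6) (nat_lit 4) (nat_lit 232) (nat_lit 215) (nat_lit 153)) (XT.lf (nat_lit 0) (nat_lit 6334720371) (nat_lit 76) (nat_lit 41494429445) (nat_lit 152) (nat_lit 134755975303) (nat_lit 4) (nat_lit 5) (nat_lit 5) (nat_lit 5) (nat_lit 6) (nat_lit 4) (nat_lit 233) (nat_lit 215) (nat_lit 152))))) (XT.nd (nat_lit 312) (nat_lit 76) (nat_lit 0) (XT.nd (nat_lit 156) (nat_lit 0) (nat_lit 0) (XT.nd (nat_lit 78) (nat_lit 0) (nat_lit 0) (XT.lf (nat_lit 0) (nat_lit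 58585499379) (nat_lit 76) (nat_lit 13547216509) (nat_lit 152) (nat_lit 133142662687) (nat_lit 4) (nat_lit 5) (nat_lit 5) (nat_lit 5) (nat_lit 6) (nat_lit 4) (nat_lit 234) (nat_lit 215) (nat_lit 151)) (XT.lf (nat_lit 0) (nat_lit 100850536865) (nat_lit 152) (nat_lit 113467128882) (nat_lit 0) (nat_lit 16936205073) (nat_lit 4) (nat_lit 5) (nat_lit 6) (nat_lit 4) (nat_lit 4) (nat_lit 4) (nat_lit 235) (nat_lit 215) (nat_lit 150))) (XT.nd (nat_lit 78) (nat_lit 0) (nat_lit 0) (XT.lf (nat_lit 0) (nat_lit 134520146690) (nat_lit 152) (nat_lit 75907807005) (nat_lit 0) (nat_lit 50604573477) (nat_lit 4) (nat_lit 5) (nat_lit 6) (nat_lit 4) (nat_lit 4) (nat_lit 4) (nat_lit 236) (nat_lit 215) (nat_lit 149)) (XT.lf (nat_lit 0) (nat_lit 173239337253) (nat_lit 152) (nat_lit 32716095923) (nat_lit 0) (nat_lit 89322684543) (nat_lit 4) (nat_lit 5) (nat_lit 6) (nat_lit 4) (nat_lit 4) (nat_lit 4) (nat_lit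 237) (nat_lit 215) (nat_lit 148)))) (XT.nd (nat_lit 156) (nat_lit 0) (nat_lit 0) (XT.nd (nat_lit 78) (nat_lit 0) (nat_lit 0) (XT.lf (nat_lit 0) (nat_lit 18609835859) (nat_lit 76) (nat_lit 199926415693) (nat_lit 76) (nat_lit 116008824290) (nat_lit 3) (nat_lit 4) (nat_lit 4) (nat_lit 5) (nat_lit 4) (nat_lit 4) (nat_lit 238) (nat_lit 215) (nat_lit 147)) (XT.lf (nat_lit 0) (nat_lit 81310247869) (nat_lit 76) (nat_lit 191026911979) (nat_lit 76) (nat_lit 107108504322) (nat_lit 3) (nat_lit 4) (nat_lit 4) (nat_lit 5) (nat_lit 4) (nat_lit 4) (nat_lit 239) (nat_lit 215) (nat_lit 146))) (XT.nd (nat_lit 78) (nat_lit 0) (nat_lit 0) (XT.lf (nat_lit 0) (nat_lit 153414632470) (nat_lit 76) (nat_lit 180792960869) (nat_lit 76) (nat_lit 96873843425) (nat_lit 3) (nat_lit 4) (nat_lit 4) (nat_lit 5) (nat_lit 4) (nat_lit 4) (nat_lit 240) (nat_lit 215) (nat_lit 145)) (XT.lf (nat_lit 0) (nat_lit 236333727621)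 (nat_lit 76) (nat_lit 169024332884) (nat_lit 76) (nat_lit 85104598234) (nat_lit 3) (nat_lit 4) (nat_lit 4) (nat_lit 5) (nat_lit 4) (nat_lit 4) (nat_lit 241) (nat_lit 215) (nat_lit 144))))))) (XT.nd (nat_lit 1170) (nat_lit 0) (nat_lit 0) (XT.nd (nat_lit 546) (nat_lit 0) (nat_lit 0) (XT.nd (nat_lit 234) (nat_lit 152) (nat_lit 0) (XT.nd (nat_lit 78) (nat_lit 0) (nat_lit 0) (XT.lf (nat_lit 0) (nat_lit 331689863445) (nat_lit 76) (nat_lit 155490772261) (nat_lit 76) (nat_lit 71570500910) (nat_lit 3) (nat_lit 4) (nat_lit 4) (nat_lit 5) (nat_lit 4) (nat_lit 4) (nat_lit 242) (nat_lit 215) (nat_lit 143)) (XT.nd (nat_lit 78) (nat_lit 0) (nat_lit 0) (XT.lf (nat_lit 0) (nat_lit 441348703469) (nat_lit 76) (nat_lit 139927491942) (nat_lit 76) (nat_lit 56006753895) (nat_lit 3) (nat_lit 4) (nat_lit 4) (nat_lit 5) (nat_lit 4) (nat_lit 4) (nat_lit 243) (nat_lit 215) (nat_lit 142)) (XT.lf (nat_lit 0) (nat_lit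 567455746736) (nat_lit 76) (nat_lit 122029992966) (nat_lit 76) (nat_lit 38108849097) (nat_lit 3) (nat_lit 4) (nat_lit 4) (nat_lit 5) (nat_lit 4) (nat_lit 4) (nat_lit 244) (nat_lit 215) (nat_lit 141)))) (XT.nd (nat_lit 156) (nat_lit 76) (nat_lit 0) (XT.nd (nat_lit 78) (nat_lit 76) (nat_lit 0) (XT.lf (nat_lit 0) (nat_lit 712478304964) (nat_lit 76) (nat_lit 101448106874) (nat_lit 76) (nat_lit 17526610115) (nat_lit 3) (nat_lit 4) (nat_lit 4) (nat_lit 5) (nat_lit 4) (nat_lit 4) (nat_lit 245) (nat_lit 215) (nat_lit 140)) (XT.lf (nat_lit 0) (nat_lit 5595797044) (nat_lit 152) (nat_lit 71890839974) (nat_lit 76) (nat_lit 873365471413) (nat_lit 2) (nat_lit 5) (nat_lit 4) (nat_lit 5) (nat_lit 3) (nat_lit 4) (nat_lit 246) (nat_lit 215) (nat_lit 139))) (XT.nd (nat_lit 78) (nat_lit 76) (nat_lit 0) (XT.lf (nat_lit 0) (nat_lit 30391932093) (nat_lit 152) (nat_lit 18579416452) (nat_lit 76) (nat_lit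 1039064557008) (nat_lit 2) (nat_lit 5) (nat_lit 4) (nat_lit 5) (nat_lit 3) (nat_lit 4) (nat_lit 247) (nat_lit 215) (nat_lit 138)) (XT.lf (nat_lit 0) (nat_lit 46904067117) (nat_lit 76) (nat_lit 13945407116) (nat_lit 152) (nat_lit 1184656501228) (nat_lit 1) (nat_lit 5) (nat_lit 2) (nat_lit 5) (nat_lit 3) (nat_lit 4) (nat_lit 248) (nat_lit 215) (nat_lit 137))))) (XT.nd (nat_lit 312) (nat_lit 0) (nat_lit 0) (XT.nd (nat_lit 156) (nat_lit 0) (nat_lit 0) (XT.nd (nat_lit 78) (nat_lit 0) (nat_lit 0) (XT.lf (nat_lit 0) (nat_lit 97983339560) (nat_lit 152) (nat_lit 1303289814683) (nat_lit 0) (nat_lit 25007248907) (nat_lit 1) (nat_lit 5) (nat_lit 3) (nat_lit 4) (nat_lit 1) (nat_lit 4) (nat_lit 249) (nat_lit 215) (nat_lit 136)) (XT.lf (nat_lit 0) (nat_lit 141351173630) (nat_lit 152) (nat_lit 1424345308547) (nat_lit 0) (nat_lit 68374930414) (nat_lit 1) (nat_lit 5) (nat_lit 3) (nat_lit 4) (nat_lit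 1) (nat_lit 4) (nat_lit 250) (nat_lit 215) (nat_lit 135))) (XT.nd (nat_lit 78) (nat_lit 0) (nat_lit 0) (XT.lf (nat_lit 0) (nat_lit 191224027975) (nat_lit 152) (nat_lit 1563559417418) (nat_lit 0) (nat_lit 118247652094) (nat_lit 1) (nat_lit 5) (nat_lit 3) (nat_lit 4) (nat_lit 1) (nat_lit 4) (nat_lit 251) (nat_lit 215) (nat_lit 134)) (XT.lf (nat_lit 0) (nat_lit 248577675831) (nat_lit 152) (nat_lit 1723655895601) (nat_lit 0) (nat_lit 175601184590) (nat_lit 1) (nat_lit 5) (nat_lit 3) (nat_lit 4) (nat_lit 1) (nat_lit 4) (nat_lit 252) (nat_lit 215) (nat_lit 133)))) (XT.nd (nat_lit 156) (nat_lit 0) (nat_lit 0) (XT.nd (nat_lit 78) (nat_lit 0) (nat_lit 0) (XT.lf (nat_lit 0) (nat_lit 314534253787) (nat_lit 152) (nat_lit 1907767065495) (nat_lit 0) (nat_lit 241557662233) (nat_lit 1) (nat_lit 5) (nat_lit 3) (nat_lit 4) (nat_lit 1) (nat_lit 4) (nat_lit 253) (nat_lit 215) (nat_lit 132)) (XT.lf (nat_lit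 0) (nat_lit 390384216629) (nat_lit 152) (nat_lit 2119495102164) (nat_lit 0) (nat_lit 317407537846) (nat_lit 1) (nat_lit 5) (nat_lit 3) (nat_lit 4) (nat_lit 1) (nat_lit 4) (nat_lit 254) (nat_lit 215) (nat_lit 131))) (XT.nd (nat_lit 78) (nat_lit 0) (nat_lit 0) (XT.lf (nat_lit 0) (nat_lit 477611585370) (nat_lit 152) (nat_lit 2362982510672) (nat_lit 0) (nat_lit 404634830735) (nat_lit 1) (nat_lit 5) (nat_lit 3) (nat_lit 4) (nat_lit 1) (nat_lit 4) (nat_lit 255) (nat_lit 215) (nat_lit 130)) (XT.lf (nat_lit 0) (nat_lit 577922982440) (nat_lit 152) (nat_lit 2642993175100) (nat_lit 0) (nat_lit 504946161848) (nat_lit 1) (nat_lit 5) (nat_lit 3) (nat_lit 4) (nat_lit 1) (nat_lit 4) (nat_lit 256) (nat_lit 215) (nat_lit 129)))))) (XT.nd (nat_lit 546) (nat_lit 0) (nat_lit 0) (XT.nd (nat_lit 234) (nat_lit 0) (nat_lit 0) (XT.nd (nat_lit 78) (nat_lit 0) (nat_lit 0) (XT.lf (nat_lit 0) (nat_lit 693281022131)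 (nat_lit 152) (nat_lit 2965005564968) (nat_lit 0) (nat_lit 620304144185) (nat_lit 1) (nat_lit 5) (nat_lit 3) (nat_lit 4) (nat_lit 1) (nat_lit 4) (nat_lit 257) (nat_lit 215) (nat_lit 128)) (XT.nd (nat_lit 78) (nat_lit 0) (nat_lit 0) (XT.lf (nat_lit 0) (nat_lit 825942709568) (nat_lit 152) (nat_lit 3335319922686) (nat_lit 0) (nat_lit 752965781748) (nat_lit 1) (nat_lit 5) (nat_lit 3) (nat_lit 4) (nat_lit 1) (nat_lit 4) (nat_lit 258) (nat_lit 215) (nat_lit 127)) (XT.lf (nat_lit 0) (nat_lit 978503599503) (nat_lit 152) (nat_lit 3761181529168) (nat_lit 0) (nat_lit 905526628315) (nat_lit 1) (nat_lit 5) (nat_lit 3) (nat_lit 4) (nat_lit 1) (nat_lit 4) (nat_lit 259) (nat_lit 215) (nat_lit 126)))) (XT.nd (nat_lit 156) (nat_lit 0) (nat_lit 0) (XT.nd (nat_lit 78) (nat_lit 0) (nat_lit 0) (XT.lf (nat_lit 0) (nat_lit 1153948578915) (nat_lit 152) (nat_lit 4250922459322) (nat_lit 0) (nat_lit 1080971570016)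 (nat_lit 1) (nat_lit 5) (nat_lit 3) (nat_lit 4) (nat_lit 1) (nat_lit 4) (nat_lit 260) (nat_lit 215) (nat_lit 125)) (XT.lf (nat_lit 0) (nat_lit 1355710266965) (nat_lit 152) (nat_lit 4814124600912) (nat_lit 0) (nat_lit 1282733225274) (nat_lit 1) (nat_lit 5) (nat_lit 3) (nat_lit 4) (nat_lit 1) (nat_lit 4) (nat_lit 261) (nat_lit 215) (nat_lit 124))) (XT.nd (nat_lit 78) (nat_lit 0) (nat_lit 0) (XT.lf (nat_lit 0) (nat_lit 1587736174942) (nat_lit 152) (nat_lit 5461807126274) (nat_lit 0) (nat_lit 1514759104735) (nat_lit 1) (nat_lit 5) (nat_lit 3) (nat_lit 4) (nat_lit 1) (nat_lit 4) (nat_lit 262) (nat_lit 215) (nat_lit 123)) (XT.lf (nat_lit 0) (nat_lit 1854565940176) (nat_lit 152) (nat_lit 6206642084817) (nat_lit 0) (nat_lit 1781588845173) (nat_lit 1) (nat_lit 5) (nat_lit 3) (nat_lit 4) (nat_lit 1) (nat_lit 4) (nat_lit 263) (nat_lit 215) (nat_lit 122))))) (XT.nd (nat_lit 1014) (nat_lit 0)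 (nat_lit 0) (XT.nd (nat_lit 156) (nat_lit 0) (nat_lit 0) (XT.nd (nat_lit 78) (nat_lit 0) (nat_lit 0) (XT.lf (nat_lit 0) (nat_lit 2161420145029) (nat_lit 152) (nat_lit 7063202334425) (nat_lit 0) (nat_lit 2088443028464) (nat_lit 1) (nat_lit 5) (nat_lit 3) (nat_lit 4) (nat_lit 1) (nat_lit 4) (nat_lit 264) (nat_lit 215) (nat_lit 121)) (XT.lf (nat_lit 0) (nat_lit 2514302458728) (nat_lit 152) (nat_lit 8048246662591) (nat_lit 0) (nat_lit 2441325323414) (nat_lit 1) (nat_lit 5) (nat_lit 3) (nat_lit 4) (nat_lit 1) (nat_lit 4) (nat_lit 265) (nat_lit 215) (nat_lit 120))) (XT.nd (nat_lit 78) (nat_lit 0) (nat_lit 0) (XT.lf (nat_lit 0) (nat_lit 2920117100452) (nat_lit 152) (nat_lit 9181047675735) (nat_lit 0) (nat_lit 2847139948835) (nat_lit 1) (nat_lit 5) (nat_lit 3) (nat_lit 4) (nat_lit 1) (nat_lit 4) (nat_lit 266) (nat_lit 215) (nat_lit 119)) (XT.lf (nat_lit 0) (nat_lit 3386803921889) (nat_lit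 152) (nat_lit 10483768871940) (nat_lit 0) (nat_lit 3313826756095) (nat_lit 1) (nat_lit 5) (nat_lit 3) (nat_lit 4) (nat_lit 1) (nat_lit 4) (nat_lit 267) (nat_lit 215) (nat_lit 118)))) (XT.nd (nat_lit 156) (nat_lit 0) (nat_lit 0) (XT.nd (nat_lit 78) (nat_lit 0) (nat_lit 0) (XT.lf (nat_lit 0) (nat_lit 14283602368454) (nat_lit 152) (nat_lit 40901367366134) (nat_lit 0) (nat_lit 14210625131507) (nat_lit 1) (nat_lit 5) (nat_lit 3) (nat_lit 4) (nat_lit 1) (nat_lit 4) (nat_lit 277) (nat_lit 215) (nat_lit 108)) (XT.lf (nat_lit 0) (nat_lit 16454811893491) (nat_lit 152) (nat_lit 46962136678616) (nat_lit 0) (nat_lit 16381834653497) (nat_lit 1) (nat_lit 5) (nat_lit 3) (nat_lit 4) (nat_lit 1) (nat_lit 4) (nat_lit 278) (nat_lit 215) (nat_lit 107))) (XT.nd (nat_lit 78) (nat_lit 0) (nat_lit 0) (XT.lf (nat_lit 0) (nat_lit 18951702844192) (nat_lit 152) (nat_lit 53932021393781) (nat_lit 0) (nat_lit 18878725601548)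 (nat_lit 1) (nat_lit 5) (nat_lit 3) (nat_lit 4) (nat_lit 1) (nat_lit 4) (nat_lit 279) (nat_lit 215) (nat_lit 106)) (XT.lf (nat_lit 0) (nat_lit 21823127434808) (nat_lit 152) (nat_lit 61947388821274) (nat_lit 0) (nat_lit 21750150189860) (nat_lit 1) (nat_lit 5) (nat_lit 3) (nat_lit 4) (nat_lit 1) (nat_lit 4) (nat_lit 280) (nat_lit 215) (nat_lit 105))))))))
noncomputable def xc43 : XT := (XT.nd (nat_lit 2340) (nat_lit 152) (nat_lit 0) (XT.nd (nat_lit 1170) (nat_lit 304) (nat_lit 0) (XT.nd (nat_lit 546) (nat_lit 380) (nat_lit 0) (XT.nd (nat_lit 234) (nat_lit 228) (nat_lit 0) (XT.nd (nat_lit 78) (nat_lit 0) (nat_lit 0) (XT.lf (nat_lit 0) (nat_lit 7670596568) (nat_lit 0) (nat_lit 7670596568) (nat_lit 228) (nat_lit 3935958059) (nat_lit 15) (nat_lit 5) (nat_lit 15) (nat_lit 3) (nat_lit 18) (nat_lit 3) (nat_lit 216) (nat_lit 216) (nat_lit 168)) (XT.nd (nat_lit 78) (nat_lit 0) (nat_lit 0) (XT.lf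 (nat_lit 0) (nat_lit 33028627858) (nat_lit 228) (nat_lit 8197209309) (nat_lit 304) (nat_lit 212668977) (nat_lit 15) (nat_lit 5) (nat_lit 18) (nat_lit 3) (nat_lit 19) (nat_lit 5) (nat_lit 217) (nat_lit 216) (nat_lit 167)) (XT.lf (nat_lit 76) (nat_lit 9150881851) (nat_lit 0) (nat_lit 27679203458) (nat_lit 304) (nat_lit 7759871737) (nat_lit 16) (nat_lit 5) (nat_lit 15) (nat_lit 5) (nat_lit 19) (nat_lit 5) (nat_lit 218) (nat_lit 216) (nat_lit 166)))) (XT.nd (nat_lit 156) (nat_lit 76) (nat_lit 0) (XT.nd (nat_lit 78) (nat_lit 152) (nat_lit 0) (XT.lf (nat_lit 76) (nat_lit 30018302753) (nat_lit 0) (nat_lit 11606410893) (nat_lit 304) (nat_lit 6526063473) (nat_lit 16) (nat_lit 5) (nat_lit 15) (nat_lit 5) (nat_lit 19) (nat_lit 5) (nat_lit 219) (nat_lit 216) (nat_lit 165)) (XT.lf (nat_lit 0) (nat_lit 1625611933) (nat_lit 228) (nat_lit 45860246330) (nat_lit 304) (nat_lit 4707845696) (nat_lit 13)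 (nat_lit 5) (nat_lit 16) (nat_lit 5) (nat_lit 17) (nat_lit 5) (nat_lit 220) (nat_lit 216) (nat_lit 164))) (XT.nd (nat_lit 78) (nat_lit 76) (nat_lit 0) (XT.lf (nat_lit 0) (nat_lit 25774304199) (nat_lit 228) (nat_lit 29922948502) (nat_lit 304) (nat_lit 925226768) (nat_lit 13) (nat_lit 5) (nat_lit 16) (nat_lit 5) (nat_lit 17) (nat_lit 5) (nat_lit 221) (nat_lit 216) (nat_lit 163)) (XT.lf (nat_lit 0) (nat_lit 3115895123) (nat_lit 304) (nat_lit 8316224711) (nat_lit 76) (nat_lit 50262832247) (nat_lit 12) (nat_lit 5) (nat_lit 16) (nat_lit 5) (nat_lit 13) (nat_lit 5) (nat_lit 222) (nat_lit 216) (nat_lit 162))))) (XT.nd (nat_lit 312) (nat_lit 76) (nat_lit 0) (XT.nd (nat_lit 156) (nat_lit 152) (nat_lit 0) (XT.nd (nat_lit 78) (nat_lit 0) (nat_lit 0) (XT.lf (nat_lit 0) (nat_lit 8909829504) (nat_lit 228) (nat_lit 48587057029) (nat_lit 76) (nat_lit 9838641739) (nat_lit 10) (nat_lit 5) (nat_lit 13)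 (nat_lit 5) (nat_lit 11) (nat_lit 5) (nat_lit 223) (nat_lit 216) (nat_lit 161)) (XT.lf (nat_lit 0) (nat_lit 16569480855) (nat_lit 228) (nat_lit 23518509890) (nat_lit 76) (nat_lit 33584746925) (nat_lit 10) (nat_lit 5) (nat_lit 13) (nat_lit 5) (nat_lit 11) (nat_lit 5) (nat_lit 224) (nat_lit 216) (nat_lit 160))) (XT.nd (nat_lit 78) (nat_lit 0) (nat_lit 0) (XT.lf (nat_lit 0) (nat_lit 5825521065) (nat_lit 152) (nat_lit 19791022856) (nat_lit 228) (nat_lit 55308250435) (nat_lit 8) (nat_lit 5) (nat_lit 10) (nat_lit 5) (nat_lit 11) (nat_lit 5) (nat_lit 225) (nat_lit 216) (nat_lit 159)) (XT.lf (nat_lit 0) (nat_lit 37453038537) (nat_lit 228) (nat_lit 47075147681) (nat_lit 76) (nat_lit 4521648362) (nat_lit 8) (nat_lit 5) (nat_lit 11) (nat_lit 5) (nat_lit 9) (nat_lit 4) (nat_lit 226) (nat_lit 216) (nat_lit 158)))) (XT.nd (nat_lit 156) (nat_lit 0) (nat_lit 0) (XT.nd (nat_lit 78) (nat_lit 76) (nat_lit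 0) (XT.lf (nat_lit 0) (nat_lit 52005206973) (nat_lit 228) (nat_lit 15793007785) (nat_lit 76) (nat_lit 30454412964) (nat_lit 8) (nat_lit 5) (nat_lit 11) (nat_lit 5) (nat_lit 9) (nat_lit 4) (nat_lit 227) (nat_lit 216) (nat_lit 157)) (XT.lf (nat_lit 0) (nat_lit 22150700882) (nat_lit 76) (nat_lit 47504773920) (nat_lit 152) (nat_lit 39043097240) (nat_lit 7) (nat_lit 5) (nat_lit 8) (nat_lit 5) (nat_lit 9) (nat_lit 4) (nat_lit 228) (nat_lit 216) (nat_lit 156))) (XT.nd (nat_lit 78) (nat_lit 0) (nat_lit 0) (XT.lf (nat_lit 0) (nat_lit 67558249276) (nat_lit 76) (nat_lit 23218781773) (nat_lit 152) (nat_lit 29810835011) (nat_lit 7) (nat_lit 5) (nat_lit 8) (nat_lit 5) (nat_lit 9) (nat_lit 4) (nat_lit 229) (nat_lit 216) (nat_lit 155)) (XT.lf (nat_lit 0) (nat_lit 115260264896) (nat_lit 152) (nat_lit 14681172955) (nat_lit 0) (nat_lit 4290117343) (nat_lit 7) (nat_lit 5) (nat_lit 9) (nat_lit 4) (nat_lit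 7) (nat_lit 4) (nat_lit 230) (nat_lit 216) (nat_lit 154)))))) (XT.nd (nat_lit 546) (nat_lit 76) (nat_lit 0) (XT.nd (nat_lit 234) (nat_lit 76) (nat_lit 0) (XT.nd (nat_lit 78) (nat_lit 76) (nat_lit 0) (XT.lf (nat_lit 0) (nat_lit 31078520666) (nat_lit 76) (nat_lit 114728630856) (nat_lit 76) (nat_lit 3755986361) (nat_lit 6) (nat_lit 4) (nat_lit 7) (nat_lit 5) (nat_lit 7) (nat_lit 4) (nat_lit 231) (nat_lit 216) (nat_lit 153)) (XT.nd (nat_lit 78) (nat_lit 0) (nat_lit 0) (XT.lf (nat_lit 0) (nat_lit 13320845452) (nat_lit 152) (nat_lit 82334998024) (nat_lit 76) (nat_lit 71332883605) (nat_lit 5) (nat_lit 5) (nat_lit 7) (nat_lit 5) (nat_lit 6) (nat_lit 4) (nat_lit 232) (nat_lit 216) (nat_lit 152)) (XT.lf (nat_lit 0) (nat_lit 32573475118) (nat_lit 152) (nat_lit 40943732290) (nat_lit 76) (nat_lit 113484306681) (nat_lit 5) (nat_lit 5) (nat_lit 7) (nat_lit 5) (nat_lit 6) (nat_lit 4) (nat_lit 233)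 (nat_lit 216) (nat_lit 151)))) (XT.nd (nat_lit 156) (nat_lit 0) (nat_lit 0) (XT.nd (nat_lit 78) (nat_lit 0) (nat_lit 0) (XT.lf (nat_lit 0) (nat_lit 7304866183) (nat_lit 76) (nat_lit 47710581145) (nat_lit 152) (nat_lit 154955563375) (nat_lit 4) (nat_lit 5) (nat_lit 5) (nat_lit 5) (nat_lit 6) (nat_lit 4) (nat_lit 234) (nat_lit 216) (nat_lit 150)) (XT.lf (nat_lit 0) (nat_lit 67390661465) (nat_lit 76) (nat_lit 15572331406) (nat_lit 152) (nat_lit 153102054939) (nat_lit 4) (nat_lit 5) (nat_lit 5) (nat_lit 5) (nat_lit 6) (nat_lit 4) (nat_lit 235) (nat_lit 216) (nat_lit 149))) (XT.nd (nat_lit 78) (nat_lit 0) (nat_lit 0) (XT.lf (nat_lit 0) (nat_lit 115987385319) (nat_lit 152) (nat_lit 130470949329) (nat_lit 0) (nat_lit 19482155206) (nat_lit 4) (nat_lit 5) (nat_lit 6) (nat_lit 4) (nat_lit 4) (nat_lit 4) (nat_lit 236) (nat_lit 216) (nat_lit 148)) (XT.lf (nat_lit 0) (nat_lit 154706227758) (nat_lit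 152) (nat_lit 87279848591) (nat_lit 0) (nat_lit 58200058952) (nat_lit 4) (nat_lit 5) (nat_lit 6) (nat_lit 4) (nat_lit 4) (nat_lit 4) (nat_lit 237) (nat_lit 216) (nat_lit 147))))) (XT.nd (nat_lit 312) (nat_lit 0) (nat_lit 0) (XT.nd (nat_lit 156) (nat_lit 0) (nat_lit 0) (XT.nd (nat_lit 78) (nat_lit 76) (nat_lit 0) (XT.lf (nat_lit 0) (nat_lit 199232245724) (nat_lit 152) (nat_lit 37611223820) (nat_lit 0) (nat_lit 102725260663) (nat_lit 4) (nat_lit 5) (nat_lit 6) (nat_lit 4) (nat_lit 4) (nat_lit 4) (nat_lit 238) (nat_lit 216) (nat_lit 146)) (XT.lf (nat_lit 0) (nat_lit 21413039252) (nat_lit 76) (nat_lit 229910229475) (nat_lit 76) (nat_lit 133402534628) (nat_lit 3) (nat_lit 4) (nat_lit 4) (nat_lit 5) (nat_lit 4) (nat_lit 4) (nat_lit 239) (nat_lit 216) (nat_lit 145))) (XT.nd (nat_lit 78) (nat_lit 0) (nat_lit 0) (XT.lf (nat_lit 0) (nat_lit 93516983323) (nat_lit 76) (nat_lit 219676471757) (nat_lit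 76) (nat_lit 123168159703) (nat_lit 3) (nat_lit 4) (nat_lit 4) (nat_lit 5) (nat_lit 4) (nat_lit 4) (nat_lit 240) (nat_lit 216) (nat_lit 144)) (XT.lf (nat_lit 0) (nat_lit 176435695404) (nat_lit 76) (nat_lit 207908011939) (nat_lit 76) (nat_lit 111399163185) (nat_lit 3) (nat_lit 4) (nat_lit 4) (nat_lit 5) (nat_lit 4) (nat_lit 4) (nat_lit 241) (nat_lit 216) (nat_lit 143)))) (XT.nd (nat_lit 156) (nat_lit 0) (nat_lit 0) (XT.nd (nat_lit 78) (nat_lit 0) (nat_lit 0) (XT.lf (nat_lit 0) (nat_lit 271791498124) (nat_lit 76) (nat_lit 194374597547) (nat_lit 76) (nat_lit 97865282097) (nat_lit 3) (nat_lit 4) (nat_lit 4) (nat_lit 5) (nat_lit 4) (nat_lit 4) (nat_lit 242) (nat_lit 216) (nat_lit 142)) (XT.lf (nat_lit 0) (nat_lit 381450048492) (nat_lit 76) (nat_lit 178811444387) (nat_lit 76) (nat_lit 82301723114) (nat_lit 3) (nat_lit 4) (nat_lit 4) (nat_lit 5) (nat_lit 4) (nat_lit 4) (nat_lit 243) (nat_lit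 216) (nat_lit 141))) (XT.nd (nat_lit 78) (nat_lit 0) (nat_lit 0) (XT.lf (nat_lit 0) (nat_lit 507556839885) (nat_lit 76) (nat_lit 160914055983) (nat_lit 76) (nat_lit 64403981821) (nat_lit 3) (nat_lit 4) (nat_lit 4) (nat_lit 5) (nat_lit 4) (nat_lit 4) (nat_lit 244) (nat_lit 216) (nat_lit 140)) (XT.lf (nat_lit 0) (nat_lit 652579179091) (nat_lit 76) (nat_lit 140332266042) (nat_lit 76) (nat_lit 43821885019) (nat_lit 3) (nat_lit 4) (nat_lit 4) (nat_lit 5) (nat_lit 4) (nat_lit 4) (nat_lit 245) (nat_lit 216) (nat_lit 139))))))) (XT.nd (nat_lit 1170) (nat_lit 0) (nat_lit 0) (XT.nd (nat_lit 546) (nat_lit 0) (nat_lit 0) (XT.nd (nat_lit 234) (nat_lit 76) (nat_lit 0) (XT.nd (nat_lit 78) (nat_lit 76) (nat_lit 0) (XT.lf (nat_lit 0) (nat_lit 819354459704) (nat_lit 76) (nat_lit 116663387367) (nat_lit 76) (nat_lit 20152739509) (nat_lit 3) (nat_lit 4) (nat_lit 4) (nat_lit 5) (nat_lit 4) (nat_lit 4)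 (nat_lit 246) (nat_lit 216) (nat_lit 138)) (XT.nd (nat_lit 78) (nat_lit 0) (nat_lit 0) (XT.lf (nat_lit 0) (nat_lit 6437433833) (nat_lit 152) (nat_lit 82670397146) (nat_lit 76) (nat_lit 1004371740286) (nat_lit 2) (nat_lit 5) (nat_lit 4) (nat_lit 5) (nat_lit 3) (nat_lit 4) (nat_lit 247) (nat_lit 216) (nat_lit 137)) (XT.lf (nat_lit 0) (nat_lit 34952693414) (nat_lit 152) (nat_lit 21362790812) (nat_lit 76) (nat_lit 1194925499831) (nat_lit 2) (nat_lit 5) (nat_lit 4) (nat_lit 5) (nat_lit 3) (nat_lit 4) (nat_lit 248) (nat_lit 216) (nat_lit 136)))) (XT.nd (nat_lit 156) (nat_lit 0) (nat_lit 0) (XT.nd (nat_lit 78) (nat_lit 0) (nat_lit 0) (XT.lf (nat_lit 0) (nat_lit 53943054470) (nat_lit 76) (nat_lit 16035695098) (nat_lit 152) (nat_lit 1362352833991) (nat_lit 1) (nat_lit 5) (nat_lit 2) (nat_lit 5) (nat_lit 3) (nat_lit 4) (nat_lit 249) (nat_lit 216) (nat_lit 135)) (XT.lf (nat_lit 0) (nat_lit 112682507684)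 (nat_lit 152) (nat_lit 1498780154331) (nat_lit 0) (nat_lit 28759542757) (nat_lit 1) (nat_lit 5) (nat_lit 3) (nat_lit 4) (nat_lit 1) (nat_lit 4) (nat_lit 250) (nat_lit 216) (nat_lit 134))) (XT.nd (nat_lit 78) (nat_lit 0) (nat_lit 0) (XT.lf (nat_lit 0) (nat_lit 162555299405) (nat_lit 152) (nat_lit 1637994380868) (nat_lit 0) (nat_lit 78632219118) (nat_lit 1) (nat_lit 5) (nat_lit 3) (nat_lit 4) (nat_lit 1) (nat_lit 4) (nat_lit 251) (nat_lit 216) (nat_lit 133)) (XT.lf (nat_lit 0) (nat_lit 219908892806) (nat_lit 152) (nat_lit 1798090961369) (nat_lit 0) (nat_lit 135985712205) (nat_lit 1) (nat_lit 5) (nat_lit 3) (nat_lit 4) (nat_lit 1) (nat_lit 4) (nat_lit 252) (nat_lit 216) (nat_lit 132))))) (XT.nd (nat_lit 312) (nat_lit 0) (nat_lit 0) (XT.nd (nat_lit 156) (nat_lit 0) (nat_lit 0) (XT.nd (nat_lit 78) (nat_lit 0) (nat_lit 0) (XT.lf (nat_lit 0) (nat_lit 285865423410) (nat_lit 152) (nat_lit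 1982202220235) (nat_lit 0) (nat_lit 201942155580) (nat_lit 1) (nat_lit 5) (nat_lit 3) (nat_lit 4) (nat_lit 1) (nat_lit 4) (nat_lit 253) (nat_lit 216) (nat_lit 131)) (XT.lf (nat_lit 0) (nat_lit 361715345076) (nat_lit 152) (nat_lit 2193930334271) (nat_lit 0) (nat_lit 277792001395) (nat_lit 1) (nat_lit 5) (nat_lit 3) (nat_lit 4) (nat_lit 1) (nat_lit 4) (nat_lit 254) (nat_lit 216) (nat_lit 130))) (XT.nd (nat_lit 78) (nat_lit 0) (nat_lit 0) (XT.lf (nat_lit 0) (nat_lit 448942678011) (nat_lit 152) (nat_lit 2437417810055) (nat_lit 0) (nat_lit 365019268373) (nat_lit 1) (nat_lit 5) (nat_lit 3) (nat_lit 4) (nat_lit 1) (nat_lit 4) (nat_lit 255) (nat_lit 216) (nat_lit 129)) (XT.lf (nat_lit 0) (nat_lit 549254043947) (nat_lit 152) (nat_lit 2717428532983) (nat_lit 0) (nat_lit 465330576955) (nat_lit 1) (nat_lit 5) (nat_lit 3) (nat_lit 4) (nat_lit 1) (nat_lit 4) (nat_lit 256) (nat_lit 216) (nat_lit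 128)))) (XT.nd (nat_lit 156) (nat_lit 0) (nat_lit 0) (XT.nd (nat_lit 78) (nat_lit 0) (nat_lit 0) (XT.lf (nat_lit 0) (nat_lit 664612056565) (nat_lit 152) (nat_lit 3039440973721) (nat_lit 0) (nat_lit 580688539699) (nat_lit 1) (nat_lit 5) (nat_lit 3) (nat_lit 4) (nat_lit 1) (nat_lit 4) (nat_lit 257) (nat_lit 216) (nat_lit 127)) (XT.lf (nat_lit 0) (nat_lit 797273720458) (nat_lit 152) (nat_lit 3409755375675) (nat_lit 0) (nat_lit 713350160224) (nat_lit 1) (nat_lit 5) (nat_lit 3) (nat_lit 4) (nat_lit 1) (nat_lit 4) (nat_lit 258) (nat_lit 216) (nat_lit 126))) (XT.nd (nat_lit 78) (nat_lit 0) (nat_lit 0) (XT.lf (nat_lit 0) (nat_lit 949834589922) (nat_lit 152) (nat_lit 3835617020622) (nat_lit 0) (nat_lit 865910991977) (nat_lit 1) (nat_lit 5) (nat_lit 3) (nat_lit 4) (nat_lit 1) (nat_lit 4) (nat_lit 259) (nat_lit 216) (nat_lit 125)) (XT.lf (nat_lit 0) (nat_lit 1125279551532) (nat_lit 152) (nat_lit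 4325357984224) (nat_lit 0) (nat_lit 1041355920794) (nat_lit 1) (nat_lit 5) (nat_lit 3) (nat_lit 4) (nat_lit 1) (nat_lit 4) (nat_lit 260) (nat_lit 216) (nat_lit 124)))))) (XT.nd (nat_lit 1170) (nat_lit 0) (nat_lit 0) (XT.nd (nat_lit 234) (nat_lit 0) (nat_lit 0) (XT.nd (nat_lit 78) (nat_lit 0) (nat_lit 0) (XT.lf (nat_lit 0) (nat_lit 1327041224103) (nat_lit 152) (nat_lit 4888560154899) (nat_lit 0) (nat_lit 1243117564850) (nat_lit 1) (nat_lit 5) (nat_lit 3) (nat_lit 4) (nat_lit 1) (nat_lit 4) (nat_lit 261) (nat_lit 216) (nat_lit 123)) (XT.nd (nat_lit 78) (nat_lit 0) (nat_lit 0) (XT.lf (nat_lit 0) (nat_lit 1559067118620) (nat_lit 152) (nat_lit 5536242705552) (nat_lit 0) (nat_lit 1475143434571) (nat_lit 1) (nat_lit 5) (nat_lit 3) (nat_lit 4) (nat_lit 1) (nat_lit 4) (nat_lit 262) (nat_lit 216) (nat_lit 122)) (XT.lf (nat_lit 0) (nat_lit 1825896872149) (nat_lit 152) (nat_lit 6281077686087)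 (nat_lit 0) (nat_lit 1741973166538) (nat_lit 1) (nat_lit 5) (nat_lit 3) (nat_lit 4) (nat_lit 1) (nat_lit 4) (nat_lit 263) (nat_lit 216) (nat_lit 121)))) (XT.nd (nat_lit 156) (nat_lit 0) (nat_lit 0) (XT.nd (nat_lit 78) (nat_lit 0) (nat_lit 0) (XT.lf (nat_lit 0) (nat_lit 2132751066824) (nat_lit 152) (nat_lit 7137637954819) (nat_lit 0) (nat_lit 2048827342464) (nat_lit 1) (nat_lit 5) (nat_lit 3) (nat_lit 4) (nat_lit 1) (nat_lit 4) (nat_lit 264) (nat_lit 216) (nat_lit 120)) (XT.lf (nat_lit 0) (nat_lit 2485633371672) (nat_lit 152) (nat_lit 8122682299615) (nat_lit 0) (nat_lit 2401709631008) (nat_lit 1) (nat_lit 5) (nat_lit 3) (nat_lit 4) (nat_lit 1) (nat_lit 4) (nat_lit 265) (nat_lit 216) (nat_lit 119))) (XT.nd (nat_lit 78) (nat_lit 0) (nat_lit 0) (XT.lf (nat_lit 0) (nat_lit 2891448005701) (nat_lit 152) (nat_lit 9255483327219) (nat_lit 0) (nat_lit 2807524250860) (nat_lit 1) (nat_lit 5) (nat_lit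 3) (nat_lit 4) (nat_lit 1) (nat_lit 4) (nat_lit 266) (nat_lit 216) (nat_lit 118)) (XT.lf (nat_lit 0) (nat_lit 3358134820445) (nat_lit 152) (nat_lit 10558204535999) (nat_lit 0) (nat_lit 3274211053276) (nat_lit 1) (nat_lit 5) (nat_lit 3) (nat_lit 4) (nat_lit 1) (nat_lit 4) (nat_lit 267) (nat_lit 216) (nat_lit 117))))) (XT.nd (nat_lit 26676) (nat_lit 0) (nat_lit 1064) (XT.nd (nat_lit 156) (nat_lit 0) (nat_lit 0) (XT.nd (nat_lit 78) (nat_lit 0) (nat_lit 0) (XT.lf (nat_lit 0) (nat_lit 12366924949343) (nat_lit 152) (nat_lit 35705568911237) (nat_lit 0) (nat_lit 12283001123351) (nat_lit 1) (nat_lit 5) (nat_lit 3) (nat_lit 4) (nat_lit 1) (nat_lit 4) (nat_lit 276) (nat_lit 216) (nat_lit 108)) (XT.lf (nat_lit 0) (nat_lit 14254933233423) (nat_lit 152) (nat_lit 40975803093301) (nat_lit 0) (nat_lit 14171009404383) (nat_lit 1) (nat_lit 5) (nat_lit 3) (nat_lit 4) (nat_lit 1) (nat_lit 4) (nat_lit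 277) (nat_lit 216) (nat_lit 107))) (XT.nd (nat_lit 78) (nat_lit 0) (nat_lit 0) (XT.lf (nat_lit 0) (nat_lit 16426142757022) (nat_lit 152) (nat_lit 47036572408486) (nat_lit 0) (nat_lit 16342218925332) (nat_lit 1) (nat_lit 5) (nat_lit 3) (nat_lit 4) (nat_lit 1) (nat_lit 4) (nat_lit 278) (nat_lit 216) (nat_lit 106)) (XT.lf (nat_lit 0) (nat_lit 18923033706471) (nat_lit 152) (nat_lit 54006457126001) (nat_lit 0) (nat_lit 18839109872478) (nat_lit 1) (nat_lit 5) (nat_lit 3) (nat_lit 4) (nat_lit 1) (nat_lit 4) (nat_lit 279) (nat_lit 216) (nat_lit 105)))) (XT.nd (nat_lit 156) (nat_lit 0) (nat_lit 0) (XT.nd (nat_lit 78) (nat_lit 0) (nat_lit 0) (XT.lf (nat_lit 0) (nat_lit 8838151142) (nat_lit 0) (nat_lit 8838151142) (nat_lit 228) (nat_lit 4486747770) (nat_lit 15) (nat_lit 5) (nat_lit 15) (nat_lit 3) (nat_lit 18) (nat_lit 3) (nat_lit 217) (nat_lit 217) (nat_lit 166)) (XT.lf (nat_lit 0) (nat_lit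 38040709322) (nat_lit 228) (nat_lit 9386196972) (nat_lit 304) (nat_lit 217691516) (nat_lit 15) (nat_lit 5) (nat_lit 18) (nat_lit 3) (nat_lit 19) (nat_lit 5) (nat_lit 218) (nat_lit 217) (nat_lit 165))) (XT.nd (nat_lit 78) (nat_lit 0) (nat_lit 0) (XT.lf (nat_lit 76) (nat_lit 10562262693) (nat_lit 0) (nat_lit 31844189721) (nat_lit 304) (nat_lit 8863336423) (nat_lit 16) (nat_lit 5) (nat_lit 15) (nat_lit 5) (nat_lit 19) (nat_lit 5) (nat_lit 219) (nat_lit 217) (nat_lit 164)) (XT.lf (nat_lit 76) (nat_lit 34554742569) (nat_lit 0) (nat_lit 13358768827) (nat_lit 304) (nat_lit 7452350320) (nat_lit 16) (nat_lit 5) (nat_lit 15) (nat_lit 5) (nat_lit 19) (nat_lit 5) (nat_lit 220) (nat_lit 217) (nat_lit 163))))))))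
noncomputable def xc44 : XT := (XT.nd (nat_lit 2262) (nat_lit 76) (nat_lit 0) (XT.nd (nat_lit 1092) (nat_lit 228) (nat_lit 0) (XT.nd (nat_lit 546) (nat_lit 228) (nat_lit 0) (XT.nd (nat_lit 234) (nat_lit 304) (nat_lit 0) (XT.nd (nat_lit 78) (nat_lit 76) (nat_lit 0) (XT.lf (nat_lit 0) (nat_lit 1909256618) (nat_lit 228) (nat_lit 52739927500) (nat_lit 304) (nat_lit 5366840225) (nat_lit 13) (nat_lit 5) (nat_lit 16) (nat_lit 5) (nat_lit 17) (nat_lit 5) (nat_lit 221) (nat_lit 217) (nat_lit 162)) (XT.nd (nat_lit 78) (nat_lit 76) (nat_lit 0) (XT.lf (nat_lit 0) (nat_lit 29675061041) (nat_lit 228) (nat_lit 34411950970) (nat_lit 304) (nat_lit 1022982673) (nat_lit 13) (nat_lit 5) (nat_lit 16) (nat_lit 5) (nat_lit 17) (nat_lit 5) (nat_lit 222) (nat_lit 217) (nat_lit 161)) (XT.lf (nat_lit 0) (nat_lit 3615779829) (nat_lit 304) (nat_lit 9529946217) (nat_lit 76) (nat_lit 57798154466) (nat_lit 12) (nat_lit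 5) (nat_lit 16) (nat_lit 5) (nat_lit 13) (nat_lit 5) (nat_lit 223) (nat_lit 217) (nat_lit 160)))) (XT.nd (nat_lit 156) (nat_lit 152) (nat_lit 0) (XT.nd (nat_lit 78) (nat_lit 0) (nat_lit 0) (XT.lf (nat_lit 0) (nat_lit 10276004762) (nat_lit 228) (nat_lit 55838221764) (nat_lit 76) (nat_lit 11316793848) (nat_lit 10) (nat_lit 5) (nat_lit 13) (nat_lit 5) (nat_lit 11) (nat_lit 5) (nat_lit 224) (nat_lit 217) (nat_lit 159)) (XT.lf (nat_lit 0) (nat_lit 19080729795) (nat_lit 228) (nat_lit 27014204791) (nat_lit 76) (nat_lit 38624507528) (nat_lit 10) (nat_lit 5) (nat_lit 13) (nat_lit 5) (nat_lit 11) (nat_lit 5) (nat_lit 225) (nat_lit 217) (nat_lit 158))) (XT.nd (nat_lit 78) (nat_lit 0) (nat_lit 0) (XT.lf (nat_lit 0) (nat_lit 6729972553) (nat_lit 152) (nat_lit 22752779099) (nat_lit 228) (nat_lit 63576914078) (nat_lit 8) (nat_lit 5) (nat_lit 10) (nat_lit 5) (nat_lit 11) (nat_lit 5) (nat_lit 226)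 (nat_lit 217) (nat_lit 157)) (XT.lf (nat_lit 0) (nat_lit 43091874092) (nat_lit 228) (nat_lit 54106693303) (nat_lit 76) (nat_lit 5205359226) (nat_lit 8) (nat_lit 5) (nat_lit 11) (nat_lit 5) (nat_lit 9) (nat_lit 4) (nat_lit 227) (nat_lit 217) (nat_lit 156))))) (XT.nd (nat_lit 234) (nat_lit 152) (nat_lit 0) (XT.nd (nat_lit 78) (nat_lit 76) (nat_lit 0) (XT.lf (nat_lit 0) (nat_lit 59824144344) (nat_lit 228) (nat_lit 18136109797) (nat_lit 76) (nat_lit 35027325872) (nat_lit 8) (nat_lit 5) (nat_lit 11) (nat_lit 5) (nat_lit 9) (nat_lit 4) (nat_lit 228) (nat_lit 217) (nat_lit 155)) (XT.nd (nat_lit 78) (nat_lit 0) (nat_lit 0) (XT.lf (nat_lit 0) (nat_lit 25497980208) (nat_lit 76) (nat_lit 54622625629) (nat_lit 152) (nat_lit 44880040611) (nat_lit 7) (nat_lit 5) (nat_lit 8) (nat_lit 5) (nat_lit 9) (nat_lit 4) (nat_lit 229) (nat_lit 217) (nat_lit 154)) (XT.lf (nat_lit 0) (nat_lit 77713442489) (nat_lit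 76) (nat_lit 26694760448) (nat_lit 152) (nat_lit 34265485293) (nat_lit 7) (nat_lit 5) (nat_lit 8) (nat_lit 5) (nat_lit 9) (nat_lit 4) (nat_lit 230) (nat_lit 217) (nat_lit 153)))) (XT.nd (nat_lit 156) (nat_lit 76) (nat_lit 0) (XT.nd (nat_lit 78) (nat_lit 76) (nat_lit 0) (XT.lf (nat_lit 0) (nat_lit 132562261502) (nat_lit 152) (nat_lit 16862887690) (nat_lit 0) (nat_lit 4939052138) (nat_lit 7) (nat_lit 5) (nat_lit 9) (nat_lit 4) (nat_lit 7) (nat_lit 4) (nat_lit 231) (nat_lit 217) (nat_lit 152)) (XT.lf (nat_lit 0) (nat_lit 35759829919) (nat_lit 76) (nat_lit 131930469919) (nat_lit 76) (nat_lit 4305372509) (nat_lit 6) (nat_lit 4) (nat_lit 7) (nat_lit 5) (nat_lit 7) (nat_lit 4) (nat_lit 232) (nat_lit 217) (nat_lit 151))) (XT.nd (nat_lit 78) (nat_lit 0) (nat_lit 0) (XT.lf (nat_lit 0) (nat_lit 15330071730) (nat_lit 152) (nat_lit 94667084968) (nat_lit 76) (nat_lit 82038120098) (nat_lit 5) (nat_lit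 5) (nat_lit 7) (nat_lit 5) (nat_lit 6) (nat_lit 4) (nat_lit 233) (nat_lit 217) (nat_lit 150)) (XT.lf (nat_lit 0) (nat_lit 37469148090) (nat_lit 152) (nat_lit 47069498430) (nat_lit 76) (nat_lit 130511564816) (nat_lit 5) (nat_lit 5) (nat_lit 7) (nat_lit 5) (nat_lit 6) (nat_lit 4) (nat_lit 234) (nat_lit 217) (nat_lit 149)))))) (XT.nd (nat_lit 546) (nat_lit 76) (nat_lit 0) (XT.nd (nat_lit 234) (nat_lit 76) (nat_lit 0) (XT.nd (nat_lit 78) (nat_lit 0) (nat_lit 0) (XT.lf (nat_lit 0) (nat_lit 8415671919) (nat_lit 76) (nat_lit 54861109553) (nat_lit 152) (nat_lit 178188456880) (nat_lit 4) (nat_lit 5) (nat_lit 5) (nat_lit 5) (nat_lit 6) (nat_lit 4) (nat_lit 235) (nat_lit 217) (nat_lit 148)) (XT.nd (nat_lit 78) (nat_lit 0) (nat_lit 0) (XT.lf (nat_lit 0) (nat_lit 77512370084) (nat_lit 76) (nat_lit 17902912626) (nat_lit 152) (nat_lit 176058284049) (nat_lit 4) (nat_lit 5) (nat_lit 5) (nat_lit 5)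 (nat_lit 6) (nat_lit 4) (nat_lit 236) (nat_lit 217) (nat_lit 147)) (XT.lf (nat_lit 0) (nat_lit 133392500999) (nat_lit 152) (nat_lit 150029305237) (nat_lit 0) (nat_lit 22408651924) (nat_lit 4) (nat_lit 5) (nat_lit 6) (nat_lit 4) (nat_lit 4) (nat_lit 4) (nat_lit 237) (nat_lit 217) (nat_lit 146)))) (XT.nd (nat_lit 156) (nat_lit 76) (nat_lit 0) (XT.nd (nat_lit 78) (nat_lit 0) (nat_lit 0) (XT.lf (nat_lit 0) (nat_lit 177918255733) (nat_lit 152) (nat_lit 100361141974) (nat_lit 0) (nat_lit 66933696871) (nat_lit 4) (nat_lit 5) (nat_lit 6) (nat_lit 4) (nat_lit 4) (nat_lit 4) (nat_lit 238) (nat_lit 217) (nat_lit 145)) (XT.lf (nat_lit 0) (nat_lit 229122381548) (nat_lit 152) (nat_lit 43243617040) (nat_lit 0) (nat_lit 118137205481) (nat_lit 4) (nat_lit 5) (nat_lit 6) (nat_lit 4) (nat_lit 4) (nat_lit 4) (nat_lit 239) (nat_lit 217) (nat_lit 144))) (XT.nd (nat_lit 78) (nat_lit 0) (nat_lit 0) (XT.lf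 (nat_lit 0) (nat_lit 24633863204) (nat_lit 76) (nat_lit 264392870836) (nat_lit 76) (nat_lit 153407158069) (nat_lit 3) (nat_lit 4) (nat_lit 4) (nat_lit 5) (nat_lit 4) (nat_lit 4) (nat_lit 240) (nat_lit 217) (nat_lit 143)) (XT.lf (nat_lit 0) (nat_lit 107552242181) (nat_lit 76) (nat_lit 252624557251) (nat_lit 76) (nat_lit 141638377787) (nat_lit 3) (nat_lit 4) (nat_lit 4) (nat_lit 5) (nat_lit 4) (nat_lit 4) (nat_lit 241) (nat_lit 217) (nat_lit 142))))) (XT.nd (nat_lit 312) (nat_lit 76) (nat_lit 0) (XT.nd (nat_lit 156) (nat_lit 0) (nat_lit 0) (XT.nd (nat_lit 78) (nat_lit 0) (nat_lit 0) (XT.lf (nat_lit 0) (nat_lit 202907755246) (nat_lit 76) (nat_lit 239091270017) (nat_lit 76) (nat_lit 128104684730) (nat_lit 3) (nat_lit 4) (nat_lit 4) (nat_lit 5) (nat_lit 4) (nat_lit 4) (nat_lit 242) (nat_lit 217) (nat_lit 141)) (XT.lf (nat_lit 0) (nat_lit 312566053739) (nat_lit 76) (nat_lit 223528227429)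 (nat_lit 76) (nat_lit 112541289253) (nat_lit 3) (nat_lit 4) (nat_lit 4) (nat_lit 5) (nat_lit 4) (nat_lit 4) (nat_lit 243) (nat_lit 217) (nat_lit 140))) (XT.nd (nat_lit 78) (nat_lit 0) (nat_lit 0) (XT.lf (nat_lit 0) (nat_lit 438672626111) (nat_lit 76) (nat_lit 205630935175) (nat_lit 76) (nat_lit 94643690139) (nat_lit 3) (nat_lit 4) (nat_lit 4) (nat_lit 5) (nat_lit 4) (nat_lit 4) (nat_lit 244) (nat_lit 217) (nat_lit 139)) (XT.lf (nat_lit 0) (nat_lit 583694774863) (nat_lit 76) (nat_lit 185049228842) (nat_lit 76) (nat_lit 74061716971) (nat_lit 3) (nat_lit 4) (nat_lit 4) (nat_lit 5) (nat_lit 4) (nat_lit 4) (nat_lit 245) (nat_lit 217) (nat_lit 138)))) (XT.nd (nat_lit 156) (nat_lit 76) (nat_lit 0) (XT.nd (nat_lit 78) (nat_lit 0) (nat_lit 0) (XT.lf (nat_lit 0) (nat_lit 750469889864) (nat_lit 76) (nat_lit 161380422870) (nat_lit 76) (nat_lit 50392678968) (nat_lit 3) (nat_lit 4) (nat_lit 4)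 (nat_lit 5) (nat_lit 4) (nat_lit 4) (nat_lit 246) (nat_lit 217) (nat_lit 137)) (XT.lf (nat_lit 0) (nat_lit 942260962493) (nat_lit 76) (nat_lit 134161431926) (nat_lit 76) (nat_lit 23173486259) (nat_lit 3) (nat_lit 4) (nat_lit 4) (nat_lit 5) (nat_lit 4) (nat_lit 4) (nat_lit 247) (nat_lit 217) (nat_lit 136))) (XT.nd (nat_lit 78) (nat_lit 0) (nat_lit 0) (XT.lf (nat_lit 0) (nat_lit 7404763262) (nat_lit 152) (nat_lit 95067880102) (nat_lit 76) (nat_lit 1155028596347) (nat_lit 2) (nat_lit 5) (nat_lit 4) (nat_lit 5) (nat_lit 3) (nat_lit 4) (nat_lit 248) (nat_lit 217) (nat_lit 135)) (XT.lf (nat_lit 0) (nat_lit 40197088169) (nat_lit 152) (nat_lit 24564534115) (nat_lit 76) (nat_lit 1374165276995) (nat_lit 2) (nat_lit 5) (nat_lit 4) (nat_lit 5) (nat_lit 3) (nat_lit 4) (nat_lit 249) (nat_lit 217) (nat_lit 134))))))) (XT.nd (nat_lit 1170) (nat_lit 0) (nat_lit 0) (XT.nd (nat_lit 546) (nat_lit 0)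 (nat_lit 0) (XT.nd (nat_lit 234) (nat_lit 0) (nat_lit 0) (XT.nd (nat_lit 78) (nat_lit 0) (nat_lit 0) (XT.lf (nat_lit 0) (nat_lit 62037066353) (nat_lit 76) (nat_lit 18439897691) (nat_lit 152) (nat_lit 1566704139112) (nat_lit 1) (nat_lit 5) (nat_lit 2) (nat_lit 5) (nat_lit 3) (nat_lit 4) (nat_lit 250) (nat_lit 217) (nat_lit 133)) (XT.nd (nat_lit 78) (nat_lit 0) (nat_lit 0) (XT.lf (nat_lit 0) (nat_lit 129586144471) (nat_lit 152) (nat_lit 1723594808819) (nat_lit 0) (nat_lit 33074386467) (nat_lit 1) (nat_lit 5) (nat_lit 3) (nat_lit 4) (nat_lit 1) (nat_lit 4) (nat_lit 251) (nat_lit 217) (nat_lit 132)) (XT.lf (nat_lit 0) (nat_lit 186939690520) (nat_lit 152) (nat_lit 1883691478292) (nat_lit 0) (nat_lit 90427845287) (nat_lit 1) (nat_lit 5) (nat_lit 3) (nat_lit 4) (nat_lit 1) (nat_lit 4) (nat_lit 252) (nat_lit 217) (nat_lit 131)))) (XT.nd (nat_lit 156) (nat_lit 0) (nat_lit 0) (XT.nd (nat_lit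 78) (nat_lit 0) (nat_lit 0) (XT.lf (nat_lit 0) (nat_lit 252896179948) (nat_lit 152) (nat_lit 2067802814526) (nat_lit 0) (nat_lit 156384258864) (nat_lit 1) (nat_lit 5) (nat_lit 3) (nat_lit 4) (nat_lit 1) (nat_lit 4) (nat_lit 253) (nat_lit 217) (nat_lit 130)) (XT.lf (nat_lit 0) (nat_lit 328746065809) (nat_lit 152) (nat_lit 2279530995837) (nat_lit 0) (nat_lit 232234078767) (nat_lit 1) (nat_lit 5) (nat_lit 3) (nat_lit 4) (nat_lit 1) (nat_lit 4) (nat_lit 254) (nat_lit 217) (nat_lit 129))) (XT.nd (nat_lit 78) (nat_lit 0) (nat_lit 0) (XT.lf (nat_lit 0) (nat_lit 415973367609) (nat_lit 152) (nat_lit 2523018530122) (nat_lit 0) (nat_lit 319461323214) (nat_lit 1) (nat_lit 5) (nat_lit 3) (nat_lit 4) (nat_lit 1) (nat_lit 4) (nat_lit 255) (nat_lit 217) (nat_lit 128)) (XT.lf (nat_lit 0) (nat_lit 516284706471) (nat_lit 152) (nat_lit 2803029303920) (nat_lit 0) (nat_lit 419772612202) (nat_lit 1) (nat_lit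 5) (nat_lit 3) (nat_lit 4) (nat_lit 1) (nat_lit 4) (nat_lit 256) (nat_lit 217) (nat_lit 127))))) (XT.nd (nat_lit 312) (nat_lit 0) (nat_lit 0) (XT.nd (nat_lit 156) (nat_lit 0) (nat_lit 0) (XT.nd (nat_lit 78) (nat_lit 0) (nat_lit 0) (XT.lf (nat_lit 0) (nat_lit 631642695546) (nat_lit 152) (nat_lit 3125041788893) (nat_lit 0) (nat_lit 535130557909) (nat_lit 1) (nat_lit 5) (nat_lit 3) (nat_lit 4) (nat_lit 1) (nat_lit 4) (nat_lit 257) (nat_lit 217) (nat_lit 126)) (XT.lf (nat_lit 0) (nat_lit 764304338969) (nat_lit 152) (nat_lit 3495356229312) (nat_lit 0) (nat_lit 667792163620) (nat_lit 1) (nat_lit 5) (nat_lit 3) (nat_lit 4) (nat_lit 1) (nat_lit 4) (nat_lit 258) (nat_lit 217) (nat_lit 125))) (XT.nd (nat_lit 78) (nat_lit 0) (nat_lit 0) (XT.lf (nat_lit 0) (nat_lit 916865190631) (nat_lit 152) (nat_lit 3921217907707) (nat_lit 0) (nat_lit 820352982490) (nat_lit 1) (nat_lit 5) (nat_lit 3) (nat_lit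 4) (nat_lit 1) (nat_lit 4) (nat_lit 259) (nat_lit 217) (nat_lit 124)) (XT.lf (nat_lit 0) (nat_lit 1092310136762) (nat_lit 152) (nat_lit 4410958900394) (nat_lit 0) (nat_lit 995797900105) (nat_lit 1) (nat_lit 5) (nat_lit 3) (nat_lit 4) (nat_lit 1) (nat_lit 4) (nat_lit 260) (nat_lit 217) (nat_lit 123)))) (XT.nd (nat_lit 156) (nat_lit 0) (nat_lit 0) (XT.nd (nat_lit 78) (nat_lit 0) (nat_lit 0) (XT.lf (nat_lit 0) (nat_lit 1294071795872) (nat_lit 152) (nat_lit 4974161096360) (nat_lit 0) (nat_lit 1197559534420) (nat_lit 1) (nat_lit 5) (nat_lit 3) (nat_lit 4) (nat_lit 1) (nat_lit 4) (nat_lit 261) (nat_lit 217) (nat_lit 122)) (XT.lf (nat_lit 0) (nat_lit 1526097678684) (nat_lit 152) (nat_lit 5621843669006) (nat_lit 0) (nat_lit 1429585395670) (nat_lit 1) (nat_lit 5) (nat_lit 3) (nat_lit 4) (nat_lit 1) (nat_lit 4) (nat_lit 262) (nat_lit 217) (nat_lit 121))) (XT.nd (nat_lit 78) (nat_lit 0) (nat_lit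 0) (XT.lf (nat_lit 0) (nat_lit 1792927422034) (nat_lit 152) (nat_lit 6366678668665) (nat_lit 0) (nat_lit 1696415120271) (nat_lit 1) (nat_lit 5) (nat_lit 3) (nat_lit 4) (nat_lit 1) (nat_lit 4) (nat_lit 263) (nat_lit 217) (nat_lit 120)) (XT.lf (nat_lit 0) (nat_lit 2099781607859) (nat_lit 152) (nat_lit 7223238954027) (nat_lit 0) (nat_lit 2003269289792) (nat_lit 1) (nat_lit 5) (nat_lit 3) (nat_lit 4) (nat_lit 1) (nat_lit 4) (nat_lit 264) (nat_lit 217) (nat_lit 119)))))) (XT.nd (nat_lit 858) (nat_lit 0) (nat_lit 0) (XT.nd (nat_lit 234) (nat_lit 0) (nat_lit 0) (XT.nd (nat_lit 78) (nat_lit 0) (nat_lit 0) (XT.lf (nat_lit 0) (nat_lit 2452663905011) (nat_lit 152) (nat_lit 8208283313283) (nat_lit 0) (nat_lit 2356151572767) (nat_lit 1) (nat_lit 5) (nat_lit 3) (nat_lit 4) (nat_lit 1) (nat_lit 4) (nat_lit 265) (nat_lit 217) (nat_lit 118)) (XT.nd (nat_lit 78) (nat_lit 0) (nat_lit 0) (XT.lf (nat_lit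 0) (nat_lit 2858478532348) (nat_lit 152) (nat_lit 9341084353462) (nat_lit 0) (nat_lit 2761966187776) (nat_lit 1) (nat_lit 5) (nat_lit 3) (nat_lit 4) (nat_lit 1) (nat_lit 4) (nat_lit 266) (nat_lit 217) (nat_lit 117)) (XT.lf (nat_lit 0) (nat_lit 3325165341273) (nat_lit 152) (nat_lit 10643805573176) (nat_lit 0) (nat_lit 3228652985981) (nat_lit 1) (nat_lit 5) (nat_lit 3) (nat_lit 4) (nat_lit 1) (nat_lit 4) (nat_lit 267) (nat_lit 217) (nat_lit 116)))) (XT.nd (nat_lit 156) (nat_lit 0) (nat_lit 0) (XT.nd (nat_lit 78) (nat_lit 0) (nat_lit 0) (XT.lf (nat_lit 0) (nat_lit 3861855160658) (nat_lit 152) (nat_lit 12141934996289) (nat_lit 0) (nat_lit 3765342796044) (nat_lit 1) (nat_lit 5) (nat_lit 3) (nat_lit 4) (nat_lit 1) (nat_lit 4) (nat_lit 268) (nat_lit 217) (nat_lit 115)) (XT.lf (nat_lit 0) (nat_lit 4479048443490) (nat_lit 152) (nat_lit 13864783850646) (nat_lit 0) (nat_lit 4382536070770) (nat_lit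 1) (nat_lit 5) (nat_lit 3) (nat_lit 4) (nat_lit 1) (nat_lit 4) (nat_lit 269) (nat_lit 217) (nat_lit 114))) (XT.nd (nat_lit 78) (nat_lit 0) (nat_lit 0) (XT.lf (nat_lit 0) (nat_lit 5188820710520) (nat_lit 152) (nat_lit 15846060048613) (nat_lit 0) (nat_lit 5092308330751) (nat_lit 1) (nat_lit 5) (nat_lit 3) (nat_lit 4) (nat_lit 1) (nat_lit 4) (nat_lit 270) (nat_lit 217) (nat_lit 113)) (XT.lf (nat_lit 0) (nat_lit 6005058810451) (nat_lit 152) (nat_lit 18124527689716) (nat_lit 0) (nat_lit 5908546424553) (nat_lit 1) (nat_lit 5) (nat_lit 3) (nat_lit 4) (nat_lit 1) (nat_lit 4) (nat_lit 271) (nat_lit 217) (nat_lit 112))))) (XT.nd (nat_lit 26832) (nat_lit 0) (nat_lit 912) (XT.nd (nat_lit 156) (nat_lit 0) (nat_lit 0) (XT.nd (nat_lit 78) (nat_lit 0) (nat_lit 0) (XT.lf (nat_lit 0) (nat_lit 12333955442404) (nat_lit 152) (nat_lit 35791170000587) (nat_lit 0) (nat_lit 12237443035961) (nat_lit 1) (nat_lit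 5) (nat_lit 3) (nat_lit 4) (nat_lit 1) (nat_lit 4) (nat_lit 276) (nat_lit 217) (nat_lit 107)) (XT.lf (nat_lit 0) (nat_lit 14221963725045) (nat_lit 152) (nat_lit 41061404185354) (nat_lit 0) (nat_lit 14125451315952) (nat_lit 1) (nat_lit 5) (nat_lit 3) (nat_lit 4) (nat_lit 1) (nat_lit 4) (nat_lit 277) (nat_lit 217) (nat_lit 106))) (XT.nd (nat_lit 26598) (nat_lit 0) (nat_lit 1064) (XT.lf (nat_lit 0) (nat_lit 16393173247393) (nat_lit 152) (nat_lit 47122173502888) (nat_lit 0) (nat_lit 16296660835996) (nat_lit 1) (nat_lit 5) (nat_lit 3) (nat_lit 4) (nat_lit 1) (nat_lit 4) (nat_lit 278) (nat_lit 217) (nat_lit 105)) (XT.lf (nat_lit 0) (nat_lit 10176701857) (nat_lit 0) (nat_lit 10176701857) (nat_lit 228) (nat_lit 5129813624) (nat_lit 15) (nat_lit 5) (nat_lit 15) (nat_lit 3) (nat_lit 18) (nat_lit 3) (nat_lit 218) (nat_lit 218) (nat_lit 164)))) (XT.nd (nat_lit 156) (nat_lit 152) (nat_lit 0) (XT.nd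 (nat_lit 78) (nat_lit 0) (nat_lit 0) (XT.lf (nat_lit 0) (nat_lit 43790511210) (nat_lit 228) (nat_lit 10763431823) (nat_lit 304) (nat_lit 230021760) (nat_lit 15) (nat_lit 5) (nat_lit 18) (nat_lit 3) (nat_lit 19) (nat_lit 5) (nat_lit 219) (nat_lit 218) (nat_lit 163)) (XT.lf (nat_lit 76) (nat_lit 12175901578) (nat_lit 0) (nat_lit 36630728005) (nat_lit 304) (nat_lit 10147078040) (nat_lit 16) (nat_lit 5) (nat_lit 15) (nat_lit 5) (nat_lit 19) (nat_lit 5) (nat_lit 220) (nat_lit 218) (nat_lit 162))) (XT.nd (nat_lit 78) (nat_lit 152) (nat_lit 0) (XT.lf (nat_lit 76) (nat_lit 39763431764) (nat_lit 0) (nat_lit 15371201390) (nat_lit 304) (nat_lit 8530412567) (nat_lit 16) (nat_lit 5) (nat_lit 15) (nat_lit 5) (nat_lit 19) (nat_lit 5) (nat_lit 221) (nat_lit 218) (nat_lit 161)) (XT.lf (nat_lit 0) (nat_lit 2225741817) (nat_lit 228) (nat_lit 60651403749) (nat_lit 304) (nat_lit 6136189642) (nat_lit 13)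 (nat_lit 5) (nat_lit 16) (nat_lit 5) (nat_lit 17) (nat_lit 5) (nat_lit 222) (nat_lit 218) (nat_lit 160))))))))
noncomputable def xc45 : XT := (XT.nd (nat_lit 2340) (nat_lit 0) (nat_lit 0) (XT.nd (nat_lit 1170) (nat_lit 228) (nat_lit 0) (XT.nd (nat_lit 546) (nat_lit 304) (nat_lit 0) (XT.nd (nat_lit 234) (nat_lit 152) (nat_lit 0) (XT.nd (nat_lit 78) (nat_lit 228) (nat_lit 0) (XT.lf (nat_lit 0) (nat_lit 34152491246) (nat_lit 228) (nat_lit 39574167201) (nat_lit 304) (nat_lit 1145406929) (nat_lit 13) (nat_lit 5) (nat_lit 16) (nat_lit 5) (nat_lit 17) (nat_lit 5) (nat_lit 223) (nat_lit 218) (nat_lit 159)) (XT.nd (nat_lit 78) (nat_lit 152) (nat_lit 0) (XT.lf (nat_lit 0) (nat_lit 4182721804) (nat_lit 304) (nat_lit 10933946882) (nat_lit 76) (nat_lit 66464775468) (nat_lit 12) (nat_lit 5) (nat_lit 16) (nat_lit 5) (nat_lit 13) (nat_lit 5) (nat_lit 224) (nat_lit 218) (nat_lit 158)) (XT.lf (nat_lit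 0) (nat_lit 11839863573) (nat_lit 228) (nat_lit 64186058001) (nat_lit 76) (nat_lit 13016094286) (nat_lit 10) (nat_lit 5) (nat_lit 13) (nat_lit 5) (nat_lit 11) (nat_lit 5) (nat_lit 225) (nat_lit 218) (nat_lit 157)))) (XT.nd (nat_lit 156) (nat_lit 0) (nat_lit 0) (XT.nd (nat_lit 78) (nat_lit 152) (nat_lit 0) (XT.lf (nat_lit 0) (nat_lit 21962368043) (nat_lit 228) (nat_lit 31042077225) (nat_lit 76) (nat_lit 44419732667) (nat_lit 10) (nat_lit 5) (nat_lit 13) (nat_lit 5) (nat_lit 11) (nat_lit 5) (nat_lit 226) (nat_lit 218) (nat_lit 156)) (XT.lf (nat_lit 0) (nat_lit 7762624072) (nat_lit 152) (nat_lit 26160480700) (nat_lit 228) (nat_lit 73092601344) (nat_lit 8) (nat_lit 5) (nat_lit 10) (nat_lit 5) (nat_lit 11) (nat_lit 5) (nat_lit 227) (nat_lit 218) (nat_lit 155))) (XT.nd (nat_lit 78) (nat_lit 0) (nat_lit 0) (XT.lf (nat_lit 0) (nat_lit 49571443315) (nat_lit 228) (nat_lit 62200219772) (nat_lit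 76) (nat_lit 5990294383) (nat_lit 8) (nat_lit 5) (nat_lit 11) (nat_lit 5) (nat_lit 9) (nat_lit 4) (nat_lit 228) (nat_lit 218) (nat_lit 154)) (XT.lf (nat_lit 0) (nat_lit 68811494787) (nat_lit 228) (nat_lit 20836980591) (nat_lit 76) (nat_lit 40285017165) (nat_lit 8) (nat_lit 5) (nat_lit 11) (nat_lit 5) (nat_lit 9) (nat_lit 4) (nat_lit 229) (nat_lit 218) (nat_lit 153))))) (XT.nd (nat_lit 312) (nat_lit 152) (nat_lit 0) (XT.nd (nat_lit 156) (nat_lit 76) (nat_lit 0) (XT.nd (nat_lit 78) (nat_lit 0) (nat_lit 0) (XT.lf (nat_lit 0) (nat_lit 29341334476) (nat_lit 76) (nat_lit 62810072873) (nat_lit 152) (nat_lit 51597285859) (nat_lit 7) (nat_lit 5) (nat_lit 8) (nat_lit 5) (nat_lit 9) (nat_lit 4) (nat_lit 230) (nat_lit 218) (nat_lit 152)) (XT.lf (nat_lit 0) (nat_lit 89386682546) (nat_lit 76) (nat_lit 30693803558) (nat_lit 152) (nat_lit 39392472571) (nat_lit 7) (nat_lit 5) (nat_lit 8) (nat_lit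 5) (nat_lit 9) (nat_lit 4) (nat_lit 231) (nat_lit 218) (nat_lit 151))) (XT.nd (nat_lit 78) (nat_lit 76) (nat_lit 0) (XT.lf (nat_lit 0) (nat_lit 152456397984) (nat_lit 152) (nat_lit 19376849231) (nat_lit 0) (nat_lit 5684006135) (nat_lit 7) (nat_lit 5) (nat_lit 9) (nat_lit 4) (nat_lit 7) (nat_lit 4) (nat_lit 232) (nat_lit 218) (nat_lit 150)) (XT.lf (nat_lit 0) (nat_lit 41138572765) (nat_lit 76) (nat_lit 151714402929) (nat_lit 76) (nat_lit 4940583446) (nat_lit 6) (nat_lit 4) (nat_lit 7) (nat_lit 5) (nat_lit 7) (nat_lit 4) (nat_lit 233) (nat_lit 218) (nat_lit 149)))) (XT.nd (nat_lit 156) (nat_lit 76) (nat_lit 0) (XT.nd (nat_lit 78) (nat_lit 0) (nat_lit 0) (XT.lf (nat_lit 0) (nat_lit 17637975276) (nat_lit 152) (nat_lit 108853414058) (nat_lit 76) (nat_lit 94347848663) (nat_lit 5) (nat_lit 5) (nat_lit 7) (nat_lit 5) (nat_lit 6) (nat_lit 4) (nat_lit 234) (nat_lit 218) (nat_lit 148)) (XT.lf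 (nat_lit 0) (nat_lit 43096818379) (nat_lit 152) (nat_lit 54117980885) (nat_lit 76) (nat_lit 150091786973) (nat_lit 5) (nat_lit 5) (nat_lit 7) (nat_lit 5) (nat_lit 6) (nat_lit 4) (nat_lit 235) (nat_lit 218) (nat_lit 147))) (XT.nd (nat_lit 78) (nat_lit 0) (nat_lit 0) (XT.lf (nat_lit 0) (nat_lit 9689422183) (nat_lit 76) (nat_lit 63085694689) (nat_lit 152) (nat_lit 204908830515) (nat_lit 4) (nat_lit 5) (nat_lit 5) (nat_lit 5) (nat_lit 6) (nat_lit 4) (nat_lit 236) (nat_lit 218) (nat_lit 146)) (XT.lf (nat_lit 0) (nat_lit 89149138185) (nat_lit 76) (nat_lit 20584365783) (nat_lit 152) (nat_lit 202460161528) (nat_lit 4) (nat_lit 5) (nat_lit 5) (nat_lit 5) (nat_lit 6) (nat_lit 4) (nat_lit 237) (nat_lit 218) (nat_lit 145)))))) (XT.nd (nat_lit 546) (nat_lit 152) (nat_lit 0) (XT.nd (nat_lit 234) (nat_lit 76) (nat_lit 0) (XT.nd (nat_lit 78) (nat_lit 0) (nat_lit 0) (XT.lf (nat_lit 0) (nat_lit 153406675115)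 (nat_lit 152) (nat_lit 172524410669) (nat_lit 0) (nat_lit 25773105432) (nat_lit 4) (nat_lit 5) (nat_lit 6) (nat_lit 4) (nat_lit 4) (nat_lit 4) (nat_lit 238) (nat_lit 218) (nat_lit 144)) (XT.nd (nat_lit 78) (nat_lit 0) (nat_lit 0) (XT.lf (nat_lit 0) (nat_lit 204610601889) (nat_lit 152) (nat_lit 115407234702) (nat_lit 0) (nat_lit 76976495505) (nat_lit 4) (nat_lit 5) (nat_lit 6) (nat_lit 4) (nat_lit 4) (nat_lit 4) (nat_lit 239) (nat_lit 218) (nat_lit 143)) (XT.lf (nat_lit 0) (nat_lit 263494745559) (nat_lit 152) (nat_lit 49723134754) (nat_lit 0) (nat_lit 135860172480) (nat_lit 4) (nat_lit 5) (nat_lit 6) (nat_lit 4) (nat_lit 4) (nat_lit 4) (nat_lit 240) (nat_lit 218) (nat_lit 142)))) (XT.nd (nat_lit 156) (nat_lit 0) (nat_lit 0) (XT.nd (nat_lit 78) (nat_lit 0) (nat_lit 0) (XT.lf (nat_lit 0) (nat_lit 28335648215) (nat_lit 76) (nat_lit 304048857749) (nat_lit 76) (nat_lit 176413878846) (nat_lit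 3) (nat_lit 4) (nat_lit 4) (nat_lit 5) (nat_lit 4) (nat_lit 4) (nat_lit 241) (nat_lit 218) (nat_lit 141)) (XT.lf (nat_lit 0) (nat_lit 123690909405) (nat_lit 76) (nat_lit 290515681088) (nat_lit 76) (nat_lit 162880349296) (nat_lit 3) (nat_lit 4) (nat_lit 4) (nat_lit 5) (nat_lit 4) (nat_lit 4) (nat_lit 242) (nat_lit 218) (nat_lit 140))) (XT.nd (nat_lit 78) (nat_lit 0) (nat_lit 0) (XT.lf (nat_lit 0) (nat_lit 233348988877) (nat_lit 76) (nat_lit 274952734650) (nat_lit 76) (nat_lit 147317095998) (nat_lit 3) (nat_lit 4) (nat_lit 4) (nat_lit 5) (nat_lit 4) (nat_lit 4) (nat_lit 243) (nat_lit 218) (nat_lit 139)) (XT.lf (nat_lit 0) (nat_lit 359455370795) (nat_lit 76) (nat_lit 257055526005) (nat_lit 76) (nat_lit 129419620517) (nat_lit 3) (nat_lit 4) (nat_lit 4) (nat_lit 5) (nat_lit 4) (nat_lit 4) (nat_lit 244) (nat_lit 218) (nat_lit 138))))) (XT.nd (nat_lit 312) (nat_lit 152) (nat_lit 0) (XT.nd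 (nat_lit 156) (nat_lit 0) (nat_lit 0) (XT.nd (nat_lit 78) (nat_lit 0) (nat_lit 0) (XT.lf (nat_lit 0) (nat_lit 504477353936) (nat_lit 76) (nat_lit 236473892375) (nat_lit 76) (nat_lit 108837754857) (nat_lit 3) (nat_lit 4) (nat_lit 4) (nat_lit 5) (nat_lit 4) (nat_lit 4) (nat_lit 245) (nat_lit 218) (nat_lit 137)) (XT.lf (nat_lit 0) (nat_lit 671252324927) (nat_lit 76) (nat_lit 212805149623) (nat_lit 76) (nat_lit 85168810339) (nat_lit 3) (nat_lit 4) (nat_lit 4) (nat_lit 5) (nat_lit 4) (nat_lit 4) (nat_lit 246) (nat_lit 218) (nat_lit 136))) (XT.nd (nat_lit 78) (nat_lit 0) (nat_lit 0) (XT.lf (nat_lit 0) (nat_lit 863043272329) (nat_lit 76) (nat_lit 185586213653) (nat_lit 76) (nat_lit 57949698921) (nat_lit 3) (nat_lit 4) (nat_lit 4) (nat_lit 5) (nat_lit 4) (nat_lit 4) (nat_lit 247) (nat_lit 218) (nat_lit 135)) (XT.lf (nat_lit 0) (nat_lit 1083602627724) (nat_lit 76) (nat_lit 154284540065) (nat_lit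 76) (nat_lit 26647872769) (nat_lit 3) (nat_lit 4) (nat_lit 4) (nat_lit 5) (nat_lit 4) (nat_lit 4) (nat_lit 248) (nat_lit 218) (nat_lit 134)))) (XT.nd (nat_lit 156) (nat_lit 76) (nat_lit 0) (XT.nd (nat_lit 78) (nat_lit 0) (nat_lit 0) (XT.lf (nat_lit 0) (nat_lit 8516774049) (nat_lit 152) (nat_lit 109325735754) (nat_lit 76) (nat_lit 1328283713790) (nat_lit 2) (nat_lit 5) (nat_lit 4) (nat_lit 5) (nat_lit 3) (nat_lit 4) (nat_lit 249) (nat_lit 218) (nat_lit 133)) (XT.lf (nat_lit 0) (nat_lit 46227778610) (nat_lit 152) (nat_lit 28247191308) (nat_lit 76) (nat_lit 1580290788537) (nat_lit 2) (nat_lit 5) (nat_lit 4) (nat_lit 5) (nat_lit 3) (nat_lit 4) (nat_lit 250) (nat_lit 218) (nat_lit 132))) (XT.nd (nat_lit 78) (nat_lit 0) (nat_lit 0) (XT.lf (nat_lit 0) (nat_lit 71344557280) (nat_lit 76) (nat_lit 21205011516) (nat_lit 152) (nat_lit 1801708535043) (nat_lit 1) (nat_lit 5) (nat_lit 2) (nat_lit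 5) (nat_lit 3) (nat_lit 4) (nat_lit 251) (nat_lit 218) (nat_lit 131)) (XT.lf (nat_lit 0) (nat_lit 149025019362) (nat_lit 152) (nat_lit 1982132239093) (nat_lit 0) (nat_lit 38036234265) (nat_lit 1) (nat_lit 5) (nat_lit 3) (nat_lit 4) (nat_lit 1) (nat_lit 4) (nat_lit 252) (nat_lit 218) (nat_lit 130))))))) (XT.nd (nat_lit 1170) (nat_lit 0) (nat_lit 0) (XT.nd (nat_lit 546) (nat_lit 0) (nat_lit 0) (XT.nd (nat_lit 234) (nat_lit 0) (nat_lit 0) (XT.nd (nat_lit 78) (nat_lit 0) (nat_lit 0) (XT.lf (nat_lit 0) (nat_lit 214981472985) (nat_lit 152) (nat_lit 2166243642602) (nat_lit 0) (nat_lit 103992621930) (nat_lit 1) (nat_lit 5) (nat_lit 3) (nat_lit 4) (nat_lit 1) (nat_lit 4) (nat_lit 253) (nat_lit 218) (nat_lit 129)) (XT.nd (nat_lit 78) (nat_lit 0) (nat_lit 0) (XT.lf (nat_lit 0) (nat_lit 290831327712) (nat_lit 152) (nat_lit 2377971882414) (nat_lit 0) (nat_lit 179842419302) (nat_lit 1) (nat_lit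 5) (nat_lit 3) (nat_lit 4) (nat_lit 1) (nat_lit 4) (nat_lit 254) (nat_lit 218) (nat_lit 128)) (XT.lf (nat_lit 0) (nat_lit 378058602439) (nat_lit 152) (nat_lit 2621459467569) (nat_lit 0) (nat_lit 267069644156) (nat_lit 1) (nat_lit 5) (nat_lit 3) (nat_lit 4) (nat_lit 1) (nat_lit 4) (nat_lit 255) (nat_lit 218) (nat_lit 127)))) (XT.nd (nat_lit 156) (nat_lit 0) (nat_lit 0) (XT.nd (nat_lit 78) (nat_lit 0) (nat_lit 0) (XT.lf (nat_lit 0) (nat_lit 478369917758) (nat_lit 152) (nat_lit 2901470285602) (nat_lit 0) (nat_lit 367380916107) (nat_lit 1) (nat_lit 5) (nat_lit 3) (nat_lit 4) (nat_lit 1) (nat_lit 4) (nat_lit 256) (nat_lit 218) (nat_lit 126)) (XT.lf (nat_lit 0) (nat_lit 593727886361) (nat_lit 152) (nat_lit 3223482809040) (nat_lit 0) (nat_lit 482738846999) (nat_lit 1) (nat_lit 5) (nat_lit 3) (nat_lit 4) (nat_lit 1) (nat_lit 4) (nat_lit 257) (nat_lit 218) (nat_lit 125))) (XT.nd (nat_lit 78)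 (nat_lit 0) (nat_lit 0) (XT.lf (nat_lit 0) (nat_lit 726389511982) (nat_lit 152) (nat_lit 3593797282907) (nat_lit 0) (nat_lit 615400439827) (nat_lit 1) (nat_lit 5) (nat_lit 3) (nat_lit 4) (nat_lit 1) (nat_lit 4) (nat_lit 258) (nat_lit 218) (nat_lit 124)) (XT.lf (nat_lit 0) (nat_lit 878950348165) (nat_lit 152) (nat_lit 4019658990387) (nat_lit 0) (nat_lit 767961247495) (nat_lit 1) (nat_lit 5) (nat_lit 3) (nat_lit 4) (nat_lit 1) (nat_lit 4) (nat_lit 259) (nat_lit 218) (nat_lit 123))))) (XT.nd (nat_lit 312) (nat_lit 0) (nat_lit 0) (XT.nd (nat_lit 156) (nat_lit 0) (nat_lit 0) (XT.nd (nat_lit 78) (nat_lit 0) (nat_lit 0) (XT.lf (nat_lit 0) (nat_lit 1054395280835) (nat_lit 152) (nat_lit 4509400008366) (nat_lit 0) (nat_lit 943406155369) (nat_lit 1) (nat_lit 5) (nat_lit 3) (nat_lit 4) (nat_lit 1) (nat_lit 4) (nat_lit 260) (nat_lit 218) (nat_lit 122)) (XT.lf (nat_lit 0) (nat_lit 1256156928241)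 (nat_lit 152) (nat_lit 5072602226325) (nat_lit 0) (nat_lit 1145167781213) (nat_lit 1) (nat_lit 5) (nat_lit 3) (nat_lit 4) (nat_lit 1) (nat_lit 4) (nat_lit 261) (nat_lit 218) (nat_lit 121))) (XT.nd (nat_lit 78) (nat_lit 0) (nat_lit 0) (XT.lf (nat_lit 0) (nat_lit 1488182800875) (nat_lit 152) (nat_lit 5720284818095) (nat_lit 0) (nat_lit 1377193635097) (nat_lit 1) (nat_lit 5) (nat_lit 3) (nat_lit 4) (nat_lit 1) (nat_lit 4) (nat_lit 262) (nat_lit 218) (nat_lit 120)) (XT.lf (nat_lit 0) (nat_lit 1755012535375) (nat_lit 152) (nat_lit 6465119834383) (nat_lit 0) (nat_lit 1644023353294) (nat_lit 1) (nat_lit 5) (nat_lit 3) (nat_lit 4) (nat_lit 1) (nat_lit 4) (nat_lit 263) (nat_lit 218) (nat_lit 119)))) (XT.nd (nat_lit 156) (nat_lit 0) (nat_lit 0) (XT.nd (nat_lit 78) (nat_lit 0) (nat_lit 0) (XT.lf (nat_lit 0) (nat_lit 2061866713504) (nat_lit 152) (nat_lit 7321680134205) (nat_lit 0) (nat_lit 1950877517245)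 (nat_lit 1) (nat_lit 5) (nat_lit 3) (nat_lit 4) (nat_lit 1) (nat_lit 4) (nat_lit 264) (nat_lit 218) (nat_lit 118)) (XT.lf (nat_lit 0) (nat_lit 2414749003963) (nat_lit 152) (nat_lit 8306724506035) (nat_lit 0) (nat_lit 2303759795377) (nat_lit 1) (nat_lit 5) (nat_lit 3) (nat_lit 4) (nat_lit 1) (nat_lit 4) (nat_lit 265) (nat_lit 218) (nat_lit 117))) (XT.nd (nat_lit 78) (nat_lit 0) (nat_lit 0) (XT.lf (nat_lit 0) (nat_lit 2820563625480) (nat_lit 152) (nat_lit 9439525557149) (nat_lit 0) (nat_lit 2709574406175) (nat_lit 1) (nat_lit 5) (nat_lit 3) (nat_lit 4) (nat_lit 1) (nat_lit 4) (nat_lit 266) (nat_lit 218) (nat_lit 116)) (XT.lf (nat_lit 0) (nat_lit 3287250429346) (nat_lit 152) (nat_lit 10742246786371) (nat_lit 0) (nat_lit 3176261200718) (nat_lit 1) (nat_lit 5) (nat_lit 3) (nat_lit 4) (nat_lit 1) (nat_lit 4) (nat_lit 267) (nat_lit 218) (nat_lit 115)))))) (XT.nd (nat_lit 27612) (nat_lit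 0) (nat_lit 532) (XT.nd (nat_lit 234) (nat_lit 0) (nat_lit 0) (XT.nd (nat_lit 78) (nat_lit 0) (nat_lit 0) (XT.lf (nat_lit 0) (nat_lit 3823940244330) (nat_lit 152) (nat_lit 12240376217752) (nat_lit 0) (nat_lit 3712951007597) (nat_lit 1) (nat_lit 5) (nat_lit 3) (nat_lit 4) (nat_lit 1) (nat_lit 4) (nat_lit 268) (nat_lit 218) (nat_lit 114)) (XT.nd (nat_lit 78) (nat_lit 0) (nat_lit 0) (XT.lf (nat_lit 0) (nat_lit 4441133523335) (nat_lit 152) (nat_lit 13963225079298) (nat_lit 0) (nat_lit 4330144279553) (nat_lit 1) (nat_lit 5) (nat_lit 3) (nat_lit 4) (nat_lit 1) (nat_lit 4) (nat_lit 269) (nat_lit 218) (nat_lit 113)) (XT.lf (nat_lit 0) (nat_lit 5150905787038) (nat_lit 152) (nat_lit 15944501283517) (nat_lit 0) (nat_lit 5039916537127) (nat_lit 1) (nat_lit 5) (nat_lit 3) (nat_lit 4) (nat_lit 1) (nat_lit 4) (nat_lit 270) (nat_lit 218) (nat_lit 112)))) (XT.nd (nat_lit 27222) (nat_lit 0) (nat_lit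 1064) (XT.nd (nat_lit 78) (nat_lit 0) (nat_lit 0) (XT.lf (nat_lit 0) (nat_lit 5967143884076) (nat_lit 152) (nat_lit 18222968930056) (nat_lit 0) (nat_lit 5856154628835) (nat_lit 1) (nat_lit 5) (nat_lit 3) (nat_lit 4) (nat_lit 1) (nat_lit 4) (nat_lit 271) (nat_lit 218) (nat_lit 111)) (XT.lf (nat_lit 0) (nat_lit 6905817690260) (nat_lit 152) (nat_lit 20843206733740) (nat_lit 0) (nat_lit 6794828430385) (nat_lit 1) (nat_lit 5) (nat_lit 3) (nat_lit 4) (nat_lit 1) (nat_lit 4) (nat_lit 272) (nat_lit 218) (nat_lit 110))) (XT.nd (nat_lit 78) (nat_lit 0) (nat_lit 0) (XT.lf (nat_lit 0) (nat_lit 11712906980) (nat_lit 0) (nat_lit 11712906980) (nat_lit 228) (nat_lit 5876641954) (nat_lit 15) (nat_lit 5) (nat_lit 15) (nat_lit 3) (nat_lit 18) (nat_lit 3) (nat_lit 219) (nat_lit 219) (nat_lit 162)) (XT.lf (nat_lit 0) (nat_lit 50392127960) (nat_lit 228) (nat_lit 12354736998) (nat_lit 304) (nat_lit 249157551)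 (nat_lit 15) (nat_lit 5) (nat_lit 18) (nat_lit 3) (nat_lit 19) (nat_lit 5) (nat_lit 220) (nat_lit 219) (nat_lit 161))))) (XT.nd (nat_lit 312) (nat_lit 380) (nat_lit 0) (XT.nd (nat_lit 156) (nat_lit 152) (nat_lit 0) (XT.nd (nat_lit 78) (nat_lit 0) (nat_lit 0) (XT.lf (nat_lit 76) (nat_lit 14024441432) (nat_lit 0) (nat_lit 42132830458) (nat_lit 304) (nat_lit 11634539485) (nat_lit 16) (nat_lit 5) (nat_lit 15) (nat_lit 5) (nat_lit 19) (nat_lit 5) (nat_lit 221) (nat_lit 219) (nat_lit 160)) (XT.lf (nat_lit 76) (nat_lit 45747211413) (nat_lit 0) (nat_lit 17683397470) (nat_lit 304) (nat_lit 9779887267) (nat_lit 16) (nat_lit 5) (nat_lit 15) (nat_lit 5) (nat_lit 19) (nat_lit 5) (nat_lit 222) (nat_lit 219) (nat_lit 159))) (XT.nd (nat_lit 78) (nat_lit 0) (nat_lit 0) (XT.lf (nat_lit 0) (nat_lit 2582360524) (nat_lit 228) (nat_lit 69749482647) (nat_lit 304) (nat_lit 7029641440) (nat_lit 13) (nat_lit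 5) (nat_lit 16) (nat_lit 5) (nat_lit 17) (nat_lit 5) (nat_lit 223) (nat_lit 219) (nat_lit 158)) (XT.lf (nat_lit 0) (nat_lit 39295154007) (nat_lit 228) (nat_lit 45510612573) (nat_lit 304) (nat_lit 1293760014) (nat_lit 13) (nat_lit 5) (nat_lit 16) (nat_lit 5) (nat_lit 17) (nat_lit 5) (nat_lit 224) (nat_lit 219) (nat_lit 157)))) (XT.nd (nat_lit 156) (nat_lit 152) (nat_lit 0) (XT.nd (nat_lit 78) (nat_lit 152) (nat_lit 0) (XT.lf (nat_lit 0) (nat_lit 4828712306) (nat_lit 304) (nat_lit 12554763854) (nat_lit 76) (nat_lit 76432146103) (nat_lit 12) (nat_lit 5) (nat_lit 16) (nat_lit 5) (nat_lit 13) (nat_lit 5) (nat_lit 225) (nat_lit 219) (nat_lit 156)) (XT.lf (nat_lit 0) (nat_lit 13632824657) (nat_lit 228) (nat_lit 73792872540) (nat_lit 76) (nat_lit 14969855394) (nat_lit 10) (nat_lit 5) (nat_lit 13) (nat_lit 5) (nat_lit 11) (nat_lit 5) (nat_lit 226) (nat_lit 219) (nat_lit 155))) (XT.nd (nat_lit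 78) (nat_lit 152) (nat_lit 0) (XT.lf (nat_lit 0) (nat_lit 25271489813) (nat_lit 228) (nat_lit 35680046060) (nat_lit 76) (nat_lit 51083863840) (nat_lit 10) (nat_lit 5) (nat_lit 13) (nat_lit 5) (nat_lit 11) (nat_lit 5) (nat_lit 227) (nat_lit 219) (nat_lit 154)) (XT.lf (nat_lit 0) (nat_lit 8944526671) (nat_lit 152) (nat_lit 30080609317) (nat_lit 228) (nat_lit 84040726067) (nat_lit 8) (nat_lit 5) (nat_lit 10) (nat_lit 5) (nat_lit 11) (nat_lit 5) (nat_lit 228) (nat_lit 219) (nat_lit 153))))))))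
noncomputable def xc46 : XT := (XT.nd (nat_lit 2340) (nat_lit 0) (nat_lit 0) (XT.nd (nat_lit 1170) (nat_lit 152) (nat_lit 0) (XT.nd (nat_lit 546) (nat_lit 152) (nat_lit 0) (XT.nd (nat_lit 234) (nat_lit 152) (nat_lit 0) (XT.nd (nat_lit 78) (nat_lit 76) (nat_lit 0) (XT.lf (nat_lit 0) (nat_lit 57019097891) (nat_lit 228) (nat_lit 71513256498) (nat_lit 76) (nat_lit 6891962377) (nat_lit 8) (nat_lit 5) (nat_lit 11) (nat_lit 5) (nat_lit 9) (nat_lit 4) (nat_lit 229) (nat_lit 219) (nat_lit 152)) (XT.nd (nat_lit 78) (nat_lit 76) (nat_lit 0) (XT.lf (nat_lit 0) (nat_lit 79143599943) (nat_lit 228) (nat_lit 23947748340) (nat_lit 76) (nat_lit 46330486119) (nat_lit 8) (nat_lit 5) (nat_lit 11) (nat_lit 5) (nat_lit 9) (nat_lit 4) (nat_lit 230) (nat_lit 219) (nat_lit 151)) (XT.lf (nat_lit 0) (nat_lit 33756642198) (nat_lit 76) (nat_lit 72227087319) (nat_lit 152) (nat_lit 59325717420) (nat_lit 7) (nat_lit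 5) (nat_lit 8) (nat_lit 5) (nat_lit 9) (nat_lit 4) (nat_lit 231) (nat_lit 219) (nat_lit 150)))) (XT.nd (nat_lit 156) (nat_lit 152) (nat_lit 0) (XT.nd (nat_lit 78) (nat_lit 0) (nat_lit 0) (XT.lf (nat_lit 0) (nat_lit 102806952364) (nat_lit 76) (nat_lit 35293964105) (nat_lit 152) (nat_lit 45291637962) (nat_lit 7) (nat_lit 5) (nat_lit 8) (nat_lit 5) (nat_lit 9) (nat_lit 4) (nat_lit 232) (nat_lit 219) (nat_lit 149)) (XT.lf (nat_lit 0) (nat_lit 175332265815) (nat_lit 152) (nat_lit 22271677854) (nat_lit 0) (nat_lit 6539704354) (nat_lit 7) (nat_lit 5) (nat_lit 9) (nat_lit 4) (nat_lit 7) (nat_lit 4) (nat_lit 233) (nat_lit 219) (nat_lit 148))) (XT.nd (nat_lit 78) (nat_lit 76) (nat_lit 0) (XT.lf (nat_lit 0) (nat_lit 47320525680) (nat_lit 76) (nat_lit 174467300625) (nat_lit 76) (nat_lit 5673659667) (nat_lit 6) (nat_lit 4) (nat_lit 7) (nat_lit 5) (nat_lit 7) (nat_lit 4) (nat_lit 234) (nat_lit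 219) (nat_lit 147)) (XT.lf (nat_lit 0) (nat_lit 20290017720) (nat_lit 152) (nat_lit 125171041551) (nat_lit 76) (nat_lit 108503058514) (nat_lit 5) (nat_lit 5) (nat_lit 7) (nat_lit 5) (nat_lit 6) (nat_lit 4) (nat_lit 235) (nat_lit 219) (nat_lit 146))))) (XT.nd (nat_lit 312) (nat_lit 76) (nat_lit 0) (XT.nd (nat_lit 156) (nat_lit 0) (nat_lit 0) (XT.nd (nat_lit 78) (nat_lit 76) (nat_lit 0) (XT.lf (nat_lit 0) (nat_lit 49566859529) (nat_lit 152) (nat_lit 62226647917) (nat_lit 76) (nat_lit 172608192021) (nat_lit 5) (nat_lit 5) (nat_lit 7) (nat_lit 5) (nat_lit 6) (nat_lit 4) (nat_lit 236) (nat_lit 219) (nat_lit 145)) (XT.lf (nat_lit 0) (nat_lit 11151455153) (nat_lit 76) (nat_lit 72545084774) (nat_lit 152) (nat_lit 235639185416) (nat_lit 4) (nat_lit 5) (nat_lit 5) (nat_lit 5) (nat_lit 6) (nat_lit 4) (nat_lit 237) (nat_lit 219) (nat_lit 144))) (XT.nd (nat_lit 78) (nat_lit 0) (nat_lit 0) (XT.lf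 (nat_lit 0) (nat_lit 102529004254) (nat_lit 76) (nat_lit 23669008374) (nat_lit 152) (nat_lit 232823994735) (nat_lit 4) (nat_lit 5) (nat_lit 5) (nat_lit 5) (nat_lit 6) (nat_lit 4) (nat_lit 238) (nat_lit 219) (nat_lit 143)) (XT.lf (nat_lit 0) (nat_lit 176421683161) (nat_lit 152) (nat_lit 198396047429) (nat_lit 0) (nat_lit 29641457423) (nat_lit 4) (nat_lit 5) (nat_lit 6) (nat_lit 4) (nat_lit 4) (nat_lit 4) (nat_lit 239) (nat_lit 219) (nat_lit 142)))) (XT.nd (nat_lit 156) (nat_lit 76) (nat_lit 0) (XT.nd (nat_lit 78) (nat_lit 0) (nat_lit 0) (XT.lf (nat_lit 0) (nat_lit 235305676328) (nat_lit 152) (nat_lit 132712211350) (nat_lit 0) (nat_lit 88525044767) (nat_lit 4) (nat_lit 5) (nat_lit 6) (nat_lit 4) (nat_lit 4) (nat_lit 4) (nat_lit 240) (nat_lit 219) (nat_lit 141)) (XT.lf (nat_lit 0) (nat_lit 303021987094) (nat_lit 152) (nat_lit 57176293178) (nat_lit 0) (nat_lit 156241002644) (nat_lit 4)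 (nat_lit 5) (nat_lit 6) (nat_lit 4) (nat_lit 4) (nat_lit 4) (nat_lit 241) (nat_lit 219) (nat_lit 140))) (XT.nd (nat_lit 78) (nat_lit 0) (nat_lit 0) (XT.lf (nat_lit 0) (nat_lit 32591065792) (nat_lit 76) (nat_lit 349653960542) (nat_lit 76) (nat_lit 202872669231) (nat_lit 3) (nat_lit 4) (nat_lit 4) (nat_lit 5) (nat_lit 4) (nat_lit 4) (nat_lit 242) (nat_lit 219) (nat_lit 139)) (XT.lf (nat_lit 0) (nat_lit 142248954811) (nat_lit 76) (nat_lit 334091097712) (nat_lit 76) (nat_lit 187309539567) (nat_lit 3) (nat_lit 4) (nat_lit 4) (nat_lit 5) (nat_lit 4) (nat_lit 4) (nat_lit 243) (nat_lit 219) (nat_lit 138)))))) (XT.nd (nat_lit 546) (nat_lit 76) (nat_lit 0) (XT.nd (nat_lit 234) (nat_lit 76) (nat_lit 0) (XT.nd (nat_lit 78) (nat_lit 0) (nat_lit 0) (XT.lf (nat_lit 0) (nat_lit 268355171117) (nat_lit 76) (nat_lit 316193961770) (nat_lit 76) (nat_lit 169412171594) (nat_lit 3) (nat_lit 4) (nat_lit 4)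 (nat_lit 5) (nat_lit 4) (nat_lit 4) (nat_lit 244) (nat_lit 219) (nat_lit 137)) (XT.nd (nat_lit 78) (nat_lit 0) (nat_lit 0) (XT.lf (nat_lit 0) (nat_lit 413377010248) (nat_lit 76) (nat_lit 295612391360) (nat_lit 76) (nat_lit 148830399418) (nat_lit 3) (nat_lit 4) (nat_lit 4) (nat_lit 5) (nat_lit 4) (nat_lit 4) (nat_lit 245) (nat_lit 219) (nat_lit 136)) (XT.lf (nat_lit 0) (nat_lit 580151856013) (nat_lit 76) (nat_lit 271943703582) (nat_lit 76) (nat_lit 125161536192) (nat_lit 3) (nat_lit 4) (nat_lit 4) (nat_lit 5) (nat_lit 4) (nat_lit 4) (nat_lit 246) (nat_lit 219) (nat_lit 135)))) (XT.nd (nat_lit 156) (nat_lit 76) (nat_lit 0) (XT.nd (nat_lit 78) (nat_lit 0) (nat_lit 0) (XT.lf (nat_lit 0) (nat_lit 771942694523) (nat_lit 76) (nat_lit 244724815416) (nat_lit 76) (nat_lit 97942495462) (nat_lit 3) (nat_lit 4) (nat_lit 4) (nat_lit 5) (nat_lit 4) (nat_lit 4) (nat_lit 247) (nat_lit 219) (nat_lit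 134)) (XT.lf (nat_lit 0) (nat_lit 992501955229) (nat_lit 76) (nat_lit 213423183396) (nat_lit 76) (nat_lit 66640730778) (nat_lit 3) (nat_lit 4) (nat_lit 4) (nat_lit 5) (nat_lit 4) (nat_lit 4) (nat_lit 248) (nat_lit 219) (nat_lit 133))) (XT.nd (nat_lit 78) (nat_lit 76) (nat_lit 0) (XT.lf (nat_lit 0) (nat_lit 1246144928013) (nat_lit 76) (nat_lit 177426384288) (nat_lit 76) (nat_lit 30643816309) (nat_lit 3) (nat_lit 4) (nat_lit 4) (nat_lit 5) (nat_lit 4) (nat_lit 4) (nat_lit 249) (nat_lit 219) (nat_lit 132)) (XT.lf (nat_lit 0) (nat_lit 9795270344) (nat_lit 152) (nat_lit 125722837051) (nat_lit 76) (nat_lit 1527526896939) (nat_lit 2) (nat_lit 5) (nat_lit 4) (nat_lit 5) (nat_lit 3) (nat_lit 4) (nat_lit 250) (nat_lit 219) (nat_lit 131))))) (XT.nd (nat_lit 312) (nat_lit 0) (nat_lit 0) (XT.nd (nat_lit 156) (nat_lit 0) (nat_lit 0) (XT.nd (nat_lit 78) (nat_lit 76) (nat_lit 0) (XT.lf (nat_lit 0)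 (nat_lit 53162797738) (nat_lit 152) (nat_lit 32482740382) (nat_lit 76) (nat_lit 1817334951235) (nat_lit 2) (nat_lit 5) (nat_lit 4) (nat_lit 5) (nat_lit 3) (nat_lit 4) (nat_lit 251) (nat_lit 219) (nat_lit 130)) (XT.lf (nat_lit 0) (nat_lit 82047700966) (nat_lit 76) (nat_lit 24385104772) (nat_lit 152) (nat_lit 2071963889072) (nat_lit 1) (nat_lit 5) (nat_lit 2) (nat_lit 5) (nat_lit 3) (nat_lit 4) (nat_lit 252) (nat_lit 219) (nat_lit 129))) (XT.nd (nat_lit 78) (nat_lit 0) (nat_lit 0) (XT.lf (nat_lit 0) (nat_lit 171379493039) (nat_lit 152) (nat_lit 2279450720667) (nat_lit 0) (nat_lit 43742191013) (nat_lit 1) (nat_lit 5) (nat_lit 3) (nat_lit 4) (nat_lit 1) (nat_lit 4) (nat_lit 253) (nat_lit 219) (nat_lit 128)) (XT.lf (nat_lit 0) (nat_lit 247229320691) (nat_lit 152) (nat_lit 2491179011349) (nat_lit 0) (nat_lit 119591968793) (nat_lit 1) (nat_lit 5) (nat_lit 3) (nat_lit 4) (nat_lit 1) (nat_lit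 4) (nat_lit 254) (nat_lit 219) (nat_lit 127)))) (XT.nd (nat_lit 156) (nat_lit 0) (nat_lit 0) (XT.nd (nat_lit 78) (nat_lit 0) (nat_lit 0) (XT.lf (nat_lit 0) (nat_lit 334456571876) (nat_lit 152) (nat_lit 2734666640739) (nat_lit 0) (nat_lit 206819176609) (nat_lit 1) (nat_lit 5) (nat_lit 3) (nat_lit 4) (nat_lit 1) (nat_lit 4) (nat_lit 255) (nat_lit 219) (nat_lit 126)) (XT.lf (nat_lit 0) (nat_lit 434767866724) (nat_lit 152) (nat_lit 3014677497237) (nat_lit 0) (nat_lit 307130433745) (nat_lit 1) (nat_lit 5) (nat_lit 3) (nat_lit 4) (nat_lit 1) (nat_lit 4) (nat_lit 256) (nat_lit 219) (nat_lit 125))) (XT.nd (nat_lit 78) (nat_lit 0) (nat_lit 0) (XT.lf (nat_lit 0) (nat_lit 550125817525) (nat_lit 152) (nat_lit 3336690054123) (nat_lit 0) (nat_lit 422488351755) (nat_lit 1) (nat_lit 5) (nat_lit 3) (nat_lit 4) (nat_lit 1) (nat_lit 4) (nat_lit 257) (nat_lit 219) (nat_lit 124)) (XT.lf (nat_lit 0) (nat_lit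 682787427667) (nat_lit 152) (nat_lit 3707004557075) (nat_lit 0) (nat_lit 555149933380) (nat_lit 1) (nat_lit 5) (nat_lit 3) (nat_lit 4) (nat_lit 1) (nat_lit 4) (nat_lit 258) (nat_lit 219) (nat_lit 123))))))) (XT.nd (nat_lit 28314) (nat_lit 0) (nat_lit 380) (XT.nd (nat_lit 546) (nat_lit 0) (nat_lit 0) (XT.nd (nat_lit 234) (nat_lit 0) (nat_lit 0) (XT.nd (nat_lit 78) (nat_lit 0) (nat_lit 0) (XT.lf (nat_lit 0) (nat_lit 835348250389) (nat_lit 152) (nat_lit 4132866289846) (nat_lit 0) (nat_lit 707710731307) (nat_lit 1) (nat_lit 5) (nat_lit 3) (nat_lit 4) (nat_lit 1) (nat_lit 4) (nat_lit 259) (nat_lit 219) (nat_lit 122)) (XT.nd (nat_lit 78) (nat_lit 0) (nat_lit 0) (XT.lf (nat_lit 0) (nat_lit 1010793171355) (nat_lit 152) (nat_lit 4622607329817) (nat_lit 0) (nat_lit 883155630711) (nat_lit 1) (nat_lit 5) (nat_lit 3) (nat_lit 4) (nat_lit 1) (nat_lit 4) (nat_lit 260) (nat_lit 219) (nat_lit 121))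 (XT.lf (nat_lit 0) (nat_lit 1212554808582) (nat_lit 152) (nat_lit 5185809566901) (nat_lit 0) (nat_lit 1084917249189) (nat_lit 1) (nat_lit 5) (nat_lit 3) (nat_lit 4) (nat_lit 1) (nat_lit 4) (nat_lit 261) (nat_lit 219) (nat_lit 120)))) (XT.nd (nat_lit 156) (nat_lit 0) (nat_lit 0) (XT.nd (nat_lit 78) (nat_lit 0) (nat_lit 0) (XT.lf (nat_lit 0) (nat_lit 1444580672365) (nat_lit 152) (nat_lit 5833492175300) (nat_lit 0) (nat_lit 1316943096669) (nat_lit 1) (nat_lit 5) (nat_lit 3) (nat_lit 4) (nat_lit 1) (nat_lit 4) (nat_lit 262) (nat_lit 219) (nat_lit 119)) (XT.lf (nat_lit 0) (nat_lit 1711410399170) (nat_lit 152) (nat_lit 6578327206049) (nat_lit 0) (nat_lit 1583772809296) (nat_lit 1) (nat_lit 5) (nat_lit 3) (nat_lit 4) (nat_lit 1) (nat_lit 4) (nat_lit 263) (nat_lit 219) (nat_lit 118))) (XT.nd (nat_lit 78) (nat_lit 0) (nat_lit 0) (XT.lf (nat_lit 0) (nat_lit 2018264570606) (nat_lit 152) (nat_lit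 7434887518445) (nat_lit 0) (nat_lit 1890626968404) (nat_lit 1) (nat_lit 5) (nat_lit 3) (nat_lit 4) (nat_lit 1) (nat_lit 4) (nat_lit 264) (nat_lit 219) (nat_lit 117)) (XT.lf (nat_lit 0) (nat_lit 2371146855247) (nat_lit 152) (nat_lit 8419931901210) (nat_lit 0) (nat_lit 2243509242325) (nat_lit 1) (nat_lit 5) (nat_lit 3) (nat_lit 4) (nat_lit 1) (nat_lit 4) (nat_lit 265) (nat_lit 219) (nat_lit 116))))) (XT.nd (nat_lit 312) (nat_lit 0) (nat_lit 0) (XT.nd (nat_lit 156) (nat_lit 0) (nat_lit 0) (XT.nd (nat_lit 78) (nat_lit 0) (nat_lit 0) (XT.lf (nat_lit 0) (nat_lit 2776961471703) (nat_lit 152) (nat_lit 9552732961831) (nat_lit 0) (nat_lit 2649323849460) (nat_lit 1) (nat_lit 5) (nat_lit 3) (nat_lit 4) (nat_lit 1) (nat_lit 4) (nat_lit 266) (nat_lit 219) (nat_lit 115)) (XT.lf (nat_lit 0) (nat_lit 3243648271168) (nat_lit 152) (nat_lit 10855454199321) (nat_lit 0) (nat_lit 3116010640819) (nat_lit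 1) (nat_lit 5) (nat_lit 3) (nat_lit 4) (nat_lit 1) (nat_lit 4) (nat_lit 267) (nat_lit 219) (nat_lit 114))) (XT.nd (nat_lit 78) (nat_lit 0) (nat_lit 0) (XT.lf (nat_lit 0) (nat_lit 3780338082326) (nat_lit 152) (nat_lit 12353583637892) (nat_lit 0) (nat_lit 3652700444929) (nat_lit 1) (nat_lit 5) (nat_lit 3) (nat_lit 4) (nat_lit 1) (nat_lit 4) (nat_lit 268) (nat_lit 219) (nat_lit 113)) (XT.lf (nat_lit 0) (nat_lit 4397531358005) (nat_lit 152) (nat_lit 14076432505689) (nat_lit 0) (nat_lit 4269893714478) (nat_lit 1) (nat_lit 5) (nat_lit 3) (nat_lit 4) (nat_lit 1) (nat_lit 4) (nat_lit 269) (nat_lit 219) (nat_lit 112)))) (XT.nd (nat_lit 156) (nat_lit 0) (nat_lit 0) (XT.nd (nat_lit 78) (nat_lit 0) (nat_lit 0) (XT.lf (nat_lit 0) (nat_lit 5107303618814) (nat_lit 152) (nat_lit 16057708715344) (nat_lit 0) (nat_lit 4979665969958) (nat_lit 1) (nat_lit 5) (nat_lit 3) (nat_lit 4) (nat_lit 1) (nat_lit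 4) (nat_lit 270) (nat_lit 219) (nat_lit 111)) (XT.lf (nat_lit 0) (nat_lit 5923541713336) (nat_lit 152) (nat_lit 18336176366611) (nat_lit 0) (nat_lit 5795904059845) (nat_lit 1) (nat_lit 5) (nat_lit 3) (nat_lit 4) (nat_lit 1) (nat_lit 4) (nat_lit 271) (nat_lit 219) (nat_lit 110))) (XT.nd (nat_lit 27222) (nat_lit 0) (nat_lit 1064) (XT.lf (nat_lit 0) (nat_lit 6862215517333) (nat_lit 152) (nat_lit 20956414174405) (nat_lit 0) (nat_lit 6734577859811) (nat_lit 1) (nat_lit 5) (nat_lit 3) (nat_lit 4) (nat_lit 1) (nat_lit 4) (nat_lit 272) (nat_lit 219) (nat_lit 109)) (XT.lf (nat_lit 0) (nat_lit 13477177503) (nat_lit 0) (nat_lit 13477177503) (nat_lit 228) (nat_lit 6741016346) (nat_lit 15) (nat_lit 5) (nat_lit 15) (nat_lit 3) (nat_lit 18) (nat_lit 3) (nat_lit 220) (nat_lit 220) (nat_lit 160)))))) (XT.nd (nat_lit 546) (nat_lit 304) (nat_lit 0) (XT.nd (nat_lit 234) (nat_lit 380) (nat_lit 0) (XT.nd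 (nat_lit 78) (nat_lit 0) (nat_lit 0) (XT.lf (nat_lit 0) (nat_lit 57975930192) (nat_lit 228) (nat_lit 14190397756) (nat_lit 304) (nat_lit 274911166) (nat_lit 15) (nat_lit 5) (nat_lit 18) (nat_lit 3) (nat_lit 19) (nat_lit 5) (nat_lit 221) (nat_lit 220) (nat_lit 159)) (XT.nd (nat_lit 78) (nat_lit 0) (nat_lit 0) (XT.lf (nat_lit 76) (nat_lit 16144859721) (nat_lit 0) (nat_lit 48458421002) (nat_lit 304) (nat_lit 13353557638) (nat_lit 16) (nat_lit 5) (nat_lit 15) (nat_lit 5) (nat_lit 19) (nat_lit 5) (nat_lit 222) (nat_lit 220) (nat_lit 158)) (XT.lf (nat_lit 76) (nat_lit 52623860146) (nat_lit 0) (nat_lit 20340834026) (nat_lit 304) (nat_lit 11224120123) (nat_lit 16) (nat_lit 5) (nat_lit 15) (nat_lit 5) (nat_lit 19) (nat_lit 5) (nat_lit 223) (nat_lit 220) (nat_lit 157)))) (XT.nd (nat_lit 156) (nat_lit 228) (nat_lit 0) (XT.nd (nat_lit 78) (nat_lit 0) (nat_lit 0) (XT.lf (nat_lit 0) (nat_lit 2986922492)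 (nat_lit 228) (nat_lit 80212183558) (nat_lit 304) (nat_lit 8063689434) (nat_lit 13) (nat_lit 5) (nat_lit 16) (nat_lit 5) (nat_lit 17) (nat_lit 5) (nat_lit 224) (nat_lit 220) (nat_lit 156)) (XT.lf (nat_lit 0) (nat_lit 45204390490) (nat_lit 228) (nat_lit 52337446645) (nat_lit 304) (nat_lit 1470086432) (nat_lit 13) (nat_lit 5) (nat_lit 16) (nat_lit 5) (nat_lit 17) (nat_lit 5) (nat_lit 225) (nat_lit 220) (nat_lit 155))) (XT.nd (nat_lit 78) (nat_lit 152) (nat_lit 0) (XT.lf (nat_lit 0) (nat_lit 5567069988) (nat_lit 304) (nat_lit 14423403717) (nat_lit 76) (nat_lit 87895194343) (nat_lit 12) (nat_lit 5) (nat_lit 16) (nat_lit 5) (nat_lit 13) (nat_lit 5) (nat_lit 226) (nat_lit 220) (nat_lit 154)) (XT.lf (nat_lit 0) (nat_lit 15690588845) (nat_lit 228) (nat_lit 84845853205) (nat_lit 76) (nat_lit 17216352201) (nat_lit 10) (nat_lit 5) (nat_lit 13) (nat_lit 5) (nat_lit 11) (nat_lit 5) (nat_lit 227)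 (nat_lit 220) (nat_lit 153))))) (XT.nd (nat_lit 312) (nat_lit 152) (nat_lit 0) (XT.nd (nat_lit 156) (nat_lit 0) (nat_lit 0) (XT.nd (nat_lit 78) (nat_lit 152) (nat_lit 0) (XT.lf (nat_lit 0) (nat_lit 29073378928) (nat_lit 228) (nat_lit 41018183215) (nat_lit 76) (nat_lit 58747329067) (nat_lit 10) (nat_lit 5) (nat_lit 13) (nat_lit 5) (nat_lit 11) (nat_lit 5) (nat_lit 228) (nat_lit 220) (nat_lit 152)) (XT.lf (nat_lit 0) (nat_lit 10299444981) (nat_lit 152) (nat_lit 34589718872) (nat_lit 228) (nat_lit 96634914010) (nat_lit 8) (nat_lit 5) (nat_lit 10) (nat_lit 5) (nat_lit 11) (nat_lit 5) (nat_lit 229) (nat_lit 220) (nat_lit 151))) (XT.nd (nat_lit 78) (nat_lit 0) (nat_lit 0) (XT.lf (nat_lit 0) (nat_lit 65580989478) (nat_lit 228) (nat_lit 82227393373) (nat_lit 76) (nat_lit 7928118802) (nat_lit 8) (nat_lit 5) (nat_lit 11) (nat_lit 5) (nat_lit 9) (nat_lit 4) (nat_lit 230) (nat_lit 220) (nat_lit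 150)) (XT.lf (nat_lit 0) (nat_lit 91022989415) (nat_lit 228) (nat_lit 27528735288) (nat_lit 76) (nat_lit 53282113010) (nat_lit 8) (nat_lit 5) (nat_lit 11) (nat_lit 5) (nat_lit 9) (nat_lit 4) (nat_lit 231) (nat_lit 220) (nat_lit 149)))) (XT.nd (nat_lit 156) (nat_lit 76) (nat_lit 0) (XT.nd (nat_lit 78) (nat_lit 0) (nat_lit 0) (XT.lf (nat_lit 0) (nat_lit 38830805863) (nat_lit 76) (nat_lit 83057750429) (nat_lit 152) (nat_lit 68216135473) (nat_lit 7) (nat_lit 5) (nat_lit 8) (nat_lit 5) (nat_lit 9) (nat_lit 4) (nat_lit 232) (nat_lit 220) (nat_lit 148)) (XT.lf (nat_lit 0) (nat_lit 118237271162) (nat_lit 76) (nat_lit 40585102210) (nat_lit 152) (nat_lit 52078044909) (nat_lit 7) (nat_lit 5) (nat_lit 8) (nat_lit 5) (nat_lit 9) (nat_lit 4) (nat_lit 233) (nat_lit 220) (nat_lit 147))) (XT.nd (nat_lit 78) (nat_lit 76) (nat_lit 0) (XT.lf (nat_lit 0) (nat_lit 201637707300) (nat_lit 152) (nat_lit 25603583587)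 (nat_lit 0) (nat_lit 7523002009) (nat_lit 7) (nat_lit 5) (nat_lit 9) (nat_lit 4) (nat_lit 7) (nat_lit 4) (nat_lit 234) (nat_lit 220) (nat_lit 146)) (XT.lf (nat_lit 0) (nat_lit 54427048388) (nat_lit 76) (nat_lit 200634172472) (nat_lit 76) (nat_lit 6518650926) (nat_lit 6) (nat_lit 4) (nat_lit 7) (nat_lit 5) (nat_lit 7) (nat_lit 4) (nat_lit 235) (nat_lit 220) (nat_lit 145))))))))
noncomputable def xc47 : XT := (XT.nd (nat_lit 2340) (nat_lit 0) (nat_lit 0) (XT.nd (nat_lit 1170) (nat_lit 152) (nat_lit 0) (XT.nd (nat_lit 546) (nat_lit 76) (nat_lit 0) (XT.nd (nat_lit 234) (nat_lit 0) (nat_lit 0) (XT.nd (nat_lit 78) (nat_lit 76) (nat_lit 0) (XT.lf (nat_lit 0) (nat_lit 23338318981) (nat_lit 152) (nat_lit 143938845521) (nat_lit 76) (nat_lit 124780810336) (nat_lit 5) (nat_lit 5) (nat_lit 7) (nat_lit 5) (nat_lit 6) (nat_lit 4) (nat_lit 236) (nat_lit 220) (nat_lit 144)) (XT.nd (nat_lit 78) (nat_lit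 76) (nat_lit 0) (XT.lf (nat_lit 0) (nat_lit 57006061157) (nat_lit 152) (nat_lit 71553817050) (nat_lit 76) (nat_lit 198501414776) (nat_lit 5) (nat_lit 5) (nat_lit 7) (nat_lit 5) (nat_lit 6) (nat_lit 4) (nat_lit 237) (nat_lit 220) (nat_lit 143)) (XT.lf (nat_lit 0) (nat_lit 12830691114) (nat_lit 76) (nat_lit 83424228119) (nat_lit 152) (nat_lit 270980549296) (nat_lit 4) (nat_lit 5) (nat_lit 5) (nat_lit 5) (nat_lit 6) (nat_lit 4) (nat_lit 238) (nat_lit 220) (nat_lit 142)))) (XT.nd (nat_lit 156) (nat_lit 0) (nat_lit 0) (XT.nd (nat_lit 78) (nat_lit 0) (nat_lit 0) (XT.lf (nat_lit 0) (nat_lit 117914022446) (nat_lit 76) (nat_lit 27217081916) (nat_lit 152) (nat_lit 267743668786) (nat_lit 4) (nat_lit 5) (nat_lit 5) (nat_lit 5) (nat_lit 6) (nat_lit 4) (nat_lit 239) (nat_lit 220) (nat_lit 141)) (XT.lf (nat_lit 0) (nat_lit 202887965336) (nat_lit 152) (nat_lit 228150142754) (nat_lit 0) (nat_lit 34089480329)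 (nat_lit 4) (nat_lit 5) (nat_lit 6) (nat_lit 4) (nat_lit 4) (nat_lit 4) (nat_lit 240) (nat_lit 220) (nat_lit 140))) (XT.nd (nat_lit 78) (nat_lit 0) (nat_lit 0) (XT.lf (nat_lit 0) (nat_lit 270604162300) (nat_lit 152) (nat_lit 152614424105) (nat_lit 0) (nat_lit 101805370432) (nat_lit 4) (nat_lit 5) (nat_lit 6) (nat_lit 4) (nat_lit 4) (nat_lit 4) (nat_lit 241) (nat_lit 220) (nat_lit 139)) (XT.lf (nat_lit 0) (nat_lit 348477576047) (nat_lit 152) (nat_lit 65748720679) (nat_lit 0) (nat_lit 179678517345) (nat_lit 4) (nat_lit 5) (nat_lit 6) (nat_lit 4) (nat_lit 4) (nat_lit 4) (nat_lit 242) (nat_lit 220) (nat_lit 138))))) (XT.nd (nat_lit 312) (nat_lit 0) (nat_lit 0) (XT.nd (nat_lit 156) (nat_lit 0) (nat_lit 0) (XT.nd (nat_lit 78) (nat_lit 0) (nat_lit 0) (XT.lf (nat_lit 0) (nat_lit 37483559570) (nat_lit 76) (nat_lit 402100371546) (nat_lit 76) (nat_lit 233301080812) (nat_lit 3) (nat_lit 4) (nat_lit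 4) (nat_lit 5) (nat_lit 4) (nat_lit 4) (nat_lit 243) (nat_lit 220) (nat_lit 137)) (XT.lf (nat_lit 0) (nat_lit 163589631866) (nat_lit 76) (nat_lit 384203298824) (nat_lit 76) (nat_lit 215403806325) (nat_lit 3) (nat_lit 4) (nat_lit 4) (nat_lit 5) (nat_lit 4) (nat_lit 4) (nat_lit 244) (nat_lit 220) (nat_lit 136))) (XT.nd (nat_lit 78) (nat_lit 0) (nat_lit 0) (XT.lf (nat_lit 0) (nat_lit 308611345771) (nat_lit 76) (nat_lit 363621783387) (nat_lit 76) (nat_lit 194822115440) (nat_lit 3) (nat_lit 4) (nat_lit 4) (nat_lit 5) (nat_lit 4) (nat_lit 4) (nat_lit 245) (nat_lit 220) (nat_lit 135)) (XT.lf (nat_lit 0) (nat_lit 475386082643) (nat_lit 76) (nat_lit 339953143413) (nat_lit 76) (nat_lit 171153322902) (nat_lit 3) (nat_lit 4) (nat_lit 4) (nat_lit 5) (nat_lit 4) (nat_lit 4) (nat_lit 246) (nat_lit 220) (nat_lit 134)))) (XT.nd (nat_lit 156) (nat_lit 0) (nat_lit 0) (XT.nd (nat_lit 78) (nat_lit 0)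 (nat_lit 0) (XT.lf (nat_lit 0) (nat_lit 667176826464) (nat_lit 76) (nat_lit 312734296815) (nat_lit 76) (nat_lit 143934343640) (nat_lit 3) (nat_lit 4) (nat_lit 4) (nat_lit 5) (nat_lit 4) (nat_lit 4) (nat_lit 247) (nat_lit 220) (nat_lit 133)) (XT.lf (nat_lit 0) (nat_lit 887736004832) (nat_lit 76) (nat_lit 281432700941) (nat_lit 76) (nat_lit 112632632406) (nat_lit 3) (nat_lit 4) (nat_lit 4) (nat_lit 5) (nat_lit 4) (nat_lit 4) (nat_lit 248) (nat_lit 220) (nat_lit 132))) (XT.nd (nat_lit 78) (nat_lit 0) (nat_lit 0) (XT.lf (nat_lit 0) (nat_lit 1141378906018) (nat_lit 76) (nat_lit 245435933265) (nat_lit 76) (nat_lit 76635764416) (nat_lit 3) (nat_lit 4) (nat_lit 4) (nat_lit 5) (nat_lit 4) (nat_lit 4) (nat_lit 249) (nat_lit 220) (nat_lit 131)) (XT.lf (nat_lit 0) (nat_lit 1433068108524) (nat_lit 76) (nat_lit 204039709200) (nat_lit 76) (nat_lit 35239453122) (nat_lit 3) (nat_lit 4) (nat_lit 4)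 (nat_lit 5) (nat_lit 4) (nat_lit 4) (nat_lit 250) (nat_lit 220) (nat_lit 130)))))) (XT.nd (nat_lit 546) (nat_lit 0) (nat_lit 0) (XT.nd (nat_lit 234) (nat_lit 0) (nat_lit 0) (XT.nd (nat_lit 78) (nat_lit 76) (nat_lit 0) (XT.lf (nat_lit 0) (nat_lit 11265302058) (nat_lit 152) (nat_lit 144579932503) (nat_lit 76) (nat_lit 1756656404887) (nat_lit 2) (nat_lit 5) (nat_lit 4) (nat_lit 5) (nat_lit 3) (nat_lit 4) (nat_lit 251) (nat_lit 220) (nat_lit 129)) (XT.nd (nat_lit 78) (nat_lit 76) (nat_lit 0) (XT.lf (nat_lit 0) (nat_lit 61137861888) (nat_lit 152) (nat_lit 37353994825) (nat_lit 76) (nat_lit 2089935605578) (nat_lit 2) (nat_lit 5) (nat_lit 4) (nat_lit 5) (nat_lit 3) (nat_lit 4) (nat_lit 252) (nat_lit 220) (nat_lit 128)) (XT.lf (nat_lit 0) (nat_lit 94355960151) (nat_lit 76) (nat_lit 28042372588) (nat_lit 152) (nat_lit 2382757772071) (nat_lit 1) (nat_lit 5) (nat_lit 2) (nat_lit 5) (nat_lit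 3) (nat_lit 4) (nat_lit 253) (nat_lit 220) (nat_lit 127)))) (XT.nd (nat_lit 156) (nat_lit 0) (nat_lit 0) (XT.nd (nat_lit 78) (nat_lit 0) (nat_lit 0) (XT.lf (nat_lit 0) (nat_lit 197086962002) (nat_lit 152) (nat_lit 2621367304729) (nat_lit 0) (nat_lit 50303914077) (nat_lit 1) (nat_lit 5) (nat_lit 3) (nat_lit 4) (nat_lit 1) (nat_lit 4) (nat_lit 254) (nat_lit 220) (nat_lit 126)) (XT.lf (nat_lit 0) (nat_lit 284314192715) (nat_lit 152) (nat_lit 2864854972584) (nat_lit 0) (nat_lit 137531107078) (nat_lit 1) (nat_lit 5) (nat_lit 3) (nat_lit 4) (nat_lit 1) (nat_lit 4) (nat_lit 255) (nat_lit 220) (nat_lit 125))) (XT.nd (nat_lit 78) (nat_lit 0) (nat_lit 0) (XT.lf (nat_lit 0) (nat_lit 384625469761) (nat_lit 152) (nat_lit 3144865862530) (nat_lit 0) (nat_lit 237842351332) (nat_lit 1) (nat_lit 5) (nat_lit 3) (nat_lit 4) (nat_lit 1) (nat_lit 4) (nat_lit 256) (nat_lit 220) (nat_lit 124)) (XT.lf (nat_lit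 0) (nat_lit 499983405083) (nat_lit 152) (nat_lit 3466878448501) (nat_lit 0) (nat_lit 353200258139) (nat_lit 1) (nat_lit 5) (nat_lit 3) (nat_lit 4) (nat_lit 1) (nat_lit 4) (nat_lit 257) (nat_lit 220) (nat_lit 123))))) (XT.nd (nat_lit 312) (nat_lit 0) (nat_lit 0) (XT.nd (nat_lit 156) (nat_lit 0) (nat_lit 0) (XT.nd (nat_lit 78) (nat_lit 0) (nat_lit 0) (XT.lf (nat_lit 0) (nat_lit 632645001764) (nat_lit 152) (nat_lit 3837192976745) (nat_lit 0) (nat_lit 485861830024) (nat_lit 1) (nat_lit 5) (nat_lit 3) (nat_lit 4) (nat_lit 1) (nat_lit 4) (nat_lit 258) (nat_lit 220) (nat_lit 122)) (XT.lf (nat_lit 0) (nat_lit 785205812782) (nat_lit 152) (nat_lit 4263054731508) (nat_lit 0) (nat_lit 638422619480) (nat_lit 1) (nat_lit 5) (nat_lit 3) (nat_lit 4) (nat_lit 1) (nat_lit 4) (nat_lit 259) (nat_lit 220) (nat_lit 121))) (XT.nd (nat_lit 78) (nat_lit 0) (nat_lit 0) (XT.lf (nat_lit 0) (nat_lit 960650723569)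 (nat_lit 152) (nat_lit 4752795790604) (nat_lit 0) (nat_lit 813867511518) (nat_lit 1) (nat_lit 5) (nat_lit 3) (nat_lit 4) (nat_lit 1) (nat_lit 4) (nat_lit 260) (nat_lit 220) (nat_lit 120)) (XT.lf (nat_lit 0) (nat_lit 1162412351946) (nat_lit 152) (nat_lit 5315998044316) (nat_lit 0) (nat_lit 1015629123591) (nat_lit 1) (nat_lit 5) (nat_lit 3) (nat_lit 4) (nat_lit 1) (nat_lit 4) (nat_lit 261) (nat_lit 220) (nat_lit 119)))) (XT.nd (nat_lit 156) (nat_lit 0) (nat_lit 0) (XT.nd (nat_lit 78) (nat_lit 0) (nat_lit 0) (XT.lf (nat_lit 0) (nat_lit 1394438208033) (nat_lit 152) (nat_lit 5963680667176) (nat_lit 0) (nat_lit 1247654965501) (nat_lit 1) (nat_lit 5) (nat_lit 3) (nat_lit 4) (nat_lit 1) (nat_lit 4) (nat_lit 262) (nat_lit 220) (nat_lit 118)) (XT.lf (nat_lit 0) (nat_lit 1661267928145) (nat_lit 152) (nat_lit 6708515710500) (nat_lit 0) (nat_lit 1514484673285) (nat_lit 1) (nat_lit 5) (nat_lit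 3) (nat_lit 4) (nat_lit 1) (nat_lit 4) (nat_lit 263) (nat_lit 220) (nat_lit 117))) (XT.nd (nat_lit 78) (nat_lit 0) (nat_lit 0) (XT.lf (nat_lit 0) (nat_lit 1968122093763) (nat_lit 152) (nat_lit 7565076033830) (nat_lit 0) (nat_lit 1821338828183) (nat_lit 1) (nat_lit 5) (nat_lit 3) (nat_lit 4) (nat_lit 1) (nat_lit 4) (nat_lit 264) (nat_lit 220) (nat_lit 116)) (XT.lf (nat_lit 0) (nat_lit 2321004373343) (nat_lit 152) (nat_lit 8550120426102) (nat_lit 0) (nat_lit 2174221098441) (nat_lit 1) (nat_lit 5) (nat_lit 3) (nat_lit 4) (nat_lit 1) (nat_lit 4) (nat_lit 265) (nat_lit 220) (nat_lit 115))))))) (XT.nd (nat_lit 28392) (nat_lit 0) (nat_lit 228) (XT.nd (nat_lit 27768) (nat_lit 0) (nat_lit 684) (XT.nd (nat_lit 234) (nat_lit 0) (nat_lit 0) (XT.nd (nat_lit 78) (nat_lit 0) (nat_lit 0) (XT.lf (nat_lit 0) (nat_lit 2726818985399) (nat_lit 152) (nat_lit 9682921494991) (nat_lit 0) (nat_lit 2580035702392)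 (nat_lit 1) (nat_lit 5) (nat_lit 3) (nat_lit 4) (nat_lit 1) (nat_lit 4) (nat_lit 266) (nat_lit 220) (nat_lit 114)) (XT.nd (nat_lit 78) (nat_lit 0) (nat_lit 0) (XT.lf (nat_lit 0) (nat_lit 3193505781038) (nat_lit 152) (nat_lit 10985642739671) (nat_lit 0) (nat_lit 3046722490982) (nat_lit 1) (nat_lit 5) (nat_lit 3) (nat_lit 4) (nat_lit 1) (nat_lit 4) (nat_lit 267) (nat_lit 220) (nat_lit 113)) (XT.lf (nat_lit 0) (nat_lit 3730195588869) (nat_lit 152) (nat_lit 12483772184493) (nat_lit 0) (nat_lit 3583412292684) (nat_lit 1) (nat_lit 5) (nat_lit 3) (nat_lit 4) (nat_lit 1) (nat_lit 4) (nat_lit 268) (nat_lit 220) (nat_lit 112)))) (XT.nd (nat_lit 156) (nat_lit 0) (nat_lit 0) (XT.nd (nat_lit 78) (nat_lit 0) (nat_lit 0) (XT.lf (nat_lit 0) (nat_lit 4347388861654) (nat_lit 152) (nat_lit 14206621057727) (nat_lit 0) (nat_lit 4200605560139) (nat_lit 1) (nat_lit 5) (nat_lit 3) (nat_lit 4) (nat_lit 1)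 (nat_lit 4) (nat_lit 269) (nat_lit 220) (nat_lit 111)) (XT.lf (nat_lit 0) (nat_lit 5057161119947) (nat_lit 152) (nat_lit 16187897272109) (nat_lit 0) (nat_lit 4910377813798) (nat_lit 1) (nat_lit 5) (nat_lit 3) (nat_lit 4) (nat_lit 1) (nat_lit 4) (nat_lit 270) (nat_lit 220) (nat_lit 110))) (XT.nd (nat_lit 78) (nat_lit 0) (nat_lit 0) (XT.lf (nat_lit 0) (nat_lit 5873399212282) (nat_lit 152) (nat_lit 18466364927486) (nat_lit 0) (nat_lit 5726615902102) (nat_lit 1) (nat_lit 5) (nat_lit 3) (nat_lit 4) (nat_lit 1) (nat_lit 4) (nat_lit 271) (nat_lit 220) (nat_lit 109)) (XT.lf (nat_lit 0) (nat_lit 6812073014376) (nat_lit 152) (nat_lit 21086602738855) (nat_lit 0) (nat_lit 6665289700692) (nat_lit 1) (nat_lit 5) (nat_lit 3) (nat_lit 4) (nat_lit 1) (nat_lit 4) (nat_lit 272) (nat_lit 220) (nat_lit 108))))) (XT.nd (nat_lit 312) (nat_lit 380) (nat_lit 0) (XT.nd (nat_lit 156) (nat_lit 0) (nat_lit 0)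 (XT.nd (nat_lit 78) (nat_lit 0) (nat_lit 0) (XT.lf (nat_lit 0) (nat_lit 15504300046) (nat_lit 0) (nat_lit 15504300046) (nat_lit 228) (nat_lit 7739222181) (nat_lit 15) (nat_lit 5) (nat_lit 15) (nat_lit 3) (nat_lit 18) (nat_lit 3) (nat_lit 221) (nat_lit 221) (nat_lit 158)) (XT.lf (nat_lit 0) (nat_lit 66691210486) (nat_lit 228) (nat_lit 16305687256) (nat_lit 304) (nat_lit 307361438) (nat_lit 15) (nat_lit 5) (nat_lit 18) (nat_lit 3) (nat_lit 19) (nat_lit 5) (nat_lit 222) (nat_lit 221) (nat_lit 157))) (XT.nd (nat_lit 78) (nat_lit 0) (nat_lit 0) (XT.lf (nat_lit 76) (nat_lit 18579255653) (nat_lit 0) (nat_lit 55731468443) (nat_lit 304) (nat_lit 15336808472) (nat_lit 16) (nat_lit 5) (nat_lit 15) (nat_lit 5) (nat_lit 19) (nat_lit 5) (nat_lit 223) (nat_lit 221) (nat_lit 156)) (XT.lf (nat_lit 76) (nat_lit 60528453928) (nat_lit 0) (nat_lit 23395684600) (nat_lit 304) (nat_lit 12890535697) (nat_lit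 16) (nat_lit 5) (nat_lit 15) (nat_lit 5) (nat_lit 19) (nat_lit 5) (nat_lit 224) (nat_lit 221) (nat_lit 155)))) (XT.nd (nat_lit 156) (nat_lit 228) (nat_lit 0) (XT.nd (nat_lit 78) (nat_lit 0) (nat_lit 0) (XT.lf (nat_lit 0) (nat_lit 3447972503) (nat_lit 228) (nat_lit 92244221689) (nat_lit 304) (nat_lit 9257818864) (nat_lit 13) (nat_lit 5) (nat_lit 16) (nat_lit 5) (nat_lit 17) (nat_lit 5) (nat_lit 225) (nat_lit 221) (nat_lit 154)) (XT.lf (nat_lit 0) (nat_lit 51996363530) (nat_lit 228) (nat_lit 60188246770) (nat_lit 304) (nat_lit 1677187235) (nat_lit 13) (nat_lit 5) (nat_lit 16) (nat_lit 5) (nat_lit 17) (nat_lit 5) (nat_lit 226) (nat_lit 221) (nat_lit 153))) (XT.nd (nat_lit 78) (nat_lit 152) (nat_lit 0) (XT.lf (nat_lit 0) (nat_lit 6412754937) (nat_lit 304) (nat_lit 16575893697) (nat_lit 76) (nat_lit 101078132342) (nat_lit 12) (nat_lit 5) (nat_lit 16) (nat_lit 5) (nat_lit 13) (nat_lit 5)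 (nat_lit 227) (nat_lit 221) (nat_lit 152)) (XT.lf (nat_lit 0) (nat_lit 18053886426) (nat_lit 228) (nat_lit 97560670530) (nat_lit 76) (nat_lit 19799575163) (nat_lit 10) (nat_lit 5) (nat_lit 13) (nat_lit 5) (nat_lit 11) (nat_lit 5) (nat_lit 228) (nat_lit 221) (nat_lit 151)))))) (XT.nd (nat_lit 546) (nat_lit 228) (nat_lit 0) (XT.nd (nat_lit 234) (nat_lit 76) (nat_lit 0) (XT.nd (nat_lit 78) (nat_lit 152) (nat_lit 0) (XT.lf (nat_lit 0) (nat_lit 33442828597) (nat_lit 228) (nat_lit 47160423172) (nat_lit 76) (nat_lit 67560098106) (nat_lit 10) (nat_lit 5) (nat_lit 13) (nat_lit 5) (nat_lit 11) (nat_lit 5) (nat_lit 229) (nat_lit 221) (nat_lit 150)) (XT.nd (nat_lit 78) (nat_lit 0) (nat_lit 0) (XT.lf (nat_lit 0) (nat_lit 11854372549) (nat_lit 152) (nat_lit 39775922000) (nat_lit 228) (nat_lit 111121137147) (nat_lit 8) (nat_lit 5) (nat_lit 10) (nat_lit 5) (nat_lit 11) (nat_lit 5) (nat_lit 230) (nat_lit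 221) (nat_lit 149)) (XT.lf (nat_lit 0) (nat_lit 75424963535) (nat_lit 228) (nat_lit 94551784724) (nat_lit 76) (nat_lit 9119122686) (nat_lit 8) (nat_lit 5) (nat_lit 11) (nat_lit 5) (nat_lit 9) (nat_lit 4) (nat_lit 231) (nat_lit 221) (nat_lit 148)))) (XT.nd (nat_lit 156) (nat_lit 0) (nat_lit 0) (XT.nd (nat_lit 78) (nat_lit 76) (nat_lit 0) (XT.lf (nat_lit 0) (nat_lit 104682373163) (nat_lit 228) (nat_lit 31649595446) (nat_lit 76) (nat_lit 61275983060) (nat_lit 8) (nat_lit 5) (nat_lit 11) (nat_lit 5) (nat_lit 9) (nat_lit 4) (nat_lit 232) (nat_lit 221) (nat_lit 147)) (XT.lf (nat_lit 0) (nat_lit 44663492781) (nat_lit 76) (nat_lit 95513842114) (nat_lit 152) (nat_lit 78442174274) (nat_lit 7) (nat_lit 5) (nat_lit 8) (nat_lit 5) (nat_lit 9) (nat_lit 4) (nat_lit 233) (nat_lit 221) (nat_lit 146))) (XT.nd (nat_lit 78) (nat_lit 0) (nat_lit 0) (XT.lf (nat_lit 0) (nat_lit 135979875782) (nat_lit 76)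 (nat_lit 46670631994) (nat_lit 152) (nat_lit 59884202497) (nat_lit 7) (nat_lit 5) (nat_lit 8) (nat_lit 5) (nat_lit 9) (nat_lit 4) (nat_lit 234) (nat_lit 221) (nat_lit 145)) (XT.lf (nat_lit 0) (nat_lit 231887599019) (nat_lit 152) (nat_lit 29437432320) (nat_lit 0) (nat_lit 8653223200) (nat_lit 7) (nat_lit 5) (nat_lit 9) (nat_lit 4) (nat_lit 7) (nat_lit 4) (nat_lit 235) (nat_lit 221) (nat_lit 144))))) (XT.nd (nat_lit 312) (nat_lit 0) (nat_lit 0) (XT.nd (nat_lit 156) (nat_lit 76) (nat_lit 0) (XT.nd (nat_lit 78) (nat_lit 76) (nat_lit 0) (XT.lf (nat_lit 0) (nat_lit 62597490415) (nat_lit 76) (nat_lit 230726861105) (nat_lit 76) (nat_lit 7491868080) (nat_lit 6) (nat_lit 4) (nat_lit 7) (nat_lit 5) (nat_lit 7) (nat_lit 4) (nat_lit 236) (nat_lit 221) (nat_lit 143)) (XT.lf (nat_lit 0) (nat_lit 26842695262) (nat_lit 152) (nat_lit 165523734911) (nat_lit 76) (nat_lit 143499665758) (nat_lit 5) (nat_lit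 5) (nat_lit 7) (nat_lit 5) (nat_lit 6) (nat_lit 4) (nat_lit 237) (nat_lit 221) (nat_lit 142))) (XT.nd (nat_lit 78) (nat_lit 76) (nat_lit 0) (XT.lf (nat_lit 0) (nat_lit 65560125489) (nat_lit 152) (nat_lit 82281726618) (nat_lit 76) (nat_lit 228278134707) (nat_lit 5) (nat_lit 5) (nat_lit 7) (nat_lit 5) (nat_lit 6) (nat_lit 4) (nat_lit 238) (nat_lit 221) (nat_lit 141)) (XT.lf (nat_lit 0) (nat_lit 14760223090) (nat_lit 76) (nat_lit 95935881716) (nat_lit 152) (nat_lit 311624218508) (nat_lit 4) (nat_lit 5) (nat_lit 5) (nat_lit 5) (nat_lit 6) (nat_lit 4) (nat_lit 239) (nat_lit 221) (nat_lit 140)))) (XT.nd (nat_lit 156) (nat_lit 0) (nat_lit 0) (XT.nd (nat_lit 78) (nat_lit 0) (nat_lit 0) (XT.lf (nat_lit 0) (nat_lit 135605411299) (nat_lit 76) (nat_lit 31297921925) (nat_lit 152) (nat_lit 307902251120) (nat_lit 4) (nat_lit 5) (nat_lit 5) (nat_lit 5) (nat_lit 6) (nat_lit 4) (nat_lit 240) (nat_lit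 221) (nat_lit 139)) (XT.lf (nat_lit 0) (nat_lit 233323451026) (nat_lit 152) (nat_lit 262368647691) (nat_lit 0) (nat_lit 39204266683) (nat_lit 4) (nat_lit 5) (nat_lit 6) (nat_lit 4) (nat_lit 4) (nat_lit 4) (nat_lit 241) (nat_lit 221) (nat_lit 138))) (XT.nd (nat_lit 78) (nat_lit 0) (nat_lit 0) (XT.lf (nat_lit 0) (nat_lit 311196778722) (nat_lit 152) (nat_lit 175503095133) (nat_lit 0) (nat_lit 117077362349) (nat_lit 4) (nat_lit 5) (nat_lit 6) (nat_lit 4) (nat_lit 4) (nat_lit 4) (nat_lit 242) (nat_lit 221) (nat_lit 137)) (XT.lf (nat_lit 0) (nat_lit 400750944696) (nat_lit 152) (nat_lit 75607991748) (nat_lit 0) (nat_lit 206631326557) (nat_lit 4) (nat_lit 5) (nat_lit 6) (nat_lit 4) (nat_lit 4) (nat_lit 4) (nat_lit 243) (nat_lit 221) (nat_lit 136))))))))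
noncomputable def xc48 : XT := (XT.nd (nat_lit 29640) (nat_lit 0) (nat_lit 152) (XT.nd (nat_lit 1092) (nat_lit 0) (nat_lit 0) (XT.nd (nat_lit 546) (nat_lit 152) (nat_lit 0) (XT.nd (nat_lit 234) (nat_lit 0) (nat_lit 0) (XT.nd (nat_lit 78) (nat_lit 0) (nat_lit 0) (XT.lf (nat_lit 0) (nat_lit 43108992491) (nat_lit 76) (nat_lit 462414154629) (nat_lit 76) (nat_lit 268294361042) (nat_lit 3) (nat_lit 4) (nat_lit 4) (nat_lit 5) (nat_lit 4) (nat_lit 4) (nat_lit 244) (nat_lit 221) (nat_lit 135)) (XT.nd (nat_lit 78) (nat_lit 0) (nat_lit 0) (XT.lf (nat_lit 0) (nat_lit 188130597503) (nat_lit 76) (nat_lit 441832686997) (nat_lit 76) (nat_lit 247712740845) (nat_lit 3) (nat_lit 4) (nat_lit 4) (nat_lit 5) (nat_lit 4) (nat_lit 4) (nat_lit 245) (nat_lit 221) (nat_lit 134)) (XT.lf (nat_lit 0) (nat_lit 354905239686) (nat_lit 76) (nat_lit 418164088591) (nat_lit 76) (nat_lit 224044009775) (nat_lit 3) (nat_lit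 4) (nat_lit 4) (nat_lit 5) (nat_lit 4) (nat_lit 4) (nat_lit 246) (nat_lit 221) (nat_lit 133)))) (XT.nd (nat_lit 156) (nat_lit 0) (nat_lit 0) (XT.nd (nat_lit 78) (nat_lit 0) (nat_lit 0) (XT.lf (nat_lit 0) (nat_lit 546695901170) (nat_lit 76) (nat_lit 390945278139) (nat_lit 76) (nat_lit 196825083963) (nat_lit 3) (nat_lit 4) (nat_lit 4) (nat_lit 5) (nat_lit 4) (nat_lit 4) (nat_lit 247) (nat_lit 221) (nat_lit 132)) (XT.lf (nat_lit 0) (nat_lit 767255007939) (nat_lit 76) (nat_lit 359643713697) (nat_lit 76) (nat_lit 165523419208) (nat_lit 3) (nat_lit 4) (nat_lit 4) (nat_lit 5) (nat_lit 4) (nat_lit 4) (nat_lit 248) (nat_lit 221) (nat_lit 131))) (XT.nd (nat_lit 78) (nat_lit 0) (nat_lit 0) (XT.lf (nat_lit 0) (nat_lit 1020897846865) (nat_lit 76) (nat_lit 323646973352) (nat_lit 76) (nat_lit 129526591634) (nat_lit 3) (nat_lit 4) (nat_lit 4) (nat_lit 5) (nat_lit 4) (nat_lit 4) (nat_lit 249) (nat_lit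 221) (nat_lit 130)) (XT.lf (nat_lit 0) (nat_lit 1312586995232) (nat_lit 76) (nat_lit 282250773053) (nat_lit 76) (nat_lit 88130315484) (nat_lit 3) (nat_lit 4) (nat_lit 4) (nat_lit 5) (nat_lit 4) (nat_lit 4) (nat_lit 250) (nat_lit 221) (nat_lit 129))))) (XT.nd (nat_lit 234) (nat_lit 76) (nat_lit 0) (XT.nd (nat_lit 78) (nat_lit 76) (nat_lit 0) (XT.lf (nat_lit 0) (nat_lit 1648029414638) (nat_lit 76) (nat_lit 234645187144) (nat_lit 76) (nat_lit 40524663617) (nat_lit 3) (nat_lit 4) (nat_lit 4) (nat_lit 5) (nat_lit 4) (nat_lit 4) (nat_lit 251) (nat_lit 221) (nat_lit 128)) (XT.nd (nat_lit 78) (nat_lit 0) (nat_lit 0) (XT.lf (nat_lit 0) (nat_lit 12955657792) (nat_lit 152) (nat_lit 166265916628) (nat_lit 76) (nat_lit 2020155223583) (nat_lit 2) (nat_lit 5) (nat_lit 4) (nat_lit 5) (nat_lit 3) (nat_lit 4) (nat_lit 252) (nat_lit 221) (nat_lit 127)) (XT.lf (nat_lit 0) (nat_lit 70309028498) (nat_lit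 152) (nat_lit 42956219483) (nat_lit 76) (nat_lit 2403426257687) (nat_lit 2) (nat_lit 5) (nat_lit 4) (nat_lit 5) (nat_lit 3) (nat_lit 4) (nat_lit 253) (nat_lit 221) (nat_lit 126)))) (XT.nd (nat_lit 156) (nat_lit 0) (nat_lit 0) (XT.nd (nat_lit 78) (nat_lit 0) (nat_lit 0) (XT.lf (nat_lit 0) (nat_lit 108510188987) (nat_lit 76) (nat_lit 32248351993) (nat_lit 152) (nat_lit 2740170908308) (nat_lit 1) (nat_lit 5) (nat_lit 2) (nat_lit 5) (nat_lit 3) (nat_lit 4) (nat_lit 254) (nat_lit 221) (nat_lit 125)) (XT.lf (nat_lit 0) (nat_lit 226650418406) (nat_lit 152) (nat_lit 3014571626119) (nat_lit 0) (nat_lit 57849799420) (nat_lit 1) (nat_lit 5) (nat_lit 3) (nat_lit 4) (nat_lit 1) (nat_lit 4) (nat_lit 255) (nat_lit 221) (nat_lit 124))) (XT.nd (nat_lit 78) (nat_lit 0) (nat_lit 0) (XT.lf (nat_lit 0) (nat_lit 326961679973) (nat_lit 152) (nat_lit 3294582545150) (nat_lit 0) (nat_lit 158161032471) (nat_lit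 1) (nat_lit 5) (nat_lit 3) (nat_lit 4) (nat_lit 1) (nat_lit 4) (nat_lit 256) (nat_lit 221) (nat_lit 123)) (XT.lf (nat_lit 0) (nat_lit 442319601835) (nat_lit 152) (nat_lit 3616595156413) (nat_lit 0) (nat_lit 273518929537) (nat_lit 1) (nat_lit 5) (nat_lit 3) (nat_lit 4) (nat_lit 1) (nat_lit 4) (nat_lit 257) (nat_lit 221) (nat_lit 122)))))) (XT.nd (nat_lit 546) (nat_lit 0) (nat_lit 0) (XT.nd (nat_lit 234) (nat_lit 0) (nat_lit 0) (XT.nd (nat_lit 78) (nat_lit 0) (nat_lit 0) (XT.lf (nat_lit 0) (nat_lit 574981186811) (nat_lit 152) (nat_lit 3986909706649) (nat_lit 0) (nat_lit 406180492952) (nat_lit 1) (nat_lit 5) (nat_lit 3) (nat_lit 4) (nat_lit 1) (nat_lit 4) (nat_lit 258) (nat_lit 221) (nat_lit 121)) (XT.nd (nat_lit 78) (nat_lit 0) (nat_lit 0) (XT.lf (nat_lit 0) (nat_lit 727541987650) (nat_lit 152) (nat_lit 4412771480536) (nat_lit 0) (nat_lit 558741275042) (nat_lit 1) (nat_lit 5) (nat_lit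 3) (nat_lit 4) (nat_lit 1) (nat_lit 4) (nat_lit 259) (nat_lit 221) (nat_lit 120)) (XT.lf (nat_lit 0) (nat_lit 902986889587) (nat_lit 152) (nat_lit 4902512556261) (nat_lit 0) (nat_lit 734186160675) (nat_lit 1) (nat_lit 5) (nat_lit 3) (nat_lit 4) (nat_lit 1) (nat_lit 4) (nat_lit 260) (nat_lit 221) (nat_lit 119)))) (XT.nd (nat_lit 156) (nat_lit 0) (nat_lit 0) (XT.nd (nat_lit 78) (nat_lit 0) (nat_lit 0) (XT.lf (nat_lit 0) (nat_lit 1104748510268) (nat_lit 152) (nat_lit 5465714824434) (nat_lit 0) (nat_lit 935947767179) (nat_lit 1) (nat_lit 5) (nat_lit 3) (nat_lit 4) (nat_lit 1) (nat_lit 4) (nat_lit 261) (nat_lit 221) (nat_lit 118)) (XT.lf (nat_lit 0) (nat_lit 1336774359663) (nat_lit 152) (nat_lit 6113397459868) (nat_lit 0) (nat_lit 1167973604246) (nat_lit 1) (nat_lit 5) (nat_lit 3) (nat_lit 4) (nat_lit 1) (nat_lit 4) (nat_lit 262) (nat_lit 221) (nat_lit 117))) (XT.nd (nat_lit 78) (nat_lit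 0) (nat_lit 0) (XT.lf (nat_lit 0) (nat_lit 1603604073956) (nat_lit 152) (nat_lit 6858232514126) (nat_lit 0) (nat_lit 1434803307819) (nat_lit 1) (nat_lit 5) (nat_lit 3) (nat_lit 4) (nat_lit 1) (nat_lit 4) (nat_lit 263) (nat_lit 221) (nat_lit 116)) (XT.lf (nat_lit 0) (nat_lit 1910458234513) (nat_lit 152) (nat_lit 7714792846965) (nat_lit 0) (nat_lit 1741657459054) (nat_lit 1) (nat_lit 5) (nat_lit 3) (nat_lit 4) (nat_lit 1) (nat_lit 4) (nat_lit 264) (nat_lit 221) (nat_lit 115))))) (XT.nd (nat_lit 312) (nat_lit 0) (nat_lit 0) (XT.nd (nat_lit 156) (nat_lit 0) (nat_lit 0) (XT.nd (nat_lit 78) (nat_lit 0) (nat_lit 0) (XT.lf (nat_lit 0) (nat_lit 2263340509693) (nat_lit 152) (nat_lit 8699837247505) (nat_lit 0) (nat_lit 2094539726128) (nat_lit 1) (nat_lit 5) (nat_lit 3) (nat_lit 4) (nat_lit 1) (nat_lit 4) (nat_lit 265) (nat_lit 221) (nat_lit 114)) (XT.lf (nat_lit 0) (nat_lit 2669155117923) (nat_lit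 152) (nat_lit 9832638323583) (nat_lit 0) (nat_lit 2500354327310) (nat_lit 1) (nat_lit 5) (nat_lit 3) (nat_lit 4) (nat_lit 1) (nat_lit 4) (nat_lit 266) (nat_lit 221) (nat_lit 113))) (XT.nd (nat_lit 78) (nat_lit 0) (nat_lit 0) (XT.lf (nat_lit 0) (nat_lit 3135841910234) (nat_lit 152) (nat_lit 11135359574514) (nat_lit 0) (nat_lit 2967041113492) (nat_lit 1) (nat_lit 5) (nat_lit 3) (nat_lit 4) (nat_lit 1) (nat_lit 4) (nat_lit 267) (nat_lit 221) (nat_lit 112)) (XT.lf (nat_lit 0) (nat_lit 3672531715172) (nat_lit 152) (nat_lit 12633489024773) (nat_lit 0) (nat_lit 3503730913100) (nat_lit 1) (nat_lit 5) (nat_lit 3) (nat_lit 4) (nat_lit 1) (nat_lit 4) (nat_lit 268) (nat_lit 221) (nat_lit 111)))) (XT.nd (nat_lit 156) (nat_lit 0) (nat_lit 0) (XT.nd (nat_lit 78) (nat_lit 0) (nat_lit 0) (XT.lf (nat_lit 0) (nat_lit 4289724985441) (nat_lit 152) (nat_lit 14356337902734) (nat_lit 0) (nat_lit 4120924178735)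 (nat_lit 1) (nat_lit 5) (nat_lit 3) (nat_lit 4) (nat_lit 1) (nat_lit 4) (nat_lit 269) (nat_lit 221) (nat_lit 110)) (XT.lf (nat_lit 0) (nat_lit 4999497241547) (nat_lit 152) (nat_lit 16337614121227) (nat_lit 0) (nat_lit 4830696430811) (nat_lit 1) (nat_lit 5) (nat_lit 3) (nat_lit 4) (nat_lit 1) (nat_lit 4) (nat_lit 270) (nat_lit 221) (nat_lit 109))) (XT.nd (nat_lit 27456) (nat_lit 0) (nat_lit 1064) (XT.lf (nat_lit 0) (nat_lit 5815735331979) (nat_lit 152) (nat_lit 18616081780178) (nat_lit 0) (nat_lit 5646934517738) (nat_lit 1) (nat_lit 5) (nat_lit 3) (nat_lit 4) (nat_lit 1) (nat_lit 4) (nat_lit 271) (nat_lit 221) (nat_lit 108)) (XT.lf (nat_lit 0) (nat_lit 17834138564) (nat_lit 0) (nat_lit 17834138564) (nat_lit 228) (nat_lit 8890316006) (nat_lit 15) (nat_lit 5) (nat_lit 15) (nat_lit 3) (nat_lit 18) (nat_lit 3) (nat_lit 222) (nat_lit 222) (nat_lit 156))))))) (XT.nd (nat_lit 1170) (nat_lit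 228) (nat_lit 0) (XT.nd (nat_lit 546) (nat_lit 304) (nat_lit 0) (XT.nd (nat_lit 234) (nat_lit 380) (nat_lit 0) (XT.nd (nat_lit 78) (nat_lit 0) (nat_lit 0) (XT.lf (nat_lit 0) (nat_lit 76709176193) (nat_lit 228) (nat_lit 18741506195) (nat_lit 304) (nat_lit 346821871) (nat_lit 15) (nat_lit 5) (nat_lit 18) (nat_lit 3) (nat_lit 19) (nat_lit 5) (nat_lit 223) (nat_lit 222) (nat_lit 155)) (XT.nd (nat_lit 78) (nat_lit 0) (nat_lit 0) (XT.lf (nat_lit 76) (nat_lit 21375722053) (nat_lit 0) (nat_lit 64094428250) (nat_lit 304) (nat_lit 17622371095) (nat_lit 16) (nat_lit 5) (nat_lit 15) (nat_lit 5) (nat_lit 19) (nat_lit 5) (nat_lit 224) (nat_lit 222) (nat_lit 154)) (XT.lf (nat_lit 76) (nat_lit 69616050759) (nat_lit 0) (nat_lit 26907854282) (nat_lit 304) (nat_lit 14811108531) (nat_lit 16) (nat_lit 5) (nat_lit 15) (nat_lit 5) (nat_lit 19) (nat_lit 5) (nat_lit 225) (nat_lit 222) (nat_lit 153)))) (XT.nd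 (nat_lit 156) (nat_lit 228) (nat_lit 0) (XT.nd (nat_lit 78) (nat_lit 0) (nat_lit 0) (XT.lf (nat_lit 0) (nat_lit 3975007045) (nat_lit 228) (nat_lit 106081014184) (nat_lit 304) (nat_lit 10634828944) (nat_lit 13) (nat_lit 5) (nat_lit 16) (nat_lit 5) (nat_lit 17) (nat_lit 5) (nat_lit 226) (nat_lit 222) (nat_lit 152)) (XT.lf (nat_lit 0) (nat_lit 59804373422) (nat_lit 228) (nat_lit 69216622257) (nat_lit 304) (nat_lit 1918623799) (nat_lit 13) (nat_lit 5) (nat_lit 16) (nat_lit 5) (nat_lit 17) (nat_lit 5) (nat_lit 227) (nat_lit 222) (nat_lit 151))) (XT.nd (nat_lit 78) (nat_lit 152) (nat_lit 0) (XT.lf (nat_lit 0) (nat_lit 7382701789) (nat_lit 304) (nat_lit 19053944611) (nat_lit 76) (nat_lit 116238838089) (nat_lit 12) (nat_lit 5) (nat_lit 16) (nat_lit 5) (nat_lit 13) (nat_lit 5) (nat_lit 228) (nat_lit 222) (nat_lit 150)) (XT.lf (nat_lit 0) (nat_lit 20769310982) (nat_lit 228) (nat_lit 112185651522)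 (nat_lit 76) (nat_lit 22770093767) (nat_lit 10) (nat_lit 5) (nat_lit 13) (nat_lit 5) (nat_lit 11) (nat_lit 5) (nat_lit 229) (nat_lit 222) (nat_lit 149))))) (XT.nd (nat_lit 312) (nat_lit 152) (nat_lit 0) (XT.nd (nat_lit 156) (nat_lit 0) (nat_lit 0) (XT.nd (nat_lit 78) (nat_lit 152) (nat_lit 0) (XT.lf (nat_lit 0) (nat_lit 38465636880) (nat_lit 228) (nat_lit 54226556571) (nat_lit 76) (nat_lit 77694619196) (nat_lit 10) (nat_lit 5) (nat_lit 13) (nat_lit 5) (nat_lit 11) (nat_lit 5) (nat_lit 230) (nat_lit 222) (nat_lit 148)) (XT.lf (nat_lit 0) (nat_lit 13640098050) (nat_lit 152) (nat_lit 45740605422) (nat_lit 228) (nat_lit 127782491868) (nat_lit 8) (nat_lit 5) (nat_lit 10) (nat_lit 5) (nat_lit 11) (nat_lit 5) (nat_lit 231) (nat_lit 222) (nat_lit 147))) (XT.nd (nat_lit 78) (nat_lit 0) (nat_lit 0) (XT.lf (nat_lit 0) (nat_lit 86743869227) (nat_lit 228) (nat_lit 108727204489) (nat_lit 76) (nat_lit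 10488341610) (nat_lit 8) (nat_lit 5) (nat_lit 11) (nat_lit 5) (nat_lit 9) (nat_lit 4) (nat_lit 232) (nat_lit 222) (nat_lit 146)) (XT.lf (nat_lit 0) (nat_lit 120389217103) (nat_lit 228) (nat_lit 36390645247) (nat_lit 76) (nat_lit 70468554885) (nat_lit 8) (nat_lit 5) (nat_lit 11) (nat_lit 5) (nat_lit 9) (nat_lit 4) (nat_lit 233) (nat_lit 222) (nat_lit 145)))) (XT.nd (nat_lit 156) (nat_lit 76) (nat_lit 0) (XT.nd (nat_lit 78) (nat_lit 0) (nat_lit 0) (XT.lf (nat_lit 0) (nat_lit 51369115781) (nat_lit 76) (nat_lit 109838974477) (nat_lit 152) (nat_lit 90203675069) (nat_lit 7) (nat_lit 5) (nat_lit 8) (nat_lit 5) (nat_lit 9) (nat_lit 4) (nat_lit 234) (nat_lit 222) (nat_lit 144)) (XT.lf (nat_lit 0) (nat_lit 156382160701) (nat_lit 76) (nat_lit 53669536398) (nat_lit 152) (nat_lit 68862636919) (nat_lit 7) (nat_lit 5) (nat_lit 8) (nat_lit 5) (nat_lit 9) (nat_lit 4) (nat_lit 235) (nat_lit 222) (nat_lit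 143))) (XT.nd (nat_lit 78) (nat_lit 76) (nat_lit 0) (XT.lf (nat_lit 0) (nat_lit 266673941613) (nat_lit 152) (nat_lit 33847989470) (nat_lit 0) (nat_lit 9952545728) (nat_lit 7) (nat_lit 5) (nat_lit 9) (nat_lit 4) (nat_lit 7) (nat_lit 4) (nat_lit 236) (nat_lit 222) (nat_lit 142)) (XT.lf (nat_lit 0) (nat_lit 71991941780) (nat_lit 76) (nat_lit 265334047370) (nat_lit 76) (nat_lit 8612184788) (nat_lit 6) (nat_lit 4) (nat_lit 7) (nat_lit 5) (nat_lit 7) (nat_lit 4) (nat_lit 237) (nat_lit 222) (nat_lit 141)))))) (XT.nd (nat_lit 546) (nat_lit 76) (nat_lit 0) (XT.nd (nat_lit 234) (nat_lit 0) (nat_lit 0) (XT.nd (nat_lit 78) (nat_lit 76) (nat_lit 0) (XT.lf (nat_lit 0) (nat_lit 30871843168) (nat_lit 152) (nat_lit 190347805592) (nat_lit 76) (nat_lit 165025926678) (nat_lit 5) (nat_lit 5) (nat_lit 7) (nat_lit 5) (nat_lit 6) (nat_lit 4) (nat_lit 238) (nat_lit 222) (nat_lit 140)) (XT.nd (nat_lit 78)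 (nat_lit 76) (nat_lit 0) (XT.lf (nat_lit 0) (nat_lit 75396530067) (nat_lit 152) (nat_lit 94620081649) (nat_lit 76) (nat_lit 262520994962) (nat_lit 5) (nat_lit 5) (nat_lit 7) (nat_lit 5) (nat_lit 6) (nat_lit 4) (nat_lit 239) (nat_lit 222) (nat_lit 139)) (XT.lf (nat_lit 0) (nat_lit 16977983062) (nat_lit 76) (nat_lit 110324766340) (nat_lit 152) (nat_lit 358365270429) (nat_lit 4) (nat_lit 5) (nat_lit 5) (nat_lit 5) (nat_lit 6) (nat_lit 4) (nat_lit 240) (nat_lit 222) (nat_lit 138)))) (XT.nd (nat_lit 156) (nat_lit 0) (nat_lit 0) (XT.nd (nat_lit 78) (nat_lit 0) (nat_lit 0) (XT.lf (nat_lit 0) (nat_lit 155949463437) (nat_lit 76) (nat_lit 35991307923) (nat_lit 152) (nat_lit 354085344566) (nat_lit 4) (nat_lit 5) (nat_lit 5) (nat_lit 5) (nat_lit 6) (nat_lit 4) (nat_lit 241) (nat_lit 222) (nat_lit 137)) (XT.lf (nat_lit 0) (nat_lit 268323700921) (nat_lit 152) (nat_lit 301720907812) (nat_lit 0)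 (nat_lit 45085938295) (nat_lit 4) (nat_lit 5) (nat_lit 6) (nat_lit 4) (nat_lit 4) (nat_lit 4) (nat_lit 242) (nat_lit 222) (nat_lit 136))) (XT.nd (nat_lit 78) (nat_lit 0) (nat_lit 0) (XT.lf (nat_lit 0) (nat_lit 357877801828) (nat_lit 152) (nat_lit 201825918505) (nat_lit 0) (nat_lit 134639863753) (nat_lit 4) (nat_lit 5) (nat_lit 6) (nat_lit 4) (nat_lit 4) (nat_lit 4) (nat_lit 243) (nat_lit 222) (nat_lit 135)) (XT.lf (nat_lit 0) (nat_lit 460864896224) (nat_lit 152) (nat_lit 86946894078) (nat_lit 0) (nat_lit 237626805586) (nat_lit 4) (nat_lit 5) (nat_lit 6) (nat_lit 4) (nat_lit 4) (nat_lit 4) (nat_lit 244) (nat_lit 222) (nat_lit 134))))) (XT.nd (nat_lit 312) (nat_lit 0) (nat_lit 0) (XT.nd (nat_lit 156) (nat_lit 0) (nat_lit 0) (XT.nd (nat_lit 78) (nat_lit 0) (nat_lit 0) (XT.lf (nat_lit 0) (nat_lit 49577533414) (nat_lit 76) (nat_lit 531775315519) (nat_lit 76) (nat_lit 308537092216) (nat_lit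 3) (nat_lit 4) (nat_lit 4) (nat_lit 5) (nat_lit 4) (nat_lit 4) (nat_lit 245) (nat_lit 222) (nat_lit 133)) (XT.lf (nat_lit 0) (nat_lit 216352093259) (nat_lit 76) (nat_lit 508106753259) (nat_lit 76) (nat_lit 284868414597) (nat_lit 3) (nat_lit 4) (nat_lit 4) (nat_lit 5) (nat_lit 4) (nat_lit 4) (nat_lit 246) (nat_lit 222) (nat_lit 132))) (XT.nd (nat_lit 78) (nat_lit 0) (nat_lit 0) (XT.lf (nat_lit 0) (nat_lit 408142683144) (nat_lit 76) (nat_lit 480887974239) (nat_lit 76) (nat_lit 257649535263) (nat_lit 3) (nat_lit 4) (nat_lit 4) (nat_lit 5) (nat_lit 4) (nat_lit 4) (nat_lit 247) (nat_lit 222) (nat_lit 131)) (XT.lf (nat_lit 0) (nat_lit 628701727653) (nat_lit 76) (nat_lit 449586437128) (nat_lit 76) (nat_lit 226347910924) (nat_lit 3) (nat_lit 4) (nat_lit 4) (nat_lit 5) (nat_lit 4) (nat_lit 4) (nat_lit 248) (nat_lit 222) (nat_lit 130)))) (XT.nd (nat_lit 156) (nat_lit 0) (nat_lit 0) (XT.nd (nat_lit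 78) (nat_lit 0) (nat_lit 0) (XT.lf (nat_lit 0) (nat_lit 882344512441) (nat_lit 76) (nat_lit 413589720550) (nat_lit 76) (nat_lit 190351118494) (nat_lit 3) (nat_lit 4) (nat_lit 4) (nat_lit 5) (nat_lit 4) (nat_lit 4) (nat_lit 249) (nat_lit 222) (nat_lit 129)) (XT.lf (nat_lit 0) (nat_lit 1174033613731) (nat_lit 76) (nat_lit 372193540919) (nat_lit 76) (nat_lit 148954872906) (nat_lit 3) (nat_lit 4) (nat_lit 4) (nat_lit 5) (nat_lit 4) (nat_lit 4) (nat_lit 250) (nat_lit 222) (nat_lit 128))) (XT.nd (nat_lit 78) (nat_lit 0) (nat_lit 0) (XT.lf (nat_lit 0) (nat_lit 1509475992201) (nat_lit 76) (nat_lit 324587972980) (nat_lit 76) (nat_lit 101349247613) (nat_lit 3) (nat_lit 4) (nat_lit 4) (nat_lit 5) (nat_lit 4) (nat_lit 4) (nat_lit 251) (nat_lit 222) (nat_lit 127)) (XT.lf (nat_lit 0) (nat_lit 1895234650907) (nat_lit 76) (nat_lit 269841603450) (nat_lit 76) (nat_lit 46602828209) (nat_lit 3) (nat_lit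 4) (nat_lit 4) (nat_lit 5) (nat_lit 4) (nat_lit 4) (nat_lit 252) (nat_lit 222) (nat_lit 126))))))))
noncomputable def xc49 : XT := (XT.nd (nat_lit 29796) (nat_lit 0) (nat_lit 0) (XT.nd (nat_lit 1170) (nat_lit 0) (nat_lit 0) (XT.nd (nat_lit 546) (nat_lit 0) (nat_lit 0) (XT.nd (nat_lit 234) (nat_lit 0) (nat_lit 0) (XT.nd (nat_lit 78) (nat_lit 76) (nat_lit 0) (XT.lf (nat_lit 0) (nat_lit 14899430222) (nat_lit 152) (nat_lit 191205043629) (nat_lit 76) (nat_lit 2323178777792) (nat_lit 2) (nat_lit 5) (nat_lit 4) (nat_lit 5) (nat_lit 3) (nat_lit 4) (nat_lit 253) (nat_lit 222) (nat_lit 125)) (XT.nd (nat_lit 78) (nat_lit 76) (nat_lit 0) (XT.lf (nat_lit 0) (nat_lit 80855751261) (nat_lit 152) (nat_lit 49398991108) (nat_lit 76) (nat_lit 2763940431707) (nat_lit 2) (nat_lit 5) (nat_lit 4) (nat_lit 5) (nat_lit 3) (nat_lit 4) (nat_lit 254) (nat_lit 222) (nat_lit 124)) (XT.lf (nat_lit 0) (nat_lit 124787348574)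 (nat_lit 76) (nat_lit 37085320117) (nat_lit 152) (nat_lit 3151196144121) (nat_lit 1) (nat_lit 5) (nat_lit 2) (nat_lit 5) (nat_lit 3) (nat_lit 4) (nat_lit 255) (nat_lit 222) (nat_lit 123)))) (XT.nd (nat_lit 156) (nat_lit 0) (nat_lit 0) (XT.nd (nat_lit 78) (nat_lit 0) (nat_lit 0) (XT.lf (nat_lit 0) (nat_lit 260648292776) (nat_lit 152) (nat_lit 3466756784540) (nat_lit 0) (nat_lit 66527494839) (nat_lit 1) (nat_lit 5) (nat_lit 3) (nat_lit 4) (nat_lit 1) (nat_lit 4) (nat_lit 256) (nat_lit 222) (nat_lit 122)) (XT.lf (nat_lit 0) (nat_lit 376006202934) (nat_lit 152) (nat_lit 3788769417795) (nat_lit 0) (nat_lit 181885383434) (nat_lit 1) (nat_lit 5) (nat_lit 3) (nat_lit 4) (nat_lit 1) (nat_lit 4) (nat_lit 257) (nat_lit 222) (nat_lit 121))) (XT.nd (nat_lit 78) (nat_lit 0) (nat_lit 0) (XT.lf (nat_lit 0) (nat_lit 508667777732) (nat_lit 152) (nat_lit 4159083987155) (nat_lit 0) (nat_lit 314546939483)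 (nat_lit 1) (nat_lit 5) (nat_lit 3) (nat_lit 4) (nat_lit 1) (nat_lit 4) (nat_lit 258) (nat_lit 222) (nat_lit 120)) (XT.lf (nat_lit 0) (nat_lit 661228569721) (nat_lit 152) (nat_lit 4584945777672) (nat_lit 0) (nat_lit 467107715168) (nat_lit 1) (nat_lit 5) (nat_lit 3) (nat_lit 4) (nat_lit 1) (nat_lit 4) (nat_lit 259) (nat_lit 222) (nat_lit 119))))) (XT.nd (nat_lit 312) (nat_lit 0) (nat_lit 0) (XT.nd (nat_lit 156) (nat_lit 0) (nat_lit 0) (XT.nd (nat_lit 78) (nat_lit 0) (nat_lit 0) (XT.lf (nat_lit 0) (nat_lit 836673463962) (nat_lit 152) (nat_lit 5074686867857) (nat_lit 0) (nat_lit 642552595232) (nat_lit 1) (nat_lit 5) (nat_lit 3) (nat_lit 4) (nat_lit 1) (nat_lit 4) (nat_lit 260) (nat_lit 222) (nat_lit 118)) (XT.lf (nat_lit 0) (nat_lit 1038435077951) (nat_lit 152) (nat_lit 5637889148605) (nat_lit 0) (nat_lit 844314196893) (nat_lit 1) (nat_lit 5) (nat_lit 3) (nat_lit 4) (nat_lit 1) (nat_lit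 4) (nat_lit 261) (nat_lit 222) (nat_lit 117))) (XT.nd (nat_lit 78) (nat_lit 0) (nat_lit 0) (XT.lf (nat_lit 0) (nat_lit 1270460921526) (nat_lit 152) (nat_lit 6285571794973) (nat_lit 0) (nat_lit 1076340029749) (nat_lit 1) (nat_lit 5) (nat_lit 3) (nat_lit 4) (nat_lit 1) (nat_lit 4) (nat_lit 262) (nat_lit 222) (nat_lit 116)) (XT.lf (nat_lit 0) (nat_lit 1537290630758) (nat_lit 152) (nat_lit 7030406858739) (nat_lit 0) (nat_lit 1343169729659) (nat_lit 1) (nat_lit 5) (nat_lit 3) (nat_lit 4) (nat_lit 1) (nat_lit 4) (nat_lit 263) (nat_lit 222) (nat_lit 115)))) (XT.nd (nat_lit 156) (nat_lit 0) (nat_lit 0) (XT.nd (nat_lit 78) (nat_lit 0) (nat_lit 0) (XT.lf (nat_lit 0) (nat_lit 1844144786915) (nat_lit 152) (nat_lit 7886967199845) (nat_lit 0) (nat_lit 1650023877710) (nat_lit 1) (nat_lit 5) (nat_lit 3) (nat_lit 4) (nat_lit 1) (nat_lit 4) (nat_lit 264) (nat_lit 222) (nat_lit 114)) (XT.lf (nat_lit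 0) (nat_lit 2197027058269) (nat_lit 152) (nat_lit 8872011607575) (nat_lit 0) (nat_lit 2002906142015) (nat_lit 1) (nat_lit 5) (nat_lit 3) (nat_lit 4) (nat_lit 1) (nat_lit 4) (nat_lit 265) (nat_lit 222) (nat_lit 113))) (XT.nd (nat_lit 78) (nat_lit 0) (nat_lit 0) (XT.lf (nat_lit 0) (nat_lit 2602841663172) (nat_lit 152) (nat_lit 10004812689905) (nat_lit 0) (nat_lit 2408720740789) (nat_lit 1) (nat_lit 5) (nat_lit 3) (nat_lit 4) (nat_lit 1) (nat_lit 4) (nat_lit 266) (nat_lit 222) (nat_lit 112)) (XT.lf (nat_lit 0) (nat_lit 3069528452590) (nat_lit 152) (nat_lit 11307533946272) (nat_lit 0) (nat_lit 2875407524878) (nat_lit 1) (nat_lit 5) (nat_lit 3) (nat_lit 4) (nat_lit 1) (nat_lit 4) (nat_lit 267) (nat_lit 222) (nat_lit 111)))))) (XT.nd (nat_lit 28002) (nat_lit 0) (nat_lit 532) (XT.nd (nat_lit 234) (nat_lit 0) (nat_lit 0) (XT.nd (nat_lit 78) (nat_lit 0) (nat_lit 0) (XT.lf (nat_lit 0) (nat_lit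 3606218255012) (nat_lit 152) (nat_lit 12805663401258) (nat_lit 0) (nat_lit 3412097322665) (nat_lit 1) (nat_lit 5) (nat_lit 3) (nat_lit 4) (nat_lit 1) (nat_lit 4) (nat_lit 268) (nat_lit 222) (nat_lit 110)) (XT.nd (nat_lit 78) (nat_lit 0) (nat_lit 0) (XT.lf (nat_lit 0) (nat_lit 4223411523093) (nat_lit 152) (nat_lit 14528512283329) (nat_lit 0) (nat_lit 4029290586716) (nat_lit 1) (nat_lit 5) (nat_lit 3) (nat_lit 4) (nat_lit 1) (nat_lit 4) (nat_lit 269) (nat_lit 222) (nat_lit 109)) (XT.lf (nat_lit 0) (nat_lit 4933183777297) (nat_lit 152) (nat_lit 16509788505396) (nat_lit 0) (nat_lit 4739062837416) (nat_lit 1) (nat_lit 5) (nat_lit 3) (nat_lit 4) (nat_lit 1) (nat_lit 4) (nat_lit 270) (nat_lit 222) (nat_lit 108)))) (XT.nd (nat_lit 27612) (nat_lit 0) (nat_lit 1064) (XT.nd (nat_lit 27534) (nat_lit 0) (nat_lit 1064) (XT.lf (nat_lit 0) (nat_lit 5749421866074) (nat_lit 152) (nat_lit 18788256167456)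 (nat_lit 0) (nat_lit 5555300923146) (nat_lit 1) (nat_lit 5) (nat_lit 3) (nat_lit 4) (nat_lit 1) (nat_lit 4) (nat_lit 271) (nat_lit 222) (nat_lit 107)) (XT.lf (nat_lit 0) (nat_lit 20512430245) (nat_lit 0) (nat_lit 20512430245) (nat_lit 228) (nat_lit 10216461137) (nat_lit 15) (nat_lit 5) (nat_lit 15) (nat_lit 3) (nat_lit 18) (nat_lit 3) (nat_lit 223) (nat_lit 223) (nat_lit 154))) (XT.nd (nat_lit 78) (nat_lit 0) (nat_lit 0) (XT.lf (nat_lit 0) (nat_lit 88226353478) (nat_lit 228) (nat_lit 21545144865) (nat_lit 304) (nat_lit 393821497) (nat_lit 15) (nat_lit 5) (nat_lit 18) (nat_lit 3) (nat_lit 19) (nat_lit 5) (nat_lit 224) (nat_lit 223) (nat_lit 153)) (XT.lf (nat_lit 76) (nat_lit 24589322745) (nat_lit 0) (nat_lit 73711042045) (nat_lit 304) (nat_lit 20254415872) (nat_lit 16) (nat_lit 5) (nat_lit 15) (nat_lit 5) (nat_lit 19) (nat_lit 5) (nat_lit 225) (nat_lit 223) (nat_lit 152))))) (XT.nd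 (nat_lit 312) (nat_lit 304) (nat_lit 0) (XT.nd (nat_lit 156) (nat_lit 76) (nat_lit 0) (XT.nd (nat_lit 78) (nat_lit 152) (nat_lit 0) (XT.lf (nat_lit 76) (nat_lit 80064756097) (nat_lit 0) (nat_lit 30946162474) (nat_lit 304) (nat_lit 17022939257) (nat_lit 16) (nat_lit 5) (nat_lit 15) (nat_lit 5) (nat_lit 19) (nat_lit 5) (nat_lit 226) (nat_lit 223) (nat_lit 151)) (XT.lf (nat_lit 0) (nat_lit 4578697548) (nat_lit 228) (nat_lit 121993286721) (nat_lit 304) (nat_lit 12221234571) (nat_lit 13) (nat_lit 5) (nat_lit 16) (nat_lit 5) (nat_lit 17) (nat_lit 5) (nat_lit 227) (nat_lit 223) (nat_lit 150))) (XT.nd (nat_lit 78) (nat_lit 76) (nat_lit 0) (XT.lf (nat_lit 0) (nat_lit 68781498519) (nat_lit 228) (nat_lit 79599220299) (nat_lit 304) (nat_lit 2198748922) (nat_lit 13) (nat_lit 5) (nat_lit 16) (nat_lit 5) (nat_lit 17) (nat_lit 5) (nat_lit 228) (nat_lit 223) (nat_lit 149)) (XT.lf (nat_lit 0) (nat_lit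 8496181622) (nat_lit 304) (nat_lit 21905735251) (nat_lit 76) (nat_lit 133673896994) (nat_lit 12) (nat_lit 5) (nat_lit 16) (nat_lit 5) (nat_lit 13) (nat_lit 5) (nat_lit 229) (nat_lit 223) (nat_lit 148)))) (XT.nd (nat_lit 156) (nat_lit 152) (nat_lit 0) (XT.nd (nat_lit 78) (nat_lit 0) (nat_lit 0) (XT.lf (nat_lit 0) (nat_lit 23890258927) (nat_lit 228) (nat_lit 129006603532) (nat_lit 76) (nat_lit 26186048157) (nat_lit 10) (nat_lit 5) (nat_lit 13) (nat_lit 5) (nat_lit 11) (nat_lit 5) (nat_lit 230) (nat_lit 223) (nat_lit 147)) (XT.lf (nat_lit 0) (nat_lit 44240309627) (nat_lit 228) (nat_lit 62354543780) (nat_lit 76) (nat_lit 89349194967) (nat_lit 10) (nat_lit 5) (nat_lit 13) (nat_lit 5) (nat_lit 11) (nat_lit 5) (nat_lit 231) (nat_lit 223) (nat_lit 146))) (XT.nd (nat_lit 78) (nat_lit 0) (nat_lit 0) (XT.lf (nat_lit 0) (nat_lit 15691836476) (nat_lit 152) (nat_lit 52600407102) (nat_lit 228) (nat_lit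 146944711885) (nat_lit 8) (nat_lit 5) (nat_lit 10) (nat_lit 5) (nat_lit 11) (nat_lit 5) (nat_lit 232) (nat_lit 223) (nat_lit 145)) (XT.lf (nat_lit 0) (nat_lit 99759352190) (nat_lit 228) (nat_lit 125030729062) (nat_lit 76) (nat_lit 12062614039) (nat_lit 8) (nat_lit 5) (nat_lit 11) (nat_lit 5) (nat_lit 9) (nat_lit 4) (nat_lit 233) (nat_lit 223) (nat_lit 144))))))) (XT.nd (nat_lit 1170) (nat_lit 152) (nat_lit 0) (XT.nd (nat_lit 546) (nat_lit 152) (nat_lit 0) (XT.nd (nat_lit 234) (nat_lit 152) (nat_lit 0) (XT.nd (nat_lit 78) (nat_lit 76) (nat_lit 0) (XT.lf (nat_lit 0) (nat_lit 138450993216) (nat_lit 228) (nat_lit 41844410642) (nat_lit 76) (nat_lit 81039726107) (nat_lit 8) (nat_lit 5) (nat_lit 11) (nat_lit 5) (nat_lit 9) (nat_lit 4) (nat_lit 234) (nat_lit 223) (nat_lit 143)) (XT.nd (nat_lit 78) (nat_lit 0) (nat_lit 0) (XT.lf (nat_lit 0) (nat_lit 59079094932) (nat_lit 76) (nat_lit 126313350740)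 (nat_lit 152) (nat_lit 103730577674) (nat_lit 7) (nat_lit 5) (nat_lit 8) (nat_lit 5) (nat_lit 9) (nat_lit 4) (nat_lit 235) (nat_lit 223) (nat_lit 142)) (XT.lf (nat_lit 0) (nat_lit 179843495052) (nat_lit 76) (nat_lit 61718688676) (nat_lit 152) (nat_lit 79188859714) (nat_lit 7) (nat_lit 5) (nat_lit 8) (nat_lit 5) (nat_lit 9) (nat_lit 4) (nat_lit 236) (nat_lit 223) (nat_lit 141)))) (XT.nd (nat_lit 156) (nat_lit 76) (nat_lit 0) (XT.nd (nat_lit 78) (nat_lit 76) (nat_lit 0) (XT.lf (nat_lit 0) (nat_lit 306677454587) (nat_lit 152) (nat_lit 38921363545) (nat_lit 0) (nat_lit 11446440099) (nat_lit 7) (nat_lit 5) (nat_lit 9) (nat_lit 4) (nat_lit 7) (nat_lit 4) (nat_lit 237) (nat_lit 223) (nat_lit 140)) (XT.lf (nat_lit 0) (nat_lit 82794383559) (nat_lit 76) (nat_lit 305132760977) (nat_lit 76) (nat_lit 9901393599) (nat_lit 6) (nat_lit 4) (nat_lit 7) (nat_lit 5) (nat_lit 7) (nat_lit 4) (nat_lit 238)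 (nat_lit 223) (nat_lit 139))) (XT.nd (nat_lit 78) (nat_lit 0) (nat_lit 0) (XT.lf (nat_lit 0) (nat_lit 35504694212) (nat_lit 152) (nat_lit 218896581681) (nat_lit 76) (nat_lit 189780807026) (nat_lit 5) (nat_lit 5) (nat_lit 7) (nat_lit 5) (nat_lit 6) (nat_lit 4) (nat_lit 239) (nat_lit 223) (nat_lit 138)) (XT.lf (nat_lit 0) (nat_lit 86707813549) (nat_lit 152) (nat_lit 108810141940) (nat_lit 76) (nat_lit 301900006246) (nat_lit 5) (nat_lit 5) (nat_lit 7) (nat_lit 5) (nat_lit 6) (nat_lit 4) (nat_lit 240) (nat_lit 223) (nat_lit 137))))) (XT.nd (nat_lit 312) (nat_lit 76) (nat_lit 0) (XT.nd (nat_lit 156) (nat_lit 0) (nat_lit 0) (XT.nd (nat_lit 78) (nat_lit 0) (nat_lit 0) (XT.lf (nat_lit 0) (nat_lit 19527498298) (nat_lit 76) (nat_lit 126872348864) (nat_lit 152) (nat_lit 412118109496) (nat_lit 4) (nat_lit 5) (nat_lit 5) (nat_lit 5) (nat_lit 6) (nat_lit 4) (nat_lit 241) (nat_lit 223) (nat_lit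 136)) (XT.lf (nat_lit 0) (nat_lit 179344333193) (nat_lit 76) (nat_lit 41389019393) (nat_lit 152) (nat_lit 407196449296) (nat_lit 4) (nat_lit 5) (nat_lit 5) (nat_lit 5) (nat_lit 6) (nat_lit 4) (nat_lit 242) (nat_lit 223) (nat_lit 135))) (XT.nd (nat_lit 78) (nat_lit 0) (nat_lit 0) (XT.lf (nat_lit 0) (nat_lit 308573565882) (nat_lit 152) (nat_lit 346976747550) (nat_lit 0) (nat_lit 51849609085) (nat_lit 4) (nat_lit 5) (nat_lit 6) (nat_lit 4) (nat_lit 4) (nat_lit 4) (nat_lit 243) (nat_lit 223) (nat_lit 134)) (XT.lf (nat_lit 0) (nat_lit 411560611079) (nat_lit 152) (nat_lit 232097809382) (nat_lit 0) (nat_lit 154836521617) (nat_lit 4) (nat_lit 5) (nat_lit 6) (nat_lit 4) (nat_lit 4) (nat_lit 4) (nat_lit 244) (nat_lit 223) (nat_lit 133)))) (XT.nd (nat_lit 156) (nat_lit 0) (nat_lit 0) (XT.nd (nat_lit 78) (nat_lit 76) (nat_lit 0) (XT.lf (nat_lit 0) (nat_lit 529995621072) (nat_lit 152) (nat_lit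 99987191756) (nat_lit 0) (nat_lit 273271416250) (nat_lit 4) (nat_lit 5) (nat_lit 6) (nat_lit 4) (nat_lit 4) (nat_lit 4) (nat_lit 245) (nat_lit 223) (nat_lit 132)) (XT.lf (nat_lit 0) (nat_lit 57015820931) (nat_lit 76) (nat_lit 611540885206) (nat_lit 76) (nat_lit 354816580071) (nat_lit 3) (nat_lit 4) (nat_lit 4) (nat_lit 5) (nat_lit 4) (nat_lit 4) (nat_lit 246) (nat_lit 223) (nat_lit 131))) (XT.nd (nat_lit 78) (nat_lit 0) (nat_lit 0) (XT.lf (nat_lit 0) (nat_lit 248806348557) (nat_lit 76) (nat_lit 584322133517) (nat_lit 76) (nat_lit 327597741153) (nat_lit 3) (nat_lit 4) (nat_lit 4) (nat_lit 5) (nat_lit 4) (nat_lit 4) (nat_lit 247) (nat_lit 223) (nat_lit 130)) (XT.lf (nat_lit 0) (nat_lit 469365338927) (nat_lit 76) (nat_lit 553020620174) (nat_lit 76) (nat_lit 296296151958) (nat_lit 3) (nat_lit 4) (nat_lit 4) (nat_lit 5) (nat_lit 4) (nat_lit 4) (nat_lit 248) (nat_lit 223) (nat_lit 129))))))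 (XT.nd (nat_lit 546) (nat_lit 76) (nat_lit 0) (XT.nd (nat_lit 234) (nat_lit 76) (nat_lit 0) (XT.nd (nat_lit 78) (nat_lit 0) (nat_lit 0) (XT.lf (nat_lit 0) (nat_lit 723008076638) (nat_lit 76) (nat_lit 517023924262) (nat_lit 76) (nat_lit 260299390089) (nat_lit 3) (nat_lit 4) (nat_lit 4) (nat_lit 5) (nat_lit 4) (nat_lit 4) (nat_lit 249) (nat_lit 223) (nat_lit 128)) (XT.nd (nat_lit 78) (nat_lit 0) (nat_lit 0) (XT.lf (nat_lit 0) (nat_lit 1014697136991) (nat_lit 76) (nat_lit 475627762602) (nat_lit 76) (nat_lit 218903171075) (nat_lit 3) (nat_lit 4) (nat_lit 4) (nat_lit 5) (nat_lit 4) (nat_lit 4) (nat_lit 250) (nat_lit 223) (nat_lit 127)) (XT.lf (nat_lit 0) (nat_lit 1350139479863) (nat_lit 76) (nat_lit 428022210291) (nat_lit 76) (nat_lit 171297568890) (nat_lit 3) (nat_lit 4) (nat_lit 4) (nat_lit 5) (nat_lit 4) (nat_lit 4) (nat_lit 251) (nat_lit 223) (nat_lit 126)))) (XT.nd (nat_lit 156) (nat_lit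 76) (nat_lit 0) (XT.nd (nat_lit 78) (nat_lit 0) (nat_lit 0) (XT.lf (nat_lit 0) (nat_lit 1735898107616) (nat_lit 76) (nat_lit 373275854348) (nat_lit 76) (nat_lit 116551169580) (nat_lit 3) (nat_lit 4) (nat_lit 4) (nat_lit 5) (nat_lit 4) (nat_lit 4) (nat_lit 252) (nat_lit 223) (nat_lit 125)) (XT.lf (nat_lit 0) (nat_lit 2179520471660) (nat_lit 76) (nat_lit 310317570420) (nat_lit 76) (nat_lit 53592847940) (nat_lit 3) (nat_lit 4) (nat_lit 4) (nat_lit 5) (nat_lit 4) (nat_lit 4) (nat_lit 253) (nat_lit 223) (nat_lit 124))) (XT.nd (nat_lit 78) (nat_lit 0) (nat_lit 0) (XT.lf (nat_lit 0) (nat_lit 17134665181) (nat_lit 152) (nat_lit 219885225132) (nat_lit 76) (nat_lit 2671655799128) (nat_lit 2) (nat_lit 5) (nat_lit 4) (nat_lit 5) (nat_lit 3) (nat_lit 4) (nat_lit 254) (nat_lit 223) (nat_lit 123)) (XT.lf (nat_lit 0) (nat_lit 92984392581) (nat_lit 152) (nat_lit 56808339738) (nat_lit 76) (nat_lit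 3178531674434) (nat_lit 2) (nat_lit 5) (nat_lit 4) (nat_lit 5) (nat_lit 3) (nat_lit 4) (nat_lit 255) (nat_lit 223) (nat_lit 122))))) (XT.nd (nat_lit 312) (nat_lit 0) (nat_lit 0) (XT.nd (nat_lit 156) (nat_lit 0) (nat_lit 0) (XT.nd (nat_lit 78) (nat_lit 0) (nat_lit 0) (XT.lf (nat_lit 0) (nat_lit 143505928168) (nat_lit 76) (nat_lit 42647902879) (nat_lit 152) (nat_lit 3623875262954) (nat_lit 1) (nat_lit 5) (nat_lit 2) (nat_lit 5) (nat_lit 3) (nat_lit 4) (nat_lit 256) (nat_lit 223) (nat_lit 121)) (XT.lf (nat_lit 0) (nat_lit 299745772315) (nat_lit 152) (nat_lit 3986769859501) (nat_lit 0) (nat_lit 76506789579) (nat_lit 1) (nat_lit 5) (nat_lit 3) (nat_lit 4) (nat_lit 1) (nat_lit 4) (nat_lit 257) (nat_lit 223) (nat_lit 120))) (XT.nd (nat_lit 78) (nat_lit 0) (nat_lit 0) (XT.lf (nat_lit 0) (nat_lit 432407338262) (nat_lit 152) (nat_lit 4357084445490) (nat_lit 0) (nat_lit 209168339223) (nat_lit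 1) (nat_lit 5) (nat_lit 3) (nat_lit 4) (nat_lit 1) (nat_lit 4) (nat_lit 258) (nat_lit 223) (nat_lit 119)) (XT.lf (nat_lit 0) (nat_lit 584968122555) (nat_lit 152) (nat_lit 4782946250468) (nat_lit 0) (nat_lit 361729109339) (nat_lit 1) (nat_lit 5) (nat_lit 3) (nat_lit 4) (nat_lit 1) (nat_lit 4) (nat_lit 259) (nat_lit 223) (nat_lit 118)))) (XT.nd (nat_lit 156) (nat_lit 0) (nat_lit 0) (XT.nd (nat_lit 78) (nat_lit 0) (nat_lit 0) (XT.lf (nat_lit 0) (nat_lit 760413010104) (nat_lit 152) (nat_lit 5272687353228) (nat_lit 0) (nat_lit 537173984560) (nat_lit 1) (nat_lit 5) (nat_lit 3) (nat_lit 4) (nat_lit 1) (nat_lit 4) (nat_lit 260) (nat_lit 223) (nat_lit 117)) (XT.lf (nat_lit 0) (nat_lit 962174618273) (nat_lit 152) (nat_lit 5835889644909) (nat_lit 0) (nat_lit 738935582010) (nat_lit 1) (nat_lit 5) (nat_lit 3) (nat_lit 4) (nat_lit 1) (nat_lit 4) (nat_lit 261) (nat_lit 223) (nat_lit 116))) (XT.nd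 (nat_lit 78) (nat_lit 0) (nat_lit 0) (XT.lf (nat_lit 0) (nat_lit 1194200456789) (nat_lit 152) (nat_lit 6483572300786) (nat_lit 0) (nat_lit 970961411203) (nat_lit 1) (nat_lit 5) (nat_lit 3) (nat_lit 4) (nat_lit 1) (nat_lit 4) (nat_lit 262) (nat_lit 223) (nat_lit 115)) (XT.lf (nat_lit 0) (nat_lit 1461030161621) (nat_lit 152) (nat_lit 7228407372819) (nat_lit 0) (nat_lit 1237791107929) (nat_lit 1) (nat_lit 5) (nat_lit 3) (nat_lit 4) (nat_lit 1) (nat_lit 4) (nat_lit 263) (nat_lit 223) (nat_lit 114))))))))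
noncomputable def xc50 : XT := (XT.nd (nat_lit 29874) (nat_lit 0) (nat_lit 0) (XT.nd (nat_lit 28704) (nat_lit 0) (nat_lit 228) (XT.nd (nat_lit 780) (nat_lit 0) (nat_lit 0) (XT.nd (nat_lit 234) (nat_lit 0) (nat_lit 0) (XT.nd (nat_lit 78) (nat_lit 0) (nat_lit 0) (XT.lf (nat_lit 0) (nat_lit 1767884313951) (nat_lit 152) (nat_lit 8084967721115) (nat_lit 0) (nat_lit 1544645253211) (nat_lit 1) (nat_lit 5) (nat_lit 3) (nat_lit 4) (nat_lit 1) (nat_lit 4) (nat_lit 264) (nat_lit 223) (nat_lit 113)) (XT.nd (nat_lit 78) (nat_lit 0) (nat_lit 0) (XT.lf (nat_lit 0) (nat_lit 2120766581978) (nat_lit 152) (nat_lit 9070012135096) (nat_lit 0) (nat_lit 1897527515108) (nat_lit 1) (nat_lit 5) (nat_lit 3) (nat_lit 4) (nat_lit 1) (nat_lit 4) (nat_lit 265) (nat_lit 223) (nat_lit 112)) (XT.lf (nat_lit 0) (nat_lit 2526581183987) (nat_lit 152) (nat_lit 10202813222862) (nat_lit 0) (nat_lit 2303342111789) (nat_lit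 1) (nat_lit 5) (nat_lit 3) (nat_lit 4) (nat_lit 1) (nat_lit 4) (nat_lit 266) (nat_lit 223) (nat_lit 111)))) (XT.nd (nat_lit 156) (nat_lit 0) (nat_lit 0) (XT.nd (nat_lit 78) (nat_lit 0) (nat_lit 0) (XT.lf (nat_lit 0) (nat_lit 2993267970890) (nat_lit 152) (nat_lit 11505534483957) (nat_lit 0) (nat_lit 2770028894056) (nat_lit 1) (nat_lit 5) (nat_lit 3) (nat_lit 4) (nat_lit 1) (nat_lit 4) (nat_lit 267) (nat_lit 223) (nat_lit 110)) (XT.lf (nat_lit 0) (nat_lit 3529957771124) (nat_lit 152) (nat_lit 13003663943053) (nat_lit 0) (nat_lit 3306718690260) (nat_lit 1) (nat_lit 5) (nat_lit 3) (nat_lit 4) (nat_lit 1) (nat_lit 4) (nat_lit 268) (nat_lit 223) (nat_lit 109))) (XT.nd (nat_lit 78) (nat_lit 0) (nat_lit 0) (XT.lf (nat_lit 0) (nat_lit 4147151037303) (nat_lit 152) (nat_lit 14726512828699) (nat_lit 0) (nat_lit 3923911952935) (nat_lit 1) (nat_lit 5) (nat_lit 3) (nat_lit 4) (nat_lit 1) (nat_lit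 4) (nat_lit 269) (nat_lit 223) (nat_lit 108)) (XT.lf (nat_lit 0) (nat_lit 4856923289852) (nat_lit 152) (nat_lit 16707789053874) (nat_lit 0) (nat_lit 4633684202437) (nat_lit 1) (nat_lit 5) (nat_lit 3) (nat_lit 4) (nat_lit 1) (nat_lit 4) (nat_lit 270) (nat_lit 223) (nat_lit 107))))) (XT.nd (nat_lit 27612) (nat_lit 0) (nat_lit 836) (XT.nd (nat_lit 27456) (nat_lit 0) (nat_lit 1064) (XT.nd (nat_lit 27378) (nat_lit 0) (nat_lit 1064) (XT.lf (nat_lit 0) (nat_lit 8932706132820) (nat_lit 152) (nat_lit 28085032560222) (nat_lit 0) (nat_lit 8709467036705) (nat_lit 1) (nat_lit 5) (nat_lit 3) (nat_lit 4) (nat_lit 1) (nat_lit 4) (nat_lit 274) (nat_lit 223) (nat_lit 103)) (XT.lf (nat_lit 0) (nat_lit 23591692435) (nat_lit 0) (nat_lit 23591692435) (nat_lit 228) (nat_lit 11743333128) (nat_lit 15) (nat_lit 5) (nat_lit 15) (nat_lit 3) (nat_lit 18) (nat_lit 3) (nat_lit 224) (nat_lit 224) (nat_lit 152)))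 (XT.nd (nat_lit 78) (nat_lit 0) (nat_lit 0) (XT.lf (nat_lit 0) (nat_lit 101468473500) (nat_lit 228) (nat_lit 24771179537) (nat_lit 304) (nat_lit 449096118) (nat_lit 15) (nat_lit 5) (nat_lit 18) (nat_lit 3) (nat_lit 19) (nat_lit 5) (nat_lit 225) (nat_lit 224) (nat_lit 151)) (XT.lf (nat_lit 76) (nat_lit 28283197440) (nat_lit 0) (nat_lit 84769550569) (nat_lit 304) (nat_lit 23284025597) (nat_lit 16) (nat_lit 5) (nat_lit 15) (nat_lit 5) (nat_lit 19) (nat_lit 5) (nat_lit 226) (nat_lit 224) (nat_lit 150)))) (XT.nd (nat_lit 156) (nat_lit 76) (nat_lit 0) (XT.nd (nat_lit 78) (nat_lit 152) (nat_lit 0) (XT.lf (nat_lit 76) (nat_lit 92079231497) (nat_lit 0) (nat_lit 35589697469) (nat_lit 304) (nat_lit 19568943054) (nat_lit 16) (nat_lit 5) (nat_lit 15) (nat_lit 5) (nat_lit 19) (nat_lit 5) (nat_lit 227) (nat_lit 224) (nat_lit 149)) (XT.lf (nat_lit 0) (nat_lit 5271127470) (nat_lit 228) (nat_lit 140292370776)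 (nat_lit 304) (nat_lit 14047751542) (nat_lit 13) (nat_lit 5) (nat_lit 16) (nat_lit 5) (nat_lit 17) (nat_lit 5) (nat_lit 228) (nat_lit 224) (nat_lit 148))) (XT.nd (nat_lit 78) (nat_lit 76) (nat_lit 0) (XT.lf (nat_lit 0) (nat_lit 79103614853) (nat_lit 228) (nat_lit 91539182515) (nat_lit 304) (nat_lit 2522762812) (nat_lit 13) (nat_lit 5) (nat_lit 16) (nat_lit 5) (nat_lit 17) (nat_lit 5) (nat_lit 229) (nat_lit 224) (nat_lit 147)) (XT.lf (nat_lit 0) (nat_lit 9775202108) (nat_lit 304) (nat_lit 25186831039) (nat_lit 76) (nat_lit 153724401725) (nat_lit 12) (nat_lit 5) (nat_lit 16) (nat_lit 5) (nat_lit 13) (nat_lit 5) (nat_lit 230) (nat_lit 224) (nat_lit 146)))))) (XT.nd (nat_lit 546) (nat_lit 228) (nat_lit 0) (XT.nd (nat_lit 234) (nat_lit 76) (nat_lit 0) (XT.nd (nat_lit 78) (nat_lit 152) (nat_lit 0) (XT.lf (nat_lit 0) (nat_lit 27477995345) (nat_lit 228) (nat_lit 148352379908) (nat_lit 76)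 (nat_lit 30114288330) (nat_lit 10) (nat_lit 5) (nat_lit 13) (nat_lit 5) (nat_lit 11) (nat_lit 5) (nat_lit 231) (nat_lit 224) (nat_lit 145)) (XT.nd (nat_lit 78) (nat_lit 152) (nat_lit 0) (XT.lf (nat_lit 0) (nat_lit 50880006140) (nat_lit 228) (nat_lit 71703191300) (nat_lit 76) (nat_lit 102751863733) (nat_lit 10) (nat_lit 5) (nat_lit 13) (nat_lit 5) (nat_lit 11) (nat_lit 5) (nat_lit 232) (nat_lit 224) (nat_lit 144)) (XT.lf (nat_lit 0) (nat_lit 18049939902) (nat_lit 152) (nat_lit 60489493397) (nat_lit 228) (nat_lit 168982521683) (nat_lit 8) (nat_lit 5) (nat_lit 10) (nat_lit 5) (nat_lit 11) (nat_lit 5) (nat_lit 233) (nat_lit 224) (nat_lit 143)))) (XT.nd (nat_lit 156) (nat_lit 76) (nat_lit 0) (XT.nd (nat_lit 78) (nat_lit 0) (nat_lit 0) (XT.lf (nat_lit 0) (nat_lit 114726205929) (nat_lit 228) (nat_lit 143781137211) (nat_lit 76) (nat_lit 13872778309) (nat_lit 8) (nat_lit 5) (nat_lit 11) (nat_lit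 5) (nat_lit 9) (nat_lit 4) (nat_lit 234) (nat_lit 224) (nat_lit 142)) (XT.lf (nat_lit 0) (nat_lit 159221208208) (nat_lit 228) (nat_lit 48117419012) (nat_lit 76) (nat_lit 93196356470) (nat_lit 8) (nat_lit 5) (nat_lit 11) (nat_lit 5) (nat_lit 9) (nat_lit 4) (nat_lit 235) (nat_lit 224) (nat_lit 141))) (XT.nd (nat_lit 78) (nat_lit 0) (nat_lit 0) (XT.lf (nat_lit 0) (nat_lit 67944446343) (nat_lit 76) (nat_lit 145259241889) (nat_lit 152) (nat_lit 119287405418) (nat_lit 7) (nat_lit 5) (nat_lit 8) (nat_lit 5) (nat_lit 9) (nat_lit 4) (nat_lit 236) (nat_lit 224) (nat_lit 140)) (XT.lf (nat_lit 0) (nat_lit 206823051632) (nat_lit 76) (nat_lit 70975525488) (nat_lit 152) (nat_lit 91064789621) (nat_lit 7) (nat_lit 5) (nat_lit 8) (nat_lit 5) (nat_lit 9) (nat_lit 4) (nat_lit 237) (nat_lit 224) (nat_lit 139))))) (XT.nd (nat_lit 312) (nat_lit 76) (nat_lit 0) (XT.nd (nat_lit 156) (nat_lit 76) (nat_lit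 0) (XT.nd (nat_lit 78) (nat_lit 76) (nat_lit 0) (XT.lf (nat_lit 0) (nat_lit 352680903952) (nat_lit 152) (nat_lit 44756676321) (nat_lit 0) (nat_lit 13164171719) (nat_lit 7) (nat_lit 5) (nat_lit 9) (nat_lit 4) (nat_lit 7) (nat_lit 4) (nat_lit 238) (nat_lit 224) (nat_lit 138)) (XT.lf (nat_lit 0) (nat_lit 95216301405) (nat_lit 76) (nat_lit 350901621438) (nat_lit 76) (nat_lit 11384622370) (nat_lit 6) (nat_lit 4) (nat_lit 7) (nat_lit 5) (nat_lit 7) (nat_lit 4) (nat_lit 239) (nat_lit 224) (nat_lit 137))) (XT.nd (nat_lit 78) (nat_lit 0) (nat_lit 0) (XT.lf (nat_lit 0) (nat_lit 40831967015) (nat_lit 152) (nat_lit 251728502015) (nat_lit 76) (nat_lit 218248677681) (nat_lit 5) (nat_lit 5) (nat_lit 7) (nat_lit 5) (nat_lit 6) (nat_lit 4) (nat_lit 240) (nat_lit 224) (nat_lit 136)) (XT.lf (nat_lit 0) (nat_lit 99715349644) (nat_lit 152) (nat_lit 125129431128) (nat_lit 76) (nat_lit 347185659010) (nat_lit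 5) (nat_lit 5) (nat_lit 7) (nat_lit 5) (nat_lit 6) (nat_lit 4) (nat_lit 241) (nat_lit 224) (nat_lit 135)))) (XT.nd (nat_lit 156) (nat_lit 0) (nat_lit 0) (XT.nd (nat_lit 78) (nat_lit 0) (nat_lit 0) (XT.lf (nat_lit 0) (nat_lit 22458753687) (nat_lit 76) (nat_lit 145902344917) (nat_lit 152) (nat_lit 473934350307) (nat_lit 4) (nat_lit 5) (nat_lit 5) (nat_lit 5) (nat_lit 6) (nat_lit 4) (nat_lit 242) (nat_lit 224) (nat_lit 134)) (XT.lf (nat_lit 0) (nat_lit 206247835905) (nat_lit 76) (nat_lit 47596627714) (nat_lit 152) (nat_lit 468274633549) (nat_lit 4) (nat_lit 5) (nat_lit 5) (nat_lit 5) (nat_lit 6) (nat_lit 4) (nat_lit 243) (nat_lit 224) (nat_lit 133))) (XT.nd (nat_lit 78) (nat_lit 0) (nat_lit 0) (XT.lf (nat_lit 0) (nat_lit 354860591179) (nat_lit 152) (nat_lit 399021523250) (nat_lit 0) (nat_lit 59627640274) (nat_lit 4) (nat_lit 5) (nat_lit 6) (nat_lit 4) (nat_lit 4) (nat_lit 4) (nat_lit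 244) (nat_lit 224) (nat_lit 132)) (XT.lf (nat_lit 0) (nat_lit 473295563970) (nat_lit 152) (nat_lit 266910970848) (nat_lit 0) (nat_lit 178062512752) (nat_lit 4) (nat_lit 5) (nat_lit 6) (nat_lit 4) (nat_lit 4) (nat_lit 4) (nat_lit 245) (nat_lit 224) (nat_lit 131))))))) (XT.nd (nat_lit 1170) (nat_lit 0) (nat_lit 0) (XT.nd (nat_lit 546) (nat_lit 152) (nat_lit 0) (XT.nd (nat_lit 234) (nat_lit 0) (nat_lit 0) (XT.nd (nat_lit 78) (nat_lit 76) (nat_lit 0) (XT.lf (nat_lit 0) (nat_lit 609495713128) (nat_lit 152) (nat_lit 114983957526) (nat_lit 0) (nat_lit 314262574681) (nat_lit 4) (nat_lit 5) (nat_lit 6) (nat_lit 4) (nat_lit 4) (nat_lit 4) (nat_lit 246) (nat_lit 224) (nat_lit 130)) (XT.nd (nat_lit 78) (nat_lit 0) (nat_lit 0) (XT.lf (nat_lit 0) (nat_lit 65569447383) (nat_lit 76) (nat_lit 703271467786) (nat_lit 76) (nat_lit 408038253487) (nat_lit 3) (nat_lit 4) (nat_lit 4) (nat_lit 5) (nat_lit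 4) (nat_lit 4) (nat_lit 247) (nat_lit 224) (nat_lit 129)) (XT.lf (nat_lit 0) (nat_lit 286128390676) (nat_lit 76) (nat_lit 671969975109) (nat_lit 76) (nat_lit 376736694853) (nat_lit 3) (nat_lit 4) (nat_lit 4) (nat_lit 5) (nat_lit 4) (nat_lit 4) (nat_lit 248) (nat_lit 224) (nat_lit 128)))) (XT.nd (nat_lit 156) (nat_lit 0) (nat_lit 0) (XT.nd (nat_lit 78) (nat_lit 0) (nat_lit 0) (XT.lf (nat_lit 0) (nat_lit 539771087450) (nat_lit 76) (nat_lit 635973297169) (nat_lit 76) (nat_lit 340739959558) (nat_lit 3) (nat_lit 4) (nat_lit 4) (nat_lit 5) (nat_lit 4) (nat_lit 4) (nat_lit 249) (nat_lit 224) (nat_lit 127)) (XT.lf (nat_lit 0) (nat_lit 831460112206) (nat_lit 76) (nat_lit 594577151135) (nat_lit 76) (nat_lit 299343763651) (nat_lit 3) (nat_lit 4) (nat_lit 4) (nat_lit 5) (nat_lit 4) (nat_lit 4) (nat_lit 250) (nat_lit 224) (nat_lit 126))) (XT.nd (nat_lit 78) (nat_lit 0) (nat_lit 0) (XT.lf (nat_lit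 0) (nat_lit 1166902424125) (nat_lit 76) (nat_lit 546971612413) (nat_lit 76) (nat_lit 251738181561) (nat_lit 3) (nat_lit 4) (nat_lit 4) (nat_lit 5) (nat_lit 4) (nat_lit 4) (nat_lit 251) (nat_lit 224) (nat_lit 125)) (XT.lf (nat_lit 0) (nat_lit 1552661024960) (nat_lit 76) (nat_lit 492225268287) (nat_lit 76) (nat_lit 196991799723) (nat_lit 3) (nat_lit 4) (nat_lit 4) (nat_lit 5) (nat_lit 4) (nat_lit 4) (nat_lit 252) (nat_lit 224) (nat_lit 124))))) (XT.nd (nat_lit 312) (nat_lit 76) (nat_lit 0) (XT.nd (nat_lit 156) (nat_lit 76) (nat_lit 0) (XT.nd (nat_lit 78) (nat_lit 0) (nat_lit 0) (XT.lf (nat_lit 0) (nat_lit 1996283365599) (nat_lit 76) (nat_lit 429266994634) (nat_lit 76) (nat_lit 134033493278) (nat_lit 3) (nat_lit 4) (nat_lit 4) (nat_lit 5) (nat_lit 4) (nat_lit 4) (nat_lit 253) (nat_lit 224) (nat_lit 123)) (XT.lf (nat_lit 0) (nat_lit 2506449013576) (nat_lit 76) (nat_lit 356864999142) (nat_lit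 76) (nat_lit 61631469271) (nat_lit 3) (nat_lit 4) (nat_lit 4) (nat_lit 5) (nat_lit 4) (nat_lit 4) (nat_lit 254) (nat_lit 224) (nat_lit 122))) (XT.nd (nat_lit 78) (nat_lit 0) (nat_lit 0) (XT.lf (nat_lit 0) (nat_lit 19705107245) (nat_lit 152) (nat_lit 252867574088) (nat_lit 76) (nat_lit 3072404323755) (nat_lit 2) (nat_lit 5) (nat_lit 4) (nat_lit 5) (nat_lit 3) (nat_lit 4) (nat_lit 255) (nat_lit 224) (nat_lit 121)) (XT.lf (nat_lit 0) (nat_lit 106932262152) (nat_lit 152) (nat_lit 65329212600) (nat_lit 76) (nat_lit 3655311560171) (nat_lit 2) (nat_lit 5) (nat_lit 4) (nat_lit 5) (nat_lit 3) (nat_lit 4) (nat_lit 256) (nat_lit 224) (nat_lit 120)))) (XT.nd (nat_lit 156) (nat_lit 0) (nat_lit 0) (XT.nd (nat_lit 78) (nat_lit 0) (nat_lit 0) (XT.lf (nat_lit 0) (nat_lit 165032178306) (nat_lit 76) (nat_lit 49044925547) (nat_lit 152) (nat_lit 4167456323448) (nat_lit 1) (nat_lit 5) (nat_lit 2) (nat_lit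 5) (nat_lit 3) (nat_lit 4) (nat_lit 257) (nat_lit 224) (nat_lit 119)) (XT.lf (nat_lit 0) (nat_lit 344707816326) (nat_lit 152) (nat_lit 4584785003666) (nat_lit 0) (nat_lit 87982936950) (nat_lit 1) (nat_lit 5) (nat_lit 3) (nat_lit 4) (nat_lit 1) (nat_lit 4) (nat_lit 258) (nat_lit 224) (nat_lit 118))) (XT.nd (nat_lit 78) (nat_lit 0) (nat_lit 0) (XT.lf (nat_lit 0) (nat_lit 497268593927) (nat_lit 152) (nat_lit 5010646821218) (nat_lit 0) (nat_lit 240543702223) (nat_lit 1) (nat_lit 5) (nat_lit 3) (nat_lit 4) (nat_lit 1) (nat_lit 4) (nat_lit 259) (nat_lit 224) (nat_lit 117)) (XT.lf (nat_lit 0) (nat_lit 672713475656) (nat_lit 152) (nat_lit 5500387934912) (nat_lit 0) (nat_lit 415988573233) (nat_lit 1) (nat_lit 5) (nat_lit 3) (nat_lit 4) (nat_lit 1) (nat_lit 4) (nat_lit 260) (nat_lit 224) (nat_lit 116)))))) (XT.nd (nat_lit 546) (nat_lit 0) (nat_lit 0) (XT.nd (nat_lit 234) (nat_lit 0) (nat_lit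 0) (XT.nd (nat_lit 78) (nat_lit 0) (nat_lit 0) (XT.lf (nat_lit 0) (nat_lit 874475078765) (nat_lit 152) (nat_lit 6063590236102) (nat_lit 0) (nat_lit 617750167020) (nat_lit 1) (nat_lit 5) (nat_lit 3) (nat_lit 4) (nat_lit 1) (nat_lit 4) (nat_lit 261) (nat_lit 224) (nat_lit 115)) (XT.nd (nat_lit 78) (nat_lit 0) (nat_lit 0) (XT.lf (nat_lit 0) (nat_lit 1106500912880) (nat_lit 152) (nat_lit 6711272900246) (nat_lit 0) (nat_lit 849775993029) (nat_lit 1) (nat_lit 5) (nat_lit 3) (nat_lit 4) (nat_lit 1) (nat_lit 4) (nat_lit 262) (nat_lit 224) (nat_lit 114)) (XT.lf (nat_lit 0) (nat_lit 1373330613886) (nat_lit 152) (nat_lit 7456107979469) (nat_lit 0) (nat_lit 1116605686987) (nat_lit 1) (nat_lit 5) (nat_lit 3) (nat_lit 4) (nat_lit 1) (nat_lit 4) (nat_lit 263) (nat_lit 224) (nat_lit 113)))) (XT.nd (nat_lit 156) (nat_lit 0) (nat_lit 0) (XT.nd (nat_lit 78) (nat_lit 0) (nat_lit 0) (XT.lf (nat_lit 0)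 (nat_lit 1680184762889) (nat_lit 152) (nat_lit 8312668334016) (nat_lit 0) (nat_lit 1423459829861) (nat_lit 1) (nat_lit 5) (nat_lit 3) (nat_lit 4) (nat_lit 1) (nat_lit 4) (nat_lit 264) (nat_lit 224) (nat_lit 112)) (XT.lf (nat_lit 0) (nat_lit 2033067028022) (nat_lit 152) (nat_lit 9297712753434) (nat_lit 0) (nat_lit 1776342089664) (nat_lit 1) (nat_lit 5) (nat_lit 3) (nat_lit 4) (nat_lit 1) (nat_lit 4) (nat_lit 265) (nat_lit 224) (nat_lit 111))) (XT.nd (nat_lit 78) (nat_lit 0) (nat_lit 0) (XT.lf (nat_lit 0) (nat_lit 2438881627516) (nat_lit 152) (nat_lit 10430513845927) (nat_lit 0) (nat_lit 2182156684523) (nat_lit 1) (nat_lit 5) (nat_lit 3) (nat_lit 4) (nat_lit 1) (nat_lit 4) (nat_lit 266) (nat_lit 224) (nat_lit 110)) (XT.lf (nat_lit 0) (nat_lit 2905568412231) (nat_lit 152) (nat_lit 11733235111132) (nat_lit 0) (nat_lit 2648843465208) (nat_lit 1) (nat_lit 5) (nat_lit 3) (nat_lit 4) (nat_lit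 1) (nat_lit 4) (nat_lit 267) (nat_lit 224) (nat_lit 109))))) (XT.nd (nat_lit 390) (nat_lit 0) (nat_lit 0) (XT.nd (nat_lit 234) (nat_lit 0) (nat_lit 0) (XT.nd (nat_lit 78) (nat_lit 0) (nat_lit 0) (XT.lf (nat_lit 0) (nat_lit 3442258210563) (nat_lit 152) (nat_lit 13231364573803) (nat_lit 0) (nat_lit 3185533260035) (nat_lit 1) (nat_lit 5) (nat_lit 3) (nat_lit 4) (nat_lit 1) (nat_lit 4) (nat_lit 268) (nat_lit 224) (nat_lit 108)) (XT.lf (nat_lit 0) (nat_lit 4059451475088) (nat_lit 152) (nat_lit 14954213462557) (nat_lit 0) (nat_lit 3802726521513) (nat_lit 1) (nat_lit 5) (nat_lit 3) (nat_lit 4) (nat_lit 1) (nat_lit 4) (nat_lit 269) (nat_lit 224) (nat_lit 107))) (XT.nd (nat_lit 78) (nat_lit 0) (nat_lit 0) (XT.lf (nat_lit 0) (nat_lit 5585461812287) (nat_lit 152) (nat_lit 19213957357548) (nat_lit 0) (nat_lit 5328736853758) (nat_lit 1) (nat_lit 5) (nat_lit 3) (nat_lit 4) (nat_lit 1) (nat_lit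 4) (nat_lit 271) (nat_lit 224) (nat_lit 105)) (XT.lf (nat_lit 0) (nat_lit 6524135608950) (nat_lit 152) (nat_lit 21834195179121) (nat_lit 0) (nat_lit 6267410648418) (nat_lit 1) (nat_lit 5) (nat_lit 3) (nat_lit 4) (nat_lit 1) (nat_lit 4) (nat_lit 272) (nat_lit 224) (nat_lit 104)))) (XT.nd (nat_lit 156) (nat_lit 0) (nat_lit 0) (XT.nd (nat_lit 78) (nat_lit 0) (nat_lit 0) (XT.lf (nat_lit 0) (nat_lit 7603610473079) (nat_lit 152) (nat_lit 24847468677752) (nat_lit 0) (nat_lit 7346885510805) (nat_lit 1) (nat_lit 5) (nat_lit 3) (nat_lit 4) (nat_lit 1) (nat_lit 4) (nat_lit 273) (nat_lit 224) (nat_lit 103)) (XT.lf (nat_lit 0) (nat_lit 8845006565059) (nat_lit 152) (nat_lit 28312733204499) (nat_lit 0) (nat_lit 8588281601270) (nat_lit 1) (nat_lit 5) (nat_lit 3) (nat_lit 4) (nat_lit 1) (nat_lit 4) (nat_lit 274) (nat_lit 224) (nat_lit 102))) (XT.nd (nat_lit 78) (nat_lit 0) (nat_lit 0) (XT.lf (nat_lit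 0) (nat_lit 10272612069299) (nat_lit 152) (nat_lit 32297787413148) (nat_lit 0) (nat_lit 10015887104192) (nat_lit 1) (nat_lit 5) (nat_lit 3) (nat_lit 4) (nat_lit 1) (nat_lit 4) (nat_lit 275) (nat_lit 224) (nat_lit 101)) (XT.lf (nat_lit 0) (nat_lit 11914358397837) (nat_lit 152) (nat_lit 36880599755606) (nat_lit 0) (nat_lit 11657633431585) (nat_lit 1) (nat_lit 5) (nat_lit 3) (nat_lit 4) (nat_lit 1) (nat_lit 4) (nat_lit 276) (nat_lit 224) (nat_lit 100))))))))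
noncomputable def xc51 : XT := (XT.nd (nat_lit 2340) (nat_lit 152) (nat_lit 0) (XT.nd (nat_lit 1170) (nat_lit 304) (nat_lit 0) (XT.nd (nat_lit 546) (nat_lit 380) (nat_lit 0) (XT.nd (nat_lit 234) (nat_lit 228) (nat_lit 0) (XT.nd (nat_lit 78) (nat_lit 0) (nat_lit 0) (XT.lf (nat_lit 0) (nat_lit 27132259270) (nat_lit 0) (nat_lit 27132259270) (nat_lit 228) (nat_lit 13500600825) (nat_lit 15) (nat_lit 5) (nat_lit 15) (nat_lit 3) (nat_lit 18) (nat_lit 3) (nat_lit 225) (nat_lit 225) (nat_lit 150)) (XT.nd (nat_lit 78) (nat_lit 0) (nat_lit 0) (XT.lf (nat_lit 0) (nat_lit 116694919950) (nat_lit 228) (nat_lit 28482518427) (nat_lit 304) (nat_lit 513588245) (nat_lit 15) (nat_lit 5) (nat_lit 18) (nat_lit 3) (nat_lit 19) (nat_lit 5) (nat_lit 226) (nat_lit 225) (nat_lit 149)) (XT.lf (nat_lit 76) (nat_lit 32529817912) (nat_lit 0) (nat_lit 97486383696) (nat_lit 304) (nat_lit 26770162400) (nat_lit 16)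 (nat_lit 5) (nat_lit 15) (nat_lit 5) (nat_lit 19) (nat_lit 5) (nat_lit 227) (nat_lit 225) (nat_lit 148)))) (XT.nd (nat_lit 156) (nat_lit 76) (nat_lit 0) (XT.nd (nat_lit 78) (nat_lit 152) (nat_lit 0) (XT.lf (nat_lit 76) (nat_lit 105894716966) (nat_lit 0) (nat_lit 40929369952) (nat_lit 304) (nat_lit 22498661002) (nat_lit 16) (nat_lit 5) (nat_lit 15) (nat_lit 5) (nat_lit 19) (nat_lit 5) (nat_lit 228) (nat_lit 225) (nat_lit 147)) (XT.lf (nat_lit 0) (nat_lit 6066050117) (nat_lit 228) (nat_lit 161336295237) (nat_lit 304) (nat_lit 16149872145) (nat_lit 13) (nat_lit 5) (nat_lit 16) (nat_lit 5) (nat_lit 17) (nat_lit 5) (nat_lit 229) (nat_lit 225) (nat_lit 146))) (XT.nd (nat_lit 78) (nat_lit 76) (nat_lit 0) (XT.lf (nat_lit 0) (nat_lit 90972855800) (nat_lit 228) (nat_lit 105270119757) (nat_lit 304) (nat_lit 2896792775) (nat_lit 13) (nat_lit 5) (nat_lit 16) (nat_lit 5) (nat_lit 17) (nat_lit 5)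 (nat_lit 230) (nat_lit 225) (nat_lit 145)) (XT.lf (nat_lit 0) (nat_lit 11244955576) (nat_lit 304) (nat_lit 28961253048) (nat_lit 76) (nat_lit 176782623559) (nat_lit 12) (nat_lit 5) (nat_lit 16) (nat_lit 5) (nat_lit 13) (nat_lit 5) (nat_lit 231) (nat_lit 225) (nat_lit 144))))) (XT.nd (nat_lit 312) (nat_lit 76) (nat_lit 0) (XT.nd (nat_lit 156) (nat_lit 152) (nat_lit 0) (XT.nd (nat_lit 78) (nat_lit 0) (nat_lit 0) (XT.lf (nat_lit 0) (nat_lit 31602868619) (nat_lit 228) (nat_lit 170601294244) (nat_lit 76) (nat_lit 34631683337) (nat_lit 10) (nat_lit 5) (nat_lit 13) (nat_lit 5) (nat_lit 11) (nat_lit 5) (nat_lit 232) (nat_lit 225) (nat_lit 143)) (XT.lf (nat_lit 0) (nat_lit 58514767037) (nat_lit 228) (nat_lit 82455241604) (nat_lit 76) (nat_lit 118164862212) (nat_lit 10) (nat_lit 5) (nat_lit 13) (nat_lit 5) (nat_lit 11) (nat_lit 5) (nat_lit 233) (nat_lit 225) (nat_lit 142))) (XT.nd (nat_lit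 78) (nat_lit 0) (nat_lit 0) (XT.lf (nat_lit 0) (nat_lit 20760703442) (nat_lit 152) (nat_lit 69562180340) (nat_lit 228) (nat_lit 194326953254) (nat_lit 8) (nat_lit 5) (nat_lit 10) (nat_lit 5) (nat_lit 11) (nat_lit 5) (nat_lit 234) (nat_lit 225) (nat_lit 141)) (XT.lf (nat_lit 0) (nat_lit 131937368131) (nat_lit 228) (nat_lit 165345131074) (nat_lit 76) (nat_lit 15954278923) (nat_lit 8) (nat_lit 5) (nat_lit 11) (nat_lit 5) (nat_lit 9) (nat_lit 4) (nat_lit 235) (nat_lit 225) (nat_lit 140)))) (XT.nd (nat_lit 156) (nat_lit 0) (nat_lit 0) (XT.nd (nat_lit 78) (nat_lit 76) (nat_lit 0) (XT.lf (nat_lit 0) (nat_lit 183106329710) (nat_lit 228) (nat_lit 55332269500) (nat_lit 76) (nat_lit 107176317652) (nat_lit 8) (nat_lit 5) (nat_lit 11) (nat_lit 5) (nat_lit 9) (nat_lit 4) (nat_lit 236) (nat_lit 225) (nat_lit 139)) (XT.lf (nat_lit 0) (nat_lit 78138750096) (nat_lit 76) (nat_lit 167047287747) (nat_lit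 152) (nat_lit 137178430101) (nat_lit 7) (nat_lit 5) (nat_lit 8) (nat_lit 5) (nat_lit 9) (nat_lit 4) (nat_lit 237) (nat_lit 225) (nat_lit 138))) (XT.nd (nat_lit 78) (nat_lit 0) (nat_lit 0) (XT.lf (nat_lit 0) (nat_lit 237848802249) (nat_lit 76) (nat_lit 81621123507) (nat_lit 152) (nat_lit 104722694038) (nat_lit 7) (nat_lit 5) (nat_lit 8) (nat_lit 5) (nat_lit 9) (nat_lit 4) (nat_lit 238) (nat_lit 225) (nat_lit 137)) (XT.lf (nat_lit 0) (nat_lit 405584424178) (nat_lit 152) (nat_lit 51467991187) (nat_lit 0) (nat_lit 15139376383) (nat_lit 7) (nat_lit 5) (nat_lit 9) (nat_lit 4) (nat_lit 7) (nat_lit 4) (nat_lit 239) (nat_lit 225) (nat_lit 136)))))) (XT.nd (nat_lit 546) (nat_lit 76) (nat_lit 0) (XT.nd (nat_lit 234) (nat_lit 76) (nat_lit 0) (XT.nd (nat_lit 78) (nat_lit 76) (nat_lit 0) (XT.lf (nat_lit 0) (nat_lit 109500833808) (nat_lit 76) (nat_lit 403536067917) (nat_lit 76) (nat_lit 13090818357)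 (nat_lit 6) (nat_lit 4) (nat_lit 7) (nat_lit 5) (nat_lit 7) (nat_lit 4) (nat_lit 240) (nat_lit 225) (nat_lit 135)) (XT.nd (nat_lit 78) (nat_lit 0) (nat_lit 0) (XT.lf (nat_lit 0) (nat_lit 46957948209) (nat_lit 152) (nat_lit 289485836358) (nat_lit 76) (nat_lit 250986546138) (nat_lit 5) (nat_lit 5) (nat_lit 7) (nat_lit 5) (nat_lit 6) (nat_lit 4) (nat_lit 241) (nat_lit 225) (nat_lit 134)) (XT.lf (nat_lit 0) (nat_lit 114673683518) (nat_lit 152) (nat_lit 143897158007) (nat_lit 76) (nat_lit 399264000736) (nat_lit 5) (nat_lit 5) (nat_lit 7) (nat_lit 5) (nat_lit 6) (nat_lit 4) (nat_lit 242) (nat_lit 225) (nat_lit 133)))) (XT.nd (nat_lit 156) (nat_lit 0) (nat_lit 0) (XT.nd (nat_lit 78) (nat_lit 0) (nat_lit 0) (XT.lf (nat_lit 0) (nat_lit 25829177813) (nat_lit 76) (nat_lit 167787049186) (nat_lit 152) (nat_lit 545023387079) (nat_lit 4) (nat_lit 5) (nat_lit 5) (nat_lit 5) (nat_lit 6) (nat_lit 4)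 (nat_lit 243) (nat_lit 225) (nat_lit 132)) (XT.lf (nat_lit 0) (nat_lit 237186412224) (nat_lit 76) (nat_lit 54735558855) (nat_lit 152) (nat_lit 538514858342) (nat_lit 4) (nat_lit 5) (nat_lit 5) (nat_lit 5) (nat_lit 6) (nat_lit 4) (nat_lit 244) (nat_lit 225) (nat_lit 131))) (XT.nd (nat_lit 78) (nat_lit 0) (nat_lit 0) (XT.lf (nat_lit 0) (nat_lit 408090428752) (nat_lit 152) (nat_lit 458873438744) (nat_lit 0) (nat_lit 68572232309) (nat_lit 4) (nat_lit 5) (nat_lit 6) (nat_lit 4) (nat_lit 4) (nat_lit 4) (nat_lit 245) (nat_lit 225) (nat_lit 130)) (XT.lf (nat_lit 0) (nat_lit 544290549780) (nat_lit 152) (nat_lit 306946474742) (nat_lit 0) (nat_lit 204772277485) (nat_lit 4) (nat_lit 5) (nat_lit 6) (nat_lit 4) (nat_lit 4) (nat_lit 4) (nat_lit 246) (nat_lit 225) (nat_lit 129))))) (XT.nd (nat_lit 312) (nat_lit 0) (nat_lit 0) (XT.nd (nat_lit 156) (nat_lit 0) (nat_lit 0) (XT.nd (nat_lit 78) (nat_lit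 76) (nat_lit 0) (XT.lf (nat_lit 0) (nat_lit 700920636370) (nat_lit 152) (nat_lit 132230558344) (nat_lit 0) (nat_lit 361402298118) (nat_lit 4) (nat_lit 5) (nat_lit 6) (nat_lit 4) (nat_lit 4) (nat_lit 4) (nat_lit 247) (nat_lit 225) (nat_lit 128)) (XT.lf (nat_lit 0) (nat_lit 75405812174) (nat_lit 76) (nat_lit 808761771923) (nat_lit 76) (nat_lit 469243376316) (nat_lit 3) (nat_lit 4) (nat_lit 4) (nat_lit 5) (nat_lit 4) (nat_lit 4) (nat_lit 248) (nat_lit 225) (nat_lit 127))) (XT.nd (nat_lit 78) (nat_lit 0) (nat_lit 0) (XT.lf (nat_lit 0) (nat_lit 329048473350) (nat_lit 76) (nat_lit 772765109609) (nat_lit 76) (nat_lit 433246664129) (nat_lit 3) (nat_lit 4) (nat_lit 4) (nat_lit 5) (nat_lit 4) (nat_lit 4) (nat_lit 249) (nat_lit 225) (nat_lit 126)) (XT.lf (nat_lit 0) (nat_lit 620737467153) (nat_lit 76) (nat_lit 731368977165) (nat_lit 76) (nat_lit 391850488317) (nat_lit 3) (nat_lit 4) (nat_lit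 4) (nat_lit 5) (nat_lit 4) (nat_lit 4) (nat_lit 250) (nat_lit 225) (nat_lit 125)))) (XT.nd (nat_lit 156) (nat_lit 0) (nat_lit 0) (XT.nd (nat_lit 78) (nat_lit 0) (nat_lit 0) (XT.lf (nat_lit 0) (nat_lit 956179752155) (nat_lit 76) (nat_lit 683763450259) (nat_lit 76) (nat_lit 344244923699) (nat_lit 3) (nat_lit 4) (nat_lit 4) (nat_lit 5) (nat_lit 4) (nat_lit 4) (nat_lit 251) (nat_lit 225) (nat_lit 124)) (XT.lf (nat_lit 0) (nat_lit 1341938329585) (nat_lit 76) (nat_lit 629017116408) (nat_lit 76) (nat_lit 289498557056) (nat_lit 3) (nat_lit 4) (nat_lit 4) (nat_lit 5) (nat_lit 4) (nat_lit 4) (nat_lit 252) (nat_lit 225) (nat_lit 123))) (XT.nd (nat_lit 78) (nat_lit 0) (nat_lit 0) (XT.lf (nat_lit 0) (nat_lit 1785560649871) (nat_lit 76) (nat_lit 566058851689) (nat_lit 76) (nat_lit 226540263822) (nat_lit 3) (nat_lit 4) (nat_lit 4) (nat_lit 5) (nat_lit 4) (nat_lit 4) (nat_lit 253) (nat_lit 225) (nat_lit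 122)) (XT.lf (nat_lit 0) (nat_lit 2295726280149) (nat_lit 76) (nat_lit 493656863967) (nat_lit 76) (nat_lit 154138251304) (nat_lit 3) (nat_lit 4) (nat_lit 4) (nat_lit 5) (nat_lit 4) (nat_lit 4) (nat_lit 254) (nat_lit 225) (nat_lit 121))))))) (XT.nd (nat_lit 1404) (nat_lit 0) (nat_lit 0) (XT.nd (nat_lit 546) (nat_lit 0) (nat_lit 0) (XT.nd (nat_lit 234) (nat_lit 76) (nat_lit 0) (XT.nd (nat_lit 78) (nat_lit 76) (nat_lit 0) (XT.lf (nat_lit 0) (nat_lit 2882416721881) (nat_lit 76) (nat_lit 410394592612) (nat_lit 76) (nat_lit 70875958387) (nat_lit 3) (nat_lit 4) (nat_lit 4) (nat_lit 5) (nat_lit 4) (nat_lit 4) (nat_lit 255) (nat_lit 225) (nat_lit 120)) (XT.nd (nat_lit 78) (nat_lit 0) (nat_lit 0) (XT.lf (nat_lit 0) (nat_lit 22661056536) (nat_lit 152) (nat_lit 290797381420) (nat_lit 76) (nat_lit 3533265089337) (nat_lit 2) (nat_lit 5) (nat_lit 4) (nat_lit 5) (nat_lit 3) (nat_lit 4) (nat_lit 256)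 (nat_lit 225) (nat_lit 119)) (XT.lf (nat_lit 0) (nat_lit 122972260783) (nat_lit 152) (nat_lit 75128308592) (nat_lit 76) (nat_lit 4203608395952) (nat_lit 2) (nat_lit 5) (nat_lit 4) (nat_lit 5) (nat_lit 3) (nat_lit 4) (nat_lit 257) (nat_lit 225) (nat_lit 118)))) (XT.nd (nat_lit 156) (nat_lit 0) (nat_lit 0) (XT.nd (nat_lit 78) (nat_lit 0) (nat_lit 0) (XT.lf (nat_lit 0) (nat_lit 189787277953) (nat_lit 76) (nat_lit 56401541306) (nat_lit 152) (nat_lit 4792574598846) (nat_lit 1) (nat_lit 5) (nat_lit 2) (nat_lit 5) (nat_lit 3) (nat_lit 4) (nat_lit 258) (nat_lit 225) (nat_lit 117)) (XT.lf (nat_lit 0) (nat_lit 396414123492) (nat_lit 152) (nat_lit 5272502501090) (nat_lit 0) (nat_lit 101180474985) (nat_lit 1) (nat_lit 5) (nat_lit 3) (nat_lit 4) (nat_lit 1) (nat_lit 4) (nat_lit 259) (nat_lit 225) (nat_lit 116))) (XT.nd (nat_lit 78) (nat_lit 0) (nat_lit 0) (XT.lf (nat_lit 0) (nat_lit 571859000161)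 (nat_lit 152) (nat_lit 5762243624291) (nat_lit 0) (nat_lit 276625342333) (nat_lit 1) (nat_lit 5) (nat_lit 3) (nat_lit 4) (nat_lit 1) (nat_lit 4) (nat_lit 260) (nat_lit 225) (nat_lit 115)) (XT.lf (nat_lit 0) (nat_lit 773620598870) (nat_lit 152) (nat_lit 6325445933749) (nat_lit 0) (nat_lit 478386932936) (nat_lit 1) (nat_lit 5) (nat_lit 3) (nat_lit 4) (nat_lit 1) (nat_lit 4) (nat_lit 261) (nat_lit 225) (nat_lit 114))))) (XT.nd (nat_lit 390) (nat_lit 0) (nat_lit 0) (XT.nd (nat_lit 234) (nat_lit 0) (nat_lit 0) (XT.nd (nat_lit 78) (nat_lit 0) (nat_lit 0) (XT.lf (nat_lit 0) (nat_lit 1005646429159) (nat_lit 152) (nat_lit 6973128605082) (nat_lit 0) (nat_lit 710412756176) (nat_lit 1) (nat_lit 5) (nat_lit 3) (nat_lit 4) (nat_lit 1) (nat_lit 4) (nat_lit 262) (nat_lit 225) (nat_lit 113)) (XT.lf (nat_lit 0) (nat_lit 1272476126838) (nat_lit 152) (nat_lit 7717963690557) (nat_lit 0) (nat_lit 977242447725)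 (nat_lit 1) (nat_lit 5) (nat_lit 3) (nat_lit 4) (nat_lit 1) (nat_lit 4) (nat_lit 263) (nat_lit 225) (nat_lit 112))) (XT.nd (nat_lit 78) (nat_lit 0) (nat_lit 0) (XT.lf (nat_lit 0) (nat_lit 1932212535565) (nat_lit 152) (nat_lit 9559568474685) (nat_lit 0) (nat_lit 1636978846488) (nat_lit 1) (nat_lit 5) (nat_lit 3) (nat_lit 4) (nat_lit 1) (nat_lit 4) (nat_lit 265) (nat_lit 225) (nat_lit 110)) (XT.lf (nat_lit 0) (nat_lit 2338027132871) (nat_lit 152) (nat_lit 10692369571289) (nat_lit 0) (nat_lit 2042793439765) (nat_lit 1) (nat_lit 5) (nat_lit 3) (nat_lit 4) (nat_lit 1) (nat_lit 4) (nat_lit 266) (nat_lit 225) (nat_lit 109)))) (XT.nd (nat_lit 312) (nat_lit 0) (nat_lit 0) (XT.nd (nat_lit 78) (nat_lit 0) (nat_lit 0) (XT.lf (nat_lit 0) (nat_lit 2804713915683) (nat_lit 152) (nat_lit 11995090840069) (nat_lit 0) (nat_lit 2509480219073) (nat_lit 1) (nat_lit 5) (nat_lit 3) (nat_lit 4) (nat_lit 1)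 (nat_lit 4) (nat_lit 267) (nat_lit 225) (nat_lit 108)) (XT.lf (nat_lit 0) (nat_lit 3341403712361) (nat_lit 152) (nat_lit 13493220305848) (nat_lit 0) (nat_lit 3046170012703) (nat_lit 1) (nat_lit 5) (nat_lit 3) (nat_lit 4) (nat_lit 1) (nat_lit 4) (nat_lit 268) (nat_lit 225) (nat_lit 107))) (XT.nd (nat_lit 78) (nat_lit 0) (nat_lit 0) (XT.lf (nat_lit 0) (nat_lit 5484607310308) (nat_lit 152) (nat_lit 19475813096689) (nat_lit 0) (nat_lit 5189373603692) (nat_lit 1) (nat_lit 5) (nat_lit 3) (nat_lit 4) (nat_lit 1) (nat_lit 4) (nat_lit 271) (nat_lit 225) (nat_lit 104)) (XT.lf (nat_lit 0) (nat_lit 6423281106025) (nat_lit 152) (nat_lit 22096050920040) (nat_lit 0) (nat_lit 6128047397667) (nat_lit 1) (nat_lit 5) (nat_lit 3) (nat_lit 4) (nat_lit 1) (nat_lit 4) (nat_lit 272) (nat_lit 225) (nat_lit 103)))))) (XT.nd (nat_lit 27846) (nat_lit 0) (nat_lit 532) (XT.nd (nat_lit 234) (nat_lit 0) (nat_lit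 0) (XT.nd (nat_lit 78) (nat_lit 0) (nat_lit 0) (XT.lf (nat_lit 0) (nat_lit 7502755969332) (nat_lit 152) (nat_lit 25109324420216) (nat_lit 0) (nat_lit 7207522259459) (nat_lit 1) (nat_lit 5) (nat_lit 3) (nat_lit 4) (nat_lit 1) (nat_lit 4) (nat_lit 273) (nat_lit 225) (nat_lit 102)) (XT.nd (nat_lit 78) (nat_lit 0) (nat_lit 0) (XT.lf (nat_lit 0) (nat_lit 8744152060597) (nat_lit 152) (nat_lit 28574588948307) (nat_lit 0) (nat_lit 8448918349407) (nat_lit 1) (nat_lit 5) (nat_lit 3) (nat_lit 4) (nat_lit 1) (nat_lit 4) (nat_lit 274) (nat_lit 225) (nat_lit 101)) (XT.lf (nat_lit 0) (nat_lit 10171757564215) (nat_lit 152) (nat_lit 32559643158124) (nat_lit 0) (nat_lit 9876523851879) (nat_lit 1) (nat_lit 5) (nat_lit 3) (nat_lit 4) (nat_lit 1) (nat_lit 4) (nat_lit 275) (nat_lit 225) (nat_lit 100)))) (XT.nd (nat_lit 27456) (nat_lit 0) (nat_lit 1064) (XT.nd (nat_lit 27378) (nat_lit 0) (nat_lit 1064)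 (XT.lf (nat_lit 0) (nat_lit 11813503892213) (nat_lit 152) (nat_lit 37142455501598) (nat_lit 0) (nat_lit 11518270178880) (nat_lit 1) (nat_lit 5) (nat_lit 3) (nat_lit 4) (nat_lit 1) (nat_lit 4) (nat_lit 276) (nat_lit 225) (nat_lit 99)) (XT.lf (nat_lit 0) (nat_lit 31203469027) (nat_lit 0) (nat_lit 31203469027) (nat_lit 228) (nat_lit 15522490743) (nat_lit 15) (nat_lit 5) (nat_lit 15) (nat_lit 3) (nat_lit 18) (nat_lit 3) (nat_lit 226) (nat_lit 226) (nat_lit 148))) (XT.nd (nat_lit 78) (nat_lit 0) (nat_lit 0) (XT.lf (nat_lit 0) (nat_lit 134203827451) (nat_lit 228) (nat_lit 32751616010) (nat_lit 304) (nat_lit 588454617) (nat_lit 15) (nat_lit 5) (nat_lit 18) (nat_lit 3) (nat_lit 19) (nat_lit 5) (nat_lit 227) (nat_lit 226) (nat_lit 147)) (XT.lf (nat_lit 76) (nat_lit 37412421681) (nat_lit 0) (nat_lit 112110400262) (nat_lit 304) (nat_lit 30780796752) (nat_lit 16) (nat_lit 5) (nat_lit 15) (nat_lit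 5) (nat_lit 19) (nat_lit 5) (nat_lit 228) (nat_lit 226) (nat_lit 146))))) (XT.nd (nat_lit 312) (nat_lit 304) (nat_lit 0) (XT.nd (nat_lit 156) (nat_lit 76) (nat_lit 0) (XT.nd (nat_lit 78) (nat_lit 152) (nat_lit 0) (XT.lf (nat_lit 76) (nat_lit 121781647191) (nat_lit 0) (nat_lit 47069696324) (nat_lit 304) (nat_lit 25869207971) (nat_lit 16) (nat_lit 5) (nat_lit 15) (nat_lit 5) (nat_lit 19) (nat_lit 5) (nat_lit 229) (nat_lit 226) (nat_lit 145)) (XT.lf (nat_lit 0) (nat_lit 6979173913) (nat_lit 228) (nat_lit 185536791579) (nat_lit 304) (nat_lit 18568540394) (nat_lit 13) (nat_lit 5) (nat_lit 16) (nat_lit 5) (nat_lit 17) (nat_lit 5) (nat_lit 230) (nat_lit 226) (nat_lit 144))) (XT.nd (nat_lit 78) (nat_lit 76) (nat_lit 0) (XT.lf (nat_lit 0) (nat_lit 104621580934) (nat_lit 228) (nat_lit 121060682987) (nat_lit 304) (nat_lit 3327996410) (nat_lit 13) (nat_lit 5) (nat_lit 16) (nat_lit 5) (nat_lit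 17) (nat_lit 5) (nat_lit 231) (nat_lit 226) (nat_lit 143)) (XT.lf (nat_lit 0) (nat_lit 12934325114) (nat_lit 304) (nat_lit 33302716887) (nat_lit 76) (nat_lit 203299685580) (nat_lit 12) (nat_lit 5) (nat_lit 16) (nat_lit 5) (nat_lit 13) (nat_lit 5) (nat_lit 232) (nat_lit 226) (nat_lit 142)))) (XT.nd (nat_lit 156) (nat_lit 152) (nat_lit 0) (XT.nd (nat_lit 78) (nat_lit 0) (nat_lit 0) (XT.lf (nat_lit 0) (nat_lit 36345698892) (nat_lit 228) (nat_lit 196188507171) (nat_lit 76) (nat_lit 39826626202) (nat_lit 10) (nat_lit 5) (nat_lit 13) (nat_lit 5) (nat_lit 11) (nat_lit 5) (nat_lit 233) (nat_lit 226) (nat_lit 141)) (XT.lf (nat_lit 0) (nat_lit 67294069031) (nat_lit 228) (nat_lit 94820935488) (nat_lit 76) (nat_lit 135889757079) (nat_lit 10) (nat_lit 5) (nat_lit 13) (nat_lit 5) (nat_lit 11) (nat_lit 5) (nat_lit 234) (nat_lit 226) (nat_lit 140))) (XT.nd (nat_lit 78) (nat_lit 0) (nat_lit 0) (XT.lf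 (nat_lit 0) (nat_lit 23877283480) (nat_lit 152) (nat_lit 79995950064) (nat_lit 228) (nat_lit 223473768129) (nat_lit 8) (nat_lit 5) (nat_lit 10) (nat_lit 5) (nat_lit 11) (nat_lit 5) (nat_lit 235) (nat_lit 226) (nat_lit 139)) (XT.lf (nat_lit 0) (nat_lit 151729660543) (nat_lit 228) (nat_lit 190144498679) (nat_lit 76) (nat_lit 18347862249) (nat_lit 8) (nat_lit 5) (nat_lit 11) (nat_lit 5) (nat_lit 9) (nat_lit 4) (nat_lit 236) (nat_lit 226) (nat_lit 138))))))))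
noncomputable def xc52 : XT := (XT.nd (nat_lit 2808) (nat_lit 0) (nat_lit 0) (XT.nd (nat_lit 1092) (nat_lit 152) (nat_lit 0) (XT.nd (nat_lit 546) (nat_lit 152) (nat_lit 0) (XT.nd (nat_lit 234) (nat_lit 152) (nat_lit 0) (XT.nd (nat_lit 78) (nat_lit 76) (nat_lit 0) (XT.lf (nat_lit 0) (nat_lit 210573746291) (nat_lit 228) (nat_lit 63630021181) (nat_lit 76) (nat_lit 123253149202) (nat_lit 8) (nat_lit 5) (nat_lit 11) (nat_lit 5) (nat_lit 9) (nat_lit 4) (nat_lit 237) (nat_lit 226) (nat_lit 137)) (XT.nd (nat_lit 78) (nat_lit 0) (nat_lit 0) (XT.lf (nat_lit 0) (nat_lit 89861556412) (nat_lit 76) (nat_lit 192103745427) (nat_lit 152) (nat_lit 157753617202) (nat_lit 7) (nat_lit 5) (nat_lit 8) (nat_lit 5) (nat_lit 9) (nat_lit 4) (nat_lit 238) (nat_lit 226) (nat_lit 136)) (XT.lf (nat_lit 0) (nat_lit 273527856326) (nat_lit 76) (nat_lit 93863739440) (nat_lit 152) (nat_lit 120429726479) (nat_lit 7)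 (nat_lit 5) (nat_lit 8) (nat_lit 5) (nat_lit 9) (nat_lit 4) (nat_lit 239) (nat_lit 226) (nat_lit 135)))) (XT.nd (nat_lit 156) (nat_lit 76) (nat_lit 0) (XT.nd (nat_lit 78) (nat_lit 76) (nat_lit 0) (XT.lf (nat_lit 0) (nat_lit 466423134786) (nat_lit 152) (nat_lit 59186536495) (nat_lit 0) (nat_lit 17410720578) (nat_lit 7) (nat_lit 5) (nat_lit 9) (nat_lit 4) (nat_lit 7) (nat_lit 4) (nat_lit 240) (nat_lit 226) (nat_lit 134)) (XT.lf (nat_lit 0) (nat_lit 125927537096) (nat_lit 76) (nat_lit 464065875656) (nat_lit 76) (nat_lit 15053308884) (nat_lit 6) (nat_lit 4) (nat_lit 7) (nat_lit 5) (nat_lit 7) (nat_lit 4) (nat_lit 241) (nat_lit 226) (nat_lit 133))) (XT.nd (nat_lit 78) (nat_lit 0) (nat_lit 0) (XT.lf (nat_lit 0) (nat_lit 54002537333) (nat_lit 152) (nat_lit 332907244168) (nat_lit 76) (nat_lit 288634956646) (nat_lit 5) (nat_lit 5) (nat_lit 7) (nat_lit 5) (nat_lit 6) (nat_lit 4) (nat_lit 242)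 (nat_lit 226) (nat_lit 132)) (XT.lf (nat_lit 0) (nat_lit 131875515953) (nat_lit 152) (nat_lit 165480455496) (nat_lit 76) (nat_lit 459153973530) (nat_lit 5) (nat_lit 5) (nat_lit 7) (nat_lit 5) (nat_lit 6) (nat_lit 4) (nat_lit 243) (nat_lit 226) (nat_lit 131))))) (XT.nd (nat_lit 234) (nat_lit 76) (nat_lit 0) (XT.nd (nat_lit 78) (nat_lit 0) (nat_lit 0) (XT.lf (nat_lit 0) (nat_lit 29704772687) (nat_lit 76) (nat_lit 192954616985) (nat_lit 152) (nat_lit 626776051454) (nat_lit 4) (nat_lit 5) (nat_lit 5) (nat_lit 5) (nat_lit 6) (nat_lit 4) (nat_lit 244) (nat_lit 226) (nat_lit 130)) (XT.nd (nat_lit 78) (nat_lit 0) (nat_lit 0) (XT.lf (nat_lit 0) (nat_lit 272765433364) (nat_lit 76) (nat_lit 62945466962) (nat_lit 152) (nat_lit 619291353454) (nat_lit 4) (nat_lit 5) (nat_lit 5) (nat_lit 5) (nat_lit 6) (nat_lit 4) (nat_lit 245) (nat_lit 226) (nat_lit 129)) (XT.lf (nat_lit 0) (nat_lit 469304559338)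 (nat_lit 152) (nat_lit 527703461744) (nat_lit 0) (nat_lit 78858404390) (nat_lit 4) (nat_lit 5) (nat_lit 6) (nat_lit 4) (nat_lit 4) (nat_lit 4) (nat_lit 246) (nat_lit 226) (nat_lit 128)))) (XT.nd (nat_lit 156) (nat_lit 76) (nat_lit 0) (XT.nd (nat_lit 78) (nat_lit 0) (nat_lit 0) (XT.lf (nat_lit 0) (nat_lit 625934624658) (nat_lit 152) (nat_lit 352987582639) (nat_lit 0) (nat_lit 235488412356) (nat_lit 4) (nat_lit 5) (nat_lit 6) (nat_lit 4) (nat_lit 4) (nat_lit 4) (nat_lit 247) (nat_lit 226) (nat_lit 127)) (XT.lf (nat_lit 0) (nat_lit 806059160010) (nat_lit 152) (nat_lit 152064391388) (nat_lit 0) (nat_lit 415612897834) (nat_lit 4) (nat_lit 5) (nat_lit 6) (nat_lit 4) (nat_lit 4) (nat_lit 4) (nat_lit 248) (nat_lit 226) (nat_lit 126))) (XT.nd (nat_lit 78) (nat_lit 0) (nat_lit 0) (XT.lf (nat_lit 0) (nat_lit 86717400585) (nat_lit 76) (nat_lit 930075723132) (nat_lit 76) (nat_lit 539629417588)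 (nat_lit 3) (nat_lit 4) (nat_lit 4) (nat_lit 5) (nat_lit 4) (nat_lit 4) (nat_lit 249) (nat_lit 226) (nat_lit 125)) (XT.lf (nat_lit 0) (nat_lit 378406367470) (nat_lit 76) (nat_lit 888679602504) (nat_lit 76) (nat_lit 498233259249) (nat_lit 3) (nat_lit 4) (nat_lit 4) (nat_lit 5) (nat_lit 4) (nat_lit 4) (nat_lit 250) (nat_lit 226) (nat_lit 124)))))) (XT.nd (nat_lit 546) (nat_lit 76) (nat_lit 0) (XT.nd (nat_lit 234) (nat_lit 76) (nat_lit 0) (XT.nd (nat_lit 78) (nat_lit 0) (nat_lit 0) (XT.lf (nat_lit 0) (nat_lit 713848629067) (nat_lit 76) (nat_lit 841074085873) (nat_lit 76) (nat_lit 450627709825) (nat_lit 3) (nat_lit 4) (nat_lit 4) (nat_lit 5) (nat_lit 4) (nat_lit 4) (nat_lit 251) (nat_lit 226) (nat_lit 123)) (XT.nd (nat_lit 78) (nat_lit 0) (nat_lit 0) (XT.lf (nat_lit 0) (nat_lit 1099607186144) (nat_lit 76) (nat_lit 786327760957) (nat_lit 76) (nat_lit 395881356394) (nat_lit 3) (nat_lit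 4) (nat_lit 4) (nat_lit 5) (nat_lit 4) (nat_lit 4) (nat_lit 252) (nat_lit 226) (nat_lit 122)) (XT.lf (nat_lit 0) (nat_lit 1543229488732) (nat_lit 76) (nat_lit 723369504007) (nat_lit 76) (nat_lit 332923074649) (nat_lit 3) (nat_lit 4) (nat_lit 4) (nat_lit 5) (nat_lit 4) (nat_lit 4) (nat_lit 253) (nat_lit 226) (nat_lit 121)))) (XT.nd (nat_lit 156) (nat_lit 76) (nat_lit 0) (XT.nd (nat_lit 78) (nat_lit 0) (nat_lit 0) (XT.lf (nat_lit 0) (nat_lit 2053395103621) (nat_lit 76) (nat_lit 650967523041) (nat_lit 76) (nat_lit 260521072121) (nat_lit 3) (nat_lit 4) (nat_lit 4) (nat_lit 5) (nat_lit 4) (nat_lit 4) (nat_lit 254) (nat_lit 226) (nat_lit 120)) (XT.lf (nat_lit 0) (nat_lit 2640085531971) (nat_lit 76) (nat_lit 567705257561) (nat_lit 76) (nat_lit 177258787891) (nat_lit 3) (nat_lit 4) (nat_lit 4) (nat_lit 5) (nat_lit 4) (nat_lit 4) (nat_lit 255) (nat_lit 226) (nat_lit 119))) (XT.nd (nat_lit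 78) (nat_lit 76) (nat_lit 0) (XT.lf (nat_lit 0) (nat_lit 3314779499555) (nat_lit 76) (nat_lit 471953663242) (nat_lit 76) (nat_lit 81507177269) (nat_lit 3) (nat_lit 4) (nat_lit 4) (nat_lit 5) (nat_lit 4) (nat_lit 4) (nat_lit 256) (nat_lit 226) (nat_lit 118)) (XT.lf (nat_lit 0) (nat_lit 26060353545) (nat_lit 152) (nat_lit 334416740027) (nat_lit 76) (nat_lit 4063254941221) (nat_lit 2) (nat_lit 5) (nat_lit 4) (nat_lit 5) (nat_lit 3) (nat_lit 4) (nat_lit 257) (nat_lit 226) (nat_lit 117))))) (XT.nd (nat_lit 312) (nat_lit 0) (nat_lit 0) (XT.nd (nat_lit 156) (nat_lit 0) (nat_lit 0) (XT.nd (nat_lit 78) (nat_lit 76) (nat_lit 0) (XT.lf (nat_lit 0) (nat_lit 141418220360) (nat_lit 152) (nat_lit 86397338702) (nat_lit 76) (nat_lit 4834149732287) (nat_lit 2) (nat_lit 5) (nat_lit 4) (nat_lit 5) (nat_lit 3) (nat_lit 4) (nat_lit 258) (nat_lit 226) (nat_lit 116)) (XT.lf (nat_lit 0) (nat_lit 218255576000)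 (nat_lit 76) (nat_lit 64861679440) (nat_lit 152) (nat_lit 5511460657771) (nat_lit 1) (nat_lit 5) (nat_lit 2) (nat_lit 5) (nat_lit 3) (nat_lit 4) (nat_lit 259) (nat_lit 226) (nat_lit 115))) (XT.nd (nat_lit 78) (nat_lit 0) (nat_lit 0) (XT.lf (nat_lit 0) (nat_lit 455876343882) (nat_lit 152) (nat_lit 6063377684853) (nat_lit 0) (nat_lit 116357619951) (nat_lit 1) (nat_lit 5) (nat_lit 3) (nat_lit 4) (nat_lit 1) (nat_lit 4) (nat_lit 260) (nat_lit 226) (nat_lit 114)) (XT.lf (nat_lit 0) (nat_lit 657637938764) (nat_lit 152) (nat_lit 6626580001500) (nat_lit 0) (nat_lit 318119207785) (nat_lit 1) (nat_lit 5) (nat_lit 3) (nat_lit 4) (nat_lit 1) (nat_lit 4) (nat_lit 261) (nat_lit 226) (nat_lit 113)))) (XT.nd (nat_lit 702) (nat_lit 0) (nat_lit 0) (XT.nd (nat_lit 78) (nat_lit 0) (nat_lit 0) (XT.lf (nat_lit 0) (nat_lit 889663765726) (nat_lit 152) (nat_lit 7274262679085) (nat_lit 0) (nat_lit 550145028618)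 (nat_lit 1) (nat_lit 5) (nat_lit 3) (nat_lit 4) (nat_lit 1) (nat_lit 4) (nat_lit 262) (nat_lit 226) (nat_lit 112)) (XT.lf (nat_lit 0) (nat_lit 1156493460511) (nat_lit 152) (nat_lit 8019097769996) (nat_lit 0) (nat_lit 816974718073) (nat_lit 1) (nat_lit 5) (nat_lit 3) (nat_lit 4) (nat_lit 1) (nat_lit 4) (nat_lit 263) (nat_lit 226) (nat_lit 111))) (XT.nd (nat_lit 78) (nat_lit 0) (nat_lit 0) (XT.lf (nat_lit 0) (nat_lit 5368624630999) (nat_lit 152) (nat_lit 19776947200522) (nat_lit 0) (nat_lit 5029105864645) (nat_lit 1) (nat_lit 5) (nat_lit 3) (nat_lit 4) (nat_lit 1) (nat_lit 4) (nat_lit 271) (nat_lit 226) (nat_lit 103)) (XT.lf (nat_lit 0) (nat_lit 6307298425894) (nat_lit 152) (nat_lit 22397185025419) (nat_lit 0) (nat_lit 5967779658025) (nat_lit 1) (nat_lit 5) (nat_lit 3) (nat_lit 4) (nat_lit 1) (nat_lit 4) (nat_lit 272) (nat_lit 226) (nat_lit 102))))))) (XT.nd (nat_lit 28626) (nat_lit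 0) (nat_lit 152) (XT.nd (nat_lit 28002) (nat_lit 0) (nat_lit 532) (XT.nd (nat_lit 27690) (nat_lit 0) (nat_lit 1064) (XT.nd (nat_lit 78) (nat_lit 0) (nat_lit 0) (XT.lf (nat_lit 0) (nat_lit 7386773288485) (nat_lit 152) (nat_lit 25410458526938) (nat_lit 0) (nat_lit 7047254519299) (nat_lit 1) (nat_lit 5) (nat_lit 3) (nat_lit 4) (nat_lit 1) (nat_lit 4) (nat_lit 273) (nat_lit 226) (nat_lit 101)) (XT.nd (nat_lit 78) (nat_lit 0) (nat_lit 0) (XT.lf (nat_lit 0) (nat_lit 8628169379128) (nat_lit 152) (nat_lit 28875723056198) (nat_lit 0) (nat_lit 8288650608796) (nat_lit 1) (nat_lit 5) (nat_lit 3) (nat_lit 4) (nat_lit 1) (nat_lit 4) (nat_lit 274) (nat_lit 226) (nat_lit 100)) (XT.lf (nat_lit 0) (nat_lit 10055774882205) (nat_lit 152) (nat_lit 32860777267031) (nat_lit 0) (nat_lit 9716256110877) (nat_lit 1) (nat_lit 5) (nat_lit 3) (nat_lit 4) (nat_lit 1) (nat_lit 4) (nat_lit 275) (nat_lit 226) (nat_lit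 99)))) (XT.nd (nat_lit 156) (nat_lit 0) (nat_lit 0) (XT.nd (nat_lit 78) (nat_lit 0) (nat_lit 0) (XT.lf (nat_lit 0) (nat_lit 35885025953) (nat_lit 0) (nat_lit 35885025953) (nat_lit 228) (nat_lit 17848444539) (nat_lit 15) (nat_lit 5) (nat_lit 15) (nat_lit 3) (nat_lit 18) (nat_lit 3) (nat_lit 227) (nat_lit 227) (nat_lit 146)) (XT.lf (nat_lit 0) (nat_lit 154337932387) (nat_lit 228) (nat_lit 37661878123) (nat_lit 304) (nat_lit 675080568) (nat_lit 15) (nat_lit 5) (nat_lit 18) (nat_lit 3) (nat_lit 19) (nat_lit 5) (nat_lit 228) (nat_lit 227) (nat_lit 145))) (XT.nd (nat_lit 78) (nat_lit 0) (nat_lit 0) (XT.lf (nat_lit 76) (nat_lit 43026652482) (nat_lit 0) (nat_lit 128927761066) (nat_lit 304) (nat_lit 35394218716) (nat_lit 16) (nat_lit 5) (nat_lit 15) (nat_lit 5) (nat_lit 19) (nat_lit 5) (nat_lit 229) (nat_lit 227) (nat_lit 144)) (XT.lf (nat_lit 76) (nat_lit 140050953008) (nat_lit 0) (nat_lit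 54130847090) (nat_lit 304) (nat_lit 29746373907) (nat_lit 16) (nat_lit 5) (nat_lit 15) (nat_lit 5) (nat_lit 19) (nat_lit 5) (nat_lit 230) (nat_lit 227) (nat_lit 143))))) (XT.nd (nat_lit 312) (nat_lit 152) (nat_lit 0) (XT.nd (nat_lit 156) (nat_lit 228) (nat_lit 0) (XT.nd (nat_lit 78) (nat_lit 0) (nat_lit 0) (XT.lf (nat_lit 0) (nat_lit 8028481968) (nat_lit 228) (nat_lit 213367349678) (nat_lit 304) (nat_lit 21350938599) (nat_lit 13) (nat_lit 5) (nat_lit 16) (nat_lit 5) (nat_lit 17) (nat_lit 5) (nat_lit 231) (nat_lit 227) (nat_lit 142)) (XT.lf (nat_lit 0) (nat_lit 120316932828) (nat_lit 228) (nat_lit 139219819664) (nat_lit 304) (nat_lit 3824689042) (nat_lit 13) (nat_lit 5) (nat_lit 16) (nat_lit 5) (nat_lit 17) (nat_lit 5) (nat_lit 232) (nat_lit 227) (nat_lit 141))) (XT.nd (nat_lit 78) (nat_lit 152) (nat_lit 0) (XT.lf (nat_lit 0) (nat_lit 14876459668) (nat_lit 304) (nat_lit 38296064595)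 (nat_lit 76) (nat_lit 233794387747) (nat_lit 12) (nat_lit 5) (nat_lit 16) (nat_lit 5) (nat_lit 13) (nat_lit 5) (nat_lit 233) (nat_lit 227) (nat_lit 140)) (XT.lf (nat_lit 0) (nat_lit 41799368455) (nat_lit 228) (nat_lit 225614529025) (nat_lit 76) (nat_lit 45800764075) (nat_lit 10) (nat_lit 5) (nat_lit 13) (nat_lit 5) (nat_lit 11) (nat_lit 5) (nat_lit 234) (nat_lit 227) (nat_lit 139)))) (XT.nd (nat_lit 156) (nat_lit 0) (nat_lit 0) (XT.nd (nat_lit 78) (nat_lit 152) (nat_lit 0) (XT.lf (nat_lit 0) (nat_lit 77389757412) (nat_lit 228) (nat_lit 109042115618) (nat_lit 76) (nat_lit 156273345808) (nat_lit 10) (nat_lit 5) (nat_lit 13) (nat_lit 5) (nat_lit 11) (nat_lit 5) (nat_lit 235) (nat_lit 227) (nat_lit 138)) (XT.lf (nat_lit 0) (nat_lit 27460747096) (nat_lit 152) (nat_lit 91994921153) (nat_lit 228) (nat_lit 256993148574) (nat_lit 8) (nat_lit 5) (nat_lit 10) (nat_lit 5) (nat_lit 11) (nat_lit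 5) (nat_lit 236) (nat_lit 227) (nat_lit 137))) (XT.nd (nat_lit 78) (nat_lit 0) (nat_lit 0) (XT.lf (nat_lit 0) (nat_lit 174490385384) (nat_lit 228) (nat_lit 218664357182) (nat_lit 76) (nat_lit 21100375415) (nat_lit 8) (nat_lit 5) (nat_lit 11) (nat_lit 5) (nat_lit 9) (nat_lit 4) (nat_lit 237) (nat_lit 227) (nat_lit 136)) (XT.lf (nat_lit 0) (nat_lit 242160917591) (nat_lit 228) (nat_lit 73172944967) (nat_lit 76) (nat_lit 141741411867) (nat_lit 8) (nat_lit 5) (nat_lit 11) (nat_lit 5) (nat_lit 9) (nat_lit 4) (nat_lit 238) (nat_lit 227) (nat_lit 135)))))) (XT.nd (nat_lit 546) (nat_lit 76) (nat_lit 0) (XT.nd (nat_lit 234) (nat_lit 228) (nat_lit 0) (XT.nd (nat_lit 78) (nat_lit 0) (nat_lit 0) (XT.lf (nat_lit 0) (nat_lit 103342297474) (nat_lit 76) (nat_lit 220918826725) (nat_lit 152) (nat_lit 181415467031) (nat_lit 7) (nat_lit 5) (nat_lit 8) (nat_lit 5) (nat_lit 9) (nat_lit 4) (nat_lit 239)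 (nat_lit 227) (nat_lit 134)) (XT.nd (nat_lit 78) (nat_lit 0) (nat_lit 0) (XT.lf (nat_lit 0) (nat_lit 314558345732) (nat_lit 76) (nat_lit 107942882517) (nat_lit 152) (nat_lit 138493148276) (nat_lit 7) (nat_lit 5) (nat_lit 8) (nat_lit 5) (nat_lit 9) (nat_lit 4) (nat_lit 240) (nat_lit 227) (nat_lit 133)) (XT.lf (nat_lit 0) (nat_lit 536387396673) (nat_lit 152) (nat_lit 68063266784) (nat_lit 0) (nat_lit 20022659657) (nat_lit 7) (nat_lit 5) (nat_lit 9) (nat_lit 4) (nat_lit 7) (nat_lit 4) (nat_lit 241) (nat_lit 227) (nat_lit 132)))) (XT.nd (nat_lit 156) (nat_lit 76) (nat_lit 0) (XT.nd (nat_lit 78) (nat_lit 76) (nat_lit 0) (XT.lf (nat_lit 0) (nat_lit 144817861020) (nat_lit 76) (nat_lit 533675301468) (nat_lit 76) (nat_lit 17310449092) (nat_lit 6) (nat_lit 4) (nat_lit 7) (nat_lit 5) (nat_lit 7) (nat_lit 4) (nat_lit 242) (nat_lit 227) (nat_lit 131)) (XT.lf (nat_lit 0) (nat_lit 62103596114) (nat_lit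 152) (nat_lit 382842221043) (nat_lit 76) (nat_lit 331930524216) (nat_lit 5) (nat_lit 5) (nat_lit 7) (nat_lit 5) (nat_lit 6) (nat_lit 4) (nat_lit 243) (nat_lit 227) (nat_lit 130))) (XT.nd (nat_lit 78) (nat_lit 76) (nat_lit 0) (XT.lf (nat_lit 0) (nat_lit 151657433068) (nat_lit 152) (nat_lit 190301558821) (nat_lit 76) (nat_lit 528027351362) (nat_lit 5) (nat_lit 5) (nat_lit 7) (nat_lit 5) (nat_lit 6) (nat_lit 4) (nat_lit 244) (nat_lit 227) (nat_lit 129)) (XT.lf (nat_lit 0) (nat_lit 34161409726) (nat_lit 76) (nat_lit 221897439341) (nat_lit 152) (nat_lit 720791821224) (nat_lit 4) (nat_lit 5) (nat_lit 5) (nat_lit 5) (nat_lit 6) (nat_lit 4) (nat_lit 245) (nat_lit 227) (nat_lit 128))))) (XT.nd (nat_lit 312) (nat_lit 76) (nat_lit 0) (XT.nd (nat_lit 156) (nat_lit 0) (nat_lit 0) (XT.nd (nat_lit 78) (nat_lit 0) (nat_lit 0) (XT.lf (nat_lit 0) (nat_lit 313681049357) (nat_lit 76) (nat_lit 72386965100)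 (nat_lit 152) (nat_lit 712184501734) (nat_lit 4) (nat_lit 5) (nat_lit 5) (nat_lit 5) (nat_lit 6) (nat_lit 4) (nat_lit 246) (nat_lit 227) (nat_lit 127)) (XT.lf (nat_lit 0) (nat_lit 539700671422) (nat_lit 152) (nat_lit 606858230298) (nat_lit 0) (nat_lit 90687420047) (nat_lit 4) (nat_lit 5) (nat_lit 6) (nat_lit 4) (nat_lit 4) (nat_lit 4) (nat_lit 247) (nat_lit 227) (nat_lit 126))) (XT.nd (nat_lit 78) (nat_lit 0) (nat_lit 0) (XT.lf (nat_lit 0) (nat_lit 719825190690) (nat_lit 152) (nat_lit 405935067245) (nat_lit 0) (nat_lit 270811895947) (nat_lit 4) (nat_lit 5) (nat_lit 6) (nat_lit 4) (nat_lit 4) (nat_lit 4) (nat_lit 248) (nat_lit 227) (nat_lit 125)) (XT.lf (nat_lit 0) (nat_lit 926968357779) (nat_lit 152) (nat_lit 174873482453) (nat_lit 0) (nat_lit 477955025325) (nat_lit 4) (nat_lit 5) (nat_lit 6) (nat_lit 4) (nat_lit 4) (nat_lit 4) (nat_lit 249) (nat_lit 227) (nat_lit 124)))) (XT.nd (nat_lit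 156) (nat_lit 0) (nat_lit 0) (XT.nd (nat_lit 78) (nat_lit 0) (nat_lit 0) (XT.lf (nat_lit 0) (nat_lit 99725552514) (nat_lit 76) (nat_lit 1069586843735) (nat_lit 76) (nat_lit 620573478488) (nat_lit 3) (nat_lit 4) (nat_lit 4) (nat_lit 5) (nat_lit 4) (nat_lit 4) (nat_lit 250) (nat_lit 227) (nat_lit 123)) (XT.lf (nat_lit 0) (nat_lit 435167793757) (nat_lit 76) (nat_lit 1021981336038) (nat_lit 76) (nat_lit 572967942276) (nat_lit 3) (nat_lit 4) (nat_lit 4) (nat_lit 5) (nat_lit 4) (nat_lit 4) (nat_lit 251) (nat_lit 227) (nat_lit 122))) (XT.nd (nat_lit 78) (nat_lit 0) (nat_lit 0) (XT.lf (nat_lit 0) (nat_lit 820926333137) (nat_lit 76) (nat_lit 967235018892) (nat_lit 76) (nat_lit 518221600333) (nat_lit 3) (nat_lit 4) (nat_lit 4) (nat_lit 5) (nat_lit 4) (nat_lit 4) (nat_lit 252) (nat_lit 227) (nat_lit 121)) (XT.lf (nat_lit 0) (nat_lit 1264548620335) (nat_lit 76) (nat_lit 904276768699) (nat_lit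 76) (nat_lit 455263328579) (nat_lit 3) (nat_lit 4) (nat_lit 4) (nat_lit 5) (nat_lit 4) (nat_lit 4) (nat_lit 253) (nat_lit 227) (nat_lit 120))))))))
noncomputable def xc53 : XT := (XT.nd (nat_lit 30342) (nat_lit 0) (nat_lit 0) (XT.nd (nat_lit 1638) (nat_lit 0) (nat_lit 0) (XT.nd (nat_lit 546) (nat_lit 0) (nat_lit 0) (XT.nd (nat_lit 234) (nat_lit 152) (nat_lit 0) (XT.nd (nat_lit 78) (nat_lit 0) (nat_lit 0) (XT.lf (nat_lit 0) (nat_lit 1774714221842) (nat_lit 76) (nat_lit 831874793607) (nat_lit 76) (nat_lit 382861334738) (nat_lit 3) (nat_lit 4) (nat_lit 4) (nat_lit 5) (nat_lit 4) (nat_lit 4) (nat_lit 254) (nat_lit 227) (nat_lit 119)) (XT.nd (nat_lit 78) (nat_lit 0) (nat_lit 0) (XT.lf (nat_lit 0) (nat_lit 2361404638555) (nat_lit 76) (nat_lit 748612533236) (nat_lit 76) (nat_lit 299599058063) (nat_lit 3) (nat_lit 4) (nat_lit 4) (nat_lit 5) (nat_lit 4) (nat_lit 4) (nat_lit 255) (nat_lit 227)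 (nat_lit 118)) (XT.lf (nat_lit 0) (nat_lit 3036098596020) (nat_lit 76) (nat_lit 652860943359) (nat_lit 76) (nat_lit 203847454009) (nat_lit 3) (nat_lit 4) (nat_lit 4) (nat_lit 5) (nat_lit 4) (nat_lit 4) (nat_lit 256) (nat_lit 227) (nat_lit 117)))) (XT.nd (nat_lit 156) (nat_lit 76) (nat_lit 0) (XT.nd (nat_lit 78) (nat_lit 76) (nat_lit 0) (XT.lf (nat_lit 0) (nat_lit 3811996628186) (nat_lit 76) (nat_lit 542746623305) (nat_lit 76) (nat_lit 93733121627) (nat_lit 3) (nat_lit 4) (nat_lit 4) (nat_lit 5) (nat_lit 4) (nat_lit 4) (nat_lit 257) (nat_lit 227) (nat_lit 116)) (XT.lf (nat_lit 0) (nat_lit 29969511325) (nat_lit 152) (nat_lit 384579063048) (nat_lit 76) (nat_lit 4672743249310) (nat_lit 2) (nat_lit 5) (nat_lit 4) (nat_lit 5) (nat_lit 3) (nat_lit 4) (nat_lit 258) (nat_lit 227) (nat_lit 115))) (XT.nd (nat_lit 78) (nat_lit 76) (nat_lit 0) (XT.lf (nat_lit 0) (nat_lit 162631044499) (nat_lit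 152) (nat_lit 99356776045) (nat_lit 76) (nat_lit 5559272250309) (nat_lit 2) (nat_lit 5) (nat_lit 4) (nat_lit 5) (nat_lit 3) (nat_lit 4) (nat_lit 259) (nat_lit 227) (nat_lit 114)) (XT.lf (nat_lit 0) (nat_lit 250994068432) (nat_lit 76) (nat_lit 74590860989) (nat_lit 152) (nat_lit 6338179657455) (nat_lit 1) (nat_lit 5) (nat_lit 2) (nat_lit 5) (nat_lit 3) (nat_lit 4) (nat_lit 260) (nat_lit 227) (nat_lit 113))))) (XT.nd (nat_lit 780) (nat_lit 0) (nat_lit 0) (XT.nd (nat_lit 156) (nat_lit 0) (nat_lit 0) (XT.nd (nat_lit 78) (nat_lit 0) (nat_lit 0) (XT.lf (nat_lit 0) (nat_lit 524257872489) (nat_lit 152) (nat_lit 6972884192855) (nat_lit 0) (nat_lit 133811318686) (nat_lit 1) (nat_lit 5) (nat_lit 3) (nat_lit 4) (nat_lit 1) (nat_lit 4) (nat_lit 261) (nat_lit 227) (nat_lit 112)) (XT.lf (nat_lit 0) (nat_lit 756283696557) (nat_lit 152) (nat_lit 7620566875877) (nat_lit 0) (nat_lit 365837137424) (nat_lit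 1) (nat_lit 5) (nat_lit 3) (nat_lit 4) (nat_lit 1) (nat_lit 4) (nat_lit 262) (nat_lit 227) (nat_lit 111))) (XT.nd (nat_lit 546) (nat_lit 0) (nat_lit 0) (XT.lf (nat_lit 0) (nat_lit 1023113388827) (nat_lit 152) (nat_lit 8365401971515) (nat_lit 0) (nat_lit 632666825059) (nat_lit 1) (nat_lit 5) (nat_lit 3) (nat_lit 4) (nat_lit 1) (nat_lit 4) (nat_lit 263) (nat_lit 227) (nat_lit 110)) (XT.lf (nat_lit 0) (nat_lit 4419006464793) (nat_lit 152) (nat_lit 17844783750774) (nat_lit 0) (nat_lit 4028559881743) (nat_lit 1) (nat_lit 5) (nat_lit 3) (nat_lit 4) (nat_lit 1) (nat_lit 4) (nat_lit 270) (nat_lit 227) (nat_lit 103)))) (XT.nd (nat_lit 156) (nat_lit 0) (nat_lit 0) (XT.nd (nat_lit 78) (nat_lit 0) (nat_lit 0) (XT.lf (nat_lit 0) (nat_lit 5235244548025) (nat_lit 152) (nat_lit 20123251423253) (nat_lit 0) (nat_lit 4844797963461) (nat_lit 1) (nat_lit 5) (nat_lit 3) (nat_lit 4) (nat_lit 1) (nat_lit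 4) (nat_lit 271) (nat_lit 227) (nat_lit 102)) (XT.lf (nat_lit 0) (nat_lit 6173918342205) (nat_lit 152) (nat_lit 22743489249493) (nat_lit 0) (nat_lit 5783471756323) (nat_lit 1) (nat_lit 5) (nat_lit 3) (nat_lit 4) (nat_lit 1) (nat_lit 4) (nat_lit 272) (nat_lit 227) (nat_lit 101))) (XT.nd (nat_lit 78) (nat_lit 0) (nat_lit 0) (XT.lf (nat_lit 0) (nat_lit 7253393204174) (nat_lit 152) (nat_lit 25756762752181) (nat_lit 0) (nat_lit 6862946617147) (nat_lit 1) (nat_lit 5) (nat_lit 3) (nat_lit 4) (nat_lit 1) (nat_lit 4) (nat_lit 273) (nat_lit 227) (nat_lit 100)) (XT.lf (nat_lit 0) (nat_lit 8494789294277) (nat_lit 152) (nat_lit 29222027282457) (nat_lit 0) (nat_lit 8104342706253) (nat_lit 1) (nat_lit 5) (nat_lit 3) (nat_lit 4) (nat_lit 1) (nat_lit 4) (nat_lit 274) (nat_lit 227) (nat_lit 99)))))) (XT.nd (nat_lit 28080) (nat_lit 0) (nat_lit 456) (XT.nd (nat_lit 27768) (nat_lit 0) (nat_lit 912) (XT.nd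 (nat_lit 27612) (nat_lit 0) (nat_lit 1064) (XT.lf (nat_lit 0) (nat_lit 9922394796884) (nat_lit 152) (nat_lit 33207081494174) (nat_lit 0) (nat_lit 9531948207994) (nat_lit 1) (nat_lit 5) (nat_lit 3) (nat_lit 4) (nat_lit 1) (nat_lit 4) (nat_lit 275) (nat_lit 227) (nat_lit 98)) (XT.nd (nat_lit 78) (nat_lit 0) (nat_lit 0) (XT.lf (nat_lit 0) (nat_lit 41268563643) (nat_lit 0) (nat_lit 41268563643) (nat_lit 228) (nat_lit 20523881492) (nat_lit 15) (nat_lit 5) (nat_lit 15) (nat_lit 3) (nat_lit 18) (nat_lit 3) (nat_lit 228) (nat_lit 228) (nat_lit 144)) (XT.lf (nat_lit 0) (nat_lit 177491292052) (nat_lit 228) (nat_lit 43309284387) (nat_lit 304) (nat_lit 775100883) (nat_lit 15) (nat_lit 5) (nat_lit 18) (nat_lit 3) (nat_lit 19) (nat_lit 5) (nat_lit 229) (nat_lit 228) (nat_lit 143)))) (XT.nd (nat_lit 156) (nat_lit 152) (nat_lit 0) (XT.nd (nat_lit 78) (nat_lit 0) (nat_lit 0) (XT.lf (nat_lit 76) (nat_lit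 49482440560) (nat_lit 0) (nat_lit 148267530720) (nat_lit 304) (nat_lit 40700555645) (nat_lit 16) (nat_lit 5) (nat_lit 15) (nat_lit 5) (nat_lit 19) (nat_lit 5) (nat_lit 230) (nat_lit 228) (nat_lit 142)) (XT.lf (nat_lit 76) (nat_lit 161060152660) (nat_lit 0) (nat_lit 62251000669) (nat_lit 304) (nat_lit 34205898794) (nat_lit 16) (nat_lit 5) (nat_lit 15) (nat_lit 5) (nat_lit 19) (nat_lit 5) (nat_lit 231) (nat_lit 228) (nat_lit 141))) (XT.nd (nat_lit 78) (nat_lit 0) (nat_lit 0) (XT.lf (nat_lit 0) (nat_lit 9234593180) (nat_lit 228) (nat_lit 245372481894) (nat_lit 304) (nat_lit 24551399538) (nat_lit 13) (nat_lit 5) (nat_lit 16) (nat_lit 5) (nat_lit 17) (nat_lit 5) (nat_lit 232) (nat_lit 228) (nat_lit 140)) (XT.lf (nat_lit 0) (nat_lit 138366071811) (nat_lit 228) (nat_lit 160102818494) (nat_lit 304) (nat_lit 4396496876) (nat_lit 13) (nat_lit 5) (nat_lit 16) (nat_lit 5) (nat_lit 17) (nat_lit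 5) (nat_lit 233) (nat_lit 228) (nat_lit 139))))) (XT.nd (nat_lit 312) (nat_lit 76) (nat_lit 0) (XT.nd (nat_lit 156) (nat_lit 152) (nat_lit 0) (XT.nd (nat_lit 78) (nat_lit 152) (nat_lit 0) (XT.lf (nat_lit 0) (nat_lit 17109430157) (nat_lit 304) (nat_lit 44038916761) (nat_lit 76) (nat_lit 268863356365) (nat_lit 12) (nat_lit 5) (nat_lit 16) (nat_lit 5) (nat_lit 13) (nat_lit 5) (nat_lit 234) (nat_lit 228) (nat_lit 138)) (XT.lf (nat_lit 0) (nat_lit 48070645919) (nat_lit 228) (nat_lit 259455003862) (nat_lit 76) (nat_lit 52670987528) (nat_lit 10) (nat_lit 5) (nat_lit 13) (nat_lit 5) (nat_lit 11) (nat_lit 5) (nat_lit 235) (nat_lit 228) (nat_lit 137))) (XT.nd (nat_lit 78) (nat_lit 152) (nat_lit 0) (XT.lf (nat_lit 0) (nat_lit 88999414237) (nat_lit 228) (nat_lit 125396950773) (nat_lit 76) (nat_lit 179714442325) (nat_lit 10) (nat_lit 5) (nat_lit 13) (nat_lit 5) (nat_lit 11) (nat_lit 5) (nat_lit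 236) (nat_lit 228) (nat_lit 136)) (XT.lf (nat_lit 0) (nat_lit 31581273976) (nat_lit 152) (nat_lit 105793840672) (nat_lit 228) (nat_lit 295540846929) (nat_lit 8) (nat_lit 5) (nat_lit 10) (nat_lit 5) (nat_lit 11) (nat_lit 5) (nat_lit 237) (nat_lit 228) (nat_lit 135)))) (XT.nd (nat_lit 156) (nat_lit 76) (nat_lit 0) (XT.nd (nat_lit 78) (nat_lit 0) (nat_lit 0) (XT.lf (nat_lit 0) (nat_lit 200664907850) (nat_lit 228) (nat_lit 251462637376) (nat_lit 76) (nat_lit 24265684149) (nat_lit 8) (nat_lit 5) (nat_lit 11) (nat_lit 5) (nat_lit 9) (nat_lit 4) (nat_lit 238) (nat_lit 228) (nat_lit 134)) (XT.lf (nat_lit 0) (nat_lit 278485894063) (nat_lit 228) (nat_lit 84147692466) (nat_lit 76) (nat_lit 163002843145) (nat_lit 8) (nat_lit 5) (nat_lit 11) (nat_lit 5) (nat_lit 9) (nat_lit 4) (nat_lit 239) (nat_lit 228) (nat_lit 133))) (XT.nd (nat_lit 78) (nat_lit 0) (nat_lit 0) (XT.lf (nat_lit 0) (nat_lit 118844782058)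 (nat_lit 76) (nat_lit 254056287395) (nat_lit 152) (nat_lit 208626885194) (nat_lit 7) (nat_lit 5) (nat_lit 8) (nat_lit 5) (nat_lit 9) (nat_lit 4) (nat_lit 240) (nat_lit 228) (nat_lit 132)) (XT.lf (nat_lit 0) (nat_lit 361743088863) (nat_lit 76) (nat_lit 124133998947) (nat_lit 152) (nat_lit 159266336264) (nat_lit 7) (nat_lit 5) (nat_lit 8) (nat_lit 5) (nat_lit 9) (nat_lit 4) (nat_lit 241) (nat_lit 228) (nat_lit 131))))))) (XT.nd (nat_lit 1170) (nat_lit 152) (nat_lit 0) (XT.nd (nat_lit 546) (nat_lit 76) (nat_lit 0) (XT.nd (nat_lit 234) (nat_lit 76) (nat_lit 0) (XT.nd (nat_lit 78) (nat_lit 152) (nat_lit 0) (XT.lf (nat_lit 0) (nat_lit 616846104789) (nat_lit 152) (nat_lit 78271811481) (nat_lit 0) (nat_lit 23026308883) (nat_lit 7) (nat_lit 5) (nat_lit 9) (nat_lit 4) (nat_lit 7) (nat_lit 4) (nat_lit 242) (nat_lit 228) (nat_lit 130)) (XT.nd (nat_lit 78) (nat_lit 76) (nat_lit 0) (XT.lf (nat_lit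 0) (nat_lit 166541442524) (nat_lit 76) (nat_lit 613726252237) (nat_lit 76) (nat_lit 19906369102) (nat_lit 6) (nat_lit 4) (nat_lit 7) (nat_lit 5) (nat_lit 7) (nat_lit 4) (nat_lit 243) (nat_lit 228) (nat_lit 129)) (XT.lf (nat_lit 0) (nat_lit 71419648332) (nat_lit 152) (nat_lit 440267715070) (nat_lit 76) (nat_lit 381720347894) (nat_lit 5) (nat_lit 5) (nat_lit 7) (nat_lit 5) (nat_lit 6) (nat_lit 4) (nat_lit 244) (nat_lit 228) (nat_lit 128)))) (XT.nd (nat_lit 156) (nat_lit 0) (nat_lit 0) (XT.nd (nat_lit 78) (nat_lit 76) (nat_lit 0) (XT.lf (nat_lit 0) (nat_lit 174406493943) (nat_lit 152) (nat_lit 218846062965) (nat_lit 76) (nat_lit 607231667150) (nat_lit 5) (nat_lit 5) (nat_lit 7) (nat_lit 5) (nat_lit 6) (nat_lit 4) (nat_lit 245) (nat_lit 228) (nat_lit 127)) (XT.lf (nat_lit 0) (nat_lit 39286317696) (nat_lit 76) (nat_lit 255181775323) (nat_lit 152) (nat_lit 828910112027) (nat_lit 4) (nat_lit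 5) (nat_lit 5) (nat_lit 5) (nat_lit 6) (nat_lit 4) (nat_lit 246) (nat_lit 228) (nat_lit 126))) (XT.nd (nat_lit 78) (nat_lit 0) (nat_lit 0) (XT.lf (nat_lit 0) (nat_lit 360733812422) (nat_lit 76) (nat_lit 83244766458) (nat_lit 152) (nat_lit 819011757533) (nat_lit 4) (nat_lit 5) (nat_lit 5) (nat_lit 5) (nat_lit 6) (nat_lit 4) (nat_lit 247) (nat_lit 228) (nat_lit 125)) (XT.lf (nat_lit 0) (nat_lit 620656095904) (nat_lit 152) (nat_lit 697886397200) (nat_lit 0) (nat_lit 104290725869) (nat_lit 4) (nat_lit 5) (nat_lit 6) (nat_lit 4) (nat_lit 4) (nat_lit 4) (nat_lit 248) (nat_lit 228) (nat_lit 124))))) (XT.nd (nat_lit 312) (nat_lit 0) (nat_lit 0) (XT.nd (nat_lit 156) (nat_lit 76) (nat_lit 0) (XT.nd (nat_lit 78) (nat_lit 0) (nat_lit 0) (XT.lf (nat_lit 0) (nat_lit 827799250831) (nat_lit 152) (nat_lit 466824833729) (nat_lit 0) (nat_lit 311433848005) (nat_lit 4) (nat_lit 5) (nat_lit 6) (nat_lit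 4) (nat_lit 4) (nat_lit 4) (nat_lit 249) (nat_lit 228) (nat_lit 123)) (XT.lf (nat_lit 0) (nat_lit 1066013856262) (nat_lit 152) (nat_lit 201104075601) (nat_lit 0) (nat_lit 549648424920) (nat_lit 4) (nat_lit 5) (nat_lit 6) (nat_lit 4) (nat_lit 4) (nat_lit 4) (nat_lit 250) (nat_lit 228) (nat_lit 122))) (XT.nd (nat_lit 78) (nat_lit 0) (nat_lit 0) (XT.lf (nat_lit 0) (nat_lit 114684795101) (nat_lit 76) (nat_lit 1230024690433) (nat_lit 76) (nat_lit 713659234295) (nat_lit 3) (nat_lit 4) (nat_lit 4) (nat_lit 5) (nat_lit 4) (nat_lit 4) (nat_lit 251) (nat_lit 228) (nat_lit 121)) (XT.lf (nat_lit 0) (nat_lit 500443319090) (nat_lit 76) (nat_lit 1175278380043) (nat_lit 76) (nat_lit 658912902343) (nat_lit 3) (nat_lit 4) (nat_lit 4) (nat_lit 5) (nat_lit 4) (nat_lit 4) (nat_lit 252) (nat_lit 228) (nat_lit 120)))) (XT.nd (nat_lit 156) (nat_lit 0) (nat_lit 0) (XT.nd (nat_lit 78) (nat_lit 0) (nat_lit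 0) (XT.lf (nat_lit 0) (nat_lit 944065592907) (nat_lit 76) (nat_lit 1112320135724) (nat_lit 76) (nat_lit 595954639276) (nat_lit 3) (nat_lit 4) (nat_lit 4) (nat_lit 5) (nat_lit 4) (nat_lit 4) (nat_lit 253) (nat_lit 228) (nat_lit 119)) (XT.lf (nat_lit 0) (nat_lit 1454231182776) (nat_lit 76) (nat_lit 1039918165742) (nat_lit 76) (nat_lit 523552652989) (nat_lit 3) (nat_lit 4) (nat_lit 4) (nat_lit 5) (nat_lit 4) (nat_lit 4) (nat_lit 254) (nat_lit 228) (nat_lit 118))) (XT.nd (nat_lit 78) (nat_lit 0) (nat_lit 0) (XT.lf (nat_lit 0) (nat_lit 2040921589371) (nat_lit 76) (nat_lit 956655909812) (nat_lit 76) (nat_lit 440290382882) (nat_lit 3) (nat_lit 4) (nat_lit 4) (nat_lit 5) (nat_lit 4) (nat_lit 4) (nat_lit 255) (nat_lit 228) (nat_lit 117)) (XT.lf (nat_lit 0) (nat_lit 2715615538036) (nat_lit 76) (nat_lit 860904323798) (nat_lit 76) (nat_lit 344538784540) (nat_lit 3) (nat_lit 4) (nat_lit 4) (nat_lit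 5) (nat_lit 4) (nat_lit 4) (nat_lit 256) (nat_lit 228) (nat_lit 116)))))) (XT.nd (nat_lit 546) (nat_lit 0) (nat_lit 0) (XT.nd (nat_lit 234) (nat_lit 76) (nat_lit 0) (XT.nd (nat_lit 78) (nat_lit 76) (nat_lit 0) (XT.lf (nat_lit 0) (nat_lit 3491513562551) (nat_lit 76) (nat_lit 750790007103) (nat_lit 76) (nat_lit 234424457126) (nat_lit 3) (nat_lit 4) (nat_lit 4) (nat_lit 5) (nat_lit 4) (nat_lit 4) (nat_lit 257) (nat_lit 228) (nat_lit 115)) (XT.nd (nat_lit 78) (nat_lit 76) (nat_lit 0) (XT.lf (nat_lit 0) (nat_lit 4383796276439) (nat_lit 76) (nat_lit 624158549184) (nat_lit 76) (nat_lit 107792989885) (nat_lit 3) (nat_lit 4) (nat_lit 4) (nat_lit 5) (nat_lit 4) (nat_lit 4) (nat_lit 258) (nat_lit 228) (nat_lit 114)) (XT.lf (nat_lit 0) (nat_lit 34465017228) (nat_lit 152) (nat_lit 442265780364) (nat_lit 76) (nat_lit 5373654787297) (nat_lit 2) (nat_lit 5) (nat_lit 4) (nat_lit 5) (nat_lit 3) (nat_lit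 4) (nat_lit 259) (nat_lit 228) (nat_lit 113)))) (XT.nd (nat_lit 156) (nat_lit 0) (nat_lit 0) (XT.nd (nat_lit 78) (nat_lit 76) (nat_lit 0) (XT.lf (nat_lit 0) (nat_lit 187025770047) (nat_lit 152) (nat_lit 114260168850) (nat_lit 76) (nat_lit 6393163131848) (nat_lit 2) (nat_lit 5) (nat_lit 4) (nat_lit 5) (nat_lit 3) (nat_lit 4) (nat_lit 260) (nat_lit 228) (nat_lit 112)) (XT.lf (nat_lit 0) (nat_lit 288643296680) (nat_lit 76) (nat_lit 85779436930) (nat_lit 152) (nat_lit 7288906531230) (nat_lit 1) (nat_lit 5) (nat_lit 2) (nat_lit 5) (nat_lit 3) (nat_lit 4) (nat_lit 261) (nat_lit 228) (nat_lit 111))) (XT.nd (nat_lit 78) (nat_lit 0) (nat_lit 0) (XT.lf (nat_lit 0) (nat_lit 602896611605) (nat_lit 152) (nat_lit 8018816712350) (nat_lit 0) (nat_lit 153883058637) (nat_lit 1) (nat_lit 5) (nat_lit 3) (nat_lit 4) (nat_lit 1) (nat_lit 4) (nat_lit 262) (nat_lit 228) (nat_lit 110)) (XT.lf (nat_lit 0)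 (nat_lit 869726301686) (nat_lit 152) (nat_lit 8763651812099) (nat_lit 0) (nat_lit 420712744689) (nat_lit 1) (nat_lit 5) (nat_lit 3) (nat_lit 4) (nat_lit 1) (nat_lit 4) (nat_lit 263) (nat_lit 228) (nat_lit 109))))) (XT.nd (nat_lit 546) (nat_lit 0) (nat_lit 0) (XT.nd (nat_lit 156) (nat_lit 0) (nat_lit 0) (XT.nd (nat_lit 78) (nat_lit 0) (nat_lit 0) (XT.lf (nat_lit 0) (nat_lit 1176580441190) (nat_lit 152) (nat_lit 9620212184494) (nat_lit 0) (nat_lit 727566880689) (nat_lit 1) (nat_lit 5) (nat_lit 3) (nat_lit 4) (nat_lit 1) (nat_lit 4) (nat_lit 264) (nat_lit 228) (nat_lit 108)) (XT.lf (nat_lit 0) (nat_lit 1529462698063) (nat_lit 152) (nat_lit 10605256619432) (nat_lit 0) (nat_lit 1080449134514) (nat_lit 1) (nat_lit 5) (nat_lit 3) (nat_lit 4) (nat_lit 1) (nat_lit 4) (nat_lit 265) (nat_lit 228) (nat_lit 107))) (XT.nd (nat_lit 78) (nat_lit 0) (nat_lit 0) (XT.lf (nat_lit 0) (nat_lit 1935277290375)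 (nat_lit 152) (nat_lit 11738057725421) (nat_lit 0) (nat_lit 1486263724176) (nat_lit 1) (nat_lit 5) (nat_lit 3) (nat_lit 4) (nat_lit 1) (nat_lit 4) (nat_lit 266) (nat_lit 228) (nat_lit 106)) (XT.lf (nat_lit 0) (nat_lit 2401964068843) (nat_lit 152) (nat_lit 13040779002362) (nat_lit 0) (nat_lit 1952950500340) (nat_lit 1) (nat_lit 5) (nat_lit 3) (nat_lit 4) (nat_lit 1) (nat_lit 4) (nat_lit 267) (nat_lit 228) (nat_lit 105)))) (XT.nd (nat_lit 156) (nat_lit 0) (nat_lit 0) (XT.nd (nat_lit 78) (nat_lit 0) (nat_lit 0) (XT.lf (nat_lit 0) (nat_lit 5081857451068) (nat_lit 152) (nat_lit 20521501282283) (nat_lit 0) (nat_lit 4632843875986) (nat_lit 1) (nat_lit 5) (nat_lit 3) (nat_lit 4) (nat_lit 1) (nat_lit 4) (nat_lit 271) (nat_lit 228) (nat_lit 101)) (XT.lf (nat_lit 0) (nat_lit 6020531244626) (nat_lit 152) (nat_lit 23141739109691) (nat_lit 0) (nat_lit 5571517668398) (nat_lit 1) (nat_lit 5) (nat_lit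 3) (nat_lit 4) (nat_lit 1) (nat_lit 4) (nat_lit 272) (nat_lit 228) (nat_lit 100))) (XT.nd (nat_lit 78) (nat_lit 0) (nat_lit 0) (XT.lf (nat_lit 0) (nat_lit 7100006106054) (nat_lit 152) (nat_lit 26155012613395) (nat_lit 0) (nat_lit 6650992528831) (nat_lit 1) (nat_lit 5) (nat_lit 3) (nat_lit 4) (nat_lit 1) (nat_lit 4) (nat_lit 273) (nat_lit 228) (nat_lit 99)) (XT.lf (nat_lit 0) (nat_lit 8341402195686) (nat_lit 152) (nat_lit 29620277144554) (nat_lit 0) (nat_lit 7892388617597) (nat_lit 1) (nat_lit 5) (nat_lit 3) (nat_lit 4) (nat_lit 1) (nat_lit 4) (nat_lit 274) (nat_lit 228) (nat_lit 98))))))))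
noncomputable def xc54 : XT := (XT.nd (nat_lit 2340) (nat_lit 152) (nat_lit 0) (XT.nd (nat_lit 1170) (nat_lit 304) (nat_lit 0) (XT.nd (nat_lit 546) (nat_lit 380) (nat_lit 0) (XT.nd (nat_lit 234) (nat_lit 228) (nat_lit 0) (XT.nd (nat_lit 78) (nat_lit 0) (nat_lit 0) (XT.lf (nat_lit 0) (nat_lit 47459440852) (nat_lit 0) (nat_lit 47459440852) (nat_lit 228) (nat_lit 23601080179) (nat_lit 15) (nat_lit 5) (nat_lit 15) (nat_lit 3) (nat_lit 18) (nat_lit 3) (nat_lit 229) (nat_lit 229) (nat_lit 142)) (XT.nd (nat_lit 78) (nat_lit 0) (nat_lit 0) (XT.lf (nat_lit 0) (nat_lit 204117004617) (nat_lit 228) (nat_lit 49804258932) (nat_lit 304) (nat_lit 890427058) (nat_lit 15) (nat_lit 5) (nat_lit 18) (nat_lit 3) (nat_lit 19) (nat_lit 5) (nat_lit 230) (nat_lit 229) (nat_lit 141)) (XT.lf (nat_lit 76) (nat_lit 56906160298) (nat_lit 0) (nat_lit 170508118167) (nat_lit 304) (nat_lit 46803524906) (nat_lit 16)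 (nat_lit 5) (nat_lit 15) (nat_lit 5) (nat_lit 19) (nat_lit 5) (nat_lit 231) (nat_lit 229) (nat_lit 140)))) (XT.nd (nat_lit 156) (nat_lit 76) (nat_lit 0) (XT.nd (nat_lit 78) (nat_lit 152) (nat_lit 0) (XT.lf (nat_lit 76) (nat_lit 185220352649) (nat_lit 0) (nat_lit 71589048891) (nat_lit 304) (nat_lit 39334945278) (nat_lit 16) (nat_lit 5) (nat_lit 15) (nat_lit 5) (nat_lit 19) (nat_lit 5) (nat_lit 232) (nat_lit 229) (nat_lit 139)) (XT.lf (nat_lit 0) (nat_lit 10621172643) (nat_lit 228) (nat_lit 282178376683) (nat_lit 304) (nat_lit 28232461188) (nat_lit 13) (nat_lit 5) (nat_lit 16) (nat_lit 5) (nat_lit 17) (nat_lit 5) (nat_lit 233) (nat_lit 229) (nat_lit 138))) (XT.nd (nat_lit 78) (nat_lit 76) (nat_lit 0) (XT.lf (nat_lit 0) (nat_lit 159122191701) (nat_lit 228) (nat_lit 184118260838) (nat_lit 304) (nat_lit 5054538120) (nat_lit 13) (nat_lit 5) (nat_lit 16) (nat_lit 5) (nat_lit 17) (nat_lit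 5) (nat_lit 234) (nat_lit 229) (nat_lit 137)) (XT.lf (nat_lit 0) (nat_lit 19676980060) (nat_lit 304) (nat_lit 50643576564) (nat_lit 76) (nat_lit 309192716498) (nat_lit 12) (nat_lit 5) (nat_lit 16) (nat_lit 5) (nat_lit 13) (nat_lit 5) (nat_lit 235) (nat_lit 229) (nat_lit 136))))) (XT.nd (nat_lit 312) (nat_lit 76) (nat_lit 0) (XT.nd (nat_lit 156) (nat_lit 152) (nat_lit 0) (XT.nd (nat_lit 78) (nat_lit 0) (nat_lit 0) (XT.lf (nat_lit 0) (nat_lit 55282280384) (nat_lit 228) (nat_lit 298371965582) (nat_lit 76) (nat_lit 60571717957) (nat_lit 10) (nat_lit 5) (nat_lit 13) (nat_lit 5) (nat_lit 11) (nat_lit 5) (nat_lit 236) (nat_lit 229) (nat_lit 135)) (XT.lf (nat_lit 0) (nat_lit 102350228614) (nat_lit 228) (nat_lit 144205372642) (nat_lit 76) (nat_lit 206671680239) (nat_lit 10) (nat_lit 5) (nat_lit 13) (nat_lit 5) (nat_lit 11) (nat_lit 5) (nat_lit 237) (nat_lit 229) (nat_lit 134))) (XT.nd (nat_lit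 78) (nat_lit 0) (nat_lit 0) (XT.lf (nat_lit 0) (nat_lit 36319534877) (nat_lit 152) (nat_lit 121662675825) (nat_lit 228) (nat_lit 339871010693) (nat_lit 8) (nat_lit 5) (nat_lit 10) (nat_lit 5) (nat_lit 11) (nat_lit 5) (nat_lit 238) (nat_lit 229) (nat_lit 133)) (XT.lf (nat_lit 0) (nat_lit 230765373448) (nat_lit 228) (nat_lit 289180994507) (nat_lit 76) (nat_lit 27905727638) (nat_lit 8) (nat_lit 5) (nat_lit 11) (nat_lit 5) (nat_lit 9) (nat_lit 4) (nat_lit 239) (nat_lit 229) (nat_lit 132)))) (XT.nd (nat_lit 156) (nat_lit 0) (nat_lit 0) (XT.nd (nat_lit 78) (nat_lit 76) (nat_lit 0) (XT.lf (nat_lit 0) (nat_lit 320259412451) (nat_lit 228) (nat_lit 96768943314) (nat_lit 76) (nat_lit 187453435588) (nat_lit 8) (nat_lit 5) (nat_lit 11) (nat_lit 5) (nat_lit 9) (nat_lit 4) (nat_lit 240) (nat_lit 229) (nat_lit 131)) (XT.lf (nat_lit 0) (nat_lit 136672361342) (nat_lit 76) (nat_lit 292164455768) (nat_lit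 152) (nat_lit 239920236013) (nat_lit 7) (nat_lit 5) (nat_lit 8) (nat_lit 5) (nat_lit 9) (nat_lit 4) (nat_lit 241) (nat_lit 229) (nat_lit 130))) (XT.nd (nat_lit 78) (nat_lit 0) (nat_lit 0) (XT.lf (nat_lit 0) (nat_lit 416005301737) (nat_lit 76) (nat_lit 142753859888) (nat_lit 152) (nat_lit 183155693695) (nat_lit 7) (nat_lit 5) (nat_lit 8) (nat_lit 5) (nat_lit 9) (nat_lit 4) (nat_lit 242) (nat_lit 229) (nat_lit 129)) (XT.lf (nat_lit 0) (nat_lit 709373473146) (nat_lit 152) (nat_lit 90011868406) (nat_lit 0) (nat_lit 26480444461) (nat_lit 7) (nat_lit 5) (nat_lit 9) (nat_lit 4) (nat_lit 7) (nat_lit 4) (nat_lit 243) (nat_lit 229) (nat_lit 128)))))) (XT.nd (nat_lit 546) (nat_lit 76) (nat_lit 0) (XT.nd (nat_lit 234) (nat_lit 76) (nat_lit 0) (XT.nd (nat_lit 78) (nat_lit 76) (nat_lit 0) (XT.lf (nat_lit 0) (nat_lit 191523341209) (nat_lit 76) (nat_lit 705784929617) (nat_lit 76) (nat_lit 22891834975)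 (nat_lit 6) (nat_lit 4) (nat_lit 7) (nat_lit 5) (nat_lit 7) (nat_lit 4) (nat_lit 244) (nat_lit 229) (nat_lit 127)) (XT.nd (nat_lit 78) (nat_lit 0) (nat_lit 0) (XT.lf (nat_lit 0) (nat_lit 82132983334) (nat_lit 152) (nat_lit 506307237827) (nat_lit 76) (nat_lit 438978585368) (nat_lit 5) (nat_lit 5) (nat_lit 7) (nat_lit 5) (nat_lit 6) (nat_lit 4) (nat_lit 245) (nat_lit 229) (nat_lit 126)) (XT.lf (nat_lit 0) (nat_lit 200567805209) (nat_lit 152) (nat_lit 251672420669) (nat_lit 76) (nat_lit 698316578344) (nat_lit 5) (nat_lit 5) (nat_lit 7) (nat_lit 5) (nat_lit 6) (nat_lit 4) (nat_lit 246) (nat_lit 229) (nat_lit 125)))) (XT.nd (nat_lit 156) (nat_lit 0) (nat_lit 0) (XT.nd (nat_lit 78) (nat_lit 0) (nat_lit 0) (XT.lf (nat_lit 0) (nat_lit 45179792013) (nat_lit 76) (nat_lit 293458829963) (nat_lit 152) (nat_lit 953246264083) (nat_lit 4) (nat_lit 5) (nat_lit 5) (nat_lit 5) (nat_lit 6) (nat_lit 4)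 (nat_lit 247) (nat_lit 229) (nat_lit 124)) (XT.lf (nat_lit 0) (nat_lit 414844342253) (nat_lit 76) (nat_lit 95731297376) (nat_lit 152) (nat_lit 941863203990) (nat_lit 4) (nat_lit 5) (nat_lit 5) (nat_lit 5) (nat_lit 6) (nat_lit 4) (nat_lit 248) (nat_lit 229) (nat_lit 123))) (XT.nd (nat_lit 78) (nat_lit 0) (nat_lit 0) (XT.lf (nat_lit 0) (nat_lit 713754755105) (nat_lit 152) (nat_lit 802568927560) (nat_lit 0) (nat_lit 119934480546) (nat_lit 4) (nat_lit 5) (nat_lit 6) (nat_lit 4) (nat_lit 4) (nat_lit 4) (nat_lit 249) (nat_lit 229) (nat_lit 122)) (XT.lf (nat_lit 0) (nat_lit 951969351339) (nat_lit 152) (nat_lit 536848185554) (nat_lit 0) (nat_lit 358149051984) (nat_lit 4) (nat_lit 5) (nat_lit 6) (nat_lit 4) (nat_lit 4) (nat_lit 4) (nat_lit 250) (nat_lit 229) (nat_lit 121))))) (XT.nd (nat_lit 312) (nat_lit 0) (nat_lit 0) (XT.nd (nat_lit 156) (nat_lit 0) (nat_lit 0) (XT.nd (nat_lit 78) (nat_lit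 76) (nat_lit 0) (XT.lf (nat_lit 0) (nat_lit 1225916119816) (nat_lit 152) (nat_lit 231269362389) (nat_lit 0) (nat_lit 632095798900) (nat_lit 4) (nat_lit 5) (nat_lit 6) (nat_lit 4) (nat_lit 4) (nat_lit 4) (nat_lit 251) (nat_lit 229) (nat_lit 120)) (XT.lf (nat_lit 0) (nat_lit 131887824165) (nat_lit 76) (nat_lit 1414528257997) (nat_lit 76) (nat_lit 820707918332) (nat_lit 3) (nat_lit 4) (nat_lit 4) (nat_lit 5) (nat_lit 4) (nat_lit 4) (nat_lit 252) (nat_lit 229) (nat_lit 119))) (XT.nd (nat_lit 78) (nat_lit 0) (nat_lit 0) (XT.lf (nat_lit 0) (nat_lit 575510086345) (nat_lit 76) (nat_lit 1351570018787) (nat_lit 76) (nat_lit 757749662818) (nat_lit 3) (nat_lit 4) (nat_lit 4) (nat_lit 5) (nat_lit 4) (nat_lit 4) (nat_lit 253) (nat_lit 229) (nat_lit 118)) (XT.lf (nat_lit 0) (nat_lit 1085675666096) (nat_lit 76) (nat_lit 1279168053247) (nat_lit 76) (nat_lit 685347683100) (nat_lit 3) (nat_lit 4) (nat_lit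 4) (nat_lit 5) (nat_lit 4) (nat_lit 4) (nat_lit 254) (nat_lit 229) (nat_lit 117)))) (XT.nd (nat_lit 156) (nat_lit 0) (nat_lit 0) (XT.nd (nat_lit 78) (nat_lit 0) (nat_lit 0) (XT.lf (nat_lit 0) (nat_lit 1672366063891) (nat_lit 76) (nat_lit 1195905801180) (nat_lit 76) (nat_lit 602085418706) (nat_lit 3) (nat_lit 4) (nat_lit 4) (nat_lit 5) (nat_lit 4) (nat_lit 4) (nat_lit 255) (nat_lit 229) (nat_lit 116)) (XT.lf (nat_lit 0) (nat_lit 2347060004905) (nat_lit 76) (nat_lit 1100154218525) (nat_lit 76) (nat_lit 506333825331) (nat_lit 3) (nat_lit 4) (nat_lit 4) (nat_lit 5) (nat_lit 4) (nat_lit 4) (nat_lit 256) (nat_lit 229) (nat_lit 115))) (XT.nd (nat_lit 78) (nat_lit 0) (nat_lit 0) (XT.lf (nat_lit 0) (nat_lit 3122958022767) (nat_lit 76) (nat_lit 990039904751) (nat_lit 76) (nat_lit 396219502235) (nat_lit 3) (nat_lit 4) (nat_lit 4) (nat_lit 5) (nat_lit 4) (nat_lit 4) (nat_lit 257) (nat_lit 229)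 (nat_lit 114)) (XT.lf (nat_lit 0) (nat_lit 4015240730869) (nat_lit 76) (nat_lit 863408449372) (nat_lit 76) (nat_lit 269588038750) (nat_lit 3) (nat_lit 4) (nat_lit 4) (nat_lit 5) (nat_lit 4) (nat_lit 4) (nat_lit 258) (nat_lit 229) (nat_lit 113))))))) (XT.nd (nat_lit 29250) (nat_lit 0) (nat_lit 304) (XT.nd (nat_lit 546) (nat_lit 0) (nat_lit 0) (XT.nd (nat_lit 234) (nat_lit 76) (nat_lit 0) (XT.nd (nat_lit 78) (nat_lit 76) (nat_lit 0) (XT.lf (nat_lit 0) (nat_lit 5041365834370) (nat_lit 76) (nat_lit 717782280434) (nat_lit 76) (nat_lit 123961862764) (nat_lit 3) (nat_lit 4) (nat_lit 4) (nat_lit 5) (nat_lit 4) (nat_lit 4) (nat_lit 259) (nat_lit 229) (nat_lit 112)) (XT.nd (nat_lit 78) (nat_lit 0) (nat_lit 0) (XT.lf (nat_lit 0) (nat_lit 39634829701) (nat_lit 152) (nat_lit 508605539940) (nat_lit 76) (nat_lit 6179703043645) (nat_lit 2) (nat_lit 5) (nat_lit 4) (nat_lit 5) (nat_lit 3) (nat_lit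 4) (nat_lit 260) (nat_lit 229) (nat_lit 111)) (XT.lf (nat_lit 0) (nat_lit 215079687633) (nat_lit 152) (nat_lit 131399100717) (nat_lit 76) (nat_lit 7352137634889) (nat_lit 2) (nat_lit 5) (nat_lit 4) (nat_lit 5) (nat_lit 3) (nat_lit 4) (nat_lit 261) (nat_lit 229) (nat_lit 110)))) (XT.nd (nat_lit 156) (nat_lit 0) (nat_lit 0) (XT.nd (nat_lit 78) (nat_lit 0) (nat_lit 0) (XT.lf (nat_lit 0) (nat_lit 331939880394) (nat_lit 76) (nat_lit 98646312236) (nat_lit 152) (nat_lit 8382242454321) (nat_lit 1) (nat_lit 5) (nat_lit 2) (nat_lit 5) (nat_lit 3) (nat_lit 4) (nat_lit 262) (nat_lit 229) (nat_lit 109)) (XT.lf (nat_lit 0) (nat_lit 693331147385) (nat_lit 152) (nat_lit 9221639136455) (nat_lit 0) (nat_lit 176965549303) (nat_lit 1) (nat_lit 5) (nat_lit 3) (nat_lit 4) (nat_lit 1) (nat_lit 4) (nat_lit 263) (nat_lit 229) (nat_lit 108))) (XT.nd (nat_lit 78) (nat_lit 0) (nat_lit 0) (XT.lf (nat_lit 0) (nat_lit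 1000185285235) (nat_lit 152) (nat_lit 10078199511959) (nat_lit 0) (nat_lit 483819684106) (nat_lit 1) (nat_lit 5) (nat_lit 3) (nat_lit 4) (nat_lit 1) (nat_lit 4) (nat_lit 264) (nat_lit 229) (nat_lit 107)) (XT.lf (nat_lit 0) (nat_lit 1353067540669) (nat_lit 152) (nat_lit 11063243949600) (nat_lit 0) (nat_lit 836701936891) (nat_lit 1) (nat_lit 5) (nat_lit 3) (nat_lit 4) (nat_lit 1) (nat_lit 4) (nat_lit 265) (nat_lit 229) (nat_lit 106))))) (XT.nd (nat_lit 546) (nat_lit 0) (nat_lit 0) (XT.nd (nat_lit 390) (nat_lit 0) (nat_lit 0) (XT.nd (nat_lit 78) (nat_lit 0) (nat_lit 0) (XT.lf (nat_lit 0) (nat_lit 1758882131730) (nat_lit 152) (nat_lit 12196045057939) (nat_lit 0) (nat_lit 1242516525647) (nat_lit 1) (nat_lit 5) (nat_lit 3) (nat_lit 4) (nat_lit 1) (nat_lit 4) (nat_lit 266) (nat_lit 229) (nat_lit 105)) (XT.lf (nat_lit 0) (nat_lit 2225568909111) (nat_lit 152) (nat_lit 13498766336924) (nat_lit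 0) (nat_lit 1709203301024) (nat_lit 1) (nat_lit 5) (nat_lit 3) (nat_lit 4) (nat_lit 1) (nat_lit 4) (nat_lit 267) (nat_lit 229) (nat_lit 104))) (XT.nd (nat_lit 78) (nat_lit 0) (nat_lit 0) (XT.lf (nat_lit 0) (nat_lit 4905462288230) (nat_lit 152) (nat_lit 20979488622679) (nat_lit 0) (nat_lit 4389096674423) (nat_lit 1) (nat_lit 5) (nat_lit 3) (nat_lit 4) (nat_lit 1) (nat_lit 4) (nat_lit 271) (nat_lit 229) (nat_lit 100)) (XT.lf (nat_lit 0) (nat_lit 5844136081247) (nat_lit 152) (nat_lit 23599726451103) (nat_lit 0) (nat_lit 5327770466444) (nat_lit 1) (nat_lit 5) (nat_lit 3) (nat_lit 4) (nat_lit 1) (nat_lit 4) (nat_lit 272) (nat_lit 229) (nat_lit 99)))) (XT.nd (nat_lit 28002) (nat_lit 0) (nat_lit 1064) (XT.nd (nat_lit 27924) (nat_lit 0) (nat_lit 1064) (XT.lf (nat_lit 0) (nat_lit 6923610942205) (nat_lit 152) (nat_lit 26612999955691) (nat_lit 0) (nat_lit 6407245326536) (nat_lit 1) (nat_lit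 5) (nat_lit 3) (nat_lit 4) (nat_lit 1) (nat_lit 4) (nat_lit 273) (nat_lit 229) (nat_lit 98)) (XT.lf (nat_lit 0) (nat_lit 54578805119) (nat_lit 0) (nat_lit 54578805119) (nat_lit 228) (nat_lit 27140196053) (nat_lit 15) (nat_lit 5) (nat_lit 15) (nat_lit 3) (nat_lit 18) (nat_lit 3) (nat_lit 230) (nat_lit 230) (nat_lit 140))) (XT.nd (nat_lit 78) (nat_lit 0) (nat_lit 0) (XT.lf (nat_lit 0) (nat_lit 234736081781) (nat_lit 228) (nat_lit 57273825475) (nat_lit 304) (nat_lit 1023281131) (nat_lit 15) (nat_lit 5) (nat_lit 18) (nat_lit 3) (nat_lit 19) (nat_lit 5) (nat_lit 231) (nat_lit 230) (nat_lit 139)) (XT.lf (nat_lit 76) (nat_lit 65443107899) (nat_lit 0) (nat_lit 196084682085) (nat_lit 304) (nat_lit 53822455090) (nat_lit 16) (nat_lit 5) (nat_lit 15) (nat_lit 5) (nat_lit 19) (nat_lit 5) (nat_lit 232) (nat_lit 230) (nat_lit 138)))))) (XT.nd (nat_lit 546) (nat_lit 228) (nat_lit 0) (XT.nd (nat_lit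 234) (nat_lit 380) (nat_lit 0) (XT.nd (nat_lit 78) (nat_lit 152) (nat_lit 0) (XT.lf (nat_lit 76) (nat_lit 213004295595) (nat_lit 0) (nat_lit 82327707262) (nat_lit 304) (nat_lit 45233797024) (nat_lit 16) (nat_lit 5) (nat_lit 15) (nat_lit 5) (nat_lit 19) (nat_lit 5) (nat_lit 233) (nat_lit 230) (nat_lit 137)) (XT.nd (nat_lit 78) (nat_lit 0) (nat_lit 0) (XT.lf (nat_lit 0) (nat_lit 12215399946) (nat_lit 228) (nat_lit 324505150203) (nat_lit 304) (nat_lit 32466084030) (nat_lit 13) (nat_lit 5) (nat_lit 16) (nat_lit 5) (nat_lit 17) (nat_lit 5) (nat_lit 234) (nat_lit 230) (nat_lit 136)) (XT.lf (nat_lit 0) (nat_lit 182991434723) (nat_lit 228) (nat_lit 211736014762) (nat_lit 304) (nat_lit 5811635067) (nat_lit 13) (nat_lit 5) (nat_lit 16) (nat_lit 5) (nat_lit 17) (nat_lit 5) (nat_lit 235) (nat_lit 230) (nat_lit 135)))) (XT.nd (nat_lit 156) (nat_lit 152) (nat_lit 0) (XT.nd (nat_lit 78) (nat_lit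 152) (nat_lit 0) (XT.lf (nat_lit 0) (nat_lit 22629385579) (nat_lit 304) (nat_lit 58239222529) (nat_lit 76) (nat_lit 355571515601) (nat_lit 12) (nat_lit 5) (nat_lit 16) (nat_lit 5) (nat_lit 13) (nat_lit 5) (nat_lit 236) (nat_lit 230) (nat_lit 134)) (XT.lf (nat_lit 0) (nat_lit 63575406999) (nat_lit 228) (nat_lit 343126785857) (nat_lit 76) (nat_lit 69657537882) (nat_lit 10) (nat_lit 5) (nat_lit 13) (nat_lit 5) (nat_lit 11) (nat_lit 5) (nat_lit 237) (nat_lit 230) (nat_lit 133))) (XT.nd (nat_lit 78) (nat_lit 152) (nat_lit 0) (XT.lf (nat_lit 0) (nat_lit 117703445130) (nat_lit 228) (nat_lit 165835331093) (nat_lit 76) (nat_lit 237672486388) (nat_lit 10) (nat_lit 5) (nat_lit 13) (nat_lit 5) (nat_lit 11) (nat_lit 5) (nat_lit 238) (nat_lit 230) (nat_lit 132)) (XT.lf (nat_lit 0) (nat_lit 41768274034) (nat_lit 152) (nat_lit 139911895008) (nat_lit 228) (nat_lit 390850933922) (nat_lit 8) (nat_lit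 5) (nat_lit 10) (nat_lit 5) (nat_lit 11) (nat_lit 5) (nat_lit 239) (nat_lit 230) (nat_lit 131))))) (XT.nd (nat_lit 312) (nat_lit 152) (nat_lit 0) (XT.nd (nat_lit 156) (nat_lit 76) (nat_lit 0) (XT.nd (nat_lit 78) (nat_lit 0) (nat_lit 0) (XT.lf (nat_lit 0) (nat_lit 265380731011) (nat_lit 228) (nat_lit 332557358447) (nat_lit 76) (nat_lit 32091731107) (nat_lit 8) (nat_lit 5) (nat_lit 11) (nat_lit 5) (nat_lit 9) (nat_lit 4) (nat_lit 240) (nat_lit 230) (nat_lit 130)) (XT.lf (nat_lit 0) (nat_lit 368298803924) (nat_lit 228) (nat_lit 111283601997) (nat_lit 76) (nat_lit 215571576425) (nat_lit 8) (nat_lit 5) (nat_lit 11) (nat_lit 5) (nat_lit 9) (nat_lit 4) (nat_lit 241) (nat_lit 230) (nat_lit 129))) (XT.nd (nat_lit 78) (nat_lit 0) (nat_lit 0) (XT.lf (nat_lit 0) (nat_lit 157173867320) (nat_lit 76) (nat_lit 335988916393) (nat_lit 152) (nat_lit 275907755756) (nat_lit 7) (nat_lit 5) (nat_lit 8)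 (nat_lit 5) (nat_lit 9) (nat_lit 4) (nat_lit 242) (nat_lit 230) (nat_lit 128)) (XT.lf (nat_lit 0) (nat_lit 478406663760) (nat_lit 76) (nat_lit 164166758228) (nat_lit 152) (nat_lit 210628599350) (nat_lit 7) (nat_lit 5) (nat_lit 8) (nat_lit 5) (nat_lit 9) (nat_lit 4) (nat_lit 243) (nat_lit 230) (nat_lit 127)))) (XT.nd (nat_lit 156) (nat_lit 76) (nat_lit 0) (XT.nd (nat_lit 78) (nat_lit 76) (nat_lit 0) (XT.lf (nat_lit 0) (nat_lit 815779836378) (nat_lit 152) (nat_lit 103513108177) (nat_lit 0) (nat_lit 30452654227) (nat_lit 7) (nat_lit 5) (nat_lit 9) (nat_lit 4) (nat_lit 7) (nat_lit 4) (nat_lit 244) (nat_lit 230) (nat_lit 126)) (XT.lf (nat_lit 0) (nat_lit 220252358313) (nat_lit 76) (nat_lit 811652472119) (nat_lit 76) (nat_lit 26325240094) (nat_lit 6) (nat_lit 4) (nat_lit 7) (nat_lit 5) (nat_lit 7) (nat_lit 4) (nat_lit 245) (nat_lit 230) (nat_lit 125))) (XT.nd (nat_lit 78) (nat_lit 0) (nat_lit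 0) (XT.lf (nat_lit 0) (nat_lit 94453224030) (nat_lit 152) (nat_lit 582252843726) (nat_lit 76) (nat_lit 504825513279) (nat_lit 5) (nat_lit 5) (nat_lit 7) (nat_lit 5) (nat_lit 6) (nat_lit 4) (nat_lit 246) (nat_lit 230) (nat_lit 124)) (XT.lf (nat_lit 0) (nat_lit 230653230944) (nat_lit 152) (nat_lit 289422866573) (nat_lit 76) (nat_lit 803064186927) (nat_lit 5) (nat_lit 5) (nat_lit 7) (nat_lit 5) (nat_lit 6) (nat_lit 4) (nat_lit 247) (nat_lit 230) (nat_lit 123))))))))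
noncomputable def xc55 : XT := (XT.nd (nat_lit 30732) (nat_lit 0) (nat_lit 0) (XT.nd (nat_lit 1170) (nat_lit 76) (nat_lit 0) (XT.nd (nat_lit 546) (nat_lit 76) (nat_lit 0) (XT.nd (nat_lit 234) (nat_lit 76) (nat_lit 0) (XT.nd (nat_lit 78) (nat_lit 0) (nat_lit 0) (XT.lf (nat_lit 0) (nat_lit 51957159048) (nat_lit 76) (nat_lit 337477494414) (nat_lit 152) (nat_lit 1096232927893) (nat_lit 4) (nat_lit 5) (nat_lit 5) (nat_lit 5) (nat_lit 6) (nat_lit 4) (nat_lit 248) (nat_lit 230) (nat_lit 122)) (XT.nd (nat_lit 78) (nat_lit 0) (nat_lit 0) (XT.lf (nat_lit 0) (nat_lit 477071339880) (nat_lit 76) (nat_lit 110090852813) (nat_lit 152) (nat_lit 1083142444761) (nat_lit 4) (nat_lit 5) (nat_lit 5) (nat_lit 5) (nat_lit 6) (nat_lit 4) (nat_lit 249) (nat_lit 230) (nat_lit 121)) (XT.lf (nat_lit 0) (nat_lit 820818153486) (nat_lit 152) (nat_lit 922953942142) (nat_lit 0) (nat_lit 137924762871) (nat_lit 4) (nat_lit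 5) (nat_lit 6) (nat_lit 4) (nat_lit 4) (nat_lit 4) (nat_lit 250) (nat_lit 230) (nat_lit 120)))) (XT.nd (nat_lit 156) (nat_lit 76) (nat_lit 0) (XT.nd (nat_lit 78) (nat_lit 0) (nat_lit 0) (XT.lf (nat_lit 0) (nat_lit 1094764915010) (nat_lit 152) (nat_lit 617375131168) (nat_lit 0) (nat_lit 411871505645) (nat_lit 4) (nat_lit 5) (nat_lit 6) (nat_lit 4) (nat_lit 4) (nat_lit 4) (nat_lit 251) (nat_lit 230) (nat_lit 119)) (XT.lf (nat_lit 0) (nat_lit 1409803677763) (nat_lit 152) (nat_lit 265959521340) (nat_lit 0) (nat_lit 726910252095) (nat_lit 4) (nat_lit 5) (nat_lit 6) (nat_lit 4) (nat_lit 4) (nat_lit 4) (nat_lit 252) (nat_lit 230) (nat_lit 118))) (XT.nd (nat_lit 78) (nat_lit 0) (nat_lit 0) (XT.lf (nat_lit 0) (nat_lit 151671232043) (nat_lit 76) (nat_lit 1626707393860) (nat_lit 76) (nat_lit 943813954015) (nat_lit 3) (nat_lit 4) (nat_lit 4) (nat_lit 5) (nat_lit 4) (nat_lit 4) (nat_lit 253) (nat_lit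 230) (nat_lit 117)) (XT.lf (nat_lit 0) (nat_lit 661836802995) (nat_lit 76) (nat_lit 1554305432182) (nat_lit 76) (nat_lit 871411980009) (nat_lit 3) (nat_lit 4) (nat_lit 4) (nat_lit 5) (nat_lit 4) (nat_lit 4) (nat_lit 254) (nat_lit 230) (nat_lit 116))))) (XT.nd (nat_lit 312) (nat_lit 76) (nat_lit 0) (XT.nd (nat_lit 156) (nat_lit 0) (nat_lit 0) (XT.nd (nat_lit 78) (nat_lit 0) (nat_lit 0) (XT.lf (nat_lit 0) (nat_lit 1248527193139) (nat_lit 76) (nat_lit 1471043183475) (nat_lit 76) (nat_lit 788149720581) (nat_lit 3) (nat_lit 4) (nat_lit 4) (nat_lit 5) (nat_lit 4) (nat_lit 4) (nat_lit 255) (nat_lit 230) (nat_lit 115)) (XT.lf (nat_lit 0) (nat_lit 1923221127500) (nat_lit 76) (nat_lit 1375291603740) (nat_lit 76) (nat_lit 692398131525) (nat_lit 3) (nat_lit 4) (nat_lit 4) (nat_lit 5) (nat_lit 4) (nat_lit 4) (nat_lit 256) (nat_lit 230) (nat_lit 114))) (XT.nd (nat_lit 78) (nat_lit 0) (nat_lit 0)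 (XT.lf (nat_lit 0) (nat_lit 2699119139576) (nat_lit 76) (nat_lit 1265177292506) (nat_lit 76) (nat_lit 582283812186) (nat_lit 3) (nat_lit 4) (nat_lit 4) (nat_lit 5) (nat_lit 4) (nat_lit 4) (nat_lit 257) (nat_lit 230) (nat_lit 113)) (XT.lf (nat_lit 0) (nat_lit 3591401842647) (nat_lit 76) (nat_lit 1138545839336) (nat_lit 76) (nat_lit 455652351967) (nat_lit 3) (nat_lit 4) (nat_lit 4) (nat_lit 5) (nat_lit 4) (nat_lit 4) (nat_lit 258) (nat_lit 230) (nat_lit 112)))) (XT.nd (nat_lit 156) (nat_lit 76) (nat_lit 0) (XT.nd (nat_lit 78) (nat_lit 0) (nat_lit 0) (XT.lf (nat_lit 0) (nat_lit 4617526941773) (nat_lit 76) (nat_lit 992919672319) (nat_lit 76) (nat_lit 310026178820) (nat_lit 3) (nat_lit 4) (nat_lit 4) (nat_lit 5) (nat_lit 4) (nat_lit 4) (nat_lit 259) (nat_lit 230) (nat_lit 111)) (XT.lf (nat_lit 0) (nat_lit 5797570797590) (nat_lit 76) (nat_lit 825449583840) (nat_lit 76) (nat_lit 142556085011)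 (nat_lit 3) (nat_lit 4) (nat_lit 4) (nat_lit 5) (nat_lit 4) (nat_lit 4) (nat_lit 260) (nat_lit 230) (nat_lit 110))) (XT.nd (nat_lit 78) (nat_lit 0) (nat_lit 0) (XT.lf (nat_lit 0) (nat_lit 45580099442) (nat_lit 152) (nat_lit 584896289661) (nat_lit 76) (nat_lit 7106658529117) (nat_lit 2) (nat_lit 5) (nat_lit 4) (nat_lit 5) (nat_lit 3) (nat_lit 4) (nat_lit 261) (nat_lit 230) (nat_lit 109)) (XT.lf (nat_lit 0) (nat_lit 247341680156) (nat_lit 152) (nat_lit 151108895156) (nat_lit 76) (nat_lit 8454958305275) (nat_lit 2) (nat_lit 5) (nat_lit 4) (nat_lit 5) (nat_lit 3) (nat_lit 4) (nat_lit 262) (nat_lit 230) (nat_lit 108)))))) (XT.nd (nat_lit 28938) (nat_lit 0) (nat_lit 532) (XT.nd (nat_lit 234) (nat_lit 0) (nat_lit 0) (XT.nd (nat_lit 78) (nat_lit 0) (nat_lit 0) (XT.lf (nat_lit 0) (nat_lit 381730929911) (nat_lit 76) (nat_lit 113443228650) (nat_lit 152) (nat_lit 9639578779677) (nat_lit 1) (nat_lit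 5) (nat_lit 2) (nat_lit 5) (nat_lit 3) (nat_lit 4) (nat_lit 263) (nat_lit 230) (nat_lit 107)) (XT.nd (nat_lit 78) (nat_lit 0) (nat_lit 0) (XT.lf (nat_lit 0) (nat_lit 797330852793) (nat_lit 152) (nat_lit 10604884944355) (nat_lit 0) (nat_lit 203510405798) (nat_lit 1) (nat_lit 5) (nat_lit 3) (nat_lit 4) (nat_lit 1) (nat_lit 4) (nat_lit 264) (nat_lit 230) (nat_lit 106)) (XT.lf (nat_lit 0) (nat_lit 1150213106976) (nat_lit 152) (nat_lit 11589929384345) (nat_lit 0) (nat_lit 556392657677) (nat_lit 1) (nat_lit 5) (nat_lit 3) (nat_lit 4) (nat_lit 1) (nat_lit 4) (nat_lit 265) (nat_lit 230) (nat_lit 105)))) (XT.nd (nat_lit 28548) (nat_lit 0) (nat_lit 1064) (XT.nd (nat_lit 78) (nat_lit 0) (nat_lit 0) (XT.lf (nat_lit 0) (nat_lit 1556027696949) (nat_lit 152) (nat_lit 12722730494729) (nat_lit 0) (nat_lit 962207245646) (nat_lit 1) (nat_lit 5) (nat_lit 3) (nat_lit 4) (nat_lit 1) (nat_lit 4) (nat_lit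 266) (nat_lit 230) (nat_lit 104)) (XT.lf (nat_lit 0) (nat_lit 2022714473385) (nat_lit 152) (nat_lit 14025451775490) (nat_lit 0) (nat_lit 1428894020339) (nat_lit 1) (nat_lit 5) (nat_lit 3) (nat_lit 4) (nat_lit 1) (nat_lit 4) (nat_lit 267) (nat_lit 230) (nat_lit 103))) (XT.nd (nat_lit 78) (nat_lit 0) (nat_lit 0) (XT.lf (nat_lit 0) (nat_lit 62765964744) (nat_lit 0) (nat_lit 62765964744) (nat_lit 228) (nat_lit 31210434419) (nat_lit 15) (nat_lit 5) (nat_lit 15) (nat_lit 3) (nat_lit 18) (nat_lit 3) (nat_lit 231) (nat_lit 231) (nat_lit 138)) (XT.lf (nat_lit 0) (nat_lit 269947648279) (nat_lit 228) (nat_lit 65864088486) (nat_lit 304) (nat_lit 1176236449) (nat_lit 15) (nat_lit 5) (nat_lit 18) (nat_lit 3) (nat_lit 19) (nat_lit 5) (nat_lit 232) (nat_lit 231) (nat_lit 137))))) (XT.nd (nat_lit 312) (nat_lit 380) (nat_lit 0) (XT.nd (nat_lit 156) (nat_lit 152) (nat_lit 0) (XT.nd (nat_lit 78) (nat_lit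 0) (nat_lit 0) (XT.lf (nat_lit 76) (nat_lit 75260348039) (nat_lit 0) (nat_lit 225497646169) (nat_lit 304) (nat_lit 61894614618) (nat_lit 16) (nat_lit 5) (nat_lit 15) (nat_lit 5) (nat_lit 19) (nat_lit 5) (nat_lit 233) (nat_lit 231) (nat_lit 136)) (XT.lf (nat_lit 76) (nat_lit 244955612940) (nat_lit 0) (nat_lit 94677090979) (nat_lit 304) (nat_lit 52017815504) (nat_lit 16) (nat_lit 5) (nat_lit 15) (nat_lit 5) (nat_lit 19) (nat_lit 5) (nat_lit 234) (nat_lit 231) (nat_lit 135))) (XT.nd (nat_lit 78) (nat_lit 0) (nat_lit 0) (XT.lf (nat_lit 0) (nat_lit 14048504952) (nat_lit 228) (nat_lit 373180935601) (nat_lit 304) (nat_lit 37335054224) (nat_lit 13) (nat_lit 5) (nat_lit 16) (nat_lit 5) (nat_lit 17) (nat_lit 5) (nat_lit 235) (nat_lit 231) (nat_lit 134)) (XT.lf (nat_lit 0) (nat_lit 210440841248) (nat_lit 228) (nat_lit 243496428166) (nat_lit 304) (nat_lit 6682560840) (nat_lit 13) (nat_lit 5)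 (nat_lit 16) (nat_lit 5) (nat_lit 17) (nat_lit 5) (nat_lit 236) (nat_lit 231) (nat_lit 133)))) (XT.nd (nat_lit 156) (nat_lit 152) (nat_lit 0) (XT.nd (nat_lit 78) (nat_lit 152) (nat_lit 0) (XT.lf (nat_lit 0) (nat_lit 26024442573) (nat_lit 304) (nat_lit 66974432548) (nat_lit 76) (nat_lit 408907160996) (nat_lit 12) (nat_lit 5) (nat_lit 16) (nat_lit 5) (nat_lit 13) (nat_lit 5) (nat_lit 237) (nat_lit 231) (nat_lit 132)) (XT.lf (nat_lit 0) (nat_lit 73112311287) (nat_lit 228) (nat_lit 394595066826) (nat_lit 76) (nat_lit 80106215619) (nat_lit 10) (nat_lit 5) (nat_lit 13) (nat_lit 5) (nat_lit 11) (nat_lit 5) (nat_lit 238) (nat_lit 231) (nat_lit 131))) (XT.nd (nat_lit 78) (nat_lit 152) (nat_lit 0) (XT.lf (nat_lit 0) (nat_lit 135359477759) (nat_lit 228) (nat_lit 190709989966) (nat_lit 76) (nat_lit 273323400264) (nat_lit 10) (nat_lit 5) (nat_lit 13) (nat_lit 5) (nat_lit 11) (nat_lit 5) (nat_lit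 239) (nat_lit 231) (nat_lit 130)) (XT.lf (nat_lit 0) (nat_lit 48034126803) (nat_lit 152) (nat_lit 160898541496) (nat_lit 228) (nat_lit 449478023255) (nat_lit 8) (nat_lit 5) (nat_lit 10) (nat_lit 5) (nat_lit 11) (nat_lit 5) (nat_lit 240) (nat_lit 231) (nat_lit 129))))))) (XT.nd (nat_lit 1170) (nat_lit 152) (nat_lit 0) (XT.nd (nat_lit 546) (nat_lit 152) (nat_lit 0) (XT.nd (nat_lit 234) (nat_lit 152) (nat_lit 0) (XT.nd (nat_lit 78) (nat_lit 76) (nat_lit 0) (XT.lf (nat_lit 0) (nat_lit 305188257711) (nat_lit 228) (nat_lit 382440368463) (nat_lit 76) (nat_lit 36905599902) (nat_lit 8) (nat_lit 5) (nat_lit 11) (nat_lit 5) (nat_lit 9) (nat_lit 4) (nat_lit 241) (nat_lit 231) (nat_lit 128)) (XT.nd (nat_lit 78) (nat_lit 76) (nat_lit 0) (XT.lf (nat_lit 0) (nat_lit 423543987163) (nat_lit 228) (nat_lit 127975625991) (nat_lit 76) (nat_lit 247907407783) (nat_lit 8) (nat_lit 5) (nat_lit 11) (nat_lit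 5) (nat_lit 9) (nat_lit 4) (nat_lit 242) (nat_lit 231) (nat_lit 127)) (XT.lf (nat_lit 0) (nat_lit 180750440255) (nat_lit 76) (nat_lit 386387096771) (nat_lit 152) (nat_lit 317293529207) (nat_lit 7) (nat_lit 5) (nat_lit 8) (nat_lit 5) (nat_lit 9) (nat_lit 4) (nat_lit 243) (nat_lit 231) (nat_lit 126)))) (XT.nd (nat_lit 156) (nat_lit 152) (nat_lit 0) (XT.nd (nat_lit 78) (nat_lit 0) (nat_lit 0) (XT.lf (nat_lit 0) (nat_lit 550168091878) (nat_lit 76) (nat_lit 188791635370) (nat_lit 152) (nat_lit 242222550198) (nat_lit 7) (nat_lit 5) (nat_lit 8) (nat_lit 5) (nat_lit 9) (nat_lit 4) (nat_lit 244) (nat_lit 231) (nat_lit 125)) (XT.lf (nat_lit 0) (nat_lit 938147070633) (nat_lit 152) (nat_lit 119039665716) (nat_lit 0) (nat_lit 35020660563) (nat_lit 7) (nat_lit 5) (nat_lit 9) (nat_lit 4) (nat_lit 7) (nat_lit 4) (nat_lit 245) (nat_lit 231) (nat_lit 124))) (XT.nd (nat_lit 78) (nat_lit 76) (nat_lit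 0) (XT.lf (nat_lit 0) (nat_lit 253290602171) (nat_lit 76) (nat_lit 933400194021) (nat_lit 76) (nat_lit 30273746240) (nat_lit 6) (nat_lit 4) (nat_lit 7) (nat_lit 5) (nat_lit 7) (nat_lit 4) (nat_lit 246) (nat_lit 231) (nat_lit 123)) (XT.lf (nat_lit 0) (nat_lit 108621429333) (nat_lit 152) (nat_lit 669590407506) (nat_lit 76) (nat_lit 580549446210) (nat_lit 5) (nat_lit 5) (nat_lit 7) (nat_lit 5) (nat_lit 6) (nat_lit 4) (nat_lit 247) (nat_lit 231) (nat_lit 122))))) (XT.nd (nat_lit 312) (nat_lit 76) (nat_lit 0) (XT.nd (nat_lit 156) (nat_lit 0) (nat_lit 0) (XT.nd (nat_lit 78) (nat_lit 76) (nat_lit 0) (XT.lf (nat_lit 0) (nat_lit 265251408367) (nat_lit 152) (nat_lit 332835981099) (nat_lit 76) (nat_lit 923523907088) (nat_lit 5) (nat_lit 5) (nat_lit 7) (nat_lit 5) (nat_lit 6) (nat_lit 4) (nat_lit 248) (nat_lit 231) (nat_lit 121)) (XT.lf (nat_lit 0) (nat_lit 59751034026) (nat_lit 76) (nat_lit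 388098997559) (nat_lit 152) (nat_lit 1260667658530) (nat_lit 4) (nat_lit 5) (nat_lit 5) (nat_lit 5) (nat_lit 6) (nat_lit 4) (nat_lit 249) (nat_lit 231) (nat_lit 120))) (XT.nd (nat_lit 78) (nat_lit 0) (nat_lit 0) (XT.lf (nat_lit 0) (nat_lit 548632302706) (nat_lit 76) (nat_lit 126604375503) (nat_lit 152) (nat_lit 1245613630130) (nat_lit 4) (nat_lit 5) (nat_lit 5) (nat_lit 5) (nat_lit 6) (nat_lit 4) (nat_lit 250) (nat_lit 231) (nat_lit 119)) (XT.lf (nat_lit 0) (nat_lit 943941016483) (nat_lit 152) (nat_lit 1061396788056) (nat_lit 0) (nat_lit 158613560661) (nat_lit 4) (nat_lit 5) (nat_lit 6) (nat_lit 4) (nat_lit 4) (nat_lit 4) (nat_lit 251) (nat_lit 231) (nat_lit 118)))) (XT.nd (nat_lit 156) (nat_lit 76) (nat_lit 0) (XT.nd (nat_lit 78) (nat_lit 0) (nat_lit 0) (XT.lf (nat_lit 0) (nat_lit 1258979773978) (nat_lit 152) (nat_lit 709981187445) (nat_lit 0) (nat_lit 473652303979) (nat_lit 4) (nat_lit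 5) (nat_lit 6) (nat_lit 4) (nat_lit 4) (nat_lit 4) (nat_lit 252) (nat_lit 231) (nat_lit 117)) (XT.lf (nat_lit 0) (nat_lit 1621274335268) (nat_lit 152) (nat_lit 305853263977) (nat_lit 0) (nat_lit 835946852941) (nat_lit 4) (nat_lit 5) (nat_lit 6) (nat_lit 4) (nat_lit 4) (nat_lit 4) (nat_lit 253) (nat_lit 231) (nat_lit 116))) (XT.nd (nat_lit 78) (nat_lit 0) (nat_lit 0) (XT.lf (nat_lit 0) (nat_lit 174422093979) (nat_lit 76) (nat_lit 1870713425180) (nat_lit 76) (nat_lit 1085385932133) (nat_lit 3) (nat_lit 4) (nat_lit 4) (nat_lit 5) (nat_lit 4) (nat_lit 4) (nat_lit 254) (nat_lit 231) (nat_lit 115)) (XT.lf (nat_lit 0) (nat_lit 761112477469) (nat_lit 76) (nat_lit 1787451179393) (nat_lit 76) (nat_lit 1002123677024) (nat_lit 3) (nat_lit 4) (nat_lit 4) (nat_lit 5) (nat_lit 4) (nat_lit 4) (nat_lit 255) (nat_lit 231) (nat_lit 114)))))) (XT.nd (nat_lit 546) (nat_lit 76) (nat_lit 0) (XT.nd (nat_lit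 234) (nat_lit 76) (nat_lit 0) (XT.nd (nat_lit 78) (nat_lit 0) (nat_lit 0) (XT.lf (nat_lit 0) (nat_lit 1435806406045) (nat_lit 76) (nat_lit 1691699602199) (nat_lit 76) (nat_lit 906372091724) (nat_lit 3) (nat_lit 4) (nat_lit 4) (nat_lit 5) (nat_lit 4) (nat_lit 4) (nat_lit 256) (nat_lit 231) (nat_lit 113)) (XT.nd (nat_lit 78) (nat_lit 0) (nat_lit 0) (XT.lf (nat_lit 0) (nat_lit 2211704413090) (nat_lit 76) (nat_lit 1581585293173) (nat_lit 76) (nat_lit 796257775650) (nat_lit 3) (nat_lit 4) (nat_lit 4) (nat_lit 5) (nat_lit 4) (nat_lit 4) (nat_lit 257) (nat_lit 231) (nat_lit 112)) (XT.lf (nat_lit 0) (nat_lit 3103987111786) (nat_lit 76) (nat_lit 1454953841923) (nat_lit 76) (nat_lit 669626318271) (nat_lit 3) (nat_lit 4) (nat_lit 4) (nat_lit 5) (nat_lit 4) (nat_lit 4) (nat_lit 258) (nat_lit 231) (nat_lit 111)))) (XT.nd (nat_lit 156) (nat_lit 76) (nat_lit 0) (XT.nd (nat_lit 78) (nat_lit 0) (nat_lit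 0) (XT.lf (nat_lit 0) (nat_lit 4130112207109) (nat_lit 76) (nat_lit 1309327676576) (nat_lit 76) (nat_lit 524000147594) (nat_lit 3) (nat_lit 4) (nat_lit 4) (nat_lit 5) (nat_lit 4) (nat_lit 4) (nat_lit 259) (nat_lit 231) (nat_lit 110)) (XT.lf (nat_lit 0) (nat_lit 5310156059617) (nat_lit 76) (nat_lit 1141857589549) (nat_lit 76) (nat_lit 356530055933) (nat_lit 3) (nat_lit 4) (nat_lit 4) (nat_lit 5) (nat_lit 4) (nat_lit 4) (nat_lit 260) (nat_lit 231) (nat_lit 109))) (XT.nd (nat_lit 78) (nat_lit 76) (nat_lit 0) (XT.lf (nat_lit 0) (nat_lit 6667206483818) (nat_lit 76) (nat_lit 949266992183) (nat_lit 76) (nat_lit 163939454536) (nat_lit 3) (nat_lit 4) (nat_lit 4) (nat_lit 5) (nat_lit 4) (nat_lit 4) (nat_lit 261) (nat_lit 231) (nat_lit 108)) (XT.lf (nat_lit 0) (nat_lit 52417148600) (nat_lit 152) (nat_lit 672630671658) (nat_lit 76) (nat_lit 8172657330357) (nat_lit 2) (nat_lit 5) (nat_lit 4) (nat_lit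 5) (nat_lit 3) (nat_lit 4) (nat_lit 262) (nat_lit 231) (nat_lit 107))))) (XT.nd (nat_lit 312) (nat_lit 0) (nat_lit 0) (XT.nd (nat_lit 156) (nat_lit 0) (nat_lit 0) (XT.nd (nat_lit 78) (nat_lit 76) (nat_lit 0) (XT.lf (nat_lit 0) (nat_lit 284442961955) (nat_lit 152) (nat_lit 173775175993) (nat_lit 76) (nat_lit 9723202070085) (nat_lit 2) (nat_lit 5) (nat_lit 4) (nat_lit 5) (nat_lit 3) (nat_lit 4) (nat_lit 263) (nat_lit 231) (nat_lit 106)) (XT.lf (nat_lit 0) (nat_lit 438990620405) (nat_lit 76) (nat_lit 130459689945) (nat_lit 152) (nat_lit 11085515564272) (nat_lit 1) (nat_lit 5) (nat_lit 2) (nat_lit 5) (nat_lit 3) (nat_lit 4) (nat_lit 264) (nat_lit 231) (nat_lit 105))) (XT.nd (nat_lit 78) (nat_lit 0) (nat_lit 0) (XT.lf (nat_lit 0) (nat_lit 916930505891) (nat_lit 152) (nat_lit 12195617638697) (nat_lit 0) (nat_lit 234036984889) (nat_lit 1) (nat_lit 5) (nat_lit 3) (nat_lit 4) (nat_lit 1) (nat_lit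 4) (nat_lit 265) (nat_lit 231) (nat_lit 104)) (XT.lf (nat_lit 0) (nat_lit 1322745094918) (nat_lit 152) (nat_lit 13328418750857) (nat_lit 0) (nat_lit 639851572174) (nat_lit 1) (nat_lit 5) (nat_lit 3) (nat_lit 4) (nat_lit 1) (nat_lit 4) (nat_lit 266) (nat_lit 231) (nat_lit 103)))) (XT.nd (nat_lit 28626) (nat_lit 0) (nat_lit 1064) (XT.nd (nat_lit 28548) (nat_lit 0) (nat_lit 1064) (XT.lf (nat_lit 0) (nat_lit 1789431870531) (nat_lit 152) (nat_lit 14631140033164) (nat_lit 0) (nat_lit 1106538346272) (nat_lit 1) (nat_lit 5) (nat_lit 3) (nat_lit 4) (nat_lit 1) (nat_lit 4) (nat_lit 267) (nat_lit 231) (nat_lit 102)) (XT.lf (nat_lit 0) (nat_lit 72181115680) (nat_lit 0) (nat_lit 72181115680) (nat_lit 228) (nat_lit 35891401441) (nat_lit 15) (nat_lit 5) (nat_lit 15) (nat_lit 3) (nat_lit 18) (nat_lit 3) (nat_lit 232) (nat_lit 232) (nat_lit 136))) (XT.nd (nat_lit 78) (nat_lit 0) (nat_lit 0) (XT.lf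 (nat_lit 0) (nat_lit 310440668286) (nat_lit 228) (nat_lit 75743088669) (nat_lit 304) (nat_lit 1352265979) (nat_lit 15) (nat_lit 5) (nat_lit 18) (nat_lit 3) (nat_lit 19) (nat_lit 5) (nat_lit 233) (nat_lit 232) (nat_lit 135)) (XT.lf (nat_lit 76) (nat_lit 86549985467) (nat_lit 0) (nat_lit 259322491032) (nat_lit 304) (nat_lit 71177892833) (nat_lit 16) (nat_lit 5) (nat_lit 15) (nat_lit 5) (nat_lit 19) (nat_lit 5) (nat_lit 234) (nat_lit 232) (nat_lit 134))))))))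
noncomputable def xc56 : XT := (XT.nd (nat_lit 2262) (nat_lit 76) (nat_lit 0) (XT.nd (nat_lit 1092) (nat_lit 228) (nat_lit 0) (XT.nd (nat_lit 546) (nat_lit 228) (nat_lit 0) (XT.nd (nat_lit 234) (nat_lit 380) (nat_lit 0) (XT.nd (nat_lit 78) (nat_lit 152) (nat_lit 0) (XT.lf (nat_lit 76) (nat_lit 281699463769) (nat_lit 0) (nat_lit 108878826745) (nat_lit 304) (nat_lit 59819693066) (nat_lit 16) (nat_lit 5) (nat_lit 15) (nat_lit 5) (nat_lit 19) (nat_lit 5) (nat_lit 235) (nat_lit 232) (nat_lit 133)) (XT.nd (nat_lit 78) (nat_lit 0) (nat_lit 0) (XT.lf (nat_lit 0) (nat_lit 16156381841) (nat_lit 228) (nat_lit 429158085671) (nat_lit 304) (nat_lit 42934599761) (nat_lit 13) (nat_lit 5) (nat_lit 16) (nat_lit 5) (nat_lit 17) (nat_lit 5) (nat_lit 236) (nat_lit 232) (nat_lit 132)) (XT.lf (nat_lit 0) (nat_lit 242007490171) (nat_lit 228) (nat_lit 280020900851) (nat_lit 304) (nat_lit 7684325316) (nat_lit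 13) (nat_lit 5) (nat_lit 16) (nat_lit 5) (nat_lit 17) (nat_lit 5) (nat_lit 237) (nat_lit 232) (nat_lit 131)))) (XT.nd (nat_lit 156) (nat_lit 152) (nat_lit 0) (XT.nd (nat_lit 78) (nat_lit 152) (nat_lit 0) (XT.lf (nat_lit 0) (nat_lit 29928599815) (nat_lit 304) (nat_lit 77020088274) (nat_lit 76) (nat_lit 470243173184) (nat_lit 12) (nat_lit 5) (nat_lit 16) (nat_lit 5) (nat_lit 13) (nat_lit 5) (nat_lit 238) (nat_lit 232) (nat_lit 130)) (XT.lf (nat_lit 0) (nat_lit 84079606554) (nat_lit 228) (nat_lit 453783769641) (nat_lit 76) (nat_lit 92122183542) (nat_lit 10) (nat_lit 5) (nat_lit 13) (nat_lit 5) (nat_lit 11) (nat_lit 5) (nat_lit 239) (nat_lit 232) (nat_lit 129))) (XT.nd (nat_lit 78) (nat_lit 152) (nat_lit 0) (XT.lf (nat_lit 0) (nat_lit 155663789487) (nat_lit 228) (nat_lit 219316003931) (nat_lit 76) (nat_lit 314321941243) (nat_lit 10) (nat_lit 5) (nat_lit 13) (nat_lit 5) (nat_lit 11) (nat_lit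 5) (nat_lit 240) (nat_lit 232) (nat_lit 128)) (XT.lf (nat_lit 0) (nat_lit 55239708329) (nat_lit 152) (nat_lit 185033218552) (nat_lit 228) (nat_lit 516899310293) (nat_lit 8) (nat_lit 5) (nat_lit 10) (nat_lit 5) (nat_lit 11) (nat_lit 5) (nat_lit 241) (nat_lit 232) (nat_lit 127))))) (XT.nd (nat_lit 234) (nat_lit 152) (nat_lit 0) (XT.nd (nat_lit 78) (nat_lit 76) (nat_lit 0) (XT.lf (nat_lit 0) (nat_lit 350966811716) (nat_lit 228) (nat_lit 439805974771) (nat_lit 76) (nat_lit 42441522405) (nat_lit 8) (nat_lit 5) (nat_lit 11) (nat_lit 5) (nat_lit 9) (nat_lit 4) (nat_lit 242) (nat_lit 232) (nat_lit 126)) (XT.nd (nat_lit 78) (nat_lit 76) (nat_lit 0) (XT.lf (nat_lit 0) (nat_lit 487075859454) (nat_lit 228) (nat_lit 147171579489) (nat_lit 76) (nat_lit 285093590705) (nat_lit 8) (nat_lit 5) (nat_lit 11) (nat_lit 5) (nat_lit 9) (nat_lit 4) (nat_lit 243) (nat_lit 232) (nat_lit 125)) (XT.lf (nat_lit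 0) (nat_lit 207863378949) (nat_lit 76) (nat_lit 444345042510) (nat_lit 152) (nat_lit 364887263758) (nat_lit 7) (nat_lit 5) (nat_lit 8) (nat_lit 5) (nat_lit 9) (nat_lit 4) (nat_lit 244) (nat_lit 232) (nat_lit 124)))) (XT.nd (nat_lit 156) (nat_lit 152) (nat_lit 0) (XT.nd (nat_lit 78) (nat_lit 0) (nat_lit 0) (XT.lf (nat_lit 0) (nat_lit 632693629709) (nat_lit 76) (nat_lit 217110277392) (nat_lit 152) (nat_lit 278555676353) (nat_lit 7) (nat_lit 5) (nat_lit 8) (nat_lit 5) (nat_lit 9) (nat_lit 4) (nat_lit 245) (nat_lit 232) (nat_lit 123)) (XT.lf (nat_lit 0) (nat_lit 1078869326916) (nat_lit 152) (nat_lit 136895306547) (nat_lit 0) (nat_lit 40273841464) (nat_lit 7) (nat_lit 5) (nat_lit 9) (nat_lit 4) (nat_lit 7) (nat_lit 4) (nat_lit 246) (nat_lit 232) (nat_lit 122))) (XT.nd (nat_lit 78) (nat_lit 76) (nat_lit 0) (XT.lf (nat_lit 0) (nat_lit 291284487477) (nat_lit 76) (nat_lit 1073410110522) (nat_lit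 76) (nat_lit 34814596555) (nat_lit 6) (nat_lit 4) (nat_lit 7) (nat_lit 5) (nat_lit 7) (nat_lit 4) (nat_lit 247) (nat_lit 232) (nat_lit 121)) (XT.lf (nat_lit 0) (nat_lit 124914811369) (nat_lit 152) (nat_lit 770028694319) (nat_lit 76) (nat_lit 667631943248) (nat_lit 5) (nat_lit 5) (nat_lit 7) (nat_lit 5) (nat_lit 6) (nat_lit 4) (nat_lit 248) (nat_lit 232) (nat_lit 120)))))) (XT.nd (nat_lit 546) (nat_lit 76) (nat_lit 0) (XT.nd (nat_lit 234) (nat_lit 76) (nat_lit 0) (XT.nd (nat_lit 78) (nat_lit 76) (nat_lit 0) (XT.lf (nat_lit 0) (nat_lit 305039265392) (nat_lit 152) (nat_lit 382761139731) (nat_lit 76) (nat_lit 1062052562809) (nat_lit 5) (nat_lit 5) (nat_lit 7) (nat_lit 5) (nat_lit 6) (nat_lit 4) (nat_lit 249) (nat_lit 232) (nat_lit 119)) (XT.nd (nat_lit 78) (nat_lit 0) (nat_lit 0) (XT.lf (nat_lit 0) (nat_lit 68713916821) (nat_lit 76) (nat_lit 446313755687) (nat_lit 152) (nat_lit 1449767649619)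 (nat_lit 4) (nat_lit 5) (nat_lit 5) (nat_lit 5) (nat_lit 6) (nat_lit 4) (nat_lit 250) (nat_lit 232) (nat_lit 118)) (XT.lf (nat_lit 0) (nat_lit 630927346104) (nat_lit 76) (nat_lit 145594952259) (nat_lit 152) (nat_lit 1432455537527) (nat_lit 4) (nat_lit 5) (nat_lit 5) (nat_lit 5) (nat_lit 6) (nat_lit 4) (nat_lit 251) (nat_lit 232) (nat_lit 117)))) (XT.nd (nat_lit 156) (nat_lit 76) (nat_lit 0) (XT.nd (nat_lit 78) (nat_lit 0) (nat_lit 0) (XT.lf (nat_lit 0) (nat_lit 1085532274796) (nat_lit 152) (nat_lit 1220606120701) (nat_lit 0) (nat_lit 182405657792) (nat_lit 4) (nat_lit 5) (nat_lit 6) (nat_lit 4) (nat_lit 4) (nat_lit 4) (nat_lit 252) (nat_lit 232) (nat_lit 116)) (XT.lf (nat_lit 0) (nat_lit 1447826832110) (nat_lit 152) (nat_lit 816478204203) (nat_lit 0) (nat_lit 544700204386) (nat_lit 4) (nat_lit 5) (nat_lit 6) (nat_lit 4) (nat_lit 4) (nat_lit 4) (nat_lit 253) (nat_lit 232) (nat_lit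 115))) (XT.nd (nat_lit 78) (nat_lit 76) (nat_lit 0) (XT.lf (nat_lit 0) (nat_lit 1864465565589) (nat_lit 152) (nat_lit 351731113261) (nat_lit 0) (nat_lit 961338928543) (nat_lit 4) (nat_lit 5) (nat_lit 6) (nat_lit 4) (nat_lit 4) (nat_lit 4) (nat_lit 254) (nat_lit 232) (nat_lit 114)) (XT.lf (nat_lit 0) (nat_lit 200585542010) (nat_lit 76) (nat_lit 2151320380160) (nat_lit 76) (nat_lit 1248193735009) (nat_lit 3) (nat_lit 4) (nat_lit 4) (nat_lit 5) (nat_lit 4) (nat_lit 4) (nat_lit 255) (nat_lit 232) (nat_lit 113))))) (XT.nd (nat_lit 312) (nat_lit 76) (nat_lit 0) (XT.nd (nat_lit 156) (nat_lit 0) (nat_lit 0) (XT.nd (nat_lit 78) (nat_lit 0) (nat_lit 0) (XT.lf (nat_lit 0) (nat_lit 875279465555) (nat_lit 76) (nat_lit 2055568805174) (nat_lit 76) (nat_lit 1152442152974) (nat_lit 3) (nat_lit 4) (nat_lit 4) (nat_lit 5) (nat_lit 4) (nat_lit 4) (nat_lit 256) (nat_lit 232) (nat_lit 112)) (XT.lf (nat_lit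 0) (nat_lit 1651177468225) (nat_lit 76) (nat_lit 1945454498069) (nat_lit 76) (nat_lit 1042327839740) (nat_lit 3) (nat_lit 4) (nat_lit 4) (nat_lit 5) (nat_lit 4) (nat_lit 4) (nat_lit 257) (nat_lit 232) (nat_lit 111))) (XT.nd (nat_lit 78) (nat_lit 0) (nat_lit 0) (XT.lf (nat_lit 0) (nat_lit 2543460163118) (nat_lit 76) (nat_lit 1818823048489) (nat_lit 76) (nat_lit 915696384830) (nat_lit 3) (nat_lit 4) (nat_lit 4) (nat_lit 5) (nat_lit 4) (nat_lit 4) (nat_lit 258) (nat_lit 232) (nat_lit 110)) (XT.lf (nat_lit 0) (nat_lit 3569585255132) (nat_lit 76) (nat_lit 1673196884594) (nat_lit 76) (nat_lit 770070216301) (nat_lit 3) (nat_lit 4) (nat_lit 4) (nat_lit 5) (nat_lit 4) (nat_lit 4) (nat_lit 259) (nat_lit 232) (nat_lit 109)))) (XT.nd (nat_lit 156) (nat_lit 76) (nat_lit 0) (XT.nd (nat_lit 78) (nat_lit 0) (nat_lit 0) (XT.lf (nat_lit 0) (nat_lit 4749629104764) (nat_lit 76) (nat_lit 1505726798830)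 (nat_lit 76) (nat_lit 602600126507) (nat_lit 3) (nat_lit 4) (nat_lit 4) (nat_lit 5) (nat_lit 4) (nat_lit 4) (nat_lit 260) (nat_lit 232) (nat_lit 108)) (XT.lf (nat_lit 0) (nat_lit 6106679526464) (nat_lit 76) (nat_lit 1313136202562) (nat_lit 76) (nat_lit 410009526734) (nat_lit 3) (nat_lit 4) (nat_lit 4) (nat_lit 5) (nat_lit 4) (nat_lit 4) (nat_lit 261) (nat_lit 232) (nat_lit 107))) (XT.nd (nat_lit 78) (nat_lit 76) (nat_lit 0) (XT.lf (nat_lit 0) (nat_lit 7667287506742) (nat_lit 76) (nat_lit 1091657018906) (nat_lit 76) (nat_lit 188530340031) (nat_lit 3) (nat_lit 4) (nat_lit 4) (nat_lit 5) (nat_lit 4) (nat_lit 4) (nat_lit 262) (nat_lit 232) (nat_lit 106)) (XT.lf (nat_lit 0) (nat_lit 60279746783) (nat_lit 152) (nat_lit 773525225941) (nat_lit 76) (nat_lit 9398555946448) (nat_lit 2) (nat_lit 5) (nat_lit 4) (nat_lit 5) (nat_lit 3) (nat_lit 4) (nat_lit 263) (nat_lit 232) (nat_lit 105)))))))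 (XT.nd (nat_lit 29796) (nat_lit 0) (nat_lit 152) (XT.nd (nat_lit 29172) (nat_lit 0) (nat_lit 532) (XT.nd (nat_lit 28860) (nat_lit 0) (nat_lit 1064) (XT.nd (nat_lit 78) (nat_lit 76) (nat_lit 0) (XT.lf (nat_lit 0) (nat_lit 327109428763) (nat_lit 152) (nat_lit 199841411986) (nat_lit 76) (nat_lit 11181682394978) (nat_lit 2) (nat_lit 5) (nat_lit 4) (nat_lit 5) (nat_lit 3) (nat_lit 4) (nat_lit 264) (nat_lit 232) (nat_lit 104)) (XT.nd (nat_lit 78) (nat_lit 0) (nat_lit 0) (XT.lf (nat_lit 0) (nat_lit 504839252034) (nat_lit 76) (nat_lit 150028626043) (nat_lit 152) (nat_lit 12748342874446) (nat_lit 1) (nat_lit 5) (nat_lit 2) (nat_lit 5) (nat_lit 3) (nat_lit 4) (nat_lit 265) (nat_lit 232) (nat_lit 103)) (XT.lf (nat_lit 0) (nat_lit 1054470100815) (nat_lit 152) (nat_lit 14024960248727) (nat_lit 0) (nat_lit 269142546401) (nat_lit 1) (nat_lit 5) (nat_lit 3) (nat_lit 4) (nat_lit 1) (nat_lit 4) (nat_lit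 266) (nat_lit 232) (nat_lit 102)))) (XT.nd (nat_lit 156) (nat_lit 0) (nat_lit 0) (XT.nd (nat_lit 78) (nat_lit 0) (nat_lit 0) (XT.lf (nat_lit 0) (nat_lit 83008476775) (nat_lit 0) (nat_lit 83008476775) (nat_lit 228) (nat_lit 41274659376) (nat_lit 15) (nat_lit 5) (nat_lit 15) (nat_lit 3) (nat_lit 18) (nat_lit 3) (nat_lit 233) (nat_lit 233) (nat_lit 134)) (XT.lf (nat_lit 0) (nat_lit 357007428464) (nat_lit 228) (nat_lit 87104088386) (nat_lit 304) (nat_lit 1554798930) (nat_lit 15) (nat_lit 5) (nat_lit 18) (nat_lit 3) (nat_lit 19) (nat_lit 5) (nat_lit 234) (nat_lit 233) (nat_lit 133))) (XT.nd (nat_lit 78) (nat_lit 0) (nat_lit 0) (XT.lf (nat_lit 76) (nat_lit 99532925799) (nat_lit 0) (nat_lit 298221014355) (nat_lit 304) (nat_lit 81853885660) (nat_lit 16) (nat_lit 5) (nat_lit 15) (nat_lit 5) (nat_lit 19) (nat_lit 5) (nat_lit 235) (nat_lit 233) (nat_lit 132)) (XT.lf (nat_lit 76) (nat_lit 323954768127)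 (nat_lit 0) (nat_lit 125210780903) (nat_lit 304) (nat_lit 68792046071) (nat_lit 16) (nat_lit 5) (nat_lit 15) (nat_lit 5) (nat_lit 19) (nat_lit 5) (nat_lit 236) (nat_lit 233) (nat_lit 131))))) (XT.nd (nat_lit 312) (nat_lit 152) (nat_lit 0) (XT.nd (nat_lit 156) (nat_lit 228) (nat_lit 0) (XT.nd (nat_lit 78) (nat_lit 0) (nat_lit 0) (XT.lf (nat_lit 0) (nat_lit 18580293669) (nat_lit 228) (nat_lit 493531805879) (nat_lit 304) (nat_lit 49374250899) (nat_lit 13) (nat_lit 5) (nat_lit 16) (nat_lit 5) (nat_lit 17) (nat_lit 5) (nat_lit 237) (nat_lit 233) (nat_lit 130)) (XT.lf (nat_lit 0) (nat_lit 278309008959) (nat_lit 228) (nat_lit 322024042376) (nat_lit 304) (nat_lit 8836505570) (nat_lit 13) (nat_lit 5) (nat_lit 16) (nat_lit 5) (nat_lit 17) (nat_lit 5) (nat_lit 238) (nat_lit 233) (nat_lit 129))) (XT.nd (nat_lit 78) (nat_lit 152) (nat_lit 0) (XT.lf (nat_lit 0) (nat_lit 34418260945) (nat_lit 304)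 (nat_lit 88572716519) (nat_lit 76) (nat_lit 540779602309) (nat_lit 12) (nat_lit 5) (nat_lit 16) (nat_lit 5) (nat_lit 13) (nat_lit 5) (nat_lit 239) (nat_lit 233) (nat_lit 128)) (XT.lf (nat_lit 0) (nat_lit 96691886723) (nat_lit 228) (nat_lit 521850913757) (nat_lit 76) (nat_lit 105940537978) (nat_lit 10) (nat_lit 5) (nat_lit 13) (nat_lit 5) (nat_lit 11) (nat_lit 5) (nat_lit 240) (nat_lit 233) (nat_lit 127)))) (XT.nd (nat_lit 156) (nat_lit 0) (nat_lit 0) (XT.nd (nat_lit 78) (nat_lit 152) (nat_lit 0) (XT.lf (nat_lit 0) (nat_lit 179013652854) (nat_lit 228) (nat_lit 252213038146) (nat_lit 76) (nat_lit 361470255824) (nat_lit 10) (nat_lit 5) (nat_lit 13) (nat_lit 5) (nat_lit 11) (nat_lit 5) (nat_lit 241) (nat_lit 233) (nat_lit 126)) (XT.lf (nat_lit 0) (nat_lit 63526014300) (nat_lit 152) (nat_lit 212788122568) (nat_lit 228) (nat_lit 594433891941) (nat_lit 8) (nat_lit 5) (nat_lit 10) (nat_lit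 5) (nat_lit 11) (nat_lit 5) (nat_lit 242) (nat_lit 233) (nat_lit 125))) (XT.nd (nat_lit 78) (nat_lit 0) (nat_lit 0) (XT.lf (nat_lit 0) (nat_lit 403612071922) (nat_lit 228) (nat_lit 505776531508) (nat_lit 76) (nat_lit 48807813161) (nat_lit 8) (nat_lit 5) (nat_lit 11) (nat_lit 5) (nat_lit 9) (nat_lit 4) (nat_lit 243) (nat_lit 233) (nat_lit 124)) (XT.lf (nat_lit 0) (nat_lit 560137445719) (nat_lit 228) (nat_lit 169247021213) (nat_lit 76) (nat_lit 327857683567) (nat_lit 8) (nat_lit 5) (nat_lit 11) (nat_lit 5) (nat_lit 9) (nat_lit 4) (nat_lit 244) (nat_lit 233) (nat_lit 123)))))) (XT.nd (nat_lit 546) (nat_lit 76) (nat_lit 0) (XT.nd (nat_lit 234) (nat_lit 228) (nat_lit 0) (XT.nd (nat_lit 78) (nat_lit 0) (nat_lit 0) (XT.lf (nat_lit 0) (nat_lit 239043167573) (nat_lit 76) (nat_lit 510996709075) (nat_lit 152) (nat_lit 419620130388) (nat_lit 7) (nat_lit 5) (nat_lit 8) (nat_lit 5) (nat_lit 9)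 (nat_lit 4) (nat_lit 245) (nat_lit 233) (nat_lit 122)) (XT.nd (nat_lit 78) (nat_lit 0) (nat_lit 0) (XT.lf (nat_lit 0) (nat_lit 727597919192) (nat_lit 76) (nat_lit 249676740903) (nat_lit 152) (nat_lit 320338833951) (nat_lit 7) (nat_lit 5) (nat_lit 8) (nat_lit 5) (nat_lit 9) (nat_lit 4) (nat_lit 246) (nat_lit 233) (nat_lit 121)) (XT.lf (nat_lit 0) (nat_lit 1240699873922) (nat_lit 152) (nat_lit 157429368861) (nat_lit 0) (nat_lit 46314979549) (nat_lit 7) (nat_lit 5) (nat_lit 9) (nat_lit 4) (nat_lit 7) (nat_lit 4) (nat_lit 247) (nat_lit 233) (nat_lit 120)))) (XT.nd (nat_lit 156) (nat_lit 76) (nat_lit 0) (XT.nd (nat_lit 78) (nat_lit 76) (nat_lit 0) (XT.lf (nat_lit 0) (nat_lit 334977383645) (nat_lit 76) (nat_lit 1234421541957) (nat_lit 76) (nat_lit 40036626022) (nat_lit 6) (nat_lit 4) (nat_lit 7) (nat_lit 5) (nat_lit 7) (nat_lit 4) (nat_lit 248) (nat_lit 233) (nat_lit 119)) (XT.lf (nat_lit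 0) (nat_lit 143652159831) (nat_lit 152) (nat_lit 885532791046) (nat_lit 76) (nat_lit 767776795307) (nat_lit 5) (nat_lit 5) (nat_lit 7) (nat_lit 5) (nat_lit 6) (nat_lit 4) (nat_lit 249) (nat_lit 233) (nat_lit 118))) (XT.nd (nat_lit 78) (nat_lit 76) (nat_lit 0) (XT.lf (nat_lit 0) (nat_lit 350795265424) (nat_lit 152) (nat_lit 440175130325) (nat_lit 76) (nat_lit 1221360499901) (nat_lit 5) (nat_lit 5) (nat_lit 7) (nat_lit 5) (nat_lit 6) (nat_lit 4) (nat_lit 250) (nat_lit 233) (nat_lit 117)) (XT.lf (nat_lit 0) (nat_lit 79021176511) (nat_lit 76) (nat_lit 513260749849) (nat_lit 152) (nat_lit 1667232677825) (nat_lit 4) (nat_lit 5) (nat_lit 5) (nat_lit 5) (nat_lit 6) (nat_lit 4) (nat_lit 251) (nat_lit 233) (nat_lit 116))))) (XT.nd (nat_lit 312) (nat_lit 76) (nat_lit 0) (XT.nd (nat_lit 156) (nat_lit 0) (nat_lit 0) (XT.nd (nat_lit 78) (nat_lit 0) (nat_lit 0) (XT.lf (nat_lit 0) (nat_lit 725566597730)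 (nat_lit 76) (nat_lit 167434134931) (nat_lit 152) (nat_lit 1647323764472) (nat_lit 4) (nat_lit 5) (nat_lit 5) (nat_lit 5) (nat_lit 6) (nat_lit 4) (nat_lit 252) (nat_lit 233) (nat_lit 115)) (XT.lf (nat_lit 0) (nat_lit 1248362196046) (nat_lit 152) (nat_lit 1403696898493) (nat_lit 0) (nat_lit 209766554121) (nat_lit 4) (nat_lit 5) (nat_lit 6) (nat_lit 4) (nat_lit 4) (nat_lit 4) (nat_lit 253) (nat_lit 233) (nat_lit 114))) (XT.nd (nat_lit 78) (nat_lit 0) (nat_lit 0) (XT.lf (nat_lit 0) (nat_lit 1665000926518) (nat_lit 152) (nat_lit 938949812822) (nat_lit 0) (nat_lit 626405276488) (nat_lit 4) (nat_lit 5) (nat_lit 6) (nat_lit 4) (nat_lit 4) (nat_lit 4) (nat_lit 254) (nat_lit 233) (nat_lit 113)) (XT.lf (nat_lit 0) (nat_lit 2144135460942) (nat_lit 152) (nat_lit 404490674154) (nat_lit 0) (nat_lit 1105539803863) (nat_lit 4) (nat_lit 5) (nat_lit 6) (nat_lit 4) (nat_lit 4) (nat_lit 4) (nat_lit 255)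 (nat_lit 233) (nat_lit 112)))) (XT.nd (nat_lit 156) (nat_lit 0) (nat_lit 0) (XT.nd (nat_lit 78) (nat_lit 0) (nat_lit 0) (XT.lf (nat_lit 0) (nat_lit 230673474586) (nat_lit 76) (nat_lit 2474018392725) (nat_lit 76) (nat_lit 1435422729517) (nat_lit 3) (nat_lit 4) (nat_lit 4) (nat_lit 5) (nat_lit 4) (nat_lit 4) (nat_lit 256) (nat_lit 233) (nat_lit 111)) (XT.lf (nat_lit 0) (nat_lit 1006571473452) (nat_lit 76) (nat_lit 2363904087290) (nat_lit 76) (nat_lit 1325308418753) (nat_lit 3) (nat_lit 4) (nat_lit 4) (nat_lit 5) (nat_lit 4) (nat_lit 4) (nat_lit 257) (nat_lit 233) (nat_lit 110))) (XT.nd (nat_lit 78) (nat_lit 0) (nat_lit 0) (XT.lf (nat_lit 0) (nat_lit 1898854165037) (nat_lit 76) (nat_lit 2237272639163) (nat_lit 76) (nat_lit 1198676965990) (nat_lit 3) (nat_lit 4) (nat_lit 4) (nat_lit 5) (nat_lit 4) (nat_lit 4) (nat_lit 258) (nat_lit 233) (nat_lit 109)) (XT.lf (nat_lit 0) (nat_lit 2924979254175)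 (nat_lit 76) (nat_lit 2091646476530) (nat_lit 76) (nat_lit 1053050799328) (nat_lit 3) (nat_lit 4) (nat_lit 4) (nat_lit 5) (nat_lit 4) (nat_lit 4) (nat_lit 259) (nat_lit 233) (nat_lit 108))))))))
noncomputable def xc57 : XT := (XT.nd (nat_lit 30966) (nat_lit 0) (nat_lit 0) (XT.nd (nat_lit 29796) (nat_lit 0) (nat_lit 228) (XT.nd (nat_lit 702) (nat_lit 0) (nat_lit 0) (XT.nd (nat_lit 234) (nat_lit 152) (nat_lit 0) (XT.nd (nat_lit 78) (nat_lit 0) (nat_lit 0) (XT.lf (nat_lit 0) (nat_lit 4105023101306) (nat_lit 76) (nat_lit 1924176391864) (nat_lit 76) (nat_lit 885580711158) (nat_lit 3) (nat_lit 4) (nat_lit 4) (nat_lit 5) (nat_lit 4) (nat_lit 4) (nat_lit 260) (nat_lit 233) (nat_lit 107)) (XT.nd (nat_lit 78) (nat_lit 0) (nat_lit 0) (XT.lf (nat_lit 0) (nat_lit 5462073520830) (nat_lit 76) (nat_lit 1731585796551) (nat_lit 76) (nat_lit 692990112797) (nat_lit 3) (nat_lit 4) (nat_lit 4) (nat_lit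 5) (nat_lit 4) (nat_lit 4) (nat_lit 261) (nat_lit 233) (nat_lit 106)) (XT.lf (nat_lit 0) (nat_lit 7022681499217) (nat_lit 76) (nat_lit 1510106613725) (nat_lit 76) (nat_lit 471510927322) (nat_lit 3) (nat_lit 4) (nat_lit 4) (nat_lit 5) (nat_lit 4) (nat_lit 4) (nat_lit 262) (nat_lit 233) (nat_lit 105)))) (XT.nd (nat_lit 156) (nat_lit 76) (nat_lit 0) (XT.nd (nat_lit 78) (nat_lit 76) (nat_lit 0) (XT.lf (nat_lit 0) (nat_lit 8817380670826) (nat_lit 76) (nat_lit 1255405555029) (nat_lit 76) (nat_lit 216809866321) (nat_lit 3) (nat_lit 4) (nat_lit 4) (nat_lit 5) (nat_lit 4) (nat_lit 4) (nat_lit 263) (nat_lit 233) (nat_lit 104)) (XT.lf (nat_lit 0) (nat_lit 69321728378) (nat_lit 152) (nat_lit 889553974697) (nat_lit 76) (nat_lit 10808339350921) (nat_lit 2) (nat_lit 5) (nat_lit 4) (nat_lit 5) (nat_lit 3) (nat_lit 4) (nat_lit 264) (nat_lit 233) (nat_lit 103))) (XT.nd (nat_lit 78) (nat_lit 76) (nat_lit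 0) (XT.lf (nat_lit 0) (nat_lit 376175860102) (nat_lit 152) (nat_lit 229817593232) (nat_lit 76) (nat_lit 12858934765099) (nat_lit 2) (nat_lit 5) (nat_lit 4) (nat_lit 5) (nat_lit 3) (nat_lit 4) (nat_lit 265) (nat_lit 233) (nat_lit 102)) (XT.lf (nat_lit 0) (nat_lit 580565169003) (nat_lit 76) (nat_lit 172532906797) (nat_lit 152) (nat_lit 14660594287113) (nat_lit 1) (nat_lit 5) (nat_lit 2) (nat_lit 5) (nat_lit 3) (nat_lit 4) (nat_lit 266) (nat_lit 233) (nat_lit 101))))) (XT.nd (nat_lit 28782) (nat_lit 0) (nat_lit 836) (XT.nd (nat_lit 28626) (nat_lit 0) (nat_lit 1064) (XT.nd (nat_lit 28548) (nat_lit 0) (nat_lit 1064) (XT.lf (nat_lit 0) (nat_lit 2366523676219) (nat_lit 152) (nat_lit 19349682642298) (nat_lit 0) (nat_lit 1463396982804) (nat_lit 1) (nat_lit 5) (nat_lit 3) (nat_lit 4) (nat_lit 1) (nat_lit 4) (nat_lit 269) (nat_lit 233) (nat_lit 98)) (XT.lf (nat_lit 0) (nat_lit 95459894789) (nat_lit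 0) (nat_lit 95459894789) (nat_lit 228) (nat_lit 47465516293) (nat_lit 15) (nat_lit 5) (nat_lit 15) (nat_lit 3) (nat_lit 18) (nat_lit 3) (nat_lit 234) (nat_lit 234) (nat_lit 132))) (XT.nd (nat_lit 78) (nat_lit 0) (nat_lit 0) (XT.lf (nat_lit 0) (nat_lit 410559041739) (nat_lit 228) (nat_lit 100169351108) (nat_lit 304) (nat_lit 1787786674) (nat_lit 15) (nat_lit 5) (nat_lit 18) (nat_lit 3) (nat_lit 19) (nat_lit 5) (nat_lit 235) (nat_lit 234) (nat_lit 131)) (XT.lf (nat_lit 76) (nat_lit 114463199271) (nat_lit 0) (nat_lit 342954279679) (nat_lit 304) (nat_lit 94131445939) (nat_lit 16) (nat_lit 5) (nat_lit 15) (nat_lit 5) (nat_lit 19) (nat_lit 5) (nat_lit 236) (nat_lit 234) (nat_lit 130)))) (XT.nd (nat_lit 156) (nat_lit 76) (nat_lit 0) (XT.nd (nat_lit 78) (nat_lit 152) (nat_lit 0) (XT.lf (nat_lit 76) (nat_lit 372548274305) (nat_lit 0) (nat_lit 143992496448) (nat_lit 304) (nat_lit 79110398574)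 (nat_lit 16) (nat_lit 5) (nat_lit 15) (nat_lit 5) (nat_lit 19) (nat_lit 5) (nat_lit 237) (nat_lit 234) (nat_lit 129)) (XT.lf (nat_lit 0) (nat_lit 21367681426) (nat_lit 228) (nat_lit 567561582323) (nat_lit 304) (nat_lit 56779981104) (nat_lit 13) (nat_lit 5) (nat_lit 16) (nat_lit 5) (nat_lit 17) (nat_lit 5) (nat_lit 238) (nat_lit 234) (nat_lit 128))) (XT.nd (nat_lit 78) (nat_lit 76) (nat_lit 0) (XT.lf (nat_lit 0) (nat_lit 320055659179) (nat_lit 228) (nat_lit 370327653570) (nat_lit 304) (nat_lit 10161627118) (nat_lit 13) (nat_lit 5) (nat_lit 16) (nat_lit 5) (nat_lit 17) (nat_lit 5) (nat_lit 239) (nat_lit 234) (nat_lit 127)) (XT.lf (nat_lit 0) (nat_lit 39581280735) (nat_lit 304) (nat_lit 101858332884) (nat_lit 76) (nat_lit 621896507228) (nat_lit 12) (nat_lit 5) (nat_lit 16) (nat_lit 5) (nat_lit 13) (nat_lit 5) (nat_lit 240) (nat_lit 234) (nat_lit 126)))))) (XT.nd (nat_lit 546) (nat_lit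 228) (nat_lit 0) (XT.nd (nat_lit 234) (nat_lit 76) (nat_lit 0) (XT.nd (nat_lit 78) (nat_lit 152) (nat_lit 0) (XT.lf (nat_lit 0) (nat_lit 111195926205) (nat_lit 228) (nat_lit 600128232234) (nat_lit 76) (nat_lit 121831639018) (nat_lit 10) (nat_lit 5) (nat_lit 13) (nat_lit 5) (nat_lit 11) (nat_lit 5) (nat_lit 241) (nat_lit 234) (nat_lit 125)) (XT.nd (nat_lit 78) (nat_lit 152) (nat_lit 0) (XT.lf (nat_lit 0) (nat_lit 205865923802) (nat_lit 228) (nat_lit 290044716837) (nat_lit 76) (nat_lit 415690811888) (nat_lit 10) (nat_lit 5) (nat_lit 13) (nat_lit 5) (nat_lit 11) (nat_lit 5) (nat_lit 242) (nat_lit 234) (nat_lit 124)) (XT.lf (nat_lit 0) (nat_lit 73055180884) (nat_lit 152) (nat_lit 244706281395) (nat_lit 228) (nat_lit 683598737625) (nat_lit 8) (nat_lit 5) (nat_lit 10) (nat_lit 5) (nat_lit 11) (nat_lit 5) (nat_lit 243) (nat_lit 234) (nat_lit 123)))) (XT.nd (nat_lit 156) (nat_lit 76) (nat_lit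 0) (XT.nd (nat_lit 78) (nat_lit 0) (nat_lit 0) (XT.lf (nat_lit 0) (nat_lit 464154063012) (nat_lit 228) (nat_lit 581642754539) (nat_lit 76) (nat_lit 56129032314) (nat_lit 8) (nat_lit 5) (nat_lit 11) (nat_lit 5) (nat_lit 9) (nat_lit 4) (nat_lit 244) (nat_lit 234) (nat_lit 122)) (XT.lf (nat_lit 0) (nat_lit 644158219361) (nat_lit 228) (nat_lit 194633851182) (nat_lit 76) (nat_lit 377036377128) (nat_lit 8) (nat_lit 5) (nat_lit 11) (nat_lit 5) (nat_lit 9) (nat_lit 4) (nat_lit 245) (nat_lit 234) (nat_lit 121))) (XT.nd (nat_lit 78) (nat_lit 0) (nat_lit 0) (XT.lf (nat_lit 0) (nat_lit 274899855776) (nat_lit 76) (nat_lit 587646147526) (nat_lit 152) (nat_lit 482562981376) (nat_lit 7) (nat_lit 5) (nat_lit 8) (nat_lit 5) (nat_lit 9) (nat_lit 4) (nat_lit 246) (nat_lit 234) (nat_lit 120)) (XT.lf (nat_lit 0) (nat_lit 836737792347) (nat_lit 76) (nat_lit 287128192986) (nat_lit 152) (nat_lit 368389512461)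 (nat_lit 7) (nat_lit 5) (nat_lit 8) (nat_lit 5) (nat_lit 9) (nat_lit 4) (nat_lit 247) (nat_lit 234) (nat_lit 119))))) (XT.nd (nat_lit 312) (nat_lit 76) (nat_lit 0) (XT.nd (nat_lit 156) (nat_lit 76) (nat_lit 0) (XT.nd (nat_lit 78) (nat_lit 76) (nat_lit 0) (XT.lf (nat_lit 0) (nat_lit 1426804966896) (nat_lit 152) (nat_lit 181043597503) (nat_lit 0) (nat_lit 53262273260) (nat_lit 7) (nat_lit 5) (nat_lit 9) (nat_lit 4) (nat_lit 7) (nat_lit 4) (nat_lit 248) (nat_lit 234) (nat_lit 118)) (XT.lf (nat_lit 0) (nat_lit 385224159848) (nat_lit 76) (nat_lit 1419584708870) (nat_lit 76) (nat_lit 46041998930) (nat_lit 6) (nat_lit 4) (nat_lit 7) (nat_lit 5) (nat_lit 7) (nat_lit 4) (nat_lit 249) (nat_lit 234) (nat_lit 117))) (XT.nd (nat_lit 78) (nat_lit 0) (nat_lit 0) (XT.lf (nat_lit 0) (nat_lit 165200079652) (nat_lit 152) (nat_lit 1018362552864) (nat_lit 76) (nat_lit 882943360404) (nat_lit 5) (nat_lit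 5) (nat_lit 7) (nat_lit 5) (nat_lit 6) (nat_lit 4) (nat_lit 250) (nat_lit 234) (nat_lit 116)) (XT.lf (nat_lit 0) (nat_lit 403414638582) (nat_lit 152) (nat_lit 506201263492) (nat_lit 76) (nat_lit 1404564614713) (nat_lit 5) (nat_lit 5) (nat_lit 7) (nat_lit 5) (nat_lit 6) (nat_lit 4) (nat_lit 251) (nat_lit 234) (nat_lit 115)))) (XT.nd (nat_lit 156) (nat_lit 0) (nat_lit 0) (XT.nd (nat_lit 78) (nat_lit 0) (nat_lit 0) (XT.lf (nat_lit 0) (nat_lit 90874483171) (nat_lit 76) (nat_lit 590249810008) (nat_lit 152) (nat_lit 1917317489338) (nat_lit 4) (nat_lit 5) (nat_lit 5) (nat_lit 5) (nat_lit 6) (nat_lit 4) (nat_lit 252) (nat_lit 234) (nat_lit 114)) (XT.lf (nat_lit 0) (nat_lit 834401700593) (nat_lit 76) (nat_lit 192549209676) (nat_lit 152) (nat_lit 1894422250742) (nat_lit 4) (nat_lit 5) (nat_lit 5) (nat_lit 5) (nat_lit 6) (nat_lit 4) (nat_lit 253) (nat_lit 234) (nat_lit 113))) (XT.nd (nat_lit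 78) (nat_lit 0) (nat_lit 0) (XT.lf (nat_lit 0) (nat_lit 1435616585967) (nat_lit 152) (nat_lit 1614251327171) (nat_lit 0) (nat_lit 241231573278) (nat_lit 4) (nat_lit 5) (nat_lit 6) (nat_lit 4) (nat_lit 4) (nat_lit 4) (nat_lit 254) (nat_lit 234) (nat_lit 112)) (XT.lf (nat_lit 0) (nat_lit 1914751118118) (nat_lit 152) (nat_lit 1079792192488) (nat_lit 0) (nat_lit 720366099299) (nat_lit 4) (nat_lit 5) (nat_lit 6) (nat_lit 4) (nat_lit 4) (nat_lit 4) (nat_lit 255) (nat_lit 234) (nat_lit 111))))))) (XT.nd (nat_lit 1170) (nat_lit 0) (nat_lit 0) (XT.nd (nat_lit 546) (nat_lit 152) (nat_lit 0) (XT.nd (nat_lit 234) (nat_lit 0) (nat_lit 0) (XT.nd (nat_lit 78) (nat_lit 76) (nat_lit 0) (XT.lf (nat_lit 0) (nat_lit 2465755825841) (nat_lit 152) (nat_lit 465164195053) (nat_lit 0) (nat_lit 1271370801693) (nat_lit 4) (nat_lit 5) (nat_lit 6) (nat_lit 4) (nat_lit 4) (nat_lit 4) (nat_lit 256) (nat_lit 234)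 (nat_lit 110)) (XT.nd (nat_lit 78) (nat_lit 0) (nat_lit 0) (XT.lf (nat_lit 0) (nat_lit 265274572352) (nat_lit 76) (nat_lit 2845121118017) (nat_lit 76) (nat_lit 1650736089234) (nat_lit 3) (nat_lit 4) (nat_lit 4) (nat_lit 5) (nat_lit 4) (nat_lit 4) (nat_lit 257) (nat_lit 234) (nat_lit 109)) (XT.lf (nat_lit 0) (nat_lit 1157557261060) (nat_lit 76) (nat_lit 2718489671152) (nat_lit 76) (nat_lit 1524104638339) (nat_lit 3) (nat_lit 4) (nat_lit 4) (nat_lit 5) (nat_lit 4) (nat_lit 4) (nat_lit 258) (nat_lit 234) (nat_lit 108)))) (XT.nd (nat_lit 156) (nat_lit 0) (nat_lit 0) (XT.nd (nat_lit 78) (nat_lit 0) (nat_lit 0) (XT.lf (nat_lit 0) (nat_lit 2183682347696) (nat_lit 76) (nat_lit 2572863509617) (nat_lit 76) (nat_lit 1378478473300) (nat_lit 3) (nat_lit 4) (nat_lit 4) (nat_lit 5) (nat_lit 4) (nat_lit 4) (nat_lit 259) (nat_lit 234) (nat_lit 107)) (XT.lf (nat_lit 0) (nat_lit 3363726192652) (nat_lit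 76) (nat_lit 2405393425906) (nat_lit 76) (nat_lit 1211008386542) (nat_lit 3) (nat_lit 4) (nat_lit 4) (nat_lit 5) (nat_lit 4) (nat_lit 4) (nat_lit 260) (nat_lit 234) (nat_lit 106))) (XT.nd (nat_lit 78) (nat_lit 0) (nat_lit 0) (XT.lf (nat_lit 0) (nat_lit 4720776610285) (nat_lit 76) (nat_lit 2212802831423) (nat_lit 76) (nat_lit 1018417789409) (nat_lit 3) (nat_lit 4) (nat_lit 4) (nat_lit 5) (nat_lit 4) (nat_lit 4) (nat_lit 261) (nat_lit 234) (nat_lit 105)) (XT.lf (nat_lit 0) (nat_lit 6281384587027) (nat_lit 76) (nat_lit 1991323649320) (nat_lit 76) (nat_lit 796938605001) (nat_lit 3) (nat_lit 4) (nat_lit 4) (nat_lit 5) (nat_lit 4) (nat_lit 4) (nat_lit 262) (nat_lit 234) (nat_lit 104))))) (XT.nd (nat_lit 312) (nat_lit 76) (nat_lit 0) (XT.nd (nat_lit 156) (nat_lit 76) (nat_lit 0) (XT.nd (nat_lit 78) (nat_lit 0) (nat_lit 0) (XT.lf (nat_lit 0) (nat_lit 8076083757206) (nat_lit 76) (nat_lit 1736622591251)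 (nat_lit 76) (nat_lit 542237544929) (nat_lit 3) (nat_lit 4) (nat_lit 4) (nat_lit 5) (nat_lit 4) (nat_lit 4) (nat_lit 263) (nat_lit 234) (nat_lit 103)) (XT.lf (nat_lit 0) (nat_lit 10139987800238) (nat_lit 76) (nat_lit 1443716375645) (nat_lit 76) (nat_lit 249331327581) (nat_lit 3) (nat_lit 4) (nat_lit 4) (nat_lit 5) (nat_lit 4) (nat_lit 4) (nat_lit 264) (nat_lit 234) (nat_lit 102))) (XT.nd (nat_lit 78) (nat_lit 0) (nat_lit 0) (XT.lf (nat_lit 0) (nat_lit 79720002439) (nat_lit 152) (nat_lit 1022987044334) (nat_lit 76) (nat_lit 12429590263015) (nat_lit 2) (nat_lit 5) (nat_lit 4) (nat_lit 5) (nat_lit 3) (nat_lit 4) (nat_lit 265) (nat_lit 234) (nat_lit 101)) (XT.lf (nat_lit 0) (nat_lit 432602251991) (nat_lit 152) (nat_lit 264290209115) (nat_lit 76) (nat_lit 14787774988087) (nat_lit 2) (nat_lit 5) (nat_lit 4) (nat_lit 5) (nat_lit 3) (nat_lit 4) (nat_lit 266) (nat_lit 234) (nat_lit 100))))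 (XT.nd (nat_lit 156) (nat_lit 0) (nat_lit 0) (XT.nd (nat_lit 78) (nat_lit 0) (nat_lit 0) (XT.lf (nat_lit 0) (nat_lit 667649966406) (nat_lit 76) (nat_lit 198412832872) (nat_lit 152) (nat_lit 16859683416191) (nat_lit 1) (nat_lit 5) (nat_lit 2) (nat_lit 5) (nat_lit 3) (nat_lit 4) (nat_lit 267) (nat_lit 234) (nat_lit 99)) (XT.lf (nat_lit 0) (nat_lit 1394536735769) (nat_lit 152) (nat_lit 18548009877380) (nat_lit 0) (nat_lit 355941037475) (nat_lit 1) (nat_lit 5) (nat_lit 3) (nat_lit 4) (nat_lit 1) (nat_lit 4) (nat_lit 268) (nat_lit 234) (nat_lit 98))) (XT.nd (nat_lit 78) (nat_lit 0) (nat_lit 0) (XT.lf (nat_lit 0) (nat_lit 2011729991992) (nat_lit 152) (nat_lit 20270858781734) (nat_lit 0) (nat_lit 973134292945) (nat_lit 1) (nat_lit 5) (nat_lit 3) (nat_lit 4) (nat_lit 1) (nat_lit 4) (nat_lit 269) (nat_lit 234) (nat_lit 97)) (XT.lf (nat_lit 0) (nat_lit 2721502235884) (nat_lit 152) (nat_lit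 22252135023176) (nat_lit 0) (nat_lit 1682906536181) (nat_lit 1) (nat_lit 5) (nat_lit 3) (nat_lit 4) (nat_lit 1) (nat_lit 4) (nat_lit 270) (nat_lit 234) (nat_lit 96)))))) (XT.nd (nat_lit 28938) (nat_lit 0) (nat_lit 456) (XT.nd (nat_lit 28626) (nat_lit 0) (nat_lit 912) (XT.nd (nat_lit 28470) (nat_lit 0) (nat_lit 1064) (XT.lf (nat_lit 0) (nat_lit 3537740315694) (nat_lit 152) (nat_lit 24530602702084) (nat_lit 0) (nat_lit 2499144615422) (nat_lit 1) (nat_lit 5) (nat_lit 3) (nat_lit 4) (nat_lit 1) (nat_lit 4) (nat_lit 271) (nat_lit 234) (nat_lit 95)) (XT.nd (nat_lit 78) (nat_lit 0) (nat_lit 0) (XT.lf (nat_lit 0) (nat_lit 109778989780) (nat_lit 0) (nat_lit 109778989780) (nat_lit 228) (nat_lit 54585085144) (nat_lit 15) (nat_lit 5) (nat_lit 15) (nat_lit 3) (nat_lit 18) (nat_lit 3) (nat_lit 235) (nat_lit 235) (nat_lit 130)) (XT.lf (nat_lit 0) (nat_lit 472143275321) (nat_lit 228) (nat_lit 115194488719)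 (nat_lit 304) (nat_lit 2055779177) (nat_lit 15) (nat_lit 5) (nat_lit 18) (nat_lit 3) (nat_lit 19) (nat_lit 5) (nat_lit 236) (nat_lit 235) (nat_lit 129)))) (XT.nd (nat_lit 156) (nat_lit 152) (nat_lit 0) (XT.nd (nat_lit 78) (nat_lit 0) (nat_lit 0) (XT.lf (nat_lit 76) (nat_lit 131632932169) (nat_lit 0) (nat_lit 394397507205) (nat_lit 304) (nat_lit 108250767692) (nat_lit 16) (nat_lit 5) (nat_lit 15) (nat_lit 5) (nat_lit 19) (nat_lit 5) (nat_lit 237) (nat_lit 235) (nat_lit 128)) (XT.lf (nat_lit 76) (nat_lit 428430735458) (nat_lit 0) (nat_lit 165591445328) (nat_lit 304) (nat_lit 90976614762) (nat_lit 16) (nat_lit 5) (nat_lit 15) (nat_lit 5) (nat_lit 19) (nat_lit 5) (nat_lit 238) (nat_lit 235) (nat_lit 127))) (XT.nd (nat_lit 78) (nat_lit 0) (nat_lit 0) (XT.lf (nat_lit 0) (nat_lit 24573093532) (nat_lit 228) (nat_lit 652695823878) (nat_lit 304) (nat_lit 65296670194) (nat_lit 13) (nat_lit 5)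 (nat_lit 16) (nat_lit 5) (nat_lit 17) (nat_lit 5) (nat_lit 239) (nat_lit 235) (nat_lit 126)) (XT.lf (nat_lit 0) (nat_lit 368064234048) (nat_lit 228) (nat_lit 425876805263) (nat_lit 304) (nat_lit 11685603294) (nat_lit 13) (nat_lit 5) (nat_lit 16) (nat_lit 5) (nat_lit 17) (nat_lit 5) (nat_lit 240) (nat_lit 235) (nat_lit 125))))) (XT.nd (nat_lit 312) (nat_lit 76) (nat_lit 0) (XT.nd (nat_lit 156) (nat_lit 152) (nat_lit 0) (XT.nd (nat_lit 78) (nat_lit 152) (nat_lit 0) (XT.lf (nat_lit 0) (nat_lit 45518685056) (nat_lit 304) (nat_lit 117136862694) (nat_lit 76) (nat_lit 715180956525) (nat_lit 12) (nat_lit 5) (nat_lit 16) (nat_lit 5) (nat_lit 13) (nat_lit 5) (nat_lit 241) (nat_lit 235) (nat_lit 124)) (XT.lf (nat_lit 0) (nat_lit 127875509066) (nat_lit 228) (nat_lit 690147226173) (nat_lit 76) (nat_lit 140106400253) (nat_lit 10) (nat_lit 5) (nat_lit 13) (nat_lit 5) (nat_lit 11) (nat_lit 5) (nat_lit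 242) (nat_lit 235) (nat_lit 123))) (XT.nd (nat_lit 78) (nat_lit 152) (nat_lit 0) (XT.lf (nat_lit 0) (nat_lit 236745981008) (nat_lit 228) (nat_lit 333551214887) (nat_lit 76) (nat_lit 478044447047) (nat_lit 10) (nat_lit 5) (nat_lit 13) (nat_lit 5) (nat_lit 11) (nat_lit 5) (nat_lit 243) (nat_lit 235) (nat_lit 122)) (XT.lf (nat_lit 0) (nat_lit 84013657971) (nat_lit 152) (nat_lit 281412178569) (nat_lit 228) (nat_lit 786138368226) (nat_lit 8) (nat_lit 5) (nat_lit 10) (nat_lit 5) (nat_lit 11) (nat_lit 5) (nat_lit 244) (nat_lit 235) (nat_lit 121)))) (XT.nd (nat_lit 156) (nat_lit 76) (nat_lit 0) (XT.nd (nat_lit 78) (nat_lit 0) (nat_lit 0) (XT.lf (nat_lit 0) (nat_lit 533777308798) (nat_lit 228) (nat_lit 668888973621) (nat_lit 76) (nat_lit 64548422836) (nat_lit 8) (nat_lit 5) (nat_lit 11) (nat_lit 5) (nat_lit 9) (nat_lit 4) (nat_lit 245) (nat_lit 235) (nat_lit 120)) (XT.lf (nat_lit 0) (nat_lit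 740782070816) (nat_lit 228) (nat_lit 223828760078) (nat_lit 76) (nat_lit 433591864718) (nat_lit 8) (nat_lit 5) (nat_lit 11) (nat_lit 5) (nat_lit 9) (nat_lit 4) (nat_lit 246) (nat_lit 235) (nat_lit 119))) (XT.nd (nat_lit 78) (nat_lit 0) (nat_lit 0) (XT.lf (nat_lit 0) (nat_lit 316134995252) (nat_lit 76) (nat_lit 675793018304) (nat_lit 152) (nat_lit 554947301119) (nat_lit 7) (nat_lit 5) (nat_lit 8) (nat_lit 5) (nat_lit 9) (nat_lit 4) (nat_lit 247) (nat_lit 235) (nat_lit 118)) (XT.lf (nat_lit 0) (nat_lit 962248601294) (nat_lit 76) (nat_lit 330197377281) (nat_lit 152) (nat_lit 423647828493) (nat_lit 7) (nat_lit 5) (nat_lit 8) (nat_lit 5) (nat_lit 9) (nat_lit 4) (nat_lit 248) (nat_lit 235) (nat_lit 117))))))))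
noncomputable def xc58 : XT := (XT.nd (nat_lit 30888) (nat_lit 0) (nat_lit 0) (XT.nd (nat_lit 1248) (nat_lit 152) (nat_lit 0) (XT.nd (nat_lit 546) (nat_lit 76) (nat_lit 0) (XT.nd (nat_lit 234) (nat_lit 76) (nat_lit 0) (XT.nd (nat_lit 78) (nat_lit 152) (nat_lit 0) (XT.lf (nat_lit 0) (nat_lit 1640825796532) (nat_lit 152) (nat_lit 208200003527) (nat_lit 0) (nat_lit 61251649620) (nat_lit 7) (nat_lit 5) (nat_lit 9) (nat_lit 4) (nat_lit 7) (nat_lit 4) (nat_lit 249) (nat_lit 235) (nat_lit 116)) (XT.nd (nat_lit 78) (nat_lit 76) (nat_lit 0) (XT.lf (nat_lit 0) (nat_lit 443007911353) (nat_lit 76) (nat_lit 1632522366520) (nat_lit 76) (nat_lit 52948207281) (nat_lit 6) (nat_lit 4) (nat_lit 7) (nat_lit 5) (nat_lit 7) (nat_lit 4) (nat_lit 250) (nat_lit 235) (nat_lit 115)) (XT.lf (nat_lit 0) (nat_lit 189980164073) (nat_lit 152) (nat_lit 1171116817200) (nat_lit 76) (nat_lit 1015384899096) (nat_lit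 5) (nat_lit 5) (nat_lit 7) (nat_lit 5) (nat_lit 6) (nat_lit 4) (nat_lit 251) (nat_lit 235) (nat_lit 114)))) (XT.nd (nat_lit 156) (nat_lit 0) (nat_lit 0) (XT.nd (nat_lit 78) (nat_lit 76) (nat_lit 0) (XT.lf (nat_lit 0) (nat_lit 463926897390) (nat_lit 152) (nat_lit 582131349891) (nat_lit 76) (nat_lit 1615249337035) (nat_lit 5) (nat_lit 5) (nat_lit 7) (nat_lit 5) (nat_lit 6) (nat_lit 4) (nat_lit 252) (nat_lit 235) (nat_lit 113)) (XT.lf (nat_lit 0) (nat_lit 104505754084) (nat_lit 76) (nat_lit 678787241948) (nat_lit 152) (nat_lit 2204915044565) (nat_lit 4) (nat_lit 5) (nat_lit 5) (nat_lit 5) (nat_lit 6) (nat_lit 4) (nat_lit 253) (nat_lit 235) (nat_lit 112))) (XT.nd (nat_lit 78) (nat_lit 0) (nat_lit 0) (XT.lf (nat_lit 0) (nat_lit 959562041279) (nat_lit 76) (nat_lit 221431556727) (nat_lit 152) (nat_lit 2178585529072) (nat_lit 4) (nat_lit 5) (nat_lit 5) (nat_lit 5) (nat_lit 6) (nat_lit 4)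 (nat_lit 254) (nat_lit 235) (nat_lit 111)) (XT.lf (nat_lit 0) (nat_lit 1650959119620) (nat_lit 152) (nat_lit 1856388946022) (nat_lit 0) (nat_lit 277416336520) (nat_lit 4) (nat_lit 5) (nat_lit 6) (nat_lit 4) (nat_lit 4) (nat_lit 4) (nat_lit 255) (nat_lit 235) (nat_lit 110))))) (XT.nd (nat_lit 312) (nat_lit 0) (nat_lit 0) (XT.nd (nat_lit 156) (nat_lit 76) (nat_lit 0) (XT.nd (nat_lit 78) (nat_lit 0) (nat_lit 0) (XT.lf (nat_lit 0) (nat_lit 2201963825625) (nat_lit 152) (nat_lit 1241760951601) (nat_lit 0) (nat_lit 828421037890) (nat_lit 4) (nat_lit 5) (nat_lit 6) (nat_lit 4) (nat_lit 4) (nat_lit 4) (nat_lit 256) (nat_lit 235) (nat_lit 109)) (XT.lf (nat_lit 0) (nat_lit 2835619234316) (nat_lit 152) (nat_lit 534938763650) (nat_lit 0) (nat_lit 1462076442552) (nat_lit 4) (nat_lit 5) (nat_lit 6) (nat_lit 4) (nat_lit 4) (nat_lit 4) (nat_lit 257) (nat_lit 235) (nat_lit 108))) (XT.nd (nat_lit 78)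 (nat_lit 0) (nat_lit 0) (XT.lf (nat_lit 0) (nat_lit 305065816108) (nat_lit 76) (nat_lit 3271889260300) (nat_lit 76) (nat_lit 1898346465031) (nat_lit 3) (nat_lit 4) (nat_lit 4) (nat_lit 5) (nat_lit 4) (nat_lit 4) (nat_lit 258) (nat_lit 235) (nat_lit 107)) (XT.lf (nat_lit 0) (nat_lit 1331190900570) (nat_lit 76) (nat_lit 3126263099720) (nat_lit 76) (nat_lit 1752720301404) (nat_lit 3) (nat_lit 4) (nat_lit 4) (nat_lit 5) (nat_lit 4) (nat_lit 4) (nat_lit 259) (nat_lit 235) (nat_lit 106)))) (XT.nd (nat_lit 156) (nat_lit 0) (nat_lit 0) (XT.nd (nat_lit 78) (nat_lit 0) (nat_lit 0) (XT.lf (nat_lit 0) (nat_lit 2511234743634) (nat_lit 76) (nat_lit 2958793016839) (nat_lit 76) (nat_lit 1585250215873) (nat_lit 3) (nat_lit 4) (nat_lit 4) (nat_lit 5) (nat_lit 4) (nat_lit 4) (nat_lit 260) (nat_lit 235) (nat_lit 105)) (XT.lf (nat_lit 0) (nat_lit 3868285159623) (nat_lit 76) (nat_lit 2766202423078) (nat_lit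 76) (nat_lit 1392659619808) (nat_lit 3) (nat_lit 4) (nat_lit 4) (nat_lit 5) (nat_lit 4) (nat_lit 4) (nat_lit 261) (nat_lit 235) (nat_lit 104))) (XT.nd (nat_lit 78) (nat_lit 0) (nat_lit 0) (XT.lf (nat_lit 0) (nat_lit 5428893134935) (nat_lit 76) (nat_lit 2544723241603) (nat_lit 76) (nat_lit 1171180436329) (nat_lit 3) (nat_lit 4) (nat_lit 4) (nat_lit 5) (nat_lit 4) (nat_lit 4) (nat_lit 262) (nat_lit 235) (nat_lit 103)) (XT.lf (nat_lit 0) (nat_lit 7223592303870) (nat_lit 76) (nat_lit 2290022184080) (nat_lit 76) (nat_lit 916479377064) (nat_lit 3) (nat_lit 4) (nat_lit 4) (nat_lit 5) (nat_lit 4) (nat_lit 4) (nat_lit 263) (nat_lit 235) (nat_lit 102)))))) (XT.nd (nat_lit 29016) (nat_lit 0) (nat_lit 684) (XT.nd (nat_lit 234) (nat_lit 76) (nat_lit 0) (XT.nd (nat_lit 78) (nat_lit 76) (nat_lit 0) (XT.lf (nat_lit 0) (nat_lit 11660985992042) (nat_lit 76) (nat_lit 1660273822436) (nat_lit 76) (nat_lit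 286731012587) (nat_lit 3) (nat_lit 4) (nat_lit 4) (nat_lit 5) (nat_lit 4) (nat_lit 4) (nat_lit 265) (nat_lit 235) (nat_lit 100)) (XT.nd (nat_lit 78) (nat_lit 0) (nat_lit 0) (XT.lf (nat_lit 0) (nat_lit 91678013998) (nat_lit 152) (nat_lit 1176435080896) (nat_lit 76) (nat_lit 14294028809617) (nat_lit 2) (nat_lit 5) (nat_lit 4) (nat_lit 5) (nat_lit 3) (nat_lit 4) (nat_lit 266) (nat_lit 235) (nat_lit 99)) (XT.lf (nat_lit 0) (nat_lit 497492599523) (nat_lit 152) (nat_lit 303933723014) (nat_lit 76) (nat_lit 17005941242517) (nat_lit 2) (nat_lit 5) (nat_lit 4) (nat_lit 5) (nat_lit 3) (nat_lit 4) (nat_lit 267) (nat_lit 235) (nat_lit 98)))) (XT.nd (nat_lit 156) (nat_lit 0) (nat_lit 0) (XT.nd (nat_lit 78) (nat_lit 0) (nat_lit 0) (XT.lf (nat_lit 0) (nat_lit 767797478041) (nat_lit 76) (nat_lit 228174750283) (nat_lit 152) (nat_lit 19388635918042) (nat_lit 1) (nat_lit 5) (nat_lit 2) (nat_lit 5) (nat_lit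 3) (nat_lit 4) (nat_lit 268) (nat_lit 235) (nat_lit 97)) (XT.lf (nat_lit 0) (nat_lit 1603717254366) (nat_lit 152) (nat_lit 21330211343521) (nat_lit 0) (nat_lit 409332199053) (nat_lit 1) (nat_lit 5) (nat_lit 3) (nat_lit 4) (nat_lit 1) (nat_lit 4) (nat_lit 269) (nat_lit 235) (nat_lit 96))) (XT.nd (nat_lit 78) (nat_lit 0) (nat_lit 0) (XT.lf (nat_lit 0) (nat_lit 2313489497949) (nat_lit 152) (nat_lit 23311487585545) (nat_lit 0) (nat_lit 1119104442066) (nat_lit 1) (nat_lit 5) (nat_lit 3) (nat_lit 4) (nat_lit 1) (nat_lit 4) (nat_lit 270) (nat_lit 235) (nat_lit 95)) (XT.lf (nat_lit 0) (nat_lit 3129727577490) (nat_lit 152) (nat_lit 25589955264958) (nat_lit 0) (nat_lit 1935342521113) (nat_lit 1) (nat_lit 5) (nat_lit 3) (nat_lit 4) (nat_lit 1) (nat_lit 4) (nat_lit 271) (nat_lit 235) (nat_lit 94))))) (XT.nd (nat_lit 312) (nat_lit 380) (nat_lit 0) (XT.nd (nat_lit 156) (nat_lit 0) (nat_lit 0) (XT.nd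 (nat_lit 78) (nat_lit 0) (nat_lit 0) (XT.lf (nat_lit 0) (nat_lit 126245922007) (nat_lit 0) (nat_lit 126245922007) (nat_lit 228) (nat_lit 62772652382) (nat_lit 15) (nat_lit 5) (nat_lit 15) (nat_lit 3) (nat_lit 18) (nat_lit 3) (nat_lit 236) (nat_lit 236) (nat_lit 128)) (XT.lf (nat_lit 0) (nat_lit 542965051927) (nat_lit 228) (nat_lit 132473461607) (nat_lit 304) (nat_lit 2364013352) (nat_lit 15) (nat_lit 5) (nat_lit 18) (nat_lit 3) (nat_lit 19) (nat_lit 5) (nat_lit 237) (nat_lit 236) (nat_lit 127))) (XT.nd (nat_lit 78) (nat_lit 0) (nat_lit 0) (XT.lf (nat_lit 76) (nat_lit 151378063305) (nat_lit 0) (nat_lit 453557197992) (nat_lit 304) (nat_lit 124488084065) (nat_lit 16) (nat_lit 5) (nat_lit 15) (nat_lit 5) (nat_lit 19) (nat_lit 5) (nat_lit 238) (nat_lit 236) (nat_lit 126)) (XT.lf (nat_lit 76) (nat_lit 492695512133) (nat_lit 0) (nat_lit 190430218393) (nat_lit 304) (nat_lit 104622847167)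 (nat_lit 16) (nat_lit 5) (nat_lit 15) (nat_lit 5) (nat_lit 19) (nat_lit 5) (nat_lit 239) (nat_lit 236) (nat_lit 125)))) (XT.nd (nat_lit 156) (nat_lit 228) (nat_lit 0) (XT.nd (nat_lit 78) (nat_lit 0) (nat_lit 0) (XT.lf (nat_lit 0) (nat_lit 28259254077) (nat_lit 228) (nat_lit 750600200641) (nat_lit 304) (nat_lit 75090937774) (nat_lit 13) (nat_lit 5) (nat_lit 16) (nat_lit 5) (nat_lit 17) (nat_lit 5) (nat_lit 240) (nat_lit 236) (nat_lit 124)) (XT.lf (nat_lit 0) (nat_lit 423274040039) (nat_lit 228) (nat_lit 489758328819) (nat_lit 304) (nat_lit 13438241224) (nat_lit 13) (nat_lit 5) (nat_lit 16) (nat_lit 5) (nat_lit 17) (nat_lit 5) (nat_lit 241) (nat_lit 236) (nat_lit 123))) (XT.nd (nat_lit 78) (nat_lit 152) (nat_lit 0) (XT.lf (nat_lit 0) (nat_lit 52346648276) (nat_lit 304) (nat_lit 134707225654) (nat_lit 76) (nat_lit 822458079748) (nat_lit 12) (nat_lit 5) (nat_lit 16) (nat_lit 5) (nat_lit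 13) (nat_lit 5) (nat_lit 242) (nat_lit 236) (nat_lit 122)) (XT.lf (nat_lit 0) (nat_lit 147056982065) (nat_lit 228) (nat_lit 793669127946) (nat_lit 76) (nat_lit 161122371923) (nat_lit 10) (nat_lit 5) (nat_lit 13) (nat_lit 5) (nat_lit 11) (nat_lit 5) (nat_lit 243) (nat_lit 236) (nat_lit 121))))))) (XT.nd (nat_lit 1170) (nat_lit 228) (nat_lit 0) (XT.nd (nat_lit 546) (nat_lit 228) (nat_lit 0) (XT.nd (nat_lit 234) (nat_lit 76) (nat_lit 0) (XT.nd (nat_lit 78) (nat_lit 152) (nat_lit 0) (XT.lf (nat_lit 0) (nat_lit 272258005672) (nat_lit 228) (nat_lit 383583738726) (nat_lit 76) (nat_lit 549751124218) (nat_lit 10) (nat_lit 5) (nat_lit 13) (nat_lit 5) (nat_lit 11) (nat_lit 5) (nat_lit 244) (nat_lit 236) (nat_lit 120)) (XT.nd (nat_lit 78) (nat_lit 0) (nat_lit 0) (XT.lf (nat_lit 0) (nat_lit 96615857860) (nat_lit 152) (nat_lit 323623971302) (nat_lit 228) (nat_lit 904058987321) (nat_lit 8) (nat_lit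 5) (nat_lit 10) (nat_lit 5) (nat_lit 11) (nat_lit 5) (nat_lit 245) (nat_lit 236) (nat_lit 119)) (XT.lf (nat_lit 0) (nat_lit 613844008206) (nat_lit 228) (nat_lit 769222172898) (nat_lit 76) (nat_lit 74230713237) (nat_lit 8) (nat_lit 5) (nat_lit 11) (nat_lit 5) (nat_lit 9) (nat_lit 4) (nat_lit 246) (nat_lit 236) (nat_lit 118)))) (XT.nd (nat_lit 156) (nat_lit 0) (nat_lit 0) (XT.nd (nat_lit 78) (nat_lit 76) (nat_lit 0) (XT.lf (nat_lit 0) (nat_lit 851899471080) (nat_lit 228) (nat_lit 257402946467) (nat_lit 76) (nat_lit 498630667883) (nat_lit 8) (nat_lit 5) (nat_lit 11) (nat_lit 5) (nat_lit 9) (nat_lit 4) (nat_lit 247) (nat_lit 236) (nat_lit 117)) (XT.lf (nat_lit 0) (nat_lit 363555366362) (nat_lit 76) (nat_lit 777161932222) (nat_lit 152) (nat_lit 638189299907) (nat_lit 7) (nat_lit 5) (nat_lit 8) (nat_lit 5) (nat_lit 9) (nat_lit 4) (nat_lit 248) (nat_lit 236) (nat_lit 116))) (XT.nd (nat_lit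 78) (nat_lit 0) (nat_lit 0) (XT.lf (nat_lit 0) (nat_lit 1106585997420) (nat_lit 76) (nat_lit 379726950110) (nat_lit 152) (nat_lit 487194918958) (nat_lit 7) (nat_lit 5) (nat_lit 8) (nat_lit 5) (nat_lit 9) (nat_lit 4) (nat_lit 249) (nat_lit 236) (nat_lit 115)) (XT.lf (nat_lit 0) (nat_lit 1886949729983) (nat_lit 152) (nat_lit 239429903035) (nat_lit 0) (nat_lit 70439423809) (nat_lit 7) (nat_lit 5) (nat_lit 9) (nat_lit 4) (nat_lit 7) (nat_lit 4) (nat_lit 250) (nat_lit 236) (nat_lit 114))))) (XT.nd (nat_lit 312) (nat_lit 0) (nat_lit 0) (XT.nd (nat_lit 156) (nat_lit 76) (nat_lit 0) (XT.nd (nat_lit 78) (nat_lit 76) (nat_lit 0) (XT.lf (nat_lit 0) (nat_lit 509459194486) (nat_lit 76) (nat_lit 1877400684689) (nat_lit 76) (nat_lit 60890369193) (nat_lit 6) (nat_lit 4) (nat_lit 7) (nat_lit 5) (nat_lit 7) (nat_lit 4) (nat_lit 251) (nat_lit 236) (nat_lit 113)) (XT.lf (nat_lit 0) (nat_lit 218477243485)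 (nat_lit 152) (nat_lit 1346784250107) (nat_lit 76) (nat_lit 1167692660148) (nat_lit 5) (nat_lit 5) (nat_lit 7) (nat_lit 5) (nat_lit 6) (nat_lit 4) (nat_lit 252) (nat_lit 236) (nat_lit 112))) (XT.nd (nat_lit 78) (nat_lit 76) (nat_lit 0) (XT.lf (nat_lit 0) (nat_lit 533515979651) (nat_lit 152) (nat_lit 669450974398) (nat_lit 76) (nat_lit 1857536760361) (nat_lit 5) (nat_lit 5) (nat_lit 7) (nat_lit 5) (nat_lit 6) (nat_lit 4) (nat_lit 253) (nat_lit 236) (nat_lit 111)) (XT.lf (nat_lit 0) (nat_lit 120181691629) (nat_lit 76) (nat_lit 780605298327) (nat_lit 152) (nat_lit 2535652249700) (nat_lit 4) (nat_lit 5) (nat_lit 5) (nat_lit 5) (nat_lit 6) (nat_lit 4) (nat_lit 254) (nat_lit 236) (nat_lit 110)))) (XT.nd (nat_lit 156) (nat_lit 0) (nat_lit 0) (XT.nd (nat_lit 78) (nat_lit 0) (nat_lit 0) (XT.lf (nat_lit 0) (nat_lit 1103496412195) (nat_lit 76) (nat_lit 254646264225) (nat_lit 152) (nat_lit 2505373313607)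 (nat_lit 4) (nat_lit 5) (nat_lit 5) (nat_lit 5) (nat_lit 6) (nat_lit 4) (nat_lit 255) (nat_lit 236) (nat_lit 109)) (XT.lf (nat_lit 0) (nat_lit 1898603022163) (nat_lit 152) (nat_lit 2134847227264) (nat_lit 0) (nat_lit 319028807604) (nat_lit 4) (nat_lit 5) (nat_lit 6) (nat_lit 4) (nat_lit 4) (nat_lit 4) (nat_lit 256) (nat_lit 236) (nat_lit 108))) (XT.nd (nat_lit 78) (nat_lit 0) (nat_lit 0) (XT.lf (nat_lit 0) (nat_lit 2532258429555) (nat_lit 152) (nat_lit 1428025041592) (nat_lit 0) (nat_lit 952684211491) (nat_lit 4) (nat_lit 5) (nat_lit 6) (nat_lit 4) (nat_lit 4) (nat_lit 4) (nat_lit 257) (nat_lit 236) (nat_lit 107)) (XT.lf (nat_lit 0) (nat_lit 3260962145626) (nat_lit 152) (nat_lit 615179532329) (nat_lit 0) (nat_lit 1681387924515) (nat_lit 4) (nat_lit 5) (nat_lit 6) (nat_lit 4) (nat_lit 4) (nat_lit 4) (nat_lit 258) (nat_lit 236) (nat_lit 106)))))) (XT.nd (nat_lit 702) (nat_lit 76) (nat_lit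 0) (XT.nd (nat_lit 234) (nat_lit 76) (nat_lit 0) (XT.nd (nat_lit 78) (nat_lit 0) (nat_lit 0) (XT.lf (nat_lit 0) (nat_lit 350825732308) (nat_lit 76) (nat_lit 3762672630124) (nat_lit 76) (nat_lit 2183098406363) (nat_lit 3) (nat_lit 4) (nat_lit 4) (nat_lit 5) (nat_lit 4) (nat_lit 4) (nat_lit 259) (nat_lit 236) (nat_lit 105)) (XT.nd (nat_lit 78) (nat_lit 0) (nat_lit 0) (XT.lf (nat_lit 0) (nat_lit 1530869573728) (nat_lit 76) (nat_lit 3595202547965) (nat_lit 76) (nat_lit 2015628321900) (nat_lit 3) (nat_lit 4) (nat_lit 4) (nat_lit 5) (nat_lit 4) (nat_lit 4) (nat_lit 260) (nat_lit 236) (nat_lit 104)) (XT.lf (nat_lit 0) (nat_lit 2887919988286) (nat_lit 76) (nat_lit 3402611954831) (nat_lit 76) (nat_lit 1823037726763) (nat_lit 3) (nat_lit 4) (nat_lit 4) (nat_lit 5) (nat_lit 4) (nat_lit 4) (nat_lit 261) (nat_lit 236) (nat_lit 103)))) (XT.nd (nat_lit 312) (nat_lit 76) (nat_lit 0) (XT.nd (nat_lit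 234) (nat_lit 0) (nat_lit 0) (XT.lf (nat_lit 0) (nat_lit 4448527962355) (nat_lit 76) (nat_lit 3181132773902) (nat_lit 76) (nat_lit 1601558544091) (nat_lit 3) (nat_lit 4) (nat_lit 4) (nat_lit 5) (nat_lit 4) (nat_lit 4) (nat_lit 262) (nat_lit 236) (nat_lit 102)) (XT.lf (nat_lit 0) (nat_lit 10680620816622) (nat_lit 76) (nat_lit 2296683355981) (nat_lit 76) (nat_lit 717109122193) (nat_lit 3) (nat_lit 4) (nat_lit 4) (nat_lit 5) (nat_lit 4) (nat_lit 4) (nat_lit 265) (nat_lit 236) (nat_lit 99))) (XT.nd (nat_lit 78) (nat_lit 76) (nat_lit 0) (XT.lf (nat_lit 0) (nat_lit 13410133907308) (nat_lit 76) (nat_lit 1909314888575) (nat_lit 76) (nat_lit 329740653790) (nat_lit 3) (nat_lit 4) (nat_lit 4) (nat_lit 5) (nat_lit 4) (nat_lit 4) (nat_lit 266) (nat_lit 236) (nat_lit 98)) (XT.lf (nat_lit 0) (nat_lit 105429724562) (nat_lit 152) (nat_lit 1352900327840) (nat_lit 76) (nat_lit 16438133136466) (nat_lit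 2) (nat_lit 5) (nat_lit 4) (nat_lit 5) (nat_lit 3) (nat_lit 4) (nat_lit 267) (nat_lit 236) (nat_lit 97))))) (XT.nd (nat_lit 28860) (nat_lit 0) (nat_lit 1064) (XT.nd (nat_lit 156) (nat_lit 0) (nat_lit 0) (XT.nd (nat_lit 78) (nat_lit 76) (nat_lit 0) (XT.lf (nat_lit 0) (nat_lit 572116496812) (nat_lit 152) (nat_lit 349523768257) (nat_lit 76) (nat_lit 19556832433596) (nat_lit 2) (nat_lit 5) (nat_lit 4) (nat_lit 5) (nat_lit 3) (nat_lit 4) (nat_lit 268) (nat_lit 236) (nat_lit 96)) (XT.lf (nat_lit 0) (nat_lit 882967112356) (nat_lit 76) (nat_lit 262400957139) (nat_lit 152) (nat_lit 22296931297751) (nat_lit 1) (nat_lit 5) (nat_lit 2) (nat_lit 5) (nat_lit 3) (nat_lit 4) (nat_lit 269) (nat_lit 236) (nat_lit 95))) (XT.nd (nat_lit 78) (nat_lit 0) (nat_lit 0) (XT.lf (nat_lit 0) (nat_lit 1844274848745) (nat_lit 152) (nat_lit 24529743033355) (nat_lit 0) (nat_lit 470732033415) (nat_lit 1) (nat_lit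 5) (nat_lit 3) (nat_lit 4) (nat_lit 1) (nat_lit 4) (nat_lit 270) (nat_lit 236) (nat_lit 94)) (XT.lf (nat_lit 0) (nat_lit 2660512928053) (nat_lit 152) (nat_lit 26808210713208) (nat_lit 0) (nat_lit 1286970112293) (nat_lit 1) (nat_lit 5) (nat_lit 3) (nat_lit 4) (nat_lit 1) (nat_lit 4) (nat_lit 271) (nat_lit 236) (nat_lit 93)))) (XT.nd (nat_lit 156) (nat_lit 0) (nat_lit 0) (XT.nd (nat_lit 78) (nat_lit 0) (nat_lit 0) (XT.lf (nat_lit 0) (nat_lit 145182873643) (nat_lit 0) (nat_lit 145182873643) (nat_lit 228) (nat_lit 72188402388) (nat_lit 15) (nat_lit 5) (nat_lit 15) (nat_lit 3) (nat_lit 18) (nat_lit 3) (nat_lit 237) (nat_lit 237) (nat_lit 126)) (XT.lf (nat_lit 0) (nat_lit 624410025450) (nat_lit 228) (nat_lit 152344329302) (nat_lit 304) (nat_lit 2718515013) (nat_lit 15) (nat_lit 5) (nat_lit 18) (nat_lit 3) (nat_lit 19) (nat_lit 5) (nat_lit 238) (nat_lit 237) (nat_lit 125))) (XT.nd (nat_lit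 78) (nat_lit 0) (nat_lit 0) (XT.lf (nat_lit 76) (nat_lit 174084917458) (nat_lit 0) (nat_lit 521590826617) (nat_lit 304) (nat_lit 143161070754) (nat_lit 16) (nat_lit 5) (nat_lit 15) (nat_lit 5) (nat_lit 19) (nat_lit 5) (nat_lit 239) (nat_lit 237) (nat_lit 124)) (XT.lf (nat_lit 76) (nat_lit 566599964742) (nat_lit 0) (nat_lit 218994793697) (nat_lit 304) (nat_lit 120316077789) (nat_lit 16) (nat_lit 5) (nat_lit 15) (nat_lit 5) (nat_lit 19) (nat_lit 5) (nat_lit 240) (nat_lit 237) (nat_lit 123))))))))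
noncomputable def xc59 : XT := (XT.nd (nat_lit 31356) (nat_lit 0) (nat_lit 76) (XT.nd (nat_lit 1170) (nat_lit 228) (nat_lit 0) (XT.nd (nat_lit 546) (nat_lit 304) (nat_lit 0) (XT.nd (nat_lit 234) (nat_lit 304) (nat_lit 0) (XT.nd (nat_lit 78) (nat_lit 76) (nat_lit 0) (XT.lf (nat_lit 0) (nat_lit 32498290783) (nat_lit 228) (nat_lit 863190233142) (nat_lit 304) (nat_lit 86354402297) (nat_lit 13) (nat_lit 5) (nat_lit 16) (nat_lit 5) (nat_lit 17) (nat_lit 5) (nat_lit 241) (nat_lit 237) (nat_lit 122)) (XT.nd (nat_lit 78) (nat_lit 76) (nat_lit 0) (XT.lf (nat_lit 0) (nat_lit 486765275257) (nat_lit 228) (nat_lit 563222080233) (nat_lit 304) (nat_lit 15453824240) (nat_lit 13) (nat_lit 5) (nat_lit 16) (nat_lit 5) (nat_lit 17) (nat_lit 5) (nat_lit 242) (nat_lit 237) (nat_lit 121)) (XT.lf (nat_lit 0) (nat_lit 60198766850) (nat_lit 304) (nat_lit 154913183646) (nat_lit 76) (nat_lit 945826776394) (nat_lit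 12) (nat_lit 5) (nat_lit 16) (nat_lit 5) (nat_lit 13) (nat_lit 5) (nat_lit 243) (nat_lit 237) (nat_lit 120)))) (XT.nd (nat_lit 156) (nat_lit 152) (nat_lit 0) (XT.nd (nat_lit 78) (nat_lit 0) (nat_lit 0) (XT.lf (nat_lit 0) (nat_lit 169115640256) (nat_lit 228) (nat_lit 912719359404) (nat_lit 76) (nat_lit 185290736506) (nat_lit 10) (nat_lit 5) (nat_lit 13) (nat_lit 5) (nat_lit 11) (nat_lit 5) (nat_lit 244) (nat_lit 237) (nat_lit 119)) (XT.lf (nat_lit 0) (nat_lit 313096802941) (nat_lit 228) (nat_lit 441121179767) (nat_lit 76) (nat_lit 632213800499) (nat_lit 10) (nat_lit 5) (nat_lit 13) (nat_lit 5) (nat_lit 11) (nat_lit 5) (nat_lit 245) (nat_lit 237) (nat_lit 118))) (XT.nd (nat_lit 78) (nat_lit 0) (nat_lit 0) (XT.lf (nat_lit 0) (nat_lit 111108350864) (nat_lit 152) (nat_lit 372167541248) (nat_lit 228) (nat_lit 1039667732479) (nat_lit 8) (nat_lit 5) (nat_lit 10) (nat_lit 5) (nat_lit 11) (nat_lit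 5) (nat_lit 246) (nat_lit 237) (nat_lit 117)) (XT.lf (nat_lit 0) (nat_lit 705920687386) (nat_lit 228) (nat_lit 884605387856) (nat_lit 76) (nat_lit 85365340619) (nat_lit 8) (nat_lit 5) (nat_lit 11) (nat_lit 5) (nat_lit 9) (nat_lit 4) (nat_lit 247) (nat_lit 237) (nat_lit 116))))) (XT.nd (nat_lit 312) (nat_lit 228) (nat_lit 0) (XT.nd (nat_lit 156) (nat_lit 0) (nat_lit 0) (XT.nd (nat_lit 78) (nat_lit 76) (nat_lit 0) (XT.lf (nat_lit 0) (nat_lit 979684459524) (nat_lit 228) (nat_lit 296013291936) (nat_lit 76) (nat_lit 573425285802) (nat_lit 8) (nat_lit 5) (nat_lit 11) (nat_lit 5) (nat_lit 9) (nat_lit 4) (nat_lit 248) (nat_lit 237) (nat_lit 115)) (XT.lf (nat_lit 0) (nat_lit 418088763431) (nat_lit 76) (nat_lit 893736192696) (nat_lit 152) (nat_lit 733917622016) (nat_lit 7) (nat_lit 5) (nat_lit 8) (nat_lit 5) (nat_lit 9) (nat_lit 4) (nat_lit 249) (nat_lit 237) (nat_lit 114))) (XT.nd (nat_lit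 78) (nat_lit 0) (nat_lit 0) (XT.lf (nat_lit 0) (nat_lit 1272573977133) (nat_lit 76) (nat_lit 436685967097) (nat_lit 152) (nat_lit 560274093430) (nat_lit 7) (nat_lit 5) (nat_lit 8) (nat_lit 5) (nat_lit 9) (nat_lit 4) (nat_lit 250) (nat_lit 237) (nat_lit 113)) (XT.lf (nat_lit 0) (nat_lit 2169992237851) (nat_lit 152) (nat_lit 275344312104) (nat_lit 0) (nat_lit 81005357604) (nat_lit 7) (nat_lit 5) (nat_lit 9) (nat_lit 4) (nat_lit 7) (nat_lit 4) (nat_lit 251) (nat_lit 237) (nat_lit 112)))) (XT.nd (nat_lit 156) (nat_lit 76) (nat_lit 0) (XT.nd (nat_lit 78) (nat_lit 76) (nat_lit 0) (XT.lf (nat_lit 0) (nat_lit 585878146574) (nat_lit 76) (nat_lit 2159010759559) (nat_lit 76) (nat_lit 70023872263) (nat_lit 6) (nat_lit 4) (nat_lit 7) (nat_lit 5) (nat_lit 7) (nat_lit 4) (nat_lit 252) (nat_lit 237) (nat_lit 111)) (XT.lf (nat_lit 0) (nat_lit 251248871445) (nat_lit 152) (nat_lit 1548801819817) (nat_lit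 76) (nat_lit 1342846578971) (nat_lit 5) (nat_lit 5) (nat_lit 7) (nat_lit 5) (nat_lit 6) (nat_lit 4) (nat_lit 253) (nat_lit 237) (nat_lit 110))) (XT.nd (nat_lit 78) (nat_lit 76) (nat_lit 0) (XT.lf (nat_lit 0) (nat_lit 613543412631) (nat_lit 152) (nat_lit 769868561596) (nat_lit 76) (nat_lit 2136167291633) (nat_lit 5) (nat_lit 5) (nat_lit 7) (nat_lit 5) (nat_lit 6) (nat_lit 4) (nat_lit 254) (nat_lit 237) (nat_lit 109)) (XT.lf (nat_lit 0) (nat_lit 138209001655) (nat_lit 76) (nat_lit 897696070458) (nat_lit 152) (nat_lit 2916000048176) (nat_lit 4) (nat_lit 5) (nat_lit 5) (nat_lit 5) (nat_lit 6) (nat_lit 4) (nat_lit 255) (nat_lit 237) (nat_lit 108)))))) (XT.nd (nat_lit 858) (nat_lit 152) (nat_lit 0) (XT.nd (nat_lit 234) (nat_lit 76) (nat_lit 0) (XT.nd (nat_lit 78) (nat_lit 0) (nat_lit 0) (XT.lf (nat_lit 0) (nat_lit 1269020922965) (nat_lit 76) (nat_lit 292843184190) (nat_lit 152) (nat_lit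 2881179276754) (nat_lit 4) (nat_lit 5) (nat_lit 5) (nat_lit 5) (nat_lit 6) (nat_lit 4) (nat_lit 256) (nat_lit 237) (nat_lit 107)) (XT.nd (nat_lit 78) (nat_lit 0) (nat_lit 0) (XT.lf (nat_lit 0) (nat_lit 2183393501649) (nat_lit 152) (nat_lit 2455074265485) (nat_lit 0) (nat_lit 366883144325) (nat_lit 4) (nat_lit 5) (nat_lit 6) (nat_lit 4) (nat_lit 4) (nat_lit 4) (nat_lit 257) (nat_lit 237) (nat_lit 106)) (XT.lf (nat_lit 0) (nat_lit 2912097216738) (nat_lit 152) (nat_lit 1642228757945) (nat_lit 0) (nat_lit 1095586856763) (nat_lit 4) (nat_lit 5) (nat_lit 6) (nat_lit 4) (nat_lit 4) (nat_lit 4) (nat_lit 258) (nat_lit 237) (nat_lit 105)))) (XT.nd (nat_lit 468) (nat_lit 0) (nat_lit 0) (XT.nd (nat_lit 78) (nat_lit 76) (nat_lit 0) (XT.lf (nat_lit 0) (nat_lit 3750106487252) (nat_lit 152) (nat_lit 707456427495) (nat_lit 0) (nat_lit 1933596124974) (nat_lit 4) (nat_lit 5) (nat_lit 6) (nat_lit 4)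 (nat_lit 4) (nat_lit 4) (nat_lit 259) (nat_lit 237) (nat_lit 104)) (XT.lf (nat_lit 0) (nat_lit 403449625261) (nat_lit 76) (nat_lit 4327073510109) (nat_lit 76) (nat_lit 2510563145826) (nat_lit 3) (nat_lit 4) (nat_lit 4) (nat_lit 5) (nat_lit 4) (nat_lit 4) (nat_lit 260) (nat_lit 237) (nat_lit 103))) (XT.nd (nat_lit 78) (nat_lit 0) (nat_lit 0) (XT.lf (nat_lit 0) (nat_lit 9553200863361) (nat_lit 76) (nat_lit 3028554320230) (nat_lit 76) (nat_lit 1212043949231) (nat_lit 3) (nat_lit 4) (nat_lit 4) (nat_lit 5) (nat_lit 4) (nat_lit 4) (nat_lit 265) (nat_lit 237) (nat_lit 98)) (XT.lf (nat_lit 0) (nat_lit 12282713953429) (nat_lit 76) (nat_lit 2641185853095) (nat_lit 76) (nat_lit 824675481230) (nat_lit 3) (nat_lit 4) (nat_lit 4) (nat_lit 5) (nat_lit 4) (nat_lit 4) (nat_lit 266) (nat_lit 237) (nat_lit 97))))) (XT.nd (nat_lit 29016) (nat_lit 0) (nat_lit 1064) (XT.nd (nat_lit 156) (nat_lit 76) (nat_lit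 0) (XT.nd (nat_lit 78) (nat_lit 76) (nat_lit 0) (XT.lf (nat_lit 0) (nat_lit 15421654005850) (nat_lit 76) (nat_lit 2195712116398) (nat_lit 76) (nat_lit 379201743780) (nat_lit 3) (nat_lit 4) (nat_lit 4) (nat_lit 5) (nat_lit 4) (nat_lit 4) (nat_lit 267) (nat_lit 237) (nat_lit 96)) (XT.lf (nat_lit 0) (nat_lit 121244189647) (nat_lit 152) (nat_lit 1555835365531) (nat_lit 76) (nat_lit 18903853111024) (nat_lit 2) (nat_lit 5) (nat_lit 4) (nat_lit 5) (nat_lit 3) (nat_lit 4) (nat_lit 268) (nat_lit 237) (nat_lit 95))) (XT.nd (nat_lit 78) (nat_lit 76) (nat_lit 0) (XT.lf (nat_lit 0) (nat_lit 657933976899) (nat_lit 152) (nat_lit 401952323508) (nat_lit 76) (nat_lit 22490357302190) (nat_lit 2) (nat_lit 5) (nat_lit 4) (nat_lit 5) (nat_lit 3) (nat_lit 4) (nat_lit 269) (nat_lit 237) (nat_lit 94)) (XT.lf (nat_lit 0) (nat_lit 1015412188743) (nat_lit 76) (nat_lit 301761096410) (nat_lit 152) (nat_lit 25641470986365)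 (nat_lit 1) (nat_lit 5) (nat_lit 2) (nat_lit 5) (nat_lit 3) (nat_lit 4) (nat_lit 270) (nat_lit 237) (nat_lit 93)))) (XT.nd (nat_lit 156) (nat_lit 0) (nat_lit 0) (XT.nd (nat_lit 78) (nat_lit 0) (nat_lit 0) (XT.lf (nat_lit 0) (nat_lit 166960352580) (nat_lit 0) (nat_lit 166960352580) (nat_lit 228) (nat_lit 83016550950) (nat_lit 15) (nat_lit 5) (nat_lit 15) (nat_lit 3) (nat_lit 18) (nat_lit 3) (nat_lit 238) (nat_lit 238) (nat_lit 124)) (XT.lf (nat_lit 0) (nat_lit 718071692394) (nat_lit 228) (nat_lit 175195864106) (nat_lit 304) (nat_lit 3126216393) (nat_lit 15) (nat_lit 5) (nat_lit 18) (nat_lit 3) (nat_lit 19) (nat_lit 5) (nat_lit 239) (nat_lit 238) (nat_lit 123))) (XT.nd (nat_lit 78) (nat_lit 0) (nat_lit 0) (XT.lf (nat_lit 76) (nat_lit 200197764459) (nat_lit 0) (nat_lit 599829487606) (nat_lit 304) (nat_lit 164635060538) (nat_lit 16) (nat_lit 5) (nat_lit 15) (nat_lit 5) (nat_lit 19) (nat_lit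 5) (nat_lit 240) (nat_lit 238) (nat_lit 122)) (XT.lf (nat_lit 76) (nat_lit 651590054569) (nat_lit 0) (nat_lit 251844044922) (nat_lit 304) (nat_lit 138363340910) (nat_lit 16) (nat_lit 5) (nat_lit 15) (nat_lit 5) (nat_lit 19) (nat_lit 5) (nat_lit 241) (nat_lit 238) (nat_lit 121))))))) (XT.nd (nat_lit 1170) (nat_lit 152) (nat_lit 0) (XT.nd (nat_lit 546) (nat_lit 304) (nat_lit 0) (XT.nd (nat_lit 234) (nat_lit 304) (nat_lit 0) (XT.nd (nat_lit 78) (nat_lit 76) (nat_lit 0) (XT.lf (nat_lit 0) (nat_lit 37373146759) (nat_lit 228) (nat_lit 992668769932) (nat_lit 304) (nat_lit 99307429453) (nat_lit 13) (nat_lit 5) (nat_lit 16) (nat_lit 5) (nat_lit 17) (nat_lit 5) (nat_lit 242) (nat_lit 238) (nat_lit 120)) (XT.nd (nat_lit 78) (nat_lit 76) (nat_lit 0) (XT.lf (nat_lit 0) (nat_lit 559780164248) (nat_lit 228) (nat_lit 647705393849) (nat_lit 304) (nat_lit 17771782059) (nat_lit 13) (nat_lit 5) (nat_lit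 16) (nat_lit 5) (nat_lit 17) (nat_lit 5) (nat_lit 243) (nat_lit 238) (nat_lit 119)) (XT.lf (nat_lit 0) (nat_lit 69228673622) (nat_lit 304) (nat_lit 178150066028) (nat_lit 76) (nat_lit 1087700781272) (nat_lit 12) (nat_lit 5) (nat_lit 16) (nat_lit 5) (nat_lit 13) (nat_lit 5) (nat_lit 244) (nat_lit 238) (nat_lit 118)))) (XT.nd (nat_lit 156) (nat_lit 152) (nat_lit 0) (XT.nd (nat_lit 78) (nat_lit 0) (nat_lit 0) (XT.lf (nat_lit 0) (nat_lit 194483070136) (nat_lit 228) (nat_lit 1049627159168) (nat_lit 76) (nat_lit 213084353632) (nat_lit 10) (nat_lit 5) (nat_lit 13) (nat_lit 5) (nat_lit 11) (nat_lit 5) (nat_lit 245) (nat_lit 238) (nat_lit 117)) (XT.lf (nat_lit 0) (nat_lit 360061396288) (nat_lit 228) (nat_lit 507289266170) (nat_lit 76) (nat_lit 727045876357) (nat_lit 10) (nat_lit 5) (nat_lit 13) (nat_lit 5) (nat_lit 11) (nat_lit 5) (nat_lit 246) (nat_lit 238) (nat_lit 116))) (XT.nd (nat_lit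 78) (nat_lit 0) (nat_lit 0) (XT.lf (nat_lit 0) (nat_lit 127774689939) (nat_lit 152) (nat_lit 427992652965) (nat_lit 228) (nat_lit 1195617814514) (nat_lit 8) (nat_lit 5) (nat_lit 10) (nat_lit 5) (nat_lit 11) (nat_lit 5) (nat_lit 247) (nat_lit 238) (nat_lit 115)) (XT.lf (nat_lit 0) (nat_lit 811808849435) (nat_lit 228) (nat_lit 1017296112121) (nat_lit 76) (nat_lit 98170157135) (nat_lit 8) (nat_lit 5) (nat_lit 11) (nat_lit 5) (nat_lit 9) (nat_lit 4) (nat_lit 248) (nat_lit 238) (nat_lit 114))))) (XT.nd (nat_lit 312) (nat_lit 228) (nat_lit 0) (XT.nd (nat_lit 156) (nat_lit 0) (nat_lit 0) (XT.nd (nat_lit 78) (nat_lit 76) (nat_lit 0) (XT.lf (nat_lit 0) (nat_lit 1126637179706) (nat_lit 228) (nat_lit 340415212757) (nat_lit 76) (nat_lit 659439092084) (nat_lit 8) (nat_lit 5) (nat_lit 11) (nat_lit 5) (nat_lit 9) (nat_lit 4) (nat_lit 249) (nat_lit 238) (nat_lit 113)) (XT.lf (nat_lit 0) (nat_lit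 480802147597) (nat_lit 76) (nat_lit 1027796599400) (nat_lit 152) (nat_lit 844005210212) (nat_lit 7) (nat_lit 5) (nat_lit 8) (nat_lit 5) (nat_lit 9) (nat_lit 4) (nat_lit 250) (nat_lit 238) (nat_lit 112))) (XT.nd (nat_lit 78) (nat_lit 0) (nat_lit 0) (XT.lf (nat_lit 0) (nat_lit 1463460134270) (nat_lit 76) (nat_lit 502188842857) (nat_lit 152) (nat_lit 644315159526) (nat_lit 7) (nat_lit 5) (nat_lit 8) (nat_lit 5) (nat_lit 9) (nat_lit 4) (nat_lit 251) (nat_lit 238) (nat_lit 111)) (XT.lf (nat_lit 0) (nat_lit 2495491110105) (nat_lit 152) (nat_lit 316645901160) (nat_lit 0) (nat_lit 93156176537) (nat_lit 7) (nat_lit 5) (nat_lit 9) (nat_lit 4) (nat_lit 7) (nat_lit 4) (nat_lit 252) (nat_lit 238) (nat_lit 110)))) (XT.nd (nat_lit 156) (nat_lit 76) (nat_lit 0) (XT.nd (nat_lit 78) (nat_lit 76) (nat_lit 0) (XT.lf (nat_lit 0) (nat_lit 673759923694) (nat_lit 76) (nat_lit 2482862352446) (nat_lit 76)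 (nat_lit 80527413549) (nat_lit 6) (nat_lit 4) (nat_lit 7) (nat_lit 5) (nat_lit 7) (nat_lit 4) (nat_lit 253) (nat_lit 238) (nat_lit 109)) (XT.lf (nat_lit 0) (nat_lit 288936233494) (nat_lit 152) (nat_lit 1781122041519) (nat_lit 76) (nat_lit 1544273580789) (nat_lit 5) (nat_lit 5) (nat_lit 7) (nat_lit 5) (nat_lit 6) (nat_lit 4) (nat_lit 254) (nat_lit 238) (nat_lit 108))) (XT.nd (nat_lit 78) (nat_lit 76) (nat_lit 0) (XT.lf (nat_lit 0) (nat_lit 705574951772) (nat_lit 152) (nat_lit 885348801252) (nat_lit 76) (nat_lit 2456592398398) (nat_lit 5) (nat_lit 5) (nat_lit 7) (nat_lit 5) (nat_lit 6) (nat_lit 4) (nat_lit 255) (nat_lit 238) (nat_lit 107)) (XT.lf (nat_lit 0) (nat_lit 158940394460) (nat_lit 76) (nat_lit 1032350463923) (nat_lit 152) (nat_lit 3353400025929) (nat_lit 4) (nat_lit 5) (nat_lit 5) (nat_lit 5) (nat_lit 6) (nat_lit 4) (nat_lit 256) (nat_lit 238) (nat_lit 106)))))) (XT.nd (nat_lit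 936) (nat_lit 76) (nat_lit 0) (XT.nd (nat_lit 624) (nat_lit 76) (nat_lit 0) (XT.nd (nat_lit 78) (nat_lit 0) (nat_lit 0) (XT.lf (nat_lit 0) (nat_lit 1459374098416) (nat_lit 76) (nat_lit 336769646946) (nat_lit 152) (nat_lit 3313356142638) (nat_lit 4) (nat_lit 5) (nat_lit 5) (nat_lit 5) (nat_lit 6) (nat_lit 4) (nat_lit 257) (nat_lit 238) (nat_lit 105)) (XT.nd (nat_lit 78) (nat_lit 0) (nat_lit 0) (XT.lf (nat_lit 0) (nat_lit 2510902546679) (nat_lit 152) (nat_lit 2823335370625) (nat_lit 0) (nat_lit 421915627754) (nat_lit 4) (nat_lit 5) (nat_lit 6) (nat_lit 4) (nat_lit 4) (nat_lit 4) (nat_lit 258) (nat_lit 238) (nat_lit 104)) (XT.lf (nat_lit 0) (nat_lit 3348911816451) (nat_lit 152) (nat_lit 1888563041478) (nat_lit 0) (nat_lit 1259924895522) (nat_lit 4) (nat_lit 5) (nat_lit 6) (nat_lit 4) (nat_lit 4) (nat_lit 4) (nat_lit 259) (nat_lit 238) (nat_lit 103)))) (XT.nd (nat_lit 156) (nat_lit 0)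 (nat_lit 0) (XT.nd (nat_lit 78) (nat_lit 0) (nat_lit 0) (XT.lf (nat_lit 0) (nat_lit 8256667915782) (nat_lit 76) (nat_lit 3870205929699) (nat_lit 76) (nat_lit 1781219001188) (nat_lit 3) (nat_lit 4) (nat_lit 4) (nat_lit 5) (nat_lit 4) (nat_lit 4) (nat_lit 265) (nat_lit 238) (nat_lit 97)) (XT.lf (nat_lit 0) (nat_lit 10986181005312) (nat_lit 76) (nat_lit 3482837462801) (nat_lit 76) (nat_lit 1393850533537) (nat_lit 3) (nat_lit 4) (nat_lit 4) (nat_lit 5) (nat_lit 4) (nat_lit 4) (nat_lit 266) (nat_lit 238) (nat_lit 96))) (XT.nd (nat_lit 78) (nat_lit 0) (nat_lit 0) (XT.lf (nat_lit 0) (nat_lit 14125121057266) (nat_lit 76) (nat_lit 3037363726309) (nat_lit 76) (nat_lit 948376796389) (nat_lit 3) (nat_lit 4) (nat_lit 4) (nat_lit 5) (nat_lit 4) (nat_lit 4) (nat_lit 267) (nat_lit 238) (nat_lit 95)) (XT.lf (nat_lit 0) (nat_lit 17734902116139) (nat_lit 76) (nat_lit 2525068929726) (nat_lit 76) (nat_lit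 436081999237) (nat_lit 3) (nat_lit 4) (nat_lit 4) (nat_lit 5) (nat_lit 4) (nat_lit 4) (nat_lit 268) (nat_lit 238) (nat_lit 94))))) (XT.nd (nat_lit 29094) (nat_lit 0) (nat_lit 836) (XT.nd (nat_lit 28938) (nat_lit 0) (nat_lit 988) (XT.nd (nat_lit 78) (nat_lit 0) (nat_lit 0) (XT.lf (nat_lit 0) (nat_lit 139430822933) (nat_lit 152) (nat_lit 1789210661676) (nat_lit 76) (nat_lit 21739431080768) (nat_lit 2) (nat_lit 5) (nat_lit 4) (nat_lit 5) (nat_lit 3) (nat_lit 4) (nat_lit 269) (nat_lit 238) (nat_lit 93)) (XT.lf (nat_lit 0) (nat_lit 756624077642) (nat_lit 152) (nat_lit 462245164483) (nat_lit 76) (nat_lit 25863910900207) (nat_lit 2) (nat_lit 5) (nat_lit 4) (nat_lit 5) (nat_lit 3) (nat_lit 4) (nat_lit 270) (nat_lit 238) (nat_lit 92))) (XT.nd (nat_lit 78) (nat_lit 0) (nat_lit 0) (XT.lf (nat_lit 0) (nat_lit 192004441679) (nat_lit 0) (nat_lit 192004441679) (nat_lit 228) (nat_lit 95468949058)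 (nat_lit 15) (nat_lit 5) (nat_lit 15) (nat_lit 3) (nat_lit 18) (nat_lit 3) (nat_lit 239) (nat_lit 239) (nat_lit 122)) (XT.lf (nat_lit 0) (nat_lit 825782569599) (nat_lit 228) (nat_lit 201475157075) (nat_lit 304) (nat_lit 3595091481) (nat_lit 15) (nat_lit 5) (nat_lit 18) (nat_lit 3) (nat_lit 19) (nat_lit 5) (nat_lit 240) (nat_lit 239) (nat_lit 121)))) (XT.nd (nat_lit 156) (nat_lit 152) (nat_lit 0) (XT.nd (nat_lit 78) (nat_lit 0) (nat_lit 0) (XT.lf (nat_lit 76) (nat_lit 230227511837) (nat_lit 0) (nat_lit 689803938721) (nat_lit 304) (nat_lit 189330190447) (nat_lit 16) (nat_lit 5) (nat_lit 15) (nat_lit 5) (nat_lit 19) (nat_lit 5) (nat_lit 241) (nat_lit 239) (nat_lit 120)) (XT.lf (nat_lit 76) (nat_lit 749328634674) (nat_lit 0) (nat_lit 289620675986) (nat_lit 304) (nat_lit 159117729724) (nat_lit 16) (nat_lit 5) (nat_lit 15) (nat_lit 5) (nat_lit 19) (nat_lit 5) (nat_lit 242) (nat_lit 239)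 (nat_lit 119))) (XT.nd (nat_lit 78) (nat_lit 0) (nat_lit 0) (XT.lf (nat_lit 0) (nat_lit 42979203732) (nat_lit 228) (nat_lit 1141569086797) (nat_lit 304) (nat_lit 114203443160) (nat_lit 13) (nat_lit 5) (nat_lit 16) (nat_lit 5) (nat_lit 17) (nat_lit 5) (nat_lit 243) (nat_lit 239) (nat_lit 118)) (XT.lf (nat_lit 0) (nat_lit 643747262763) (nat_lit 228) (nat_lit 744861204123) (nat_lit 304) (nat_lit 20437461793) (nat_lit 13) (nat_lit 5) (nat_lit 16) (nat_lit 5) (nat_lit 17) (nat_lit 5) (nat_lit 244) (nat_lit 239) (nat_lit 117))))))))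
noncomputable def xc60 : XT := (XT.nd (nat_lit 31356) (nat_lit 0) (nat_lit 0) (XT.nd (nat_lit 1092) (nat_lit 76) (nat_lit 0) (XT.nd (nat_lit 546) (nat_lit 228) (nat_lit 0) (XT.nd (nat_lit 234) (nat_lit 228) (nat_lit 0) (XT.nd (nat_lit 78) (nat_lit 152) (nat_lit 0) (XT.lf (nat_lit 0) (nat_lit 79613044038) (nat_lit 304) (nat_lit 204872503974) (nat_lit 76) (nat_lit 1250855889706) (nat_lit 12) (nat_lit 5) (nat_lit 16) (nat_lit 5) (nat_lit 13) (nat_lit 5) (nat_lit 245) (nat_lit 239) (nat_lit 116)) (XT.nd (nat_lit 78) (nat_lit 0) (nat_lit 0) (XT.lf (nat_lit 0) (nat_lit 223655594052) (nat_lit 228) (nat_lit 1207071154294) (nat_lit 76) (nat_lit 245047011706) (nat_lit 10) (nat_lit 5) (nat_lit 13) (nat_lit 5) (nat_lit 11) (nat_lit 5) (nat_lit 246) (nat_lit 239) (nat_lit 115)) (XT.lf (nat_lit 0) (nat_lit 414070660858) (nat_lit 228) (nat_lit 583382587617) (nat_lit 76) (nat_lit 836102762183) (nat_lit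 10) (nat_lit 5) (nat_lit 13) (nat_lit 5) (nat_lit 11) (nat_lit 5) (nat_lit 247) (nat_lit 239) (nat_lit 114)))) (XT.nd (nat_lit 156) (nat_lit 76) (nat_lit 0) (XT.nd (nat_lit 78) (nat_lit 0) (nat_lit 0) (XT.lf (nat_lit 0) (nat_lit 146940958795) (nat_lit 152) (nat_lit 492191536188) (nat_lit 228) (nat_lit 1374960427834) (nat_lit 8) (nat_lit 5) (nat_lit 10) (nat_lit 5) (nat_lit 11) (nat_lit 5) (nat_lit 248) (nat_lit 239) (nat_lit 113)) (XT.lf (nat_lit 0) (nat_lit 933580221418) (nat_lit 228) (nat_lit 1169890465488) (nat_lit 76) (nat_lit 112895692367) (nat_lit 8) (nat_lit 5) (nat_lit 11) (nat_lit 5) (nat_lit 9) (nat_lit 4) (nat_lit 249) (nat_lit 239) (nat_lit 112))) (XT.nd (nat_lit 78) (nat_lit 76) (nat_lit 0) (XT.lf (nat_lit 0) (nat_lit 1295632795416) (nat_lit 228) (nat_lit 391477439496) (nat_lit 76) (nat_lit 758354966037) (nat_lit 8) (nat_lit 5) (nat_lit 11) (nat_lit 5) (nat_lit 9) (nat_lit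 4) (nat_lit 250) (nat_lit 239) (nat_lit 111)) (XT.lf (nat_lit 0) (nat_lit 552922522404) (nat_lit 76) (nat_lit 1181966072523) (nat_lit 152) (nat_lit 970605950076) (nat_lit 7) (nat_lit 5) (nat_lit 8) (nat_lit 5) (nat_lit 9) (nat_lit 4) (nat_lit 251) (nat_lit 239) (nat_lit 110))))) (XT.nd (nat_lit 234) (nat_lit 152) (nat_lit 0) (XT.nd (nat_lit 78) (nat_lit 76) (nat_lit 0) (XT.lf (nat_lit 0) (nat_lit 1682979200208) (nat_lit 76) (nat_lit 577517154688) (nat_lit 152) (nat_lit 740962397222) (nat_lit 7) (nat_lit 5) (nat_lit 8) (nat_lit 5) (nat_lit 9) (nat_lit 4) (nat_lit 252) (nat_lit 239) (nat_lit 109)) (XT.nd (nat_lit 78) (nat_lit 76) (nat_lit 0) (XT.lf (nat_lit 0) (nat_lit 2869814804277) (nat_lit 152) (nat_lit 364142742660) (nat_lit 0) (nat_lit 107129614581) (nat_lit 7) (nat_lit 5) (nat_lit 9) (nat_lit 4) (nat_lit 7) (nat_lit 4) (nat_lit 253) (nat_lit 239) (nat_lit 108)) (XT.lf (nat_lit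 0) (nat_lit 774823953937) (nat_lit 76) (nat_lit 2855291689400) (nat_lit 76) (nat_lit 92606495673) (nat_lit 6) (nat_lit 4) (nat_lit 7) (nat_lit 5) (nat_lit 7) (nat_lit 4) (nat_lit 254) (nat_lit 239) (nat_lit 107)))) (XT.nd (nat_lit 156) (nat_lit 76) (nat_lit 0) (XT.nd (nat_lit 78) (nat_lit 0) (nat_lit 0) (XT.lf (nat_lit 0) (nat_lit 332276692210) (nat_lit 152) (nat_lit 2048290308979) (nat_lit 76) (nat_lit 1775914629229) (nat_lit 5) (nat_lit 5) (nat_lit 7) (nat_lit 5) (nat_lit 6) (nat_lit 4) (nat_lit 255) (nat_lit 239) (nat_lit 106)) (XT.lf (nat_lit 0) (nat_lit 811411215139) (nat_lit 152) (nat_lit 1018151087728) (nat_lit 76) (nat_lit 2825081268002) (nat_lit 5) (nat_lit 5) (nat_lit 7) (nat_lit 5) (nat_lit 6) (nat_lit 4) (nat_lit 256) (nat_lit 239) (nat_lit 105))) (XT.nd (nat_lit 78) (nat_lit 0) (nat_lit 0) (XT.lf (nat_lit 0) (nat_lit 182781485809) (nat_lit 76) (nat_lit 1187203020580)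 (nat_lit 152) (nat_lit 3856410007533) (nat_lit 4) (nat_lit 5) (nat_lit 5) (nat_lit 5) (nat_lit 6) (nat_lit 4) (nat_lit 257) (nat_lit 239) (nat_lit 104)) (XT.lf (nat_lit 0) (nat_lit 1678280241160) (nat_lit 76) (nat_lit 387285082742) (nat_lit 152) (nat_lit 3810359544654) (nat_lit 4) (nat_lit 5) (nat_lit 5) (nat_lit 5) (nat_lit 6) (nat_lit 4) (nat_lit 258) (nat_lit 239) (nat_lit 103)))))) (XT.nd (nat_lit 702) (nat_lit 0) (nat_lit 0) (XT.nd (nat_lit 234) (nat_lit 76) (nat_lit 0) (XT.nd (nat_lit 78) (nat_lit 0) (nat_lit 0) (XT.lf (nat_lit 0) (nat_lit 2887537943639) (nat_lit 152) (nat_lit 3246835649994) (nat_lit 0) (nat_lit 485202980826) (nat_lit 4) (nat_lit 5) (nat_lit 6) (nat_lit 4) (nat_lit 4) (nat_lit 4) (nat_lit 259) (nat_lit 239) (nat_lit 102)) (XT.nd (nat_lit 78) (nat_lit 0) (nat_lit 0) (XT.lf (nat_lit 0) (nat_lit 3851248601926) (nat_lit 152) (nat_lit 2171847474895) (nat_lit 0) (nat_lit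 1448913637597) (nat_lit 4) (nat_lit 5) (nat_lit 6) (nat_lit 4) (nat_lit 4) (nat_lit 4) (nat_lit 260) (nat_lit 239) (nat_lit 101)) (XT.lf (nat_lit 0) (nat_lit 4959515857904) (nat_lit 152) (nat_lit 935611075373) (nat_lit 0) (nat_lit 2557180892258) (nat_lit 4) (nat_lit 5) (nat_lit 6) (nat_lit 4) (nat_lit 4) (nat_lit 4) (nat_lit 261) (nat_lit 239) (nat_lit 100)))) (XT.nd (nat_lit 312) (nat_lit 0) (nat_lit 0) (XT.nd (nat_lit 234) (nat_lit 0) (nat_lit 0) (XT.lf (nat_lit 0) (nat_lit 533562177125) (nat_lit 76) (nat_lit 5722554696171) (nat_lit 76) (nat_lit 3320219729380) (nat_lit 3) (nat_lit 4) (nat_lit 4) (nat_lit 5) (nat_lit 4) (nat_lit 4) (nat_lit 262) (nat_lit 239) (nat_lit 99)) (XT.lf (nat_lit 0) (nat_lit 6765655024910) (nat_lit 76) (nat_lit 4838105281097) (nat_lit 76) (nat_lit 2435770311690) (nat_lit 3) (nat_lit 4) (nat_lit 4) (nat_lit 5) (nat_lit 4) (nat_lit 4) (nat_lit 265) (nat_lit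 239) (nat_lit 96))) (XT.nd (nat_lit 78) (nat_lit 0) (nat_lit 0) (XT.lf (nat_lit 0) (nat_lit 9495168113972) (nat_lit 76) (nat_lit 4450736814403) (nat_lit 76) (nat_lit 2048401844341) (nat_lit 3) (nat_lit 4) (nat_lit 4) (nat_lit 5) (nat_lit 4) (nat_lit 4) (nat_lit 266) (nat_lit 239) (nat_lit 95)) (XT.lf (nat_lit 0) (nat_lit 12634108165520) (nat_lit 76) (nat_lit 4005263078090) (nat_lit 76) (nat_lit 1602928107458) (nat_lit 3) (nat_lit 4) (nat_lit 4) (nat_lit 5) (nat_lit 4) (nat_lit 4) (nat_lit 267) (nat_lit 239) (nat_lit 94))))) (XT.nd (nat_lit 29250) (nat_lit 0) (nat_lit 760) (XT.nd (nat_lit 29094) (nat_lit 0) (nat_lit 912) (XT.nd (nat_lit 78) (nat_lit 0) (nat_lit 0) (XT.lf (nat_lit 0) (nat_lit 16243889224039) (nat_lit 76) (nat_lit 3492968281662) (nat_lit 76) (nat_lit 1090633310535) (nat_lit 3) (nat_lit 4) (nat_lit 4) (nat_lit 5) (nat_lit 4) (nat_lit 4) (nat_lit 268) (nat_lit 239) (nat_lit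 93)) (XT.lf (nat_lit 0) (nat_lit 20395137440676) (nat_lit 76) (nat_lit 2903829266061) (nat_lit 76) (nat_lit 501494294504) (nat_lit 3) (nat_lit 4) (nat_lit 4) (nat_lit 5) (nat_lit 4) (nat_lit 4) (nat_lit 269) (nat_lit 239) (nat_lit 92))) (XT.nd (nat_lit 78) (nat_lit 0) (nat_lit 0) (XT.lf (nat_lit 0) (nat_lit 220805135312) (nat_lit 0) (nat_lit 220805135312) (nat_lit 228) (nat_lit 109789227496) (nat_lit 15) (nat_lit 5) (nat_lit 15) (nat_lit 3) (nat_lit 18) (nat_lit 3) (nat_lit 240) (nat_lit 240) (nat_lit 120)) (XT.lf (nat_lit 0) (nat_lit 949650048307) (nat_lit 228) (nat_lit 231696365119) (nat_lit 304) (nat_lit 4134311823) (nat_lit 15) (nat_lit 5) (nat_lit 18) (nat_lit 3) (nat_lit 19) (nat_lit 5) (nat_lit 241) (nat_lit 240) (nat_lit 119)))) (XT.nd (nat_lit 156) (nat_lit 152) (nat_lit 0) (XT.nd (nat_lit 78) (nat_lit 0) (nat_lit 0) (XT.lf (nat_lit 76) (nat_lit 264761701152) (nat_lit 0)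 (nat_lit 793274550682) (nat_lit 304) (nat_lit 217729621342) (nat_lit 16) (nat_lit 5) (nat_lit 15) (nat_lit 5) (nat_lit 19) (nat_lit 5) (nat_lit 242) (nat_lit 240) (nat_lit 118)) (XT.lf (nat_lit 76) (nat_lit 861727984258) (nat_lit 0) (nat_lit 333063795777) (nat_lit 304) (nat_lit 182985304250) (nat_lit 16) (nat_lit 5) (nat_lit 15) (nat_lit 5) (nat_lit 19) (nat_lit 5) (nat_lit 243) (nat_lit 240) (nat_lit 117))) (XT.nd (nat_lit 78) (nat_lit 0) (nat_lit 0) (XT.lf (nat_lit 0) (nat_lit 49426148533) (nat_lit 228) (nat_lit 1312804450857) (nat_lit 304) (nat_lit 131333883483) (nat_lit 13) (nat_lit 5) (nat_lit 16) (nat_lit 5) (nat_lit 17) (nat_lit 5) (nat_lit 244) (nat_lit 240) (nat_lit 116)) (XT.lf (nat_lit 0) (nat_lit 740309408040) (nat_lit 228) (nat_lit 856590385645) (nat_lit 304) (nat_lit 23503014844) (nat_lit 13) (nat_lit 5) (nat_lit 16) (nat_lit 5) (nat_lit 17) (nat_lit 5) (nat_lit 245)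 (nat_lit 240) (nat_lit 115))))))) (XT.nd (nat_lit 1170) (nat_lit 76) (nat_lit 0) (XT.nd (nat_lit 546) (nat_lit 228) (nat_lit 0) (XT.nd (nat_lit 234) (nat_lit 228) (nat_lit 0) (XT.nd (nat_lit 78) (nat_lit 152) (nat_lit 0) (XT.lf (nat_lit 0) (nat_lit 91555053098) (nat_lit 304) (nat_lit 235603325159) (nat_lit 76) (nat_lit 1438484266541) (nat_lit 12) (nat_lit 5) (nat_lit 16) (nat_lit 5) (nat_lit 13) (nat_lit 5) (nat_lit 246) (nat_lit 240) (nat_lit 114)) (XT.nd (nat_lit 78) (nat_lit 0) (nat_lit 0) (XT.lf (nat_lit 0) (nat_lit 257203981097) (nat_lit 228) (nat_lit 1388131767892) (nat_lit 76) (nat_lit 281804067264) (nat_lit 10) (nat_lit 5) (nat_lit 13) (nat_lit 5) (nat_lit 11) (nat_lit 5) (nat_lit 247) (nat_lit 240) (nat_lit 113)) (XT.lf (nat_lit 0) (nat_lit 476181301671) (nat_lit 228) (nat_lit 670889923981) (nat_lit 76) (nat_lit 961518179817) (nat_lit 10) (nat_lit 5) (nat_lit 13) (nat_lit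 5) (nat_lit 11) (nat_lit 5) (nat_lit 248) (nat_lit 240) (nat_lit 112)))) (XT.nd (nat_lit 156) (nat_lit 76) (nat_lit 0) (XT.nd (nat_lit 78) (nat_lit 0) (nat_lit 0) (XT.lf (nat_lit 0) (nat_lit 168982152040) (nat_lit 152) (nat_lit 566020255485) (nat_lit 228) (nat_lit 1581204447506) (nat_lit 8) (nat_lit 5) (nat_lit 10) (nat_lit 5) (nat_lit 11) (nat_lit 5) (nat_lit 249) (nat_lit 240) (nat_lit 111)) (XT.lf (nat_lit 0) (nat_lit 1073617288330) (nat_lit 228) (nat_lit 1345373987333) (nat_lit 76) (nat_lit 129830055041) (nat_lit 8) (nat_lit 5) (nat_lit 11) (nat_lit 5) (nat_lit 9) (nat_lit 4) (nat_lit 250) (nat_lit 240) (nat_lit 110))) (XT.nd (nat_lit 78) (nat_lit 76) (nat_lit 0) (XT.lf (nat_lit 0) (nat_lit 1489977744033) (nat_lit 228) (nat_lit 450199013701) (nat_lit 76) (nat_lit 872108218611) (nat_lit 8) (nat_lit 5) (nat_lit 11) (nat_lit 5) (nat_lit 9) (nat_lit 4) (nat_lit 251) (nat_lit 240)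 (nat_lit 109)) (XT.lf (nat_lit 0) (nat_lit 635860940588) (nat_lit 76) (nat_lit 1359260970709) (nat_lit 152) (nat_lit 1116196811081) (nat_lit 7) (nat_lit 5) (nat_lit 8) (nat_lit 5) (nat_lit 9) (nat_lit 4) (nat_lit 252) (nat_lit 240) (nat_lit 108))))) (XT.nd (nat_lit 312) (nat_lit 76) (nat_lit 0) (XT.nd (nat_lit 156) (nat_lit 152) (nat_lit 0) (XT.nd (nat_lit 78) (nat_lit 0) (nat_lit 0) (XT.lf (nat_lit 0) (nat_lit 1935426114869) (nat_lit 76) (nat_lit 664144716854) (nat_lit 152) (nat_lit 852106729409) (nat_lit 7) (nat_lit 5) (nat_lit 8) (nat_lit 5) (nat_lit 9) (nat_lit 4) (nat_lit 253) (nat_lit 240) (nat_lit 107)) (XT.lf (nat_lit 0) (nat_lit 3300287045831) (nat_lit 152) (nat_lit 418764121035) (nat_lit 0) (nat_lit 123199065511) (nat_lit 7) (nat_lit 5) (nat_lit 9) (nat_lit 4) (nat_lit 7) (nat_lit 4) (nat_lit 254) (nat_lit 240) (nat_lit 106))) (XT.nd (nat_lit 78) (nat_lit 76) (nat_lit 0)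 (XT.lf (nat_lit 0) (nat_lit 891047578550) (nat_lit 76) (nat_lit 3283585430776) (nat_lit 76) (nat_lit 106497447409) (nat_lit 6) (nat_lit 4) (nat_lit 7) (nat_lit 5) (nat_lit 7) (nat_lit 4) (nat_lit 255) (nat_lit 240) (nat_lit 105)) (XT.lf (nat_lit 0) (nat_lit 382118213955) (nat_lit 152) (nat_lit 2355533826011) (nat_lit 76) (nat_lit 2042301832173) (nat_lit 5) (nat_lit 5) (nat_lit 7) (nat_lit 5) (nat_lit 6) (nat_lit 4) (nat_lit 256) (nat_lit 240) (nat_lit 104)))) (XT.nd (nat_lit 156) (nat_lit 0) (nat_lit 0) (XT.nd (nat_lit 78) (nat_lit 76) (nat_lit 0) (XT.lf (nat_lit 0) (nat_lit 933122912987) (nat_lit 152) (nat_lit 1170873725396) (nat_lit 76) (nat_lit 3248843465647) (nat_lit 5) (nat_lit 5) (nat_lit 7) (nat_lit 5) (nat_lit 6) (nat_lit 4) (nat_lit 257) (nat_lit 240) (nat_lit 103)) (XT.lf (nat_lit 0) (nat_lit 210198733012) (nat_lit 76) (nat_lit 1365283463888) (nat_lit 152) (nat_lit 4434871491811)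 (nat_lit 4) (nat_lit 5) (nat_lit 5) (nat_lit 5) (nat_lit 6) (nat_lit 4) (nat_lit 258) (nat_lit 240) (nat_lit 102))) (XT.nd (nat_lit 78) (nat_lit 0) (nat_lit 0) (XT.lf (nat_lit 0) (nat_lit 1930022298493) (nat_lit 76) (nat_lit 445377836651) (nat_lit 152) (nat_lit 4381913461699) (nat_lit 4) (nat_lit 5) (nat_lit 5) (nat_lit 5) (nat_lit 6) (nat_lit 4) (nat_lit 259) (nat_lit 240) (nat_lit 101)) (XT.lf (nat_lit 0) (nat_lit 3320668646496) (nat_lit 152) (nat_lit 3733860977663) (nat_lit 0) (nat_lit 557983434686) (nat_lit 4) (nat_lit 5) (nat_lit 6) (nat_lit 4) (nat_lit 4) (nat_lit 4) (nat_lit 260) (nat_lit 240) (nat_lit 100)))))) (XT.nd (nat_lit 29874) (nat_lit 0) (nat_lit 380) (XT.nd (nat_lit 390) (nat_lit 0) (nat_lit 0) (XT.nd (nat_lit 78) (nat_lit 76) (nat_lit 0) (XT.lf (nat_lit 0) (nat_lit 4428935902050) (nat_lit 152) (nat_lit 2497624578886) (nat_lit 0) (nat_lit 1666250689094) (nat_lit 4)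 (nat_lit 5) (nat_lit 6) (nat_lit 4) (nat_lit 4) (nat_lit 4) (nat_lit 261) (nat_lit 240) (nat_lit 99)) (XT.nd (nat_lit 234) (nat_lit 76) (nat_lit 0) (XT.lf (nat_lit 0) (nat_lit 5703443245142) (nat_lit 152) (nat_lit 1075952721685) (nat_lit 0) (nat_lit 2940758031190) (nat_lit 4) (nat_lit 5) (nat_lit 6) (nat_lit 4) (nat_lit 4) (nat_lit 4) (nat_lit 262) (nat_lit 240) (nat_lit 98)) (XT.lf (nat_lit 0) (nat_lit 5050990199402) (nat_lit 76) (nat_lit 5951189535645) (nat_lit 76) (nat_lit 3188504319418) (nat_lit 3) (nat_lit 4) (nat_lit 4) (nat_lit 5) (nat_lit 4) (nat_lit 4) (nat_lit 265) (nat_lit 240) (nat_lit 95)))) (XT.nd (nat_lit 29328) (nat_lit 0) (nat_lit 912) (XT.nd (nat_lit 78) (nat_lit 0) (nat_lit 0) (XT.lf (nat_lit 0) (nat_lit 7780503288057) (nat_lit 76) (nat_lit 5563821069130) (nat_lit 76) (nat_lit 2801135852334) (nat_lit 3) (nat_lit 4) (nat_lit 4) (nat_lit 5) (nat_lit 4) (nat_lit 4)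 (nat_lit 266) (nat_lit 240) (nat_lit 94)) (XT.lf (nat_lit 0) (nat_lit 10919443339251) (nat_lit 76) (nat_lit 5118347332971) (nat_lit 76) (nat_lit 2355662115680) (nat_lit 3) (nat_lit 4) (nat_lit 4) (nat_lit 5) (nat_lit 4) (nat_lit 4) (nat_lit 267) (nat_lit 240) (nat_lit 93))) (XT.nd (nat_lit 78) (nat_lit 0) (nat_lit 0) (XT.lf (nat_lit 0) (nat_lit 253925926314) (nat_lit 0) (nat_lit 253925926314) (nat_lit 228) (nat_lit 126257563288) (nat_lit 15) (nat_lit 5) (nat_lit 15) (nat_lit 3) (nat_lit 18) (nat_lit 3) (nat_lit 241) (nat_lit 241) (nat_lit 118)) (XT.lf (nat_lit 0) (nat_lit 1092097626077) (nat_lit 228) (nat_lit 266450770346) (nat_lit 304) (nat_lit 4754425795) (nat_lit 15) (nat_lit 5) (nat_lit 18) (nat_lit 3) (nat_lit 19) (nat_lit 5) (nat_lit 242) (nat_lit 241) (nat_lit 117))))) (XT.nd (nat_lit 312) (nat_lit 380) (nat_lit 0) (XT.nd (nat_lit 156) (nat_lit 152) (nat_lit 0) (XT.nd (nat_lit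 78) (nat_lit 0) (nat_lit 0) (XT.lf (nat_lit 76) (nat_lit 304476003614) (nat_lit 0) (nat_lit 912265749278) (nat_lit 304) (nat_lit 250388990690) (nat_lit 16) (nat_lit 5) (nat_lit 15) (nat_lit 5) (nat_lit 19) (nat_lit 5) (nat_lit 243) (nat_lit 241) (nat_lit 116)) (XT.lf (nat_lit 76) (nat_lit 990987223018) (nat_lit 0) (nat_lit 383023379052) (nat_lit 304) (nat_lit 210433035667) (nat_lit 16) (nat_lit 5) (nat_lit 15) (nat_lit 5) (nat_lit 19) (nat_lit 5) (nat_lit 244) (nat_lit 241) (nat_lit 115))) (XT.nd (nat_lit 78) (nat_lit 0) (nat_lit 0) (XT.lf (nat_lit 0) (nat_lit 56840119389) (nat_lit 228) (nat_lit 1509725119271) (nat_lit 304) (nat_lit 151033908424) (nat_lit 13) (nat_lit 5) (nat_lit 16) (nat_lit 5) (nat_lit 17) (nat_lit 5) (nat_lit 245) (nat_lit 241) (nat_lit 114)) (XT.lf (nat_lit 0) (nat_lit 851355861485) (nat_lit 228) (nat_lit 985078944176) (nat_lit 304) (nat_lit 27028417000) (nat_lit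 13) (nat_lit 5) (nat_lit 16) (nat_lit 5) (nat_lit 17) (nat_lit 5) (nat_lit 246) (nat_lit 241) (nat_lit 113)))) (XT.nd (nat_lit 156) (nat_lit 152) (nat_lit 0) (XT.nd (nat_lit 78) (nat_lit 152) (nat_lit 0) (XT.lf (nat_lit 0) (nat_lit 105288350727) (nat_lit 304) (nat_lit 270943782791) (nat_lit 76) (nat_lit 1654256901515) (nat_lit 12) (nat_lit 5) (nat_lit 16) (nat_lit 5) (nat_lit 13) (nat_lit 5) (nat_lit 247) (nat_lit 241) (nat_lit 112)) (XT.lf (nat_lit 0) (nat_lit 295784614508) (nat_lit 228) (nat_lit 1596351488051) (nat_lit 76) (nat_lit 324074680229) (nat_lit 10) (nat_lit 5) (nat_lit 13) (nat_lit 5) (nat_lit 11) (nat_lit 5) (nat_lit 248) (nat_lit 241) (nat_lit 111))) (XT.nd (nat_lit 78) (nat_lit 152) (nat_lit 0) (XT.lf (nat_lit 0) (nat_lit 547608528441) (nat_lit 228) (nat_lit 771523373425) (nat_lit 76) (nat_lit 1105745909289) (nat_lit 10) (nat_lit 5) (nat_lit 13) (nat_lit 5) (nat_lit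 11) (nat_lit 5) (nat_lit 249) (nat_lit 241) (nat_lit 110)) (XT.lf (nat_lit 0) (nat_lit 194329512219) (nat_lit 152) (nat_lit 650923285390) (nat_lit 228) (nat_lit 1818385080980) (nat_lit 8) (nat_lit 5) (nat_lit 10) (nat_lit 5) (nat_lit 11) (nat_lit 5) (nat_lit 250) (nat_lit 241) (nat_lit 109))))))))
noncomputable def xc61 : XT := (XT.nd (nat_lit 31980) (nat_lit 0) (nat_lit 0) (XT.nd (nat_lit 30810) (nat_lit 0) (nat_lit 76) (XT.nd (nat_lit 546) (nat_lit 76) (nat_lit 0) (XT.nd (nat_lit 234) (nat_lit 152) (nat_lit 0) (XT.nd (nat_lit 78) (nat_lit 76) (nat_lit 0) (XT.lf (nat_lit 0) (nat_lit 1234659907061) (nat_lit 228) (nat_lit 1547180049155) (nat_lit 76) (nat_lit 149304569965) (nat_lit 8) (nat_lit 5) (nat_lit 11) (nat_lit 5) (nat_lit 9) (nat_lit 4) (nat_lit 251) (nat_lit 241) (nat_lit 108)) (XT.nd (nat_lit 78) (nat_lit 76) (nat_lit 0) (XT.lf (nat_lit 0) (nat_lit 1713474427796) (nat_lit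 228) (nat_lit 517728834209) (nat_lit 76) (nat_lit 1002924457200) (nat_lit 8) (nat_lit 5) (nat_lit 11) (nat_lit 5) (nat_lit 9) (nat_lit 4) (nat_lit 252) (nat_lit 241) (nat_lit 107)) (XT.lf (nat_lit 0) (nat_lit 731240111789) (nat_lit 76) (nat_lit 1563150106718) (nat_lit 152) (nat_lit 1283626308919) (nat_lit 7) (nat_lit 5) (nat_lit 8) (nat_lit 5) (nat_lit 9) (nat_lit 4) (nat_lit 253) (nat_lit 241) (nat_lit 106)))) (XT.nd (nat_lit 156) (nat_lit 152) (nat_lit 0) (XT.nd (nat_lit 78) (nat_lit 0) (nat_lit 0) (XT.lf (nat_lit 0) (nat_lit 2225740058284) (nat_lit 76) (nat_lit 763766416037) (nat_lit 152) (nat_lit 979922718104) (nat_lit 7) (nat_lit 5) (nat_lit 8) (nat_lit 5) (nat_lit 9) (nat_lit 4) (nat_lit 254) (nat_lit 241) (nat_lit 105)) (XT.lf (nat_lit 0) (nat_lit 3795330118518) (nat_lit 152) (nat_lit 481578714219) (nat_lit 0) (nat_lit 141678931949) (nat_lit 7) (nat_lit 5) (nat_lit 9) (nat_lit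 4) (nat_lit 7) (nat_lit 4) (nat_lit 255) (nat_lit 241) (nat_lit 104))) (XT.nd (nat_lit 78) (nat_lit 76) (nat_lit 0) (XT.lf (nat_lit 0) (nat_lit 1024704739169) (nat_lit 76) (nat_lit 3776123236294) (nat_lit 76) (nat_lit 122472047421) (nat_lit 6) (nat_lit 4) (nat_lit 7) (nat_lit 5) (nat_lit 7) (nat_lit 4) (nat_lit 256) (nat_lit 241) (nat_lit 103)) (XT.lf (nat_lit 0) (nat_lit 439435959595) (nat_lit 152) (nat_lit 2708863877747) (nat_lit 76) (nat_lit 2348647113472) (nat_lit 5) (nat_lit 5) (nat_lit 7) (nat_lit 5) (nat_lit 6) (nat_lit 4) (nat_lit 257) (nat_lit 241) (nat_lit 102))))) (XT.nd (nat_lit 312) (nat_lit 0) (nat_lit 0) (XT.nd (nat_lit 156) (nat_lit 0) (nat_lit 0) (XT.nd (nat_lit 78) (nat_lit 76) (nat_lit 0) (XT.lf (nat_lit 0) (nat_lit 1073091361715) (nat_lit 152) (nat_lit 1346504764931) (nat_lit 76) (nat_lit 3736169991122) (nat_lit 5) (nat_lit 5) (nat_lit 7) (nat_lit 5) (nat_lit 6)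 (nat_lit 4) (nat_lit 258) (nat_lit 241) (nat_lit 101)) (XT.lf (nat_lit 0) (nat_lit 241728561363) (nat_lit 76) (nat_lit 1570075976077) (nat_lit 152) (nat_lit 5100102202840) (nat_lit 4) (nat_lit 5) (nat_lit 5) (nat_lit 5) (nat_lit 6) (nat_lit 4) (nat_lit 259) (nat_lit 241) (nat_lit 100))) (XT.nd (nat_lit 78) (nat_lit 0) (nat_lit 0) (XT.lf (nat_lit 0) (nat_lit 2219525659265) (nat_lit 76) (nat_lit 512184505719) (nat_lit 152) (nat_lit 5039200469873) (nat_lit 4) (nat_lit 5) (nat_lit 5) (nat_lit 5) (nat_lit 6) (nat_lit 4) (nat_lit 260) (nat_lit 241) (nat_lit 99)) (XT.lf (nat_lit 0) (nat_lit 3818768952023) (nat_lit 152) (nat_lit 4293940109318) (nat_lit 0) (nat_lit 641680954982) (nat_lit 4) (nat_lit 5) (nat_lit 6) (nat_lit 4) (nat_lit 4) (nat_lit 4) (nat_lit 261) (nat_lit 241) (nat_lit 98)))) (XT.nd (nat_lit 29796) (nat_lit 0) (nat_lit 836) (XT.nd (nat_lit 29718) (nat_lit 0) (nat_lit 836)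 (XT.lf (nat_lit 0) (nat_lit 5093276294794) (nat_lit 152) (nat_lit 2872268252680) (nat_lit 0) (nat_lit 1916188296887) (nat_lit 4) (nat_lit 5) (nat_lit 6) (nat_lit 4) (nat_lit 4) (nat_lit 4) (nat_lit 262) (nat_lit 241) (nat_lit 97)) (XT.lf (nat_lit 0) (nat_lit 292014830916) (nat_lit 0) (nat_lit 292014830916) (nat_lit 228) (nat_lit 145196161235) (nat_lit 15) (nat_lit 5) (nat_lit 15) (nat_lit 3) (nat_lit 18) (nat_lit 3) (nat_lit 242) (nat_lit 242) (nat_lit 116))) (XT.nd (nat_lit 78) (nat_lit 0) (nat_lit 0) (XT.lf (nat_lit 0) (nat_lit 1255912323315) (nat_lit 228) (nat_lit 306418348438) (nat_lit 304) (nat_lit 5467564862) (nat_lit 15) (nat_lit 5) (nat_lit 18) (nat_lit 3) (nat_lit 19) (nat_lit 5) (nat_lit 243) (nat_lit 242) (nat_lit 115)) (XT.lf (nat_lit 76) (nat_lit 350147439913) (nat_lit 0) (nat_lit 1049105623764) (nat_lit 304) (nat_lit 287947283449) (nat_lit 16) (nat_lit 5) (nat_lit 15)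 (nat_lit 5) (nat_lit 19) (nat_lit 5) (nat_lit 244) (nat_lit 242) (nat_lit 114)))))) (XT.nd (nat_lit 546) (nat_lit 228) (nat_lit 0) (XT.nd (nat_lit 234) (nat_lit 380) (nat_lit 0) (XT.nd (nat_lit 78) (nat_lit 152) (nat_lit 0) (XT.lf (nat_lit 76) (nat_lit 1139635337563) (nat_lit 0) (nat_lit 440476896426) (nat_lit 304) (nat_lit 241997942457) (nat_lit 16) (nat_lit 5) (nat_lit 15) (nat_lit 5) (nat_lit 19) (nat_lit 5) (nat_lit 245) (nat_lit 242) (nat_lit 113)) (XT.nd (nat_lit 78) (nat_lit 0) (nat_lit 0) (XT.lf (nat_lit 0) (nat_lit 65366174027) (nat_lit 228) (nat_lit 1736183887757) (nat_lit 304) (nat_lit 173688951147) (nat_lit 13) (nat_lit 5) (nat_lit 16) (nat_lit 5) (nat_lit 17) (nat_lit 5) (nat_lit 246) (nat_lit 242) (nat_lit 112)) (XT.lf (nat_lit 0) (nat_lit 979059272647) (nat_lit 228) (nat_lit 1132840786319) (nat_lit 304) (nat_lit 31082641689) (nat_lit 13) (nat_lit 5) (nat_lit 16) (nat_lit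 5) (nat_lit 17) (nat_lit 5) (nat_lit 247) (nat_lit 242) (nat_lit 111)))) (XT.nd (nat_lit 156) (nat_lit 152) (nat_lit 0) (XT.nd (nat_lit 78) (nat_lit 152) (nat_lit 0) (XT.lf (nat_lit 0) (nat_lit 121081633327) (nat_lit 304) (nat_lit 311585319100) (nat_lit 76) (nat_lit 1902395432957) (nat_lit 12) (nat_lit 5) (nat_lit 16) (nat_lit 5) (nat_lit 13) (nat_lit 5) (nat_lit 248) (nat_lit 242) (nat_lit 110)) (XT.lf (nat_lit 0) (nat_lit 340152334093) (nat_lit 228) (nat_lit 1835804177213) (nat_lit 76) (nat_lit 372685884437) (nat_lit 10) (nat_lit 5) (nat_lit 13) (nat_lit 5) (nat_lit 11) (nat_lit 5) (nat_lit 249) (nat_lit 242) (nat_lit 109))) (XT.nd (nat_lit 78) (nat_lit 152) (nat_lit 0) (XT.lf (nat_lit 0) (nat_lit 629749831540) (nat_lit 228) (nat_lit 887251849834) (nat_lit 76) (nat_lit 1271607797573) (nat_lit 10) (nat_lit 5) (nat_lit 13) (nat_lit 5) (nat_lit 11) (nat_lit 5) (nat_lit 250) (nat_lit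 242) (nat_lit 108)) (XT.lf (nat_lit 0) (nat_lit 223478967311) (nat_lit 152) (nat_lit 748561771834) (nat_lit 228) (nat_lit 2091142817682) (nat_lit 8) (nat_lit 5) (nat_lit 10) (nat_lit 5) (nat_lit 11) (nat_lit 5) (nat_lit 251) (nat_lit 242) (nat_lit 107))))) (XT.nd (nat_lit 312) (nat_lit 152) (nat_lit 0) (XT.nd (nat_lit 156) (nat_lit 76) (nat_lit 0) (XT.nd (nat_lit 78) (nat_lit 0) (nat_lit 0) (XT.lf (nat_lit 0) (nat_lit 1419858912388) (nat_lit 228) (nat_lit 1779257029096) (nat_lit 76) (nat_lit 171700260501) (nat_lit 8) (nat_lit 5) (nat_lit 11) (nat_lit 5) (nat_lit 9) (nat_lit 4) (nat_lit 252) (nat_lit 242) (nat_lit 106)) (XT.lf (nat_lit 0) (nat_lit 1970495608720) (nat_lit 228) (nat_lit 595388135487) (nat_lit 76) (nat_lit 1153363130165) (nat_lit 8) (nat_lit 5) (nat_lit 11) (nat_lit 5) (nat_lit 9) (nat_lit 4) (nat_lit 253) (nat_lit 242) (nat_lit 105))) (XT.nd (nat_lit 78) (nat_lit 0)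 (nat_lit 0) (XT.lf (nat_lit 0) (nat_lit 840926151327) (nat_lit 76) (nat_lit 1797622615468) (nat_lit 152) (nat_lit 1476170237243) (nat_lit 7) (nat_lit 5) (nat_lit 8) (nat_lit 5) (nat_lit 9) (nat_lit 4) (nat_lit 254) (nat_lit 242) (nat_lit 104)) (XT.lf (nat_lit 0) (nat_lit 2559601086826) (nat_lit 76) (nat_lit 878331372132) (nat_lit 152) (nat_lit 1126911110155) (nat_lit 7) (nat_lit 5) (nat_lit 8) (nat_lit 5) (nat_lit 9) (nat_lit 4) (nat_lit 255) (nat_lit 242) (nat_lit 103)))) (XT.nd (nat_lit 156) (nat_lit 76) (nat_lit 0) (XT.nd (nat_lit 78) (nat_lit 76) (nat_lit 0) (XT.lf (nat_lit 0) (nat_lit 4364629648252) (nat_lit 152) (nat_lit 553815502470) (nat_lit 0) (nat_lit 162930776740) (nat_lit 7) (nat_lit 5) (nat_lit 9) (nat_lit 4) (nat_lit 7) (nat_lit 4) (nat_lit 256) (nat_lit 242) (nat_lit 102)) (XT.lf (nat_lit 0) (nat_lit 1178410468068) (nat_lit 76) (nat_lit 4342541714858) (nat_lit 76) (nat_lit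 140842841604) (nat_lit 6) (nat_lit 4) (nat_lit 7) (nat_lit 5) (nat_lit 7) (nat_lit 4) (nat_lit 257) (nat_lit 242) (nat_lit 101))) (XT.nd (nat_lit 78) (nat_lit 0) (nat_lit 0) (XT.lf (nat_lit 0) (nat_lit 505351363776) (nat_lit 152) (nat_lit 3115193442648) (nat_lit 76) (nat_lit 2700944185388) (nat_lit 5) (nat_lit 5) (nat_lit 7) (nat_lit 5) (nat_lit 6) (nat_lit 4) (nat_lit 258) (nat_lit 242) (nat_lit 100)) (XT.lf (nat_lit 0) (nat_lit 1234055074879) (nat_lit 152) (nat_lit 1548480465096) (nat_lit 76) (nat_lit 4296595494047) (nat_lit 5) (nat_lit 5) (nat_lit 7) (nat_lit 5) (nat_lit 6) (nat_lit 4) (nat_lit 259) (nat_lit 242) (nat_lit 99))))))) (XT.nd (nat_lit 30966) (nat_lit 0) (nat_lit 0) (XT.nd (nat_lit 30342) (nat_lit 0) (nat_lit 228) (XT.nd (nat_lit 30030) (nat_lit 0) (nat_lit 684) (XT.nd (nat_lit 78) (nat_lit 0) (nat_lit 0) (XT.lf (nat_lit 0) (nat_lit 277987859479) (nat_lit 76) (nat_lit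 1805587366898) (nat_lit 152) (nat_lit 5865117523632) (nat_lit 4) (nat_lit 5) (nat_lit 5) (nat_lit 5) (nat_lit 6) (nat_lit 4) (nat_lit 260) (nat_lit 242) (nat_lit 98)) (XT.nd (nat_lit 29874) (nat_lit 0) (nat_lit 836) (XT.lf (nat_lit 0) (nat_lit 2552454520252) (nat_lit 76) (nat_lit 589012176715) (nat_lit 152) (nat_lit 5795080531976) (nat_lit 4) (nat_lit 5) (nat_lit 5) (nat_lit 5) (nat_lit 6) (nat_lit 4) (nat_lit 261) (nat_lit 242) (nat_lit 97)) (XT.lf (nat_lit 0) (nat_lit 335817067391) (nat_lit 0) (nat_lit 335817067391) (nat_lit 228) (nat_lit 166975557786) (nat_lit 15) (nat_lit 5) (nat_lit 15) (nat_lit 3) (nat_lit 18) (nat_lit 3) (nat_lit 243) (nat_lit 243) (nat_lit 114)))) (XT.nd (nat_lit 156) (nat_lit 152) (nat_lit 0) (XT.nd (nat_lit 78) (nat_lit 0) (nat_lit 0) (XT.lf (nat_lit 0) (nat_lit 1444299212134) (nat_lit 228) (nat_lit 352381072379) (nat_lit 304) (nat_lit 6287680836) (nat_lit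 15) (nat_lit 5) (nat_lit 18) (nat_lit 3) (nat_lit 19) (nat_lit 5) (nat_lit 244) (nat_lit 243) (nat_lit 113)) (XT.lf (nat_lit 76) (nat_lit 402669582938) (nat_lit 0) (nat_lit 1206471476473) (nat_lit 304) (nat_lit 331139333740) (nat_lit 16) (nat_lit 5) (nat_lit 15) (nat_lit 5) (nat_lit 19) (nat_lit 5) (nat_lit 245) (nat_lit 243) (nat_lit 112))) (XT.nd (nat_lit 78) (nat_lit 152) (nat_lit 0) (XT.lf (nat_lit 76) (nat_lit 1310580661709) (nat_lit 0) (nat_lit 506548438842) (nat_lit 304) (nat_lit 278297597107) (nat_lit 16) (nat_lit 5) (nat_lit 15) (nat_lit 5) (nat_lit 19) (nat_lit 5) (nat_lit 246) (nat_lit 243) (nat_lit 111)) (XT.lf (nat_lit 0) (nat_lit 75171127904) (nat_lit 228) (nat_lit 1996611471370) (nat_lit 304) (nat_lit 199742260897) (nat_lit 13) (nat_lit 5) (nat_lit 16) (nat_lit 5) (nat_lit 17) (nat_lit 5) (nat_lit 247) (nat_lit 243) (nat_lit 110))))) (XT.nd (nat_lit 312) (nat_lit 228)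 (nat_lit 0) (XT.nd (nat_lit 156) (nat_lit 152) (nat_lit 0) (XT.nd (nat_lit 78) (nat_lit 76) (nat_lit 0) (XT.lf (nat_lit 0) (nat_lit 1125918187695) (nat_lit 228) (nat_lit 1302766904658) (nat_lit 304) (nat_lit 35745009314) (nat_lit 13) (nat_lit 5) (nat_lit 16) (nat_lit 5) (nat_lit 17) (nat_lit 5) (nat_lit 248) (nat_lit 243) (nat_lit 109)) (XT.lf (nat_lit 0) (nat_lit 139243901004) (nat_lit 304) (nat_lit 358323093442) (nat_lit 76) (nat_lit 2187754745037) (nat_lit 12) (nat_lit 5) (nat_lit 16) (nat_lit 5) (nat_lit 13) (nat_lit 5) (nat_lit 249) (nat_lit 243) (nat_lit 108))) (XT.nd (nat_lit 78) (nat_lit 0) (nat_lit 0) (XT.lf (nat_lit 0) (nat_lit 391175204931) (nat_lit 228) (nat_lit 2111174778051) (nat_lit 76) (nat_lit 428588768746) (nat_lit 10) (nat_lit 5) (nat_lit 13) (nat_lit 5) (nat_lit 11) (nat_lit 5) (nat_lit 250) (nat_lit 243) (nat_lit 107)) (XT.lf (nat_lit 0) (nat_lit 724212324292)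 (nat_lit 228) (nat_lit 1020339604924) (nat_lit 76) (nat_lit 1462348968639) (nat_lit 10) (nat_lit 5) (nat_lit 13) (nat_lit 5) (nat_lit 11) (nat_lit 5) (nat_lit 251) (nat_lit 243) (nat_lit 106)))) (XT.nd (nat_lit 156) (nat_lit 76) (nat_lit 0) (XT.nd (nat_lit 78) (nat_lit 0) (nat_lit 0) (XT.lf (nat_lit 0) (nat_lit 257000833776) (nat_lit 152) (nat_lit 860846032797) (nat_lit 228) (nat_lit 2404814221094) (nat_lit 8) (nat_lit 5) (nat_lit 10) (nat_lit 5) (nat_lit 11) (nat_lit 5) (nat_lit 252) (nat_lit 243) (nat_lit 105)) (XT.lf (nat_lit 0) (nat_lit 1632837763816) (nat_lit 228) (nat_lit 2046145562719) (nat_lit 76) (nat_lit 197455303389) (nat_lit 8) (nat_lit 5) (nat_lit 11) (nat_lit 5) (nat_lit 9) (nat_lit 4) (nat_lit 253) (nat_lit 243) (nat_lit 104))) (XT.nd (nat_lit 78) (nat_lit 76) (nat_lit 0) (XT.lf (nat_lit 0) (nat_lit 2266069962697) (nat_lit 228) (nat_lit 684696337774) (nat_lit 76) (nat_lit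 1326367603005) (nat_lit 8) (nat_lit 5) (nat_lit 11) (nat_lit 5) (nat_lit 9) (nat_lit 4) (nat_lit 254) (nat_lit 243) (nat_lit 103)) (XT.lf (nat_lit 0) (nat_lit 967065091243) (nat_lit 76) (nat_lit 2067266002301) (nat_lit 152) (nat_lit 1697595759208) (nat_lit 7) (nat_lit 5) (nat_lit 8) (nat_lit 5) (nat_lit 9) (nat_lit 4) (nat_lit 255) (nat_lit 243) (nat_lit 102)))))) (XT.nd (nat_lit 30420) (nat_lit 0) (nat_lit 456) (XT.nd (nat_lit 234) (nat_lit 152) (nat_lit 0) (XT.nd (nat_lit 78) (nat_lit 76) (nat_lit 0) (XT.lf (nat_lit 0) (nat_lit 2943541264821) (nat_lit 76) (nat_lit 1010081073180) (nat_lit 152) (nat_lit 1295947764833) (nat_lit 7) (nat_lit 5) (nat_lit 8) (nat_lit 5) (nat_lit 9) (nat_lit 4) (nat_lit 256) (nat_lit 243) (nat_lit 101)) (XT.nd (nat_lit 78) (nat_lit 76) (nat_lit 0) (XT.lf (nat_lit 0) (nat_lit 5019324104531) (nat_lit 152) (nat_lit 636887813564) (nat_lit 0) (nat_lit 187370397032)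 (nat_lit 7) (nat_lit 5) (nat_lit 9) (nat_lit 4) (nat_lit 7) (nat_lit 4) (nat_lit 257) (nat_lit 243) (nat_lit 100)) (XT.lf (nat_lit 0) (nat_lit 1355172051906) (nat_lit 76) (nat_lit 4993922966885) (nat_lit 76) (nat_lit 161969258068) (nat_lit 6) (nat_lit 4) (nat_lit 7) (nat_lit 5) (nat_lit 7) (nat_lit 4) (nat_lit 258) (nat_lit 243) (nat_lit 99)))) (XT.nd (nat_lit 156) (nat_lit 76) (nat_lit 0) (XT.nd (nat_lit 78) (nat_lit 0) (nat_lit 0) (XT.lf (nat_lit 0) (nat_lit 581154076088) (nat_lit 152) (nat_lit 3582472446372) (nat_lit 76) (nat_lit 3106085816897) (nat_lit 5) (nat_lit 5) (nat_lit 7) (nat_lit 5) (nat_lit 6) (nat_lit 4) (nat_lit 259) (nat_lit 243) (nat_lit 98)) (XT.lf (nat_lit 0) (nat_lit 1419163342845) (nat_lit 152) (nat_lit 1780752523840) (nat_lit 76) (nat_lit 4941084821372) (nat_lit 5) (nat_lit 5) (nat_lit 7) (nat_lit 5) (nat_lit 6) (nat_lit 4) (nat_lit 260) (nat_lit 243) (nat_lit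 97))) (XT.nd (nat_lit 29952) (nat_lit 0) (nat_lit 836) (XT.lf (nat_lit 0) (nat_lit 319686048920) (nat_lit 76) (nat_lit 2076425467705) (nat_lit 152) (nat_lit 6744885144891) (nat_lit 4) (nat_lit 5) (nat_lit 5) (nat_lit 5) (nat_lit 6) (nat_lit 4) (nat_lit 261) (nat_lit 243) (nat_lit 96)) (XT.lf (nat_lit 0) (nat_lit 386189636451) (nat_lit 0) (nat_lit 386189636451) (nat_lit 228) (nat_lit 192021870558) (nat_lit 15) (nat_lit 5) (nat_lit 15) (nat_lit 3) (nat_lit 18) (nat_lit 3) (nat_lit 244) (nat_lit 244) (nat_lit 112))))) (XT.nd (nat_lit 312) (nat_lit 228) (nat_lit 0) (XT.nd (nat_lit 156) (nat_lit 152) (nat_lit 0) (XT.nd (nat_lit 78) (nat_lit 0) (nat_lit 0) (XT.lf (nat_lit 0) (nat_lit 1660944124444) (nat_lit 228) (nat_lit 405238211818) (nat_lit 304) (nat_lit 7230818781) (nat_lit 15) (nat_lit 5) (nat_lit 18) (nat_lit 3) (nat_lit 19) (nat_lit 5) (nat_lit 245) (nat_lit 244) (nat_lit 111)) (XT.lf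 (nat_lit 76) (nat_lit 463070040823) (nat_lit 0) (nat_lit 1387442204859) (nat_lit 304) (nat_lit 380810201872) (nat_lit 16) (nat_lit 5) (nat_lit 15) (nat_lit 5) (nat_lit 19) (nat_lit 5) (nat_lit 246) (nat_lit 244) (nat_lit 110))) (XT.nd (nat_lit 78) (nat_lit 152) (nat_lit 0) (XT.lf (nat_lit 76) (nat_lit 1507167778743) (nat_lit 0) (nat_lit 582530710681) (nat_lit 304) (nat_lit 320042208908) (nat_lit 16) (nat_lit 5) (nat_lit 15) (nat_lit 5) (nat_lit 19) (nat_lit 5) (nat_lit 247) (nat_lit 244) (nat_lit 109)) (XT.lf (nat_lit 0) (nat_lit 86446818091) (nat_lit 228) (nat_lit 2296103192415) (nat_lit 304) (nat_lit 229703575138) (nat_lit 13) (nat_lit 5) (nat_lit 16) (nat_lit 5) (nat_lit 17) (nat_lit 5) (nat_lit 248) (nat_lit 244) (nat_lit 108)))) (XT.nd (nat_lit 156) (nat_lit 152) (nat_lit 0) (XT.nd (nat_lit 78) (nat_lit 76) (nat_lit 0) (XT.lf (nat_lit 0) (nat_lit 1294805934111) (nat_lit 228)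 (nat_lit 1498181940652) (nat_lit 304) (nat_lit 41106739064) (nat_lit 13) (nat_lit 5) (nat_lit 16) (nat_lit 5) (nat_lit 17) (nat_lit 5) (nat_lit 249) (nat_lit 244) (nat_lit 107)) (XT.lf (nat_lit 0) (nat_lit 160130503303) (nat_lit 304) (nat_lit 412071539671) (nat_lit 76) (nat_lit 2515917954629) (nat_lit 12) (nat_lit 5) (nat_lit 16) (nat_lit 5) (nat_lit 13) (nat_lit 5) (nat_lit 250) (nat_lit 244) (nat_lit 106))) (XT.nd (nat_lit 78) (nat_lit 0) (nat_lit 0) (XT.lf (nat_lit 0) (nat_lit 449851501341) (nat_lit 228) (nat_lit 2427850975293) (nat_lit 76) (nat_lit 492877085301) (nat_lit 10) (nat_lit 5) (nat_lit 13) (nat_lit 5) (nat_lit 11) (nat_lit 5) (nat_lit 251) (nat_lit 244) (nat_lit 105)) (XT.lf (nat_lit 0) (nat_lit 832844186563) (nat_lit 228) (nat_lit 1173390528736) (nat_lit 76) (nat_lit 1681701315016) (nat_lit 10) (nat_lit 5) (nat_lit 13) (nat_lit 5) (nat_lit 11) (nat_lit 5) (nat_lit 252)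 (nat_lit 244) (nat_lit 104))))))))
noncomputable def xc62 : XT := (XT.nd (nat_lit 31902) (nat_lit 0) (nat_lit 0) (XT.nd (nat_lit 30732) (nat_lit 0) (nat_lit 152) (XT.nd (nat_lit 546) (nat_lit 152) (nat_lit 0) (XT.nd (nat_lit 234) (nat_lit 152) (nat_lit 0) (XT.nd (nat_lit 78) (nat_lit 0) (nat_lit 0) (XT.lf (nat_lit 0) (nat_lit 295550975000) (nat_lit 152) (nat_lit 989972934077) (nat_lit 228) (nat_lit 2765536339710) (nat_lit 8) (nat_lit 5) (nat_lit 10) (nat_lit 5) (nat_lit 11) (nat_lit 5) (nat_lit 253) (nat_lit 244) (nat_lit 103)) (XT.nd (nat_lit 78) (nat_lit 0) (nat_lit 0) (XT.lf (nat_lit 0) (nat_lit 1877763439405) (nat_lit 228) (nat_lit 2353067381442) (nat_lit 76) (nat_lit 227073601780) (nat_lit 8) (nat_lit 5) (nat_lit 11) (nat_lit 5) (nat_lit 9) (nat_lit 4) (nat_lit 254) (nat_lit 244) (nat_lit 102)) (XT.lf (nat_lit 0) (nat_lit 2605980466682) (nat_lit 228) (nat_lit 787400774801) (nat_lit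 76) (nat_lit 1525322745962) (nat_lit 8) (nat_lit 5) (nat_lit 11) (nat_lit 5) (nat_lit 9) (nat_lit 4) (nat_lit 255) (nat_lit 244) (nat_lit 101)))) (XT.nd (nat_lit 156) (nat_lit 76) (nat_lit 0) (XT.nd (nat_lit 78) (nat_lit 0) (nat_lit 0) (XT.lf (nat_lit 0) (nat_lit 1112124867948) (nat_lit 76) (nat_lit 2377355898497) (nat_lit 152) (nat_lit 1952235112790) (nat_lit 7) (nat_lit 5) (nat_lit 8) (nat_lit 5) (nat_lit 9) (nat_lit 4) (nat_lit 256) (nat_lit 244) (nat_lit 100)) (XT.lf (nat_lit 0) (nat_lit 3385072465865) (nat_lit 76) (nat_lit 1161593230549) (nat_lit 152) (nat_lit 1490339920602) (nat_lit 7) (nat_lit 5) (nat_lit 8) (nat_lit 5) (nat_lit 9) (nat_lit 4) (nat_lit 257) (nat_lit 244) (nat_lit 99))) (XT.nd (nat_lit 78) (nat_lit 76) (nat_lit 0) (XT.lf (nat_lit 0) (nat_lit 5772222727047) (nat_lit 152) (nat_lit 732420974803) (nat_lit 0) (nat_lit 215475959445) (nat_lit 7) (nat_lit 5) (nat_lit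 9) (nat_lit 4) (nat_lit 7) (nat_lit 4) (nat_lit 258) (nat_lit 244) (nat_lit 98)) (XT.lf (nat_lit 0) (nat_lit 1558447869997) (nat_lit 76) (nat_lit 5743011407984) (nat_lit 76) (nat_lit 186264639385) (nat_lit 6) (nat_lit 4) (nat_lit 7) (nat_lit 5) (nat_lit 7) (nat_lit 4) (nat_lit 259) (nat_lit 244) (nat_lit 97))))) (XT.nd (nat_lit 312) (nat_lit 0) (nat_lit 0) (XT.nd (nat_lit 156) (nat_lit 76) (nat_lit 0) (XT.nd (nat_lit 78) (nat_lit 0) (nat_lit 0) (XT.lf (nat_lit 0) (nat_lit 668327193357) (nat_lit 152) (nat_lit 4119843303745) (nat_lit 76) (nat_lit 3571998692230) (nat_lit 5) (nat_lit 5) (nat_lit 7) (nat_lit 5) (nat_lit 6) (nat_lit 4) (nat_lit 260) (nat_lit 244) (nat_lit 96)) (XT.lf (nat_lit 0) (nat_lit 1632037849364) (nat_lit 152) (nat_lit 2047865394084) (nat_lit 76) (nat_lit 5682247547011) (nat_lit 5) (nat_lit 5) (nat_lit 7) (nat_lit 5) (nat_lit 6) (nat_lit 4) (nat_lit 261) (nat_lit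 244) (nat_lit 95))) (XT.nd (nat_lit 78) (nat_lit 0) (nat_lit 0) (XT.lf (nat_lit 0) (nat_lit 367638964213) (nat_lit 76) (nat_lit 2387889284664) (nat_lit 152) (nat_lit 7756617911116) (nat_lit 4) (nat_lit 5) (nat_lit 5) (nat_lit 5) (nat_lit 6) (nat_lit 4) (nat_lit 262) (nat_lit 244) (nat_lit 94)) (XT.lf (nat_lit 0) (nat_lit 3375621120470) (nat_lit 76) (nat_lit 778968596698) (nat_lit 152) (nat_lit 7663993991463) (nat_lit 4) (nat_lit 5) (nat_lit 5) (nat_lit 5) (nat_lit 6) (nat_lit 4) (nat_lit 263) (nat_lit 244) (nat_lit 93)))) (XT.nd (nat_lit 156) (nat_lit 0) (nat_lit 0) (XT.nd (nat_lit 78) (nat_lit 0) (nat_lit 0) (XT.lf (nat_lit 0) (nat_lit 5807870247781) (nat_lit 152) (nat_lit 6530546132422) (nat_lit 0) (nat_lit 975916533053) (nat_lit 4) (nat_lit 5) (nat_lit 6) (nat_lit 4) (nat_lit 4) (nat_lit 4) (nat_lit 264) (nat_lit 244) (nat_lit 92)) (XT.lf (nat_lit 0) (nat_lit 7746236600387) (nat_lit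 152) (nat_lit 4368360951546) (nat_lit 0) (nat_lit 2914282885284) (nat_lit 4) (nat_lit 5) (nat_lit 6) (nat_lit 4) (nat_lit 4) (nat_lit 4) (nat_lit 265) (nat_lit 244) (nat_lit 91))) (XT.nd (nat_lit 29640) (nat_lit 0) (nat_lit 836) (XT.lf (nat_lit 0) (nat_lit 9975357905625) (nat_lit 152) (nat_lit 1881847993994) (nat_lit 0) (nat_lit 5143404190196) (nat_lit 4) (nat_lit 5) (nat_lit 6) (nat_lit 4) (nat_lit 4) (nat_lit 4) (nat_lit 266) (nat_lit 244) (nat_lit 90)) (XT.lf (nat_lit 0) (nat_lit 444118088687) (nat_lit 0) (nat_lit 444118088687) (nat_lit 228) (nat_lit 220825135342) (nat_lit 15) (nat_lit 5) (nat_lit 15) (nat_lit 3) (nat_lit 18) (nat_lit 3) (nat_lit 245) (nat_lit 245) (nat_lit 110)))))) (XT.nd (nat_lit 546) (nat_lit 304) (nat_lit 0) (XT.nd (nat_lit 234) (nat_lit 380) (nat_lit 0) (XT.nd (nat_lit 78) (nat_lit 0) (nat_lit 0) (XT.lf (nat_lit 0) (nat_lit 1910085766165) (nat_lit 228) (nat_lit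 466023927396) (nat_lit 304) (nat_lit 8315430875) (nat_lit 15) (nat_lit 5) (nat_lit 18) (nat_lit 3) (nat_lit 19) (nat_lit 5) (nat_lit 246) (nat_lit 245) (nat_lit 109)) (XT.nd (nat_lit 78) (nat_lit 0) (nat_lit 0) (XT.lf (nat_lit 76) (nat_lit 532530562405) (nat_lit 0) (nat_lit 1595558540817) (nat_lit 304) (nat_lit 437931708010) (nat_lit 16) (nat_lit 5) (nat_lit 15) (nat_lit 5) (nat_lit 19) (nat_lit 5) (nat_lit 247) (nat_lit 245) (nat_lit 108)) (XT.lf (nat_lit 76) (nat_lit 1733242958997) (nat_lit 0) (nat_lit 669910321830) (nat_lit 304) (nat_lit 368048519251) (nat_lit 16) (nat_lit 5) (nat_lit 15) (nat_lit 5) (nat_lit 19) (nat_lit 5) (nat_lit 248) (nat_lit 245) (nat_lit 107)))) (XT.nd (nat_lit 156) (nat_lit 228) (nat_lit 0) (XT.nd (nat_lit 78) (nat_lit 0) (nat_lit 0) (XT.lf (nat_lit 0) (nat_lit 99413856684) (nat_lit 228) (nat_lit 2640518671535) (nat_lit 304) (nat_lit 264159092585) (nat_lit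 13) (nat_lit 5) (nat_lit 16) (nat_lit 5) (nat_lit 17) (nat_lit 5) (nat_lit 249) (nat_lit 245) (nat_lit 106)) (XT.lf (nat_lit 0) (nat_lit 1489026838036) (nat_lit 228) (nat_lit 1722909231974) (nat_lit 304) (nat_lit 47272733556) (nat_lit 13) (nat_lit 5) (nat_lit 16) (nat_lit 5) (nat_lit 17) (nat_lit 5) (nat_lit 250) (nat_lit 245) (nat_lit 105))) (XT.nd (nat_lit 78) (nat_lit 152) (nat_lit 0) (XT.lf (nat_lit 0) (nat_lit 184150091765) (nat_lit 304) (nat_lit 473882257172) (nat_lit 76) (nat_lit 2893305646186) (nat_lit 12) (nat_lit 5) (nat_lit 16) (nat_lit 5) (nat_lit 13) (nat_lit 5) (nat_lit 251) (nat_lit 245) (nat_lit 104)) (XT.lf (nat_lit 0) (nat_lit 517329238392) (nat_lit 228) (nat_lit 2792028606868) (nat_lit 76) (nat_lit 566808649037) (nat_lit 10) (nat_lit 5) (nat_lit 13) (nat_lit 5) (nat_lit 11) (nat_lit 5) (nat_lit 252) (nat_lit 245) (nat_lit 103))))) (XT.nd (nat_lit 312) (nat_lit 152)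 (nat_lit 0) (XT.nd (nat_lit 156) (nat_lit 0) (nat_lit 0) (XT.nd (nat_lit 78) (nat_lit 152) (nat_lit 0) (XT.lf (nat_lit 0) (nat_lit 957770824851) (nat_lit 228) (nat_lit 1349399095248) (nat_lit 76) (nat_lit 1933956513085) (nat_lit 10) (nat_lit 5) (nat_lit 13) (nat_lit 5) (nat_lit 11) (nat_lit 5) (nat_lit 253) (nat_lit 245) (nat_lit 102)) (XT.lf (nat_lit 0) (nat_lit 339883633467) (nat_lit 152) (nat_lit 1138468871437) (nat_lit 228) (nat_lit 3180366779666) (nat_lit 8) (nat_lit 5) (nat_lit 10) (nat_lit 5) (nat_lit 11) (nat_lit 5) (nat_lit 254) (nat_lit 245) (nat_lit 101))) (XT.nd (nat_lit 78) (nat_lit 0) (nat_lit 0) (XT.lf (nat_lit 0) (nat_lit 2159427963646) (nat_lit 228) (nat_lit 2706027476799) (nat_lit 76) (nat_lit 261134644227) (nat_lit 8) (nat_lit 5) (nat_lit 11) (nat_lit 5) (nat_lit 9) (nat_lit 4) (nat_lit 255) (nat_lit 245) (nat_lit 100)) (XT.lf (nat_lit 0) (nat_lit 2996877543927)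 (nat_lit 228) (nat_lit 905510880709) (nat_lit 76) (nat_lit 1754121159752) (nat_lit 8) (nat_lit 5) (nat_lit 11) (nat_lit 5) (nat_lit 9) (nat_lit 4) (nat_lit 256) (nat_lit 245) (nat_lit 99)))) (XT.nd (nat_lit 156) (nat_lit 76) (nat_lit 0) (XT.nd (nat_lit 78) (nat_lit 0) (nat_lit 0) (XT.lf (nat_lit 0) (nat_lit 1278943607984) (nat_lit 76) (nat_lit 2733959280134) (nat_lit 152) (nat_lit 2245070371920) (nat_lit 7) (nat_lit 5) (nat_lit 8) (nat_lit 5) (nat_lit 9) (nat_lit 4) (nat_lit 257) (nat_lit 245) (nat_lit 98)) (XT.lf (nat_lit 0) (nat_lit 3892833344304) (nat_lit 76) (nat_lit 1335832212403) (nat_lit 152) (nat_lit 1713890901920) (nat_lit 7) (nat_lit 5) (nat_lit 8) (nat_lit 5) (nat_lit 9) (nat_lit 4) (nat_lit 258) (nat_lit 245) (nat_lit 97))) (XT.nd (nat_lit 78) (nat_lit 76) (nat_lit 0) (XT.lf (nat_lit 0) (nat_lit 6638056141274) (nat_lit 152) (nat_lit 842284112860) (nat_lit 0) (nat_lit 247797355523)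 (nat_lit 7) (nat_lit 5) (nat_lit 9) (nat_lit 4) (nat_lit 7) (nat_lit 4) (nat_lit 259) (nat_lit 245) (nat_lit 96)) (XT.lf (nat_lit 0) (nat_lit 1792215058289) (nat_lit 76) (nat_lit 6604463116207) (nat_lit 76) (nat_lit 214204329703) (nat_lit 6) (nat_lit 4) (nat_lit 7) (nat_lit 5) (nat_lit 7) (nat_lit 4) (nat_lit 260) (nat_lit 245) (nat_lit 95))))))) (XT.nd (nat_lit 30810) (nat_lit 0) (nat_lit 0) (XT.nd (nat_lit 30186) (nat_lit 0) (nat_lit 456) (XT.nd (nat_lit 234) (nat_lit 0) (nat_lit 0) (XT.nd (nat_lit 78) (nat_lit 76) (nat_lit 0) (XT.lf (nat_lit 0) (nat_lit 768576276789) (nat_lit 152) (nat_lit 4737819792061) (nat_lit 76) (nat_lit 4107798498181) (nat_lit 5) (nat_lit 5) (nat_lit 7) (nat_lit 5) (nat_lit 6) (nat_lit 4) (nat_lit 261) (nat_lit 245) (nat_lit 94)) (XT.nd (nat_lit 78) (nat_lit 76) (nat_lit 0) (XT.lf (nat_lit 0) (nat_lit 1876843530620) (nat_lit 152) (nat_lit 2355045196895) (nat_lit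 76) (nat_lit 6534584680903) (nat_lit 5) (nat_lit 5) (nat_lit 7) (nat_lit 5) (nat_lit 6) (nat_lit 4) (nat_lit 262) (nat_lit 245) (nat_lit 93)) (XT.lf (nat_lit 0) (nat_lit 422784814859) (nat_lit 76) (nat_lit 2746072674946) (nat_lit 152) (nat_lit 8920110593618) (nat_lit 4) (nat_lit 5) (nat_lit 5) (nat_lit 5) (nat_lit 6) (nat_lit 4) (nat_lit 263) (nat_lit 245) (nat_lit 92)))) (XT.nd (nat_lit 156) (nat_lit 0) (nat_lit 0) (XT.nd (nat_lit 78) (nat_lit 0) (nat_lit 0) (XT.lf (nat_lit 0) (nat_lit 3881964293771) (nat_lit 76) (nat_lit 895813884101) (nat_lit 152) (nat_lit 8813593086560) (nat_lit 4) (nat_lit 5) (nat_lit 5) (nat_lit 5) (nat_lit 6) (nat_lit 4) (nat_lit 264) (nat_lit 245) (nat_lit 91)) (XT.lf (nat_lit 0) (nat_lit 6679050787744) (nat_lit 152) (nat_lit 7510128047384) (nat_lit 0) (nat_lit 1122304014675) (nat_lit 4) (nat_lit 5) (nat_lit 6) (nat_lit 4) (nat_lit 4) (nat_lit 4) (nat_lit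 265) (nat_lit 245) (nat_lit 90))) (XT.nd (nat_lit 29718) (nat_lit 0) (nat_lit 836) (XT.lf (nat_lit 0) (nat_lit 8908172092877) (nat_lit 152) (nat_lit 5023615090016) (nat_lit 0) (nat_lit 3351425319525) (nat_lit 4) (nat_lit 5) (nat_lit 6) (nat_lit 4) (nat_lit 4) (nat_lit 4) (nat_lit 266) (nat_lit 245) (nat_lit 89)) (XT.lf (nat_lit 0) (nat_lit 510735807108) (nat_lit 0) (nat_lit 510735807108) (nat_lit 228) (nat_lit 253948893696) (nat_lit 15) (nat_lit 5) (nat_lit 15) (nat_lit 3) (nat_lit 18) (nat_lit 3) (nat_lit 246) (nat_lit 246) (nat_lit 108))))) (XT.nd (nat_lit 312) (nat_lit 228) (nat_lit 0) (XT.nd (nat_lit 156) (nat_lit 152) (nat_lit 0) (XT.nd (nat_lit 78) (nat_lit 0) (nat_lit 0) (XT.lf (nat_lit 0) (nat_lit 2196598648522) (nat_lit 228) (nat_lit 535927504260) (nat_lit 304) (nat_lit 9562737398) (nat_lit 15) (nat_lit 5) (nat_lit 18) (nat_lit 3) (nat_lit 19) (nat_lit 5) (nat_lit 247) (nat_lit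 246) (nat_lit 107)) (XT.lf (nat_lit 76) (nat_lit 612410158455) (nat_lit 0) (nat_lit 1834892325893) (nat_lit 304) (nat_lit 503621445956) (nat_lit 16) (nat_lit 5) (nat_lit 15) (nat_lit 5) (nat_lit 19) (nat_lit 5) (nat_lit 248) (nat_lit 246) (nat_lit 106))) (XT.nd (nat_lit 78) (nat_lit 152) (nat_lit 0) (XT.lf (nat_lit 76) (nat_lit 1993229413011) (nat_lit 0) (nat_lit 770396873542) (nat_lit 304) (nat_lit 423255781264) (nat_lit 16) (nat_lit 5) (nat_lit 15) (nat_lit 5) (nat_lit 19) (nat_lit 5) (nat_lit 249) (nat_lit 246) (nat_lit 105)) (XT.lf (nat_lit 0) (nat_lit 114325947194) (nat_lit 228) (nat_lit 3036596472459) (nat_lit 304) (nat_lit 303782942239) (nat_lit 13) (nat_lit 5) (nat_lit 16) (nat_lit 5) (nat_lit 17) (nat_lit 5) (nat_lit 250) (nat_lit 246) (nat_lit 104)))) (XT.nd (nat_lit 156) (nat_lit 152) (nat_lit 0) (XT.nd (nat_lit 78) (nat_lit 76) (nat_lit 0) (XT.lf (nat_lit 0) (nat_lit 1712380874182)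 (nat_lit 228) (nat_lit 1981345616939) (nat_lit 304) (nat_lit 54363631212) (nat_lit 13) (nat_lit 5) (nat_lit 16) (nat_lit 5) (nat_lit 17) (nat_lit 5) (nat_lit 251) (nat_lit 246) (nat_lit 103)) (XT.lf (nat_lit 0) (nat_lit 211772615334) (nat_lit 304) (nat_lit 544964585578) (nat_lit 76) (nat_lit 3327301491877) (nat_lit 12) (nat_lit 5) (nat_lit 16) (nat_lit 5) (nat_lit 13) (nat_lit 5) (nat_lit 252) (nat_lit 246) (nat_lit 102))) (XT.nd (nat_lit 78) (nat_lit 0) (nat_lit 0) (XT.lf (nat_lit 0) (nat_lit 594928633110) (nat_lit 228) (nat_lit 3210832886769) (nat_lit 76) (nat_lit 651829947103) (nat_lit 10) (nat_lit 5) (nat_lit 13) (nat_lit 5) (nat_lit 11) (nat_lit 5) (nat_lit 253) (nat_lit 246) (nat_lit 101)) (XT.lf (nat_lit 0) (nat_lit 1101436456369) (nat_lit 228) (nat_lit 1551808949857) (nat_lit 76) (nat_lit 2224049990666) (nat_lit 10) (nat_lit 5) (nat_lit 13) (nat_lit 5) (nat_lit 11) (nat_lit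 5) (nat_lit 254) (nat_lit 246) (nat_lit 100)))))) (XT.nd (nat_lit 624) (nat_lit 76) (nat_lit 0) (XT.nd (nat_lit 234) (nat_lit 228) (nat_lit 0) (XT.nd (nat_lit 78) (nat_lit 0) (nat_lit 0) (XT.lf (nat_lit 0) (nat_lit 390866187725) (nat_lit 152) (nat_lit 1309239200072) (nat_lit 228) (nat_lit 3657421788298) (nat_lit 8) (nat_lit 5) (nat_lit 10) (nat_lit 5) (nat_lit 11) (nat_lit 5) (nat_lit 255) (nat_lit 246) (nat_lit 99)) (XT.nd (nat_lit 78) (nat_lit 0) (nat_lit 0) (XT.lf (nat_lit 0) (nat_lit 2483342164491) (nat_lit 228) (nat_lit 3111931589352) (nat_lit 76) (nat_lit 300304842509) (nat_lit 8) (nat_lit 5) (nat_lit 11) (nat_lit 5) (nat_lit 9) (nat_lit 4) (nat_lit 256) (nat_lit 246) (nat_lit 98)) (XT.lf (nat_lit 0) (nat_lit 3446409180994) (nat_lit 228) (nat_lit 1041337505018) (nat_lit 76) (nat_lit 2017239335148) (nat_lit 8) (nat_lit 5) (nat_lit 11) (nat_lit 5) (nat_lit 9) (nat_lit 4) (nat_lit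 257) (nat_lit 246) (nat_lit 97)))) (XT.nd (nat_lit 234) (nat_lit 152) (nat_lit 0) (XT.nd (nat_lit 156) (nat_lit 0) (nat_lit 0) (XT.lf (nat_lit 0) (nat_lit 1470785156625) (nat_lit 76) (nat_lit 3144053169782) (nat_lit 152) (nat_lit 2581830921819) (nat_lit 7) (nat_lit 5) (nat_lit 8) (nat_lit 5) (nat_lit 9) (nat_lit 4) (nat_lit 258) (nat_lit 246) (nat_lit 96)) (XT.lf (nat_lit 0) (nat_lit 7633764566373) (nat_lit 152) (nat_lit 968626723617) (nat_lit 0) (nat_lit 284966960485) (nat_lit 7) (nat_lit 5) (nat_lit 9) (nat_lit 4) (nat_lit 7) (nat_lit 4) (nat_lit 260) (nat_lit 246) (nat_lit 94))) (XT.nd (nat_lit 78) (nat_lit 76) (nat_lit 0) (XT.lf (nat_lit 0) (nat_lit 2061047322924) (nat_lit 76) (nat_lit 7595132581389) (nat_lit 76) (nat_lit 246334974931) (nat_lit 6) (nat_lit 4) (nat_lit 7) (nat_lit 5) (nat_lit 7) (nat_lit 4) (nat_lit 261) (nat_lit 246) (nat_lit 93)) (XT.lf (nat_lit 0) (nat_lit 883862721656)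 (nat_lit 152) (nat_lit 5448492755391) (nat_lit 76) (nat_lit 4723968274508) (nat_lit 5) (nat_lit 5) (nat_lit 7) (nat_lit 5) (nat_lit 6) (nat_lit 4) (nat_lit 262) (nat_lit 246) (nat_lit 92))))) (XT.nd (nat_lit 30108) (nat_lit 0) (nat_lit 684) (XT.nd (nat_lit 156) (nat_lit 0) (nat_lit 0) (XT.nd (nat_lit 78) (nat_lit 76) (nat_lit 0) (XT.lf (nat_lit 0) (nat_lit 2158370063124) (nat_lit 152) (nat_lit 2708301971665) (nat_lit 76) (nat_lit 7514772384430) (nat_lit 5) (nat_lit 5) (nat_lit 7) (nat_lit 5) (nat_lit 6) (nat_lit 4) (nat_lit 263) (nat_lit 246) (nat_lit 91)) (XT.lf (nat_lit 0) (nat_lit 486202541636) (nat_lit 76) (nat_lit 3157983574360) (nat_lit 152) (nat_lit 10258127179511) (nat_lit 4) (nat_lit 5) (nat_lit 5) (nat_lit 5) (nat_lit 6) (nat_lit 4) (nat_lit 264) (nat_lit 246) (nat_lit 90))) (XT.nd (nat_lit 29874) (nat_lit 0) (nat_lit 836) (XT.lf (nat_lit 0) (nat_lit 4464258941791) (nat_lit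 76) (nat_lit 1030185965127) (nat_lit 152) (nat_lit 10135632046806) (nat_lit 4) (nat_lit 5) (nat_lit 5) (nat_lit 5) (nat_lit 6) (nat_lit 4) (nat_lit 265) (nat_lit 246) (nat_lit 89)) (XT.lf (nat_lit 0) (nat_lit 587346182044) (nat_lit 0) (nat_lit 587346182044) (nat_lit 228) (nat_lit 292041218717) (nat_lit 15) (nat_lit 5) (nat_lit 15) (nat_lit 3) (nat_lit 18) (nat_lit 3) (nat_lit 247) (nat_lit 247) (nat_lit 106)))) (XT.nd (nat_lit 156) (nat_lit 152) (nat_lit 0) (XT.nd (nat_lit 78) (nat_lit 0) (nat_lit 0) (XT.lf (nat_lit 0) (nat_lit 2526088458982) (nat_lit 228) (nat_lit 616316620639) (nat_lit 304) (nat_lit 10997141877) (nat_lit 15) (nat_lit 5) (nat_lit 18) (nat_lit 3) (nat_lit 19) (nat_lit 5) (nat_lit 248) (nat_lit 247) (nat_lit 105)) (XT.lf (nat_lit 76) (nat_lit 704271691062) (nat_lit 0) (nat_lit 2110126177767) (nat_lit 304) (nat_lit 579164649046) (nat_lit 16) (nat_lit 5) (nat_lit 15)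 (nat_lit 5) (nat_lit 19) (nat_lit 5) (nat_lit 249) (nat_lit 247) (nat_lit 104))) (XT.nd (nat_lit 78) (nat_lit 152) (nat_lit 0) (XT.lf (nat_lit 76) (nat_lit 2292213832649) (nat_lit 0) (nat_lit 885956407173) (nat_lit 304) (nat_lit 486744136450) (nat_lit 16) (nat_lit 5) (nat_lit 15) (nat_lit 5) (nat_lit 19) (nat_lit 5) (nat_lit 250) (nat_lit 247) (nat_lit 103)) (XT.lf (nat_lit 0) (nat_lit 131474848352) (nat_lit 228) (nat_lit 3492085943475) (nat_lit 304) (nat_lit 349350372813) (nat_lit 13) (nat_lit 5) (nat_lit 16) (nat_lit 5) (nat_lit 17) (nat_lit 5) (nat_lit 251) (nat_lit 247) (nat_lit 102))))))))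
noncomputable def xc63 : XT := (XT.nd (nat_lit 63336) (nat_lit 0) (nat_lit 152) (XT.nd (nat_lit 31356) (nat_lit 0) (nat_lit 76) (XT.nd (nat_lit 780) (nat_lit 152) (nat_lit 0) (XT.nd (nat_lit 234) (nat_lit 228) (nat_lit 0) (XT.nd (nat_lit 78) (nat_lit 228) (nat_lit 0) (XT.lf (nat_lit 0) (nat_lit 1969238013205) (nat_lit 228) (nat_lit 2278547459608) (nat_lit 304) (nat_lit 62518166535) (nat_lit 13) (nat_lit 5) (nat_lit 16) (nat_lit 5) (nat_lit 17) (nat_lit 5) (nat_lit 252) (nat_lit 247) (nat_lit 101)) (XT.nd (nat_lit 78) (nat_lit 152) (nat_lit 0) (XT.lf (nat_lit 0) (nat_lit 243538515047) (nat_lit 304) (nat_lit 626709265725) (nat_lit 76) (nat_lit 3826396714722) (nat_lit 12) (nat_lit 5) (nat_lit 16) (nat_lit 5) (nat_lit 13) (nat_lit 5) (nat_lit 253) (nat_lit 247) (nat_lit 100)) (XT.lf (nat_lit 0) (nat_lit 684167934852) (nat_lit 228) (nat_lit 3692457811369) (nat_lit 76) (nat_lit 749604439706)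 (nat_lit 10) (nat_lit 5) (nat_lit 13) (nat_lit 5) (nat_lit 11) (nat_lit 5) (nat_lit 254) (nat_lit 247) (nat_lit 99)))) (XT.nd (nat_lit 390) (nat_lit 76) (nat_lit 0) (XT.nd (nat_lit 78) (nat_lit 152) (nat_lit 0) (XT.lf (nat_lit 0) (nat_lit 1266651930716) (nat_lit 228) (nat_lit 1784580285018) (nat_lit 76) (nat_lit 2557657489733) (nat_lit 10) (nat_lit 5) (nat_lit 13) (nat_lit 5) (nat_lit 11) (nat_lit 5) (nat_lit 255) (nat_lit 247) (nat_lit 98)) (XT.lf (nat_lit 0) (nat_lit 449496122869) (nat_lit 152) (nat_lit 1505625078510) (nat_lit 228) (nat_lit 4206035050253) (nat_lit 8) (nat_lit 5) (nat_lit 10) (nat_lit 5) (nat_lit 11) (nat_lit 5) (nat_lit 256) (nat_lit 247) (nat_lit 97))) (XT.nd (nat_lit 78) (nat_lit 0) (nat_lit 0) (XT.lf (nat_lit 0) (nat_lit 5148272110180) (nat_lit 76) (nat_lit 1766638096971) (nat_lit 152) (nat_lit 2266620708029) (nat_lit 7) (nat_lit 5) (nat_lit 8) (nat_lit 5) (nat_lit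 9) (nat_lit 4) (nat_lit 260) (nat_lit 247) (nat_lit 93)) (XT.lf (nat_lit 0) (nat_lit 8778829254285) (nat_lit 152) (nat_lit 1113920727493) (nat_lit 0) (nat_lit 327712005794) (nat_lit 7) (nat_lit 5) (nat_lit 9) (nat_lit 4) (nat_lit 7) (nat_lit 4) (nat_lit 261) (nat_lit 247) (nat_lit 92))))) (XT.nd (nat_lit 30264) (nat_lit 0) (nat_lit 608) (XT.nd (nat_lit 156) (nat_lit 0) (nat_lit 0) (XT.nd (nat_lit 78) (nat_lit 76) (nat_lit 0) (XT.lf (nat_lit 0) (nat_lit 2370204425818) (nat_lit 76) (nat_lit 8734402466897) (nat_lit 76) (nat_lit 283285217975) (nat_lit 6) (nat_lit 4) (nat_lit 7) (nat_lit 5) (nat_lit 7) (nat_lit 4) (nat_lit 262) (nat_lit 247) (nat_lit 91)) (XT.lf (nat_lit 0) (nat_lit 1016442132436) (nat_lit 152) (nat_lit 6265766664557) (nat_lit 76) (nat_lit 5432563516894) (nat_lit 5) (nat_lit 5) (nat_lit 7) (nat_lit 5) (nat_lit 6) (nat_lit 4) (nat_lit 263) (nat_lit 247) (nat_lit 90))) (XT.nd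 (nat_lit 30030) (nat_lit 0) (nat_lit 760) (XT.lf (nat_lit 0) (nat_lit 2482125574794) (nat_lit 152) (nat_lit 3114547263812) (nat_lit 76) (nat_lit 8641988243147) (nat_lit 5) (nat_lit 5) (nat_lit 7) (nat_lit 5) (nat_lit 6) (nat_lit 4) (nat_lit 264) (nat_lit 247) (nat_lit 89)) (XT.lf (nat_lit 0) (nat_lit 675448112277) (nat_lit 0) (nat_lit 675448112277) (nat_lit 228) (nat_lit 335847394693) (nat_lit 15) (nat_lit 5) (nat_lit 15) (nat_lit 3) (nat_lit 18) (nat_lit 3) (nat_lit 248) (nat_lit 248) (nat_lit 104)))) (XT.nd (nat_lit 156) (nat_lit 152) (nat_lit 0) (XT.nd (nat_lit 78) (nat_lit 0) (nat_lit 0) (XT.lf (nat_lit 0) (nat_lit 2905001737797) (nat_lit 228) (nat_lit 708764106734) (nat_lit 304) (nat_lit 12646708523) (nat_lit 15) (nat_lit 5) (nat_lit 18) (nat_lit 3) (nat_lit 19) (nat_lit 5) (nat_lit 249) (nat_lit 248) (nat_lit 103)) (XT.lf (nat_lit 76) (nat_lit 809912451405) (nat_lit 0) (nat_lit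 2426645106692) (nat_lit 304) (nat_lit 666039335965) (nat_lit 16) (nat_lit 5) (nat_lit 15) (nat_lit 5) (nat_lit 19) (nat_lit 5) (nat_lit 250) (nat_lit 248) (nat_lit 102))) (XT.nd (nat_lit 78) (nat_lit 152) (nat_lit 0) (XT.lf (nat_lit 76) (nat_lit 2636045913358) (nat_lit 0) (nat_lit 1018849870215) (nat_lit 304) (nat_lit 559755747842) (nat_lit 16) (nat_lit 5) (nat_lit 15) (nat_lit 5) (nat_lit 19) (nat_lit 5) (nat_lit 251) (nat_lit 248) (nat_lit 101)) (XT.lf (nat_lit 0) (nat_lit 151196082470) (nat_lit 228) (nat_lit 4015898835107) (nat_lit 304) (nat_lit 401752920597) (nat_lit 13) (nat_lit 5) (nat_lit 16) (nat_lit 5) (nat_lit 17) (nat_lit 5) (nat_lit 252) (nat_lit 248) (nat_lit 100)))))) (XT.nd (nat_lit 31044) (nat_lit 0) (nat_lit 76) (XT.nd (nat_lit 624) (nat_lit 76) (nat_lit 0) (XT.nd (nat_lit 156) (nat_lit 456) (nat_lit 0) (XT.lf (nat_lit 0) (nat_lit 2264623721155) (nat_lit 228) (nat_lit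 2620329578646) (nat_lit 304) (nat_lit 71895884439) (nat_lit 13) (nat_lit 5) (nat_lit 16) (nat_lit 5) (nat_lit 17) (nat_lit 5) (nat_lit 253) (nat_lit 248) (nat_lit 99)) (XT.nd (nat_lit 390) (nat_lit 228) (nat_lit 0) (XT.lf (nat_lit 0) (nat_lit 786793130202) (nat_lit 228) (nat_lit 4246326476711) (nat_lit 76) (nat_lit 862045106068) (nat_lit 10) (nat_lit 5) (nat_lit 13) (nat_lit 5) (nat_lit 11) (nat_lit 5) (nat_lit 255) (nat_lit 248) (nat_lit 97)) (XT.lf (nat_lit 0) (nat_lit 1945113380366) (nat_lit 76) (nat_lit 4158010313617) (nat_lit 152) (nat_lit 3414471385619) (nat_lit 7) (nat_lit 5) (nat_lit 8) (nat_lit 5) (nat_lit 9) (nat_lit 4) (nat_lit 260) (nat_lit 248) (nat_lit 92)))) (XT.nd (nat_lit 156) (nat_lit 76) (nat_lit 0) (XT.nd (nat_lit 78) (nat_lit 0) (nat_lit 0) (XT.lf (nat_lit 0) (nat_lit 5920512930408) (nat_lit 76) (nat_lit 2031633810337) (nat_lit 152) (nat_lit 2606613811306) (nat_lit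 7) (nat_lit 5) (nat_lit 8) (nat_lit 5) (nat_lit 9) (nat_lit 4) (nat_lit 261) (nat_lit 248) (nat_lit 91)) (XT.lf (nat_lit 0) (nat_lit 10095653644663) (nat_lit 152) (nat_lit 1281008833087) (nat_lit 0) (nat_lit 376868807597) (nat_lit 7) (nat_lit 5) (nat_lit 9) (nat_lit 4) (nat_lit 7) (nat_lit 4) (nat_lit 262) (nat_lit 248) (nat_lit 90))) (XT.nd (nat_lit 30186) (nat_lit 0) (nat_lit 684) (XT.lf (nat_lit 0) (nat_lit 2725735093059) (nat_lit 76) (nat_lit 10044562835646) (nat_lit 76) (nat_lit 325777998255) (nat_lit 6) (nat_lit 4) (nat_lit 7) (nat_lit 5) (nat_lit 7) (nat_lit 4) (nat_lit 263) (nat_lit 248) (nat_lit 89)) (XT.lf (nat_lit 0) (nat_lit 776765331331) (nat_lit 0) (nat_lit 776765331331) (nat_lit 228) (nat_lit 386224498732) (nat_lit 15) (nat_lit 5) (nat_lit 15) (nat_lit 3) (nat_lit 18) (nat_lit 3) (nat_lit 249) (nat_lit 249) (nat_lit 102))))) (XT.nd (nat_lit 312) (nat_lit 456) (nat_lit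 0) (XT.nd (nat_lit 156) (nat_lit 152) (nat_lit 0) (XT.nd (nat_lit 78) (nat_lit 0) (nat_lit 0) (XT.lf (nat_lit 0) (nat_lit 3340752006003) (nat_lit 228) (nat_lit 815078717450) (nat_lit 304) (nat_lit 14543711296) (nat_lit 15) (nat_lit 5) (nat_lit 18) (nat_lit 3) (nat_lit 19) (nat_lit 5) (nat_lit 250) (nat_lit 249) (nat_lit 101)) (XT.lf (nat_lit 76) (nat_lit 931399324169) (nat_lit 0) (nat_lit 2790641874405) (nat_lit 304) (nat_lit 765945228467) (nat_lit 16) (nat_lit 5) (nat_lit 15) (nat_lit 5) (nat_lit 19) (nat_lit 5) (nat_lit 251) (nat_lit 249) (nat_lit 100))) (XT.nd (nat_lit 78) (nat_lit 152) (nat_lit 0) (XT.lf (nat_lit 76) (nat_lit 3031452804756) (nat_lit 0) (nat_lit 1171677352234) (nat_lit 304) (nat_lit 643719103155) (nat_lit 16) (nat_lit 5) (nat_lit 15) (nat_lit 5) (nat_lit 19) (nat_lit 5) (nat_lit 252) (nat_lit 249) (nat_lit 99)) (XT.lf (nat_lit 0) (nat_lit 173875500032) (nat_lit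 228) (nat_lit 4618283660458) (nat_lit 304) (nat_lit 462015852533) (nat_lit 13) (nat_lit 5) (nat_lit 16) (nat_lit 5) (nat_lit 17) (nat_lit 5) (nat_lit 253) (nat_lit 249) (nat_lit 98)))) (XT.nd (nat_lit 468) (nat_lit 380) (nat_lit 0) (XT.nd (nat_lit 78) (nat_lit 76) (nat_lit 0) (XT.lf (nat_lit 0) (nat_lit 2604317283842) (nat_lit 228) (nat_lit 3013379015516) (nat_lit 304) (nat_lit 82680261755) (nat_lit 13) (nat_lit 5) (nat_lit 16) (nat_lit 5) (nat_lit 17) (nat_lit 5) (nat_lit 254) (nat_lit 249) (nat_lit 97)) (XT.lf (nat_lit 0) (nat_lit 322079696835) (nat_lit 304) (nat_lit 828822992838) (nat_lit 76) (nat_lit 5060409653872) (nat_lit 12) (nat_lit 5) (nat_lit 16) (nat_lit 5) (nat_lit 13) (nat_lit 5) (nat_lit 255) (nat_lit 249) (nat_lit 96))) (XT.nd (nat_lit 78) (nat_lit 76) (nat_lit 0) (XT.lf (nat_lit 0) (nat_lit 5241557574590) (nat_lit 228) (nat_lit 1583744161648) (nat_lit 76) (nat_lit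 3067968876838) (nat_lit 8) (nat_lit 5) (nat_lit 11) (nat_lit 5) (nat_lit 9) (nat_lit 4) (nat_lit 260) (nat_lit 249) (nat_lit 91)) (XT.lf (nat_lit 0) (nat_lit 2236880390638) (nat_lit 76) (nat_lit 4781711859634) (nat_lit 152) (nat_lit 3926642090916) (nat_lit 7) (nat_lit 5) (nat_lit 8) (nat_lit 5) (nat_lit 9) (nat_lit 4) (nat_lit 261) (nat_lit 249) (nat_lit 90))))))) (XT.nd (nat_lit 62010) (nat_lit 0) (nat_lit 380) (XT.nd (nat_lit 30810) (nat_lit 0) (nat_lit 76) (XT.nd (nat_lit 30498) (nat_lit 0) (nat_lit 456) (XT.nd (nat_lit 30342) (nat_lit 0) (nat_lit 608) (XT.lf (nat_lit 0) (nat_lit 6808589872767) (nat_lit 76) (nat_lit 2336378880995) (nat_lit 152) (nat_lit 2997605880788) (nat_lit 7) (nat_lit 5) (nat_lit 8) (nat_lit 5) (nat_lit 9) (nat_lit 4) (nat_lit 262) (nat_lit 249) (nat_lit 89)) (XT.nd (nat_lit 78) (nat_lit 0) (nat_lit 0) (XT.lf (nat_lit 0) (nat_lit 893280132704) (nat_lit 0) (nat_lit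 893280132704) (nat_lit 228) (nat_lit 444158169637) (nat_lit 15) (nat_lit 5) (nat_lit 15) (nat_lit 3) (nat_lit 18) (nat_lit 3) (nat_lit 250) (nat_lit 250) (nat_lit 100)) (XT.lf (nat_lit 0) (nat_lit 3841864812602) (nat_lit 228) (nat_lit 937340521064) (nat_lit 304) (nat_lit 16725265340) (nat_lit 15) (nat_lit 5) (nat_lit 18) (nat_lit 3) (nat_lit 19) (nat_lit 5) (nat_lit 251) (nat_lit 250) (nat_lit 99)))) (XT.nd (nat_lit 156) (nat_lit 152) (nat_lit 0) (XT.nd (nat_lit 78) (nat_lit 0) (nat_lit 0) (XT.lf (nat_lit 76) (nat_lit 1071109226616) (nat_lit 0) (nat_lit 3209238156858) (nat_lit 304) (nat_lit 880837006770) (nat_lit 16) (nat_lit 5) (nat_lit 15) (nat_lit 5) (nat_lit 19) (nat_lit 5) (nat_lit 252) (nat_lit 250) (nat_lit 98)) (XT.lf (nat_lit 76) (nat_lit 3486170728792) (nat_lit 0) (nat_lit 1347428956193) (nat_lit 304) (nat_lit 740276963439) (nat_lit 16) (nat_lit 5) (nat_lit 15) (nat_lit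 5) (nat_lit 19) (nat_lit 5) (nat_lit 253) (nat_lit 250) (nat_lit 97))) (XT.nd (nat_lit 78) (nat_lit 0) (nat_lit 0) (XT.lf (nat_lit 0) (nat_lit 199956828962) (nat_lit 228) (nat_lit 5311026209590) (nat_lit 304) (nat_lit 531318225760) (nat_lit 13) (nat_lit 5) (nat_lit 16) (nat_lit 5) (nat_lit 17) (nat_lit 5) (nat_lit 254) (nat_lit 250) (nat_lit 96)) (XT.lf (nat_lit 0) (nat_lit 2994964879832) (nat_lit 228) (nat_lit 3465385867898) (nat_lit 304) (nat_lit 95082296972) (nat_lit 13) (nat_lit 5) (nat_lit 16) (nat_lit 5) (nat_lit 17) (nat_lit 5) (nat_lit 255) (nat_lit 250) (nat_lit 95))))) (XT.nd (nat_lit 30888) (nat_lit 0) (nat_lit 532) (XT.nd (nat_lit 312) (nat_lit 152) (nat_lit 0) (XT.nd (nat_lit 78) (nat_lit 152) (nat_lit 0) (XT.lf (nat_lit 0) (nat_lit 370391654565) (nat_lit 304) (nat_lit 953146438439) (nat_lit 76) (nat_lit 5819471101548) (nat_lit 12) (nat_lit 5) (nat_lit 16) (nat_lit 5)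 (nat_lit 13) (nat_lit 5) (nat_lit 256) (nat_lit 250) (nat_lit 94)) (XT.lf (nat_lit 0) (nat_lit 1040533922076) (nat_lit 228) (nat_lit 5615766756279) (nat_lit 76) (nat_lit 1140054653361) (nat_lit 10) (nat_lit 5) (nat_lit 13) (nat_lit 5) (nat_lit 11) (nat_lit 5) (nat_lit 257) (nat_lit 250) (nat_lit 93))) (XT.nd (nat_lit 78) (nat_lit 0) (nat_lit 0) (XT.lf (nat_lit 0) (nat_lit 4343380983781) (nat_lit 228) (nat_lit 5442787774866) (nat_lit 76) (nat_lit 525235050954) (nat_lit 8) (nat_lit 5) (nat_lit 11) (nat_lit 5) (nat_lit 9) (nat_lit 4) (nat_lit 260) (nat_lit 250) (nat_lit 90)) (XT.lf (nat_lit 0) (nat_lit 6027791212569) (nat_lit 228) (nat_lit 1821305783346) (nat_lit 76) (nat_lit 3528164208833) (nat_lit 8) (nat_lit 5) (nat_lit 11) (nat_lit 5) (nat_lit 9) (nat_lit 4) (nat_lit 261) (nat_lit 250) (nat_lit 89)))) (XT.nd (nat_lit 156) (nat_lit 0) (nat_lit 0) (XT.nd (nat_lit 78) (nat_lit 0) (nat_lit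 0) (XT.lf (nat_lit 0) (nat_lit 1027272153875) (nat_lit 0) (nat_lit 1027272153875) (nat_lit 228) (nat_lit 510781892129) (nat_lit 15) (nat_lit 5) (nat_lit 15) (nat_lit 3) (nat_lit 18) (nat_lit 3) (nat_lit 251) (nat_lit 251) (nat_lit 98)) (XT.lf (nat_lit 0) (nat_lit 4418144538801) (nat_lit 228) (nat_lit 1077941596197) (nat_lit 304) (nat_lit 19234053137) (nat_lit 15) (nat_lit 5) (nat_lit 18) (nat_lit 3) (nat_lit 19) (nat_lit 5) (nat_lit 252) (nat_lit 251) (nat_lit 97))) (XT.nd (nat_lit 78) (nat_lit 0) (nat_lit 0) (XT.lf (nat_lit 76) (nat_lit 1231775613498) (nat_lit 0) (nat_lit 3690623881365) (nat_lit 304) (nat_lit 1012962553273) (nat_lit 16) (nat_lit 5) (nat_lit 15) (nat_lit 5) (nat_lit 19) (nat_lit 5) (nat_lit 253) (nat_lit 251) (nat_lit 96)) (XT.lf (nat_lit 76) (nat_lit 4009096340623) (nat_lit 0) (nat_lit 1549543300471) (nat_lit 304) (nat_lit 851318504031) (nat_lit 16) (nat_lit 5) (nat_lit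 15) (nat_lit 5) (nat_lit 19) (nat_lit 5) (nat_lit 254) (nat_lit 251) (nat_lit 95)))))) (XT.nd (nat_lit 31356) (nat_lit 0) (nat_lit 76) (XT.nd (nat_lit 31044) (nat_lit 0) (nat_lit 228) (XT.nd (nat_lit 78) (nat_lit 76) (nat_lit 0) (XT.lf (nat_lit 0) (nat_lit 229950356274) (nat_lit 228) (nat_lit 6107680141076) (nat_lit 304) (nat_lit 611015956106) (nat_lit 13) (nat_lit 5) (nat_lit 16) (nat_lit 5) (nat_lit 17) (nat_lit 5) (nat_lit 255) (nat_lit 251) (nat_lit 94)) (XT.nd (nat_lit 78) (nat_lit 76) (nat_lit 0) (XT.lf (nat_lit 0) (nat_lit 3444209614388) (nat_lit 228) (nat_lit 3985193748125) (nat_lit 304) (nat_lit 109344638458) (nat_lit 13) (nat_lit 5) (nat_lit 16) (nat_lit 5) (nat_lit 17) (nat_lit 5) (nat_lit 256) (nat_lit 251) (nat_lit 93)) (XT.lf (nat_lit 0) (nat_lit 425950405174) (nat_lit 304) (nat_lit 1096118401691) (nat_lit 76) (nat_lit 6692391766474) (nat_lit 12) (nat_lit 5) (nat_lit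 16) (nat_lit 5) (nat_lit 13) (nat_lit 5) (nat_lit 257) (nat_lit 251) (nat_lit 92)))) (XT.nd (nat_lit 156) (nat_lit 0) (nat_lit 0) (XT.nd (nat_lit 78) (nat_lit 0) (nat_lit 0) (XT.lf (nat_lit 0) (nat_lit 1181362977913) (nat_lit 0) (nat_lit 1181362977913) (nat_lit 228) (nat_lit 587399173715) (nat_lit 15) (nat_lit 5) (nat_lit 15) (nat_lit 3) (nat_lit 18) (nat_lit 3) (nat_lit 252) (nat_lit 252) (nat_lit 96)) (XT.lf (nat_lit 0) (nat_lit 5080866222880) (nat_lit 228) (nat_lit 1239632833338) (nat_lit 304) (nat_lit 22119159592) (nat_lit 15) (nat_lit 5) (nat_lit 18) (nat_lit 3) (nat_lit 19) (nat_lit 5) (nat_lit 253) (nat_lit 252) (nat_lit 95))) (XT.nd (nat_lit 78) (nat_lit 0) (nat_lit 0) (XT.lf (nat_lit 76) (nat_lit 1416541957707) (nat_lit 0) (nat_lit 4244217464308) (nat_lit 304) (nat_lit 1164906932852) (nat_lit 16) (nat_lit 5) (nat_lit 15) (nat_lit 5) (nat_lit 19) (nat_lit 5) (nat_lit 254)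 (nat_lit 252) (nat_lit 94)) (XT.lf (nat_lit 76) (nat_lit 4610460793617) (nat_lit 0) (nat_lit 1781974796185) (nat_lit 304) (nat_lit 979016276669) (nat_lit 16) (nat_lit 5) (nat_lit 15) (nat_lit 5) (nat_lit 19) (nat_lit 5) (nat_lit 255) (nat_lit 252) (nat_lit 93))))) (XT.nd (nat_lit 31278) (nat_lit 0) (nat_lit 152) (XT.nd (nat_lit 31122) (nat_lit 0) (nat_lit 152) (XT.nd (nat_lit 31044) (nat_lit 0) (nat_lit 152) (XT.lf (nat_lit 0) (nat_lit 264442911959) (nat_lit 228) (nat_lit 7023832162274) (nat_lit 304) (nat_lit 702668346862) (nat_lit 13) (nat_lit 5) (nat_lit 16) (nat_lit 5) (nat_lit 17) (nat_lit 5) (nat_lit 256) (nat_lit 252) (nat_lit 92)) (XT.lf (nat_lit 0) (nat_lit 1358567425323) (nat_lit 0) (nat_lit 1358567425323) (nat_lit 228) (nat_lit 675509048084) (nat_lit 15) (nat_lit 5) (nat_lit 15) (nat_lit 3) (nat_lit 18) (nat_lit 3) (nat_lit 253) (nat_lit 253) (nat_lit 94))) (XT.nd (nat_lit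 78) (nat_lit 0) (nat_lit 0) (XT.lf (nat_lit 0) (nat_lit 5842996158776) (nat_lit 228) (nat_lit 1425577756608) (nat_lit 304) (nat_lit 25437032385) (nat_lit 15) (nat_lit 5) (nat_lit 18) (nat_lit 3) (nat_lit 19) (nat_lit 5) (nat_lit 254) (nat_lit 253) (nat_lit 93)) (XT.lf (nat_lit 76) (nat_lit 1629023253015) (nat_lit 0) (nat_lit 4880850084513) (nat_lit 304) (nat_lit 1339642970199) (nat_lit 16) (nat_lit 5) (nat_lit 15) (nat_lit 5) (nat_lit 19) (nat_lit 5) (nat_lit 255) (nat_lit 253) (nat_lit 92)))) (XT.nd (nat_lit 31200) (nat_lit 0) (nat_lit 0) (XT.nd (nat_lit 31122) (nat_lit 0) (nat_lit 0) (XT.lf (nat_lit 76) (nat_lit 5302029914096) (nat_lit 0) (nat_lit 2049271016098) (nat_lit 304) (nat_lit 1125868715926) (nat_lit 16) (nat_lit 5) (nat_lit 15) (nat_lit 5) (nat_lit 19) (nat_lit 5) (nat_lit 256) (nat_lit 253) (nat_lit 91)) (XT.lf (nat_lit 0) (nat_lit 1562352539668) (nat_lit 0) (nat_lit 1562352539668)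 (nat_lit 228) (nat_lit 776835404020) (nat_lit 15) (nat_lit 5) (nat_lit 15) (nat_lit 3) (nat_lit 18) (nat_lit 3) (nat_lit 254) (nat_lit 254) (nat_lit 92))) (XT.nd (nat_lit 31278) (nat_lit 0) (nat_lit 0) (XT.lf (nat_lit 0) (nat_lit 6719445584455) (nat_lit 228) (nat_lit 1639414418790) (nat_lit 304) (nat_lit 29252586377) (nat_lit 15) (nat_lit 5) (nat_lit 18) (nat_lit 3) (nat_lit 19) (nat_lit 5) (nat_lit 255) (nat_lit 254) (nat_lit 91)) (XT.lf (nat_lit 0) (nat_lit 1796705421032) (nat_lit 0) (nat_lit 1796705421032) (nat_lit 228) (nat_lit 893360713658) (nat_lit 15) (nat_lit 5) (nat_lit 15) (nat_lit 3) (nat_lit 18) (nat_lit 3) (nat_lit 255) (nat_lit 255) (nat_lit 90))))))))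

set_option maxRecDepth 10000000 in
noncomputable def Tp : PT := (PT.nd (nat_lit 3166956) pc0 pc1)

set_option maxRecDepth 10000000 in
noncomputable def Tx : XT := (XT.nd (nat_lit 4964076) (nat_lit 0) (nat_lit 76) XT.nil (XT.nd (nat_lit 3031782) (nat_lit 0) (nat_lit 0) (XT.nd (nat_lit 1468272) (nat_lit 0) (nat_lit 0) (XT.nd (nat_lit 1059318) (nat_lit 0) (nat_lit 0) (XT.nd (nat_lit 778050) (nat_lit 0) (nat_lit 0) (XT.nd (nat_lit 561288) (nat_lit 0) (nat_lit 0) (XT.nd (nat_lit 405522) (nat_lit 0) (nat_lit 0) (XT.nd (nat_lit 311610) (nat_lit 0) (nat_lit 0) xc0 xc1) (XT.nd (nat_lit 93054) (nat_lit 0) (nat_lit 0) xc2 xc3)) (XT.nd (nat_lit 123474) (nat_lit 0) (nat_lit 0) (XT.nd (nat_lit 62010) (nat_lit 0) (nat_lit 0) xc4 xc5) (XT.nd (nat_lit 32916) (nat_lit 0) (nat_lit 0) xc6 xc7))) (XT.nd (nat_lit 128076) (nat_lit 0) (nat_lit 0) (XT.nd (nat_lit 64272) (nat_lit 0) (nat_lit 0) (XT.nd (nat_lit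 32136) (nat_lit 0) (nat_lit 0) xc8 xc9) (XT.nd (nat_lit 32058) (nat_lit 0) (nat_lit 0) xc10 xc11)) (XT.nd (nat_lit 90402) (nat_lit 0) (nat_lit 0) (XT.nd (nat_lit 58734) (nat_lit 0) (nat_lit 0) xc12 xc13) (XT.nd (nat_lit 31590) (nat_lit 0) (nat_lit 0) xc14 xc15)))) (XT.nd (nat_lit 218478) (nat_lit 0) (nat_lit 0) (XT.nd (nat_lit 97188) (nat_lit 0) (nat_lit 0) (XT.nd (nat_lit 61698) (nat_lit 0) (nat_lit 0) (XT.nd (nat_lit 30888) (nat_lit 0) (nat_lit 0) xc16 xc17) (XT.nd (nat_lit 30732) (nat_lit 0) (nat_lit 0) xc18 xc19)) (XT.nd (nat_lit 60996) (nat_lit 0) (nat_lit 0) (XT.nd (nat_lit 30498) (nat_lit 0) (nat_lit 0) xc20 xc21) (XT.nd (nat_lit 30342) (nat_lit 0) (nat_lit 0) xc22 xc23))) (XT.nd (nat_lit 94848) (nat_lit 0) (nat_lit 0) (XT.nd (nat_lit 34398) (nat_lit 0) (nat_lit 0) (XT.nd (nat_lit 29718) (nat_lit 0) (nat_lit 0) xc24 xc25) (XT.nd (nat_lit 30342) (nat_lit 0) (nat_lit 0) xc26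 xc27)) (XT.nd (nat_lit 60294) (nat_lit 0) (nat_lit 0) (XT.nd (nat_lit 30030) (nat_lit 0) (nat_lit 0) xc28 xc29) (XT.nd (nat_lit 4680) (nat_lit 0) (nat_lit 0) xc30 xc31))))) (XT.nd (nat_lit 499122) (nat_lit 0) (nat_lit 0) (XT.nd (nat_lit 246636) (nat_lit 0) (nat_lit 0) (XT.nd (nat_lit 122772) (nat_lit 0) (nat_lit 0) (XT.nd (nat_lit 61542) (nat_lit 0) (nat_lit 0) (XT.nd (nat_lit 30654) (nat_lit 0) (nat_lit 0) xc32 xc33) (XT.nd (nat_lit 30654) (nat_lit 0) (nat_lit 0) xc34 xc35)) (XT.nd (nat_lit 61542) (nat_lit 0) (nat_lit 0) (XT.nd (nat_lit 30576) (nat_lit 0) (nat_lit 0) xc36 xc37) (XT.nd (nat_lit 31122) (nat_lit 0) (nat_lit 0) xc38 xc39))) (XT.nd (nat_lit 125580) (nat_lit 0) (nat_lit 0) (XT.nd (nat_lit 36192) (nat_lit 0) (nat_lit 0) (XT.nd (nat_lit 31200) (nat_lit 0) (nat_lit 0) xc40 xc41) (XT.nd (nat_lit 57720) (nat_lit 0) (nat_lit 0) xc42 xc43)) (XT.nd (nat_lit 63180) (nat_lit 0)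 (nat_lit 0) (XT.nd (nat_lit 31434) (nat_lit 0) (nat_lit 0) xc44 xc45) (XT.nd (nat_lit 31824) (nat_lit 0) (nat_lit 0) xc46 xc47)))) (XT.nd (nat_lit 343356) (nat_lit 0) (nat_lit 0) (XT.nd (nat_lit 155844) (nat_lit 0) (nat_lit 0) (XT.nd (nat_lit 64116) (nat_lit 0) (nat_lit 0) (XT.nd (nat_lit 31980) (nat_lit 0) (nat_lit 0) xc48 xc49) (XT.nd (nat_lit 59514) (nat_lit 0) (nat_lit 0) xc50 xc51)) (XT.nd (nat_lit 93210) (nat_lit 0) (nat_lit 0) (XT.nd (nat_lit 32604) (nat_lit 0) (nat_lit 0) xc52 xc53) (XT.nd (nat_lit 32760) (nat_lit 0) (nat_lit 0) xc54 xc55))) (XT.nd (nat_lit 219726) (nat_lit 0) (nat_lit 152) (XT.nd (nat_lit 94926) (nat_lit 0) (nat_lit 0) (XT.nd (nat_lit 33228) (nat_lit 0) (nat_lit 0) xc56 xc57) (XT.nd (nat_lit 61932) (nat_lit 0) (nat_lit 0) xc58 xc59)) (XT.nd (nat_lit 157014) (nat_lit 0) (nat_lit 76) (XT.nd (nat_lit 63024) (nat_lit 0) (nat_lit 76) xc60 xc61) (XT.nd (nat_lit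 93756) (nat_lit 0) (nat_lit 76) xc62 xc63)))))) XT.nil))

set_option maxRecDepth 10000000 in
noncomputable def Te : XT := XT.nil

set_option maxRecDepth 10000000 in
noncomputable def Tz : ZL := (ZL.cons (nat_lit 76) (nat_lit 6) (nat_lit 167472867737695153290) (ZL.cons (nat_lit 152) (nat_lit 6) (nat_lit 158983327320513351348) (ZL.cons (nat_lit 228) (nat_lit 3) (nat_lit 78765735570022635179) (ZL.cons (nat_lit 304) (nat_lit 6) (nat_lit 149220355840754279116) (ZL.cons (nat_lit 380) (nat_lit 6) (nat_lit 142376913062227355818) (ZL.cons (nat_lit 456) (nat_lit 3) (nat_lit 70557214713518860088) (ZL.cons (nat_lit 532) (nat_lit 6) (nat_lit 134506953866921394030) (ZL.cons (nat_lit 608) (nat_lit 6) (nat_lit 129268652464663894298) (ZL.cons (nat_lit 684) (nat_lit 3) (nat_lit 64085420303988627302) (ZL.cons (nat_lit 760) (nat_lit 6) (nat_lit 125297036714568878594) (ZL.cons (nat_lit 836) (nat_lit 6)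 (nat_lit 123244605852067769606) (ZL.cons (nat_lit 912) (nat_lit 6) (nat_lit 122514401091091009652) (ZL.cons (nat_lit 988) (nat_lit 6) (nat_lit 119631866745272970840) (ZL.cons (nat_lit 1064) (nat_lit 3) (nat_lit 59338623869729250773) (ZL.cons (nat_lit 1140) (nat_lit 6) (nat_lit 116088455254600033884) (ZL.cons (nat_lit 1216) (nat_lit 6) (nat_lit 117261939261590351380) (ZL.cons (nat_lit 1292) (nat_lit 6) (nat_lit 115477216772458952262) (ZL.cons (nat_lit 1368) (nat_lit 3) (nat_lit 56477113078714884825) (ZL.cons (nat_lit 1444) (nat_lit 6) (nat_lit 113581903649540869704) (ZL.cons (nat_lit 1520) (nat_lit 3) (nat_lit 56375900083111969940) (ZL.cons (nat_lit 1596) (nat_lit 6) (nat_lit 111402293558185074764) (ZL.cons (nat_lit 1672) (nat_lit 1) (nat_lit 18446744073709551617) ZL.nil))))))))))))))))))))))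

noncomputable def vl : XL := ⟨(nat_lit 0), (nat_lit 76), (nat_lit 153407563), (nat_lit 228), (nat_lit 428225764), (nat_lit 76), (nat_lit 153407563), (nat_lit 1), (nat_lit 5), (nat_lit 3), (nat_lit 4), (nat_lit 1), (nat_lit 4), (nat_lit 0), (nat_lit 0), (nat_lit 0)⟩

noncomputable def cp0 : Nat := (nat_lit 50775199619897246817107956391503796201500814426045609106755222915703430457718066779258880)

noncomputable def cp1 : Nat := (nat_lit 424084380784169786897200193440634287605505902914619710643643399251720366854828285461405827317148277825584030710011982346273799247904385461282998259779759815185271615286346816778787438489782673433135473634402403433782922618359533021731713243362793441094168473480474841624758135865725401155166881667092613742082590093330172627321697536044574232841926629611884902005056297075328832718171391989323057073930003599102757743764247787614897051009930990251307762186484936358673947134068248091655643609013204397215795313043597950976)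

noncomputable def rc0 : Nat := (nat_lit 424084380784169786897200193440634287605505902914619710643643399251720366854828285461405827317148277825584030710011982346273799247904385461282998259779759815185271615286346816778787438489782673433135473634402403433782922618359533021731713243362793441094168473480474841624758135865725401155166881667092613742082590093330172627321697536044574232841926629611884902005056297075328832718171391989323057073930003599102757743764247787614897051009930990251307762186484936358673947134068248091655643609013204397215795313043597950976)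

end Vale.Agent.Lib.P154.PChain.BW.S0
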