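import Vale.Agent.Lib.P154.PChain.BW.R0_0

set_option linter.all false

namespace Vale.Agent.Lib.P154.PChain.BW.S1

open Vale.Agent.Lib.P154.Chain

noncomputable def pc0 : PT := (PT.nd (nat_lit 3042000) (PT.nd (nat_lit 2948166) (PT.nd (nat_lit 2854488) (PT.nd (nat_lit 2823210) (PT.nd (nat_lit 2792010) (PT.nd (nat_lit 2791932) PT.nil (PT.lf (nat_lit 76) (nat_lit 6) (nat_lit 1) (nat_lit 3) (nat_lit 105) (nat_lit 89) (nat_lit 106))) (PT.nd (nat_lit 31122) (PT.lf (nat_lit 76) (nat_lit 6) (nat_lit 1) (nat_lit 1) (nat_lit 106) (nat_lit 89) (nat_lit 105)) (PT.lf (nat_lit 152) (nat_lit 6) (nat_lit 2) (nat_lit 3) (nat_lit 104) (nat_lit 90) (nat_lit 106)))) (PT.nd (nat_lit 78) (PT.lf (nat_lit 228) (nat_lit 3) (nat_lit 3) (nat_lit 1) (nat_lit 105) (nat_lit 90) (nat_lit 105)) (PT.nd (nat_lit 31122) (PT.lf (nat_lit 152) (nat_lit 6) (nat_lit 2) (nat_lit 1) (nat_lit 106) (nat_lit 90) (nat_lit 104))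 (PT.lf (nat_lit 304) (nat_lit 6) (nat_lit 4) (nat_lit 3) (nat_lit 104) (nat_lit 91) (nat_lit 105))))) (PT.nd (nat_lit 31278) (PT.nd (nat_lit 31122) (PT.lf (nat_lit 304) (nat_lit 6) (nat_lit 4) (nat_lit 1) (nat_lit 105) (nat_lit 91) (nat_lit 104)) (PT.nd (nat_lit 78) (PT.lf (nat_lit 380) (nat_lit 6) (nat_lit 5) (nat_lit 3) (nat_lit 103) (nat_lit 92) (nat_lit 105)) (PT.lf (nat_lit 456) (nat_lit 3) (nat_lit 6) (nat_lit 1) (nat_lit 104) (nat_lit 92) (nat_lit 104)))) (PT.nd (nat_lit 31200) (PT.nd (nat_lit 31122) (PT.lf (nat_lit 380) (nat_lit 6) (nat_lit 5) (nat_lit 1) (nat_lit 105) (nat_lit 92) (nat_lit 103)) (PT.lf (nat_lit 532) (nat_lit 6) (nat_lit 7) (nat_lit 3) (nat_lit 103) (nat_lit 93) (nat_lit 104))) (PT.nd (nat_lit 31122) (PT.lf (nat_lit 532) (nat_lit 6) (nat_lit 7) (nat_lit 1) (nat_lit 104) (nat_lit 93) (nat_lit 103)) (PT.lf (nat_lit 608) (nat_lit 6) (nat_lit 8) (nat_lit 3) (nat_lit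 102) (nat_lit 94) (nat_lit 104)))))) (PT.nd (nat_lit 62400) (PT.nd (nat_lit 31200) (PT.nd (nat_lit 78) (PT.lf (nat_lit 684) (nat_lit 3) (nat_lit 9) (nat_lit 1) (nat_lit 103) (nat_lit 94) (nat_lit 103)) (PT.nd (nat_lit 31044) (PT.lf (nat_lit 608) (nat_lit 6) (nat_lit 8) (nat_lit 1) (nat_lit 104) (nat_lit 94) (nat_lit 102)) (PT.lf (nat_lit 760) (nat_lit 6) (nat_lit 10) (nat_lit 3) (nat_lit 101) (nat_lit 95) (nat_lit 104)))) (PT.nd (nat_lit 156) (PT.nd (nat_lit 78) (PT.lf (nat_lit 836) (nat_lit 6) (nat_lit 11) (nat_lit 3) (nat_lit 102) (nat_lit 95) (nat_lit 103)) (PT.lf (nat_lit 836) (nat_lit 6) (nat_lit 11) (nat_lit 1) (nat_lit 103) (nat_lit 95) (nat_lit 102))) (PT.nd (nat_lit 30966) (PT.lf (nat_lit 760) (nat_lit 6) (nat_lit 10) (nat_lit 1) (nat_lit 104) (nat_lit 95) (nat_lit 101)) (PT.lf (nat_lit 912) (nat_lit 6) (nat_lit 12) (nat_lit 3) (nat_lit 100) (nat_lit 96) (nat_lit 104))))) (PT.nd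 (nat_lit 234) (PT.nd (nat_lit 78) (PT.lf (nat_lit 988) (nat_lit 6) (nat_lit 13) (nat_lit 3) (nat_lit 101) (nat_lit 96) (nat_lit 103)) (PT.nd (nat_lit 78) (PT.lf (nat_lit 1064) (nat_lit 3) (nat_lit 14) (nat_lit 1) (nat_lit 102) (nat_lit 96) (nat_lit 102)) (PT.lf (nat_lit 988) (nat_lit 6) (nat_lit 13) (nat_lit 1) (nat_lit 103) (nat_lit 96) (nat_lit 101)))) (PT.nd (nat_lit 31044) (PT.nd (nat_lit 30966) (PT.lf (nat_lit 912) (nat_lit 6) (nat_lit 12) (nat_lit 1) (nat_lit 104) (nat_lit 96) (nat_lit 100)) (PT.lf (nat_lit 1216) (nat_lit 6) (nat_lit 16) (nat_lit 3) (nat_lit 100) (nat_lit 97) (nat_lit 103))) (PT.nd (nat_lit 78) (PT.lf (nat_lit 1292) (nat_lit 6) (nat_lit 17) (nat_lit 3) (nat_lit 101) (nat_lit 97) (nat_lit 102)) (PT.lf (nat_lit 1292) (nat_lit 6) (nat_lit 17) (nat_lit 1) (nat_lit 102) (nat_lit 97) (nat_lit 101))))))) (PT.nd (nat_lit 93366) (PT.nd (nat_lit 62166) (PT.nd (nat_lit 31122)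 (PT.nd (nat_lit 30966) (PT.lf (nat_lit 1216) (nat_lit 6) (nat_lit 16) (nat_lit 1) (nat_lit 103) (nat_lit 97) (nat_lit 100)) (PT.nd (nat_lit 78) (PT.lf (nat_lit 1140) (nat_lit 6) (nat_lit 15) (nat_lit 3) (nat_lit 99) (nat_lit 98) (nat_lit 103)) (PT.lf (nat_lit 1444) (nat_lit 6) (nat_lit 19) (nat_lit 3) (nat_lit 100) (nat_lit 98) (nat_lit 102)))) (PT.nd (nat_lit 78) (PT.lf (nat_lit 1520) (nat_lit 3) (nat_lit 20) (nat_lit 1) (nat_lit 101) (nat_lit 98) (nat_lit 101)) (PT.nd (nat_lit 78) (PT.lf (nat_lit 1444) (nat_lit 6) (nat_lit 19) (nat_lit 1) (nat_lit 102) (nat_lit 98) (nat_lit 100)) (PT.lf (nat_lit 1140) (nat_lit 6) (nat_lit 15) (nat_lit 1) (nat_lit 103) (nat_lit 98) (nat_lit 99))))) (PT.nd (nat_lit 234) (PT.nd (nat_lit 78) (PT.lf (nat_lit 1140) (nat_lit 6) (nat_lit 15) (nat_lit 5) (nat_lit 98) (nat_lit 99) (nat_lit 103)) (PT.nd (nat_lit 78) (PT.lf (nat_lit 1368) (nat_lit 3) (nat_lit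 18) (nat_lit 3) (nat_lit 99) (nat_lit 99) (nat_lit 102)) (PT.lf (nat_lit 1596) (nat_lit 6) (nat_lit 21) (nat_lit 3) (nat_lit 100) (nat_lit 99) (nat_lit 101)))) (PT.nd (nat_lit 156) (PT.nd (nat_lit 78) (PT.lf (nat_lit 1596) (nat_lit 6) (nat_lit 21) (nat_lit 1) (nat_lit 101) (nat_lit 99) (nat_lit 100)) (PT.lf (nat_lit 1368) (nat_lit 3) (nat_lit 18) (nat_lit 0) (nat_lit 102) (nat_lit 99) (nat_lit 99))) (PT.nd (nat_lit 30732) (PT.lf (nat_lit 1140) (nat_lit 6) (nat_lit 15) (nat_lit 0) (nat_lit 103) (nat_lit 99) (nat_lit 98)) (PT.lf (nat_lit 912) (nat_lit 6) (nat_lit 12) (nat_lit 5) (nat_lit 96) (nat_lit 100) (nat_lit 104)))))) (PT.nd (nat_lit 546) (PT.nd (nat_lit 234) (PT.nd (nat_lit 78) (PT.lf (nat_lit 1216) (nat_lit 6) (nat_lit 16) (nat_lit 5) (nat_lit 97) (nat_lit 100) (nat_lit 103)) (PT.nd (nat_lit 78) (PT.lf (nat_lit 1444) (nat_lit 6) (nat_lit 19) (nat_lit 5) (nat_lit 98) (nat_lit 100)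 (nat_lit 102)) (PT.lf (nat_lit 1596) (nat_lit 6) (nat_lit 21) (nat_lit 5) (nat_lit 99) (nat_lit 100) (nat_lit 101)))) (PT.nd (nat_lit 156) (PT.nd (nat_lit 78) (PT.lf (nat_lit 1672) (nat_lit 1) (nat_lit 22) (nat_lit 0) (nat_lit 100) (nat_lit 100) (nat_lit 100)) (PT.lf (nat_lit 1596) (nat_lit 6) (nat_lit 21) (nat_lit 0) (nat_lit 101) (nat_lit 100) (nat_lit 99))) (PT.nd (nat_lit 78) (PT.lf (nat_lit 1444) (nat_lit 6) (nat_lit 19) (nat_lit 0) (nat_lit 102) (nat_lit 100) (nat_lit 98)) (PT.lf (nat_lit 1216) (nat_lit 6) (nat_lit 16) (nat_lit 0) (nat_lit 103) (nat_lit 100) (nat_lit 97))))) (PT.nd (nat_lit 30732) (PT.nd (nat_lit 30576) (PT.lf (nat_lit 912) (nat_lit 6) (nat_lit 12) (nat_lit 0) (nat_lit 104) (nat_lit 100) (nat_lit 96)) (PT.nd (nat_lit 78) (PT.lf (nat_lit 760) (nat_lit 6) (nat_lit 10) (nat_lit 5) (nat_lit 95) (nat_lit 101) (nat_lit 104)) (PT.lf (nat_lit 988) (nat_lit 6) (nat_lit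 13) (nat_lit 5) (nat_lit 96) (nat_lit 101) (nat_lit 103)))) (PT.nd (nat_lit 156) (PT.nd (nat_lit 78) (PT.lf (nat_lit 1292) (nat_lit 6) (nat_lit 17) (nat_lit 5) (nat_lit 97) (nat_lit 101) (nat_lit 102)) (PT.lf (nat_lit 1520) (nat_lit 3) (nat_lit 20) (nat_lit 4) (nat_lit 98) (nat_lit 101) (nat_lit 101))) (PT.nd (nat_lit 78) (PT.lf (nat_lit 1596) (nat_lit 6) (nat_lit 21) (nat_lit 4) (nat_lit 99) (nat_lit 101) (nat_lit 100)) (PT.lf (nat_lit 1596) (nat_lit 6) (nat_lit 21) (nat_lit 2) (nat_lit 100) (nat_lit 101) (nat_lit 99))))))))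
noncomputable def pc1 : PT := (PT.nd (nat_lit 62790) (PT.nd (nat_lit 31434) (PT.nd (nat_lit 30888) (PT.nd (nat_lit 234) (PT.nd (nat_lit 78) (PT.lf (nat_lit 1520) (nat_lit 3) (nat_lit 20) (nat_lit 0) (nat_lit 101) (nat_lit 101) (nat_lit 98)) (PT.nd (nat_lit 78) (PT.lf (nat_lit 1292) (nat_lit 6) (nat_lit 17) (nat_lit 0) (nat_lit 102) (nat_lit 101) (nat_lit 97)) (PT.lf (nat_lit 988) (nat_lit 6) (nat_lit 13) (nat_lit 0) (nat_lit 103) (nat_lit 101) (nat_lit 96)))) (PT.nd (nat_lit 30498) (PT.lf (nat_lit 760) (nat_lit 6) (nat_lit 10) (nat_lit 0) (nat_lit 104) (nat_lit 101) (nat_lit 95)) (PT.nd (nat_lit 78) (PT.lf (nat_lit 608) (nat_lit 6) (nat_lit 8) (nat_lit 5) (nat_lit 94) (nat_lit 102) (nat_lit 104)) (PT.lf (nat_lit 836) (nat_lit 6) (nat_lit 11) (nat_lit 5) (nat_lit 95) (nat_lit 102) (nat_lit 103))))) (PT.nd (nat_lit 234) (PT.nd (nat_lit 78) (PT.lf (nat_lit 1064) (nat_lit 3) (nat_lit 14)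 (nat_lit 4) (nat_lit 96) (nat_lit 102) (nat_lit 102)) (PT.nd (nat_lit 78) (PT.lf (nat_lit 1292) (nat_lit 6) (nat_lit 17) (nat_lit 4) (nat_lit 97) (nat_lit 102) (nat_lit 101)) (PT.lf (nat_lit 1444) (nat_lit 6) (nat_lit 19) (nat_lit 4) (nat_lit 98) (nat_lit 102) (nat_lit 100)))) (PT.nd (nat_lit 156) (PT.nd (nat_lit 78) (PT.lf (nat_lit 1368) (nat_lit 3) (nat_lit 18) (nat_lit 2) (nat_lit 99) (nat_lit 102) (nat_lit 99)) (PT.lf (nat_lit 1444) (nat_lit 6) (nat_lit 19) (nat_lit 2) (nat_lit 100) (nat_lit 102) (nat_lit 98))) (PT.nd (nat_lit 78) (PT.lf (nat_lit 1292) (nat_lit 6) (nat_lit 17) (nat_lit 2) (nat_lit 101) (nat_lit 102) (nat_lit 97)) (PT.lf (nat_lit 1064) (nat_lit 3) (nat_lit 14) (nat_lit 0) (nat_lit 102) (nat_lit 102) (nat_lit 96)))))) (PT.nd (nat_lit 30810) (PT.nd (nat_lit 30498) (PT.nd (nat_lit 78) (PT.lf (nat_lit 836) (nat_lit 6) (nat_lit 11) (nat_lit 0) (nat_lit 103) (nat_lit 102)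 (nat_lit 95)) (PT.nd (nat_lit 30342) (PT.lf (nat_lit 608) (nat_lit 6) (nat_lit 8) (nat_lit 0) (nat_lit 104) (nat_lit 102) (nat_lit 94)) (PT.lf (nat_lit 380) (nat_lit 6) (nat_lit 5) (nat_lit 5) (nat_lit 92) (nat_lit 103) (nat_lit 105)))) (PT.nd (nat_lit 156) (PT.nd (nat_lit 78) (PT.lf (nat_lit 532) (nat_lit 6) (nat_lit 7) (nat_lit 5) (nat_lit 93) (nat_lit 103) (nat_lit 104)) (PT.lf (nat_lit 684) (nat_lit 3) (nat_lit 9) (nat_lit 4) (nat_lit 94) (nat_lit 103) (nat_lit 103))) (PT.nd (nat_lit 78) (PT.lf (nat_lit 836) (nat_lit 6) (nat_lit 11) (nat_lit 4) (nat_lit 95) (nat_lit 103) (nat_lit 102)) (PT.lf (nat_lit 988) (nat_lit 6) (nat_lit 13) (nat_lit 4) (nat_lit 96) (nat_lit 103) (nat_lit 101))))) (PT.nd (nat_lit 234) (PT.nd (nat_lit 78) (PT.lf (nat_lit 1216) (nat_lit 6) (nat_lit 16) (nat_lit 4) (nat_lit 97) (nat_lit 103) (nat_lit 100)) (PT.nd (nat_lit 78) (PT.lf (nat_lit 1140) (nat_lit 6)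 (nat_lit 15) (nat_lit 4) (nat_lit 98) (nat_lit 103) (nat_lit 99)) (PT.lf (nat_lit 1140) (nat_lit 6) (nat_lit 15) (nat_lit 2) (nat_lit 99) (nat_lit 103) (nat_lit 98)))) (PT.nd (nat_lit 156) (PT.nd (nat_lit 78) (PT.lf (nat_lit 1216) (nat_lit 6) (nat_lit 16) (nat_lit 2) (nat_lit 100) (nat_lit 103) (nat_lit 97)) (PT.lf (nat_lit 988) (nat_lit 6) (nat_lit 13) (nat_lit 2) (nat_lit 101) (nat_lit 103) (nat_lit 96))) (PT.nd (nat_lit 78) (PT.lf (nat_lit 836) (nat_lit 6) (nat_lit 11) (nat_lit 2) (nat_lit 102) (nat_lit 103) (nat_lit 95)) (PT.lf (nat_lit 684) (nat_lit 3) (nat_lit 9) (nat_lit 0) (nat_lit 103) (nat_lit 103) (nat_lit 94))))))) (PT.nd (nat_lit 31356) (PT.nd (nat_lit 30576) (PT.nd (nat_lit 30264) (PT.nd (nat_lit 78) (PT.lf (nat_lit 532) (nat_lit 6) (nat_lit 7) (nat_lit 0) (nat_lit 104) (nat_lit 103) (nat_lit 93)) (PT.nd (nat_lit 30108) (PT.lf (nat_lit 380) (nat_lit 6) (nat_lit 5) (nat_lit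 0) (nat_lit 105) (nat_lit 103) (nat_lit 92)) (PT.lf (nat_lit 152) (nat_lit 6) (nat_lit 2) (nat_lit 5) (nat_lit 90) (nat_lit 104) (nat_lit 106)))) (PT.nd (nat_lit 156) (PT.nd (nat_lit 78) (PT.lf (nat_lit 304) (nat_lit 6) (nat_lit 4) (nat_lit 5) (nat_lit 91) (nat_lit 104) (nat_lit 105)) (PT.lf (nat_lit 456) (nat_lit 3) (nat_lit 6) (nat_lit 4) (nat_lit 92) (nat_lit 104) (nat_lit 104))) (PT.nd (nat_lit 78) (PT.lf (nat_lit 532) (nat_lit 6) (nat_lit 7) (nat_lit 4) (nat_lit 93) (nat_lit 104) (nat_lit 103)) (PT.lf (nat_lit 608) (nat_lit 6) (nat_lit 8) (nat_lit 4) (nat_lit 94) (nat_lit 104) (nat_lit 102))))) (PT.nd (nat_lit 468) (PT.nd (nat_lit 78) (PT.lf (nat_lit 760) (nat_lit 6) (nat_lit 10) (nat_lit 4) (nat_lit 95) (nat_lit 104) (nat_lit 101)) (PT.nd (nat_lit 312) (PT.lf (nat_lit 912) (nat_lit 6) (nat_lit 12) (nat_lit 4) (nat_lit 96) (nat_lit 104) (nat_lit 100)) (PT.lf (nat_lit 912) (nat_lit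 6) (nat_lit 12) (nat_lit 2) (nat_lit 100) (nat_lit 104) (nat_lit 96)))) (PT.nd (nat_lit 156) (PT.nd (nat_lit 78) (PT.lf (nat_lit 760) (nat_lit 6) (nat_lit 10) (nat_lit 2) (nat_lit 101) (nat_lit 104) (nat_lit 95)) (PT.lf (nat_lit 608) (nat_lit 6) (nat_lit 8) (nat_lit 2) (nat_lit 102) (nat_lit 104) (nat_lit 94))) (PT.nd (nat_lit 78) (PT.lf (nat_lit 532) (nat_lit 6) (nat_lit 7) (nat_lit 2) (nat_lit 103) (nat_lit 104) (nat_lit 93)) (PT.lf (nat_lit 456) (nat_lit 3) (nat_lit 6) (nat_lit 0) (nat_lit 104) (nat_lit 104) (nat_lit 92)))))) (PT.nd (nat_lit 31200) (PT.nd (nat_lit 30108) (PT.nd (nat_lit 78) (PT.lf (nat_lit 304) (nat_lit 6) (nat_lit 4) (nat_lit 0) (nat_lit 105) (nat_lit 104) (nat_lit 91)) (PT.nd (nat_lit 29952) (PT.lf (nat_lit 152) (nat_lit 6) (nat_lit 2) (nat_lit 0) (nat_lit 106) (nat_lit 104) (nat_lit 90)) (PT.lf (nat_lit 76) (nat_lit 6) (nat_lit 1) (nat_lit 5) (nat_lit 89) (nat_lit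 105) (nat_lit 106)))) (PT.nd (nat_lit 156) (PT.nd (nat_lit 78) (PT.lf (nat_lit 228) (nat_lit 3) (nat_lit 3) (nat_lit 4) (nat_lit 90) (nat_lit 105) (nat_lit 105)) (PT.lf (nat_lit 304) (nat_lit 6) (nat_lit 4) (nat_lit 4) (nat_lit 91) (nat_lit 105) (nat_lit 104))) (PT.nd (nat_lit 858) (PT.lf (nat_lit 380) (nat_lit 6) (nat_lit 5) (nat_lit 4) (nat_lit 92) (nat_lit 105) (nat_lit 103)) (PT.lf (nat_lit 380) (nat_lit 6) (nat_lit 5) (nat_lit 2) (nat_lit 103) (nat_lit 105) (nat_lit 92))))) (PT.nd (nat_lit 30108) (PT.nd (nat_lit 78) (PT.lf (nat_lit 304) (nat_lit 6) (nat_lit 4) (nat_lit 2) (nat_lit 104) (nat_lit 105) (nat_lit 91)) (PT.nd (nat_lit 78) (PT.lf (nat_lit 228) (nat_lit 3) (nat_lit 3) (nat_lit 0) (nat_lit 105) (nat_lit 105) (nat_lit 90)) (PT.lf (nat_lit 76) (nat_lit 6) (nat_lit 1) (nat_lit 0) (nat_lit 106) (nat_lit 105) (nat_lit 89)))) (PT.nd (nat_lit 1170) (PT.nd (nat_lit 78) (PT.lf (nat_lit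 76) (nat_lit 6) (nat_lit 1) (nat_lit 4) (nat_lit 89) (nat_lit 106) (nat_lit 105)) (PT.lf (nat_lit 152) (nat_lit 6) (nat_lit 2) (nat_lit 4) (nat_lit 90) (nat_lit 106) (nat_lit 104))) (PT.nd (nat_lit 78) (PT.lf (nat_lit 152) (nat_lit 6) (nat_lit 2) (nat_lit 2) (nat_lit 104) (nat_lit 106) (nat_lit 90)) (PT.lf (nat_lit 76) (nat_lit 6) (nat_lit 1) (nat_lit 2) (nat_lit 105) (nat_lit 106) (nat_lit 89))))))))
noncomputable def xc0 : XT := (XT.nd (nat_lit 93756) (nat_lit 0) (nat_lit 0) (XT.nd (nat_lit 62400) (nat_lit 0) (nat_lit 0) (XT.nd (nat_lit 31278) (nat_lit 0) (nat_lit 0) (XT.nd (nat_lit 31122) (nat_lit 0) (nat_lit 0) (XT.nd (nat_lit 78) (nat_lit 0) (nat_lit 0) (XT.lf (nat_lit 0) (nat_lit 1106671709165) (nat_lit 152) (nat_lit 226557226894) (nat_lit 0) (nat_lit 1106671709165) (nat_lit 1) (nat_lit 5) (nat_lit 3) (nat_lit 4) (nat_lit 1) (nat_lit 4) (nat_lit 258) (nat_lit 171) (nat_lit 171))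 (XT.lf (nat_lit 0) (nat_lit 2545735586573) (nat_lit 152) (nat_lit 520302578171) (nat_lit 0) (nat_lit 2545697255351) (nat_lit 1) (nat_lit 5) (nat_lit 3) (nat_lit 4) (nat_lit 1) (nat_lit 4) (nat_lit 259) (nat_lit 171) (nat_lit 170))) (XT.nd (nat_lit 78) (nat_lit 0) (nat_lit 0) (XT.lf (nat_lit 0) (nat_lit 836462884077) (nat_lit 152) (nat_lit 172022652765) (nat_lit 0) (nat_lit 836462884077) (nat_lit 1) (nat_lit 5) (nat_lit 3) (nat_lit 4) (nat_lit 1) (nat_lit 4) (nat_lit 256) (nat_lit 172) (nat_lit 172)) (XT.lf (nat_lit 0) (nat_lit 1924313887195) (nat_lit 152) (nat_lit 394756201122) (nat_lit 0) (nat_lit 1924269806289) (nat_lit 1) (nat_lit 5) (nat_lit 3) (nat_lit 4) (nat_lit 1) (nat_lit 4) (nat_lit 257) (nat_lit 172) (nat_lit 171)))) (XT.nd (nat_lit 30966) (nat_lit 0) (nat_lit 0) (XT.nd (nat_lit 78) (nat_lit 0) (nat_lit 0) (XT.lf (nat_lit 0) (nat_lit 2213367738490) (nat_lit 152) (nat_lit 453149864866)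 (nat_lit 0) (nat_lit 2213285326361) (nat_lit 1) (nat_lit 5) (nat_lit 3) (nat_lit 4) (nat_lit 1) (nat_lit 4) (nat_lit 258) (nat_lit 172) (nat_lit 170)) (XT.lf (nat_lit 0) (nat_lit 2545742723477) (nat_lit 152) (nat_lit 520368781488) (nat_lit 0) (nat_lit 2545626979850) (nat_lit 1) (nat_lit 5) (nat_lit 3) (nat_lit 4) (nat_lit 1) (nat_lit 4) (nat_lit 259) (nat_lit 172) (nat_lit 169))) (XT.nd (nat_lit 78) (nat_lit 0) (nat_lit 0) (XT.lf (nat_lit 0) (nat_lit 632095204051) (nat_lit 152) (nat_lit 130893605944) (nat_lit 0) (nat_lit 632095204051) (nat_lit 1) (nat_lit 5) (nat_lit 3) (nat_lit 4) (nat_lit 1) (nat_lit 4) (nat_lit 254) (nat_lit 173) (nat_lit 173)) (XT.lf (nat_lit 0) (nat_lit 1454335611209) (nat_lit 152) (nat_lit 300025008398) (nat_lit 0) (nat_lit 1454284918167) (nat_lit 1) (nat_lit 5) (nat_lit 3) (nat_lit 4) (nat_lit 1) (nat_lit 4) (nat_lit 255) (nat_lit 173) (nat_lit 172))))) (XT.nd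 (nat_lit 30966) (nat_lit 0) (nat_lit 0) (XT.nd (nat_lit 156) (nat_lit 0) (nat_lit 0) (XT.nd (nat_lit 78) (nat_lit 0) (nat_lit 0) (XT.lf (nat_lit 0) (nat_lit 1672953736339) (nat_lit 152) (nat_lit 344086028269) (nat_lit 0) (nat_lit 1672858962390) (nat_lit 1) (nat_lit 5) (nat_lit 3) (nat_lit 4) (nat_lit 1) (nat_lit 4) (nat_lit 256) (nat_lit 173) (nat_lit 171)) (XT.lf (nat_lit 0) (nat_lit 1924322094635) (nat_lit 152) (nat_lit 394832334936) (nat_lit 0) (nat_lit 1924188989464) (nat_lit 1) (nat_lit 5) (nat_lit 3) (nat_lit 4) (nat_lit 1) (nat_lit 4) (nat_lit 257) (nat_lit 173) (nat_lit 170))) (XT.nd (nat_lit 78) (nat_lit 0) (nat_lit 0) (XT.lf (nat_lit 0) (nat_lit 2213358762673) (nat_lit 152) (nat_lit 453256790921) (nat_lit 0) (nat_lit 2213192326004) (nat_lit 1) (nat_lit 5) (nat_lit 3) (nat_lit 4) (nat_lit 1) (nat_lit 4) (nat_lit 258) (nat_lit 173) (nat_lit 169)) (XT.lf (nat_lit 0) (nat_lit 2545718805697)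 (nat_lit 152) (nat_lit 520502483405) (nat_lit 0) (nat_lit 2545523385117) (nat_lit 1) (nat_lit 5) (nat_lit 3) (nat_lit 4) (nat_lit 1) (nat_lit 4) (nat_lit 259) (nat_lit 173) (nat_lit 168)))) (XT.nd (nat_lit 156) (nat_lit 0) (nat_lit 0) (XT.nd (nat_lit 78) (nat_lit 0) (nat_lit 0) (XT.lf (nat_lit 0) (nat_lit 477505240699) (nat_lit 152) (nat_lit 99917102612) (nat_lit 0) (nat_lit 477505240699) (nat_lit 1) (nat_lit 5) (nat_lit 3) (nat_lit 4) (nat_lit 1) (nat_lit 4) (nat_lit 252) (nat_lit 174) (nat_lit 174)) (XT.lf (nat_lit 0) (nat_lit 1098856191783) (nat_lit 152) (nat_lit 228624507943) (nat_lit 0) (nat_lit 1098797894784) (nat_lit 1) (nat_lit 5) (nat_lit 3) (nat_lit 4) (nat_lit 1) (nat_lit 4) (nat_lit 253) (nat_lit 174) (nat_lit 173))) (XT.nd (nat_lit 78) (nat_lit 0) (nat_lit 0) (XT.lf (nat_lit 0) (nat_lit 1264222571515) (nat_lit 152) (nat_lit 261834043038) (nat_lit 0) (nat_lit 1264113581475)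 (nat_lit 1) (nat_lit 5) (nat_lit 3) (nat_lit 4) (nat_lit 1) (nat_lit 4) (nat_lit 254) (nat_lit 174) (nat_lit 172)) (XT.nd (nat_lit 78) (nat_lit 0) (nat_lit 0) (XT.lf (nat_lit 0) (nat_lit 1454345049764) (nat_lit 152) (nat_lit 300112562285) (nat_lit 0) (nat_lit 1454191978818) (nat_lit 1) (nat_lit 5) (nat_lit 3) (nat_lit 4) (nat_lit 1) (nat_lit 4) (nat_lit 255) (nat_lit 174) (nat_lit 171)) (XT.lf (nat_lit 0) (nat_lit 1672943414148) (nat_lit 152) (nat_lit 344208993233) (nat_lit 0) (nat_lit 1672752011979) (nat_lit 1) (nat_lit 5) (nat_lit 3) (nat_lit 4) (nat_lit 1) (nat_lit 4) (nat_lit 256) (nat_lit 174) (nat_lit 170))))))) (XT.nd (nat_lit 31278) (nat_lit 0) (nat_lit 0) (XT.nd (nat_lit 30888) (nat_lit 0) (nat_lit 0) (XT.nd (nat_lit 30732) (nat_lit 0) (nat_lit 0) (XT.nd (nat_lit 78) (nat_lit 0) (nat_lit 0) (XT.lf (nat_lit 0) (nat_lit 1924294589187) (nat_lit 152) (nat_lit 394986092141) (nat_lit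 0) (nat_lit 1924069855520) (nat_lit 1) (nat_lit 5) (nat_lit 3) (nat_lit 4) (nat_lit 1) (nat_lit 4) (nat_lit 257) (nat_lit 174) (nat_lit 169)) (XT.lf (nat_lit 0) (nat_lit 2213316315263) (nat_lit 152) (nat_lit 453437323987) (nat_lit 0) (nat_lit 2213062597684) (nat_lit 1) (nat_lit 5) (nat_lit 3) (nat_lit 4) (nat_lit 1) (nat_lit 4) (nat_lit 258) (nat_lit 174) (nat_lit 168))) (XT.nd (nat_lit 78) (nat_lit 0) (nat_lit 0) (XT.lf (nat_lit 0) (nat_lit 360545587136) (nat_lit 152) (nat_lit 76635825491) (nat_lit 0) (nat_lit 360545587136) (nat_lit 1) (nat_lit 5) (nat_lit 3) (nat_lit 4) (nat_lit 1) (nat_lit 4) (nat_lit 250) (nat_lit 175) (nat_lit 175)) (XT.lf (nat_lit 0) (nat_lit 829938109315) (nat_lit 152) (nat_lit 174899846354) (nat_lit 0) (nat_lit 829871067767) (nat_lit 1) (nat_lit 5) (nat_lit 3) (nat_lit 4) (nat_lit 1) (nat_lit 4) (nat_lit 251) (nat_lit 175) (nat_lit 174)))) (XT.nd (nat_lit 156)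 (nat_lit 0) (nat_lit 0) (XT.nd (nat_lit 78) (nat_lit 0) (nat_lit 0) (XT.lf (nat_lit 0) (nat_lit 955047469323) (nat_lit 152) (nat_lit 199888061046) (nat_lit 0) (nat_lit 954922130776) (nat_lit 1) (nat_lit 5) (nat_lit 3) (nat_lit 4) (nat_lit 1) (nat_lit 4) (nat_lit 252) (nat_lit 175) (nat_lit 173)) (XT.lf (nat_lit 0) (nat_lit 1098867046121) (nat_lit 152) (nat_lit 228725194913) (nat_lit 0) (nat_lit 1098691014533) (nat_lit 1) (nat_lit 5) (nat_lit 3) (nat_lit 4) (nat_lit 1) (nat_lit 4) (nat_lit 253) (nat_lit 175) (nat_lit 172))) (XT.nd (nat_lit 78) (nat_lit 0) (nat_lit 0) (XT.lf (nat_lit 0) (nat_lit 1264210700996) (nat_lit 152) (nat_lit 261975452746) (nat_lit 0) (nat_lit 1263990588502) (nat_lit 1) (nat_lit 5) (nat_lit 3) (nat_lit 4) (nat_lit 1) (nat_lit 4) (nat_lit 254) (nat_lit 175) (nat_lit 171)) (XT.nd (nat_lit 78) (nat_lit 0) (nat_lit 0) (XT.lf (nat_lit 0) (nat_lit 1454313418500) (nat_lit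 152) (nat_lit 300289383069) (nat_lit 0) (nat_lit 1454054974783) (nat_lit 1) (nat_lit 5) (nat_lit 3) (nat_lit 4) (nat_lit 1) (nat_lit 4) (nat_lit 255) (nat_lit 175) (nat_lit 170)) (XT.lf (nat_lit 0) (nat_lit 1672894599627) (nat_lit 152) (nat_lit 344416606258) (nat_lit 0) (nat_lit 1672602824412) (nat_lit 1) (nat_lit 5) (nat_lit 3) (nat_lit 4) (nat_lit 1) (nat_lit 4) (nat_lit 256) (nat_lit 175) (nat_lit 169)))))) (XT.nd (nat_lit 30654) (nat_lit 0) (nat_lit 0) (XT.nd (nat_lit 156) (nat_lit 0) (nat_lit 0) (XT.nd (nat_lit 78) (nat_lit 0) (nat_lit 0) (XT.lf (nat_lit 0) (nat_lit 1924230832704) (nat_lit 152) (nat_lit 395220481027) (nat_lit 0) (nat_lit 1923910073577) (nat_lit 1) (nat_lit 5) (nat_lit 3) (nat_lit 4) (nat_lit 1) (nat_lit 4) (nat_lit 257) (nat_lit 175) (nat_lit 168)) (XT.lf (nat_lit 0) (nat_lit 2213239565768) (nat_lit 152) (nat_lit 453694996231) (nat_lit 0) (nat_lit 2212893603240)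 (nat_lit 1) (nat_lit 5) (nat_lit 3) (nat_lit 4) (nat_lit 1) (nat_lit 4) (nat_lit 258) (nat_lit 175) (nat_lit 167))) (XT.nd (nat_lit 30420) (nat_lit 0) (nat_lit 0) (XT.lf (nat_lit 0) (nat_lit 2545575317511) (nat_lit 152) (nat_lit 520984218471) (nat_lit 0) (nat_lit 2545207438982) (nat_lit 1) (nat_lit 5) (nat_lit 3) (nat_lit 4) (nat_lit 1) (nat_lit 4) (nat_lit 259) (nat_lit 175) (nat_lit 166)) (XT.lf (nat_lit 0) (nat_lit 272029739258) (nat_lit 152) (nat_lit 59194456394) (nat_lit 0) (nat_lit 272029739258) (nat_lit 1) (nat_lit 5) (nat_lit 3) (nat_lit 4) (nat_lit 1) (nat_lit 4) (nat_lit 248) (nat_lit 176) (nat_lit 176)))) (XT.nd (nat_lit 156) (nat_lit 0) (nat_lit 0) (XT.nd (nat_lit 78) (nat_lit 0) (nat_lit 0) (XT.lf (nat_lit 0) (nat_lit 626454148030) (nat_lit 152) (nat_lit 134580314589) (nat_lit 0) (nat_lit 626377050250) (nat_lit 1) (nat_lit 5) (nat_lit 3) (nat_lit 4) (nat_lit 1) (nat_lit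 4) (nat_lit 249) (nat_lit 176) (nat_lit 175)) (XT.lf (nat_lit 0) (nat_lit 721133710386) (nat_lit 152) (nat_lit 153333585177) (nat_lit 0) (nat_lit 720989571058) (nat_lit 1) (nat_lit 5) (nat_lit 3) (nat_lit 4) (nat_lit 1) (nat_lit 4) (nat_lit 250) (nat_lit 176) (nat_lit 174))) (XT.nd (nat_lit 78) (nat_lit 0) (nat_lit 0) (XT.lf (nat_lit 0) (nat_lit 829950591805) (nat_lit 152) (nat_lit 175015636370) (nat_lit 0) (nat_lit 829748155478) (nat_lit 1) (nat_lit 5) (nat_lit 3) (nat_lit 4) (nat_lit 1) (nat_lit 4) (nat_lit 251) (nat_lit 176) (nat_lit 173)) (XT.nd (nat_lit 78) (nat_lit 0) (nat_lit 0) (XT.lf (nat_lit 0) (nat_lit 955033818226) (nat_lit 152) (nat_lit 200050682211) (nat_lit 0) (nat_lit 954780688857) (nat_lit 1) (nat_lit 5) (nat_lit 3) (nat_lit 4) (nat_lit 1) (nat_lit 4) (nat_lit 252) (nat_lit 176) (nat_lit 172)) (XT.lf (nat_lit 0) (nat_lit 1098830670167) (nat_lit 152) (nat_lit 228928538815)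 (nat_lit 0) (nat_lit 1098533459892) (nat_lit 1) (nat_lit 5) (nat_lit 3) (nat_lit 4) (nat_lit 1) (nat_lit 4) (nat_lit 253) (nat_lit 176) (nat_lit 171))))))))
noncomputable def xc1 : XT := (XT.nd (nat_lit 31590) (nat_lit 0) (nat_lit 0) (XT.nd (nat_lit 30888) (nat_lit 0) (nat_lit 0) (XT.nd (nat_lit 312) (nat_lit 0) (nat_lit 0) (XT.nd (nat_lit 156) (nat_lit 0) (nat_lit 0) (XT.nd (nat_lit 78) (nat_lit 0) (nat_lit 0) (XT.lf (nat_lit 0) (nat_lit 1264154564297) (nat_lit 152) (nat_lit 262214207725) (nat_lit 0) (nat_lit 1263819022799) (nat_lit 1) (nat_lit 5) (nat_lit 3) (nat_lit 4) (nat_lit 1) (nat_lit 4) (nat_lit 254) (nat_lit 176) (nat_lit 170)) (XT.lf (nat_lit 0) (nat_lit 1454240098544) (nat_lit 152) (nat_lit 300558930289) (nat_lit 0) (nat_lit 1453871225548) (nat_lit 1) (nat_lit 5) (nat_lit 3) (nat_lit 4) (nat_lit 1) (nat_lit 4) (nat_lit 255) (nat_lit 176) (nat_lit 169))) (XT.nd (nat_lit 78)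 (nat_lit 0) (nat_lit 0) (XT.lf (nat_lit 0) (nat_lit 1672806337708) (nat_lit 152) (nat_lit 344712929339) (nat_lit 0) (nat_lit 1672408480801) (nat_lit 1) (nat_lit 5) (nat_lit 3) (nat_lit 4) (nat_lit 1) (nat_lit 4) (nat_lit 256) (nat_lit 176) (nat_lit 168)) (XT.lf (nat_lit 0) (nat_lit 1924129577774) (nat_lit 152) (nat_lit 395540087466) (nat_lit 0) (nat_lit 1923706517466) (nat_lit 1) (nat_lit 5) (nat_lit 3) (nat_lit 4) (nat_lit 1) (nat_lit 4) (nat_lit 257) (nat_lit 176) (nat_lit 167)))) (XT.nd (nat_lit 30420) (nat_lit 0) (nat_lit 0) (XT.nd (nat_lit 30342) (nat_lit 0) (nat_lit 0) (XT.lf (nat_lit 0) (nat_lit 2213127012568) (nat_lit 152) (nat_lit 454034849068) (nat_lit 0) (nat_lit 2212682036259) (nat_lit 1) (nat_lit 5) (nat_lit 3) (nat_lit 4) (nat_lit 1) (nat_lit 4) (nat_lit 258) (nat_lit 176) (nat_lit 166)) (XT.lf (nat_lit 0) (nat_lit 205009862946) (nat_lit 152) (nat_lit 46193289941) (nat_lit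 0) (nat_lit 205009862946) (nat_lit 1) (nat_lit 5) (nat_lit 3) (nat_lit 4) (nat_lit 1) (nat_lit 4) (nat_lit 246) (nat_lit 177) (nat_lit 177))) (XT.nd (nat_lit 78) (nat_lit 0) (nat_lit 0) (XT.lf (nat_lit 0) (nat_lit 472426294672) (nat_lit 152) (nat_lit 104442591479) (nat_lit 0) (nat_lit 472337632225) (nat_lit 1) (nat_lit 5) (nat_lit 3) (nat_lit 4) (nat_lit 1) (nat_lit 4) (nat_lit 247) (nat_lit 177) (nat_lit 176)) (XT.lf (nat_lit 0) (nat_lit 544108395047) (nat_lit 152) (nat_lit 118460137111) (nat_lit 0) (nat_lit 543942634819) (nat_lit 1) (nat_lit 5) (nat_lit 3) (nat_lit 4) (nat_lit 1) (nat_lit 4) (nat_lit 248) (nat_lit 177) (nat_lit 175))))) (XT.nd (nat_lit 312) (nat_lit 0) (nat_lit 0) (XT.nd (nat_lit 156) (nat_lit 0) (nat_lit 0) (XT.nd (nat_lit 78) (nat_lit 0) (nat_lit 0) (XT.lf (nat_lit 0) (nat_lit 626468502893) (nat_lit 152) (nat_lit 134713473106) (nat_lit 0) (nat_lit 626235701117) (nat_lit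 1) (nat_lit 5) (nat_lit 3) (nat_lit 4) (nat_lit 1) (nat_lit 4) (nat_lit 249) (nat_lit 177) (nat_lit 174)) (XT.lf (nat_lit 0) (nat_lit 721118011625) (nat_lit 152) (nat_lit 153520599516) (nat_lit 0) (nat_lit 720826912851) (nat_lit 1) (nat_lit 5) (nat_lit 3) (nat_lit 4) (nat_lit 1) (nat_lit 4) (nat_lit 250) (nat_lit 177) (nat_lit 173))) (XT.nd (nat_lit 78) (nat_lit 0) (nat_lit 0) (XT.lf (nat_lit 0) (nat_lit 829908759458) (nat_lit 152) (nat_lit 175249481857) (nat_lit 0) (nat_lit 829566967641) (nat_lit 1) (nat_lit 5) (nat_lit 3) (nat_lit 4) (nat_lit 1) (nat_lit 4) (nat_lit 251) (nat_lit 177) (nat_lit 172)) (XT.lf (nat_lit 0) (nat_lit 954969261022) (nat_lit 152) (nat_lit 200325250437) (nat_lit 0) (nat_lit 954583388299) (nat_lit 1) (nat_lit 5) (nat_lit 3) (nat_lit 4) (nat_lit 1) (nat_lit 4) (nat_lit 252) (nat_lit 177) (nat_lit 171)))) (XT.nd (nat_lit 156) (nat_lit 0) (nat_lit 0) (XT.nd (nat_lit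 78) (nat_lit 0) (nat_lit 0) (XT.lf (nat_lit 0) (nat_lit 1098746352217) (nat_lit 152) (nat_lit 229238518118) (nat_lit 0) (nat_lit 1098322148272) (nat_lit 1) (nat_lit 5) (nat_lit 3) (nat_lit 4) (nat_lit 1) (nat_lit 4) (nat_lit 253) (nat_lit 177) (nat_lit 170)) (XT.lf (nat_lit 0) (nat_lit 1264053063090) (nat_lit 152) (nat_lit 262554979269) (nat_lit 0) (nat_lit 1263595527647) (nat_lit 1) (nat_lit 5) (nat_lit 3) (nat_lit 4) (nat_lit 1) (nat_lit 4) (nat_lit 254) (nat_lit 177) (nat_lit 169))) (XT.nd (nat_lit 78) (nat_lit 0) (nat_lit 0) (XT.lf (nat_lit 0) (nat_lit 1454123655374) (nat_lit 152) (nat_lit 300926477694) (nat_lit 0) (nat_lit 1453637136020) (nat_lit 1) (nat_lit 5) (nat_lit 3) (nat_lit 4) (nat_lit 1) (nat_lit 4) (nat_lit 255) (nat_lit 177) (nat_lit 168)) (XT.nd (nat_lit 78) (nat_lit 0) (nat_lit 0) (XT.lf (nat_lit 0) (nat_lit 1672676901528) (nat_lit 152) (nat_lit 345103760102) (nat_lit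 0) (nat_lit 1672165178773) (nat_lit 1) (nat_lit 5) (nat_lit 3) (nat_lit 4) (nat_lit 1) (nat_lit 4) (nat_lit 256) (nat_lit 177) (nat_lit 167)) (XT.lf (nat_lit 0) (nat_lit 1923988843323) (nat_lit 152) (nat_lit 395951164627) (nat_lit 0) (nat_lit 1923455204567) (nat_lit 1) (nat_lit 5) (nat_lit 3) (nat_lit 4) (nat_lit 1) (nat_lit 4) (nat_lit 257) (nat_lit 177) (nat_lit 166))))))) (XT.nd (nat_lit 30810) (nat_lit 0) (nat_lit 0) (XT.nd (nat_lit 30420) (nat_lit 0) (nat_lit 0) (XT.nd (nat_lit 30264) (nat_lit 0) (nat_lit 0) (XT.nd (nat_lit 30186) (nat_lit 0) (nat_lit 0) (XT.lf (nat_lit 0) (nat_lit 2212976453534) (nat_lit 152) (nat_lit 454463531792) (nat_lit 0) (nat_lit 2212423757386) (nat_lit 1) (nat_lit 5) (nat_lit 3) (nat_lit 4) (nat_lit 1) (nat_lit 4) (nat_lit 258) (nat_lit 177) (nat_lit 165)) (XT.lf (nat_lit 0) (nat_lit 154230652632) (nat_lit 152) (nat_lit 36577606750) (nat_lit 0) (nat_lit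 154230652632) (nat_lit 1) (nat_lit 5) (nat_lit 3) (nat_lit 4) (nat_lit 1) (nat_lit 4) (nat_lit 244) (nat_lit 178) (nat_lit 178))) (XT.nd (nat_lit 78) (nat_lit 0) (nat_lit 0) (XT.lf (nat_lit 0) (nat_lit 355769652436) (nat_lit 152) (nat_lit 82056223833) (nat_lit 0) (nat_lit 355667690621) (nat_lit 1) (nat_lit 5) (nat_lit 3) (nat_lit 4) (nat_lit 1) (nat_lit 4) (nat_lit 245) (nat_lit 178) (nat_lit 177)) (XT.lf (nat_lit 0) (nat_lit 410075979901) (nat_lit 152) (nat_lit 92468487854) (nat_lit 0) (nat_lit 409885355639) (nat_lit 1) (nat_lit 5) (nat_lit 3) (nat_lit 4) (nat_lit 1) (nat_lit 4) (nat_lit 246) (nat_lit 178) (nat_lit 176)))) (XT.nd (nat_lit 156) (nat_lit 0) (nat_lit 0) (XT.nd (nat_lit 78) (nat_lit 0) (nat_lit 0) (XT.lf (nat_lit 0) (nat_lit 472442802764) (nat_lit 152) (nat_lit 104595723775) (nat_lit 0) (nat_lit 472175080722) (nat_lit 1) (nat_lit 5) (nat_lit 3) (nat_lit 4) (nat_lit 1) (nat_lit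 4) (nat_lit 247) (nat_lit 178) (nat_lit 175)) (XT.lf (nat_lit 0) (nat_lit 544090341471) (nat_lit 152) (nat_lit 118675203601) (nat_lit 0) (nat_lit 543755577881) (nat_lit 1) (nat_lit 5) (nat_lit 3) (nat_lit 4) (nat_lit 1) (nat_lit 4) (nat_lit 248) (nat_lit 178) (nat_lit 174))) (XT.nd (nat_lit 78) (nat_lit 0) (nat_lit 0) (XT.lf (nat_lit 0) (nat_lit 626420395694) (nat_lit 152) (nat_lit 134982395418) (nat_lit 0) (nat_lit 626027335105) (nat_lit 1) (nat_lit 5) (nat_lit 3) (nat_lit 4) (nat_lit 1) (nat_lit 4) (nat_lit 249) (nat_lit 178) (nat_lit 173)) (XT.nd (nat_lit 78) (nat_lit 0) (nat_lit 0) (XT.lf (nat_lit 0) (nat_lit 721043770840) (nat_lit 152) (nat_lit 153836352976) (nat_lit 0) (nat_lit 720600017210) (nat_lit 1) (nat_lit 5) (nat_lit 3) (nat_lit 4) (nat_lit 1) (nat_lit 4) (nat_lit 250) (nat_lit 178) (nat_lit 172)) (XT.lf (nat_lit 0) (nat_lit 829811793815) (nat_lit 152) (nat_lit 175605958056)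 (nat_lit 0) (nat_lit 829323959279) (nat_lit 1) (nat_lit 5) (nat_lit 3) (nat_lit 4) (nat_lit 1) (nat_lit 4) (nat_lit 251) (nat_lit 178) (nat_lit 171)))))) (XT.nd (nat_lit 312) (nat_lit 0) (nat_lit 0) (XT.nd (nat_lit 156) (nat_lit 0) (nat_lit 0) (XT.nd (nat_lit 78) (nat_lit 0) (nat_lit 0) (XT.lf (nat_lit 0) (nat_lit 954852534634) (nat_lit 152) (nat_lit 200717137712) (nat_lit 0) (nat_lit 954326368874) (nat_lit 1) (nat_lit 5) (nat_lit 3) (nat_lit 4) (nat_lit 1) (nat_lit 4) (nat_lit 252) (nat_lit 178) (nat_lit 170)) (XT.lf (nat_lit 0) (nat_lit 1098612442573) (nat_lit 152) (nat_lit 229661197634) (nat_lit 0) (nat_lit 1098052945315) (nat_lit 1) (nat_lit 5) (nat_lit 3) (nat_lit 4) (nat_lit 1) (nat_lit 4) (nat_lit 253) (nat_lit 178) (nat_lit 169))) (XT.nd (nat_lit 78) (nat_lit 0) (nat_lit 0) (XT.lf (nat_lit 0) (nat_lit 1263904211483) (nat_lit 152) (nat_lit 263004434646) (nat_lit 0) (nat_lit 1263315730314)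 (nat_lit 1) (nat_lit 5) (nat_lit 3) (nat_lit 4) (nat_lit 1) (nat_lit 4) (nat_lit 254) (nat_lit 178) (nat_lit 168)) (XT.lf (nat_lit 0) (nat_lit 1453961810756) (nat_lit 152) (nat_lit 301399216428) (nat_lit 0) (nat_lit 1453348126187) (nat_lit 1) (nat_lit 5) (nat_lit 3) (nat_lit 4) (nat_lit 1) (nat_lit 4) (nat_lit 255) (nat_lit 178) (nat_lit 167)))) (XT.nd (nat_lit 156) (nat_lit 0) (nat_lit 0) (XT.nd (nat_lit 78) (nat_lit 0) (nat_lit 0) (XT.lf (nat_lit 0) (nat_lit 1672503758639) (nat_lit 152) (nat_lit 345596745234) (nat_lit 0) (nat_lit 1671868158069) (nat_lit 1) (nat_lit 5) (nat_lit 3) (nat_lit 4) (nat_lit 1) (nat_lit 4) (nat_lit 256) (nat_lit 178) (nat_lit 166)) (XT.lf (nat_lit 0) (nat_lit 1923805875852) (nat_lit 152) (nat_lit 396461755323) (nat_lit 0) (nat_lit 1923151217889) (nat_lit 1) (nat_lit 5) (nat_lit 3) (nat_lit 4) (nat_lit 1) (nat_lit 4) (nat_lit 257) (nat_lit 178) (nat_lit 165)))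 (XT.nd (nat_lit 30030) (nat_lit 0) (nat_lit 0) (XT.lf (nat_lit 0) (nat_lit 2212784942947) (nat_lit 152) (nat_lit 454989431673) (nat_lit 0) (nat_lit 2212113713339) (nat_lit 1) (nat_lit 5) (nat_lit 3) (nat_lit 4) (nat_lit 1) (nat_lit 4) (nat_lit 258) (nat_lit 178) (nat_lit 164)) (XT.nd (nat_lit 78) (nat_lit 0) (nat_lit 0) (XT.lf (nat_lit 0) (nat_lit 115716335778) (nat_lit 152) (nat_lit 29554095262) (nat_lit 0) (nat_lit 115716335778) (nat_lit 1) (nat_lit 5) (nat_lit 3) (nat_lit 4) (nat_lit 1) (nat_lit 4) (nat_lit 242) (nat_lit 179) (nat_lit 179)) (XT.lf (nat_lit 0) (nat_lit 267342596379) (nat_lit 152) (nat_lit 65591306656) (nat_lit 0) (nat_lit 267225340292) (nat_lit 1) (nat_lit 5) (nat_lit 3) (nat_lit 4) (nat_lit 1) (nat_lit 4) (nat_lit 243) (nat_lit 179) (nat_lit 178))))))))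
noncomputable def xc2 : XT := (XT.nd (nat_lit 31122) (nat_lit 0) (nat_lit 0) (XT.nd (nat_lit 624) (nat_lit 0) (nat_lit 0) (XT.nd (nat_lit 312) (nat_lit 0) (nat_lit 0) (XT.nd (nat_lit 156) (nat_lit 0) (nat_lit 0) (XT.nd (nat_lit 78) (nat_lit 0) (nat_lit 0) (XT.lf (nat_lit 0) (nat_lit 308525997376) (nat_lit 152) (nat_lit 73249407668) (nat_lit 0) (nat_lit 308306779475) (nat_lit 1) (nat_lit 5) (nat_lit 3) (nat_lit 4) (nat_lit 1) (nat_lit 4) (nat_lit 244) (nat_lit 179) (nat_lit 177)) (XT.lf (nat_lit 0) (nat_lit 355788636741) (nat_lit 152) (nat_lit 82232325972) (nat_lit 0) (nat_lit 355480756393) (nat_lit 1) (nat_lit 5) (nat_lit 3) (nat_lit 4) (nat_lit 1) (nat_lit 4) (nat_lit 245) (nat_lit 179) (nat_lit 176))) (XT.nd (nat_lit 78) (nat_lit 0) (nat_lit 0) (XT.lf (nat_lit 0) (nat_lit 410055218289) (nat_lit 152) (nat_lit 92715814318) (nat_lit 0) (nat_lit 409670240161) (nat_lit 1) (nat_lit 5) (nat_lit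 3) (nat_lit 4) (nat_lit 1) (nat_lit 4) (nat_lit 246) (nat_lit 179) (nat_lit 175)) (XT.lf (nat_lit 0) (nat_lit 472387479485) (nat_lit 152) (nat_lit 104904984433) (nat_lit 0) (nat_lit 471935459808) (nat_lit 1) (nat_lit 5) (nat_lit 3) (nat_lit 4) (nat_lit 1) (nat_lit 4) (nat_lit 247) (nat_lit 179) (nat_lit 174)))) (XT.nd (nat_lit 156) (nat_lit 0) (nat_lit 0) (XT.nd (nat_lit 78) (nat_lit 0) (nat_lit 0) (XT.lf (nat_lit 0) (nat_lit 544004964569) (nat_lit 152) (nat_lit 119038320080) (nat_lit 0) (nat_lit 543494647894) (nat_lit 1) (nat_lit 5) (nat_lit 3) (nat_lit 4) (nat_lit 1) (nat_lit 4) (nat_lit 248) (nat_lit 179) (nat_lit 173)) (XT.lf (nat_lit 0) (nat_lit 626308885205) (nat_lit 152) (nat_lit 135392343045) (nat_lit 0) (nat_lit 625747875488) (nat_lit 1) (nat_lit 5) (nat_lit 3) (nat_lit 4) (nat_lit 1) (nat_lit 4) (nat_lit 249) (nat_lit 179) (nat_lit 172))) (XT.nd (nat_lit 78) (nat_lit 0) (nat_lit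 0) (XT.lf (nat_lit 0) (nat_lit 720909535494) (nat_lit 152) (nat_lit 154287023342) (nat_lit 0) (nat_lit 720304444871) (nat_lit 1) (nat_lit 5) (nat_lit 3) (nat_lit 4) (nat_lit 1) (nat_lit 4) (nat_lit 250) (nat_lit 179) (nat_lit 171)) (XT.lf (nat_lit 0) (nat_lit 829657797724) (nat_lit 152) (nat_lit 176092039498) (nat_lit 0) (nat_lit 829014375878) (nat_lit 1) (nat_lit 5) (nat_lit 3) (nat_lit 4) (nat_lit 1) (nat_lit 4) (nat_lit 251) (nat_lit 179) (nat_lit 170))))) (XT.nd (nat_lit 312) (nat_lit 0) (nat_lit 0) (XT.nd (nat_lit 156) (nat_lit 0) (nat_lit 0) (XT.nd (nat_lit 78) (nat_lit 0) (nat_lit 0) (XT.lf (nat_lit 0) (nat_lit 954681355285) (nat_lit 152) (nat_lit 201234011395) (nat_lit 0) (nat_lit 954004601942) (nat_lit 1) (nat_lit 5) (nat_lit 3) (nat_lit 4) (nat_lit 1) (nat_lit 4) (nat_lit 252) (nat_lit 179) (nat_lit 169)) (XT.lf (nat_lit 0) (nat_lit 1098426321262) (nat_lit 152) (nat_lit 230204847178)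 (nat_lit 0) (nat_lit 1097720584007) (nat_lit 1) (nat_lit 5) (nat_lit 3) (nat_lit 4) (nat_lit 1) (nat_lit 4) (nat_lit 253) (nat_lit 179) (nat_lit 168))) (XT.nd (nat_lit 78) (nat_lit 0) (nat_lit 0) (XT.lf (nat_lit 0) (nat_lit 1263705097161) (nat_lit 152) (nat_lit 263571367548) (nat_lit 0) (nat_lit 1262974156505) (nat_lit 1) (nat_lit 5) (nat_lit 3) (nat_lit 4) (nat_lit 1) (nat_lit 4) (nat_lit 254) (nat_lit 179) (nat_lit 167)) (XT.lf (nat_lit 0) (nat_lit 1453751398164) (nat_lit 152) (nat_lit 301986395729) (nat_lit 0) (nat_lit 1452998541507) (nat_lit 1) (nat_lit 5) (nat_lit 3) (nat_lit 4) (nat_lit 1) (nat_lit 4) (nat_lit 255) (nat_lit 179) (nat_lit 166)))) (XT.nd (nat_lit 156) (nat_lit 0) (nat_lit 0) (XT.nd (nat_lit 78) (nat_lit 0) (nat_lit 0) (XT.lf (nat_lit 0) (nat_lit 1672283521464) (nat_lit 152) (nat_lit 346201530098) (nat_lit 0) (nat_lit 1671511607415) (nat_lit 1) (nat_lit 5) (nat_lit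 3) (nat_lit 4) (nat_lit 1) (nat_lit 4) (nat_lit 256) (nat_lit 179) (nat_lit 165)) (XT.lf (nat_lit 0) (nat_lit 1923577095561) (nat_lit 152) (nat_lit 397081849372) (nat_lit 0) (nat_lit 1922788609866) (nat_lit 1) (nat_lit 5) (nat_lit 3) (nat_lit 4) (nat_lit 1) (nat_lit 4) (nat_lit 257) (nat_lit 179) (nat_lit 164))) (XT.nd (nat_lit 29874) (nat_lit 0) (nat_lit 0) (XT.lf (nat_lit 0) (nat_lit 2212548733861) (nat_lit 152) (nat_lit 455622838058) (nat_lit 0) (nat_lit 2211745838039) (nat_lit 1) (nat_lit 5) (nat_lit 3) (nat_lit 4) (nat_lit 1) (nat_lit 4) (nat_lit 258) (nat_lit 179) (nat_lit 163)) (XT.nd (nat_lit 78) (nat_lit 0) (nat_lit 0) (XT.lf (nat_lit 0) (nat_lit 86458349662) (nat_lit 152) (nat_lit 24527736961) (nat_lit 0) (nat_lit 86458349662) (nat_lit 1) (nat_lit 5) (nat_lit 3) (nat_lit 4) (nat_lit 1) (nat_lit 4) (nat_lit 240) (nat_lit 180) (nat_lit 180)) (XT.lf (nat_lit 0) (nat_lit 200228481925)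 (nat_lit 152) (nat_lit 53673215697) (nat_lit 0) (nat_lit 200093637425) (nat_lit 1) (nat_lit 5) (nat_lit 3) (nat_lit 4) (nat_lit 1) (nat_lit 4) (nat_lit 241) (nat_lit 180) (nat_lit 179))))))) (XT.nd (nat_lit 702) (nat_lit 0) (nat_lit 0) (XT.nd (nat_lit 312) (nat_lit 0) (nat_lit 0) (XT.nd (nat_lit 156) (nat_lit 0) (nat_lit 0) (XT.nd (nat_lit 78) (nat_lit 0) (nat_lit 0) (XT.lf (nat_lit 0) (nat_lit 231507067485) (nat_lit 152) (nat_lit 59216513818) (nat_lit 0) (nat_lit 231254966898) (nat_lit 1) (nat_lit 5) (nat_lit 3) (nat_lit 4) (nat_lit 1) (nat_lit 4) (nat_lit 242) (nat_lit 180) (nat_lit 178)) (XT.lf (nat_lit 0) (nat_lit 267364428330) (nat_lit 152) (nat_lit 65793824117) (nat_lit 0) (nat_lit 267010365930) (nat_lit 1) (nat_lit 5) (nat_lit 3) (nat_lit 4) (nat_lit 1) (nat_lit 4) (nat_lit 243) (nat_lit 180) (nat_lit 177))) (XT.nd (nat_lit 78) (nat_lit 0) (nat_lit 0) (XT.lf (nat_lit 0) (nat_lit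 308502121522) (nat_lit 152) (nat_lit 73533833101) (nat_lit 0) (nat_lit 308059396674) (nat_lit 1) (nat_lit 5) (nat_lit 3) (nat_lit 4) (nat_lit 1) (nat_lit 4) (nat_lit 244) (nat_lit 180) (nat_lit 176)) (XT.lf (nat_lit 0) (nat_lit 355725014971) (nat_lit 152) (nat_lit 82587975729) (nat_lit 0) (nat_lit 355205192342) (nat_lit 1) (nat_lit 5) (nat_lit 3) (nat_lit 4) (nat_lit 1) (nat_lit 4) (nat_lit 245) (nat_lit 180) (nat_lit 175)))) (XT.nd (nat_lit 156) (nat_lit 0) (nat_lit 0) (XT.nd (nat_lit 78) (nat_lit 0) (nat_lit 0) (XT.lf (nat_lit 0) (nat_lit 409957034851) (nat_lit 152) (nat_lit 93133398269) (nat_lit 0) (nat_lit 409370170675) (nat_lit 1) (nat_lit 5) (nat_lit 3) (nat_lit 4) (nat_lit 1) (nat_lit 4) (nat_lit 246) (nat_lit 180) (nat_lit 174)) (XT.lf (nat_lit 0) (nat_lit 472259242423) (nat_lit 152) (nat_lit 105376424205) (nat_lit 0) (nat_lit 471614081248) (nat_lit 1) (nat_lit 5) (nat_lit 3)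 (nat_lit 4) (nat_lit 1) (nat_lit 4) (nat_lit 247) (nat_lit 180) (nat_lit 173))) (XT.nd (nat_lit 78) (nat_lit 0) (nat_lit 0) (XT.lf (nat_lit 0) (nat_lit 543850593921) (nat_lit 152) (nat_lit 119556591001) (nat_lit 0) (nat_lit 543154739704) (nat_lit 1) (nat_lit 5) (nat_lit 3) (nat_lit 4) (nat_lit 1) (nat_lit 4) (nat_lit 248) (nat_lit 180) (nat_lit 172)) (XT.nd (nat_lit 78) (nat_lit 0) (nat_lit 0) (XT.lf (nat_lit 0) (nat_lit 626131789700) (nat_lit 152) (nat_lit 135951336705) (nat_lit 0) (nat_lit 625391854577) (nat_lit 1) (nat_lit 5) (nat_lit 3) (nat_lit 4) (nat_lit 1) (nat_lit 4) (nat_lit 249) (nat_lit 180) (nat_lit 171)) (XT.lf (nat_lit 0) (nat_lit 720712679244) (nat_lit 152) (nat_lit 154881428078) (nat_lit 0) (nat_lit 719934412898) (nat_lit 1) (nat_lit 5) (nat_lit 3) (nat_lit 4) (nat_lit 1) (nat_lit 4) (nat_lit 250) (nat_lit 180) (nat_lit 170)))))) (XT.nd (nat_lit 312) (nat_lit 0) (nat_lit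 0) (XT.nd (nat_lit 156) (nat_lit 0) (nat_lit 0) (XT.nd (nat_lit 78) (nat_lit 0) (nat_lit 0) (XT.lf (nat_lit 0) (nat_lit 829443758216) (nat_lit 152) (nat_lit 176717236475) (nat_lit 0) (nat_lit 828632160373) (nat_lit 1) (nat_lit 5) (nat_lit 3) (nat_lit 4) (nat_lit 1) (nat_lit 4) (nat_lit 251) (nat_lit 180) (nat_lit 169)) (XT.lf (nat_lit 0) (nat_lit 954452373815) (nat_lit 152) (nat_lit 201885984233) (nat_lit 0) (nat_lit 953611792061) (nat_lit 1) (nat_lit 5) (nat_lit 3) (nat_lit 4) (nat_lit 1) (nat_lit 4) (nat_lit 252) (nat_lit 180) (nat_lit 168))) (XT.nd (nat_lit 78) (nat_lit 0) (nat_lit 0) (XT.lf (nat_lit 0) (nat_lit 1098184346781) (nat_lit 152) (nat_lit 230880103374) (nat_lit 0) (nat_lit 1097318561625) (nat_lit 1) (nat_lit 5) (nat_lit 3) (nat_lit 4) (nat_lit 1) (nat_lit 4) (nat_lit 253) (nat_lit 180) (nat_lit 167)) (XT.lf (nat_lit 0) (nat_lit 1263451824410) (nat_lit 152) (nat_lit 264266870141)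 (nat_lit 0) (nat_lit 1262564123253) (nat_lit 1) (nat_lit 5) (nat_lit 3) (nat_lit 4) (nat_lit 1) (nat_lit 4) (nat_lit 254) (nat_lit 180) (nat_lit 166)))) (XT.nd (nat_lit 156) (nat_lit 0) (nat_lit 0) (XT.nd (nat_lit 78) (nat_lit 0) (nat_lit 0) (XT.lf (nat_lit 0) (nat_lit 1453488300830) (nat_lit 152) (nat_lit 302699503886) (nat_lit 0) (nat_lit 1452581542281) (nat_lit 1) (nat_lit 5) (nat_lit 3) (nat_lit 4) (nat_lit 1) (nat_lit 4) (nat_lit 255) (nat_lit 180) (nat_lit 165)) (XT.lf (nat_lit 0) (nat_lit 1672011881015) (nat_lit 152) (nat_lit 346929947441) (nat_lit 0) (nat_lit 1671088550820) (nat_lit 1) (nat_lit 5) (nat_lit 3) (nat_lit 4) (nat_lit 1) (nat_lit 4) (nat_lit 256) (nat_lit 180) (nat_lit 164))) (XT.nd (nat_lit 78) (nat_lit 0) (nat_lit 0) (XT.lf (nat_lit 0) (nat_lit 1923298026315) (nat_lit 152) (nat_lit 397823579050) (nat_lit 0) (nat_lit 1922360285994) (nat_lit 1) (nat_lit 5) (nat_lit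 3) (nat_lit 4) (nat_lit 1) (nat_lit 4) (nat_lit 257) (nat_lit 180) (nat_lit 163)) (XT.nd (nat_lit 29718) (nat_lit 0) (nat_lit 0) (XT.lf (nat_lit 0) (nat_lit 2212263204792) (nat_lit 152) (nat_lit 456376143680) (nat_lit 0) (nat_lit 2211312933926) (nat_lit 1) (nat_lit 5) (nat_lit 3) (nat_lit 4) (nat_lit 1) (nat_lit 4) (nat_lit 258) (nat_lit 180) (nat_lit 162)) (XT.lf (nat_lit 0) (nat_lit 64179135017) (nat_lit 152) (nat_lit 21054177210) (nat_lit 0) (nat_lit 64179135017) (nat_lit 1) (nat_lit 5) (nat_lit 3) (nat_lit 4) (nat_lit 1) (nat_lit 4) (nat_lit 238) (nat_lit 181) (nat_lit 181))))))))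
noncomputable def xc3 : XT := (XT.nd (nat_lit 1404) (nat_lit 0) (nat_lit 0) (XT.nd (nat_lit 702) (nat_lit 0) (nat_lit 0) (XT.nd (nat_lit 312) (nat_lit 0) (nat_lit 0) (XT.nd (nat_lit 156) (nat_lit 0) (nat_lit 0) (XT.nd (nat_lit 78) (nat_lit 0) (nat_lit 0) (XT.lf (nat_lit 0) (nat_lit 149192429895) (nat_lit 152) (nat_lit 45272941373) (nat_lit 0) (nat_lit 149037358721) (nat_lit 1) (nat_lit 5) (nat_lit 3) (nat_lit 4) (nat_lit 1) (nat_lit 4) (nat_lit 239) (nat_lit 181) (nat_lit 180)) (XT.lf (nat_lit 0) (nat_lit 173002254641) (nat_lit 152) (nat_lit 49180045710) (nat_lit 0) (nat_lit 172712338967) (nat_lit 1) (nat_lit 5) (nat_lit 3) (nat_lit 4) (nat_lit 1) (nat_lit 4) (nat_lit 240) (nat_lit 181) (nat_lit 179))) (XT.nd (nat_lit 78) (nat_lit 0) (nat_lit 0) (XT.lf (nat_lit 0) (nat_lit 200253588669) (nat_lit 152) (nat_lit 53906110777) (nat_lit 0) (nat_lit 199846416908) (nat_lit 1) (nat_lit 5) (nat_lit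 3) (nat_lit 4) (nat_lit 1) (nat_lit 4) (nat_lit 241) (nat_lit 181) (nat_lit 178)) (XT.lf (nat_lit 0) (nat_lit 231479610253) (nat_lit 152) (nat_lit 59543603065) (nat_lit 0) (nat_lit 230970476678) (nat_lit 1) (nat_lit 5) (nat_lit 3) (nat_lit 4) (nat_lit 1) (nat_lit 4) (nat_lit 242) (nat_lit 181) (nat_lit 177)))) (XT.nd (nat_lit 156) (nat_lit 0) (nat_lit 0) (XT.nd (nat_lit 78) (nat_lit 0) (nat_lit 0) (XT.lf (nat_lit 0) (nat_lit 267291263294) (nat_lit 152) (nat_lit 66202821337) (nat_lit 0) (nat_lit 266693467272) (nat_lit 1) (nat_lit 5) (nat_lit 3) (nat_lit 4) (nat_lit 1) (nat_lit 4) (nat_lit 243) (nat_lit 181) (nat_lit 176)) (XT.lf (nat_lit 0) (nat_lit 308389210568) (nat_lit 152) (nat_lit 74014054645) (nat_lit 0) (nat_lit 307714316766) (nat_lit 1) (nat_lit 5) (nat_lit 3) (nat_lit 4) (nat_lit 1) (nat_lit 4) (nat_lit 244) (nat_lit 181) (nat_lit 175))) (XT.nd (nat_lit 78) (nat_lit 0) (nat_lit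 0) (XT.lf (nat_lit 0) (nat_lit 355577542349) (nat_lit 152) (nat_lit 83130131467) (nat_lit 0) (nat_lit 354835606999) (nat_lit 1) (nat_lit 5) (nat_lit 3) (nat_lit 4) (nat_lit 1) (nat_lit 4) (nat_lit 245) (nat_lit 181) (nat_lit 174)) (XT.nd (nat_lit 78) (nat_lit 0) (nat_lit 0) (XT.lf (nat_lit 0) (nat_lit 409779508606) (nat_lit 152) (nat_lit 93729409828) (nat_lit 0) (nat_lit 408979276257) (nat_lit 1) (nat_lit 5) (nat_lit 3) (nat_lit 4) (nat_lit 1) (nat_lit 4) (nat_lit 246) (nat_lit 181) (nat_lit 173)) (XT.lf (nat_lit 0) (nat_lit 472055582592) (nat_lit 152) (nat_lit 106019266913) (nat_lit 0) (nat_lit 471204657201) (nat_lit 1) (nat_lit 5) (nat_lit 3) (nat_lit 4) (nat_lit 1) (nat_lit 4) (nat_lit 247) (nat_lit 181) (nat_lit 172)))))) (XT.nd (nat_lit 312) (nat_lit 0) (nat_lit 0) (XT.nd (nat_lit 156) (nat_lit 0) (nat_lit 0) (XT.nd (nat_lit 78) (nat_lit 0) (nat_lit 0) (XT.lf (nat_lit 0) (nat_lit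 543624209233) (nat_lit 152) (nat_lit 120240156448) (nat_lit 0) (nat_lit 542729202935) (nat_lit 1) (nat_lit 5) (nat_lit 3) (nat_lit 4) (nat_lit 1) (nat_lit 4) (nat_lit 248) (nat_lit 181) (nat_lit 171)) (XT.lf (nat_lit 0) (nat_lit 625885644267) (nat_lit 152) (nat_lit 136670313227) (nat_lit 0) (nat_lit 624952306747) (nat_lit 1) (nat_lit 5) (nat_lit 3) (nat_lit 4) (nat_lit 1) (nat_lit 4) (nat_lit 249) (nat_lit 181) (nat_lit 170))) (XT.nd (nat_lit 78) (nat_lit 0) (nat_lit 0) (XT.lf (nat_lit 0) (nat_lit 720449350553) (nat_lit 152) (nat_lit 155631196841) (nat_lit 0) (nat_lit 719482681535) (nat_lit 1) (nat_lit 5) (nat_lit 3) (nat_lit 4) (nat_lit 1) (nat_lit 4) (nat_lit 250) (nat_lit 181) (nat_lit 169)) (XT.lf (nat_lit 0) (nat_lit 829165487563) (nat_lit 152) (nat_lit 177493781099) (nat_lit 0) (nat_lit 828169834634) (nat_lit 1) (nat_lit 5) (nat_lit 3) (nat_lit 4) (nat_lit 1) (nat_lit 4) (nat_lit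 251) (nat_lit 181) (nat_lit 168)))) (XT.nd (nat_lit 156) (nat_lit 0) (nat_lit 0) (XT.nd (nat_lit 78) (nat_lit 0) (nat_lit 0) (XT.lf (nat_lit 0) (nat_lit 954161110151) (nat_lit 152) (nat_lit 202685812215) (nat_lit 0) (nat_lit 953140253821) (nat_lit 1) (nat_lit 5) (nat_lit 3) (nat_lit 4) (nat_lit 1) (nat_lit 4) (nat_lit 252) (nat_lit 181) (nat_lit 167)) (XT.lf (nat_lit 0) (nat_lit 1097881784847) (nat_lit 152) (nat_lit 231700177754) (nat_lit 0) (nat_lit 1096839012515) (nat_lit 1) (nat_lit 5) (nat_lit 3) (nat_lit 4) (nat_lit 1) (nat_lit 4) (nat_lit 253) (nat_lit 181) (nat_lit 166))) (XT.nd (nat_lit 78) (nat_lit 0) (nat_lit 0) (XT.lf (nat_lit 0) (nat_lit 1263139437893) (nat_lit 152) (nat_lit 265104550085) (nat_lit 0) (nat_lit 1262077608169) (nat_lit 1) (nat_lit 5) (nat_lit 3) (nat_lit 4) (nat_lit 1) (nat_lit 4) (nat_lit 254) (nat_lit 181) (nat_lit 165)) (XT.nd (nat_lit 78) (nat_lit 0) (nat_lit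 0) (XT.lf (nat_lit 0) (nat_lit 1453167371197) (nat_lit 152) (nat_lit 303552493015) (nat_lit 0) (nat_lit 1452088969828) (nat_lit 1) (nat_lit 5) (nat_lit 3) (nat_lit 4) (nat_lit 1) (nat_lit 4) (nat_lit 255) (nat_lit 181) (nat_lit 164)) (XT.lf (nat_lit 0) (nat_lit 1671683522586) (nat_lit 152) (nat_lit 347796248905) (nat_lit 0) (nat_lit 1670590711090) (nat_lit 1) (nat_lit 5) (nat_lit 3) (nat_lit 4) (nat_lit 1) (nat_lit 4) (nat_lit 256) (nat_lit 181) (nat_lit 163))))))) (XT.nd (nat_lit 30186) (nat_lit 0) (nat_lit 0) (XT.nd (nat_lit 29796) (nat_lit 0) (nat_lit 0) (XT.nd (nat_lit 29640) (nat_lit 0) (nat_lit 0) (XT.nd (nat_lit 78) (nat_lit 0) (nat_lit 0) (XT.lf (nat_lit 0) (nat_lit 1922963208063) (nat_lit 152) (nat_lit 398701456458) (nat_lit 0) (nat_lit 1921857866023) (nat_lit 1) (nat_lit 5) (nat_lit 3) (nat_lit 4) (nat_lit 1) (nat_lit 4) (nat_lit 257) (nat_lit 181) (nat_lit 162)) (XT.lf (nat_lit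 0) (nat_lit 2211922769303) (nat_lit 152) (nat_lit 457264087126) (nat_lit 0) (nat_lit 2210806531137) (nat_lit 1) (nat_lit 5) (nat_lit 3) (nat_lit 4) (nat_lit 1) (nat_lit 4) (nat_lit 258) (nat_lit 181) (nat_lit 161))) (XT.nd (nat_lit 78) (nat_lit 0) (nat_lit 0) (XT.lf (nat_lit 0) (nat_lit 47153478165) (nat_lit 152) (nat_lit 18803819637) (nat_lit 0) (nat_lit 47153478165) (nat_lit 1) (nat_lit 5) (nat_lit 3) (nat_lit 4) (nat_lit 1) (nat_lit 4) (nat_lit 236) (nat_lit 182) (nat_lit 182)) (XT.lf (nat_lit 0) (nat_lit 110270482041) (nat_lit 152) (nat_lit 39624369022) (nat_lit 0) (nat_lit 110092150190) (nat_lit 1) (nat_lit 5) (nat_lit 3) (nat_lit 4) (nat_lit 1) (nat_lit 4) (nat_lit 237) (nat_lit 182) (nat_lit 181)))) (XT.nd (nat_lit 156) (nat_lit 0) (nat_lit 0) (XT.nd (nat_lit 78) (nat_lit 0) (nat_lit 0) (XT.lf (nat_lit 0) (nat_lit 128456658648) (nat_lit 152) (nat_lit 42251611976) (nat_lit 0) (nat_lit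 128123255623) (nat_lit 1) (nat_lit 5) (nat_lit 3) (nat_lit 4) (nat_lit 1) (nat_lit 4) (nat_lit 238) (nat_lit 182) (nat_lit 180)) (XT.lf (nat_lit 0) (nat_lit 149221302651) (nat_lit 152) (nat_lit 45540770715) (nat_lit 0) (nat_lit 148753055126) (nat_lit 1) (nat_lit 5) (nat_lit 3) (nat_lit 4) (nat_lit 1) (nat_lit 4) (nat_lit 239) (nat_lit 182) (nat_lit 179))) (XT.nd (nat_lit 78) (nat_lit 0) (nat_lit 0) (XT.lf (nat_lit 0) (nat_lit 172970678825) (nat_lit 152) (nat_lit 49556198345) (nat_lit 0) (nat_lit 172385175214) (nat_lit 1) (nat_lit 5) (nat_lit 3) (nat_lit 4) (nat_lit 1) (nat_lit 4) (nat_lit 240) (nat_lit 182) (nat_lit 178)) (XT.nd (nat_lit 78) (nat_lit 0) (nat_lit 0) (XT.lf (nat_lit 0) (nat_lit 200169448877) (nat_lit 152) (nat_lit 54376457580) (nat_lit 0) (nat_lit 199481983451) (nat_lit 1) (nat_lit 5) (nat_lit 3) (nat_lit 4) (nat_lit 1) (nat_lit 4) (nat_lit 241) (nat_lit 182) (nat_lit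 177)) (XT.lf (nat_lit 0) (nat_lit 231349762656) (nat_lit 152) (nat_lit 60095857841) (nat_lit 0) (nat_lit 230573634783) (nat_lit 1) (nat_lit 5) (nat_lit 3) (nat_lit 4) (nat_lit 1) (nat_lit 4) (nat_lit 242) (nat_lit 182) (nat_lit 176)))))) (XT.nd (nat_lit 312) (nat_lit 0) (nat_lit 0) (XT.nd (nat_lit 156) (nat_lit 0) (nat_lit 0) (XT.nd (nat_lit 78) (nat_lit 0) (nat_lit 0) (XT.lf (nat_lit 0) (nat_lit 267121669780) (nat_lit 152) (nat_lit 66826300436) (nat_lit 0) (nat_lit 266268444126) (nat_lit 1) (nat_lit 5) (nat_lit 3) (nat_lit 4) (nat_lit 1) (nat_lit 4) (nat_lit 243) (nat_lit 182) (nat_lit 175)) (XT.lf (nat_lit 0) (nat_lit 308185055387) (nat_lit 152) (nat_lit 74699467938) (nat_lit 0) (nat_lit 307264788185) (nat_lit 1) (nat_lit 5) (nat_lit 3) (nat_lit 4) (nat_lit 1) (nat_lit 4) (nat_lit 244) (nat_lit 182) (nat_lit 174))) (XT.nd (nat_lit 78) (nat_lit 0) (nat_lit 0) (XT.lf (nat_lit 0) (nat_lit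 355343333544) (nat_lit 152) (nat_lit 83869400581) (nat_lit 0) (nat_lit 354364769344) (nat_lit 1) (nat_lit 5) (nat_lit 3) (nat_lit 4) (nat_lit 1) (nat_lit 4) (nat_lit 245) (nat_lit 182) (nat_lit 173)) (XT.lf (nat_lit 0) (nat_lit 409519166215) (nat_lit 152) (nat_lit 94515510091) (nat_lit 0) (nat_lit 408489908973) (nat_lit 1) (nat_lit 5) (nat_lit 3) (nat_lit 4) (nat_lit 1) (nat_lit 4) (nat_lit 246) (nat_lit 182) (nat_lit 172)))) (XT.nd (nat_lit 156) (nat_lit 0) (nat_lit 0) (XT.nd (nat_lit 78) (nat_lit 0) (nat_lit 0) (XT.lf (nat_lit 0) (nat_lit 471772515344) (nat_lit 152) (nat_lit 106846089914) (nat_lit 0) (nat_lit 470699177196) (nat_lit 1) (nat_lit 5) (nat_lit 3) (nat_lit 4) (nat_lit 1) (nat_lit 4) (nat_lit 247) (nat_lit 182) (nat_lit 171)) (XT.lf (nat_lit 0) (nat_lit 543321381239) (nat_lit 152) (nat_lit 121102390525) (nat_lit 0) (nat_lit 542209711868) (nat_lit 1) (nat_lit 5) (nat_lit 3)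 (nat_lit 4) (nat_lit 1) (nat_lit 4) (nat_lit 248) (nat_lit 182) (nat_lit 170))) (XT.nd (nat_lit 78) (nat_lit 0) (nat_lit 0) (XT.lf (nat_lit 0) (nat_lit 625565633016) (nat_lit 152) (nat_lit 137563339546) (nat_lit 0) (nat_lit 624420632147) (nat_lit 1) (nat_lit 5) (nat_lit 3) (nat_lit 4) (nat_lit 1) (nat_lit 4) (nat_lit 249) (nat_lit 182) (nat_lit 169)) (XT.nd (nat_lit 78) (nat_lit 0) (nat_lit 0) (XT.lf (nat_lit 0) (nat_lit 720114397340) (nat_lit 152) (nat_lit 156550999021) (nat_lit 0) (nat_lit 718940412560) (nat_lit 1) (nat_lit 5) (nat_lit 3) (nat_lit 4) (nat_lit 1) (nat_lit 4) (nat_lit 250) (nat_lit 182) (nat_lit 168)) (XT.lf (nat_lit 0) (nat_lit 828817541339) (nat_lit 152) (nat_lit 178436866637) (nat_lit 0) (nat_lit 827618353158) (nat_lit 1) (nat_lit 5) (nat_lit 3) (nat_lit 4) (nat_lit 1) (nat_lit 4) (nat_lit 251) (nat_lit 182) (nat_lit 167))))))))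
noncomputable def xc4 : XT := (XT.nd (nat_lit 30654) (nat_lit 0) (nat_lit 0) (XT.nd (nat_lit 29952) (nat_lit 0) (nat_lit 0) (XT.nd (nat_lit 312) (nat_lit 0) (nat_lit 0) (XT.nd (nat_lit 156) (nat_lit 0) (nat_lit 0) (XT.nd (nat_lit 78) (nat_lit 0) (nat_lit 0) (XT.lf (nat_lit 0) (nat_lit 953801865657) (nat_lit 152) (nat_lit 203649144151) (nat_lit 0) (nat_lit 952580761474) (nat_lit 1) (nat_lit 5) (nat_lit 3) (nat_lit 4) (nat_lit 1) (nat_lit 4) (nat_lit 252) (nat_lit 182) (nat_lit 166)) (XT.lf (nat_lit 0) (nat_lit 1097512715769) (nat_lit 152) (nat_lit 232681115253) (nat_lit 0) (nat_lit 1096272554194) (nat_lit 1) (nat_lit 5) (nat_lit 3) (nat_lit 4) (nat_lit 1) (nat_lit 4) (nat_lit 253) (nat_lit 182) (nat_lit 165))) (XT.nd (nat_lit 78) (nat_lit 0) (nat_lit 0) (XT.lf (nat_lit 0) (nat_lit 1262761825699) (nat_lit 152) (nat_lit 266100796770) (nat_lit 0) (nat_lit 1261505092480) (nat_lit 1) (nat_lit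 5) (nat_lit 3) (nat_lit 4) (nat_lit 1) (nat_lit 4) (nat_lit 254) (nat_lit 182) (nat_lit 164)) (XT.lf (nat_lit 0) (nat_lit 1452782330208) (nat_lit 152) (nat_lit 304562052035) (nat_lit 0) (nat_lit 1451511186862) (nat_lit 1) (nat_lit 5) (nat_lit 3) (nat_lit 4) (nat_lit 1) (nat_lit 4) (nat_lit 255) (nat_lit 182) (nat_lit 163)))) (XT.nd (nat_lit 156) (nat_lit 0) (nat_lit 0) (XT.nd (nat_lit 78) (nat_lit 0) (nat_lit 0) (XT.lf (nat_lit 0) (nat_lit 1671292021773) (nat_lit 152) (nat_lit 348817383869) (nat_lit 0) (nat_lit 1670008347883) (nat_lit 1) (nat_lit 5) (nat_lit 3) (nat_lit 4) (nat_lit 1) (nat_lit 4) (nat_lit 256) (nat_lit 182) (nat_lit 162)) (XT.lf (nat_lit 0) (nat_lit 1922566090014) (nat_lit 152) (nat_lit 399732657460) (nat_lit 0) (nat_lit 1921271519997) (nat_lit 1) (nat_lit 5) (nat_lit 3) (nat_lit 4) (nat_lit 1) (nat_lit 4) (nat_lit 257) (nat_lit 182) (nat_lit 161))) (XT.nd (nat_lit 29406)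 (nat_lit 0) (nat_lit 0) (XT.lf (nat_lit 0) (nat_lit 2211520766700) (nat_lit 152) (nat_lit 458304041205) (nat_lit 0) (nat_lit 2210216721791) (nat_lit 1) (nat_lit 5) (nat_lit 3) (nat_lit 4) (nat_lit 1) (nat_lit 4) (nat_lit 258) (nat_lit 182) (nat_lit 160)) (XT.lf (nat_lit 0) (nat_lit 34073360303) (nat_lit 152) (nat_lit 17534801539) (nat_lit 0) (nat_lit 34073360303) (nat_lit 1) (nat_lit 5) (nat_lit 3) (nat_lit 4) (nat_lit 1) (nat_lit 4) (nat_lit 234) (nat_lit 183) (nat_lit 183))))) (XT.nd (nat_lit 312) (nat_lit 0) (nat_lit 0) (XT.nd (nat_lit 156) (nat_lit 0) (nat_lit 0) (XT.nd (nat_lit 78) (nat_lit 0) (nat_lit 0) (XT.lf (nat_lit 0) (nat_lit 80458833297) (nat_lit 152) (nat_lit 36161964976) (nat_lit 0) (nat_lit 80253751668) (nat_lit 1) (nat_lit 5) (nat_lit 3) (nat_lit 4) (nat_lit 1) (nat_lit 4) (nat_lit 235) (nat_lit 183) (nat_lit 182)) (XT.lf (nat_lit 0) (nat_lit 94420103237) (nat_lit 152)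 (nat_lit 37772385462) (nat_lit 0) (nat_lit 94036689758) (nat_lit 1) (nat_lit 5) (nat_lit 3) (nat_lit 4) (nat_lit 1) (nat_lit 4) (nat_lit 236) (nat_lit 183) (nat_lit 181))) (XT.nd (nat_lit 78) (nat_lit 0) (nat_lit 0) (XT.lf (nat_lit 0) (nat_lit 110303685710) (nat_lit 152) (nat_lit 39932372766) (nat_lit 0) (nat_lit 109765201057) (nat_lit 1) (nat_lit 5) (nat_lit 3) (nat_lit 4) (nat_lit 1) (nat_lit 4) (nat_lit 237) (nat_lit 183) (nat_lit 180)) (XT.lf (nat_lit 0) (nat_lit 128420346459) (nat_lit 152) (nat_lit 42684187507) (nat_lit 0) (nat_lit 127747017306) (nat_lit 1) (nat_lit 5) (nat_lit 3) (nat_lit 4) (nat_lit 1) (nat_lit 4) (nat_lit 238) (nat_lit 183) (nat_lit 179)))) (XT.nd (nat_lit 156) (nat_lit 0) (nat_lit 0) (XT.nd (nat_lit 78) (nat_lit 0) (nat_lit 0) (XT.lf (nat_lit 0) (nat_lit 149124541891) (nat_lit 152) (nat_lit 46081669538) (nat_lit 0) (nat_lit 148333956651) (nat_lit 1) (nat_lit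 5) (nat_lit 3) (nat_lit 4) (nat_lit 1) (nat_lit 4) (nat_lit 239) (nat_lit 183) (nat_lit 178)) (XT.lf (nat_lit 0) (nat_lit 172821354089) (nat_lit 152) (nat_lit 50191291336) (nat_lit 0) (nat_lit 171928807034) (nat_lit 1) (nat_lit 5) (nat_lit 3) (nat_lit 4) (nat_lit 1) (nat_lit 4) (nat_lit 240) (nat_lit 183) (nat_lit 177))) (XT.nd (nat_lit 78) (nat_lit 0) (nat_lit 0) (XT.lf (nat_lit 0) (nat_lit 199974416336) (nat_lit 152) (nat_lit 55093458543) (nat_lit 0) (nat_lit 198993206834) (nat_lit 1) (nat_lit 5) (nat_lit 3) (nat_lit 4) (nat_lit 1) (nat_lit 4) (nat_lit 241) (nat_lit 183) (nat_lit 176)) (XT.nd (nat_lit 78) (nat_lit 0) (nat_lit 0) (XT.lf (nat_lit 0) (nat_lit 231114984197) (nat_lit 152) (nat_lit 60884083127) (nat_lit 0) (nat_lit 230056676915) (nat_lit 1) (nat_lit 5) (nat_lit 3) (nat_lit 4) (nat_lit 1) (nat_lit 4) (nat_lit 242) (nat_lit 183) (nat_lit 175)) (XT.lf (nat_lit 0) (nat_lit 266852329653)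 (nat_lit 152) (nat_lit 67676459917) (nat_lit 0) (nat_lit 265726980823) (nat_lit 1) (nat_lit 5) (nat_lit 3) (nat_lit 4) (nat_lit 1) (nat_lit 4) (nat_lit 243) (nat_lit 183) (nat_lit 174))))))) (XT.nd (nat_lit 702) (nat_lit 0) (nat_lit 0) (XT.nd (nat_lit 312) (nat_lit 0) (nat_lit 0) (XT.nd (nat_lit 156) (nat_lit 0) (nat_lit 0) (XT.nd (nat_lit 78) (nat_lit 0) (nat_lit 0) (XT.lf (nat_lit 0) (nat_lit 307885661637) (nat_lit 152) (nat_lit 75603483240) (nat_lit 0) (nat_lit 306702015808) (nat_lit 1) (nat_lit 5) (nat_lit 3) (nat_lit 4) (nat_lit 1) (nat_lit 4) (nat_lit 244) (nat_lit 183) (nat_lit 173)) (XT.lf (nat_lit 0) (nat_lit 355017806208) (nat_lit 152) (nat_lit 84820247032) (nat_lit 0) (nat_lit 353783467338) (nat_lit 1) (nat_lit 5) (nat_lit 3) (nat_lit 4) (nat_lit 1) (nat_lit 4) (nat_lit 245) (nat_lit 183) (nat_lit 172))) (XT.nd (nat_lit 78) (nat_lit 0) (nat_lit 0) (XT.lf (nat_lit 0) (nat_lit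 409170914022) (nat_lit 152) (nat_lit 95507079280) (nat_lit 0) (nat_lit 407892494245) (nat_lit 1) (nat_lit 5) (nat_lit 3) (nat_lit 4) (nat_lit 1) (nat_lit 4) (nat_lit 246) (nat_lit 183) (nat_lit 171)) (XT.lf (nat_lit 0) (nat_lit 471404502405) (nat_lit 152) (nat_lit 107873070180) (nat_lit 0) (nat_lit 470087751406) (nat_lit 1) (nat_lit 5) (nat_lit 3) (nat_lit 4) (nat_lit 1) (nat_lit 4) (nat_lit 247) (nat_lit 183) (nat_lit 170)))) (XT.nd (nat_lit 156) (nat_lit 0) (nat_lit 0) (XT.nd (nat_lit 78) (nat_lit 0) (nat_lit 0) (XT.lf (nat_lit 0) (nat_lit 542936185043) (nat_lit 152) (nat_lit 122160163032) (nat_lit 0) (nat_lit 541586102546) (nat_lit 1) (nat_lit 5) (nat_lit 3) (nat_lit 4) (nat_lit 1) (nat_lit 4) (nat_lit 248) (nat_lit 183) (nat_lit 169)) (XT.lf (nat_lit 0) (nat_lit 625165494857) (nat_lit 152) (nat_lit 138647887914) (nat_lit 0) (nat_lit 623786428449) (nat_lit 1) (nat_lit 5) (nat_lit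 3) (nat_lit 4) (nat_lit 1) (nat_lit 4) (nat_lit 249) (nat_lit 183) (nat_lit 168))) (XT.nd (nat_lit 78) (nat_lit 0) (nat_lit 0) (XT.lf (nat_lit 0) (nat_lit 719701266171) (nat_lit 152) (nat_lit 157658830747) (nat_lit 0) (nat_lit 718296996361) (nat_lit 1) (nat_lit 5) (nat_lit 3) (nat_lit 4) (nat_lit 1) (nat_lit 4) (nat_lit 250) (nat_lit 183) (nat_lit 167)) (XT.nd (nat_lit 78) (nat_lit 0) (nat_lit 0) (XT.lf (nat_lit 0) (nat_lit 828393111899) (nat_lit 152) (nat_lit 179564944761) (nat_lit 0) (nat_lit 826966926089) (nat_lit 1) (nat_lit 5) (nat_lit 3) (nat_lit 4) (nat_lit 1) (nat_lit 4) (nat_lit 251) (nat_lit 183) (nat_lit 166)) (XT.lf (nat_lit 0) (nat_lit 953367611634) (nat_lit 152) (nat_lit 204794827838) (nat_lit 0) (nat_lit 951922368432) (nat_lit 1) (nat_lit 5) (nat_lit 3) (nat_lit 4) (nat_lit 1) (nat_lit 4) (nat_lit 252) (nat_lit 183) (nat_lit 165)))))) (XT.nd (nat_lit 312) (nat_lit 0) (nat_lit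 0) (XT.nd (nat_lit 156) (nat_lit 0) (nat_lit 0) (XT.nd (nat_lit 78) (nat_lit 0) (nat_lit 0) (XT.lf (nat_lit 0) (nat_lit 1097069918631) (nat_lit 152) (nat_lit 233842108126) (nat_lit 0) (nat_lit 1095608103783) (nat_lit 1) (nat_lit 5) (nat_lit 3) (nat_lit 4) (nat_lit 1) (nat_lit 4) (nat_lit 253) (nat_lit 183) (nat_lit 164)) (XT.lf (nat_lit 0) (nat_lit 1262311599765) (nat_lit 152) (nat_lit 267275101978) (nat_lit 0) (nat_lit 1260835374791) (nat_lit 1) (nat_lit 5) (nat_lit 3) (nat_lit 4) (nat_lit 1) (nat_lit 4) (nat_lit 254) (nat_lit 183) (nat_lit 163))) (XT.nd (nat_lit 78) (nat_lit 0) (nat_lit 0) (XT.lf (nat_lit 0) (nat_lit 1452325644451) (nat_lit 152) (nat_lit 305747933187) (nat_lit 0) (nat_lit 1450836888932) (nat_lit 1) (nat_lit 5) (nat_lit 3) (nat_lit 4) (nat_lit 1) (nat_lit 4) (nat_lit 255) (nat_lit 183) (nat_lit 162)) (XT.lf (nat_lit 0) (nat_lit 1670829718779) (nat_lit 152) (nat_lit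 350013331059) (nat_lit 0) (nat_lit 1669330067134) (nat_lit 1) (nat_lit 5) (nat_lit 3) (nat_lit 4) (nat_lit 1) (nat_lit 4) (nat_lit 256) (nat_lit 183) (nat_lit 161)))) (XT.nd (nat_lit 29328) (nat_lit 0) (nat_lit 0) (XT.nd (nat_lit 78) (nat_lit 0) (nat_lit 0) (XT.lf (nat_lit 0) (nat_lit 1922098902466) (nat_lit 152) (nat_lit 400937357727) (nat_lit 0) (nat_lit 1920589775929) (nat_lit 1) (nat_lit 5) (nat_lit 3) (nat_lit 4) (nat_lit 1) (nat_lit 4) (nat_lit 257) (nat_lit 183) (nat_lit 160)) (XT.lf (nat_lit 0) (nat_lit 2211049331713) (nat_lit 152) (nat_lit 459516352842) (nat_lit 0) (nat_lit 2209531966140) (nat_lit 1) (nat_lit 5) (nat_lit 3) (nat_lit 4) (nat_lit 1) (nat_lit 4) (nat_lit 258) (nat_lit 183) (nat_lit 159))) (XT.nd (nat_lit 78) (nat_lit 0) (nat_lit 0) (XT.lf (nat_lit 0) (nat_lit 23945695474) (nat_lit 152) (nat_lit 17072703400) (nat_lit 0) (nat_lit 23945695474) (nat_lit 1) (nat_lit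 5) (nat_lit 3) (nat_lit 4) (nat_lit 1) (nat_lit 4) (nat_lit 232) (nat_lit 184) (nat_lit 184)) (XT.nd (nat_lit 78) (nat_lit 0) (nat_lit 0) (XT.lf (nat_lit 0) (nat_lit 57478719879) (nat_lit 152) (nat_lit 34473927472) (nat_lit 0) (nat_lit 57242876006) (nat_lit 1) (nat_lit 5) (nat_lit 3) (nat_lit 4) (nat_lit 1) (nat_lit 4) (nat_lit 233) (nat_lit 184) (nat_lit 183)) (XT.lf (nat_lit 0) (nat_lit 68276839549) (nat_lit 152) (nat_lit 35259061195) (nat_lit 0) (nat_lit 67835914048) (nat_lit 1) (nat_lit 5) (nat_lit 3) (nat_lit 4) (nat_lit 1) (nat_lit 4) (nat_lit 234) (nat_lit 184) (nat_lit 182))))))))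
noncomputable def xc5 : XT := (XT.nd (nat_lit 1326) (nat_lit 0) (nat_lit 0) (XT.nd (nat_lit 624) (nat_lit 0) (nat_lit 0) (XT.nd (nat_lit 312) (nat_lit 0) (nat_lit 0) (XT.nd (nat_lit 156) (nat_lit 0) (nat_lit 0) (XT.nd (nat_lit 78) (nat_lit 0) (nat_lit 0) (XT.lf (nat_lit 0) (nat_lit 80497017516) (nat_lit 152) (nat_lit 36516169281) (nat_lit 0) (nat_lit 79877760165) (nat_lit 1) (nat_lit 5) (nat_lit 3) (nat_lit 4) (nat_lit 1) (nat_lit 4) (nat_lit 235) (nat_lit 184) (nat_lit 181)) (XT.lf (nat_lit 0) (nat_lit 94378344220) (nat_lit 152) (nat_lit 38269847322) (nat_lit 0) (nat_lit 93604015694) (nat_lit 1) (nat_lit 5) (nat_lit 3) (nat_lit 4) (nat_lit 1) (nat_lit 4) (nat_lit 236) (nat_lit 184) (nat_lit 180))) (XT.nd (nat_lit 78) (nat_lit 0) (nat_lit 0) (XT.lf (nat_lit 0) (nat_lit 110192410835) (nat_lit 152) (nat_lit 40554406413) (nat_lit 0) (nat_lit 109283237810) (nat_lit 1) (nat_lit 5) (nat_lit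 3) (nat_lit 4) (nat_lit 1) (nat_lit 4) (nat_lit 237) (nat_lit 184) (nat_lit 179)) (XT.lf (nat_lit 0) (nat_lit 128248623012) (nat_lit 152) (nat_lit 43414544447) (nat_lit 0) (nat_lit 127222193900) (nat_lit 1) (nat_lit 5) (nat_lit 3) (nat_lit 4) (nat_lit 1) (nat_lit 4) (nat_lit 238) (nat_lit 184) (nat_lit 178)))) (XT.nd (nat_lit 156) (nat_lit 0) (nat_lit 0) (XT.nd (nat_lit 78) (nat_lit 0) (nat_lit 0) (XT.lf (nat_lit 0) (nat_lit 148900254468) (nat_lit 152) (nat_lit 46906220646) (nat_lit 0) (nat_lit 147771863541) (nat_lit 1) (nat_lit 5) (nat_lit 3) (nat_lit 4) (nat_lit 1) (nat_lit 4) (nat_lit 239) (nat_lit 184) (nat_lit 177)) (XT.lf (nat_lit 0) (nat_lit 172551358861) (nat_lit 152) (nat_lit 51097750416) (nat_lit 0) (nat_lit 171334305487) (nat_lit 1) (nat_lit 5) (nat_lit 3) (nat_lit 4) (nat_lit 1) (nat_lit 4) (nat_lit 240) (nat_lit 184) (nat_lit 176))) (XT.nd (nat_lit 78) (nat_lit 0) (nat_lit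 0) (XT.lf (nat_lit 0) (nat_lit 199664675190) (nat_lit 152) (nat_lit 56071141947) (nat_lit 0) (nat_lit 198370524036) (nat_lit 1) (nat_lit 5) (nat_lit 3) (nat_lit 4) (nat_lit 1) (nat_lit 4) (nat_lit 241) (nat_lit 184) (nat_lit 175)) (XT.lf (nat_lit 0) (nat_lit 230770681385) (nat_lit 152) (nat_lit 61923700725) (nat_lit 0) (nat_lit 229409488682) (nat_lit 1) (nat_lit 5) (nat_lit 3) (nat_lit 4) (nat_lit 1) (nat_lit 4) (nat_lit 242) (nat_lit 184) (nat_lit 174))))) (XT.nd (nat_lit 312) (nat_lit 0) (nat_lit 0) (XT.nd (nat_lit 156) (nat_lit 0) (nat_lit 0) (XT.nd (nat_lit 78) (nat_lit 0) (nat_lit 0) (XT.lf (nat_lit 0) (nat_lit 266477973217) (nat_lit 152) (nat_lit 68769933336) (nat_lit 0) (nat_lit 265058483516) (nat_lit 1) (nat_lit 5) (nat_lit 3) (nat_lit 4) (nat_lit 1) (nat_lit 4) (nat_lit 243) (nat_lit 184) (nat_lit 173)) (XT.lf (nat_lit 0) (nat_lit 307485171615) (nat_lit 152) (nat_lit 76743787808)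 (nat_lit 0) (nat_lit 306014988872) (nat_lit 1) (nat_lit 5) (nat_lit 3) (nat_lit 4) (nat_lit 1) (nat_lit 4) (nat_lit 244) (nat_lit 184) (nat_lit 172))) (XT.nd (nat_lit 78) (nat_lit 0) (nat_lit 0) (XT.lf (nat_lit 0) (nat_lit 354594591328) (nat_lit 152) (nat_lit 86001274338) (nat_lit 0) (nat_lit 353080327680) (nat_lit 1) (nat_lit 5) (nat_lit 3) (nat_lit 4) (nat_lit 1) (nat_lit 4) (nat_lit 245) (nat_lit 184) (nat_lit 171)) (XT.lf (nat_lit 0) (nat_lit 408727938397) (nat_lit 152) (nat_lit 96723517663) (nat_lit 0) (nat_lit 407175343525) (nat_lit 1) (nat_lit 5) (nat_lit 3) (nat_lit 4) (nat_lit 1) (nat_lit 4) (nat_lit 246) (nat_lit 184) (nat_lit 170)))) (XT.nd (nat_lit 156) (nat_lit 0) (nat_lit 0) (XT.nd (nat_lit 78) (nat_lit 0) (nat_lit 0) (XT.lf (nat_lit 0) (nat_lit 470944343523) (nat_lit 152) (nat_lit 109120300803) (nat_lit 0) (nat_lit 469358417153) (nat_lit 1) (nat_lit 5) (nat_lit 3) (nat_lit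 4) (nat_lit 1) (nat_lit 4) (nat_lit 247) (nat_lit 184) (nat_lit 169)) (XT.lf (nat_lit 0) (nat_lit 542461084199) (nat_lit 152) (nat_lit 123434169517) (nat_lit 0) (nat_lit 540846173918) (nat_lit 1) (nat_lit 5) (nat_lit 3) (nat_lit 4) (nat_lit 1) (nat_lit 4) (nat_lit 248) (nat_lit 184) (nat_lit 168))) (XT.nd (nat_lit 78) (nat_lit 0) (nat_lit 0) (XT.lf (nat_lit 0) (nat_lit 624677401002) (nat_lit 152) (nat_lit 139945177756) (nat_lit 0) (nat_lit 623037287320) (nat_lit 1) (nat_lit 5) (nat_lit 3) (nat_lit 4) (nat_lit 1) (nat_lit 4) (nat_lit 249) (nat_lit 184) (nat_lit 167)) (XT.nd (nat_lit 78) (nat_lit 0) (nat_lit 0) (XT.lf (nat_lit 0) (nat_lit 719201874045) (nat_lit 152) (nat_lit 158976366987) (nat_lit 0) (nat_lit 717539844362) (nat_lit 1) (nat_lit 5) (nat_lit 3) (nat_lit 4) (nat_lit 1) (nat_lit 4) (nat_lit 250) (nat_lit 184) (nat_lit 166)) (XT.lf (nat_lit 0) (nat_lit 827883895191) (nat_lit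 152) (nat_lit 180900086564) (nat_lit 0) (nat_lit 826202808116) (nat_lit 1) (nat_lit 5) (nat_lit 3) (nat_lit 4) (nat_lit 1) (nat_lit 4) (nat_lit 251) (nat_lit 184) (nat_lit 165))))))) (XT.nd (nat_lit 29718) (nat_lit 0) (nat_lit 0) (XT.nd (nat_lit 312) (nat_lit 0) (nat_lit 0) (XT.nd (nat_lit 156) (nat_lit 0) (nat_lit 0) (XT.nd (nat_lit 78) (nat_lit 0) (nat_lit 0) (XT.lf (nat_lit 0) (nat_lit 952849851810) (nat_lit 152) (nat_lit 206145278827) (nat_lit 0) (nat_lit 951152193089) (nat_lit 1) (nat_lit 5) (nat_lit 3) (nat_lit 4) (nat_lit 1) (nat_lit 4) (nat_lit 252) (nat_lit 184) (nat_lit 164)) (XT.lf (nat_lit 0) (nat_lit 1096544730011) (nat_lit 152) (nat_lit 235205871451) (nat_lit 0) (nat_lit 1094832661164) (nat_lit 1) (nat_lit 5) (nat_lit 3) (nat_lit 4) (nat_lit 1) (nat_lit 4) (nat_lit 253) (nat_lit 184) (nat_lit 163))) (XT.nd (nat_lit 78) (nat_lit 0) (nat_lit 0) (XT.lf (nat_lit 0) (nat_lit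 1261779951322) (nat_lit 152) (nat_lit 268650441246) (nat_lit 0) (nat_lit 1260055351930) (nat_lit 1) (nat_lit 5) (nat_lit 3) (nat_lit 4) (nat_lit 1) (nat_lit 4) (nat_lit 254) (nat_lit 184) (nat_lit 162)) (XT.lf (nat_lit 0) (nat_lit 1451788378771) (nat_lit 152) (nat_lit 307133338493) (nat_lit 0) (nat_lit 1450052883253) (nat_lit 1) (nat_lit 5) (nat_lit 3) (nat_lit 4) (nat_lit 1) (nat_lit 4) (nat_lit 255) (nat_lit 184) (nat_lit 161)))) (XT.nd (nat_lit 156) (nat_lit 0) (nat_lit 0) (XT.nd (nat_lit 78) (nat_lit 0) (nat_lit 0) (XT.lf (nat_lit 0) (nat_lit 1670287568545) (nat_lit 152) (nat_lit 351407489442) (nat_lit 0) (nat_lit 1668542598136) (nat_lit 1) (nat_lit 5) (nat_lit 3) (nat_lit 4) (nat_lit 1) (nat_lit 4) (nat_lit 256) (nat_lit 184) (nat_lit 160)) (XT.lf (nat_lit 0) (nat_lit 1921552504793) (nat_lit 152) (nat_lit 402339127481) (nat_lit 0) (nat_lit 1919799295347) (nat_lit 1) (nat_lit 5)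 (nat_lit 3) (nat_lit 4) (nat_lit 1) (nat_lit 4) (nat_lit 257) (nat_lit 184) (nat_lit 159))) (XT.nd (nat_lit 29094) (nat_lit 0) (nat_lit 0) (XT.lf (nat_lit 0) (nat_lit 2210499240616) (nat_lit 152) (nat_lit 460924741180) (nat_lit 0) (nat_lit 2208738866790) (nat_lit 1) (nat_lit 5) (nat_lit 3) (nat_lit 4) (nat_lit 1) (nat_lit 4) (nat_lit 258) (nat_lit 184) (nat_lit 158)) (XT.nd (nat_lit 78) (nat_lit 0) (nat_lit 0) (XT.lf (nat_lit 0) (nat_lit 16014926827) (nat_lit 152) (nat_lit 17295371958) (nat_lit 0) (nat_lit 16014926827) (nat_lit 1) (nat_lit 5) (nat_lit 3) (nat_lit 4) (nat_lit 1) (nat_lit 4) (nat_lit 230) (nat_lit 185) (nat_lit 185)) (XT.lf (nat_lit 0) (nat_lit 39598495035) (nat_lit 152) (nat_lit 34267071603) (nat_lit 0) (nat_lit 39327274581) (nat_lit 1) (nat_lit 5) (nat_lit 3) (nat_lit 4) (nat_lit 1) (nat_lit 4) (nat_lit 231) (nat_lit 185) (nat_lit 184)))))) (XT.nd (nat_lit 312) (nat_lit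 0) (nat_lit 0) (XT.nd (nat_lit 156) (nat_lit 0) (nat_lit 0) (XT.nd (nat_lit 78) (nat_lit 0) (nat_lit 0) (XT.lf (nat_lit 0) (nat_lit 48041027731) (nat_lit 152) (nat_lit 34363283635) (nat_lit 0) (nat_lit 47533963405) (nat_lit 1) (nat_lit 5) (nat_lit 3) (nat_lit 4) (nat_lit 1) (nat_lit 4) (nat_lit 232) (nat_lit 185) (nat_lit 183)) (XT.lf (nat_lit 0) (nat_lit 57522631732) (nat_lit 152) (nat_lit 34881262423) (nat_lit 0) (nat_lit 56810485777) (nat_lit 1) (nat_lit 5) (nat_lit 3) (nat_lit 4) (nat_lit 1) (nat_lit 4) (nat_lit 233) (nat_lit 185) (nat_lit 182))) (XT.nd (nat_lit 78) (nat_lit 0) (nat_lit 0) (XT.lf (nat_lit 0) (nat_lit 68228816679) (nat_lit 152) (nat_lit 35831142334) (nat_lit 0) (nat_lit 67338338874) (nat_lit 1) (nat_lit 5) (nat_lit 3) (nat_lit 4) (nat_lit 1) (nat_lit 4) (nat_lit 234) (nat_lit 185) (nat_lit 181)) (XT.lf (nat_lit 0) (nat_lit 80369051410) (nat_lit 152) (nat_lit 37231507975)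 (nat_lit 0) (nat_lit 79323502431) (nat_lit 1) (nat_lit 5) (nat_lit 3) (nat_lit 4) (nat_lit 1) (nat_lit 4) (nat_lit 235) (nat_lit 185) (nat_lit 180)))) (XT.nd (nat_lit 156) (nat_lit 0) (nat_lit 0) (XT.nd (nat_lit 78) (nat_lit 0) (nat_lit 0) (XT.lf (nat_lit 0) (nat_lit 94180862256) (nat_lit 152) (nat_lit 39109757803) (nat_lit 0) (nat_lit 93000468777) (nat_lit 1) (nat_lit 5) (nat_lit 3) (nat_lit 4) (nat_lit 1) (nat_lit 4) (nat_lit 236) (nat_lit 185) (nat_lit 179)) (XT.lf (nat_lit 0) (nat_lit 109934480299) (nat_lit 152) (nat_lit 41502640187) (nat_lit 0) (nat_lit 108636830733) (nat_lit 1) (nat_lit 5) (nat_lit 3) (nat_lit 4) (nat_lit 1) (nat_lit 4) (nat_lit 237) (nat_lit 185) (nat_lit 178))) (XT.nd (nat_lit 78) (nat_lit 0) (nat_lit 0) (XT.lf (nat_lit 0) (nat_lit 127938128500) (nat_lit 152) (nat_lit 44456972388) (nat_lit 0) (nat_lit 126538517120) (nat_lit 1) (nat_lit 5) (nat_lit 3) (nat_lit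 4) (nat_lit 1) (nat_lit 4) (nat_lit 238) (nat_lit 185) (nat_lit 177)) (XT.nd (nat_lit 78) (nat_lit 0) (nat_lit 0) (XT.lf (nat_lit 0) (nat_lit 148544052151) (nat_lit 152) (nat_lit 48030556560) (nat_lit 0) (nat_lit 147055778323) (nat_lit 1) (nat_lit 5) (nat_lit 3) (nat_lit 4) (nat_lit 1) (nat_lit 4) (nat_lit 239) (nat_lit 185) (nat_lit 176)) (XT.lf (nat_lit 0) (nat_lit 172155410626) (nat_lit 152) (nat_lit 52293310654) (nat_lit 0) (nat_lit 170590039019) (nat_lit 1) (nat_lit 5) (nat_lit 3) (nat_lit 4) (nat_lit 1) (nat_lit 4) (nat_lit 240) (nat_lit 185) (nat_lit 175))))))))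
noncomputable def xc6 : XT := (XT.nd (nat_lit 1326) (nat_lit 0) (nat_lit 0) (XT.nd (nat_lit 624) (nat_lit 0) (nat_lit 0) (XT.nd (nat_lit 312) (nat_lit 0) (nat_lit 0) (XT.nd (nat_lit 156) (nat_lit 0) (nat_lit 0) (XT.nd (nat_lit 78) (nat_lit 0) (nat_lit 0) (XT.lf (nat_lit 0) (nat_lit 199234165289) (nat_lit 152) (nat_lit 57328636379) (nat_lit 0) (nat_lit 197601752133) (nat_lit 1) (nat_lit 5) (nat_lit 3) (nat_lit 4) (nat_lit 1) (nat_lit 4) (nat_lit 241) (nat_lit 185) (nat_lit 174)) (XT.lf (nat_lit 0) (nat_lit 230310117859) (nat_lit 152) (nat_lit 63235050978) (nat_lit 0) (nat_lit 228619407705) (nat_lit 1) (nat_lit 5) (nat_lit 3) (nat_lit 4) (nat_lit 1) (nat_lit 4) (nat_lit 242) (nat_lit 185) (nat_lit 173))) (XT.nd (nat_lit 78) (nat_lit 0) (nat_lit 0) (XT.lf (nat_lit 0) (nat_lit 265991276106) (nat_lit 152) (nat_lit 70128114738) (nat_lit 0) (nat_lit 264249872909) (nat_lit 1) (nat_lit 5) (nat_lit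 3) (nat_lit 4) (nat_lit 1) (nat_lit 4) (nat_lit 243) (nat_lit 185) (nat_lit 172)) (XT.lf (nat_lit 0) (nat_lit 306975749646) (nat_lit 152) (nat_lit 78142691948) (nat_lit 0) (nat_lit 305190265543) (nat_lit 1) (nat_lit 5) (nat_lit 3) (nat_lit 4) (nat_lit 1) (nat_lit 4) (nat_lit 244) (nat_lit 185) (nat_lit 171)))) (XT.nd (nat_lit 156) (nat_lit 0) (nat_lit 0) (XT.nd (nat_lit 78) (nat_lit 0) (nat_lit 0) (XT.lf (nat_lit 0) (nat_lit 354065408614) (nat_lit 152) (nat_lit 87435589555) (nat_lit 0) (nat_lit 352241593289) (nat_lit 1) (nat_lit 5) (nat_lit 3) (nat_lit 4) (nat_lit 1) (nat_lit 4) (nat_lit 245) (nat_lit 185) (nat_lit 170)) (XT.lf (nat_lit 0) (nat_lit 408181572426) (nat_lit 152) (nat_lit 98188625120) (nat_lit 0) (nat_lit 406324425603) (nat_lit 1) (nat_lit 5) (nat_lit 3) (nat_lit 4) (nat_lit 1) (nat_lit 4) (nat_lit 246) (nat_lit 185) (nat_lit 169))) (XT.nd (nat_lit 78) (nat_lit 0) (nat_lit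 0) (XT.lf (nat_lit 0) (nat_lit 470383035589) (nat_lit 152) (nat_lit 110612184122) (nat_lit 0) (nat_lit 468496904855) (nat_lit 1) (nat_lit 5) (nat_lit 3) (nat_lit 4) (nat_lit 1) (nat_lit 4) (nat_lit 247) (nat_lit 185) (nat_lit 168)) (XT.lf (nat_lit 0) (nat_lit 541886783254) (nat_lit 152) (nat_lit 124949336193) (nat_lit 0) (nat_lit 539975449119) (nat_lit 1) (nat_lit 5) (nat_lit 3) (nat_lit 4) (nat_lit 1) (nat_lit 4) (nat_lit 248) (nat_lit 185) (nat_lit 167))))) (XT.nd (nat_lit 312) (nat_lit 0) (nat_lit 0) (XT.nd (nat_lit 156) (nat_lit 0) (nat_lit 0) (XT.nd (nat_lit 78) (nat_lit 0) (nat_lit 0) (XT.lf (nat_lit 0) (nat_lit 624091801787) (nat_lit 152) (nat_lit 141480590830) (nat_lit 0) (nat_lit 622158551651) (nat_lit 1) (nat_lit 5) (nat_lit 3) (nat_lit 4) (nat_lit 1) (nat_lit 4) (nat_lit 249) (nat_lit 185) (nat_lit 166)) (XT.lf (nat_lit 0) (nat_lit 718606450247) (nat_lit 152) (nat_lit 160529385625)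 (nat_lit 0) (nat_lit 716654142718) (nat_lit 1) (nat_lit 5) (nat_lit 3) (nat_lit 4) (nat_lit 1) (nat_lit 4) (nat_lit 250) (nat_lit 185) (nat_lit 165))) (XT.nd (nat_lit 78) (nat_lit 0) (nat_lit 0) (XT.lf (nat_lit 0) (nat_lit 827279928277) (nat_lit 152) (nat_lit 182468414388) (nat_lit 0) (nat_lit 825311049103) (nat_lit 1) (nat_lit 5) (nat_lit 3) (nat_lit 4) (nat_lit 1) (nat_lit 4) (nat_lit 251) (nat_lit 185) (nat_lit 164)) (XT.lf (nat_lit 0) (nat_lit 952238456101) (nat_lit 152) (nat_lit 207726918986) (nat_lit 0) (nat_lit 950255166800) (nat_lit 1) (nat_lit 5) (nat_lit 3) (nat_lit 4) (nat_lit 1) (nat_lit 4) (nat_lit 252) (nat_lit 185) (nat_lit 163)))) (XT.nd (nat_lit 156) (nat_lit 0) (nat_lit 0) (XT.nd (nat_lit 78) (nat_lit 0) (nat_lit 0) (XT.lf (nat_lit 0) (nat_lit 1095926874478) (nat_lit 152) (nat_lit 236799087553) (nat_lit 0) (nat_lit 1093931054633) (nat_lit 1) (nat_lit 5) (nat_lit 3)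 (nat_lit 4) (nat_lit 1) (nat_lit 4) (nat_lit 253) (nat_lit 185) (nat_lit 162)) (XT.lf (nat_lit 0) (nat_lit 1261156478553) (nat_lit 152) (nat_lit 270253723387) (nat_lit 0) (nat_lit 1259149762582) (nat_lit 1) (nat_lit 5) (nat_lit 3) (nat_lit 4) (nat_lit 1) (nat_lit 4) (nat_lit 254) (nat_lit 185) (nat_lit 161))) (XT.nd (nat_lit 78) (nat_lit 0) (nat_lit 0) (XT.lf (nat_lit 0) (nat_lit 1451160021447) (nat_lit 152) (nat_lit 308745373711) (nat_lit 0) (nat_lit 1449143830584) (nat_lit 1) (nat_lit 5) (nat_lit 3) (nat_lit 4) (nat_lit 1) (nat_lit 4) (nat_lit 255) (nat_lit 185) (nat_lit 160)) (XT.nd (nat_lit 78) (nat_lit 0) (nat_lit 0) (XT.lf (nat_lit 0) (nat_lit 1669654963783) (nat_lit 152) (nat_lit 353027136030) (nat_lit 0) (nat_lit 1667630533884) (nat_lit 1) (nat_lit 5) (nat_lit 3) (nat_lit 4) (nat_lit 1) (nat_lit 4) (nat_lit 256) (nat_lit 185) (nat_lit 159)) (XT.lf (nat_lit 0) (nat_lit 1920916206607)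 (nat_lit 152) (nat_lit 403965392653) (nat_lit 0) (nat_lit 1918884612328) (nat_lit 1) (nat_lit 5) (nat_lit 3) (nat_lit 4) (nat_lit 1) (nat_lit 4) (nat_lit 257) (nat_lit 185) (nat_lit 158))))))) (XT.nd (nat_lit 29562) (nat_lit 0) (nat_lit 0) (XT.nd (nat_lit 29172) (nat_lit 0) (nat_lit 0) (XT.nd (nat_lit 29016) (nat_lit 0) (nat_lit 0) (XT.nd (nat_lit 28938) (nat_lit 0) (nat_lit 0) (XT.lf (nat_lit 0) (nat_lit 2209859730756) (nat_lit 152) (nat_lit 462556761641) (nat_lit 0) (nat_lit 2207821906581) (nat_lit 1) (nat_lit 5) (nat_lit 3) (nat_lit 4) (nat_lit 1) (nat_lit 4) (nat_lit 258) (nat_lit 185) (nat_lit 157)) (XT.lf (nat_lit 0) (nat_lit 9704407463) (nat_lit 152) (nat_lit 18121634688) (nat_lit 0) (nat_lit 9704407463) (nat_lit 1) (nat_lit 5) (nat_lit 3) (nat_lit 4) (nat_lit 1) (nat_lit 4) (nat_lit 228) (nat_lit 186) (nat_lit 186))) (XT.nd (nat_lit 78) (nat_lit 0) (nat_lit 0) (XT.lf (nat_lit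 0) (nat_lit 25498924998) (nat_lit 152) (nat_lit 35340633296) (nat_lit 0) (nat_lit 25187021477) (nat_lit 1) (nat_lit 5) (nat_lit 3) (nat_lit 4) (nat_lit 1) (nat_lit 4) (nat_lit 229) (nat_lit 186) (nat_lit 185)) (XT.lf (nat_lit 0) (nat_lit 32201935955) (nat_lit 152) (nat_lit 34841302276) (nat_lit 0) (nat_lit 31618811980) (nat_lit 1) (nat_lit 5) (nat_lit 3) (nat_lit 4) (nat_lit 1) (nat_lit 4) (nat_lit 230) (nat_lit 186) (nat_lit 184)))) (XT.nd (nat_lit 156) (nat_lit 0) (nat_lit 0) (XT.nd (nat_lit 78) (nat_lit 0) (nat_lit 0) (XT.lf (nat_lit 0) (nat_lit 39648993665) (nat_lit 152) (nat_lit 34735506796) (nat_lit 0) (nat_lit 38830025818) (nat_lit 1) (nat_lit 5) (nat_lit 3) (nat_lit 4) (nat_lit 1) (nat_lit 4) (nat_lit 231) (nat_lit 186) (nat_lit 183)) (XT.lf (nat_lit 0) (nat_lit 47985801431) (nat_lit 152) (nat_lit 35021176945) (nat_lit 0) (nat_lit 46961751956) (nat_lit 1) (nat_lit 5) (nat_lit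 3) (nat_lit 4) (nat_lit 1) (nat_lit 4) (nat_lit 232) (nat_lit 186) (nat_lit 182))) (XT.nd (nat_lit 78) (nat_lit 0) (nat_lit 0) (XT.lf (nat_lit 0) (nat_lit 57375470710) (nat_lit 152) (nat_lit 35703901921) (nat_lit 0) (nat_lit 56173089383) (nat_lit 1) (nat_lit 5) (nat_lit 3) (nat_lit 4) (nat_lit 1) (nat_lit 4) (nat_lit 233) (nat_lit 186) (nat_lit 181)) (XT.nd (nat_lit 78) (nat_lit 0) (nat_lit 0) (XT.lf (nat_lit 0) (nat_lit 68001712421) (nat_lit 152) (nat_lit 36797039387) (nat_lit 0) (nat_lit 66644259920) (nat_lit 1) (nat_lit 5) (nat_lit 3) (nat_lit 4) (nat_lit 1) (nat_lit 4) (nat_lit 234) (nat_lit 186) (nat_lit 180)) (XT.lf (nat_lit 0) (nat_lit 80072431294) (nat_lit 152) (nat_lit 38321976815) (nat_lit 0) (nat_lit 78580134293) (nat_lit 1) (nat_lit 5) (nat_lit 3) (nat_lit 4) (nat_lit 1) (nat_lit 4) (nat_lit 235) (nat_lit 186) (nat_lit 179)))))) (XT.nd (nat_lit 312) (nat_lit 0) (nat_lit 0)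 (XT.nd (nat_lit 156) (nat_lit 0) (nat_lit 0) (XT.nd (nat_lit 78) (nat_lit 0) (nat_lit 0) (XT.lf (nat_lit 0) (nat_lit 93823793568) (nat_lit 152) (nat_lit 40308549937) (nat_lit 0) (nat_lit 92214240480) (nat_lit 1) (nat_lit 5) (nat_lit 3) (nat_lit 4) (nat_lit 1) (nat_lit 4) (nat_lit 236) (nat_lit 186) (nat_lit 178)) (XT.lf (nat_lit 0) (nat_lit 109524847634) (nat_lit 152) (nat_lit 42795626488) (nat_lit 0) (nat_lit 107813332733) (nat_lit 1) (nat_lit 5) (nat_lit 3) (nat_lit 4) (nat_lit 1) (nat_lit 4) (nat_lit 237) (nat_lit 186) (nat_lit 177))) (XT.nd (nat_lit 78) (nat_lit 0) (nat_lit 0) (XT.lf (nat_lit 0) (nat_lit 127482788031) (nat_lit 152) (nat_lit 45831866662) (nat_lit 0) (nat_lit 125682610682) (nat_lit 1) (nat_lit 5) (nat_lit 3) (nat_lit 4) (nat_lit 1) (nat_lit 4) (nat_lit 238) (nat_lit 186) (nat_lit 176)) (XT.lf (nat_lit 0) (nat_lit 148048965764) (nat_lit 152) (nat_lit 49476675157) (nat_lit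 0) (nat_lit 146171690634) (nat_lit 1) (nat_lit 5) (nat_lit 3) (nat_lit 4) (nat_lit 1) (nat_lit 4) (nat_lit 239) (nat_lit 186) (nat_lit 175)))) (XT.nd (nat_lit 156) (nat_lit 0) (nat_lit 0) (XT.nd (nat_lit 78) (nat_lit 0) (nat_lit 0) (XT.lf (nat_lit 0) (nat_lit 171625762572) (nat_lit 152) (nat_lit 53801363445) (nat_lit 0) (nat_lit 169681445895) (nat_lit 1) (nat_lit 5) (nat_lit 3) (nat_lit 4) (nat_lit 1) (nat_lit 4) (nat_lit 240) (nat_lit 186) (nat_lit 174)) (XT.lf (nat_lit 0) (nat_lit 198674463611) (nat_lit 152) (nat_lit 58890544991) (nat_lit 0) (nat_lit 196671849935) (nat_lit 1) (nat_lit 5) (nat_lit 3) (nat_lit 4) (nat_lit 1) (nat_lit 4) (nat_lit 241) (nat_lit 186) (nat_lit 173))) (XT.nd (nat_lit 78) (nat_lit 0) (nat_lit 0) (XT.lf (nat_lit 0) (nat_lit 229724282595) (nat_lit 152) (nat_lit 64843790739) (nat_lit 0) (nat_lit 227670975877) (nat_lit 1) (nat_lit 5) (nat_lit 3) (nat_lit 4) (nat_lit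 1) (nat_lit 4) (nat_lit 242) (nat_lit 186) (nat_lit 172)) (XT.nd (nat_lit 78) (nat_lit 0) (nat_lit 0) (XT.lf (nat_lit 0) (nat_lit 265382715984) (nat_lit 152) (nat_lit 71777577237) (nat_lit 0) (nat_lit 263285328360) (nat_lit 1) (nat_lit 5) (nat_lit 3) (nat_lit 4) (nat_lit 1) (nat_lit 4) (nat_lit 243) (nat_lit 186) (nat_lit 171)) (XT.lf (nat_lit 0) (nat_lit 306347428779) (nat_lit 152) (nat_lit 79827565524) (nat_lit 0) (nat_lit 304211709933) (nat_lit 1) (nat_lit 5) (nat_lit 3) (nat_lit 4) (nat_lit 1) (nat_lit 4) (nat_lit 244) (nat_lit 186) (nat_lit 170))))))))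
noncomputable def xc7 : XT := (XT.nd (nat_lit 30108) (nat_lit 0) (nat_lit 0) (XT.nd (nat_lit 702) (nat_lit 0) (nat_lit 0) (XT.nd (nat_lit 312) (nat_lit 0) (nat_lit 0) (XT.nd (nat_lit 156) (nat_lit 0) (nat_lit 0) (XT.nd (nat_lit 78) (nat_lit 0) (nat_lit 0) (XT.lf (nat_lit 0) (nat_lit 353419904491) (nat_lit 152) (nat_lit 89151255372) (nat_lit 0) (nat_lit 351250854146) (nat_lit 1) (nat_lit 5) (nat_lit 3) (nat_lit 4) (nat_lit 1) (nat_lit 4) (nat_lit 245) (nat_lit 186) (nat_lit 169)) (XT.lf (nat_lit 0) (nat_lit 407521126339) (nat_lit 152) (nat_lit 99931066798) (nat_lit 0) (nat_lit 405323092084) (nat_lit 1) (nat_lit 5) (nat_lit 3) (nat_lit 4) (nat_lit 1) (nat_lit 4) (nat_lit 246) (nat_lit 186) (nat_lit 168))) (XT.nd (nat_lit 78) (nat_lit 0) (nat_lit 0) (XT.lf (nat_lit 0) (nat_lit 469709596492) (nat_lit 152) (nat_lit 112377909157) (nat_lit 0) (nat_lit 467486358835) (nat_lit 1) (nat_lit 5) (nat_lit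 3) (nat_lit 4) (nat_lit 1) (nat_lit 4) (nat_lit 247) (nat_lit 186) (nat_lit 167)) (XT.lf (nat_lit 0) (nat_lit 541202045887) (nat_lit 152) (nat_lit 126735307627) (nat_lit 0) (nat_lit 538956892229) (nat_lit 1) (nat_lit 5) (nat_lit 3) (nat_lit 4) (nat_lit 1) (nat_lit 4) (nat_lit 248) (nat_lit 186) (nat_lit 166)))) (XT.nd (nat_lit 156) (nat_lit 0) (nat_lit 0) (XT.nd (nat_lit 78) (nat_lit 0) (nat_lit 0) (XT.lf (nat_lit 0) (nat_lit 623397239837) (nat_lit 152) (nat_lit 143284167827) (nat_lit 0) (nat_lit 621133028787) (nat_lit 1) (nat_lit 5) (nat_lit 3) (nat_lit 4) (nat_lit 1) (nat_lit 4) (nat_lit 249) (nat_lit 186) (nat_lit 165)) (XT.lf (nat_lit 0) (nat_lit 717903345181) (nat_lit 152) (nat_lit 162348271808) (nat_lit 0) (nat_lit 715622562486) (nat_lit 1) (nat_lit 5) (nat_lit 3) (nat_lit 4) (nat_lit 1) (nat_lit 4) (nat_lit 250) (nat_lit 186) (nat_lit 164))) (XT.nd (nat_lit 78) (nat_lit 0) (nat_lit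 0) (XT.lf (nat_lit 0) (nat_lit 826569394415) (nat_lit 152) (nat_lit 184300612906) (nat_lit 0) (nat_lit 824274201593) (nat_lit 1) (nat_lit 5) (nat_lit 3) (nat_lit 4) (nat_lit 1) (nat_lit 4) (nat_lit 251) (nat_lit 186) (nat_lit 163)) (XT.nd (nat_lit 78) (nat_lit 0) (nat_lit 0) (XT.lf (nat_lit 0) (nat_lit 951521462416) (nat_lit 152) (nat_lit 209570693448) (nat_lit 0) (nat_lit 949213739049) (nat_lit 1) (nat_lit 5) (nat_lit 3) (nat_lit 4) (nat_lit 1) (nat_lit 4) (nat_lit 252) (nat_lit 186) (nat_lit 162)) (XT.lf (nat_lit 0) (nat_lit 1095204263556) (nat_lit 152) (nat_lit 238652928053) (nat_lit 0) (nat_lit 1092885644064) (nat_lit 1) (nat_lit 5) (nat_lit 3) (nat_lit 4) (nat_lit 1) (nat_lit 4) (nat_lit 253) (nat_lit 186) (nat_lit 161)))))) (XT.nd (nat_lit 312) (nat_lit 0) (nat_lit 0) (XT.nd (nat_lit 156) (nat_lit 0) (nat_lit 0) (XT.nd (nat_lit 78) (nat_lit 0) (nat_lit 0) (XT.lf (nat_lit 0) (nat_lit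 1260428983077) (nat_lit 152) (nat_lit 272116316963) (nat_lit 0) (nat_lit 1258100888692) (nat_lit 1) (nat_lit 5) (nat_lit 3) (nat_lit 4) (nat_lit 1) (nat_lit 4) (nat_lit 254) (nat_lit 186) (nat_lit 160)) (XT.lf (nat_lit 0) (nat_lit 1450428278533) (nat_lit 152) (nat_lit 310615578658) (nat_lit 0) (nat_lit 1448091945112) (nat_lit 1) (nat_lit 5) (nat_lit 3) (nat_lit 4) (nat_lit 1) (nat_lit 4) (nat_lit 255) (nat_lit 186) (nat_lit 159))) (XT.nd (nat_lit 78) (nat_lit 0) (nat_lit 0) (XT.lf (nat_lit 0) (nat_lit 1668919527444) (nat_lit 152) (nat_lit 354903959561) (nat_lit 0) (nat_lit 1666576029644) (nat_lit 1) (nat_lit 5) (nat_lit 3) (nat_lit 4) (nat_lit 1) (nat_lit 4) (nat_lit 256) (nat_lit 186) (nat_lit 158)) (XT.lf (nat_lit 0) (nat_lit 1920177558594) (nat_lit 152) (nat_lit 405847971473) (nat_lit 0) (nat_lit 1917827830898) (nat_lit 1) (nat_lit 5) (nat_lit 3) (nat_lit 4) (nat_lit 1) (nat_lit 4)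 (nat_lit 257) (nat_lit 186) (nat_lit 157)))) (XT.nd (nat_lit 28860) (nat_lit 0) (nat_lit 0) (XT.nd (nat_lit 28782) (nat_lit 0) (nat_lit 0) (XT.lf (nat_lit 0) (nat_lit 2209118289984) (nat_lit 152) (nat_lit 464444345062) (nat_lit 0) (nat_lit 2206763144987) (nat_lit 1) (nat_lit 5) (nat_lit 3) (nat_lit 4) (nat_lit 1) (nat_lit 4) (nat_lit 258) (nat_lit 186) (nat_lit 156)) (XT.lf (nat_lit 0) (nat_lit 4571971503) (nat_lit 152) (nat_lit 19502985325) (nat_lit 0) (nat_lit 4571971503) (nat_lit 1) (nat_lit 5) (nat_lit 3) (nat_lit 4) (nat_lit 1) (nat_lit 4) (nat_lit 226) (nat_lit 187) (nat_lit 187))) (XT.nd (nat_lit 78) (nat_lit 0) (nat_lit 0) (XT.lf (nat_lit 0) (nat_lit 14171140465) (nat_lit 152) (nat_lit 37566870788) (nat_lit 0) (nat_lit 13812451415) (nat_lit 1) (nat_lit 5) (nat_lit 3) (nat_lit 4) (nat_lit 1) (nat_lit 4) (nat_lit 227) (nat_lit 187) (nat_lit 186)) (XT.nd (nat_lit 78) (nat_lit 0)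 (nat_lit 0) (XT.lf (nat_lit 0) (nat_lit 19606709573) (nat_lit 152) (nat_lit 36531411489) (nat_lit 0) (nat_lit 18936117002) (nat_lit 1) (nat_lit 5) (nat_lit 3) (nat_lit 4) (nat_lit 1) (nat_lit 4) (nat_lit 228) (nat_lit 187) (nat_lit 185)) (XT.lf (nat_lit 0) (nat_lit 25556998424) (nat_lit 152) (nat_lit 35879333768) (nat_lit 0) (nat_lit 24615185399) (nat_lit 1) (nat_lit 5) (nat_lit 3) (nat_lit 4) (nat_lit 1) (nat_lit 4) (nat_lit 229) (nat_lit 187) (nat_lit 184))))))) (XT.nd (nat_lit 702) (nat_lit 0) (nat_lit 0) (XT.nd (nat_lit 312) (nat_lit 0) (nat_lit 0) (XT.nd (nat_lit 156) (nat_lit 0) (nat_lit 0) (XT.nd (nat_lit 78) (nat_lit 0) (nat_lit 0) (XT.lf (nat_lit 0) (nat_lit 32138425711) (nat_lit 152) (nat_lit 35597879582) (nat_lit 0) (nat_lit 30960768814) (nat_lit 1) (nat_lit 5) (nat_lit 3) (nat_lit 4) (nat_lit 1) (nat_lit 4) (nat_lit 230) (nat_lit 187) (nat_lit 183)) (XT.lf (nat_lit 0) (nat_lit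 39479758490) (nat_lit 152) (nat_lit 35681542219) (nat_lit 0) (nat_lit 38097019965) (nat_lit 1) (nat_lit 5) (nat_lit 3) (nat_lit 4) (nat_lit 1) (nat_lit 4) (nat_lit 231) (nat_lit 187) (nat_lit 182))) (XT.nd (nat_lit 78) (nat_lit 0) (nat_lit 0) (XT.lf (nat_lit 0) (nat_lit 47724631534) (nat_lit 152) (nat_lit 36131958556) (nat_lit 0) (nat_lit 46163561158) (nat_lit 1) (nat_lit 5) (nat_lit 3) (nat_lit 4) (nat_lit 1) (nat_lit 4) (nat_lit 232) (nat_lit 187) (nat_lit 181)) (XT.lf (nat_lit 0) (nat_lit 57034357576) (nat_lit 152) (nat_lit 36957941087) (nat_lit 0) (nat_lit 55318216025) (nat_lit 1) (nat_lit 5) (nat_lit 3) (nat_lit 4) (nat_lit 1) (nat_lit 4) (nat_lit 233) (nat_lit 187) (nat_lit 180)))) (XT.nd (nat_lit 156) (nat_lit 0) (nat_lit 0) (XT.nd (nat_lit 78) (nat_lit 0) (nat_lit 0) (XT.lf (nat_lit 0) (nat_lit 67591083429) (nat_lit 152) (nat_lit 38175650340) (nat_lit 0) (nat_lit 65740097378)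 (nat_lit 1) (nat_lit 5) (nat_lit 3) (nat_lit 4) (nat_lit 1) (nat_lit 4) (nat_lit 234) (nat_lit 187) (nat_lit 179)) (XT.lf (nat_lit 0) (nat_lit 79601353729) (nat_lit 152) (nat_lit 39808911061) (nat_lit 0) (nat_lit 77633111593) (nat_lit 1) (nat_lit 5) (nat_lit 3) (nat_lit 4) (nat_lit 1) (nat_lit 4) (nat_lit 235) (nat_lit 187) (nat_lit 178))) (XT.nd (nat_lit 78) (nat_lit 0) (nat_lit 0) (XT.lf (nat_lit 0) (nat_lit 93300152027) (nat_lit 152) (nat_lit 41889678351) (nat_lit 0) (nat_lit 91229948076) (nat_lit 1) (nat_lit 5) (nat_lit 3) (nat_lit 4) (nat_lit 1) (nat_lit 4) (nat_lit 236) (nat_lit 187) (nat_lit 177)) (XT.nd (nat_lit 78) (nat_lit 0) (nat_lit 0) (XT.lf (nat_lit 0) (nat_lit 108955498289) (nat_lit 152) (nat_lit 44458662874) (nat_lit 0) (nat_lit 106796631891) (nat_lit 1) (nat_lit 5) (nat_lit 3) (nat_lit 4) (nat_lit 1) (nat_lit 4) (nat_lit 237) (nat_lit 187) (nat_lit 176)) (XT.lf (nat_lit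 0) (nat_lit 126873692768) (nat_lit 152) (nat_lit 47566127371) (nat_lit 0) (nat_lit 124637728589) (nat_lit 1) (nat_lit 5) (nat_lit 3) (nat_lit 4) (nat_lit 1) (nat_lit 4) (nat_lit 238) (nat_lit 187) (nat_lit 175)))))) (XT.nd (nat_lit 312) (nat_lit 0) (nat_lit 0) (XT.nd (nat_lit 156) (nat_lit 0) (nat_lit 0) (XT.nd (nat_lit 78) (nat_lit 0) (nat_lit 0) (XT.lf (nat_lit 0) (nat_lit 147405308834) (nat_lit 152) (nat_lit 51272870061) (nat_lit 0) (nat_lit 145102303107) (nat_lit 1) (nat_lit 5) (nat_lit 3) (nat_lit 4) (nat_lit 1) (nat_lit 4) (nat_lit 239) (nat_lit 187) (nat_lit 174)) (XT.lf (nat_lit 0) (nat_lit 170952052018) (nat_lit 152) (nat_lit 55651414170) (nat_lit 0) (nat_lit 168590749293) (nat_lit 1) (nat_lit 5) (nat_lit 3) (nat_lit 4) (nat_lit 1) (nat_lit 4) (nat_lit 240) (nat_lit 187) (nat_lit 173))) (XT.nd (nat_lit 78) (nat_lit 0) (nat_lit 0) (XT.lf (nat_lit 0) (nat_lit 197974619471) (nat_lit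 152) (nat_lit 60787426865) (nat_lit 0) (nat_lit 195562623704) (nat_lit 1) (nat_lit 5) (nat_lit 3) (nat_lit 4) (nat_lit 1) (nat_lit 4) (nat_lit 241) (nat_lit 187) (nat_lit 172)) (XT.lf (nat_lit 0) (nat_lit 229001713598) (nat_lit 152) (nat_lit 66781395352) (nat_lit 0) (nat_lit 226545636925) (nat_lit 1) (nat_lit 5) (nat_lit 3) (nat_lit 4) (nat_lit 1) (nat_lit 4) (nat_lit 242) (nat_lit 187) (nat_lit 171)))) (XT.nd (nat_lit 156) (nat_lit 0) (nat_lit 0) (XT.nd (nat_lit 78) (nat_lit 0) (nat_lit 0) (XT.lf (nat_lit 0) (nat_lit 264640386242) (nat_lit 152) (nat_lit 73750592926) (nat_lit 0) (nat_lit 262145978346) (nat_lit 1) (nat_lit 5) (nat_lit 3) (nat_lit 4) (nat_lit 1) (nat_lit 4) (nat_lit 243) (nat_lit 187) (nat_lit 170)) (XT.lf (nat_lit 0) (nat_lit 305587915780) (nat_lit 152) (nat_lit 81831373454) (nat_lit 0) (nat_lit 303060176386) (nat_lit 1) (nat_lit 5) (nat_lit 3) (nat_lit 4) (nat_lit 1)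 (nat_lit 4) (nat_lit 244) (nat_lit 187) (nat_lit 169))) (XT.nd (nat_lit 78) (nat_lit 0) (nat_lit 0) (XT.lf (nat_lit 0) (nat_lit 352645449529) (nat_lit 152) (nat_lit 91181839162) (nat_lit 0) (nat_lit 350088726223) (nat_lit 1) (nat_lit 5) (nat_lit 3) (nat_lit 4) (nat_lit 1) (nat_lit 4) (nat_lit 245) (nat_lit 187) (nat_lit 168)) (XT.nd (nat_lit 78) (nat_lit 0) (nat_lit 0) (XT.lf (nat_lit 0) (nat_lit 406733678367) (nat_lit 152) (nat_lit 101984933947) (nat_lit 0) (nat_lit 404151751660) (nat_lit 1) (nat_lit 5) (nat_lit 3) (nat_lit 4) (nat_lit 1) (nat_lit 4) (nat_lit 246) (nat_lit 187) (nat_lit 167)) (XT.lf (nat_lit 0) (nat_lit 468910850249) (nat_lit 152) (nat_lit 114452022704) (nat_lit 0) (nat_lit 466307007542) (nat_lit 1) (nat_lit 5) (nat_lit 3) (nat_lit 4) (nat_lit 1) (nat_lit 4) (nat_lit 247) (nat_lit 187) (nat_lit 166))))))))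
noncomputable def xc8 : XT := (XT.nd (nat_lit 29874) (nat_lit 0) (nat_lit 0) (XT.nd (nat_lit 624) (nat_lit 0) (nat_lit 0) (XT.nd (nat_lit 312) (nat_lit 0) (nat_lit 0) (XT.nd (nat_lit 156) (nat_lit 0) (nat_lit 0) (XT.nd (nat_lit 78) (nat_lit 0) (nat_lit 0) (XT.lf (nat_lit 0) (nat_lit 540393475061) (nat_lit 152) (nat_lit 128827026737) (nat_lit 0) (nat_lit 537770574961) (nat_lit 1) (nat_lit 5) (nat_lit 3) (nat_lit 4) (nat_lit 1) (nat_lit 4) (nat_lit 248) (nat_lit 187) (nat_lit 165)) (XT.lf (nat_lit 0) (nat_lit 622580125895) (nat_lit 152) (nat_lit 145391196123) (nat_lit 0) (nat_lit 619940654150) (nat_lit 1) (nat_lit 5) (nat_lit 3) (nat_lit 4) (nat_lit 1) (nat_lit 4) (nat_lit 249) (nat_lit 187) (nat_lit 164))) (XT.nd (nat_lit 78) (nat_lit 0) (nat_lit 0) (XT.lf (nat_lit 0) (nat_lit 717078802443) (nat_lit 152) (nat_lit 164468612439) (nat_lit 0) (nat_lit 714424920572) (nat_lit 1) (nat_lit 5)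 (nat_lit 3) (nat_lit 4) (nat_lit 1) (nat_lit 4) (nat_lit 250) (nat_lit 187) (nat_lit 163)) (XT.lf (nat_lit 0) (nat_lit 825738391855) (nat_lit 152) (nat_lit 186432529481) (nat_lit 0) (nat_lit 823071979439) (nat_lit 1) (nat_lit 5) (nat_lit 3) (nat_lit 4) (nat_lit 1) (nat_lit 4) (nat_lit 251) (nat_lit 187) (nat_lit 162)))) (XT.nd (nat_lit 156) (nat_lit 0) (nat_lit 0) (XT.nd (nat_lit 78) (nat_lit 0) (nat_lit 0) (XT.lf (nat_lit 0) (nat_lit 950684842618) (nat_lit 152) (nat_lit 211712676061) (nat_lit 0) (nat_lit 948007534076) (nat_lit 1) (nat_lit 5) (nat_lit 3) (nat_lit 4) (nat_lit 1) (nat_lit 4) (nat_lit 252) (nat_lit 187) (nat_lit 161)) (XT.lf (nat_lit 0) (nat_lit 1094362759205) (nat_lit 152) (nat_lit 240803663742) (nat_lit 0) (nat_lit 1091675975770) (nat_lit 1) (nat_lit 5) (nat_lit 3) (nat_lit 4) (nat_lit 1) (nat_lit 4) (nat_lit 253) (nat_lit 187) (nat_lit 160))) (XT.nd (nat_lit 78) (nat_lit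 0) (nat_lit 0) (XT.lf (nat_lit 0) (nat_lit 1259583231287) (nat_lit 152) (nat_lit 274274664024) (nat_lit 0) (nat_lit 1256888208816) (nat_lit 1) (nat_lit 5) (nat_lit 3) (nat_lit 4) (nat_lit 1) (nat_lit 4) (nat_lit 254) (nat_lit 187) (nat_lit 159)) (XT.lf (nat_lit 0) (nat_lit 1449578833318) (nat_lit 152) (nat_lit 312780544302) (nat_lit 0) (nat_lit 1446876646468) (nat_lit 1) (nat_lit 5) (nat_lit 3) (nat_lit 4) (nat_lit 1) (nat_lit 4) (nat_lit 255) (nat_lit 187) (nat_lit 158))))) (XT.nd (nat_lit 28860) (nat_lit 0) (nat_lit 0) (XT.nd (nat_lit 156) (nat_lit 0) (nat_lit 0) (XT.nd (nat_lit 78) (nat_lit 0) (nat_lit 0) (XT.lf (nat_lit 0) (nat_lit 1668066870556) (nat_lit 152) (nat_lit 357074680495) (nat_lit 0) (nat_lit 1665358453810) (nat_lit 1) (nat_lit 5) (nat_lit 3) (nat_lit 4) (nat_lit 1) (nat_lit 4) (nat_lit 256) (nat_lit 187) (nat_lit 157)) (XT.lf (nat_lit 0) (nat_lit 1919322108946) (nat_lit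 152) (nat_lit 408023697007) (nat_lit 0) (nat_lit 1916608274901) (nat_lit 1) (nat_lit 5) (nat_lit 3) (nat_lit 4) (nat_lit 1) (nat_lit 4) (nat_lit 257) (nat_lit 187) (nat_lit 156))) (XT.nd (nat_lit 28626) (nat_lit 0) (nat_lit 0) (XT.lf (nat_lit 0) (nat_lit 2208260411849) (nat_lit 152) (nat_lit 466624422422) (nat_lit 0) (nat_lit 2205541867108) (nat_lit 1) (nat_lit 5) (nat_lit 3) (nat_lit 4) (nat_lit 1) (nat_lit 4) (nat_lit 258) (nat_lit 187) (nat_lit 155)) (XT.lf (nat_lit 0) (nat_lit 276219343) (nat_lit 152) (nat_lit 21417548763) (nat_lit 0) (nat_lit 276219343) (nat_lit 1) (nat_lit 5) (nat_lit 3) (nat_lit 4) (nat_lit 1) (nat_lit 4) (nat_lit 224) (nat_lit 188) (nat_lit 188)))) (XT.nd (nat_lit 156) (nat_lit 0) (nat_lit 0) (XT.nd (nat_lit 78) (nat_lit 0) (nat_lit 0) (XT.lf (nat_lit 0) (nat_lit 4839251396) (nat_lit 152) (nat_lit 40876867378) (nat_lit 0) (nat_lit 4426758989) (nat_lit 1) (nat_lit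 5) (nat_lit 3) (nat_lit 4) (nat_lit 1) (nat_lit 4) (nat_lit 225) (nat_lit 188) (nat_lit 187)) (XT.lf (nat_lit 0) (nat_lit 9371521850) (nat_lit 152) (nat_lit 39337334080) (nat_lit 0) (nat_lit 8600340393) (nat_lit 1) (nat_lit 5) (nat_lit 3) (nat_lit 4) (nat_lit 1) (nat_lit 4) (nat_lit 226) (nat_lit 188) (nat_lit 186))) (XT.nd (nat_lit 78) (nat_lit 0) (nat_lit 0) (XT.lf (nat_lit 0) (nat_lit 14237924904) (nat_lit 152) (nat_lit 38186376331) (nat_lit 0) (nat_lit 13154839926) (nat_lit 1) (nat_lit 5) (nat_lit 3) (nat_lit 4) (nat_lit 1) (nat_lit 4) (nat_lit 227) (nat_lit 188) (nat_lit 185)) (XT.nd (nat_lit 78) (nat_lit 0) (nat_lit 0) (XT.lf (nat_lit 0) (nat_lit 19533672792) (nat_lit 152) (nat_lit 37401475392) (nat_lit 0) (nat_lit 18179367360) (nat_lit 1) (nat_lit 5) (nat_lit 3) (nat_lit 4) (nat_lit 1) (nat_lit 4) (nat_lit 228) (nat_lit 188) (nat_lit 184)) (XT.lf (nat_lit 0) (nat_lit 25362377972)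 (nat_lit 152) (nat_lit 36967274505) (nat_lit 0) (nat_lit 23772228668) (nat_lit 1) (nat_lit 5) (nat_lit 3) (nat_lit 4) (nat_lit 1) (nat_lit 4) (nat_lit 229) (nat_lit 188) (nat_lit 183))))))) (XT.nd (nat_lit 702) (nat_lit 0) (nat_lit 0) (XT.nd (nat_lit 312) (nat_lit 0) (nat_lit 0) (XT.nd (nat_lit 156) (nat_lit 0) (nat_lit 0) (XT.nd (nat_lit 78) (nat_lit 0) (nat_lit 0) (XT.lf (nat_lit 0) (nat_lit 31838080329) (nat_lit 152) (nat_lit 36875278435) (nat_lit 0) (nat_lit 30042849396) (nat_lit 1) (nat_lit 5) (nat_lit 3) (nat_lit 4) (nat_lit 1) (nat_lit 4) (nat_lit 230) (nat_lit 188) (nat_lit 182)) (XT.lf (nat_lit 0) (nat_lit 39087478386) (nat_lit 152) (nat_lit 37123687260) (nat_lit 0) (nat_lit 37113915603) (nat_lit 1) (nat_lit 5) (nat_lit 3) (nat_lit 4) (nat_lit 1) (nat_lit 4) (nat_lit 231) (nat_lit 188) (nat_lit 181))) (XT.nd (nat_lit 78) (nat_lit 0) (nat_lit 0) (XT.lf (nat_lit 0) (nat_lit 47252408193)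 (nat_lit 152) (nat_lit 37717361152) (nat_lit 0) (nat_lit 45123774235) (nat_lit 1) (nat_lit 5) (nat_lit 3) (nat_lit 4) (nat_lit 1) (nat_lit 4) (nat_lit 232) (nat_lit 188) (nat_lit 180)) (XT.lf (nat_lit 0) (nat_lit 56492618377) (nat_lit 152) (nat_lit 38667915471) (nat_lit 0) (nat_lit 54229139919) (nat_lit 1) (nat_lit 5) (nat_lit 3) (nat_lit 4) (nat_lit 1) (nat_lit 4) (nat_lit 233) (nat_lit 188) (nat_lit 179)))) (XT.nd (nat_lit 156) (nat_lit 0) (nat_lit 0) (XT.nd (nat_lit 78) (nat_lit 0) (nat_lit 0) (XT.lf (nat_lit 0) (nat_lit 66988895658) (nat_lit 152) (nat_lit 39993948016) (nat_lit 0) (nat_lit 64608161113) (nat_lit 1) (nat_lit 5) (nat_lit 3) (nat_lit 4) (nat_lit 1) (nat_lit 4) (nat_lit 234) (nat_lit 188) (nat_lit 178)) (XT.lf (nat_lit 0) (nat_lit 78946601983) (nat_lit 152) (nat_lit 41721402905) (nat_lit 0) (nat_lit 76463905624) (nat_lit 1) (nat_lit 5) (nat_lit 3) (nat_lit 4) (nat_lit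 1) (nat_lit 4) (nat_lit 235) (nat_lit 188) (nat_lit 177))) (XT.nd (nat_lit 78) (nat_lit 0) (nat_lit 0) (XT.lf (nat_lit 0) (nat_lit 92599692476) (nat_lit 152) (nat_lit 43884078167) (nat_lit 0) (nat_lit 90028333670) (nat_lit 1) (nat_lit 5) (nat_lit 3) (nat_lit 4) (nat_lit 1) (nat_lit 4) (nat_lit 236) (nat_lit 188) (nat_lit 176)) (XT.nd (nat_lit 78) (nat_lit 0) (nat_lit 0) (XT.lf (nat_lit 0) (nat_lit 108215292820) (nat_lit 152) (nat_lit 46524287014) (nat_lit 0) (nat_lit 105566836234) (nat_lit 1) (nat_lit 5) (nat_lit 3) (nat_lit 4) (nat_lit 1) (nat_lit 4) (nat_lit 237) (nat_lit 188) (nat_lit 175)) (XT.lf (nat_lit 0) (nat_lit 126098925631) (nat_lit 152) (nat_lit 49693685705) (nat_lit 0) (nat_lit 123383427497) (nat_lit 1) (nat_lit 5) (nat_lit 3) (nat_lit 4) (nat_lit 1) (nat_lit 4) (nat_lit 238) (nat_lit 188) (nat_lit 174)))))) (XT.nd (nat_lit 312) (nat_lit 0) (nat_lit 0) (XT.nd (nat_lit 156)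 (nat_lit 0) (nat_lit 0) (XT.nd (nat_lit 78) (nat_lit 0) (nat_lit 0) (XT.lf (nat_lit 0) (nat_lit 146600488073) (nat_lit 152) (nat_lit 53454284216) (nat_lit 0) (nat_lit 143826692941) (nat_lit 1) (nat_lit 5) (nat_lit 3) (nat_lit 4) (nat_lit 1) (nat_lit 4) (nat_lit 239) (nat_lit 188) (nat_lit 173)) (XT.lf (nat_lit 0) (nat_lit 170121097672) (nat_lit 152) (nat_lit 57879659474) (nat_lit 0) (nat_lit 167296609498) (nat_lit 1) (nat_lit 5) (nat_lit 3) (nat_lit 4) (nat_lit 1) (nat_lit 4) (nat_lit 240) (nat_lit 188) (nat_lit 172))) (XT.nd (nat_lit 78) (nat_lit 0) (nat_lit 0) (XT.lf (nat_lit 0) (nat_lit 197120940267) (nat_lit 152) (nat_lit 63056394907) (nat_lit 0) (nat_lit 194252371187) (nat_lit 1) (nat_lit 5) (nat_lit 3) (nat_lit 4) (nat_lit 1) (nat_lit 4) (nat_lit 241) (nat_lit 188) (nat_lit 171)) (XT.lf (nat_lit 0) (nat_lit 228128273649) (nat_lit 152) (nat_lit 69085774471) (nat_lit 0) (nat_lit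 225221373346) (nat_lit 1) (nat_lit 5) (nat_lit 3) (nat_lit 4) (nat_lit 1) (nat_lit 4) (nat_lit 242) (nat_lit 188) (nat_lit 170)))) (XT.nd (nat_lit 156) (nat_lit 0) (nat_lit 0) (XT.nd (nat_lit 78) (nat_lit 0) (nat_lit 0) (XT.lf (nat_lit 0) (nat_lit 263749763036) (nat_lit 152) (nat_lit 76085764286) (nat_lit 0) (nat_lit 260809531235) (nat_lit 1) (nat_lit 5) (nat_lit 3) (nat_lit 4) (nat_lit 1) (nat_lit 4) (nat_lit 243) (nat_lit 188) (nat_lit 169)) (XT.lf (nat_lit 0) (nat_lit 304682350611) (nat_lit 152) (nat_lit 84193320675) (nat_lit 0) (nat_lit 301713134899) (nat_lit 1) (nat_lit 5) (nat_lit 3) (nat_lit 4) (nat_lit 1) (nat_lit 4) (nat_lit 244) (nat_lit 188) (nat_lit 168))) (XT.nd (nat_lit 78) (nat_lit 0) (nat_lit 0) (XT.lf (nat_lit 0) (nat_lit 351726891350) (nat_lit 152) (nat_lit 93567069741) (nat_lit 0) (nat_lit 348732472236) (nat_lit 1) (nat_lit 5) (nat_lit 3) (nat_lit 4) (nat_lit 1) (nat_lit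 4) (nat_lit 245) (nat_lit 188) (nat_lit 167)) (XT.nd (nat_lit 78) (nat_lit 0) (nat_lit 0) (XT.lf (nat_lit 0) (nat_lit 405803821917) (nat_lit 152) (nat_lit 104390410923) (nat_lit 0) (nat_lit 402787486802) (nat_lit 1) (nat_lit 5) (nat_lit 3) (nat_lit 4) (nat_lit 1) (nat_lit 4) (nat_lit 246) (nat_lit 188) (nat_lit 166)) (XT.lf (nat_lit 0) (nat_lit 467971169217) (nat_lit 152) (nat_lit 116875105244) (nat_lit 0) (nat_lit 464935776710) (nat_lit 1) (nat_lit 5) (nat_lit 3) (nat_lit 4) (nat_lit 1) (nat_lit 4) (nat_lit 247) (nat_lit 188) (nat_lit 165))))))))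
noncomputable def xc9 : XT := (XT.nd (nat_lit 29718) (nat_lit 0) (nat_lit 0) (XT.nd (nat_lit 624) (nat_lit 0) (nat_lit 0) (XT.nd (nat_lit 312) (nat_lit 0) (nat_lit 0) (XT.nd (nat_lit 156) (nat_lit 0) (nat_lit 0) (XT.nd (nat_lit 78) (nat_lit 0) (nat_lit 0) (XT.lf (nat_lit 0) (nat_lit 539445250912) (nat_lit 152) (nat_lit 131265418462) (nat_lit 0) (nat_lit 536393286760) (nat_lit 1) (nat_lit 5) (nat_lit 3) (nat_lit 4) (nat_lit 1) (nat_lit 4) (nat_lit 248) (nat_lit 188) (nat_lit 164)) (XT.lf (nat_lit 0) (nat_lit 621624472951) (nat_lit 152) (nat_lit 147842900184) (nat_lit 0) (nat_lit 618558098672) (nat_lit 1) (nat_lit 5) (nat_lit 3) (nat_lit 4) (nat_lit 1) (nat_lit 4) (nat_lit 249) (nat_lit 188) (nat_lit 163))) (XT.nd (nat_lit 78) (nat_lit 0) (nat_lit 0) (XT.lf (nat_lit 0) (nat_lit 716116689676) (nat_lit 152) (nat_lit 166931892443) (nat_lit 0) (nat_lit 713037784853) (nat_lit 1) (nat_lit 5)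 (nat_lit 3) (nat_lit 4) (nat_lit 1) (nat_lit 4) (nat_lit 250) (nat_lit 188) (nat_lit 162)) (XT.lf (nat_lit 0) (nat_lit 824770661850) (nat_lit 152) (nat_lit 188905875523) (nat_lit 0) (nat_lit 821680860901) (nat_lit 1) (nat_lit 5) (nat_lit 3) (nat_lit 4) (nat_lit 1) (nat_lit 4) (nat_lit 251) (nat_lit 188) (nat_lit 161)))) (XT.nd (nat_lit 156) (nat_lit 0) (nat_lit 0) (XT.nd (nat_lit 78) (nat_lit 0) (nat_lit 0) (XT.lf (nat_lit 0) (nat_lit 949712228060) (nat_lit 152) (nat_lit 214194775180) (nat_lit 0) (nat_lit 946612952218) (nat_lit 1) (nat_lit 5) (nat_lit 3) (nat_lit 4) (nat_lit 1) (nat_lit 4) (nat_lit 252) (nat_lit 188) (nat_lit 160)) (XT.lf (nat_lit 0) (nat_lit 1093385897208) (nat_lit 152) (nat_lit 243293374233) (nat_lit 0) (nat_lit 1090278382330) (nat_lit 1) (nat_lit 5) (nat_lit 3) (nat_lit 4) (nat_lit 1) (nat_lit 4) (nat_lit 253) (nat_lit 188) (nat_lit 159))) (XT.nd (nat_lit 78) (nat_lit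 0) (nat_lit 0) (XT.lf (nat_lit 0) (nat_lit 1258602675865) (nat_lit 152) (nat_lit 276770993098) (nat_lit 0) (nat_lit 1255487996608) (nat_lit 1) (nat_lit 5) (nat_lit 3) (nat_lit 4) (nat_lit 1) (nat_lit 4) (nat_lit 254) (nat_lit 188) (nat_lit 158)) (XT.lf (nat_lit 0) (nat_lit 1448595066223) (nat_lit 152) (nat_lit 315282628666) (nat_lit 0) (nat_lit 1445474157070) (nat_lit 1) (nat_lit 5) (nat_lit 3) (nat_lit 4) (nat_lit 1) (nat_lit 4) (nat_lit 255) (nat_lit 188) (nat_lit 157))))) (XT.nd (nat_lit 28704) (nat_lit 0) (nat_lit 0) (XT.nd (nat_lit 156) (nat_lit 0) (nat_lit 0) (XT.nd (nat_lit 78) (nat_lit 0) (nat_lit 0) (XT.lf (nat_lit 0) (nat_lit 1667080310701) (nat_lit 152) (nat_lit 359581769459) (nat_lit 0) (nat_lit 1663953984249) (nat_lit 1) (nat_lit 5) (nat_lit 3) (nat_lit 4) (nat_lit 1) (nat_lit 4) (nat_lit 256) (nat_lit 188) (nat_lit 156)) (XT.lf (nat_lit 0) (nat_lit 1918333120605) (nat_lit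 152) (nat_lit 410535137797) (nat_lit 0) (nat_lit 1915202083456) (nat_lit 1) (nat_lit 5) (nat_lit 3) (nat_lit 4) (nat_lit 1) (nat_lit 4) (nat_lit 257) (nat_lit 188) (nat_lit 155))) (XT.nd (nat_lit 28470) (nat_lit 0) (nat_lit 152) (XT.lf (nat_lit 0) (nat_lit 2207269311780) (nat_lit 152) (nat_lit 469139647408) (nat_lit 0) (nat_lit 2204134178374) (nat_lit 1) (nat_lit 5) (nat_lit 3) (nat_lit 4) (nat_lit 1) (nat_lit 4) (nat_lit 258) (nat_lit 188) (nat_lit 154)) (XT.lf (nat_lit 0) (nat_lit 10217084074) (nat_lit 76) (nat_lit 3361794310) (nat_lit 76) (nat_lit 3361794310) (nat_lit 3) (nat_lit 4) (nat_lit 4) (nat_lit 5) (nat_lit 4) (nat_lit 4) (nat_lit 222) (nat_lit 189) (nat_lit 189)))) (XT.nd (nat_lit 156) (nat_lit 0) (nat_lit 0) (XT.nd (nat_lit 78) (nat_lit 152) (nat_lit 0) (XT.lf (nat_lit 0) (nat_lit 32050785083) (nat_lit 76) (nat_lit 3507317643) (nat_lit 76) (nat_lit 2995002073) (nat_lit 3)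 (nat_lit 4) (nat_lit 4) (nat_lit 5) (nat_lit 4) (nat_lit 4) (nat_lit 223) (nat_lit 189) (nat_lit 188)) (XT.lf (nat_lit 0) (nat_lit 739462171) (nat_lit 76) (nat_lit 76532800) (nat_lit 152) (nat_lit 43141473287) (nat_lit 1) (nat_lit 5) (nat_lit 2) (nat_lit 5) (nat_lit 3) (nat_lit 4) (nat_lit 224) (nat_lit 189) (nat_lit 187))) (XT.nd (nat_lit 78) (nat_lit 0) (nat_lit 0) (XT.lf (nat_lit 0) (nat_lit 4916053501) (nat_lit 152) (nat_lit 41589298752) (nat_lit 0) (nat_lit 3670505776) (nat_lit 1) (nat_lit 5) (nat_lit 3) (nat_lit 4) (nat_lit 1) (nat_lit 4) (nat_lit 225) (nat_lit 189) (nat_lit 186)) (XT.nd (nat_lit 78) (nat_lit 0) (nat_lit 0) (XT.lf (nat_lit 0) (nat_lit 9287529552) (nat_lit 152) (nat_lit 40337907568) (nat_lit 0) (nat_lit 7730078305) (nat_lit 1) (nat_lit 5) (nat_lit 3) (nat_lit 4) (nat_lit 1) (nat_lit 4) (nat_lit 226) (nat_lit 189) (nat_lit 185)) (XT.lf (nat_lit 0) (nat_lit 14014111385)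 (nat_lit 152) (nat_lit 39437508178) (nat_lit 0) (nat_lit 12185439685) (nat_lit 1) (nat_lit 5) (nat_lit 3) (nat_lit 4) (nat_lit 1) (nat_lit 4) (nat_lit 227) (nat_lit 189) (nat_lit 184))))))) (XT.nd (nat_lit 702) (nat_lit 0) (nat_lit 0) (XT.nd (nat_lit 312) (nat_lit 0) (nat_lit 0) (XT.nd (nat_lit 156) (nat_lit 0) (nat_lit 0) (XT.nd (nat_lit 78) (nat_lit 0) (nat_lit 0) (XT.lf (nat_lit 0) (nat_lit 19188275602) (nat_lit 152) (nat_lit 38870484072) (nat_lit 0) (nat_lit 17123760030) (nat_lit 1) (nat_lit 5) (nat_lit 3) (nat_lit 4) (nat_lit 1) (nat_lit 4) (nat_lit 228) (nat_lit 189) (nat_lit 183)) (XT.lf (nat_lit 0) (nat_lit 24911255852) (nat_lit 152) (nat_lit 38625741302) (nat_lit 0) (nat_lit 22641658651) (nat_lit 1) (nat_lit 5) (nat_lit 3) (nat_lit 4) (nat_lit 1) (nat_lit 4) (nat_lit 229) (nat_lit 189) (nat_lit 182))) (XT.nd (nat_lit 78) (nat_lit 0) (nat_lit 0) (XT.lf (nat_lit 0) (nat_lit 31295023487)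 (nat_lit 152) (nat_lit 38698491421) (nat_lit 0) (nat_lit 28847094435) (nat_lit 1) (nat_lit 5) (nat_lit 3) (nat_lit 4) (nat_lit 1) (nat_lit 4) (nat_lit 230) (nat_lit 189) (nat_lit 181)) (XT.lf (nat_lit 0) (nat_lit 38464478307) (nat_lit 152) (nat_lit 39090157801) (nat_lit 0) (nat_lit 35861478081) (nat_lit 1) (nat_lit 5) (nat_lit 3) (nat_lit 4) (nat_lit 1) (nat_lit 4) (nat_lit 231) (nat_lit 189) (nat_lit 180)))) (XT.nd (nat_lit 156) (nat_lit 0) (nat_lit 0) (XT.nd (nat_lit 78) (nat_lit 0) (nat_lit 0) (XT.lf (nat_lit 0) (nat_lit 46559892256) (nat_lit 152) (nat_lit 39808403480) (nat_lit 0) (nat_lit 43822047531) (nat_lit 1) (nat_lit 5) (nat_lit 3) (nat_lit 4) (nat_lit 1) (nat_lit 4) (nat_lit 232) (nat_lit 189) (nat_lit 179)) (XT.lf (nat_lit 0) (nat_lit 55739653868) (nat_lit 152) (nat_lit 40867281091) (nat_lit 0) (nat_lit 52884553055) (nat_lit 1) (nat_lit 5) (nat_lit 3) (nat_lit 4) (nat_lit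 1) (nat_lit 4) (nat_lit 233) (nat_lit 189) (nat_lit 178))) (XT.nd (nat_lit 78) (nat_lit 0) (nat_lit 0) (XT.lf (nat_lit 0) (nat_lit 66183367173) (nat_lit 152) (nat_lit 42287507805) (nat_lit 0) (nat_lit 63226304546) (nat_lit 1) (nat_lit 5) (nat_lit 3) (nat_lit 4) (nat_lit 1) (nat_lit 4) (nat_lit 234) (nat_lit 189) (nat_lit 177)) (XT.nd (nat_lit 78) (nat_lit 0) (nat_lit 0) (XT.lf (nat_lit 0) (nat_lit 78095365693) (nat_lit 152) (nat_lit 44096870666) (nat_lit 0) (nat_lit 75049640619) (nat_lit 1) (nat_lit 5) (nat_lit 3) (nat_lit 4) (nat_lit 1) (nat_lit 4) (nat_lit 235) (nat_lit 189) (nat_lit 176)) (XT.lf (nat_lit 0) (nat_lit 91708710268) (nat_lit 152) (nat_lit 46330770251) (nat_lit 0) (nat_lit 88585887414) (nat_lit 1) (nat_lit 5) (nat_lit 3) (nat_lit 4) (nat_lit 1) (nat_lit 4) (nat_lit 236) (nat_lit 189) (nat_lit 175)))))) (XT.nd (nat_lit 312) (nat_lit 0) (nat_lit 0) (XT.nd (nat_lit 156) (nat_lit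 0) (nat_lit 0) (XT.nd (nat_lit 78) (nat_lit 0) (nat_lit 0) (XT.lf (nat_lit 0) (nat_lit 107289748946) (nat_lit 152) (nat_lit 49032913292) (nat_lit 0) (nat_lit 104099884543) (nat_lit 1) (nat_lit 5) (nat_lit 3) (nat_lit 4) (nat_lit 1) (nat_lit 4) (nat_lit 237) (nat_lit 189) (nat_lit 174)) (XT.lf (nat_lit 0) (nat_lit 125143328133) (nat_lit 152) (nat_lit 52256167805) (nat_lit 0) (nat_lit 121895166732) (nat_lit 1) (nat_lit 5) (nat_lit 3) (nat_lit 4) (nat_lit 1) (nat_lit 4) (nat_lit 238) (nat_lit 189) (nat_lit 173))) (XT.nd (nat_lit 78) (nat_lit 0) (nat_lit 0) (XT.lf (nat_lit 0) (nat_lit 145618756989) (nat_lit 152) (nat_lit 56063597465) (nat_lit 0) (nat_lit 142319902547) (nat_lit 1) (nat_lit 5) (nat_lit 3) (nat_lit 4) (nat_lit 1) (nat_lit 4) (nat_lit 239) (nat_lit 189) (nat_lit 172)) (XT.lf (nat_lit 0) (nat_lit 169116641731) (nat_lit 152) (nat_lit 60529695461) (nat_lit 0) (nat_lit 165773706382)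 (nat_lit 1) (nat_lit 5) (nat_lit 3) (nat_lit 4) (nat_lit 1) (nat_lit 4) (nat_lit 240) (nat_lit 189) (nat_lit 171)))) (XT.nd (nat_lit 156) (nat_lit 0) (nat_lit 0) (XT.nd (nat_lit 78) (nat_lit 0) (nat_lit 0) (XT.lf (nat_lit 0) (nat_lit 196096723581) (nat_lit 152) (nat_lit 65741841971) (nat_lit 0) (nat_lit 192715457009) (nat_lit 1) (nat_lit 5) (nat_lit 3) (nat_lit 4) (nat_lit 1) (nat_lit 4) (nat_lit 241) (nat_lit 189) (nat_lit 170)) (XT.lf (nat_lit 0) (nat_lit 227086873706) (nat_lit 152) (nat_lit 71802013775) (nat_lit 0) (nat_lit 223672275636) (nat_lit 1) (nat_lit 5) (nat_lit 3) (nat_lit 4) (nat_lit 1) (nat_lit 4) (nat_lit 242) (nat_lit 189) (nat_lit 169))) (XT.nd (nat_lit 78) (nat_lit 0) (nat_lit 0) (XT.lf (nat_lit 0) (nat_lit 262693421130) (nat_lit 152) (nat_lit 78828779451) (nat_lit 0) (nat_lit 259249839149) (nat_lit 1) (nat_lit 5) (nat_lit 3) (nat_lit 4) (nat_lit 1) (nat_lit 4) (nat_lit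 243) (nat_lit 189) (nat_lit 168)) (XT.nd (nat_lit 78) (nat_lit 0) (nat_lit 0) (XT.lf (nat_lit 0) (nat_lit 303613015694) (nat_lit 152) (nat_lit 86959619198) (nat_lit 0) (nat_lit 300144230312) (nat_lit 1) (nat_lit 5) (nat_lit 3) (nat_lit 4) (nat_lit 1) (nat_lit 4) (nat_lit 244) (nat_lit 189) (nat_lit 167)) (XT.lf (nat_lit 0) (nat_lit 350646258162) (nat_lit 152) (nat_lit 96353614662) (nat_lit 0) (nat_lit 347155556779) (nat_lit 1) (nat_lit 5) (nat_lit 3) (nat_lit 4) (nat_lit 1) (nat_lit 4) (nat_lit 245) (nat_lit 189) (nat_lit 166))))))))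
noncomputable def xc10 : XT := (XT.nd (nat_lit 29562) (nat_lit 0) (nat_lit 0) (XT.nd (nat_lit 624) (nat_lit 0) (nat_lit 0) (XT.nd (nat_lit 312) (nat_lit 0) (nat_lit 0) (XT.nd (nat_lit 156) (nat_lit 0) (nat_lit 0) (XT.nd (nat_lit 78) (nat_lit 0) (nat_lit 0) (XT.lf (nat_lit 0) (nat_lit 404713364147) (nat_lit 152) (nat_lit 107194561408) (nat_lit 0) (nat_lit 401203605371) (nat_lit 1) (nat_lit 5) (nat_lit 3) (nat_lit 4) (nat_lit 1) (nat_lit 4) (nat_lit 246) (nat_lit 189) (nat_lit 165)) (XT.lf (nat_lit 0) (nat_lit 466872168330) (nat_lit 152) (nat_lit 119694564914) (nat_lit 0) (nat_lit 463345837910) (nat_lit 1) (nat_lit 5) (nat_lit 3) (nat_lit 4) (nat_lit 1) (nat_lit 4) (nat_lit 247) (nat_lit 189) (nat_lit 164))) (XT.nd (nat_lit 78) (nat_lit 0) (nat_lit 0) (XT.lf (nat_lit 0) (nat_lit 538338821230) (nat_lit 152) (nat_lit 134098190468) (nat_lit 0) (nat_lit 534798080683) (nat_lit 1) (nat_lit 5)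 (nat_lit 3) (nat_lit 4) (nat_lit 1) (nat_lit 4) (nat_lit 248) (nat_lit 189) (nat_lit 163)) (XT.lf (nat_lit 0) (nat_lit 620511583446) (nat_lit 152) (nat_lit 150687248133) (nat_lit 0) (nat_lit 616958312354) (nat_lit 1) (nat_lit 5) (nat_lit 3) (nat_lit 4) (nat_lit 1) (nat_lit 4) (nat_lit 249) (nat_lit 189) (nat_lit 162)))) (XT.nd (nat_lit 156) (nat_lit 0) (nat_lit 0) (XT.nd (nat_lit 78) (nat_lit 0) (nat_lit 0) (XT.lf (nat_lit 0) (nat_lit 714998182934) (nat_lit 152) (nat_lit 169786306431) (nat_lit 0) (nat_lit 711434015717) (nat_lit 1) (nat_lit 5) (nat_lit 3) (nat_lit 4) (nat_lit 1) (nat_lit 4) (nat_lit 250) (nat_lit 189) (nat_lit 161)) (XT.lf (nat_lit 0) (nat_lit 823647270554) (nat_lit 152) (nat_lit 191769042587) (nat_lit 0) (nat_lit 820073628445) (nat_lit 1) (nat_lit 5) (nat_lit 3) (nat_lit 4) (nat_lit 1) (nat_lit 4) (nat_lit 251) (nat_lit 189) (nat_lit 160))) (XT.nd (nat_lit 78) (nat_lit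 0) (nat_lit 0) (XT.lf (nat_lit 0) (nat_lit 948584589325) (nat_lit 152) (nat_lit 217065553615) (nat_lit 0) (nat_lit 945002708179) (nat_lit 1) (nat_lit 5) (nat_lit 3) (nat_lit 4) (nat_lit 1) (nat_lit 4) (nat_lit 252) (nat_lit 189) (nat_lit 159)) (XT.lf (nat_lit 0) (nat_lit 1092254565049) (nat_lit 152) (nat_lit 246170771251) (nat_lit 0) (nat_lit 1088665519523) (nat_lit 1) (nat_lit 5) (nat_lit 3) (nat_lit 4) (nat_lit 1) (nat_lit 4) (nat_lit 253) (nat_lit 189) (nat_lit 158))))) (XT.nd (nat_lit 312) (nat_lit 0) (nat_lit 0) (XT.nd (nat_lit 156) (nat_lit 0) (nat_lit 0) (XT.nd (nat_lit 78) (nat_lit 0) (nat_lit 0) (XT.lf (nat_lit 0) (nat_lit 1257468132033) (nat_lit 152) (nat_lit 279654145406) (nat_lit 0) (nat_lit 1253872856612) (nat_lit 1) (nat_lit 5) (nat_lit 3) (nat_lit 4) (nat_lit 1) (nat_lit 4) (nat_lit 254) (nat_lit 189) (nat_lit 157)) (XT.lf (nat_lit 0) (nat_lit 1447457729631) (nat_lit 152)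 (nat_lit 318170785574) (nat_lit 0) (nat_lit 1443857036910) (nat_lit 1) (nat_lit 5) (nat_lit 3) (nat_lit 4) (nat_lit 1) (nat_lit 4) (nat_lit 255) (nat_lit 189) (nat_lit 156))) (XT.nd (nat_lit 78) (nat_lit 0) (nat_lit 0) (XT.lf (nat_lit 0) (nat_lit 1665940545622) (nat_lit 152) (nat_lit 362474278193) (nat_lit 0) (nat_lit 1662335142205) (nat_lit 1) (nat_lit 5) (nat_lit 3) (nat_lit 4) (nat_lit 1) (nat_lit 4) (nat_lit 256) (nat_lit 189) (nat_lit 155)) (XT.lf (nat_lit 0) (nat_lit 1917191243799) (nat_lit 152) (nat_lit 413431430727) (nat_lit 0) (nat_lit 1913581744124) (nat_lit 1) (nat_lit 5) (nat_lit 3) (nat_lit 4) (nat_lit 1) (nat_lit 4) (nat_lit 257) (nat_lit 189) (nat_lit 154)))) (XT.nd (nat_lit 28392) (nat_lit 0) (nat_lit 152) (XT.nd (nat_lit 28314) (nat_lit 0) (nat_lit 228) (XT.lf (nat_lit 0) (nat_lit 2206125598689) (nat_lit 152) (nat_lit 472039230944) (nat_lit 0) (nat_lit 2202512537052)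 (nat_lit 1) (nat_lit 5) (nat_lit 3) (nat_lit 4) (nat_lit 1) (nat_lit 4) (nat_lit 258) (nat_lit 189) (nat_lit 153)) (XT.lf (nat_lit 0) (nat_lit 6545358167) (nat_lit 152) (nat_lit 94238086) (nat_lit 0) (nat_lit 6545358167) (nat_lit 4) (nat_lit 5) (nat_lit 6) (nat_lit 4) (nat_lit 4) (nat_lit 4) (nat_lit 220) (nat_lit 190) (nat_lit 190))) (XT.nd (nat_lit 78) (nat_lit 0) (nat_lit 0) (XT.lf (nat_lit 0) (nat_lit 9606054325) (nat_lit 76) (nat_lit 10418466986) (nat_lit 76) (nat_lit 9829304081) (nat_lit 3) (nat_lit 4) (nat_lit 4) (nat_lit 5) (nat_lit 4) (nat_lit 4) (nat_lit 221) (nat_lit 190) (nat_lit 189)) (XT.nd (nat_lit 78) (nat_lit 0) (nat_lit 0) (XT.lf (nat_lit 0) (nat_lit 20045463980) (nat_lit 76) (nat_lit 7478008178) (nat_lit 76) (nat_lit 6376529703) (nat_lit 3) (nat_lit 4) (nat_lit 4) (nat_lit 5) (nat_lit 4) (nat_lit 4) (nat_lit 222) (nat_lit 190) (nat_lit 188)) (XT.lf (nat_lit 0) (nat_lit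 31324077289) (nat_lit 76) (nat_lit 4405438638) (nat_lit 76) (nat_lit 2858468364) (nat_lit 3) (nat_lit 4) (nat_lit 4) (nat_lit 5) (nat_lit 4) (nat_lit 4) (nat_lit 223) (nat_lit 190) (nat_lit 187))))))) (XT.nd (nat_lit 702) (nat_lit 0) (nat_lit 0) (XT.nd (nat_lit 312) (nat_lit 0) (nat_lit 0) (XT.nd (nat_lit 156) (nat_lit 0) (nat_lit 0) (XT.nd (nat_lit 78) (nat_lit 76) (nat_lit 0) (XT.lf (nat_lit 0) (nat_lit 754006903) (nat_lit 152) (nat_lit 366020088) (nat_lit 76) (nat_lit 42887939986) (nat_lit 2) (nat_lit 5) (nat_lit 4) (nat_lit 5) (nat_lit 3) (nat_lit 4) (nat_lit 224) (nat_lit 190) (nat_lit 186)) (XT.lf (nat_lit 0) (nat_lit 4658667954) (nat_lit 152) (nat_lit 43028100376) (nat_lit 0) (nat_lit 2555695499) (nat_lit 1) (nat_lit 5) (nat_lit 3) (nat_lit 4) (nat_lit 1) (nat_lit 4) (nat_lit 225) (nat_lit 190) (nat_lit 185))) (XT.nd (nat_lit 78) (nat_lit 0) (nat_lit 0) (XT.lf (nat_lit 0) (nat_lit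 8890322784) (nat_lit 152) (nat_lit 42027267550) (nat_lit 0) (nat_lit 6516129875) (nat_lit 1) (nat_lit 5) (nat_lit 3) (nat_lit 4) (nat_lit 1) (nat_lit 4) (nat_lit 226) (nat_lit 190) (nat_lit 184)) (XT.lf (nat_lit 0) (nat_lit 13495320947) (nat_lit 152) (nat_lit 41344744994) (nat_lit 0) (nat_lit 10885284166) (nat_lit 1) (nat_lit 5) (nat_lit 3) (nat_lit 4) (nat_lit 1) (nat_lit 4) (nat_lit 227) (nat_lit 190) (nat_lit 183)))) (XT.nd (nat_lit 156) (nat_lit 0) (nat_lit 0) (XT.nd (nat_lit 78) (nat_lit 0) (nat_lit 0) (XT.lf (nat_lit 0) (nat_lit 18563760234) (nat_lit 152) (nat_lit 40967179006) (nat_lit 0) (nat_lit 15748641825) (nat_lit 1) (nat_lit 5) (nat_lit 3) (nat_lit 4) (nat_lit 1) (nat_lit 4) (nat_lit 228) (nat_lit 190) (nat_lit 182)) (XT.lf (nat_lit 0) (nat_lit 24194805762) (nat_lit 152) (nat_lit 40887182424) (nat_lit 0) (nat_lit 21201355502) (nat_lit 1) (nat_lit 5) (nat_lit 3) (nat_lit 4)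 (nat_lit 1) (nat_lit 4) (nat_lit 229) (nat_lit 190) (nat_lit 181))) (XT.nd (nat_lit 78) (nat_lit 0) (nat_lit 0) (XT.lf (nat_lit 0) (nat_lit 30498630159) (nat_lit 152) (nat_lit 41103190098) (nat_lit 0) (nat_lit 27350108725) (nat_lit 1) (nat_lit 5) (nat_lit 3) (nat_lit 4) (nat_lit 1) (nat_lit 4) (nat_lit 230) (nat_lit 190) (nat_lit 180)) (XT.nd (nat_lit 78) (nat_lit 0) (nat_lit 0) (XT.lf (nat_lit 0) (nat_lit 37598569122) (nat_lit 152) (nat_lit 41619428265) (nat_lit 0) (nat_lit 34315203188) (nat_lit 1) (nat_lit 5) (nat_lit 3) (nat_lit 4) (nat_lit 1) (nat_lit 4) (nat_lit 231) (nat_lit 190) (nat_lit 179)) (XT.lf (nat_lit 0) (nat_lit 45633534499) (nat_lit 152) (nat_lit 42445997237) (nat_lit 0) (nat_lit 42232912478) (nat_lit 1) (nat_lit 5) (nat_lit 3) (nat_lit 4) (nat_lit 1) (nat_lit 4) (nat_lit 232) (nat_lit 190) (nat_lit 178)))))) (XT.nd (nat_lit 312) (nat_lit 0) (nat_lit 0) (XT.nd (nat_lit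 156) (nat_lit 0) (nat_lit 0) (XT.nd (nat_lit 78) (nat_lit 0) (nat_lit 0) (XT.lf (nat_lit 0) (nat_lit 54760732135) (nat_lit 152) (nat_lit 43599069016) (nat_lit 0) (nat_lit 51258148299) (nat_lit 1) (nat_lit 5) (nat_lit 3) (nat_lit 4) (nat_lit 1) (nat_lit 4) (nat_lit 233) (nat_lit 190) (nat_lit 177)) (XT.lf (nat_lit 0) (nat_lit 65158737635) (nat_lit 152) (nat_lit 45101203702) (nat_lit 0) (nat_lit 61567491352) (nat_lit 1) (nat_lit 5) (nat_lit 3) (nat_lit 4) (nat_lit 1) (nat_lit 4) (nat_lit 234) (nat_lit 190) (nat_lit 176))) (XT.nd (nat_lit 78) (nat_lit 0) (nat_lit 0) (XT.lf (nat_lit 0) (nat_lit 77030990237) (nat_lit 152) (nat_lit 46981790886) (nat_lit 0) (nat_lit 73362646174) (nat_lit 1) (nat_lit 5) (nat_lit 3) (nat_lit 4) (nat_lit 1) (nat_lit 4) (nat_lit 235) (nat_lit 190) (nat_lit 175)) (XT.lf (nat_lit 0) (nat_lit 90609773145) (nat_lit 152) (nat_lit 49277624666) (nat_lit 0) (nat_lit 86874387535)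 (nat_lit 1) (nat_lit 5) (nat_lit 3) (nat_lit 4) (nat_lit 1) (nat_lit 4) (nat_lit 236) (nat_lit 190) (nat_lit 174)))) (XT.nd (nat_lit 156) (nat_lit 0) (nat_lit 0) (XT.nd (nat_lit 78) (nat_lit 0) (nat_lit 0) (XT.lf (nat_lit 0) (nat_lit 106160758199) (nat_lit 152) (nat_lit 52033623528) (nat_lit 0) (nat_lit 102367075590) (nat_lit 1) (nat_lit 5) (nat_lit 3) (nat_lit 4) (nat_lit 1) (nat_lit 4) (nat_lit 237) (nat_lit 190) (nat_lit 173)) (XT.lf (nat_lit 0) (nat_lit 123988203801) (nat_lit 152) (nat_lit 55303709190) (nat_lit 0) (nat_lit 120143828149) (nat_lit 1) (nat_lit 5) (nat_lit 3) (nat_lit 4) (nat_lit 1) (nat_lit 4) (nat_lit 238) (nat_lit 190) (nat_lit 172))) (XT.nd (nat_lit 78) (nat_lit 0) (nat_lit 0) (XT.lf (nat_lit 0) (nat_lit 144440907799) (nat_lit 152) (nat_lit 59151861588) (nat_lit 0) (nat_lit 140552451242) (nat_lit 1) (nat_lit 5) (nat_lit 3) (nat_lit 4) (nat_lit 1) (nat_lit 4) (nat_lit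 239) (nat_lit 190) (nat_lit 171)) (XT.nd (nat_lit 78) (nat_lit 0) (nat_lit 0) (XT.lf (nat_lit 0) (nat_lit 167919031795) (nat_lit 152) (nat_lit 63653370660) (nat_lit 0) (nat_lit 163992244015) (nat_lit 1) (nat_lit 5) (nat_lit 3) (nat_lit 4) (nat_lit 1) (nat_lit 4) (nat_lit 240) (nat_lit 190) (nat_lit 170)) (XT.lf (nat_lit 0) (nat_lit 194881930388) (nat_lit 152) (nat_lit 68896309411) (nat_lit 0) (nat_lit 190921811110) (nat_lit 1) (nat_lit 5) (nat_lit 3) (nat_lit 4) (nat_lit 1) (nat_lit 4) (nat_lit 241) (nat_lit 190) (nat_lit 169))))))))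
noncomputable def xc11 : XT := (XT.nd (nat_lit 29484) (nat_lit 0) (nat_lit 0) (XT.nd (nat_lit 702) (nat_lit 0) (nat_lit 0) (XT.nd (nat_lit 312) (nat_lit 0) (nat_lit 0) (XT.nd (nat_lit 156) (nat_lit 0) (nat_lit 0) (XT.nd (nat_lit 78) (nat_lit 0) (nat_lit 0) (XT.lf (nat_lit 0) (nat_lit 225857138551) (nat_lit 152) (nat_lit 74983257076) (nat_lit 0) (nat_lit 221868035361) (nat_lit 1) (nat_lit 5) (nat_lit 3) (nat_lit 4) (nat_lit 1) (nat_lit 4) (nat_lit 242) (nat_lit 190) (nat_lit 168)) (XT.lf (nat_lit 0) (nat_lit 261450692964) (nat_lit 152) (nat_lit 82033306110) (nat_lit 0) (nat_lit 257436386374) (nat_lit 1) (nat_lit 5) (nat_lit 3) (nat_lit 4) (nat_lit 1) (nat_lit 4) (nat_lit 243) (nat_lit 190) (nat_lit 167))) (XT.nd (nat_lit 78) (nat_lit 0) (nat_lit 0) (XT.lf (nat_lit 0) (nat_lit 302358989258) (nat_lit 152) (nat_lit 90184392255) (nat_lit 0) (nat_lit 298322766667) (nat_lit 1) (nat_lit 5) (nat_lit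 3) (nat_lit 4) (nat_lit 1) (nat_lit 4) (nat_lit 244) (nat_lit 190) (nat_lit 166)) (XT.lf (nat_lit 0) (nat_lit 349382407143) (nat_lit 152) (nat_lit 99595993283) (nat_lit 0) (nat_lit 345327127159) (nat_lit 1) (nat_lit 5) (nat_lit 3) (nat_lit 4) (nat_lit 1) (nat_lit 4) (nat_lit 245) (nat_lit 190) (nat_lit 165)))) (XT.nd (nat_lit 156) (nat_lit 0) (nat_lit 0) (XT.nd (nat_lit 78) (nat_lit 0) (nat_lit 0) (XT.lf (nat_lit 0) (nat_lit 403440970012) (nat_lit 152) (nat_lit 110452249214) (nat_lit 0) (nat_lit 399369118383) (nat_lit 1) (nat_lit 5) (nat_lit 3) (nat_lit 4) (nat_lit 1) (nat_lit 4) (nat_lit 246) (nat_lit 190) (nat_lit 164)) (XT.lf (nat_lit 0) (nat_lit 465592345400) (nat_lit 152) (nat_lit 122965565056) (nat_lit 0) (nat_lit 461506083644) (nat_lit 1) (nat_lit 5) (nat_lit 3) (nat_lit 4) (nat_lit 1) (nat_lit 4) (nat_lit 247) (nat_lit 190) (nat_lit 163))) (XT.nd (nat_lit 78) (nat_lit 0) (nat_lit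 0) (XT.lf (nat_lit 0) (nat_lit 537052538477) (nat_lit 152) (nat_lit 137380766553) (nat_lit 0) (nat_lit 532953746177) (nat_lit 1) (nat_lit 5) (nat_lit 3) (nat_lit 4) (nat_lit 1) (nat_lit 4) (nat_lit 248) (nat_lit 190) (nat_lit 162)) (XT.nd (nat_lit 78) (nat_lit 0) (nat_lit 0) (XT.lf (nat_lit 0) (nat_lit 619219683455) (nat_lit 152) (nat_lit 153979890257) (nat_lit 0) (nat_lit 615109995029) (nat_lit 1) (nat_lit 5) (nat_lit 3) (nat_lit 4) (nat_lit 1) (nat_lit 4) (nat_lit 249) (nat_lit 190) (nat_lit 161)) (XT.lf (nat_lit 0) (nat_lit 713701398389) (nat_lit 152) (nat_lit 173087701631) (nat_lit 0) (nat_lit 709582235071) (nat_lit 1) (nat_lit 5) (nat_lit 3) (nat_lit 4) (nat_lit 1) (nat_lit 4) (nat_lit 250) (nat_lit 190) (nat_lit 160)))))) (XT.nd (nat_lit 312) (nat_lit 0) (nat_lit 0) (XT.nd (nat_lit 156) (nat_lit 0) (nat_lit 0) (XT.nd (nat_lit 78) (nat_lit 0) (nat_lit 0) (XT.lf (nat_lit 0) (nat_lit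 822346238571) (nat_lit 152) (nat_lit 195078049158) (nat_lit 0) (nat_lit 818218836217) (nat_lit 1) (nat_lit 5) (nat_lit 3) (nat_lit 4) (nat_lit 1) (nat_lit 4) (nat_lit 251) (nat_lit 190) (nat_lit 159)) (XT.lf (nat_lit 0) (nat_lit 947279863917) (nat_lit 152) (nat_lit 220381178769) (nat_lit 0) (nat_lit 943145297183) (nat_lit 1) (nat_lit 5) (nat_lit 3) (nat_lit 4) (nat_lit 1) (nat_lit 4) (nat_lit 252) (nat_lit 190) (nat_lit 158))) (XT.nd (nat_lit 78) (nat_lit 0) (nat_lit 0) (XT.lf (nat_lit 0) (nat_lit 1090946627967) (nat_lit 152) (nat_lit 249492151695) (nat_lit 0) (nat_lit 1086805831338) (nat_lit 1) (nat_lit 5) (nat_lit 3) (nat_lit 4) (nat_lit 1) (nat_lit 4) (nat_lit 253) (nat_lit 190) (nat_lit 157)) (XT.lf (nat_lit 0) (nat_lit 1256157402192) (nat_lit 152) (nat_lit 282980530450) (nat_lit 0) (nat_lit 1252011188262) (nat_lit 1) (nat_lit 5) (nat_lit 3) (nat_lit 4) (nat_lit 1) (nat_lit 4) (nat_lit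 254) (nat_lit 190) (nat_lit 156)))) (XT.nd (nat_lit 156) (nat_lit 0) (nat_lit 0) (XT.nd (nat_lit 78) (nat_lit 0) (nat_lit 0) (XT.lf (nat_lit 0) (nat_lit 1446144571303) (nat_lit 152) (nat_lit 321501522444) (nat_lit 0) (nat_lit 1441993646678) (nat_lit 1) (nat_lit 5) (nat_lit 3) (nat_lit 4) (nat_lit 1) (nat_lit 4) (nat_lit 255) (nat_lit 190) (nat_lit 155)) (XT.lf (nat_lit 0) (nat_lit 1664625275567) (nat_lit 152) (nat_lit 365808799260) (nat_lit 0) (nat_lit 1660470254685) (nat_lit 1) (nat_lit 5) (nat_lit 3) (nat_lit 4) (nat_lit 1) (nat_lit 4) (nat_lit 256) (nat_lit 190) (nat_lit 154))) (XT.nd (nat_lit 78) (nat_lit 0) (nat_lit 0) (XT.lf (nat_lit 0) (nat_lit 1915874137459) (nat_lit 152) (nat_lit 416769242400) (nat_lit 0) (nat_lit 1911715554613) (nat_lit 1) (nat_lit 5) (nat_lit 3) (nat_lit 4) (nat_lit 1) (nat_lit 4) (nat_lit 257) (nat_lit 190) (nat_lit 153)) (XT.nd (nat_lit 28158) (nat_lit 0)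 (nat_lit 228) (XT.lf (nat_lit 0) (nat_lit 2204806895580) (nat_lit 152) (nat_lit 475379904013) (nat_lit 0) (nat_lit 2200645215375) (nat_lit 1) (nat_lit 5) (nat_lit 3) (nat_lit 4) (nat_lit 1) (nat_lit 4) (nat_lit 258) (nat_lit 190) (nat_lit 152)) (XT.lf (nat_lit 0) (nat_lit 882343223) (nat_lit 152) (nat_lit 8619617549) (nat_lit 0) (nat_lit 882343223) (nat_lit 4) (nat_lit 5) (nat_lit 6) (nat_lit 4) (nat_lit 4) (nat_lit 4) (nat_lit 218) (nat_lit 191) (nat_lit 191))))))) (XT.nd (nat_lit 702) (nat_lit 0) (nat_lit 0) (XT.nd (nat_lit 312) (nat_lit 152) (nat_lit 0) (XT.nd (nat_lit 156) (nat_lit 76) (nat_lit 0) (XT.nd (nat_lit 78) (nat_lit 0) (nat_lit 0) (XT.lf (nat_lit 0) (nat_lit 7479436856) (nat_lit 152) (nat_lit 9081511953) (nat_lit 0) (nat_lit 6801899515) (nat_lit 4) (nat_lit 5) (nat_lit 6) (nat_lit 4) (nat_lit 4) (nat_lit 4) (nat_lit 219) (nat_lit 191) (nat_lit 190)) (XT.lf (nat_lit 0) (nat_lit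 13522039628) (nat_lit 152) (nat_lit 613124727) (nat_lit 0) (nat_lit 12255339382) (nat_lit 4) (nat_lit 5) (nat_lit 6) (nat_lit 4) (nat_lit 4) (nat_lit 4) (nat_lit 220) (nat_lit 191) (nat_lit 189))) (XT.nd (nat_lit 78) (nat_lit 0) (nat_lit 0) (XT.lf (nat_lit 0) (nat_lit 8770340362) (nat_lit 76) (nat_lit 11451306131) (nat_lit 76) (nat_lit 9672290315) (nat_lit 3) (nat_lit 4) (nat_lit 4) (nat_lit 5) (nat_lit 4) (nat_lit 4) (nat_lit 221) (nat_lit 191) (nat_lit 188)) (XT.lf (nat_lit 0) (nat_lit 18871746392) (nat_lit 76) (nat_lit 8654548760) (nat_lit 76) (nat_lit 6430041144) (nat_lit 3) (nat_lit 4) (nat_lit 4) (nat_lit 5) (nat_lit 4) (nat_lit 4) (nat_lit 222) (nat_lit 191) (nat_lit 187)))) (XT.nd (nat_lit 156) (nat_lit 76) (nat_lit 0) (XT.nd (nat_lit 78) (nat_lit 76) (nat_lit 0) (XT.lf (nat_lit 0) (nat_lit 29856443506) (nat_lit 76) (nat_lit 5706936992) (nat_lit 76) (nat_lit 3095045203) (nat_lit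 3) (nat_lit 4) (nat_lit 4) (nat_lit 5) (nat_lit 4) (nat_lit 4) (nat_lit 223) (nat_lit 191) (nat_lit 186)) (XT.lf (nat_lit 0) (nat_lit 378040487) (nat_lit 152) (nat_lit 2162423378) (nat_lit 76) (nat_lit 41550972906) (nat_lit 2) (nat_lit 5) (nat_lit 4) (nat_lit 5) (nat_lit 3) (nat_lit 4) (nat_lit 224) (nat_lit 191) (nat_lit 185))) (XT.nd (nat_lit 78) (nat_lit 0) (nat_lit 0) (XT.lf (nat_lit 0) (nat_lit 4062058951) (nat_lit 152) (nat_lit 45221422715) (nat_lit 0) (nat_lit 1060516653) (nat_lit 1) (nat_lit 5) (nat_lit 3) (nat_lit 4) (nat_lit 1) (nat_lit 4) (nat_lit 225) (nat_lit 191) (nat_lit 184)) (XT.nd (nat_lit 78) (nat_lit 0) (nat_lit 0) (XT.lf (nat_lit 0) (nat_lit 8172130110) (nat_lit 152) (nat_lit 44438466724) (nat_lit 0) (nat_lit 4934743940) (nat_lit 1) (nat_lit 5) (nat_lit 3) (nat_lit 4) (nat_lit 1) (nat_lit 4) (nat_lit 226) (nat_lit 191) (nat_lit 183)) (XT.lf (nat_lit 0) (nat_lit 12671403343)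 (nat_lit 152) (nat_lit 43945402284) (nat_lit 0) (nat_lit 9228935544) (nat_lit 1) (nat_lit 5) (nat_lit 3) (nat_lit 4) (nat_lit 1) (nat_lit 4) (nat_lit 227) (nat_lit 191) (nat_lit 182)))))) (XT.nd (nat_lit 312) (nat_lit 0) (nat_lit 0) (XT.nd (nat_lit 156) (nat_lit 0) (nat_lit 0) (XT.nd (nat_lit 78) (nat_lit 0) (nat_lit 0) (XT.lf (nat_lit 0) (nat_lit 17647907908) (nat_lit 152) (nat_lit 43732582484) (nat_lit 0) (nat_lit 14027108258) (nat_lit 1) (nat_lit 5) (nat_lit 3) (nat_lit 4) (nat_lit 1) (nat_lit 4) (nat_lit 228) (nat_lit 191) (nat_lit 181)) (XT.lf (nat_lit 0) (nat_lit 23199010199) (nat_lit 152) (nat_lit 43795843457) (nat_lit 0) (nat_lit 19423139374) (nat_lit 1) (nat_lit 5) (nat_lit 3) (nat_lit 4) (nat_lit 1) (nat_lit 4) (nat_lit 229) (nat_lit 191) (nat_lit 180))) (XT.nd (nat_lit 78) (nat_lit 0) (nat_lit 0) (XT.lf (nat_lit 0) (nat_lit 29433318738) (nat_lit 152) (nat_lit 44136422918)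 (nat_lit 0) (nat_lit 25522603415) (nat_lit 1) (nat_lit 5) (nat_lit 3) (nat_lit 4) (nat_lit 1) (nat_lit 4) (nat_lit 230) (nat_lit 191) (nat_lit 179)) (XT.lf (nat_lit 0) (nat_lit 36472809129) (nat_lit 152) (nat_lit 44760984378) (nat_lit 0) (nat_lit 32444837718) (nat_lit 1) (nat_lit 5) (nat_lit 3) (nat_lit 4) (nat_lit 1) (nat_lit 4) (nat_lit 231) (nat_lit 191) (nat_lit 178)))) (XT.nd (nat_lit 156) (nat_lit 0) (nat_lit 0) (XT.nd (nat_lit 78) (nat_lit 0) (nat_lit 0) (XT.lf (nat_lit 0) (nat_lit 44455210530) (nat_lit 152) (nat_lit 45681747518) (nat_lit 0) (nat_lit 40325277305) (nat_lit 1) (nat_lit 5) (nat_lit 3) (nat_lit 4) (nat_lit 1) (nat_lit 4) (nat_lit 232) (nat_lit 191) (nat_lit 177)) (XT.lf (nat_lit 0) (nat_lit 53536700361) (nat_lit 152) (nat_lit 46916727269) (nat_lit 0) (nat_lit 49318104688) (nat_lit 1) (nat_lit 5) (nat_lit 3) (nat_lit 4) (nat_lit 1) (nat_lit 4) (nat_lit 233) (nat_lit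 191) (nat_lit 176))) (XT.nd (nat_lit 78) (nat_lit 0) (nat_lit 0) (XT.lf (nat_lit 0) (nat_lit 63894959943) (nat_lit 152) (nat_lit 48490086279) (nat_lit 0) (nat_lit 59599266491) (nat_lit 1) (nat_lit 5) (nat_lit 3) (nat_lit 4) (nat_lit 1) (nat_lit 4) (nat_lit 234) (nat_lit 191) (nat_lit 175)) (XT.nd (nat_lit 78) (nat_lit 0) (nat_lit 0) (XT.lf (nat_lit 0) (nat_lit 75732650879) (nat_lit 152) (nat_lit 50432607657) (nat_lit 0) (nat_lit 71369915878) (nat_lit 1) (nat_lit 5) (nat_lit 3) (nat_lit 4) (nat_lit 1) (nat_lit 4) (nat_lit 235) (nat_lit 191) (nat_lit 174)) (XT.lf (nat_lit 0) (nat_lit 89281380163) (nat_lit 152) (nat_lit 52782297258) (nat_lit 0) (nat_lit 84860348164) (nat_lit 1) (nat_lit 5) (nat_lit 3) (nat_lit 4) (nat_lit 1) (nat_lit 4) (nat_lit 236) (nat_lit 191) (nat_lit 173))))))))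
noncomputable def xc12 : XT := (XT.nd (nat_lit 1326) (nat_lit 0) (nat_lit 0) (XT.nd (nat_lit 624) (nat_lit 0) (nat_lit 0) (XT.nd (nat_lit 312) (nat_lit 0) (nat_lit 0) (XT.nd (nat_lit 156) (nat_lit 0) (nat_lit 0) (XT.nd (nat_lit 78) (nat_lit 0) (nat_lit 0) (XT.lf (nat_lit 0) (nat_lit 104806231630) (nat_lit 152) (nat_lit 55585127270) (nat_lit 0) (nat_lit 100334506590) (nat_lit 1) (nat_lit 5) (nat_lit 3) (nat_lit 4) (nat_lit 1) (nat_lit 4) (nat_lit 237) (nat_lit 191) (nat_lit 172)) (XT.lf (nat_lit 0) (nat_lit 122610952375) (nat_lit 152) (nat_lit 58895935669) (nat_lit 0) (nat_lit 118095146428) (nat_lit 1) (nat_lit 5) (nat_lit 3) (nat_lit 4) (nat_lit 1) (nat_lit 4) (nat_lit 238) (nat_lit 191) (nat_lit 171))) (XT.nd (nat_lit 78) (nat_lit 0) (nat_lit 0) (XT.lf (nat_lit 0) (nat_lit 143043895628) (nat_lit 152) (nat_lit 62779499144) (nat_lit 0) (nat_lit 138489758459) (nat_lit 1) (nat_lit 5) (nat_lit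 3) (nat_lit 4) (nat_lit 1) (nat_lit 4) (nat_lit 239) (nat_lit 191) (nat_lit 170)) (XT.lf (nat_lit 0) (nat_lit 166504836367) (nat_lit 152) (nat_lit 67311800457) (nat_lit 0) (nat_lit 161917367700) (nat_lit 1) (nat_lit 5) (nat_lit 3) (nat_lit 4) (nat_lit 1) (nat_lit 4) (nat_lit 240) (nat_lit 191) (nat_lit 169)))) (XT.nd (nat_lit 156) (nat_lit 0) (nat_lit 0) (XT.nd (nat_lit 78) (nat_lit 0) (nat_lit 0) (XT.lf (nat_lit 0) (nat_lit 193452792998) (nat_lit 152) (nat_lit 72581515069) (nat_lit 0) (nat_lit 188836340419) (nat_lit 1) (nat_lit 5) (nat_lit 3) (nat_lit 4) (nat_lit 1) (nat_lit 4) (nat_lit 241) (nat_lit 191) (nat_lit 168)) (XT.lf (nat_lit 0) (nat_lit 224415008149) (nat_lit 152) (nat_lit 78691746092) (nat_lit 0) (nat_lit 219773352169) (nat_lit 1) (nat_lit 5) (nat_lit 3) (nat_lit 4) (nat_lit 1) (nat_lit 4) (nat_lit 242) (nat_lit 191) (nat_lit 167))) (XT.nd (nat_lit 78) (nat_lit 0) (nat_lit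 0) (XT.lf (nat_lit 0) (nat_lit 259997264292) (nat_lit 152) (nat_lit 85762041524) (nat_lit 0) (nat_lit 255333692311) (nat_lit 1) (nat_lit 5) (nat_lit 3) (nat_lit 4) (nat_lit 1) (nat_lit 4) (nat_lit 243) (nat_lit 191) (nat_lit 166)) (XT.lf (nat_lit 0) (nat_lit 300895736003) (nat_lit 152) (nat_lit 93930733232) (nat_lit 0) (nat_lit 296213106630) (nat_lit 1) (nat_lit 5) (nat_lit 3) (nat_lit 4) (nat_lit 1) (nat_lit 4) (nat_lit 244) (nat_lit 191) (nat_lit 165))))) (XT.nd (nat_lit 312) (nat_lit 0) (nat_lit 0) (XT.nd (nat_lit 156) (nat_lit 0) (nat_lit 0) (XT.nd (nat_lit 78) (nat_lit 0) (nat_lit 0) (XT.lf (nat_lit 0) (nat_lit 347910610773) (nat_lit 152) (nat_lit 103357643446) (nat_lit 0) (nat_lit 343211409754) (nat_lit 1) (nat_lit 5) (nat_lit 3) (nat_lit 4) (nat_lit 1) (nat_lit 4) (nat_lit 245) (nat_lit 191) (nat_lit 164)) (XT.lf (nat_lit 0) (nat_lit 401961744845) (nat_lit 152) (nat_lit 114227211712)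 (nat_lit 0) (nat_lit 397248133700) (nat_lit 1) (nat_lit 5) (nat_lit 3) (nat_lit 4) (nat_lit 1) (nat_lit 4) (nat_lit 246) (nat_lit 191) (nat_lit 163))) (XT.nd (nat_lit 78) (nat_lit 0) (nat_lit 0) (XT.lf (nat_lit 0) (nat_lit 464106660410) (nat_lit 152) (nat_lit 126752103498) (nat_lit 0) (nat_lit 459380518721) (nat_lit 1) (nat_lit 5) (nat_lit 3) (nat_lit 4) (nat_lit 1) (nat_lit 4) (nat_lit 247) (nat_lit 191) (nat_lit 162)) (XT.lf (nat_lit 0) (nat_lit 535561236250) (nat_lit 152) (nat_lit 141177371033) (nat_lit 0) (nat_lit 530824198435) (nat_lit 1) (nat_lit 5) (nat_lit 3) (nat_lit 4) (nat_lit 1) (nat_lit 4) (nat_lit 248) (nat_lit 191) (nat_lit 161)))) (XT.nd (nat_lit 156) (nat_lit 0) (nat_lit 0) (XT.nd (nat_lit 78) (nat_lit 0) (nat_lit 0) (XT.lf (nat_lit 0) (nat_lit 617723496675) (nat_lit 152) (nat_lit 157785247814) (nat_lit 0) (nat_lit 612976983967) (nat_lit 1) (nat_lit 5) (nat_lit 3) (nat_lit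 4) (nat_lit 1) (nat_lit 4) (nat_lit 249) (nat_lit 191) (nat_lit 160)) (XT.lf (nat_lit 0) (nat_lit 712200964171) (nat_lit 152) (nat_lit 176900670558) (nat_lit 0) (nat_lit 707446212426) (nat_lit 1) (nat_lit 5) (nat_lit 3) (nat_lit 4) (nat_lit 1) (nat_lit 4) (nat_lit 250) (nat_lit 191) (nat_lit 159))) (XT.nd (nat_lit 78) (nat_lit 0) (nat_lit 0) (XT.lf (nat_lit 0) (nat_lit 820842110928) (nat_lit 152) (nat_lit 198897636669) (nat_lit 0) (nat_lit 816080194804) (nat_lit 1) (nat_lit 5) (nat_lit 3) (nat_lit 4) (nat_lit 1) (nat_lit 4) (nat_lit 251) (nat_lit 191) (nat_lit 158)) (XT.nd (nat_lit 78) (nat_lit 0) (nat_lit 0) (XT.lf (nat_lit 0) (nat_lit 945772524600) (nat_lit 152) (nat_lit 224206521570) (nat_lit 0) (nat_lit 941004378581) (nat_lit 1) (nat_lit 5) (nat_lit 3) (nat_lit 4) (nat_lit 1) (nat_lit 4) (nat_lit 252) (nat_lit 191) (nat_lit 157)) (XT.lf (nat_lit 0) (nat_lit 1089436495891) (nat_lit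 152) (nat_lit 253322499096) (nat_lit 0) (nat_lit 1084662932571) (nat_lit 1) (nat_lit 5) (nat_lit 3) (nat_lit 4) (nat_lit 1) (nat_lit 4) (nat_lit 253) (nat_lit 191) (nat_lit 156))))))) (XT.nd (nat_lit 28626) (nat_lit 0) (nat_lit 0) (XT.nd (nat_lit 312) (nat_lit 0) (nat_lit 0) (XT.nd (nat_lit 156) (nat_lit 0) (nat_lit 0) (XT.nd (nat_lit 78) (nat_lit 0) (nat_lit 0) (XT.lf (nat_lit 0) (nat_lit 1254644841628) (nat_lit 152) (nat_lit 286815229677) (nat_lit 0) (nat_lit 1249866567613) (nat_lit 1) (nat_lit 5) (nat_lit 3) (nat_lit 4) (nat_lit 1) (nat_lit 4) (nat_lit 254) (nat_lit 191) (nat_lit 155)) (XT.lf (nat_lit 0) (nat_lit 1444629899012) (nat_lit 152) (nat_lit 325340005867) (nat_lit 0) (nat_lit 1439847528740) (nat_lit 1) (nat_lit 5) (nat_lit 3) (nat_lit 4) (nat_lit 1) (nat_lit 4) (nat_lit 255) (nat_lit 191) (nat_lit 154))) (XT.nd (nat_lit 78) (nat_lit 0) (nat_lit 0) (XT.lf (nat_lit 0) (nat_lit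 1663108766992) (nat_lit 152) (nat_lit 369650573289) (nat_lit 0) (nat_lit 1658322834756) (nat_lit 1) (nat_lit 5) (nat_lit 3) (nat_lit 4) (nat_lit 1) (nat_lit 4) (nat_lit 256) (nat_lit 191) (nat_lit 153)) (XT.lf (nat_lit 0) (nat_lit 1914356032114) (nat_lit 152) (nat_lit 420613877825) (nat_lit 0) (nat_lit 1909567002520) (nat_lit 1) (nat_lit 5) (nat_lit 3) (nat_lit 4) (nat_lit 1) (nat_lit 4) (nat_lit 257) (nat_lit 191) (nat_lit 152)))) (XT.nd (nat_lit 28080) (nat_lit 0) (nat_lit 228) (XT.nd (nat_lit 28002) (nat_lit 0) (nat_lit 380) (XT.lf (nat_lit 0) (nat_lit 2203287401740) (nat_lit 152) (nat_lit 479227027609) (nat_lit 0) (nat_lit 2198495678790) (nat_lit 1) (nat_lit 5) (nat_lit 3) (nat_lit 4) (nat_lit 1) (nat_lit 4) (nat_lit 258) (nat_lit 191) (nat_lit 151)) (XT.lf (nat_lit 0) (nat_lit 481055915) (nat_lit 76) (nat_lit 3908230373) (nat_lit 76) (nat_lit 3908230373) (nat_lit 6) (nat_lit 4)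 (nat_lit 7) (nat_lit 5) (nat_lit 7) (nat_lit 4) (nat_lit 216) (nat_lit 192) (nat_lit 192))) (XT.nd (nat_lit 78) (nat_lit 152) (nat_lit 0) (XT.lf (nat_lit 0) (nat_lit 12011397861) (nat_lit 76) (nat_lit 3680519339) (nat_lit 76) (nat_lit 2839017962) (nat_lit 6) (nat_lit 4) (nat_lit 7) (nat_lit 5) (nat_lit 7) (nat_lit 4) (nat_lit 217) (nat_lit 192) (nat_lit 191)) (XT.nd (nat_lit 78) (nat_lit 0) (nat_lit 0) (XT.lf (nat_lit 0) (nat_lit 2260708234) (nat_lit 152) (nat_lit 17727580935) (nat_lit 0) (nat_lit 804002951) (nat_lit 4) (nat_lit 5) (nat_lit 6) (nat_lit 4) (nat_lit 4) (nat_lit 4) (nat_lit 218) (nat_lit 192) (nat_lit 190)) (XT.lf (nat_lit 0) (nat_lit 7729244598) (nat_lit 152) (nat_lit 9994506344) (nat_lit 0) (nat_lit 5683376410) (nat_lit 4) (nat_lit 5) (nat_lit 6) (nat_lit 4) (nat_lit 4) (nat_lit 4) (nat_lit 219) (nat_lit 192) (nat_lit 189)))))) (XT.nd (nat_lit 312) (nat_lit 152) (nat_lit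 0) (XT.nd (nat_lit 156) (nat_lit 0) (nat_lit 0) (XT.nd (nat_lit 78) (nat_lit 76) (nat_lit 0) (XT.lf (nat_lit 0) (nat_lit 13557748198) (nat_lit 152) (nat_lit 1895378729) (nat_lit 0) (nat_lit 10999564440) (nat_lit 4) (nat_lit 5) (nat_lit 6) (nat_lit 4) (nat_lit 4) (nat_lit 4) (nat_lit 220) (nat_lit 192) (nat_lit 188)) (XT.lf (nat_lit 0) (nat_lit 7082561511) (nat_lit 76) (nat_lit 12948029238) (nat_lit 76) (nat_lit 9944353680) (nat_lit 3) (nat_lit 4) (nat_lit 4) (nat_lit 5) (nat_lit 4) (nat_lit 4) (nat_lit 221) (nat_lit 192) (nat_lit 187))) (XT.nd (nat_lit 78) (nat_lit 0) (nat_lit 0) (XT.lf (nat_lit 0) (nat_lit 16890051345) (nat_lit 76) (nat_lit 10276229638) (nat_lit 76) (nat_lit 6885169907) (nat_lit 3) (nat_lit 4) (nat_lit 4) (nat_lit 5) (nat_lit 4) (nat_lit 4) (nat_lit 222) (nat_lit 192) (nat_lit 186)) (XT.lf (nat_lit 0) (nat_lit 27619169159) (nat_lit 76) (nat_lit 7437276802) (nat_lit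 76) (nat_lit 3709361268) (nat_lit 3) (nat_lit 4) (nat_lit 4) (nat_lit 5) (nat_lit 4) (nat_lit 4) (nat_lit 223) (nat_lit 192) (nat_lit 185)))) (XT.nd (nat_lit 156) (nat_lit 0) (nat_lit 0) (XT.nd (nat_lit 78) (nat_lit 152) (nat_lit 0) (XT.lf (nat_lit 0) (nat_lit 39479832473) (nat_lit 76) (nat_lit 4375626000) (nat_lit 76) (nat_lit 354792376) (nat_lit 3) (nat_lit 4) (nat_lit 4) (nat_lit 5) (nat_lit 4) (nat_lit 4) (nat_lit 224) (nat_lit 192) (nat_lit 184)) (XT.lf (nat_lit 0) (nat_lit 2247185216) (nat_lit 76) (nat_lit 888742775) (nat_lit 152) (nat_lit 47344810108) (nat_lit 1) (nat_lit 5) (nat_lit 2) (nat_lit 5) (nat_lit 3) (nat_lit 4) (nat_lit 225) (nat_lit 192) (nat_lit 183))) (XT.nd (nat_lit 78) (nat_lit 0) (nat_lit 0) (XT.lf (nat_lit 0) (nat_lit 7118899935) (nat_lit 152) (nat_lit 47618680724) (nat_lit 0) (nat_lit 2954980338) (nat_lit 1) (nat_lit 5) (nat_lit 3) (nat_lit 4) (nat_lit 1) (nat_lit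 4) (nat_lit 226) (nat_lit 192) (nat_lit 182)) (XT.nd (nat_lit 78) (nat_lit 0) (nat_lit 0) (XT.lf (nat_lit 0) (nat_lit 11526238445) (nat_lit 152) (nat_lit 47290362473) (nat_lit 0) (nat_lit 7183986998) (nat_lit 1) (nat_lit 5) (nat_lit 3) (nat_lit 4) (nat_lit 1) (nat_lit 4) (nat_lit 227) (nat_lit 192) (nat_lit 181)) (XT.lf (nat_lit 0) (nat_lit 16422799774) (nat_lit 152) (nat_lit 47220800228) (nat_lit 0) (nat_lit 11925477151) (nat_lit 1) (nat_lit 5) (nat_lit 3) (nat_lit 4) (nat_lit 1) (nat_lit 4) (nat_lit 228) (nat_lit 192) (nat_lit 180))))))))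
noncomputable def xc13 : XT := (XT.nd (nat_lit 1326) (nat_lit 0) (nat_lit 0) (XT.nd (nat_lit 624) (nat_lit 0) (nat_lit 0) (XT.nd (nat_lit 312) (nat_lit 0) (nat_lit 0) (XT.nd (nat_lit 156) (nat_lit 0) (nat_lit 0) (XT.nd (nat_lit 78) (nat_lit 0) (nat_lit 0) (XT.lf (nat_lit 0) (nat_lit 21904386206) (nat_lit 152) (nat_lit 47408632988) (nat_lit 0) (nat_lit 17272219085) (nat_lit 1) (nat_lit 5) (nat_lit 3) (nat_lit 4) (nat_lit 1) (nat_lit 4) (nat_lit 229) (nat_lit 192) (nat_lit 179)) (XT.lf (nat_lit 0) (nat_lit 28078246174) (nat_lit 152) (nat_lit 47857535742) (nat_lit 0) (nat_lit 23328822965) (nat_lit 1) (nat_lit 5) (nat_lit 3) (nat_lit 4) (nat_lit 1) (nat_lit 4) (nat_lit 230) (nat_lit 192) (nat_lit 178))) (XT.nd (nat_lit 78) (nat_lit 0) (nat_lit 0) (XT.lf (nat_lit 0) (nat_lit 35065172589) (nat_lit 152) (nat_lit 48576291370) (nat_lit 0) (nat_lit 30213787566) (nat_lit 1) (nat_lit 5) (nat_lit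 3) (nat_lit 4) (nat_lit 1) (nat_lit 4) (nat_lit 231) (nat_lit 192) (nat_lit 177)) (XT.lf (nat_lit 0) (nat_lit 43001866185) (nat_lit 152) (nat_lit 49578962482) (nat_lit 0) (nat_lit 38061818715) (nat_lit 1) (nat_lit 5) (nat_lit 3) (nat_lit 4) (nat_lit 1) (nat_lit 4) (nat_lit 232) (nat_lit 192) (nat_lit 176)))) (XT.nd (nat_lit 156) (nat_lit 0) (nat_lit 0) (XT.nd (nat_lit 78) (nat_lit 0) (nat_lit 0) (XT.lf (nat_lit 0) (nat_lit 52043610098) (nat_lit 152) (nat_lit 50885166556) (nat_lit 0) (nat_lit 47026464847) (nat_lit 1) (nat_lit 5) (nat_lit 3) (nat_lit 4) (nat_lit 1) (nat_lit 4) (nat_lit 233) (nat_lit 192) (nat_lit 175)) (XT.lf (nat_lit 0) (nat_lit 62367308013) (nat_lit 152) (nat_lit 52520459760) (nat_lit 0) (nat_lit 57283121215) (nat_lit 1) (nat_lit 5) (nat_lit 3) (nat_lit 4) (nat_lit 1) (nat_lit 4) (nat_lit 234) (nat_lit 192) (nat_lit 174))) (XT.nd (nat_lit 78) (nat_lit 0) (nat_lit 0)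 (XT.lf (nat_lit 0) (nat_lit 74174945325) (nat_lit 152) (nat_lit 54516836960) (nat_lit 0) (nat_lit 69032461528) (nat_lit 1) (nat_lit 5) (nat_lit 3) (nat_lit 4) (nat_lit 1) (nat_lit 4) (nat_lit 235) (nat_lit 192) (nat_lit 173)) (XT.lf (nat_lit 0) (nat_lit 87697541023) (nat_lit 152) (nat_lit 56913357710) (nat_lit 0) (nat_lit 82504364184) (nat_lit 1) (nat_lit 5) (nat_lit 3) (nat_lit 4) (nat_lit 1) (nat_lit 4) (nat_lit 236) (nat_lit 192) (nat_lit 172))))) (XT.nd (nat_lit 312) (nat_lit 0) (nat_lit 0) (XT.nd (nat_lit 156) (nat_lit 0) (nat_lit 0) (XT.nd (nat_lit 78) (nat_lit 0) (nat_lit 0) (XT.lf (nat_lit 0) (nat_lit 103199667634) (nat_lit 152) (nat_lit 59756910459) (nat_lit 0) (nat_lit 97962409889) (nat_lit 1) (nat_lit 5) (nat_lit 3) (nat_lit 4) (nat_lit 1) (nat_lit 4) (nat_lit 237) (nat_lit 192) (nat_lit 171)) (XT.lf (nat_lit 0) (nat_lit 120984627633) (nat_lit 152) (nat_lit 63103129936) (nat_lit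 0) (nat_lit 115709038665) (nat_lit 1) (nat_lit 5) (nat_lit 3) (nat_lit 4) (nat_lit 1) (nat_lit 4) (nat_lit 238) (nat_lit 192) (nat_lit 170))) (XT.nd (nat_lit 78) (nat_lit 0) (nat_lit 0) (XT.lf (nat_lit 0) (nat_lit 141400387629) (nat_lit 152) (nat_lit 67017485651) (nat_lit 0) (nat_lit 136091467163) (nat_lit 1) (nat_lit 5) (nat_lit 3) (nat_lit 4) (nat_lit 1) (nat_lit 4) (nat_lit 239) (nat_lit 192) (nat_lit 169)) (XT.lf (nat_lit 0) (nat_lit 164846386406) (nat_lit 152) (nat_lit 71576562825) (nat_lit 0) (nat_lit 159508482028) (nat_lit 1) (nat_lit 5) (nat_lit 3) (nat_lit 4) (nat_lit 1) (nat_lit 4) (nat_lit 240) (nat_lit 192) (nat_lit 168)))) (XT.nd (nat_lit 156) (nat_lit 0) (nat_lit 0) (XT.nd (nat_lit 78) (nat_lit 0) (nat_lit 0) (XT.lf (nat_lit 0) (nat_lit 191781350025) (nat_lit 152) (nat_lit 76869560795) (nat_lit 0) (nat_lit 186418242247) (nat_lit 1) (nat_lit 5) (nat_lit 3) (nat_lit 4) (nat_lit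 1) (nat_lit 4) (nat_lit 241) (nat_lit 192) (nat_lit 167)) (XT.lf (nat_lit 0) (nat_lit 222732266906) (nat_lit 152) (nat_lit 83000038216) (nat_lit 0) (nat_lit 217347243127) (nat_lit 1) (nat_lit 5) (nat_lit 3) (nat_lit 4) (nat_lit 1) (nat_lit 4) (nat_lit 242) (nat_lit 192) (nat_lit 166))) (XT.nd (nat_lit 78) (nat_lit 0) (nat_lit 0) (XT.lf (nat_lit 0) (nat_lit 258304698466) (nat_lit 152) (nat_lit 90087939211) (nat_lit 0) (nat_lit 252900617295) (nat_lit 1) (nat_lit 5) (nat_lit 3) (nat_lit 4) (nat_lit 1) (nat_lit 4) (nat_lit 243) (nat_lit 192) (nat_lit 165)) (XT.nd (nat_lit 78) (nat_lit 0) (nat_lit 0) (XT.lf (nat_lit 0) (nat_lit 299194627062) (nat_lit 152) (nat_lit 98271940105) (nat_lit 0) (nat_lit 293773974245) (nat_lit 1) (nat_lit 5) (nat_lit 3) (nat_lit 4) (nat_lit 1) (nat_lit 4) (nat_lit 244) (nat_lit 192) (nat_lit 164)) (XT.lf (nat_lit 0) (nat_lit 346202073035) (nat_lit 152) (nat_lit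 107712162654) (nat_lit 0) (nat_lit 340767010092) (nat_lit 1) (nat_lit 5) (nat_lit 3) (nat_lit 4) (nat_lit 1) (nat_lit 4) (nat_lit 245) (nat_lit 192) (nat_lit 163))))))) (XT.nd (nat_lit 702) (nat_lit 0) (nat_lit 0) (XT.nd (nat_lit 312) (nat_lit 0) (nat_lit 0) (XT.nd (nat_lit 156) (nat_lit 0) (nat_lit 0) (XT.nd (nat_lit 78) (nat_lit 0) (nat_lit 0) (XT.lf (nat_lit 0) (nat_lit 400246747285) (nat_lit 152) (nat_lit 118593306864) (nat_lit 0) (nat_lit 394799153797) (nat_lit 1) (nat_lit 5) (nat_lit 3) (nat_lit 4) (nat_lit 1) (nat_lit 4) (nat_lit 246) (nat_lit 192) (nat_lit 162)) (XT.lf (nat_lit 0) (nat_lit 462386045613) (nat_lit 152) (nat_lit 131128264688) (nat_lit 0) (nat_lit 456927555999) (nat_lit 1) (nat_lit 5) (nat_lit 3) (nat_lit 4) (nat_lit 1) (nat_lit 4) (nat_lit 247) (nat_lit 192) (nat_lit 161))) (XT.nd (nat_lit 78) (nat_lit 0) (nat_lit 0) (XT.lf (nat_lit 0) (nat_lit 533835736899) (nat_lit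 152) (nat_lit 145562285300) (nat_lit 0) (nat_lit 528367772393) (nat_lit 1) (nat_lit 5) (nat_lit 3) (nat_lit 4) (nat_lit 1) (nat_lit 4) (nat_lit 248) (nat_lit 192) (nat_lit 160)) (XT.lf (nat_lit 0) (nat_lit 615993749885) (nat_lit 152) (nat_lit 162177773451) (nat_lit 0) (nat_lit 610517546342) (nat_lit 1) (nat_lit 5) (nat_lit 3) (nat_lit 4) (nat_lit 1) (nat_lit 4) (nat_lit 249) (nat_lit 192) (nat_lit 159)))) (XT.nd (nat_lit 156) (nat_lit 0) (nat_lit 0) (XT.nd (nat_lit 78) (nat_lit 0) (nat_lit 0) (XT.lf (nat_lit 0) (nat_lit 710467523956) (nat_lit 152) (nat_lit 181299814779) (nat_lit 0) (nat_lit 704984156034) (nat_lit 1) (nat_lit 5) (nat_lit 3) (nat_lit 4) (nat_lit 1) (nat_lit 4) (nat_lit 250) (nat_lit 192) (nat_lit 158)) (XT.lf (nat_lit 0) (nat_lit 819105459040) (nat_lit 152) (nat_lit 203302536180) (nat_lit 0) (nat_lit 813615861222) (nat_lit 1) (nat_lit 5) (nat_lit 3) (nat_lit 4) (nat_lit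 1) (nat_lit 4) (nat_lit 251) (nat_lit 192) (nat_lit 157))) (XT.nd (nat_lit 78) (nat_lit 0) (nat_lit 0) (XT.lf (nat_lit 0) (nat_lit 944033079953) (nat_lit 152) (nat_lit 228616425681) (nat_lit 0) (nat_lit 938538064835) (nat_lit 1) (nat_lit 5) (nat_lit 3) (nat_lit 4) (nat_lit 1) (nat_lit 4) (nat_lit 252) (nat_lit 192) (nat_lit 156)) (XT.nd (nat_lit 78) (nat_lit 0) (nat_lit 0) (XT.lf (nat_lit 0) (nat_lit 1087694622756) (nat_lit 152) (nat_lit 257736755033) (nat_lit 0) (nat_lit 1082194896943) (nat_lit 1) (nat_lit 5) (nat_lit 3) (nat_lit 4) (nat_lit 1) (nat_lit 4) (nat_lit 253) (nat_lit 192) (nat_lit 155)) (XT.lf (nat_lit 0) (nat_lit 1252900856766) (nat_lit 152) (nat_lit 291233269810) (nat_lit 0) (nat_lit 1247397034696) (nat_lit 1) (nat_lit 5) (nat_lit 3) (nat_lit 4) (nat_lit 1) (nat_lit 4) (nat_lit 254) (nat_lit 192) (nat_lit 154)))))) (XT.nd (nat_lit 28080) (nat_lit 0) (nat_lit 228) (XT.nd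 (nat_lit 156) (nat_lit 0) (nat_lit 0) (XT.nd (nat_lit 78) (nat_lit 0) (nat_lit 0) (XT.lf (nat_lit 0) (nat_lit 1442884077866) (nat_lit 152) (nat_lit 329761336607) (nat_lit 0) (nat_lit 1437376693832) (nat_lit 1) (nat_lit 5) (nat_lit 3) (nat_lit 4) (nat_lit 1) (nat_lit 4) (nat_lit 255) (nat_lit 192) (nat_lit 153)) (XT.lf (nat_lit 0) (nat_lit 1661361349076) (nat_lit 152) (nat_lit 374074765424) (nat_lit 0) (nat_lit 1655850867683) (nat_lit 1) (nat_lit 5) (nat_lit 3) (nat_lit 4) (nat_lit 1) (nat_lit 4) (nat_lit 256) (nat_lit 192) (nat_lit 152))) (XT.nd (nat_lit 78) (nat_lit 0) (nat_lit 0) (XT.lf (nat_lit 0) (nat_lit 1912607225703) (nat_lit 152) (nat_lit 425040558131) (nat_lit 0) (nat_lit 1907094050954) (nat_lit 1) (nat_lit 5) (nat_lit 3) (nat_lit 4) (nat_lit 1) (nat_lit 4) (nat_lit 257) (nat_lit 192) (nat_lit 151)) (XT.lf (nat_lit 0) (nat_lit 2201537387941) (nat_lit 152) (nat_lit 483655871542)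 (nat_lit 0) (nat_lit 2196021871145) (nat_lit 1) (nat_lit 5) (nat_lit 3) (nat_lit 4) (nat_lit 1) (nat_lit 4) (nat_lit 258) (nat_lit 192) (nat_lit 150)))) (XT.nd (nat_lit 156) (nat_lit 228) (nat_lit 0) (XT.nd (nat_lit 78) (nat_lit 152) (nat_lit 0) (XT.lf (nat_lit 0) (nat_lit 4441122886) (nat_lit 152) (nat_lit 1155785893) (nat_lit 152) (nat_lit 1155785893) (nat_lit 9) (nat_lit 4) (nat_lit 11) (nat_lit 5) (nat_lit 11) (nat_lit 4) (nat_lit 214) (nat_lit 193) (nat_lit 193)) (XT.lf (nat_lit 0) (nat_lit 3407083556) (nat_lit 152) (nat_lit 9093806136) (nat_lit 0) (nat_lit 2439356972) (nat_lit 7) (nat_lit 5) (nat_lit 9) (nat_lit 4) (nat_lit 7) (nat_lit 4) (nat_lit 215) (nat_lit 193) (nat_lit 192))) (XT.nd (nat_lit 78) (nat_lit 152) (nat_lit 0) (XT.lf (nat_lit 0) (nat_lit 466431409) (nat_lit 76) (nat_lit 8981491145) (nat_lit 76) (nat_lit 7172263183) (nat_lit 6) (nat_lit 4) (nat_lit 7) (nat_lit 5)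 (nat_lit 7) (nat_lit 4) (nat_lit 216) (nat_lit 193) (nat_lit 191)) (XT.nd (nat_lit 78) (nat_lit 152) (nat_lit 0) (XT.lf (nat_lit 0) (nat_lit 11084690988) (nat_lit 76) (nat_lit 5017118273) (nat_lit 76) (nat_lit 2476149984) (nat_lit 6) (nat_lit 4) (nat_lit 7) (nat_lit 5) (nat_lit 7) (nat_lit 4) (nat_lit 217) (nat_lit 193) (nat_lit 190)) (XT.lf (nat_lit 0) (nat_lit 1644132345) (nat_lit 76) (nat_lit 673846776) (nat_lit 152) (nat_lit 18544532293) (nat_lit 4) (nat_lit 5) (nat_lit 5) (nat_lit 5) (nat_lit 6) (nat_lit 4) (nat_lit 218) (nat_lit 193) (nat_lit 189))))))))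
noncomputable def xc14 : XT := (XT.nd (nat_lit 1326) (nat_lit 0) (nat_lit 0) (XT.nd (nat_lit 624) (nat_lit 0) (nat_lit 0) (XT.nd (nat_lit 312) (nat_lit 152) (nat_lit 0) (XT.nd (nat_lit 156) (nat_lit 76) (nat_lit 0) (XT.nd (nat_lit 78) (nat_lit 0) (nat_lit 0) (XT.lf (nat_lit 0) (nat_lit 7556210282) (nat_lit 152) (nat_lit 11838358058) (nat_lit 0) (nat_lit 4101983391) (nat_lit 4) (nat_lit 5) (nat_lit 6) (nat_lit 4) (nat_lit 4) (nat_lit 4) (nat_lit 219) (nat_lit 193) (nat_lit 188)) (XT.lf (nat_lit 0) (nat_lit 13198540690) (nat_lit 152) (nat_lit 4060325759) (nat_lit 0) (nat_lit 9298821999) (nat_lit 4) (nat_lit 5) (nat_lit 6) (nat_lit 4) (nat_lit 4) (nat_lit 4) (nat_lit 220) (nat_lit 193) (nat_lit 187))) (XT.nd (nat_lit 78) (nat_lit 0) (nat_lit 0) (XT.lf (nat_lit 0) (nat_lit 4509696012) (nat_lit 76) (nat_lit 14937920019) (nat_lit 76) (nat_lit 10650817155) (nat_lit 3) (nat_lit 4) (nat_lit 4)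 (nat_lit 5) (nat_lit 4) (nat_lit 4) (nat_lit 221) (nat_lit 193) (nat_lit 186)) (XT.lf (nat_lit 0) (nat_lit 14061606545) (nat_lit 76) (nat_lit 12374779352) (nat_lit 76) (nat_lit 7750820684) (nat_lit 3) (nat_lit 4) (nat_lit 4) (nat_lit 5) (nat_lit 4) (nat_lit 4) (nat_lit 222) (nat_lit 193) (nat_lit 185)))) (XT.nd (nat_lit 156) (nat_lit 152) (nat_lit 0) (XT.nd (nat_lit 78) (nat_lit 0) (nat_lit 0) (XT.lf (nat_lit 0) (nat_lit 24568481489) (nat_lit 76) (nat_lit 9630312543) (nat_lit 76) (nat_lit 4713435786) (nat_lit 3) (nat_lit 4) (nat_lit 4) (nat_lit 5) (nat_lit 4) (nat_lit 4) (nat_lit 223) (nat_lit 193) (nat_lit 184)) (XT.lf (nat_lit 0) (nat_lit 36235890134) (nat_lit 76) (nat_lit 6650823504) (nat_lit 76) (nat_lit 1479235365) (nat_lit 3) (nat_lit 4) (nat_lit 4) (nat_lit 5) (nat_lit 4) (nat_lit 4) (nat_lit 224) (nat_lit 193) (nat_lit 183))) (XT.nd (nat_lit 78) (nat_lit 76) (nat_lit 0) (XT.lf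 (nat_lit 0) (nat_lit 1914257030) (nat_lit 152) (nat_lit 1411421674) (nat_lit 76) (nat_lit 47325511657) (nat_lit 2) (nat_lit 5) (nat_lit 4) (nat_lit 5) (nat_lit 3) (nat_lit 4) (nat_lit 225) (nat_lit 193) (nat_lit 182)) (XT.lf (nat_lit 0) (nat_lit 5710025581) (nat_lit 152) (nat_lit 51630131129) (nat_lit 0) (nat_lit 538104565) (nat_lit 1) (nat_lit 5) (nat_lit 3) (nat_lit 4) (nat_lit 1) (nat_lit 4) (nat_lit 226) (nat_lit 193) (nat_lit 181))))) (XT.nd (nat_lit 312) (nat_lit 0) (nat_lit 0) (XT.nd (nat_lit 156) (nat_lit 0) (nat_lit 0) (XT.nd (nat_lit 78) (nat_lit 0) (nat_lit 0) (XT.lf (nat_lit 0) (nat_lit 10037420854) (nat_lit 152) (nat_lit 51445070433) (nat_lit 0) (nat_lit 4710428664) (nat_lit 1) (nat_lit 5) (nat_lit 3) (nat_lit 4) (nat_lit 1) (nat_lit 4) (nat_lit 227) (nat_lit 193) (nat_lit 180)) (XT.lf (nat_lit 0) (nat_lit 14864466325) (nat_lit 152) (nat_lit 51500079975) (nat_lit 0) (nat_lit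 9402629635) (nat_lit 1) (nat_lit 5) (nat_lit 3) (nat_lit 4) (nat_lit 1) (nat_lit 4) (nat_lit 228) (nat_lit 193) (nat_lit 179))) (XT.nd (nat_lit 78) (nat_lit 0) (nat_lit 0) (XT.lf (nat_lit 0) (nat_lit 20285604185) (nat_lit 152) (nat_lit 51796236028) (nat_lit 0) (nat_lit 14706511409) (nat_lit 1) (nat_lit 5) (nat_lit 3) (nat_lit 4) (nat_lit 1) (nat_lit 4) (nat_lit 229) (nat_lit 193) (nat_lit 178)) (XT.lf (nat_lit 0) (nat_lit 26406900177) (nat_lit 152) (nat_lit 52339332950) (nat_lit 0) (nat_lit 20725845586) (nat_lit 1) (nat_lit 5) (nat_lit 3) (nat_lit 4) (nat_lit 1) (nat_lit 4) (nat_lit 230) (nat_lit 193) (nat_lit 177)))) (XT.nd (nat_lit 156) (nat_lit 0) (nat_lit 0) (XT.nd (nat_lit 78) (nat_lit 0) (nat_lit 0) (XT.lf (nat_lit 0) (nat_lit 33348118787) (nat_lit 152) (nat_lit 53139996550) (nat_lit 0) (nat_lit 27578401749) (nat_lit 1) (nat_lit 5) (nat_lit 3) (nat_lit 4) (nat_lit 1) (nat_lit 4)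 (nat_lit 231) (nat_lit 193) (nat_lit 176)) (XT.lf (nat_lit 0) (nat_lit 41245066466) (nat_lit 152) (nat_lit 54213891985) (nat_lit 0) (nat_lit 35398251647) (nat_lit 1) (nat_lit 5) (nat_lit 3) (nat_lit 4) (nat_lit 1) (nat_lit 4) (nat_lit 232) (nat_lit 193) (nat_lit 175))) (XT.nd (nat_lit 78) (nat_lit 0) (nat_lit 0) (XT.lf (nat_lit 0) (nat_lit 50252248711) (nat_lit 152) (nat_lit 55582030254) (nat_lit 0) (nat_lit 44338392345) (nat_lit 1) (nat_lit 5) (nat_lit 3) (nat_lit 4) (nat_lit 1) (nat_lit 4) (nat_lit 233) (nat_lit 193) (nat_lit 174)) (XT.nd (nat_lit 78) (nat_lit 0) (nat_lit 0) (XT.lf (nat_lit 0) (nat_lit 60545893003) (nat_lit 152) (nat_lit 57271179279) (nat_lit 0) (nat_lit 54573739638) (nat_lit 1) (nat_lit 5) (nat_lit 3) (nat_lit 4) (nat_lit 1) (nat_lit 4) (nat_lit 234) (nat_lit 193) (nat_lit 173)) (XT.lf (nat_lit 0) (nat_lit 72327396729) (nat_lit 152) (nat_lit 59314387628) (nat_lit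 0) (nat_lit 66304550322) (nat_lit 1) (nat_lit 5) (nat_lit 3) (nat_lit 4) (nat_lit 1) (nat_lit 4) (nat_lit 235) (nat_lit 193) (nat_lit 172))))))) (XT.nd (nat_lit 702) (nat_lit 0) (nat_lit 0) (XT.nd (nat_lit 312) (nat_lit 0) (nat_lit 0) (XT.nd (nat_lit 156) (nat_lit 0) (nat_lit 0) (XT.nd (nat_lit 78) (nat_lit 0) (nat_lit 0) (XT.lf (nat_lit 0) (nat_lit 85827267570) (nat_lit 152) (nat_lit 61751631116) (nat_lit 0) (nat_lit 79760340257) (nat_lit 1) (nat_lit 5) (nat_lit 3) (nat_lit 4) (nat_lit 1) (nat_lit 4) (nat_lit 236) (nat_lit 193) (nat_lit 171)) (XT.lf (nat_lit 0) (nat_lit 101309633435) (nat_lit 152) (nat_lit 64630594942) (nat_lit 0) (nat_lit 95204374899) (nat_lit 1) (nat_lit 5) (nat_lit 3) (nat_lit 4) (nat_lit 1) (nat_lit 4) (nat_lit 237) (nat_lit 193) (nat_lit 170))) (XT.nd (nat_lit 78) (nat_lit 0) (nat_lit 0) (XT.lf (nat_lit 0) (nat_lit 119077410177) (nat_lit 152) (nat_lit 68007606659)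 (nat_lit 0) (nat_lit 112938820143) (nat_lit 1) (nat_lit 5) (nat_lit 3) (nat_lit 4) (nat_lit 1) (nat_lit 4) (nat_lit 238) (nat_lit 193) (nat_lit 169)) (XT.lf (nat_lit 0) (nat_lit 139478228211) (nat_lit 152) (nat_lit 71948738236) (nat_lit 0) (nat_lit 133310654266) (nat_lit 1) (nat_lit 5) (nat_lit 3) (nat_lit 4) (nat_lit 1) (nat_lit 4) (nat_lit 239) (nat_lit 193) (nat_lit 168)))) (XT.nd (nat_lit 156) (nat_lit 0) (nat_lit 0) (XT.nd (nat_lit 78) (nat_lit 0) (nat_lit 0) (XT.lf (nat_lit 0) (nat_lit 162911233976) (nat_lit 152) (nat_lit 76531098768) (nat_lit 0) (nat_lit 156718456630) (nat_lit 1) (nat_lit 5) (nat_lit 3) (nat_lit 4) (nat_lit 1) (nat_lit 4) (nat_lit 240) (nat_lit 193) (nat_lit 167)) (XT.lf (nat_lit 0) (nat_lit 189834899325) (nat_lit 152) (nat_lit 81844343135) (nat_lit 0) (nat_lit 183620205978) (nat_lit 1) (nat_lit 5) (nat_lit 3) (nat_lit 4) (nat_lit 1) (nat_lit 4) (nat_lit 241)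 (nat_lit 193) (nat_lit 166))) (XT.nd (nat_lit 78) (nat_lit 0) (nat_lit 0) (XT.lf (nat_lit 0) (nat_lit 220775991623) (nat_lit 152) (nat_lit 87992426120) (nat_lit 0) (nat_lit 214542240884) (nat_lit 1) (nat_lit 5) (nat_lit 3) (nat_lit 4) (nat_lit 1) (nat_lit 4) (nat_lit 242) (nat_lit 193) (nat_lit 165)) (XT.nd (nat_lit 78) (nat_lit 0) (nat_lit 0) (XT.lf (nat_lit 0) (nat_lit 256339880068) (nat_lit 152) (nat_lit 95095636301) (nat_lit 0) (nat_lit 250089557683) (nat_lit 1) (nat_lit 5) (nat_lit 3) (nat_lit 4) (nat_lit 1) (nat_lit 4) (nat_lit 243) (nat_lit 193) (nat_lit 164)) (XT.lf (nat_lit 0) (nat_lit 297222379867) (nat_lit 152) (nat_lit 103292949530) (nat_lit 0) (nat_lit 290957647356) (nat_lit 1) (nat_lit 5) (nat_lit 3) (nat_lit 4) (nat_lit 1) (nat_lit 4) (nat_lit 244) (nat_lit 193) (nat_lit 163)))))) (XT.nd (nat_lit 312) (nat_lit 0) (nat_lit 0) (XT.nd (nat_lit 156) (nat_lit 0) (nat_lit 0)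 (XT.nd (nat_lit 78) (nat_lit 0) (nat_lit 0) (XT.lf (nat_lit 0) (nat_lit 344223366018) (nat_lit 152) (nat_lit 112744748023) (nat_lit 0) (nat_lit 337946102962) (nat_lit 1) (nat_lit 5) (nat_lit 3) (nat_lit 4) (nat_lit 1) (nat_lit 4) (nat_lit 245) (nat_lit 193) (nat_lit 162)) (XT.lf (nat_lit 0) (nat_lit 398262423031) (nat_lit 152) (nat_lit 123635958271) (nat_lit 0) (nat_lit 391974263849) (nat_lit 1) (nat_lit 5) (nat_lit 3) (nat_lit 4) (nat_lit 1) (nat_lit 4) (nat_lit 246) (nat_lit 193) (nat_lit 161))) (XT.nd (nat_lit 78) (nat_lit 0) (nat_lit 0) (XT.lf (nat_lit 0) (nat_lit 460396836804) (nat_lit 152) (nat_lit 136179669171) (nat_lit 0) (nat_lit 454099202731) (nat_lit 1) (nat_lit 5) (nat_lit 3) (nat_lit 4) (nat_lit 1) (nat_lit 4) (nat_lit 247) (nat_lit 193) (nat_lit 160)) (XT.lf (nat_lit 0) (nat_lit 531842280652) (nat_lit 152) (nat_lit 150621301154) (nat_lit 0) (nat_lit 525536407542) (nat_lit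 1) (nat_lit 5) (nat_lit 3) (nat_lit 4) (nat_lit 1) (nat_lit 4) (nat_lit 248) (nat_lit 193) (nat_lit 159)))) (XT.nd (nat_lit 156) (nat_lit 0) (nat_lit 0) (XT.nd (nat_lit 78) (nat_lit 0) (nat_lit 0) (XT.lf (nat_lit 0) (nat_lit 613996600213) (nat_lit 152) (nat_lit 167243407889) (nat_lit 0) (nat_lit 607683562724) (nat_lit 1) (nat_lit 5) (nat_lit 3) (nat_lit 4) (nat_lit 1) (nat_lit 4) (nat_lit 249) (nat_lit 193) (nat_lit 158)) (XT.lf (nat_lit 0) (nat_lit 708467162611) (nat_lit 152) (nat_lit 186371204507) (nat_lit 0) (nat_lit 702147895226) (nat_lit 1) (nat_lit 5) (nat_lit 3) (nat_lit 4) (nat_lit 1) (nat_lit 4) (nat_lit 250) (nat_lit 193) (nat_lit 157))) (XT.nd (nat_lit 78) (nat_lit 0) (nat_lit 0) (XT.lf (nat_lit 0) (nat_lit 817102304935) (nat_lit 152) (nat_lit 208378930508) (nat_lit 0) (nat_lit 810777620250) (nat_lit 1) (nat_lit 5) (nat_lit 3) (nat_lit 4) (nat_lit 1) (nat_lit 4) (nat_lit 251)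 (nat_lit 193) (nat_lit 156)) (XT.nd (nat_lit 78) (nat_lit 0) (nat_lit 0) (XT.lf (nat_lit 0) (nat_lit 942027497361) (nat_lit 152) (nat_lit 233697171835) (nat_lit 0) (nat_lit 935698101980) (nat_lit 1) (nat_lit 5) (nat_lit 3) (nat_lit 4) (nat_lit 1) (nat_lit 4) (nat_lit 252) (nat_lit 193) (nat_lit 155)) (XT.lf (nat_lit 0) (nat_lit 1085686928438) (nat_lit 152) (nat_lit 262821285383) (nat_lit 0) (nat_lit 1079353436799) (nat_lit 1) (nat_lit 5) (nat_lit 3) (nat_lit 4) (nat_lit 1) (nat_lit 4) (nat_lit 253) (nat_lit 193) (nat_lit 154))))))))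
noncomputable def xc15 : XT := (XT.nd (nat_lit 29016) (nat_lit 0) (nat_lit 0) (XT.nd (nat_lit 28314) (nat_lit 0) (nat_lit 152) (XT.nd (nat_lit 312) (nat_lit 0) (nat_lit 0) (XT.nd (nat_lit 156) (nat_lit 0) (nat_lit 0) (XT.nd (nat_lit 78) (nat_lit 0) (nat_lit 0) (XT.lf (nat_lit 0) (nat_lit 1250891326163) (nat_lit 152) (nat_lit 296321090766) (nat_lit 0) (nat_lit 1244554272561) (nat_lit 1) (nat_lit 5) (nat_lit 3) (nat_lit 4) (nat_lit 1) (nat_lit 4) (nat_lit 254) (nat_lit 193) (nat_lit 153)) (XT.lf (nat_lit 0) (nat_lit 1440872950493) (nat_lit 152) (nat_lit 334852018959) (nat_lit 0) (nat_lit 1434532799532) (nat_lit 1) (nat_lit 5) (nat_lit 3) (nat_lit 4) (nat_lit 1) (nat_lit 4) (nat_lit 255) (nat_lit 193) (nat_lit 152))) (XT.nd (nat_lit 78) (nat_lit 0) (nat_lit 0) (XT.lf (nat_lit 0) (nat_lit 1659348833208) (nat_lit 152) (nat_lit 379167935947) (nat_lit 0) (nat_lit 1653005988892) (nat_lit 1)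 (nat_lit 5) (nat_lit 3) (nat_lit 4) (nat_lit 1) (nat_lit 4) (nat_lit 256) (nat_lit 193) (nat_lit 151)) (XT.lf (nat_lit 0) (nat_lit 1910593502448) (nat_lit 152) (nat_lit 430135892281) (nat_lit 0) (nat_lit 1904248316083) (nat_lit 1) (nat_lit 5) (nat_lit 3) (nat_lit 4) (nat_lit 1) (nat_lit 4) (nat_lit 257) (nat_lit 193) (nat_lit 150)))) (XT.nd (nat_lit 27768) (nat_lit 0) (nat_lit 456) (XT.nd (nat_lit 27690) (nat_lit 0) (nat_lit 912) (XT.lf (nat_lit 0) (nat_lit 2199522614785) (nat_lit 152) (nat_lit 488753087106) (nat_lit 0) (nat_lit 2193175391856) (nat_lit 1) (nat_lit 5) (nat_lit 3) (nat_lit 4) (nat_lit 1) (nat_lit 4) (nat_lit 258) (nat_lit 193) (nat_lit 149)) (XT.lf (nat_lit 0) (nat_lit 5343019991) (nat_lit 152) (nat_lit 134920951) (nat_lit 152) (nat_lit 134920951) (nat_lit 13) (nat_lit 4) (nat_lit 15) (nat_lit 5) (nat_lit 15) (nat_lit 4) (nat_lit 212) (nat_lit 194) (nat_lit 194))) (XT.nd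 (nat_lit 78) (nat_lit 304) (nat_lit 0) (XT.lf (nat_lit 0) (nat_lit 5673926652) (nat_lit 152) (nat_lit 2135875675) (nat_lit 0) (nat_lit 4472010235) (nat_lit 11) (nat_lit 5) (nat_lit 13) (nat_lit 4) (nat_lit 11) (nat_lit 4) (nat_lit 213) (nat_lit 194) (nat_lit 193)) (XT.nd (nat_lit 78) (nat_lit 152) (nat_lit 0) (XT.lf (nat_lit 0) (nat_lit 8407386768) (nat_lit 152) (nat_lit 3685444270) (nat_lit 152) (nat_lit 1438383142) (nat_lit 9) (nat_lit 4) (nat_lit 11) (nat_lit 5) (nat_lit 11) (nat_lit 4) (nat_lit 214) (nat_lit 194) (nat_lit 192)) (XT.lf (nat_lit 0) (nat_lit 3904089846) (nat_lit 152) (nat_lit 10106207765) (nat_lit 0) (nat_lit 981976313) (nat_lit 7) (nat_lit 5) (nat_lit 9) (nat_lit 4) (nat_lit 7) (nat_lit 4) (nat_lit 215) (nat_lit 194) (nat_lit 191)))))) (XT.nd (nat_lit 312) (nat_lit 76) (nat_lit 0) (XT.nd (nat_lit 156) (nat_lit 152) (nat_lit 0) (XT.nd (nat_lit 78) (nat_lit 76) (nat_lit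 0) (XT.lf (nat_lit 0) (nat_lit 9684619437) (nat_lit 152) (nat_lit 978767771) (nat_lit 0) (nat_lit 6030765576) (nat_lit 7) (nat_lit 5) (nat_lit 9) (nat_lit 4) (nat_lit 7) (nat_lit 4) (nat_lit 216) (nat_lit 194) (nat_lit 190)) (XT.lf (nat_lit 0) (nat_lit 9213146019) (nat_lit 76) (nat_lit 6874965613) (nat_lit 76) (nat_lit 2584815814) (nat_lit 6) (nat_lit 4) (nat_lit 7) (nat_lit 5) (nat_lit 7) (nat_lit 4) (nat_lit 217) (nat_lit 194) (nat_lit 189))) (XT.nd (nat_lit 78) (nat_lit 76) (nat_lit 0) (XT.lf (nat_lit 0) (nat_lit 1973123584) (nat_lit 152) (nat_lit 739353557) (nat_lit 76) (nat_lit 18265322267) (nat_lit 5) (nat_lit 5) (nat_lit 7) (nat_lit 5) (nat_lit 6) (nat_lit 4) (nat_lit 218) (nat_lit 194) (nat_lit 188)) (XT.lf (nat_lit 0) (nat_lit 6956948456) (nat_lit 152) (nat_lit 14649142457) (nat_lit 0) (nat_lit 2026780162) (nat_lit 4) (nat_lit 5) (nat_lit 6) (nat_lit 4) (nat_lit 4) (nat_lit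 4) (nat_lit 219) (nat_lit 194) (nat_lit 187)))) (XT.nd (nat_lit 156) (nat_lit 0) (nat_lit 0) (XT.nd (nat_lit 78) (nat_lit 76) (nat_lit 0) (XT.lf (nat_lit 0) (nat_lit 12437389131) (nat_lit 152) (nat_lit 7150323475) (nat_lit 0) (nat_lit 7119836663) (nat_lit 4) (nat_lit 5) (nat_lit 6) (nat_lit 4) (nat_lit 4) (nat_lit 4) (nat_lit 220) (nat_lit 194) (nat_lit 186)) (XT.lf (nat_lit 0) (nat_lit 1001405191) (nat_lit 76) (nat_lit 17459911122) (nat_lit 76) (nat_lit 11805502851) (nat_lit 3) (nat_lit 4) (nat_lit 4) (nat_lit 5) (nat_lit 4) (nat_lit 4) (nat_lit 221) (nat_lit 194) (nat_lit 185))) (XT.nd (nat_lit 78) (nat_lit 0) (nat_lit 0) (XT.lf (nat_lit 0) (nat_lit 10331072855) (nat_lit 76) (nat_lit 14991256482) (nat_lit 76) (nat_lit 9043930121) (nat_lit 3) (nat_lit 4) (nat_lit 4) (nat_lit 5) (nat_lit 4) (nat_lit 4) (nat_lit 222) (nat_lit 194) (nat_lit 184)) (XT.nd (nat_lit 78) (nat_lit 0) (nat_lit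 0) (XT.lf (nat_lit 0) (nat_lit 20644693129) (nat_lit 76) (nat_lit 12328951436) (nat_lit 76) (nat_lit 6126913694) (nat_lit 3) (nat_lit 4) (nat_lit 4) (nat_lit 5) (nat_lit 4) (nat_lit 4) (nat_lit 223) (nat_lit 194) (nat_lit 183)) (XT.lf (nat_lit 0) (nat_lit 32144054235) (nat_lit 76) (nat_lit 9420907409) (nat_lit 76) (nat_lit 2997381508) (nat_lit 3) (nat_lit 4) (nat_lit 4) (nat_lit 5) (nat_lit 4) (nat_lit 4) (nat_lit 224) (nat_lit 194) (nat_lit 182))))))) (XT.nd (nat_lit 702) (nat_lit 0) (nat_lit 0) (XT.nd (nat_lit 312) (nat_lit 0) (nat_lit 0) (XT.nd (nat_lit 156) (nat_lit 0) (nat_lit 0) (XT.nd (nat_lit 78) (nat_lit 76) (nat_lit 0) (XT.lf (nat_lit 0) (nat_lit 385591831) (nat_lit 152) (nat_lit 5814093291) (nat_lit 76) (nat_lit 44658009079) (nat_lit 2) (nat_lit 5) (nat_lit 4) (nat_lit 5) (nat_lit 3) (nat_lit 4) (nat_lit 225) (nat_lit 194) (nat_lit 181)) (XT.lf (nat_lit 0) (nat_lit 1490158778)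 (nat_lit 76) (nat_lit 2487610426) (nat_lit 152) (nat_lit 54123519502) (nat_lit 1) (nat_lit 5) (nat_lit 2) (nat_lit 5) (nat_lit 3) (nat_lit 4) (nat_lit 226) (nat_lit 194) (nat_lit 180))) (XT.nd (nat_lit 78) (nat_lit 0) (nat_lit 0) (XT.lf (nat_lit 0) (nat_lit 8175821530) (nat_lit 152) (nat_lit 56490813929) (nat_lit 0) (nat_lit 1759864837) (nat_lit 1) (nat_lit 5) (nat_lit 3) (nat_lit 4) (nat_lit 1) (nat_lit 4) (nat_lit 227) (nat_lit 194) (nat_lit 179)) (XT.lf (nat_lit 0) (nat_lit 12942418428) (nat_lit 152) (nat_lit 56654146764) (nat_lit 0) (nat_lit 6409205649) (nat_lit 1) (nat_lit 5) (nat_lit 3) (nat_lit 4) (nat_lit 1) (nat_lit 4) (nat_lit 228) (nat_lit 194) (nat_lit 178)))) (XT.nd (nat_lit 156) (nat_lit 0) (nat_lit 0) (XT.nd (nat_lit 78) (nat_lit 0) (nat_lit 0) (XT.lf (nat_lit 0) (nat_lit 18310992313) (nat_lit 152) (nat_lit 57044496985) (nat_lit 0) (nat_lit 11675817719) (nat_lit 1) (nat_lit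 5) (nat_lit 3) (nat_lit 4) (nat_lit 1) (nat_lit 4) (nat_lit 229) (nat_lit 194) (nat_lit 177)) (XT.lf (nat_lit 0) (nat_lit 24386580500) (nat_lit 152) (nat_lit 57669501879) (nat_lit 0) (nat_lit 17662743459) (nat_lit 1) (nat_lit 5) (nat_lit 3) (nat_lit 4) (nat_lit 1) (nat_lit 4) (nat_lit 230) (nat_lit 194) (nat_lit 176))) (XT.nd (nat_lit 78) (nat_lit 0) (nat_lit 0) (XT.lf (nat_lit 0) (nat_lit 31288053192) (nat_lit 152) (nat_lit 58541389802) (nat_lit 0) (nat_lit 24487118371) (nat_lit 1) (nat_lit 5) (nat_lit 3) (nat_lit 4) (nat_lit 1) (nat_lit 4) (nat_lit 231) (nat_lit 194) (nat_lit 175)) (XT.nd (nat_lit 78) (nat_lit 0) (nat_lit 0) (XT.lf (nat_lit 0) (nat_lit 39150439204) (nat_lit 152) (nat_lit 59677219432) (nat_lit 0) (nat_lit 32282462834) (nat_lit 1) (nat_lit 5) (nat_lit 3) (nat_lit 4) (nat_lit 1) (nat_lit 4) (nat_lit 232) (nat_lit 194) (nat_lit 174)) (XT.lf (nat_lit 0) (nat_lit 48127567826)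 (nat_lit 152) (nat_lit 61099213523) (nat_lit 0) (nat_lit 41201294458) (nat_lit 1) (nat_lit 5) (nat_lit 3) (nat_lit 4) (nat_lit 1) (nat_lit 4) (nat_lit 233) (nat_lit 194) (nat_lit 173)))))) (XT.nd (nat_lit 312) (nat_lit 0) (nat_lit 0) (XT.nd (nat_lit 156) (nat_lit 0) (nat_lit 0) (XT.nd (nat_lit 78) (nat_lit 0) (nat_lit 0) (XT.lf (nat_lit 0) (nat_lit 58395078531) (nat_lit 152) (nat_lit 62835193696) (nat_lit 0) (nat_lit 51418112121) (nat_lit 1) (nat_lit 5) (nat_lit 3) (nat_lit 4) (nat_lit 1) (nat_lit 4) (nat_lit 234) (nat_lit 194) (nat_lit 172)) (XT.lf (nat_lit 0) (nat_lit 70153857400) (nat_lit 152) (nat_lit 64919124783) (nat_lit 0) (nat_lit 63132810083) (nat_lit 1) (nat_lit 5) (nat_lit 3) (nat_lit 4) (nat_lit 1) (nat_lit 4) (nat_lit 235) (nat_lit 194) (nat_lit 171))) (XT.nd (nat_lit 78) (nat_lit 0) (nat_lit 0) (XT.lf (nat_lit 0) (nat_lit 83633967495) (nat_lit 152) (nat_lit 67391779348)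 (nat_lit 0) (nat_lit 76574588957) (nat_lit 1) (nat_lit 5) (nat_lit 3) (nat_lit 4) (nat_lit 1) (nat_lit 4) (nat_lit 236) (nat_lit 194) (nat_lit 170)) (XT.lf (nat_lit 0) (nat_lit 99099150103) (nat_lit 152) (nat_lit 70301535414) (nat_lit 0) (nat_lit 92006440066) (nat_lit 1) (nat_lit 5) (nat_lit 3) (nat_lit 4) (nat_lit 1) (nat_lit 4) (nat_lit 237) (nat_lit 194) (nat_lit 169)))) (XT.nd (nat_lit 156) (nat_lit 0) (nat_lit 0) (XT.nd (nat_lit 78) (nat_lit 0) (nat_lit 0) (XT.lf (nat_lit 0) (nat_lit 116851984883) (nat_lit 152) (nat_lit 73705322993) (nat_lit 0) (nat_lit 109730290935) (nat_lit 1) (nat_lit 5) (nat_lit 3) (nat_lit 4) (nat_lit 1) (nat_lit 4) (nat_lit 238) (nat_lit 194) (nat_lit 168)) (XT.lf (nat_lit 0) (nat_lit 137239809906) (nat_lit 152) (nat_lit 77669737927) (nat_lit 0) (nat_lit 130092912557) (nat_lit 1) (nat_lit 5) (nat_lit 3) (nat_lit 4) (nat_lit 1) (nat_lit 4) (nat_lit 239) (nat_lit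 194) (nat_lit 167))) (XT.nd (nat_lit 78) (nat_lit 0) (nat_lit 0) (XT.lf (nat_lit 0) (nat_lit 160661517401) (nat_lit 152) (nat_lit 82272344857) (nat_lit 0) (nat_lit 153492704051) (nat_lit 1) (nat_lit 5) (nat_lit 3) (nat_lit 4) (nat_lit 1) (nat_lit 4) (nat_lit 240) (nat_lit 194) (nat_lit 166)) (XT.nd (nat_lit 78) (nat_lit 0) (nat_lit 0) (XT.lf (nat_lit 0) (nat_lit 187575358167) (nat_lit 152) (nat_lit 87603194788) (nat_lit 0) (nat_lit 180387487425) (nat_lit 1) (nat_lit 5) (nat_lit 3) (nat_lit 4) (nat_lit 1) (nat_lit 4) (nat_lit 241) (nat_lit 194) (nat_lit 165)) (XT.lf (nat_lit 0) (nat_lit 218507907350) (nat_lit 152) (nat_lit 93766586958) (nat_lit 0) (nat_lit 211303464962) (nat_lit 1) (nat_lit 5) (nat_lit 3) (nat_lit 4) (nat_lit 1) (nat_lit 4) (nat_lit 242) (nat_lit 194) (nat_lit 164))))))))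
noncomputable def xc16 : XT := (XT.nd (nat_lit 28782) (nat_lit 0) (nat_lit 0) (XT.nd (nat_lit 624) (nat_lit 0) (nat_lit 0) (XT.nd (nat_lit 312) (nat_lit 0) (nat_lit 0) (XT.nd (nat_lit 156) (nat_lit 0) (nat_lit 0) (XT.nd (nat_lit 78) (nat_lit 0) (nat_lit 0) (XT.lf (nat_lit 0) (nat_lit 254064366998) (nat_lit 152) (nat_lit 100883109475) (nat_lit 0) (nat_lit 246845514484) (nat_lit 1) (nat_lit 5) (nat_lit 3) (nat_lit 4) (nat_lit 1) (nat_lit 4) (nat_lit 243) (nat_lit 194) (nat_lit 163)) (XT.lf (nat_lit 0) (nat_lit 294940406975) (nat_lit 152) (nat_lit 109091998648) (nat_lit 0) (nat_lit 287709023916) (nat_lit 1) (nat_lit 5) (nat_lit 3) (nat_lit 4) (nat_lit 1) (nat_lit 4) (nat_lit 244) (nat_lit 194) (nat_lit 162))) (XT.nd (nat_lit 78) (nat_lit 0) (nat_lit 0) (XT.lf (nat_lit 0) (nat_lit 341935775888) (nat_lit 152) (nat_lit 118553863178) (nat_lit 0) (nat_lit 334693496703) (nat_lit 1) (nat_lit 5)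 (nat_lit 3) (nat_lit 4) (nat_lit 1) (nat_lit 4) (nat_lit 245) (nat_lit 194) (nat_lit 161)) (XT.lf (nat_lit 0) (nat_lit 395969948347) (nat_lit 152) (nat_lit 129453826503) (nat_lit 0) (nat_lit 388718194270) (nat_lit 1) (nat_lit 5) (nat_lit 3) (nat_lit 4) (nat_lit 1) (nat_lit 4) (nat_lit 246) (nat_lit 194) (nat_lit 160)))) (XT.nd (nat_lit 156) (nat_lit 0) (nat_lit 0) (XT.nd (nat_lit 78) (nat_lit 0) (nat_lit 0) (XT.lf (nat_lit 0) (nat_lit 458100114682) (nat_lit 152) (nat_lit 142005148775) (nat_lit 0) (nat_lit 450840121569) (nat_lit 1) (nat_lit 5) (nat_lit 3) (nat_lit 4) (nat_lit 1) (nat_lit 4) (nat_lit 247) (nat_lit 194) (nat_lit 159)) (XT.lf (nat_lit 0) (nat_lit 529541865105) (nat_lit 152) (nat_lit 156453399341) (nat_lit 0) (nat_lit 522274707612) (nat_lit 1) (nat_lit 5) (nat_lit 3) (nat_lit 4) (nat_lit 1) (nat_lit 4) (nat_lit 248) (nat_lit 194) (nat_lit 158))) (XT.nd (nat_lit 78) (nat_lit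 0) (nat_lit 0) (XT.lf (nat_lit 0) (nat_lit 611692972993) (nat_lit 152) (nat_lit 173081261366) (nat_lit 0) (nat_lit 604419585605) (nat_lit 1) (nat_lit 5) (nat_lit 3) (nat_lit 4) (nat_lit 1) (nat_lit 4) (nat_lit 249) (nat_lit 194) (nat_lit 157)) (XT.lf (nat_lit 0) (nat_lit 706160742631) (nat_lit 152) (nat_lit 192214062584) (nat_lit 0) (nat_lit 698881937943) (nat_lit 1) (nat_lit 5) (nat_lit 3) (nat_lit 4) (nat_lit 1) (nat_lit 4) (nat_lit 250) (nat_lit 194) (nat_lit 156))))) (XT.nd (nat_lit 312) (nat_lit 0) (nat_lit 0) (XT.nd (nat_lit 156) (nat_lit 0) (nat_lit 0) (XT.nd (nat_lit 78) (nat_lit 0) (nat_lit 0) (XT.lf (nat_lit 0) (nat_lit 814793456468) (nat_lit 152) (nat_lit 214226140410) (nat_lit 0) (nat_lit 807509941084) (nat_lit 1) (nat_lit 5) (nat_lit 3) (nat_lit 4) (nat_lit 1) (nat_lit 4) (nat_lit 251) (nat_lit 194) (nat_lit 155)) (XT.lf (nat_lit 0) (nat_lit 939716537167) (nat_lit 152) (nat_lit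 239548165934) (nat_lit 0) (nat_lit 932428925526) (nat_lit 1) (nat_lit 5) (nat_lit 3) (nat_lit 4) (nat_lit 1) (nat_lit 4) (nat_lit 252) (nat_lit 194) (nat_lit 154))) (XT.nd (nat_lit 78) (nat_lit 0) (nat_lit 0) (XT.lf (nat_lit 0) (nat_lit 1083374131959) (nat_lit 152) (nat_lit 268675570088) (nat_lit 0) (nat_lit 1076082958354) (nat_lit 1) (nat_lit 5) (nat_lit 3) (nat_lit 4) (nat_lit 1) (nat_lit 4) (nat_lit 253) (nat_lit 194) (nat_lit 153)) (XT.lf (nat_lit 0) (nat_lit 1248576932915) (nat_lit 152) (nat_lit 302178236867) (nat_lit 0) (nat_lit 1241282661951) (nat_lit 1) (nat_lit 5) (nat_lit 3) (nat_lit 4) (nat_lit 1) (nat_lit 4) (nat_lit 254) (nat_lit 194) (nat_lit 152)))) (XT.nd (nat_lit 156) (nat_lit 0) (nat_lit 0) (XT.nd (nat_lit 78) (nat_lit 0) (nat_lit 0) (XT.lf (nat_lit 0) (nat_lit 1438557168749) (nat_lit 152) (nat_lit 340711653231) (nat_lit 0) (nat_lit 1431260204430) (nat_lit 1) (nat_lit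 5) (nat_lit 3) (nat_lit 4) (nat_lit 1) (nat_lit 4) (nat_lit 255) (nat_lit 194) (nat_lit 151)) (XT.lf (nat_lit 0) (nat_lit 1657031844077) (nat_lit 152) (nat_lit 385029733845) (nat_lit 0) (nat_lit 1649732537710) (nat_lit 1) (nat_lit 5) (nat_lit 3) (nat_lit 4) (nat_lit 1) (nat_lit 4) (nat_lit 256) (nat_lit 194) (nat_lit 150))) (XT.nd (nat_lit 78) (nat_lit 0) (nat_lit 0) (XT.lf (nat_lit 0) (nat_lit 1908275463415) (nat_lit 152) (nat_lit 435999571594) (nat_lit 0) (nat_lit 1900974120484) (nat_lit 1) (nat_lit 5) (nat_lit 3) (nat_lit 4) (nat_lit 1) (nat_lit 4) (nat_lit 257) (nat_lit 194) (nat_lit 149)) (XT.nd (nat_lit 27534) (nat_lit 0) (nat_lit 1292) (XT.lf (nat_lit 0) (nat_lit 2197203662794) (nat_lit 152) (nat_lit 494618402431) (nat_lit 0) (nat_lit 2189900548938) (nat_lit 1) (nat_lit 5) (nat_lit 3) (nat_lit 4) (nat_lit 1) (nat_lit 4) (nat_lit 258) (nat_lit 194) (nat_lit 148)) (XT.lf (nat_lit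 0) (nat_lit 4759323365) (nat_lit 152) (nat_lit 6634683) (nat_lit 152) (nat_lit 6634683) (nat_lit 18) (nat_lit 4) (nat_lit 20) (nat_lit 5) (nat_lit 20) (nat_lit 4) (nat_lit 210) (nat_lit 195) (nat_lit 195))))))) (XT.nd (nat_lit 702) (nat_lit 228) (nat_lit 0) (XT.nd (nat_lit 312) (nat_lit 380) (nat_lit 0) (XT.nd (nat_lit 156) (nat_lit 228) (nat_lit 0) (XT.nd (nat_lit 78) (nat_lit 228) (nat_lit 0) (XT.lf (nat_lit 0) (nat_lit 5822991246) (nat_lit 228) (nat_lit 169411872) (nat_lit 0) (nat_lit 4330211056) (nat_lit 15) (nat_lit 5) (nat_lit 18) (nat_lit 4) (nat_lit 15) (nat_lit 4) (nat_lit 211) (nat_lit 195) (nat_lit 194)) (XT.lf (nat_lit 0) (nat_lit 842368297) (nat_lit 228) (nat_lit 1038723861) (nat_lit 76) (nat_lit 9369661676) (nat_lit 12) (nat_lit 5) (nat_lit 15) (nat_lit 5) (nat_lit 13) (nat_lit 4) (nat_lit 212) (nat_lit 195) (nat_lit 193))) (XT.nd (nat_lit 78) (nat_lit 152) (nat_lit 0)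 (XT.lf (nat_lit 0) (nat_lit 6429443014) (nat_lit 152) (nat_lit 3105750636) (nat_lit 0) (nat_lit 2800178006) (nat_lit 11) (nat_lit 5) (nat_lit 13) (nat_lit 4) (nat_lit 11) (nat_lit 4) (nat_lit 213) (nat_lit 195) (nat_lit 192)) (XT.lf (nat_lit 0) (nat_lit 6973519037) (nat_lit 152) (nat_lit 5586880708) (nat_lit 152) (nat_lit 1048794213) (nat_lit 9) (nat_lit 4) (nat_lit 11) (nat_lit 5) (nat_lit 11) (nat_lit 4) (nat_lit 214) (nat_lit 195) (nat_lit 191)))) (XT.nd (nat_lit 156) (nat_lit 228) (nat_lit 0) (XT.nd (nat_lit 78) (nat_lit 0) (nat_lit 0) (XT.lf (nat_lit 0) (nat_lit 2919361461) (nat_lit 76) (nat_lit 1045892149) (nat_lit 152) (nat_lit 11130080463) (nat_lit 7) (nat_lit 5) (nat_lit 8) (nat_lit 5) (nat_lit 9) (nat_lit 4) (nat_lit 215) (nat_lit 195) (nat_lit 190)) (XT.lf (nat_lit 0) (nat_lit 9504027974) (nat_lit 152) (nat_lit 3379435203) (nat_lit 0) (nat_lit 3934059768) (nat_lit 7) (nat_lit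 5) (nat_lit 9) (nat_lit 4) (nat_lit 7) (nat_lit 4) (nat_lit 216) (nat_lit 195) (nat_lit 189))) (XT.nd (nat_lit 78) (nat_lit 152) (nat_lit 0) (XT.lf (nat_lit 0) (nat_lit 6360145771) (nat_lit 76) (nat_lit 9290410545) (nat_lit 76) (nat_lit 3167141524) (nat_lit 6) (nat_lit 4) (nat_lit 7) (nat_lit 5) (nat_lit 7) (nat_lit 4) (nat_lit 217) (nat_lit 195) (nat_lit 188)) (XT.nd (nat_lit 78) (nat_lit 76) (nat_lit 0) (XT.lf (nat_lit 0) (nat_lit 1244202784) (nat_lit 152) (nat_lit 4016458372) (nat_lit 76) (nat_lit 15877765917) (nat_lit 5) (nat_lit 5) (nat_lit 7) (nat_lit 5) (nat_lit 6) (nat_lit 4) (nat_lit 218) (nat_lit 195) (nat_lit 187)) (XT.lf (nat_lit 0) (nat_lit 5320963606) (nat_lit 76) (nat_lit 613526143) (nat_lit 152) (nat_lit 17883082323) (nat_lit 4) (nat_lit 5) (nat_lit 5) (nat_lit 5) (nat_lit 6) (nat_lit 4) (nat_lit 219) (nat_lit 195) (nat_lit 186)))))) (XT.nd (nat_lit 312) (nat_lit 152)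 (nat_lit 0) (XT.nd (nat_lit 156) (nat_lit 76) (nat_lit 0) (XT.nd (nat_lit 78) (nat_lit 0) (nat_lit 0) (XT.lf (nat_lit 0) (nat_lit 11259401425) (nat_lit 152) (nat_lit 11225828354) (nat_lit 0) (nat_lit 4419976111) (nat_lit 4) (nat_lit 5) (nat_lit 6) (nat_lit 4) (nat_lit 4) (nat_lit 4) (nat_lit 220) (nat_lit 195) (nat_lit 185)) (XT.lf (nat_lit 0) (nat_lit 17136832893) (nat_lit 152) (nat_lit 3335319412) (nat_lit 0) (nat_lit 10004489489) (nat_lit 4) (nat_lit 5) (nat_lit 6) (nat_lit 4) (nat_lit 4) (nat_lit 4) (nat_lit 221) (nat_lit 195) (nat_lit 184))) (XT.nd (nat_lit 78) (nat_lit 0) (nat_lit 0) (XT.lf (nat_lit 0) (nat_lit 5625461572) (nat_lit 76) (nat_lit 18176852972) (nat_lit 76) (nat_lit 10789798185) (nat_lit 3) (nat_lit 4) (nat_lit 4) (nat_lit 5) (nat_lit 4) (nat_lit 4) (nat_lit 222) (nat_lit 195) (nat_lit 183)) (XT.lf (nat_lit 0) (nat_lit 15771034307) (nat_lit 76) (nat_lit 15585992938)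 (nat_lit 76) (nat_lit 7977449993) (nat_lit 3) (nat_lit 4) (nat_lit 4) (nat_lit 5) (nat_lit 4) (nat_lit 4) (nat_lit 223) (nat_lit 195) (nat_lit 182)))) (XT.nd (nat_lit 156) (nat_lit 152) (nat_lit 0) (XT.nd (nat_lit 78) (nat_lit 0) (nat_lit 0) (XT.lf (nat_lit 0) (nat_lit 27124267118) (nat_lit 76) (nat_lit 12740075008) (nat_lit 76) (nat_lit 4938933664) (nat_lit 3) (nat_lit 4) (nat_lit 4) (nat_lit 5) (nat_lit 4) (nat_lit 4) (nat_lit 224) (nat_lit 195) (nat_lit 181)) (XT.lf (nat_lit 0) (nat_lit 39907288475) (nat_lit 76) (nat_lit 9583418178) (nat_lit 76) (nat_lit 1614799965) (nat_lit 3) (nat_lit 4) (nat_lit 4) (nat_lit 5) (nat_lit 4) (nat_lit 4) (nat_lit 225) (nat_lit 195) (nat_lit 180))) (XT.nd (nat_lit 78) (nat_lit 76) (nat_lit 0) (XT.lf (nat_lit 0) (nat_lit 1956939532) (nat_lit 152) (nat_lit 4043816043) (nat_lit 76) (nat_lit 52359755241) (nat_lit 2) (nat_lit 5) (nat_lit 4) (nat_lit 5) (nat_lit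 3) (nat_lit 4) (nat_lit 226) (nat_lit 195) (nat_lit 179)) (XT.nd (nat_lit 78) (nat_lit 0) (nat_lit 0) (XT.lf (nat_lit 0) (nat_lit 4132408578) (nat_lit 76) (nat_lit 1816291144) (nat_lit 152) (nat_lit 60753704731) (nat_lit 1) (nat_lit 5) (nat_lit 2) (nat_lit 5) (nat_lit 3) (nat_lit 4) (nat_lit 227) (nat_lit 195) (nat_lit 178)) (XT.lf (nat_lit 0) (nat_lit 10619050799) (nat_lit 152) (nat_lit 62783841032) (nat_lit 0) (nat_lit 2886638202) (nat_lit 1) (nat_lit 5) (nat_lit 3) (nat_lit 4) (nat_lit 1) (nat_lit 4) (nat_lit 228) (nat_lit 195) (nat_lit 177))))))))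
noncomputable def xc17 : XT := (XT.nd (nat_lit 1326) (nat_lit 0) (nat_lit 0) (XT.nd (nat_lit 624) (nat_lit 0) (nat_lit 0) (XT.nd (nat_lit 312) (nat_lit 0) (nat_lit 0) (XT.nd (nat_lit 156) (nat_lit 0) (nat_lit 0) (XT.nd (nat_lit 78) (nat_lit 0) (nat_lit 0) (XT.lf (nat_lit 0) (nat_lit 15941916879) (nat_lit 152) (nat_lit 63256099225) (nat_lit 0) (nat_lit 8120841834) (nat_lit 1) (nat_lit 5) (nat_lit 3) (nat_lit 4) (nat_lit 1) (nat_lit 4) (nat_lit 229) (nat_lit 195) (nat_lit 176)) (XT.lf (nat_lit 0) (nat_lit 21977759149) (nat_lit 152) (nat_lit 63952328443) (nat_lit 0) (nat_lit 14079586323) (nat_lit 1) (nat_lit 5) (nat_lit 3) (nat_lit 4) (nat_lit 1) (nat_lit 4) (nat_lit 230) (nat_lit 195) (nat_lit 175))) (XT.nd (nat_lit 78) (nat_lit 0) (nat_lit 0) (XT.lf (nat_lit 0) (nat_lit 28844670174) (nat_lit 152) (nat_lit 64886150561) (nat_lit 0) (nat_lit 20879455800) (nat_lit 1) (nat_lit 5) (nat_lit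 3) (nat_lit 4) (nat_lit 1) (nat_lit 4) (nat_lit 231) (nat_lit 195) (nat_lit 174)) (XT.lf (nat_lit 0) (nat_lit 36677002561) (nat_lit 152) (nat_lit 66075836012) (nat_lit 0) (nat_lit 28653491190) (nat_lit 1) (nat_lit 5) (nat_lit 3) (nat_lit 4) (nat_lit 1) (nat_lit 4) (nat_lit 232) (nat_lit 195) (nat_lit 173)))) (XT.nd (nat_lit 156) (nat_lit 0) (nat_lit 0) (XT.nd (nat_lit 78) (nat_lit 0) (nat_lit 0) (XT.lf (nat_lit 0) (nat_lit 45627997597) (nat_lit 152) (nat_lit 67544661251) (nat_lit 0) (nat_lit 37553793184) (nat_lit 1) (nat_lit 5) (nat_lit 3) (nat_lit 4) (nat_lit 1) (nat_lit 4) (nat_lit 233) (nat_lit 195) (nat_lit 172)) (XT.lf (nat_lit 0) (nat_lit 55872783446) (nat_lit 152) (nat_lit 69321364163) (nat_lit 0) (nat_lit 47754498126) (nat_lit 1) (nat_lit 5) (nat_lit 3) (nat_lit 4) (nat_lit 1) (nat_lit 4) (nat_lit 234) (nat_lit 195) (nat_lit 171))) (XT.nd (nat_lit 78) (nat_lit 0) (nat_lit 0)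 (XT.lf (nat_lit 0) (nat_lit 67611801569) (nat_lit 152) (nat_lit 71440706326) (nat_lit 0) (nat_lit 59455185026) (nat_lit 1) (nat_lit 5) (nat_lit 3) (nat_lit 4) (nat_lit 1) (nat_lit 4) (nat_lit 235) (nat_lit 195) (nat_lit 170)) (XT.lf (nat_lit 0) (nat_lit 81074728407) (nat_lit 152) (nat_lit 73944153132) (nat_lit 0) (nat_lit 72884780367) (nat_lit 1) (nat_lit 5) (nat_lit 3) (nat_lit 4) (nat_lit 1) (nat_lit 4) (nat_lit 236) (nat_lit 195) (nat_lit 169))))) (XT.nd (nat_lit 312) (nat_lit 0) (nat_lit 0) (XT.nd (nat_lit 156) (nat_lit 0) (nat_lit 0) (XT.nd (nat_lit 78) (nat_lit 0) (nat_lit 0) (XT.lf (nat_lit 0) (nat_lit 96524969053) (nat_lit 152) (nat_lit 76880685060) (nat_lit 0) (nat_lit 88306037101) (nat_lit 1) (nat_lit 5) (nat_lit 3) (nat_lit 4) (nat_lit 1) (nat_lit 4) (nat_lit 237) (nat_lit 195) (nat_lit 168)) (XT.lf (nat_lit 0) (nat_lit 114264810821) (nat_lit 152) (nat_lit 80307755996) (nat_lit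 0) (nat_lit 106020675469) (nat_lit 1) (nat_lit 5) (nat_lit 3) (nat_lit 4) (nat_lit 1) (nat_lit 4) (nat_lit 238) (nat_lit 195) (nat_lit 167))) (XT.nd (nat_lit 78) (nat_lit 0) (nat_lit 0) (XT.lf (nat_lit 0) (nat_lit 134641337574) (nat_lit 152) (nat_lit 84292417328) (nat_lit 0) (nat_lit 126375286220) (nat_lit 1) (nat_lit 5) (nat_lit 3) (nat_lit 4) (nat_lit 1) (nat_lit 4) (nat_lit 239) (nat_lit 195) (nat_lit 166)) (XT.lf (nat_lit 0) (nat_lit 158053220486) (nat_lit 152) (nat_lit 88912629822) (nat_lit 0) (nat_lit 149768111740) (nat_lit 1) (nat_lit 5) (nat_lit 3) (nat_lit 4) (nat_lit 1) (nat_lit 4) (nat_lit 240) (nat_lit 195) (nat_lit 165)))) (XT.nd (nat_lit 156) (nat_lit 0) (nat_lit 0) (XT.nd (nat_lit 78) (nat_lit 0) (nat_lit 0) (XT.lf (nat_lit 0) (nat_lit 184958518137) (nat_lit 152) (nat_lit 94258788938) (nat_lit 0) (nat_lit 176656837746) (nat_lit 1) (nat_lit 5) (nat_lit 3) (nat_lit 4) (nat_lit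 1) (nat_lit 4) (nat_lit 241) (nat_lit 195) (nat_lit 164)) (XT.lf (nat_lit 0) (nat_lit 215883638523) (nat_lit 152) (nat_lit 100435493444) (nat_lit 0) (nat_lit 207567548006) (nat_lit 1) (nat_lit 5) (nat_lit 3) (nat_lit 4) (nat_lit 1) (nat_lit 4) (nat_lit 242) (nat_lit 195) (nat_lit 163))) (XT.nd (nat_lit 78) (nat_lit 0) (nat_lit 0) (XT.lf (nat_lit 0) (nat_lit 251433638349) (nat_lit 152) (nat_lit 107563591904) (nat_lit 0) (nat_lit 243105017287) (nat_lit 1) (nat_lit 5) (nat_lit 3) (nat_lit 4) (nat_lit 1) (nat_lit 4) (nat_lit 243) (nat_lit 195) (nat_lit 162)) (XT.nd (nat_lit 78) (nat_lit 0) (nat_lit 0) (XT.lf (nat_lit 0) (nat_lit 292304061088) (nat_lit 152) (nat_lit 115782547115) (nat_lit 0) (nat_lit 283964543900) (nat_lit 1) (nat_lit 5) (nat_lit 3) (nat_lit 4) (nat_lit 1) (nat_lit 4) (nat_lit 244) (nat_lit 195) (nat_lit 161)) (XT.lf (nat_lit 0) (nat_lit 339294545448) (nat_lit 152) (nat_lit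 125253164722) (nat_lit 0) (nat_lit 330945553367) (nat_lit 1) (nat_lit 5) (nat_lit 3) (nat_lit 4) (nat_lit 1) (nat_lit 4) (nat_lit 245) (nat_lit 195) (nat_lit 160))))))) (XT.nd (nat_lit 702) (nat_lit 0) (nat_lit 0) (XT.nd (nat_lit 312) (nat_lit 0) (nat_lit 0) (XT.nd (nat_lit 156) (nat_lit 0) (nat_lit 0) (XT.nd (nat_lit 78) (nat_lit 0) (nat_lit 0) (XT.lf (nat_lit 0) (nat_lit 393324470468) (nat_lit 152) (nat_lit 136160739418) (nat_lit 0) (nat_lit 384967239351) (nat_lit 1) (nat_lit 5) (nat_lit 3) (nat_lit 4) (nat_lit 1) (nat_lit 4) (nat_lit 246) (nat_lit 195) (nat_lit 159)) (XT.lf (nat_lit 0) (nat_lit 455450943379) (nat_lit 152) (nat_lit 148718680273) (nat_lit 0) (nat_lit 447086547883) (nat_lit 1) (nat_lit 5) (nat_lit 3) (nat_lit 4) (nat_lit 1) (nat_lit 4) (nat_lit 247) (nat_lit 195) (nat_lit 158))) (XT.nd (nat_lit 78) (nat_lit 0) (nat_lit 0) (XT.lf (nat_lit 0) (nat_lit 526889482128) (nat_lit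 152) (nat_lit 163172686129) (nat_lit 0) (nat_lit 518518856736) (nat_lit 1) (nat_lit 5) (nat_lit 3) (nat_lit 4) (nat_lit 1) (nat_lit 4) (nat_lit 248) (nat_lit 195) (nat_lit 157)) (XT.lf (nat_lit 0) (nat_lit 609037797257) (nat_lit 152) (nat_lit 179805552754) (nat_lit 0) (nat_lit 600661754565) (nat_lit 1) (nat_lit 5) (nat_lit 3) (nat_lit 4) (nat_lit 1) (nat_lit 4) (nat_lit 249) (nat_lit 195) (nat_lit 156)))) (XT.nd (nat_lit 156) (nat_lit 0) (nat_lit 0) (XT.nd (nat_lit 78) (nat_lit 0) (nat_lit 0) (XT.lf (nat_lit 0) (nat_lit 703503138408) (nat_lit 152) (nat_lit 198942705798) (nat_lit 0) (nat_lit 695122385020) (nat_lit 1) (nat_lit 5) (nat_lit 3) (nat_lit 4) (nat_lit 1) (nat_lit 4) (nat_lit 250) (nat_lit 195) (nat_lit 155)) (XT.lf (nat_lit 0) (nat_lit 812133740518) (nat_lit 152) (nat_lit 220958567821) (nat_lit 0) (nat_lit 803748890873) (nat_lit 1) (nat_lit 5) (nat_lit 3) (nat_lit 4) (nat_lit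 1) (nat_lit 4) (nat_lit 251) (nat_lit 195) (nat_lit 154))) (XT.nd (nat_lit 78) (nat_lit 0) (nat_lit 0) (XT.lf (nat_lit 0) (nat_lit 937054984932) (nat_lit 152) (nat_lit 246283883950) (nat_lit 0) (nat_lit 928666573324) (nat_lit 1) (nat_lit 5) (nat_lit 3) (nat_lit 4) (nat_lit 1) (nat_lit 4) (nat_lit 252) (nat_lit 195) (nat_lit 153)) (XT.nd (nat_lit 78) (nat_lit 0) (nat_lit 0) (XT.lf (nat_lit 0) (nat_lit 1080710982954) (nat_lit 152) (nat_lit 275414149501) (nat_lit 0) (nat_lit 1072319473987) (nat_lit 1) (nat_lit 5) (nat_lit 3) (nat_lit 4) (nat_lit 1) (nat_lit 4) (nat_lit 253) (nat_lit 195) (nat_lit 152)) (XT.lf (nat_lit 0) (nat_lit 1245912395415) (nat_lit 152) (nat_lit 308919304451) (nat_lit 0) (nat_lit 1237518193092) (nat_lit 1) (nat_lit 5) (nat_lit 3) (nat_lit 4) (nat_lit 1) (nat_lit 4) (nat_lit 254) (nat_lit 195) (nat_lit 151)))))) (XT.nd (nat_lit 27612) (nat_lit 0) (nat_lit 836) (XT.nd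 (nat_lit 156) (nat_lit 0) (nat_lit 0) (XT.nd (nat_lit 78) (nat_lit 0) (nat_lit 0) (XT.lf (nat_lit 0) (nat_lit 1435891423862) (nat_lit 152) (nat_lit 347454884440) (nat_lit 0) (nat_lit 1427494879491) (nat_lit 1) (nat_lit 5) (nat_lit 3) (nat_lit 4) (nat_lit 1) (nat_lit 4) (nat_lit 255) (nat_lit 195) (nat_lit 150)) (XT.lf (nat_lit 0) (nat_lit 1654365049288) (nat_lit 152) (nat_lit 391774846470) (nat_lit 0) (nat_lit 1645966468353) (nat_lit 1) (nat_lit 5) (nat_lit 3) (nat_lit 4) (nat_lit 1) (nat_lit 4) (nat_lit 256) (nat_lit 195) (nat_lit 149))) (XT.nd (nat_lit 78) (nat_lit 0) (nat_lit 0) (XT.lf (nat_lit 0) (nat_lit 1905607755668) (nat_lit 152) (nat_lit 442746320231) (nat_lit 0) (nat_lit 1897207403808) (nat_lit 1) (nat_lit 5) (nat_lit 3) (nat_lit 4) (nat_lit 1) (nat_lit 4) (nat_lit 257) (nat_lit 195) (nat_lit 148)) (XT.lf (nat_lit 0) (nat_lit 2194535161171) (nat_lit 152) (nat_lit 501366573688)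 (nat_lit 0) (nat_lit 2186133269376) (nat_lit 1) (nat_lit 5) (nat_lit 3) (nat_lit 4) (nat_lit 1) (nat_lit 4) (nat_lit 258) (nat_lit 195) (nat_lit 147)))) (XT.nd (nat_lit 156) (nat_lit 608) (nat_lit 0) (XT.nd (nat_lit 78) (nat_lit 228) (nat_lit 0) (XT.lf (nat_lit 0) (nat_lit 3658946437) (nat_lit 228) (nat_lit 250424751) (nat_lit 228) (nat_lit 250424751) (nat_lit 23) (nat_lit 4) (nat_lit 26) (nat_lit 5) (nat_lit 26) (nat_lit 4) (nat_lit 208) (nat_lit 196) (nat_lit 196)) (XT.lf (nat_lit 0) (nat_lit 5079417111) (nat_lit 228) (nat_lit 580985825) (nat_lit 0) (nat_lit 3225384115) (nat_lit 20) (nat_lit 5) (nat_lit 23) (nat_lit 4) (nat_lit 20) (nat_lit 4) (nat_lit 209) (nat_lit 196) (nat_lit 195))) (XT.nd (nat_lit 78) (nat_lit 380) (nat_lit 0) (XT.lf (nat_lit 0) (nat_lit 1419494056) (nat_lit 228) (nat_lit 513687963) (nat_lit 76) (nat_lit 7637071494) (nat_lit 17) (nat_lit 5) (nat_lit 20) (nat_lit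 5) (nat_lit 18) (nat_lit 4) (nat_lit 210) (nat_lit 196) (nat_lit 194)) (XT.nd (nat_lit 78) (nat_lit 228) (nat_lit 0) (XT.lf (nat_lit 0) (nat_lit 6897633490) (nat_lit 228) (nat_lit 1090511456) (nat_lit 0) (nat_lit 2390086350) (nat_lit 15) (nat_lit 5) (nat_lit 18) (nat_lit 4) (nat_lit 15) (nat_lit 4) (nat_lit 211) (nat_lit 196) (nat_lit 193)) (XT.lf (nat_lit 0) (nat_lit 1508759370) (nat_lit 228) (nat_lit 2498083937) (nat_lit 76) (nat_lit 7323292308) (nat_lit 12) (nat_lit 5) (nat_lit 15) (nat_lit 5) (nat_lit 13) (nat_lit 4) (nat_lit 212) (nat_lit 196) (nat_lit 192))))))))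
noncomputable def xc18 : XT := (XT.nd (nat_lit 1326) (nat_lit 0) (nat_lit 0) (XT.nd (nat_lit 624) (nat_lit 228) (nat_lit 0) (XT.nd (nat_lit 312) (nat_lit 228) (nat_lit 0) (XT.nd (nat_lit 156) (nat_lit 152) (nat_lit 0) (XT.nd (nat_lit 78) (nat_lit 152) (nat_lit 0) (XT.lf (nat_lit 0) (nat_lit 6753341162) (nat_lit 152) (nat_lit 5064476373) (nat_lit 0) (nat_lit 625720205) (nat_lit 11) (nat_lit 5) (nat_lit 13) (nat_lit 4) (nat_lit 11) (nat_lit 4) (nat_lit 213) (nat_lit 196) (nat_lit 191)) (XT.lf (nat_lit 0) (nat_lit 4552588645) (nat_lit 152) (nat_lit 8053083118) (nat_lit 152) (nat_lit 1135182606) (nat_lit 9) (nat_lit 4) (nat_lit 11) (nat_lit 5) (nat_lit 11) (nat_lit 4) (nat_lit 214) (nat_lit 196) (nat_lit 190))) (XT.nd (nat_lit 78) (nat_lit 76) (nat_lit 0) (XT.lf (nat_lit 0) (nat_lit 3607644545) (nat_lit 228) (nat_lit 101199469) (nat_lit 76) (nat_lit 11541329649) (nat_lit 8) (nat_lit 5) (nat_lit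 11) (nat_lit 5) (nat_lit 9) (nat_lit 4) (nat_lit 215) (nat_lit 196) (nat_lit 189)) (XT.lf (nat_lit 0) (nat_lit 8891397167) (nat_lit 152) (nat_lit 6805873255) (nat_lit 0) (nat_lit 1296336977) (nat_lit 7) (nat_lit 5) (nat_lit 9) (nat_lit 4) (nat_lit 7) (nat_lit 4) (nat_lit 216) (nat_lit 196) (nat_lit 188)))) (XT.nd (nat_lit 156) (nat_lit 76) (nat_lit 0) (XT.nd (nat_lit 78) (nat_lit 76) (nat_lit 0) (XT.lf (nat_lit 0) (nat_lit 2469870674) (nat_lit 76) (nat_lit 12310711775) (nat_lit 76) (nat_lit 4234520442) (nat_lit 6) (nat_lit 4) (nat_lit 7) (nat_lit 5) (nat_lit 7) (nat_lit 4) (nat_lit 217) (nat_lit 196) (nat_lit 187)) (XT.lf (nat_lit 0) (nat_lit 77413804) (nat_lit 152) (nat_lit 8333545528) (nat_lit 76) (nat_lit 12939741105) (nat_lit 5) (nat_lit 5) (nat_lit 7) (nat_lit 5) (nat_lit 6) (nat_lit 4) (nat_lit 218) (nat_lit 196) (nat_lit 186))) (XT.nd (nat_lit 78) (nat_lit 0) (nat_lit 0) (XT.lf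 (nat_lit 0) (nat_lit 543059834) (nat_lit 76) (nat_lit 3976858599) (nat_lit 152) (nat_lit 19530262893) (nat_lit 4) (nat_lit 5) (nat_lit 5) (nat_lit 5) (nat_lit 6) (nat_lit 4) (nat_lit 219) (nat_lit 196) (nat_lit 185)) (XT.lf (nat_lit 0) (nat_lit 9641529988) (nat_lit 152) (nat_lit 16366578536) (nat_lit 0) (nat_lit 1146416983) (nat_lit 4) (nat_lit 5) (nat_lit 6) (nat_lit 4) (nat_lit 4) (nat_lit 4) (nat_lit 220) (nat_lit 196) (nat_lit 184))))) (XT.nd (nat_lit 312) (nat_lit 152) (nat_lit 0) (XT.nd (nat_lit 156) (nat_lit 76) (nat_lit 0) (XT.nd (nat_lit 78) (nat_lit 0) (nat_lit 0) (XT.lf (nat_lit 0) (nat_lit 15412516328) (nat_lit 152) (nat_lit 8659656882) (nat_lit 0) (nat_lit 6662691941) (nat_lit 4) (nat_lit 5) (nat_lit 6) (nat_lit 4) (nat_lit 4) (nat_lit 4) (nat_lit 221) (nat_lit 196) (nat_lit 183)) (XT.lf (nat_lit 0) (nat_lit 21850144513) (nat_lit 152) (nat_lit 139925389) (nat_lit 0) (nat_lit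 12878831968) (nat_lit 4) (nat_lit 5) (nat_lit 6) (nat_lit 4) (nat_lit 4) (nat_lit 4) (nat_lit 222) (nat_lit 196) (nat_lit 182))) (XT.nd (nat_lit 78) (nat_lit 0) (nat_lit 0) (XT.lf (nat_lit 0) (nat_lit 9852150827) (nat_lit 76) (nat_lit 19465161774) (nat_lit 76) (nat_lit 10301250829) (nat_lit 3) (nat_lit 4) (nat_lit 4) (nat_lit 5) (nat_lit 4) (nat_lit 4) (nat_lit 223) (nat_lit 196) (nat_lit 181)) (XT.lf (nat_lit 0) (nat_lit 21078315557) (nat_lit 76) (nat_lit 16673266537) (nat_lit 76) (nat_lit 7341878724) (nat_lit 3) (nat_lit 4) (nat_lit 4) (nat_lit 5) (nat_lit 4) (nat_lit 4) (nat_lit 224) (nat_lit 196) (nat_lit 180)))) (XT.nd (nat_lit 156) (nat_lit 152) (nat_lit 0) (XT.nd (nat_lit 78) (nat_lit 0) (nat_lit 0) (XT.lf (nat_lit 0) (nat_lit 33750842929) (nat_lit 76) (nat_lit 13563585961) (nat_lit 76) (nat_lit 4086566089) (nat_lit 3) (nat_lit 4) (nat_lit 4) (nat_lit 5) (nat_lit 4) (nat_lit 4)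 (nat_lit 225) (nat_lit 196) (nat_lit 179)) (XT.lf (nat_lit 0) (nat_lit 48117673697) (nat_lit 76) (nat_lit 10075278472) (nat_lit 76) (nat_lit 471622025) (nat_lit 3) (nat_lit 4) (nat_lit 4) (nat_lit 5) (nat_lit 4) (nat_lit 4) (nat_lit 226) (nat_lit 196) (nat_lit 178))) (XT.nd (nat_lit 78) (nat_lit 76) (nat_lit 0) (XT.lf (nat_lit 0) (nat_lit 3394910653) (nat_lit 152) (nat_lit 2652361046) (nat_lit 76) (nat_lit 60972164500) (nat_lit 2) (nat_lit 5) (nat_lit 4) (nat_lit 5) (nat_lit 3) (nat_lit 4) (nat_lit 227) (nat_lit 196) (nat_lit 177)) (XT.nd (nat_lit 78) (nat_lit 0) (nat_lit 0) (XT.lf (nat_lit 0) (nat_lit 6581174201) (nat_lit 76) (nat_lit 1298972361) (nat_lit 152) (nat_lit 68741359536) (nat_lit 1) (nat_lit 5) (nat_lit 2) (nat_lit 5) (nat_lit 3) (nat_lit 4) (nat_lit 228) (nat_lit 196) (nat_lit 176)) (XT.lf (nat_lit 0) (nat_lit 13132026408) (nat_lit 152) (nat_lit 70552574098) (nat_lit 0)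 (nat_lit 3972029879) (nat_lit 1) (nat_lit 5) (nat_lit 3) (nat_lit 4) (nat_lit 1) (nat_lit 4) (nat_lit 229) (nat_lit 196) (nat_lit 175))))))) (XT.nd (nat_lit 702) (nat_lit 0) (nat_lit 0) (XT.nd (nat_lit 312) (nat_lit 0) (nat_lit 0) (XT.nd (nat_lit 156) (nat_lit 0) (nat_lit 0) (XT.nd (nat_lit 78) (nat_lit 0) (nat_lit 0) (XT.lf (nat_lit 0) (nat_lit 19133307010) (nat_lit 152) (nat_lit 71310737509) (nat_lit 0) (nat_lit 9906268933) (nat_lit 1) (nat_lit 5) (nat_lit 3) (nat_lit 4) (nat_lit 1) (nat_lit 4) (nat_lit 230) (nat_lit 196) (nat_lit 174)) (XT.lf (nat_lit 0) (nat_lit 25970164411) (nat_lit 152) (nat_lit 72298415449) (nat_lit 0) (nat_lit 16684829335) (nat_lit 1) (nat_lit 5) (nat_lit 3) (nat_lit 4) (nat_lit 1) (nat_lit 4) (nat_lit 231) (nat_lit 196) (nat_lit 173))) (XT.nd (nat_lit 78) (nat_lit 0) (nat_lit 0) (XT.lf (nat_lit 0) (nat_lit 33776363213) (nat_lit 152) (nat_lit 73534932049) (nat_lit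 0) (nat_lit 24440335095) (nat_lit 1) (nat_lit 5) (nat_lit 3) (nat_lit 4) (nat_lit 1) (nat_lit 4) (nat_lit 232) (nat_lit 196) (nat_lit 172)) (XT.lf (nat_lit 0) (nat_lit 42704633392) (nat_lit 152) (nat_lit 75044480026) (nat_lit 0) (nat_lit 33324524368) (nat_lit 1) (nat_lit 5) (nat_lit 3) (nat_lit 4) (nat_lit 1) (nat_lit 4) (nat_lit 233) (nat_lit 196) (nat_lit 171)))) (XT.nd (nat_lit 156) (nat_lit 0) (nat_lit 0) (XT.nd (nat_lit 78) (nat_lit 0) (nat_lit 0) (XT.lf (nat_lit 0) (nat_lit 52929658495) (nat_lit 152) (nat_lit 76856594014) (nat_lit 0) (nat_lit 43511218248) (nat_lit 1) (nat_lit 5) (nat_lit 3) (nat_lit 4) (nat_lit 1) (nat_lit 4) (nat_lit 234) (nat_lit 196) (nat_lit 170)) (XT.lf (nat_lit 0) (nat_lit 64651493360) (nat_lit 152) (nat_lit 79006728418) (nat_lit 0) (nat_lit 55199721616) (nat_lit 1) (nat_lit 5) (nat_lit 3) (nat_lit 4) (nat_lit 1) (nat_lit 4) (nat_lit 235) (nat_lit 196) (nat_lit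 169))) (XT.nd (nat_lit 78) (nat_lit 0) (nat_lit 0) (XT.lf (nat_lit 0) (nat_lit 78099478237) (nat_lit 152) (nat_lit 81536951085) (nat_lit 0) (nat_lit 68618722581) (nat_lit 1) (nat_lit 5) (nat_lit 3) (nat_lit 4) (nat_lit 1) (nat_lit 4) (nat_lit 236) (nat_lit 196) (nat_lit 168)) (XT.nd (nat_lit 78) (nat_lit 0) (nat_lit 0) (XT.lf (nat_lit 0) (nat_lit 93536725871) (nat_lit 152) (nat_lit 84496766371) (nat_lit 0) (nat_lit 84030766814) (nat_lit 1) (nat_lit 5) (nat_lit 3) (nat_lit 4) (nat_lit 1) (nat_lit 4) (nat_lit 237) (nat_lit 196) (nat_lit 167)) (XT.lf (nat_lit 0) (nat_lit 111265269370) (nat_lit 152) (nat_lit 87944083705) (nat_lit 0) (nat_lit 101737394312) (nat_lit 1) (nat_lit 5) (nat_lit 3) (nat_lit 4) (nat_lit 1) (nat_lit 4) (nat_lit 238) (nat_lit 196) (nat_lit 166)))))) (XT.nd (nat_lit 312) (nat_lit 0) (nat_lit 0) (XT.nd (nat_lit 156) (nat_lit 0) (nat_lit 0) (XT.nd (nat_lit 78) (nat_lit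 0) (nat_lit 0) (XT.lf (nat_lit 0) (nat_lit 131631971539) (nat_lit 152) (nat_lit 91946350601) (nat_lit 0) (nat_lit 122085039089) (nat_lit 1) (nat_lit 5) (nat_lit 3) (nat_lit 4) (nat_lit 1) (nat_lit 4) (nat_lit 239) (nat_lit 196) (nat_lit 165)) (XT.lf (nat_lit 0) (nat_lit 155035311336) (nat_lit 152) (nat_lit 96581872280) (nat_lit 0) (nat_lit 145471807241) (nat_lit 1) (nat_lit 5) (nat_lit 3) (nat_lit 4) (nat_lit 1) (nat_lit 4) (nat_lit 240) (nat_lit 196) (nat_lit 164))) (XT.nd (nat_lit 78) (nat_lit 0) (nat_lit 0) (XT.lf (nat_lit 0) (nat_lit 181933180190) (nat_lit 152) (nat_lit 101941343732) (nat_lit 0) (nat_lit 172355265969) (nat_lit 1) (nat_lit 5) (nat_lit 3) (nat_lit 4) (nat_lit 1) (nat_lit 4) (nat_lit 241) (nat_lit 196) (nat_lit 163)) (XT.lf (nat_lit 0) (nat_lit 212851840754) (nat_lit 152) (nat_lit 108129624181) (nat_lit 0) (nat_lit 203261395988) (nat_lit 1) (nat_lit 5) (nat_lit 3) (nat_lit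 4) (nat_lit 1) (nat_lit 4) (nat_lit 242) (nat_lit 196) (nat_lit 162)))) (XT.nd (nat_lit 156) (nat_lit 0) (nat_lit 0) (XT.nd (nat_lit 78) (nat_lit 0) (nat_lit 0) (XT.lf (nat_lit 0) (nat_lit 248396223342) (nat_lit 152) (nat_lit 115267788679) (nat_lit 0) (nat_lit 238794882450) (nat_lit 1) (nat_lit 5) (nat_lit 3) (nat_lit 4) (nat_lit 1) (nat_lit 4) (nat_lit 243) (nat_lit 196) (nat_lit 161)) (XT.lf (nat_lit 0) (nat_lit 289261761528) (nat_lit 152) (nat_lit 123495496967) (nat_lit 0) (nat_lit 279650945744) (nat_lit 1) (nat_lit 5) (nat_lit 3) (nat_lit 4) (nat_lit 1) (nat_lit 4) (nat_lit 244) (nat_lit 196) (nat_lit 160))) (XT.nd (nat_lit 78) (nat_lit 0) (nat_lit 0) (XT.lf (nat_lit 0) (nat_lit 336247998449) (nat_lit 152) (nat_lit 132973725945) (nat_lit 0) (nat_lit 326628943628) (nat_lit 1) (nat_lit 5) (nat_lit 3) (nat_lit 4) (nat_lit 1) (nat_lit 4) (nat_lit 245) (nat_lit 196) (nat_lit 159)) (XT.nd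 (nat_lit 78) (nat_lit 0) (nat_lit 0) (XT.lf (nat_lit 0) (nat_lit 390274230045) (nat_lit 152) (nat_lit 143887919224) (nat_lit 0) (nat_lit 380648010844) (nat_lit 1) (nat_lit 5) (nat_lit 3) (nat_lit 4) (nat_lit 1) (nat_lit 4) (nat_lit 246) (nat_lit 196) (nat_lit 158)) (XT.lf (nat_lit 0) (nat_lit 452397491282) (nat_lit 152) (nat_lit 156451615369) (nat_lit 0) (nat_lit 442765042186) (nat_lit 1) (nat_lit 5) (nat_lit 3) (nat_lit 4) (nat_lit 1) (nat_lit 4) (nat_lit 247) (nat_lit 196) (nat_lit 157))))))))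
noncomputable def xc19 : XT := (XT.nd (nat_lit 28548) (nat_lit 0) (nat_lit 0) (XT.nd (nat_lit 702) (nat_lit 0) (nat_lit 0) (XT.nd (nat_lit 312) (nat_lit 0) (nat_lit 0) (XT.nd (nat_lit 156) (nat_lit 0) (nat_lit 0) (XT.nd (nat_lit 78) (nat_lit 0) (nat_lit 0) (XT.lf (nat_lit 0) (nat_lit 523833237271) (nat_lit 152) (nat_lit 170910625825) (nat_lit 0) (nat_lit 514195370875) (nat_lit 1) (nat_lit 5) (nat_lit 3) (nat_lit 4) (nat_lit 1) (nat_lit 4) (nat_lit 248) (nat_lit 196) (nat_lit 156)) (XT.lf (nat_lit 0) (nat_lit 605979123913) (nat_lit 152) (nat_lit 187547844276) (nat_lit 0) (nat_lit 596336546821) (nat_lit 1) (nat_lit 5) (nat_lit 3) (nat_lit 4) (nat_lit 1) (nat_lit 4) (nat_lit 249) (nat_lit 196) (nat_lit 155))) (XT.nd (nat_lit 78) (nat_lit 0) (nat_lit 0) (XT.lf (nat_lit 0) (nat_lit 700442353337) (nat_lit 152) (nat_lit 206688781516) (nat_lit 0) (nat_lit 690795679988) (nat_lit 1) (nat_lit 5)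 (nat_lit 3) (nat_lit 4) (nat_lit 1) (nat_lit 4) (nat_lit 250) (nat_lit 196) (nat_lit 154)) (XT.lf (nat_lit 0) (nat_lit 809071119162) (nat_lit 152) (nat_lit 228707934146) (nat_lit 0) (nat_lit 799420883850) (nat_lit 1) (nat_lit 5) (nat_lit 3) (nat_lit 4) (nat_lit 1) (nat_lit 4) (nat_lit 251) (nat_lit 196) (nat_lit 153)))) (XT.nd (nat_lit 156) (nat_lit 0) (nat_lit 0) (XT.nd (nat_lit 78) (nat_lit 0) (nat_lit 0) (XT.lf (nat_lit 0) (nat_lit 933990766807) (nat_lit 152) (nat_lit 254036111671) (nat_lit 0) (nat_lit 924337434136) (nat_lit 1) (nat_lit 5) (nat_lit 3) (nat_lit 4) (nat_lit 1) (nat_lit 4) (nat_lit 252) (nat_lit 196) (nat_lit 152)) (XT.lf (nat_lit 0) (nat_lit 1077645376334) (nat_lit 152) (nat_lit 283168865392) (nat_lit 0) (nat_lit 1067989350307) (nat_lit 1) (nat_lit 5) (nat_lit 3) (nat_lit 4) (nat_lit 1) (nat_lit 4) (nat_lit 253) (nat_lit 196) (nat_lit 151))) (XT.nd (nat_lit 78) (nat_lit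 0) (nat_lit 0) (XT.lf (nat_lit 0) (nat_lit 1242845581407) (nat_lit 152) (nat_lit 316676183969) (nat_lit 0) (nat_lit 1233187213332) (nat_lit 1) (nat_lit 5) (nat_lit 3) (nat_lit 4) (nat_lit 1) (nat_lit 4) (nat_lit 254) (nat_lit 196) (nat_lit 150)) (XT.nd (nat_lit 78) (nat_lit 0) (nat_lit 0) (XT.lf (nat_lit 0) (nat_lit 1432823559953) (nat_lit 152) (nat_lit 355213645373) (nat_lit 0) (nat_lit 1423163155314) (nat_lit 1) (nat_lit 5) (nat_lit 3) (nat_lit 4) (nat_lit 1) (nat_lit 4) (nat_lit 255) (nat_lit 196) (nat_lit 149)) (XT.lf (nat_lit 0) (nat_lit 1651296272421) (nat_lit 152) (nat_lit 399535243415) (nat_lit 0) (nat_lit 1641634096857) (nat_lit 1) (nat_lit 5) (nat_lit 3) (nat_lit 4) (nat_lit 1) (nat_lit 4) (nat_lit 256) (nat_lit 196) (nat_lit 148)))))) (XT.nd (nat_lit 27456) (nat_lit 0) (nat_lit 836) (XT.nd (nat_lit 27300) (nat_lit 0) (nat_lit 1900) (XT.nd (nat_lit 78) (nat_lit 0) (nat_lit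 0) (XT.lf (nat_lit 0) (nat_lit 1902538184925) (nat_lit 152) (nat_lit 450508139795) (nat_lit 0) (nat_lit 1892874469426) (nat_lit 1) (nat_lit 5) (nat_lit 3) (nat_lit 4) (nat_lit 1) (nat_lit 4) (nat_lit 257) (nat_lit 196) (nat_lit 147)) (XT.lf (nat_lit 0) (nat_lit 2191464900100) (nat_lit 152) (nat_lit 509129630313) (nat_lit 0) (nat_lit 2181799845527) (nat_lit 1) (nat_lit 5) (nat_lit 3) (nat_lit 4) (nat_lit 1) (nat_lit 4) (nat_lit 258) (nat_lit 196) (nat_lit 146))) (XT.nd (nat_lit 78) (nat_lit 532) (nat_lit 0) (XT.lf (nat_lit 0) (nat_lit 2638634084) (nat_lit 380) (nat_lit 543387911) (nat_lit 380) (nat_lit 543387911) (nat_lit 33) (nat_lit 4) (nat_lit 38) (nat_lit 5) (nat_lit 38) (nat_lit 4) (nat_lit 206) (nat_lit 197) (nat_lit 197)) (XT.lf (nat_lit 0) (nat_lit 4201313245) (nat_lit 532) (nat_lit 1750798216) (nat_lit 0) (nat_lit 1898604264) (nat_lit 26) (nat_lit 5) (nat_lit 33) (nat_lit 4)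 (nat_lit 26) (nat_lit 4) (nat_lit 207) (nat_lit 197) (nat_lit 196)))) (XT.nd (nat_lit 156) (nat_lit 608) (nat_lit 0) (XT.nd (nat_lit 78) (nat_lit 152) (nat_lit 0) (XT.lf (nat_lit 0) (nat_lit 1369423505) (nat_lit 304) (nat_lit 1456663725) (nat_lit 76) (nat_lit 5520247035) (nat_lit 22) (nat_lit 5) (nat_lit 26) (nat_lit 5) (nat_lit 23) (nat_lit 4) (nat_lit 208) (nat_lit 197) (nat_lit 195)) (XT.lf (nat_lit 0) (nat_lit 6548497400) (nat_lit 228) (nat_lit 1445492293) (nat_lit 0) (nat_lit 950123853) (nat_lit 20) (nat_lit 5) (nat_lit 23) (nat_lit 4) (nat_lit 20) (nat_lit 4) (nat_lit 209) (nat_lit 197) (nat_lit 194))) (XT.nd (nat_lit 78) (nat_lit 380) (nat_lit 0) (XT.lf (nat_lit 0) (nat_lit 2450971849) (nat_lit 228) (nat_lit 1902267410) (nat_lit 76) (nat_lit 5299300819) (nat_lit 17) (nat_lit 5) (nat_lit 20) (nat_lit 5) (nat_lit 18) (nat_lit 4) (nat_lit 210) (nat_lit 197) (nat_lit 193)) (XT.nd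 (nat_lit 78) (nat_lit 228) (nat_lit 0) (XT.lf (nat_lit 0) (nat_lit 7538855253) (nat_lit 152) (nat_lit 37202871) (nat_lit 228) (nat_lit 2914423997) (nat_lit 15) (nat_lit 5) (nat_lit 17) (nat_lit 5) (nat_lit 18) (nat_lit 4) (nat_lit 211) (nat_lit 197) (nat_lit 192)) (XT.lf (nat_lit 0) (nat_lit 1755867985) (nat_lit 228) (nat_lit 4939827025) (nat_lit 76) (nat_lit 4770246413) (nat_lit 12) (nat_lit 5) (nat_lit 15) (nat_lit 5) (nat_lit 13) (nat_lit 4) (nat_lit 212) (nat_lit 197) (nat_lit 191))))))) (XT.nd (nat_lit 702) (nat_lit 228) (nat_lit 0) (XT.nd (nat_lit 312) (nat_lit 228) (nat_lit 0) (XT.nd (nat_lit 156) (nat_lit 152) (nat_lit 0) (XT.nd (nat_lit 78) (nat_lit 152) (nat_lit 0) (XT.lf (nat_lit 0) (nat_lit 4500800202) (nat_lit 76) (nat_lit 2204168334) (nat_lit 152) (nat_lit 5899217748) (nat_lit 11) (nat_lit 5) (nat_lit 12) (nat_lit 5) (nat_lit 13) (nat_lit 4) (nat_lit 213) (nat_lit 197)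 (nat_lit 190)) (XT.lf (nat_lit 0) (nat_lit 1097229563) (nat_lit 152) (nat_lit 11132303285) (nat_lit 152) (nat_lit 1699238529) (nat_lit 9) (nat_lit 4) (nat_lit 11) (nat_lit 5) (nat_lit 11) (nat_lit 4) (nat_lit 214) (nat_lit 197) (nat_lit 189))) (XT.nd (nat_lit 78) (nat_lit 76) (nat_lit 0) (XT.lf (nat_lit 0) (nat_lit 2893255891) (nat_lit 228) (nat_lit 4012657381) (nat_lit 76) (nat_lit 8548389696) (nat_lit 8) (nat_lit 5) (nat_lit 11) (nat_lit 5) (nat_lit 9) (nat_lit 4) (nat_lit 215) (nat_lit 197) (nat_lit 188)) (XT.lf (nat_lit 0) (nat_lit 5847851072) (nat_lit 76) (nat_lit 2035851977) (nat_lit 152) (nat_lit 9338231244) (nat_lit 7) (nat_lit 5) (nat_lit 8) (nat_lit 5) (nat_lit 9) (nat_lit 4) (nat_lit 216) (nat_lit 197) (nat_lit 187)))) (XT.nd (nat_lit 156) (nat_lit 152) (nat_lit 0) (XT.nd (nat_lit 78) (nat_lit 76) (nat_lit 0) (XT.lf (nat_lit 0) (nat_lit 13522106594) (nat_lit 152) (nat_lit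 2407042744) (nat_lit 0) (nat_lit 3334980510) (nat_lit 7) (nat_lit 5) (nat_lit 9) (nat_lit 4) (nat_lit 7) (nat_lit 4) (nat_lit 217) (nat_lit 197) (nat_lit 186)) (XT.lf (nat_lit 0) (nat_lit 7801311191) (nat_lit 76) (nat_lit 12182626225) (nat_lit 76) (nat_lit 1631695873) (nat_lit 6) (nat_lit 4) (nat_lit 7) (nat_lit 5) (nat_lit 7) (nat_lit 4) (nat_lit 218) (nat_lit 197) (nat_lit 185))) (XT.nd (nat_lit 78) (nat_lit 76) (nat_lit 0) (XT.lf (nat_lit 0) (nat_lit 2763829900) (nat_lit 152) (nat_lit 5118515696) (nat_lit 76) (nat_lit 16446642551) (nat_lit 5) (nat_lit 5) (nat_lit 7) (nat_lit 5) (nat_lit 6) (nat_lit 4) (nat_lit 219) (nat_lit 197) (nat_lit 184)) (XT.nd (nat_lit 78) (nat_lit 0) (nat_lit 0) (XT.lf (nat_lit 0) (nat_lit 4711635240) (nat_lit 76) (nat_lit 2910482750) (nat_lit 152) (nat_lit 19832668344) (nat_lit 4) (nat_lit 5) (nat_lit 5) (nat_lit 5) (nat_lit 6) (nat_lit 4) (nat_lit 220) (nat_lit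 197) (nat_lit 183)) (XT.lf (nat_lit 0) (nat_lit 13230546172) (nat_lit 152) (nat_lit 15125873381) (nat_lit 0) (nat_lit 2692048586) (nat_lit 4) (nat_lit 5) (nat_lit 6) (nat_lit 4) (nat_lit 4) (nat_lit 4) (nat_lit 221) (nat_lit 197) (nat_lit 182)))))) (XT.nd (nat_lit 312) (nat_lit 152) (nat_lit 0) (XT.nd (nat_lit 156) (nat_lit 0) (nat_lit 0) (XT.nd (nat_lit 78) (nat_lit 76) (nat_lit 0) (XT.lf (nat_lit 0) (nat_lit 19587686548) (nat_lit 152) (nat_lit 6744960254) (nat_lit 0) (nat_lit 8856590563) (nat_lit 4) (nat_lit 5) (nat_lit 6) (nat_lit 4) (nat_lit 4) (nat_lit 4) (nat_lit 222) (nat_lit 197) (nat_lit 181)) (XT.lf (nat_lit 0) (nat_lit 2772238450) (nat_lit 76) (nat_lit 24042354725) (nat_lit 76) (nat_lit 13143781871) (nat_lit 3) (nat_lit 4) (nat_lit 4) (nat_lit 5) (nat_lit 4) (nat_lit 4) (nat_lit 223) (nat_lit 197) (nat_lit 180))) (XT.nd (nat_lit 78) (nat_lit 0) (nat_lit 0) (XT.lf (nat_lit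 0) (nat_lit 13887909195) (nat_lit 76) (nat_lit 21297435742) (nat_lit 76) (nat_lit 10253230829) (nat_lit 3) (nat_lit 4) (nat_lit 4) (nat_lit 5) (nat_lit 4) (nat_lit 4) (nat_lit 224) (nat_lit 197) (nat_lit 179)) (XT.lf (nat_lit 0) (nat_lit 26464354841) (nat_lit 76) (nat_lit 18228604084) (nat_lit 76) (nat_lit 7057762598) (nat_lit 3) (nat_lit 4) (nat_lit 4) (nat_lit 5) (nat_lit 4) (nat_lit 4) (nat_lit 225) (nat_lit 197) (nat_lit 178)))) (XT.nd (nat_lit 156) (nat_lit 76) (nat_lit 0) (XT.nd (nat_lit 78) (nat_lit 76) (nat_lit 0) (XT.lf (nat_lit 0) (nat_lit 40747636282) (nat_lit 76) (nat_lit 14775817392) (nat_lit 76) (nat_lit 3494857146) (nat_lit 3) (nat_lit 4) (nat_lit 4) (nat_lit 5) (nat_lit 4) (nat_lit 4) (nat_lit 226) (nat_lit 197) (nat_lit 177)) (XT.lf (nat_lit 0) (nat_lit 479922667) (nat_lit 152) (nat_lit 10378476540) (nat_lit 76) (nat_lit 56524164420) (nat_lit 2) (nat_lit 5) (nat_lit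 4) (nat_lit 5) (nat_lit 3) (nat_lit 4) (nat_lit 227) (nat_lit 197) (nat_lit 176))) (XT.nd (nat_lit 78) (nat_lit 76) (nat_lit 0) (XT.lf (nat_lit 0) (nat_lit 4769500892) (nat_lit 152) (nat_lit 1539419435) (nat_lit 76) (nat_lit 70691483295) (nat_lit 2) (nat_lit 5) (nat_lit 4) (nat_lit 5) (nat_lit 3) (nat_lit 4) (nat_lit 228) (nat_lit 197) (nat_lit 175)) (XT.nd (nat_lit 78) (nat_lit 0) (nat_lit 0) (XT.lf (nat_lit 0) (nat_lit 8951264762) (nat_lit 76) (nat_lit 896644336) (nat_lit 152) (nat_lit 78201598700) (nat_lit 1) (nat_lit 5) (nat_lit 2) (nat_lit 5) (nat_lit 3) (nat_lit 4) (nat_lit 229) (nat_lit 197) (nat_lit 174)) (XT.lf (nat_lit 0) (nat_lit 15797571759) (nat_lit 152) (nat_lit 79888697952) (nat_lit 0) (nat_lit 5061139424) (nat_lit 1) (nat_lit 5) (nat_lit 3) (nat_lit 4) (nat_lit 1) (nat_lit 4) (nat_lit 230) (nat_lit 197) (nat_lit 173))))))))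
noncomputable def xc20 : XT := (XT.nd (nat_lit 1326) (nat_lit 0) (nat_lit 0) (XT.nd (nat_lit 624) (nat_lit 0) (nat_lit 0) (XT.nd (nat_lit 312) (nat_lit 0) (nat_lit 0) (XT.nd (nat_lit 156) (nat_lit 0) (nat_lit 0) (XT.nd (nat_lit 78) (nat_lit 0) (nat_lit 0) (XT.lf (nat_lit 0) (nat_lit 22608295575) (nat_lit 152) (nat_lit 80923207040) (nat_lit 0) (nat_lit 11821170197) (nat_lit 1) (nat_lit 5) (nat_lit 3) (nat_lit 4) (nat_lit 1) (nat_lit 4) (nat_lit 231) (nat_lit 197) (nat_lit 172)) (XT.lf (nat_lit 0) (nat_lit 30391769519) (nat_lit 152) (nat_lit 82200446378) (nat_lit 0) (nat_lit 19560563236) (nat_lit 1) (nat_lit 5) (nat_lit 3) (nat_lit 4) (nat_lit 1) (nat_lit 4) (nat_lit 232) (nat_lit 197) (nat_lit 171))) (XT.nd (nat_lit 78) (nat_lit 0) (nat_lit 0) (XT.lf (nat_lit 0) (nat_lit 39300278952) (nat_lit 152) (nat_lit 83745405432) (nat_lit 0) (nat_lit 28430741446) (nat_lit 1) (nat_lit 5) (nat_lit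 3) (nat_lit 4) (nat_lit 1) (nat_lit 4) (nat_lit 233) (nat_lit 197) (nat_lit 170)) (XT.lf (nat_lit 0) (nat_lit 49508120798) (nat_lit 152) (nat_lit 85588311661) (nat_lit 0) (nat_lit 38605251794) (nat_lit 1) (nat_lit 5) (nat_lit 3) (nat_lit 4) (nat_lit 1) (nat_lit 4) (nat_lit 234) (nat_lit 197) (nat_lit 169)))) (XT.nd (nat_lit 156) (nat_lit 0) (nat_lit 0) (XT.nd (nat_lit 78) (nat_lit 0) (nat_lit 0) (XT.lf (nat_lit 0) (nat_lit 61215013702) (nat_lit 152) (nat_lit 87765221926) (nat_lit 0) (nat_lit 50283160786) (nat_lit 1) (nat_lit 5) (nat_lit 3) (nat_lit 4) (nat_lit 1) (nat_lit 4) (nat_lit 235) (nat_lit 197) (nat_lit 168)) (XT.lf (nat_lit 0) (nat_lit 74650005567) (nat_lit 152) (nat_lit 90318727951) (nat_lit 0) (nat_lit 63692949251) (nat_lit 1) (nat_lit 5) (nat_lit 3) (nat_lit 4) (nat_lit 1) (nat_lit 4) (nat_lit 236) (nat_lit 197) (nat_lit 167))) (XT.nd (nat_lit 78) (nat_lit 0) (nat_lit 0)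 (XT.lf (nat_lit 0) (nat_lit 90075954931) (nat_lit 152) (nat_lit 93298789634) (nat_lit 0) (nat_lit 79096982614) (nat_lit 1) (nat_lit 5) (nat_lit 3) (nat_lit 4) (nat_lit 1) (nat_lit 4) (nat_lit 237) (nat_lit 197) (nat_lit 166)) (XT.lf (nat_lit 0) (nat_lit 107794673847) (nat_lit 152) (nat_lit 96763712532) (nat_lit 0) (nat_lit 96796644137) (nat_lit 1) (nat_lit 5) (nat_lit 3) (nat_lit 4) (nat_lit 1) (nat_lit 4) (nat_lit 238) (nat_lit 197) (nat_lit 165))))) (XT.nd (nat_lit 312) (nat_lit 0) (nat_lit 0) (XT.nd (nat_lit 156) (nat_lit 0) (nat_lit 0) (XT.nd (nat_lit 78) (nat_lit 0) (nat_lit 0) (XT.lf (nat_lit 0) (nat_lit 128152832901) (nat_lit 152) (nat_lit 100781288613) (nat_lit 0) (nat_lit 117138231546) (nat_lit 1) (nat_lit 5) (nat_lit 3) (nat_lit 4) (nat_lit 1) (nat_lit 4) (nat_lit 239) (nat_lit 197) (nat_lit 164)) (XT.lf (nat_lit 0) (nat_lit 151548743901) (nat_lit 152) (nat_lit 105430122628)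 (nat_lit 0) (nat_lit 140519732420) (nat_lit 1) (nat_lit 5) (nat_lit 3) (nat_lit 4) (nat_lit 1) (nat_lit 4) (nat_lit 240) (nat_lit 197) (nat_lit 163))) (XT.nd (nat_lit 78) (nat_lit 0) (nat_lit 0) (XT.lf (nat_lit 0) (nat_lit 178440152933) (nat_lit 152) (nat_lit 110801170024) (nat_lit 0) (nat_lit 167398610907) (nat_lit 1) (nat_lit 5) (nat_lit 3) (nat_lit 4) (nat_lit 1) (nat_lit 4) (nat_lit 241) (nat_lit 197) (nat_lit 162)) (XT.lf (nat_lit 0) (nat_lit 209353196260) (nat_lit 152) (nat_lit 116999516511) (nat_lit 0) (nat_lit 198300758108) (nat_lit 1) (nat_lit 5) (nat_lit 3) (nat_lit 4) (nat_lit 1) (nat_lit 4) (nat_lit 242) (nat_lit 197) (nat_lit 161)))) (XT.nd (nat_lit 156) (nat_lit 0) (nat_lit 0) (XT.nd (nat_lit 78) (nat_lit 0) (nat_lit 0) (XT.lf (nat_lit 0) (nat_lit 244892694294) (nat_lit 152) (nat_lit 124146434086) (nat_lit 0) (nat_lit 233830781250) (nat_lit 1) (nat_lit 5) (nat_lit 3) (nat_lit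 4) (nat_lit 1) (nat_lit 4) (nat_lit 243) (nat_lit 197) (nat_lit 160)) (XT.lf (nat_lit 0) (nat_lit 285753985041) (nat_lit 152) (nat_lit 132381753744) (nat_lit 0) (nat_lit 274683832960) (nat_lit 1) (nat_lit 5) (nat_lit 3) (nat_lit 4) (nat_lit 1) (nat_lit 4) (nat_lit 244) (nat_lit 197) (nat_lit 159))) (XT.nd (nat_lit 78) (nat_lit 0) (nat_lit 0) (XT.lf (nat_lit 0) (nat_lit 332736528537) (nat_lit 152) (nat_lit 141866601306) (nat_lit 0) (nat_lit 321659212077) (nat_lit 1) (nat_lit 5) (nat_lit 3) (nat_lit 4) (nat_lit 1) (nat_lit 4) (nat_lit 245) (nat_lit 197) (nat_lit 158)) (XT.nd (nat_lit 78) (nat_lit 0) (nat_lit 0) (XT.lf (nat_lit 0) (nat_lit 386759548460) (nat_lit 152) (nat_lit 152786549875) (nat_lit 0) (nat_lit 375676002104) (nat_lit 1) (nat_lit 5) (nat_lit 3) (nat_lit 4) (nat_lit 1) (nat_lit 4) (nat_lit 246) (nat_lit 197) (nat_lit 157)) (XT.lf (nat_lit 0) (nat_lit 448880016937) (nat_lit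 152) (nat_lit 165355250620) (nat_lit 0) (nat_lit 437791053281) (nat_lit 1) (nat_lit 5) (nat_lit 3) (nat_lit 4) (nat_lit 1) (nat_lit 4) (nat_lit 247) (nat_lit 197) (nat_lit 156))))))) (XT.nd (nat_lit 702) (nat_lit 0) (nat_lit 0) (XT.nd (nat_lit 312) (nat_lit 0) (nat_lit 0) (XT.nd (nat_lit 156) (nat_lit 0) (nat_lit 0) (XT.nd (nat_lit 78) (nat_lit 0) (nat_lit 0) (XT.lf (nat_lit 0) (nat_lit 520313334440) (nat_lit 152) (nat_lit 179818612902) (nat_lit 0) (nat_lit 509219660088) (nat_lit 1) (nat_lit 5) (nat_lit 3) (nat_lit 4) (nat_lit 1) (nat_lit 4) (nat_lit 248) (nat_lit 197) (nat_lit 155)) (XT.lf (nat_lit 0) (nat_lit 602457109354) (nat_lit 152) (nat_lit 196459615549) (nat_lit 0) (nat_lit 591359338745) (nat_lit 1) (nat_lit 5) (nat_lit 3) (nat_lit 4) (nat_lit 1) (nat_lit 4) (nat_lit 249) (nat_lit 197) (nat_lit 154))) (XT.nd (nat_lit 78) (nat_lit 0) (nat_lit 0) (XT.lf (nat_lit 0) (nat_lit 696918502493)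 (nat_lit 152) (nat_lit 215603843395) (nat_lit 0) (nat_lit 685817169922) (nat_lit 1) (nat_lit 5) (nat_lit 3) (nat_lit 4) (nat_lit 1) (nat_lit 4) (nat_lit 250) (nat_lit 197) (nat_lit 153)) (XT.lf (nat_lit 0) (nat_lit 805545671549) (nat_lit 152) (nat_lit 237625857421) (nat_lit 0) (nat_lit 794441241618) (nat_lit 1) (nat_lit 5) (nat_lit 3) (nat_lit 4) (nat_lit 1) (nat_lit 4) (nat_lit 251) (nat_lit 197) (nat_lit 152)))) (XT.nd (nat_lit 156) (nat_lit 0) (nat_lit 0) (XT.nd (nat_lit 78) (nat_lit 0) (nat_lit 0) (XT.lf (nat_lit 0) (nat_lit 930463930698) (nat_lit 152) (nat_lit 262956523117) (nat_lit 0) (nat_lit 919356807412) (nat_lit 1) (nat_lit 5) (nat_lit 3) (nat_lit 4) (nat_lit 1) (nat_lit 4) (nat_lit 252) (nat_lit 197) (nat_lit 151)) (XT.lf (nat_lit 0) (nat_lit 1074117332838) (nat_lit 152) (nat_lit 292091440464) (nat_lit 0) (nat_lit 1063007867504) (nat_lit 1) (nat_lit 5) (nat_lit 3) (nat_lit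 4) (nat_lit 1) (nat_lit 4) (nat_lit 253) (nat_lit 197) (nat_lit 150))) (XT.nd (nat_lit 78) (nat_lit 0) (nat_lit 0) (XT.lf (nat_lit 0) (nat_lit 1239316488010) (nat_lit 152) (nat_lit 325600640456) (nat_lit 0) (nat_lit 1228204986112) (nat_lit 1) (nat_lit 5) (nat_lit 3) (nat_lit 4) (nat_lit 1) (nat_lit 4) (nat_lit 254) (nat_lit 197) (nat_lit 149)) (XT.nd (nat_lit 78) (nat_lit 0) (nat_lit 0) (XT.lf (nat_lit 0) (nat_lit 1429293553598) (nat_lit 152) (nat_lit 364139737872) (nat_lit 0) (nat_lit 1418180280774) (nat_lit 1) (nat_lit 5) (nat_lit 3) (nat_lit 4) (nat_lit 1) (nat_lit 4) (nat_lit 255) (nat_lit 197) (nat_lit 148)) (XT.lf (nat_lit 0) (nat_lit 1647765472189) (nat_lit 152) (nat_lit 408462758534) (nat_lit 0) (nat_lit 1636650659431) (nat_lit 1) (nat_lit 5) (nat_lit 3) (nat_lit 4) (nat_lit 1) (nat_lit 4) (nat_lit 256) (nat_lit 197) (nat_lit 147)))))) (XT.nd (nat_lit 27378) (nat_lit 0) (nat_lit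 1064) (XT.nd (nat_lit 27222) (nat_lit 0) (nat_lit 2356) (XT.nd (nat_lit 27144) (nat_lit 0) (nat_lit 3192) (XT.lf (nat_lit 0) (nat_lit 1899006694365) (nat_lit 152) (nat_lit 459436891975) (nat_lit 0) (nat_lit 1887890542533) (nat_lit 1) (nat_lit 5) (nat_lit 3) (nat_lit 4) (nat_lit 1) (nat_lit 4) (nat_lit 257) (nat_lit 197) (nat_lit 146)) (XT.lf (nat_lit 0) (nat_lit 2071913674) (nat_lit 228) (nat_lit 682362894) (nat_lit 228) (nat_lit 682362894) (nat_lit 43) (nat_lit 4) (nat_lit 46) (nat_lit 5) (nat_lit 46) (nat_lit 4) (nat_lit 204) (nat_lit 198) (nat_lit 198))) (XT.nd (nat_lit 78) (nat_lit 456) (nat_lit 0) (XT.lf (nat_lit 0) (nat_lit 3663299327) (nat_lit 380) (nat_lit 2669324654) (nat_lit 0) (nat_lit 803334772) (nat_lit 38) (nat_lit 5) (nat_lit 43) (nat_lit 4) (nat_lit 38) (nat_lit 4) (nat_lit 205) (nat_lit 198) (nat_lit 197)) (XT.lf (nat_lit 0) (nat_lit 1324965478) (nat_lit 456) (nat_lit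 2590962059) (nat_lit 76) (nat_lit 3563751243) (nat_lit 32) (nat_lit 5) (nat_lit 38) (nat_lit 5) (nat_lit 33) (nat_lit 4) (nat_lit 206) (nat_lit 198) (nat_lit 196)))) (XT.nd (nat_lit 156) (nat_lit 532) (nat_lit 0) (XT.nd (nat_lit 78) (nat_lit 304) (nat_lit 0) (XT.lf (nat_lit 0) (nat_lit 5341881723) (nat_lit 456) (nat_lit 836635615) (nat_lit 532) (nat_lit 1732431384) (nat_lit 26) (nat_lit 5) (nat_lit 32) (nat_lit 5) (nat_lit 33) (nat_lit 4) (nat_lit 207) (nat_lit 198) (nat_lit 195)) (XT.lf (nat_lit 0) (nat_lit 2851473220) (nat_lit 304) (nat_lit 2763294461) (nat_lit 76) (nat_lit 2817690153) (nat_lit 22) (nat_lit 5) (nat_lit 26) (nat_lit 5) (nat_lit 23) (nat_lit 4) (nat_lit 208) (nat_lit 198) (nat_lit 194))) (XT.nd (nat_lit 78) (nat_lit 380) (nat_lit 0) (XT.lf (nat_lit 0) (nat_lit 5821522398) (nat_lit 152) (nat_lit 1885184184) (nat_lit 228) (nat_lit 1351574028) (nat_lit 20) (nat_lit 5) (nat_lit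 22) (nat_lit 5) (nat_lit 23) (nat_lit 4) (nat_lit 209) (nat_lit 198) (nat_lit 193)) (XT.nd (nat_lit 78) (nat_lit 152) (nat_lit 0) (XT.lf (nat_lit 0) (nat_lit 3102008883) (nat_lit 228) (nat_lit 4219125806) (nat_lit 76) (nat_lit 2472545951) (nat_lit 17) (nat_lit 5) (nat_lit 20) (nat_lit 5) (nat_lit 18) (nat_lit 4) (nat_lit 210) (nat_lit 198) (nat_lit 192)) (XT.lf (nat_lit 0) (nat_lit 4793461111) (nat_lit 152) (nat_lit 3151161378) (nat_lit 228) (nat_lit 2711093670) (nat_lit 15) (nat_lit 5) (nat_lit 17) (nat_lit 5) (nat_lit 18) (nat_lit 4) (nat_lit 211) (nat_lit 198) (nat_lit 191))))))))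
noncomputable def xc21 : XT := (XT.nd (nat_lit 1326) (nat_lit 76) (nat_lit 0) (XT.nd (nat_lit 624) (nat_lit 228) (nat_lit 0) (XT.nd (nat_lit 312) (nat_lit 228) (nat_lit 0) (XT.nd (nat_lit 156) (nat_lit 228) (nat_lit 0) (XT.nd (nat_lit 78) (nat_lit 76) (nat_lit 0) (XT.lf (nat_lit 0) (nat_lit 1588528878) (nat_lit 228) (nat_lit 8411726358) (nat_lit 76) (nat_lit 1660573094) (nat_lit 12) (nat_lit 5) (nat_lit 15) (nat_lit 5) (nat_lit 13) (nat_lit 4) (nat_lit 212) (nat_lit 198) (nat_lit 190)) (XT.lf (nat_lit 0) (nat_lit 563425920) (nat_lit 76) (nat_lit 5696895198) (nat_lit 152) (nat_lit 6561983899) (nat_lit 11) (nat_lit 5) (nat_lit 12) (nat_lit 5) (nat_lit 13) (nat_lit 4) (nat_lit 213) (nat_lit 198) (nat_lit 189))) (XT.nd (nat_lit 78) (nat_lit 228) (nat_lit 0) (XT.lf (nat_lit 0) (nat_lit 10865805377) (nat_lit 76) (nat_lit 657856861) (nat_lit 152) (nat_lit 2645036303) (nat_lit 11) (nat_lit 5)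 (nat_lit 12) (nat_lit 5) (nat_lit 13) (nat_lit 4) (nat_lit 214) (nat_lit 198) (nat_lit 188)) (XT.lf (nat_lit 0) (nat_lit 1737899766) (nat_lit 228) (nat_lit 9037579082) (nat_lit 76) (nat_lit 4941853831) (nat_lit 8) (nat_lit 5) (nat_lit 11) (nat_lit 5) (nat_lit 9) (nat_lit 4) (nat_lit 215) (nat_lit 198) (nat_lit 187)))) (XT.nd (nat_lit 156) (nat_lit 152) (nat_lit 0) (XT.nd (nat_lit 78) (nat_lit 0) (nat_lit 0) (XT.lf (nat_lit 0) (nat_lit 334066013) (nat_lit 76) (nat_lit 6126665481) (nat_lit 152) (nat_lit 11046279268) (nat_lit 7) (nat_lit 5) (nat_lit 8) (nat_lit 5) (nat_lit 9) (nat_lit 4) (nat_lit 216) (nat_lit 198) (nat_lit 186)) (XT.lf (nat_lit 0) (nat_lit 11239477727) (nat_lit 76) (nat_lit 653138538) (nat_lit 152) (nat_lit 7673665923) (nat_lit 7) (nat_lit 5) (nat_lit 8) (nat_lit 5) (nat_lit 9) (nat_lit 4) (nat_lit 217) (nat_lit 198) (nat_lit 185))) (XT.nd (nat_lit 78) (nat_lit 76) (nat_lit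 0) (XT.lf (nat_lit 0) (nat_lit 1400015835) (nat_lit 76) (nat_lit 16677082722) (nat_lit 76) (nat_lit 3863357013) (nat_lit 6) (nat_lit 4) (nat_lit 7) (nat_lit 5) (nat_lit 7) (nat_lit 4) (nat_lit 218) (nat_lit 198) (nat_lit 184)) (XT.lf (nat_lit 0) (nat_lit 543333931) (nat_lit 152) (nat_lit 11958679424) (nat_lit 76) (nat_lit 12164516650) (nat_lit 5) (nat_lit 5) (nat_lit 7) (nat_lit 5) (nat_lit 6) (nat_lit 4) (nat_lit 219) (nat_lit 198) (nat_lit 183))))) (XT.nd (nat_lit 312) (nat_lit 152) (nat_lit 0) (XT.nd (nat_lit 156) (nat_lit 0) (nat_lit 0) (XT.nd (nat_lit 78) (nat_lit 76) (nat_lit 0) (XT.lf (nat_lit 0) (nat_lit 5200940510) (nat_lit 152) (nat_lit 2510064951) (nat_lit 76) (nat_lit 20097714759) (nat_lit 5) (nat_lit 5) (nat_lit 7) (nat_lit 5) (nat_lit 6) (nat_lit 4) (nat_lit 220) (nat_lit 198) (nat_lit 182)) (XT.lf (nat_lit 0) (nat_lit 8508827733) (nat_lit 76) (nat_lit 2089660351) (nat_lit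 152) (nat_lit 20821077871) (nat_lit 4) (nat_lit 5) (nat_lit 5) (nat_lit 5) (nat_lit 6) (nat_lit 4) (nat_lit 221) (nat_lit 198) (nat_lit 181))) (XT.nd (nat_lit 78) (nat_lit 0) (nat_lit 0) (XT.lf (nat_lit 0) (nat_lit 16835382681) (nat_lit 152) (nat_lit 14600280336) (nat_lit 0) (nat_lit 4134547031) (nat_lit 4) (nat_lit 5) (nat_lit 6) (nat_lit 4) (nat_lit 4) (nat_lit 4) (nat_lit 222) (nat_lit 198) (nat_lit 180)) (XT.lf (nat_lit 0) (nat_lit 23934756559) (nat_lit 152) (nat_lit 5326726854) (nat_lit 0) (nat_lit 11088288850) (nat_lit 4) (nat_lit 5) (nat_lit 6) (nat_lit 4) (nat_lit 4) (nat_lit 4) (nat_lit 223) (nat_lit 198) (nat_lit 179)))) (XT.nd (nat_lit 156) (nat_lit 76) (nat_lit 0) (XT.nd (nat_lit 78) (nat_lit 0) (nat_lit 0) (XT.lf (nat_lit 0) (nat_lit 5412366168) (nat_lit 76) (nat_lit 26703055501) (nat_lit 76) (nat_lit 13729951218) (nat_lit 3) (nat_lit 4) (nat_lit 4) (nat_lit 5) (nat_lit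 4) (nat_lit 4) (nat_lit 224) (nat_lit 198) (nat_lit 178)) (XT.lf (nat_lit 0) (nat_lit 17905262487) (nat_lit 76) (nat_lit 23669744640) (nat_lit 76) (nat_lit 10586521597) (nat_lit 3) (nat_lit 4) (nat_lit 4) (nat_lit 5) (nat_lit 4) (nat_lit 4) (nat_lit 225) (nat_lit 198) (nat_lit 177))) (XT.nd (nat_lit 78) (nat_lit 76) (nat_lit 0) (XT.lf (nat_lit 0) (nat_lit 32115892340) (nat_lit 76) (nat_lit 20247845598) (nat_lit 76) (nat_lit 7068867112) (nat_lit 3) (nat_lit 4) (nat_lit 4) (nat_lit 5) (nat_lit 4) (nat_lit 4) (nat_lit 226) (nat_lit 198) (nat_lit 176)) (XT.nd (nat_lit 78) (nat_lit 76) (nat_lit 0) (XT.lf (nat_lit 0) (nat_lit 48322289787) (nat_lit 76) (nat_lit 16370408176) (nat_lit 76) (nat_lit 3108164087) (nat_lit 3) (nat_lit 4) (nat_lit 4) (nat_lit 5) (nat_lit 4) (nat_lit 4) (nat_lit 227) (nat_lit 198) (nat_lit 175)) (XT.lf (nat_lit 0) (nat_lit 1304392495) (nat_lit 152) (nat_lit 10621512570)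 (nat_lit 76) (nat_lit 65501479621) (nat_lit 2) (nat_lit 5) (nat_lit 4) (nat_lit 5) (nat_lit 3) (nat_lit 4) (nat_lit 228) (nat_lit 198) (nat_lit 174))))))) (XT.nd (nat_lit 702) (nat_lit 0) (nat_lit 0) (XT.nd (nat_lit 312) (nat_lit 0) (nat_lit 0) (XT.nd (nat_lit 156) (nat_lit 0) (nat_lit 0) (XT.nd (nat_lit 78) (nat_lit 76) (nat_lit 0) (XT.lf (nat_lit 0) (nat_lit 6139257702) (nat_lit 152) (nat_lit 627953698) (nat_lit 76) (nat_lit 81728849736) (nat_lit 2) (nat_lit 5) (nat_lit 4) (nat_lit 5) (nat_lit 3) (nat_lit 4) (nat_lit 229) (nat_lit 198) (nat_lit 173)) (XT.lf (nat_lit 0) (nat_lit 11339636466) (nat_lit 76) (nat_lit 579591740) (nat_lit 152) (nat_lit 89288386885) (nat_lit 1) (nat_lit 5) (nat_lit 2) (nat_lit 5) (nat_lit 3) (nat_lit 4) (nat_lit 230) (nat_lit 198) (nat_lit 172))) (XT.nd (nat_lit 78) (nat_lit 0) (nat_lit 0) (XT.lf (nat_lit 0) (nat_lit 18693287969) (nat_lit 152) (nat_lit 90929271256)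 (nat_lit 0) (nat_lit 6193319837) (nat_lit 1) (nat_lit 5) (nat_lit 3) (nat_lit 4) (nat_lit 1) (nat_lit 4) (nat_lit 231) (nat_lit 198) (nat_lit 171)) (XT.lf (nat_lit 0) (nat_lit 26457001168) (nat_lit 152) (nat_lit 92241921671) (nat_lit 0) (nat_lit 13918701814) (nat_lit 1) (nat_lit 5) (nat_lit 3) (nat_lit 4) (nat_lit 1) (nat_lit 4) (nat_lit 232) (nat_lit 198) (nat_lit 170)))) (XT.nd (nat_lit 156) (nat_lit 0) (nat_lit 0) (XT.nd (nat_lit 78) (nat_lit 0) (nat_lit 0) (XT.lf (nat_lit 0) (nat_lit 35348327345) (nat_lit 152) (nat_lit 93817672966) (nat_lit 0) (nat_lit 22776696492) (nat_lit 1) (nat_lit 5) (nat_lit 3) (nat_lit 4) (nat_lit 1) (nat_lit 4) (nat_lit 233) (nat_lit 198) (nat_lit 169)) (XT.lf (nat_lit 0) (nat_lit 45541227228) (nat_lit 152) (nat_lit 95687355056) (nat_lit 0) (nat_lit 32940612464) (nat_lit 1) (nat_lit 5) (nat_lit 3) (nat_lit 4) (nat_lit 1) (nat_lit 4) (nat_lit 234) (nat_lit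 198) (nat_lit 168))) (XT.nd (nat_lit 78) (nat_lit 0) (nat_lit 0) (XT.lf (nat_lit 0) (nat_lit 57235127121) (nat_lit 152) (nat_lit 97887548679) (nat_lit 0) (nat_lit 44609308956) (nat_lit 1) (nat_lit 5) (nat_lit 3) (nat_lit 4) (nat_lit 1) (nat_lit 4) (nat_lit 235) (nat_lit 198) (nat_lit 167)) (XT.nd (nat_lit 78) (nat_lit 0) (nat_lit 0) (XT.lf (nat_lit 0) (nat_lit 70658820716) (nat_lit 152) (nat_lit 100461301101) (nat_lit 0) (nat_lit 58011086550) (nat_lit 1) (nat_lit 5) (nat_lit 3) (nat_lit 4) (nat_lit 1) (nat_lit 4) (nat_lit 236) (nat_lit 198) (nat_lit 166)) (XT.lf (nat_lit 0) (nat_lit 86074945497) (nat_lit 152) (nat_lit 103458968349) (nat_lit 0) (nat_lit 73408153939) (nat_lit 1) (nat_lit 5) (nat_lit 3) (nat_lit 4) (nat_lit 1) (nat_lit 4) (nat_lit 237) (nat_lit 198) (nat_lit 165)))))) (XT.nd (nat_lit 312) (nat_lit 0) (nat_lit 0) (XT.nd (nat_lit 156) (nat_lit 0) (nat_lit 0) (XT.nd (nat_lit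 78) (nat_lit 0) (nat_lit 0) (XT.lf (nat_lit 0) (nat_lit 103785121297) (nat_lit 152) (nat_lit 106939200432) (nat_lit 0) (nat_lit 91101758093) (nat_lit 1) (nat_lit 5) (nat_lit 3) (nat_lit 4) (nat_lit 1) (nat_lit 4) (nat_lit 238) (nat_lit 198) (nat_lit 164)) (XT.lf (nat_lit 0) (nat_lit 124135851555) (nat_lit 152) (nat_lit 110970088849) (nat_lit 0) (nat_lit 111438078225) (nat_lit 1) (nat_lit 5) (nat_lit 3) (nat_lit 4) (nat_lit 1) (nat_lit 4) (nat_lit 239) (nat_lit 198) (nat_lit 163))) (XT.nd (nat_lit 78) (nat_lit 0) (nat_lit 0) (XT.lf (nat_lit 0) (nat_lit 147525302732) (nat_lit 152) (nat_lit 115630498807) (nat_lit 0) (nat_lit 134814998858) (nat_lit 1) (nat_lit 5) (nat_lit 3) (nat_lit 4) (nat_lit 1) (nat_lit 4) (nat_lit 240) (nat_lit 198) (nat_lit 162)) (XT.lf (nat_lit 0) (nat_lit 174411094527) (nat_lit 152) (nat_lit 121011612241) (nat_lit 0) (nat_lit 161689894526) (nat_lit 1) (nat_lit 5)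 (nat_lit 3) (nat_lit 4) (nat_lit 1) (nat_lit 4) (nat_lit 241) (nat_lit 198) (nat_lit 161)))) (XT.nd (nat_lit 156) (nat_lit 0) (nat_lit 0) (XT.nd (nat_lit 78) (nat_lit 0) (nat_lit 0) (XT.lf (nat_lit 0) (nat_lit 205319253299) (nat_lit 152) (nat_lit 127218711805) (nat_lit 0) (nat_lit 192588578407) (nat_lit 1) (nat_lit 5) (nat_lit 3) (nat_lit 4) (nat_lit 1) (nat_lit 4) (nat_lit 242) (nat_lit 198) (nat_lit 160)) (XT.lf (nat_lit 0) (nat_lit 240854503895) (nat_lit 152) (nat_lit 134373240750) (nat_lit 0) (nat_lit 228115589966) (nat_lit 1) (nat_lit 5) (nat_lit 3) (nat_lit 4) (nat_lit 1) (nat_lit 4) (nat_lit 243) (nat_lit 198) (nat_lit 159))) (XT.nd (nat_lit 78) (nat_lit 0) (nat_lit 0) (XT.lf (nat_lit 0) (nat_lit 281712101218) (nat_lit 152) (nat_lit 142615178992) (nat_lit 0) (nat_lit 268966022909) (nat_lit 1) (nat_lit 5) (nat_lit 3) (nat_lit 4) (nat_lit 1) (nat_lit 4) (nat_lit 244) (nat_lit 198)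 (nat_lit 158)) (XT.nd (nat_lit 78) (nat_lit 0) (nat_lit 0) (XT.lf (nat_lit 0) (nat_lit 328691433041) (nat_lit 152) (nat_lit 152105781844) (nat_lit 0) (nat_lit 315939124836) (nat_lit 1) (nat_lit 5) (nat_lit 3) (nat_lit 4) (nat_lit 1) (nat_lit 4) (nat_lit 245) (nat_lit 198) (nat_lit 157)) (XT.lf (nat_lit 0) (nat_lit 382711660203) (nat_lit 152) (nat_lit 163030735013) (nat_lit 0) (nat_lit 369953934699) (nat_lit 1) (nat_lit 5) (nat_lit 3) (nat_lit 4) (nat_lit 1) (nat_lit 4) (nat_lit 246) (nat_lit 198) (nat_lit 156))))))))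
noncomputable def xc22 : XT := (XT.nd (nat_lit 28236) (nat_lit 0) (nat_lit 152) (XT.nd (nat_lit 624) (nat_lit 0) (nat_lit 0) (XT.nd (nat_lit 312) (nat_lit 0) (nat_lit 0) (XT.nd (nat_lit 156) (nat_lit 0) (nat_lit 0) (XT.nd (nat_lit 78) (nat_lit 0) (nat_lit 0) (XT.lf (nat_lit 0) (nat_lit 444829700194) (nat_lit 152) (nat_lit 175603787584) (nat_lit 0) (nat_lit 432067263994) (nat_lit 1) (nat_lit 5) (nat_lit 3) (nat_lit 4) (nat_lit 1) (nat_lit 4) (nat_lit 247) (nat_lit 198) (nat_lit 155)) (XT.lf (nat_lit 0) (nat_lit 516260905970) (nat_lit 152) (nat_lit 190070934062) (nat_lit 0) (nat_lit 503494373512) (nat_lit 1) (nat_lit 5) (nat_lit 3) (nat_lit 4) (nat_lit 1) (nat_lit 4) (nat_lit 248) (nat_lit 198) (nat_lit 154))) (XT.nd (nat_lit 78) (nat_lit 0) (nat_lit 0) (XT.lf (nat_lit 0) (nat_lit 598402844599) (nat_lit 152) (nat_lit 206715227315) (nat_lit 0) (nat_lit 585632750179) (nat_lit 1) (nat_lit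 5) (nat_lit 3) (nat_lit 4) (nat_lit 1) (nat_lit 4) (nat_lit 249) (nat_lit 198) (nat_lit 153)) (XT.lf (nat_lit 0) (nat_lit 692862640969) (nat_lit 152) (nat_lit 225862316558) (nat_lit 0) (nat_lit 680089449189) (nat_lit 1) (nat_lit 5) (nat_lit 3) (nat_lit 4) (nat_lit 1) (nat_lit 4) (nat_lit 250) (nat_lit 198) (nat_lit 152)))) (XT.nd (nat_lit 156) (nat_lit 0) (nat_lit 0) (XT.nd (nat_lit 78) (nat_lit 0) (nat_lit 0) (XT.lf (nat_lit 0) (nat_lit 801488421529) (nat_lit 152) (nat_lit 247886818754) (nat_lit 0) (nat_lit 788712536394) (nat_lit 1) (nat_lit 5) (nat_lit 3) (nat_lit 4) (nat_lit 1) (nat_lit 4) (nat_lit 251) (nat_lit 198) (nat_lit 151)) (XT.lf (nat_lit 0) (nat_lit 926405473292) (nat_lit 152) (nat_lit 273219648077) (nat_lit 0) (nat_lit 913627246108) (nat_lit 1) (nat_lit 5) (nat_lit 3) (nat_lit 4) (nat_lit 1) (nat_lit 4) (nat_lit 252) (nat_lit 198) (nat_lit 150))) (XT.nd (nat_lit 78) (nat_lit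 0) (nat_lit 0) (XT.lf (nat_lit 0) (nat_lit 1070057825530) (nat_lit 152) (nat_lit 302356446839) (nat_lit 0) (nat_lit 1057277561783) (nat_lit 1) (nat_lit 5) (nat_lit 3) (nat_lit 4) (nat_lit 1) (nat_lit 4) (nat_lit 253) (nat_lit 198) (nat_lit 149)) (XT.lf (nat_lit 0) (nat_lit 1235256067744) (nat_lit 152) (nat_lit 335867282843) (nat_lit 0) (nat_lit 1222474033071) (nat_lit 1) (nat_lit 5) (nat_lit 3) (nat_lit 4) (nat_lit 1) (nat_lit 4) (nat_lit 254) (nat_lit 198) (nat_lit 148))))) (XT.nd (nat_lit 27222) (nat_lit 0) (nat_lit 1900) (XT.nd (nat_lit 156) (nat_lit 0) (nat_lit 0) (XT.nd (nat_lit 78) (nat_lit 0) (nat_lit 0) (XT.lf (nat_lit 0) (nat_lit 1425232339455) (nat_lit 152) (nat_lit 374407802879) (nat_lit 0) (nat_lit 1412448764848) (nat_lit 1) (nat_lit 5) (nat_lit 3) (nat_lit 4) (nat_lit 1) (nat_lit 4) (nat_lit 255) (nat_lit 198) (nat_lit 147)) (XT.lf (nat_lit 0) (nat_lit 1643703567719) (nat_lit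 152) (nat_lit 418732060601) (nat_lit 0) (nat_lit 1630918654038) (nat_lit 1) (nat_lit 5) (nat_lit 3) (nat_lit 4) (nat_lit 1) (nat_lit 4) (nat_lit 256) (nat_lit 198) (nat_lit 146))) (XT.nd (nat_lit 26988) (nat_lit 0) (nat_lit 3648) (XT.lf (nat_lit 0) (nat_lit 1894944189610) (nat_lit 152) (nat_lit 469707269747) (nat_lit 0) (nat_lit 1882158111517) (nat_lit 1) (nat_lit 5) (nat_lit 3) (nat_lit 4) (nat_lit 1) (nat_lit 4) (nat_lit 257) (nat_lit 198) (nat_lit 145)) (XT.lf (nat_lit 0) (nat_lit 2205320725) (nat_lit 76) (nat_lit 533612967) (nat_lit 76) (nat_lit 533612967) (nat_lit 49) (nat_lit 4) (nat_lit 50) (nat_lit 5) (nat_lit 50) (nat_lit 4) (nat_lit 202) (nat_lit 199) (nat_lit 199)))) (XT.nd (nat_lit 156) (nat_lit 1216) (nat_lit 0) (XT.nd (nat_lit 78) (nat_lit 304) (nat_lit 0) (XT.lf (nat_lit 0) (nat_lit 3775016817) (nat_lit 228) (nat_lit 2690116369) (nat_lit 0) (nat_lit 222940839) (nat_lit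 46) (nat_lit 5) (nat_lit 49) (nat_lit 4) (nat_lit 46) (nat_lit 4) (nat_lit 203) (nat_lit 199) (nat_lit 198)) (XT.lf (nat_lit 0) (nat_lit 1696097220) (nat_lit 304) (nat_lit 3112955477) (nat_lit 76) (nat_lit 2094922431) (nat_lit 42) (nat_lit 5) (nat_lit 46) (nat_lit 5) (nat_lit 43) (nat_lit 4) (nat_lit 204) (nat_lit 199) (nat_lit 197))) (XT.nd (nat_lit 78) (nat_lit 912) (nat_lit 0) (XT.lf (nat_lit 0) (nat_lit 3747460937) (nat_lit 304) (nat_lit 2538201749) (nat_lit 380) (nat_lit 911771379) (nat_lit 38) (nat_lit 5) (nat_lit 42) (nat_lit 5) (nat_lit 43) (nat_lit 4) (nat_lit 205) (nat_lit 199) (nat_lit 196)) (XT.nd (nat_lit 78) (nat_lit 456) (nat_lit 0) (XT.lf (nat_lit 0) (nat_lit 3363800032) (nat_lit 456) (nat_lit 3801689512) (nat_lit 76) (nat_lit 405304404) (nat_lit 32) (nat_lit 5) (nat_lit 38) (nat_lit 5) (nat_lit 33) (nat_lit 4) (nat_lit 206) (nat_lit 199) (nat_lit 195)) (XT.lf (nat_lit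 0) (nat_lit 3769101095) (nat_lit 456) (nat_lit 4138575728) (nat_lit 532) (nat_lit 121814297) (nat_lit 26) (nat_lit 5) (nat_lit 32) (nat_lit 5) (nat_lit 33) (nat_lit 4) (nat_lit 207) (nat_lit 199) (nat_lit 194))))))) (XT.nd (nat_lit 702) (nat_lit 380) (nat_lit 0) (XT.nd (nat_lit 312) (nat_lit 532) (nat_lit 0) (XT.nd (nat_lit 156) (nat_lit 380) (nat_lit 0) (XT.nd (nat_lit 78) (nat_lit 152) (nat_lit 0) (XT.lf (nat_lit 0) (nat_lit 3635826083) (nat_lit 228) (nat_lit 372482926) (nat_lit 304) (nat_lit 4571585580) (nat_lit 22) (nat_lit 5) (nat_lit 25) (nat_lit 5) (nat_lit 26) (nat_lit 5) (nat_lit 208) (nat_lit 199) (nat_lit 193)) (XT.lf (nat_lit 0) (nat_lit 3250437097) (nat_lit 152) (nat_lit 5317244803) (nat_lit 228) (nat_lit 663561914) (nat_lit 20) (nat_lit 5) (nat_lit 22) (nat_lit 5) (nat_lit 23) (nat_lit 4) (nat_lit 209) (nat_lit 199) (nat_lit 192))) (XT.nd (nat_lit 78) (nat_lit 152) (nat_lit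 0) (XT.lf (nat_lit 0) (nat_lit 2462277101) (nat_lit 152) (nat_lit 945812555) (nat_lit 228) (nat_lit 6586527248) (nat_lit 17) (nat_lit 5) (nat_lit 19) (nat_lit 5) (nat_lit 20) (nat_lit 5) (nat_lit 210) (nat_lit 199) (nat_lit 191)) (XT.lf (nat_lit 0) (nat_lit 1063172375) (nat_lit 152) (nat_lit 6886856734) (nat_lit 228) (nat_lit 2931977820) (nat_lit 15) (nat_lit 5) (nat_lit 17) (nat_lit 5) (nat_lit 18) (nat_lit 4) (nat_lit 211) (nat_lit 199) (nat_lit 190)))) (XT.nd (nat_lit 156) (nat_lit 304) (nat_lit 0) (XT.nd (nat_lit 78) (nat_lit 152) (nat_lit 0) (XT.lf (nat_lit 0) (nat_lit 1082712747) (nat_lit 228) (nat_lit 1063597559) (nat_lit 76) (nat_lit 9765959457) (nat_lit 14) (nat_lit 5) (nat_lit 17) (nat_lit 5) (nat_lit 15) (nat_lit 5) (nat_lit 212) (nat_lit 199) (nat_lit 189)) (XT.lf (nat_lit 0) (nat_lit 5502914757) (nat_lit 228) (nat_lit 4268231266) (nat_lit 76) (nat_lit 3323638221) (nat_lit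 12) (nat_lit 5) (nat_lit 15) (nat_lit 5) (nat_lit 13) (nat_lit 4) (nat_lit 213) (nat_lit 199) (nat_lit 188))) (XT.nd (nat_lit 78) (nat_lit 228) (nat_lit 0) (XT.lf (nat_lit 0) (nat_lit 5595666021) (nat_lit 76) (nat_lit 4919310588) (nat_lit 152) (nat_lit 3947095303) (nat_lit 11) (nat_lit 5) (nat_lit 12) (nat_lit 5) (nat_lit 13) (nat_lit 4) (nat_lit 214) (nat_lit 199) (nat_lit 187)) (XT.nd (nat_lit 78) (nat_lit 0) (nat_lit 0) (XT.lf (nat_lit 0) (nat_lit 118971376) (nat_lit 228) (nat_lit 15274278259) (nat_lit 76) (nat_lit 651159397) (nat_lit 8) (nat_lit 5) (nat_lit 11) (nat_lit 5) (nat_lit 9) (nat_lit 4) (nat_lit 215) (nat_lit 199) (nat_lit 186)) (XT.lf (nat_lit 0) (nat_lit 4716369883) (nat_lit 228) (nat_lit 6104597973) (nat_lit 76) (nat_lit 7023708285) (nat_lit 8) (nat_lit 5) (nat_lit 11) (nat_lit 5) (nat_lit 9) (nat_lit 4) (nat_lit 216) (nat_lit 199) (nat_lit 185)))))) (XT.nd (nat_lit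 312) (nat_lit 152) (nat_lit 0) (XT.nd (nat_lit 156) (nat_lit 152) (nat_lit 0) (XT.nd (nat_lit 78) (nat_lit 0) (nat_lit 0) (XT.lf (nat_lit 0) (nat_lit 4309783736) (nat_lit 76) (nat_lit 5577759882) (nat_lit 152) (nat_lit 10037742890) (nat_lit 7) (nat_lit 5) (nat_lit 8) (nat_lit 5) (nat_lit 9) (nat_lit 4) (nat_lit 217) (nat_lit 199) (nat_lit 184)) (XT.lf (nat_lit 0) (nat_lit 15826275430) (nat_lit 152) (nat_lit 5994212647) (nat_lit 0) (nat_lit 499051034) (nat_lit 7) (nat_lit 5) (nat_lit 9) (nat_lit 4) (nat_lit 7) (nat_lit 4) (nat_lit 218) (nat_lit 199) (nat_lit 183))) (XT.nd (nat_lit 78) (nat_lit 76) (nat_lit 0) (XT.lf (nat_lit 0) (nat_lit 4871929883) (nat_lit 76) (nat_lit 17880252878) (nat_lit 76) (nat_lit 2313821272) (nat_lit 6) (nat_lit 4) (nat_lit 7) (nat_lit 5) (nat_lit 7) (nat_lit 4) (nat_lit 219) (nat_lit 199) (nat_lit 182)) (XT.lf (nat_lit 0) (nat_lit 2383561086) (nat_lit 152) (nat_lit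 10816630817) (nat_lit 76) (nat_lit 15018825300) (nat_lit 5) (nat_lit 5) (nat_lit 7) (nat_lit 5) (nat_lit 6) (nat_lit 4) (nat_lit 220) (nat_lit 199) (nat_lit 181)))) (XT.nd (nat_lit 156) (nat_lit 76) (nat_lit 0) (XT.nd (nat_lit 78) (nat_lit 76) (nat_lit 0) (XT.lf (nat_lit 0) (nat_lit 7510409470) (nat_lit 152) (nat_lit 333661197) (nat_lit 76) (nat_lit 24007703410) (nat_lit 5) (nat_lit 5) (nat_lit 7) (nat_lit 5) (nat_lit 6) (nat_lit 4) (nat_lit 221) (nat_lit 199) (nat_lit 180)) (XT.lf (nat_lit 0) (nat_lit 12121973978) (nat_lit 76) (nat_lit 1452338280) (nat_lit 152) (nat_lit 22442167171) (nat_lit 4) (nat_lit 5) (nat_lit 5) (nat_lit 5) (nat_lit 6) (nat_lit 4) (nat_lit 222) (nat_lit 199) (nat_lit 179))) (XT.nd (nat_lit 78) (nat_lit 76) (nat_lit 0) (XT.lf (nat_lit 0) (nat_lit 20585835325) (nat_lit 152) (nat_lit 14677298527) (nat_lit 0) (nat_lit 5540128826) (nat_lit 4) (nat_lit 5) (nat_lit 6)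 (nat_lit 4) (nat_lit 4) (nat_lit 4) (nat_lit 223) (nat_lit 199) (nat_lit 178)) (XT.nd (nat_lit 78) (nat_lit 76) (nat_lit 0) (XT.lf (nat_lit 0) (nat_lit 28590313732) (nat_lit 152) (nat_lit 4288323832) (nat_lit 0) (nat_lit 13434488474) (nat_lit 4) (nat_lit 5) (nat_lit 6) (nat_lit 4) (nat_lit 4) (nat_lit 4) (nat_lit 224) (nat_lit 199) (nat_lit 177)) (XT.lf (nat_lit 0) (nat_lit 7906105365) (nat_lit 76) (nat_lit 29993464727) (nat_lit 76) (nat_lit 14741884025) (nat_lit 3) (nat_lit 4) (nat_lit 4) (nat_lit 5) (nat_lit 4) (nat_lit 4) (nat_lit 225) (nat_lit 199) (nat_lit 176))))))))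
noncomputable def xc23 : XT := (XT.nd (nat_lit 1404) (nat_lit 0) (nat_lit 0) (XT.nd (nat_lit 702) (nat_lit 0) (nat_lit 0) (XT.nd (nat_lit 312) (nat_lit 76) (nat_lit 0) (XT.nd (nat_lit 156) (nat_lit 76) (nat_lit 0) (XT.nd (nat_lit 78) (nat_lit 0) (nat_lit 0) (XT.lf (nat_lit 0) (nat_lit 22053559923) (nat_lit 76) (nat_lit 26598424511) (nat_lit 76) (nat_lit 11263578207) (nat_lit 3) (nat_lit 4) (nat_lit 4) (nat_lit 5) (nat_lit 4) (nat_lit 4) (nat_lit 226) (nat_lit 199) (nat_lit 175)) (XT.lf (nat_lit 0) (nat_lit 38205022332) (nat_lit 76) (nat_lit 22744342590) (nat_lit 76) (nat_lit 7337091414) (nat_lit 3) (nat_lit 4) (nat_lit 4) (nat_lit 5) (nat_lit 4) (nat_lit 4) (nat_lit 227) (nat_lit 199) (nat_lit 174))) (XT.nd (nat_lit 78) (nat_lit 76) (nat_lit 0) (XT.lf (nat_lit 0) (nat_lit 56676499466) (nat_lit 76) (nat_lit 18355813013) (nat_lit 76) (nat_lit 2885601078) (nat_lit 3) (nat_lit 4) (nat_lit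 4) (nat_lit 5) (nat_lit 4) (nat_lit 4) (nat_lit 228) (nat_lit 199) (nat_lit 173)) (XT.lf (nat_lit 0) (nat_lit 2069035435) (nat_lit 152) (nat_lit 11221366714) (nat_lit 76) (nat_lit 75703783258) (nat_lit 2) (nat_lit 5) (nat_lit 4) (nat_lit 5) (nat_lit 3) (nat_lit 4) (nat_lit 229) (nat_lit 199) (nat_lit 172)))) (XT.nd (nat_lit 156) (nat_lit 0) (nat_lit 0) (XT.nd (nat_lit 78) (nat_lit 0) (nat_lit 0) (XT.lf (nat_lit 0) (nat_lit 149114965) (nat_lit 76) (nat_lit 7409386363) (nat_lit 152) (nat_lit 94170545574) (nat_lit 1) (nat_lit 5) (nat_lit 2) (nat_lit 5) (nat_lit 3) (nat_lit 4) (nat_lit 230) (nat_lit 199) (nat_lit 171)) (XT.lf (nat_lit 0) (nat_lit 13831267751) (nat_lit 76) (nat_lit 325094397) (nat_lit 152) (nat_lit 102195103050) (nat_lit 1) (nat_lit 5) (nat_lit 2) (nat_lit 5) (nat_lit 3) (nat_lit 4) (nat_lit 231) (nat_lit 199) (nat_lit 170))) (XT.nd (nat_lit 78) (nat_lit 0) (nat_lit 0) (XT.lf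 (nat_lit 0) (nat_lit 21895073563) (nat_lit 152) (nat_lit 103855821576) (nat_lit 0) (nat_lit 7404366584) (nat_lit 1) (nat_lit 5) (nat_lit 3) (nat_lit 4) (nat_lit 1) (nat_lit 4) (nat_lit 232) (nat_lit 199) (nat_lit 169)) (XT.nd (nat_lit 78) (nat_lit 0) (nat_lit 0) (XT.lf (nat_lit 0) (nat_lit 30771457777) (nat_lit 152) (nat_lit 105458348732) (nat_lit 0) (nat_lit 16251766887) (nat_lit 1) (nat_lit 5) (nat_lit 3) (nat_lit 4) (nat_lit 1) (nat_lit 4) (nat_lit 233) (nat_lit 199) (nat_lit 168)) (XT.lf (nat_lit 0) (nat_lit 40951364649) (nat_lit 152) (nat_lit 107351314180) (nat_lit 0) (nat_lit 26406470358) (nat_lit 1) (nat_lit 5) (nat_lit 3) (nat_lit 4) (nat_lit 1) (nat_lit 4) (nat_lit 234) (nat_lit 199) (nat_lit 167)))))) (XT.nd (nat_lit 312) (nat_lit 0) (nat_lit 0) (XT.nd (nat_lit 156) (nat_lit 0) (nat_lit 0) (XT.nd (nat_lit 78) (nat_lit 0) (nat_lit 0) (XT.lf (nat_lit 0) (nat_lit 52633966271)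 (nat_lit 152) (nat_lit 109571754201) (nat_lit 0) (nat_lit 38067155979) (nat_lit 1) (nat_lit 5) (nat_lit 3) (nat_lit 4) (nat_lit 1) (nat_lit 4) (nat_lit 235) (nat_lit 199) (nat_lit 166)) (XT.lf (nat_lit 0) (nat_lit 66047835283) (nat_lit 152) (nat_lit 112163112187) (nat_lit 0) (nat_lit 51461967599) (nat_lit 1) (nat_lit 5) (nat_lit 3) (nat_lit 4) (nat_lit 1) (nat_lit 4) (nat_lit 236) (nat_lit 199) (nat_lit 165))) (XT.nd (nat_lit 78) (nat_lit 0) (nat_lit 0) (XT.lf (nat_lit 0) (nat_lit 81455416949) (nat_lit 152) (nat_lit 115176088619) (nat_lit 0) (nat_lit 66852977619) (nat_lit 1) (nat_lit 5) (nat_lit 3) (nat_lit 4) (nat_lit 1) (nat_lit 4) (nat_lit 237) (nat_lit 199) (nat_lit 164)) (XT.lf (nat_lit 0) (nat_lit 99158163953) (nat_lit 152) (nat_lit 118669633038) (nat_lit 0) (nat_lit 84541314497) (nat_lit 1) (nat_lit 5) (nat_lit 3) (nat_lit 4) (nat_lit 1) (nat_lit 4) (nat_lit 238) (nat_lit 199)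 (nat_lit 163)))) (XT.nd (nat_lit 156) (nat_lit 0) (nat_lit 0) (XT.nd (nat_lit 78) (nat_lit 0) (nat_lit 0) (XT.lf (nat_lit 0) (nat_lit 119502434388) (nat_lit 152) (nat_lit 122712097398) (nat_lit 0) (nat_lit 104873054387) (nat_lit 1) (nat_lit 5) (nat_lit 3) (nat_lit 4) (nat_lit 1) (nat_lit 4) (nat_lit 239) (nat_lit 199) (nat_lit 162)) (XT.lf (nat_lit 0) (nat_lit 142886268328) (nat_lit 152) (nat_lit 127382573395) (nat_lit 0) (nat_lit 128245992202) (nat_lit 1) (nat_lit 5) (nat_lit 3) (nat_lit 4) (nat_lit 1) (nat_lit 4) (nat_lit 240) (nat_lit 199) (nat_lit 161))) (XT.nd (nat_lit 78) (nat_lit 0) (nat_lit 0) (XT.lf (nat_lit 0) (nat_lit 169767175569) (nat_lit 152) (nat_lit 132772439905) (nat_lit 0) (nat_lit 155117424550) (nat_lit 1) (nat_lit 5) (nat_lit 3) (nat_lit 4) (nat_lit 1) (nat_lit 4) (nat_lit 241) (nat_lit 199) (nat_lit 160)) (XT.nd (nat_lit 78) (nat_lit 0) (nat_lit 0) (XT.lf (nat_lit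 0) (nat_lit 200671086903) (nat_lit 152) (nat_lit 138987150840) (nat_lit 0) (nat_lit 186013096848) (nat_lit 1) (nat_lit 5) (nat_lit 3) (nat_lit 4) (nat_lit 1) (nat_lit 4) (nat_lit 242) (nat_lit 199) (nat_lit 159)) (XT.lf (nat_lit 0) (nat_lit 236202644074) (nat_lit 152) (nat_lit 146148298369) (nat_lit 0) (nat_lit 221537489640) (nat_lit 1) (nat_lit 5) (nat_lit 3) (nat_lit 4) (nat_lit 1) (nat_lit 4) (nat_lit 243) (nat_lit 199) (nat_lit 158))))))) (XT.nd (nat_lit 702) (nat_lit 0) (nat_lit 0) (XT.nd (nat_lit 312) (nat_lit 0) (nat_lit 0) (XT.nd (nat_lit 156) (nat_lit 0) (nat_lit 0) (XT.nd (nat_lit 78) (nat_lit 0) (nat_lit 0) (XT.lf (nat_lit 0) (nat_lit 277057029723) (nat_lit 152) (nat_lit 154395991901) (nat_lit 0) (nat_lit 262385645393) (nat_lit 1) (nat_lit 5) (nat_lit 3) (nat_lit 4) (nat_lit 1) (nat_lit 4) (nat_lit 244) (nat_lit 199) (nat_lit 157)) (XT.lf (nat_lit 0) (nat_lit 324033568786)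 (nat_lit 152) (nat_lit 163891599353) (nat_lit 0) (nat_lit 309356767156) (nat_lit 1) (nat_lit 5) (nat_lit 3) (nat_lit 4) (nat_lit 1) (nat_lit 4) (nat_lit 245) (nat_lit 199) (nat_lit 156))) (XT.nd (nat_lit 78) (nat_lit 0) (nat_lit 0) (XT.lf (nat_lit 0) (nat_lit 378051367462) (nat_lit 152) (nat_lit 174820904348) (nat_lit 0) (nat_lit 363369855136) (nat_lit 1) (nat_lit 5) (nat_lit 3) (nat_lit 4) (nat_lit 1) (nat_lit 4) (nat_lit 246) (nat_lit 199) (nat_lit 155)) (XT.lf (nat_lit 0) (nat_lit 440167295726) (nat_lit 152) (nat_lit 187397741115) (nat_lit 0) (nat_lit 425481687142) (nat_lit 1) (nat_lit 5) (nat_lit 3) (nat_lit 4) (nat_lit 1) (nat_lit 4) (nat_lit 247) (nat_lit 199) (nat_lit 154)))) (XT.nd (nat_lit 156) (nat_lit 0) (nat_lit 0) (XT.nd (nat_lit 78) (nat_lit 0) (nat_lit 0) (XT.lf (nat_lit 0) (nat_lit 511596665216) (nat_lit 152) (nat_lit 201868178199) (nat_lit 0) (nat_lit 496907494670) (nat_lit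 1) (nat_lit 5) (nat_lit 3) (nat_lit 4) (nat_lit 1) (nat_lit 4) (nat_lit 248) (nat_lit 199) (nat_lit 153)) (XT.lf (nat_lit 0) (nat_lit 593737007077) (nat_lit 152) (nat_lit 218515332848) (nat_lit 0) (nat_lit 579044739171) (nat_lit 1) (nat_lit 5) (nat_lit 3) (nat_lit 4) (nat_lit 1) (nat_lit 4) (nat_lit 249) (nat_lit 199) (nat_lit 152))) (XT.nd (nat_lit 78) (nat_lit 0) (nat_lit 0) (XT.lf (nat_lit 0) (nat_lit 688195414951) (nat_lit 152) (nat_lit 237664910262) (nat_lit 0) (nat_lit 673500453690) (nat_lit 1) (nat_lit 5) (nat_lit 3) (nat_lit 4) (nat_lit 1) (nat_lit 4) (nat_lit 250) (nat_lit 199) (nat_lit 151)) (XT.nd (nat_lit 78) (nat_lit 0) (nat_lit 0) (XT.lf (nat_lit 0) (nat_lit 796819988125) (nat_lit 152) (nat_lit 259691576084) (nat_lit 0) (nat_lit 782122684815) (nat_lit 1) (nat_lit 5) (nat_lit 3) (nat_lit 4) (nat_lit 1) (nat_lit 4) (nat_lit 251) (nat_lit 199) (nat_lit 150)) (XT.lf (nat_lit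 0) (nat_lit 921735989985) (nat_lit 152) (nat_lit 285026286822) (nat_lit 0) (nat_lit 907036650112) (nat_lit 1) (nat_lit 5) (nat_lit 3) (nat_lit 4) (nat_lit 1) (nat_lit 4) (nat_lit 252) (nat_lit 199) (nat_lit 149)))))) (XT.nd (nat_lit 312) (nat_lit 0) (nat_lit 0) (XT.nd (nat_lit 156) (nat_lit 0) (nat_lit 0) (XT.nd (nat_lit 78) (nat_lit 0) (nat_lit 0) (XT.lf (nat_lit 0) (nat_lit 1065387429265) (nat_lit 152) (nat_lit 314164721597) (nat_lit 0) (nat_lit 1050686318467) (nat_lit 1) (nat_lit 5) (nat_lit 3) (nat_lit 4) (nat_lit 1) (nat_lit 4) (nat_lit 253) (nat_lit 199) (nat_lit 148)) (XT.lf (nat_lit 0) (nat_lit 1230584877602) (nat_lit 152) (nat_lit 347676980220) (nat_lit 0) (nat_lit 1215882226869) (nat_lit 1) (nat_lit 5) (nat_lit 3) (nat_lit 4) (nat_lit 1) (nat_lit 4) (nat_lit 254) (nat_lit 199) (nat_lit 147))) (XT.nd (nat_lit 78) (nat_lit 0) (nat_lit 0) (XT.lf (nat_lit 0) (nat_lit 1420560458986)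 (nat_lit 152) (nat_lit 386218737317) (nat_lit 0) (nat_lit 1405856469179) (nat_lit 1) (nat_lit 5) (nat_lit 3) (nat_lit 4) (nat_lit 1) (nat_lit 4) (nat_lit 255) (nat_lit 199) (nat_lit 146)) (XT.lf (nat_lit 0) (nat_lit 1639031086965) (nat_lit 152) (nat_lit 430544070744) (nat_lit 0) (nat_lit 1624325932747) (nat_lit 1) (nat_lit 5) (nat_lit 3) (nat_lit 4) (nat_lit 1) (nat_lit 4) (nat_lit 256) (nat_lit 199) (nat_lit 145)))) (XT.nd (nat_lit 26910) (nat_lit 0) (nat_lit 3344) (XT.nd (nat_lit 26832) (nat_lit 0) (nat_lit 3800) (XT.lf (nat_lit 0) (nat_lit 1890271186870) (nat_lit 152) (nat_lit 481520215285) (nat_lit 0) (nat_lit 1875565020119) (nat_lit 1) (nat_lit 5) (nat_lit 3) (nat_lit 4) (nat_lit 1) (nat_lit 4) (nat_lit 257) (nat_lit 199) (nat_lit 144)) (XT.lf (nat_lit 0) (nat_lit 1073741823) (nat_lit 0) (nat_lit 0) (nat_lit 0) (nat_lit 0) (nat_lit 51) (nat_lit 0) (nat_lit 1) (nat_lit 0) (nat_lit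 1) (nat_lit 0) (nat_lit 200) (nat_lit 200) (nat_lit 200))) (XT.nd (nat_lit 78) (nat_lit 380) (nat_lit 0) (XT.lf (nat_lit 0) (nat_lit 4758310235) (nat_lit 76) (nat_lit 1369440985) (nat_lit 0) (nat_lit 346631871) (nat_lit 50) (nat_lit 5) (nat_lit 51) (nat_lit 0) (nat_lit 50) (nat_lit 4) (nat_lit 201) (nat_lit 200) (nat_lit 199)) (XT.nd (nat_lit 78) (nat_lit 228) (nat_lit 0) (XT.lf (nat_lit 0) (nat_lit 2766695813) (nat_lit 152) (nat_lit 2493193127) (nat_lit 76) (nat_lit 1317018618) (nat_lit 48) (nat_lit 5) (nat_lit 50) (nat_lit 5) (nat_lit 49) (nat_lit 4) (nat_lit 202) (nat_lit 200) (nat_lit 198)) (XT.lf (nat_lit 0) (nat_lit 403091603) (nat_lit 228) (nat_lit 3418366808) (nat_lit 76) (nat_lit 2930540309) (nat_lit 45) (nat_lit 5) (nat_lit 48) (nat_lit 5) (nat_lit 46) (nat_lit 5) (nat_lit 203) (nat_lit 200) (nat_lit 197))))))))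
noncomputable def xc24 : XT := (XT.nd (nat_lit 1326) (nat_lit 380) (nat_lit 0) (XT.nd (nat_lit 624) (nat_lit 836) (nat_lit 0) (XT.nd (nat_lit 312) (nat_lit 608) (nat_lit 0) (XT.nd (nat_lit 156) (nat_lit 912) (nat_lit 0) (XT.nd (nat_lit 78) (nat_lit 380) (nat_lit 0) (XT.lf (nat_lit 0) (nat_lit 2746511146) (nat_lit 228) (nat_lit 1718491395) (nat_lit 304) (nat_lit 2533203801) (nat_lit 42) (nat_lit 5) (nat_lit 45) (nat_lit 5) (nat_lit 46) (nat_lit 5) (nat_lit 204) (nat_lit 200) (nat_lit 196)) (XT.lf (nat_lit 0) (nat_lit 1297958722) (nat_lit 380) (nat_lit 5028072271) (nat_lit 76) (nat_lit 995434185) (nat_lit 37) (nat_lit 5) (nat_lit 42) (nat_lit 5) (nat_lit 38) (nat_lit 5) (nat_lit 205) (nat_lit 200) (nat_lit 195))) (XT.nd (nat_lit 78) (nat_lit 532) (nat_lit 0) (XT.lf (nat_lit 0) (nat_lit 1837281203) (nat_lit 380) (nat_lit 3367694948) (nat_lit 456) (nat_lit 2516583363) (nat_lit 32) (nat_lit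 5) (nat_lit 37) (nat_lit 5) (nat_lit 38) (nat_lit 5) (nat_lit 206) (nat_lit 200) (nat_lit 194)) (XT.lf (nat_lit 0) (nat_lit 1103919219) (nat_lit 532) (nat_lit 6837739787) (nat_lit 76) (nat_lit 268612709) (nat_lit 25) (nat_lit 5) (nat_lit 32) (nat_lit 5) (nat_lit 26) (nat_lit 5) (nat_lit 207) (nat_lit 200) (nat_lit 193)))) (XT.nd (nat_lit 156) (nat_lit 380) (nat_lit 0) (XT.nd (nat_lit 78) (nat_lit 0) (nat_lit 0) (XT.lf (nat_lit 0) (nat_lit 668180077) (nat_lit 228) (nat_lit 4270028900) (nat_lit 304) (nat_lit 3847268641) (nat_lit 22) (nat_lit 5) (nat_lit 25) (nat_lit 5) (nat_lit 26) (nat_lit 5) (nat_lit 208) (nat_lit 200) (nat_lit 192)) (XT.lf (nat_lit 0) (nat_lit 9129961759) (nat_lit 304) (nat_lit 227006652) (nat_lit 76) (nat_lit 110883352) (nat_lit 22) (nat_lit 5) (nat_lit 26) (nat_lit 5) (nat_lit 23) (nat_lit 4) (nat_lit 209) (nat_lit 200) (nat_lit 191))) (XT.nd (nat_lit 78) (nat_lit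 152) (nat_lit 0) (XT.lf (nat_lit 0) (nat_lit 3471102245) (nat_lit 228) (nat_lit 1621318915) (nat_lit 76) (nat_lit 5159187105) (nat_lit 19) (nat_lit 5) (nat_lit 22) (nat_lit 5) (nat_lit 20) (nat_lit 5) (nat_lit 210) (nat_lit 200) (nat_lit 190)) (XT.lf (nat_lit 0) (nat_lit 7626482686) (nat_lit 152) (nat_lit 56854653) (nat_lit 228) (nat_lit 3483168235) (nat_lit 17) (nat_lit 5) (nat_lit 19) (nat_lit 5) (nat_lit 20) (nat_lit 5) (nat_lit 211) (nat_lit 200) (nat_lit 189))))) (XT.nd (nat_lit 312) (nat_lit 380) (nat_lit 0) (XT.nd (nat_lit 156) (nat_lit 76) (nat_lit 0) (XT.nd (nat_lit 78) (nat_lit 152) (nat_lit 0) (XT.lf (nat_lit 0) (nat_lit 313858453) (nat_lit 228) (nat_lit 6338382741) (nat_lit 76) (nat_lit 5566117212) (nat_lit 14) (nat_lit 5) (nat_lit 17) (nat_lit 5) (nat_lit 15) (nat_lit 5) (nat_lit 212) (nat_lit 200) (nat_lit 188)) (XT.lf (nat_lit 0) (nat_lit 3172234053) (nat_lit 152) (nat_lit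 1207406721) (nat_lit 228) (nat_lit 9050377492) (nat_lit 12) (nat_lit 5) (nat_lit 14) (nat_lit 5) (nat_lit 15) (nat_lit 5) (nat_lit 213) (nat_lit 200) (nat_lit 187))) (XT.nd (nat_lit 78) (nat_lit 76) (nat_lit 0) (XT.lf (nat_lit 0) (nat_lit 9108016656) (nat_lit 228) (nat_lit 821317339) (nat_lit 76) (nat_lit 4891355344) (nat_lit 12) (nat_lit 5) (nat_lit 15) (nat_lit 5) (nat_lit 13) (nat_lit 4) (nat_lit 214) (nat_lit 200) (nat_lit 186)) (XT.lf (nat_lit 0) (nat_lit 10176207768) (nat_lit 76) (nat_lit 4423090813) (nat_lit 152) (nat_lit 1817657761) (nat_lit 11) (nat_lit 5) (nat_lit 12) (nat_lit 5) (nat_lit 13) (nat_lit 4) (nat_lit 215) (nat_lit 200) (nat_lit 185)))) (XT.nd (nat_lit 156) (nat_lit 152) (nat_lit 0) (XT.nd (nat_lit 78) (nat_lit 0) (nat_lit 0) (XT.lf (nat_lit 0) (nat_lit 2500108518) (nat_lit 228) (nat_lit 13836186979) (nat_lit 76) (nat_lit 1914551897) (nat_lit 8) (nat_lit 5) (nat_lit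 11) (nat_lit 5) (nat_lit 9) (nat_lit 4) (nat_lit 216) (nat_lit 200) (nat_lit 184)) (XT.lf (nat_lit 0) (nat_lit 7478861397) (nat_lit 228) (nat_lit 3777476349) (nat_lit 76) (nat_lit 9090932867) (nat_lit 8) (nat_lit 5) (nat_lit 11) (nat_lit 5) (nat_lit 9) (nat_lit 4) (nat_lit 217) (nat_lit 200) (nat_lit 183))) (XT.nd (nat_lit 78) (nat_lit 76) (nat_lit 0) (XT.lf (nat_lit 0) (nat_lit 7924574791) (nat_lit 76) (nat_lit 5304476475) (nat_lit 152) (nat_lit 9527919811) (nat_lit 7) (nat_lit 5) (nat_lit 8) (nat_lit 5) (nat_lit 9) (nat_lit 4) (nat_lit 218) (nat_lit 200) (nat_lit 182)) (XT.nd (nat_lit 78) (nat_lit 76) (nat_lit 0) (XT.lf (nat_lit 0) (nat_lit 19839408367) (nat_lit 152) (nat_lit 4198790074) (nat_lit 0) (nat_lit 1490798538) (nat_lit 7) (nat_lit 5) (nat_lit 9) (nat_lit 4) (nat_lit 7) (nat_lit 4) (nat_lit 219) (nat_lit 200) (nat_lit 181)) (XT.lf (nat_lit 0) (nat_lit 8069193221) (nat_lit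 76) (nat_lit 19580519731) (nat_lit 76) (nat_lit 1051034883) (nat_lit 6) (nat_lit 4) (nat_lit 7) (nat_lit 5) (nat_lit 7) (nat_lit 4) (nat_lit 220) (nat_lit 200) (nat_lit 180))))))) (XT.nd (nat_lit 702) (nat_lit 152) (nat_lit 0) (XT.nd (nat_lit 312) (nat_lit 76) (nat_lit 0) (XT.nd (nat_lit 156) (nat_lit 0) (nat_lit 0) (XT.nd (nat_lit 78) (nat_lit 76) (nat_lit 0) (XT.lf (nat_lit 0) (nat_lit 4070945582) (nat_lit 152) (nat_lit 10219200659) (nat_lit 76) (nat_lit 18050198171) (nat_lit 5) (nat_lit 5) (nat_lit 7) (nat_lit 5) (nat_lit 6) (nat_lit 4) (nat_lit 221) (nat_lit 200) (nat_lit 179)) (XT.lf (nat_lit 0) (nat_lit 1628103318) (nat_lit 76) (nat_lit 8204415089) (nat_lit 152) (nat_lit 26696910723) (nat_lit 4) (nat_lit 5) (nat_lit 5) (nat_lit 5) (nat_lit 6) (nat_lit 4) (nat_lit 222) (nat_lit 200) (nat_lit 178))) (XT.nd (nat_lit 78) (nat_lit 0) (nat_lit 0) (XT.lf (nat_lit 0) (nat_lit 15707243296)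 (nat_lit 76) (nat_lit 951269457) (nat_lit 152) (nat_lit 24672709727) (nat_lit 4) (nat_lit 5) (nat_lit 5) (nat_lit 5) (nat_lit 6) (nat_lit 4) (nat_lit 223) (nat_lit 200) (nat_lit 177)) (XT.lf (nat_lit 0) (nat_lit 24600096441) (nat_lit 152) (nat_lit 15281143697) (nat_lit 0) (nat_lit 6965023191) (nat_lit 4) (nat_lit 5) (nat_lit 6) (nat_lit 4) (nat_lit 4) (nat_lit 4) (nat_lit 224) (nat_lit 200) (nat_lit 176)))) (XT.nd (nat_lit 156) (nat_lit 0) (nat_lit 0) (XT.nd (nat_lit 78) (nat_lit 76) (nat_lit 0) (XT.lf (nat_lit 0) (nat_lit 33684413676) (nat_lit 152) (nat_lit 3542224920) (nat_lit 0) (nat_lit 15966074824) (nat_lit 4) (nat_lit 5) (nat_lit 6) (nat_lit 4) (nat_lit 4) (nat_lit 4) (nat_lit 225) (nat_lit 200) (nat_lit 175)) (XT.lf (nat_lit 0) (nat_lit 10363767312) (nat_lit 76) (nat_lit 33951804588) (nat_lit 76) (nat_lit 16161060864) (nat_lit 3) (nat_lit 4) (nat_lit 4) (nat_lit 5) (nat_lit 4)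 (nat_lit 4) (nat_lit 226) (nat_lit 200) (nat_lit 174))) (XT.nd (nat_lit 78) (nat_lit 0) (nat_lit 0) (XT.lf (nat_lit 0) (nat_lit 26467460122) (nat_lit 76) (nat_lit 30118031799) (nat_lit 76) (nat_lit 12264327316) (nat_lit 3) (nat_lit 4) (nat_lit 4) (nat_lit 5) (nat_lit 4) (nat_lit 4) (nat_lit 227) (nat_lit 200) (nat_lit 173)) (XT.nd (nat_lit 78) (nat_lit 0) (nat_lit 0) (XT.lf (nat_lit 0) (nat_lit 44897398474) (nat_lit 76) (nat_lit 25747162336) (nat_lit 76) (nat_lit 7838709367) (nat_lit 3) (nat_lit 4) (nat_lit 4) (nat_lit 5) (nat_lit 4) (nat_lit 4) (nat_lit 228) (nat_lit 200) (nat_lit 172)) (XT.lf (nat_lit 0) (nat_lit 66014168117) (nat_lit 76) (nat_lit 20753679188) (nat_lit 76) (nat_lit 2797618842) (nat_lit 3) (nat_lit 4) (nat_lit 4) (nat_lit 5) (nat_lit 4) (nat_lit 4) (nat_lit 229) (nat_lit 200) (nat_lit 171)))))) (XT.nd (nat_lit 312) (nat_lit 0) (nat_lit 0) (XT.nd (nat_lit 156) (nat_lit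 0) (nat_lit 0) (XT.nd (nat_lit 78) (nat_lit 76) (nat_lit 0) (XT.lf (nat_lit 0) (nat_lit 2809624448) (nat_lit 152) (nat_lit 12153439213) (nat_lit 76) (nat_lit 87344478681) (nat_lit 2) (nat_lit 5) (nat_lit 4) (nat_lit 5) (nat_lit 3) (nat_lit 4) (nat_lit 230) (nat_lit 200) (nat_lit 170)) (XT.lf (nat_lit 0) (nat_lit 859035092) (nat_lit 76) (nat_lit 8223893358) (nat_lit 152) (nat_lit 107873047526) (nat_lit 1) (nat_lit 5) (nat_lit 2) (nat_lit 5) (nat_lit 3) (nat_lit 4) (nat_lit 231) (nat_lit 200) (nat_lit 169))) (XT.nd (nat_lit 78) (nat_lit 0) (nat_lit 0) (XT.lf (nat_lit 0) (nat_lit 16503829985) (nat_lit 76) (nat_lit 115683810) (nat_lit 152) (nat_lit 117156472956) (nat_lit 1) (nat_lit 5) (nat_lit 2) (nat_lit 5) (nat_lit 3) (nat_lit 4) (nat_lit 232) (nat_lit 200) (nat_lit 168)) (XT.lf (nat_lit 0) (nat_lit 25480122800) (nat_lit 152) (nat_lit 118895185081) (nat_lit 0) (nat_lit 8728290964) (nat_lit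 1) (nat_lit 5) (nat_lit 3) (nat_lit 4) (nat_lit 1) (nat_lit 4) (nat_lit 233) (nat_lit 200) (nat_lit 167)))) (XT.nd (nat_lit 156) (nat_lit 0) (nat_lit 0) (XT.nd (nat_lit 78) (nat_lit 0) (nat_lit 0) (XT.lf (nat_lit 0) (nat_lit 35648731402) (nat_lit 152) (nat_lit 120808396928) (nat_lit 0) (nat_lit 18874983565) (nat_lit 1) (nat_lit 5) (nat_lit 3) (nat_lit 4) (nat_lit 1) (nat_lit 4) (nat_lit 234) (nat_lit 200) (nat_lit 166)) (XT.lf (nat_lit 0) (nat_lit 47321508441) (nat_lit 152) (nat_lit 123046442512) (nat_lit 0) (nat_lit 30528703212) (nat_lit 1) (nat_lit 5) (nat_lit 3) (nat_lit 4) (nat_lit 1) (nat_lit 4) (nat_lit 235) (nat_lit 200) (nat_lit 165))) (XT.nd (nat_lit 78) (nat_lit 0) (nat_lit 0) (XT.lf (nat_lit 0) (nat_lit 60726834338) (nat_lit 152) (nat_lit 125653109684) (nat_lit 0) (nat_lit 43917457463) (nat_lit 1) (nat_lit 5) (nat_lit 3) (nat_lit 4) (nat_lit 1) (nat_lit 4) (nat_lit 236) (nat_lit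 200) (nat_lit 164)) (XT.nd (nat_lit 78) (nat_lit 0) (nat_lit 0) (XT.lf (nat_lit 0) (nat_lit 76126987207) (nat_lit 152) (nat_lit 128679398452) (nat_lit 0) (nat_lit 59303200206) (nat_lit 1) (nat_lit 5) (nat_lit 3) (nat_lit 4) (nat_lit 1) (nat_lit 4) (nat_lit 237) (nat_lit 200) (nat_lit 163)) (XT.lf (nat_lit 0) (nat_lit 93823274388) (nat_lit 152) (nat_lit 132184518814) (nat_lit 0) (nat_lit 76986956842) (nat_lit 1) (nat_lit 5) (nat_lit 3) (nat_lit 4) (nat_lit 1) (nat_lit 4) (nat_lit 238) (nat_lit 200) (nat_lit 162))))))))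
noncomputable def xc25 : XT := (XT.nd (nat_lit 1326) (nat_lit 0) (nat_lit 0) (XT.nd (nat_lit 624) (nat_lit 0) (nat_lit 0) (XT.nd (nat_lit 312) (nat_lit 0) (nat_lit 0) (XT.nd (nat_lit 156) (nat_lit 0) (nat_lit 0) (XT.nd (nat_lit 78) (nat_lit 0) (nat_lit 0) (XT.lf (nat_lit 0) (nat_lit 114161927586) (nat_lit 152) (nat_lit 136237049213) (nat_lit 0) (nat_lit 97314713915) (nat_lit 1) (nat_lit 5) (nat_lit 3) (nat_lit 4) (nat_lit 1) (nat_lit 4) (nat_lit 239) (nat_lit 200) (nat_lit 161)) (XT.lf (nat_lit 0) (nat_lit 137540876973) (nat_lit 152) (nat_lit 140916278286) (nat_lit 0) (nat_lit 120684188409) (nat_lit 1) (nat_lit 5) (nat_lit 3) (nat_lit 4) (nat_lit 1) (nat_lit 4) (nat_lit 240) (nat_lit 200) (nat_lit 160))) (XT.nd (nat_lit 78) (nat_lit 0) (nat_lit 0) (XT.lf (nat_lit 0) (nat_lit 164417536775) (nat_lit 152) (nat_lit 146313756167) (nat_lit 0) (nat_lit 147552609175) (nat_lit 1) (nat_lit 5)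 (nat_lit 3) (nat_lit 4) (nat_lit 1) (nat_lit 4) (nat_lit 241) (nat_lit 200) (nat_lit 159)) (XT.lf (nat_lit 0) (nat_lit 195317754684) (nat_lit 152) (nat_lit 152535085685) (nat_lit 0) (nat_lit 178445662705) (nat_lit 1) (nat_lit 5) (nat_lit 3) (nat_lit 4) (nat_lit 1) (nat_lit 4) (nat_lit 242) (nat_lit 200) (nat_lit 158)))) (XT.nd (nat_lit 156) (nat_lit 0) (nat_lit 0) (XT.nd (nat_lit 78) (nat_lit 0) (nat_lit 0) (XT.lf (nat_lit 0) (nat_lit 230846100182) (nat_lit 152) (nat_lit 159701988504) (nat_lit 0) (nat_lit 213967778307) (nat_lit 1) (nat_lit 5) (nat_lit 3) (nat_lit 4) (nat_lit 1) (nat_lit 4) (nat_lit 243) (nat_lit 200) (nat_lit 157)) (XT.lf (nat_lit 0) (nat_lit 271697693071) (nat_lit 152) (nat_lit 167954686636) (nat_lit 0) (nat_lit 254813953896) (nat_lit 1) (nat_lit 5) (nat_lit 3) (nat_lit 4) (nat_lit 1) (nat_lit 4) (nat_lit 244) (nat_lit 200) (nat_lit 156))) (XT.nd (nat_lit 78) (nat_lit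 0) (nat_lit 0) (XT.lf (nat_lit 0) (nat_lit 318671803648) (nat_lit 152) (nat_lit 177454645914) (nat_lit 0) (nat_lit 301783353777) (nat_lit 1) (nat_lit 5) (nat_lit 3) (nat_lit 4) (nat_lit 1) (nat_lit 4) (nat_lit 245) (nat_lit 200) (nat_lit 155)) (XT.lf (nat_lit 0) (nat_lit 372687490596) (nat_lit 152) (nat_lit 188387735105) (nat_lit 0) (nat_lit 355794944468) (nat_lit 1) (nat_lit 5) (nat_lit 3) (nat_lit 4) (nat_lit 1) (nat_lit 4) (nat_lit 246) (nat_lit 200) (nat_lit 154))))) (XT.nd (nat_lit 312) (nat_lit 0) (nat_lit 0) (XT.nd (nat_lit 156) (nat_lit 0) (nat_lit 0) (XT.nd (nat_lit 78) (nat_lit 0) (nat_lit 0) (XT.lf (nat_lit 0) (nat_lit 434801582575) (nat_lit 152) (nat_lit 200967862478) (nat_lit 0) (nat_lit 417905474484) (nat_lit 1) (nat_lit 5) (nat_lit 3) (nat_lit 4) (nat_lit 1) (nat_lit 4) (nat_lit 247) (nat_lit 200) (nat_lit 153)) (XT.lf (nat_lit 0) (nat_lit 506229355296) (nat_lit 152) (nat_lit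 215441160959) (nat_lit 0) (nat_lit 489330149846) (nat_lit 1) (nat_lit 5) (nat_lit 3) (nat_lit 4) (nat_lit 1) (nat_lit 4) (nat_lit 248) (nat_lit 200) (nat_lit 152))) (XT.nd (nat_lit 78) (nat_lit 0) (nat_lit 0) (XT.lf (nat_lit 0) (nat_lit 588368308661) (nat_lit 152) (nat_lit 232090803779) (nat_lit 0) (nat_lit 571466409855) (nat_lit 1) (nat_lit 5) (nat_lit 3) (nat_lit 4) (nat_lit 1) (nat_lit 4) (nat_lit 249) (nat_lit 200) (nat_lit 151)) (XT.lf (nat_lit 0) (nat_lit 682825509148) (nat_lit 152) (nat_lit 251242544819) (nat_lit 0) (nat_lit 665921268294) (nat_lit 1) (nat_lit 5) (nat_lit 3) (nat_lit 4) (nat_lit 1) (nat_lit 4) (nat_lit 250) (nat_lit 200) (nat_lit 150)))) (XT.nd (nat_lit 156) (nat_lit 0) (nat_lit 0) (XT.nd (nat_lit 78) (nat_lit 0) (nat_lit 0) (XT.lf (nat_lit 0) (nat_lit 791449032420) (nat_lit 152) (nat_lit 273271092056) (nat_lit 0) (nat_lit 774542755002) (nat_lit 1) (nat_lit 5)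 (nat_lit 3) (nat_lit 4) (nat_lit 1) (nat_lit 4) (nat_lit 251) (nat_lit 200) (nat_lit 149)) (XT.lf (nat_lit 0) (nat_lit 916364121323) (nat_lit 152) (nat_lit 298607438806) (nat_lit 0) (nat_lit 899456072980) (nat_lit 1) (nat_lit 5) (nat_lit 3) (nat_lit 4) (nat_lit 1) (nat_lit 4) (nat_lit 252) (nat_lit 200) (nat_lit 148))) (XT.nd (nat_lit 78) (nat_lit 0) (nat_lit 0) (XT.lf (nat_lit 0) (nat_lit 1060014766726) (nat_lit 152) (nat_lit 327747296200) (nat_lit 0) (nat_lit 1043105178448) (nat_lit 1) (nat_lit 5) (nat_lit 3) (nat_lit 4) (nat_lit 1) (nat_lit 4) (nat_lit 253) (nat_lit 200) (nat_lit 147)) (XT.nd (nat_lit 78) (nat_lit 0) (nat_lit 0) (XT.lf (nat_lit 0) (nat_lit 1225211524736) (nat_lit 152) (nat_lit 361260791884) (nat_lit 0) (nat_lit 1208300597384) (nat_lit 1) (nat_lit 5) (nat_lit 3) (nat_lit 4) (nat_lit 1) (nat_lit 4) (nat_lit 254) (nat_lit 200) (nat_lit 146)) (XT.lf (nat_lit 0) (nat_lit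 1415186505835) (nat_lit 152) (nat_lit 399803624686) (nat_lit 0) (nat_lit 1398274414071) (nat_lit 1) (nat_lit 5) (nat_lit 3) (nat_lit 4) (nat_lit 1) (nat_lit 4) (nat_lit 255) (nat_lit 200) (nat_lit 145))))))) (XT.nd (nat_lit 27534) (nat_lit 0) (nat_lit 760) (XT.nd (nat_lit 27144) (nat_lit 0) (nat_lit 2280) (XT.nd (nat_lit 26988) (nat_lit 0) (nat_lit 3496) (XT.nd (nat_lit 78) (nat_lit 0) (nat_lit 0) (XT.lf (nat_lit 0) (nat_lit 1633656611827) (nat_lit 152) (nat_lit 444129893508) (nat_lit 0) (nat_lit 1616743507532) (nat_lit 1) (nat_lit 5) (nat_lit 3) (nat_lit 4) (nat_lit 1) (nat_lit 4) (nat_lit 256) (nat_lit 200) (nat_lit 144)) (XT.lf (nat_lit 0) (nat_lit 1884896257830) (nat_lit 152) (nat_lit 495106851437) (nat_lit 0) (nat_lit 1867982273072) (nat_lit 1) (nat_lit 5) (nat_lit 3) (nat_lit 4) (nat_lit 1) (nat_lit 4) (nat_lit 257) (nat_lit 200) (nat_lit 143))) (XT.nd (nat_lit 78) (nat_lit 0)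 (nat_lit 0) (XT.lf (nat_lit 0) (nat_lit 1216302354) (nat_lit 228) (nat_lit 1026875103) (nat_lit 228) (nat_lit 1026875103) (nat_lit 47) (nat_lit 3) (nat_lit 50) (nat_lit 3) (nat_lit 50) (nat_lit 5) (nat_lit 201) (nat_lit 201) (nat_lit 198)) (XT.lf (nat_lit 76) (nat_lit 3141762942) (nat_lit 0) (nat_lit 3284162356) (nat_lit 228) (nat_lit 250397502) (nat_lit 48) (nat_lit 5) (nat_lit 47) (nat_lit 3) (nat_lit 50) (nat_lit 5) (nat_lit 202) (nat_lit 201) (nat_lit 197)))) (XT.nd (nat_lit 156) (nat_lit 836) (nat_lit 0) (XT.nd (nat_lit 78) (nat_lit 152) (nat_lit 0) (XT.lf (nat_lit 76) (nat_lit 1982014028) (nat_lit 0) (nat_lit 1402741573) (nat_lit 304) (nat_lit 3495604785) (nat_lit 45) (nat_lit 5) (nat_lit 44) (nat_lit 5) (nat_lit 48) (nat_lit 5) (nat_lit 203) (nat_lit 201) (nat_lit 196)) (XT.lf (nat_lit 0) (nat_lit 1002072072) (nat_lit 228) (nat_lit 6083881031) (nat_lit 304) (nat_lit 72767287)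 (nat_lit 42) (nat_lit 5) (nat_lit 45) (nat_lit 5) (nat_lit 46) (nat_lit 5) (nat_lit 204) (nat_lit 201) (nat_lit 195))) (XT.nd (nat_lit 78) (nat_lit 456) (nat_lit 0) (XT.lf (nat_lit 0) (nat_lit 32508178) (nat_lit 304) (nat_lit 3260805786) (nat_lit 380) (nat_lit 4213944622) (nat_lit 37) (nat_lit 5) (nat_lit 41) (nat_lit 5) (nat_lit 42) (nat_lit 5) (nat_lit 205) (nat_lit 201) (nat_lit 194)) (XT.nd (nat_lit 78) (nat_lit 456) (nat_lit 0) (XT.lf (nat_lit 0) (nat_lit 6846456451) (nat_lit 380) (nat_lit 836522492) (nat_lit 76) (nat_lit 254991128) (nat_lit 37) (nat_lit 5) (nat_lit 42) (nat_lit 5) (nat_lit 38) (nat_lit 5) (nat_lit 206) (nat_lit 201) (nat_lit 193)) (XT.lf (nat_lit 0) (nat_lit 2182931699) (nat_lit 456) (nat_lit 1867464827) (nat_lit 76) (nat_lit 4397383079) (nat_lit 31) (nat_lit 5) (nat_lit 37) (nat_lit 5) (nat_lit 32) (nat_lit 5) (nat_lit 207) (nat_lit 201) (nat_lit 192)))))) (XT.nd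 (nat_lit 312) (nat_lit 456) (nat_lit 0) (XT.nd (nat_lit 156) (nat_lit 380) (nat_lit 0) (XT.nd (nat_lit 78) (nat_lit 228) (nat_lit 0) (XT.lf (nat_lit 0) (nat_lit 5665348825) (nat_lit 532) (nat_lit 3053979494) (nat_lit 76) (nat_lit 333422313) (nat_lit 25) (nat_lit 5) (nat_lit 32) (nat_lit 5) (nat_lit 26) (nat_lit 5) (nat_lit 208) (nat_lit 201) (nat_lit 191)) (XT.lf (nat_lit 0) (nat_lit 5170734795) (nat_lit 228) (nat_lit 4436552679) (nat_lit 304) (nat_lit 149227054) (nat_lit 22) (nat_lit 5) (nat_lit 25) (nat_lit 5) (nat_lit 26) (nat_lit 5) (nat_lit 209) (nat_lit 201) (nat_lit 190))) (XT.nd (nat_lit 78) (nat_lit 152) (nat_lit 0) (XT.lf (nat_lit 0) (nat_lit 3272801435) (nat_lit 228) (nat_lit 6598840369) (nat_lit 76) (nat_lit 699599259) (nat_lit 19) (nat_lit 5) (nat_lit 22) (nat_lit 5) (nat_lit 20) (nat_lit 5) (nat_lit 210) (nat_lit 201) (nat_lit 189)) (XT.lf (nat_lit 0) (nat_lit 2206748072)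 (nat_lit 152) (nat_lit 5010889801) (nat_lit 228) (nat_lit 4290875812) (nat_lit 17) (nat_lit 5) (nat_lit 19) (nat_lit 5) (nat_lit 20) (nat_lit 5) (nat_lit 211) (nat_lit 201) (nat_lit 188)))) (XT.nd (nat_lit 156) (nat_lit 228) (nat_lit 0) (XT.nd (nat_lit 78) (nat_lit 228) (nat_lit 0) (XT.lf (nat_lit 0) (nat_lit 11699162052) (nat_lit 228) (nat_lit 215104975) (nat_lit 76) (nat_lit 678351761) (nat_lit 17) (nat_lit 5) (nat_lit 20) (nat_lit 5) (nat_lit 18) (nat_lit 4) (nat_lit 212) (nat_lit 201) (nat_lit 187)) (XT.lf (nat_lit 0) (nat_lit 3020266621) (nat_lit 228) (nat_lit 3605067760) (nat_lit 76) (nat_lit 7197092068) (nat_lit 14) (nat_lit 5) (nat_lit 17) (nat_lit 5) (nat_lit 15) (nat_lit 5) (nat_lit 213) (nat_lit 201) (nat_lit 186))) (XT.nd (nat_lit 78) (nat_lit 76) (nat_lit 0) (XT.lf (nat_lit 0) (nat_lit 7020303175) (nat_lit 152) (nat_lit 409846373) (nat_lit 228) (nat_lit 7809026128) (nat_lit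 12) (nat_lit 5) (nat_lit 14) (nat_lit 5) (nat_lit 15) (nat_lit 5) (nat_lit 214) (nat_lit 201) (nat_lit 185)) (XT.nd (nat_lit 78) (nat_lit 0) (nat_lit 0) (XT.lf (nat_lit 0) (nat_lit 2258958875) (nat_lit 76) (nat_lit 10371414143) (nat_lit 152) (nat_lit 4228874961) (nat_lit 11) (nat_lit 5) (nat_lit 12) (nat_lit 5) (nat_lit 13) (nat_lit 4) (nat_lit 215) (nat_lit 201) (nat_lit 184)) (XT.lf (nat_lit 0) (nat_lit 14531517454) (nat_lit 76) (nat_lit 4153385162) (nat_lit 152) (nat_lit 32460045) (nat_lit 11) (nat_lit 5) (nat_lit 12) (nat_lit 5) (nat_lit 13) (nat_lit 4) (nat_lit 216) (nat_lit 201) (nat_lit 183))))))))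
noncomputable def xc26 : XT := (XT.nd (nat_lit 1326) (nat_lit 0) (nat_lit 0) (XT.nd (nat_lit 624) (nat_lit 228) (nat_lit 0) (XT.nd (nat_lit 312) (nat_lit 228) (nat_lit 0) (XT.nd (nat_lit 156) (nat_lit 76) (nat_lit 0) (XT.nd (nat_lit 78) (nat_lit 0) (nat_lit 0) (XT.lf (nat_lit 0) (nat_lit 4662112650) (nat_lit 228) (nat_lit 13091779095) (nat_lit 76) (nat_lit 3083185412) (nat_lit 8) (nat_lit 5) (nat_lit 11) (nat_lit 5) (nat_lit 9) (nat_lit 4) (nat_lit 217) (nat_lit 201) (nat_lit 182)) (XT.lf (nat_lit 0) (nat_lit 10154593088) (nat_lit 228) (nat_lit 1892066556) (nat_lit 76) (nat_lit 11221051693) (nat_lit 8) (nat_lit 5) (nat_lit 11) (nat_lit 5) (nat_lit 9) (nat_lit 4) (nat_lit 218) (nat_lit 201) (nat_lit 181))) (XT.nd (nat_lit 78) (nat_lit 0) (nat_lit 0) (XT.lf (nat_lit 0) (nat_lit 11357740022) (nat_lit 76) (nat_lit 5260868257) (nat_lit 152) (nat_lit 9433111932) (nat_lit 7) (nat_lit 5) (nat_lit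 8) (nat_lit 5) (nat_lit 9) (nat_lit 4) (nat_lit 219) (nat_lit 201) (nat_lit 180)) (XT.lf (nat_lit 0) (nat_lit 24054783988) (nat_lit 152) (nat_lit 2791138287) (nat_lit 0) (nat_lit 2407718771) (nat_lit 7) (nat_lit 5) (nat_lit 9) (nat_lit 4) (nat_lit 7) (nat_lit 4) (nat_lit 220) (nat_lit 201) (nat_lit 179)))) (XT.nd (nat_lit 156) (nat_lit 76) (nat_lit 0) (XT.nd (nat_lit 78) (nat_lit 0) (nat_lit 0) (XT.lf (nat_lit 0) (nat_lit 8165052) (nat_lit 152) (nat_lit 21766849407) (nat_lit 76) (nat_lit 11136192490) (nat_lit 5) (nat_lit 5) (nat_lit 7) (nat_lit 5) (nat_lit 6) (nat_lit 4) (nat_lit 221) (nat_lit 201) (nat_lit 178)) (XT.lf (nat_lit 0) (nat_lit 5687145327) (nat_lit 152) (nat_lit 10073498694) (nat_lit 76) (nat_lit 21346422850) (nat_lit 5) (nat_lit 5) (nat_lit 7) (nat_lit 5) (nat_lit 6) (nat_lit 4) (nat_lit 222) (nat_lit 201) (nat_lit 177))) (XT.nd (nat_lit 78) (nat_lit 0) (nat_lit 0) (XT.lf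 (nat_lit 0) (nat_lit 3408817269) (nat_lit 76) (nat_lit 8809929905) (nat_lit 152) (nat_lit 29713810359) (nat_lit 4) (nat_lit 5) (nat_lit 5) (nat_lit 5) (nat_lit 6) (nat_lit 4) (nat_lit 223) (nat_lit 201) (nat_lit 176)) (XT.lf (nat_lit 0) (nat_lit 19399415402) (nat_lit 76) (nat_lit 550353399) (nat_lit 152) (nat_lit 27514801427) (nat_lit 4) (nat_lit 5) (nat_lit 5) (nat_lit 5) (nat_lit 6) (nat_lit 4) (nat_lit 224) (nat_lit 201) (nat_lit 175))))) (XT.nd (nat_lit 312) (nat_lit 152) (nat_lit 0) (XT.nd (nat_lit 156) (nat_lit 76) (nat_lit 0) (XT.nd (nat_lit 78) (nat_lit 0) (nat_lit 0) (XT.lf (nat_lit 0) (nat_lit 28990591676) (nat_lit 152) (nat_lit 16365187003) (nat_lit 0) (nat_lit 8458831520) (nat_lit 4) (nat_lit 5) (nat_lit 6) (nat_lit 4) (nat_lit 4) (nat_lit 4) (nat_lit 225) (nat_lit 201) (nat_lit 174)) (XT.lf (nat_lit 0) (nat_lit 39346189440) (nat_lit 152) (nat_lit 3023012354) (nat_lit 0)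 (nat_lit 18751468526) (nat_lit 4) (nat_lit 5) (nat_lit 6) (nat_lit 4) (nat_lit 4) (nat_lit 4) (nat_lit 226) (nat_lit 201) (nat_lit 173))) (XT.nd (nat_lit 78) (nat_lit 0) (nat_lit 0) (XT.lf (nat_lit 0) (nat_lit 12879955200) (nat_lit 76) (nat_lit 38635743634) (nat_lit 76) (nat_lit 17986274235) (nat_lit 3) (nat_lit 4) (nat_lit 4) (nat_lit 5) (nat_lit 4) (nat_lit 4) (nat_lit 227) (nat_lit 201) (nat_lit 172)) (XT.lf (nat_lit 0) (nat_lit 31273772872) (nat_lit 76) (nat_lit 34280230792) (nat_lit 76) (nat_lit 13583154014) (nat_lit 3) (nat_lit 4) (nat_lit 4) (nat_lit 5) (nat_lit 4) (nat_lit 4) (nat_lit 228) (nat_lit 201) (nat_lit 171)))) (XT.nd (nat_lit 156) (nat_lit 152) (nat_lit 0) (XT.nd (nat_lit 78) (nat_lit 0) (nat_lit 0) (XT.lf (nat_lit 0) (nat_lit 52359133229) (nat_lit 76) (nat_lit 29300101228) (nat_lit 76) (nat_lit 8561626730) (nat_lit 3) (nat_lit 4) (nat_lit 4) (nat_lit 5) (nat_lit 4)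 (nat_lit 4) (nat_lit 229) (nat_lit 201) (nat_lit 170)) (XT.lf (nat_lit 0) (nat_lit 76548575930) (nat_lit 76) (nat_lit 23597917625) (nat_lit 76) (nat_lit 2823445109) (nat_lit 3) (nat_lit 4) (nat_lit 4) (nat_lit 5) (nat_lit 4) (nat_lit 4) (nat_lit 230) (nat_lit 201) (nat_lit 169))) (XT.nd (nat_lit 78) (nat_lit 76) (nat_lit 0) (XT.lf (nat_lit 0) (nat_lit 3556386602) (nat_lit 152) (nat_lit 13408491006) (nat_lit 76) (nat_lit 100661748165) (nat_lit 2) (nat_lit 5) (nat_lit 4) (nat_lit 5) (nat_lit 3) (nat_lit 4) (nat_lit 231) (nat_lit 201) (nat_lit 168)) (XT.nd (nat_lit 78) (nat_lit 0) (nat_lit 0) (XT.lf (nat_lit 0) (nat_lit 1507779113) (nat_lit 76) (nat_lit 9232977581) (nat_lit 152) (nat_lit 123734095479) (nat_lit 1) (nat_lit 5) (nat_lit 2) (nat_lit 5) (nat_lit 3) (nat_lit 4) (nat_lit 232) (nat_lit 201) (nat_lit 167)) (XT.lf (nat_lit 0) (nat_lit 19370796295) (nat_lit 152) (nat_lit 134391076639)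 (nat_lit 0) (nat_lit 59070282) (nat_lit 1) (nat_lit 5) (nat_lit 3) (nat_lit 4) (nat_lit 1) (nat_lit 4) (nat_lit 233) (nat_lit 201) (nat_lit 166))))))) (XT.nd (nat_lit 702) (nat_lit 0) (nat_lit 0) (XT.nd (nat_lit 312) (nat_lit 0) (nat_lit 0) (XT.nd (nat_lit 156) (nat_lit 0) (nat_lit 0) (XT.nd (nat_lit 78) (nat_lit 0) (nat_lit 0) (XT.lf (nat_lit 0) (nat_lit 29529580314) (nat_lit 152) (nat_lit 136321894049) (nat_lit 0) (nat_lit 10198796909) (nat_lit 1) (nat_lit 5) (nat_lit 3) (nat_lit 4) (nat_lit 1) (nat_lit 4) (nat_lit 234) (nat_lit 201) (nat_lit 165)) (XT.lf (nat_lit 0) (nat_lit 41193814238) (nat_lit 152) (nat_lit 138575248819) (nat_lit 0) (nat_lit 21846459187) (nat_lit 1) (nat_lit 5) (nat_lit 3) (nat_lit 4) (nat_lit 1) (nat_lit 4) (nat_lit 235) (nat_lit 201) (nat_lit 164))) (XT.nd (nat_lit 78) (nat_lit 0) (nat_lit 0) (XT.lf (nat_lit 0) (nat_lit 54591711338) (nat_lit 152) (nat_lit 141195228326)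 (nat_lit 0) (nat_lit 35229946161) (nat_lit 1) (nat_lit 5) (nat_lit 3) (nat_lit 4) (nat_lit 1) (nat_lit 4) (nat_lit 236) (nat_lit 201) (nat_lit 163)) (XT.lf (nat_lit 0) (nat_lit 69985404385) (nat_lit 152) (nat_lit 144233093038) (nat_lit 0) (nat_lit 50611108663) (nat_lit 1) (nat_lit 5) (nat_lit 3) (nat_lit 4) (nat_lit 1) (nat_lit 4) (nat_lit 237) (nat_lit 201) (nat_lit 162)))) (XT.nd (nat_lit 156) (nat_lit 0) (nat_lit 0) (XT.nd (nat_lit 78) (nat_lit 0) (nat_lit 0) (XT.lf (nat_lit 0) (nat_lit 87676074329) (nat_lit 152) (nat_lit 147748279438) (nat_lit 0) (nat_lit 68290882481) (nat_lit 1) (nat_lit 5) (nat_lit 3) (nat_lit 4) (nat_lit 1) (nat_lit 4) (nat_lit 238) (nat_lit 201) (nat_lit 161)) (XT.lf (nat_lit 0) (nat_lit 108009842973) (nat_lit 152) (nat_lit 151809562913) (nat_lit 0) (nat_lit 88615176233) (nat_lit 1) (nat_lit 5) (nat_lit 3) (nat_lit 4) (nat_lit 1) (nat_lit 4) (nat_lit 239) (nat_lit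 201) (nat_lit 160))) (XT.nd (nat_lit 78) (nat_lit 0) (nat_lit 0) (XT.lf (nat_lit 0) (nat_lit 131384544921) (nat_lit 152) (nat_lit 156496403357) (nat_lit 0) (nat_lit 111981639145) (nat_lit 1) (nat_lit 5) (nat_lit 3) (nat_lit 4) (nat_lit 1) (nat_lit 4) (nat_lit 240) (nat_lit 201) (nat_lit 159)) (XT.nd (nat_lit 78) (nat_lit 0) (nat_lit 0) (XT.lf (nat_lit 0) (nat_lit 158257511298) (nat_lit 152) (nat_lit 161900499822) (nat_lit 0) (nat_lit 138847441143) (nat_lit 1) (nat_lit 5) (nat_lit 3) (nat_lit 4) (nat_lit 1) (nat_lit 4) (nat_lit 241) (nat_lit 201) (nat_lit 158)) (XT.lf (nat_lit 0) (nat_lit 189154517534) (nat_lit 152) (nat_lit 168127584630) (nat_lit 0) (nat_lit 169738217483) (nat_lit 1) (nat_lit 5) (nat_lit 3) (nat_lit 4) (nat_lit 1) (nat_lit 4) (nat_lit 242) (nat_lit 201) (nat_lit 157)))))) (XT.nd (nat_lit 312) (nat_lit 0) (nat_lit 0) (XT.nd (nat_lit 156) (nat_lit 0) (nat_lit 0) (XT.nd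 (nat_lit 78) (nat_lit 0) (nat_lit 0) (XT.lf (nat_lit 0) (nat_lit 224680070273) (nat_lit 152) (nat_lit 175299492049) (nat_lit 0) (nat_lit 205258352921) (nat_lit 1) (nat_lit 5) (nat_lit 3) (nat_lit 4) (nat_lit 1) (nat_lit 4) (nat_lit 243) (nat_lit 201) (nat_lit 156)) (XT.lf (nat_lit 0) (nat_lit 265529234675) (nat_lit 152) (nat_lit 183556542007) (nat_lit 0) (nat_lit 246102806628) (nat_lit 1) (nat_lit 5) (nat_lit 3) (nat_lit 4) (nat_lit 1) (nat_lit 4) (nat_lit 244) (nat_lit 201) (nat_lit 155))) (XT.nd (nat_lit 78) (nat_lit 0) (nat_lit 0) (XT.lf (nat_lit 0) (nat_lit 312501233524) (nat_lit 152) (nat_lit 193060285481) (nat_lit 0) (nat_lit 293070709219) (nat_lit 1) (nat_lit 5) (nat_lit 3) (nat_lit 4) (nat_lit 1) (nat_lit 4) (nat_lit 245) (nat_lit 201) (nat_lit 154)) (XT.lf (nat_lit 0) (nat_lit 366515084188) (nat_lit 152) (nat_lit 203996665279) (nat_lit 0) (nat_lit 347080997920) (nat_lit 1) (nat_lit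 5) (nat_lit 3) (nat_lit 4) (nat_lit 1) (nat_lit 4) (nat_lit 246) (nat_lit 201) (nat_lit 153)))) (XT.nd (nat_lit 156) (nat_lit 0) (nat_lit 0) (XT.nd (nat_lit 78) (nat_lit 0) (nat_lit 0) (XT.lf (nat_lit 0) (nat_lit 428627579397) (nat_lit 152) (nat_lit 216579654048) (nat_lit 0) (nat_lit 409190395771) (nat_lit 1) (nat_lit 5) (nat_lit 3) (nat_lit 4) (nat_lit 1) (nat_lit 4) (nat_lit 247) (nat_lit 201) (nat_lit 152)) (XT.lf (nat_lit 0) (nat_lit 500053963623) (nat_lit 152) (nat_lit 231055440699) (nat_lit 0) (nat_lit 480614086641) (nat_lit 1) (nat_lit 5) (nat_lit 3) (nat_lit 4) (nat_lit 1) (nat_lit 4) (nat_lit 248) (nat_lit 201) (nat_lit 151))) (XT.nd (nat_lit 78) (nat_lit 0) (nat_lit 0) (XT.lf (nat_lit 0) (nat_lit 582191709601) (nat_lit 152) (nat_lit 247707247146) (nat_lit 0) (nat_lit 562749490570) (nat_lit 1) (nat_lit 5) (nat_lit 3) (nat_lit 4) (nat_lit 1) (nat_lit 4) (nat_lit 249) (nat_lit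 201) (nat_lit 150)) (XT.nd (nat_lit 78) (nat_lit 0) (nat_lit 0) (XT.lf (nat_lit 0) (nat_lit 676647860187) (nat_lit 152) (nat_lit 266860869600) (nat_lit 0) (nat_lit 657203604592) (nat_lit 1) (nat_lit 5) (nat_lit 3) (nat_lit 4) (nat_lit 1) (nat_lit 4) (nat_lit 250) (nat_lit 201) (nat_lit 149)) (XT.lf (nat_lit 0) (nat_lit 785270470500) (nat_lit 152) (nat_lit 288891052850) (nat_lit 0) (nat_lit 765824443981) (nat_lit 1) (nat_lit 5) (nat_lit 3) (nat_lit 4) (nat_lit 1) (nat_lit 4) (nat_lit 251) (nat_lit 201) (nat_lit 148))))))))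
noncomputable def xc27 : XT := (XT.nd (nat_lit 28314) (nat_lit 0) (nat_lit 152) (XT.nd (nat_lit 27612) (nat_lit 0) (nat_lit 988) (XT.nd (nat_lit 312) (nat_lit 0) (nat_lit 0) (XT.nd (nat_lit 156) (nat_lit 0) (nat_lit 0) (XT.nd (nat_lit 78) (nat_lit 0) (nat_lit 0) (XT.lf (nat_lit 0) (nat_lit 910184765526) (nat_lit 152) (nat_lit 314228822219) (nat_lit 0) (nat_lit 890737199072) (nat_lit 1) (nat_lit 5) (nat_lit 3) (nat_lit 4) (nat_lit 1) (nat_lit 4) (nat_lit 252) (nat_lit 201) (nat_lit 147)) (XT.lf (nat_lit 0) (nat_lit 1053834720602) (nat_lit 152) (nat_lit 343369916674) (nat_lit 0) (nat_lit 1034385815074) (nat_lit 1) (nat_lit 5) (nat_lit 3) (nat_lit 4) (nat_lit 1) (nat_lit 4) (nat_lit 253) (nat_lit 201) (nat_lit 146))) (XT.nd (nat_lit 78) (nat_lit 0) (nat_lit 0) (XT.lf (nat_lit 0) (nat_lit 1219030878327) (nat_lit 152) (nat_lit 376884488063) (nat_lit 0) (nat_lit 1199580808387) (nat_lit 1)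 (nat_lit 5) (nat_lit 3) (nat_lit 4) (nat_lit 1) (nat_lit 4) (nat_lit 254) (nat_lit 201) (nat_lit 145)) (XT.lf (nat_lit 0) (nat_lit 1409005337440) (nat_lit 152) (nat_lit 415428256261) (nat_lit 0) (nat_lit 1389554254967) (nat_lit 1) (nat_lit 5) (nat_lit 3) (nat_lit 4) (nat_lit 1) (nat_lit 4) (nat_lit 255) (nat_lit 201) (nat_lit 144)))) (XT.nd (nat_lit 27066) (nat_lit 0) (nat_lit 2964) (XT.nd (nat_lit 78) (nat_lit 0) (nat_lit 0) (XT.lf (nat_lit 0) (nat_lit 1627474989530) (nat_lit 152) (nat_lit 459755338470) (nat_lit 0) (nat_lit 1608023026595) (nat_lit 1) (nat_lit 5) (nat_lit 3) (nat_lit 4) (nat_lit 1) (nat_lit 4) (nat_lit 256) (nat_lit 201) (nat_lit 143)) (XT.lf (nat_lit 0) (nat_lit 1878714240836) (nat_lit 152) (nat_lit 510733003693) (nat_lit 0) (nat_lit 1859261512282) (nat_lit 1) (nat_lit 5) (nat_lit 3) (nat_lit 4) (nat_lit 1) (nat_lit 4) (nat_lit 257) (nat_lit 201) (nat_lit 142))) (XT.nd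 (nat_lit 78) (nat_lit 304) (nat_lit 0) (XT.lf (nat_lit 0) (nat_lit 756674570) (nat_lit 0) (nat_lit 756674570) (nat_lit 228) (nat_lit 1907329648) (nat_lit 44) (nat_lit 5) (nat_lit 44) (nat_lit 3) (nat_lit 47) (nat_lit 3) (nat_lit 202) (nat_lit 202) (nat_lit 196)) (XT.nd (nat_lit 78) (nat_lit 304) (nat_lit 0) (XT.lf (nat_lit 0) (nat_lit 6282081207) (nat_lit 228) (nat_lit 53194807) (nat_lit 304) (nat_lit 742312235) (nat_lit 44) (nat_lit 5) (nat_lit 47) (nat_lit 3) (nat_lit 48) (nat_lit 5) (nat_lit 203) (nat_lit 202) (nat_lit 195)) (XT.lf (nat_lit 0) (nat_lit 2183232029) (nat_lit 304) (nat_lit 1493285079) (nat_lit 380) (nat_lit 3702042877) (nat_lit 40) (nat_lit 5) (nat_lit 44) (nat_lit 5) (nat_lit 45) (nat_lit 5) (nat_lit 204) (nat_lit 202) (nat_lit 194)))))) (XT.nd (nat_lit 312) (nat_lit 836) (nat_lit 0) (XT.nd (nat_lit 156) (nat_lit 836) (nat_lit 0) (XT.nd (nat_lit 78) (nat_lit 304) (nat_lit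 0) (XT.lf (nat_lit 76) (nat_lit 4889199978) (nat_lit 0) (nat_lit 308271834) (nat_lit 380) (nat_lit 2559649627) (nat_lit 41) (nat_lit 5) (nat_lit 40) (nat_lit 5) (nat_lit 45) (nat_lit 5) (nat_lit 205) (nat_lit 202) (nat_lit 193)) (XT.lf (nat_lit 0) (nat_lit 237002153) (nat_lit 380) (nat_lit 4320889029) (nat_lit 76) (nat_lit 3654526688) (nat_lit 36) (nat_lit 5) (nat_lit 41) (nat_lit 5) (nat_lit 37) (nat_lit 5) (nat_lit 206) (nat_lit 202) (nat_lit 192))) (XT.nd (nat_lit 78) (nat_lit 456) (nat_lit 0) (XT.lf (nat_lit 0) (nat_lit 2833665897) (nat_lit 380) (nat_lit 243653651) (nat_lit 456) (nat_lit 5674785176) (nat_lit 31) (nat_lit 5) (nat_lit 36) (nat_lit 5) (nat_lit 37) (nat_lit 5) (nat_lit 207) (nat_lit 202) (nat_lit 191)) (XT.lf (nat_lit 0) (nat_lit 1583701171) (nat_lit 456) (nat_lit 4694232377) (nat_lit 532) (nat_lit 3103091072) (nat_lit 25) (nat_lit 5) (nat_lit 31) (nat_lit 5) (nat_lit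 32) (nat_lit 5) (nat_lit 208) (nat_lit 202) (nat_lit 190)))) (XT.nd (nat_lit 156) (nat_lit 532) (nat_lit 0) (XT.nd (nat_lit 78) (nat_lit 76) (nat_lit 0) (XT.lf (nat_lit 0) (nat_lit 131094910) (nat_lit 228) (nat_lit 9711096955) (nat_lit 304) (nat_lit 274032486) (nat_lit 22) (nat_lit 5) (nat_lit 25) (nat_lit 5) (nat_lit 26) (nat_lit 5) (nat_lit 209) (nat_lit 202) (nat_lit 189)) (XT.lf (nat_lit 0) (nat_lit 2907879030) (nat_lit 304) (nat_lit 1756252588) (nat_lit 76) (nat_lit 6287751635) (nat_lit 21) (nat_lit 5) (nat_lit 25) (nat_lit 5) (nat_lit 22) (nat_lit 5) (nat_lit 210) (nat_lit 202) (nat_lit 188))) (XT.nd (nat_lit 78) (nat_lit 380) (nat_lit 0) (XT.lf (nat_lit 0) (nat_lit 6522676387) (nat_lit 228) (nat_lit 4144427860) (nat_lit 76) (nat_lit 1249309904) (nat_lit 19) (nat_lit 5) (nat_lit 22) (nat_lit 5) (nat_lit 20) (nat_lit 5) (nat_lit 211) (nat_lit 202) (nat_lit 187)) (XT.nd (nat_lit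 78) (nat_lit 228) (nat_lit 0) (XT.lf (nat_lit 0) (nat_lit 5690461208) (nat_lit 152) (nat_lit 5084735954) (nat_lit 228) (nat_lit 2244385970) (nat_lit 17) (nat_lit 5) (nat_lit 19) (nat_lit 5) (nat_lit 20) (nat_lit 5) (nat_lit 212) (nat_lit 202) (nat_lit 186)) (XT.lf (nat_lit 0) (nat_lit 1329958360) (nat_lit 228) (nat_lit 11513994758) (nat_lit 76) (nat_lit 1441192223) (nat_lit 14) (nat_lit 5) (nat_lit 17) (nat_lit 5) (nat_lit 15) (nat_lit 5) (nat_lit 213) (nat_lit 202) (nat_lit 185))))))) (XT.nd (nat_lit 702) (nat_lit 152) (nat_lit 0) (XT.nd (nat_lit 312) (nat_lit 380) (nat_lit 0) (XT.nd (nat_lit 156) (nat_lit 152) (nat_lit 0) (XT.nd (nat_lit 78) (nat_lit 152) (nat_lit 0) (XT.lf (nat_lit 0) (nat_lit 5484141700) (nat_lit 228) (nat_lit 1360139915) (nat_lit 76) (nat_lit 8878589544) (nat_lit 14) (nat_lit 5) (nat_lit 17) (nat_lit 5) (nat_lit 15) (nat_lit 5) (nat_lit 214) (nat_lit 202) (nat_lit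 184)) (XT.lf (nat_lit 0) (nat_lit 10361011294) (nat_lit 228) (nat_lit 6753001479) (nat_lit 76) (nat_lit 255251716) (nat_lit 12) (nat_lit 5) (nat_lit 15) (nat_lit 5) (nat_lit 13) (nat_lit 4) (nat_lit 215) (nat_lit 202) (nat_lit 183))) (XT.nd (nat_lit 78) (nat_lit 76) (nat_lit 0) (XT.lf (nat_lit 0) (nat_lit 5057697073) (nat_lit 76) (nat_lit 11115674723) (nat_lit 152) (nat_lit 3073774570) (nat_lit 11) (nat_lit 5) (nat_lit 12) (nat_lit 5) (nat_lit 13) (nat_lit 4) (nat_lit 216) (nat_lit 202) (nat_lit 182)) (XT.lf (nat_lit 0) (nat_lit 1442727008) (nat_lit 152) (nat_lit 2588609179) (nat_lit 76) (nat_lit 17368109930) (nat_lit 10) (nat_lit 5) (nat_lit 12) (nat_lit 5) (nat_lit 11) (nat_lit 5) (nat_lit 217) (nat_lit 202) (nat_lit 181)))) (XT.nd (nat_lit 156) (nat_lit 228) (nat_lit 0) (XT.nd (nat_lit 78) (nat_lit 0) (nat_lit 0) (XT.lf (nat_lit 0) (nat_lit 6712649096) (nat_lit 228) (nat_lit 12923344877)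 (nat_lit 76) (nat_lit 4212166611) (nat_lit 8) (nat_lit 5) (nat_lit 11) (nat_lit 5) (nat_lit 9) (nat_lit 4) (nat_lit 218) (nat_lit 202) (nat_lit 180)) (XT.lf (nat_lit 0) (nat_lit 12852755572) (nat_lit 228) (nat_lit 321788642) (nat_lit 76) (nat_lit 13483777610) (nat_lit 8) (nat_lit 5) (nat_lit 11) (nat_lit 5) (nat_lit 9) (nat_lit 4) (nat_lit 219) (nat_lit 202) (nat_lit 179))) (XT.nd (nat_lit 78) (nat_lit 152) (nat_lit 0) (XT.lf (nat_lit 0) (nat_lit 14758549617) (nat_lit 76) (nat_lit 5415382473) (nat_lit 152) (nat_lit 9695718911) (nat_lit 7) (nat_lit 5) (nat_lit 8) (nat_lit 5) (nat_lit 9) (nat_lit 4) (nat_lit 220) (nat_lit 202) (nat_lit 178)) (XT.nd (nat_lit 78) (nat_lit 152) (nat_lit 0) (XT.lf (nat_lit 0) (nat_lit 28600214716) (nat_lit 152) (nat_lit 1669188767) (nat_lit 0) (nat_lit 3293111333) (nat_lit 7) (nat_lit 5) (nat_lit 9) (nat_lit 4) (nat_lit 7) (nat_lit 4) (nat_lit 221) (nat_lit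 202) (nat_lit 177)) (XT.lf (nat_lit 0) (nat_lit 883787991) (nat_lit 152) (nat_lit 23572240240) (nat_lit 76) (nat_lit 13318530019) (nat_lit 5) (nat_lit 5) (nat_lit 7) (nat_lit 5) (nat_lit 6) (nat_lit 4) (nat_lit 222) (nat_lit 202) (nat_lit 176)))))) (XT.nd (nat_lit 312) (nat_lit 76) (nat_lit 0) (XT.nd (nat_lit 156) (nat_lit 0) (nat_lit 0) (XT.nd (nat_lit 78) (nat_lit 76) (nat_lit 0) (XT.lf (nat_lit 0) (nat_lit 7300563371) (nat_lit 152) (nat_lit 10315274301) (nat_lit 76) (nat_lit 24993524238) (nat_lit 5) (nat_lit 5) (nat_lit 7) (nat_lit 5) (nat_lit 6) (nat_lit 4) (nat_lit 223) (nat_lit 202) (nat_lit 175)) (XT.lf (nat_lit 0) (nat_lit 5081953435) (nat_lit 76) (nat_lit 9658718107) (nat_lit 152) (nat_lit 33424086470) (nat_lit 4) (nat_lit 5) (nat_lit 5) (nat_lit 5) (nat_lit 6) (nat_lit 4) (nat_lit 224) (nat_lit 202) (nat_lit 174))) (XT.nd (nat_lit 78) (nat_lit 0) (nat_lit 0) (XT.lf (nat_lit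 0) (nat_lit 23319600386) (nat_lit 76) (nat_lit 221861815) (nat_lit 152) (nat_lit 30992634300) (nat_lit 4) (nat_lit 5) (nat_lit 5) (nat_lit 5) (nat_lit 6) (nat_lit 4) (nat_lit 225) (nat_lit 202) (nat_lit 173)) (XT.lf (nat_lit 0) (nat_lit 33868844525) (nat_lit 152) (nat_lit 17906446528) (nat_lit 0) (nat_lit 10067206230) (nat_lit 4) (nat_lit 5) (nat_lit 6) (nat_lit 4) (nat_lit 4) (nat_lit 4) (nat_lit 226) (nat_lit 202) (nat_lit 172)))) (XT.nd (nat_lit 156) (nat_lit 0) (nat_lit 0) (XT.nd (nat_lit 78) (nat_lit 76) (nat_lit 0) (XT.lf (nat_lit 0) (nat_lit 45708695332) (nat_lit 152) (nat_lit 2682100273) (nat_lit 0) (nat_lit 21859449659) (nat_lit 4) (nat_lit 5) (nat_lit 6) (nat_lit 4) (nat_lit 4) (nat_lit 4) (nat_lit 227) (nat_lit 202) (nat_lit 171)) (XT.lf (nat_lit 0) (nat_lit 15539073464) (nat_lit 76) (nat_lit 44121969721) (nat_lit 76) (nat_lit 20231326328) (nat_lit 3) (nat_lit 4) (nat_lit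 4) (nat_lit 5) (nat_lit 4) (nat_lit 4) (nat_lit 228) (nat_lit 202) (nat_lit 170))) (XT.nd (nat_lit 78) (nat_lit 0) (nat_lit 0) (XT.lf (nat_lit 0) (nat_lit 36597121398) (nat_lit 76) (nat_lit 39153451969) (nat_lit 76) (nat_lit 15226810558) (nat_lit 3) (nat_lit 4) (nat_lit 4) (nat_lit 5) (nat_lit 4) (nat_lit 4) (nat_lit 229) (nat_lit 202) (nat_lit 169)) (XT.nd (nat_lit 78) (nat_lit 0) (nat_lit 0) (XT.lf (nat_lit 0) (nat_lit 60762814166) (nat_lit 76) (nat_lit 33461365594) (nat_lit 76) (nat_lit 9503421558) (nat_lit 3) (nat_lit 4) (nat_lit 4) (nat_lit 5) (nat_lit 4) (nat_lit 4) (nat_lit 230) (nat_lit 202) (nat_lit 168)) (XT.lf (nat_lit 0) (nat_lit 88508958799) (nat_lit 76) (nat_lit 26934343688) (nat_lit 76) (nat_lit 2949179979) (nat_lit 3) (nat_lit 4) (nat_lit 4) (nat_lit 5) (nat_lit 4) (nat_lit 4) (nat_lit 231) (nat_lit 202) (nat_lit 167))))))))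
noncomputable def xc28 : XT := (XT.nd (nat_lit 1326) (nat_lit 0) (nat_lit 0) (XT.nd (nat_lit 624) (nat_lit 0) (nat_lit 0) (XT.nd (nat_lit 312) (nat_lit 0) (nat_lit 0) (XT.nd (nat_lit 156) (nat_lit 0) (nat_lit 0) (XT.nd (nat_lit 78) (nat_lit 76) (nat_lit 0) (XT.lf (nat_lit 0) (nat_lit 4335832106) (nat_lit 152) (nat_lit 14990302208) (nat_lit 76) (nat_lit 115924033211) (nat_lit 2) (nat_lit 5) (nat_lit 4) (nat_lit 5) (nat_lit 3) (nat_lit 4) (nat_lit 232) (nat_lit 202) (nat_lit 166)) (XT.lf (nat_lit 0) (nat_lit 2127056572) (nat_lit 76) (nat_lit 10448170131) (nat_lit 152) (nat_lit 142052312504) (nat_lit 1) (nat_lit 5) (nat_lit 2) (nat_lit 5) (nat_lit 3) (nat_lit 4) (nat_lit 233) (nat_lit 202) (nat_lit 165))) (XT.nd (nat_lit 78) (nat_lit 0) (nat_lit 0) (XT.lf (nat_lit 0) (nat_lit 22474188865) (nat_lit 152) (nat_lit 154195330488) (nat_lit 0) (nat_lit 208158911) (nat_lit 1) (nat_lit 5) (nat_lit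 3) (nat_lit 4) (nat_lit 1) (nat_lit 4) (nat_lit 234) (nat_lit 202) (nat_lit 164)) (XT.lf (nat_lit 0) (nat_lit 34130993993) (nat_lit 152) (nat_lit 156461997594) (nat_lit 0) (nat_lit 11850553912) (nat_lit 1) (nat_lit 5) (nat_lit 3) (nat_lit 4) (nat_lit 1) (nat_lit 4) (nat_lit 235) (nat_lit 202) (nat_lit 163)))) (XT.nd (nat_lit 156) (nat_lit 0) (nat_lit 0) (XT.nd (nat_lit 78) (nat_lit 0) (nat_lit 0) (XT.lf (nat_lit 0) (nat_lit 47522431270) (nat_lit 152) (nat_lit 159093553044) (nat_lit 0) (nat_lit 25229460645) (nat_lit 1) (nat_lit 5) (nat_lit 3) (nat_lit 4) (nat_lit 1) (nat_lit 4) (nat_lit 236) (nat_lit 202) (nat_lit 162)) (XT.lf (nat_lit 0) (nat_lit 62910507080) (nat_lit 152) (nat_lit 162141483794) (nat_lit 0) (nat_lit 40606640329) (nat_lit 1) (nat_lit 5) (nat_lit 3) (nat_lit 4) (nat_lit 1) (nat_lit 4) (nat_lit 237) (nat_lit 202) (nat_lit 161))) (XT.nd (nat_lit 78) (nat_lit 0) (nat_lit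 0) (XT.lf (nat_lit 0) (nat_lit 80596292469) (nat_lit 152) (nat_lit 165665423271) (nat_lit 0) (nat_lit 58282950826) (nat_lit 1) (nat_lit 5) (nat_lit 3) (nat_lit 4) (nat_lit 1) (nat_lit 4) (nat_lit 238) (nat_lit 202) (nat_lit 160)) (XT.lf (nat_lit 0) (nat_lit 100925813675) (nat_lit 152) (nat_lit 169734318117) (nat_lit 0) (nat_lit 78604232996) (nat_lit 1) (nat_lit 5) (nat_lit 3) (nat_lit 4) (nat_lit 1) (nat_lit 4) (nat_lit 239) (nat_lit 202) (nat_lit 159))))) (XT.nd (nat_lit 312) (nat_lit 0) (nat_lit 0) (XT.nd (nat_lit 156) (nat_lit 0) (nat_lit 0) (XT.nd (nat_lit 78) (nat_lit 0) (nat_lit 0) (XT.lf (nat_lit 0) (nat_lit 124296822199) (nat_lit 152) (nat_lit 174427777144) (nat_lit 0) (nat_lit 101968077140) (nat_lit 1) (nat_lit 5) (nat_lit 3) (nat_lit 4) (nat_lit 1) (nat_lit 4) (nat_lit 240) (nat_lit 202) (nat_lit 158)) (XT.lf (nat_lit 0) (nat_lit 151166576903) (nat_lit 152) (nat_lit 179837628899)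 (nat_lit 0) (nat_lit 128831601948) (nat_lit 1) (nat_lit 5) (nat_lit 3) (nat_lit 4) (nat_lit 1) (nat_lit 4) (nat_lit 241) (nat_lit 202) (nat_lit 157))) (XT.nd (nat_lit 78) (nat_lit 0) (nat_lit 0) (XT.lf (nat_lit 0) (nat_lit 182060790379) (nat_lit 152) (nat_lit 186069718307) (nat_lit 0) (nat_lit 159720398124) (nat_lit 1) (nat_lit 5) (nat_lit 3) (nat_lit 4) (nat_lit 1) (nat_lit 4) (nat_lit 242) (nat_lit 202) (nat_lit 156)) (XT.lf (nat_lit 0) (nat_lit 217583914630) (nat_lit 152) (nat_lit 193245977552) (nat_lit 0) (nat_lit 195238811680) (nat_lit 1) (nat_lit 5) (nat_lit 3) (nat_lit 4) (nat_lit 1) (nat_lit 4) (nat_lit 243) (nat_lit 202) (nat_lit 155)))) (XT.nd (nat_lit 156) (nat_lit 0) (nat_lit 0) (XT.nd (nat_lit 78) (nat_lit 0) (nat_lit 0) (XT.lf (nat_lit 0) (nat_lit 258430967306) (nat_lit 152) (nat_lit 201506811707) (nat_lit 0) (nat_lit 236081768098) (nat_lit 1) (nat_lit 5) (nat_lit 3) (nat_lit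 4) (nat_lit 1) (nat_lit 4) (nat_lit 244) (nat_lit 202) (nat_lit 154)) (XT.lf (nat_lit 0) (nat_lit 305401129870) (nat_lit 152) (nat_lit 211013845786) (nat_lit 0) (nat_lit 283048368699) (nat_lit 1) (nat_lit 5) (nat_lit 3) (nat_lit 4) (nat_lit 1) (nat_lit 4) (nat_lit 245) (nat_lit 202) (nat_lit 153))) (XT.nd (nat_lit 78) (nat_lit 0) (nat_lit 0) (XT.lf (nat_lit 0) (nat_lit 359413383764) (nat_lit 152) (nat_lit 221953086980) (nat_lit 0) (nat_lit 337057525234) (nat_lit 1) (nat_lit 5) (nat_lit 3) (nat_lit 4) (nat_lit 1) (nat_lit 4) (nat_lit 246) (nat_lit 202) (nat_lit 152)) (XT.nd (nat_lit 78) (nat_lit 0) (nat_lit 0) (XT.lf (nat_lit 0) (nat_lit 421524490478) (nat_lit 152) (nat_lit 234538563920) (nat_lit 0) (nat_lit 399165938593) (nat_lit 1) (nat_lit 5) (nat_lit 3) (nat_lit 4) (nat_lit 1) (nat_lit 4) (nat_lit 247) (nat_lit 202) (nat_lit 151)) (XT.lf (nat_lit 0) (nat_lit 492949667317) (nat_lit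 152) (nat_lit 249016514198) (nat_lit 0) (nat_lit 470588773384) (nat_lit 1) (nat_lit 5) (nat_lit 3) (nat_lit 4) (nat_lit 1) (nat_lit 4) (nat_lit 248) (nat_lit 202) (nat_lit 150))))))) (XT.nd (nat_lit 27690) (nat_lit 0) (nat_lit 1368) (XT.nd (nat_lit 312) (nat_lit 0) (nat_lit 0) (XT.nd (nat_lit 156) (nat_lit 0) (nat_lit 0) (XT.nd (nat_lit 78) (nat_lit 0) (nat_lit 0) (XT.lf (nat_lit 0) (nat_lit 575086363393) (nat_lit 152) (nat_lit 265670202059) (nat_lit 0) (nat_lit 552723432896) (nat_lit 1) (nat_lit 5) (nat_lit 3) (nat_lit 4) (nat_lit 1) (nat_lit 4) (nat_lit 249) (nat_lit 202) (nat_lit 149)) (XT.lf (nat_lit 0) (nat_lit 669541601021) (nat_lit 152) (nat_lit 284825460526) (nat_lit 0) (nat_lit 647176899598) (nat_lit 1) (nat_lit 5) (nat_lit 3) (nat_lit 4) (nat_lit 1) (nat_lit 4) (nat_lit 250) (nat_lit 202) (nat_lit 148))) (XT.nd (nat_lit 78) (nat_lit 0) (nat_lit 0) (XT.lf (nat_lit 0) (nat_lit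 778163417458) (nat_lit 152) (nat_lit 306857066395) (nat_lit 0) (nat_lit 755797176101) (nat_lit 1) (nat_lit 5) (nat_lit 3) (nat_lit 4) (nat_lit 1) (nat_lit 4) (nat_lit 251) (nat_lit 202) (nat_lit 147)) (XT.lf (nat_lit 0) (nat_lit 903077022156) (nat_lit 152) (nat_lit 332196072825) (nat_lit 0) (nat_lit 880709441725) (nat_lit 1) (nat_lit 5) (nat_lit 3) (nat_lit 4) (nat_lit 1) (nat_lit 4) (nat_lit 252) (nat_lit 202) (nat_lit 146)))) (XT.nd (nat_lit 156) (nat_lit 0) (nat_lit 0) (XT.nd (nat_lit 78) (nat_lit 0) (nat_lit 0) (XT.lf (nat_lit 0) (nat_lit 1046726376948) (nat_lit 152) (nat_lit 361338242985) (nat_lit 0) (nat_lit 1024357632104) (nat_lit 1) (nat_lit 5) (nat_lit 3) (nat_lit 4) (nat_lit 1) (nat_lit 4) (nat_lit 253) (nat_lit 202) (nat_lit 145)) (XT.lf (nat_lit 0) (nat_lit 1211922012686) (nat_lit 152) (nat_lit 394853749769) (nat_lit 0) (nat_lit 1189552255311) (nat_lit 1) (nat_lit 5) (nat_lit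 3) (nat_lit 4) (nat_lit 1) (nat_lit 4) (nat_lit 254) (nat_lit 202) (nat_lit 144))) (XT.nd (nat_lit 78) (nat_lit 0) (nat_lit 0) (XT.lf (nat_lit 0) (nat_lit 1401896017897) (nat_lit 152) (nat_lit 433398331354) (nat_lit 0) (nat_lit 1379525380059) (nat_lit 1) (nat_lit 5) (nat_lit 3) (nat_lit 4) (nat_lit 1) (nat_lit 4) (nat_lit 255) (nat_lit 202) (nat_lit 143)) (XT.nd (nat_lit 78) (nat_lit 0) (nat_lit 0) (XT.lf (nat_lit 0) (nat_lit 1620365275291) (nat_lit 152) (nat_lit 477726120858) (nat_lit 0) (nat_lit 1597993871833) (nat_lit 1) (nat_lit 5) (nat_lit 3) (nat_lit 4) (nat_lit 1) (nat_lit 4) (nat_lit 256) (nat_lit 202) (nat_lit 142)) (XT.lf (nat_lit 0) (nat_lit 1871604183382) (nat_lit 152) (nat_lit 528704401118) (nat_lit 0) (nat_lit 1849232114168) (nat_lit 1) (nat_lit 5) (nat_lit 3) (nat_lit 4) (nat_lit 1) (nat_lit 4) (nat_lit 257) (nat_lit 202) (nat_lit 141)))))) (XT.nd (nat_lit 312) (nat_lit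 1216) (nat_lit 0) (XT.nd (nat_lit 156) (nat_lit 304) (nat_lit 0) (XT.nd (nat_lit 78) (nat_lit 0) (nat_lit 0) (XT.lf (nat_lit 0) (nat_lit 907705315) (nat_lit 380) (nat_lit 1380135780) (nat_lit 380) (nat_lit 1380135780) (nat_lit 39) (nat_lit 3) (nat_lit 44) (nat_lit 3) (nat_lit 44) (nat_lit 5) (nat_lit 203) (nat_lit 203) (nat_lit 194)) (XT.lf (nat_lit 76) (nat_lit 2967475486) (nat_lit 0) (nat_lit 1415102495) (nat_lit 380) (nat_lit 3284866281) (nat_lit 40) (nat_lit 5) (nat_lit 39) (nat_lit 3) (nat_lit 44) (nat_lit 5) (nat_lit 204) (nat_lit 203) (nat_lit 193))) (XT.nd (nat_lit 78) (nat_lit 380) (nat_lit 0) (XT.lf (nat_lit 76) (nat_lit 1410469298) (nat_lit 0) (nat_lit 5672606844) (nat_lit 380) (nat_lit 990035123) (nat_lit 41) (nat_lit 5) (nat_lit 40) (nat_lit 5) (nat_lit 45) (nat_lit 5) (nat_lit 205) (nat_lit 203) (nat_lit 192)) (XT.lf (nat_lit 0) (nat_lit 1360042415) (nat_lit 380) (nat_lit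 172639659) (nat_lit 456) (nat_lit 7023765456) (nat_lit 35) (nat_lit 5) (nat_lit 40) (nat_lit 5) (nat_lit 41) (nat_lit 5) (nat_lit 206) (nat_lit 203) (nat_lit 191)))) (XT.nd (nat_lit 156) (nat_lit 912) (nat_lit 0) (XT.nd (nat_lit 78) (nat_lit 380) (nat_lit 0) (XT.lf (nat_lit 0) (nat_lit 3932756715) (nat_lit 380) (nat_lit 1824578790) (nat_lit 76) (nat_lit 3361611747) (nat_lit 36) (nat_lit 5) (nat_lit 41) (nat_lit 5) (nat_lit 37) (nat_lit 5) (nat_lit 207) (nat_lit 203) (nat_lit 190)) (XT.lf (nat_lit 0) (nat_lit 6136997886) (nat_lit 380) (nat_lit 653928642) (nat_lit 456) (nat_lit 2985557562) (nat_lit 31) (nat_lit 5) (nat_lit 36) (nat_lit 5) (nat_lit 37) (nat_lit 5) (nat_lit 208) (nat_lit 203) (nat_lit 189))) (XT.nd (nat_lit 78) (nat_lit 456) (nat_lit 0) (XT.lf (nat_lit 0) (nat_lit 4728155189) (nat_lit 456) (nat_lit 5381397558) (nat_lit 532) (nat_lit 422843739) (nat_lit 25) (nat_lit 5) (nat_lit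 31) (nat_lit 5) (nat_lit 32) (nat_lit 5) (nat_lit 209) (nat_lit 203) (nat_lit 188)) (XT.nd (nat_lit 78) (nat_lit 152) (nat_lit 0) (XT.lf (nat_lit 0) (nat_lit 2370979661) (nat_lit 304) (nat_lit 8420305142) (nat_lit 76) (nat_lit 609554627) (nat_lit 21) (nat_lit 5) (nat_lit 25) (nat_lit 5) (nat_lit 22) (nat_lit 5) (nat_lit 210) (nat_lit 203) (nat_lit 187)) (XT.lf (nat_lit 0) (nat_lit 670379082) (nat_lit 152) (nat_lit 5011850152) (nat_lit 228) (nat_lit 6708168523) (nat_lit 19) (nat_lit 5) (nat_lit 21) (nat_lit 5) (nat_lit 22) (nat_lit 5) (nat_lit 211) (nat_lit 203) (nat_lit 186))))))))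
noncomputable def xc29 : XT := (XT.nd (nat_lit 1404) (nat_lit 152) (nat_lit 0) (XT.nd (nat_lit 702) (nat_lit 304) (nat_lit 0) (XT.nd (nat_lit 312) (nat_lit 380) (nat_lit 0) (XT.nd (nat_lit 156) (nat_lit 380) (nat_lit 0) (XT.nd (nat_lit 78) (nat_lit 152) (nat_lit 0) (XT.lf (nat_lit 0) (nat_lit 9587243997) (nat_lit 228) (nat_lit 2161752859) (nat_lit 76) (nat_lit 1773016980) (nat_lit 19) (nat_lit 5) (nat_lit 22) (nat_lit 5) (nat_lit 20) (nat_lit 5) (nat_lit 212) (nat_lit 203) (nat_lit 185)) (XT.lf (nat_lit 0) (nat_lit 8927925229) (nat_lit 152) (nat_lit 5334941760) (nat_lit 228) (nat_lit 546925746) (nat_lit 17) (nat_lit 5) (nat_lit 19) (nat_lit 5) (nat_lit 20) (nat_lit 5) (nat_lit 213) (nat_lit 203) (nat_lit 184))) (XT.nd (nat_lit 78) (nat_lit 152) (nat_lit 0) (XT.lf (nat_lit 0) (nat_lit 3278004362) (nat_lit 228) (nat_lit 10818756572) (nat_lit 76) (nat_lit 2180791636) (nat_lit 14) (nat_lit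 5) (nat_lit 17) (nat_lit 5) (nat_lit 15) (nat_lit 5) (nat_lit 214) (nat_lit 203) (nat_lit 183)) (XT.lf (nat_lit 0) (nat_lit 570771760) (nat_lit 152) (nat_lit 7270198485) (nat_lit 228) (nat_lit 10108481620) (nat_lit 12) (nat_lit 5) (nat_lit 14) (nat_lit 5) (nat_lit 15) (nat_lit 5) (nat_lit 215) (nat_lit 203) (nat_lit 182)))) (XT.nd (nat_lit 156) (nat_lit 304) (nat_lit 0) (XT.nd (nat_lit 78) (nat_lit 76) (nat_lit 0) (XT.lf (nat_lit 0) (nat_lit 13297147602) (nat_lit 228) (nat_lit 5733916495) (nat_lit 76) (nat_lit 825106615) (nat_lit 12) (nat_lit 5) (nat_lit 15) (nat_lit 5) (nat_lit 13) (nat_lit 4) (nat_lit 216) (nat_lit 203) (nat_lit 181)) (XT.lf (nat_lit 0) (nat_lit 7676385180) (nat_lit 76) (nat_lit 12169451987) (nat_lit 152) (nat_lit 2181773357) (nat_lit 11) (nat_lit 5) (nat_lit 12) (nat_lit 5) (nat_lit 13) (nat_lit 4) (nat_lit 217) (nat_lit 203) (nat_lit 180))) (XT.nd (nat_lit 78) (nat_lit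 228) (nat_lit 0) (XT.lf (nat_lit 0) (nat_lit 2776859092) (nat_lit 152) (nat_lit 1295074434) (nat_lit 76) (nat_lit 20442463334) (nat_lit 10) (nat_lit 5) (nat_lit 12) (nat_lit 5) (nat_lit 11) (nat_lit 5) (nat_lit 218) (nat_lit 203) (nat_lit 179)) (XT.nd (nat_lit 78) (nat_lit 76) (nat_lit 0) (XT.lf (nat_lit 0) (nat_lit 8741262566) (nat_lit 228) (nat_lit 13249596263) (nat_lit 76) (nat_lit 5347963919) (nat_lit 8) (nat_lit 5) (nat_lit 11) (nat_lit 5) (nat_lit 9) (nat_lit 4) (nat_lit 219) (nat_lit 203) (nat_lit 178)) (XT.lf (nat_lit 0) (nat_lit 1086237902) (nat_lit 76) (nat_lit 14609003841) (nat_lit 152) (nat_lit 14884467194) (nat_lit 7) (nat_lit 5) (nat_lit 8) (nat_lit 5) (nat_lit 9) (nat_lit 4) (nat_lit 220) (nat_lit 203) (nat_lit 177)))))) (XT.nd (nat_lit 312) (nat_lit 152) (nat_lit 0) (XT.nd (nat_lit 156) (nat_lit 152) (nat_lit 0) (XT.nd (nat_lit 78) (nat_lit 0) (nat_lit 0) (XT.lf (nat_lit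 0) (nat_lit 18255620220) (nat_lit 76) (nat_lit 5747828958) (nat_lit 152) (nat_lit 10278727174) (nat_lit 7) (nat_lit 5) (nat_lit 8) (nat_lit 5) (nat_lit 9) (nat_lit 4) (nat_lit 221) (nat_lit 203) (nat_lit 176)) (XT.lf (nat_lit 0) (nat_lit 33598914698) (nat_lit 152) (nat_lit 754636826) (nat_lit 0) (nat_lit 4183474817) (nat_lit 7) (nat_lit 5) (nat_lit 9) (nat_lit 4) (nat_lit 7) (nat_lit 4) (nat_lit 222) (nat_lit 203) (nat_lit 175))) (XT.nd (nat_lit 78) (nat_lit 0) (nat_lit 0) (XT.lf (nat_lit 0) (nat_lit 1677526836) (nat_lit 152) (nat_lit 26004381322) (nat_lit 76) (nat_lit 15703386009) (nat_lit 5) (nat_lit 5) (nat_lit 7) (nat_lit 5) (nat_lit 6) (nat_lit 4) (nat_lit 223) (nat_lit 203) (nat_lit 174)) (XT.lf (nat_lit 0) (nat_lit 8970578874) (nat_lit 152) (nat_lit 10902830703) (nat_lit 76) (nat_lit 29079141124) (nat_lit 5) (nat_lit 5) (nat_lit 7) (nat_lit 5) (nat_lit 6) (nat_lit 4) (nat_lit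 224) (nat_lit 203) (nat_lit 173)))) (XT.nd (nat_lit 156) (nat_lit 76) (nat_lit 0) (XT.nd (nat_lit 78) (nat_lit 0) (nat_lit 0) (XT.lf (nat_lit 0) (nat_lit 6722744427) (nat_lit 76) (nat_lit 10750095742) (nat_lit 152) (nat_lit 37873014795) (nat_lit 4) (nat_lit 5) (nat_lit 5) (nat_lit 5) (nat_lit 6) (nat_lit 4) (nat_lit 225) (nat_lit 203) (nat_lit 172)) (XT.lf (nat_lit 0) (nat_lit 27527122858) (nat_lit 152) (nat_lit 35096170448) (nat_lit 0) (nat_lit 52882956) (nat_lit 4) (nat_lit 5) (nat_lit 6) (nat_lit 4) (nat_lit 4) (nat_lit 4) (nat_lit 226) (nat_lit 203) (nat_lit 171))) (XT.nd (nat_lit 78) (nat_lit 76) (nat_lit 0) (XT.lf (nat_lit 0) (nat_lit 39349673356) (nat_lit 152) (nat_lit 19901662260) (nat_lit 0) (nat_lit 11834035734) (nat_lit 4) (nat_lit 5) (nat_lit 6) (nat_lit 4) (nat_lit 4) (nat_lit 4) (nat_lit 227) (nat_lit 203) (nat_lit 170)) (XT.nd (nat_lit 78) (nat_lit 76) (nat_lit 0) (XT.lf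 (nat_lit 0) (nat_lit 52913262373) (nat_lit 152) (nat_lit 2483762055) (nat_lit 0) (nat_lit 25361626733) (nat_lit 4) (nat_lit 5) (nat_lit 6) (nat_lit 4) (nat_lit 4) (nat_lit 4) (nat_lit 228) (nat_lit 203) (nat_lit 169)) (XT.lf (nat_lit 0) (nat_lit 18419745436) (nat_lit 76) (nat_lit 50506514361) (nat_lit 76) (nat_lit 22923576096) (nat_lit 3) (nat_lit 4) (nat_lit 4) (nat_lit 5) (nat_lit 4) (nat_lit 4) (nat_lit 229) (nat_lit 203) (nat_lit 168))))))) (XT.nd (nat_lit 702) (nat_lit 0) (nat_lit 0) (XT.nd (nat_lit 312) (nat_lit 76) (nat_lit 0) (XT.nd (nat_lit 156) (nat_lit 76) (nat_lit 0) (XT.nd (nat_lit 78) (nat_lit 0) (nat_lit 0) (XT.lf (nat_lit 0) (nat_lit 42564786088) (nat_lit 76) (nat_lit 44823208183) (nat_lit 76) (nat_lit 17213050245) (nat_lit 3) (nat_lit 4) (nat_lit 4) (nat_lit 5) (nat_lit 4) (nat_lit 4) (nat_lit 230) (nat_lit 203) (nat_lit 167)) (XT.lf (nat_lit 0) (nat_lit 70292972360)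 (nat_lit 76) (nat_lit 38303821232) (nat_lit 76) (nat_lit 10669994012) (nat_lit 3) (nat_lit 4) (nat_lit 4) (nat_lit 5) (nat_lit 4) (nat_lit 4) (nat_lit 231) (nat_lit 203) (nat_lit 166))) (XT.nd (nat_lit 78) (nat_lit 76) (nat_lit 0) (XT.lf (nat_lit 0) (nat_lit 102146812245) (nat_lit 76) (nat_lit 30820800283) (nat_lit 76) (nat_lit 3166391080) (nat_lit 3) (nat_lit 4) (nat_lit 4) (nat_lit 5) (nat_lit 4) (nat_lit 4) (nat_lit 232) (nat_lit 203) (nat_lit 165)) (XT.lf (nat_lit 0) (nat_lit 5172208822) (nat_lit 152) (nat_lit 16914112228) (nat_lit 76) (nat_lit 133435906867) (nat_lit 2) (nat_lit 5) (nat_lit 4) (nat_lit 5) (nat_lit 3) (nat_lit 4) (nat_lit 233) (nat_lit 203) (nat_lit 164)))) (XT.nd (nat_lit 156) (nat_lit 0) (nat_lit 0) (XT.nd (nat_lit 78) (nat_lit 0) (nat_lit 0) (XT.lf (nat_lit 0) (nat_lit 2743363143) (nat_lit 76) (nat_lit 11887037173) (nat_lit 152) (nat_lit 163177250270) (nat_lit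 1) (nat_lit 5) (nat_lit 2) (nat_lit 5) (nat_lit 3) (nat_lit 4) (nat_lit 234) (nat_lit 203) (nat_lit 163)) (XT.lf (nat_lit 0) (nat_lit 25994862091) (nat_lit 152) (nat_lit 177056646963) (nat_lit 0) (nat_lit 345415328) (nat_lit 1) (nat_lit 5) (nat_lit 3) (nat_lit 4) (nat_lit 1) (nat_lit 4) (nat_lit 235) (nat_lit 203) (nat_lit 162))) (XT.nd (nat_lit 78) (nat_lit 0) (nat_lit 0) (XT.lf (nat_lit 0) (nat_lit 39380682132) (nat_lit 152) (nat_lit 179698268452) (nat_lit 0) (nat_lit 13720339243) (nat_lit 1) (nat_lit 5) (nat_lit 3) (nat_lit 4) (nat_lit 1) (nat_lit 4) (nat_lit 236) (nat_lit 203) (nat_lit 161)) (XT.nd (nat_lit 78) (nat_lit 0) (nat_lit 0) (XT.lf (nat_lit 0) (nat_lit 54763873387) (nat_lit 152) (nat_lit 182754952278) (nat_lit 0) (nat_lit 29094055606) (nat_lit 1) (nat_lit 5) (nat_lit 3) (nat_lit 4) (nat_lit 1) (nat_lit 4) (nat_lit 237) (nat_lit 203) (nat_lit 160)) (XT.lf (nat_lit 0) (nat_lit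 72445411339) (nat_lit 152) (nat_lit 186286503126) (nat_lit 0) (nat_lit 46767354521) (nat_lit 1) (nat_lit 5) (nat_lit 3) (nat_lit 4) (nat_lit 1) (nat_lit 4) (nat_lit 238) (nat_lit 203) (nat_lit 159)))))) (XT.nd (nat_lit 312) (nat_lit 0) (nat_lit 0) (XT.nd (nat_lit 156) (nat_lit 0) (nat_lit 0) (XT.nd (nat_lit 78) (nat_lit 0) (nat_lit 0) (XT.lf (nat_lit 0) (nat_lit 92771239120) (nat_lit 152) (nat_lit 190362016555) (nat_lit 0) (nat_lit 67086017922) (nat_lit 1) (nat_lit 5) (nat_lit 3) (nat_lit 4) (nat_lit 1) (nat_lit 4) (nat_lit 239) (nat_lit 203) (nat_lit 158)) (XT.lf (nat_lit 0) (nat_lit 116139035970) (nat_lit 152) (nat_lit 195061230873) (nat_lit 0) (nat_lit 90447584877) (nat_lit 1) (nat_lit 5) (nat_lit 3) (nat_lit 4) (nat_lit 1) (nat_lit 4) (nat_lit 240) (nat_lit 203) (nat_lit 157))) (XT.nd (nat_lit 78) (nat_lit 0) (nat_lit 0) (XT.lf (nat_lit 0) (nat_lit 143005997914) (nat_lit 152) (nat_lit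 200476087227) (nat_lit 0) (nat_lit 117309129521) (nat_lit 1) (nat_lit 5) (nat_lit 3) (nat_lit 4) (nat_lit 1) (nat_lit 4) (nat_lit 241) (nat_lit 203) (nat_lit 156)) (XT.lf (nat_lit 0) (nat_lit 173897782904) (nat_lit 152) (nat_lit 206712528461) (nat_lit 0) (nat_lit 148196203815) (nat_lit 1) (nat_lit 5) (nat_lit 3) (nat_lit 4) (nat_lit 1) (nat_lit 4) (nat_lit 242) (nat_lit 203) (nat_lit 155)))) (XT.nd (nat_lit 156) (nat_lit 0) (nat_lit 0) (XT.nd (nat_lit 78) (nat_lit 0) (nat_lit 0) (XT.lf (nat_lit 0) (nat_lit 209418795428) (nat_lit 152) (nat_lit 213892571903) (nat_lit 0) (nat_lit 183713120082) (nat_lit 1) (nat_lit 5) (nat_lit 3) (nat_lit 4) (nat_lit 1) (nat_lit 4) (nat_lit 243) (nat_lit 203) (nat_lit 154)) (XT.lf (nat_lit 0) (nat_lit 250264011818) (nat_lit 152) (nat_lit 222156696663) (nat_lit 0) (nat_lit 224554774509) (nat_lit 1) (nat_lit 5) (nat_lit 3) (nat_lit 4) (nat_lit 1) (nat_lit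 4) (nat_lit 244) (nat_lit 203) (nat_lit 153))) (XT.nd (nat_lit 78) (nat_lit 0) (nat_lit 0) (XT.lf (nat_lit 0) (nat_lit 297232577613) (nat_lit 152) (nat_lit 231666592139) (nat_lit 0) (nat_lit 271520242945) (nat_lit 1) (nat_lit 5) (nat_lit 3) (nat_lit 4) (nat_lit 1) (nat_lit 4) (nat_lit 245) (nat_lit 203) (nat_lit 152)) (XT.nd (nat_lit 78) (nat_lit 0) (nat_lit 0) (XT.lf (nat_lit 0) (nat_lit 351243443012) (nat_lit 152) (nat_lit 242608321504) (nat_lit 0) (nat_lit 325528414988) (nat_lit 1) (nat_lit 5) (nat_lit 3) (nat_lit 4) (nat_lit 1) (nat_lit 4) (nat_lit 246) (nat_lit 203) (nat_lit 151)) (XT.lf (nat_lit 0) (nat_lit 413353342339) (nat_lit 152) (nat_lit 255195962070) (nat_lit 0) (nat_lit 387635972267) (nat_lit 1) (nat_lit 5) (nat_lit 3) (nat_lit 4) (nat_lit 1) (nat_lit 4) (nat_lit 247) (nat_lit 203) (nat_lit 150))))))))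
noncomputable def xc30 : XT := (XT.nd (nat_lit 28392) (nat_lit 0) (nat_lit 228) (XT.nd (nat_lit 624) (nat_lit 0) (nat_lit 0) (XT.nd (nat_lit 312) (nat_lit 0) (nat_lit 0) (XT.nd (nat_lit 156) (nat_lit 0) (nat_lit 0) (XT.nd (nat_lit 78) (nat_lit 0) (nat_lit 0) (XT.lf (nat_lit 0) (nat_lit 484777469276) (nat_lit 152) (nat_lit 269675793763) (nat_lit 0) (nat_lit 459058062640) (nat_lit 1) (nat_lit 5) (nat_lit 3) (nat_lit 4) (nat_lit 1) (nat_lit 4) (nat_lit 248) (nat_lit 203) (nat_lit 149)) (XT.lf (nat_lit 0) (nat_lit 566913252394) (nat_lit 152) (nat_lit 286331117636) (nat_lit 0) (nat_lit 541192074833) (nat_lit 1) (nat_lit 5) (nat_lit 3) (nat_lit 4) (nat_lit 1) (nat_lit 4) (nat_lit 249) (nat_lit 203) (nat_lit 148))) (XT.nd (nat_lit 78) (nat_lit 0) (nat_lit 0) (XT.lf (nat_lit 0) (nat_lit 661367696145) (nat_lit 152) (nat_lit 305487798723) (nat_lit 0) (nat_lit 635644978650) (nat_lit 1) (nat_lit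 5) (nat_lit 3) (nat_lit 4) (nat_lit 1) (nat_lit 4) (nat_lit 250) (nat_lit 203) (nat_lit 147)) (XT.lf (nat_lit 0) (nat_lit 769988822255) (nat_lit 152) (nat_lit 327520641653) (nat_lit 0) (nat_lit 744264765685) (nat_lit 1) (nat_lit 5) (nat_lit 3) (nat_lit 4) (nat_lit 1) (nat_lit 4) (nat_lit 251) (nat_lit 203) (nat_lit 146)))) (XT.nd (nat_lit 156) (nat_lit 0) (nat_lit 0) (XT.nd (nat_lit 78) (nat_lit 0) (nat_lit 0) (XT.lf (nat_lit 0) (nat_lit 894901826669) (nat_lit 152) (nat_lit 352860723788) (nat_lit 0) (nat_lit 869176605687) (nat_lit 1) (nat_lit 5) (nat_lit 3) (nat_lit 4) (nat_lit 1) (nat_lit 4) (nat_lit 252) (nat_lit 203) (nat_lit 145)) (XT.lf (nat_lit 0) (nat_lit 1038550659473) (nat_lit 152) (nat_lit 382003829343) (nat_lit 0) (nat_lit 1012824425959) (nat_lit 1) (nat_lit 5) (nat_lit 3) (nat_lit 4) (nat_lit 1) (nat_lit 4) (nat_lit 253) (nat_lit 203) (nat_lit 144))) (XT.nd (nat_lit 78) (nat_lit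 0) (nat_lit 0) (XT.lf (nat_lit 0) (nat_lit 1203745841310) (nat_lit 152) (nat_lit 415520149515) (nat_lit 0) (nat_lit 1178018727333) (nat_lit 1) (nat_lit 5) (nat_lit 3) (nat_lit 4) (nat_lit 1) (nat_lit 4) (nat_lit 254) (nat_lit 203) (nat_lit 143)) (XT.lf (nat_lit 0) (nat_lit 1393719451824) (nat_lit 152) (nat_lit 454065438393) (nat_lit 0) (nat_lit 1367991572227) (nat_lit 1) (nat_lit 5) (nat_lit 3) (nat_lit 4) (nat_lit 1) (nat_lit 4) (nat_lit 255) (nat_lit 203) (nat_lit 142))))) (XT.nd (nat_lit 27378) (nat_lit 0) (nat_lit 1748) (XT.nd (nat_lit 27222) (nat_lit 0) (nat_lit 2508) (XT.nd (nat_lit 78) (nat_lit 0) (nat_lit 0) (XT.lf (nat_lit 0) (nat_lit 1612188366003) (nat_lit 152) (nat_lit 498393842934) (nat_lit 0) (nat_lit 1586459820650) (nat_lit 1) (nat_lit 5) (nat_lit 3) (nat_lit 4) (nat_lit 1) (nat_lit 4) (nat_lit 256) (nat_lit 203) (nat_lit 141)) (XT.lf (nat_lit 0) (nat_lit 1863426975646)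 (nat_lit 152) (nat_lit 549372658009) (nat_lit 0) (nat_lit 1837697851375) (nat_lit 1) (nat_lit 5) (nat_lit 3) (nat_lit 4) (nat_lit 1) (nat_lit 4) (nat_lit 257) (nat_lit 203) (nat_lit 140))) (XT.nd (nat_lit 78) (nat_lit 380) (nat_lit 0) (XT.lf (nat_lit 0) (nat_lit 3305796996) (nat_lit 380) (nat_lit 354099777) (nat_lit 380) (nat_lit 354099777) (nat_lit 39) (nat_lit 3) (nat_lit 44) (nat_lit 3) (nat_lit 44) (nat_lit 5) (nat_lit 204) (nat_lit 204) (nat_lit 192)) (XT.lf (nat_lit 0) (nat_lit 541418319) (nat_lit 380) (nat_lit 2801868938) (nat_lit 456) (nat_lit 5113743733) (nat_lit 34) (nat_lit 5) (nat_lit 39) (nat_lit 3) (nat_lit 40) (nat_lit 5) (nat_lit 205) (nat_lit 204) (nat_lit 191)))) (XT.nd (nat_lit 156) (nat_lit 836) (nat_lit 0) (XT.nd (nat_lit 78) (nat_lit 0) (nat_lit 0) (XT.lf (nat_lit 0) (nat_lit 2532665174) (nat_lit 380) (nat_lit 4978415955) (nat_lit 456) (nat_lit 1453530326) (nat_lit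 35) (nat_lit 5) (nat_lit 40) (nat_lit 5) (nat_lit 41) (nat_lit 5) (nat_lit 206) (nat_lit 204) (nat_lit 190)) (XT.lf (nat_lit 76) (nat_lit 2222412724) (nat_lit 0) (nat_lit 2537912232) (nat_lit 456) (nat_lit 4795611992) (nat_lit 36) (nat_lit 5) (nat_lit 35) (nat_lit 5) (nat_lit 41) (nat_lit 5) (nat_lit 207) (nat_lit 204) (nat_lit 189))) (XT.nd (nat_lit 78) (nat_lit 532) (nat_lit 0) (XT.lf (nat_lit 0) (nat_lit 294097447) (nat_lit 380) (nat_lit 7003286082) (nat_lit 456) (nat_lit 2942841252) (nat_lit 31) (nat_lit 5) (nat_lit 36) (nat_lit 5) (nat_lit 37) (nat_lit 5) (nat_lit 208) (nat_lit 204) (nat_lit 188)) (XT.nd (nat_lit 78) (nat_lit 532) (nat_lit 0) (XT.lf (nat_lit 0) (nat_lit 9233942356) (nat_lit 380) (nat_lit 1034609201) (nat_lit 456) (nat_lit 756305836) (nat_lit 31) (nat_lit 5) (nat_lit 36) (nat_lit 5) (nat_lit 37) (nat_lit 5) (nat_lit 209) (nat_lit 204) (nat_lit 187)) (XT.lf (nat_lit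 0) (nat_lit 1797676678) (nat_lit 532) (nat_lit 4328947334) (nat_lit 76) (nat_lit 5788583274) (nat_lit 24) (nat_lit 5) (nat_lit 31) (nat_lit 5) (nat_lit 25) (nat_lit 5) (nat_lit 210) (nat_lit 204) (nat_lit 186))))))) (XT.nd (nat_lit 702) (nat_lit 456) (nat_lit 0) (XT.nd (nat_lit 312) (nat_lit 456) (nat_lit 0) (XT.nd (nat_lit 156) (nat_lit 228) (nat_lit 0) (XT.nd (nat_lit 78) (nat_lit 152) (nat_lit 0) (XT.lf (nat_lit 0) (nat_lit 4745796799) (nat_lit 304) (nat_lit 7373320928) (nat_lit 76) (nat_lit 815344859) (nat_lit 21) (nat_lit 5) (nat_lit 25) (nat_lit 5) (nat_lit 22) (nat_lit 5) (nat_lit 211) (nat_lit 204) (nat_lit 185)) (XT.lf (nat_lit 0) (nat_lit 2885433397) (nat_lit 152) (nat_lit 5455784101) (nat_lit 228) (nat_lit 5750190965) (nat_lit 19) (nat_lit 5) (nat_lit 21) (nat_lit 5) (nat_lit 22) (nat_lit 5) (nat_lit 212) (nat_lit 204) (nat_lit 184))) (XT.nd (nat_lit 78) (nat_lit 228) (nat_lit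 0) (XT.lf (nat_lit 0) (nat_lit 12602771922) (nat_lit 228) (nat_lit 516761210) (nat_lit 76) (nat_lit 2293268651) (nat_lit 19) (nat_lit 5) (nat_lit 22) (nat_lit 5) (nat_lit 20) (nat_lit 5) (nat_lit 213) (nat_lit 204) (nat_lit 183)) (XT.lf (nat_lit 0) (nat_lit 863643015) (nat_lit 228) (nat_lit 4860399380) (nat_lit 76) (nat_lit 11182424454) (nat_lit 16) (nat_lit 5) (nat_lit 19) (nat_lit 5) (nat_lit 17) (nat_lit 5) (nat_lit 214) (nat_lit 204) (nat_lit 182)))) (XT.nd (nat_lit 156) (nat_lit 152) (nat_lit 0) (XT.nd (nat_lit 78) (nat_lit 152) (nat_lit 0) (XT.lf (nat_lit 0) (nat_lit 5091861725) (nat_lit 228) (nat_lit 10609934973) (nat_lit 76) (nat_lit 2903691538) (nat_lit 14) (nat_lit 5) (nat_lit 17) (nat_lit 5) (nat_lit 15) (nat_lit 5) (nat_lit 215) (nat_lit 204) (nat_lit 181)) (XT.lf (nat_lit 0) (nat_lit 2332983821) (nat_lit 152) (nat_lit 7874155627) (nat_lit 228) (nat_lit 10332637274) (nat_lit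 12) (nat_lit 5) (nat_lit 14) (nat_lit 5) (nat_lit 15) (nat_lit 5) (nat_lit 216) (nat_lit 204) (nat_lit 180))) (XT.nd (nat_lit 78) (nat_lit 152) (nat_lit 0) (XT.lf (nat_lit 0) (nat_lit 16336698657) (nat_lit 228) (nat_lit 5057493416) (nat_lit 76) (nat_lit 1350813734) (nat_lit 12) (nat_lit 5) (nat_lit 15) (nat_lit 5) (nat_lit 13) (nat_lit 4) (nat_lit 217) (nat_lit 204) (nat_lit 179)) (XT.nd (nat_lit 78) (nat_lit 76) (nat_lit 0) (XT.lf (nat_lit 0) (nat_lit 10234295545) (nat_lit 76) (nat_lit 13530919733) (nat_lit 152) (nat_lit 1485926016) (nat_lit 11) (nat_lit 5) (nat_lit 12) (nat_lit 5) (nat_lit 13) (nat_lit 4) (nat_lit 218) (nat_lit 204) (nat_lit 178)) (XT.lf (nat_lit 0) (nat_lit 4038547149) (nat_lit 152) (nat_lit 217633428) (nat_lit 76) (nat_lit 23863567741) (nat_lit 10) (nat_lit 5) (nat_lit 12) (nat_lit 5) (nat_lit 11) (nat_lit 5) (nat_lit 219) (nat_lit 204) (nat_lit 177)))))) (XT.nd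 (nat_lit 312) (nat_lit 152) (nat_lit 0) (XT.nd (nat_lit 156) (nat_lit 76) (nat_lit 0) (XT.nd (nat_lit 78) (nat_lit 76) (nat_lit 0) (XT.lf (nat_lit 0) (nat_lit 10825016114) (nat_lit 228) (nat_lit 14017942814) (nat_lit 76) (nat_lit 6531233981) (nat_lit 8) (nat_lit 5) (nat_lit 11) (nat_lit 5) (nat_lit 9) (nat_lit 4) (nat_lit 220) (nat_lit 204) (nat_lit 176)) (XT.lf (nat_lit 0) (nat_lit 2365076335) (nat_lit 76) (nat_lit 16383084081) (nat_lit 152) (nat_lit 16359441992) (nat_lit 7) (nat_lit 5) (nat_lit 8) (nat_lit 5) (nat_lit 9) (nat_lit 4) (nat_lit 221) (nat_lit 204) (nat_lit 175))) (XT.nd (nat_lit 78) (nat_lit 76) (nat_lit 0) (XT.lf (nat_lit 0) (nat_lit 21964313469) (nat_lit 76) (nat_lit 6247159532) (nat_lit 152) (nat_lit 11161670787) (nat_lit 7) (nat_lit 5) (nat_lit 8) (nat_lit 5) (nat_lit 9) (nat_lit 4) (nat_lit 222) (nat_lit 204) (nat_lit 174)) (XT.lf (nat_lit 0) (nat_lit 13708016) (nat_lit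 76) (nat_lit 39161228214) (nat_lit 76) (nat_lit 5097350619) (nat_lit 6) (nat_lit 4) (nat_lit 7) (nat_lit 5) (nat_lit 7) (nat_lit 4) (nat_lit 223) (nat_lit 204) (nat_lit 173)))) (XT.nd (nat_lit 156) (nat_lit 76) (nat_lit 0) (XT.nd (nat_lit 78) (nat_lit 0) (nat_lit 0) (XT.lf (nat_lit 0) (nat_lit 2429095859) (nat_lit 152) (nat_lit 29070486569) (nat_lit 76) (nat_lit 18351579346) (nat_lit 5) (nat_lit 5) (nat_lit 7) (nat_lit 5) (nat_lit 6) (nat_lit 4) (nat_lit 224) (nat_lit 204) (nat_lit 172)) (XT.lf (nat_lit 0) (nat_lit 10750896138) (nat_lit 152) (nat_lit 11812557960) (nat_lit 76) (nat_lit 33695521367) (nat_lit 5) (nat_lit 5) (nat_lit 7) (nat_lit 5) (nat_lit 6) (nat_lit 4) (nat_lit 225) (nat_lit 204) (nat_lit 171))) (XT.nd (nat_lit 78) (nat_lit 0) (nat_lit 0) (XT.lf (nat_lit 0) (nat_lit 8395426774) (nat_lit 76) (nat_lit 12092341610) (nat_lit 152) (nat_lit 43126984297) (nat_lit 4) (nat_lit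 5) (nat_lit 5) (nat_lit 5) (nat_lit 6) (nat_lit 4) (nat_lit 226) (nat_lit 204) (nat_lit 170)) (XT.nd (nat_lit 78) (nat_lit 0) (nat_lit 0) (XT.lf (nat_lit 0) (nat_lit 32004454029) (nat_lit 152) (nat_lit 39759942757) (nat_lit 0) (nat_lit 284075024) (nat_lit 4) (nat_lit 5) (nat_lit 6) (nat_lit 4) (nat_lit 4) (nat_lit 4) (nat_lit 227) (nat_lit 204) (nat_lit 169)) (XT.lf (nat_lit 0) (nat_lit 45554961527) (nat_lit 152) (nat_lit 22364604417) (nat_lit 0) (nat_lit 13803279898) (nat_lit 4) (nat_lit 5) (nat_lit 6) (nat_lit 4) (nat_lit 4) (nat_lit 4) (nat_lit 228) (nat_lit 204) (nat_lit 168))))))))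
noncomputable def xc31 : XT := (XT.nd (nat_lit 1404) (nat_lit 0) (nat_lit 0) (XT.nd (nat_lit 702) (nat_lit 0) (nat_lit 0) (XT.nd (nat_lit 312) (nat_lit 152) (nat_lit 0) (XT.nd (nat_lit 156) (nat_lit 0) (nat_lit 0) (XT.nd (nat_lit 78) (nat_lit 76) (nat_lit 0) (XT.lf (nat_lit 0) (nat_lit 61113588396) (nat_lit 152) (nat_lit 2402146206) (nat_lit 0) (nat_lit 29334687094) (nat_lit 4) (nat_lit 5) (nat_lit 6) (nat_lit 4) (nat_lit 4) (nat_lit 4) (nat_lit 229) (nat_lit 204) (nat_lit 167)) (XT.lf (nat_lit 0) (nat_lit 21598443321) (nat_lit 76) (nat_lit 57905742314) (nat_lit 76) (nat_lit 26103171730) (nat_lit 3) (nat_lit 4) (nat_lit 4) (nat_lit 5) (nat_lit 4) (nat_lit 4) (nat_lit 230) (nat_lit 204) (nat_lit 166))) (XT.nd (nat_lit 78) (nat_lit 0) (nat_lit 0) (XT.lf (nat_lit 0) (nat_lit 49311013627) (nat_lit 76) (nat_lit 51392994453) (nat_lit 76) (nat_lit 19569841886) (nat_lit 3) (nat_lit 4) (nat_lit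 4) (nat_lit 5) (nat_lit 4) (nat_lit 4) (nat_lit 231) (nat_lit 204) (nat_lit 165)) (XT.lf (nat_lit 0) (nat_lit 81151274411) (nat_lit 76) (nat_lit 43915746627) (nat_lit 76) (nat_lit 12074696684) (nat_lit 3) (nat_lit 4) (nat_lit 4) (nat_lit 5) (nat_lit 4) (nat_lit 4) (nat_lit 232) (nat_lit 204) (nat_lit 164)))) (XT.nd (nat_lit 156) (nat_lit 76) (nat_lit 0) (XT.nd (nat_lit 78) (nat_lit 76) (nat_lit 0) (XT.lf (nat_lit 0) (nat_lit 117742187296) (nat_lit 76) (nat_lit 35327704857) (nat_lit 76) (nat_lit 3471091977) (nat_lit 3) (nat_lit 4) (nat_lit 4) (nat_lit 5) (nat_lit 4) (nat_lit 4) (nat_lit 233) (nat_lit 204) (nat_lit 163)) (XT.lf (nat_lit 0) (nat_lit 6088684305) (nat_lit 152) (nat_lit 19205682514) (nat_lit 76) (nat_lit 153544501725) (nat_lit 2) (nat_lit 5) (nat_lit 4) (nat_lit 5) (nat_lit 3) (nat_lit 4) (nat_lit 234) (nat_lit 204) (nat_lit 162))) (XT.nd (nat_lit 78) (nat_lit 0) (nat_lit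 0) (XT.lf (nat_lit 0) (nat_lit 3379629871) (nat_lit 76) (nat_lit 13573035299) (nat_lit 152) (nat_lit 187515532246) (nat_lit 1) (nat_lit 5) (nat_lit 2) (nat_lit 5) (nat_lit 3) (nat_lit 4) (nat_lit 235) (nat_lit 204) (nat_lit 161)) (XT.nd (nat_lit 78) (nat_lit 0) (nat_lit 0) (XT.lf (nat_lit 0) (nat_lit 30007168832) (nat_lit 152) (nat_lit 203412510285) (nat_lit 0) (nat_lit 477403491) (nat_lit 1) (nat_lit 5) (nat_lit 3) (nat_lit 4) (nat_lit 1) (nat_lit 4) (nat_lit 236) (nat_lit 204) (nat_lit 160)) (XT.lf (nat_lit 0) (nat_lit 45386112649) (nat_lit 152) (nat_lit 206476805482) (nat_lit 0) (nat_lit 15848108272) (nat_lit 1) (nat_lit 5) (nat_lit 3) (nat_lit 4) (nat_lit 1) (nat_lit 4) (nat_lit 237) (nat_lit 204) (nat_lit 159)))))) (XT.nd (nat_lit 312) (nat_lit 0) (nat_lit 0) (XT.nd (nat_lit 156) (nat_lit 0) (nat_lit 0) (XT.nd (nat_lit 78) (nat_lit 0) (nat_lit 0) (XT.lf (nat_lit 0) (nat_lit 63063957176)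 (nat_lit 152) (nat_lit 210014974914) (nat_lit 0) (nat_lit 33518788419) (nat_lit 1) (nat_lit 5) (nat_lit 3) (nat_lit 4) (nat_lit 1) (nat_lit 4) (nat_lit 238) (nat_lit 204) (nat_lit 158)) (XT.lf (nat_lit 0) (nat_lit 83386573283) (nat_lit 152) (nat_lit 214096243633) (nat_lit 0) (nat_lit 53835174631) (nat_lit 1) (nat_lit 5) (nat_lit 3) (nat_lit 4) (nat_lit 1) (nat_lit 4) (nat_lit 239) (nat_lit 204) (nat_lit 157))) (XT.nd (nat_lit 78) (nat_lit 0) (nat_lit 0) (XT.lf (nat_lit 0) (nat_lit 106751577373) (nat_lit 152) (nat_lit 218800462550) (nat_lit 0) (nat_lit 77194761421) (nat_lit 1) (nat_lit 5) (nat_lit 3) (nat_lit 4) (nat_lit 1) (nat_lit 4) (nat_lit 240) (nat_lit 204) (nat_lit 156)) (XT.lf (nat_lit 0) (nat_lit 133616110831) (nat_lit 152) (nat_lit 224219670731) (nat_lit 0) (nat_lit 104054584183) (nat_lit 1) (nat_lit 5) (nat_lit 3) (nat_lit 4) (nat_lit 1) (nat_lit 4) (nat_lit 241) (nat_lit 204)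 (nat_lit 155)))) (XT.nd (nat_lit 156) (nat_lit 0) (nat_lit 0) (XT.nd (nat_lit 78) (nat_lit 0) (nat_lit 0) (XT.lf (nat_lit 0) (nat_lit 164505784093) (nat_lit 152) (nat_lit 230459896161) (nat_lit 0) (nat_lit 134940161188) (nat_lit 1) (nat_lit 5) (nat_lit 3) (nat_lit 4) (nat_lit 1) (nat_lit 4) (nat_lit 242) (nat_lit 204) (nat_lit 154)) (XT.lf (nat_lit 0) (nat_lit 200024960332) (nat_lit 152) (nat_lit 237643230209) (nat_lit 0) (nat_lit 170455775464) (nat_lit 1) (nat_lit 5) (nat_lit 3) (nat_lit 4) (nat_lit 1) (nat_lit 4) (nat_lit 243) (nat_lit 204) (nat_lit 153))) (XT.nd (nat_lit 78) (nat_lit 0) (nat_lit 0) (XT.lf (nat_lit 0) (nat_lit 240868579953) (nat_lit 152) (nat_lit 245910216365) (nat_lit 0) (nat_lit 211296297726) (nat_lit 1) (nat_lit 5) (nat_lit 3) (nat_lit 4) (nat_lit 1) (nat_lit 4) (nat_lit 244) (nat_lit 204) (nat_lit 152)) (XT.nd (nat_lit 78) (nat_lit 0) (nat_lit 0) (XT.lf (nat_lit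 0) (nat_lit 287835757253) (nat_lit 152) (nat_lit 255422600012) (nat_lit 0) (nat_lit 258260781670) (nat_lit 1) (nat_lit 5) (nat_lit 3) (nat_lit 4) (nat_lit 1) (nat_lit 4) (nat_lit 245) (nat_lit 204) (nat_lit 151)) (XT.lf (nat_lit 0) (nat_lit 341845415265) (nat_lit 152) (nat_lit 266366493003) (nat_lit 0) (nat_lit 312268097634) (nat_lit 1) (nat_lit 5) (nat_lit 3) (nat_lit 4) (nat_lit 1) (nat_lit 4) (nat_lit 246) (nat_lit 204) (nat_lit 150))))))) (XT.nd (nat_lit 702) (nat_lit 0) (nat_lit 0) (XT.nd (nat_lit 312) (nat_lit 0) (nat_lit 0) (XT.nd (nat_lit 156) (nat_lit 0) (nat_lit 0) (XT.nd (nat_lit 78) (nat_lit 0) (nat_lit 0) (XT.lf (nat_lit 0) (nat_lit 403954264690) (nat_lit 152) (nat_lit 278956014984) (nat_lit 0) (nat_lit 374374910495) (nat_lit 1) (nat_lit 5) (nat_lit 3) (nat_lit 4) (nat_lit 1) (nat_lit 4) (nat_lit 247) (nat_lit 204) (nat_lit 149)) (XT.lf (nat_lit 0) (nat_lit 475377478670)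 (nat_lit 152) (nat_lit 293437482689) (nat_lit 0) (nat_lit 445796353549) (nat_lit 1) (nat_lit 5) (nat_lit 3) (nat_lit 4) (nat_lit 1) (nat_lit 4) (nat_lit 248) (nat_lit 204) (nat_lit 148))) (XT.nd (nat_lit 78) (nat_lit 0) (nat_lit 0) (XT.lf (nat_lit 0) (nat_lit 557512467911) (nat_lit 152) (nat_lit 310094229182) (nat_lit 0) (nat_lit 527929802856) (nat_lit 1) (nat_lit 5) (nat_lit 3) (nat_lit 4) (nat_lit 1) (nat_lit 4) (nat_lit 249) (nat_lit 204) (nat_lit 147)) (XT.lf (nat_lit 0) (nat_lit 651966221335) (nat_lit 152) (nat_lit 329252147329) (nat_lit 0) (nat_lit 622382217206) (nat_lit 1) (nat_lit 5) (nat_lit 3) (nat_lit 4) (nat_lit 1) (nat_lit 4) (nat_lit 250) (nat_lit 204) (nat_lit 146)))) (XT.nd (nat_lit 156) (nat_lit 0) (nat_lit 0) (XT.nd (nat_lit 78) (nat_lit 0) (nat_lit 0) (XT.lf (nat_lit 0) (nat_lit 760586747159) (nat_lit 152) (nat_lit 351286065964) (nat_lit 0) (nat_lit 731001578619) (nat_lit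 1) (nat_lit 5) (nat_lit 3) (nat_lit 4) (nat_lit 1) (nat_lit 4) (nat_lit 251) (nat_lit 204) (nat_lit 145)) (XT.lf (nat_lit 0) (nat_lit 885499229586) (nat_lit 152) (nat_lit 376627083495) (nat_lit 0) (nat_lit 855913048513) (nat_lit 1) (nat_lit 5) (nat_lit 3) (nat_lit 4) (nat_lit 1) (nat_lit 4) (nat_lit 252) (nat_lit 204) (nat_lit 144))) (XT.nd (nat_lit 78) (nat_lit 0) (nat_lit 0) (XT.lf (nat_lit 0) (nat_lit 1029147608489) (nat_lit 152) (nat_lit 405771002437) (nat_lit 0) (nat_lit 999560546954) (nat_lit 1) (nat_lit 5) (nat_lit 3) (nat_lit 4) (nat_lit 1) (nat_lit 4) (nat_lit 253) (nat_lit 204) (nat_lit 143)) (XT.nd (nat_lit 78) (nat_lit 0) (nat_lit 0) (XT.lf (nat_lit 0) (nat_lit 1194342395629) (nat_lit 152) (nat_lit 439288029902) (nat_lit 0) (nat_lit 1164754568474) (nat_lit 1) (nat_lit 5) (nat_lit 3) (nat_lit 4) (nat_lit 1) (nat_lit 4) (nat_lit 254) (nat_lit 204) (nat_lit 142)) (XT.lf (nat_lit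 0) (nat_lit 1384315662928) (nat_lit 152) (nat_lit 477833933818) (nat_lit 0) (nat_lit 1354727170016) (nat_lit 1) (nat_lit 5) (nat_lit 3) (nat_lit 4) (nat_lit 1) (nat_lit 4) (nat_lit 255) (nat_lit 204) (nat_lit 141)))))) (XT.nd (nat_lit 27456) (nat_lit 0) (nat_lit 1748) (XT.nd (nat_lit 27300) (nat_lit 0) (nat_lit 2508) (XT.nd (nat_lit 78) (nat_lit 0) (nat_lit 0) (XT.lf (nat_lit 0) (nat_lit 1602784278660) (nat_lit 152) (nat_lit 522162873175) (nat_lit 0) (nat_lit 1573195206829) (nat_lit 1) (nat_lit 5) (nat_lit 3) (nat_lit 4) (nat_lit 1) (nat_lit 4) (nat_lit 256) (nat_lit 204) (nat_lit 140)) (XT.lf (nat_lit 0) (nat_lit 1854022628784) (nat_lit 152) (nat_lit 573142153307) (nat_lit 0) (nat_lit 1824433053546) (nat_lit 1) (nat_lit 5) (nat_lit 3) (nat_lit 4) (nat_lit 1) (nat_lit 4) (nat_lit 257) (nat_lit 204) (nat_lit 139))) (XT.nd (nat_lit 78) (nat_lit 0) (nat_lit 0) (XT.lf (nat_lit 0) (nat_lit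 511858008) (nat_lit 0) (nat_lit 511858008) (nat_lit 380) (nat_lit 3433896144) (nat_lit 34) (nat_lit 5) (nat_lit 34) (nat_lit 3) (nat_lit 39) (nat_lit 3) (nat_lit 205) (nat_lit 205) (nat_lit 190)) (XT.lf (nat_lit 0) (nat_lit 3745537593) (nat_lit 380) (nat_lit 1322531982) (nat_lit 456) (nat_lit 4379407925) (nat_lit 34) (nat_lit 5) (nat_lit 39) (nat_lit 3) (nat_lit 40) (nat_lit 5) (nat_lit 206) (nat_lit 205) (nat_lit 189)))) (XT.nd (nat_lit 156) (nat_lit 836) (nat_lit 0) (XT.nd (nat_lit 78) (nat_lit 0) (nat_lit 0) (XT.lf (nat_lit 0) (nat_lit 5645458081) (nat_lit 380) (nat_lit 3716679003) (nat_lit 456) (nat_lit 703947146) (nat_lit 35) (nat_lit 5) (nat_lit 40) (nat_lit 5) (nat_lit 41) (nat_lit 5) (nat_lit 207) (nat_lit 205) (nat_lit 188)) (XT.lf (nat_lit 76) (nat_lit 4394264512) (nat_lit 0) (nat_lit 3500753722) (nat_lit 456) (nat_lit 2879277264) (nat_lit 36) (nat_lit 5) (nat_lit 35) (nat_lit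 5) (nat_lit 41) (nat_lit 5) (nat_lit 208) (nat_lit 205) (nat_lit 187))) (XT.nd (nat_lit 78) (nat_lit 532) (nat_lit 0) (XT.lf (nat_lit 0) (nat_lit 2230729269) (nat_lit 380) (nat_lit 8299510527) (nat_lit 456) (nat_lit 1056367126) (nat_lit 31) (nat_lit 5) (nat_lit 36) (nat_lit 5) (nat_lit 37) (nat_lit 5) (nat_lit 209) (nat_lit 205) (nat_lit 186)) (XT.nd (nat_lit 78) (nat_lit 456) (nat_lit 0) (XT.lf (nat_lit 0) (nat_lit 1096756193) (nat_lit 456) (nat_lit 276736723) (nat_lit 76) (nat_lit 11137957393) (nat_lit 30) (nat_lit 5) (nat_lit 36) (nat_lit 5) (nat_lit 31) (nat_lit 5) (nat_lit 210) (nat_lit 205) (nat_lit 185)) (XT.lf (nat_lit 0) (nat_lit 3775926871) (nat_lit 532) (nat_lit 3213272160) (nat_lit 76) (nat_lit 6563584806) (nat_lit 24) (nat_lit 5) (nat_lit 31) (nat_lit 5) (nat_lit 25) (nat_lit 5) (nat_lit 211) (nat_lit 205) (nat_lit 184))))))))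
noncomputable def xc32 : XT := (XT.nd (nat_lit 1326) (nat_lit 228) (nat_lit 0) (XT.nd (nat_lit 624) (nat_lit 532) (nat_lit 0) (XT.nd (nat_lit 312) (nat_lit 380) (nat_lit 0) (XT.nd (nat_lit 156) (nat_lit 228) (nat_lit 0) (XT.nd (nat_lit 78) (nat_lit 152) (nat_lit 0) (XT.lf (nat_lit 0) (nat_lit 6984449070) (nat_lit 304) (nat_lit 6732604522) (nat_lit 76) (nat_lit 1024116937) (nat_lit 21) (nat_lit 5) (nat_lit 25) (nat_lit 5) (nat_lit 22) (nat_lit 5) (nat_lit 212) (nat_lit 205) (nat_lit 183)) (XT.lf (nat_lit 0) (nat_lit 4917112265) (nat_lit 152) (nat_lit 6041377747) (nat_lit 228) (nat_lit 5127500074) (nat_lit 19) (nat_lit 5) (nat_lit 21) (nat_lit 5) (nat_lit 22) (nat_lit 5) (nat_lit 213) (nat_lit 205) (nat_lit 182))) (XT.nd (nat_lit 78) (nat_lit 76) (nat_lit 0) (XT.lf (nat_lit 0) (nat_lit 941880672) (nat_lit 152) (nat_lit 14766731559) (nat_lit 228) (nat_lit 1910317200) (nat_lit 17) (nat_lit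 5) (nat_lit 19) (nat_lit 5) (nat_lit 20) (nat_lit 5) (nat_lit 214) (nat_lit 205) (nat_lit 181)) (XT.lf (nat_lit 0) (nat_lit 2098024452) (nat_lit 228) (nat_lit 4161389995) (nat_lit 76) (nat_lit 13087744603) (nat_lit 16) (nat_lit 5) (nat_lit 19) (nat_lit 5) (nat_lit 17) (nat_lit 5) (nat_lit 215) (nat_lit 205) (nat_lit 180)))) (XT.nd (nat_lit 156) (nat_lit 76) (nat_lit 0) (XT.nd (nat_lit 78) (nat_lit 152) (nat_lit 0) (XT.lf (nat_lit 0) (nat_lit 6855381407) (nat_lit 228) (nat_lit 10816445949) (nat_lit 76) (nat_lit 3638512684) (nat_lit 14) (nat_lit 5) (nat_lit 17) (nat_lit 5) (nat_lit 15) (nat_lit 5) (nat_lit 216) (nat_lit 205) (nat_lit 179)) (XT.lf (nat_lit 0) (nat_lit 3950679068) (nat_lit 152) (nat_lit 8687360158) (nat_lit 228) (nat_lit 10905507089) (nat_lit 12) (nat_lit 5) (nat_lit 14) (nat_lit 5) (nat_lit 15) (nat_lit 5) (nat_lit 217) (nat_lit 205) (nat_lit 178))) (XT.nd (nat_lit 78)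 (nat_lit 76) (nat_lit 0) (XT.lf (nat_lit 0) (nat_lit 19577357643) (nat_lit 228) (nat_lit 4654294704) (nat_lit 76) (nat_lit 1857361033) (nat_lit 12) (nat_lit 5) (nat_lit 15) (nat_lit 5) (nat_lit 13) (nat_lit 4) (nat_lit 218) (nat_lit 205) (nat_lit 177)) (XT.lf (nat_lit 0) (nat_lit 12832920094) (nat_lit 76) (nat_lit 15209744799) (nat_lit 152) (nat_lit 935194241) (nat_lit 11) (nat_lit 5) (nat_lit 12) (nat_lit 5) (nat_lit 13) (nat_lit 4) (nat_lit 219) (nat_lit 205) (nat_lit 176))))) (XT.nd (nat_lit 312) (nat_lit 228) (nat_lit 0) (XT.nd (nat_lit 156) (nat_lit 76) (nat_lit 0) (XT.nd (nat_lit 78) (nat_lit 0) (nat_lit 0) (XT.lf (nat_lit 0) (nat_lit 748767482) (nat_lit 152) (nat_lit 4552631386) (nat_lit 228) (nat_lit 26980573849) (nat_lit 8) (nat_lit 5) (nat_lit 10) (nat_lit 5) (nat_lit 11) (nat_lit 5) (nat_lit 220) (nat_lit 205) (nat_lit 175)) (XT.lf (nat_lit 0) (nat_lit 13032938030) (nat_lit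 228) (nat_lit 15198824868) (nat_lit 76) (nat_lit 7799066886) (nat_lit 8) (nat_lit 5) (nat_lit 11) (nat_lit 5) (nat_lit 9) (nat_lit 4) (nat_lit 221) (nat_lit 205) (nat_lit 174))) (XT.nd (nat_lit 78) (nat_lit 0) (nat_lit 0) (XT.lf (nat_lit 0) (nat_lit 3563620581) (nat_lit 76) (nat_lit 18525030371) (nat_lit 152) (nat_lit 18240431801) (nat_lit 7) (nat_lit 5) (nat_lit 8) (nat_lit 5) (nat_lit 9) (nat_lit 4) (nat_lit 222) (nat_lit 205) (nat_lit 173)) (XT.lf (nat_lit 0) (nat_lit 25992684660) (nat_lit 76) (nat_lit 6909871442) (nat_lit 152) (nat_lit 12337724459) (nat_lit 7) (nat_lit 5) (nat_lit 8) (nat_lit 5) (nat_lit 9) (nat_lit 4) (nat_lit 223) (nat_lit 205) (nat_lit 172)))) (XT.nd (nat_lit 156) (nat_lit 76) (nat_lit 0) (XT.nd (nat_lit 78) (nat_lit 76) (nat_lit 0) (XT.lf (nat_lit 0) (nat_lit 716890025) (nat_lit 76) (nat_lit 44756331831) (nat_lit 76) (nat_lit 5404330645) (nat_lit 6) (nat_lit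 4) (nat_lit 7) (nat_lit 5) (nat_lit 7) (nat_lit 4) (nat_lit 224) (nat_lit 205) (nat_lit 171)) (XT.lf (nat_lit 0) (nat_lit 3171486702) (nat_lit 152) (nat_lit 32800018383) (nat_lit 76) (nat_lit 21325628486) (nat_lit 5) (nat_lit 5) (nat_lit 7) (nat_lit 5) (nat_lit 6) (nat_lit 4) (nat_lit 225) (nat_lit 205) (nat_lit 170))) (XT.nd (nat_lit 78) (nat_lit 76) (nat_lit 0) (XT.lf (nat_lit 0) (nat_lit 12692249222) (nat_lit 152) (nat_lit 13035710199) (nat_lit 76) (nat_lit 38942294997) (nat_lit 5) (nat_lit 5) (nat_lit 7) (nat_lit 5) (nat_lit 6) (nat_lit 4) (nat_lit 226) (nat_lit 205) (nat_lit 169)) (XT.nd (nat_lit 78) (nat_lit 0) (nat_lit 0) (XT.lf (nat_lit 0) (nat_lit 10157024860) (nat_lit 76) (nat_lit 13701831042) (nat_lit 152) (nat_lit 49273171663) (nat_lit 4) (nat_lit 5) (nat_lit 5) (nat_lit 5) (nat_lit 6) (nat_lit 4) (nat_lit 227) (nat_lit 205) (nat_lit 168)) (XT.lf (nat_lit 0) (nat_lit 37068458800)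 (nat_lit 152) (nat_lit 45269754013) (nat_lit 0) (nat_lit 495502629) (nat_lit 4) (nat_lit 5) (nat_lit 6) (nat_lit 4) (nat_lit 4) (nat_lit 4) (nat_lit 228) (nat_lit 205) (nat_lit 167))))))) (XT.nd (nat_lit 702) (nat_lit 0) (nat_lit 0) (XT.nd (nat_lit 312) (nat_lit 152) (nat_lit 0) (XT.nd (nat_lit 156) (nat_lit 76) (nat_lit 0) (XT.nd (nat_lit 78) (nat_lit 0) (nat_lit 0) (XT.lf (nat_lit 0) (nat_lit 52617194162) (nat_lit 152) (nat_lit 25324355812) (nat_lit 0) (nat_lit 16020568710) (nat_lit 4) (nat_lit 5) (nat_lit 6) (nat_lit 4) (nat_lit 4) (nat_lit 4) (nat_lit 229) (nat_lit 205) (nat_lit 166)) (XT.lf (nat_lit 0) (nat_lit 70479747008) (nat_lit 152) (nat_lit 2419042686) (nat_lit 0) (nat_lit 33862539573) (nat_lit 4) (nat_lit 5) (nat_lit 6) (nat_lit 4) (nat_lit 4) (nat_lit 4) (nat_lit 230) (nat_lit 205) (nat_lit 165))) (XT.nd (nat_lit 78) (nat_lit 0) (nat_lit 0) (XT.lf (nat_lit 0) (nat_lit 25152566016)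 (nat_lit 76) (nat_lit 66457955871) (nat_lit 76) (nat_lit 29822851059) (nat_lit 3) (nat_lit 4) (nat_lit 4) (nat_lit 5) (nat_lit 4) (nat_lit 4) (nat_lit 231) (nat_lit 205) (nat_lit 164)) (XT.lf (nat_lit 0) (nat_lit 56981018885) (nat_lit 76) (nat_lit 58985728152) (nat_lit 76) (nat_lit 22335060403) (nat_lit 3) (nat_lit 4) (nat_lit 4) (nat_lit 5) (nat_lit 4) (nat_lit 4) (nat_lit 232) (nat_lit 205) (nat_lit 163)))) (XT.nd (nat_lit 156) (nat_lit 152) (nat_lit 0) (XT.nd (nat_lit 78) (nat_lit 0) (nat_lit 0) (XT.lf (nat_lit 0) (nat_lit 93561664019) (nat_lit 76) (nat_lit 50402051692) (nat_lit 76) (nat_lit 13737850955) (nat_lit 3) (nat_lit 4) (nat_lit 4) (nat_lit 5) (nat_lit 4) (nat_lit 4) (nat_lit 233) (nat_lit 205) (nat_lit 162)) (XT.lf (nat_lit 0) (nat_lit 135610209693) (nat_lit 76) (nat_lit 40538984994) (nat_lit 76) (nat_lit 3863016442) (nat_lit 3) (nat_lit 4) (nat_lit 4) (nat_lit 5) (nat_lit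 4) (nat_lit 4) (nat_lit 234) (nat_lit 205) (nat_lit 161))) (XT.nd (nat_lit 78) (nat_lit 76) (nat_lit 0) (XT.lf (nat_lit 0) (nat_lit 7108334141) (nat_lit 152) (nat_lit 21900866422) (nat_lit 76) (nat_lit 176646656248) (nat_lit 2) (nat_lit 5) (nat_lit 4) (nat_lit 5) (nat_lit 3) (nat_lit 4) (nat_lit 235) (nat_lit 205) (nat_lit 160)) (XT.nd (nat_lit 78) (nat_lit 0) (nat_lit 0) (XT.lf (nat_lit 0) (nat_lit 4056526909) (nat_lit 76) (nat_lit 15535601217) (nat_lit 152) (nat_lit 215538283205) (nat_lit 1) (nat_lit 5) (nat_lit 2) (nat_lit 5) (nat_lit 3) (nat_lit 4) (nat_lit 236) (nat_lit 205) (nat_lit 159)) (XT.lf (nat_lit 0) (nat_lit 34593746937) (nat_lit 152) (nat_lit 233771166621) (nat_lit 0) (nat_lit 609638487) (nat_lit 1) (nat_lit 5) (nat_lit 3) (nat_lit 4) (nat_lit 1) (nat_lit 4) (nat_lit 237) (nat_lit 205) (nat_lit 158)))))) (XT.nd (nat_lit 312) (nat_lit 0) (nat_lit 0) (XT.nd (nat_lit 156)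 (nat_lit 0) (nat_lit 0) (XT.nd (nat_lit 78) (nat_lit 0) (nat_lit 0) (XT.lf (nat_lit 0) (nat_lit 52268379790) (nat_lit 152) (nat_lit 237315091343) (nat_lit 0) (nat_lit 18278041445) (nat_lit 1) (nat_lit 5) (nat_lit 3) (nat_lit 4) (nat_lit 1) (nat_lit 4) (nat_lit 238) (nat_lit 205) (nat_lit 157)) (XT.lf (nat_lit 0) (nat_lit 72588203138) (nat_lit 152) (nat_lit 241401364662) (nat_lit 0) (nat_lit 38592447492) (nat_lit 1) (nat_lit 5) (nat_lit 3) (nat_lit 4) (nat_lit 1) (nat_lit 4) (nat_lit 239) (nat_lit 205) (nat_lit 156))) (XT.nd (nat_lit 78) (nat_lit 0) (nat_lit 0) (XT.lf (nat_lit 0) (nat_lit 95950778741) (nat_lit 152) (nat_lit 246109935405) (nat_lit 0) (nat_lit 61950312400) (nat_lit 1) (nat_lit 5) (nat_lit 3) (nat_lit 4) (nat_lit 1) (nat_lit 4) (nat_lit 240) (nat_lit 205) (nat_lit 155)) (XT.lf (nat_lit 0) (nat_lit 122813200471) (nat_lit 152) (nat_lit 251532927783) (nat_lit 0) (nat_lit 88808637873)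 (nat_lit 1) (nat_lit 5) (nat_lit 3) (nat_lit 4) (nat_lit 1) (nat_lit 4) (nat_lit 241) (nat_lit 205) (nat_lit 154)))) (XT.nd (nat_lit 156) (nat_lit 0) (nat_lit 0) (XT.nd (nat_lit 78) (nat_lit 0) (nat_lit 0) (XT.lf (nat_lit 0) (nat_lit 153701037449) (nat_lit 152) (nat_lit 257776443819) (nat_lit 0) (nat_lit 119692912888) (nat_lit 1) (nat_lit 5) (nat_lit 3) (nat_lit 4) (nat_lit 1) (nat_lit 4) (nat_lit 242) (nat_lit 205) (nat_lit 153)) (XT.lf (nat_lit 0) (nat_lit 189218616919) (nat_lit 152) (nat_lit 264962639262) (nat_lit 0) (nat_lit 155207394998) (nat_lit 1) (nat_lit 5) (nat_lit 3) (nat_lit 4) (nat_lit 1) (nat_lit 4) (nat_lit 243) (nat_lit 205) (nat_lit 152))) (XT.nd (nat_lit 78) (nat_lit 0) (nat_lit 0) (XT.lf (nat_lit 0) (nat_lit 230060848044) (nat_lit 152) (nat_lit 273232113589) (nat_lit 0) (nat_lit 196046932768) (nat_lit 1) (nat_lit 5) (nat_lit 3) (nat_lit 4) (nat_lit 1) (nat_lit 4) (nat_lit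 244) (nat_lit 205) (nat_lit 151)) (XT.nd (nat_lit 78) (nat_lit 0) (nat_lit 0) (XT.lf (nat_lit 0) (nat_lit 277026817957) (nat_lit 152) (nat_lit 282746660863) (nat_lit 0) (nat_lit 243010560633) (nat_lit 1) (nat_lit 5) (nat_lit 3) (nat_lit 4) (nat_lit 1) (nat_lit 4) (nat_lit 245) (nat_lit 205) (nat_lit 150)) (XT.lf (nat_lit 0) (nat_lit 331035426067) (nat_lit 152) (nat_lit 293692435268) (nat_lit 0) (nat_lit 297017132179) (nat_lit 1) (nat_lit 5) (nat_lit 3) (nat_lit 4) (nat_lit 1) (nat_lit 4) (nat_lit 246) (nat_lit 205) (nat_lit 149))))))))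
noncomputable def xc33 : XT := (XT.nd (nat_lit 28626) (nat_lit 0) (nat_lit 228) (XT.nd (nat_lit 624) (nat_lit 0) (nat_lit 0) (XT.nd (nat_lit 312) (nat_lit 0) (nat_lit 0) (XT.nd (nat_lit 156) (nat_lit 0) (nat_lit 0) (XT.nd (nat_lit 78) (nat_lit 0) (nat_lit 0) (XT.lf (nat_lit 0) (nat_lit 393143362535) (nat_lit 152) (nat_lit 306283593262) (nat_lit 0) (nat_lit 359123297721) (nat_lit 1) (nat_lit 5) (nat_lit 3) (nat_lit 4) (nat_lit 1) (nat_lit 4) (nat_lit 247) (nat_lit 205) (nat_lit 148)) (XT.lf (nat_lit 0) (nat_lit 464565782637) (nat_lit 152) (nat_lit 320766483587) (nat_lit 0) (nat_lit 430544177889) (nat_lit 1) (nat_lit 5) (nat_lit 3) (nat_lit 4) (nat_lit 1) (nat_lit 4) (nat_lit 248) (nat_lit 205) (nat_lit 147))) (XT.nd (nat_lit 78) (nat_lit 0) (nat_lit 0) (XT.lf (nat_lit 0) (nat_lit 546700081551) (nat_lit 152) (nat_lit 337424467140) (nat_lit 0) (nat_lit 512677137729) (nat_lit 1) (nat_lit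 5) (nat_lit 3) (nat_lit 4) (nat_lit 1) (nat_lit 4) (nat_lit 249) (nat_lit 205) (nat_lit 146)) (XT.lf (nat_lit 0) (nat_lit 641153234690) (nat_lit 152) (nat_lit 356583460992) (nat_lit 0) (nat_lit 607129126456) (nat_lit 1) (nat_lit 5) (nat_lit 3) (nat_lit 4) (nat_lit 1) (nat_lit 4) (nat_lit 250) (nat_lit 205) (nat_lit 145)))) (XT.nd (nat_lit 156) (nat_lit 0) (nat_lit 0) (XT.nd (nat_lit 78) (nat_lit 0) (nat_lit 0) (XT.lf (nat_lit 0) (nat_lit 749773238528) (nat_lit 152) (nat_lit 378618315023) (nat_lit 0) (nat_lit 715748117762) (nat_lit 1) (nat_lit 5) (nat_lit 3) (nat_lit 4) (nat_lit 1) (nat_lit 4) (nat_lit 251) (nat_lit 205) (nat_lit 144)) (XT.lf (nat_lit 0) (nat_lit 874685267053) (nat_lit 152) (nat_lit 403960145941) (nat_lit 0) (nat_lit 840659265825) (nat_lit 1) (nat_lit 5) (nat_lit 3) (nat_lit 4) (nat_lit 1) (nat_lit 4) (nat_lit 252) (nat_lit 205) (nat_lit 143))) (XT.nd (nat_lit 78) (nat_lit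 0) (nat_lit 0) (XT.lf (nat_lit 0) (nat_lit 1018333251259) (nat_lit 152) (nat_lit 433104772177) (nat_lit 0) (nat_lit 984306484411) (nat_lit 1) (nat_lit 5) (nat_lit 3) (nat_lit 4) (nat_lit 1) (nat_lit 4) (nat_lit 253) (nat_lit 205) (nat_lit 142)) (XT.lf (nat_lit 0) (nat_lit 1183527695184) (nat_lit 152) (nat_lit 466622414680) (nat_lit 0) (nat_lit 1149500262580) (nat_lit 1) (nat_lit 5) (nat_lit 3) (nat_lit 4) (nat_lit 1) (nat_lit 4) (nat_lit 254) (nat_lit 205) (nat_lit 141))))) (XT.nd (nat_lit 27612) (nat_lit 0) (nat_lit 1748) (XT.nd (nat_lit 27456) (nat_lit 0) (nat_lit 2508) (XT.nd (nat_lit 78) (nat_lit 0) (nat_lit 0) (XT.lf (nat_lit 0) (nat_lit 1373500664036) (nat_lit 152) (nat_lit 505168853411) (nat_lit 0) (nat_lit 1339472652512) (nat_lit 1) (nat_lit 5) (nat_lit 3) (nat_lit 4) (nat_lit 1) (nat_lit 4) (nat_lit 255) (nat_lit 205) (nat_lit 140)) (XT.lf (nat_lit 0) (nat_lit 1591969020248)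 (nat_lit 152) (nat_lit 549498257824) (nat_lit 0) (nat_lit 1557940505317) (nat_lit 1) (nat_lit 5) (nat_lit 3) (nat_lit 4) (nat_lit 1) (nat_lit 4) (nat_lit 256) (nat_lit 205) (nat_lit 139))) (XT.nd (nat_lit 78) (nat_lit 0) (nat_lit 0) (XT.lf (nat_lit 0) (nat_lit 1275792489) (nat_lit 0) (nat_lit 1275792489) (nat_lit 380) (nat_lit 2452430335) (nat_lit 34) (nat_lit 5) (nat_lit 34) (nat_lit 3) (nat_lit 39) (nat_lit 3) (nat_lit 206) (nat_lit 206) (nat_lit 188)) (XT.lf (nat_lit 0) (nat_lit 6668734225) (nat_lit 380) (nat_lit 84528190) (nat_lit 456) (nat_lit 3901047002) (nat_lit 34) (nat_lit 5) (nat_lit 39) (nat_lit 3) (nat_lit 40) (nat_lit 5) (nat_lit 207) (nat_lit 206) (nat_lit 187)))) (XT.nd (nat_lit 156) (nat_lit 836) (nat_lit 0) (XT.nd (nat_lit 78) (nat_lit 0) (nat_lit 0) (XT.lf (nat_lit 0) (nat_lit 8558736627) (nat_lit 380) (nat_lit 2755466793) (nat_lit 456) (nat_lit 77884981) (nat_lit 35)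 (nat_lit 5) (nat_lit 40) (nat_lit 5) (nat_lit 41) (nat_lit 5) (nat_lit 208) (nat_lit 206) (nat_lit 186)) (XT.lf (nat_lit 76) (nat_lit 6443566668) (nat_lit 0) (nat_lit 4466059337) (nat_lit 456) (nat_lit 1318218739) (nat_lit 36) (nat_lit 5) (nat_lit 35) (nat_lit 5) (nat_lit 41) (nat_lit 5) (nat_lit 209) (nat_lit 206) (nat_lit 185))) (XT.nd (nat_lit 78) (nat_lit 456) (nat_lit 0) (XT.lf (nat_lit 0) (nat_lit 518121523) (nat_lit 456) (nat_lit 9197957564) (nat_lit 76) (nat_lit 3464065676) (nat_lit 30) (nat_lit 5) (nat_lit 36) (nat_lit 5) (nat_lit 31) (nat_lit 5) (nat_lit 210) (nat_lit 206) (nat_lit 184)) (XT.nd (nat_lit 78) (nat_lit 0) (nat_lit 0) (XT.lf (nat_lit 0) (nat_lit 1067396284) (nat_lit 456) (nat_lit 1673608064) (nat_lit 532) (nat_lit 11517465905) (nat_lit 24) (nat_lit 5) (nat_lit 30) (nat_lit 5) (nat_lit 31) (nat_lit 5) (nat_lit 211) (nat_lit 206) (nat_lit 183)) (XT.lf (nat_lit 0)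 (nat_lit 5634261982) (nat_lit 532) (nat_lit 2360656349) (nat_lit 76) (nat_lit 7477584940) (nat_lit 24) (nat_lit 5) (nat_lit 31) (nat_lit 5) (nat_lit 25) (nat_lit 5) (nat_lit 212) (nat_lit 206) (nat_lit 182))))))) (XT.nd (nat_lit 702) (nat_lit 304) (nat_lit 0) (XT.nd (nat_lit 312) (nat_lit 608) (nat_lit 0) (XT.nd (nat_lit 156) (nat_lit 228) (nat_lit 0) (XT.nd (nat_lit 78) (nat_lit 152) (nat_lit 0) (XT.lf (nat_lit 0) (nat_lit 9186583540) (nat_lit 304) (nat_lit 6421728059) (nat_lit 76) (nat_lit 1243118485) (nat_lit 21) (nat_lit 5) (nat_lit 25) (nat_lit 5) (nat_lit 22) (nat_lit 5) (nat_lit 213) (nat_lit 206) (nat_lit 181)) (XT.lf (nat_lit 0) (nat_lit 6863649886) (nat_lit 152) (nat_lit 6771573847) (nat_lit 228) (nat_lit 4773585739) (nat_lit 19) (nat_lit 5) (nat_lit 21) (nat_lit 5) (nat_lit 22) (nat_lit 5) (nat_lit 214) (nat_lit 206) (nat_lit 180))) (XT.nd (nat_lit 78) (nat_lit 76) (nat_lit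 0) (XT.lf (nat_lit 0) (nat_lit 2268379827) (nat_lit 152) (nat_lit 16726935935) (nat_lit 228) (nat_lit 1185548574) (nat_lit 17) (nat_lit 5) (nat_lit 19) (nat_lit 5) (nat_lit 20) (nat_lit 5) (nat_lit 215) (nat_lit 206) (nat_lit 179)) (XT.lf (nat_lit 0) (nat_lit 3248142096) (nat_lit 228) (nat_lit 3705772943) (nat_lit 76) (nat_lit 15223274143) (nat_lit 16) (nat_lit 5) (nat_lit 19) (nat_lit 5) (nat_lit 17) (nat_lit 5) (nat_lit 216) (nat_lit 206) (nat_lit 178)))) (XT.nd (nat_lit 156) (nat_lit 304) (nat_lit 0) (XT.nd (nat_lit 78) (nat_lit 152) (nat_lit 0) (XT.lf (nat_lit 0) (nat_lit 8639636008) (nat_lit 228) (nat_lit 11391669537) (nat_lit 76) (nat_lit 4410578748) (nat_lit 14) (nat_lit 5) (nat_lit 17) (nat_lit 5) (nat_lit 15) (nat_lit 5) (nat_lit 217) (nat_lit 206) (nat_lit 177)) (XT.lf (nat_lit 0) (nat_lit 5501880303) (nat_lit 152) (nat_lit 9712264702) (nat_lit 228) (nat_lit 11802561299) (nat_lit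 12) (nat_lit 5) (nat_lit 14) (nat_lit 5) (nat_lit 15) (nat_lit 5) (nat_lit 218) (nat_lit 206) (nat_lit 176))) (XT.nd (nat_lit 78) (nat_lit 304) (nat_lit 0) (XT.lf (nat_lit 0) (nat_lit 23111431376) (nat_lit 228) (nat_lit 4473934015) (nat_lit 76) (nat_lit 2365776332) (nat_lit 12) (nat_lit 5) (nat_lit 15) (nat_lit 5) (nat_lit 13) (nat_lit 4) (nat_lit 219) (nat_lit 206) (nat_lit 175)) (XT.nd (nat_lit 78) (nat_lit 228) (nat_lit 0) (XT.lf (nat_lit 0) (nat_lit 15562001940) (nat_lit 76) (nat_lit 17225941571) (nat_lit 152) (nat_lit 490505002) (nat_lit 11) (nat_lit 5) (nat_lit 12) (nat_lit 5) (nat_lit 13) (nat_lit 4) (nat_lit 220) (nat_lit 206) (nat_lit 174)) (XT.lf (nat_lit 0) (nat_lit 1626470237) (nat_lit 152) (nat_lit 4971768564) (nat_lit 228) (nat_lit 30483500719) (nat_lit 8) (nat_lit 5) (nat_lit 10) (nat_lit 5) (nat_lit 11) (nat_lit 5) (nat_lit 221) (nat_lit 206) (nat_lit 173)))))) (XT.nd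 (nat_lit 312) (nat_lit 152) (nat_lit 0) (XT.nd (nat_lit 156) (nat_lit 76) (nat_lit 0) (XT.nd (nat_lit 78) (nat_lit 76) (nat_lit 0) (XT.lf (nat_lit 0) (nat_lit 15429594802) (nat_lit 228) (nat_lit 16781628282) (nat_lit 76) (nat_lit 9186808059) (nat_lit 8) (nat_lit 5) (nat_lit 11) (nat_lit 5) (nat_lit 9) (nat_lit 4) (nat_lit 222) (nat_lit 206) (nat_lit 172)) (XT.lf (nat_lit 0) (nat_lit 4736184686) (nat_lit 76) (nat_lit 21065209258) (nat_lit 152) (nat_lit 20543281835) (nat_lit 7) (nat_lit 5) (nat_lit 8) (nat_lit 5) (nat_lit 9) (nat_lit 4) (nat_lit 223) (nat_lit 206) (nat_lit 171))) (XT.nd (nat_lit 78) (nat_lit 76) (nat_lit 0) (XT.lf (nat_lit 0) (nat_lit 30446388244) (nat_lit 76) (nat_lit 7738895055) (nat_lit 152) (nat_lit 13811674661) (nat_lit 7) (nat_lit 5) (nat_lit 8) (nat_lit 5) (nat_lit 9) (nat_lit 4) (nat_lit 224) (nat_lit 206) (nat_lit 170)) (XT.lf (nat_lit 0) (nat_lit 1354575368)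 (nat_lit 76) (nat_lit 51258756566) (nat_lit 76) (nat_lit 5868951836) (nat_lit 6) (nat_lit 4) (nat_lit 7) (nat_lit 5) (nat_lit 7) (nat_lit 4) (nat_lit 225) (nat_lit 206) (nat_lit 169)))) (XT.nd (nat_lit 156) (nat_lit 76) (nat_lit 0) (XT.nd (nat_lit 78) (nat_lit 0) (nat_lit 0) (XT.lf (nat_lit 0) (nat_lit 3933052023) (nat_lit 152) (nat_lit 37242863354) (nat_lit 76) (nat_lit 24691816606) (nat_lit 5) (nat_lit 5) (nat_lit 7) (nat_lit 5) (nat_lit 6) (nat_lit 4) (nat_lit 226) (nat_lit 206) (nat_lit 168)) (XT.lf (nat_lit 0) (nat_lit 14844645141) (nat_lit 152) (nat_lit 14576146915) (nat_lit 76) (nat_lit 44929155635) (nat_lit 5) (nat_lit 5) (nat_lit 7) (nat_lit 5) (nat_lit 6) (nat_lit 4) (nat_lit 227) (nat_lit 206) (nat_lit 167))) (XT.nd (nat_lit 78) (nat_lit 0) (nat_lit 0) (XT.lf (nat_lit 0) (nat_lit 12060377507) (nat_lit 76) (nat_lit 15602578810) (nat_lit 152) (nat_lit 56420018657) (nat_lit 4)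 (nat_lit 5) (nat_lit 5) (nat_lit 5) (nat_lit 6) (nat_lit 4) (nat_lit 228) (nat_lit 206) (nat_lit 166)) (XT.nd (nat_lit 78) (nat_lit 0) (nat_lit 0) (XT.lf (nat_lit 0) (nat_lit 42827847973) (nat_lit 152) (nat_lit 51716791665) (nat_lit 0) (nat_lit 697477439) (nat_lit 4) (nat_lit 5) (nat_lit 6) (nat_lit 4) (nat_lit 4) (nat_lit 4) (nat_lit 229) (nat_lit 206) (nat_lit 165)) (XT.lf (nat_lit 0) (nat_lit 60682921419) (nat_lit 152) (nat_lit 28824378358) (nat_lit 0) (nat_lit 18534653508) (nat_lit 4) (nat_lit 5) (nat_lit 6) (nat_lit 4) (nat_lit 4) (nat_lit 4) (nat_lit 230) (nat_lit 206) (nat_lit 164))))))))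
noncomputable def xc34 : XT := (XT.nd (nat_lit 1326) (nat_lit 0) (nat_lit 0) (XT.nd (nat_lit 624) (nat_lit 0) (nat_lit 0) (XT.nd (nat_lit 312) (nat_lit 152) (nat_lit 0) (XT.nd (nat_lit 156) (nat_lit 0) (nat_lit 0) (XT.nd (nat_lit 78) (nat_lit 76) (nat_lit 0) (XT.lf (nat_lit 0) (nat_lit 81202272654) (nat_lit 152) (nat_lit 2522220110) (nat_lit 0) (nat_lit 39038441806) (nat_lit 4) (nat_lit 5) (nat_lit 6) (nat_lit 4) (nat_lit 4) (nat_lit 4) (nat_lit 231) (nat_lit 206) (nat_lit 163)) (XT.lf (nat_lit 0) (nat_lit 29163149366) (nat_lit 76) (nat_lit 76325592323) (nat_lit 76) (nat_lit 34148228487) (nat_lit 3) (nat_lit 4) (nat_lit 4) (nat_lit 5) (nat_lit 4) (nat_lit 4) (nat_lit 232) (nat_lit 206) (nat_lit 162))) (XT.nd (nat_lit 78) (nat_lit 0) (nat_lit 0) (XT.lf (nat_lit 0) (nat_lit 65734866020) (nat_lit 76) (nat_lit 67745711784) (nat_lit 76) (nat_lit 25556580132) (nat_lit 3) (nat_lit 4) (nat_lit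 4) (nat_lit 5) (nat_lit 4) (nat_lit 4) (nat_lit 233) (nat_lit 206) (nat_lit 161)) (XT.lf (nat_lit 0) (nat_lit 107775647798) (nat_lit 76) (nat_lit 57885945888) (nat_lit 76) (nat_lit 15686581353) (nat_lit 3) (nat_lit 4) (nat_lit 4) (nat_lit 5) (nat_lit 4) (nat_lit 4) (nat_lit 234) (nat_lit 206) (nat_lit 160)))) (XT.nd (nat_lit 156) (nat_lit 76) (nat_lit 0) (XT.nd (nat_lit 78) (nat_lit 76) (nat_lit 0) (XT.lf (nat_lit 0) (nat_lit 156108031734) (nat_lit 76) (nat_lit 46553386172) (nat_lit 76) (nat_lit 4345123478) (nat_lit 3) (nat_lit 4) (nat_lit 4) (nat_lit 5) (nat_lit 4) (nat_lit 4) (nat_lit 235) (nat_lit 206) (nat_lit 159)) (XT.lf (nat_lit 0) (nat_lit 8254998016) (nat_lit 152) (nat_lit 25045604349) (nat_lit 76) (nat_lit 203196947135) (nat_lit 2) (nat_lit 5) (nat_lit 4) (nat_lit 5) (nat_lit 3) (nat_lit 4) (nat_lit 236) (nat_lit 206) (nat_lit 158))) (XT.nd (nat_lit 78) (nat_lit 0) (nat_lit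 0) (XT.lf (nat_lit 0) (nat_lit 4793514495) (nat_lit 76) (nat_lit 17810448488) (nat_lit 152) (nat_lit 247789949031) (nat_lit 1) (nat_lit 5) (nat_lit 2) (nat_lit 5) (nat_lit 3) (nat_lit 4) (nat_lit 237) (nat_lit 206) (nat_lit 157)) (XT.lf (nat_lit 0) (nat_lit 39847461363) (nat_lit 152) (nat_lit 268720985126) (nat_lit 0) (nat_lit 746925070) (nat_lit 1) (nat_lit 5) (nat_lit 3) (nat_lit 4) (nat_lit 1) (nat_lit 4) (nat_lit 238) (nat_lit 206) (nat_lit 156))))) (XT.nd (nat_lit 312) (nat_lit 0) (nat_lit 0) (XT.nd (nat_lit 156) (nat_lit 0) (nat_lit 0) (XT.nd (nat_lit 78) (nat_lit 0) (nat_lit 0) (XT.lf (nat_lit 0) (nat_lit 60164856224) (nat_lit 152) (nat_lit 272811610271) (nat_lit 0) (nat_lit 21059609236) (nat_lit 1) (nat_lit 5) (nat_lit 3) (nat_lit 4) (nat_lit 1) (nat_lit 4) (nat_lit 239) (nat_lit 206) (nat_lit 155)) (XT.lf (nat_lit 0) (nat_lit 83525320100) (nat_lit 152) (nat_lit 277523965211)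 (nat_lit 0) (nat_lit 44415976855) (nat_lit 1) (nat_lit 5) (nat_lit 3) (nat_lit 4) (nat_lit 1) (nat_lit 4) (nat_lit 240) (nat_lit 206) (nat_lit 154))) (XT.nd (nat_lit 78) (nat_lit 0) (nat_lit 0) (XT.lf (nat_lit 0) (nat_lit 110385905546) (nat_lit 152) (nat_lit 282950248194) (nat_lit 0) (nat_lit 71273000337) (nat_lit 1) (nat_lit 5) (nat_lit 3) (nat_lit 4) (nat_lit 1) (nat_lit 4) (nat_lit 241) (nat_lit 206) (nat_lit 153)) (XT.lf (nat_lit 0) (nat_lit 141272145754) (nat_lit 152) (nat_lit 289196625627) (nat_lit 0) (nat_lit 102156143186) (nat_lit 1) (nat_lit 5) (nat_lit 3) (nat_lit 4) (nat_lit 1) (nat_lit 4) (nat_lit 242) (nat_lit 206) (nat_lit 152)))) (XT.nd (nat_lit 156) (nat_lit 0) (nat_lit 0) (XT.nd (nat_lit 78) (nat_lit 0) (nat_lit 0) (XT.lf (nat_lit 0) (nat_lit 176788336728) (nat_lit 152) (nat_lit 296385309241) (nat_lit 0) (nat_lit 137669640805) (nat_lit 1) (nat_lit 5) (nat_lit 3) (nat_lit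 4) (nat_lit 1) (nat_lit 4) (nat_lit 243) (nat_lit 206) (nat_lit 151)) (XT.lf (nat_lit 0) (nat_lit 217629360467) (nat_lit 152) (nat_lit 304656947195) (nat_lit 0) (nat_lit 178508322496) (nat_lit 1) (nat_lit 5) (nat_lit 3) (nat_lit 4) (nat_lit 1) (nat_lit 4) (nat_lit 244) (nat_lit 206) (nat_lit 150))) (XT.nd (nat_lit 78) (nat_lit 0) (nat_lit 0) (XT.lf (nat_lit 0) (nat_lit 264594280478) (nat_lit 152) (nat_lit 314173375883) (nat_lit 0) (nat_lit 225471205942) (nat_lit 1) (nat_lit 5) (nat_lit 3) (nat_lit 4) (nat_lit 1) (nat_lit 4) (nat_lit 245) (nat_lit 206) (nat_lit 149)) (XT.nd (nat_lit 78) (nat_lit 0) (nat_lit 0) (XT.lf (nat_lit 0) (nat_lit 318601975630) (nat_lit 152) (nat_lit 325120786301) (nat_lit 0) (nat_lit 279477130170) (nat_lit 1) (nat_lit 5) (nat_lit 3) (nat_lit 4) (nat_lit 1) (nat_lit 4) (nat_lit 246) (nat_lit 206) (nat_lit 148)) (XT.lf (nat_lit 0) (nat_lit 380709118221) (nat_lit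 152) (nat_lit 337713366914) (nat_lit 0) (nat_lit 341582732825) (nat_lit 1) (nat_lit 5) (nat_lit 3) (nat_lit 4) (nat_lit 1) (nat_lit 4) (nat_lit 247) (nat_lit 206) (nat_lit 147))))))) (XT.nd (nat_lit 28080) (nat_lit 0) (nat_lit 1368) (XT.nd (nat_lit 312) (nat_lit 0) (nat_lit 0) (XT.nd (nat_lit 156) (nat_lit 0) (nat_lit 0) (XT.nd (nat_lit 78) (nat_lit 0) (nat_lit 0) (XT.lf (nat_lit 0) (nat_lit 452130847996) (nat_lit 152) (nat_lit 352197494299) (nat_lit 0) (nat_lit 413003123527) (nat_lit 1) (nat_lit 5) (nat_lit 3) (nat_lit 4) (nat_lit 1) (nat_lit 4) (nat_lit 248) (nat_lit 206) (nat_lit 146)) (XT.lf (nat_lit 0) (nat_lit 534264546625) (nat_lit 152) (nat_lit 368856553558) (nat_lit 0) (nat_lit 495135657744) (nat_lit 1) (nat_lit 5) (nat_lit 3) (nat_lit 4) (nat_lit 1) (nat_lit 4) (nat_lit 249) (nat_lit 206) (nat_lit 145))) (XT.nd (nat_lit 78) (nat_lit 0) (nat_lit 0) (XT.lf (nat_lit 0) (nat_lit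 628717177777) (nat_lit 152) (nat_lit 388016482805) (nat_lit 0) (nat_lit 589587276364) (nat_lit 1) (nat_lit 5) (nat_lit 3) (nat_lit 4) (nat_lit 1) (nat_lit 4) (nat_lit 250) (nat_lit 206) (nat_lit 144)) (XT.lf (nat_lit 0) (nat_lit 737336727714) (nat_lit 152) (nat_lit 410052150223) (nat_lit 0) (nat_lit 698205945838) (nat_lit 1) (nat_lit 5) (nat_lit 3) (nat_lit 4) (nat_lit 1) (nat_lit 4) (nat_lit 251) (nat_lit 206) (nat_lit 143)))) (XT.nd (nat_lit 156) (nat_lit 0) (nat_lit 0) (XT.nd (nat_lit 78) (nat_lit 0) (nat_lit 0) (XT.lf (nat_lit 0) (nat_lit 862248361542) (nat_lit 152) (nat_lit 435394688434) (nat_lit 0) (nat_lit 823116814046) (nat_lit 1) (nat_lit 5) (nat_lit 3) (nat_lit 4) (nat_lit 1) (nat_lit 4) (nat_lit 252) (nat_lit 206) (nat_lit 142)) (XT.lf (nat_lit 0) (nat_lit 1005896002533) (nat_lit 152) (nat_lit 464539929708) (nat_lit 0) (nat_lit 966763789281) (nat_lit 1) (nat_lit 5) (nat_lit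 3) (nat_lit 4) (nat_lit 1) (nat_lit 4) (nat_lit 253) (nat_lit 206) (nat_lit 141))) (XT.nd (nat_lit 78) (nat_lit 0) (nat_lit 0) (XT.lf (nat_lit 0) (nat_lit 1171090148011) (nat_lit 152) (nat_lit 498058107026) (nat_lit 0) (nat_lit 1131957355840) (nat_lit 1) (nat_lit 5) (nat_lit 3) (nat_lit 4) (nat_lit 1) (nat_lit 4) (nat_lit 254) (nat_lit 206) (nat_lit 140)) (XT.nd (nat_lit 78) (nat_lit 0) (nat_lit 0) (XT.lf (nat_lit 0) (nat_lit 1361062857342) (nat_lit 152) (nat_lit 536605010815) (nat_lit 0) (nat_lit 1321929561765) (nat_lit 1) (nat_lit 5) (nat_lit 3) (nat_lit 4) (nat_lit 1) (nat_lit 4) (nat_lit 255) (nat_lit 206) (nat_lit 139)) (XT.lf (nat_lit 0) (nat_lit 1579530987885) (nat_lit 152) (nat_lit 580934819625) (nat_lit 0) (nat_lit 1540397254561) (nat_lit 1) (nat_lit 5) (nat_lit 3) (nat_lit 4) (nat_lit 1) (nat_lit 4) (nat_lit 256) (nat_lit 206) (nat_lit 138)))))) (XT.nd (nat_lit 312) (nat_lit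 1140) (nat_lit 0) (XT.nd (nat_lit 156) (nat_lit 0) (nat_lit 0) (XT.nd (nat_lit 78) (nat_lit 0) (nat_lit 0) (XT.lf (nat_lit 0) (nat_lit 1986749854) (nat_lit 0) (nat_lit 1986749854) (nat_lit 380) (nat_lit 1688687906) (nat_lit 34) (nat_lit 5) (nat_lit 34) (nat_lit 3) (nat_lit 39) (nat_lit 3) (nat_lit 207) (nat_lit 207) (nat_lit 186)) (XT.lf (nat_lit 76) (nat_lit 1040978918) (nat_lit 0) (nat_lit 8438632951) (nat_lit 456) (nat_lit 2611831884) (nat_lit 35) (nat_lit 5) (nat_lit 34) (nat_lit 5) (nat_lit 40) (nat_lit 5) (nat_lit 208) (nat_lit 207) (nat_lit 185))) (XT.nd (nat_lit 78) (nat_lit 0) (nat_lit 76) (XT.lf (nat_lit 76) (nat_lit 10928742144) (nat_lit 0) (nat_lit 488083924) (nat_lit 456) (nat_lit 1544075298) (nat_lit 35) (nat_lit 5) (nat_lit 34) (nat_lit 5) (nat_lit 40) (nat_lit 5) (nat_lit 209) (nat_lit 207) (nat_lit 184)) (XT.lf (nat_lit 76) (nat_lit 8461264224) (nat_lit 0) (nat_lit 5468817051)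 (nat_lit 456) (nat_lit 8994942) (nat_lit 36) (nat_lit 5) (nat_lit 35) (nat_lit 5) (nat_lit 41) (nat_lit 5) (nat_lit 210) (nat_lit 207) (nat_lit 183)))) (XT.nd (nat_lit 156) (nat_lit 380) (nat_lit 0) (XT.nd (nat_lit 78) (nat_lit 456) (nat_lit 0) (XT.lf (nat_lit 0) (nat_lit 1860243073) (nat_lit 456) (nat_lit 9419174650) (nat_lit 76) (nat_lit 3766754032) (nat_lit 30) (nat_lit 5) (nat_lit 36) (nat_lit 5) (nat_lit 31) (nat_lit 5) (nat_lit 211) (nat_lit 207) (nat_lit 182)) (XT.lf (nat_lit 0) (nat_lit 2287923005) (nat_lit 456) (nat_lit 1989216206) (nat_lit 532) (nat_lit 12021544187) (nat_lit 24) (nat_lit 5) (nat_lit 30) (nat_lit 5) (nat_lit 31) (nat_lit 5) (nat_lit 212) (nat_lit 207) (nat_lit 181))) (XT.nd (nat_lit 78) (nat_lit 380) (nat_lit 0) (XT.lf (nat_lit 0) (nat_lit 7456298127) (nat_lit 532) (nat_lit 1705600446) (nat_lit 76) (nat_lit 8545886131) (nat_lit 24) (nat_lit 5) (nat_lit 31) (nat_lit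 5) (nat_lit 25) (nat_lit 5) (nat_lit 213) (nat_lit 207) (nat_lit 180)) (XT.nd (nat_lit 78) (nat_lit 152) (nat_lit 0) (XT.lf (nat_lit 0) (nat_lit 11437514064) (nat_lit 304) (nat_lit 6386297558) (nat_lit 76) (nat_lit 1479025960) (nat_lit 21) (nat_lit 5) (nat_lit 25) (nat_lit 5) (nat_lit 22) (nat_lit 5) (nat_lit 214) (nat_lit 207) (nat_lit 179)) (XT.lf (nat_lit 0) (nat_lit 8807352970) (nat_lit 152) (nat_lit 7654220652) (nat_lit 228) (nat_lit 4640444510) (nat_lit 19) (nat_lit 5) (nat_lit 21) (nat_lit 5) (nat_lit 22) (nat_lit 5) (nat_lit 215) (nat_lit 207) (nat_lit 178))))))))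
noncomputable def xc35 : XT := (XT.nd (nat_lit 1404) (nat_lit 152) (nat_lit 0) (XT.nd (nat_lit 702) (nat_lit 304) (nat_lit 0) (XT.nd (nat_lit 312) (nat_lit 380) (nat_lit 0) (XT.nd (nat_lit 156) (nat_lit 304) (nat_lit 0) (XT.nd (nat_lit 78) (nat_lit 76) (nat_lit 0) (XT.lf (nat_lit 0) (nat_lit 3504831170) (nat_lit 152) (nat_lit 19043306868) (nat_lit 228) (nat_lit 598680516) (nat_lit 17) (nat_lit 5) (nat_lit 19) (nat_lit 5) (nat_lit 20) (nat_lit 5) (nat_lit 216) (nat_lit 207) (nat_lit 177)) (XT.lf (nat_lit 0) (nat_lit 4367056399) (nat_lit 228) (nat_lit 3445135632) (nat_lit 76) (nat_lit 17637100123) (nat_lit 16) (nat_lit 5) (nat_lit 19) (nat_lit 5) (nat_lit 17) (nat_lit 5) (nat_lit 217) (nat_lit 207) (nat_lit 176))) (XT.nd (nat_lit 78) (nat_lit 152) (nat_lit 0) (XT.lf (nat_lit 0) (nat_lit 10507186241) (nat_lit 228) (nat_lit 12308553575) (nat_lit 76) (nat_lit 5243272676) (nat_lit 14) (nat_lit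 5) (nat_lit 17) (nat_lit 5) (nat_lit 15) (nat_lit 5) (nat_lit 218) (nat_lit 207) (nat_lit 175)) (XT.lf (nat_lit 0) (nat_lit 7052001195) (nat_lit 152) (nat_lit 10958745632) (nat_lit 228) (nat_lit 13014327836) (nat_lit 12) (nat_lit 5) (nat_lit 14) (nat_lit 5) (nat_lit 15) (nat_lit 5) (nat_lit 219) (nat_lit 207) (nat_lit 174)))) (XT.nd (nat_lit 156) (nat_lit 304) (nat_lit 0) (XT.nd (nat_lit 78) (nat_lit 76) (nat_lit 0) (XT.lf (nat_lit 0) (nat_lit 27029919304) (nat_lit 228) (nat_lit 4480748204) (nat_lit 76) (nat_lit 2894413023) (nat_lit 12) (nat_lit 5) (nat_lit 15) (nat_lit 5) (nat_lit 13) (nat_lit 4) (nat_lit 220) (nat_lit 207) (nat_lit 173)) (XT.lf (nat_lit 0) (nat_lit 18504350497) (nat_lit 76) (nat_lit 19609254395) (nat_lit 152) (nat_lit 121760620) (nat_lit 11) (nat_lit 5) (nat_lit 12) (nat_lit 5) (nat_lit 13) (nat_lit 4) (nat_lit 221) (nat_lit 207) (nat_lit 172))) (XT.nd (nat_lit 78)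 (nat_lit 76) (nat_lit 0) (XT.lf (nat_lit 0) (nat_lit 2449183785) (nat_lit 152) (nat_lit 5518095262) (nat_lit 228) (nat_lit 34644563288) (nat_lit 8) (nat_lit 5) (nat_lit 10) (nat_lit 5) (nat_lit 11) (nat_lit 5) (nat_lit 222) (nat_lit 207) (nat_lit 171)) (XT.nd (nat_lit 78) (nat_lit 76) (nat_lit 0) (XT.lf (nat_lit 0) (nat_lit 18078034830) (nat_lit 228) (nat_lit 18771825027) (nat_lit 76) (nat_lit 10729578711) (nat_lit 8) (nat_lit 5) (nat_lit 11) (nat_lit 5) (nat_lit 9) (nat_lit 4) (nat_lit 223) (nat_lit 207) (nat_lit 170)) (XT.lf (nat_lit 0) (nat_lit 5929047941) (nat_lit 76) (nat_lit 24044593165) (nat_lit 152) (nat_lit 23297201531) (nat_lit 7) (nat_lit 5) (nat_lit 8) (nat_lit 5) (nat_lit 9) (nat_lit 4) (nat_lit 224) (nat_lit 207) (nat_lit 169)))))) (XT.nd (nat_lit 312) (nat_lit 152) (nat_lit 0) (XT.nd (nat_lit 156) (nat_lit 76) (nat_lit 0) (XT.nd (nat_lit 78) (nat_lit 76) (nat_lit 0) (XT.lf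 (nat_lit 0) (nat_lit 35432855656) (nat_lit 76) (nat_lit 8742861939) (nat_lit 152) (nat_lit 15598580139) (nat_lit 7) (nat_lit 5) (nat_lit 8) (nat_lit 5) (nat_lit 9) (nat_lit 4) (nat_lit 225) (nat_lit 207) (nat_lit 168)) (XT.lf (nat_lit 0) (nat_lit 1958632629) (nat_lit 76) (nat_lit 58788004803) (nat_lit 76) (nat_lit 6487647423) (nat_lit 6) (nat_lit 4) (nat_lit 7) (nat_lit 5) (nat_lit 7) (nat_lit 4) (nat_lit 226) (nat_lit 207) (nat_lit 167))) (XT.nd (nat_lit 78) (nat_lit 0) (nat_lit 0) (XT.lf (nat_lit 0) (nat_lit 4739147684) (nat_lit 152) (nat_lit 42468493018) (nat_lit 76) (nat_lit 28522125088) (nat_lit 5) (nat_lit 5) (nat_lit 7) (nat_lit 5) (nat_lit 6) (nat_lit 4) (nat_lit 227) (nat_lit 207) (nat_lit 166)) (XT.lf (nat_lit 0) (nat_lit 17259287876) (nat_lit 152) (nat_lit 16448829963) (nat_lit 76) (nat_lit 51778560277) (nat_lit 5) (nat_lit 5) (nat_lit 7) (nat_lit 5) (nat_lit 6) (nat_lit 4)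 (nat_lit 228) (nat_lit 207) (nat_lit 165)))) (XT.nd (nat_lit 156) (nat_lit 76) (nat_lit 0) (XT.nd (nat_lit 78) (nat_lit 0) (nat_lit 0) (XT.lf (nat_lit 0) (nat_lit 14156616681) (nat_lit 76) (nat_lit 17826121104) (nat_lit 152) (nat_lit 64698425044) (nat_lit 4) (nat_lit 5) (nat_lit 5) (nat_lit 5) (nat_lit 6) (nat_lit 4) (nat_lit 229) (nat_lit 207) (nat_lit 164)) (XT.lf (nat_lit 0) (nat_lit 49402588763) (nat_lit 152) (nat_lit 59214631435) (nat_lit 0) (nat_lit 898620352) (nat_lit 4) (nat_lit 5) (nat_lit 6) (nat_lit 4) (nat_lit 4) (nat_lit 4) (nat_lit 230) (nat_lit 207) (nat_lit 163))) (XT.nd (nat_lit 78) (nat_lit 76) (nat_lit 0) (XT.lf (nat_lit 0) (nat_lit 69916284496) (nat_lit 152) (nat_lit 32922227304) (nat_lit 0) (nat_lit 21398783096) (nat_lit 4) (nat_lit 5) (nat_lit 6) (nat_lit 4) (nat_lit 4) (nat_lit 4) (nat_lit 231) (nat_lit 207) (nat_lit 162)) (XT.nd (nat_lit 78) (nat_lit 76) (nat_lit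 0) (XT.lf (nat_lit 0) (nat_lit 93496461260) (nat_lit 152) (nat_lit 2704198511) (nat_lit 0) (nat_lit 44967192044) (nat_lit 4) (nat_lit 5) (nat_lit 6) (nat_lit 4) (nat_lit 4) (nat_lit 4) (nat_lit 232) (nat_lit 207) (nat_lit 161)) (XT.lf (nat_lit 0) (nat_lit 33717355946) (nat_lit 76) (nat_lit 87698017614) (nat_lit 76) (nat_lit 39158515515) (nat_lit 3) (nat_lit 4) (nat_lit 4) (nat_lit 5) (nat_lit 4) (nat_lit 4) (nat_lit 233) (nat_lit 207) (nat_lit 160))))))) (XT.nd (nat_lit 702) (nat_lit 0) (nat_lit 0) (XT.nd (nat_lit 312) (nat_lit 76) (nat_lit 0) (XT.nd (nat_lit 156) (nat_lit 76) (nat_lit 0) (XT.nd (nat_lit 78) (nat_lit 0) (nat_lit 0) (XT.lf (nat_lit 0) (nat_lit 75751386511) (nat_lit 76) (nat_lit 77841121980) (nat_lit 76) (nat_lit 29292721722) (nat_lit 3) (nat_lit 4) (nat_lit 4) (nat_lit 5) (nat_lit 4) (nat_lit 4) (nat_lit 234) (nat_lit 207) (nat_lit 159)) (XT.lf (nat_lit 0) (nat_lit 124077899826)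 (nat_lit 76) (nat_lit 66511058144) (nat_lit 76) (nat_lit 17954920356) (nat_lit 3) (nat_lit 4) (nat_lit 4) (nat_lit 5) (nat_lit 4) (nat_lit 4) (nat_lit 235) (nat_lit 207) (nat_lit 158))) (XT.nd (nat_lit 78) (nat_lit 76) (nat_lit 0) (XT.lf (nat_lit 0) (nat_lit 179642414632) (nat_lit 76) (nat_lit 53486150944) (nat_lit 76) (nat_lit 4923284869) (nat_lit 3) (nat_lit 4) (nat_lit 4) (nat_lit 5) (nat_lit 4) (nat_lit 4) (nat_lit 236) (nat_lit 207) (nat_lit 157)) (XT.lf (nat_lit 0) (nat_lit 9554052070) (nat_lit 152) (nat_lit 28696288453) (nat_lit 76) (nat_lit 233716785954) (nat_lit 2) (nat_lit 5) (nat_lit 4) (nat_lit 5) (nat_lit 3) (nat_lit 4) (nat_lit 237) (nat_lit 207) (nat_lit 156)))) (XT.nd (nat_lit 156) (nat_lit 0) (nat_lit 0) (XT.nd (nat_lit 78) (nat_lit 0) (nat_lit 0) (XT.lf (nat_lit 0) (nat_lit 5609712596) (nat_lit 76) (nat_lit 20440055147) (nat_lit 152) (nat_lit 284898648073) (nat_lit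 1) (nat_lit 5) (nat_lit 2) (nat_lit 5) (nat_lit 3) (nat_lit 4) (nat_lit 238) (nat_lit 207) (nat_lit 155)) (XT.lf (nat_lit 0) (nat_lit 45873467059) (nat_lit 152) (nat_lit 308941528745) (nat_lit 0) (nat_lit 893626070) (nat_lit 1) (nat_lit 5) (nat_lit 3) (nat_lit 4) (nat_lit 1) (nat_lit 4) (nat_lit 239) (nat_lit 207) (nat_lit 154))) (XT.nd (nat_lit 78) (nat_lit 0) (nat_lit 0) (XT.lf (nat_lit 0) (nat_lit 69232094651) (nat_lit 152) (nat_lit 313657174290) (nat_lit 0) (nat_lit 24248691698) (nat_lit 1) (nat_lit 5) (nat_lit 3) (nat_lit 4) (nat_lit 1) (nat_lit 4) (nat_lit 240) (nat_lit 207) (nat_lit 153)) (XT.nd (nat_lit 78) (nat_lit 0) (nat_lit 0) (XT.lf (nat_lit 0) (nat_lit 96091083327) (nat_lit 152) (nat_lit 319086318670) (nat_lit 0) (nat_lit 51104583015) (nat_lit 1) (nat_lit 5) (nat_lit 3) (nat_lit 4) (nat_lit 1) (nat_lit 4) (nat_lit 241) (nat_lit 207) (nat_lit 152)) (XT.lf (nat_lit 0) (nat_lit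 126975935040) (nat_lit 152) (nat_lit 325335184273) (nat_lit 0) (nat_lit 81986741372) (nat_lit 1) (nat_lit 5) (nat_lit 3) (nat_lit 4) (nat_lit 1) (nat_lit 4) (nat_lit 242) (nat_lit 207) (nat_lit 151)))))) (XT.nd (nat_lit 312) (nat_lit 0) (nat_lit 0) (XT.nd (nat_lit 156) (nat_lit 0) (nat_lit 0) (XT.nd (nat_lit 78) (nat_lit 0) (nat_lit 0) (XT.lf (nat_lit 0) (nat_lit 162490918627) (nat_lit 152) (nat_lit 332526031514) (nat_lit 0) (nat_lit 117499382912) (nat_lit 1) (nat_lit 5) (nat_lit 3) (nat_lit 4) (nat_lit 1) (nat_lit 4) (nat_lit 243) (nat_lit 207) (nat_lit 150)) (XT.lf (nat_lit 0) (nat_lit 203330892464) (nat_lit 152) (nat_lit 340799550882) (nat_lit 0) (nat_lit 158337320185) (nat_lit 1) (nat_lit 5) (nat_lit 3) (nat_lit 4) (nat_lit 1) (nat_lit 4) (nat_lit 244) (nat_lit 207) (nat_lit 149))) (XT.nd (nat_lit 78) (nat_lit 0) (nat_lit 0) (XT.lf (nat_lit 0) (nat_lit 250294899517) (nat_lit 152)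 (nat_lit 350317615582) (nat_lit 0) (nat_lit 205299556312) (nat_lit 1) (nat_lit 5) (nat_lit 3) (nat_lit 4) (nat_lit 1) (nat_lit 4) (nat_lit 245) (nat_lit 207) (nat_lit 148)) (XT.lf (nat_lit 0) (nat_lit 304301800792) (nat_lit 152) (nat_lit 361266448620) (nat_lit 0) (nat_lit 259304917653) (nat_lit 1) (nat_lit 5) (nat_lit 3) (nat_lit 4) (nat_lit 1) (nat_lit 4) (nat_lit 246) (nat_lit 207) (nat_lit 147)))) (XT.nd (nat_lit 156) (nat_lit 0) (nat_lit 0) (XT.nd (nat_lit 78) (nat_lit 0) (nat_lit 0) (XT.lf (nat_lit 0) (nat_lit 366408253056) (nat_lit 152) (nat_lit 373860266294) (nat_lit 0) (nat_lit 321410030843) (nat_lit 1) (nat_lit 5) (nat_lit 3) (nat_lit 4) (nat_lit 1) (nat_lit 4) (nat_lit 247) (nat_lit 207) (nat_lit 146)) (XT.lf (nat_lit 0) (nat_lit 437829382546) (nat_lit 152) (nat_lit 388345469384) (nat_lit 0) (nat_lit 392829995921) (nat_lit 1) (nat_lit 5) (nat_lit 3) (nat_lit 4) (nat_lit 1)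 (nat_lit 4) (nat_lit 248) (nat_lit 207) (nat_lit 145))) (XT.nd (nat_lit 78) (nat_lit 0) (nat_lit 0) (XT.lf (nat_lit 0) (nat_lit 519962559188) (nat_lit 152) (nat_lit 405005464038) (nat_lit 0) (nat_lit 474962160031) (nat_lit 1) (nat_lit 5) (nat_lit 3) (nat_lit 4) (nat_lit 1) (nat_lit 4) (nat_lit 249) (nat_lit 207) (nat_lit 144)) (XT.nd (nat_lit 78) (nat_lit 0) (nat_lit 0) (XT.lf (nat_lit 0) (nat_lit 614414736439) (nat_lit 152) (nat_lit 424166206673) (nat_lit 0) (nat_lit 569413456819) (nat_lit 1) (nat_lit 5) (nat_lit 3) (nat_lit 4) (nat_lit 1) (nat_lit 4) (nat_lit 250) (nat_lit 207) (nat_lit 143)) (XT.lf (nat_lit 0) (nat_lit 723033891678) (nat_lit 152) (nat_lit 446202581384) (nat_lit 0) (nat_lit 678031846439) (nat_lit 1) (nat_lit 5) (nat_lit 3) (nat_lit 4) (nat_lit 1) (nat_lit 4) (nat_lit 251) (nat_lit 207) (nat_lit 142))))))))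
noncomputable def xc36 : XT := (XT.nd (nat_lit 28782) (nat_lit 0) (nat_lit 152) (XT.nd (nat_lit 28080) (nat_lit 0) (nat_lit 988) (XT.nd (nat_lit 312) (nat_lit 0) (nat_lit 0) (XT.nd (nat_lit 156) (nat_lit 0) (nat_lit 0) (XT.nd (nat_lit 78) (nat_lit 0) (nat_lit 0) (XT.lf (nat_lit 0) (nat_lit 847945182292) (nat_lit 152) (nat_lit 471545734633) (nat_lit 0) (nat_lit 802942471296) (nat_lit 1) (nat_lit 5) (nat_lit 3) (nat_lit 4) (nat_lit 1) (nat_lit 4) (nat_lit 252) (nat_lit 207) (nat_lit 141)) (XT.lf (nat_lit 0) (nat_lit 991592524836) (nat_lit 152) (nat_lit 500691510722) (nat_lit 0) (nat_lit 946589234921) (nat_lit 1) (nat_lit 5) (nat_lit 3) (nat_lit 4) (nat_lit 1) (nat_lit 4) (nat_lit 253) (nat_lit 207) (nat_lit 140))) (XT.nd (nat_lit 78) (nat_lit 0) (nat_lit 0) (XT.lf (nat_lit 0) (nat_lit 1156786410794) (nat_lit 152) (nat_lit 534210153098) (nat_lit 0) (nat_lit 1111782617472) (nat_lit 1) (nat_lit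 5) (nat_lit 3) (nat_lit 4) (nat_lit 1) (nat_lit 4) (nat_lit 254) (nat_lit 207) (nat_lit 139)) (XT.lf (nat_lit 0) (nat_lit 1346758894456) (nat_lit 152) (nat_lit 572757461283) (nat_lit 0) (nat_lit 1301754663388) (nat_lit 1) (nat_lit 5) (nat_lit 3) (nat_lit 4) (nat_lit 1) (nat_lit 4) (nat_lit 255) (nat_lit 207) (nat_lit 138)))) (XT.nd (nat_lit 27612) (nat_lit 0) (nat_lit 2508) (XT.nd (nat_lit 27534) (nat_lit 0) (nat_lit 2508) (XT.lf (nat_lit 0) (nat_lit 1565226828764) (nat_lit 152) (nat_lit 617087621744) (nat_lit 0) (nat_lit 1520222217049) (nat_lit 1) (nat_lit 5) (nat_lit 3) (nat_lit 4) (nat_lit 1) (nat_lit 4) (nat_lit 256) (nat_lit 207) (nat_lit 137)) (XT.lf (nat_lit 0) (nat_lit 2677645879) (nat_lit 0) (nat_lit 2677645879) (nat_lit 380) (nat_lit 1086333640) (nat_lit 34) (nat_lit 5) (nat_lit 34) (nat_lit 3) (nat_lit 39) (nat_lit 3) (nat_lit 208) (nat_lit 208) (nat_lit 184))) (XT.nd (nat_lit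 78) (nat_lit 0) (nat_lit 0) (XT.lf (nat_lit 76) (nat_lit 2061628672) (nat_lit 0) (nat_lit 10210834964) (nat_lit 456) (nat_lit 1510799551) (nat_lit 35) (nat_lit 5) (nat_lit 34) (nat_lit 5) (nat_lit 40) (nat_lit 5) (nat_lit 209) (nat_lit 208) (nat_lit 183)) (XT.lf (nat_lit 76) (nat_lit 13319795132) (nat_lit 0) (nat_lit 1001650487) (nat_lit 456) (nat_lit 477593449) (nat_lit 35) (nat_lit 5) (nat_lit 34) (nat_lit 5) (nat_lit 40) (nat_lit 5) (nat_lit 210) (nat_lit 208) (nat_lit 182))))) (XT.nd (nat_lit 312) (nat_lit 760) (nat_lit 0) (XT.nd (nat_lit 156) (nat_lit 380) (nat_lit 0) (XT.nd (nat_lit 78) (nat_lit 0) (nat_lit 76) (XT.lf (nat_lit 0) (nat_lit 1072647781) (nat_lit 456) (nat_lit 5438845258) (nat_lit 532) (nat_lit 9423307894) (nat_lit 29) (nat_lit 5) (nat_lit 35) (nat_lit 5) (nat_lit 36) (nat_lit 5) (nat_lit 211) (nat_lit 208) (nat_lit 181)) (XT.lf (nat_lit 0) (nat_lit 3095350099) (nat_lit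 456) (nat_lit 9956076142) (nat_lit 76) (nat_lit 4167743323) (nat_lit 30) (nat_lit 5) (nat_lit 36) (nat_lit 5) (nat_lit 31) (nat_lit 5) (nat_lit 212) (nat_lit 208) (nat_lit 180))) (XT.nd (nat_lit 78) (nat_lit 0) (nat_lit 0) (XT.lf (nat_lit 0) (nat_lit 3432939265) (nat_lit 456) (nat_lit 2336420514) (nat_lit 532) (nat_lit 12899602579) (nat_lit 24) (nat_lit 5) (nat_lit 30) (nat_lit 5) (nat_lit 31) (nat_lit 5) (nat_lit 213) (nat_lit 208) (nat_lit 179)) (XT.lf (nat_lit 0) (nat_lit 9313417210) (nat_lit 532) (nat_lit 1198374838) (nat_lit 76) (nat_lit 9787438956) (nat_lit 24) (nat_lit 5) (nat_lit 31) (nat_lit 5) (nat_lit 25) (nat_lit 5) (nat_lit 214) (nat_lit 208) (nat_lit 178)))) (XT.nd (nat_lit 156) (nat_lit 380) (nat_lit 0) (XT.nd (nat_lit 78) (nat_lit 152) (nat_lit 0) (XT.lf (nat_lit 0) (nat_lit 13813211490) (nat_lit 304) (nat_lit 6589089292) (nat_lit 76) (nat_lit 1738263373) (nat_lit 21)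 (nat_lit 5) (nat_lit 25) (nat_lit 5) (nat_lit 22) (nat_lit 5) (nat_lit 215) (nat_lit 208) (nat_lit 177)) (XT.lf (nat_lit 0) (nat_lit 10819688883) (nat_lit 152) (nat_lit 8701719139) (nat_lit 228) (nat_lit 4694409795) (nat_lit 19) (nat_lit 5) (nat_lit 21) (nat_lit 5) (nat_lit 22) (nat_lit 5) (nat_lit 216) (nat_lit 208) (nat_lit 176))) (XT.nd (nat_lit 78) (nat_lit 228) (nat_lit 0) (XT.lf (nat_lit 0) (nat_lit 4708207543) (nat_lit 152) (nat_lit 21754117108) (nat_lit 228) (nat_lit 110259270) (nat_lit 17) (nat_lit 5) (nat_lit 19) (nat_lit 5) (nat_lit 20) (nat_lit 5) (nat_lit 217) (nat_lit 208) (nat_lit 175)) (XT.nd (nat_lit 78) (nat_lit 152) (nat_lit 0) (XT.lf (nat_lit 0) (nat_lit 5499765512) (nat_lit 228) (nat_lit 3344512212) (nat_lit 76) (nat_lit 20381217018) (nat_lit 16) (nat_lit 5) (nat_lit 19) (nat_lit 5) (nat_lit 17) (nat_lit 5) (nat_lit 218) (nat_lit 208) (nat_lit 174)) (XT.lf (nat_lit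 0) (nat_lit 12515479550) (nat_lit 228) (nat_lit 13556071853) (nat_lit 76) (nat_lit 6159145139) (nat_lit 14) (nat_lit 5) (nat_lit 17) (nat_lit 5) (nat_lit 15) (nat_lit 5) (nat_lit 219) (nat_lit 208) (nat_lit 173))))))) (XT.nd (nat_lit 702) (nat_lit 152) (nat_lit 0) (XT.nd (nat_lit 312) (nat_lit 228) (nat_lit 0) (XT.nd (nat_lit 156) (nat_lit 304) (nat_lit 0) (XT.nd (nat_lit 78) (nat_lit 0) (nat_lit 0) (XT.lf (nat_lit 0) (nat_lit 8657883678) (nat_lit 152) (nat_lit 12443496021) (nat_lit 228) (nat_lit 14544081806) (nat_lit 12) (nat_lit 5) (nat_lit 14) (nat_lit 5) (nat_lit 15) (nat_lit 5) (nat_lit 220) (nat_lit 208) (nat_lit 172)) (XT.lf (nat_lit 0) (nat_lit 31426012660) (nat_lit 228) (nat_lit 4650572409) (nat_lit 76) (nat_lit 3459970244) (nat_lit 12) (nat_lit 5) (nat_lit 15) (nat_lit 5) (nat_lit 13) (nat_lit 4) (nat_lit 221) (nat_lit 208) (nat_lit 171))) (XT.nd (nat_lit 78) (nat_lit 152)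 (nat_lit 0) (XT.lf (nat_lit 0) (nat_lit 184706535) (nat_lit 152) (nat_lit 22209219720) (nat_lit 76) (nat_lit 21550018178) (nat_lit 10) (nat_lit 5) (nat_lit 12) (nat_lit 5) (nat_lit 11) (nat_lit 5) (nat_lit 222) (nat_lit 208) (nat_lit 170)) (XT.lf (nat_lit 0) (nat_lit 3254174216) (nat_lit 152) (nat_lit 6195005327) (nat_lit 228) (nat_lit 39530122988) (nat_lit 8) (nat_lit 5) (nat_lit 10) (nat_lit 5) (nat_lit 11) (nat_lit 5) (nat_lit 223) (nat_lit 208) (nat_lit 169)))) (XT.nd (nat_lit 156) (nat_lit 152) (nat_lit 0) (XT.nd (nat_lit 78) (nat_lit 76) (nat_lit 0) (XT.lf (nat_lit 0) (nat_lit 21042292649) (nat_lit 228) (nat_lit 21189075153) (nat_lit 76) (nat_lit 12463589767) (nat_lit 8) (nat_lit 5) (nat_lit 11) (nat_lit 5) (nat_lit 9) (nat_lit 4) (nat_lit 224) (nat_lit 208) (nat_lit 168)) (XT.lf (nat_lit 0) (nat_lit 7183195721) (nat_lit 76) (nat_lit 27514875727) (nat_lit 152) (nat_lit 26544089829)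 (nat_lit 7) (nat_lit 5) (nat_lit 8) (nat_lit 5) (nat_lit 9) (nat_lit 4) (nat_lit 225) (nat_lit 208) (nat_lit 167))) (XT.nd (nat_lit 78) (nat_lit 152) (nat_lit 0) (XT.lf (nat_lit 0) (nat_lit 41064993211) (nat_lit 76) (nat_lit 9935676958) (nat_lit 152) (nat_lit 17722982871) (nat_lit 7) (nat_lit 5) (nat_lit 8) (nat_lit 5) (nat_lit 9) (nat_lit 4) (nat_lit 226) (nat_lit 208) (nat_lit 166)) (XT.nd (nat_lit 78) (nat_lit 76) (nat_lit 0) (XT.lf (nat_lit 0) (nat_lit 2555543558) (nat_lit 76) (nat_lit 67485551272) (nat_lit 76) (nat_lit 7262951673) (nat_lit 6) (nat_lit 4) (nat_lit 7) (nat_lit 5) (nat_lit 7) (nat_lit 4) (nat_lit 227) (nat_lit 208) (nat_lit 165)) (XT.lf (nat_lit 0) (nat_lit 5613451109) (nat_lit 152) (nat_lit 48565950458) (nat_lit 76) (nat_lit 32896123239) (nat_lit 5) (nat_lit 5) (nat_lit 7) (nat_lit 5) (nat_lit 6) (nat_lit 4) (nat_lit 228) (nat_lit 208) (nat_lit 164)))))) (XT.nd (nat_lit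 312) (nat_lit 76) (nat_lit 0) (XT.nd (nat_lit 156) (nat_lit 0) (nat_lit 0) (XT.nd (nat_lit 78) (nat_lit 76) (nat_lit 0) (XT.lf (nat_lit 0) (nat_lit 19990295207) (nat_lit 152) (nat_lit 18678922707) (nat_lit 76) (nat_lit 59628543786) (nat_lit 5) (nat_lit 5) (nat_lit 7) (nat_lit 5) (nat_lit 6) (nat_lit 4) (nat_lit 229) (nat_lit 208) (nat_lit 163)) (XT.lf (nat_lit 0) (nat_lit 16497260447) (nat_lit 76) (nat_lit 20411688020) (nat_lit 152) (nat_lit 74263607393) (nat_lit 4) (nat_lit 5) (nat_lit 5) (nat_lit 5) (nat_lit 6) (nat_lit 4) (nat_lit 230) (nat_lit 208) (nat_lit 162))) (XT.nd (nat_lit 78) (nat_lit 0) (nat_lit 0) (XT.lf (nat_lit 0) (nat_lit 56926824785) (nat_lit 152) (nat_lit 67900471535) (nat_lit 0) (nat_lit 1106397372) (nat_lit 4) (nat_lit 5) (nat_lit 6) (nat_lit 4) (nat_lit 4) (nat_lit 4) (nat_lit 231) (nat_lit 208) (nat_lit 161)) (XT.lf (nat_lit 0) (nat_lit 80502725177) (nat_lit 152)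 (nat_lit 37689818255) (nat_lit 0) (nat_lit 24672064880) (nat_lit 4) (nat_lit 5) (nat_lit 6) (nat_lit 4) (nat_lit 4) (nat_lit 4) (nat_lit 232) (nat_lit 208) (nat_lit 160)))) (XT.nd (nat_lit 156) (nat_lit 0) (nat_lit 0) (XT.nd (nat_lit 78) (nat_lit 76) (nat_lit 0) (XT.lf (nat_lit 0) (nat_lit 107607015672) (nat_lit 152) (nat_lit 2961355988) (nat_lit 0) (nat_lit 51767457216) (nat_lit 4) (nat_lit 5) (nat_lit 6) (nat_lit 4) (nat_lit 4) (nat_lit 4) (nat_lit 233) (nat_lit 208) (nat_lit 159)) (XT.lf (nat_lit 0) (nat_lit 38910864197) (nat_lit 76) (nat_lit 100794940629) (nat_lit 76) (nat_lit 44947644642) (nat_lit 3) (nat_lit 4) (nat_lit 4) (nat_lit 5) (nat_lit 4) (nat_lit 4) (nat_lit 234) (nat_lit 208) (nat_lit 158))) (XT.nd (nat_lit 78) (nat_lit 0) (nat_lit 0) (XT.lf (nat_lit 0) (nat_lit 87232272625) (nat_lit 76) (nat_lit 89467047123) (nat_lit 76) (nat_lit 33613022850) (nat_lit 3) (nat_lit 4)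 (nat_lit 4) (nat_lit 5) (nat_lit 4) (nat_lit 4) (nat_lit 235) (nat_lit 208) (nat_lit 157)) (XT.nd (nat_lit 78) (nat_lit 0) (nat_lit 0) (XT.lf (nat_lit 0) (nat_lit 142792348398) (nat_lit 76) (nat_lit 76444027167) (nat_lit 76) (nat_lit 20584152209) (nat_lit 3) (nat_lit 4) (nat_lit 4) (nat_lit 5) (nat_lit 4) (nat_lit 4) (nat_lit 236) (nat_lit 208) (nat_lit 156)) (XT.lf (nat_lit 0) (nat_lit 206678136477) (nat_lit 76) (nat_lit 61471082542) (nat_lit 76) (nat_lit 5606120033) (nat_lit 3) (nat_lit 4) (nat_lit 4) (nat_lit 5) (nat_lit 4) (nat_lit 4) (nat_lit 237) (nat_lit 208) (nat_lit 155))))))))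
noncomputable def xc37 : XT := (XT.nd (nat_lit 1326) (nat_lit 0) (nat_lit 0) (XT.nd (nat_lit 624) (nat_lit 0) (nat_lit 0) (XT.nd (nat_lit 312) (nat_lit 0) (nat_lit 0) (XT.nd (nat_lit 156) (nat_lit 0) (nat_lit 0) (XT.nd (nat_lit 78) (nat_lit 76) (nat_lit 0) (XT.lf (nat_lit 0) (nat_lit 11033136705) (nat_lit 152) (nat_lit 32920462118) (nat_lit 76) (nat_lit 268804773978) (nat_lit 2) (nat_lit 5) (nat_lit 4) (nat_lit 5) (nat_lit 3) (nat_lit 4) (nat_lit 238) (nat_lit 208) (nat_lit 154)) (XT.lf (nat_lit 0) (nat_lit 6524644666) (nat_lit 76) (nat_lit 23474335167) (nat_lit 152) (nat_lit 327588232950) (nat_lit 1) (nat_lit 5) (nat_lit 2) (nat_lit 5) (nat_lit 3) (nat_lit 4) (nat_lit 239) (nat_lit 208) (nat_lit 153))) (XT.nd (nat_lit 78) (nat_lit 0) (nat_lit 0) (XT.lf (nat_lit 0) (nat_lit 52791452329) (nat_lit 152) (nat_lit 355216516733) (nat_lit 0) (nat_lit 1053879612) (nat_lit 1) (nat_lit 5) (nat_lit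 3) (nat_lit 4) (nat_lit 1) (nat_lit 4) (nat_lit 240) (nat_lit 208) (nat_lit 152)) (XT.lf (nat_lit 0) (nat_lit 79649052510) (nat_lit 152) (nat_lit 360648149283) (nat_lit 0) (nat_lit 27908786437) (nat_lit 1) (nat_lit 5) (nat_lit 3) (nat_lit 4) (nat_lit 1) (nat_lit 4) (nat_lit 241) (nat_lit 208) (nat_lit 151)))) (XT.nd (nat_lit 156) (nat_lit 0) (nat_lit 0) (XT.nd (nat_lit 78) (nat_lit 0) (nat_lit 0) (XT.lf (nat_lit 0) (nat_lit 110532696836) (nat_lit 152) (nat_lit 366899178513) (nat_lit 0) (nat_lit 58790088715) (nat_lit 1) (nat_lit 5) (nat_lit 3) (nat_lit 4) (nat_lit 1) (nat_lit 4) (nat_lit 242) (nat_lit 208) (nat_lit 150)) (XT.lf (nat_lit 0) (nat_lit 146046630522) (nat_lit 152) (nat_lit 374091907168) (nat_lit 0) (nat_lit 94301985837) (nat_lit 1) (nat_lit 5) (nat_lit 3) (nat_lit 4) (nat_lit 1) (nat_lit 4) (nat_lit 243) (nat_lit 208) (nat_lit 149))) (XT.nd (nat_lit 78) (nat_lit 0) (nat_lit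 0) (XT.lf (nat_lit 0) (nat_lit 186885691401) (nat_lit 152) (nat_lit 382367062549) (nat_lit 0) (nat_lit 135139275791) (nat_lit 1) (nat_lit 5) (nat_lit 3) (nat_lit 4) (nat_lit 1) (nat_lit 4) (nat_lit 244) (nat_lit 208) (nat_lit 148)) (XT.lf (nat_lit 0) (nat_lit 233848904577) (nat_lit 152) (nat_lit 391886549869) (nat_lit 0) (nat_lit 182100949032) (nat_lit 1) (nat_lit 5) (nat_lit 3) (nat_lit 4) (nat_lit 1) (nat_lit 4) (nat_lit 245) (nat_lit 208) (nat_lit 147))))) (XT.nd (nat_lit 312) (nat_lit 0) (nat_lit 0) (XT.nd (nat_lit 156) (nat_lit 0) (nat_lit 0) (XT.nd (nat_lit 78) (nat_lit 0) (nat_lit 0) (XT.lf (nat_lit 0) (nat_lit 287855115525) (nat_lit 152) (nat_lit 402836619968) (nat_lit 0) (nat_lit 236105820906) (nat_lit 1) (nat_lit 5) (nat_lit 3) (nat_lit 4) (nat_lit 1) (nat_lit 4) (nat_lit 246) (nat_lit 208) (nat_lit 146)) (XT.lf (nat_lit 0) (nat_lit 349960967504) (nat_lit 152) (nat_lit 415431513346)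 (nat_lit 0) (nat_lit 298210508473) (nat_lit 1) (nat_lit 5) (nat_lit 3) (nat_lit 4) (nat_lit 1) (nat_lit 4) (nat_lit 247) (nat_lit 208) (nat_lit 145))) (XT.nd (nat_lit 78) (nat_lit 0) (nat_lit 0) (XT.lf (nat_lit 0) (nat_lit 421381575007) (nat_lit 152) (nat_lit 429917651832) (nat_lit 0) (nat_lit 369630103444) (nat_lit 1) (nat_lit 5) (nat_lit 3) (nat_lit 4) (nat_lit 1) (nat_lit 4) (nat_lit 248) (nat_lit 208) (nat_lit 144)) (XT.lf (nat_lit 0) (nat_lit 503514297748) (nat_lit 152) (nat_lit 446578459873) (nat_lit 0) (nat_lit 451761945722) (nat_lit 1) (nat_lit 5) (nat_lit 3) (nat_lit 4) (nat_lit 1) (nat_lit 4) (nat_lit 249) (nat_lit 208) (nat_lit 143)))) (XT.nd (nat_lit 156) (nat_lit 0) (nat_lit 0) (XT.nd (nat_lit 78) (nat_lit 0) (nat_lit 0) (XT.lf (nat_lit 0) (nat_lit 597966080302) (nat_lit 152) (nat_lit 465739909802) (nat_lit 0) (nat_lit 546212962656) (nat_lit 1) (nat_lit 5) (nat_lit 3) (nat_lit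 4) (nat_lit 1) (nat_lit 4) (nat_lit 250) (nat_lit 208) (nat_lit 142)) (XT.lf (nat_lit 0) (nat_lit 706584892326) (nat_lit 152) (nat_lit 487776899551) (nat_lit 0) (nat_lit 654831108925) (nat_lit 1) (nat_lit 5) (nat_lit 3) (nat_lit 4) (nat_lit 1) (nat_lit 4) (nat_lit 251) (nat_lit 208) (nat_lit 141))) (XT.nd (nat_lit 78) (nat_lit 0) (nat_lit 0) (XT.lf (nat_lit 0) (nat_lit 831495884493) (nat_lit 152) (nat_lit 513120587615) (nat_lit 0) (nat_lit 779741522172) (nat_lit 1) (nat_lit 5) (nat_lit 3) (nat_lit 4) (nat_lit 1) (nat_lit 4) (nat_lit 252) (nat_lit 208) (nat_lit 140)) (XT.nd (nat_lit 78) (nat_lit 0) (nat_lit 0) (XT.lf (nat_lit 0) (nat_lit 975142967516) (nat_lit 152) (nat_lit 542266828761) (nat_lit 0) (nat_lit 923388101789) (nat_lit 1) (nat_lit 5) (nat_lit 3) (nat_lit 4) (nat_lit 1) (nat_lit 4) (nat_lit 253) (nat_lit 208) (nat_lit 139)) (XT.lf (nat_lit 0) (nat_lit 1140336627805) (nat_lit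 152) (nat_lit 575785875534) (nat_lit 0) (nat_lit 1088581324332) (nat_lit 1) (nat_lit 5) (nat_lit 3) (nat_lit 4) (nat_lit 1) (nat_lit 4) (nat_lit 254) (nat_lit 208) (nat_lit 138))))))) (XT.nd (nat_lit 28236) (nat_lit 0) (nat_lit 532) (XT.nd (nat_lit 27846) (nat_lit 0) (nat_lit 1748) (XT.nd (nat_lit 27690) (nat_lit 0) (nat_lit 2508) (XT.nd (nat_lit 78) (nat_lit 0) (nat_lit 0) (XT.lf (nat_lit 0) (nat_lit 1330308915233) (nat_lit 152) (nat_lit 614333535369) (nat_lit 0) (nat_lit 1278553231112) (nat_lit 1) (nat_lit 5) (nat_lit 3) (nat_lit 4) (nat_lit 1) (nat_lit 4) (nat_lit 255) (nat_lit 208) (nat_lit 137)) (XT.lf (nat_lit 0) (nat_lit 1548776678903) (nat_lit 152) (nat_lit 658664001612) (nat_lit 0) (nat_lit 1497020663783) (nat_lit 1) (nat_lit 5) (nat_lit 3) (nat_lit 4) (nat_lit 1) (nat_lit 4) (nat_lit 256) (nat_lit 208) (nat_lit 136))) (XT.nd (nat_lit 78) (nat_lit 0) (nat_lit 0) (XT.lf (nat_lit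 0) (nat_lit 3376369167) (nat_lit 0) (nat_lit 3376369167) (nat_lit 380) (nat_lit 602283723) (nat_lit 34) (nat_lit 5) (nat_lit 34) (nat_lit 3) (nat_lit 39) (nat_lit 3) (nat_lit 209) (nat_lit 209) (nat_lit 182)) (XT.lf (nat_lit 76) (nat_lit 3024561378) (nat_lit 0) (nat_lit 12125376708) (nat_lit 456) (nat_lit 608642837) (nat_lit 35) (nat_lit 5) (nat_lit 34) (nat_lit 5) (nat_lit 40) (nat_lit 5) (nat_lit 210) (nat_lit 209) (nat_lit 181)))) (XT.nd (nat_lit 156) (nat_lit 304) (nat_lit 0) (XT.nd (nat_lit 78) (nat_lit 0) (nat_lit 76) (XT.lf (nat_lit 0) (nat_lit 410686423) (nat_lit 456) (nat_lit 1062953610) (nat_lit 532) (nat_lit 15464273784) (nat_lit 28) (nat_lit 5) (nat_lit 34) (nat_lit 5) (nat_lit 35) (nat_lit 5) (nat_lit 211) (nat_lit 209) (nat_lit 180)) (XT.lf (nat_lit 0) (nat_lit 2052051192) (nat_lit 456) (nat_lit 5604093782) (nat_lit 532) (nat_lit 10596924027) (nat_lit 29) (nat_lit 5) (nat_lit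 35) (nat_lit 5) (nat_lit 36) (nat_lit 5) (nat_lit 212) (nat_lit 209) (nat_lit 179))) (XT.nd (nat_lit 78) (nat_lit 456) (nat_lit 0) (XT.lf (nat_lit 0) (nat_lit 4282579317) (nat_lit 456) (nat_lit 10787124837) (nat_lit 76) (nat_lit 4668879252) (nat_lit 30) (nat_lit 5) (nat_lit 36) (nat_lit 5) (nat_lit 31) (nat_lit 5) (nat_lit 213) (nat_lit 209) (nat_lit 178)) (XT.nd (nat_lit 78) (nat_lit 0) (nat_lit 0) (XT.lf (nat_lit 0) (nat_lit 4554177176) (nat_lit 456) (nat_lit 2723799944) (nat_lit 532) (nat_lit 14134979083) (nat_lit 24) (nat_lit 5) (nat_lit 30) (nat_lit 5) (nat_lit 31) (nat_lit 5) (nat_lit 214) (nat_lit 209) (nat_lit 177)) (XT.lf (nat_lit 0) (nat_lit 11268973735) (nat_lit 532) (nat_lit 801143786) (nat_lit 76) (nat_lit 11225059454) (nat_lit 24) (nat_lit 5) (nat_lit 31) (nat_lit 5) (nat_lit 25) (nat_lit 5) (nat_lit 215) (nat_lit 209) (nat_lit 176)))))) (XT.nd (nat_lit 312) (nat_lit 608)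 (nat_lit 0) (XT.nd (nat_lit 156) (nat_lit 228) (nat_lit 0) (XT.nd (nat_lit 78) (nat_lit 152) (nat_lit 0) (XT.lf (nat_lit 0) (nat_lit 16384301203) (nat_lit 304) (nat_lit 7006448603) (nat_lit 76) (nat_lit 2027270189) (nat_lit 21) (nat_lit 5) (nat_lit 25) (nat_lit 5) (nat_lit 22) (nat_lit 5) (nat_lit 216) (nat_lit 209) (nat_lit 175)) (XT.lf (nat_lit 0) (nat_lit 12965313647) (nat_lit 152) (nat_lit 9930882786) (nat_lit 228) (nat_lit 4913050364) (nat_lit 19) (nat_lit 5) (nat_lit 21) (nat_lit 5) (nat_lit 22) (nat_lit 5) (nat_lit 217) (nat_lit 209) (nat_lit 174))) (XT.nd (nat_lit 78) (nat_lit 0) (nat_lit 0) (XT.lf (nat_lit 0) (nat_lit 294893190) (nat_lit 228) (nat_lit 24604119194) (nat_lit 76) (nat_lit 5623884622) (nat_lit 16) (nat_lit 5) (nat_lit 19) (nat_lit 5) (nat_lit 17) (nat_lit 5) (nat_lit 218) (nat_lit 209) (nat_lit 173)) (XT.lf (nat_lit 0) (nat_lit 6685902855) (nat_lit 228) (nat_lit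 3379350660) (nat_lit 76) (nat_lit 23512918949) (nat_lit 16) (nat_lit 5) (nat_lit 19) (nat_lit 5) (nat_lit 17) (nat_lit 5) (nat_lit 219) (nat_lit 209) (nat_lit 172)))) (XT.nd (nat_lit 156) (nat_lit 304) (nat_lit 0) (XT.nd (nat_lit 78) (nat_lit 152) (nat_lit 0) (XT.lf (nat_lit 0) (nat_lit 14719618401) (nat_lit 228) (nat_lit 15136730451) (nat_lit 76) (nat_lit 7180847959) (nat_lit 14) (nat_lit 5) (nat_lit 17) (nat_lit 5) (nat_lit 15) (nat_lit 5) (nat_lit 220) (nat_lit 209) (nat_lit 171)) (XT.lf (nat_lit 0) (nat_lit 10370995193) (nat_lit 152) (nat_lit 14189747111) (nat_lit 228) (nat_lit 16406302618) (nat_lit 12) (nat_lit 5) (nat_lit 14) (nat_lit 5) (nat_lit 15) (nat_lit 5) (nat_lit 221) (nat_lit 209) (nat_lit 170))) (XT.nd (nat_lit 78) (nat_lit 304) (nat_lit 0) (XT.lf (nat_lit 0) (nat_lit 36398217365) (nat_lit 228) (nat_lit 4968356361) (nat_lit 76) (nat_lit 4078319480) (nat_lit 12) (nat_lit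 5) (nat_lit 15) (nat_lit 5) (nat_lit 13) (nat_lit 4) (nat_lit 222) (nat_lit 209) (nat_lit 169)) (XT.nd (nat_lit 78) (nat_lit 152) (nat_lit 0) (XT.lf (nat_lit 0) (nat_lit 452659506) (nat_lit 152) (nat_lit 25179105552) (nat_lit 76) (nat_lit 24883358705) (nat_lit 10) (nat_lit 5) (nat_lit 12) (nat_lit 5) (nat_lit 11) (nat_lit 5) (nat_lit 223) (nat_lit 209) (nat_lit 168)) (XT.lf (nat_lit 0) (nat_lit 4073198544) (nat_lit 152) (nat_lit 7010226467) (nat_lit 228) (nat_lit 45224386394) (nat_lit 8) (nat_lit 5) (nat_lit 10) (nat_lit 5) (nat_lit 11) (nat_lit 5) (nat_lit 224) (nat_lit 209) (nat_lit 167))))))))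
noncomputable def xc38 : XT := (XT.nd (nat_lit 1326) (nat_lit 0) (nat_lit 0) (XT.nd (nat_lit 624) (nat_lit 228) (nat_lit 0) (XT.nd (nat_lit 312) (nat_lit 152) (nat_lit 0) (XT.nd (nat_lit 156) (nat_lit 76) (nat_lit 0) (XT.nd (nat_lit 78) (nat_lit 76) (nat_lit 0) (XT.lf (nat_lit 0) (nat_lit 24389602592) (nat_lit 228) (nat_lit 24066095309) (nat_lit 76) (nat_lit 14427324261) (nat_lit 8) (nat_lit 5) (nat_lit 11) (nat_lit 5) (nat_lit 9) (nat_lit 4) (nat_lit 225) (nat_lit 209) (nat_lit 166)) (XT.lf (nat_lit 0) (nat_lit 8536509171) (nat_lit 76) (nat_lit 31538964241) (nat_lit 152) (nat_lit 30338412618) (nat_lit 7) (nat_lit 5) (nat_lit 8) (nat_lit 5) (nat_lit 9) (nat_lit 4) (nat_lit 226) (nat_lit 209) (nat_lit 165))) (XT.nd (nat_lit 78) (nat_lit 76) (nat_lit 0) (XT.lf (nat_lit 0) (nat_lit 47464597926) (nat_lit 76) (nat_lit 11336339071) (nat_lit 152) (nat_lit 20218568837) (nat_lit 7) (nat_lit 5)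 (nat_lit 8) (nat_lit 5) (nat_lit 9) (nat_lit 4) (nat_lit 227) (nat_lit 209) (nat_lit 164)) (XT.lf (nat_lit 0) (nat_lit 3168074362) (nat_lit 76) (nat_lit 77517152015) (nat_lit 76) (nat_lit 8202796795) (nat_lit 6) (nat_lit 4) (nat_lit 7) (nat_lit 5) (nat_lit 7) (nat_lit 4) (nat_lit 228) (nat_lit 209) (nat_lit 163)))) (XT.nd (nat_lit 156) (nat_lit 76) (nat_lit 0) (XT.nd (nat_lit 78) (nat_lit 0) (nat_lit 0) (XT.lf (nat_lit 0) (nat_lit 6579046297) (nat_lit 152) (nat_lit 55644554548) (nat_lit 76) (nat_lit 37902889088) (nat_lit 5) (nat_lit 5) (nat_lit 7) (nat_lit 5) (nat_lit 6) (nat_lit 4) (nat_lit 229) (nat_lit 209) (nat_lit 162)) (XT.lf (nat_lit 0) (nat_lit 23096298202) (nat_lit 152) (nat_lit 21301379827) (nat_lit 76) (nat_lit 68635736105) (nat_lit 5) (nat_lit 5) (nat_lit 7) (nat_lit 5) (nat_lit 6) (nat_lit 4) (nat_lit 230) (nat_lit 209) (nat_lit 161))) (XT.nd (nat_lit 78) (nat_lit 0) (nat_lit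 0) (XT.lf (nat_lit 0) (nat_lit 19136047068) (nat_lit 76) (nat_lit 23406634985) (nat_lit 152) (nat_lit 85297604904) (nat_lit 4) (nat_lit 5) (nat_lit 5) (nat_lit 5) (nat_lit 6) (nat_lit 4) (nat_lit 231) (nat_lit 209) (nat_lit 160)) (XT.lf (nat_lit 0) (nat_lit 65551933727) (nat_lit 152) (nat_lit 77937069966) (nat_lit 0) (nat_lit 1327543342) (nat_lit 4) (nat_lit 5) (nat_lit 6) (nat_lit 4) (nat_lit 4) (nat_lit 4) (nat_lit 232) (nat_lit 209) (nat_lit 159))))) (XT.nd (nat_lit 312) (nat_lit 152) (nat_lit 0) (XT.nd (nat_lit 156) (nat_lit 76) (nat_lit 0) (XT.nd (nat_lit 78) (nat_lit 0) (nat_lit 0) (XT.lf (nat_lit 0) (nat_lit 92652990670) (nat_lit 152) (nat_lit 43214184647) (nat_lit 0) (nat_lit 28420862756) (nat_lit 4) (nat_lit 5) (nat_lit 6) (nat_lit 4) (nat_lit 4) (nat_lit 4) (nat_lit 233) (nat_lit 209) (nat_lit 158)) (XT.lf (nat_lit 0) (nat_lit 123813160820) (nat_lit 152) (nat_lit 3293292998)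 (nat_lit 0) (nat_lit 59574304619) (nat_lit 4) (nat_lit 5) (nat_lit 6) (nat_lit 4) (nat_lit 4) (nat_lit 4) (nat_lit 234) (nat_lit 209) (nat_lit 157))) (XT.nd (nat_lit 78) (nat_lit 0) (nat_lit 0) (XT.lf (nat_lit 0) (nat_lit 44850257424) (nat_lit 76) (nat_lit 115870492024) (nat_lit 76) (nat_lit 51625785138) (nat_lit 3) (nat_lit 4) (nat_lit 4) (nat_lit 5) (nat_lit 4) (nat_lit 4) (nat_lit 235) (nat_lit 209) (nat_lit 156)) (XT.lf (nat_lit 0) (nat_lit 100406473170) (nat_lit 76) (nat_lit 102849113149) (nat_lit 76) (nat_lit 38599318712) (nat_lit 3) (nat_lit 4) (nat_lit 4) (nat_lit 5) (nat_lit 4) (nat_lit 4) (nat_lit 236) (nat_lit 209) (nat_lit 155)))) (XT.nd (nat_lit 156) (nat_lit 152) (nat_lit 0) (XT.nd (nat_lit 78) (nat_lit 0) (nat_lit 0) (XT.lf (nat_lit 0) (nat_lit 164288904702) (nat_lit 76) (nat_lit 87877595552) (nat_lit 76) (nat_lit 23623377157) (nat_lit 3) (nat_lit 4) (nat_lit 4) (nat_lit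 5) (nat_lit 4) (nat_lit 4) (nat_lit 237) (nat_lit 209) (nat_lit 154)) (XT.lf (nat_lit 0) (nat_lit 237747425683) (nat_lit 76) (nat_lit 70663018237) (nat_lit 76) (nat_lit 6404952923) (nat_lit 3) (nat_lit 4) (nat_lit 4) (nat_lit 5) (nat_lit 4) (nat_lit 4) (nat_lit 238) (nat_lit 209) (nat_lit 153))) (XT.nd (nat_lit 78) (nat_lit 76) (nat_lit 0) (XT.lf (nat_lit 0) (nat_lit 12722872296) (nat_lit 152) (nat_lit 37797836084) (nat_lit 76) (nat_lit 309148529871) (nat_lit 2) (nat_lit 5) (nat_lit 4) (nat_lit 5) (nat_lit 3) (nat_lit 4) (nat_lit 239) (nat_lit 209) (nat_lit 152)) (XT.nd (nat_lit 78) (nat_lit 0) (nat_lit 0) (XT.lf (nat_lit 0) (nat_lit 7558899158) (nat_lit 76) (nat_lit 26971494324) (nat_lit 152) (nat_lit 376692280872) (nat_lit 1) (nat_lit 5) (nat_lit 2) (nat_lit 5) (nat_lit 3) (nat_lit 4) (nat_lit 240) (nat_lit 209) (nat_lit 151)) (XT.lf (nat_lit 0) (nat_lit 60738121189) (nat_lit 152)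 (nat_lit 408448906286) (nat_lit 0) (nat_lit 1231779801) (nat_lit 1) (nat_lit 5) (nat_lit 3) (nat_lit 4) (nat_lit 1) (nat_lit 4) (nat_lit 241) (nat_lit 209) (nat_lit 150))))))) (XT.nd (nat_lit 702) (nat_lit 0) (nat_lit 0) (XT.nd (nat_lit 312) (nat_lit 0) (nat_lit 0) (XT.nd (nat_lit 156) (nat_lit 0) (nat_lit 0) (XT.nd (nat_lit 78) (nat_lit 0) (nat_lit 0) (XT.lf (nat_lit 0) (nat_lit 91620715613) (nat_lit 152) (nat_lit 414701816930) (nat_lit 0) (nat_lit 32112337662) (nat_lit 1) (nat_lit 5) (nat_lit 3) (nat_lit 4) (nat_lit 1) (nat_lit 4) (nat_lit 242) (nat_lit 209) (nat_lit 149)) (XT.lf (nat_lit 0) (nat_lit 127133736341) (nat_lit 152) (nat_lit 421896181598) (nat_lit 0) (nat_lit 67623587464) (nat_lit 1) (nat_lit 5) (nat_lit 3) (nat_lit 4) (nat_lit 1) (nat_lit 4) (nat_lit 243) (nat_lit 209) (nat_lit 148))) (XT.nd (nat_lit 78) (nat_lit 0) (nat_lit 0) (XT.lf (nat_lit 0) (nat_lit 167972003343)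 (nat_lit 152) (nat_lit 430172759599) (nat_lit 0) (nat_lit 108460314532) (nat_lit 1) (nat_lit 5) (nat_lit 3) (nat_lit 4) (nat_lit 1) (nat_lit 4) (nat_lit 244) (nat_lit 209) (nat_lit 147)) (XT.lf (nat_lit 0) (nat_lit 214934526192) (nat_lit 152) (nat_lit 439693483979) (nat_lit 0) (nat_lit 155421498307) (nat_lit 1) (nat_lit 5) (nat_lit 3) (nat_lit 4) (nat_lit 1) (nat_lit 4) (nat_lit 245) (nat_lit 209) (nat_lit 146)))) (XT.nd (nat_lit 156) (nat_lit 0) (nat_lit 0) (XT.nd (nat_lit 78) (nat_lit 0) (nat_lit 0) (XT.lf (nat_lit 0) (nat_lit 268940136856) (nat_lit 152) (nat_lit 450644629783) (nat_lit 0) (nat_lit 209425944558) (nat_lit 1) (nat_lit 5) (nat_lit 3) (nat_lit 4) (nat_lit 1) (nat_lit 4) (nat_lit 246) (nat_lit 209) (nat_lit 145)) (XT.lf (nat_lit 0) (nat_lit 331045466847) (nat_lit 152) (nat_lit 463240458557) (nat_lit 0) (nat_lit 271530262018) (nat_lit 1) (nat_lit 5) (nat_lit 3) (nat_lit 4)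 (nat_lit 1) (nat_lit 4) (nat_lit 247) (nat_lit 209) (nat_lit 144))) (XT.nd (nat_lit 78) (nat_lit 0) (nat_lit 0) (XT.lf (nat_lit 0) (nat_lit 402465620449) (nat_lit 152) (nat_lit 477727410430) (nat_lit 0) (nat_lit 342949535157) (nat_lit 1) (nat_lit 5) (nat_lit 3) (nat_lit 4) (nat_lit 1) (nat_lit 4) (nat_lit 248) (nat_lit 209) (nat_lit 143)) (XT.nd (nat_lit 78) (nat_lit 0) (nat_lit 0) (XT.lf (nat_lit 0) (nat_lit 484597948493) (nat_lit 152) (nat_lit 494388925765) (nat_lit 0) (nat_lit 425081097581) (nat_lit 1) (nat_lit 5) (nat_lit 3) (nat_lit 4) (nat_lit 1) (nat_lit 4) (nat_lit 249) (nat_lit 209) (nat_lit 142)) (XT.lf (nat_lit 0) (nat_lit 579049387832) (nat_lit 152) (nat_lit 513550990731) (nat_lit 0) (nat_lit 519531871164) (nat_lit 1) (nat_lit 5) (nat_lit 3) (nat_lit 4) (nat_lit 1) (nat_lit 4) (nat_lit 250) (nat_lit 209) (nat_lit 141)))))) (XT.nd (nat_lit 312) (nat_lit 0) (nat_lit 0) (XT.nd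 (nat_lit 156) (nat_lit 0) (nat_lit 0) (XT.nd (nat_lit 78) (nat_lit 0) (nat_lit 0) (XT.lf (nat_lit 0) (nat_lit 687667901409) (nat_lit 152) (nat_lit 535588515295) (nat_lit 0) (nat_lit 628149805822) (nat_lit 1) (nat_lit 5) (nat_lit 3) (nat_lit 4) (nat_lit 1) (nat_lit 4) (nat_lit 251) (nat_lit 209) (nat_lit 140)) (XT.lf (nat_lit 0) (nat_lit 812578634056) (nat_lit 152) (nat_lit 560932668416) (nat_lit 0) (nat_lit 753060035061) (nat_lit 1) (nat_lit 5) (nat_lit 3) (nat_lit 4) (nat_lit 1) (nat_lit 4) (nat_lit 252) (nat_lit 209) (nat_lit 139))) (XT.nd (nat_lit 78) (nat_lit 0) (nat_lit 0) (XT.lf (nat_lit 0) (nat_lit 956225491410) (nat_lit 152) (nat_lit 590079313960) (nat_lit 0) (nat_lit 896706454670) (nat_lit 1) (nat_lit 5) (nat_lit 3) (nat_lit 4) (nat_lit 1) (nat_lit 4) (nat_lit 253) (nat_lit 209) (nat_lit 138)) (XT.lf (nat_lit 0) (nat_lit 1121418955465) (nat_lit 152) (nat_lit 623598712382) (nat_lit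 0) (nat_lit 1061899538076) (nat_lit 1) (nat_lit 5) (nat_lit 3) (nat_lit 4) (nat_lit 1) (nat_lit 4) (nat_lit 254) (nat_lit 209) (nat_lit 137)))) (XT.nd (nat_lit 27768) (nat_lit 0) (nat_lit 2052) (XT.nd (nat_lit 78) (nat_lit 0) (nat_lit 0) (XT.lf (nat_lit 0) (nat_lit 1311391072255) (nat_lit 152) (nat_lit 662146678000) (nat_lit 0) (nat_lit 1251871323868) (nat_lit 1) (nat_lit 5) (nat_lit 3) (nat_lit 4) (nat_lit 1) (nat_lit 4) (nat_lit 255) (nat_lit 209) (nat_lit 136)) (XT.lf (nat_lit 0) (nat_lit 1529858687543) (nat_lit 152) (nat_lit 706477410141) (nat_lit 0) (nat_lit 1470338651332) (nat_lit 1) (nat_lit 5) (nat_lit 3) (nat_lit 4) (nat_lit 1) (nat_lit 4) (nat_lit 256) (nat_lit 209) (nat_lit 135))) (XT.nd (nat_lit 78) (nat_lit 456) (nat_lit 0) (XT.lf (nat_lit 0) (nat_lit 4107456986) (nat_lit 0) (nat_lit 4107456986) (nat_lit 380) (nat_lit 203401356) (nat_lit 34) (nat_lit 5) (nat_lit 34) (nat_lit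 3) (nat_lit 39) (nat_lit 3) (nat_lit 210) (nat_lit 210) (nat_lit 180)) (XT.nd (nat_lit 78) (nat_lit 0) (nat_lit 0) (XT.lf (nat_lit 0) (nat_lit 145895454) (nat_lit 456) (nat_lit 14083838606) (nat_lit 532) (nat_lit 3822643439) (nat_lit 28) (nat_lit 5) (nat_lit 34) (nat_lit 5) (nat_lit 35) (nat_lit 5) (nat_lit 211) (nat_lit 210) (nat_lit 179)) (XT.lf (nat_lit 0) (nat_lit 1177351057) (nat_lit 456) (nat_lit 749831160) (nat_lit 532) (nat_lit 17489386284) (nat_lit 28) (nat_lit 5) (nat_lit 34) (nat_lit 5) (nat_lit 35) (nat_lit 5) (nat_lit 212) (nat_lit 210) (nat_lit 178))))))))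
noncomputable def xc39 : XT := (XT.nd (nat_lit 1404) (nat_lit 304) (nat_lit 0) (XT.nd (nat_lit 702) (nat_lit 684) (nat_lit 0) (XT.nd (nat_lit 312) (nat_lit 760) (nat_lit 0) (XT.nd (nat_lit 156) (nat_lit 380) (nat_lit 0) (XT.nd (nat_lit 78) (nat_lit 0) (nat_lit 76) (XT.lf (nat_lit 0) (nat_lit 2978767184) (nat_lit 456) (nat_lit 5952777214) (nat_lit 532) (nat_lit 12005078849) (nat_lit 29) (nat_lit 5) (nat_lit 35) (nat_lit 5) (nat_lit 36) (nat_lit 5) (nat_lit 213) (nat_lit 210) (nat_lit 177)) (XT.lf (nat_lit 0) (nat_lit 5471602663) (nat_lit 456) (nat_lit 11904352182) (nat_lit 76) (nat_lit 5275429992) (nat_lit 30) (nat_lit 5) (nat_lit 36) (nat_lit 5) (nat_lit 31) (nat_lit 5) (nat_lit 214) (nat_lit 210) (nat_lit 176))) (XT.nd (nat_lit 78) (nat_lit 0) (nat_lit 0) (XT.lf (nat_lit 0) (nat_lit 5695751405) (nat_lit 456) (nat_lit 3160284002) (nat_lit 532) (nat_lit 15726255145) (nat_lit 24) (nat_lit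 5) (nat_lit 30) (nat_lit 5) (nat_lit 31) (nat_lit 5) (nat_lit 215) (nat_lit 210) (nat_lit 175)) (XT.lf (nat_lit 0) (nat_lit 13381659260) (nat_lit 532) (nat_lit 485030078) (nat_lit 76) (nat_lit 12885759510) (nat_lit 24) (nat_lit 5) (nat_lit 31) (nat_lit 5) (nat_lit 25) (nat_lit 5) (nat_lit 216) (nat_lit 210) (nat_lit 174)))) (XT.nd (nat_lit 156) (nat_lit 380) (nat_lit 0) (XT.nd (nat_lit 78) (nat_lit 152) (nat_lit 0) (XT.lf (nat_lit 0) (nat_lit 19219343729) (nat_lit 304) (nat_lit 7625654773) (nat_lit 76) (nat_lit 2352734866) (nat_lit 21) (nat_lit 5) (nat_lit 25) (nat_lit 5) (nat_lit 22) (nat_lit 5) (nat_lit 217) (nat_lit 210) (nat_lit 173)) (XT.lf (nat_lit 0) (nat_lit 15305325387) (nat_lit 152) (nat_lit 11362977039) (nat_lit 228) (nat_lit 5282884364) (nat_lit 19) (nat_lit 5) (nat_lit 21) (nat_lit 5) (nat_lit 22) (nat_lit 5) (nat_lit 218) (nat_lit 210) (nat_lit 172))) (XT.nd (nat_lit 78)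 (nat_lit 152) (nat_lit 0) (XT.lf (nat_lit 0) (nat_lit 653190226) (nat_lit 228) (nat_lit 27888790652) (nat_lit 76) (nat_lit 6532266774) (nat_lit 16) (nat_lit 5) (nat_lit 19) (nat_lit 5) (nat_lit 17) (nat_lit 5) (nat_lit 219) (nat_lit 210) (nat_lit 171)) (XT.nd (nat_lit 78) (nat_lit 152) (nat_lit 0) (XT.lf (nat_lit 0) (nat_lit 7961886594) (nat_lit 228) (nat_lit 3533256370) (nat_lit 76) (nat_lit 27096204147) (nat_lit 16) (nat_lit 5) (nat_lit 19) (nat_lit 5) (nat_lit 17) (nat_lit 5) (nat_lit 220) (nat_lit 210) (nat_lit 170)) (XT.lf (nat_lit 0) (nat_lit 17174681703) (nat_lit 228) (nat_lit 17064894325) (nat_lit 76) (nat_lit 8331949481) (nat_lit 14) (nat_lit 5) (nat_lit 17) (nat_lit 5) (nat_lit 15) (nat_lit 5) (nat_lit 221) (nat_lit 210) (nat_lit 169)))))) (XT.nd (nat_lit 312) (nat_lit 228) (nat_lit 0) (XT.nd (nat_lit 156) (nat_lit 304) (nat_lit 0) (XT.nd (nat_lit 78) (nat_lit 0) (nat_lit 0)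 (XT.lf (nat_lit 0) (nat_lit 12240012308) (nat_lit 152) (nat_lit 16227265274) (nat_lit 228) (nat_lit 18625742181) (nat_lit 12) (nat_lit 5) (nat_lit 14) (nat_lit 5) (nat_lit 15) (nat_lit 5) (nat_lit 222) (nat_lit 210) (nat_lit 168)) (XT.lf (nat_lit 0) (nat_lit 42053264000) (nat_lit 228) (nat_lit 5426425007) (nat_lit 76) (nat_lit 4765193073) (nat_lit 12) (nat_lit 5) (nat_lit 15) (nat_lit 5) (nat_lit 13) (nat_lit 4) (nat_lit 223) (nat_lit 210) (nat_lit 167))) (XT.nd (nat_lit 78) (nat_lit 152) (nat_lit 0) (XT.lf (nat_lit 0) (nat_lit 702219673) (nat_lit 152) (nat_lit 28682627621) (nat_lit 76) (nat_lit 28692110375) (nat_lit 10) (nat_lit 5) (nat_lit 12) (nat_lit 5) (nat_lit 11) (nat_lit 5) (nat_lit 224) (nat_lit 210) (nat_lit 166)) (XT.lf (nat_lit 0) (nat_lit 4934384901) (nat_lit 152) (nat_lit 7975537633) (nat_lit 228) (nat_lit 51830157743) (nat_lit 8) (nat_lit 5) (nat_lit 10) (nat_lit 5) (nat_lit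 11) (nat_lit 5) (nat_lit 225) (nat_lit 210) (nat_lit 165)))) (XT.nd (nat_lit 156) (nat_lit 152) (nat_lit 0) (XT.nd (nat_lit 78) (nat_lit 76) (nat_lit 0) (XT.lf (nat_lit 0) (nat_lit 28192440747) (nat_lit 228) (nat_lit 27448152427) (nat_lit 76) (nat_lit 16662648632) (nat_lit 8) (nat_lit 5) (nat_lit 11) (nat_lit 5) (nat_lit 9) (nat_lit 4) (nat_lit 226) (nat_lit 210) (nat_lit 164)) (XT.lf (nat_lit 0) (nat_lit 10025555750) (nat_lit 76) (nat_lit 36191818068) (nat_lit 152) (nat_lit 34747555845) (nat_lit 7) (nat_lit 5) (nat_lit 8) (nat_lit 5) (nat_lit 9) (nat_lit 4) (nat_lit 227) (nat_lit 210) (nat_lit 163))) (XT.nd (nat_lit 78) (nat_lit 152) (nat_lit 0) (XT.lf (nat_lit 0) (nat_lit 54765653009) (nat_lit 76) (nat_lit 12968971836) (nat_lit 152) (nat_lit 23128207496) (nat_lit 7) (nat_lit 5) (nat_lit 8) (nat_lit 5) (nat_lit 9) (nat_lit 4) (nat_lit 228) (nat_lit 210) (nat_lit 162)) (XT.nd (nat_lit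 78) (nat_lit 76) (nat_lit 0) (XT.lf (nat_lit 0) (nat_lit 3816593093) (nat_lit 76) (nat_lit 89075740358) (nat_lit 76) (nat_lit 9320099014) (nat_lit 6) (nat_lit 4) (nat_lit 7) (nat_lit 5) (nat_lit 7) (nat_lit 4) (nat_lit 229) (nat_lit 210) (nat_lit 161)) (XT.lf (nat_lit 0) (nat_lit 7659345602) (nat_lit 152) (nat_lit 63835254004) (nat_lit 76) (nat_lit 43643027452) (nat_lit 5) (nat_lit 5) (nat_lit 7) (nat_lit 5) (nat_lit 6) (nat_lit 4) (nat_lit 230) (nat_lit 210) (nat_lit 160))))))) (XT.nd (nat_lit 702) (nat_lit 152) (nat_lit 0) (XT.nd (nat_lit 312) (nat_lit 76) (nat_lit 0) (XT.nd (nat_lit 156) (nat_lit 0) (nat_lit 0) (XT.nd (nat_lit 78) (nat_lit 76) (nat_lit 0) (XT.lf (nat_lit 0) (nat_lit 26641997159) (nat_lit 152) (nat_lit 24360948778) (nat_lit 76) (nat_lit 78978666086) (nat_lit 5) (nat_lit 5) (nat_lit 7) (nat_lit 5) (nat_lit 6) (nat_lit 4) (nat_lit 231) (nat_lit 210) (nat_lit 159)) (XT.lf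 (nat_lit 0) (nat_lit 22130611068) (nat_lit 76) (nat_lit 26867115119) (nat_lit 152) (nat_lit 98012439516) (nat_lit 4) (nat_lit 5) (nat_lit 5) (nat_lit 5) (nat_lit 6) (nat_lit 4) (nat_lit 232) (nat_lit 210) (nat_lit 158))) (XT.nd (nat_lit 78) (nat_lit 0) (nat_lit 0) (XT.lf (nat_lit 0) (nat_lit 75449816582) (nat_lit 152) (nat_lit 89515364072) (nat_lit 0) (nat_lit 1568403664) (nat_lit 4) (nat_lit 5) (nat_lit 6) (nat_lit 4) (nat_lit 4) (nat_lit 4) (nat_lit 233) (nat_lit 210) (nat_lit 157)) (XT.lf (nat_lit 0) (nat_lit 106607541702) (nat_lit 152) (nat_lit 49598689397) (nat_lit 0) (nat_lit 32720278100) (nat_lit 4) (nat_lit 5) (nat_lit 6) (nat_lit 4) (nat_lit 4) (nat_lit 4) (nat_lit 234) (nat_lit 210) (nat_lit 156)))) (XT.nd (nat_lit 156) (nat_lit 0) (nat_lit 0) (XT.nd (nat_lit 78) (nat_lit 76) (nat_lit 0) (XT.lf (nat_lit 0) (nat_lit 142434354449) (nat_lit 152) (nat_lit 3702397429) (nat_lit 0)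 (nat_lit 68542003295) (nat_lit 4) (nat_lit 5) (nat_lit 6) (nat_lit 4) (nat_lit 4) (nat_lit 4) (nat_lit 235) (nat_lit 210) (nat_lit 155)) (XT.lf (nat_lit 0) (nat_lit 51655500082) (nat_lit 76) (nat_lit 133218030138) (nat_lit 76) (nat_lit 59321255026) (nat_lit 3) (nat_lit 4) (nat_lit 4) (nat_lit 5) (nat_lit 4) (nat_lit 4) (nat_lit 236) (nat_lit 210) (nat_lit 154))) (XT.nd (nat_lit 78) (nat_lit 0) (nat_lit 0) (XT.lf (nat_lit 0) (nat_lit 115535012879) (nat_lit 76) (nat_lit 118247753435) (nat_lit 76) (nat_lit 44347131403) (nat_lit 3) (nat_lit 4) (nat_lit 4) (nat_lit 5) (nat_lit 4) (nat_lit 4) (nat_lit 237) (nat_lit 210) (nat_lit 153)) (XT.nd (nat_lit 78) (nat_lit 0) (nat_lit 0) (XT.lf (nat_lit 0) (nat_lit 188990995829) (nat_lit 76) (nat_lit 101034255158) (nat_lit 76) (nat_lit 27130287978) (nat_lit 3) (nat_lit 4) (nat_lit 4) (nat_lit 5) (nat_lit 4) (nat_lit 4) (nat_lit 238) (nat_lit 210) (nat_lit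 152)) (XT.lf (nat_lit 0) (nat_lit 273460631206) (nat_lit 76) (nat_lit 81240749471) (nat_lit 76) (nat_lit 7333873467) (nat_lit 3) (nat_lit 4) (nat_lit 4) (nat_lit 5) (nat_lit 4) (nat_lit 4) (nat_lit 239) (nat_lit 210) (nat_lit 151)))))) (XT.nd (nat_lit 312) (nat_lit 0) (nat_lit 0) (XT.nd (nat_lit 156) (nat_lit 0) (nat_lit 0) (XT.nd (nat_lit 78) (nat_lit 76) (nat_lit 0) (XT.lf (nat_lit 0) (nat_lit 14657590540) (nat_lit 152) (nat_lit 43421617091) (nat_lit 76) (nat_lit 355538230749) (nat_lit 2) (nat_lit 5) (nat_lit 4) (nat_lit 5) (nat_lit 3) (nat_lit 4) (nat_lit 240) (nat_lit 210) (nat_lit 150)) (XT.lf (nat_lit 0) (nat_lit 8734743705) (nat_lit 76) (nat_lit 30999077742) (nat_lit 152) (nat_lit 433170272704) (nat_lit 1) (nat_lit 5) (nat_lit 2) (nat_lit 5) (nat_lit 3) (nat_lit 4) (nat_lit 241) (nat_lit 210) (nat_lit 149))) (XT.nd (nat_lit 78) (nat_lit 0) (nat_lit 0) (XT.lf (nat_lit 0) (nat_lit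 69869974347) (nat_lit 152) (nat_lit 469678368537) (nat_lit 0) (nat_lit 1431532214) (nat_lit 1) (nat_lit 5) (nat_lit 3) (nat_lit 4) (nat_lit 1) (nat_lit 4) (nat_lit 242) (nat_lit 210) (nat_lit 148)) (XT.lf (nat_lit 0) (nat_lit 105382201199) (nat_lit 152) (nat_lit 476874155825) (nat_lit 0) (nat_lit 36942219130) (nat_lit 1) (nat_lit 5) (nat_lit 3) (nat_lit 4) (nat_lit 1) (nat_lit 4) (nat_lit 243) (nat_lit 210) (nat_lit 147)))) (XT.nd (nat_lit 156) (nat_lit 0) (nat_lit 0) (XT.nd (nat_lit 78) (nat_lit 0) (nat_lit 0) (XT.lf (nat_lit 0) (nat_lit 146219777873) (nat_lit 152) (nat_lit 485151970886) (nat_lit 0) (nat_lit 77778456731) (nat_lit 1) (nat_lit 5) (nat_lit 3) (nat_lit 4) (nat_lit 1) (nat_lit 4) (nat_lit 244) (nat_lit 210) (nat_lit 146)) (XT.lf (nat_lit 0) (nat_lit 193181700437) (nat_lit 152) (nat_lit 494673770972) (nat_lit 0) (nat_lit 124739214883) (nat_lit 1) (nat_lit 5) (nat_lit 3) (nat_lit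 4) (nat_lit 1) (nat_lit 4) (nat_lit 245) (nat_lit 210) (nat_lit 145))) (XT.nd (nat_lit 78) (nat_lit 0) (nat_lit 0) (XT.lf (nat_lit 0) (nat_lit 247186789114) (nat_lit 152) (nat_lit 505625852170) (nat_lit 0) (nat_lit 178743291028) (nat_lit 1) (nat_lit 5) (nat_lit 3) (nat_lit 4) (nat_lit 1) (nat_lit 4) (nat_lit 246) (nat_lit 210) (nat_lit 144)) (XT.nd (nat_lit 78) (nat_lit 0) (nat_lit 0) (XT.lf (nat_lit 0) (nat_lit 309291665204) (nat_lit 152) (nat_lit 518222494332) (nat_lit 0) (nat_lit 240847286655) (nat_lit 1) (nat_lit 5) (nat_lit 3) (nat_lit 4) (nat_lit 1) (nat_lit 4) (nat_lit 247) (nat_lit 210) (nat_lit 143)) (XT.lf (nat_lit 0) (nat_lit 380711424109) (nat_lit 152) (nat_lit 532710153498) (nat_lit 0) (nat_lit 312266279941) (nat_lit 1) (nat_lit 5) (nat_lit 3) (nat_lit 4) (nat_lit 1) (nat_lit 4) (nat_lit 248) (nat_lit 210) (nat_lit 142))))))))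
noncomputable def xc40 : XT := (XT.nd (nat_lit 29016) (nat_lit 0) (nat_lit 152) (XT.nd (nat_lit 28314) (nat_lit 0) (nat_lit 1368) (XT.nd (nat_lit 312) (nat_lit 0) (nat_lit 0) (XT.nd (nat_lit 156) (nat_lit 0) (nat_lit 0) (XT.nd (nat_lit 78) (nat_lit 0) (nat_lit 0) (XT.lf (nat_lit 0) (nat_lit 462843408938) (nat_lit 152) (nat_lit 549372283871) (nat_lit 0) (nat_lit 394397599013) (nat_lit 1) (nat_lit 5) (nat_lit 3) (nat_lit 4) (nat_lit 1) (nat_lit 4) (nat_lit 249) (nat_lit 210) (nat_lit 141)) (XT.lf (nat_lit 0) (nat_lit 557294549830) (nat_lit 152) (nat_lit 568534883652) (nat_lit 0) (nat_lit 488848160986) (nat_lit 1) (nat_lit 5) (nat_lit 3) (nat_lit 4) (nat_lit 1) (nat_lit 4) (nat_lit 250) (nat_lit 210) (nat_lit 140))) (XT.nd (nat_lit 78) (nat_lit 0) (nat_lit 0) (XT.lf (nat_lit 0) (nat_lit 665912803887) (nat_lit 152) (nat_lit 590572873274) (nat_lit 0) (nat_lit 597465911636) (nat_lit 1) (nat_lit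 5) (nat_lit 3) (nat_lit 4) (nat_lit 1) (nat_lit 4) (nat_lit 251) (nat_lit 210) (nat_lit 139)) (XT.lf (nat_lit 0) (nat_lit 790823310864) (nat_lit 152) (nat_lit 615917430792) (nat_lit 0) (nat_lit 722375980868) (nat_lit 1) (nat_lit 5) (nat_lit 3) (nat_lit 4) (nat_lit 1) (nat_lit 4) (nat_lit 252) (nat_lit 210) (nat_lit 138)))) (XT.nd (nat_lit 156) (nat_lit 0) (nat_lit 0) (XT.nd (nat_lit 78) (nat_lit 0) (nat_lit 0) (XT.lf (nat_lit 0) (nat_lit 934469971985) (nat_lit 152) (nat_lit 645064427985) (nat_lit 0) (nat_lit 866022261340) (nat_lit 1) (nat_lit 5) (nat_lit 3) (nat_lit 4) (nat_lit 1) (nat_lit 4) (nat_lit 253) (nat_lit 210) (nat_lit 137)) (XT.lf (nat_lit 0) (nat_lit 1099663265401) (nat_lit 152) (nat_lit 678584132190) (nat_lit 0) (nat_lit 1031215223757) (nat_lit 1) (nat_lit 5) (nat_lit 3) (nat_lit 4) (nat_lit 1) (nat_lit 4) (nat_lit 254) (nat_lit 210) (nat_lit 136))) (XT.nd (nat_lit 78) (nat_lit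 0) (nat_lit 0) (XT.lf (nat_lit 0) (nat_lit 1289635233809) (nat_lit 152) (nat_lit 717132363706) (nat_lit 0) (nat_lit 1221186904341) (nat_lit 1) (nat_lit 5) (nat_lit 3) (nat_lit 4) (nat_lit 1) (nat_lit 4) (nat_lit 255) (nat_lit 210) (nat_lit 135)) (XT.lf (nat_lit 0) (nat_lit 1508102720071) (nat_lit 152) (nat_lit 761463327062) (nat_lit 0) (nat_lit 1439654140320) (nat_lit 1) (nat_lit 5) (nat_lit 3) (nat_lit 4) (nat_lit 1) (nat_lit 4) (nat_lit 256) (nat_lit 210) (nat_lit 134))))) (XT.nd (nat_lit 312) (nat_lit 608) (nat_lit 0) (XT.nd (nat_lit 156) (nat_lit 0) (nat_lit 76) (XT.nd (nat_lit 78) (nat_lit 0) (nat_lit 76) (XT.lf (nat_lit 0) (nat_lit 129208859) (nat_lit 532) (nat_lit 4760688274) (nat_lit 532) (nat_lit 4760688274) (nat_lit 27) (nat_lit 3) (nat_lit 34) (nat_lit 3) (nat_lit 34) (nat_lit 5) (nat_lit 211) (nat_lit 211) (nat_lit 178)) (XT.lf (nat_lit 0) (nat_lit 780876876) (nat_lit 456)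 (nat_lit 15785487882) (nat_lit 532) (nat_lit 4139928157) (nat_lit 28) (nat_lit 5) (nat_lit 34) (nat_lit 5) (nat_lit 35) (nat_lit 5) (nat_lit 212) (nat_lit 211) (nat_lit 177))) (XT.nd (nat_lit 78) (nat_lit 0) (nat_lit 76) (XT.lf (nat_lit 0) (nat_lit 1887081632) (nat_lit 456) (nat_lit 504978431) (nat_lit 532) (nat_lit 19890088315) (nat_lit 28) (nat_lit 5) (nat_lit 34) (nat_lit 5) (nat_lit 35) (nat_lit 5) (nat_lit 213) (nat_lit 211) (nat_lit 176)) (XT.lf (nat_lit 0) (nat_lit 3893565863) (nat_lit 456) (nat_lit 6473723562) (nat_lit 532) (nat_lit 13668688478) (nat_lit 29) (nat_lit 5) (nat_lit 35) (nat_lit 5) (nat_lit 36) (nat_lit 5) (nat_lit 214) (nat_lit 211) (nat_lit 175)))) (XT.nd (nat_lit 156) (nat_lit 380) (nat_lit 0) (XT.nd (nat_lit 78) (nat_lit 456) (nat_lit 0) (XT.lf (nat_lit 0) (nat_lit 6705678751) (nat_lit 456) (nat_lit 13311296970) (nat_lit 76) (nat_lit 5995832470) (nat_lit 30)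 (nat_lit 5) (nat_lit 36) (nat_lit 5) (nat_lit 31) (nat_lit 5) (nat_lit 215) (nat_lit 211) (nat_lit 174)) (XT.lf (nat_lit 0) (nat_lit 6896766405) (nat_lit 456) (nat_lit 3655433647) (nat_lit 532) (nat_lit 17685215496) (nat_lit 24) (nat_lit 5) (nat_lit 30) (nat_lit 5) (nat_lit 31) (nat_lit 5) (nat_lit 216) (nat_lit 211) (nat_lit 173))) (XT.nd (nat_lit 78) (nat_lit 380) (nat_lit 0) (XT.lf (nat_lit 0) (nat_lit 15708257462) (nat_lit 532) (nat_lit 227890241) (nat_lit 76) (nat_lit 14801187623) (nat_lit 24) (nat_lit 5) (nat_lit 31) (nat_lit 5) (nat_lit 25) (nat_lit 5) (nat_lit 217) (nat_lit 211) (nat_lit 172)) (XT.nd (nat_lit 78) (nat_lit 152) (nat_lit 0) (XT.lf (nat_lit 0) (nat_lit 22387611902) (nat_lit 304) (nat_lit 8443029551) (nat_lit 76) (nat_lit 2721807022) (nat_lit 21) (nat_lit 5) (nat_lit 25) (nat_lit 5) (nat_lit 22) (nat_lit 5) (nat_lit 218) (nat_lit 211) (nat_lit 171)) (XT.lf (nat_lit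 0) (nat_lit 17899963283) (nat_lit 152) (nat_lit 13023916476) (nat_lit 228) (nat_lit 5797718868) (nat_lit 19) (nat_lit 5) (nat_lit 21) (nat_lit 5) (nat_lit 22) (nat_lit 5) (nat_lit 219) (nat_lit 211) (nat_lit 170))))))) (XT.nd (nat_lit 702) (nat_lit 304) (nat_lit 0) (XT.nd (nat_lit 312) (nat_lit 380) (nat_lit 0) (XT.nd (nat_lit 156) (nat_lit 304) (nat_lit 0) (XT.nd (nat_lit 78) (nat_lit 0) (nat_lit 0) (XT.lf (nat_lit 0) (nat_lit 988645552) (nat_lit 228) (nat_lit 31765155434) (nat_lit 76) (nat_lit 7561104491) (nat_lit 16) (nat_lit 5) (nat_lit 19) (nat_lit 5) (nat_lit 17) (nat_lit 5) (nat_lit 220) (nat_lit 211) (nat_lit 169)) (XT.lf (nat_lit 0) (nat_lit 9362671142) (nat_lit 228) (nat_lit 3796328464) (nat_lit 76) (nat_lit 31203241466) (nat_lit 16) (nat_lit 5) (nat_lit 19) (nat_lit 5) (nat_lit 17) (nat_lit 5) (nat_lit 221) (nat_lit 211) (nat_lit 168))) (XT.nd (nat_lit 78) (nat_lit 152) (nat_lit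 0) (XT.lf (nat_lit 0) (nat_lit 19937742592) (nat_lit 228) (nat_lit 19365765945) (nat_lit 76) (nat_lit 9637677123) (nat_lit 14) (nat_lit 5) (nat_lit 17) (nat_lit 5) (nat_lit 15) (nat_lit 5) (nat_lit 222) (nat_lit 211) (nat_lit 167)) (XT.lf (nat_lit 0) (nat_lit 14312965259) (nat_lit 152) (nat_lit 18592588409) (nat_lit 228) (nat_lit 21236990405) (nat_lit 12) (nat_lit 5) (nat_lit 14) (nat_lit 5) (nat_lit 15) (nat_lit 5) (nat_lit 223) (nat_lit 211) (nat_lit 166)))) (XT.nd (nat_lit 156) (nat_lit 228) (nat_lit 0) (XT.nd (nat_lit 78) (nat_lit 152) (nat_lit 0) (XT.lf (nat_lit 0) (nat_lit 48508939068) (nat_lit 228) (nat_lit 6023235783) (nat_lit 76) (nat_lit 5536777834) (nat_lit 12) (nat_lit 5) (nat_lit 15) (nat_lit 5) (nat_lit 13) (nat_lit 4) (nat_lit 224) (nat_lit 211) (nat_lit 165)) (XT.lf (nat_lit 0) (nat_lit 944914620) (nat_lit 152) (nat_lit 32778334609) (nat_lit 76) (nat_lit 33053581271)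 (nat_lit 10) (nat_lit 5) (nat_lit 12) (nat_lit 5) (nat_lit 11) (nat_lit 5) (nat_lit 225) (nat_lit 211) (nat_lit 164))) (XT.nd (nat_lit 78) (nat_lit 76) (nat_lit 0) (XT.lf (nat_lit 0) (nat_lit 5863734753) (nat_lit 152) (nat_lit 9106671450) (nat_lit 228) (nat_lit 59470173570) (nat_lit 8) (nat_lit 5) (nat_lit 10) (nat_lit 5) (nat_lit 11) (nat_lit 5) (nat_lit 226) (nat_lit 211) (nat_lit 163)) (XT.nd (nat_lit 78) (nat_lit 76) (nat_lit 0) (XT.lf (nat_lit 0) (nat_lit 32530492316) (nat_lit 228) (nat_lit 31393082530) (nat_lit 76) (nat_lit 19215902812) (nat_lit 8) (nat_lit 5) (nat_lit 11) (nat_lit 5) (nat_lit 9) (nat_lit 4) (nat_lit 227) (nat_lit 211) (nat_lit 162)) (XT.lf (nat_lit 0) (nat_lit 11687098150) (nat_lit 76) (nat_lit 41561618522) (nat_lit 152) (nat_lit 39852605164) (nat_lit 7) (nat_lit 5) (nat_lit 8) (nat_lit 5) (nat_lit 9) (nat_lit 4) (nat_lit 228) (nat_lit 211) (nat_lit 161))))))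 (XT.nd (nat_lit 312) (nat_lit 152) (nat_lit 0) (XT.nd (nat_lit 156) (nat_lit 76) (nat_lit 0) (XT.nd (nat_lit 78) (nat_lit 76) (nat_lit 0) (XT.lf (nat_lit 0) (nat_lit 63117639254) (nat_lit 76) (nat_lit 14863037389) (nat_lit 152) (nat_lit 26504322049) (nat_lit 7) (nat_lit 5) (nat_lit 8) (nat_lit 5) (nat_lit 9) (nat_lit 4) (nat_lit 229) (nat_lit 211) (nat_lit 160)) (XT.lf (nat_lit 0) (nat_lit 4520127484) (nat_lit 76) (nat_lit 102384939249) (nat_lit 76) (nat_lit 10632580937) (nat_lit 6) (nat_lit 4) (nat_lit 7) (nat_lit 5) (nat_lit 7) (nat_lit 4) (nat_lit 230) (nat_lit 211) (nat_lit 159))) (XT.nd (nat_lit 78) (nat_lit 0) (nat_lit 0) (XT.lf (nat_lit 0) (nat_lit 8878903291) (nat_lit 152) (nat_lit 73292595997) (nat_lit 76) (nat_lit 50230846410) (nat_lit 5) (nat_lit 5) (nat_lit 7) (nat_lit 5) (nat_lit 6) (nat_lit 4) (nat_lit 231) (nat_lit 211) (nat_lit 158)) (XT.lf (nat_lit 0) (nat_lit 30699736601)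 (nat_lit 152) (nat_lit 27912529262) (nat_lit 76) (nat_lit 90861435425) (nat_lit 5) (nat_lit 5) (nat_lit 7) (nat_lit 5) (nat_lit 6) (nat_lit 4) (nat_lit 232) (nat_lit 211) (nat_lit 157)))) (XT.nd (nat_lit 156) (nat_lit 76) (nat_lit 0) (XT.nd (nat_lit 78) (nat_lit 0) (nat_lit 0) (XT.lf (nat_lit 0) (nat_lit 25544083213) (nat_lit 76) (nat_lit 30858985703) (nat_lit 152) (nat_lit 112653960549) (nat_lit 4) (nat_lit 5) (nat_lit 5) (nat_lit 5) (nat_lit 6) (nat_lit 4) (nat_lit 233) (nat_lit 211) (nat_lit 156)) (XT.lf (nat_lit 0) (nat_lit 86816508576) (nat_lit 152) (nat_lit 102857779164) (nat_lit 0) (nat_lit 1835217197) (nat_lit 4) (nat_lit 5) (nat_lit 6) (nat_lit 4) (nat_lit 4) (nat_lit 4) (nat_lit 234) (nat_lit 211) (nat_lit 155))) (XT.nd (nat_lit 78) (nat_lit 76) (nat_lit 0) (XT.lf (nat_lit 0) (nat_lit 122641472528) (nat_lit 152) (nat_lit 56964675833) (nat_lit 0) (nat_lit 37655757192) (nat_lit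 4) (nat_lit 5) (nat_lit 6) (nat_lit 4) (nat_lit 4) (nat_lit 4) (nat_lit 235) (nat_lit 211) (nat_lit 154)) (XT.nd (nat_lit 78) (nat_lit 76) (nat_lit 0) (XT.lf (nat_lit 0) (nat_lit 163836724634) (nat_lit 152) (nat_lit 4193568371) (nat_lit 0) (nat_lit 78847162377) (nat_lit 4) (nat_lit 5) (nat_lit 6) (nat_lit 4) (nat_lit 4) (nat_lit 4) (nat_lit 236) (nat_lit 211) (nat_lit 153)) (XT.lf (nat_lit 0) (nat_lit 59462580515) (nat_lit 76) (nat_lit 153175754931) (nat_lit 76) (nat_lit 68182847527) (nat_lit 3) (nat_lit 4) (nat_lit 4) (nat_lit 5) (nat_lit 4) (nat_lit 4) (nat_lit 237) (nat_lit 211) (nat_lit 152))))))))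
noncomputable def xc41 : XT := (XT.nd (nat_lit 1326) (nat_lit 0) (nat_lit 0) (XT.nd (nat_lit 624) (nat_lit 0) (nat_lit 0) (XT.nd (nat_lit 312) (nat_lit 76) (nat_lit 0) (XT.nd (nat_lit 156) (nat_lit 76) (nat_lit 0) (XT.nd (nat_lit 78) (nat_lit 0) (nat_lit 0) (XT.lf (nat_lit 0) (nat_lit 132916356481) (nat_lit 76) (nat_lit 135963194948) (nat_lit 76) (nat_lit 50967378719) (nat_lit 3) (nat_lit 4) (nat_lit 4) (nat_lit 5) (nat_lit 4) (nat_lit 4) (nat_lit 238) (nat_lit 211) (nat_lit 151)) (XT.lf (nat_lit 0) (nat_lit 217384072742) (nat_lit 76) (nat_lit 116170505169) (nat_lit 76) (nat_lit 31172159528) (nat_lit 3) (nat_lit 4) (nat_lit 4) (nat_lit 5) (nat_lit 4) (nat_lit 4) (nat_lit 239) (nat_lit 211) (nat_lit 150))) (XT.nd (nat_lit 78) (nat_lit 76) (nat_lit 0) (XT.lf (nat_lit 0) (nat_lit 314518358530) (nat_lit 76) (nat_lit 93410437315) (nat_lit 76) (nat_lit 8409892186) (nat_lit 3) (nat_lit 4) (nat_lit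 4) (nat_lit 5) (nat_lit 4) (nat_lit 4) (nat_lit 240) (nat_lit 211) (nat_lit 149)) (XT.lf (nat_lit 0) (nat_lit 16876106171) (nat_lit 152) (nat_lit 49900156891) (nat_lit 76) (nat_lit 408882138439) (nat_lit 2) (nat_lit 5) (nat_lit 4) (nat_lit 5) (nat_lit 3) (nat_lit 4) (nat_lit 241) (nat_lit 211) (nat_lit 148)))) (XT.nd (nat_lit 156) (nat_lit 0) (nat_lit 0) (XT.nd (nat_lit 78) (nat_lit 0) (nat_lit 0) (XT.lf (nat_lit 0) (nat_lit 10076720609) (nat_lit 76) (nat_lit 35635222404) (nat_lit 152) (nat_lit 498126267070) (nat_lit 1) (nat_lit 5) (nat_lit 2) (nat_lit 5) (nat_lit 3) (nat_lit 4) (nat_lit 242) (nat_lit 211) (nat_lit 147)) (XT.lf (nat_lit 0) (nat_lit 80366451581) (nat_lit 152) (nat_lit 540101485866) (nat_lit 0) (nat_lit 1657593193) (nat_lit 1) (nat_lit 5) (nat_lit 3) (nat_lit 4) (nat_lit 1) (nat_lit 4) (nat_lit 243) (nat_lit 211) (nat_lit 146))) (XT.nd (nat_lit 78) (nat_lit 0) (nat_lit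 0) (XT.lf (nat_lit 0) (nat_lit 121203427971) (nat_lit 152) (nat_lit 548380376632) (nat_lit 0) (nat_lit 42493405172) (nat_lit 1) (nat_lit 5) (nat_lit 3) (nat_lit 4) (nat_lit 1) (nat_lit 4) (nat_lit 244) (nat_lit 211) (nat_lit 145)) (XT.lf (nat_lit 0) (nat_lit 168164828548) (nat_lit 152) (nat_lit 557903112113) (nat_lit 0) (nat_lit 89453793216) (nat_lit 1) (nat_lit 5) (nat_lit 3) (nat_lit 4) (nat_lit 1) (nat_lit 4) (nat_lit 245) (nat_lit 211) (nat_lit 144))))) (XT.nd (nat_lit 312) (nat_lit 0) (nat_lit 0) (XT.nd (nat_lit 156) (nat_lit 0) (nat_lit 0) (XT.nd (nat_lit 78) (nat_lit 0) (nat_lit 0) (XT.lf (nat_lit 0) (nat_lit 222169463323) (nat_lit 152) (nat_lit 568856006699) (nat_lit 0) (nat_lit 143457547529) (nat_lit 1) (nat_lit 5) (nat_lit 3) (nat_lit 4) (nat_lit 1) (nat_lit 4) (nat_lit 246) (nat_lit 211) (nat_lit 143)) (XT.lf (nat_lit 0) (nat_lit 284273944716) (nat_lit 152) (nat_lit 581453356154)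 (nat_lit 0) (nat_lit 205561263302) (nat_lit 1) (nat_lit 5) (nat_lit 3) (nat_lit 4) (nat_lit 1) (nat_lit 4) (nat_lit 247) (nat_lit 211) (nat_lit 142))) (XT.nd (nat_lit 78) (nat_lit 0) (nat_lit 0) (XT.lf (nat_lit 0) (nat_lit 355693360406) (nat_lit 152) (nat_lit 595941630358) (nat_lit 0) (nat_lit 276980013236) (nat_lit 1) (nat_lit 5) (nat_lit 3) (nat_lit 4) (nat_lit 1) (nat_lit 4) (nat_lit 248) (nat_lit 211) (nat_lit 141)) (XT.lf (nat_lit 0) (nat_lit 437825046788) (nat_lit 152) (nat_lit 612604295546) (nat_lit 0) (nat_lit 359111120699) (nat_lit 1) (nat_lit 5) (nat_lit 3) (nat_lit 4) (nat_lit 1) (nat_lit 4) (nat_lit 249) (nat_lit 211) (nat_lit 140)))) (XT.nd (nat_lit 156) (nat_lit 0) (nat_lit 0) (XT.nd (nat_lit 78) (nat_lit 0) (nat_lit 0) (XT.lf (nat_lit 0) (nat_lit 532275928159) (nat_lit 152) (nat_lit 631767360385) (nat_lit 0) (nat_lit 453561498663) (nat_lit 1) (nat_lit 5) (nat_lit 3) (nat_lit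 4) (nat_lit 1) (nat_lit 4) (nat_lit 250) (nat_lit 211) (nat_lit 139)) (XT.lf (nat_lit 0) (nat_lit 640893956548) (nat_lit 152) (nat_lit 653805754403) (nat_lit 0) (nat_lit 562179089306) (nat_lit 1) (nat_lit 5) (nat_lit 3) (nat_lit 4) (nat_lit 1) (nat_lit 4) (nat_lit 251) (nat_lit 211) (nat_lit 138))) (XT.nd (nat_lit 78) (nat_lit 0) (nat_lit 0) (XT.lf (nat_lit 0) (nat_lit 765804267291) (nat_lit 152) (nat_lit 679150663571) (nat_lit 0) (nat_lit 687089019401) (nat_lit 1) (nat_lit 5) (nat_lit 3) (nat_lit 4) (nat_lit 1) (nat_lit 4) (nat_lit 252) (nat_lit 211) (nat_lit 137)) (XT.nd (nat_lit 78) (nat_lit 0) (nat_lit 0) (XT.lf (nat_lit 0) (nat_lit 909450757773) (nat_lit 152) (nat_lit 708297966547) (nat_lit 0) (nat_lit 830735178884) (nat_lit 1) (nat_lit 5) (nat_lit 3) (nat_lit 4) (nat_lit 1) (nat_lit 4) (nat_lit 253) (nat_lit 211) (nat_lit 136)) (XT.lf (nat_lit 0) (nat_lit 1074643902808) (nat_lit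 152) (nat_lit 741817936650) (nat_lit 0) (nat_lit 995928036094) (nat_lit 1) (nat_lit 5) (nat_lit 3) (nat_lit 4) (nat_lit 1) (nat_lit 4) (nat_lit 254) (nat_lit 211) (nat_lit 135))))))) (XT.nd (nat_lit 28470) (nat_lit 0) (nat_lit 532) (XT.nd (nat_lit 28080) (nat_lit 0) (nat_lit 1748) (XT.nd (nat_lit 27924) (nat_lit 0) (nat_lit 1976) (XT.nd (nat_lit 78) (nat_lit 0) (nat_lit 0) (XT.lf (nat_lit 0) (nat_lit 1264615742189) (nat_lit 152) (nat_lit 780366399381) (nat_lit 0) (nat_lit 1185899625193) (nat_lit 1) (nat_lit 5) (nat_lit 3) (nat_lit 4) (nat_lit 1) (nat_lit 4) (nat_lit 255) (nat_lit 211) (nat_lit 134)) (XT.lf (nat_lit 0) (nat_lit 1483083116253) (nat_lit 152) (nat_lit 824697563794) (nat_lit 0) (nat_lit 1404366781621) (nat_lit 1) (nat_lit 5) (nat_lit 3) (nat_lit 4) (nat_lit 1) (nat_lit 4) (nat_lit 256) (nat_lit 211) (nat_lit 133))) (XT.nd (nat_lit 78) (nat_lit 0) (nat_lit 76) (XT.lf (nat_lit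 0) (nat_lit 414313602) (nat_lit 532) (nat_lit 5330237080) (nat_lit 532) (nat_lit 5330237080) (nat_lit 27) (nat_lit 3) (nat_lit 34) (nat_lit 3) (nat_lit 34) (nat_lit 5) (nat_lit 212) (nat_lit 212) (nat_lit 176)) (XT.lf (nat_lit 0) (nat_lit 1361597900) (nat_lit 456) (nat_lit 17842591583) (nat_lit 532) (nat_lit 4567260066) (nat_lit 28) (nat_lit 5) (nat_lit 34) (nat_lit 5) (nat_lit 35) (nat_lit 5) (nat_lit 213) (nat_lit 212) (nat_lit 175)))) (XT.nd (nat_lit 156) (nat_lit 304) (nat_lit 0) (XT.nd (nat_lit 78) (nat_lit 0) (nat_lit 76) (XT.lf (nat_lit 0) (nat_lit 2573265175) (nat_lit 456) (nat_lit 310534342) (nat_lit 532) (nat_lit 22705203898) (nat_lit 28) (nat_lit 5) (nat_lit 34) (nat_lit 5) (nat_lit 35) (nat_lit 5) (nat_lit 214) (nat_lit 212) (nat_lit 174)) (XT.lf (nat_lit 0) (nat_lit 4831463579) (nat_lit 456) (nat_lit 7163519159) (nat_lit 532) (nat_lit 15615284983) (nat_lit 29) (nat_lit 5)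 (nat_lit 35) (nat_lit 5) (nat_lit 36) (nat_lit 5) (nat_lit 215) (nat_lit 212) (nat_lit 173))) (XT.nd (nat_lit 78) (nat_lit 456) (nat_lit 0) (XT.lf (nat_lit 0) (nat_lit 8024071727) (nat_lit 456) (nat_lit 15021633831) (nat_lit 76) (nat_lit 6841587664) (nat_lit 30) (nat_lit 5) (nat_lit 36) (nat_lit 5) (nat_lit 31) (nat_lit 5) (nat_lit 216) (nat_lit 212) (nat_lit 172)) (XT.nd (nat_lit 78) (nat_lit 0) (nat_lit 0) (XT.lf (nat_lit 0) (nat_lit 8193400299) (nat_lit 456) (nat_lit 4219708652) (nat_lit 532) (nat_lit 20035557049) (nat_lit 24) (nat_lit 5) (nat_lit 30) (nat_lit 5) (nat_lit 31) (nat_lit 5) (nat_lit 217) (nat_lit 212) (nat_lit 171)) (XT.lf (nat_lit 0) (nat_lit 18305970041) (nat_lit 532) (nat_lit 12626254) (nat_lit 76) (nat_lit 17008181787) (nat_lit 24) (nat_lit 5) (nat_lit 31) (nat_lit 5) (nat_lit 25) (nat_lit 5) (nat_lit 218) (nat_lit 212) (nat_lit 170)))))) (XT.nd (nat_lit 312) (nat_lit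 608) (nat_lit 0) (XT.nd (nat_lit 156) (nat_lit 228) (nat_lit 0) (XT.nd (nat_lit 78) (nat_lit 152) (nat_lit 0) (XT.lf (nat_lit 0) (nat_lit 25961531844) (nat_lit 304) (nat_lit 9462623161) (nat_lit 76) (nat_lit 3142298814) (nat_lit 21) (nat_lit 5) (nat_lit 25) (nat_lit 5) (nat_lit 22) (nat_lit 5) (nat_lit 219) (nat_lit 212) (nat_lit 169)) (XT.lf (nat_lit 0) (nat_lit 20810923059) (nat_lit 152) (nat_lit 14944606315) (nat_lit 228) (nat_lit 6457472614) (nat_lit 19) (nat_lit 5) (nat_lit 21) (nat_lit 5) (nat_lit 22) (nat_lit 5) (nat_lit 220) (nat_lit 212) (nat_lit 168))) (XT.nd (nat_lit 78) (nat_lit 0) (nat_lit 0) (XT.lf (nat_lit 0) (nat_lit 1316508957) (nat_lit 228) (nat_lit 36297827565) (nat_lit 76) (nat_lit 8732319465) (nat_lit 16) (nat_lit 5) (nat_lit 19) (nat_lit 5) (nat_lit 17) (nat_lit 5) (nat_lit 221) (nat_lit 212) (nat_lit 167)) (XT.lf (nat_lit 0) (nat_lit 10923216659) (nat_lit 228)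 (nat_lit 4163950618) (nat_lit 76) (nat_lit 35915944469) (nat_lit 16) (nat_lit 5) (nat_lit 19) (nat_lit 5) (nat_lit 17) (nat_lit 5) (nat_lit 222) (nat_lit 212) (nat_lit 166)))) (XT.nd (nat_lit 156) (nat_lit 304) (nat_lit 0) (XT.nd (nat_lit 78) (nat_lit 152) (nat_lit 0) (XT.lf (nat_lit 0) (nat_lit 23069695953) (nat_lit 228) (nat_lit 22074893575) (nat_lit 76) (nat_lit 11125623754) (nat_lit 14) (nat_lit 5) (nat_lit 17) (nat_lit 5) (nat_lit 15) (nat_lit 5) (nat_lit 223) (nat_lit 212) (nat_lit 165)) (XT.lf (nat_lit 0) (nat_lit 16639079125) (nat_lit 152) (nat_lit 21329479198) (nat_lit 228) (nat_lit 24284457224) (nat_lit 12) (nat_lit 5) (nat_lit 14) (nat_lit 5) (nat_lit 15) (nat_lit 5) (nat_lit 224) (nat_lit 212) (nat_lit 164))) (XT.nd (nat_lit 78) (nat_lit 304) (nat_lit 0) (XT.lf (nat_lit 0) (nat_lit 55896951359) (nat_lit 228) (nat_lit 6762522304) (nat_lit 76) (nat_lit 6410247855) (nat_lit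 12) (nat_lit 5) (nat_lit 15) (nat_lit 5) (nat_lit 13) (nat_lit 4) (nat_lit 225) (nat_lit 212) (nat_lit 163)) (XT.nd (nat_lit 78) (nat_lit 152) (nat_lit 0) (XT.lf (nat_lit 0) (nat_lit 1190517217) (nat_lit 152) (nat_lit 37538799617) (nat_lit 76) (nat_lit 38055213425) (nat_lit 10) (nat_lit 5) (nat_lit 12) (nat_lit 5) (nat_lit 11) (nat_lit 5) (nat_lit 226) (nat_lit 212) (nat_lit 162)) (XT.lf (nat_lit 0) (nat_lit 6886351387) (nat_lit 152) (nat_lit 10423374000) (nat_lit 228) (nat_lit 68288992359) (nat_lit 8) (nat_lit 5) (nat_lit 10) (nat_lit 5) (nat_lit 11) (nat_lit 5) (nat_lit 227) (nat_lit 212) (nat_lit 161))))))))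
noncomputable def xc42 : XT := (XT.nd (nat_lit 1326) (nat_lit 0) (nat_lit 0) (XT.nd (nat_lit 624) (nat_lit 228) (nat_lit 0) (XT.nd (nat_lit 312) (nat_lit 152) (nat_lit 0) (XT.nd (nat_lit 156) (nat_lit 76) (nat_lit 0) (XT.nd (nat_lit 78) (nat_lit 76) (nat_lit 0) (XT.lf (nat_lit 0) (nat_lit 37492626055) (nat_lit 228) (nat_lit 35971766828) (nat_lit 76) (nat_lit 22139011777) (nat_lit 8) (nat_lit 5) (nat_lit 11) (nat_lit 5) (nat_lit 9) (nat_lit 4) (nat_lit 228) (nat_lit 212) (nat_lit 160)) (XT.lf (nat_lit 0) (nat_lit 13559413563) (nat_lit 76) (nat_lit 47751269802) (nat_lit 152) (nat_lit 45749525007) (nat_lit 7) (nat_lit 5) (nat_lit 8) (nat_lit 5) (nat_lit 9) (nat_lit 4) (nat_lit 229) (nat_lit 212) (nat_lit 159))) (XT.nd (nat_lit 78) (nat_lit 76) (nat_lit 0) (XT.lf (nat_lit 0) (nat_lit 72688981394) (nat_lit 76) (nat_lit 17053717781) (nat_lit 152) (nat_lit 30409560851) (nat_lit 7) (nat_lit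 5) (nat_lit 8) (nat_lit 5) (nat_lit 9) (nat_lit 4) (nat_lit 230) (nat_lit 212) (nat_lit 158)) (XT.lf (nat_lit 0) (nat_lit 5297235776) (nat_lit 76) (nat_lit 117703238048) (nat_lit 76) (nat_lit 12162792894) (nat_lit 6) (nat_lit 4) (nat_lit 7) (nat_lit 5) (nat_lit 7) (nat_lit 4) (nat_lit 231) (nat_lit 212) (nat_lit 157)))) (XT.nd (nat_lit 156) (nat_lit 76) (nat_lit 0) (XT.nd (nat_lit 78) (nat_lit 0) (nat_lit 0) (XT.lf (nat_lit 0) (nat_lit 10264164758) (nat_lit 152) (nat_lit 84197301195) (nat_lit 76) (nat_lit 57796751133) (nat_lit 5) (nat_lit 5) (nat_lit 7) (nat_lit 5) (nat_lit 6) (nat_lit 4) (nat_lit 232) (nat_lit 212) (nat_lit 156)) (XT.lf (nat_lit 0) (nat_lit 35351154459) (nat_lit 152) (nat_lit 32021857171) (nat_lit 76) (nat_lit 104517848793) (nat_lit 5) (nat_lit 5) (nat_lit 7) (nat_lit 5) (nat_lit 6) (nat_lit 4) (nat_lit 233) (nat_lit 212) (nat_lit 155))) (XT.nd (nat_lit 78) (nat_lit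 0) (nat_lit 0) (XT.lf (nat_lit 0) (nat_lit 29446682828) (nat_lit 76) (nat_lit 35458951378) (nat_lit 152) (nat_lit 129506425222) (nat_lit 4) (nat_lit 5) (nat_lit 5) (nat_lit 5) (nat_lit 6) (nat_lit 4) (nat_lit 234) (nat_lit 212) (nat_lit 154)) (XT.lf (nat_lit 0) (nat_lit 99876201880) (nat_lit 152) (nat_lit 118222257366) (nat_lit 0) (nat_lit 2134358365) (nat_lit 4) (nat_lit 5) (nat_lit 6) (nat_lit 4) (nat_lit 4) (nat_lit 4) (nat_lit 235) (nat_lit 212) (nat_lit 153))))) (XT.nd (nat_lit 312) (nat_lit 152) (nat_lit 0) (XT.nd (nat_lit 156) (nat_lit 76) (nat_lit 0) (XT.nd (nat_lit 78) (nat_lit 0) (nat_lit 0) (XT.lf (nat_lit 0) (nat_lit 141070056032) (nat_lit 152) (nat_lit 65453560972) (nat_lit 0) (nat_lit 43324867369) (nat_lit 4) (nat_lit 5) (nat_lit 6) (nat_lit 4) (nat_lit 4) (nat_lit 4) (nat_lit 236) (nat_lit 212) (nat_lit 152)) (XT.lf (nat_lit 0) (nat_lit 188440374741) (nat_lit 152) (nat_lit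 4774067768) (nat_lit 0) (nat_lit 90692277254) (nat_lit 4) (nat_lit 5) (nat_lit 6) (nat_lit 4) (nat_lit 4) (nat_lit 4) (nat_lit 237) (nat_lit 212) (nat_lit 151))) (XT.nd (nat_lit 78) (nat_lit 0) (nat_lit 0) (XT.lf (nat_lit 0) (nat_lit 68426395132) (nat_lit 76) (nat_lit 176133229908) (nat_lit 76) (nat_lit 78382603009) (nat_lit 3) (nat_lit 4) (nat_lit 4) (nat_lit 5) (nat_lit 4) (nat_lit 4) (nat_lit 238) (nat_lit 212) (nat_lit 150)) (XT.lf (nat_lit 0) (nat_lit 152892442596) (nat_lit 76) (nat_lit 156341249614) (nat_lit 76) (nat_lit 58588423226) (nat_lit 3) (nat_lit 4) (nat_lit 4) (nat_lit 5) (nat_lit 4) (nat_lit 4) (nat_lit 239) (nat_lit 212) (nat_lit 149)))) (XT.nd (nat_lit 156) (nat_lit 152) (nat_lit 0) (XT.nd (nat_lit 78) (nat_lit 0) (nat_lit 0) (XT.lf (nat_lit 0) (nat_lit 250025277256) (nat_lit 76) (nat_lit 133581798704) (nat_lit 76) (nat_lit 35827059717) (nat_lit 3) (nat_lit 4) (nat_lit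 4) (nat_lit 5) (nat_lit 4) (nat_lit 4) (nat_lit 240) (nat_lit 212) (nat_lit 148)) (XT.lf (nat_lit 0) (nat_lit 361725324137) (nat_lit 76) (nat_lit 107409583573) (nat_lit 76) (nat_lit 9653181457) (nat_lit 3) (nat_lit 4) (nat_lit 4) (nat_lit 5) (nat_lit 4) (nat_lit 4) (nat_lit 241) (nat_lit 212) (nat_lit 147))) (XT.nd (nat_lit 78) (nat_lit 76) (nat_lit 0) (XT.lf (nat_lit 0) (nat_lit 19422552003) (nat_lit 152) (nat_lit 57358940149) (nat_lit 76) (nat_lit 470224419945) (nat_lit 2) (nat_lit 5) (nat_lit 4) (nat_lit 5) (nat_lit 3) (nat_lit 4) (nat_lit 242) (nat_lit 212) (nat_lit 146)) (XT.nd (nat_lit 78) (nat_lit 0) (nat_lit 0) (XT.lf (nat_lit 0) (nat_lit 11612247867) (nat_lit 76) (nat_lit 40970133742) (nat_lit 152) (nat_lit 572830427138) (nat_lit 1) (nat_lit 5) (nat_lit 2) (nat_lit 5) (nat_lit 3) (nat_lit 4) (nat_lit 243) (nat_lit 212) (nat_lit 145)) (XT.lf (nat_lit 0) (nat_lit 92433503311)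 (nat_lit 152) (nat_lit 621095054340) (nat_lit 0) (nat_lit 1914800148) (nat_lit 1) (nat_lit 5) (nat_lit 3) (nat_lit 4) (nat_lit 1) (nat_lit 4) (nat_lit 244) (nat_lit 212) (nat_lit 144))))))) (XT.nd (nat_lit 702) (nat_lit 0) (nat_lit 0) (XT.nd (nat_lit 312) (nat_lit 0) (nat_lit 0) (XT.nd (nat_lit 156) (nat_lit 0) (nat_lit 0) (XT.nd (nat_lit 78) (nat_lit 0) (nat_lit 0) (XT.lf (nat_lit 0) (nat_lit 139394449986) (nat_lit 152) (nat_lit 630618603208) (nat_lit 0) (nat_lit 48874866361) (nat_lit 1) (nat_lit 5) (nat_lit 3) (nat_lit 4) (nat_lit 1) (nat_lit 4) (nat_lit 245) (nat_lit 212) (nat_lit 143)) (XT.lf (nat_lit 0) (nat_lit 193398690065) (nat_lit 152) (nat_lit 641572205088) (nat_lit 0) (nat_lit 102878340819) (nat_lit 1) (nat_lit 5) (nat_lit 3) (nat_lit 4) (nat_lit 1) (nat_lit 4) (nat_lit 246) (nat_lit 212) (nat_lit 142))) (XT.nd (nat_lit 78) (nat_lit 0) (nat_lit 0) (XT.lf (nat_lit 0) (nat_lit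 255502828243) (nat_lit 152) (nat_lit 654170169580) (nat_lit 0) (nat_lit 164981813241) (nat_lit 1) (nat_lit 5) (nat_lit 3) (nat_lit 4) (nat_lit 1) (nat_lit 4) (nat_lit 247) (nat_lit 212) (nat_lit 141)) (XT.lf (nat_lit 0) (nat_lit 326921945486) (nat_lit 152) (nat_lit 668658978600) (nat_lit 0) (nat_lit 236400351565) (nat_lit 1) (nat_lit 5) (nat_lit 3) (nat_lit 4) (nat_lit 1) (nat_lit 4) (nat_lit 248) (nat_lit 212) (nat_lit 140)))) (XT.nd (nat_lit 156) (nat_lit 0) (nat_lit 0) (XT.nd (nat_lit 78) (nat_lit 0) (nat_lit 0) (XT.lf (nat_lit 0) (nat_lit 409053372348) (nat_lit 152) (nat_lit 685322108845) (nat_lit 0) (nat_lit 318531275020) (nat_lit 1) (nat_lit 5) (nat_lit 3) (nat_lit 4) (nat_lit 1) (nat_lit 4) (nat_lit 249) (nat_lit 212) (nat_lit 139)) (XT.lf (nat_lit 0) (nat_lit 503504028050) (nat_lit 152) (nat_lit 704485578081) (nat_lit 0) (nat_lit 412981492977) (nat_lit 1) (nat_lit 5) (nat_lit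 3) (nat_lit 4) (nat_lit 1) (nat_lit 4) (nat_lit 250) (nat_lit 212) (nat_lit 138))) (XT.nd (nat_lit 78) (nat_lit 0) (nat_lit 0) (XT.lf (nat_lit 0) (nat_lit 612121860204) (nat_lit 152) (nat_lit 726524323749) (nat_lit 0) (nat_lit 521598944482) (nat_lit 1) (nat_lit 5) (nat_lit 3) (nat_lit 4) (nat_lit 1) (nat_lit 4) (nat_lit 251) (nat_lit 212) (nat_lit 137)) (XT.nd (nat_lit 78) (nat_lit 0) (nat_lit 0) (XT.lf (nat_lit 0) (nat_lit 737032000309) (nat_lit 152) (nat_lit 751869538700) (nat_lit 0) (nat_lit 646508753588) (nat_lit 1) (nat_lit 5) (nat_lit 3) (nat_lit 4) (nat_lit 1) (nat_lit 4) (nat_lit 252) (nat_lit 212) (nat_lit 136)) (XT.lf (nat_lit 0) (nat_lit 880678342410) (nat_lit 152) (nat_lit 781017107573) (nat_lit 0) (nat_lit 790154807864) (nat_lit 1) (nat_lit 5) (nat_lit 3) (nat_lit 4) (nat_lit 1) (nat_lit 4) (nat_lit 253) (nat_lit 212) (nat_lit 135)))))) (XT.nd (nat_lit 28236) (nat_lit 0)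 (nat_lit 1520) (XT.nd (nat_lit 28080) (nat_lit 0) (nat_lit 1976) (XT.nd (nat_lit 78) (nat_lit 0) (nat_lit 0) (XT.lf (nat_lit 0) (nat_lit 1045871358417) (nat_lit 152) (nat_lit 814537308891) (nat_lit 0) (nat_lit 955347573590) (nat_lit 1) (nat_lit 5) (nat_lit 3) (nat_lit 4) (nat_lit 1) (nat_lit 4) (nat_lit 254) (nat_lit 212) (nat_lit 134)) (XT.lf (nat_lit 0) (nat_lit 1235843085601) (nat_lit 152) (nat_lit 853085972679) (nat_lit 0) (nat_lit 1145319083137) (nat_lit 1) (nat_lit 5) (nat_lit 3) (nat_lit 4) (nat_lit 1) (nat_lit 4) (nat_lit 255) (nat_lit 212) (nat_lit 133))) (XT.nd (nat_lit 78) (nat_lit 0) (nat_lit 76) (XT.lf (nat_lit 0) (nat_lit 677385720) (nat_lit 532) (nat_lit 6020468722) (nat_lit 532) (nat_lit 6020468722) (nat_lit 27) (nat_lit 3) (nat_lit 34) (nat_lit 3) (nat_lit 34) (nat_lit 5) (nat_lit 213) (nat_lit 213) (nat_lit 174)) (XT.lf (nat_lit 0) (nat_lit 1916377845) (nat_lit 456)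 (nat_lit 20284031752) (nat_lit 532) (nat_lit 5105916324) (nat_lit 28) (nat_lit 5) (nat_lit 34) (nat_lit 5) (nat_lit 35) (nat_lit 5) (nat_lit 214) (nat_lit 213) (nat_lit 173)))) (XT.nd (nat_lit 156) (nat_lit 532) (nat_lit 0) (XT.nd (nat_lit 78) (nat_lit 0) (nat_lit 76) (XT.lf (nat_lit 0) (nat_lit 3264072568) (nat_lit 456) (nat_lit 152811390) (nat_lit 532) (nat_lit 25983651655) (nat_lit 28) (nat_lit 5) (nat_lit 34) (nat_lit 5) (nat_lit 35) (nat_lit 5) (nat_lit 215) (nat_lit 213) (nat_lit 172)) (XT.lf (nat_lit 0) (nat_lit 5823754258) (nat_lit 456) (nat_lit 8025371843) (nat_lit 532) (nat_lit 17879160516) (nat_lit 29) (nat_lit 5) (nat_lit 35) (nat_lit 5) (nat_lit 36) (nat_lit 5) (nat_lit 216) (nat_lit 213) (nat_lit 171))) (XT.nd (nat_lit 78) (nat_lit 684) (nat_lit 0) (XT.lf (nat_lit 0) (nat_lit 9464008508) (nat_lit 456) (nat_lit 17058351355) (nat_lit 76) (nat_lit 7827281635) (nat_lit 30)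 (nat_lit 5) (nat_lit 36) (nat_lit 5) (nat_lit 31) (nat_lit 5) (nat_lit 217) (nat_lit 213) (nat_lit 170)) (XT.nd (nat_lit 78) (nat_lit 228) (nat_lit 0) (XT.lf (nat_lit 0) (nat_lit 9620609916) (nat_lit 456) (nat_lit 4864732971) (nat_lit 532) (nat_lit 22812201932) (nat_lit 24) (nat_lit 5) (nat_lit 30) (nat_lit 5) (nat_lit 31) (nat_lit 5) (nat_lit 218) (nat_lit 213) (nat_lit 169)) (XT.lf (nat_lit 0) (nat_lit 183265662) (nat_lit 228) (nat_lit 21055596434) (nat_lit 304) (nat_lit 19370581954) (nat_lit 21) (nat_lit 5) (nat_lit 24) (nat_lit 5) (nat_lit 25) (nat_lit 5) (nat_lit 219) (nat_lit 213) (nat_lit 168))))))))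
noncomputable def xc43 : XT := (XT.nd (nat_lit 1404) (nat_lit 228) (nat_lit 0) (XT.nd (nat_lit 702) (nat_lit 304) (nat_lit 0) (XT.nd (nat_lit 312) (nat_lit 608) (nat_lit 0) (XT.nd (nat_lit 156) (nat_lit 228) (nat_lit 0) (XT.nd (nat_lit 78) (nat_lit 152) (nat_lit 0) (XT.lf (nat_lit 0) (nat_lit 30018920908) (nat_lit 304) (nat_lit 10695354388) (nat_lit 76) (nat_lit 3622884270) (nat_lit 21) (nat_lit 5) (nat_lit 25) (nat_lit 5) (nat_lit 22) (nat_lit 5) (nat_lit 220) (nat_lit 213) (nat_lit 167)) (XT.lf (nat_lit 0) (nat_lit 24103423735) (nat_lit 152) (nat_lit 17161421926) (nat_lit 228) (nat_lit 7267375862) (nat_lit 19) (nat_lit 5) (nat_lit 21) (nat_lit 5) (nat_lit 22) (nat_lit 5) (nat_lit 221) (nat_lit 213) (nat_lit 166))) (XT.nd (nat_lit 78) (nat_lit 0) (nat_lit 0) (XT.lf (nat_lit 0) (nat_lit 1649763427) (nat_lit 228) (nat_lit 41566999860) (nat_lit 76) (nat_lit 10070181980) (nat_lit 16) (nat_lit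 5) (nat_lit 19) (nat_lit 5) (nat_lit 17) (nat_lit 5) (nat_lit 222) (nat_lit 213) (nat_lit 165)) (XT.lf (nat_lit 0) (nat_lit 12679767094) (nat_lit 228) (nat_lit 4635932914) (nat_lit 76) (nat_lit 41327696656) (nat_lit 16) (nat_lit 5) (nat_lit 19) (nat_lit 5) (nat_lit 17) (nat_lit 5) (nat_lit 223) (nat_lit 213) (nat_lit 164)))) (XT.nd (nat_lit 156) (nat_lit 304) (nat_lit 0) (XT.nd (nat_lit 78) (nat_lit 152) (nat_lit 0) (XT.lf (nat_lit 0) (nat_lit 26636987377) (nat_lit 228) (nat_lit 25238122121) (nat_lit 76) (nat_lit 12826448460) (nat_lit 14) (nat_lit 5) (nat_lit 17) (nat_lit 5) (nat_lit 15) (nat_lit 5) (nat_lit 224) (nat_lit 213) (nat_lit 163)) (XT.lf (nat_lit 0) (nat_lit 19270418557) (nat_lit 152) (nat_lit 24489583519) (nat_lit 228) (nat_lit 27822716173) (nat_lit 12) (nat_lit 5) (nat_lit 14) (nat_lit 5) (nat_lit 15) (nat_lit 5) (nat_lit 225) (nat_lit 213) (nat_lit 162))) (XT.nd (nat_lit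 78) (nat_lit 304) (nat_lit 0) (XT.lf (nat_lit 0) (nat_lit 64365933709) (nat_lit 228) (nat_lit 7652742732) (nat_lit 76) (nat_lit 7404263934) (nat_lit 12) (nat_lit 5) (nat_lit 15) (nat_lit 5) (nat_lit 13) (nat_lit 4) (nat_lit 226) (nat_lit 213) (nat_lit 161)) (XT.nd (nat_lit 78) (nat_lit 152) (nat_lit 0) (XT.lf (nat_lit 0) (nat_lit 1447631968) (nat_lit 152) (nat_lit 43051445508) (nat_lit 76) (nat_lit 43796459495) (nat_lit 10) (nat_lit 5) (nat_lit 12) (nat_lit 5) (nat_lit 11) (nat_lit 5) (nat_lit 227) (nat_lit 213) (nat_lit 160)) (XT.lf (nat_lit 0) (nat_lit 8027475303) (nat_lit 152) (nat_lit 11949603602) (nat_lit 228) (nat_lit 78455435922) (nat_lit 8) (nat_lit 5) (nat_lit 10) (nat_lit 5) (nat_lit 11) (nat_lit 5) (nat_lit 228) (nat_lit 213) (nat_lit 159)))))) (XT.nd (nat_lit 312) (nat_lit 152) (nat_lit 0) (XT.nd (nat_lit 156) (nat_lit 76) (nat_lit 0) (XT.nd (nat_lit 78) (nat_lit 76) (nat_lit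 0) (XT.lf (nat_lit 0) (nat_lit 43178947102) (nat_lit 228) (nat_lit 41269022907) (nat_lit 76) (nat_lit 25490656393) (nat_lit 8) (nat_lit 5) (nat_lit 11) (nat_lit 5) (nat_lit 9) (nat_lit 4) (nat_lit 229) (nat_lit 213) (nat_lit 158)) (XT.lf (nat_lit 0) (nat_lit 15683496252) (nat_lit 76) (nat_lit 54880242693) (nat_lit 152) (nat_lit 52550728101) (nat_lit 7) (nat_lit 5) (nat_lit 8) (nat_lit 5) (nat_lit 9) (nat_lit 4) (nat_lit 230) (nat_lit 213) (nat_lit 157))) (XT.nd (nat_lit 78) (nat_lit 76) (nat_lit 0) (XT.lf (nat_lit 0) (nat_lit 83670737868) (nat_lit 76) (nat_lit 19582455814) (nat_lit 152) (nat_lit 34917755276) (nat_lit 7) (nat_lit 5) (nat_lit 8) (nat_lit 5) (nat_lit 9) (nat_lit 4) (nat_lit 231) (nat_lit 213) (nat_lit 156)) (XT.lf (nat_lit 0) (nat_lit 6166746790) (nat_lit 76) (nat_lit 135328899869) (nat_lit 76) (nat_lit 13938308098) (nat_lit 6) (nat_lit 4) (nat_lit 7) (nat_lit 5) (nat_lit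 7) (nat_lit 4) (nat_lit 232) (nat_lit 213) (nat_lit 155)))) (XT.nd (nat_lit 156) (nat_lit 76) (nat_lit 0) (XT.nd (nat_lit 78) (nat_lit 0) (nat_lit 0) (XT.lf (nat_lit 0) (nat_lit 11844187182) (nat_lit 152) (nat_lit 96759460305) (nat_lit 76) (nat_lit 66489914284) (nat_lit 5) (nat_lit 5) (nat_lit 7) (nat_lit 5) (nat_lit 6) (nat_lit 4) (nat_lit 233) (nat_lit 213) (nat_lit 154)) (XT.lf (nat_lit 0) (nat_lit 40688956072) (nat_lit 152) (nat_lit 36766495687) (nat_lit 76) (nat_lit 120216091748) (nat_lit 5) (nat_lit 5) (nat_lit 7) (nat_lit 5) (nat_lit 6) (nat_lit 4) (nat_lit 234) (nat_lit 213) (nat_lit 153))) (XT.nd (nat_lit 78) (nat_lit 0) (nat_lit 0) (XT.lf (nat_lit 0) (nat_lit 33917361724) (nat_lit 76) (nat_lit 40755955007) (nat_lit 152) (nat_lit 148897886616) (nat_lit 4) (nat_lit 5) (nat_lit 5) (nat_lit 5) (nat_lit 6) (nat_lit 4) (nat_lit 235) (nat_lit 213) (nat_lit 152)) (XT.nd (nat_lit 78)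 (nat_lit 0) (nat_lit 0) (XT.lf (nat_lit 0) (nat_lit 114885773574) (nat_lit 152) (nat_lit 135907060113) (nat_lit 0) (nat_lit 2472552640) (nat_lit 4) (nat_lit 5) (nat_lit 6) (nat_lit 4) (nat_lit 4) (nat_lit 4) (nat_lit 236) (nat_lit 213) (nat_lit 151)) (XT.lf (nat_lit 0) (nat_lit 162255035230) (nat_lit 152) (nat_lit 75229390024) (nat_lit 0) (nat_lit 49839284884) (nat_lit 4) (nat_lit 5) (nat_lit 6) (nat_lit 4) (nat_lit 4) (nat_lit 4) (nat_lit 237) (nat_lit 213) (nat_lit 150))))))) (XT.nd (nat_lit 702) (nat_lit 0) (nat_lit 0) (XT.nd (nat_lit 312) (nat_lit 152) (nat_lit 0) (XT.nd (nat_lit 156) (nat_lit 0) (nat_lit 0) (XT.nd (nat_lit 78) (nat_lit 76) (nat_lit 0) (XT.lf (nat_lit 0) (nat_lit 216727709903) (nat_lit 152) (nat_lit 5453477852) (nat_lit 0) (nat_lit 104309760068) (nat_lit 4) (nat_lit 5) (nat_lit 6) (nat_lit 4) (nat_lit 4) (nat_lit 4) (nat_lit 238) (nat_lit 213) (nat_lit 149)) (XT.lf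 (nat_lit 0) (nat_lit 78723948004) (nat_lit 76) (nat_lit 202538932154) (nat_lit 76) (nat_lit 90119069720) (nat_lit 3) (nat_lit 4) (nat_lit 4) (nat_lit 5) (nat_lit 4) (nat_lit 4) (nat_lit 239) (nat_lit 213) (nat_lit 148))) (XT.nd (nat_lit 78) (nat_lit 0) (nat_lit 0) (XT.lf (nat_lit 0) (nat_lit 175855520814) (nat_lit 76) (nat_lit 179780017717) (nat_lit 76) (nat_lit 67358492153) (nat_lit 3) (nat_lit 4) (nat_lit 4) (nat_lit 5) (nat_lit 4) (nat_lit 4) (nat_lit 240) (nat_lit 213) (nat_lit 147)) (XT.lf (nat_lit 0) (nat_lit 287554470435) (nat_lit 76) (nat_lit 153608269084) (nat_lit 76) (nat_lit 41185297320) (nat_lit 3) (nat_lit 4) (nat_lit 4) (nat_lit 5) (nat_lit 4) (nat_lit 4) (nat_lit 241) (nat_lit 213) (nat_lit 146)))) (XT.nd (nat_lit 156) (nat_lit 76) (nat_lit 0) (XT.nd (nat_lit 78) (nat_lit 76) (nat_lit 0) (XT.lf (nat_lit 0) (nat_lit 416006211097) (nat_lit 76) (nat_lit 123511630305) (nat_lit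 76) (nat_lit 11087400976) (nat_lit 3) (nat_lit 4) (nat_lit 4) (nat_lit 5) (nat_lit 4) (nat_lit 4) (nat_lit 242) (nat_lit 213) (nat_lit 145)) (XT.lf (nat_lit 0) (nat_lit 22347299571) (nat_lit 152) (nat_lit 65942939753) (nat_lit 76) (nat_lit 540765614687) (nat_lit 2) (nat_lit 5) (nat_lit 4) (nat_lit 5) (nat_lit 3) (nat_lit 4) (nat_lit 243) (nat_lit 213) (nat_lit 144))) (XT.nd (nat_lit 78) (nat_lit 0) (nat_lit 0) (XT.lf (nat_lit 0) (nat_lit 13372246988) (nat_lit 76) (nat_lit 47107811065) (nat_lit 152) (nat_lit 658743815411) (nat_lit 1) (nat_lit 5) (nat_lit 2) (nat_lit 5) (nat_lit 3) (nat_lit 4) (nat_lit 244) (nat_lit 213) (nat_lit 143)) (XT.nd (nat_lit 78) (nat_lit 0) (nat_lit 0) (XT.lf (nat_lit 0) (nat_lit 106307666042) (nat_lit 152) (nat_lit 714242938649) (nat_lit 0) (nat_lit 2208498790) (nat_lit 1) (nat_lit 5) (nat_lit 3) (nat_lit 4) (nat_lit 1) (nat_lit 4) (nat_lit 245) (nat_lit 213)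 (nat_lit 142)) (XT.lf (nat_lit 0) (nat_lit 160311562906) (nat_lit 152) (nat_lit 725197155566) (nat_lit 0) (nat_lit 56211729898) (nat_lit 1) (nat_lit 5) (nat_lit 3) (nat_lit 4) (nat_lit 1) (nat_lit 4) (nat_lit 246) (nat_lit 213) (nat_lit 141)))))) (XT.nd (nat_lit 312) (nat_lit 0) (nat_lit 0) (XT.nd (nat_lit 156) (nat_lit 0) (nat_lit 0) (XT.nd (nat_lit 78) (nat_lit 0) (nat_lit 0) (XT.lf (nat_lit 0) (nat_lit 222415402637) (nat_lit 152) (nat_lit 737795654874) (nat_lit 0) (nat_lit 118314990710) (nat_lit 1) (nat_lit 5) (nat_lit 3) (nat_lit 4) (nat_lit 1) (nat_lit 4) (nat_lit 247) (nat_lit 213) (nat_lit 140)) (XT.lf (nat_lit 0) (nat_lit 293834260360) (nat_lit 152) (nat_lit 752284928951) (nat_lit 0) (nat_lit 189733345025) (nat_lit 1) (nat_lit 5) (nat_lit 3) (nat_lit 4) (nat_lit 1) (nat_lit 4) (nat_lit 248) (nat_lit 213) (nat_lit 139))) (XT.nd (nat_lit 78) (nat_lit 0) (nat_lit 0) (XT.lf (nat_lit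 0) (nat_lit 375965461552) (nat_lit 152) (nat_lit 768948463593) (nat_lit 0) (nat_lit 271864108472) (nat_lit 1) (nat_lit 5) (nat_lit 3) (nat_lit 4) (nat_lit 1) (nat_lit 4) (nat_lit 249) (nat_lit 213) (nat_lit 138)) (XT.lf (nat_lit 0) (nat_lit 470415921021) (nat_lit 152) (nat_lit 788112284478) (nat_lit 0) (nat_lit 366314187292) (nat_lit 1) (nat_lit 5) (nat_lit 3) (nat_lit 4) (nat_lit 1) (nat_lit 4) (nat_lit 250) (nat_lit 213) (nat_lit 137)))) (XT.nd (nat_lit 156) (nat_lit 0) (nat_lit 0) (XT.nd (nat_lit 78) (nat_lit 0) (nat_lit 0) (XT.lf (nat_lit 0) (nat_lit 579033582536) (nat_lit 152) (nat_lit 810151335929) (nat_lit 0) (nat_lit 474931517809) (nat_lit 1) (nat_lit 5) (nat_lit 3) (nat_lit 4) (nat_lit 1) (nat_lit 4) (nat_lit 251) (nat_lit 213) (nat_lit 136)) (XT.lf (nat_lit 0) (nat_lit 703943574260) (nat_lit 152) (nat_lit 835496816778) (nat_lit 0) (nat_lit 599841221708) (nat_lit 1) (nat_lit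 5) (nat_lit 3) (nat_lit 4) (nat_lit 1) (nat_lit 4) (nat_lit 252) (nat_lit 213) (nat_lit 135))) (XT.nd (nat_lit 78) (nat_lit 0) (nat_lit 0) (XT.lf (nat_lit 0) (nat_lit 847589787333) (nat_lit 152) (nat_lit 864644616867) (nat_lit 0) (nat_lit 743487184499) (nat_lit 1) (nat_lit 5) (nat_lit 3) (nat_lit 4) (nat_lit 1) (nat_lit 4) (nat_lit 253) (nat_lit 213) (nat_lit 134)) (XT.nd (nat_lit 78) (nat_lit 0) (nat_lit 0) (XT.lf (nat_lit 0) (nat_lit 1012782691144) (nat_lit 152) (nat_lit 898165019242) (nat_lit 0) (nat_lit 908679870672) (nat_lit 1) (nat_lit 5) (nat_lit 3) (nat_lit 4) (nat_lit 1) (nat_lit 4) (nat_lit 254) (nat_lit 213) (nat_lit 133)) (XT.lf (nat_lit 0) (nat_lit 1202754320765) (nat_lit 152) (nat_lit 936713857862) (nat_lit 0) (nat_lit 1098651311044) (nat_lit 1) (nat_lit 5) (nat_lit 3) (nat_lit 4) (nat_lit 1) (nat_lit 4) (nat_lit 255) (nat_lit 213) (nat_lit 132))))))))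
noncomputable def xc44 : XT := (XT.nd (nat_lit 1326) (nat_lit 532) (nat_lit 0) (XT.nd (nat_lit 624) (nat_lit 988) (nat_lit 0) (XT.nd (nat_lit 312) (nat_lit 456) (nat_lit 0) (XT.nd (nat_lit 156) (nat_lit 0) (nat_lit 76) (XT.nd (nat_lit 78) (nat_lit 0) (nat_lit 76) (XT.lf (nat_lit 0) (nat_lit 930921803) (nat_lit 532) (nat_lit 6840889563) (nat_lit 532) (nat_lit 6840889563) (nat_lit 27) (nat_lit 3) (nat_lit 34) (nat_lit 3) (nat_lit 34) (nat_lit 5) (nat_lit 214) (nat_lit 214) (nat_lit 172)) (XT.lf (nat_lit 0) (nat_lit 2468893319) (nat_lit 456) (nat_lit 23148981643) (nat_lit 532) (nat_lit 5761079575) (nat_lit 28) (nat_lit 5) (nat_lit 34) (nat_lit 5) (nat_lit 35) (nat_lit 5) (nat_lit 215) (nat_lit 214) (nat_lit 171))) (XT.nd (nat_lit 78) (nat_lit 0) (nat_lit 76) (XT.lf (nat_lit 0) (nat_lit 3984169364) (nat_lit 456) (nat_lit 21250602) (nat_lit 532) (nat_lit 29784917492) (nat_lit 28) (nat_lit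 5) (nat_lit 34) (nat_lit 5) (nat_lit 35) (nat_lit 5) (nat_lit 216) (nat_lit 214) (nat_lit 170)) (XT.lf (nat_lit 0) (nat_lit 6899639622) (nat_lit 456) (nat_lit 9068364623) (nat_lit 532) (nat_lit 20501739914) (nat_lit 29) (nat_lit 5) (nat_lit 35) (nat_lit 5) (nat_lit 36) (nat_lit 5) (nat_lit 217) (nat_lit 214) (nat_lit 169)))) (XT.nd (nat_lit 156) (nat_lit 228) (nat_lit 0) (XT.nd (nat_lit 78) (nat_lit 456) (nat_lit 0) (XT.lf (nat_lit 0) (nat_lit 11062306209) (nat_lit 456) (nat_lit 19453378123) (nat_lit 76) (nat_lit 8970716657) (nat_lit 30) (nat_lit 5) (nat_lit 36) (nat_lit 5) (nat_lit 31) (nat_lit 5) (nat_lit 218) (nat_lit 214) (nat_lit 168)) (XT.lf (nat_lit 0) (nat_lit 11213568754) (nat_lit 456) (nat_lit 5603568075) (nat_lit 532) (nat_lit 26061110729) (nat_lit 24) (nat_lit 5) (nat_lit 30) (nat_lit 5) (nat_lit 31) (nat_lit 5) (nat_lit 219) (nat_lit 214) (nat_lit 167))) (XT.nd (nat_lit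 78) (nat_lit 0) (nat_lit 0) (XT.lf (nat_lit 0) (nat_lit 360888187) (nat_lit 228) (nat_lit 24205477439) (nat_lit 304) (nat_lit 22122109283) (nat_lit 21) (nat_lit 5) (nat_lit 24) (nat_lit 5) (nat_lit 25) (nat_lit 5) (nat_lit 220) (nat_lit 214) (nat_lit 166)) (XT.lf (nat_lit 0) (nat_lit 34645130906) (nat_lit 304) (nat_lit 12158514069) (nat_lit 76) (nat_lit 4173304157) (nat_lit 21) (nat_lit 5) (nat_lit 25) (nat_lit 5) (nat_lit 22) (nat_lit 5) (nat_lit 221) (nat_lit 214) (nat_lit 165))))) (XT.nd (nat_lit 312) (nat_lit 456) (nat_lit 0) (XT.nd (nat_lit 156) (nat_lit 152) (nat_lit 0) (XT.nd (nat_lit 78) (nat_lit 228) (nat_lit 0) (XT.lf (nat_lit 0) (nat_lit 27848133680) (nat_lit 152) (nat_lit 19716825886) (nat_lit 228) (nat_lit 8237468901) (nat_lit 19) (nat_lit 5) (nat_lit 21) (nat_lit 5) (nat_lit 22) (nat_lit 5) (nat_lit 222) (nat_lit 214) (nat_lit 164)) (XT.lf (nat_lit 0) (nat_lit 1999895712)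 (nat_lit 228) (nat_lit 47669345233) (nat_lit 76) (nat_lit 11601892335) (nat_lit 16) (nat_lit 5) (nat_lit 19) (nat_lit 5) (nat_lit 17) (nat_lit 5) (nat_lit 223) (nat_lit 214) (nat_lit 163))) (XT.nd (nat_lit 78) (nat_lit 152) (nat_lit 0) (XT.lf (nat_lit 0) (nat_lit 14671008480) (nat_lit 228) (nat_lit 5215927542) (nat_lit 76) (nat_lit 47545271206) (nat_lit 16) (nat_lit 5) (nat_lit 19) (nat_lit 5) (nat_lit 17) (nat_lit 5) (nat_lit 224) (nat_lit 214) (nat_lit 162)) (XT.lf (nat_lit 0) (nat_lit 30713319627) (nat_lit 228) (nat_lit 28911927024) (nat_lit 76) (nat_lit 14774598068) (nat_lit 14) (nat_lit 5) (nat_lit 17) (nat_lit 5) (nat_lit 15) (nat_lit 5) (nat_lit 225) (nat_lit 214) (nat_lit 161)))) (XT.nd (nat_lit 156) (nat_lit 304) (nat_lit 0) (XT.nd (nat_lit 78) (nat_lit 0) (nat_lit 0) (XT.lf (nat_lit 0) (nat_lit 22263421842) (nat_lit 152) (nat_lit 28133291323) (nat_lit 228) (nat_lit 31917174916)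 (nat_lit 12) (nat_lit 5) (nat_lit 14) (nat_lit 5) (nat_lit 15) (nat_lit 5) (nat_lit 226) (nat_lit 214) (nat_lit 160)) (XT.lf (nat_lit 0) (nat_lit 74084672268) (nat_lit 228) (nat_lit 8706772919) (nat_lit 76) (nat_lit 8539462240) (nat_lit 12) (nat_lit 5) (nat_lit 15) (nat_lit 5) (nat_lit 13) (nat_lit 4) (nat_lit 227) (nat_lit 214) (nat_lit 159))) (XT.nd (nat_lit 78) (nat_lit 152) (nat_lit 0) (XT.lf (nat_lit 0) (nat_lit 1724162145) (nat_lit 152) (nat_lit 49419805773) (nat_lit 76) (nat_lit 50390853981) (nat_lit 10) (nat_lit 5) (nat_lit 12) (nat_lit 5) (nat_lit 11) (nat_lit 5) (nat_lit 228) (nat_lit 214) (nat_lit 158)) (XT.nd (nat_lit 78) (nat_lit 0) (nat_lit 0) (XT.lf (nat_lit 0) (nat_lit 9313389571) (nat_lit 152) (nat_lit 13713857754) (nat_lit 228) (nat_lit 90165599862) (nat_lit 8) (nat_lit 5) (nat_lit 10) (nat_lit 5) (nat_lit 11) (nat_lit 5) (nat_lit 229) (nat_lit 214) (nat_lit 157)) (XT.lf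 (nat_lit 0) (nat_lit 49702993053) (nat_lit 228) (nat_lit 47384889427) (nat_lit 76) (nat_lit 29337538669) (nat_lit 8) (nat_lit 5) (nat_lit 11) (nat_lit 5) (nat_lit 9) (nat_lit 4) (nat_lit 230) (nat_lit 214) (nat_lit 156))))))) (XT.nd (nat_lit 702) (nat_lit 228) (nat_lit 0) (XT.nd (nat_lit 312) (nat_lit 76) (nat_lit 0) (XT.nd (nat_lit 156) (nat_lit 152) (nat_lit 0) (XT.nd (nat_lit 78) (nat_lit 0) (nat_lit 0) (XT.lf (nat_lit 0) (nat_lit 18104202659) (nat_lit 76) (nat_lit 63086783763) (nat_lit 152) (nat_lit 60387041923) (nat_lit 7) (nat_lit 5) (nat_lit 8) (nat_lit 5) (nat_lit 9) (nat_lit 4) (nat_lit 231) (nat_lit 214) (nat_lit 155)) (XT.lf (nat_lit 0) (nat_lit 96280637217) (nat_lit 76) (nat_lit 22497654331) (nat_lit 152) (nat_lit 40115161704) (nat_lit 7) (nat_lit 5) (nat_lit 8) (nat_lit 5) (nat_lit 9) (nat_lit 4) (nat_lit 232) (nat_lit 214) (nat_lit 154))) (XT.nd (nat_lit 78) (nat_lit 76)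 (nat_lit 0) (XT.lf (nat_lit 0) (nat_lit 7148413363) (nat_lit 76) (nat_lit 155605683707) (nat_lit 76) (nat_lit 15992076067) (nat_lit 6) (nat_lit 4) (nat_lit 7) (nat_lit 5) (nat_lit 7) (nat_lit 4) (nat_lit 233) (nat_lit 214) (nat_lit 153)) (XT.lf (nat_lit 0) (nat_lit 13651361733) (nat_lit 152) (nat_lit 111222387993) (nat_lit 76) (nat_lit 76481284589) (nat_lit 5) (nat_lit 5) (nat_lit 7) (nat_lit 5) (nat_lit 6) (nat_lit 4) (nat_lit 234) (nat_lit 214) (nat_lit 152)))) (XT.nd (nat_lit 156) (nat_lit 0) (nat_lit 0) (XT.nd (nat_lit 78) (nat_lit 76) (nat_lit 0) (XT.lf (nat_lit 0) (nat_lit 46818861634) (nat_lit 152) (nat_lit 42237129729) (nat_lit 76) (nat_lit 138264056085) (nat_lit 5) (nat_lit 5) (nat_lit 7) (nat_lit 5) (nat_lit 6) (nat_lit 4) (nat_lit 235) (nat_lit 214) (nat_lit 151)) (XT.lf (nat_lit 0) (nat_lit 39045553106) (nat_lit 76) (nat_lit 46852834778) (nat_lit 152) (nat_lit 171206480845)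 (nat_lit 4) (nat_lit 5) (nat_lit 5) (nat_lit 5) (nat_lit 6) (nat_lit 4) (nat_lit 236) (nat_lit 214) (nat_lit 150))) (XT.nd (nat_lit 78) (nat_lit 0) (nat_lit 0) (XT.lf (nat_lit 0) (nat_lit 132139918561) (nat_lit 152) (nat_lit 156256419048) (nat_lit 0) (nat_lit 2857076761) (nat_lit 4) (nat_lit 5) (nat_lit 6) (nat_lit 4) (nat_lit 4) (nat_lit 4) (nat_lit 237) (nat_lit 214) (nat_lit 149)) (XT.nd (nat_lit 78) (nat_lit 0) (nat_lit 0) (XT.lf (nat_lit 0) (nat_lit 186611793950) (nat_lit 152) (nat_lit 86481885413) (nat_lit 0) (nat_lit 57327039551) (nat_lit 4) (nat_lit 5) (nat_lit 6) (nat_lit 4) (nat_lit 4) (nat_lit 4) (nat_lit 238) (nat_lit 214) (nat_lit 148)) (XT.lf (nat_lit 0) (nat_lit 249252956333) (nat_lit 152) (nat_lit 6243748996) (nat_lit 0) (nat_lit 119966538805) (nat_lit 4) (nat_lit 5) (nat_lit 6) (nat_lit 4) (nat_lit 4) (nat_lit 4) (nat_lit 239) (nat_lit 214) (nat_lit 147)))))) (XT.nd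 (nat_lit 312) (nat_lit 152) (nat_lit 0) (XT.nd (nat_lit 156) (nat_lit 0) (nat_lit 0) (XT.nd (nat_lit 78) (nat_lit 0) (nat_lit 0) (XT.lf (nat_lit 0) (nat_lit 90557941795) (nat_lit 76) (nat_lit 232908972552) (nat_lit 76) (nat_lit 103621108824) (nat_lit 3) (nat_lit 4) (nat_lit 4) (nat_lit 5) (nat_lit 4) (nat_lit 4) (nat_lit 240) (nat_lit 214) (nat_lit 146)) (XT.lf (nat_lit 0) (nat_lit 202255937275) (nat_lit 76) (nat_lit 206737629569) (nat_lit 76) (nat_lit 77448508277) (nat_lit 3) (nat_lit 4) (nat_lit 4) (nat_lit 5) (nat_lit 4) (nat_lit 4) (nat_lit 241) (nat_lit 214) (nat_lit 145))) (XT.nd (nat_lit 78) (nat_lit 0) (nat_lit 0) (XT.lf (nat_lit 0) (nat_lit 330706848251) (nat_lit 76) (nat_lit 176641343529) (nat_lit 76) (nat_lit 47351128702) (nat_lit 3) (nat_lit 4) (nat_lit 4) (nat_lit 5) (nat_lit 4) (nat_lit 4) (nat_lit 242) (nat_lit 214) (nat_lit 144)) (XT.lf (nat_lit 0) (nat_lit 478423844719)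 (nat_lit 76) (nat_lit 142031274053) (nat_lit 76) (nat_lit 12740108326) (nat_lit 3) (nat_lit 4) (nat_lit 4) (nat_lit 5) (nat_lit 4) (nat_lit 4) (nat_lit 243) (nat_lit 214) (nat_lit 143)))) (XT.nd (nat_lit 156) (nat_lit 0) (nat_lit 0) (XT.nd (nat_lit 78) (nat_lit 76) (nat_lit 0) (XT.lf (nat_lit 0) (nat_lit 25707987904) (nat_lit 152) (nat_lit 75819377754) (nat_lit 76) (nat_lit 621886151976) (nat_lit 2) (nat_lit 5) (nat_lit 4) (nat_lit 5) (nat_lit 3) (nat_lit 4) (nat_lit 244) (nat_lit 214) (nat_lit 142)) (XT.lf (nat_lit 0) (nat_lit 15391817073) (nat_lit 76) (nat_lit 54168052487) (nat_lit 152) (nat_lit 757546937214) (nat_lit 1) (nat_lit 5) (nat_lit 2) (nat_lit 5) (nat_lit 3) (nat_lit 4) (nat_lit 245) (nat_lit 214) (nat_lit 141))) (XT.nd (nat_lit 78) (nat_lit 0) (nat_lit 0) (XT.lf (nat_lit 0) (nat_lit 122260725011) (nat_lit 152) (nat_lit 821366998469) (nat_lit 0) (nat_lit 2544672377) (nat_lit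 1) (nat_lit 5) (nat_lit 3) (nat_lit 4) (nat_lit 1) (nat_lit 4) (nat_lit 246) (nat_lit 214) (nat_lit 140)) (XT.nd (nat_lit 78) (nat_lit 0) (nat_lit 0) (XT.lf (nat_lit 0) (nat_lit 184364305222) (nat_lit 152) (nat_lit 833965962834) (nat_lit 0) (nat_lit 64647749180) (nat_lit 1) (nat_lit 5) (nat_lit 3) (nat_lit 4) (nat_lit 1) (nat_lit 4) (nat_lit 247) (nat_lit 214) (nat_lit 139)) (XT.lf (nat_lit 0) (nat_lit 255782937276) (nat_lit 152) (nat_lit 848455641308) (nat_lit 0) (nat_lit 136065943488) (nat_lit 1) (nat_lit 5) (nat_lit 3) (nat_lit 4) (nat_lit 1) (nat_lit 4) (nat_lit 248) (nat_lit 214) (nat_lit 138))))))))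
noncomputable def xc45 : XT := (XT.nd (nat_lit 29406) (nat_lit 0) (nat_lit 152) (XT.nd (nat_lit 28704) (nat_lit 0) (nat_lit 1140) (XT.nd (nat_lit 312) (nat_lit 0) (nat_lit 0) (XT.nd (nat_lit 156) (nat_lit 0) (nat_lit 0) (XT.nd (nat_lit 78) (nat_lit 0) (nat_lit 0) (XT.lf (nat_lit 0) (nat_lit 337913942235) (nat_lit 152) (nat_lit 865119527600) (nat_lit 0) (nat_lit 218196567799) (nat_lit 1) (nat_lit 5) (nat_lit 3) (nat_lit 4) (nat_lit 1) (nat_lit 4) (nat_lit 249) (nat_lit 214) (nat_lit 137)) (XT.lf (nat_lit 0) (nat_lit 432364231064) (nat_lit 152) (nat_lit 884283654268) (nat_lit 0) (nat_lit 312646525630) (nat_lit 1) (nat_lit 5) (nat_lit 3) (nat_lit 4) (nat_lit 1) (nat_lit 4) (nat_lit 250) (nat_lit 214) (nat_lit 136))) (XT.nd (nat_lit 78) (nat_lit 0) (nat_lit 0) (XT.lf (nat_lit 0) (nat_lit 540981744199) (nat_lit 152) (nat_lit 906322971617) (nat_lit 0) (nat_lit 421263750939) (nat_lit 1) (nat_lit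 5) (nat_lit 3) (nat_lit 4) (nat_lit 1) (nat_lit 4) (nat_lit 251) (nat_lit 214) (nat_lit 135)) (XT.lf (nat_lit 0) (nat_lit 665891606895) (nat_lit 152) (nat_lit 931668683681) (nat_lit 0) (nat_lit 546173363353) (nat_lit 1) (nat_lit 5) (nat_lit 3) (nat_lit 4) (nat_lit 1) (nat_lit 4) (nat_lit 252) (nat_lit 214) (nat_lit 134)))) (XT.nd (nat_lit 156) (nat_lit 0) (nat_lit 0) (XT.nd (nat_lit 78) (nat_lit 0) (nat_lit 0) (XT.lf (nat_lit 0) (nat_lit 809537707771) (nat_lit 152) (nat_lit 960816684827) (nat_lit 0) (nat_lit 689819246593) (nat_lit 1) (nat_lit 5) (nat_lit 3) (nat_lit 4) (nat_lit 1) (nat_lit 4) (nat_lit 253) (nat_lit 214) (nat_lit 133)) (XT.lf (nat_lit 0) (nat_lit 974730514018) (nat_lit 152) (nat_lit 994337262034) (nat_lit 0) (nat_lit 855011863590) (nat_lit 1) (nat_lit 5) (nat_lit 3) (nat_lit 4) (nat_lit 1) (nat_lit 4) (nat_lit 254) (nat_lit 214) (nat_lit 132))) (XT.nd (nat_lit 28158)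 (nat_lit 0) (nat_lit 1976) (XT.lf (nat_lit 0) (nat_lit 1164702058802) (nat_lit 152) (nat_lit 1032886252682) (nat_lit 0) (nat_lit 1044983243809) (nat_lit 1) (nat_lit 5) (nat_lit 3) (nat_lit 4) (nat_lit 1) (nat_lit 4) (nat_lit 255) (nat_lit 214) (nat_lit 131)) (XT.lf (nat_lit 0) (nat_lit 1185439638) (nat_lit 532) (nat_lit 7804528126) (nat_lit 532) (nat_lit 7804528126) (nat_lit 27) (nat_lit 3) (nat_lit 34) (nat_lit 3) (nat_lit 34) (nat_lit 5) (nat_lit 215) (nat_lit 215) (nat_lit 170))))) (XT.nd (nat_lit 312) (nat_lit 912) (nat_lit 0) (XT.nd (nat_lit 156) (nat_lit 0) (nat_lit 76) (XT.nd (nat_lit 78) (nat_lit 0) (nat_lit 0) (XT.lf (nat_lit 0) (nat_lit 3039649848) (nat_lit 456) (nat_lit 26486996283) (nat_lit 532) (nat_lit 6541518110) (nat_lit 28) (nat_lit 5) (nat_lit 34) (nat_lit 5) (nat_lit 35) (nat_lit 5) (nat_lit 216) (nat_lit 215) (nat_lit 169)) (XT.lf (nat_lit 76) (nat_lit 97236956) (nat_lit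 0) (nat_lit 4661176825) (nat_lit 532) (nat_lit 34084953754) (nat_lit 29) (nat_lit 5) (nat_lit 28) (nat_lit 5) (nat_lit 35) (nat_lit 5) (nat_lit 217) (nat_lit 215) (nat_lit 168))) (XT.nd (nat_lit 78) (nat_lit 0) (nat_lit 76) (XT.lf (nat_lit 0) (nat_lit 8087570235) (nat_lit 456) (nat_lit 10307021587) (nat_lit 532) (nat_lit 23532165604) (nat_lit 29) (nat_lit 5) (nat_lit 35) (nat_lit 5) (nat_lit 36) (nat_lit 5) (nat_lit 218) (nat_lit 215) (nat_lit 167)) (XT.lf (nat_lit 0) (nat_lit 12856772310) (nat_lit 456) (nat_lit 22247584512) (nat_lit 76) (nat_lit 10293142890) (nat_lit 30) (nat_lit 5) (nat_lit 36) (nat_lit 5) (nat_lit 31) (nat_lit 5) (nat_lit 219) (nat_lit 215) (nat_lit 166)))) (XT.nd (nat_lit 156) (nat_lit 380) (nat_lit 0) (XT.nd (nat_lit 78) (nat_lit 228) (nat_lit 0) (XT.lf (nat_lit 0) (nat_lit 13008925315) (nat_lit 456) (nat_lit 6451003216) (nat_lit 532) (nat_lit 29839523846) (nat_lit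 24) (nat_lit 5) (nat_lit 30) (nat_lit 5) (nat_lit 31) (nat_lit 5) (nat_lit 220) (nat_lit 215) (nat_lit 165)) (XT.lf (nat_lit 0) (nat_lit 528543286) (nat_lit 228) (nat_lit 27829903244) (nat_lit 304) (nat_lit 25323934210) (nat_lit 21) (nat_lit 5) (nat_lit 24) (nat_lit 5) (nat_lit 25) (nat_lit 5) (nat_lit 221) (nat_lit 215) (nat_lit 164))) (XT.nd (nat_lit 78) (nat_lit 380) (nat_lit 0) (XT.lf (nat_lit 0) (nat_lit 39935187394) (nat_lit 304) (nat_lit 13875566434) (nat_lit 76) (nat_lit 4804583144) (nat_lit 21) (nat_lit 5) (nat_lit 25) (nat_lit 5) (nat_lit 22) (nat_lit 5) (nat_lit 222) (nat_lit 215) (nat_lit 163)) (XT.nd (nat_lit 78) (nat_lit 228) (nat_lit 0) (XT.lf (nat_lit 0) (nat_lit 32123044760) (nat_lit 152) (nat_lit 22660127215) (nat_lit 228) (nat_lit 9382341908) (nat_lit 19) (nat_lit 5) (nat_lit 21) (nat_lit 5) (nat_lit 22) (nat_lit 5) (nat_lit 223) (nat_lit 215) (nat_lit 162)) (XT.lf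 (nat_lit 0) (nat_lit 2377511654) (nat_lit 228) (nat_lit 54719403271) (nat_lit 76) (nat_lit 13358193620) (nat_lit 16) (nat_lit 5) (nat_lit 19) (nat_lit 5) (nat_lit 17) (nat_lit 5) (nat_lit 224) (nat_lit 215) (nat_lit 161))))))) (XT.nd (nat_lit 702) (nat_lit 304) (nat_lit 0) (XT.nd (nat_lit 312) (nat_lit 380) (nat_lit 0) (XT.nd (nat_lit 156) (nat_lit 152) (nat_lit 0) (XT.nd (nat_lit 78) (nat_lit 152) (nat_lit 0) (XT.lf (nat_lit 0) (nat_lit 16939165478) (nat_lit 228) (nat_lit 5911061242) (nat_lit 76) (nat_lit 54690990091) (nat_lit 16) (nat_lit 5) (nat_lit 19) (nat_lit 5) (nat_lit 17) (nat_lit 5) (nat_lit 225) (nat_lit 215) (nat_lit 160)) (XT.lf (nat_lit 0) (nat_lit 35381401990) (nat_lit 228) (nat_lit 33164093458) (nat_lit 76) (nat_lit 17009073101) (nat_lit 14) (nat_lit 5) (nat_lit 17) (nat_lit 5) (nat_lit 15) (nat_lit 5) (nat_lit 226) (nat_lit 215) (nat_lit 159))) (XT.nd (nat_lit 78) (nat_lit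 0) (nat_lit 0) (XT.lf (nat_lit 0) (nat_lit 25680394855) (nat_lit 152) (nat_lit 32330805079) (nat_lit 228) (nat_lit 36645054606) (nat_lit 12) (nat_lit 5) (nat_lit 14) (nat_lit 5) (nat_lit 15) (nat_lit 5) (nat_lit 227) (nat_lit 215) (nat_lit 158)) (XT.lf (nat_lit 0) (nat_lit 85245651750) (nat_lit 228) (nat_lit 9941801164) (nat_lit 76) (nat_lit 9838951492) (nat_lit 12) (nat_lit 5) (nat_lit 15) (nat_lit 5) (nat_lit 13) (nat_lit 4) (nat_lit 228) (nat_lit 215) (nat_lit 157)))) (XT.nd (nat_lit 156) (nat_lit 76) (nat_lit 0) (XT.nd (nat_lit 78) (nat_lit 152) (nat_lit 0) (XT.lf (nat_lit 0) (nat_lit 2027690347) (nat_lit 152) (nat_lit 56765210241) (nat_lit 76) (nat_lit 57968329385) (nat_lit 10) (nat_lit 5) (nat_lit 12) (nat_lit 5) (nat_lit 11) (nat_lit 5) (nat_lit 229) (nat_lit 215) (nat_lit 156)) (XT.lf (nat_lit 0) (nat_lit 10772245246) (nat_lit 152) (nat_lit 15749623459) (nat_lit 228) (nat_lit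 103646468992) (nat_lit 8) (nat_lit 5) (nat_lit 10) (nat_lit 5) (nat_lit 11) (nat_lit 5) (nat_lit 230) (nat_lit 215) (nat_lit 155))) (XT.nd (nat_lit 78) (nat_lit 76) (nat_lit 0) (XT.lf (nat_lit 0) (nat_lit 57194134931) (nat_lit 228) (nat_lit 54436300032) (nat_lit 76) (nat_lit 33755775381) (nat_lit 8) (nat_lit 5) (nat_lit 11) (nat_lit 5) (nat_lit 9) (nat_lit 4) (nat_lit 231) (nat_lit 215) (nat_lit 154)) (XT.nd (nat_lit 78) (nat_lit 0) (nat_lit 0) (XT.lf (nat_lit 0) (nat_lit 20871388422) (nat_lit 76) (nat_lit 72530523192) (nat_lit 152) (nat_lit 69410092244) (nat_lit 7) (nat_lit 5) (nat_lit 8) (nat_lit 5) (nat_lit 9) (nat_lit 4) (nat_lit 232) (nat_lit 215) (nat_lit 153)) (XT.lf (nat_lit 0) (nat_lit 110767563551) (nat_lit 76) (nat_lit 25855538885) (nat_lit 152) (nat_lit 46101995988) (nat_lit 7) (nat_lit 5) (nat_lit 8) (nat_lit 5) (nat_lit 9) (nat_lit 4) (nat_lit 233) (nat_lit 215) (nat_lit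 152)))))) (XT.nd (nat_lit 312) (nat_lit 76) (nat_lit 0) (XT.nd (nat_lit 156) (nat_lit 76) (nat_lit 0) (XT.nd (nat_lit 78) (nat_lit 76) (nat_lit 0) (XT.lf (nat_lit 0) (nat_lit 8263514350) (nat_lit 76) (nat_lit 178929484360) (nat_lit 76) (nat_lit 18362926611) (nat_lit 6) (nat_lit 4) (nat_lit 7) (nat_lit 5) (nat_lit 7) (nat_lit 4) (nat_lit 234) (nat_lit 215) (nat_lit 151)) (XT.lf (nat_lit 0) (nat_lit 15722163516) (nat_lit 152) (nat_lit 127867189401) (nat_lit 76) (nat_lit 87966999517) (nat_lit 5) (nat_lit 5) (nat_lit 7) (nat_lit 5) (nat_lit 6) (nat_lit 4) (nat_lit 235) (nat_lit 215) (nat_lit 150))) (XT.nd (nat_lit 78) (nat_lit 76) (nat_lit 0) (XT.lf (nat_lit 0) (nat_lit 53861775681) (nat_lit 152) (nat_lit 48539171544) (nat_lit 76) (nat_lit 159015422967) (nat_lit 5) (nat_lit 5) (nat_lit 7) (nat_lit 5) (nat_lit 6) (nat_lit 4) (nat_lit 236) (nat_lit 215) (nat_lit 149)) (XT.lf (nat_lit 0) (nat_lit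 44933075769) (nat_lit 76) (nat_lit 53868273431) (nat_lit 152) (nat_lit 196867726119) (nat_lit 4) (nat_lit 5) (nat_lit 5) (nat_lit 5) (nat_lit 6) (nat_lit 4) (nat_lit 237) (nat_lit 215) (nat_lit 148)))) (XT.nd (nat_lit 156) (nat_lit 76) (nat_lit 0) (XT.nd (nat_lit 78) (nat_lit 0) (nat_lit 0) (XT.lf (nat_lit 0) (nat_lit 151976996289) (nat_lit 152) (nat_lit 179667131371) (nat_lit 0) (nat_lit 3295953002) (nat_lit 4) (nat_lit 5) (nat_lit 6) (nat_lit 4) (nat_lit 4) (nat_lit 4) (nat_lit 238) (nat_lit 215) (nat_lit 147)) (XT.lf (nat_lit 0) (nat_lit 214617554298) (nat_lit 152) (nat_lit 99430037325) (nat_lit 0) (nat_lit 65935064811) (nat_lit 4) (nat_lit 5) (nat_lit 6) (nat_lit 4) (nat_lit 4) (nat_lit 4) (nat_lit 239) (nat_lit 215) (nat_lit 146))) (XT.nd (nat_lit 78) (nat_lit 76) (nat_lit 0) (XT.lf (nat_lit 0) (nat_lit 286653066092) (nat_lit 152) (nat_lit 7159327954) (nat_lit 0) (nat_lit 137969319040)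 (nat_lit 4) (nat_lit 5) (nat_lit 6) (nat_lit 4) (nat_lit 4) (nat_lit 4) (nat_lit 240) (nat_lit 215) (nat_lit 145)) (XT.nd (nat_lit 78) (nat_lit 0) (nat_lit 0) (XT.lf (nat_lit 0) (nat_lit 104160840316) (nat_lit 76) (nat_lit 267837152517) (nat_lit 76) (nat_lit 119152311931) (nat_lit 3) (nat_lit 4) (nat_lit 4) (nat_lit 5) (nat_lit 4) (nat_lit 4) (nat_lit 241) (nat_lit 215) (nat_lit 144)) (XT.lf (nat_lit 0) (nat_lit 232611029824) (nat_lit 76) (nat_lit 237741173207) (nat_lit 76) (nat_lit 89055381721) (nat_lit 3) (nat_lit 4) (nat_lit 4) (nat_lit 5) (nat_lit 4) (nat_lit 4) (nat_lit 242) (nat_lit 215) (nat_lit 143))))))))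
noncomputable def xc46 : XT := (XT.nd (nat_lit 29484) (nat_lit 0) (nat_lit 304) (XT.nd (nat_lit 624) (nat_lit 0) (nat_lit 0) (XT.nd (nat_lit 312) (nat_lit 0) (nat_lit 0) (XT.nd (nat_lit 156) (nat_lit 152) (nat_lit 0) (XT.nd (nat_lit 78) (nat_lit 0) (nat_lit 0) (XT.lf (nat_lit 0) (nat_lit 380327398930) (nat_lit 76) (nat_lit 203131370452) (nat_lit 76) (nat_lit 54444752097) (nat_lit 3) (nat_lit 4) (nat_lit 4) (nat_lit 5) (nat_lit 4) (nat_lit 4) (nat_lit 243) (nat_lit 215) (nat_lit 142)) (XT.lf (nat_lit 0) (nat_lit 550200050507) (nat_lit 76) (nat_lit 163330595938) (nat_lit 76) (nat_lit 14643258566) (nat_lit 3) (nat_lit 4) (nat_lit 4) (nat_lit 5) (nat_lit 4) (nat_lit 4) (nat_lit 244) (nat_lit 215) (nat_lit 141))) (XT.nd (nat_lit 78) (nat_lit 76) (nat_lit 0) (XT.lf (nat_lit 0) (nat_lit 29570683933) (nat_lit 152) (nat_lit 87180940022) (nat_lit 76) (nat_lit 715173381075) (nat_lit 2) (nat_lit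 5) (nat_lit 4) (nat_lit 5) (nat_lit 3) (nat_lit 4) (nat_lit 245) (nat_lit 215) (nat_lit 140)) (XT.lf (nat_lit 0) (nat_lit 17710973782) (nat_lit 76) (nat_lit 62288776249) (nat_lit 152) (nat_lit 871172587998) (nat_lit 1) (nat_lit 5) (nat_lit 2) (nat_lit 5) (nat_lit 3) (nat_lit 4) (nat_lit 246) (nat_lit 215) (nat_lit 139)))) (XT.nd (nat_lit 156) (nat_lit 0) (nat_lit 0) (XT.nd (nat_lit 78) (nat_lit 0) (nat_lit 0) (XT.lf (nat_lit 0) (nat_lit 140605058007) (nat_lit 152) (nat_lit 944562686442) (nat_lit 0) (nat_lit 2930077405) (nat_lit 1) (nat_lit 5) (nat_lit 3) (nat_lit 4) (nat_lit 1) (nat_lit 4) (nat_lit 247) (nat_lit 215) (nat_lit 138)) (XT.lf (nat_lit 0) (nat_lit 212023493826) (nat_lit 152) (nat_lit 959052716566) (nat_lit 0) (nat_lit 74348132577) (nat_lit 1) (nat_lit 5) (nat_lit 3) (nat_lit 4) (nat_lit 1) (nat_lit 4) (nat_lit 248) (nat_lit 215) (nat_lit 137))) (XT.nd (nat_lit 78) (nat_lit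 0) (nat_lit 0) (XT.lf (nat_lit 0) (nat_lit 294154328146) (nat_lit 152) (nat_lit 975716908640) (nat_lit 0) (nat_lit 156478635898) (nat_lit 1) (nat_lit 5) (nat_lit 3) (nat_lit 4) (nat_lit 1) (nat_lit 4) (nat_lit 249) (nat_lit 215) (nat_lit 136)) (XT.lf (nat_lit 0) (nat_lit 388604468595) (nat_lit 152) (nat_lit 994881301206) (nat_lit 0) (nat_lit 250928488522) (nat_lit 1) (nat_lit 5) (nat_lit 3) (nat_lit 4) (nat_lit 1) (nat_lit 4) (nat_lit 250) (nat_lit 215) (nat_lit 135))))) (XT.nd (nat_lit 312) (nat_lit 0) (nat_lit 0) (XT.nd (nat_lit 156) (nat_lit 0) (nat_lit 0) (XT.nd (nat_lit 78) (nat_lit 0) (nat_lit 0) (XT.lf (nat_lit 0) (nat_lit 497221852702) (nat_lit 152) (nat_lit 1016920849770) (nat_lit 0) (nat_lit 359545622347) (nat_lit 1) (nat_lit 5) (nat_lit 3) (nat_lit 4) (nat_lit 1) (nat_lit 4) (nat_lit 251) (nat_lit 215) (nat_lit 134)) (XT.lf (nat_lit 0) (nat_lit 622131603201) (nat_lit 152)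 (nat_lit 1042266762891) (nat_lit 0) (nat_lit 484455155209) (nat_lit 1) (nat_lit 5) (nat_lit 3) (nat_lit 4) (nat_lit 1) (nat_lit 4) (nat_lit 252) (nat_lit 215) (nat_lit 133))) (XT.nd (nat_lit 78) (nat_lit 0) (nat_lit 0) (XT.lf (nat_lit 0) (nat_lit 765777606514) (nat_lit 152) (nat_lit 1071414938869) (nat_lit 0) (nat_lit 628100969272) (nat_lit 1) (nat_lit 5) (nat_lit 3) (nat_lit 4) (nat_lit 1) (nat_lit 4) (nat_lit 253) (nat_lit 215) (nat_lit 132)) (XT.lf (nat_lit 0) (nat_lit 930970327924) (nat_lit 152) (nat_lit 1104935668104) (nat_lit 0) (nat_lit 793293526117) (nat_lit 1) (nat_lit 5) (nat_lit 3) (nat_lit 4) (nat_lit 1) (nat_lit 4) (nat_lit 254) (nat_lit 215) (nat_lit 131)))) (XT.nd (nat_lit 28314) (nat_lit 0) (nat_lit 2052) (XT.nd (nat_lit 28236) (nat_lit 0) (nat_lit 1976) (XT.lf (nat_lit 0) (nat_lit 1120941798936) (nat_lit 152) (nat_lit 1143484790950) (nat_lit 0) (nat_lit 983264854029)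 (nat_lit 1) (nat_lit 5) (nat_lit 3) (nat_lit 4) (nat_lit 1) (nat_lit 4) (nat_lit 255) (nat_lit 215) (nat_lit 130)) (XT.lf (nat_lit 0) (nat_lit 1450121040) (nat_lit 532) (nat_lit 8927952243) (nat_lit 532) (nat_lit 8927952243) (nat_lit 27) (nat_lit 3) (nat_lit 34) (nat_lit 3) (nat_lit 34) (nat_lit 5) (nat_lit 216) (nat_lit 216) (nat_lit 168))) (XT.nd (nat_lit 78) (nat_lit 0) (nat_lit 0) (XT.lf (nat_lit 0) (nat_lit 3647145552) (nat_lit 456) (nat_lit 30358470976) (nat_lit 532) (nat_lit 7459438907) (nat_lit 28) (nat_lit 5) (nat_lit 34) (nat_lit 5) (nat_lit 35) (nat_lit 5) (nat_lit 217) (nat_lit 216) (nat_lit 167)) (XT.nd (nat_lit 78) (nat_lit 0) (nat_lit 76) (XT.lf (nat_lit 76) (nat_lit 204799452) (nat_lit 0) (nat_lit 5401393562) (nat_lit 532) (nat_lit 39051906467) (nat_lit 29) (nat_lit 5) (nat_lit 28) (nat_lit 5) (nat_lit 35) (nat_lit 5) (nat_lit 218) (nat_lit 216) (nat_lit 166)) (XT.lf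 (nat_lit 0) (nat_lit 9416384160) (nat_lit 456) (nat_lit 11761129472) (nat_lit 532) (nat_lit 27028088519) (nat_lit 29) (nat_lit 5) (nat_lit 35) (nat_lit 5) (nat_lit 36) (nat_lit 5) (nat_lit 219) (nat_lit 216) (nat_lit 165))))))) (XT.nd (nat_lit 702) (nat_lit 532) (nat_lit 0) (XT.nd (nat_lit 312) (nat_lit 684) (nat_lit 0) (XT.nd (nat_lit 156) (nat_lit 228) (nat_lit 0) (XT.nd (nat_lit 78) (nat_lit 456) (nat_lit 0) (XT.lf (nat_lit 0) (nat_lit 14887458418) (nat_lit 456) (nat_lit 25491111353) (nat_lit 76) (nat_lit 11819585957) (nat_lit 30) (nat_lit 5) (nat_lit 36) (nat_lit 5) (nat_lit 31) (nat_lit 5) (nat_lit 220) (nat_lit 216) (nat_lit 164)) (XT.lf (nat_lit 0) (nat_lit 15045951257) (nat_lit 456) (nat_lit 7423871037) (nat_lit 532) (nat_lit 34216583999) (nat_lit 24) (nat_lit 5) (nat_lit 30) (nat_lit 5) (nat_lit 31) (nat_lit 5) (nat_lit 221) (nat_lit 216) (nat_lit 163))) (XT.nd (nat_lit 78)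 (nat_lit 0) (nat_lit 0) (XT.lf (nat_lit 0) (nat_lit 693663624) (nat_lit 228) (nat_lit 31999552578) (nat_lit 304) (nat_lit 29034440057) (nat_lit 21) (nat_lit 5) (nat_lit 24) (nat_lit 5) (nat_lit 25) (nat_lit 5) (nat_lit 222) (nat_lit 216) (nat_lit 162)) (XT.lf (nat_lit 0) (nat_lit 45996003766) (nat_lit 304) (nat_lit 15876202158) (nat_lit 76) (nat_lit 5529265596) (nat_lit 21) (nat_lit 5) (nat_lit 25) (nat_lit 5) (nat_lit 22) (nat_lit 5) (nat_lit 223) (nat_lit 216) (nat_lit 161)))) (XT.nd (nat_lit 156) (nat_lit 304) (nat_lit 0) (XT.nd (nat_lit 78) (nat_lit 228) (nat_lit 0) (XT.lf (nat_lit 0) (nat_lit 37015369926) (nat_lit 152) (nat_lit 26048392003) (nat_lit 228) (nat_lit 10721075177) (nat_lit 19) (nat_lit 5) (nat_lit 21) (nat_lit 5) (nat_lit 22) (nat_lit 5) (nat_lit 224) (nat_lit 216) (nat_lit 160)) (XT.lf (nat_lit 0) (nat_lit 2792839033) (nat_lit 228) (nat_lit 62851439473) (nat_lit 76)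 (nat_lit 15374034146) (nat_lit 16) (nat_lit 5) (nat_lit 19) (nat_lit 5) (nat_lit 17) (nat_lit 5) (nat_lit 225) (nat_lit 216) (nat_lit 159))) (XT.nd (nat_lit 78) (nat_lit 304) (nat_lit 0) (XT.lf (nat_lit 0) (nat_lit 19531084327) (nat_lit 228) (nat_lit 6731742786) (nat_lit 76) (nat_lit 62905170328) (nat_lit 16) (nat_lit 5) (nat_lit 19) (nat_lit 5) (nat_lit 17) (nat_lit 5) (nat_lit 226) (nat_lit 216) (nat_lit 158)) (XT.nd (nat_lit 78) (nat_lit 152) (nat_lit 0) (XT.lf (nat_lit 0) (nat_lit 40734800885) (nat_lit 228) (nat_lit 38074720619) (nat_lit 76) (nat_lit 19574260397) (nat_lit 14) (nat_lit 5) (nat_lit 17) (nat_lit 5) (nat_lit 15) (nat_lit 5) (nat_lit 227) (nat_lit 216) (nat_lit 157)) (XT.lf (nat_lit 0) (nat_lit 29591024772) (nat_lit 152) (nat_lit 37163427775) (nat_lit 228) (nat_lit 42096673630) (nat_lit 12) (nat_lit 5) (nat_lit 14) (nat_lit 5) (nat_lit 15) (nat_lit 5) (nat_lit 228) (nat_lit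 216) (nat_lit 156)))))) (XT.nd (nat_lit 312) (nat_lit 228) (nat_lit 0) (XT.nd (nat_lit 156) (nat_lit 152) (nat_lit 0) (XT.nd (nat_lit 78) (nat_lit 152) (nat_lit 0) (XT.lf (nat_lit 0) (nat_lit 98069005101) (nat_lit 228) (nat_lit 11379394444) (nat_lit 76) (nat_lit 11328835741) (nat_lit 12) (nat_lit 5) (nat_lit 15) (nat_lit 5) (nat_lit 13) (nat_lit 4) (nat_lit 229) (nat_lit 216) (nat_lit 155)) (XT.lf (nat_lit 0) (nat_lit 2365797684) (nat_lit 152) (nat_lit 65228901874) (nat_lit 76) (nat_lit 66677830063) (nat_lit 10) (nat_lit 5) (nat_lit 12) (nat_lit 5) (nat_lit 11) (nat_lit 5) (nat_lit 230) (nat_lit 216) (nat_lit 154))) (XT.nd (nat_lit 78) (nat_lit 0) (nat_lit 0) (XT.lf (nat_lit 0) (nat_lit 12434847430) (nat_lit 152) (nat_lit 18095951319) (nat_lit 228) (nat_lit 119160191062) (nat_lit 8) (nat_lit 5) (nat_lit 10) (nat_lit 5) (nat_lit 11) (nat_lit 5) (nat_lit 231) (nat_lit 216) (nat_lit 153))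 (XT.lf (nat_lit 0) (nat_lit 65800244145) (nat_lit 228) (nat_lit 62559156901) (nat_lit 76) (nat_lit 38832454287) (nat_lit 8) (nat_lit 5) (nat_lit 11) (nat_lit 5) (nat_lit 9) (nat_lit 4) (nat_lit 232) (nat_lit 216) (nat_lit 152)))) (XT.nd (nat_lit 156) (nat_lit 152) (nat_lit 0) (XT.nd (nat_lit 78) (nat_lit 0) (nat_lit 0) (XT.lf (nat_lit 0) (nat_lit 24041079947) (nat_lit 76) (nat_lit 83395524631) (nat_lit 152) (nat_lit 79795136539) (nat_lit 7) (nat_lit 5) (nat_lit 8) (nat_lit 5) (nat_lit 9) (nat_lit 4) (nat_lit 233) (nat_lit 216) (nat_lit 151)) (XT.lf (nat_lit 0) (nat_lit 127416596573) (nat_lit 76) (nat_lit 29721194031) (nat_lit 152) (nat_lit 52994278393) (nat_lit 7) (nat_lit 5) (nat_lit 8) (nat_lit 5) (nat_lit 9) (nat_lit 4) (nat_lit 234) (nat_lit 216) (nat_lit 150))) (XT.nd (nat_lit 78) (nat_lit 76) (nat_lit 0) (XT.lf (nat_lit 0) (nat_lit 9535433928) (nat_lit 76) (nat_lit 205756013325)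 (nat_lit 76) (nat_lit 21096223170) (nat_lit 6) (nat_lit 4) (nat_lit 7) (nat_lit 5) (nat_lit 7) (nat_lit 4) (nat_lit 235) (nat_lit 216) (nat_lit 149)) (XT.nd (nat_lit 78) (nat_lit 0) (nat_lit 0) (XT.lf (nat_lit 0) (nat_lit 18097953088) (nat_lit 152) (nat_lit 147018113337) (nat_lit 76) (nat_lit 101172274200) (nat_lit 5) (nat_lit 5) (nat_lit 7) (nat_lit 5) (nat_lit 6) (nat_lit 4) (nat_lit 236) (nat_lit 216) (nat_lit 148)) (XT.lf (nat_lit 0) (nat_lit 61956229030) (nat_lit 152) (nat_lit 55794695559) (nat_lit 76) (nat_lit 182876627504) (nat_lit 5) (nat_lit 5) (nat_lit 7) (nat_lit 5) (nat_lit 6) (nat_lit 4) (nat_lit 237) (nat_lit 216) (nat_lit 147))))))))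
noncomputable def xc47 : XT := (XT.nd (nat_lit 29640) (nat_lit 0) (nat_lit 456) (XT.nd (nat_lit 702) (nat_lit 76) (nat_lit 0) (XT.nd (nat_lit 312) (nat_lit 152) (nat_lit 0) (XT.nd (nat_lit 156) (nat_lit 0) (nat_lit 0) (XT.nd (nat_lit 78) (nat_lit 0) (nat_lit 0) (XT.lf (nat_lit 0) (nat_lit 51696242955) (nat_lit 76) (nat_lit 61939072810) (nat_lit 152) (nat_lit 226382968702) (nat_lit 4) (nat_lit 5) (nat_lit 5) (nat_lit 5) (nat_lit 6) (nat_lit 4) (nat_lit 238) (nat_lit 216) (nat_lit 146)) (XT.lf (nat_lit 0) (nat_lit 174785712041) (nat_lit 152) (nat_lit 206596217686) (nat_lit 0) (nat_lit 3798145367) (nat_lit 4) (nat_lit 5) (nat_lit 6) (nat_lit 4) (nat_lit 4) (nat_lit 4) (nat_lit 239) (nat_lit 216) (nat_lit 145))) (XT.nd (nat_lit 78) (nat_lit 0) (nat_lit 0) (XT.lf (nat_lit 0) (nat_lit 246820766842) (nat_lit 152) (nat_lit 114326296498) (nat_lit 0) (nat_lit 75832106633) (nat_lit 4) (nat_lit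 5) (nat_lit 6) (nat_lit 4) (nat_lit 4) (nat_lit 4) (nat_lit 240) (nat_lit 216) (nat_lit 144)) (XT.lf (nat_lit 0) (nat_lit 329660225483) (nat_lit 152) (nat_lit 8217360689) (nat_lit 0) (nat_lit 158670614374) (nat_lit 4) (nat_lit 5) (nat_lit 6) (nat_lit 4) (nat_lit 4) (nat_lit 4) (nat_lit 241) (nat_lit 216) (nat_lit 143)))) (XT.nd (nat_lit 156) (nat_lit 76) (nat_lit 0) (XT.nd (nat_lit 78) (nat_lit 0) (nat_lit 0) (XT.lf (nat_lit 0) (nat_lit 119799489804) (nat_lit 76) (nat_lit 308006550788) (nat_lit 76) (nat_lit 137016112810) (nat_lit 3) (nat_lit 4) (nat_lit 4) (nat_lit 5) (nat_lit 4) (nat_lit 4) (nat_lit 242) (nat_lit 216) (nat_lit 142)) (XT.lf (nat_lit 0) (nat_lit 267515313378) (nat_lit 76) (nat_lit 273396979965) (nat_lit 76) (nat_lit 102405822970) (nat_lit 3) (nat_lit 4) (nat_lit 4) (nat_lit 5) (nat_lit 4) (nat_lit 4) (nat_lit 243) (nat_lit 216) (nat_lit 141))) (XT.nd (nat_lit 78) (nat_lit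 76) (nat_lit 0) (XT.lf (nat_lit 0) (nat_lit 437387490578) (nat_lit 76) (nat_lit 233596407131) (nat_lit 76) (nat_lit 62604624904) (nat_lit 3) (nat_lit 4) (nat_lit 4) (nat_lit 5) (nat_lit 4) (nat_lit 4) (nat_lit 244) (nat_lit 216) (nat_lit 140)) (XT.nd (nat_lit 78) (nat_lit 76) (nat_lit 0) (XT.lf (nat_lit 0) (nat_lit 632739607482) (nat_lit 76) (nat_lit 187826125425) (nat_lit 76) (nat_lit 16833799518) (nat_lit 3) (nat_lit 4) (nat_lit 4) (nat_lit 5) (nat_lit 4) (nat_lit 4) (nat_lit 245) (nat_lit 216) (nat_lit 139)) (XT.lf (nat_lit 0) (nat_lit 34011199826) (nat_lit 152) (nat_lit 100249503033) (nat_lit 76) (nat_lit 822452644420) (nat_lit 2) (nat_lit 5) (nat_lit 4) (nat_lit 5) (nat_lit 3) (nat_lit 4) (nat_lit 246) (nat_lit 216) (nat_lit 138)))))) (XT.nd (nat_lit 312) (nat_lit 0) (nat_lit 0) (XT.nd (nat_lit 156) (nat_lit 0) (nat_lit 0) (XT.nd (nat_lit 78) (nat_lit 0) (nat_lit 0) (XT.lf (nat_lit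 0) (nat_lit 20375471758) (nat_lit 76) (nat_lit 71628702054) (nat_lit 152) (nat_lit 1001843644592) (nat_lit 1) (nat_lit 5) (nat_lit 2) (nat_lit 5) (nat_lit 3) (nat_lit 4) (nat_lit 247) (nat_lit 216) (nat_lit 137)) (XT.lf (nat_lit 0) (nat_lit 161699766986) (nat_lit 152) (nat_lit 1086240010545) (nat_lit 0) (nat_lit 3372389902) (nat_lit 1) (nat_lit 5) (nat_lit 3) (nat_lit 4) (nat_lit 1) (nat_lit 4) (nat_lit 248) (nat_lit 216) (nat_lit 136))) (XT.nd (nat_lit 78) (nat_lit 0) (nat_lit 0) (XT.lf (nat_lit 0) (nat_lit 243830452925) (nat_lit 152) (nat_lit 1102904468517) (nat_lit 0) (nat_lit 85502788016) (nat_lit 1) (nat_lit 5) (nat_lit 3) (nat_lit 4) (nat_lit 1) (nat_lit 4) (nat_lit 249) (nat_lit 216) (nat_lit 135)) (XT.lf (nat_lit 0) (nat_lit 338280464347) (nat_lit 152) (nat_lit 1122069092299) (nat_lit 0) (nat_lit 179952549155) (nat_lit 1) (nat_lit 5) (nat_lit 3) (nat_lit 4) (nat_lit 1) (nat_lit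 4) (nat_lit 250) (nat_lit 216) (nat_lit 134)))) (XT.nd (nat_lit 156) (nat_lit 0) (nat_lit 0) (XT.nd (nat_lit 78) (nat_lit 0) (nat_lit 0) (XT.lf (nat_lit 0) (nat_lit 446897736257) (nat_lit 152) (nat_lit 1144108841919) (nat_lit 0) (nat_lit 288569603428) (nat_lit 1) (nat_lit 5) (nat_lit 3) (nat_lit 4) (nat_lit 1) (nat_lit 4) (nat_lit 251) (nat_lit 216) (nat_lit 133)) (XT.lf (nat_lit 0) (nat_lit 571807389192) (nat_lit 152) (nat_lit 1169454929873) (nat_lit 0) (nat_lit 413479067115) (nat_lit 1) (nat_lit 5) (nat_lit 3) (nat_lit 4) (nat_lit 1) (nat_lit 4) (nat_lit 252) (nat_lit 216) (nat_lit 132))) (XT.nd (nat_lit 78) (nat_lit 0) (nat_lit 0) (XT.lf (nat_lit 0) (nat_lit 715453307668) (nat_lit 152) (nat_lit 1198603257879) (nat_lit 0) (nat_lit 557124821025) (nat_lit 1) (nat_lit 5) (nat_lit 3) (nat_lit 4) (nat_lit 1) (nat_lit 4) (nat_lit 253) (nat_lit 216) (nat_lit 131)) (XT.nd (nat_lit 78) (nat_lit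 0) (nat_lit 0) (XT.lf (nat_lit 0) (nat_lit 880645955306) (nat_lit 152) (nat_lit 1232124119312) (nat_lit 0) (nat_lit 722317325564) (nat_lit 1) (nat_lit 5) (nat_lit 3) (nat_lit 4) (nat_lit 1) (nat_lit 4) (nat_lit 254) (nat_lit 216) (nat_lit 130)) (XT.lf (nat_lit 0) (nat_lit 1070617362168) (nat_lit 152) (nat_lit 1270673357113) (nat_lit 0) (nat_lit 912288607992) (nat_lit 1) (nat_lit 5) (nat_lit 3) (nat_lit 4) (nat_lit 1) (nat_lit 4) (nat_lit 255) (nat_lit 216) (nat_lit 129))))))) (XT.nd (nat_lit 702) (nat_lit 912) (nat_lit 0) (XT.nd (nat_lit 312) (nat_lit 608) (nat_lit 0) (XT.nd (nat_lit 156) (nat_lit 0) (nat_lit 76) (XT.nd (nat_lit 78) (nat_lit 0) (nat_lit 76) (XT.lf (nat_lit 0) (nat_lit 1733321960) (nat_lit 532) (nat_lit 10231413434) (nat_lit 532) (nat_lit 10231413434) (nat_lit 27) (nat_lit 3) (nat_lit 34) (nat_lit 3) (nat_lit 34) (nat_lit 5) (nat_lit 217) (nat_lit 217) (nat_lit 166))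 (XT.lf (nat_lit 0) (nat_lit 4308809618) (nat_lit 456) (nat_lit 34835436519) (nat_lit 532) (nat_lit 8530485617) (nat_lit 28) (nat_lit 5) (nat_lit 34) (nat_lit 5) (nat_lit 35) (nat_lit 5) (nat_lit 218) (nat_lit 217) (nat_lit 165))) (XT.nd (nat_lit 78) (nat_lit 0) (nat_lit 76) (XT.lf (nat_lit 76) (nat_lit 305823304) (nat_lit 0) (nat_lit 6242634893) (nat_lit 532) (nat_lit 44799453987) (nat_lit 29) (nat_lit 5) (nat_lit 28) (nat_lit 5) (nat_lit 35) (nat_lit 5) (nat_lit 219) (nat_lit 217) (nat_lit 164)) (XT.lf (nat_lit 0) (nat_lit 10916311265) (nat_lit 456) (nat_lit 13455774996) (nat_lit 532) (nat_lit 31056667070) (nat_lit 29) (nat_lit 5) (nat_lit 35) (nat_lit 5) (nat_lit 36) (nat_lit 5) (nat_lit 220) (nat_lit 217) (nat_lit 163)))) (XT.nd (nat_lit 156) (nat_lit 380) (nat_lit 0) (XT.nd (nat_lit 78) (nat_lit 456) (nat_lit 0) (XT.lf (nat_lit 0) (nat_lit 17197832576) (nat_lit 456) (nat_lit 29243994816)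 (nat_lit 76) (nat_lit 13579269886) (nat_lit 30) (nat_lit 5) (nat_lit 36) (nat_lit 5) (nat_lit 31) (nat_lit 5) (nat_lit 221) (nat_lit 217) (nat_lit 162)) (XT.lf (nat_lit 0) (nat_lit 17367635737) (nat_lit 456) (nat_lit 8541396751) (nat_lit 532) (nat_lit 39274312865) (nat_lit 24) (nat_lit 5) (nat_lit 30) (nat_lit 5) (nat_lit 31) (nat_lit 5) (nat_lit 222) (nat_lit 217) (nat_lit 161))) (XT.nd (nat_lit 78) (nat_lit 152) (nat_lit 0) (XT.lf (nat_lit 0) (nat_lit 862619666) (nat_lit 228) (nat_lit 36795828639) (nat_lit 304) (nat_lit 33323001692) (nat_lit 21) (nat_lit 5) (nat_lit 24) (nat_lit 5) (nat_lit 25) (nat_lit 5) (nat_lit 223) (nat_lit 217) (nat_lit 160)) (XT.nd (nat_lit 78) (nat_lit 152) (nat_lit 0) (XT.lf (nat_lit 0) (nat_lit 52948741391) (nat_lit 304) (nat_lit 18196612262) (nat_lit 76) (nat_lit 6361676215) (nat_lit 21) (nat_lit 5) (nat_lit 25) (nat_lit 5) (nat_lit 22) (nat_lit 5) (nat_lit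 224) (nat_lit 217) (nat_lit 159)) (XT.lf (nat_lit 0) (nat_lit 42623530577) (nat_lit 152) (nat_lit 29947519012) (nat_lit 228) (nat_lit 12277351374) (nat_lit 19) (nat_lit 5) (nat_lit 21) (nat_lit 5) (nat_lit 22) (nat_lit 5) (nat_lit 225) (nat_lit 217) (nat_lit 158)))))) (XT.nd (nat_lit 312) (nat_lit 380) (nat_lit 0) (XT.nd (nat_lit 156) (nat_lit 304) (nat_lit 0) (XT.nd (nat_lit 78) (nat_lit 0) (nat_lit 0) (XT.lf (nat_lit 0) (nat_lit 3256150999) (nat_lit 228) (nat_lit 72221783532) (nat_lit 76) (nat_lit 17689297288) (nat_lit 16) (nat_lit 5) (nat_lit 19) (nat_lit 5) (nat_lit 17) (nat_lit 5) (nat_lit 226) (nat_lit 217) (nat_lit 157)) (XT.lf (nat_lit 0) (nat_lit 22499343594) (nat_lit 228) (nat_lit 7691615627) (nat_lit 76) (nat_lit 72348909374) (nat_lit 16) (nat_lit 5) (nat_lit 19) (nat_lit 5) (nat_lit 17) (nat_lit 5) (nat_lit 227) (nat_lit 217) (nat_lit 156))) (XT.nd (nat_lit 78) (nat_lit 152)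 (nat_lit 0) (XT.lf (nat_lit 0) (nat_lit 46879946232) (nat_lit 228) (nat_lit 43737545454) (nat_lit 76) (nat_lit 22520854150) (nat_lit 14) (nat_lit 5) (nat_lit 17) (nat_lit 5) (nat_lit 15) (nat_lit 5) (nat_lit 228) (nat_lit 217) (nat_lit 155)) (XT.lf (nat_lit 0) (nat_lit 34073966344) (nat_lit 152) (nat_lit 42725088962) (nat_lit 228) (nat_lit 48377042980) (nat_lit 12) (nat_lit 5) (nat_lit 14) (nat_lit 5) (nat_lit 15) (nat_lit 5) (nat_lit 229) (nat_lit 217) (nat_lit 154)))) (XT.nd (nat_lit 156) (nat_lit 228) (nat_lit 0) (XT.nd (nat_lit 78) (nat_lit 152) (nat_lit 0) (XT.lf (nat_lit 0) (nat_lit 112806959336) (nat_lit 228) (nat_lit 13045716168) (nat_lit 76) (nat_lit 13038778513) (nat_lit 12) (nat_lit 5) (nat_lit 15) (nat_lit 5) (nat_lit 13) (nat_lit 4) (nat_lit 230) (nat_lit 217) (nat_lit 153)) (XT.lf (nat_lit 0) (nat_lit 2746341276) (nat_lit 152) (nat_lit 74974605848) (nat_lit 76) (nat_lit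 76690280581) (nat_lit 10) (nat_lit 5) (nat_lit 12) (nat_lit 5) (nat_lit 11) (nat_lit 5) (nat_lit 231) (nat_lit 217) (nat_lit 152))) (XT.nd (nat_lit 78) (nat_lit 76) (nat_lit 0) (XT.lf (nat_lit 0) (nat_lit 14335435905) (nat_lit 152) (nat_lit 20798158264) (nat_lit 228) (nat_lit 137009079245) (nat_lit 8) (nat_lit 5) (nat_lit 10) (nat_lit 5) (nat_lit 11) (nat_lit 5) (nat_lit 232) (nat_lit 217) (nat_lit 151)) (XT.nd (nat_lit 78) (nat_lit 76) (nat_lit 0) (XT.lf (nat_lit 0) (nat_lit 75690688310) (nat_lit 228) (nat_lit 71910827687) (nat_lit 76) (nat_lit 44667388667) (nat_lit 8) (nat_lit 5) (nat_lit 11) (nat_lit 5) (nat_lit 9) (nat_lit 4) (nat_lit 233) (nat_lit 217) (nat_lit 150)) (XT.lf (nat_lit 0) (nat_lit 27676718886) (nat_lit 76) (nat_lit 95893830990) (nat_lit 152) (nat_lit 91744392244) (nat_lit 7) (nat_lit 5) (nat_lit 8) (nat_lit 5) (nat_lit 9) (nat_lit 4) (nat_lit 234) (nat_lit 217) (nat_lit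 149))))))))
noncomputable def xc48 : XT := (XT.nd (nat_lit 1326) (nat_lit 0) (nat_lit 0) (XT.nd (nat_lit 624) (nat_lit 228) (nat_lit 0) (XT.nd (nat_lit 312) (nat_lit 76) (nat_lit 0) (XT.nd (nat_lit 156) (nat_lit 76) (nat_lit 0) (XT.nd (nat_lit 78) (nat_lit 76) (nat_lit 0) (XT.lf (nat_lit 0) (nat_lit 146554718186) (nat_lit 76) (nat_lit 34169788495) (nat_lit 152) (nat_lit 60926016000) (nat_lit 7) (nat_lit 5) (nat_lit 8) (nat_lit 5) (nat_lit 9) (nat_lit 4) (nat_lit 235) (nat_lit 217) (nat_lit 148)) (XT.lf (nat_lit 0) (nat_lit 10990242344) (nat_lit 76) (nat_lit 236609665843) (nat_lit 76) (nat_lit 24244669929) (nat_lit 6) (nat_lit 4) (nat_lit 7) (nat_lit 5) (nat_lit 7) (nat_lit 4) (nat_lit 236) (nat_lit 217) (nat_lit 147))) (XT.nd (nat_lit 78) (nat_lit 0) (nat_lit 0) (XT.lf (nat_lit 0) (nat_lit 20825852135) (nat_lit 152) (nat_lit 169048785367) (nat_lit 76) (nat_lit 116355846714) (nat_lit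 5) (nat_lit 5) (nat_lit 7) (nat_lit 5) (nat_lit 6) (nat_lit 4) (nat_lit 237) (nat_lit 217) (nat_lit 146)) (XT.lf (nat_lit 0) (nat_lit 71261146935) (nat_lit 152) (nat_lit 64144730353) (nat_lit 76) (nat_lit 210314844573) (nat_lit 5) (nat_lit 5) (nat_lit 7) (nat_lit 5) (nat_lit 6) (nat_lit 4) (nat_lit 238) (nat_lit 217) (nat_lit 145)))) (XT.nd (nat_lit 156) (nat_lit 0) (nat_lit 0) (XT.nd (nat_lit 78) (nat_lit 0) (nat_lit 0) (XT.lf (nat_lit 0) (nat_lit 59468226332) (nat_lit 76) (nat_lit 71222794499) (nat_lit 152) (nat_lit 260329135115) (nat_lit 4) (nat_lit 5) (nat_lit 5) (nat_lit 5) (nat_lit 6) (nat_lit 4) (nat_lit 239) (nat_lit 217) (nat_lit 144)) (XT.lf (nat_lit 0) (nat_lit 201012768325) (nat_lit 152) (nat_lit 237569783881) (nat_lit 0) (nat_lit 4373764650) (nat_lit 4) (nat_lit 5) (nat_lit 6) (nat_lit 4) (nat_lit 4) (nat_lit 4) (nat_lit 240) (nat_lit 217) (nat_lit 143))) (XT.nd (nat_lit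 78) (nat_lit 0) (nat_lit 0) (XT.lf (nat_lit 0) (nat_lit 283851881414) (nat_lit 152) (nat_lit 131461444052) (nat_lit 0) (nat_lit 87212050870) (nat_lit 4) (nat_lit 5) (nat_lit 6) (nat_lit 4) (nat_lit 4) (nat_lit 4) (nat_lit 241) (nat_lit 217) (nat_lit 142)) (XT.lf (nat_lit 0) (nat_lit 379116215432) (nat_lit 152) (nat_lit 9437967471) (nat_lit 0) (nat_lit 182475665871) (nat_lit 4) (nat_lit 5) (nat_lit 6) (nat_lit 4) (nat_lit 4) (nat_lit 4) (nat_lit 242) (nat_lit 217) (nat_lit 141))))) (XT.nd (nat_lit 312) (nat_lit 152) (nat_lit 0) (XT.nd (nat_lit 156) (nat_lit 0) (nat_lit 0) (XT.nd (nat_lit 78) (nat_lit 0) (nat_lit 0) (XT.lf (nat_lit 0) (nat_lit 137780395083) (nat_lit 76) (nat_lit 354202864517) (nat_lit 76) (nat_lit 157561689724) (nat_lit 3) (nat_lit 4) (nat_lit 4) (nat_lit 5) (nat_lit 4) (nat_lit 4) (nat_lit 243) (nat_lit 217) (nat_lit 140)) (XT.lf (nat_lit 0) (nat_lit 307652159783) (nat_lit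 76) (nat_lit 314402467056) (nat_lit 76) (nat_lit 117760748583) (nat_lit 3) (nat_lit 4) (nat_lit 4) (nat_lit 5) (nat_lit 4) (nat_lit 4) (nat_lit 244) (nat_lit 217) (nat_lit 139))) (XT.nd (nat_lit 78) (nat_lit 0) (nat_lit 0) (XT.lf (nat_lit 0) (nat_lit 503003917990) (nat_lit 76) (nat_lit 268632337849) (nat_lit 76) (nat_lit 71990146611) (nat_lit 3) (nat_lit 4) (nat_lit 4) (nat_lit 5) (nat_lit 4) (nat_lit 4) (nat_lit 245) (nat_lit 217) (nat_lit 138)) (XT.lf (nat_lit 0) (nat_lit 727657769321) (nat_lit 76) (nat_lit 215996974368) (nat_lit 76) (nat_lit 19354372029) (nat_lit 3) (nat_lit 4) (nat_lit 4) (nat_lit 5) (nat_lit 4) (nat_lit 4) (nat_lit 246) (nat_lit 217) (nat_lit 137)))) (XT.nd (nat_lit 156) (nat_lit 0) (nat_lit 0) (XT.nd (nat_lit 78) (nat_lit 76) (nat_lit 0) (XT.lf (nat_lit 0) (nat_lit 39116594963) (nat_lit 152) (nat_lit 115280442293) (nat_lit 76) (nat_lit 945823003226) (nat_lit 2)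 (nat_lit 5) (nat_lit 4) (nat_lit 5) (nat_lit 3) (nat_lit 4) (nat_lit 247) (nat_lit 217) (nat_lit 136)) (XT.lf (nat_lit 0) (nat_lit 23437729692) (nat_lit 76) (nat_lit 82370443557) (nat_lit 152) (nat_lit 1152116537892) (nat_lit 1) (nat_lit 5) (nat_lit 2) (nat_lit 5) (nat_lit 3) (nat_lit 4) (nat_lit 248) (nat_lit 217) (nat_lit 135))) (XT.nd (nat_lit 78) (nat_lit 0) (nat_lit 0) (XT.lf (nat_lit 0) (nat_lit 185957719013) (nat_lit 152) (nat_lit 1249170659489) (nat_lit 0) (nat_lit 3880366260) (nat_lit 1) (nat_lit 5) (nat_lit 3) (nat_lit 4) (nat_lit 1) (nat_lit 4) (nat_lit 249) (nat_lit 217) (nat_lit 134)) (XT.nd (nat_lit 78) (nat_lit 0) (nat_lit 0) (XT.lf (nat_lit 0) (nat_lit 280407618237) (nat_lit 152) (nat_lit 1268335484327) (nat_lit 0) (nat_lit 98330047847) (nat_lit 1) (nat_lit 5) (nat_lit 3) (nat_lit 4) (nat_lit 1) (nat_lit 4) (nat_lit 250) (nat_lit 217) (nat_lit 133)) (XT.lf (nat_lit 0)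 (nat_lit 389024792583) (nat_lit 152) (nat_lit 1290375408780) (nat_lit 0) (nat_lit 206947032945) (nat_lit 1) (nat_lit 5) (nat_lit 3) (nat_lit 4) (nat_lit 1) (nat_lit 4) (nat_lit 251) (nat_lit 217) (nat_lit 132))))))) (XT.nd (nat_lit 29094) (nat_lit 0) (nat_lit 684) (XT.nd (nat_lit 28704) (nat_lit 0) (nat_lit 1748) (XT.nd (nat_lit 156) (nat_lit 0) (nat_lit 0) (XT.nd (nat_lit 78) (nat_lit 0) (nat_lit 0) (XT.lf (nat_lit 0) (nat_lit 513934360682) (nat_lit 152) (nat_lit 1315721648761) (nat_lit 0) (nat_lit 331856436478) (nat_lit 1) (nat_lit 5) (nat_lit 3) (nat_lit 4) (nat_lit 1) (nat_lit 4) (nat_lit 252) (nat_lit 217) (nat_lit 131)) (XT.lf (nat_lit 0) (nat_lit 657580205386) (nat_lit 152) (nat_lit 1344870108965) (nat_lit 0) (nat_lit 475502138082) (nat_lit 1) (nat_lit 5) (nat_lit 3) (nat_lit 4) (nat_lit 1) (nat_lit 4) (nat_lit 253) (nat_lit 217) (nat_lit 130))) (XT.nd (nat_lit 28470) (nat_lit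 0) (nat_lit 1976) (XT.lf (nat_lit 0) (nat_lit 822772788874) (nat_lit 152) (nat_lit 1378391085353) (nat_lit 0) (nat_lit 640694597136) (nat_lit 1) (nat_lit 5) (nat_lit 3) (nat_lit 4) (nat_lit 1) (nat_lit 4) (nat_lit 254) (nat_lit 217) (nat_lit 129)) (XT.lf (nat_lit 0) (nat_lit 2042985860) (nat_lit 532) (nat_lit 11739107192) (nat_lit 532) (nat_lit 11739107192) (nat_lit 27) (nat_lit 3) (nat_lit 34) (nat_lit 3) (nat_lit 34) (nat_lit 5) (nat_lit 218) (nat_lit 218) (nat_lit 164)))) (XT.nd (nat_lit 156) (nat_lit 304) (nat_lit 0) (XT.nd (nat_lit 78) (nat_lit 0) (nat_lit 0) (XT.lf (nat_lit 0) (nat_lit 5041779251) (nat_lit 456) (nat_lit 40002676304) (nat_lit 532) (nat_lit 9773862523) (nat_lit 28) (nat_lit 5) (nat_lit 34) (nat_lit 5) (nat_lit 35) (nat_lit 5) (nat_lit 219) (nat_lit 218) (nat_lit 163)) (XT.lf (nat_lit 76) (nat_lit 404856675) (nat_lit 0) (nat_lit 7202495001) (nat_lit 532) (nat_lit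 51436015979) (nat_lit 29) (nat_lit 5) (nat_lit 28) (nat_lit 5) (nat_lit 35) (nat_lit 5) (nat_lit 220) (nat_lit 218) (nat_lit 162))) (XT.nd (nat_lit 78) (nat_lit 380) (nat_lit 0) (XT.lf (nat_lit 0) (nat_lit 12619897449) (nat_lit 456) (nat_lit 15421571191) (nat_lit 532) (nat_lit 35695783594) (nat_lit 29) (nat_lit 5) (nat_lit 35) (nat_lit 5) (nat_lit 36) (nat_lit 5) (nat_lit 221) (nat_lit 218) (nat_lit 161)) (XT.nd (nat_lit 78) (nat_lit 456) (nat_lit 0) (XT.lf (nat_lit 0) (nat_lit 19835923641) (nat_lit 456) (nat_lit 33577071740) (nat_lit 76) (nat_lit 15606138469) (nat_lit 30) (nat_lit 5) (nat_lit 36) (nat_lit 5) (nat_lit 31) (nat_lit 5) (nat_lit 222) (nat_lit 218) (nat_lit 160)) (XT.lf (nat_lit 0) (nat_lit 20021773001) (nat_lit 456) (nat_lit 9825589294) (nat_lit 532) (nat_lit 45108931452) (nat_lit 24) (nat_lit 5) (nat_lit 30) (nat_lit 5) (nat_lit 31) (nat_lit 5) (nat_lit 223) (nat_lit 218)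 (nat_lit 159)))))) (XT.nd (nat_lit 312) (nat_lit 456) (nat_lit 0) (XT.nd (nat_lit 156) (nat_lit 380) (nat_lit 0) (XT.nd (nat_lit 78) (nat_lit 0) (nat_lit 0) (XT.lf (nat_lit 0) (nat_lit 1041091254) (nat_lit 228) (nat_lit 42312437849) (nat_lit 304) (nat_lit 38271089471) (nat_lit 21) (nat_lit 5) (nat_lit 24) (nat_lit 5) (nat_lit 25) (nat_lit 5) (nat_lit 224) (nat_lit 218) (nat_lit 158)) (XT.lf (nat_lit 0) (nat_lit 60931383081) (nat_lit 304) (nat_lit 20879964049) (nat_lit 76) (nat_lit 7318211791) (nat_lit 21) (nat_lit 5) (nat_lit 25) (nat_lit 5) (nat_lit 22) (nat_lit 5) (nat_lit 225) (nat_lit 218) (nat_lit 157))) (XT.nd (nat_lit 78) (nat_lit 228) (nat_lit 0) (XT.lf (nat_lit 0) (nat_lit 49059294691) (nat_lit 152) (nat_lit 34433498061) (nat_lit 228) (nat_lit 14079721506) (nat_lit 19) (nat_lit 5) (nat_lit 21) (nat_lit 5) (nat_lit 22) (nat_lit 5) (nat_lit 226) (nat_lit 218) (nat_lit 156)) (XT.lf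 (nat_lit 0) (nat_lit 3778135925) (nat_lit 228) (nat_lit 83011669691) (nat_lit 76) (nat_lit 20349616661) (nat_lit 16) (nat_lit 5) (nat_lit 19) (nat_lit 5) (nat_lit 17) (nat_lit 5) (nat_lit 227) (nat_lit 218) (nat_lit 155)))) (XT.nd (nat_lit 156) (nat_lit 304) (nat_lit 0) (XT.nd (nat_lit 78) (nat_lit 152) (nat_lit 0) (XT.lf (nat_lit 0) (nat_lit 25903429721) (nat_lit 228) (nat_lit 8807635040) (nat_lit 76) (nat_lit 83207267327) (nat_lit 16) (nat_lit 5) (nat_lit 19) (nat_lit 5) (nat_lit 17) (nat_lit 5) (nat_lit 228) (nat_lit 218) (nat_lit 154)) (XT.lf (nat_lit 0) (nat_lit 53938346647) (nat_lit 228) (nat_lit 50261592579) (nat_lit 76) (nat_lit 25906887522) (nat_lit 14) (nat_lit 5) (nat_lit 17) (nat_lit 5) (nat_lit 15) (nat_lit 5) (nat_lit 229) (nat_lit 218) (nat_lit 153))) (XT.nd (nat_lit 78) (nat_lit 152) (nat_lit 0) (XT.lf (nat_lit 0) (nat_lit 39218549277) (nat_lit 152) (nat_lit 49124133607)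 (nat_lit 228) (nat_lit 55607790962) (nat_lit 12) (nat_lit 5) (nat_lit 14) (nat_lit 5) (nat_lit 15) (nat_lit 5) (nat_lit 230) (nat_lit 218) (nat_lit 152)) (XT.nd (nat_lit 78) (nat_lit 152) (nat_lit 0) (XT.lf (nat_lit 0) (nat_lit 129748875426) (nat_lit 228) (nat_lit 14971883654) (nat_lit 76) (nat_lit 15002623577) (nat_lit 12) (nat_lit 5) (nat_lit 15) (nat_lit 5) (nat_lit 13) (nat_lit 4) (nat_lit 231) (nat_lit 218) (nat_lit 151)) (XT.lf (nat_lit 0) (nat_lit 3177705654) (nat_lit 152) (nat_lit 86191585907) (nat_lit 76) (nat_lit 88201970879) (nat_lit 10) (nat_lit 5) (nat_lit 12) (nat_lit 5) (nat_lit 11) (nat_lit 5) (nat_lit 232) (nat_lit 218) (nat_lit 150))))))))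
noncomputable def xc49 : XT := (XT.nd (nat_lit 1326) (nat_lit 0) (nat_lit 0) (XT.nd (nat_lit 624) (nat_lit 228) (nat_lit 0) (XT.nd (nat_lit 312) (nat_lit 228) (nat_lit 0) (XT.nd (nat_lit 156) (nat_lit 76) (nat_lit 0) (XT.nd (nat_lit 78) (nat_lit 0) (nat_lit 0) (XT.lf (nat_lit 0) (nat_lit 16512489558) (nat_lit 152) (nat_lit 23908667823) (nat_lit 228) (nat_lit 157541431320) (nat_lit 8) (nat_lit 5) (nat_lit 10) (nat_lit 5) (nat_lit 11) (nat_lit 5) (nat_lit 233) (nat_lit 218) (nat_lit 149)) (XT.lf (nat_lit 0) (nat_lit 87059722590) (nat_lit 228) (nat_lit 82673101936) (nat_lit 76) (nat_lit 51375108488) (nat_lit 8) (nat_lit 5) (nat_lit 11) (nat_lit 5) (nat_lit 9) (nat_lit 4) (nat_lit 234) (nat_lit 218) (nat_lit 148))) (XT.nd (nat_lit 78) (nat_lit 0) (nat_lit 0) (XT.lf (nat_lit 0) (nat_lit 31850515526) (nat_lit 76) (nat_lit 110269571168) (nat_lit 152) (nat_lit 105490917035) (nat_lit 7) (nat_lit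 5) (nat_lit 8) (nat_lit 5) (nat_lit 9) (nat_lit 4) (nat_lit 235) (nat_lit 218) (nat_lit 147)) (XT.lf (nat_lit 0) (nat_lit 168557307486) (nat_lit 76) (nat_lit 39288009404) (nat_lit 152) (nat_lit 70051758359) (nat_lit 7) (nat_lit 5) (nat_lit 8) (nat_lit 5) (nat_lit 9) (nat_lit 4) (nat_lit 236) (nat_lit 218) (nat_lit 146)))) (XT.nd (nat_lit 156) (nat_lit 76) (nat_lit 0) (XT.nd (nat_lit 78) (nat_lit 76) (nat_lit 0) (XT.lf (nat_lit 0) (nat_lit 12657299170) (nat_lit 76) (nat_lit 272093743711) (nat_lit 76) (nat_lit 27869282165) (nat_lit 6) (nat_lit 4) (nat_lit 7) (nat_lit 5) (nat_lit 7) (nat_lit 4) (nat_lit 237) (nat_lit 218) (nat_lit 145)) (XT.lf (nat_lit 0) (nat_lit 23959715652) (nat_lit 152) (nat_lit 194389434007) (nat_lit 76) (nat_lit 133815069759) (nat_lit 5) (nat_lit 5) (nat_lit 7) (nat_lit 5) (nat_lit 6) (nat_lit 4) (nat_lit 238) (nat_lit 218) (nat_lit 144))) (XT.nd (nat_lit 78) (nat_lit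 76) (nat_lit 0) (XT.lf (nat_lit 0) (nat_lit 81959002189) (nat_lit 152) (nat_lit 73751944980) (nat_lit 76) (nat_lit 241867154770) (nat_lit 5) (nat_lit 5) (nat_lit 7) (nat_lit 5) (nat_lit 6) (nat_lit 4) (nat_lit 239) (nat_lit 218) (nat_lit 143)) (XT.lf (nat_lit 0) (nat_lit 68401728284) (nat_lit 76) (nat_lit 81900815388) (nat_lit 152) (nat_lit 299369976919) (nat_lit 4) (nat_lit 5) (nat_lit 5) (nat_lit 5) (nat_lit 6) (nat_lit 4) (nat_lit 240) (nat_lit 218) (nat_lit 142))))) (XT.nd (nat_lit 312) (nat_lit 152) (nat_lit 0) (XT.nd (nat_lit 156) (nat_lit 76) (nat_lit 0) (XT.nd (nat_lit 78) (nat_lit 0) (nat_lit 0) (XT.lf (nat_lit 0) (nat_lit 231171639701) (nat_lit 152) (nat_lit 273193254142) (nat_lit 0) (nat_lit 5034288689) (nat_lit 4) (nat_lit 5) (nat_lit 6) (nat_lit 4) (nat_lit 4) (nat_lit 4) (nat_lit 241) (nat_lit 218) (nat_lit 141)) (XT.lf (nat_lit 0) (nat_lit 326435712432) (nat_lit 152) (nat_lit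 151170228206) (nat_lit 0) (nat_lit 100297736188) (nat_lit 4) (nat_lit 5) (nat_lit 6) (nat_lit 4) (nat_lit 4) (nat_lit 4) (nat_lit 242) (nat_lit 218) (nat_lit 140))) (XT.nd (nat_lit 78) (nat_lit 76) (nat_lit 0) (XT.lf (nat_lit 0) (nat_lit 435988907578) (nat_lit 152) (nat_lit 10844590893) (nat_lit 0) (nat_lit 209850387654) (nat_lit 4) (nat_lit 5) (nat_lit 6) (nat_lit 4) (nat_lit 4) (nat_lit 4) (nat_lit 243) (nat_lit 218) (nat_lit 139)) (XT.lf (nat_lit 0) (nat_lit 158455758171) (nat_lit 76) (nat_lit 407329763843) (nat_lit 76) (nat_lit 181190771154) (nat_lit 3) (nat_lit 4) (nat_lit 4) (nat_lit 5) (nat_lit 4) (nat_lit 4) (nat_lit 244) (nat_lit 218) (nat_lit 138)))) (XT.nd (nat_lit 156) (nat_lit 152) (nat_lit 0) (XT.nd (nat_lit 78) (nat_lit 0) (nat_lit 0) (XT.lf (nat_lit 0) (nat_lit 353807204468) (nat_lit 76) (nat_lit 361559767244) (nat_lit 76) (nat_lit 135420363455) (nat_lit 3) (nat_lit 4)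 (nat_lit 4) (nat_lit 5) (nat_lit 4) (nat_lit 4) (nat_lit 245) (nat_lit 218) (nat_lit 137)) (XT.lf (nat_lit 0) (nat_lit 578460784573) (nat_lit 76) (nat_lit 308924519074) (nat_lit 76) (nat_lit 82784757806) (nat_lit 3) (nat_lit 4) (nat_lit 4) (nat_lit 5) (nat_lit 4) (nat_lit 4) (nat_lit 246) (nat_lit 218) (nat_lit 136))) (XT.nd (nat_lit 78) (nat_lit 152) (nat_lit 0) (XT.lf (nat_lit 0) (nat_lit 836811894619) (nat_lit 76) (nat_lit 248394199259) (nat_lit 76) (nat_lit 22254127141) (nat_lit 3) (nat_lit 4) (nat_lit 4) (nat_lit 5) (nat_lit 4) (nat_lit 4) (nat_lit 247) (nat_lit 218) (nat_lit 135)) (XT.nd (nat_lit 78) (nat_lit 76) (nat_lit 0) (XT.lf (nat_lit 0) (nat_lit 44986893404) (nat_lit 152) (nat_lit 132567604142) (nat_lit 76) (nat_lit 1087698315443) (nat_lit 2) (nat_lit 5) (nat_lit 4) (nat_lit 5) (nat_lit 3) (nat_lit 4) (nat_lit 248) (nat_lit 218) (nat_lit 134)) (XT.lf (nat_lit 0) (nat_lit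 26957878500) (nat_lit 76) (nat_lit 94724071485) (nat_lit 152) (nat_lit 1324931256090) (nat_lit 1) (nat_lit 5) (nat_lit 2) (nat_lit 5) (nat_lit 3) (nat_lit 4) (nat_lit 249) (nat_lit 218) (nat_lit 133))))))) (XT.nd (nat_lit 29172) (nat_lit 0) (nat_lit 836) (XT.nd (nat_lit 312) (nat_lit 0) (nat_lit 0) (XT.nd (nat_lit 156) (nat_lit 0) (nat_lit 0) (XT.nd (nat_lit 78) (nat_lit 0) (nat_lit 0) (XT.lf (nat_lit 0) (nat_lit 213853635450) (nat_lit 152) (nat_lit 1436542211049) (nat_lit 0) (nat_lit 4464022615) (nat_lit 1) (nat_lit 5) (nat_lit 3) (nat_lit 4) (nat_lit 1) (nat_lit 4) (nat_lit 250) (nat_lit 218) (nat_lit 132)) (XT.lf (nat_lit 0) (nat_lit 322470724959) (nat_lit 152) (nat_lit 1458582287530) (nat_lit 0) (nat_lit 113080947560) (nat_lit 1) (nat_lit 5) (nat_lit 3) (nat_lit 4) (nat_lit 1) (nat_lit 4) (nat_lit 251) (nat_lit 218) (nat_lit 131))) (XT.nd (nat_lit 78) (nat_lit 0) (nat_lit 0) (XT.lf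 (nat_lit 0) (nat_lit 447380219286) (nat_lit 152) (nat_lit 1483928659709) (nat_lit 0) (nat_lit 237990298787) (nat_lit 1) (nat_lit 5) (nat_lit 3) (nat_lit 4) (nat_lit 1) (nat_lit 4) (nat_lit 252) (nat_lit 218) (nat_lit 130)) (XT.lf (nat_lit 0) (nat_lit 591025999840) (nat_lit 152) (nat_lit 1513077234868) (nat_lit 0) (nat_lit 381635954907) (nat_lit 1) (nat_lit 5) (nat_lit 3) (nat_lit 4) (nat_lit 1) (nat_lit 4) (nat_lit 253) (nat_lit 218) (nat_lit 129)))) (XT.nd (nat_lit 28626) (nat_lit 0) (nat_lit 2052) (XT.nd (nat_lit 28548) (nat_lit 0) (nat_lit 1976) (XT.lf (nat_lit 0) (nat_lit 756218527547) (nat_lit 152) (nat_lit 1546598311217) (nat_lit 0) (nat_lit 546828374409) (nat_lit 1) (nat_lit 5) (nat_lit 3) (nat_lit 4) (nat_lit 1) (nat_lit 4) (nat_lit 254) (nat_lit 218) (nat_lit 128)) (XT.lf (nat_lit 0) (nat_lit 2386988073) (nat_lit 532) (nat_lit 13479543587) (nat_lit 532) (nat_lit 13479543587)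 (nat_lit 27) (nat_lit 3) (nat_lit 34) (nat_lit 3) (nat_lit 34) (nat_lit 5) (nat_lit 219) (nat_lit 219) (nat_lit 162))) (XT.nd (nat_lit 78) (nat_lit 0) (nat_lit 0) (XT.lf (nat_lit 0) (nat_lit 5863564620) (nat_lit 456) (nat_lit 45959164182) (nat_lit 532) (nat_lit 11212572573) (nat_lit 28) (nat_lit 5) (nat_lit 34) (nat_lit 5) (nat_lit 35) (nat_lit 5) (nat_lit 220) (nat_lit 219) (nat_lit 161)) (XT.nd (nat_lit 78) (nat_lit 0) (nat_lit 76) (XT.lf (nat_lit 76) (nat_lit 505781678) (nat_lit 0) (nat_lit 8300612068) (nat_lit 532) (nat_lit 59088389184) (nat_lit 29) (nat_lit 5) (nat_lit 28) (nat_lit 5) (nat_lit 35) (nat_lit 5) (nat_lit 221) (nat_lit 219) (nat_lit 160)) (XT.lf (nat_lit 0) (nat_lit 14562893026) (nat_lit 456) (nat_lit 17695056357) (nat_lit 532) (nat_lit 41035494396) (nat_lit 29) (nat_lit 5) (nat_lit 35) (nat_lit 5) (nat_lit 36) (nat_lit 5) (nat_lit 222) (nat_lit 219) (nat_lit 159))))))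 (XT.nd (nat_lit 312) (nat_lit 684) (nat_lit 0) (XT.nd (nat_lit 156) (nat_lit 228) (nat_lit 0) (XT.nd (nat_lit 78) (nat_lit 456) (nat_lit 0) (XT.lf (nat_lit 0) (nat_lit 22855483210) (nat_lit 456) (nat_lit 38573161954) (nat_lit 76) (nat_lit 17939481242) (nat_lit 30) (nat_lit 5) (nat_lit 36) (nat_lit 5) (nat_lit 31) (nat_lit 5) (nat_lit 223) (nat_lit 219) (nat_lit 158)) (XT.lf (nat_lit 0) (nat_lit 23062083868) (nat_lit 456) (nat_lit 11301683287) (nat_lit 532) (nat_lit 51832527622) (nat_lit 24) (nat_lit 5) (nat_lit 30) (nat_lit 5) (nat_lit 31) (nat_lit 5) (nat_lit 224) (nat_lit 219) (nat_lit 157))) (XT.nd (nat_lit 78) (nat_lit 0) (nat_lit 0) (XT.lf (nat_lit 0) (nat_lit 1234365443) (nat_lit 228) (nat_lit 48657212725) (nat_lit 304) (nat_lit 43973671624) (nat_lit 21) (nat_lit 5) (nat_lit 24) (nat_lit 5) (nat_lit 25) (nat_lit 5) (nat_lit 225) (nat_lit 219) (nat_lit 156)) (XT.lf (nat_lit 0) (nat_lit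 70101586180) (nat_lit 304) (nat_lit 23977070147) (nat_lit 76) (nat_lit 8417670700) (nat_lit 21) (nat_lit 5) (nat_lit 25) (nat_lit 5) (nat_lit 22) (nat_lit 5) (nat_lit 226) (nat_lit 219) (nat_lit 155)))) (XT.nd (nat_lit 156) (nat_lit 304) (nat_lit 0) (XT.nd (nat_lit 78) (nat_lit 228) (nat_lit 0) (XT.lf (nat_lit 0) (nat_lit 56450124265) (nat_lit 152) (nat_lit 39593873392) (nat_lit 228) (nat_lit 16162014270) (nat_lit 19) (nat_lit 5) (nat_lit 21) (nat_lit 5) (nat_lit 22) (nat_lit 5) (nat_lit 227) (nat_lit 219) (nat_lit 154)) (XT.lf (nat_lit 0) (nat_lit 4370234216) (nat_lit 228) (nat_lit 95430617595) (nat_lit 76) (nat_lit 23407295288) (nat_lit 16) (nat_lit 5) (nat_lit 19) (nat_lit 5) (nat_lit 17) (nat_lit 5) (nat_lit 228) (nat_lit 219) (nat_lit 153))) (XT.nd (nat_lit 78) (nat_lit 304) (nat_lit 0) (XT.lf (nat_lit 0) (nat_lit 29811011921) (nat_lit 228) (nat_lit 10100256341) (nat_lit 76) (nat_lit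 95692910581) (nat_lit 16) (nat_lit 5) (nat_lit 19) (nat_lit 5) (nat_lit 17) (nat_lit 5) (nat_lit 229) (nat_lit 219) (nat_lit 152)) (XT.nd (nat_lit 78) (nat_lit 152) (nat_lit 0) (XT.lf (nat_lit 0) (nat_lit 62049067249) (nat_lit 228) (nat_lit 57773168181) (nat_lit 76) (nat_lit 29798898154) (nat_lit 14) (nat_lit 5) (nat_lit 17) (nat_lit 5) (nat_lit 15) (nat_lit 5) (nat_lit 230) (nat_lit 219) (nat_lit 151)) (XT.lf (nat_lit 0) (nat_lit 45126653394) (nat_lit 152) (nat_lit 56485404915) (nat_lit 228) (nat_lit 63929444699) (nat_lit 12) (nat_lit 5) (nat_lit 14) (nat_lit 5) (nat_lit 15) (nat_lit 5) (nat_lit 231) (nat_lit 219) (nat_lit 150))))))))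
noncomputable def xc50 : XT := (XT.nd (nat_lit 1326) (nat_lit 152) (nat_lit 0) (XT.nd (nat_lit 624) (nat_lit 152) (nat_lit 0) (XT.nd (nat_lit 312) (nat_lit 228) (nat_lit 0) (XT.nd (nat_lit 156) (nat_lit 152) (nat_lit 0) (XT.nd (nat_lit 78) (nat_lit 152) (nat_lit 0) (XT.lf (nat_lit 0) (nat_lit 149226989113) (nat_lit 228) (nat_lit 17194460200) (nat_lit 76) (nat_lit 17259087653) (nat_lit 12) (nat_lit 5) (nat_lit 15) (nat_lit 5) (nat_lit 13) (nat_lit 4) (nat_lit 232) (nat_lit 219) (nat_lit 149)) (XT.lf (nat_lit 0) (nat_lit 3669040660) (nat_lit 152) (nat_lit 99098236217) (nat_lit 76) (nat_lit 101438427728) (nat_lit 10) (nat_lit 5) (nat_lit 12) (nat_lit 5) (nat_lit 11) (nat_lit 5) (nat_lit 233) (nat_lit 219) (nat_lit 148))) (XT.nd (nat_lit 78) (nat_lit 0) (nat_lit 0) (XT.lf (nat_lit 0) (nat_lit 19009580964) (nat_lit 152) (nat_lit 27488000753) (nat_lit 228) (nat_lit 181158271870) (nat_lit 8)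 (nat_lit 5) (nat_lit 10) (nat_lit 5) (nat_lit 11) (nat_lit 5) (nat_lit 234) (nat_lit 219) (nat_lit 147)) (XT.lf (nat_lit 0) (nat_lit 100130349057) (nat_lit 228) (nat_lit 95055655200) (nat_lit 76) (nat_lit 59087130165) (nat_lit 8) (nat_lit 5) (nat_lit 11) (nat_lit 5) (nat_lit 9) (nat_lit 4) (nat_lit 235) (nat_lit 219) (nat_lit 146)))) (XT.nd (nat_lit 156) (nat_lit 152) (nat_lit 0) (XT.nd (nat_lit 78) (nat_lit 0) (nat_lit 0) (XT.lf (nat_lit 0) (nat_lit 36644946395) (nat_lit 76) (nat_lit 126803704787) (nat_lit 152) (nat_lit 121303111077) (nat_lit 7) (nat_lit 5) (nat_lit 8) (nat_lit 5) (nat_lit 9) (nat_lit 4) (nat_lit 236) (nat_lit 219) (nat_lit 145)) (XT.lf (nat_lit 0) (nat_lit 193855558861) (nat_lit 76) (nat_lit 45175730766) (nat_lit 152) (nat_lit 80549571232) (nat_lit 7) (nat_lit 5) (nat_lit 8) (nat_lit 5) (nat_lit 9) (nat_lit 4) (nat_lit 237) (nat_lit 219) (nat_lit 144))) (XT.nd (nat_lit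 78) (nat_lit 76) (nat_lit 0) (XT.lf (nat_lit 0) (nat_lit 14569898185) (nat_lit 76) (nat_lit 312902230970) (nat_lit 76) (nat_lit 32040534033) (nat_lit 6) (nat_lit 4) (nat_lit 7) (nat_lit 5) (nat_lit 7) (nat_lit 4) (nat_lit 238) (nat_lit 219) (nat_lit 143)) (XT.lf (nat_lit 0) (nat_lit 27561223620) (nat_lit 152) (nat_lit 223535244825) (nat_lit 76) (nat_lit 153891750667) (nat_lit 5) (nat_lit 5) (nat_lit 7) (nat_lit 5) (nat_lit 6) (nat_lit 4) (nat_lit 239) (nat_lit 219) (nat_lit 142))))) (XT.nd (nat_lit 312) (nat_lit 76) (nat_lit 0) (XT.nd (nat_lit 156) (nat_lit 0) (nat_lit 0) (XT.nd (nat_lit 78) (nat_lit 76) (nat_lit 0) (XT.lf (nat_lit 0) (nat_lit 94259418275) (nat_lit 152) (nat_lit 84803776481) (nat_lit 76) (nat_lit 278151071850) (nat_lit 5) (nat_lit 5) (nat_lit 7) (nat_lit 5) (nat_lit 6) (nat_lit 4) (nat_lit 240) (nat_lit 219) (nat_lit 141)) (XT.lf (nat_lit 0) (nat_lit 78672020043) (nat_lit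 76) (nat_lit 94181855816) (nat_lit 152) (nat_lit 344269024714) (nat_lit 4) (nat_lit 5) (nat_lit 5) (nat_lit 5) (nat_lit 6) (nat_lit 4) (nat_lit 241) (nat_lit 219) (nat_lit 140))) (XT.nd (nat_lit 78) (nat_lit 0) (nat_lit 0) (XT.lf (nat_lit 0) (nat_lit 265852645487) (nat_lit 152) (nat_lit 314163170564) (nat_lit 0) (nat_lit 5792803894) (nat_lit 4) (nat_lit 5) (nat_lit 6) (nat_lit 4) (nat_lit 4) (nat_lit 4) (nat_lit 242) (nat_lit 219) (nat_lit 139)) (XT.lf (nat_lit 0) (nat_lit 375405643063) (nat_lit 152) (nat_lit 173837874004) (nat_lit 0) (nat_lit 115345328705) (nat_lit 4) (nat_lit 5) (nat_lit 6) (nat_lit 4) (nat_lit 4) (nat_lit 4) (nat_lit 243) (nat_lit 219) (nat_lit 138)))) (XT.nd (nat_lit 156) (nat_lit 0) (nat_lit 0) (XT.nd (nat_lit 78) (nat_lit 76) (nat_lit 0) (XT.lf (nat_lit 0) (nat_lit 501391220903) (nat_lit 152) (nat_lit 12464420019) (nat_lit 0) (nat_lit 241330495445) (nat_lit 4)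 (nat_lit 5) (nat_lit 6) (nat_lit 4) (nat_lit 4) (nat_lit 4) (nat_lit 244) (nat_lit 219) (nat_lit 137)) (XT.lf (nat_lit 0) (nat_lit 182230400781) (nat_lit 76) (nat_lit 468426558967) (nat_lit 76) (nat_lit 208365476031) (nat_lit 3) (nat_lit 4) (nat_lit 4) (nat_lit 5) (nat_lit 4) (nat_lit 4) (nat_lit 245) (nat_lit 219) (nat_lit 136))) (XT.nd (nat_lit 78) (nat_lit 0) (nat_lit 0) (XT.lf (nat_lit 0) (nat_lit 406883745037) (nat_lit 76) (nat_lit 415791411067) (nat_lit 76) (nat_lit 155730017280) (nat_lit 3) (nat_lit 4) (nat_lit 4) (nat_lit 5) (nat_lit 4) (nat_lit 4) (nat_lit 246) (nat_lit 219) (nat_lit 135)) (XT.nd (nat_lit 78) (nat_lit 0) (nat_lit 0) (XT.lf (nat_lit 0) (nat_lit 665234649998) (nat_lit 76) (nat_lit 355261178445) (nat_lit 76) (nat_lit 95199514353) (nat_lit 3) (nat_lit 4) (nat_lit 4) (nat_lit 5) (nat_lit 4) (nat_lit 4) (nat_lit 247) (nat_lit 219) (nat_lit 134)) (XT.lf (nat_lit 0)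 (nat_lit 962337807280) (nat_lit 76) (nat_lit 285651573940) (nat_lit 76) (nat_lit 25589674800) (nat_lit 3) (nat_lit 4) (nat_lit 4) (nat_lit 5) (nat_lit 4) (nat_lit 4) (nat_lit 248) (nat_lit 219) (nat_lit 133))))))) (XT.nd (nat_lit 29250) (nat_lit 0) (nat_lit 988) (XT.nd (nat_lit 312) (nat_lit 0) (nat_lit 0) (XT.nd (nat_lit 156) (nat_lit 0) (nat_lit 0) (XT.nd (nat_lit 78) (nat_lit 76) (nat_lit 0) (XT.lf (nat_lit 0) (nat_lit 51737051571) (nat_lit 152) (nat_lit 152449036260) (nat_lit 76) (nat_lit 1250854470498) (nat_lit 2) (nat_lit 5) (nat_lit 4) (nat_lit 5) (nat_lit 3) (nat_lit 4) (nat_lit 249) (nat_lit 219) (nat_lit 132)) (XT.lf (nat_lit 0) (nat_lit 31004954872) (nat_lit 76) (nat_lit 108931216344) (nat_lit 152) (nat_lit 1523668855667) (nat_lit 1) (nat_lit 5) (nat_lit 2) (nat_lit 5) (nat_lit 3) (nat_lit 4) (nat_lit 250) (nat_lit 219) (nat_lit 131))) (XT.nd (nat_lit 78) (nat_lit 0) (nat_lit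 0) (XT.lf (nat_lit 0) (nat_lit 245933388582) (nat_lit 152) (nat_lit 1652020482318) (nat_lit 0) (nat_lit 5134836908) (nat_lit 1) (nat_lit 5) (nat_lit 3) (nat_lit 4) (nat_lit 1) (nat_lit 4) (nat_lit 251) (nat_lit 219) (nat_lit 130)) (XT.lf (nat_lit 0) (nat_lit 370842818759) (nat_lit 152) (nat_lit 1677366969452) (nat_lit 0) (nat_lit 130044142651) (nat_lit 1) (nat_lit 5) (nat_lit 3) (nat_lit 4) (nat_lit 1) (nat_lit 4) (nat_lit 252) (nat_lit 219) (nat_lit 129)))) (XT.nd (nat_lit 28704) (nat_lit 0) (nat_lit 1976) (XT.nd (nat_lit 78) (nat_lit 0) (nat_lit 0) (XT.lf (nat_lit 0) (nat_lit 514488543532) (nat_lit 152) (nat_lit 1706515644572) (nat_lit 0) (nat_lit 273689759220) (nat_lit 1) (nat_lit 5) (nat_lit 3) (nat_lit 4) (nat_lit 1) (nat_lit 4) (nat_lit 253) (nat_lit 219) (nat_lit 128)) (XT.lf (nat_lit 0) (nat_lit 679681022732) (nat_lit 152) (nat_lit 1740036807844) (nat_lit 0) (nat_lit 438882144330)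 (nat_lit 1) (nat_lit 5) (nat_lit 3) (nat_lit 4) (nat_lit 1) (nat_lit 4) (nat_lit 254) (nat_lit 219) (nat_lit 127))) (XT.nd (nat_lit 78) (nat_lit 0) (nat_lit 76) (XT.lf (nat_lit 0) (nat_lit 2773432756) (nat_lit 532) (nat_lit 15486027348) (nat_lit 532) (nat_lit 15486027348) (nat_lit 27) (nat_lit 3) (nat_lit 34) (nat_lit 3) (nat_lit 34) (nat_lit 5) (nat_lit 220) (nat_lit 220) (nat_lit 160)) (XT.nd (nat_lit 78) (nat_lit 0) (nat_lit 0) (XT.lf (nat_lit 0) (nat_lit 6792640698) (nat_lit 456) (nat_lit 52819833844) (nat_lit 532) (nat_lit 12873763315) (nat_lit 28) (nat_lit 5) (nat_lit 34) (nat_lit 5) (nat_lit 35) (nat_lit 5) (nat_lit 221) (nat_lit 220) (nat_lit 159)) (XT.lf (nat_lit 76) (nat_lit 612043261) (nat_lit 0) (nat_lit 9559119996) (nat_lit 532) (nat_lit 67903988437) (nat_lit 29) (nat_lit 5) (nat_lit 28) (nat_lit 5) (nat_lit 35) (nat_lit 5) (nat_lit 222) (nat_lit 220) (nat_lit 158))))))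 (XT.nd (nat_lit 312) (nat_lit 532) (nat_lit 0) (XT.nd (nat_lit 156) (nat_lit 608) (nat_lit 0) (XT.nd (nat_lit 78) (nat_lit 0) (nat_lit 76) (XT.lf (nat_lit 0) (nat_lit 16785142451) (nat_lit 456) (nat_lit 20319257711) (nat_lit 532) (nat_lit 47179735955) (nat_lit 29) (nat_lit 5) (nat_lit 35) (nat_lit 5) (nat_lit 36) (nat_lit 5) (nat_lit 223) (nat_lit 220) (nat_lit 157)) (XT.lf (nat_lit 0) (nat_lit 26317205331) (nat_lit 456) (nat_lit 44328534699) (nat_lit 76) (nat_lit 20624673374) (nat_lit 30) (nat_lit 5) (nat_lit 36) (nat_lit 5) (nat_lit 31) (nat_lit 5) (nat_lit 224) (nat_lit 220) (nat_lit 156))) (XT.nd (nat_lit 78) (nat_lit 228) (nat_lit 0) (XT.lf (nat_lit 0) (nat_lit 26549407728) (nat_lit 456) (nat_lit 12998641338) (nat_lit 532) (nat_lit 59575086502) (nat_lit 24) (nat_lit 5) (nat_lit 30) (nat_lit 5) (nat_lit 31) (nat_lit 5) (nat_lit 225) (nat_lit 220) (nat_lit 155)) (XT.lf (nat_lit 0)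 (nat_lit 1447581130) (nat_lit 228) (nat_lit 55954213687) (nat_lit 304) (nat_lit 50540927459) (nat_lit 21) (nat_lit 5) (nat_lit 24) (nat_lit 5) (nat_lit 25) (nat_lit 5) (nat_lit 226) (nat_lit 220) (nat_lit 154)))) (XT.nd (nat_lit 156) (nat_lit 380) (nat_lit 0) (XT.nd (nat_lit 78) (nat_lit 152) (nat_lit 0) (XT.lf (nat_lit 0) (nat_lit 80639883190) (nat_lit 304) (nat_lit 27547249945) (nat_lit 76) (nat_lit 9681627272) (nat_lit 21) (nat_lit 5) (nat_lit 25) (nat_lit 5) (nat_lit 22) (nat_lit 5) (nat_lit 227) (nat_lit 220) (nat_lit 153)) (XT.lf (nat_lit 0) (nat_lit 64941790632) (nat_lit 152) (nat_lit 45529438803) (nat_lit 228) (nat_lit 18563885059) (nat_lit 19) (nat_lit 5) (nat_lit 21) (nat_lit 5) (nat_lit 22) (nat_lit 5) (nat_lit 228) (nat_lit 220) (nat_lit 152))) (XT.nd (nat_lit 78) (nat_lit 152) (nat_lit 0) (XT.lf (nat_lit 0) (nat_lit 5044958689) (nat_lit 228) (nat_lit 109720406795) (nat_lit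 76) (nat_lit 26922348846) (nat_lit 16) (nat_lit 5) (nat_lit 19) (nat_lit 5) (nat_lit 17) (nat_lit 5) (nat_lit 229) (nat_lit 220) (nat_lit 151)) (XT.nd (nat_lit 78) (nat_lit 152) (nat_lit 0) (XT.lf (nat_lit 0) (nat_lit 34299350092) (nat_lit 228) (nat_lit 11593726583) (nat_lit 76) (nat_lit 110050290008) (nat_lit 16) (nat_lit 5) (nat_lit 19) (nat_lit 5) (nat_lit 17) (nat_lit 5) (nat_lit 230) (nat_lit 220) (nat_lit 150)) (XT.lf (nat_lit 0) (nat_lit 71371526470) (nat_lit 228) (nat_lit 66418225991) (nat_lit 76) (nat_lit 34273252730) (nat_lit 14) (nat_lit 5) (nat_lit 17) (nat_lit 5) (nat_lit 15) (nat_lit 5) (nat_lit 231) (nat_lit 220) (nat_lit 149))))))))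
noncomputable def xc51 : XT := (XT.nd (nat_lit 1404) (nat_lit 152) (nat_lit 0) (XT.nd (nat_lit 702) (nat_lit 152) (nat_lit 0) (XT.nd (nat_lit 312) (nat_lit 228) (nat_lit 0) (XT.nd (nat_lit 156) (nat_lit 304) (nat_lit 0) (XT.nd (nat_lit 78) (nat_lit 0) (nat_lit 0) (XT.lf (nat_lit 0) (nat_lit 51914798266) (nat_lit 152) (nat_lit 64952658955) (nat_lit 228) (nat_lit 73504105331) (nat_lit 12) (nat_lit 5) (nat_lit 14) (nat_lit 5) (nat_lit 15) (nat_lit 5) (nat_lit 232) (nat_lit 220) (nat_lit 148)) (XT.lf (nat_lit 0) (nat_lit 171622971222) (nat_lit 228) (nat_lit 19756082158) (nat_lit 76) (nat_lit 19852541000) (nat_lit 12) (nat_lit 5) (nat_lit 15) (nat_lit 5) (nat_lit 13) (nat_lit 4) (nat_lit 233) (nat_lit 220) (nat_lit 147))) (XT.nd (nat_lit 78) (nat_lit 152) (nat_lit 0) (XT.lf (nat_lit 0) (nat_lit 4230496311) (nat_lit 152) (nat_lit 113946270270) (nat_lit 76) (nat_lit 116658850654) (nat_lit 10)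 (nat_lit 5) (nat_lit 12) (nat_lit 5) (nat_lit 11) (nat_lit 5) (nat_lit 234) (nat_lit 220) (nat_lit 146)) (XT.lf (nat_lit 0) (nat_lit 21876305800) (nat_lit 152) (nat_lit 31605932628) (nat_lit 228) (nat_lit 208321143729) (nat_lit 8) (nat_lit 5) (nat_lit 10) (nat_lit 5) (nat_lit 11) (nat_lit 5) (nat_lit 235) (nat_lit 220) (nat_lit 145)))) (XT.nd (nat_lit 156) (nat_lit 152) (nat_lit 0) (XT.nd (nat_lit 78) (nat_lit 76) (nat_lit 0) (XT.lf (nat_lit 0) (nat_lit 115158724160) (nat_lit 228) (nat_lit 109300081343) (nat_lit 76) (nat_lit 67954551602) (nat_lit 8) (nat_lit 5) (nat_lit 11) (nat_lit 5) (nat_lit 9) (nat_lit 4) (nat_lit 236) (nat_lit 220) (nat_lit 144)) (XT.lf (nat_lit 0) (nat_lit 42154432052) (nat_lit 76) (nat_lit 145819495245) (nat_lit 152) (nat_lit 139489924798) (nat_lit 7) (nat_lit 5) (nat_lit 8) (nat_lit 5) (nat_lit 9) (nat_lit 4) (nat_lit 237) (nat_lit 220) (nat_lit 143))) (XT.nd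 (nat_lit 78) (nat_lit 152) (nat_lit 0) (XT.lf (nat_lit 0) (nat_lit 222944974166) (nat_lit 76) (nat_lit 51947946676) (nat_lit 152) (nat_lit 92624482622) (nat_lit 7) (nat_lit 5) (nat_lit 8) (nat_lit 5) (nat_lit 9) (nat_lit 4) (nat_lit 238) (nat_lit 220) (nat_lit 142)) (XT.nd (nat_lit 78) (nat_lit 76) (nat_lit 0) (XT.lf (nat_lit 0) (nat_lit 16765972054) (nat_lit 76) (nat_lit 359833350646) (nat_lit 76) (nat_lit 36839702639) (nat_lit 6) (nat_lit 4) (nat_lit 7) (nat_lit 5) (nat_lit 7) (nat_lit 4) (nat_lit 239) (nat_lit 220) (nat_lit 141)) (XT.lf (nat_lit 0) (nat_lit 31701116518) (nat_lit 152) (nat_lit 257056000899) (nat_lit 76) (nat_lit 176978855758) (nat_lit 5) (nat_lit 5) (nat_lit 7) (nat_lit 5) (nat_lit 6) (nat_lit 4) (nat_lit 240) (nat_lit 220) (nat_lit 140)))))) (XT.nd (nat_lit 312) (nat_lit 76) (nat_lit 0) (XT.nd (nat_lit 156) (nat_lit 0) (nat_lit 0) (XT.nd (nat_lit 78) (nat_lit 76)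 (nat_lit 0) (XT.lf (nat_lit 0) (nat_lit 108403295672) (nat_lit 152) (nat_lit 97516055432) (nat_lit 76) (nat_lit 319876639141) (nat_lit 5) (nat_lit 5) (nat_lit 7) (nat_lit 5) (nat_lit 6) (nat_lit 4) (nat_lit 241) (nat_lit 220) (nat_lit 139)) (XT.lf (nat_lit 0) (nat_lit 90480409074) (nat_lit 76) (nat_lit 108306047701) (nat_lit 152) (nat_lit 395904502245) (nat_lit 4) (nat_lit 5) (nat_lit 5) (nat_lit 5) (nat_lit 6) (nat_lit 4) (nat_lit 242) (nat_lit 220) (nat_lit 138))) (XT.nd (nat_lit 78) (nat_lit 0) (nat_lit 0) (XT.lf (nat_lit 0) (nat_lit 305734519498) (nat_lit 152) (nat_lit 361280786641) (nat_lit 0) (nat_lit 6664274121) (nat_lit 4) (nat_lit 5) (nat_lit 6) (nat_lit 4) (nat_lit 4) (nat_lit 4) (nat_lit 243) (nat_lit 220) (nat_lit 137)) (XT.lf (nat_lit 0) (nat_lit 431719947947) (nat_lit 152) (nat_lit 199907590315) (nat_lit 0) (nat_lit 132649345091) (nat_lit 4) (nat_lit 5) (nat_lit 6) (nat_lit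 4) (nat_lit 4) (nat_lit 4) (nat_lit 244) (nat_lit 220) (nat_lit 136)))) (XT.nd (nat_lit 156) (nat_lit 0) (nat_lit 0) (XT.nd (nat_lit 78) (nat_lit 76) (nat_lit 0) (XT.lf (nat_lit 0) (nat_lit 576602911364) (nat_lit 152) (nat_lit 14328896249) (nat_lit 0) (nat_lit 277531997658) (nat_lit 4) (nat_lit 5) (nat_lit 6) (nat_lit 4) (nat_lit 4) (nat_lit 4) (nat_lit 245) (nat_lit 220) (nat_lit 135)) (XT.lf (nat_lit 0) (nat_lit 209569708637) (nat_lit 76) (nat_lit 538688524322) (nat_lit 76) (nat_lit 239617340311) (nat_lit 3) (nat_lit 4) (nat_lit 4) (nat_lit 5) (nat_lit 4) (nat_lit 4) (nat_lit 246) (nat_lit 220) (nat_lit 134))) (XT.nd (nat_lit 78) (nat_lit 0) (nat_lit 0) (XT.lf (nat_lit 0) (nat_lit 467920435262) (nat_lit 76) (nat_lit 478158367519) (nat_lit 76) (nat_lit 179086948460) (nat_lit 3) (nat_lit 4) (nat_lit 4) (nat_lit 5) (nat_lit 4) (nat_lit 4) (nat_lit 247) (nat_lit 220) (nat_lit 133)) (XT.nd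 (nat_lit 78) (nat_lit 0) (nat_lit 0) (XT.lf (nat_lit 0) (nat_lit 765023437470) (nat_lit 76) (nat_lit 408548828943) (nat_lit 76) (nat_lit 109477205495) (nat_lit 3) (nat_lit 4) (nat_lit 4) (nat_lit 5) (nat_lit 4) (nat_lit 4) (nat_lit 248) (nat_lit 220) (nat_lit 132)) (XT.lf (nat_lit 0) (nat_lit 1106691600088) (nat_lit 76) (nat_lit 328497982841) (nat_lit 76) (nat_lit 29426181663) (nat_lit 3) (nat_lit 4) (nat_lit 4) (nat_lit 5) (nat_lit 4) (nat_lit 4) (nat_lit 249) (nat_lit 220) (nat_lit 131))))))) (XT.nd (nat_lit 29328) (nat_lit 0) (nat_lit 836) (XT.nd (nat_lit 312) (nat_lit 0) (nat_lit 0) (XT.nd (nat_lit 156) (nat_lit 0) (nat_lit 0) (XT.nd (nat_lit 78) (nat_lit 76) (nat_lit 0) (XT.lf (nat_lit 0) (nat_lit 59499215474) (nat_lit 152) (nat_lit 175313587538) (nat_lit 76) (nat_lit 1438483705525) (nat_lit 2) (nat_lit 5) (nat_lit 4) (nat_lit 5) (nat_lit 3) (nat_lit 4) (nat_lit 250) (nat_lit 220)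 (nat_lit 130)) (XT.lf (nat_lit 0) (nat_lit 35658264905) (nat_lit 76) (nat_lit 125269790392) (nat_lit 152) (nat_lit 1752217604557) (nat_lit 1) (nat_lit 5) (nat_lit 2) (nat_lit 5) (nat_lit 3) (nat_lit 4) (nat_lit 251) (nat_lit 220) (nat_lit 129))) (XT.nd (nat_lit 78) (nat_lit 0) (nat_lit 0) (XT.lf (nat_lit 0) (nat_lit 282824688222) (nat_lit 152) (nat_lit 1899821240573) (nat_lit 0) (nat_lit 5905978059) (nat_lit 1) (nat_lit 5) (nat_lit 3) (nat_lit 4) (nat_lit 1) (nat_lit 4) (nat_lit 252) (nat_lit 220) (nat_lit 128)) (XT.lf (nat_lit 0) (nat_lit 426470364489) (nat_lit 152) (nat_lit 1928970002615) (nat_lit 0) (nat_lit 149551560235) (nat_lit 1) (nat_lit 5) (nat_lit 3) (nat_lit 4) (nat_lit 1) (nat_lit 4) (nat_lit 253) (nat_lit 220) (nat_lit 127)))) (XT.nd (nat_lit 28782) (nat_lit 0) (nat_lit 2052) (XT.nd (nat_lit 28704) (nat_lit 0) (nat_lit 1976) (XT.lf (nat_lit 0) (nat_lit 591662801510) (nat_lit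 152) (nat_lit 1962491241471) (nat_lit 0) (nat_lit 314743915439) (nat_lit 1) (nat_lit 5) (nat_lit 3) (nat_lit 4) (nat_lit 1) (nat_lit 4) (nat_lit 254) (nat_lit 220) (nat_lit 126)) (XT.lf (nat_lit 0) (nat_lit 3210919481) (nat_lit 532) (nat_lit 17797250712) (nat_lit 532) (nat_lit 17797250712) (nat_lit 27) (nat_lit 3) (nat_lit 34) (nat_lit 3) (nat_lit 34) (nat_lit 5) (nat_lit 221) (nat_lit 221) (nat_lit 158))) (XT.nd (nat_lit 78) (nat_lit 0) (nat_lit 0) (XT.lf (nat_lit 0) (nat_lit 7848997206) (nat_lit 456) (nat_lit 60717701196) (nat_lit 532) (nat_lit 14789179310) (nat_lit 28) (nat_lit 5) (nat_lit 34) (nat_lit 5) (nat_lit 35) (nat_lit 5) (nat_lit 222) (nat_lit 221) (nat_lit 157)) (XT.nd (nat_lit 78) (nat_lit 0) (nat_lit 76) (XT.lf (nat_lit 76) (nat_lit 726832231) (nat_lit 0) (nat_lit 11003132508) (nat_lit 532) (nat_lit 78053549558) (nat_lit 29) (nat_lit 5) (nat_lit 28) (nat_lit 5) (nat_lit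 35) (nat_lit 5) (nat_lit 223) (nat_lit 221) (nat_lit 156)) (XT.lf (nat_lit 0) (nat_lit 19331507747) (nat_lit 456) (nat_lit 23344418883) (nat_lit 532) (nat_lit 54248316311) (nat_lit 29) (nat_lit 5) (nat_lit 35) (nat_lit 5) (nat_lit 36) (nat_lit 5) (nat_lit 224) (nat_lit 221) (nat_lit 155)))))) (XT.nd (nat_lit 312) (nat_lit 684) (nat_lit 0) (XT.nd (nat_lit 156) (nat_lit 228) (nat_lit 0) (XT.nd (nat_lit 78) (nat_lit 456) (nat_lit 0) (XT.lf (nat_lit 0) (nat_lit 30290041057) (nat_lit 456) (nat_lit 50954675737) (nat_lit 76) (nat_lit 23714041636) (nat_lit 30) (nat_lit 5) (nat_lit 36) (nat_lit 5) (nat_lit 31) (nat_lit 5) (nat_lit 225) (nat_lit 221) (nat_lit 154)) (XT.lf (nat_lit 0) (nat_lit 30552999439) (nat_lit 456) (nat_lit 14949727185) (nat_lit 532) (nat_lit 68486910715) (nat_lit 24) (nat_lit 5) (nat_lit 30) (nat_lit 5) (nat_lit 31) (nat_lit 5) (nat_lit 226) (nat_lit 221) (nat_lit 153)))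 (XT.nd (nat_lit 78) (nat_lit 0) (nat_lit 0) (XT.lf (nat_lit 0) (nat_lit 1685936349) (nat_lit 228) (nat_lit 64346150317) (nat_lit 304) (nat_lit 58100293490) (nat_lit 21) (nat_lit 5) (nat_lit 24) (nat_lit 5) (nat_lit 25) (nat_lit 5) (nat_lit 227) (nat_lit 221) (nat_lit 152)) (XT.lf (nat_lit 0) (nat_lit 92753301649) (nat_lit 304) (nat_lit 31659389818) (nat_lit 76) (nat_lit 11134858861) (nat_lit 21) (nat_lit 5) (nat_lit 25) (nat_lit 5) (nat_lit 22) (nat_lit 5) (nat_lit 228) (nat_lit 221) (nat_lit 151)))) (XT.nd (nat_lit 156) (nat_lit 304) (nat_lit 0) (XT.nd (nat_lit 78) (nat_lit 228) (nat_lit 0) (XT.lf (nat_lit 0) (nat_lit 74701318379) (nat_lit 152) (nat_lit 52356196326) (nat_lit 228) (nat_lit 21331506493) (nat_lit 19) (nat_lit 5) (nat_lit 21) (nat_lit 5) (nat_lit 22) (nat_lit 5) (nat_lit 229) (nat_lit 221) (nat_lit 150)) (XT.lf (nat_lit 0) (nat_lit 5816212391) (nat_lit 228) (nat_lit 126159712851)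 (nat_lit 76) (nat_lit 30963694947) (nat_lit 16) (nat_lit 5) (nat_lit 19) (nat_lit 5) (nat_lit 17) (nat_lit 5) (nat_lit 230) (nat_lit 221) (nat_lit 149))) (XT.nd (nat_lit 78) (nat_lit 304) (nat_lit 0) (XT.lf (nat_lit 0) (nat_lit 39456869908) (nat_lit 228) (nat_lit 13316476907) (nat_lit 76) (nat_lit 126560436790) (nat_lit 16) (nat_lit 5) (nat_lit 19) (nat_lit 5) (nat_lit 17) (nat_lit 5) (nat_lit 231) (nat_lit 221) (nat_lit 148)) (XT.nd (nat_lit 78) (nat_lit 152) (nat_lit 0) (XT.lf (nat_lit 0) (nat_lit 82088672555) (nat_lit 228) (nat_lit 76365143317) (nat_lit 76) (nat_lit 39417658297) (nat_lit 14) (nat_lit 5) (nat_lit 17) (nat_lit 5) (nat_lit 15) (nat_lit 5) (nat_lit 232) (nat_lit 221) (nat_lit 147)) (XT.lf (nat_lit 0) (nat_lit 59716495784) (nat_lit 152) (nat_lit 74691356136) (nat_lit 228) (nat_lit 84518563419) (nat_lit 12) (nat_lit 5) (nat_lit 14) (nat_lit 5) (nat_lit 15) (nat_lit 5) (nat_lit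 233) (nat_lit 221) (nat_lit 146))))))))
noncomputable def xc52 : XT := (XT.nd (nat_lit 1326) (nat_lit 152) (nat_lit 0) (XT.nd (nat_lit 624) (nat_lit 152) (nat_lit 0) (XT.nd (nat_lit 312) (nat_lit 228) (nat_lit 0) (XT.nd (nat_lit 156) (nat_lit 152) (nat_lit 0) (XT.nd (nat_lit 78) (nat_lit 152) (nat_lit 0) (XT.lf (nat_lit 0) (nat_lit 197375440528) (nat_lit 228) (nat_lit 22706226375) (nat_lit 76) (nat_lit 22833893000) (nat_lit 12) (nat_lit 5) (nat_lit 15) (nat_lit 5) (nat_lit 13) (nat_lit 4) (nat_lit 234) (nat_lit 221) (nat_lit 145)) (XT.lf (nat_lit 0) (nat_lit 4873463615) (nat_lit 152) (nat_lit 131025582168) (nat_lit 76) (nat_lit 134161200948) (nat_lit 10) (nat_lit 5) (nat_lit 12) (nat_lit 5) (nat_lit 11) (nat_lit 5) (nat_lit 235) (nat_lit 221) (nat_lit 144))) (XT.nd (nat_lit 78) (nat_lit 0) (nat_lit 0) (XT.lf (nat_lit 0) (nat_lit 25169311362) (nat_lit 152) (nat_lit 36342838978) (nat_lit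 228) (nat_lit 239561096822) (nat_lit 8) (nat_lit 5) (nat_lit 10) (nat_lit 5) (nat_lit 11) (nat_lit 5) (nat_lit 236) (nat_lit 221) (nat_lit 143)) (XT.lf (nat_lit 0) (nat_lit 132439204046) (nat_lit 228) (nat_lit 125684566408) (nat_lit 76) (nat_lit 78151025013) (nat_lit 8) (nat_lit 5) (nat_lit 11) (nat_lit 5) (nat_lit 9) (nat_lit 4) (nat_lit 237) (nat_lit 221) (nat_lit 142)))) (XT.nd (nat_lit 156) (nat_lit 152) (nat_lit 0) (XT.nd (nat_lit 78) (nat_lit 0) (nat_lit 0) (XT.lf (nat_lit 0) (nat_lit 48487232926) (nat_lit 76) (nat_lit 167688816310) (nat_lit 152) (nat_lit 160406870652) (nat_lit 7) (nat_lit 5) (nat_lit 8) (nat_lit 5) (nat_lit 9) (nat_lit 4) (nat_lit 238) (nat_lit 221) (nat_lit 141)) (XT.lf (nat_lit 0) (nat_lit 256395099479) (nat_lit 76) (nat_lit 59737005441) (nat_lit 152) (nat_lit 106512465567) (nat_lit 7) (nat_lit 5) (nat_lit 8) (nat_lit 5) (nat_lit 9) (nat_lit 4) (nat_lit 239)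 (nat_lit 221) (nat_lit 140))) (XT.nd (nat_lit 78) (nat_lit 76) (nat_lit 0) (XT.lf (nat_lit 0) (nat_lit 19288874774) (nat_lit 76) (nat_lit 413805166121) (nat_lit 76) (nat_lit 42360431949) (nat_lit 6) (nat_lit 4) (nat_lit 7) (nat_lit 5) (nat_lit 7) (nat_lit 4) (nat_lit 240) (nat_lit 221) (nat_lit 139)) (XT.lf (nat_lit 0) (nat_lit 36460601088) (nat_lit 152) (nat_lit 295607194494) (nat_lit 76) (nat_lit 203528211525) (nat_lit 5) (nat_lit 5) (nat_lit 7) (nat_lit 5) (nat_lit 6) (nat_lit 4) (nat_lit 241) (nat_lit 221) (nat_lit 138))))) (XT.nd (nat_lit 312) (nat_lit 76) (nat_lit 0) (XT.nd (nat_lit 156) (nat_lit 0) (nat_lit 0) (XT.nd (nat_lit 78) (nat_lit 76) (nat_lit 0) (XT.lf (nat_lit 0) (nat_lit 124667544016) (nat_lit 152) (nat_lit 112137197191) (nat_lit 76) (nat_lit 367860332754) (nat_lit 5) (nat_lit 5) (nat_lit 7) (nat_lit 5) (nat_lit 6) (nat_lit 4) (nat_lit 242) (nat_lit 221) (nat_lit 137))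 (XT.lf (nat_lit 0) (nat_lit 104058206558) (nat_lit 76) (nat_lit 124549621028) (nat_lit 152) (nat_lit 455286490492) (nat_lit 4) (nat_lit 5) (nat_lit 5) (nat_lit 5) (nat_lit 6) (nat_lit 4) (nat_lit 243) (nat_lit 221) (nat_lit 136))) (XT.nd (nat_lit 78) (nat_lit 0) (nat_lit 0) (XT.lf (nat_lit 0) (nat_lit 351597704748) (nat_lit 152) (nat_lit 415467717864) (nat_lit 0) (nat_lit 7665843135) (nat_lit 4) (nat_lit 5) (nat_lit 6) (nat_lit 4) (nat_lit 4) (nat_lit 4) (nat_lit 244) (nat_lit 221) (nat_lit 135)) (XT.lf (nat_lit 0) (nat_lit 496480555204) (nat_lit 152) (nat_lit 229889218625) (nat_lit 0) (nat_lit 152548423286) (nat_lit 4) (nat_lit 5) (nat_lit 6) (nat_lit 4) (nat_lit 4) (nat_lit 4) (nat_lit 245) (nat_lit 221) (nat_lit 134)))) (XT.nd (nat_lit 156) (nat_lit 0) (nat_lit 0) (XT.nd (nat_lit 78) (nat_lit 76) (nat_lit 0) (XT.lf (nat_lit 0) (nat_lit 663095622039) (nat_lit 152) (nat_lit 16474308741)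 (nat_lit 0) (nat_lit 319163255073) (nat_lit 4) (nat_lit 5) (nat_lit 6) (nat_lit 4) (nat_lit 4) (nat_lit 4) (nat_lit 246) (nat_lit 221) (nat_lit 133)) (XT.lf (nat_lit 0) (nat_lit 241008754905) (nat_lit 76) (nat_lit 619490276702) (nat_lit 76) (nat_lit 275557705347) (nat_lit 3) (nat_lit 4) (nat_lit 4) (nat_lit 5) (nat_lit 4) (nat_lit 4) (nat_lit 247) (nat_lit 221) (nat_lit 132))) (XT.nd (nat_lit 78) (nat_lit 0) (nat_lit 0) (XT.lf (nat_lit 0) (nat_lit 538111622266) (nat_lit 76) (nat_lit 549880795457) (nat_lit 76) (nat_lit 205948046372) (nat_lit 3) (nat_lit 4) (nat_lit 4) (nat_lit 5) (nat_lit 4) (nat_lit 4) (nat_lit 248) (nat_lit 221) (nat_lit 131)) (XT.nd (nat_lit 78) (nat_lit 0) (nat_lit 0) (XT.lf (nat_lit 0) (nat_lit 879779667625) (nat_lit 76) (nat_lit 469829999207) (nat_lit 76) (nat_lit 125897095574) (nat_lit 3) (nat_lit 4) (nat_lit 4) (nat_lit 5) (nat_lit 4) (nat_lit 4) (nat_lit 249)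 (nat_lit 221) (nat_lit 130)) (XT.lf (nat_lit 0) (nat_lit 1272697700566) (nat_lit 76) (nat_lit 377771676721) (nat_lit 76) (nat_lit 33838638699) (nat_lit 3) (nat_lit 4) (nat_lit 4) (nat_lit 5) (nat_lit 4) (nat_lit 4) (nat_lit 250) (nat_lit 221) (nat_lit 129))))))) (XT.nd (nat_lit 29406) (nat_lit 0) (nat_lit 836) (XT.nd (nat_lit 29016) (nat_lit 0) (nat_lit 1976) (XT.nd (nat_lit 156) (nat_lit 0) (nat_lit 0) (XT.nd (nat_lit 78) (nat_lit 76) (nat_lit 0) (XT.lf (nat_lit 0) (nat_lit 68425312289) (nat_lit 152) (nat_lit 201608505320) (nat_lit 76) (nat_lit 1654257066232) (nat_lit 2) (nat_lit 5) (nat_lit 4) (nat_lit 5) (nat_lit 3) (nat_lit 4) (nat_lit 251) (nat_lit 221) (nat_lit 128)) (XT.lf (nat_lit 0) (nat_lit 41008945513) (nat_lit 76) (nat_lit 144059420839) (nat_lit 152) (nat_lit 2015049050941) (nat_lit 1) (nat_lit 5) (nat_lit 2) (nat_lit 5) (nat_lit 3) (nat_lit 4) (nat_lit 252) (nat_lit 221)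 (nat_lit 127))) (XT.nd (nat_lit 78) (nat_lit 0) (nat_lit 0) (XT.lf (nat_lit 0) (nat_lit 325249367904) (nat_lit 152) (nat_lit 2184792676872) (nat_lit 0) (nat_lit 6792567104) (nat_lit 1) (nat_lit 5) (nat_lit 3) (nat_lit 4) (nat_lit 1) (nat_lit 4) (nat_lit 253) (nat_lit 221) (nat_lit 126)) (XT.lf (nat_lit 0) (nat_lit 490441768248) (nat_lit 152) (nat_lit 2218313981454) (nat_lit 0) (nat_lit 171984896302) (nat_lit 1) (nat_lit 5) (nat_lit 3) (nat_lit 4) (nat_lit 1) (nat_lit 4) (nat_lit 254) (nat_lit 221) (nat_lit 125)))) (XT.nd (nat_lit 156) (nat_lit 0) (nat_lit 76) (XT.nd (nat_lit 78) (nat_lit 0) (nat_lit 76) (XT.lf (nat_lit 0) (nat_lit 3708793178) (nat_lit 532) (nat_lit 20458006003) (nat_lit 532) (nat_lit 20458006003) (nat_lit 27) (nat_lit 3) (nat_lit 34) (nat_lit 3) (nat_lit 34) (nat_lit 5) (nat_lit 222) (nat_lit 222) (nat_lit 156)) (XT.lf (nat_lit 0) (nat_lit 9054672235) (nat_lit 456) (nat_lit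 69806371328) (nat_lit 532) (nat_lit 16995723690) (nat_lit 28) (nat_lit 5) (nat_lit 34) (nat_lit 5) (nat_lit 35) (nat_lit 5) (nat_lit 223) (nat_lit 222) (nat_lit 155))) (XT.nd (nat_lit 78) (nat_lit 0) (nat_lit 76) (XT.lf (nat_lit 76) (nat_lit 853235123) (nat_lit 0) (nat_lit 12661273094) (nat_lit 532) (nat_lit 89734332733) (nat_lit 29) (nat_lit 5) (nat_lit 28) (nat_lit 5) (nat_lit 35) (nat_lit 5) (nat_lit 224) (nat_lit 222) (nat_lit 154)) (XT.nd (nat_lit 78) (nat_lit 0) (nat_lit 76) (XT.lf (nat_lit 0) (nat_lit 22252855027) (nat_lit 456) (nat_lit 26828896471) (nat_lit 532) (nat_lit 62379227245) (nat_lit 29) (nat_lit 5) (nat_lit 35) (nat_lit 5) (nat_lit 36) (nat_lit 5) (nat_lit 225) (nat_lit 222) (nat_lit 153)) (XT.lf (nat_lit 0) (nat_lit 34852643568) (nat_lit 456) (nat_lit 58580380563) (nat_lit 76) (nat_lit 27267871704) (nat_lit 30) (nat_lit 5) (nat_lit 36) (nat_lit 5) (nat_lit 31) (nat_lit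 5) (nat_lit 226) (nat_lit 222) (nat_lit 152)))))) (XT.nd (nat_lit 312) (nat_lit 532) (nat_lit 0) (XT.nd (nat_lit 156) (nat_lit 152) (nat_lit 0) (XT.nd (nat_lit 78) (nat_lit 228) (nat_lit 0) (XT.lf (nat_lit 0) (nat_lit 35151964894) (nat_lit 456) (nat_lit 17193161420) (nat_lit 532) (nat_lit 78741468106) (nat_lit 24) (nat_lit 5) (nat_lit 30) (nat_lit 5) (nat_lit 31) (nat_lit 5) (nat_lit 227) (nat_lit 222) (nat_lit 151)) (XT.lf (nat_lit 0) (nat_lit 1954870695) (nat_lit 228) (nat_lit 73997168953) (nat_lit 304) (nat_lit 66798873931) (nat_lit 21) (nat_lit 5) (nat_lit 24) (nat_lit 5) (nat_lit 25) (nat_lit 5) (nat_lit 228) (nat_lit 222) (nat_lit 150))) (XT.nd (nat_lit 78) (nat_lit 152) (nat_lit 0) (XT.lf (nat_lit 0) (nat_lit 106679481002) (nat_lit 304) (nat_lit 36393215026) (nat_lit 76) (nat_lit 12805834381) (nat_lit 21) (nat_lit 5) (nat_lit 25) (nat_lit 5) (nat_lit 22) (nat_lit 5) (nat_lit 229)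 (nat_lit 222) (nat_lit 149)) (XT.lf (nat_lit 0) (nat_lit 85920322678) (nat_lit 152) (nat_lit 60207615720) (nat_lit 228) (nat_lit 24518407269) (nat_lit 19) (nat_lit 5) (nat_lit 21) (nat_lit 5) (nat_lit 22) (nat_lit 5) (nat_lit 230) (nat_lit 222) (nat_lit 148)))) (XT.nd (nat_lit 156) (nat_lit 304) (nat_lit 0) (XT.nd (nat_lit 78) (nat_lit 0) (nat_lit 0) (XT.lf (nat_lit 0) (nat_lit 6699615817) (nat_lit 228) (nat_lit 145069488331) (nat_lit 76) (nat_lit 35610512911) (nat_lit 16) (nat_lit 5) (nat_lit 19) (nat_lit 5) (nat_lit 17) (nat_lit 5) (nat_lit 231) (nat_lit 222) (nat_lit 147)) (XT.lf (nat_lit 0) (nat_lit 45384940888) (nat_lit 228) (nat_lit 15301616750) (nat_lit 76) (nat_lit 145546470763) (nat_lit 16) (nat_lit 5) (nat_lit 19) (nat_lit 5) (nat_lit 17) (nat_lit 5) (nat_lit 232) (nat_lit 222) (nat_lit 146))) (XT.nd (nat_lit 78) (nat_lit 152) (nat_lit 0) (XT.lf (nat_lit 0) (nat_lit 94410606418)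 (nat_lit 228) (nat_lit 87807955214) (nat_lit 76) (nat_lit 45332891282) (nat_lit 14) (nat_lit 5) (nat_lit 17) (nat_lit 5) (nat_lit 15) (nat_lit 5) (nat_lit 233) (nat_lit 222) (nat_lit 145)) (XT.nd (nat_lit 78) (nat_lit 0) (nat_lit 0) (XT.lf (nat_lit 0) (nat_lit 68684917433) (nat_lit 152) (nat_lit 85891882497) (nat_lit 228) (nat_lit 97187911099) (nat_lit 12) (nat_lit 5) (nat_lit 14) (nat_lit 5) (nat_lit 15) (nat_lit 5) (nat_lit 234) (nat_lit 222) (nat_lit 144)) (XT.lf (nat_lit 0) (nat_lit 226988579763) (nat_lit 228) (nat_lit 26102127736) (nat_lit 76) (nat_lit 26261601412) (nat_lit 12) (nat_lit 5) (nat_lit 15) (nat_lit 5) (nat_lit 13) (nat_lit 4) (nat_lit 235) (nat_lit 222) (nat_lit 143))))))))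
noncomputable def xc53 : XT := (XT.nd (nat_lit 1326) (nat_lit 76) (nat_lit 0) (XT.nd (nat_lit 624) (nat_lit 228) (nat_lit 0) (XT.nd (nat_lit 312) (nat_lit 152) (nat_lit 0) (XT.nd (nat_lit 156) (nat_lit 76) (nat_lit 0) (XT.nd (nat_lit 78) (nat_lit 152) (nat_lit 0) (XT.lf (nat_lit 0) (nat_lit 5610829362) (nat_lit 152) (nat_lit 150669870425) (nat_lit 76) (nat_lit 154288044755) (nat_lit 10) (nat_lit 5) (nat_lit 12) (nat_lit 5) (nat_lit 11) (nat_lit 5) (nat_lit 236) (nat_lit 222) (nat_lit 142)) (XT.lf (nat_lit 0) (nat_lit 28953448853) (nat_lit 152) (nat_lit 41791252693) (nat_lit 228) (nat_lit 275489047004) (nat_lit 8) (nat_lit 5) (nat_lit 10) (nat_lit 5) (nat_lit 11) (nat_lit 5) (nat_lit 237) (nat_lit 222) (nat_lit 141))) (XT.nd (nat_lit 78) (nat_lit 76) (nat_lit 0) (XT.lf (nat_lit 0) (nat_lit 152310129085) (nat_lit 228) (nat_lit 144529291342) (nat_lit 76) (nat_lit 89876166985) (nat_lit 8)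 (nat_lit 5) (nat_lit 11) (nat_lit 5) (nat_lit 9) (nat_lit 4) (nat_lit 238) (nat_lit 222) (nat_lit 140)) (XT.lf (nat_lit 0) (nat_lit 55767604115) (nat_lit 76) (nat_lit 192839414204) (nat_lit 152) (nat_lit 184462953904) (nat_lit 7) (nat_lit 5) (nat_lit 8) (nat_lit 5) (nat_lit 9) (nat_lit 4) (nat_lit 239) (nat_lit 222) (nat_lit 139)))) (XT.nd (nat_lit 156) (nat_lit 76) (nat_lit 0) (XT.nd (nat_lit 78) (nat_lit 76) (nat_lit 0) (XT.lf (nat_lit 0) (nat_lit 294860700271) (nat_lit 76) (nat_lit 68695187081) (nat_lit 152) (nat_lit 122485033361) (nat_lit 7) (nat_lit 5) (nat_lit 8) (nat_lit 5) (nat_lit 9) (nat_lit 4) (nat_lit 240) (nat_lit 222) (nat_lit 138)) (XT.lf (nat_lit 0) (nat_lit 22188260366) (nat_lit 76) (nat_lit 475873531116) (nat_lit 76) (nat_lit 48710545070) (nat_lit 6) (nat_lit 4) (nat_lit 7) (nat_lit 5) (nat_lit 7) (nat_lit 4) (nat_lit 241) (nat_lit 222) (nat_lit 137))) (XT.nd (nat_lit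 78) (nat_lit 0) (nat_lit 0) (XT.lf (nat_lit 0) (nat_lit 41932955593) (nat_lit 152) (nat_lit 339942824489) (nat_lit 76) (nat_lit 234059354333) (nat_lit 5) (nat_lit 5) (nat_lit 7) (nat_lit 5) (nat_lit 6) (nat_lit 4) (nat_lit 242) (nat_lit 222) (nat_lit 136)) (XT.lf (nat_lit 0) (nat_lit 143370514177) (nat_lit 152) (nat_lit 128953038352) (nat_lit 76) (nat_lit 423041044476) (nat_lit 5) (nat_lit 5) (nat_lit 7) (nat_lit 5) (nat_lit 6) (nat_lit 4) (nat_lit 243) (nat_lit 222) (nat_lit 135))))) (XT.nd (nat_lit 312) (nat_lit 152) (nat_lit 0) (XT.nd (nat_lit 156) (nat_lit 0) (nat_lit 0) (XT.nd (nat_lit 78) (nat_lit 0) (nat_lit 0) (XT.lf (nat_lit 0) (nat_lit 119671274876) (nat_lit 76) (nat_lit 143230299473) (nat_lit 152) (nat_lit 523576676096) (nat_lit 4) (nat_lit 5) (nat_lit 5) (nat_lit 5) (nat_lit 6) (nat_lit 4) (nat_lit 244) (nat_lit 222) (nat_lit 134)) (XT.lf (nat_lit 0) (nat_lit 404339634431)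 (nat_lit 152) (nat_lit 477783953598) (nat_lit 0) (nat_lit 8817177372) (nat_lit 4) (nat_lit 5) (nat_lit 6) (nat_lit 4) (nat_lit 4) (nat_lit 4) (nat_lit 245) (nat_lit 222) (nat_lit 133))) (XT.nd (nat_lit 78) (nat_lit 0) (nat_lit 0) (XT.lf (nat_lit 0) (nat_lit 570954615850) (nat_lit 152) (nat_lit 264369191031) (nat_lit 0) (nat_lit 175431954402) (nat_lit 4) (nat_lit 5) (nat_lit 6) (nat_lit 4) (nat_lit 4) (nat_lit 4) (nat_lit 246) (nat_lit 222) (nat_lit 132)) (XT.lf (nat_lit 0) (nat_lit 762561684793) (nat_lit 152) (nat_lit 18942489497) (nat_lit 0) (nat_lit 367038845615) (nat_lit 4) (nat_lit 5) (nat_lit 6) (nat_lit 4) (nat_lit 4) (nat_lit 4) (nat_lit 247) (nat_lit 222) (nat_lit 131)))) (XT.nd (nat_lit 156) (nat_lit 76) (nat_lit 0) (XT.nd (nat_lit 78) (nat_lit 0) (nat_lit 0) (XT.lf (nat_lit 0) (nat_lit 277162782676) (nat_lit 76) (nat_lit 712412664130) (nat_lit 76) (nat_lit 316889670404) (nat_lit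 3) (nat_lit 4) (nat_lit 4) (nat_lit 5) (nat_lit 4) (nat_lit 4) (nat_lit 248) (nat_lit 222) (nat_lit 130)) (XT.lf (nat_lit 0) (nat_lit 618830726071) (nat_lit 76) (nat_lit 632361911229) (nat_lit 76) (nat_lit 236838783114) (nat_lit 3) (nat_lit 4) (nat_lit 4) (nat_lit 5) (nat_lit 4) (nat_lit 4) (nat_lit 249) (nat_lit 222) (nat_lit 129))) (XT.nd (nat_lit 78) (nat_lit 76) (nat_lit 0) (XT.lf (nat_lit 0) (nat_lit 1011748670348) (nat_lit 76) (nat_lit 540303626439) (nat_lit 76) (nat_lit 144780381464) (nat_lit 3) (nat_lit 4) (nat_lit 4) (nat_lit 5) (nat_lit 4) (nat_lit 4) (nat_lit 250) (nat_lit 222) (nat_lit 128)) (XT.nd (nat_lit 78) (nat_lit 76) (nat_lit 0) (XT.lf (nat_lit 0) (nat_lit 1463604140502) (nat_lit 76) (nat_lit 434436669404) (nat_lit 76) (nat_lit 38913322811) (nat_lit 3) (nat_lit 4) (nat_lit 4) (nat_lit 5) (nat_lit 4) (nat_lit 4) (nat_lit 251) (nat_lit 222) (nat_lit 127)) (XT.lf (nat_lit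 0) (nat_lit 78690027464) (nat_lit 152) (nat_lit 231848177830) (nat_lit 76) (nat_lit 1902396234771) (nat_lit 2) (nat_lit 5) (nat_lit 4) (nat_lit 5) (nat_lit 3) (nat_lit 4) (nat_lit 252) (nat_lit 222) (nat_lit 126))))))) (XT.nd (nat_lit 29562) (nat_lit 0) (nat_lit 532) (XT.nd (nat_lit 29172) (nat_lit 0) (nat_lit 1520) (XT.nd (nat_lit 29016) (nat_lit 0) (nat_lit 2052) (XT.nd (nat_lit 28938) (nat_lit 0) (nat_lit 1976) (XT.lf (nat_lit 0) (nat_lit 47161754918) (nat_lit 76) (nat_lit 165667700231) (nat_lit 152) (nat_lit 2317305505521) (nat_lit 1) (nat_lit 5) (nat_lit 2) (nat_lit 5) (nat_lit 3) (nat_lit 4) (nat_lit 253) (nat_lit 222) (nat_lit 125)) (XT.lf (nat_lit 0) (nat_lit 4277388733) (nat_lit 532) (nat_lit 23520028403) (nat_lit 532) (nat_lit 23520028403) (nat_lit 27) (nat_lit 3) (nat_lit 34) (nat_lit 3) (nat_lit 34) (nat_lit 5) (nat_lit 223) (nat_lit 223) (nat_lit 154))) (XT.nd (nat_lit 78)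 (nat_lit 0) (nat_lit 0) (XT.lf (nat_lit 0) (nat_lit 10434291178) (nat_lit 456) (nat_lit 80262971605) (nat_lit 532) (nat_lit 19536135162) (nat_lit 28) (nat_lit 5) (nat_lit 34) (nat_lit 5) (nat_lit 35) (nat_lit 5) (nat_lit 224) (nat_lit 223) (nat_lit 153)) (XT.lf (nat_lit 76) (nat_lit 994360700) (nat_lit 0) (nat_lit 14566264216) (nat_lit 532) (nat_lit 103173878289) (nat_lit 29) (nat_lit 5) (nat_lit 28) (nat_lit 5) (nat_lit 35) (nat_lit 5) (nat_lit 225) (nat_lit 223) (nat_lit 152)))) (XT.nd (nat_lit 156) (nat_lit 608) (nat_lit 0) (XT.nd (nat_lit 78) (nat_lit 0) (nat_lit 76) (XT.lf (nat_lit 0) (nat_lit 25607131953) (nat_lit 456) (nat_lit 30840236429) (nat_lit 532) (nat_lit 71731320019) (nat_lit 29) (nat_lit 5) (nat_lit 35) (nat_lit 5) (nat_lit 36) (nat_lit 5) (nat_lit 226) (nat_lit 223) (nat_lit 151)) (XT.lf (nat_lit 0) (nat_lit 40094979689) (nat_lit 456) (nat_lit 67354207754) (nat_lit 76)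 (nat_lit 31355575200) (nat_lit 30) (nat_lit 5) (nat_lit 36) (nat_lit 5) (nat_lit 31) (nat_lit 5) (nat_lit 227) (nat_lit 223) (nat_lit 150))) (XT.nd (nat_lit 78) (nat_lit 228) (nat_lit 0) (XT.lf (nat_lit 0) (nat_lit 40436869678) (nat_lit 456) (nat_lit 19772872993) (nat_lit 532) (nat_lit 90538715381) (nat_lit 24) (nat_lit 5) (nat_lit 30) (nat_lit 5) (nat_lit 31) (nat_lit 5) (nat_lit 228) (nat_lit 223) (nat_lit 149)) (XT.nd (nat_lit 78) (nat_lit 0) (nat_lit 0) (XT.lf (nat_lit 0) (nat_lit 2260232788) (nat_lit 228) (nat_lit 85096060809) (nat_lit 304) (nat_lit 76806256187) (nat_lit 21) (nat_lit 5) (nat_lit 24) (nat_lit 5) (nat_lit 25) (nat_lit 5) (nat_lit 229) (nat_lit 223) (nat_lit 148)) (XT.lf (nat_lit 0) (nat_lit 122691372230) (nat_lit 304) (nat_lit 41840792165) (nat_lit 76) (nat_lit 14727274143) (nat_lit 21) (nat_lit 5) (nat_lit 25) (nat_lit 5) (nat_lit 22) (nat_lit 5) (nat_lit 230) (nat_lit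 223) (nat_lit 147)))))) (XT.nd (nat_lit 312) (nat_lit 456) (nat_lit 0) (XT.nd (nat_lit 156) (nat_lit 152) (nat_lit 0) (XT.nd (nat_lit 78) (nat_lit 228) (nat_lit 0) (XT.lf (nat_lit 0) (nat_lit 98818810809) (nat_lit 152) (nat_lit 69237238188) (nat_lit 228) (nat_lit 28186470667) (nat_lit 19) (nat_lit 5) (nat_lit 21) (nat_lit 5) (nat_lit 22) (nat_lit 5) (nat_lit 231) (nat_lit 223) (nat_lit 146)) (XT.lf (nat_lit 0) (nat_lit 7712854271) (nat_lit 228) (nat_lit 166819188370) (nat_lit 76) (nat_lit 40953801548) (nat_lit 16) (nat_lit 5) (nat_lit 19) (nat_lit 5) (nat_lit 17) (nat_lit 5) (nat_lit 232) (nat_lit 223) (nat_lit 145))) (XT.nd (nat_lit 78) (nat_lit 152) (nat_lit 0) (XT.lf (nat_lit 0) (nat_lit 52199896005) (nat_lit 228) (nat_lit 17587534731) (nat_lit 76) (nat_lit 167379929812) (nat_lit 16) (nat_lit 5) (nat_lit 19) (nat_lit 5) (nat_lit 17) (nat_lit 5) (nat_lit 233) (nat_lit 223) (nat_lit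 144)) (XT.lf (nat_lit 0) (nat_lit 108578725153) (nat_lit 228) (nat_lit 100970105319) (nat_lit 76) (nat_lit 52134779031) (nat_lit 14) (nat_lit 5) (nat_lit 17) (nat_lit 5) (nat_lit 15) (nat_lit 5) (nat_lit 234) (nat_lit 223) (nat_lit 143)))) (XT.nd (nat_lit 156) (nat_lit 304) (nat_lit 0) (XT.nd (nat_lit 78) (nat_lit 0) (nat_lit 0) (XT.lf (nat_lit 0) (nat_lit 78995932765) (nat_lit 152) (nat_lit 98773262557) (nat_lit 228) (nat_lit 111759718306) (nat_lit 12) (nat_lit 5) (nat_lit 14) (nat_lit 5) (nat_lit 15) (nat_lit 5) (nat_lit 235) (nat_lit 223) (nat_lit 142)) (XT.lf (nat_lit 0) (nat_lit 261042026014) (nat_lit 228) (nat_lit 30009860813) (nat_lit 76) (nat_lit 30202826094) (nat_lit 12) (nat_lit 5) (nat_lit 15) (nat_lit 5) (nat_lit 13) (nat_lit 4) (nat_lit 236) (nat_lit 223) (nat_lit 141))) (XT.nd (nat_lit 78) (nat_lit 152) (nat_lit 0) (XT.lf (nat_lit 0) (nat_lit 6457252409) (nat_lit 152) (nat_lit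 173263130521) (nat_lit 76) (nat_lit 177433265581) (nat_lit 10) (nat_lit 5) (nat_lit 12) (nat_lit 5) (nat_lit 11) (nat_lit 5) (nat_lit 237) (nat_lit 223) (nat_lit 140)) (XT.nd (nat_lit 78) (nat_lit 0) (nat_lit 0) (XT.lf (nat_lit 0) (nat_lit 33303075472) (nat_lit 152) (nat_lit 48057662993) (nat_lit 228) (nat_lit 316807705120) (nat_lit 8) (nat_lit 5) (nat_lit 10) (nat_lit 5) (nat_lit 11) (nat_lit 5) (nat_lit 238) (nat_lit 223) (nat_lit 139)) (XT.lf (nat_lit 0) (nat_lit 175160462764) (nat_lit 228) (nat_lit 166202666120) (nat_lit 76) (nat_lit 103359473485) (nat_lit 8) (nat_lit 5) (nat_lit 11) (nat_lit 5) (nat_lit 9) (nat_lit 4) (nat_lit 239) (nat_lit 223) (nat_lit 138))))))))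
noncomputable def xc54 : XT := (XT.nd (nat_lit 30264) (nat_lit 0) (nat_lit 228) (XT.nd (nat_lit 624) (nat_lit 152) (nat_lit 0) (XT.nd (nat_lit 312) (nat_lit 76) (nat_lit 0) (XT.nd (nat_lit 156) (nat_lit 152) (nat_lit 0) (XT.nd (nat_lit 78) (nat_lit 0) (nat_lit 0) (XT.lf (nat_lit 0) (nat_lit 64138254184) (nat_lit 76) (nat_lit 221763266181) (nat_lit 152) (nat_lit 212128656085) (nat_lit 7) (nat_lit 5) (nat_lit 8) (nat_lit 5) (nat_lit 9) (nat_lit 4) (nat_lit 240) (nat_lit 223) (nat_lit 137)) (XT.lf (nat_lit 0) (nat_lit 339094596139) (nat_lit 76) (nat_lit 78997673706) (nat_lit 152) (nat_lit 140854535405) (nat_lit 7) (nat_lit 5) (nat_lit 8) (nat_lit 5) (nat_lit 9) (nat_lit 4) (nat_lit 241) (nat_lit 223) (nat_lit 136))) (XT.nd (nat_lit 78) (nat_lit 76) (nat_lit 0) (XT.lf (nat_lit 0) (nat_lit 25521077399) (nat_lit 76) (nat_lit 547252738536) (nat_lit 76) (nat_lit 56014138799) (nat_lit 6) (nat_lit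 4) (nat_lit 7) (nat_lit 5) (nat_lit 7) (nat_lit 4) (nat_lit 242) (nat_lit 223) (nat_lit 135)) (XT.lf (nat_lit 0) (nat_lit 48225367243) (nat_lit 152) (nat_lit 390930127799) (nat_lit 76) (nat_lit 269169702534) (nat_lit 5) (nat_lit 5) (nat_lit 7) (nat_lit 5) (nat_lit 6) (nat_lit 4) (nat_lit 243) (nat_lit 223) (nat_lit 134)))) (XT.nd (nat_lit 156) (nat_lit 0) (nat_lit 0) (XT.nd (nat_lit 78) (nat_lit 76) (nat_lit 0) (XT.lf (nat_lit 0) (nat_lit 164878237662) (nat_lit 152) (nat_lit 148292411181) (nat_lit 76) (nat_lit 486498457713) (nat_lit 5) (nat_lit 5) (nat_lit 7) (nat_lit 5) (nat_lit 6) (nat_lit 4) (nat_lit 244) (nat_lit 223) (nat_lit 133)) (XT.lf (nat_lit 0) (nat_lit 137625245755) (nat_lit 76) (nat_lit 164713510020) (nat_lit 152) (nat_lit 602111069405) (nat_lit 4) (nat_lit 5) (nat_lit 5) (nat_lit 5) (nat_lit 6) (nat_lit 4) (nat_lit 245) (nat_lit 223) (nat_lit 132))) (XT.nd (nat_lit 78)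 (nat_lit 0) (nat_lit 0) (XT.lf (nat_lit 0) (nat_lit 464992299044) (nat_lit 152) (nat_lit 549448581083) (nat_lit 0) (nat_lit 10140856259) (nat_lit 4) (nat_lit 5) (nat_lit 6) (nat_lit 4) (nat_lit 4) (nat_lit 4) (nat_lit 246) (nat_lit 223) (nat_lit 131)) (XT.lf (nat_lit 0) (nat_lit 656599303400) (nat_lit 152) (nat_lit 304021990942) (nat_lit 0) (nat_lit 201747706068) (nat_lit 4) (nat_lit 5) (nat_lit 6) (nat_lit 4) (nat_lit 4) (nat_lit 4) (nat_lit 247) (nat_lit 223) (nat_lit 130))))) (XT.nd (nat_lit 312) (nat_lit 76) (nat_lit 0) (XT.nd (nat_lit 156) (nat_lit 0) (nat_lit 0) (XT.nd (nat_lit 78) (nat_lit 76) (nat_lit 0) (XT.lf (nat_lit 0) (nat_lit 876947237662) (nat_lit 152) (nat_lit 21781620537) (nat_lit 0) (nat_lit 422095505940) (nat_lit 4) (nat_lit 5) (nat_lit 6) (nat_lit 4) (nat_lit 4) (nat_lit 4) (nat_lit 248) (nat_lit 223) (nat_lit 129)) (XT.lf (nat_lit 0) (nat_lit 318739252656) (nat_lit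 76) (nat_lit 819273691100) (nat_lit 76) (nat_lit 364421842518) (nat_lit 3) (nat_lit 4) (nat_lit 4) (nat_lit 5) (nat_lit 4) (nat_lit 4) (nat_lit 249) (nat_lit 223) (nat_lit 128))) (XT.nd (nat_lit 78) (nat_lit 0) (nat_lit 0) (XT.lf (nat_lit 0) (nat_lit 711657119833) (nat_lit 76) (nat_lit 727215439089) (nat_lit 76) (nat_lit 272363488889) (nat_lit 3) (nat_lit 4) (nat_lit 4) (nat_lit 5) (nat_lit 4) (nat_lit 4) (nat_lit 250) (nat_lit 223) (nat_lit 127)) (XT.lf (nat_lit 0) (nat_lit 1163512522944) (nat_lit 76) (nat_lit 621348510557) (nat_lit 76) (nat_lit 166496471994) (nat_lit 3) (nat_lit 4) (nat_lit 4) (nat_lit 5) (nat_lit 4) (nat_lit 4) (nat_lit 251) (nat_lit 223) (nat_lit 126)))) (XT.nd (nat_lit 29094) (nat_lit 0) (nat_lit 1900) (XT.nd (nat_lit 78) (nat_lit 76) (nat_lit 0) (XT.lf (nat_lit 0) (nat_lit 1683146111181) (nat_lit 76) (nat_lit 499601596034) (nat_lit 76) (nat_lit 44749480634) (nat_lit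 3) (nat_lit 4) (nat_lit 4) (nat_lit 5) (nat_lit 4) (nat_lit 4) (nat_lit 252) (nat_lit 223) (nat_lit 125)) (XT.lf (nat_lit 0) (nat_lit 90494225974) (nat_lit 152) (nat_lit 266624192189) (nat_lit 76) (nat_lit 2187756130179) (nat_lit 2) (nat_lit 5) (nat_lit 4) (nat_lit 5) (nat_lit 3) (nat_lit 4) (nat_lit 253) (nat_lit 223) (nat_lit 124))) (XT.nd (nat_lit 78) (nat_lit 0) (nat_lit 76) (XT.lf (nat_lit 0) (nat_lit 4928279900) (nat_lit 532) (nat_lit 27042982758) (nat_lit 532) (nat_lit 27042982758) (nat_lit 27) (nat_lit 3) (nat_lit 34) (nat_lit 3) (nat_lit 34) (nat_lit 5) (nat_lit 224) (nat_lit 224) (nat_lit 152)) (XT.nd (nat_lit 78) (nat_lit 0) (nat_lit 0) (XT.lf (nat_lit 0) (nat_lit 12015630021) (nat_lit 456) (nat_lit 92291562583) (nat_lit 532) (nat_lit 22459790157) (nat_lit 28) (nat_lit 5) (nat_lit 34) (nat_lit 5) (nat_lit 35) (nat_lit 5) (nat_lit 225) (nat_lit 224) (nat_lit 151)) (XT.lf (nat_lit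 76) (nat_lit 1153450766) (nat_lit 0) (nat_lit 16755589602) (nat_lit 532) (nat_lit 118634380180) (nat_lit 29) (nat_lit 5) (nat_lit 28) (nat_lit 5) (nat_lit 35) (nat_lit 5) (nat_lit 226) (nat_lit 224) (nat_lit 150))))))) (XT.nd (nat_lit 702) (nat_lit 684) (nat_lit 0) (XT.nd (nat_lit 312) (nat_lit 532) (nat_lit 0) (XT.nd (nat_lit 156) (nat_lit 608) (nat_lit 0) (XT.nd (nat_lit 78) (nat_lit 0) (nat_lit 76) (XT.lf (nat_lit 0) (nat_lit 29460563690) (nat_lit 456) (nat_lit 35456446174) (nat_lit 532) (nat_lit 82487395100) (nat_lit 29) (nat_lit 5) (nat_lit 35) (nat_lit 5) (nat_lit 36) (nat_lit 5) (nat_lit 227) (nat_lit 224) (nat_lit 149)) (XT.lf (nat_lit 0) (nat_lit 46120145044) (nat_lit 456) (nat_lit 77447335216) (nat_lit 76) (nat_lit 36057038315) (nat_lit 30) (nat_lit 5) (nat_lit 36) (nat_lit 5) (nat_lit 31) (nat_lit 5) (nat_lit 228) (nat_lit 224) (nat_lit 148))) (XT.nd (nat_lit 78) (nat_lit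 228) (nat_lit 0) (XT.lf (nat_lit 0) (nat_lit 46511557066) (nat_lit 456) (nat_lit 22739361491) (nat_lit 532) (nat_lit 104108957136) (nat_lit 24) (nat_lit 5) (nat_lit 30) (nat_lit 5) (nat_lit 31) (nat_lit 5) (nat_lit 229) (nat_lit 224) (nat_lit 147)) (XT.lf (nat_lit 0) (nat_lit 2608440855) (nat_lit 228) (nat_lit 97859953117) (nat_lit 304) (nat_lit 88317781509) (nat_lit 21) (nat_lit 5) (nat_lit 24) (nat_lit 5) (nat_lit 25) (nat_lit 5) (nat_lit 230) (nat_lit 224) (nat_lit 146)))) (XT.nd (nat_lit 156) (nat_lit 380) (nat_lit 0) (XT.nd (nat_lit 78) (nat_lit 152) (nat_lit 0) (XT.lf (nat_lit 0) (nat_lit 141102616119) (nat_lit 304) (nat_lit 48108287084) (nat_lit 76) (nat_lit 16936792188) (nat_lit 21) (nat_lit 5) (nat_lit 25) (nat_lit 5) (nat_lit 22) (nat_lit 5) (nat_lit 231) (nat_lit 224) (nat_lit 145)) (XT.lf (nat_lit 0) (nat_lit 113649526365) (nat_lit 152) (nat_lit 79621674662) (nat_lit 228)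 (nat_lit 32407108419) (nat_lit 19) (nat_lit 5) (nat_lit 21) (nat_lit 5) (nat_lit 22) (nat_lit 5) (nat_lit 232) (nat_lit 224) (nat_lit 144))) (XT.nd (nat_lit 78) (nat_lit 152) (nat_lit 0) (XT.lf (nat_lit 0) (nat_lit 8876055442) (nat_lit 228) (nat_lit 191833958337) (nat_lit 76) (nat_lit 47098166071) (nat_lit 16) (nat_lit 5) (nat_lit 19) (nat_lit 5) (nat_lit 17) (nat_lit 5) (nat_lit 233) (nat_lit 224) (nat_lit 143)) (XT.nd (nat_lit 78) (nat_lit 152) (nat_lit 0) (XT.lf (nat_lit 0) (nat_lit 60035335214) (nat_lit 228) (nat_lit 20218614255) (nat_lit 76) (nat_lit 192488044754) (nat_lit 16) (nat_lit 5) (nat_lit 19) (nat_lit 5) (nat_lit 17) (nat_lit 5) (nat_lit 234) (nat_lit 224) (nat_lit 142)) (XT.lf (nat_lit 0) (nat_lit 124870469859) (nat_lit 228) (nat_lit 116108783176) (nat_lit 76) (nat_lit 59956473433) (nat_lit 14) (nat_lit 5) (nat_lit 17) (nat_lit 5) (nat_lit 15) (nat_lit 5) (nat_lit 235)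 (nat_lit 224) (nat_lit 141)))))) (XT.nd (nat_lit 312) (nat_lit 228) (nat_lit 0) (XT.nd (nat_lit 156) (nat_lit 304) (nat_lit 0) (XT.nd (nat_lit 78) (nat_lit 0) (nat_lit 0) (XT.lf (nat_lit 0) (nat_lit 90851581823) (nat_lit 152) (nat_lit 113587435447) (nat_lit 228) (nat_lit 128518852265) (nat_lit 12) (nat_lit 5) (nat_lit 14) (nat_lit 5) (nat_lit 15) (nat_lit 5) (nat_lit 236) (nat_lit 224) (nat_lit 140)) (XT.lf (nat_lit 0) (nat_lit 300202231077) (nat_lit 228) (nat_lit 34505603766) (nat_lit 76) (nat_lit 34734750552) (nat_lit 12) (nat_lit 5) (nat_lit 15) (nat_lit 5) (nat_lit 13) (nat_lit 4) (nat_lit 237) (nat_lit 224) (nat_lit 139))) (XT.nd (nat_lit 78) (nat_lit 152) (nat_lit 0) (XT.lf (nat_lit 0) (nat_lit 7429468734) (nat_lit 152) (nat_lit 199247140388) (nat_lit 76) (nat_lit 204049778377) (nat_lit 10) (nat_lit 5) (nat_lit 12) (nat_lit 5) (nat_lit 11) (nat_lit 5) (nat_lit 238) (nat_lit 224)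 (nat_lit 138)) (XT.lf (nat_lit 0) (nat_lit 38303534367) (nat_lit 152) (nat_lit 55264590246) (nat_lit 228) (nat_lit 364325307819) (nat_lit 8) (nat_lit 5) (nat_lit 10) (nat_lit 5) (nat_lit 11) (nat_lit 5) (nat_lit 239) (nat_lit 224) (nat_lit 137)))) (XT.nd (nat_lit 156) (nat_lit 152) (nat_lit 0) (XT.nd (nat_lit 78) (nat_lit 76) (nat_lit 0) (XT.lf (nat_lit 0) (nat_lit 201437416349) (nat_lit 228) (nat_lit 191128514866) (nat_lit 76) (nat_lit 118864817156) (nat_lit 8) (nat_lit 5) (nat_lit 11) (nat_lit 5) (nat_lit 9) (nat_lit 4) (nat_lit 240) (nat_lit 224) (nat_lit 136)) (XT.lf (nat_lit 0) (nat_lit 73763158249) (nat_lit 76) (nat_lit 255026198336) (nat_lit 152) (nat_lit 243945125836) (nat_lit 7) (nat_lit 5) (nat_lit 8) (nat_lit 5) (nat_lit 9) (nat_lit 4) (nat_lit 241) (nat_lit 224) (nat_lit 135))) (XT.nd (nat_lit 78) (nat_lit 152) (nat_lit 0) (XT.lf (nat_lit 0) (nat_lit 389962408114) (nat_lit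 76) (nat_lit 90845970177) (nat_lit 152) (nat_lit 161980256010) (nat_lit 7) (nat_lit 5) (nat_lit 8) (nat_lit 5) (nat_lit 9) (nat_lit 4) (nat_lit 242) (nat_lit 224) (nat_lit 134)) (XT.nd (nat_lit 78) (nat_lit 76) (nat_lit 0) (XT.lf (nat_lit 0) (nat_lit 29352700618) (nat_lit 76) (nat_lit 629339271435) (nat_lit 76) (nat_lit 64414000238) (nat_lit 6) (nat_lit 4) (nat_lit 7) (nat_lit 5) (nat_lit 7) (nat_lit 4) (nat_lit 243) (nat_lit 224) (nat_lit 133)) (XT.lf (nat_lit 0) (nat_lit 55461038728) (nat_lit 152) (nat_lit 449566531383) (nat_lit 76) (nat_lit 309546250581) (nat_lit 5) (nat_lit 5) (nat_lit 7) (nat_lit 5) (nat_lit 6) (nat_lit 4) (nat_lit 244) (nat_lit 224) (nat_lit 132))))))))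
noncomputable def xc55 : XT := (XT.nd (nat_lit 30420) (nat_lit 0) (nat_lit 0) (XT.nd (nat_lit 29718) (nat_lit 0) (nat_lit 1216) (XT.nd (nat_lit 312) (nat_lit 76) (nat_lit 0) (XT.nd (nat_lit 156) (nat_lit 0) (nat_lit 0) (XT.nd (nat_lit 78) (nat_lit 76) (nat_lit 0) (XT.lf (nat_lit 0) (nat_lit 189611596266) (nat_lit 152) (nat_lit 170533563653) (nat_lit 76) (nat_lit 559474176515) (nat_lit 5) (nat_lit 5) (nat_lit 7) (nat_lit 5) (nat_lit 6) (nat_lit 4) (nat_lit 245) (nat_lit 224) (nat_lit 131)) (XT.lf (nat_lit 0) (nat_lit 158271512503) (nat_lit 76) (nat_lit 189419527545) (nat_lit 152) (nat_lit 692426135785) (nat_lit 4) (nat_lit 5) (nat_lit 5) (nat_lit 5) (nat_lit 6) (nat_lit 4) (nat_lit 246) (nat_lit 224) (nat_lit 130))) (XT.nd (nat_lit 78) (nat_lit 0) (nat_lit 0) (XT.lf (nat_lit 0) (nat_lit 534742444050) (nat_lit 152) (nat_lit 631863625861) (nat_lit 0) (nat_lit 11662818181) (nat_lit 4) (nat_lit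 5) (nat_lit 6) (nat_lit 4) (nat_lit 4) (nat_lit 4) (nat_lit 247) (nat_lit 224) (nat_lit 129)) (XT.lf (nat_lit 0) (nat_lit 755090329475) (nat_lit 152) (nat_lit 349623339684) (nat_lit 0) (nat_lit 232010586746) (nat_lit 4) (nat_lit 5) (nat_lit 6) (nat_lit 4) (nat_lit 4) (nat_lit 4) (nat_lit 248) (nat_lit 224) (nat_lit 128)))) (XT.nd (nat_lit 156) (nat_lit 0) (nat_lit 0) (XT.nd (nat_lit 78) (nat_lit 76) (nat_lit 0) (XT.lf (nat_lit 0) (nat_lit 1008490306412) (nat_lit 152) (nat_lit 25047168052) (nat_lit 0) (nat_lit 485410462064) (nat_lit 4) (nat_lit 5) (nat_lit 6) (nat_lit 4) (nat_lit 4) (nat_lit 4) (nat_lit 249) (nat_lit 224) (nat_lit 127)) (XT.lf (nat_lit 0) (nat_lit 366551692599) (nat_lit 76) (nat_lit 942164084918) (nat_lit 76) (nat_lit 419084152207) (nat_lit 3) (nat_lit 4) (nat_lit 4) (nat_lit 5) (nat_lit 4) (nat_lit 4) (nat_lit 250) (nat_lit 224) (nat_lit 126))) (XT.nd (nat_lit 78) (nat_lit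 0) (nat_lit 0) (XT.lf (nat_lit 0) (nat_lit 818407037412) (nat_lit 76) (nat_lit 836297181171) (nat_lit 76) (nat_lit 313217171623) (nat_lit 3) (nat_lit 4) (nat_lit 4) (nat_lit 5) (nat_lit 4) (nat_lit 4) (nat_lit 251) (nat_lit 224) (nat_lit 125)) (XT.nd (nat_lit 78) (nat_lit 0) (nat_lit 0) (XT.lf (nat_lit 0) (nat_lit 1338040574954) (nat_lit 76) (nat_lit 714550288201) (nat_lit 76) (nat_lit 191470211837) (nat_lit 3) (nat_lit 4) (nat_lit 4) (nat_lit 5) (nat_lit 4) (nat_lit 4) (nat_lit 252) (nat_lit 224) (nat_lit 124)) (XT.lf (nat_lit 0) (nat_lit 1935619048352) (nat_lit 76) (nat_lit 574541401579) (nat_lit 76) (nat_lit 51461267115) (nat_lit 3) (nat_lit 4) (nat_lit 4) (nat_lit 5) (nat_lit 4) (nat_lit 4) (nat_lit 253) (nat_lit 224) (nat_lit 123)))))) (XT.nd (nat_lit 312) (nat_lit 608) (nat_lit 0) (XT.nd (nat_lit 156) (nat_lit 0) (nat_lit 76) (XT.nd (nat_lit 78) (nat_lit 0) (nat_lit 76) (XT.lf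 (nat_lit 0) (nat_lit 5674541059) (nat_lit 532) (nat_lit 31095611718) (nat_lit 532) (nat_lit 31095611718) (nat_lit 27) (nat_lit 3) (nat_lit 34) (nat_lit 3) (nat_lit 34) (nat_lit 5) (nat_lit 225) (nat_lit 225) (nat_lit 150)) (XT.lf (nat_lit 0) (nat_lit 13830220397) (nat_lit 456) (nat_lit 106127089211) (nat_lit 532) (nat_lit 25823643158) (nat_lit 28) (nat_lit 5) (nat_lit 34) (nat_lit 5) (nat_lit 35) (nat_lit 5) (nat_lit 226) (nat_lit 225) (nat_lit 149))) (XT.nd (nat_lit 78) (nat_lit 0) (nat_lit 76) (XT.lf (nat_lit 76) (nat_lit 1333981394) (nat_lit 0) (nat_lit 19272244301) (nat_lit 532) (nat_lit 136417756600) (nat_lit 29) (nat_lit 5) (nat_lit 28) (nat_lit 5) (nat_lit 35) (nat_lit 5) (nat_lit 227) (nat_lit 225) (nat_lit 148)) (XT.lf (nat_lit 0) (nat_lit 33888995650) (nat_lit 456) (nat_lit 40767483445) (nat_lit 532) (nat_lit 94857764916) (nat_lit 29) (nat_lit 5) (nat_lit 35) (nat_lit 5) (nat_lit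 36) (nat_lit 5) (nat_lit 228) (nat_lit 225) (nat_lit 147)))) (XT.nd (nat_lit 156) (nat_lit 380) (nat_lit 0) (XT.nd (nat_lit 78) (nat_lit 456) (nat_lit 0) (XT.lf (nat_lit 0) (nat_lit 53046422681) (nat_lit 456) (nat_lit 89056871264) (nat_lit 76) (nat_lit 41464177680) (nat_lit 30) (nat_lit 5) (nat_lit 36) (nat_lit 5) (nat_lit 31) (nat_lit 5) (nat_lit 229) (nat_lit 225) (nat_lit 146)) (XT.lf (nat_lit 0) (nat_lit 53495214586) (nat_lit 456) (nat_lit 26150687303) (nat_lit 532) (nat_lit 119717311632) (nat_lit 24) (nat_lit 5) (nat_lit 30) (nat_lit 5) (nat_lit 31) (nat_lit 5) (nat_lit 230) (nat_lit 225) (nat_lit 145))) (XT.nd (nat_lit 78) (nat_lit 152) (nat_lit 0) (XT.lf (nat_lit 0) (nat_lit 3006643201) (nat_lit 228) (nat_lit 112538555298) (nat_lit 304) (nat_lit 101558331074) (nat_lit 21) (nat_lit 5) (nat_lit 24) (nat_lit 5) (nat_lit 25) (nat_lit 5) (nat_lit 231) (nat_lit 225) (nat_lit 144)) (XT.nd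 (nat_lit 78) (nat_lit 152) (nat_lit 0) (XT.lf (nat_lit 0) (nat_lit 162273708390) (nat_lit 304) (nat_lit 55318009235) (nat_lit 76) (nat_lit 19477633831) (nat_lit 21) (nat_lit 5) (nat_lit 25) (nat_lit 5) (nat_lit 22) (nat_lit 5) (nat_lit 232) (nat_lit 225) (nat_lit 143)) (XT.lf (nat_lit 0) (nat_lit 130702924269) (nat_lit 152) (nat_lit 91564056859) (nat_lit 228) (nat_lit 37262629995) (nat_lit 19) (nat_lit 5) (nat_lit 21) (nat_lit 5) (nat_lit 22) (nat_lit 5) (nat_lit 233) (nat_lit 225) (nat_lit 142))))))) (XT.nd (nat_lit 702) (nat_lit 304) (nat_lit 0) (XT.nd (nat_lit 312) (nat_lit 380) (nat_lit 0) (XT.nd (nat_lit 156) (nat_lit 304) (nat_lit 0) (XT.nd (nat_lit 78) (nat_lit 0) (nat_lit 0) (XT.lf (nat_lit 0) (nat_lit 10212207069) (nat_lit 228) (nat_lit 220602921056) (nat_lit 76) (nat_lit 54163869651) (nat_lit 16) (nat_lit 5) (nat_lit 19) (nat_lit 5) (nat_lit 17) (nat_lit 5) (nat_lit 234) (nat_lit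 225) (nat_lit 141)) (XT.lf (nat_lit 0) (nat_lit 69044760115) (nat_lit 228) (nat_lit 23246075062) (nat_lit 76) (nat_lit 221362102484) (nat_lit 16) (nat_lit 5) (nat_lit 19) (nat_lit 5) (nat_lit 17) (nat_lit 5) (nat_lit 235) (nat_lit 225) (nat_lit 140))) (XT.nd (nat_lit 78) (nat_lit 152) (nat_lit 0) (XT.lf (nat_lit 0) (nat_lit 143604772613) (nat_lit 228) (nat_lit 133519930187) (nat_lit 76) (nat_lit 68951061686) (nat_lit 14) (nat_lit 5) (nat_lit 17) (nat_lit 5) (nat_lit 15) (nat_lit 5) (nat_lit 236) (nat_lit 225) (nat_lit 139)) (XT.lf (nat_lit 0) (nat_lit 104484051908) (nat_lit 152) (nat_lit 130624177233) (nat_lit 228) (nat_lit 147793032629) (nat_lit 12) (nat_lit 5) (nat_lit 14) (nat_lit 5) (nat_lit 15) (nat_lit 5) (nat_lit 237) (nat_lit 225) (nat_lit 138)))) (XT.nd (nat_lit 156) (nat_lit 228) (nat_lit 0) (XT.nd (nat_lit 78) (nat_lit 152) (nat_lit 0) (XT.lf (nat_lit 0) (nat_lit 345235515577)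 (nat_lit 228) (nat_lit 39677106963) (nat_lit 76) (nat_lit 39946097762) (nat_lit 12) (nat_lit 5) (nat_lit 15) (nat_lit 5) (nat_lit 13) (nat_lit 4) (nat_lit 238) (nat_lit 225) (nat_lit 137)) (XT.lf (nat_lit 0) (nat_lit 8546632684) (nat_lit 152) (nat_lit 229130083121) (nat_lit 76) (nat_lit 234658396709) (nat_lit 10) (nat_lit 5) (nat_lit 12) (nat_lit 5) (nat_lit 11) (nat_lit 5) (nat_lit 239) (nat_lit 225) (nat_lit 136))) (XT.nd (nat_lit 78) (nat_lit 76) (nat_lit 0) (XT.lf (nat_lit 0) (nat_lit 44052843405) (nat_lit 152) (nat_lit 63552976555) (nat_lit 228) (nat_lit 418971417361) (nat_lit 8) (nat_lit 5) (nat_lit 10) (nat_lit 5) (nat_lit 11) (nat_lit 5) (nat_lit 240) (nat_lit 225) (nat_lit 135)) (XT.nd (nat_lit 78) (nat_lit 76) (nat_lit 0) (XT.lf (nat_lit 0) (nat_lit 231655209649) (nat_lit 228) (nat_lit 219794350757) (nat_lit 76) (nat_lit 136695615455) (nat_lit 8) (nat_lit 5) (nat_lit 11) (nat_lit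 5) (nat_lit 9) (nat_lit 4) (nat_lit 241) (nat_lit 225) (nat_lit 134)) (XT.lf (nat_lit 0) (nat_lit 84830782034) (nat_lit 76) (nat_lit 293278950187) (nat_lit 152) (nat_lit 280534755837) (nat_lit 7) (nat_lit 5) (nat_lit 8) (nat_lit 5) (nat_lit 9) (nat_lit 4) (nat_lit 242) (nat_lit 225) (nat_lit 133)))))) (XT.nd (nat_lit 312) (nat_lit 152) (nat_lit 0) (XT.nd (nat_lit 156) (nat_lit 76) (nat_lit 0) (XT.nd (nat_lit 78) (nat_lit 76) (nat_lit 0) (XT.lf (nat_lit 0) (nat_lit 448459508503) (nat_lit 76) (nat_lit 104471841444) (nat_lit 152) (nat_lit 186275434521) (nat_lit 7) (nat_lit 5) (nat_lit 8) (nat_lit 5) (nat_lit 9) (nat_lit 4) (nat_lit 243) (nat_lit 225) (nat_lit 132)) (XT.lf (nat_lit 0) (nat_lit 33758223185) (nat_lit 76) (nat_lit 723739120275) (nat_lit 76) (nat_lit 74074391857) (nat_lit 6) (nat_lit 4) (nat_lit 7) (nat_lit 5) (nat_lit 7) (nat_lit 4) (nat_lit 244) (nat_lit 225) (nat_lit 131)))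 (XT.nd (nat_lit 78) (nat_lit 0) (nat_lit 0) (XT.lf (nat_lit 0) (nat_lit 63781605802) (nat_lit 152) (nat_lit 516999155260) (nat_lit 76) (nat_lit 355979014381) (nat_lit 5) (nat_lit 5) (nat_lit 7) (nat_lit 5) (nat_lit 6) (nat_lit 4) (nat_lit 245) (nat_lit 225) (nat_lit 130)) (XT.lf (nat_lit 0) (nat_lit 218054562893) (nat_lit 152) (nat_lit 196111549652) (nat_lit 76) (nat_lit 643396021438) (nat_lit 5) (nat_lit 5) (nat_lit 7) (nat_lit 5) (nat_lit 6) (nat_lit 4) (nat_lit 246) (nat_lit 225) (nat_lit 129)))) (XT.nd (nat_lit 156) (nat_lit 76) (nat_lit 0) (XT.nd (nat_lit 78) (nat_lit 0) (nat_lit 0) (XT.lf (nat_lit 0) (nat_lit 182014114527) (nat_lit 76) (nat_lit 217831693745) (nat_lit 152) (nat_lit 796288850837) (nat_lit 4) (nat_lit 5) (nat_lit 5) (nat_lit 5) (nat_lit 6) (nat_lit 4) (nat_lit 247) (nat_lit 225) (nat_lit 128)) (XT.lf (nat_lit 0) (nat_lit 614954793758) (nat_lit 152) (nat_lit 726641474174)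 (nat_lit 0) (nat_lit 13412871140) (nat_lit 4) (nat_lit 5) (nat_lit 6) (nat_lit 4) (nat_lit 4) (nat_lit 4) (nat_lit 248) (nat_lit 225) (nat_lit 127))) (XT.nd (nat_lit 78) (nat_lit 76) (nat_lit 0) (XT.lf (nat_lit 0) (nat_lit 868354733766) (nat_lit 152) (nat_lit 402065366232) (nat_lit 0) (nat_lit 266812722786) (nat_lit 4) (nat_lit 5) (nat_lit 6) (nat_lit 4) (nat_lit 4) (nat_lit 4) (nat_lit 249) (nat_lit 225) (nat_lit 126)) (XT.nd (nat_lit 78) (nat_lit 76) (nat_lit 0) (XT.lf (nat_lit 0) (nat_lit 1159764595738) (nat_lit 152) (nat_lit 28802961169) (nat_lit 0) (nat_lit 558222507920) (nat_lit 4) (nat_lit 5) (nat_lit 6) (nat_lit 4) (nat_lit 4) (nat_lit 4) (nat_lit 250) (nat_lit 225) (nat_lit 125)) (XT.lf (nat_lit 0) (nat_lit 421535620057) (nat_lit 76) (nat_lit 1083488198715) (nat_lit 76) (nat_lit 481946044082) (nat_lit 3) (nat_lit 4) (nat_lit 4) (nat_lit 5) (nat_lit 4) (nat_lit 4) (nat_lit 251)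 (nat_lit 225) (nat_lit 124))))))))
noncomputable def xc56 : XT := (XT.nd (nat_lit 30420) (nat_lit 0) (nat_lit 0) (XT.nd (nat_lit 29718) (nat_lit 0) (nat_lit 532) (XT.nd (nat_lit 29406) (nat_lit 0) (nat_lit 1596) (XT.nd (nat_lit 29250) (nat_lit 0) (nat_lit 1824) (XT.nd (nat_lit 78) (nat_lit 0) (nat_lit 0) (XT.lf (nat_lit 0) (nat_lit 941169113518) (nat_lit 76) (nat_lit 961741324486) (nat_lit 76) (nat_lit 360199111753) (nat_lit 3) (nat_lit 4) (nat_lit 4) (nat_lit 5) (nat_lit 4) (nat_lit 4) (nat_lit 252) (nat_lit 225) (nat_lit 123)) (XT.lf (nat_lit 0) (nat_lit 1538747548584) (nat_lit 76) (nat_lit 821732454161) (nat_lit 76) (nat_lit 220190190905) (nat_lit 3) (nat_lit 4) (nat_lit 4) (nat_lit 5) (nat_lit 4) (nat_lit 4) (nat_lit 253) (nat_lit 225) (nat_lit 122))) (XT.nd (nat_lit 78) (nat_lit 0) (nat_lit 76) (XT.lf (nat_lit 0) (nat_lit 6531029721) (nat_lit 532) (nat_lit 35757066176) (nat_lit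 532) (nat_lit 35757066176) (nat_lit 27) (nat_lit 3) (nat_lit 34) (nat_lit 3) (nat_lit 34) (nat_lit 5) (nat_lit 226) (nat_lit 226) (nat_lit 148)) (XT.lf (nat_lit 0) (nat_lit 15914013095) (nat_lit 456) (nat_lit 122039946347) (nat_lit 532) (nat_lit 29693321561) (nat_lit 28) (nat_lit 5) (nat_lit 34) (nat_lit 5) (nat_lit 35) (nat_lit 5) (nat_lit 227) (nat_lit 226) (nat_lit 147)))) (XT.nd (nat_lit 156) (nat_lit 304) (nat_lit 0) (XT.nd (nat_lit 78) (nat_lit 0) (nat_lit 76) (XT.lf (nat_lit 76) (nat_lit 1539759521) (nat_lit 0) (nat_lit 22165588515) (nat_lit 532) (nat_lit 156871512259) (nat_lit 29) (nat_lit 5) (nat_lit 28) (nat_lit 5) (nat_lit 35) (nat_lit 5) (nat_lit 228) (nat_lit 226) (nat_lit 146)) (XT.lf (nat_lit 0) (nat_lit 38979412979) (nat_lit 456) (nat_lit 46876988076) (nat_lit 532) (nat_lit 109084358236) (nat_lit 29) (nat_lit 5) (nat_lit 35) (nat_lit 5) (nat_lit 36) (nat_lit 5) (nat_lit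 229) (nat_lit 226) (nat_lit 145))) (XT.nd (nat_lit 78) (nat_lit 456) (nat_lit 0) (XT.lf (nat_lit 0) (nat_lit 61009628714) (nat_lit 456) (nat_lit 102409682306) (nat_lit 76) (nat_lit 47682733344) (nat_lit 30) (nat_lit 5) (nat_lit 36) (nat_lit 5) (nat_lit 31) (nat_lit 5) (nat_lit 230) (nat_lit 226) (nat_lit 144)) (XT.lf (nat_lit 0) (nat_lit 61524732283) (nat_lit 456) (nat_lit 30073609179) (nat_lit 532) (nat_lit 137668867489) (nat_lit 24) (nat_lit 5) (nat_lit 30) (nat_lit 5) (nat_lit 31) (nat_lit 5) (nat_lit 231) (nat_lit 226) (nat_lit 143))))) (XT.nd (nat_lit 312) (nat_lit 456) (nat_lit 0) (XT.nd (nat_lit 156) (nat_lit 380) (nat_lit 0) (XT.nd (nat_lit 78) (nat_lit 0) (nat_lit 0) (XT.lf (nat_lit 0) (nat_lit 3462884459) (nat_lit 228) (nat_lit 129419043103) (nat_lit 304) (nat_lit 116786698761) (nat_lit 21) (nat_lit 5) (nat_lit 24) (nat_lit 5) (nat_lit 25) (nat_lit 5) (nat_lit 232) (nat_lit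 226) (nat_lit 142)) (XT.lf (nat_lit 0) (nat_lit 186619074556) (nat_lit 304) (nat_lit 63610779874) (nat_lit 76) (nat_lit 22399523000) (nat_lit 21) (nat_lit 5) (nat_lit 25) (nat_lit 5) (nat_lit 22) (nat_lit 5) (nat_lit 233) (nat_lit 226) (nat_lit 141))) (XT.nd (nat_lit 78) (nat_lit 228) (nat_lit 0) (XT.lf (nat_lit 0) (nat_lit 150312876293) (nat_lit 152) (nat_lit 105298008297) (nat_lit 228) (nat_lit 42847831914) (nat_lit 19) (nat_lit 5) (nat_lit 21) (nat_lit 5) (nat_lit 22) (nat_lit 5) (nat_lit 234) (nat_lit 226) (nat_lit 140)) (XT.lf (nat_lit 0) (nat_lit 11747624755) (nat_lit 228) (nat_lit 253688723275) (nat_lit 76) (nat_lit 62289190114) (nat_lit 16) (nat_lit 5) (nat_lit 19) (nat_lit 5) (nat_lit 17) (nat_lit 5) (nat_lit 235) (nat_lit 226) (nat_lit 139)))) (XT.nd (nat_lit 156) (nat_lit 304) (nat_lit 0) (XT.nd (nat_lit 78) (nat_lit 152) (nat_lit 0) (XT.lf (nat_lit 0) (nat_lit 79404592937)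 (nat_lit 228) (nat_lit 26728955069) (nat_lit 76) (nat_lit 254567061348) (nat_lit 16) (nat_lit 5) (nat_lit 19) (nat_lit 5) (nat_lit 17) (nat_lit 5) (nat_lit 236) (nat_lit 226) (nat_lit 138)) (XT.lf (nat_lit 0) (nat_lit 165148310642) (nat_lit 228) (nat_lit 153544010100) (nat_lit 76) (nat_lit 79294565732) (nat_lit 14) (nat_lit 5) (nat_lit 17) (nat_lit 5) (nat_lit 15) (nat_lit 5) (nat_lit 237) (nat_lit 226) (nat_lit 137))) (XT.nd (nat_lit 78) (nat_lit 152) (nat_lit 0) (XT.lf (nat_lit 0) (nat_lit 120160238379) (nat_lit 152) (nat_lit 150216765231) (nat_lit 228) (nat_lit 169959229508) (nat_lit 12) (nat_lit 5) (nat_lit 14) (nat_lit 5) (nat_lit 15) (nat_lit 5) (nat_lit 238) (nat_lit 226) (nat_lit 136)) (XT.nd (nat_lit 78) (nat_lit 152) (nat_lit 0) (XT.lf (nat_lit 0) (nat_lit 397023073416) (nat_lit 228) (nat_lit 45625393334) (nat_lit 76) (nat_lit 45938870368) (nat_lit 12) (nat_lit 5) (nat_lit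 15) (nat_lit 5) (nat_lit 13) (nat_lit 4) (nat_lit 239) (nat_lit 226) (nat_lit 135)) (XT.lf (nat_lit 0) (nat_lit 9830702172) (nat_lit 152) (nat_lit 263496473982) (nat_lit 76) (nat_lit 269858026972) (nat_lit 10) (nat_lit 5) (nat_lit 12) (nat_lit 5) (nat_lit 11) (nat_lit 5) (nat_lit 240) (nat_lit 226) (nat_lit 134))))))) (XT.nd (nat_lit 702) (nat_lit 76) (nat_lit 0) (XT.nd (nat_lit 312) (nat_lit 228) (nat_lit 0) (XT.nd (nat_lit 156) (nat_lit 76) (nat_lit 0) (XT.nd (nat_lit 78) (nat_lit 0) (nat_lit 0) (XT.lf (nat_lit 0) (nat_lit 50663627295) (nat_lit 152) (nat_lit 73084938367) (nat_lit 228) (nat_lit 481815098486) (nat_lit 8) (nat_lit 5) (nat_lit 10) (nat_lit 5) (nat_lit 11) (nat_lit 5) (nat_lit 241) (nat_lit 226) (nat_lit 133)) (XT.lf (nat_lit 0) (nat_lit 266405140130) (nat_lit 228) (nat_lit 252760901224) (nat_lit 76) (nat_lit 157200771177) (nat_lit 8) (nat_lit 5) (nat_lit 11) (nat_lit 5)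 (nat_lit 9) (nat_lit 4) (nat_lit 242) (nat_lit 226) (nat_lit 132))) (XT.nd (nat_lit 78) (nat_lit 0) (nat_lit 0) (XT.lf (nat_lit 0) (nat_lit 97557781227) (nat_lit 76) (nat_lit 337269902054) (nat_lit 152) (nat_lit 322613351917) (nat_lit 7) (nat_lit 5) (nat_lit 8) (nat_lit 5) (nat_lit 9) (nat_lit 4) (nat_lit 243) (nat_lit 226) (nat_lit 131)) (XT.lf (nat_lit 0) (nat_lit 515730505986) (nat_lit 76) (nat_lit 120141843172) (nat_lit 152) (nat_lit 214215343354) (nat_lit 7) (nat_lit 5) (nat_lit 8) (nat_lit 5) (nat_lit 9) (nat_lit 4) (nat_lit 244) (nat_lit 226) (nat_lit 130)))) (XT.nd (nat_lit 156) (nat_lit 76) (nat_lit 0) (XT.nd (nat_lit 78) (nat_lit 76) (nat_lit 0) (XT.lf (nat_lit 0) (nat_lit 38823935849) (nat_lit 76) (nat_lit 832299200508) (nat_lit 76) (nat_lit 85184258827) (nat_lit 6) (nat_lit 4) (nat_lit 7) (nat_lit 5) (nat_lit 7) (nat_lit 4) (nat_lit 245) (nat_lit 226) (nat_lit 129)) (XT.lf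 (nat_lit 0) (nat_lit 73349913792) (nat_lit 152) (nat_lit 594547247202) (nat_lit 76) (nat_lit 409376491273) (nat_lit 5) (nat_lit 5) (nat_lit 7) (nat_lit 5) (nat_lit 6) (nat_lit 4) (nat_lit 246) (nat_lit 226) (nat_lit 128))) (XT.nd (nat_lit 78) (nat_lit 76) (nat_lit 0) (XT.lf (nat_lit 0) (nat_lit 250763675256) (nat_lit 152) (nat_lit 225526733103) (nat_lit 76) (nat_lit 739905967902) (nat_lit 5) (nat_lit 5) (nat_lit 7) (nat_lit 5) (nat_lit 6) (nat_lit 4) (nat_lit 247) (nat_lit 226) (nat_lit 127)) (XT.nd (nat_lit 78) (nat_lit 0) (nat_lit 0) (XT.lf (nat_lit 0) (nat_lit 209317649588) (nat_lit 76) (nat_lit 250505870920) (nat_lit 152) (nat_lit 915731267070) (nat_lit 4) (nat_lit 5) (nat_lit 5) (nat_lit 5) (nat_lit 6) (nat_lit 4) (nat_lit 248) (nat_lit 226) (nat_lit 126)) (XT.lf (nat_lit 0) (nat_lit 707198756186) (nat_lit 152) (nat_lit 835636413209) (nat_lit 0) (nat_lit 15425278358) (nat_lit 4)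 (nat_lit 5) (nat_lit 6) (nat_lit 4) (nat_lit 4) (nat_lit 4) (nat_lit 249) (nat_lit 226) (nat_lit 125)))))) (XT.nd (nat_lit 29562) (nat_lit 0) (nat_lit 1596) (XT.nd (nat_lit 156) (nat_lit 76) (nat_lit 0) (XT.nd (nat_lit 78) (nat_lit 0) (nat_lit 0) (XT.lf (nat_lit 0) (nat_lit 998608590236) (nat_lit 152) (nat_lit 462374056305) (nat_lit 0) (nat_lit 306835045592) (nat_lit 4) (nat_lit 5) (nat_lit 6) (nat_lit 4) (nat_lit 4) (nat_lit 4) (nat_lit 250) (nat_lit 226) (nat_lit 124)) (XT.lf (nat_lit 0) (nat_lit 1333729847190) (nat_lit 152) (nat_lit 33122435899) (nat_lit 0) (nat_lit 641956244446) (nat_lit 4) (nat_lit 5) (nat_lit 6) (nat_lit 4) (nat_lit 4) (nat_lit 4) (nat_lit 251) (nat_lit 226) (nat_lit 123))) (XT.nd (nat_lit 29328) (nat_lit 0) (nat_lit 1824) (XT.lf (nat_lit 0) (nat_lit 484766850452) (nat_lit 76) (nat_lit 1246011051253) (nat_lit 76) (nat_lit 554237397987) (nat_lit 3) (nat_lit 4) (nat_lit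 4) (nat_lit 5) (nat_lit 4) (nat_lit 4) (nat_lit 252) (nat_lit 226) (nat_lit 122)) (XT.lf (nat_lit 0) (nat_lit 7514697415) (nat_lit 532) (nat_lit 41118442889) (nat_lit 532) (nat_lit 41118442889) (nat_lit 27) (nat_lit 3) (nat_lit 34) (nat_lit 3) (nat_lit 34) (nat_lit 5) (nat_lit 227) (nat_lit 227) (nat_lit 146)))) (XT.nd (nat_lit 156) (nat_lit 304) (nat_lit 0) (XT.nd (nat_lit 78) (nat_lit 0) (nat_lit 0) (XT.lf (nat_lit 0) (nat_lit 18308116677) (nat_lit 456) (nat_lit 140341245486) (nat_lit 532) (nat_lit 34144394978) (nat_lit 28) (nat_lit 5) (nat_lit 34) (nat_lit 5) (nat_lit 35) (nat_lit 5) (nat_lit 228) (nat_lit 227) (nat_lit 145)) (XT.lf (nat_lit 76) (nat_lit 1775019040) (nat_lit 0) (nat_lit 25492322874) (nat_lit 532) (nat_lit 180395503498) (nat_lit 29) (nat_lit 5) (nat_lit 28) (nat_lit 5) (nat_lit 35) (nat_lit 5) (nat_lit 229) (nat_lit 227) (nat_lit 144))) (XT.nd (nat_lit 78) (nat_lit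 380) (nat_lit 0) (XT.lf (nat_lit 0) (nat_lit 44831669335) (nat_lit 456) (nat_lit 53904288357) (nat_lit 532) (nat_lit 125445445683) (nat_lit 29) (nat_lit 5) (nat_lit 35) (nat_lit 5) (nat_lit 36) (nat_lit 5) (nat_lit 230) (nat_lit 227) (nat_lit 143)) (XT.nd (nat_lit 78) (nat_lit 456) (nat_lit 0) (XT.lf (nat_lit 0) (nat_lit 70165793348) (nat_lit 456) (nat_lit 117766809776) (nat_lit 76) (nat_lit 54834333525) (nat_lit 30) (nat_lit 5) (nat_lit 36) (nat_lit 5) (nat_lit 31) (nat_lit 5) (nat_lit 231) (nat_lit 227) (nat_lit 142)) (XT.lf (nat_lit 0) (nat_lit 70757400922) (nat_lit 456) (nat_lit 34584891600) (nat_lit 532) (nat_lit 158314629833) (nat_lit 24) (nat_lit 5) (nat_lit 30) (nat_lit 5) (nat_lit 31) (nat_lit 5) (nat_lit 232) (nat_lit 227) (nat_lit 141))))))))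
noncomputable def xc57 : XT := (XT.nd (nat_lit 1326) (nat_lit 0) (nat_lit 0) (XT.nd (nat_lit 624) (nat_lit 608) (nat_lit 0) (XT.nd (nat_lit 312) (nat_lit 304) (nat_lit 0) (XT.nd (nat_lit 156) (nat_lit 380) (nat_lit 0) (XT.nd (nat_lit 78) (nat_lit 0) (nat_lit 0) (XT.lf (nat_lit 0) (nat_lit 3986282933) (nat_lit 228) (nat_lit 148831676135) (nat_lit 304) (nat_lit 134300634029) (nat_lit 21) (nat_lit 5) (nat_lit 24) (nat_lit 5) (nat_lit 25) (nat_lit 5) (nat_lit 233) (nat_lit 227) (nat_lit 140)) (XT.lf (nat_lit 0) (nat_lit 214615194649) (nat_lit 304) (nat_lit 73148668502) (nat_lit 76) (nat_lit 25759636020) (nat_lit 21) (nat_lit 5) (nat_lit 25) (nat_lit 5) (nat_lit 22) (nat_lit 5) (nat_lit 234) (nat_lit 227) (nat_lit 139))) (XT.nd (nat_lit 78) (nat_lit 228) (nat_lit 0) (XT.lf (nat_lit 0) (nat_lit 172863220503) (nat_lit 152) (nat_lit 121092212687) (nat_lit 228) (nat_lit 49271836508) (nat_lit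 19) (nat_lit 5) (nat_lit 21) (nat_lit 5) (nat_lit 22) (nat_lit 5) (nat_lit 235) (nat_lit 227) (nat_lit 138)) (XT.lf (nat_lit 0) (nat_lit 13512480472) (nat_lit 228) (nat_lit 291738526329) (nat_lit 76) (nat_lit 71633128188) (nat_lit 16) (nat_lit 5) (nat_lit 19) (nat_lit 5) (nat_lit 17) (nat_lit 5) (nat_lit 236) (nat_lit 227) (nat_lit 137)))) (XT.nd (nat_lit 156) (nat_lit 152) (nat_lit 0) (XT.nd (nat_lit 78) (nat_lit 152) (nat_lit 0) (XT.lf (nat_lit 0) (nat_lit 91317640142) (nat_lit 228) (nat_lit 30735250123) (nat_lit 76) (nat_lit 292752607122) (nat_lit 16) (nat_lit 5) (nat_lit 19) (nat_lit 5) (nat_lit 17) (nat_lit 5) (nat_lit 237) (nat_lit 227) (nat_lit 136)) (XT.lf (nat_lit 0) (nat_lit 189922691178) (nat_lit 228) (nat_lit 176572655385) (nat_lit 76) (nat_lit 91189389377) (nat_lit 14) (nat_lit 5) (nat_lit 17) (nat_lit 5) (nat_lit 15) (nat_lit 5) (nat_lit 238) (nat_lit 227) (nat_lit 135)))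 (XT.nd (nat_lit 78) (nat_lit 0) (nat_lit 0) (XT.lf (nat_lit 0) (nat_lit 138186980137) (nat_lit 152) (nat_lit 172748494695) (nat_lit 228) (nat_lit 195451028478) (nat_lit 12) (nat_lit 5) (nat_lit 14) (nat_lit 5) (nat_lit 15) (nat_lit 5) (nat_lit 239) (nat_lit 227) (nat_lit 134)) (XT.lf (nat_lit 0) (nat_lit 456578221008) (nat_lit 228) (nat_lit 52466722430) (nat_lit 76) (nat_lit 52830349650) (nat_lit 12) (nat_lit 5) (nat_lit 15) (nat_lit 5) (nat_lit 13) (nat_lit 4) (nat_lit 240) (nat_lit 227) (nat_lit 133))))) (XT.nd (nat_lit 312) (nat_lit 228) (nat_lit 0) (XT.nd (nat_lit 156) (nat_lit 76) (nat_lit 0) (XT.nd (nat_lit 78) (nat_lit 152) (nat_lit 0) (XT.lf (nat_lit 0) (nat_lit 11306876183) (nat_lit 152) (nat_lit 303018584695) (nat_lit 76) (nat_lit 310337389435) (nat_lit 10) (nat_lit 5) (nat_lit 12) (nat_lit 5) (nat_lit 11) (nat_lit 5) (nat_lit 241) (nat_lit 227) (nat_lit 132)) (XT.lf (nat_lit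 0) (nat_lit 58265331978) (nat_lit 152) (nat_lit 84046934570) (nat_lit 228) (nat_lit 554085827169) (nat_lit 8) (nat_lit 5) (nat_lit 10) (nat_lit 5) (nat_lit 11) (nat_lit 5) (nat_lit 242) (nat_lit 227) (nat_lit 131))) (XT.nd (nat_lit 78) (nat_lit 76) (nat_lit 0) (XT.lf (nat_lit 0) (nat_lit 306367158056) (nat_lit 228) (nat_lit 290673068811) (nat_lit 76) (nat_lit 180781501903) (nat_lit 8) (nat_lit 5) (nat_lit 11) (nat_lit 5) (nat_lit 9) (nat_lit 4) (nat_lit 243) (nat_lit 227) (nat_lit 130)) (XT.lf (nat_lit 0) (nat_lit 112193249461) (nat_lit 76) (nat_lit 387859713895) (nat_lit 152) (nat_lit 371004131796) (nat_lit 7) (nat_lit 5) (nat_lit 8) (nat_lit 5) (nat_lit 9) (nat_lit 4) (nat_lit 244) (nat_lit 227) (nat_lit 129)))) (XT.nd (nat_lit 156) (nat_lit 152) (nat_lit 0) (XT.nd (nat_lit 78) (nat_lit 76) (nat_lit 0) (XT.lf (nat_lit 0) (nat_lit 593091648014) (nat_lit 76) (nat_lit 138162534024) (nat_lit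 152) (nat_lit 246346581459) (nat_lit 7) (nat_lit 5) (nat_lit 8) (nat_lit 5) (nat_lit 9) (nat_lit 4) (nat_lit 245) (nat_lit 227) (nat_lit 128)) (XT.lf (nat_lit 0) (nat_lit 44649022776) (nat_lit 76) (nat_lit 957143484888) (nat_lit 76) (nat_lit 97960920858) (nat_lit 6) (nat_lit 4) (nat_lit 7) (nat_lit 5) (nat_lit 7) (nat_lit 4) (nat_lit 246) (nat_lit 227) (nat_lit 127))) (XT.nd (nat_lit 78) (nat_lit 76) (nat_lit 0) (XT.lf (nat_lit 0) (nat_lit 84353207756) (nat_lit 152) (nat_lit 683727987329) (nat_lit 76) (nat_lit 470783437354) (nat_lit 5) (nat_lit 5) (nat_lit 7) (nat_lit 5) (nat_lit 6) (nat_lit 4) (nat_lit 247) (nat_lit 227) (nat_lit 126)) (XT.nd (nat_lit 78) (nat_lit 76) (nat_lit 0) (XT.lf (nat_lit 0) (nat_lit 288378928193) (nat_lit 152) (nat_lit 259354571805) (nat_lit 76) (nat_lit 850892273861) (nat_lit 5) (nat_lit 5) (nat_lit 7) (nat_lit 5) (nat_lit 6) (nat_lit 4) (nat_lit 248) (nat_lit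 227) (nat_lit 125)) (XT.lf (nat_lit 0) (nat_lit 240716369149) (nat_lit 76) (nat_lit 288081315349) (nat_lit 152) (nat_lit 1053090267987) (nat_lit 4) (nat_lit 5) (nat_lit 5) (nat_lit 5) (nat_lit 6) (nat_lit 4) (nat_lit 249) (nat_lit 227) (nat_lit 124))))))) (XT.nd (nat_lit 30030) (nat_lit 0) (nat_lit 456) (XT.nd (nat_lit 29640) (nat_lit 0) (nat_lit 1520) (XT.nd (nat_lit 156) (nat_lit 0) (nat_lit 0) (XT.nd (nat_lit 78) (nat_lit 0) (nat_lit 0) (XT.lf (nat_lit 0) (nat_lit 813279131705) (nat_lit 152) (nat_lit 960980905746) (nat_lit 0) (nat_lit 17739430449) (nat_lit 4) (nat_lit 5) (nat_lit 6) (nat_lit 4) (nat_lit 4) (nat_lit 4) (nat_lit 250) (nat_lit 227) (nat_lit 123)) (XT.lf (nat_lit 0) (nat_lit 1148400367546) (nat_lit 152) (nat_lit 531729321755) (nat_lit 0) (nat_lit 352860615768) (nat_lit 4) (nat_lit 5) (nat_lit 6) (nat_lit 4) (nat_lit 4) (nat_lit 4) (nat_lit 251) (nat_lit 227) (nat_lit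 122))) (XT.nd (nat_lit 29406) (nat_lit 0) (nat_lit 1748) (XT.lf (nat_lit 0) (nat_lit 1533789749290) (nat_lit 152) (nat_lit 38090068244) (nat_lit 0) (nat_lit 738249953580) (nat_lit 4) (nat_lit 5) (nat_lit 6) (nat_lit 4) (nat_lit 4) (nat_lit 4) (nat_lit 252) (nat_lit 227) (nat_lit 121)) (XT.lf (nat_lit 0) (nat_lit 8644936609) (nat_lit 532) (nat_lit 47284558499) (nat_lit 532) (nat_lit 47284558499) (nat_lit 27) (nat_lit 3) (nat_lit 34) (nat_lit 3) (nat_lit 34) (nat_lit 5) (nat_lit 228) (nat_lit 228) (nat_lit 144)))) (XT.nd (nat_lit 156) (nat_lit 304) (nat_lit 0) (XT.nd (nat_lit 78) (nat_lit 0) (nat_lit 0) (XT.lf (nat_lit 0) (nat_lit 21059628407) (nat_lit 456) (nat_lit 161388883868) (nat_lit 532) (nat_lit 39263842643) (nat_lit 28) (nat_lit 5) (nat_lit 34) (nat_lit 5) (nat_lit 35) (nat_lit 5) (nat_lit 229) (nat_lit 228) (nat_lit 143)) (XT.lf (nat_lit 76) (nat_lit 2044519979) (nat_lit 0) (nat_lit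 29317605016) (nat_lit 532) (nat_lit 207449735942) (nat_lit 29) (nat_lit 5) (nat_lit 28) (nat_lit 5) (nat_lit 35) (nat_lit 5) (nat_lit 230) (nat_lit 228) (nat_lit 142))) (XT.nd (nat_lit 78) (nat_lit 380) (nat_lit 0) (XT.lf (nat_lit 0) (nat_lit 51560460877) (nat_lit 456) (nat_lit 61986719566) (nat_lit 532) (nat_lit 144261078196) (nat_lit 29) (nat_lit 5) (nat_lit 35) (nat_lit 5) (nat_lit 36) (nat_lit 5) (nat_lit 231) (nat_lit 228) (nat_lit 141)) (XT.nd (nat_lit 78) (nat_lit 456) (nat_lit 0) (XT.lf (nat_lit 0) (nat_lit 80694231595) (nat_lit 456) (nat_lit 135428561015) (nat_lit 76) (nat_lit 63058871213) (nat_lit 30) (nat_lit 5) (nat_lit 36) (nat_lit 5) (nat_lit 31) (nat_lit 5) (nat_lit 232) (nat_lit 228) (nat_lit 140)) (XT.lf (nat_lit 0) (nat_lit 81374004479) (nat_lit 456) (nat_lit 39772807604) (nat_lit 532) (nat_lit 182058370410) (nat_lit 24) (nat_lit 5) (nat_lit 30) (nat_lit 5) (nat_lit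 31) (nat_lit 5) (nat_lit 233) (nat_lit 228) (nat_lit 139)))))) (XT.nd (nat_lit 312) (nat_lit 456) (nat_lit 0) (XT.nd (nat_lit 156) (nat_lit 380) (nat_lit 0) (XT.nd (nat_lit 78) (nat_lit 0) (nat_lit 0) (XT.lf (nat_lit 0) (nat_lit 4587224091) (nat_lit 228) (nat_lit 171156258608) (nat_lit 304) (nat_lit 154442651973) (nat_lit 21) (nat_lit 5) (nat_lit 24) (nat_lit 5) (nat_lit 25) (nat_lit 5) (nat_lit 234) (nat_lit 228) (nat_lit 138)) (XT.lf (nat_lit 0) (nat_lit 246809938050) (nat_lit 304) (nat_lit 84118149608) (nat_lit 76) (nat_lit 29623720985) (nat_lit 21) (nat_lit 5) (nat_lit 25) (nat_lit 5) (nat_lit 22) (nat_lit 5) (nat_lit 235) (nat_lit 228) (nat_lit 137))) (XT.nd (nat_lit 78) (nat_lit 228) (nat_lit 0) (XT.lf (nat_lit 0) (nat_lit 198795284119) (nat_lit 152) (nat_lit 139255668897) (nat_lit 228) (nat_lit 56660214864) (nat_lit 19) (nat_lit 5) (nat_lit 21) (nat_lit 5) (nat_lit 22) (nat_lit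 5) (nat_lit 236) (nat_lit 228) (nat_lit 136)) (XT.lf (nat_lit 0) (nat_lit 15541403207) (nat_lit 228) (nat_lit 335496654665) (nat_lit 76) (nat_lit 82378520523) (nat_lit 16) (nat_lit 5) (nat_lit 19) (nat_lit 5) (nat_lit 17) (nat_lit 5) (nat_lit 237) (nat_lit 228) (nat_lit 135)))) (XT.nd (nat_lit 156) (nat_lit 304) (nat_lit 0) (XT.nd (nat_lit 78) (nat_lit 152) (nat_lit 0) (XT.lf (nat_lit 0) (nat_lit 105017069350) (nat_lit 228) (nat_lit 35343232760) (nat_lit 76) (nat_lit 336665866109) (nat_lit 16) (nat_lit 5) (nat_lit 19) (nat_lit 5) (nat_lit 17) (nat_lit 5) (nat_lit 238) (nat_lit 228) (nat_lit 134)) (XT.lf (nat_lit 0) (nat_lit 218412708421) (nat_lit 228) (nat_lit 203056318357) (nat_lit 76) (nat_lit 104868280796) (nat_lit 14) (nat_lit 5) (nat_lit 17) (nat_lit 5) (nat_lit 15) (nat_lit 5) (nat_lit 239) (nat_lit 228) (nat_lit 133))) (XT.nd (nat_lit 78) (nat_lit 152) (nat_lit 0) (XT.lf (nat_lit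 0) (nat_lit 158917073282) (nat_lit 152) (nat_lit 198660175085) (nat_lit 228) (nat_lit 224767105846) (nat_lit 12) (nat_lit 5) (nat_lit 14) (nat_lit 5) (nat_lit 15) (nat_lit 5) (nat_lit 240) (nat_lit 228) (nat_lit 132)) (XT.nd (nat_lit 78) (nat_lit 152) (nat_lit 0) (XT.lf (nat_lit 0) (nat_lit 525066229456) (nat_lit 228) (nat_lit 60334855631) (nat_lit 76) (nat_lit 60755392628) (nat_lit 12) (nat_lit 5) (nat_lit 15) (nat_lit 5) (nat_lit 13) (nat_lit 4) (nat_lit 241) (nat_lit 228) (nat_lit 131)) (XT.lf (nat_lit 0) (nat_lit 13004093761) (nat_lit 152) (nat_lit 348469587611) (nat_lit 76) (nat_lit 356888495709) (nat_lit 10) (nat_lit 5) (nat_lit 12) (nat_lit 5) (nat_lit 11) (nat_lit 5) (nat_lit 242) (nat_lit 228) (nat_lit 130))))))))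
noncomputable def xc58 : XT := (XT.nd (nat_lit 30732) (nat_lit 0) (nat_lit 0) (XT.nd (nat_lit 624) (nat_lit 0) (nat_lit 0) (XT.nd (nat_lit 312) (nat_lit 228) (nat_lit 0) (XT.nd (nat_lit 156) (nat_lit 76) (nat_lit 0) (XT.nd (nat_lit 78) (nat_lit 0) (nat_lit 0) (XT.lf (nat_lit 0) (nat_lit 67006765491) (nat_lit 152) (nat_lit 96653411766) (nat_lit 228) (nat_lit 637197539739) (nat_lit 8) (nat_lit 5) (nat_lit 10) (nat_lit 5) (nat_lit 11) (nat_lit 5) (nat_lit 243) (nat_lit 228) (nat_lit 129)) (XT.lf (nat_lit 0) (nat_lit 352323174605) (nat_lit 228) (nat_lit 334272541346) (nat_lit 76) (nat_lit 207899192255) (nat_lit 8) (nat_lit 5) (nat_lit 11) (nat_lit 5) (nat_lit 9) (nat_lit 4) (nat_lit 244) (nat_lit 228) (nat_lit 128))) (XT.nd (nat_lit 78) (nat_lit 0) (nat_lit 0) (XT.lf (nat_lit 0) (nat_lit 129023598733) (nat_lit 76) (nat_lit 446038161740) (nat_lit 152) (nat_lit 426653826871) (nat_lit 7) (nat_lit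 5) (nat_lit 8) (nat_lit 5) (nat_lit 9) (nat_lit 4) (nat_lit 245) (nat_lit 228) (nat_lit 127)) (XT.lf (nat_lit 0) (nat_lit 682056579436) (nat_lit 76) (nat_lit 158886471311) (nat_lit 152) (nat_lit 283297764596) (nat_lit 7) (nat_lit 5) (nat_lit 8) (nat_lit 5) (nat_lit 9) (nat_lit 4) (nat_lit 246) (nat_lit 228) (nat_lit 126)))) (XT.nd (nat_lit 156) (nat_lit 76) (nat_lit 0) (XT.nd (nat_lit 78) (nat_lit 76) (nat_lit 0) (XT.lf (nat_lit 0) (nat_lit 51347507798) (nat_lit 76) (nat_lit 1100714557190) (nat_lit 76) (nat_lit 112654320391) (nat_lit 6) (nat_lit 4) (nat_lit 7) (nat_lit 5) (nat_lit 7) (nat_lit 4) (nat_lit 247) (nat_lit 228) (nat_lit 125)) (XT.lf (nat_lit 0) (nat_lit 97006799048) (nat_lit 152) (nat_lit 786286166938) (nat_lit 76) (nat_lit 541401310152) (nat_lit 5) (nat_lit 5) (nat_lit 7) (nat_lit 5) (nat_lit 6) (nat_lit 4) (nat_lit 248) (nat_lit 228) (nat_lit 124))) (XT.nd (nat_lit 78)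 (nat_lit 76) (nat_lit 0) (XT.lf (nat_lit 0) (nat_lit 331636297969) (nat_lit 152) (nat_lit 298256871931) (nat_lit 76) (nat_lit 978526425544) (nat_lit 5) (nat_lit 5) (nat_lit 7) (nat_lit 5) (nat_lit 6) (nat_lit 4) (nat_lit 249) (nat_lit 228) (nat_lit 123)) (XT.lf (nat_lit 0) (nat_lit 276824635200) (nat_lit 76) (nat_lit 331293182814) (nat_lit 152) (nat_lit 1211053287094) (nat_lit 4) (nat_lit 5) (nat_lit 5) (nat_lit 5) (nat_lit 6) (nat_lit 4) (nat_lit 250) (nat_lit 228) (nat_lit 122))))) (XT.nd (nat_lit 29718) (nat_lit 0) (nat_lit 1292) (XT.nd (nat_lit 29562) (nat_lit 0) (nat_lit 1748) (XT.nd (nat_lit 78) (nat_lit 0) (nat_lit 0) (XT.lf (nat_lit 0) (nat_lit 935271426482) (nat_lit 152) (nat_lit 1105127308568) (nat_lit 0) (nat_lit 20400617484) (nat_lit 4) (nat_lit 5) (nat_lit 6) (nat_lit 4) (nat_lit 4) (nat_lit 4) (nat_lit 251) (nat_lit 228) (nat_lit 121)) (XT.lf (nat_lit 0) (nat_lit 1320660792261)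 (nat_lit 152) (nat_lit 611488082592) (nat_lit 0) (nat_lit 405789945061) (nat_lit 4) (nat_lit 5) (nat_lit 6) (nat_lit 4) (nat_lit 4) (nat_lit 4) (nat_lit 252) (nat_lit 228) (nat_lit 120))) (XT.nd (nat_lit 78) (nat_lit 0) (nat_lit 76) (XT.lf (nat_lit 0) (nat_lit 9943971681) (nat_lit 532) (nat_lit 54375994015) (nat_lit 532) (nat_lit 54375994015) (nat_lit 27) (nat_lit 3) (nat_lit 34) (nat_lit 3) (nat_lit 34) (nat_lit 5) (nat_lit 229) (nat_lit 229) (nat_lit 142)) (XT.lf (nat_lit 0) (nat_lit 24222575866) (nat_lit 456) (nat_lit 185594533317) (nat_lit 532) (nat_lit 45151746766) (nat_lit 28) (nat_lit 5) (nat_lit 34) (nat_lit 5) (nat_lit 35) (nat_lit 5) (nat_lit 230) (nat_lit 229) (nat_lit 141)))) (XT.nd (nat_lit 156) (nat_lit 532) (nat_lit 0) (XT.nd (nat_lit 78) (nat_lit 0) (nat_lit 76) (XT.lf (nat_lit 76) (nat_lit 2353653993) (nat_lit 0) (nat_lit 33716329859) (nat_lit 532) (nat_lit 238563345232)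 (nat_lit 29) (nat_lit 5) (nat_lit 28) (nat_lit 5) (nat_lit 35) (nat_lit 5) (nat_lit 231) (nat_lit 229) (nat_lit 140)) (XT.lf (nat_lit 0) (nat_lit 59297585693) (nat_lit 456) (nat_lit 71282298734) (nat_lit 532) (nat_lit 165899344395) (nat_lit 29) (nat_lit 5) (nat_lit 35) (nat_lit 5) (nat_lit 36) (nat_lit 5) (nat_lit 232) (nat_lit 229) (nat_lit 139))) (XT.nd (nat_lit 78) (nat_lit 684) (nat_lit 0) (XT.lf (nat_lit 0) (nat_lit 92801065196) (nat_lit 456) (nat_lit 155740372406) (nat_lit 76) (nat_lit 72517238877) (nat_lit 30) (nat_lit 5) (nat_lit 36) (nat_lit 5) (nat_lit 31) (nat_lit 5) (nat_lit 233) (nat_lit 229) (nat_lit 138)) (XT.nd (nat_lit 78) (nat_lit 228) (nat_lit 0) (XT.lf (nat_lit 0) (nat_lit 93582368606) (nat_lit 456) (nat_lit 45738866563) (nat_lit 532) (nat_lit 209364514329) (nat_lit 24) (nat_lit 5) (nat_lit 30) (nat_lit 5) (nat_lit 31) (nat_lit 5) (nat_lit 234) (nat_lit 229) (nat_lit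 137)) (XT.lf (nat_lit 0) (nat_lit 5277575167) (nat_lit 228) (nat_lit 196829569651) (nat_lit 304) (nat_lit 177606722993) (nat_lit 21) (nat_lit 5) (nat_lit 24) (nat_lit 5) (nat_lit 25) (nat_lit 5) (nat_lit 235) (nat_lit 229) (nat_lit 136))))))) (XT.nd (nat_lit 702) (nat_lit 304) (nat_lit 0) (XT.nd (nat_lit 312) (nat_lit 608) (nat_lit 0) (XT.nd (nat_lit 156) (nat_lit 228) (nat_lit 0) (XT.nd (nat_lit 78) (nat_lit 152) (nat_lit 0) (XT.lf (nat_lit 0) (nat_lit 283833292050) (nat_lit 304) (nat_lit 96733740351) (nat_lit 76) (nat_lit 34067384662) (nat_lit 21) (nat_lit 5) (nat_lit 25) (nat_lit 5) (nat_lit 22) (nat_lit 5) (nat_lit 236) (nat_lit 229) (nat_lit 135)) (XT.lf (nat_lit 0) (nat_lit 228616527997) (nat_lit 152) (nat_lit 160143735153) (nat_lit 228) (nat_lit 65157434525) (nat_lit 19) (nat_lit 5) (nat_lit 21) (nat_lit 5) (nat_lit 22) (nat_lit 5) (nat_lit 237) (nat_lit 229) (nat_lit 134))) (XT.nd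 (nat_lit 78) (nat_lit 0) (nat_lit 0) (XT.lf (nat_lit 0) (nat_lit 17874164285) (nat_lit 228) (nat_lit 385819148620) (nat_lit 76) (nat_lit 94735618530) (nat_lit 16) (nat_lit 5) (nat_lit 19) (nat_lit 5) (nat_lit 17) (nat_lit 5) (nat_lit 238) (nat_lit 229) (nat_lit 133)) (XT.lf (nat_lit 0) (nat_lit 120770978097) (nat_lit 228) (nat_lit 40642974853) (nat_lit 76) (nat_lit 387166024224) (nat_lit 16) (nat_lit 5) (nat_lit 19) (nat_lit 5) (nat_lit 17) (nat_lit 5) (nat_lit 239) (nat_lit 229) (nat_lit 132)))) (XT.nd (nat_lit 156) (nat_lit 304) (nat_lit 0) (XT.nd (nat_lit 78) (nat_lit 152) (nat_lit 0) (XT.lf (nat_lit 0) (nat_lit 251175834771) (nat_lit 228) (nat_lit 233513075877) (nat_lit 76) (nat_lit 120598888143) (nat_lit 14) (nat_lit 5) (nat_lit 17) (nat_lit 5) (nat_lit 15) (nat_lit 5) (nat_lit 240) (nat_lit 229) (nat_lit 131)) (XT.lf (nat_lit 0) (nat_lit 182756181439) (nat_lit 152) (nat_lit 228458752338)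 (nat_lit 228) (nat_lit 258480979357) (nat_lit 12) (nat_lit 5) (nat_lit 14) (nat_lit 5) (nat_lit 15) (nat_lit 5) (nat_lit 241) (nat_lit 229) (nat_lit 130))) (XT.nd (nat_lit 78) (nat_lit 304) (nat_lit 0) (XT.lf (nat_lit 0) (nat_lit 603827128181) (nat_lit 228) (nat_lit 69383666082) (nat_lit 76) (nat_lit 69869072434) (nat_lit 12) (nat_lit 5) (nat_lit 15) (nat_lit 5) (nat_lit 13) (nat_lit 4) (nat_lit 242) (nat_lit 229) (nat_lit 129)) (XT.nd (nat_lit 78) (nat_lit 152) (nat_lit 0) (XT.lf (nat_lit 0) (nat_lit 14955604726) (nat_lit 152) (nat_lit 400738676195) (nat_lit 76) (nat_lit 410422146517) (nat_lit 10) (nat_lit 5) (nat_lit 12) (nat_lit 5) (nat_lit 11) (nat_lit 5) (nat_lit 243) (nat_lit 229) (nat_lit 128)) (XT.lf (nat_lit 0) (nat_lit 77059015638) (nat_lit 152) (nat_lit 111150997831) (nat_lit 228) (nat_lit 732776292436) (nat_lit 8) (nat_lit 5) (nat_lit 10) (nat_lit 5) (nat_lit 11) (nat_lit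 5) (nat_lit 244) (nat_lit 229) (nat_lit 127)))))) (XT.nd (nat_lit 312) (nat_lit 152) (nat_lit 0) (XT.nd (nat_lit 156) (nat_lit 76) (nat_lit 0) (XT.nd (nat_lit 78) (nat_lit 76) (nat_lit 0) (XT.lf (nat_lit 0) (nat_lit 405172363719) (nat_lit 228) (nat_lit 384412297568) (nat_lit 76) (nat_lit 239084422750) (nat_lit 8) (nat_lit 5) (nat_lit 11) (nat_lit 5) (nat_lit 9) (nat_lit 4) (nat_lit 245) (nat_lit 229) (nat_lit 126)) (XT.lf (nat_lit 0) (nat_lit 148378168299) (nat_lit 76) (nat_lit 512943500944) (nat_lit 152) (nat_lit 490651201699) (nat_lit 7) (nat_lit 5) (nat_lit 8) (nat_lit 5) (nat_lit 9) (nat_lit 4) (nat_lit 246) (nat_lit 229) (nat_lit 125))) (XT.nd (nat_lit 78) (nat_lit 76) (nat_lit 0) (XT.lf (nat_lit 0) (nat_lit 784365961791) (nat_lit 76) (nat_lit 182719107176) (nat_lit 152) (nat_lit 325791821283) (nat_lit 7) (nat_lit 5) (nat_lit 8) (nat_lit 5) (nat_lit 9) (nat_lit 4) (nat_lit 247)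 (nat_lit 229) (nat_lit 124)) (XT.lf (nat_lit 0) (nat_lit 59050489625) (nat_lit 76) (nat_lit 1265821400177) (nat_lit 76) (nat_lit 129551909965) (nat_lit 6) (nat_lit 4) (nat_lit 7) (nat_lit 5) (nat_lit 7) (nat_lit 4) (nat_lit 248) (nat_lit 229) (nat_lit 123)))) (XT.nd (nat_lit 156) (nat_lit 76) (nat_lit 0) (XT.nd (nat_lit 78) (nat_lit 0) (nat_lit 0) (XT.lf (nat_lit 0) (nat_lit 111558280251) (nat_lit 152) (nat_lit 904228321853) (nat_lit 76) (nat_lit 622611776765) (nat_lit 5) (nat_lit 5) (nat_lit 7) (nat_lit 5) (nat_lit 6) (nat_lit 4) (nat_lit 249) (nat_lit 229) (nat_lit 122)) (XT.lf (nat_lit 0) (nat_lit 381382143834) (nat_lit 152) (nat_lit 342994733047) (nat_lit 76) (nat_lit 1125305624237) (nat_lit 5) (nat_lit 5) (nat_lit 7) (nat_lit 5) (nat_lit 6) (nat_lit 4) (nat_lit 250) (nat_lit 229) (nat_lit 121))) (XT.nd (nat_lit 78) (nat_lit 0) (nat_lit 0) (XT.lf (nat_lit 0) (nat_lit 318348943470)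 (nat_lit 76) (nat_lit 380986910832) (nat_lit 152) (nat_lit 1392710886138) (nat_lit 4) (nat_lit 5) (nat_lit 5) (nat_lit 5) (nat_lit 6) (nat_lit 4) (nat_lit 251) (nat_lit 229) (nat_lit 120)) (XT.nd (nat_lit 29562) (nat_lit 0) (nat_lit 1748) (XT.lf (nat_lit 0) (nat_lit 1075562461832) (nat_lit 152) (nat_lit 1270895850570) (nat_lit 0) (nat_lit 23460916130) (nat_lit 4) (nat_lit 5) (nat_lit 6) (nat_lit 4) (nat_lit 4) (nat_lit 4) (nat_lit 252) (nat_lit 229) (nat_lit 119)) (XT.lf (nat_lit 0) (nat_lit 11437302466) (nat_lit 532) (nat_lit 62531449254) (nat_lit 532) (nat_lit 62531449254) (nat_lit 27) (nat_lit 3) (nat_lit 34) (nat_lit 3) (nat_lit 34) (nat_lit 5) (nat_lit 230) (nat_lit 230) (nat_lit 140))))))))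
noncomputable def xc59 : XT := (XT.nd (nat_lit 1404) (nat_lit 152) (nat_lit 0) (XT.nd (nat_lit 702) (nat_lit 684) (nat_lit 0) (XT.nd (nat_lit 312) (nat_lit 912) (nat_lit 0) (XT.nd (nat_lit 156) (nat_lit 0) (nat_lit 76) (XT.nd (nat_lit 78) (nat_lit 0) (nat_lit 0) (XT.lf (nat_lit 0) (nat_lit 27858989238) (nat_lit 456) (nat_lit 213431684482) (nat_lit 532) (nat_lit 51923244302) (nat_lit 28) (nat_lit 5) (nat_lit 34) (nat_lit 5) (nat_lit 35) (nat_lit 5) (nat_lit 231) (nat_lit 230) (nat_lit 139)) (XT.lf (nat_lit 76) (nat_lit 2708559194) (nat_lit 0) (nat_lit 38774599067) (nat_lit 532) (nat_lit 274344935031) (nat_lit 29) (nat_lit 5) (nat_lit 28) (nat_lit 5) (nat_lit 35) (nat_lit 5) (nat_lit 232) (nat_lit 230) (nat_lit 138))) (XT.nd (nat_lit 78) (nat_lit 0) (nat_lit 76) (XT.lf (nat_lit 0) (nat_lit 68194534082) (nat_lit 456) (nat_lit 81972807047) (nat_lit 532) (nat_lit 190783568904) (nat_lit 29)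 (nat_lit 5) (nat_lit 35) (nat_lit 5) (nat_lit 36) (nat_lit 5) (nat_lit 233) (nat_lit 230) (nat_lit 137)) (XT.lf (nat_lit 0) (nat_lit 106723265703) (nat_lit 456) (nat_lit 179099558503) (nat_lit 76) (nat_lit 83394474601) (nat_lit 30) (nat_lit 5) (nat_lit 36) (nat_lit 5) (nat_lit 31) (nat_lit 5) (nat_lit 234) (nat_lit 230) (nat_lit 136)))) (XT.nd (nat_lit 156) (nat_lit 380) (nat_lit 0) (XT.nd (nat_lit 78) (nat_lit 228) (nat_lit 0) (XT.lf (nat_lit 0) (nat_lit 107621435394) (nat_lit 456) (nat_lit 52599800757) (nat_lit 532) (nat_lit 240767216701) (nat_lit 24) (nat_lit 5) (nat_lit 30) (nat_lit 5) (nat_lit 31) (nat_lit 5) (nat_lit 235) (nat_lit 230) (nat_lit 135)) (XT.lf (nat_lit 0) (nat_lit 6070925969) (nat_lit 228) (nat_lit 226353908502) (nat_lit 304) (nat_lit 204245972065) (nat_lit 21) (nat_lit 5) (nat_lit 24) (nat_lit 5) (nat_lit 25) (nat_lit 5) (nat_lit 236) (nat_lit 230) (nat_lit 134)))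 (XT.nd (nat_lit 78) (nat_lit 380) (nat_lit 0) (XT.lf (nat_lit 0) (nat_lit 326409694774) (nat_lit 304) (nat_lit 111242189535) (nat_lit 76) (nat_lit 39177572156) (nat_lit 21) (nat_lit 5) (nat_lit 25) (nat_lit 5) (nat_lit 22) (nat_lit 5) (nat_lit 237) (nat_lit 230) (nat_lit 133)) (XT.nd (nat_lit 78) (nat_lit 228) (nat_lit 0) (XT.lf (nat_lit 0) (nat_lit 262910482630) (nat_lit 152) (nat_lit 184165080622) (nat_lit 228) (nat_lit 74929679142) (nat_lit 19) (nat_lit 5) (nat_lit 21) (nat_lit 5) (nat_lit 22) (nat_lit 5) (nat_lit 238) (nat_lit 230) (nat_lit 132)) (XT.lf (nat_lit 0) (nat_lit 20556461402) (nat_lit 228) (nat_lit 443690505416) (nat_lit 76) (nat_lit 108946203222) (nat_lit 16) (nat_lit 5) (nat_lit 19) (nat_lit 5) (nat_lit 17) (nat_lit 5) (nat_lit 239) (nat_lit 230) (nat_lit 131)))))) (XT.nd (nat_lit 312) (nat_lit 380) (nat_lit 0) (XT.nd (nat_lit 156) (nat_lit 152) (nat_lit 0) (XT.nd (nat_lit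 78) (nat_lit 152) (nat_lit 0) (XT.lf (nat_lit 0) (nat_lit 138887644355) (nat_lit 228) (nat_lit 46738103257) (nat_lit 76) (nat_lit 445241138217) (nat_lit 16) (nat_lit 5) (nat_lit 19) (nat_lit 5) (nat_lit 17) (nat_lit 5) (nat_lit 240) (nat_lit 230) (nat_lit 130)) (XT.lf (nat_lit 0) (nat_lit 288853132548) (nat_lit 228) (nat_lit 268538759198) (nat_lit 76) (nat_lit 138688997528) (nat_lit 14) (nat_lit 5) (nat_lit 17) (nat_lit 5) (nat_lit 15) (nat_lit 5) (nat_lit 241) (nat_lit 230) (nat_lit 129))) (XT.nd (nat_lit 78) (nat_lit 0) (nat_lit 0) (XT.lf (nat_lit 0) (nat_lit 210170778534) (nat_lit 152) (nat_lit 262727225673) (nat_lit 228) (nat_lit 297252224660) (nat_lit 12) (nat_lit 5) (nat_lit 14) (nat_lit 5) (nat_lit 15) (nat_lit 5) (nat_lit 242) (nat_lit 230) (nat_lit 128)) (XT.lf (nat_lit 0) (nat_lit 694401926564) (nat_lit 228) (nat_lit 79790143864) (nat_lit 76) (nat_lit 80349713761) (nat_lit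 12) (nat_lit 5) (nat_lit 15) (nat_lit 5) (nat_lit 13) (nat_lit 4) (nat_lit 243) (nat_lit 230) (nat_lit 127)))) (XT.nd (nat_lit 156) (nat_lit 76) (nat_lit 0) (XT.nd (nat_lit 78) (nat_lit 152) (nat_lit 0) (XT.lf (nat_lit 0) (nat_lit 17199623621) (nat_lit 152) (nat_lit 460848457166) (nat_lit 76) (nat_lit 471985753147) (nat_lit 10) (nat_lit 5) (nat_lit 12) (nat_lit 5) (nat_lit 11) (nat_lit 5) (nat_lit 244) (nat_lit 230) (nat_lit 126)) (XT.lf (nat_lit 0) (nat_lit 88618802066) (nat_lit 152) (nat_lit 127823325614) (nat_lit 228) (nat_lit 842692072207) (nat_lit 8) (nat_lit 5) (nat_lit 10) (nat_lit 5) (nat_lit 11) (nat_lit 5) (nat_lit 245) (nat_lit 230) (nat_lit 125))) (XT.nd (nat_lit 78) (nat_lit 76) (nat_lit 0) (XT.lf (nat_lit 0) (nat_lit 465948757349) (nat_lit 228) (nat_lit 442073291557) (nat_lit 76) (nat_lit 274947352066) (nat_lit 8) (nat_lit 5) (nat_lit 11) (nat_lit 5) (nat_lit 9) (nat_lit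 4) (nat_lit 246) (nat_lit 230) (nat_lit 124)) (XT.nd (nat_lit 78) (nat_lit 0) (nat_lit 0) (XT.lf (nat_lit 0) (nat_lit 170635672187) (nat_lit 76) (nat_lit 589884734927) (nat_lit 152) (nat_lit 564248353257) (nat_lit 7) (nat_lit 5) (nat_lit 8) (nat_lit 5) (nat_lit 9) (nat_lit 4) (nat_lit 247) (nat_lit 230) (nat_lit 123)) (XT.lf (nat_lit 0) (nat_lit 902021533141) (nat_lit 76) (nat_lit 210126720071) (nat_lit 152) (nat_lit 374660134740) (nat_lit 7) (nat_lit 5) (nat_lit 8) (nat_lit 5) (nat_lit 9) (nat_lit 4) (nat_lit 248) (nat_lit 230) (nat_lit 122))))))) (XT.nd (nat_lit 30342) (nat_lit 0) (nat_lit 380) (XT.nd (nat_lit 29952) (nat_lit 0) (nat_lit 1444) (XT.nd (nat_lit 156) (nat_lit 0) (nat_lit 0) (XT.nd (nat_lit 78) (nat_lit 76) (nat_lit 0) (XT.lf (nat_lit 0) (nat_lit 67908710068) (nat_lit 76) (nat_lit 1455694352668) (nat_lit 76) (nat_lit 148984274166) (nat_lit 6) (nat_lit 4) (nat_lit 7) (nat_lit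 5) (nat_lit 7) (nat_lit 4) (nat_lit 249) (nat_lit 230) (nat_lit 121)) (XT.lf (nat_lit 0) (nat_lit 128292371131) (nat_lit 152) (nat_lit 1039861987806) (nat_lit 76) (nat_lit 716003747507) (nat_lit 5) (nat_lit 5) (nat_lit 7) (nat_lit 5) (nat_lit 6) (nat_lit 4) (nat_lit 250) (nat_lit 230) (nat_lit 120))) (XT.nd (nat_lit 29718) (nat_lit 0) (nat_lit 1672) (XT.lf (nat_lit 0) (nat_lit 438589768751) (nat_lit 152) (nat_lit 394443436634) (nat_lit 76) (nat_lit 1294101645461) (nat_lit 5) (nat_lit 5) (nat_lit 7) (nat_lit 5) (nat_lit 6) (nat_lit 4) (nat_lit 251) (nat_lit 230) (nat_lit 119)) (XT.lf (nat_lit 0) (nat_lit 13154209769) (nat_lit 532) (nat_lit 71910452946) (nat_lit 532) (nat_lit 71910452946) (nat_lit 27) (nat_lit 3) (nat_lit 34) (nat_lit 3) (nat_lit 34) (nat_lit 5) (nat_lit 231) (nat_lit 231) (nat_lit 138)))) (XT.nd (nat_lit 156) (nat_lit 304) (nat_lit 0) (XT.nd (nat_lit 78) (nat_lit 0) (nat_lit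 0) (XT.lf (nat_lit 0) (nat_lit 32040126465) (nat_lit 456) (nat_lit 245444903065) (nat_lit 532) (nat_lit 59710774819) (nat_lit 28) (nat_lit 5) (nat_lit 34) (nat_lit 5) (nat_lit 35) (nat_lit 5) (nat_lit 232) (nat_lit 231) (nat_lit 137)) (XT.lf (nat_lit 76) (nat_lit 3116247310) (nat_lit 0) (nat_lit 44591408759) (nat_lit 532) (nat_lit 315494473406) (nat_lit 29) (nat_lit 5) (nat_lit 28) (nat_lit 5) (nat_lit 35) (nat_lit 5) (nat_lit 233) (nat_lit 231) (nat_lit 136))) (XT.nd (nat_lit 78) (nat_lit 380) (nat_lit 0) (XT.lf (nat_lit 0) (nat_lit 78425461292) (nat_lit 456) (nat_lit 94267339448) (nat_lit 532) (nat_lit 219400592217) (nat_lit 29) (nat_lit 5) (nat_lit 35) (nat_lit 5) (nat_lit 36) (nat_lit 5) (nat_lit 234) (nat_lit 231) (nat_lit 135)) (XT.nd (nat_lit 78) (nat_lit 456) (nat_lit 0) (XT.lf (nat_lit 0) (nat_lit 122733298641) (nat_lit 456) (nat_lit 205963078469) (nat_lit 76) (nat_lit 95903381059)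 (nat_lit 30) (nat_lit 5) (nat_lit 36) (nat_lit 5) (nat_lit 31) (nat_lit 5) (nat_lit 235) (nat_lit 231) (nat_lit 134)) (XT.lf (nat_lit 0) (nat_lit 123765944841) (nat_lit 456) (nat_lit 60489849669) (nat_lit 532) (nat_lit 276880805991) (nat_lit 24) (nat_lit 5) (nat_lit 30) (nat_lit 5) (nat_lit 31) (nat_lit 5) (nat_lit 236) (nat_lit 231) (nat_lit 133)))))) (XT.nd (nat_lit 312) (nat_lit 456) (nat_lit 0) (XT.nd (nat_lit 156) (nat_lit 380) (nat_lit 0) (XT.nd (nat_lit 78) (nat_lit 0) (nat_lit 0) (XT.lf (nat_lit 0) (nat_lit 6982861294) (nat_lit 228) (nat_lit 260306921737) (nat_lit 304) (nat_lit 234881537533) (nat_lit 21) (nat_lit 5) (nat_lit 24) (nat_lit 5) (nat_lit 25) (nat_lit 5) (nat_lit 237) (nat_lit 231) (nat_lit 132)) (XT.lf (nat_lit 0) (nat_lit 375372214333) (nat_lit 304) (nat_lit 127927299160) (nat_lit 76) (nat_lit 45054268316) (nat_lit 21) (nat_lit 5) (nat_lit 25) (nat_lit 5) (nat_lit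 22) (nat_lit 5) (nat_lit 238) (nat_lit 231) (nat_lit 131))) (XT.nd (nat_lit 78) (nat_lit 228) (nat_lit 0) (XT.lf (nat_lit 0) (nat_lit 302348170664) (nat_lit 152) (nat_lit 211789680293) (nat_lit 228) (nat_lit 86168094672) (nat_lit 19) (nat_lit 5) (nat_lit 21) (nat_lit 5) (nat_lit 22) (nat_lit 5) (nat_lit 239) (nat_lit 231) (nat_lit 130)) (XT.lf (nat_lit 0) (nat_lit 23640817171) (nat_lit 228) (nat_lit 510242935294) (nat_lit 76) (nat_lit 125288316626) (nat_lit 16) (nat_lit 5) (nat_lit 19) (nat_lit 5) (nat_lit 17) (nat_lit 5) (nat_lit 240) (nat_lit 231) (nat_lit 129)))) (XT.nd (nat_lit 156) (nat_lit 304) (nat_lit 0) (XT.nd (nat_lit 78) (nat_lit 152) (nat_lit 0) (XT.lf (nat_lit 0) (nat_lit 159721561929) (nat_lit 228) (nat_lit 53747822282) (nat_lit 76) (nat_lit 512027468010) (nat_lit 16) (nat_lit 5) (nat_lit 19) (nat_lit 5) (nat_lit 17) (nat_lit 5) (nat_lit 241) (nat_lit 231) (nat_lit 128))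 (XT.lf (nat_lit 0) (nat_lit 332181800019) (nat_lit 228) (nat_lit 308818606681) (nat_lit 76) (nat_lit 159492555978) (nat_lit 14) (nat_lit 5) (nat_lit 17) (nat_lit 5) (nat_lit 15) (nat_lit 5) (nat_lit 242) (nat_lit 231) (nat_lit 127))) (XT.nd (nat_lit 78) (nat_lit 152) (nat_lit 0) (XT.lf (nat_lit 0) (nat_lit 241697279910) (nat_lit 152) (nat_lit 302136052801) (nat_lit 228) (nat_lit 341839376620) (nat_lit 12) (nat_lit 5) (nat_lit 14) (nat_lit 5) (nat_lit 15) (nat_lit 5) (nat_lit 243) (nat_lit 231) (nat_lit 126)) (XT.nd (nat_lit 78) (nat_lit 152) (nat_lit 0) (XT.lf (nat_lit 0) (nat_lit 798562766894) (nat_lit 228) (nat_lit 91757854758) (nat_lit 76) (nat_lit 92402382895) (nat_lit 12) (nat_lit 5) (nat_lit 15) (nat_lit 5) (nat_lit 13) (nat_lit 4) (nat_lit 244) (nat_lit 231) (nat_lit 125)) (XT.lf (nat_lit 0) (nat_lit 19780079970) (nat_lit 152) (nat_lit 529974954127) (nat_lit 76) (nat_lit 542783831356)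 (nat_lit 10) (nat_lit 5) (nat_lit 12) (nat_lit 5) (nat_lit 11) (nat_lit 5) (nat_lit 245) (nat_lit 231) (nat_lit 124))))))))
noncomputable def xc60 : XT := (XT.nd (nat_lit 31044) (nat_lit 0) (nat_lit 76) (XT.nd (nat_lit 30342) (nat_lit 0) (nat_lit 836) (XT.nd (nat_lit 312) (nat_lit 152) (nat_lit 0) (XT.nd (nat_lit 156) (nat_lit 76) (nat_lit 0) (XT.nd (nat_lit 78) (nat_lit 0) (nat_lit 0) (XT.lf (nat_lit 0) (nat_lit 101912328677) (nat_lit 152) (nat_lit 146996581061) (nat_lit 228) (nat_lit 969095380887) (nat_lit 8) (nat_lit 5) (nat_lit 10) (nat_lit 5) (nat_lit 11) (nat_lit 5) (nat_lit 246) (nat_lit 231) (nat_lit 123)) (XT.lf (nat_lit 0) (nat_lit 535841478567) (nat_lit 228) (nat_lit 508383642080) (nat_lit 76) (nat_lit 316189655937) (nat_lit 8) (nat_lit 5) (nat_lit 11) (nat_lit 5) (nat_lit 9) (nat_lit 4) (nat_lit 247) (nat_lit 231) (nat_lit 122))) (XT.nd (nat_lit 78) (nat_lit 0) (nat_lit 0)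 (XT.lf (nat_lit 0) (nat_lit 196231611781) (nat_lit 76) (nat_lit 678367225008) (nat_lit 152) (nat_lit 648885206475) (nat_lit 7) (nat_lit 5) (nat_lit 8) (nat_lit 5) (nat_lit 9) (nat_lit 4) (nat_lit 248) (nat_lit 231) (nat_lit 121)) (XT.lf (nat_lit 0) (nat_lit 1037325275083) (nat_lit 76) (nat_lit 241645536640) (nat_lit 152) (nat_lit 430858807324) (nat_lit 7) (nat_lit 5) (nat_lit 8) (nat_lit 5) (nat_lit 9) (nat_lit 4) (nat_lit 249) (nat_lit 231) (nat_lit 120)))) (XT.nd (nat_lit 29874) (nat_lit 0) (nat_lit 1672) (XT.nd (nat_lit 78) (nat_lit 76) (nat_lit 0) (XT.lf (nat_lit 0) (nat_lit 78095505803) (nat_lit 76) (nat_lit 1674048310835) (nat_lit 76) (nat_lit 171331595975) (nat_lit 6) (nat_lit 4) (nat_lit 7) (nat_lit 5) (nat_lit 7) (nat_lit 4) (nat_lit 250) (nat_lit 231) (nat_lit 119)) (XT.lf (nat_lit 0) (nat_lit 147536490577) (nat_lit 152) (nat_lit 1195840845655) (nat_lit 76) (nat_lit 823404464058)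 (nat_lit 5) (nat_lit 5) (nat_lit 7) (nat_lit 5) (nat_lit 6) (nat_lit 4) (nat_lit 251) (nat_lit 231) (nat_lit 118))) (XT.nd (nat_lit 78) (nat_lit 0) (nat_lit 76) (XT.lf (nat_lit 0) (nat_lit 15128333245) (nat_lit 532) (nat_lit 82696481231) (nat_lit 532) (nat_lit 82696481231) (nat_lit 27) (nat_lit 3) (nat_lit 34) (nat_lit 3) (nat_lit 34) (nat_lit 5) (nat_lit 232) (nat_lit 232) (nat_lit 136)) (XT.lf (nat_lit 0) (nat_lit 36847876128) (nat_lit 456) (nat_lit 282260478533) (nat_lit 532) (nat_lit 68666668072) (nat_lit 28) (nat_lit 5) (nat_lit 34) (nat_lit 5) (nat_lit 35) (nat_lit 5) (nat_lit 233) (nat_lit 232) (nat_lit 135))))) (XT.nd (nat_lit 312) (nat_lit 608) (nat_lit 0) (XT.nd (nat_lit 156) (nat_lit 304) (nat_lit 0) (XT.nd (nat_lit 78) (nat_lit 0) (nat_lit 76) (XT.lf (nat_lit 76) (nat_lit 3584746210) (nat_lit 0) (nat_lit 51280588756) (nat_lit 532) (nat_lit 362816979479) (nat_lit 29) (nat_lit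 5) (nat_lit 28) (nat_lit 5) (nat_lit 35) (nat_lit 5) (nat_lit 234) (nat_lit 232) (nat_lit 134)) (XT.lf (nat_lit 0) (nat_lit 90190601542) (nat_lit 456) (nat_lit 108406390342) (nat_lit 532) (nat_lit 252310293887) (nat_lit 29) (nat_lit 5) (nat_lit 35) (nat_lit 5) (nat_lit 36) (nat_lit 5) (nat_lit 235) (nat_lit 232) (nat_lit 133))) (XT.nd (nat_lit 78) (nat_lit 456) (nat_lit 0) (XT.lf (nat_lit 0) (nat_lit 141144460230) (nat_lit 456) (nat_lit 236856471197) (nat_lit 76) (nat_lit 110288688043) (nat_lit 30) (nat_lit 5) (nat_lit 36) (nat_lit 5) (nat_lit 31) (nat_lit 5) (nat_lit 236) (nat_lit 232) (nat_lit 132)) (XT.lf (nat_lit 0) (nat_lit 142331815121) (nat_lit 456) (nat_lit 69563386702) (nat_lit 532) (nat_lit 318411797805) (nat_lit 24) (nat_lit 5) (nat_lit 30) (nat_lit 5) (nat_lit 31) (nat_lit 5) (nat_lit 237) (nat_lit 232) (nat_lit 131)))) (XT.nd (nat_lit 156) (nat_lit 380) (nat_lit 0) (XT.nd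 (nat_lit 78) (nat_lit 0) (nat_lit 0) (XT.lf (nat_lit 0) (nat_lit 8031270774) (nat_lit 228) (nat_lit 299352904769) (nat_lit 304) (nat_lit 270112762233) (nat_lit 21) (nat_lit 5) (nat_lit 24) (nat_lit 5) (nat_lit 25) (nat_lit 5) (nat_lit 238) (nat_lit 232) (nat_lit 130)) (XT.lf (nat_lit 0) (nat_lit 431678852035) (nat_lit 304) (nat_lit 147115472442) (nat_lit 76) (nat_lit 51812454187) (nat_lit 21) (nat_lit 5) (nat_lit 25) (nat_lit 5) (nat_lit 22) (nat_lit 5) (nat_lit 239) (nat_lit 232) (nat_lit 129))) (XT.nd (nat_lit 78) (nat_lit 228) (nat_lit 0) (XT.lf (nat_lit 0) (nat_lit 347701239847) (nat_lit 152) (nat_lit 243558009522) (nat_lit 228) (nat_lit 99092525250) (nat_lit 19) (nat_lit 5) (nat_lit 21) (nat_lit 5) (nat_lit 22) (nat_lit 5) (nat_lit 240) (nat_lit 232) (nat_lit 128)) (XT.nd (nat_lit 78) (nat_lit 0) (nat_lit 0) (XT.lf (nat_lit 0) (nat_lit 27187610113) (nat_lit 228) (nat_lit 586778509098)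 (nat_lit 76) (nat_lit 144081702434) (nat_lit 16) (nat_lit 5) (nat_lit 19) (nat_lit 5) (nat_lit 17) (nat_lit 5) (nat_lit 241) (nat_lit 232) (nat_lit 127)) (XT.lf (nat_lit 0) (nat_lit 183680379145) (nat_lit 228) (nat_lit 61809242154) (nat_lit 76) (nat_lit 588831708485) (nat_lit 16) (nat_lit 5) (nat_lit 19) (nat_lit 5) (nat_lit 17) (nat_lit 5) (nat_lit 242) (nat_lit 232) (nat_lit 126))))))) (XT.nd (nat_lit 30498) (nat_lit 0) (nat_lit 988) (XT.nd (nat_lit 312) (nat_lit 304) (nat_lit 0) (XT.nd (nat_lit 156) (nat_lit 152) (nat_lit 0) (XT.nd (nat_lit 78) (nat_lit 152) (nat_lit 0) (XT.lf (nat_lit 0) (nat_lit 382009597500) (nat_lit 228) (nat_lit 355140666948) (nat_lit 76) (nat_lit 183416597272) (nat_lit 14) (nat_lit 5) (nat_lit 17) (nat_lit 5) (nat_lit 15) (nat_lit 5) (nat_lit 243) (nat_lit 232) (nat_lit 125)) (XT.lf (nat_lit 0) (nat_lit 277952540778) (nat_lit 152) (nat_lit 347456266602) (nat_lit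 228) (nat_lit 393114767620) (nat_lit 12) (nat_lit 5) (nat_lit 14) (nat_lit 5) (nat_lit 15) (nat_lit 5) (nat_lit 244) (nat_lit 232) (nat_lit 124))) (XT.nd (nat_lit 78) (nat_lit 152) (nat_lit 0) (XT.lf (nat_lit 0) (nat_lit 918347598825) (nat_lit 228) (nat_lit 105520919978) (nat_lit 76) (nat_lit 106262900685) (nat_lit 12) (nat_lit 5) (nat_lit 15) (nat_lit 5) (nat_lit 13) (nat_lit 4) (nat_lit 245) (nat_lit 232) (nat_lit 123)) (XT.lf (nat_lit 0) (nat_lit 22747479721) (nat_lit 152) (nat_lit 609470613795) (nat_lit 76) (nat_lit 624201568810) (nat_lit 10) (nat_lit 5) (nat_lit 12) (nat_lit 5) (nat_lit 11) (nat_lit 5) (nat_lit 246) (nat_lit 232) (nat_lit 122)))) (XT.nd (nat_lit 156) (nat_lit 152) (nat_lit 0) (XT.nd (nat_lit 78) (nat_lit 0) (nat_lit 0) (XT.lf (nat_lit 0) (nat_lit 117199712043) (nat_lit 152) (nat_lit 169045884178) (nat_lit 228) (nat_lit 1114459308323) (nat_lit 8) (nat_lit 5) (nat_lit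 10) (nat_lit 5) (nat_lit 11) (nat_lit 5) (nat_lit 247) (nat_lit 232) (nat_lit 121)) (XT.lf (nat_lit 0) (nat_lit 616218008568) (nat_lit 228) (nat_lit 584640702032) (nat_lit 76) (nat_lit 363618256358) (nat_lit 8) (nat_lit 5) (nat_lit 11) (nat_lit 5) (nat_lit 9) (nat_lit 4) (nat_lit 248) (nat_lit 232) (nat_lit 120))) (XT.nd (nat_lit 78) (nat_lit 76) (nat_lit 0) (XT.lf (nat_lit 0) (nat_lit 225666798741) (nat_lit 76) (nat_lit 780122142289) (nat_lit 152) (nat_lit 746217685162) (nat_lit 7) (nat_lit 5) (nat_lit 8) (nat_lit 5) (nat_lit 9) (nat_lit 4) (nat_lit 249) (nat_lit 232) (nat_lit 119)) (XT.nd (nat_lit 78) (nat_lit 76) (nat_lit 0) (XT.lf (nat_lit 0) (nat_lit 1192924453469) (nat_lit 76) (nat_lit 277892222378) (nat_lit 152) (nat_lit 495487365566) (nat_lit 7) (nat_lit 5) (nat_lit 8) (nat_lit 5) (nat_lit 9) (nat_lit 4) (nat_lit 250) (nat_lit 232) (nat_lit 118)) (XT.lf (nat_lit 0) (nat_lit 89810201597)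 (nat_lit 76) (nat_lit 1925155410213) (nat_lit 76) (nat_lit 197031093923) (nat_lit 6) (nat_lit 4) (nat_lit 7) (nat_lit 5) (nat_lit 7) (nat_lit 4) (nat_lit 251) (nat_lit 232) (nat_lit 117)))))) (XT.nd (nat_lit 312) (nat_lit 608) (nat_lit 0) (XT.nd (nat_lit 156) (nat_lit 0) (nat_lit 76) (XT.nd (nat_lit 78) (nat_lit 0) (nat_lit 76) (XT.lf (nat_lit 0) (nat_lit 17398333335) (nat_lit 532) (nat_lit 95100545357) (nat_lit 532) (nat_lit 95100545357) (nat_lit 27) (nat_lit 3) (nat_lit 34) (nat_lit 3) (nat_lit 34) (nat_lit 5) (nat_lit 233) (nat_lit 233) (nat_lit 134)) (XT.lf (nat_lit 0) (nat_lit 42376366199) (nat_lit 456) (nat_lit 324598673193) (nat_lit 532) (nat_lit 78966121614) (nat_lit 28) (nat_lit 5) (nat_lit 34) (nat_lit 5) (nat_lit 35) (nat_lit 5) (nat_lit 234) (nat_lit 233) (nat_lit 133))) (XT.nd (nat_lit 78) (nat_lit 0) (nat_lit 76) (XT.lf (nat_lit 76) (nat_lit 4123261018) (nat_lit 0) (nat_lit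 58973031460) (nat_lit 532) (nat_lit 417238267470) (nat_lit 29) (nat_lit 5) (nat_lit 28) (nat_lit 5) (nat_lit 35) (nat_lit 5) (nat_lit 235) (nat_lit 233) (nat_lit 132)) (XT.lf (nat_lit 0) (nat_lit 103720190682) (nat_lit 456) (nat_lit 124666554925) (nat_lit 532) (nat_lit 290156545219) (nat_lit 29) (nat_lit 5) (nat_lit 35) (nat_lit 5) (nat_lit 36) (nat_lit 5) (nat_lit 236) (nat_lit 233) (nat_lit 131)))) (XT.nd (nat_lit 156) (nat_lit 380) (nat_lit 0) (XT.nd (nat_lit 78) (nat_lit 456) (nat_lit 0) (XT.lf (nat_lit 0) (nat_lit 162317011527) (nat_lit 456) (nat_lit 272384133526) (nat_lit 76) (nat_lit 126831839888) (nat_lit 30) (nat_lit 5) (nat_lit 36) (nat_lit 5) (nat_lit 31) (nat_lit 5) (nat_lit 237) (nat_lit 233) (nat_lit 130)) (XT.lf (nat_lit 0) (nat_lit 163682327316) (nat_lit 456) (nat_lit 79997939760) (nat_lit 532) (nat_lit 366172713725) (nat_lit 24) (nat_lit 5) (nat_lit 30) (nat_lit 5) (nat_lit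 31) (nat_lit 5) (nat_lit 238) (nat_lit 233) (nat_lit 129))) (XT.nd (nat_lit 78) (nat_lit 152) (nat_lit 0) (XT.lf (nat_lit 0) (nat_lit 9236702628) (nat_lit 228) (nat_lit 344255798723) (nat_lit 304) (nat_lit 310628915941) (nat_lit 21) (nat_lit 5) (nat_lit 24) (nat_lit 5) (nat_lit 25) (nat_lit 5) (nat_lit 239) (nat_lit 233) (nat_lit 128)) (XT.nd (nat_lit 78) (nat_lit 152) (nat_lit 0) (XT.lf (nat_lit 0) (nat_lit 496431288954) (nat_lit 304) (nat_lit 169182096453) (nat_lit 76) (nat_lit 59584356812) (nat_lit 21) (nat_lit 5) (nat_lit 25) (nat_lit 5) (nat_lit 22) (nat_lit 5) (nat_lit 240) (nat_lit 233) (nat_lit 127)) (XT.lf (nat_lit 0) (nat_lit 399857063695) (nat_lit 152) (nat_lit 280091618085) (nat_lit 228) (nat_lit 113955811505) (nat_lit 19) (nat_lit 5) (nat_lit 21) (nat_lit 5) (nat_lit 22) (nat_lit 5) (nat_lit 241) (nat_lit 233) (nat_lit 126))))))))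
noncomputable def xc61 : XT := (XT.nd (nat_lit 31356) (nat_lit 0) (nat_lit 76) (XT.nd (nat_lit 30654) (nat_lit 0) (nat_lit 912) (XT.nd (nat_lit 312) (nat_lit 380) (nat_lit 0) (XT.nd (nat_lit 156) (nat_lit 304) (nat_lit 0) (XT.nd (nat_lit 78) (nat_lit 0) (nat_lit 0) (XT.lf (nat_lit 0) (nat_lit 31266258523) (nat_lit 228) (nat_lit 674794630272) (nat_lit 76) (nat_lit 165694062384) (nat_lit 16) (nat_lit 5) (nat_lit 19) (nat_lit 5) (nat_lit 17) (nat_lit 5) (nat_lit 242) (nat_lit 233) (nat_lit 125)) (XT.lf (nat_lit 0) (nat_lit 211232876793) (nat_lit 228) (nat_lit 71080058746) (nat_lit 76) (nat_lit 677156555702) (nat_lit 16) (nat_lit 5) (nat_lit 19) (nat_lit 5) (nat_lit 17) (nat_lit 5) (nat_lit 243) (nat_lit 233) (nat_lit 124))) (XT.nd (nat_lit 78) (nat_lit 152) (nat_lit 0) (XT.lf (nat_lit 0) (nat_lit 439311435973) (nat_lit 228) (nat_lit 408411214450) (nat_lit 76) (nat_lit 210929206256) (nat_lit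 14) (nat_lit 5) (nat_lit 17) (nat_lit 5) (nat_lit 15) (nat_lit 5) (nat_lit 244) (nat_lit 233) (nat_lit 123)) (XT.lf (nat_lit 0) (nat_lit 319645927666) (nat_lit 152) (nat_lit 399574559810) (nat_lit 228) (nat_lit 452081592976) (nat_lit 12) (nat_lit 5) (nat_lit 14) (nat_lit 5) (nat_lit 15) (nat_lit 5) (nat_lit 245) (nat_lit 233) (nat_lit 122)))) (XT.nd (nat_lit 156) (nat_lit 228) (nat_lit 0) (XT.nd (nat_lit 78) (nat_lit 152) (nat_lit 0) (XT.lf (nat_lit 0) (nat_lit 1056100053883) (nat_lit 228) (nat_lit 121348594463) (nat_lit 76) (nat_lit 122202457040) (nat_lit 12) (nat_lit 5) (nat_lit 15) (nat_lit 5) (nat_lit 13) (nat_lit 4) (nat_lit 246) (nat_lit 233) (nat_lit 121)) (XT.lf (nat_lit 0) (nat_lit 26159894878) (nat_lit 152) (nat_lit 700890764692) (nat_lit 76) (nat_lit 717831927195) (nat_lit 10) (nat_lit 5) (nat_lit 12) (nat_lit 5) (nat_lit 11) (nat_lit 5) (nat_lit 247) (nat_lit 233) (nat_lit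 120))) (XT.nd (nat_lit 78) (nat_lit 76) (nat_lit 0) (XT.lf (nat_lit 0) (nat_lit 134780072679) (nat_lit 152) (nat_lit 194402627643) (nat_lit 228) (nat_lit 1281627917465) (nat_lit 8) (nat_lit 5) (nat_lit 10) (nat_lit 5) (nat_lit 11) (nat_lit 5) (nat_lit 248) (nat_lit 233) (nat_lit 119)) (XT.nd (nat_lit 78) (nat_lit 76) (nat_lit 0) (XT.lf (nat_lit 0) (nat_lit 708650942909) (nat_lit 228) (nat_lit 672336439579) (nat_lit 76) (nat_lit 418161109769) (nat_lit 8) (nat_lit 5) (nat_lit 11) (nat_lit 5) (nat_lit 9) (nat_lit 4) (nat_lit 249) (nat_lit 233) (nat_lit 118)) (XT.lf (nat_lit 0) (nat_lit 259517155181) (nat_lit 76) (nat_lit 897140337756) (nat_lit 152) (nat_lit 858150109366) (nat_lit 7) (nat_lit 5) (nat_lit 8) (nat_lit 5) (nat_lit 9) (nat_lit 4) (nat_lit 250) (nat_lit 233) (nat_lit 117)))))) (XT.nd (nat_lit 312) (nat_lit 608) (nat_lit 0) (XT.nd (nat_lit 156) (nat_lit 0) (nat_lit 76) (XT.nd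 (nat_lit 78) (nat_lit 0) (nat_lit 76) (XT.lf (nat_lit 0) (nat_lit 20008650520) (nat_lit 532) (nat_lit 109365318610) (nat_lit 532) (nat_lit 109365318610) (nat_lit 27) (nat_lit 3) (nat_lit 34) (nat_lit 3) (nat_lit 34) (nat_lit 5) (nat_lit 234) (nat_lit 234) (nat_lit 132)) (XT.lf (nat_lit 0) (nat_lit 48733810659) (nat_lit 456) (nat_lit 373287810943) (nat_lit 532) (nat_lit 90810626496) (nat_lit 28) (nat_lit 5) (nat_lit 34) (nat_lit 5) (nat_lit 35) (nat_lit 5) (nat_lit 235) (nat_lit 234) (nat_lit 131))) (XT.nd (nat_lit 78) (nat_lit 0) (nat_lit 76) (XT.lf (nat_lit 76) (nat_lit 4742357261) (nat_lit 0) (nat_lit 67819254150) (nat_lit 532) (nat_lit 479823055657) (nat_lit 29) (nat_lit 5) (nat_lit 28) (nat_lit 5) (nat_lit 35) (nat_lit 5) (nat_lit 236) (nat_lit 234) (nat_lit 130)) (XT.lf (nat_lit 0) (nat_lit 119278974603) (nat_lit 456) (nat_lit 143365937810) (nat_lit 532) (nat_lit 333679805641) (nat_lit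 29) (nat_lit 5) (nat_lit 35) (nat_lit 5) (nat_lit 36) (nat_lit 5) (nat_lit 237) (nat_lit 234) (nat_lit 129)))) (XT.nd (nat_lit 156) (nat_lit 380) (nat_lit 0) (XT.nd (nat_lit 78) (nat_lit 456) (nat_lit 0) (XT.lf (nat_lit 0) (nat_lit 186665230374) (nat_lit 456) (nat_lit 313241142326) (nat_lit 76) (nat_lit 145856501420) (nat_lit 30) (nat_lit 5) (nat_lit 36) (nat_lit 5) (nat_lit 31) (nat_lit 5) (nat_lit 238) (nat_lit 234) (nat_lit 128)) (XT.lf (nat_lit 0) (nat_lit 188235235905) (nat_lit 456) (nat_lit 91997664790) (nat_lit 532) (nat_lit 421097975226) (nat_lit 24) (nat_lit 5) (nat_lit 30) (nat_lit 5) (nat_lit 31) (nat_lit 5) (nat_lit 239) (nat_lit 234) (nat_lit 127))) (XT.nd (nat_lit 78) (nat_lit 152) (nat_lit 0) (XT.lf (nat_lit 0) (nat_lit 10622768504) (nat_lit 228) (nat_lit 395894136954) (nat_lit 304) (nat_lit 357222678189) (nat_lit 21) (nat_lit 5) (nat_lit 24) (nat_lit 5) (nat_lit 25) (nat_lit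 5) (nat_lit 240) (nat_lit 234) (nat_lit 126)) (XT.nd (nat_lit 78) (nat_lit 152) (nat_lit 0) (XT.lf (nat_lit 0) (nat_lit 570896442875) (nat_lit 304) (nat_lit 194558883998) (nat_lit 76) (nat_lit 68522036419) (nat_lit 21) (nat_lit 5) (nat_lit 25) (nat_lit 5) (nat_lit 22) (nat_lit 5) (nat_lit 241) (nat_lit 234) (nat_lit 125)) (XT.lf (nat_lit 0) (nat_lit 459836105570) (nat_lit 152) (nat_lit 322105290578) (nat_lit 228) (nat_lit 131048735192) (nat_lit 19) (nat_lit 5) (nat_lit 21) (nat_lit 5) (nat_lit 22) (nat_lit 5) (nat_lit 242) (nat_lit 234) (nat_lit 124))))))) (XT.nd (nat_lit 30732) (nat_lit 0) (nat_lit 608) (XT.nd (nat_lit 312) (nat_lit 304) (nat_lit 0) (XT.nd (nat_lit 156) (nat_lit 304) (nat_lit 0) (XT.nd (nat_lit 78) (nat_lit 0) (nat_lit 0) (XT.lf (nat_lit 0) (nat_lit 35956580585) (nat_lit 228) (nat_lit 776013329394) (nat_lit 76) (nat_lit 190548250823) (nat_lit 16) (nat_lit 5) (nat_lit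 19) (nat_lit 5) (nat_lit 17) (nat_lit 5) (nat_lit 243) (nat_lit 234) (nat_lit 123)) (XT.lf (nat_lit 0) (nat_lit 242918141602) (nat_lit 228) (nat_lit 81741636759) (nat_lit 76) (nat_lit 778730107823) (nat_lit 16) (nat_lit 5) (nat_lit 19) (nat_lit 5) (nat_lit 17) (nat_lit 5) (nat_lit 244) (nat_lit 234) (nat_lit 122))) (XT.nd (nat_lit 78) (nat_lit 152) (nat_lit 0) (XT.lf (nat_lit 0) (nat_lit 505208452956) (nat_lit 228) (nat_lit 469672478818) (nat_lit 76) (nat_lit 242568677474) (nat_lit 14) (nat_lit 5) (nat_lit 17) (nat_lit 5) (nat_lit 15) (nat_lit 5) (nat_lit 245) (nat_lit 234) (nat_lit 121)) (XT.lf (nat_lit 0) (nat_lit 367593199251) (nat_lit 152) (nat_lit 459510632793) (nat_lit 228) (nat_lit 519893537188) (nat_lit 12) (nat_lit 5) (nat_lit 14) (nat_lit 5) (nat_lit 15) (nat_lit 5) (nat_lit 246) (nat_lit 234) (nat_lit 120)))) (XT.nd (nat_lit 156) (nat_lit 152) (nat_lit 0) (XT.nd (nat_lit 78)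 (nat_lit 152) (nat_lit 0) (XT.lf (nat_lit 0) (nat_lit 1214515300327) (nat_lit 228) (nat_lit 139550533151) (nat_lit 76) (nat_lit 140532917279) (nat_lit 12) (nat_lit 5) (nat_lit 15) (nat_lit 5) (nat_lit 13) (nat_lit 4) (nat_lit 247) (nat_lit 234) (nat_lit 119)) (XT.lf (nat_lit 0) (nat_lit 30084100809) (nat_lit 152) (nat_lit 806024045806) (nat_lit 76) (nat_lit 825506809328) (nat_lit 10) (nat_lit 5) (nat_lit 12) (nat_lit 5) (nat_lit 11) (nat_lit 5) (nat_lit 248) (nat_lit 234) (nat_lit 118))) (XT.nd (nat_lit 78) (nat_lit 0) (nat_lit 0) (XT.lf (nat_lit 0) (nat_lit 154997388934) (nat_lit 152) (nat_lit 223562916563) (nat_lit 228) (nat_lit 1473871887991) (nat_lit 8) (nat_lit 5) (nat_lit 10) (nat_lit 5) (nat_lit 11) (nat_lit 5) (nat_lit 249) (nat_lit 234) (nat_lit 117)) (XT.nd (nat_lit 30108) (nat_lit 0) (nat_lit 1444) (XT.lf (nat_lit 0) (nat_lit 814948760569) (nat_lit 228) (nat_lit 773186627438)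 (nat_lit 76) (nat_lit 480885363159) (nat_lit 8) (nat_lit 5) (nat_lit 11) (nat_lit 5) (nat_lit 9) (nat_lit 4) (nat_lit 250) (nat_lit 234) (nat_lit 116)) (XT.lf (nat_lit 0) (nat_lit 23010376971) (nat_lit 532) (nat_lit 125769883093) (nat_lit 532) (nat_lit 125769883093) (nat_lit 27) (nat_lit 3) (nat_lit 34) (nat_lit 3) (nat_lit 34) (nat_lit 5) (nat_lit 235) (nat_lit 235) (nat_lit 130)))))) (XT.nd (nat_lit 312) (nat_lit 912) (nat_lit 0) (XT.nd (nat_lit 156) (nat_lit 0) (nat_lit 76) (XT.nd (nat_lit 78) (nat_lit 0) (nat_lit 0) (XT.lf (nat_lit 0) (nat_lit 56044630484) (nat_lit 456) (nat_lit 429280481088) (nat_lit 532) (nat_lit 104431907910) (nat_lit 28) (nat_lit 5) (nat_lit 34) (nat_lit 5) (nat_lit 35) (nat_lit 5) (nat_lit 236) (nat_lit 235) (nat_lit 129)) (XT.lf (nat_lit 76) (nat_lit 5454169898) (nat_lit 0) (nat_lit 77992344897) (nat_lit 532) (nat_lit 551795794207) (nat_lit 29) (nat_lit 5)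 (nat_lit 28) (nat_lit 5) (nat_lit 35) (nat_lit 5) (nat_lit 237) (nat_lit 235) (nat_lit 128))) (XT.nd (nat_lit 78) (nat_lit 0) (nat_lit 76) (XT.lf (nat_lit 0) (nat_lit 137171391922) (nat_lit 456) (nat_lit 164870374527) (nat_lit 532) (nat_lit 383731609106) (nat_lit 29) (nat_lit 5) (nat_lit 35) (nat_lit 5) (nat_lit 36) (nat_lit 5) (nat_lit 238) (nat_lit 235) (nat_lit 127)) (XT.lf (nat_lit 0) (nat_lit 214665519366) (nat_lit 456) (nat_lit 360226851498) (nat_lit 76) (nat_lit 167734890092) (nat_lit 30) (nat_lit 5) (nat_lit 36) (nat_lit 5) (nat_lit 31) (nat_lit 5) (nat_lit 239) (nat_lit 235) (nat_lit 126)))) (XT.nd (nat_lit 156) (nat_lit 380) (nat_lit 0) (XT.nd (nat_lit 78) (nat_lit 228) (nat_lit 0) (XT.lf (nat_lit 0) (nat_lit 216470944347) (nat_lit 456) (nat_lit 105797340268) (nat_lit 532) (nat_lit 484262183375) (nat_lit 24) (nat_lit 5) (nat_lit 30) (nat_lit 5) (nat_lit 31) (nat_lit 5) (nat_lit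 240) (nat_lit 235) (nat_lit 125)) (XT.lf (nat_lit 0) (nat_lit 12216607584) (nat_lit 228) (nat_lit 455278233620) (nat_lit 304) (nat_lit 410805645026) (nat_lit 21) (nat_lit 5) (nat_lit 24) (nat_lit 5) (nat_lit 25) (nat_lit 5) (nat_lit 241) (nat_lit 235) (nat_lit 124))) (XT.nd (nat_lit 78) (nat_lit 380) (nat_lit 0) (XT.lf (nat_lit 0) (nat_lit 656531257569) (nat_lit 304) (nat_lit 223742318168) (nat_lit 76) (nat_lit 78800361606) (nat_lit 21) (nat_lit 5) (nat_lit 25) (nat_lit 5) (nat_lit 22) (nat_lit 5) (nat_lit 242) (nat_lit 235) (nat_lit 123)) (XT.nd (nat_lit 78) (nat_lit 228) (nat_lit 0) (XT.lf (nat_lit 0) (nat_lit 528811886111) (nat_lit 152) (nat_lit 370421031068) (nat_lit 228) (nat_lit 150705706689) (nat_lit 19) (nat_lit 5) (nat_lit 21) (nat_lit 5) (nat_lit 22) (nat_lit 5) (nat_lit 243) (nat_lit 235) (nat_lit 122)) (XT.lf (nat_lit 0) (nat_lit 41350357490) (nat_lit 228) (nat_lit 892414954196)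 (nat_lit 76) (nat_lit 219130548244) (nat_lit 16) (nat_lit 5) (nat_lit 19) (nat_lit 5) (nat_lit 17) (nat_lit 5) (nat_lit 244) (nat_lit 235) (nat_lit 121))))))))
noncomputable def xc62 : XT := (XT.nd (nat_lit 31512) (nat_lit 0) (nat_lit 304) (XT.nd (nat_lit 30810) (nat_lit 0) (nat_lit 456) (XT.nd (nat_lit 390) (nat_lit 304) (nat_lit 0) (XT.nd (nat_lit 156) (nat_lit 152) (nat_lit 0) (XT.nd (nat_lit 78) (nat_lit 152) (nat_lit 0) (XT.lf (nat_lit 0) (nat_lit 279356114858) (nat_lit 228) (nat_lit 94002556527) (nat_lit 76) (nat_lit 895539675994) (nat_lit 16) (nat_lit 5) (nat_lit 19) (nat_lit 5) (nat_lit 17) (nat_lit 5) (nat_lit 245) (nat_lit 235) (nat_lit 120)) (XT.lf (nat_lit 0) (nat_lit 580989948943) (nat_lit 228) (nat_lit 540123034723) (nat_lit 76) (nat_lit 278954047358) (nat_lit 14) (nat_lit 5) (nat_lit 17) (nat_lit 5) (nat_lit 15) (nat_lit 5) (nat_lit 246) (nat_lit 235) (nat_lit 119))) (XT.nd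 (nat_lit 78) (nat_lit 0) (nat_lit 0) (XT.lf (nat_lit 0) (nat_lit 422732468315) (nat_lit 152) (nat_lit 528437143789) (nat_lit 228) (nat_lit 597877344905) (nat_lit 12) (nat_lit 5) (nat_lit 14) (nat_lit 5) (nat_lit 15) (nat_lit 5) (nat_lit 247) (nat_lit 235) (nat_lit 118)) (XT.lf (nat_lit 0) (nat_lit 1396692775612) (nat_lit 228) (nat_lit 160482848109) (nat_lit 76) (nat_lit 161612924197) (nat_lit 12) (nat_lit 5) (nat_lit 15) (nat_lit 5) (nat_lit 13) (nat_lit 4) (nat_lit 248) (nat_lit 235) (nat_lit 117)))) (XT.nd (nat_lit 30264) (nat_lit 0) (nat_lit 1520) (XT.nd (nat_lit 30186) (nat_lit 0) (nat_lit 1444) (XT.lf (nat_lit 0) (nat_lit 178247228165) (nat_lit 152) (nat_lit 257097274481) (nat_lit 228) (nat_lit 1694952507036) (nat_lit 8) (nat_lit 5) (nat_lit 10) (nat_lit 5) (nat_lit 11) (nat_lit 5) (nat_lit 250) (nat_lit 235) (nat_lit 115)) (XT.lf (nat_lit 0) (nat_lit 26462257807) (nat_lit 532)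 (nat_lit 144635189142) (nat_lit 532) (nat_lit 144635189142) (nat_lit 27) (nat_lit 3) (nat_lit 34) (nat_lit 3) (nat_lit 34) (nat_lit 5) (nat_lit 236) (nat_lit 236) (nat_lit 128))) (XT.nd (nat_lit 78) (nat_lit 0) (nat_lit 0) (XT.lf (nat_lit 0) (nat_lit 64451890823) (nat_lit 456) (nat_lit 493672174048) (nat_lit 532) (nat_lit 120096457757) (nat_lit 28) (nat_lit 5) (nat_lit 34) (nat_lit 5) (nat_lit 35) (nat_lit 5) (nat_lit 237) (nat_lit 236) (nat_lit 127)) (XT.lf (nat_lit 76) (nat_lit 6272642488) (nat_lit 0) (nat_lit 89691349845) (nat_lit 532) (nat_lit 634564619067) (nat_lit 29) (nat_lit 5) (nat_lit 28) (nat_lit 5) (nat_lit 35) (nat_lit 5) (nat_lit 238) (nat_lit 236) (nat_lit 126))))) (XT.nd (nat_lit 312) (nat_lit 532) (nat_lit 0) (XT.nd (nat_lit 156) (nat_lit 608) (nat_lit 0) (XT.nd (nat_lit 78) (nat_lit 0) (nat_lit 76) (XT.lf (nat_lit 0) (nat_lit 157747532566) (nat_lit 456) (nat_lit 189600587452)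 (nat_lit 532) (nat_lit 441291223908) (nat_lit 29) (nat_lit 5) (nat_lit 35) (nat_lit 5) (nat_lit 36) (nat_lit 5) (nat_lit 239) (nat_lit 236) (nat_lit 125)) (XT.lf (nat_lit 0) (nat_lit 246865728698) (nat_lit 456) (nat_lit 414260529751) (nat_lit 76) (nat_lit 192895058168) (nat_lit 30) (nat_lit 5) (nat_lit 36) (nat_lit 5) (nat_lit 31) (nat_lit 5) (nat_lit 240) (nat_lit 236) (nat_lit 124))) (XT.nd (nat_lit 78) (nat_lit 228) (nat_lit 0) (XT.lf (nat_lit 0) (nat_lit 248941905890) (nat_lit 456) (nat_lit 121666960786) (nat_lit 532) (nat_lit 556901141781) (nat_lit 24) (nat_lit 5) (nat_lit 30) (nat_lit 5) (nat_lit 31) (nat_lit 5) (nat_lit 241) (nat_lit 236) (nat_lit 123)) (XT.lf (nat_lit 0) (nat_lit 14049419179) (nat_lit 228) (nat_lit 523569950608) (nat_lit 304) (nat_lit 472426162940) (nat_lit 21) (nat_lit 5) (nat_lit 24) (nat_lit 5) (nat_lit 25) (nat_lit 5) (nat_lit 242) (nat_lit 236) (nat_lit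 122)))) (XT.nd (nat_lit 156) (nat_lit 380) (nat_lit 0) (XT.nd (nat_lit 78) (nat_lit 152) (nat_lit 0) (XT.lf (nat_lit 0) (nat_lit 755011209541) (nat_lit 304) (nat_lit 257303364623) (nat_lit 76) (nat_lit 90620430762) (nat_lit 21) (nat_lit 5) (nat_lit 25) (nat_lit 5) (nat_lit 22) (nat_lit 5) (nat_lit 243) (nat_lit 236) (nat_lit 121)) (XT.lf (nat_lit 0) (nat_lit 608133944796) (nat_lit 152) (nat_lit 425984145580) (nat_lit 228) (nat_lit 173311306525) (nat_lit 19) (nat_lit 5) (nat_lit 21) (nat_lit 5) (nat_lit 22) (nat_lit 5) (nat_lit 244) (nat_lit 236) (nat_lit 120))) (XT.nd (nat_lit 78) (nat_lit 152) (nat_lit 0) (XT.lf (nat_lit 0) (nat_lit 47553130258) (nat_lit 228) (nat_lit 1026276914068) (nat_lit 76) (nat_lit 252000175695) (nat_lit 16) (nat_lit 5) (nat_lit 19) (nat_lit 5) (nat_lit 17) (nat_lit 5) (nat_lit 245) (nat_lit 236) (nat_lit 119)) (XT.nd (nat_lit 78) (nat_lit 152) (nat_lit 0) (XT.lf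 (nat_lit 0) (nat_lit 321259722647) (nat_lit 228) (nat_lit 108102693695) (nat_lit 76) (nat_lit 1029870666711) (nat_lit 16) (nat_lit 5) (nat_lit 19) (nat_lit 5) (nat_lit 17) (nat_lit 5) (nat_lit 246) (nat_lit 236) (nat_lit 118)) (XT.lf (nat_lit 0) (nat_lit 668138613718) (nat_lit 228) (nat_lit 621141251053) (nat_lit 76) (nat_lit 320797206079) (nat_lit 14) (nat_lit 5) (nat_lit 17) (nat_lit 5) (nat_lit 15) (nat_lit 5) (nat_lit 247) (nat_lit 236) (nat_lit 117))))))) (XT.nd (nat_lit 30966) (nat_lit 0) (nat_lit 0) (XT.nd (nat_lit 30576) (nat_lit 0) (nat_lit 684) (XT.nd (nat_lit 30420) (nat_lit 0) (nat_lit 1140) (XT.nd (nat_lit 78) (nat_lit 0) (nat_lit 0) (XT.lf (nat_lit 0) (nat_lit 486142557221) (nat_lit 152) (nat_lit 607702651900) (nat_lit 228) (nat_lit 687558778125) (nat_lit 12) (nat_lit 5) (nat_lit 14) (nat_lit 5) (nat_lit 15) (nat_lit 5) (nat_lit 248) (nat_lit 236) (nat_lit 116)) (XT.lf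 (nat_lit 0) (nat_lit 1606196828239) (nat_lit 228) (nat_lit 184555074937) (nat_lit 76) (nat_lit 185854915247) (nat_lit 12) (nat_lit 5) (nat_lit 15) (nat_lit 5) (nat_lit 13) (nat_lit 4) (nat_lit 249) (nat_lit 236) (nat_lit 115))) (XT.nd (nat_lit 78) (nat_lit 0) (nat_lit 76) (XT.lf (nat_lit 0) (nat_lit 30431841688) (nat_lit 532) (nat_lit 166330334119) (nat_lit 532) (nat_lit 166330334119) (nat_lit 27) (nat_lit 3) (nat_lit 34) (nat_lit 3) (nat_lit 34) (nat_lit 5) (nat_lit 237) (nat_lit 237) (nat_lit 126)) (XT.lf (nat_lit 0) (nat_lit 74120102247) (nat_lit 456) (nat_lit 567722713424) (nat_lit 532) (nat_lit 138110747713) (nat_lit 28) (nat_lit 5) (nat_lit 34) (nat_lit 5) (nat_lit 35) (nat_lit 5) (nat_lit 238) (nat_lit 237) (nat_lit 125)))) (XT.nd (nat_lit 156) (nat_lit 532) (nat_lit 0) (XT.nd (nat_lit 78) (nat_lit 0) (nat_lit 76) (XT.lf (nat_lit 76) (nat_lit 7213801323) (nat_lit 0) (nat_lit 103145168173)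 (nat_lit 532) (nat_lit 729748900380) (nat_lit 29) (nat_lit 5) (nat_lit 28) (nat_lit 5) (nat_lit 35) (nat_lit 5) (nat_lit 239) (nat_lit 237) (nat_lit 124)) (XT.lf (nat_lit 0) (nat_lit 181409988996) (nat_lit 456) (nat_lit 218040416020) (nat_lit 532) (nat_lit 507484811793) (nat_lit 29) (nat_lit 5) (nat_lit 35) (nat_lit 5) (nat_lit 36) (nat_lit 5) (nat_lit 240) (nat_lit 237) (nat_lit 123))) (XT.nd (nat_lit 78) (nat_lit 684) (nat_lit 0) (XT.lf (nat_lit 0) (nat_lit 283895876416) (nat_lit 456) (nat_lit 476399344963) (nat_lit 76) (nat_lit 221829267413) (nat_lit 30) (nat_lit 5) (nat_lit 36) (nat_lit 5) (nat_lit 31) (nat_lit 5) (nat_lit 241) (nat_lit 237) (nat_lit 122)) (XT.nd (nat_lit 78) (nat_lit 228) (nat_lit 0) (XT.lf (nat_lit 0) (nat_lit 286283433657) (nat_lit 456) (nat_lit 139917019632) (nat_lit 532) (nat_lit 640436033956) (nat_lit 24) (nat_lit 5) (nat_lit 30) (nat_lit 5) (nat_lit 31) (nat_lit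 5) (nat_lit 242) (nat_lit 237) (nat_lit 121)) (XT.lf (nat_lit 0) (nat_lit 16157074368) (nat_lit 228) (nat_lit 602105429548) (nat_lit 304) (nat_lit 543289838730) (nat_lit 21) (nat_lit 5) (nat_lit 24) (nat_lit 5) (nat_lit 25) (nat_lit 5) (nat_lit 243) (nat_lit 237) (nat_lit 120)))))) (XT.nd (nat_lit 312) (nat_lit 304) (nat_lit 0) (XT.nd (nat_lit 156) (nat_lit 228) (nat_lit 0) (XT.nd (nat_lit 78) (nat_lit 152) (nat_lit 0) (XT.lf (nat_lit 0) (nat_lit 868263090092) (nat_lit 304) (nat_lit 295898641513) (nat_lit 76) (nat_lit 104213506653) (nat_lit 21) (nat_lit 5) (nat_lit 25) (nat_lit 5) (nat_lit 22) (nat_lit 5) (nat_lit 244) (nat_lit 237) (nat_lit 119)) (XT.lf (nat_lit 0) (nat_lit 699354245037) (nat_lit 152) (nat_lit 489881737059) (nat_lit 228) (nat_lit 199307808804) (nat_lit 19) (nat_lit 5) (nat_lit 21) (nat_lit 5) (nat_lit 22) (nat_lit 5) (nat_lit 245) (nat_lit 237) (nat_lit 118))) (XT.nd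 (nat_lit 78) (nat_lit 0) (nat_lit 0) (XT.lf (nat_lit 0) (nat_lit 54686265501) (nat_lit 228) (nat_lit 1180218236995) (nat_lit 76) (nat_lit 289800236239) (nat_lit 16) (nat_lit 5) (nat_lit 19) (nat_lit 5) (nat_lit 17) (nat_lit 5) (nat_lit 246) (nat_lit 237) (nat_lit 117)) (XT.lf (nat_lit 0) (nat_lit 369448825134) (nat_lit 228) (nat_lit 124317911504) (nat_lit 76) (nat_lit 1184351296448) (nat_lit 16) (nat_lit 5) (nat_lit 19) (nat_lit 5) (nat_lit 17) (nat_lit 5) (nat_lit 247) (nat_lit 237) (nat_lit 116)))) (XT.nd (nat_lit 30498) (nat_lit 0) (nat_lit 1140) (XT.nd (nat_lit 78) (nat_lit 152) (nat_lit 0) (XT.lf (nat_lit 0) (nat_lit 768359536160) (nat_lit 228) (nat_lit 714312258085) (nat_lit 76) (nat_lit 368916826021) (nat_lit 14) (nat_lit 5) (nat_lit 17) (nat_lit 5) (nat_lit 15) (nat_lit 5) (nat_lit 248) (nat_lit 237) (nat_lit 115)) (XT.lf (nat_lit 0) (nat_lit 559064106142) (nat_lit 152) (nat_lit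 698858001702) (nat_lit 228) (nat_lit 790692467422) (nat_lit 12) (nat_lit 5) (nat_lit 14) (nat_lit 5) (nat_lit 15) (nat_lit 5) (nat_lit 249) (nat_lit 237) (nat_lit 114))) (XT.nd (nat_lit 78) (nat_lit 0) (nat_lit 76) (XT.lf (nat_lit 0) (nat_lit 34996803355) (nat_lit 532) (nat_lit 191279783371) (nat_lit 532) (nat_lit 191279783371) (nat_lit 27) (nat_lit 3) (nat_lit 34) (nat_lit 3) (nat_lit 34) (nat_lit 5) (nat_lit 238) (nat_lit 238) (nat_lit 124)) (XT.nd (nat_lit 78) (nat_lit 0) (nat_lit 0) (XT.lf (nat_lit 0) (nat_lit 85238441063) (nat_lit 456) (nat_lit 652880903626) (nat_lit 532) (nat_lit 158827224742) (nat_lit 28) (nat_lit 5) (nat_lit 34) (nat_lit 5) (nat_lit 35) (nat_lit 5) (nat_lit 239) (nat_lit 238) (nat_lit 123)) (XT.lf (nat_lit 76) (nat_lit 8296069980) (nat_lit 0) (nat_lit 118617030999) (nat_lit 532) (nat_lit 839210924249) (nat_lit 29) (nat_lit 5) (nat_lit 28) (nat_lit 5) (nat_lit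 35) (nat_lit 5) (nat_lit 240) (nat_lit 238) (nat_lit 122))))))))
noncomputable def xc63 : XT := (XT.nd (nat_lit 62634) (nat_lit 0) (nat_lit 380) (XT.nd (nat_lit 31278) (nat_lit 0) (nat_lit 228) (XT.nd (nat_lit 312) (nat_lit 380) (nat_lit 0) (XT.nd (nat_lit 156) (nat_lit 608) (nat_lit 0) (XT.nd (nat_lit 78) (nat_lit 0) (nat_lit 76) (XT.lf (nat_lit 0) (nat_lit 208621734260) (nat_lit 456) (nat_lit 250746282167) (nat_lit 532) (nat_lit 583607461199) (nat_lit 29) (nat_lit 5) (nat_lit 35) (nat_lit 5) (nat_lit 36) (nat_lit 5) (nat_lit 241) (nat_lit 238) (nat_lit 121)) (XT.lf (nat_lit 0) (nat_lit 326480475960) (nat_lit 456) (nat_lit 547859046895) (nat_lit 76) (nat_lit 255103620111) (nat_lit 30) (nat_lit 5) (nat_lit 36) (nat_lit 5) (nat_lit 31) (nat_lit 5) (nat_lit 242) (nat_lit 238) (nat_lit 120))) (XT.nd (nat_lit 78) (nat_lit 228) (nat_lit 0) (XT.lf (nat_lit 0) (nat_lit 329226131605) (nat_lit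 456) (nat_lit 160904583713) (nat_lit 532) (nat_lit 736501228015) (nat_lit 24) (nat_lit 5) (nat_lit 30) (nat_lit 5) (nat_lit 31) (nat_lit 5) (nat_lit 243) (nat_lit 238) (nat_lit 119)) (XT.lf (nat_lit 0) (nat_lit 18580818746) (nat_lit 228) (nat_lit 692421233657) (nat_lit 304) (nat_lit 624783126525) (nat_lit 21) (nat_lit 5) (nat_lit 24) (nat_lit 5) (nat_lit 25) (nat_lit 5) (nat_lit 244) (nat_lit 238) (nat_lit 118)))) (XT.nd (nat_lit 156) (nat_lit 228) (nat_lit 0) (XT.nd (nat_lit 78) (nat_lit 152) (nat_lit 0) (XT.lf (nat_lit 0) (nat_lit 998502704169) (nat_lit 304) (nat_lit 340283265488) (nat_lit 76) (nat_lit 119845541179) (nat_lit 21) (nat_lit 5) (nat_lit 25) (nat_lit 5) (nat_lit 22) (nat_lit 5) (nat_lit 245) (nat_lit 238) (nat_lit 117)) (XT.lf (nat_lit 0) (nat_lit 804257539464) (nat_lit 152) (nat_lit 563363974663) (nat_lit 228) (nat_lit 229203833660) (nat_lit 19) (nat_lit 5) (nat_lit 21)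 (nat_lit 5) (nat_lit 22) (nat_lit 5) (nat_lit 246) (nat_lit 238) (nat_lit 116))) (XT.nd (nat_lit 30654) (nat_lit 0) (nat_lit 836) (XT.lf (nat_lit 0) (nat_lit 62889330622) (nat_lit 228) (nat_lit 1357250810591) (nat_lit 76) (nat_lit 333270297527) (nat_lit 16) (nat_lit 5) (nat_lit 19) (nat_lit 5) (nat_lit 17) (nat_lit 5) (nat_lit 247) (nat_lit 238) (nat_lit 115)) (XT.nd (nat_lit 78) (nat_lit 0) (nat_lit 76) (XT.lf (nat_lit 0) (nat_lit 40246464058) (nat_lit 532) (nat_lit 219971674608) (nat_lit 532) (nat_lit 219971674608) (nat_lit 27) (nat_lit 3) (nat_lit 34) (nat_lit 3) (nat_lit 34) (nat_lit 5) (nat_lit 239) (nat_lit 239) (nat_lit 122)) (XT.lf (nat_lit 0) (nat_lit 98024451819) (nat_lit 456) (nat_lit 750812875230) (nat_lit 532) (nat_lit 182651206277) (nat_lit 28) (nat_lit 5) (nat_lit 34) (nat_lit 5) (nat_lit 35) (nat_lit 5) (nat_lit 240) (nat_lit 239) (nat_lit 121)))))) (XT.nd (nat_lit 312)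 (nat_lit 380) (nat_lit 0) (XT.nd (nat_lit 156) (nat_lit 304) (nat_lit 0) (XT.nd (nat_lit 78) (nat_lit 0) (nat_lit 76) (XT.lf (nat_lit 76) (nat_lit 9540630541) (nat_lit 0) (nat_lit 136409651887) (nat_lit 532) (nat_lit 965092327583) (nat_lit 29) (nat_lit 5) (nat_lit 28) (nat_lit 5) (nat_lit 35) (nat_lit 5) (nat_lit 241) (nat_lit 239) (nat_lit 120)) (XT.lf (nat_lit 0) (nat_lit 239915181103) (nat_lit 456) (nat_lit 288358076093) (nat_lit 532) (nat_lit 671148525661) (nat_lit 29) (nat_lit 5) (nat_lit 35) (nat_lit 5) (nat_lit 36) (nat_lit 5) (nat_lit 242) (nat_lit 239) (nat_lit 119))) (XT.nd (nat_lit 78) (nat_lit 456) (nat_lit 0) (XT.lf (nat_lit 0) (nat_lit 375452712256) (nat_lit 456) (nat_lit 630037752843) (nat_lit 76) (nat_lit 293369134837) (nat_lit 30) (nat_lit 5) (nat_lit 36) (nat_lit 5) (nat_lit 31) (nat_lit 5) (nat_lit 243) (nat_lit 239) (nat_lit 118)) (XT.lf (nat_lit 0) (nat_lit 378610189643)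 (nat_lit 456) (nat_lit 185040279691) (nat_lit 532) (nat_lit 846976252645) (nat_lit 24) (nat_lit 5) (nat_lit 30) (nat_lit 5) (nat_lit 31) (nat_lit 5) (nat_lit 244) (nat_lit 239) (nat_lit 117)))) (XT.nd (nat_lit 156) (nat_lit 152) (nat_lit 0) (XT.nd (nat_lit 78) (nat_lit 0) (nat_lit 0) (XT.lf (nat_lit 0) (nat_lit 21368080100) (nat_lit 228) (nat_lit 796284410901) (nat_lit 304) (nat_lit 718500453337) (nat_lit 21) (nat_lit 5) (nat_lit 24) (nat_lit 5) (nat_lit 25) (nat_lit 5) (nat_lit 245) (nat_lit 239) (nat_lit 116)) (XT.lf (nat_lit 0) (nat_lit 1148278223642) (nat_lit 304) (nat_lit 391325625064) (nat_lit 76) (nat_lit 137822378803) (nat_lit 21) (nat_lit 5) (nat_lit 25) (nat_lit 5) (nat_lit 22) (nat_lit 5) (nat_lit 246) (nat_lit 239) (nat_lit 115))) (XT.nd (nat_lit 30732) (nat_lit 0) (nat_lit 608) (XT.lf (nat_lit 0) (nat_lit 924896289606) (nat_lit 152) (nat_lit 647868553505) (nat_lit 228) (nat_lit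 263584297961) (nat_lit 19) (nat_lit 5) (nat_lit 21) (nat_lit 5) (nat_lit 22) (nat_lit 5) (nat_lit 247) (nat_lit 239) (nat_lit 114)) (XT.nd (nat_lit 78) (nat_lit 0) (nat_lit 76) (XT.lf (nat_lit 0) (nat_lit 46283539678) (nat_lit 532) (nat_lit 252967368129) (nat_lit 532) (nat_lit 252967368129) (nat_lit 27) (nat_lit 3) (nat_lit 34) (nat_lit 3) (nat_lit 34) (nat_lit 5) (nat_lit 240) (nat_lit 240) (nat_lit 120)) (XT.lf (nat_lit 0) (nat_lit 112728304542) (nat_lit 456) (nat_lit 863434682553) (nat_lit 532) (nat_lit 210048809958) (nat_lit 28) (nat_lit 5) (nat_lit 34) (nat_lit 5) (nat_lit 35) (nat_lit 5) (nat_lit 241) (nat_lit 240) (nat_lit 119))))))) (XT.nd (nat_lit 31512) (nat_lit 0) (nat_lit 228) (XT.nd (nat_lit 312) (nat_lit 228) (nat_lit 0) (XT.nd (nat_lit 156) (nat_lit 304) (nat_lit 0) (XT.nd (nat_lit 78) (nat_lit 0) (nat_lit 76) (XT.lf (nat_lit 76) (nat_lit 10971838591) (nat_lit 0) (nat_lit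 156871149756) (nat_lit 532) (nat_lit 1109855998797) (nat_lit 29) (nat_lit 5) (nat_lit 28) (nat_lit 5) (nat_lit 35) (nat_lit 5) (nat_lit 242) (nat_lit 240) (nat_lit 118)) (XT.lf (nat_lit 0) (nat_lit 275902599443) (nat_lit 456) (nat_lit 331611675297) (nat_lit 532) (nat_lit 771820763137) (nat_lit 29) (nat_lit 5) (nat_lit 35) (nat_lit 5) (nat_lit 36) (nat_lit 5) (nat_lit 243) (nat_lit 240) (nat_lit 117))) (XT.nd (nat_lit 78) (nat_lit 456) (nat_lit 0) (XT.lf (nat_lit 0) (nat_lit 431770743783) (nat_lit 456) (nat_lit 724543301527) (nat_lit 76) (nat_lit 337374483671) (nat_lit 30) (nat_lit 5) (nat_lit 36) (nat_lit 5) (nat_lit 31) (nat_lit 5) (nat_lit 244) (nat_lit 240) (nat_lit 116)) (XT.lf (nat_lit 0) (nat_lit 435401822663) (nat_lit 456) (nat_lit 212796328012) (nat_lit 532) (nat_lit 974022569883) (nat_lit 24) (nat_lit 5) (nat_lit 30) (nat_lit 5) (nat_lit 31) (nat_lit 5) (nat_lit 245) (nat_lit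 240) (nat_lit 115)))) (XT.nd (nat_lit 30966) (nat_lit 0) (nat_lit 532) (XT.nd (nat_lit 30888) (nat_lit 0) (nat_lit 456) (XT.lf (nat_lit 0) (nat_lit 24573396874) (nat_lit 228) (nat_lit 915727066634) (nat_lit 304) (nat_lit 826275413839) (nat_lit 21) (nat_lit 5) (nat_lit 24) (nat_lit 5) (nat_lit 25) (nat_lit 5) (nat_lit 246) (nat_lit 240) (nat_lit 114)) (XT.lf (nat_lit 0) (nat_lit 53226150789) (nat_lit 532) (nat_lit 290912429741) (nat_lit 532) (nat_lit 290912429741) (nat_lit 27) (nat_lit 3) (nat_lit 34) (nat_lit 3) (nat_lit 34) (nat_lit 5) (nat_lit 241) (nat_lit 241) (nat_lit 118))) (XT.nd (nat_lit 78) (nat_lit 0) (nat_lit 0) (XT.lf (nat_lit 0) (nat_lit 129637690072) (nat_lit 456) (nat_lit 992949791203) (nat_lit 532) (nat_lit 241556073033) (nat_lit 28) (nat_lit 5) (nat_lit 34) (nat_lit 5) (nat_lit 35) (nat_lit 5) (nat_lit 242) (nat_lit 241) (nat_lit 117)) (XT.nd (nat_lit 78) (nat_lit 0)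 (nat_lit 76) (XT.lf (nat_lit 76) (nat_lit 12617700179) (nat_lit 0) (nat_lit 180401860092) (nat_lit 532) (nat_lit 1276334264081) (nat_lit 29) (nat_lit 5) (nat_lit 28) (nat_lit 5) (nat_lit 35) (nat_lit 5) (nat_lit 243) (nat_lit 241) (nat_lit 116)) (XT.lf (nat_lit 0) (nat_lit 317288096107) (nat_lit 456) (nat_lit 381353341744) (nat_lit 532) (nat_lit 887593846323) (nat_lit 29) (nat_lit 5) (nat_lit 35) (nat_lit 5) (nat_lit 36) (nat_lit 5) (nat_lit 244) (nat_lit 241) (nat_lit 115)))))) (XT.nd (nat_lit 31200) (nat_lit 0) (nat_lit 228) (XT.nd (nat_lit 31044) (nat_lit 0) (nat_lit 228) (XT.nd (nat_lit 78) (nat_lit 456) (nat_lit 0) (XT.lf (nat_lit 0) (nat_lit 496536449633) (nat_lit 456) (nat_lit 833224710372) (nat_lit 76) (nat_lit 387980640047) (nat_lit 30) (nat_lit 5) (nat_lit 36) (nat_lit 5) (nat_lit 31) (nat_lit 5) (nat_lit 245) (nat_lit 241) (nat_lit 114)) (XT.lf (nat_lit 0) (nat_lit 500712175134)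 (nat_lit 456) (nat_lit 244715782028) (nat_lit 532) (nat_lit 1120125864130) (nat_lit 24) (nat_lit 5) (nat_lit 30) (nat_lit 5) (nat_lit 31) (nat_lit 5) (nat_lit 246) (nat_lit 241) (nat_lit 113))) (XT.nd (nat_lit 78) (nat_lit 0) (nat_lit 76) (XT.lf (nat_lit 0) (nat_lit 61210134020) (nat_lit 532) (nat_lit 334549261229) (nat_lit 532) (nat_lit 334549261229) (nat_lit 27) (nat_lit 3) (nat_lit 34) (nat_lit 3) (nat_lit 34) (nat_lit 5) (nat_lit 242) (nat_lit 242) (nat_lit 116)) (XT.lf (nat_lit 0) (nat_lit 149083449329) (nat_lit 456) (nat_lit 1141892189007) (nat_lit 532) (nat_lit 277789439814) (nat_lit 28) (nat_lit 5) (nat_lit 34) (nat_lit 5) (nat_lit 35) (nat_lit 5) (nat_lit 243) (nat_lit 242) (nat_lit 115)))) (XT.nd (nat_lit 31200) (nat_lit 76) (nat_lit 0) (XT.nd (nat_lit 78) (nat_lit 0) (nat_lit 76) (XT.lf (nat_lit 76) (nat_lit 14510420083) (nat_lit 0) (nat_lit 207462167742) (nat_lit 532) (nat_lit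 1467784301966) (nat_lit 29) (nat_lit 5) (nat_lit 28) (nat_lit 5) (nat_lit 35) (nat_lit 5) (nat_lit 244) (nat_lit 242) (nat_lit 114)) (XT.lf (nat_lit 0) (nat_lit 364881391240) (nat_lit 456) (nat_lit 438556278849) (nat_lit 532) (nat_lit 1020732899615) (nat_lit 29) (nat_lit 5) (nat_lit 35) (nat_lit 5) (nat_lit 36) (nat_lit 5) (nat_lit 245) (nat_lit 242) (nat_lit 113))) (XT.nd (nat_lit 78) (nat_lit 0) (nat_lit 76) (XT.lf (nat_lit 0) (nat_lit 70391699954) (nat_lit 532) (nat_lit 384731625481) (nat_lit 532) (nat_lit 384731625481) (nat_lit 27) (nat_lit 3) (nat_lit 34) (nat_lit 3) (nat_lit 34) (nat_lit 5) (nat_lit 243) (nat_lit 243) (nat_lit 114)) (XT.nd (nat_lit 78) (nat_lit 0) (nat_lit 0) (XT.lf (nat_lit 0) (nat_lit 171446046688) (nat_lit 456) (nat_lit 1313175963766) (nat_lit 532) (nat_lit 319457822384) (nat_lit 28) (nat_lit 5) (nat_lit 34) (nat_lit 5) (nat_lit 35) (nat_lit 5) (nat_lit 244)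 (nat_lit 243) (nat_lit 113)) (XT.lf (nat_lit 76) (nat_lit 16687032151) (nat_lit 0) (nat_lit 238581514557) (nat_lit 532) (nat_lit 1687951870339) (nat_lit 29) (nat_lit 5) (nat_lit 28) (nat_lit 5) (nat_lit 35) (nat_lit 5) (nat_lit 245) (nat_lit 243) (nat_lit 112))))))))

set_option maxRecDepth 10000000 in
noncomputable def Tp : PT := (PT.nd (nat_lit 3166956) pc0 pc1)

set_option maxRecDepth 10000000 in
noncomputable def Tx : XT := (XT.nd (nat_lit 5368662) (nat_lit 0) (nat_lit 76) XT.nil (XT.nd (nat_lit 2251080) (nat_lit 0) (nat_lit 0) (XT.nd (nat_lit 1059864) (nat_lit 0) (nat_lit 0) (XT.nd (nat_lit 718224) (nat_lit 0) (nat_lit 0) (XT.nd (nat_lit 499668) (nat_lit 0) (nat_lit 0) (XT.nd (nat_lit 343590) (nat_lit 0) (nat_lit 0) (XT.nd (nat_lit 249132) (nat_lit 0) (nat_lit 0) (XT.nd (nat_lit 156078) (nat_lit 0) (nat_lit 0) xc0 xc1) (XT.nd (nat_lit 62166) (nat_lit 0) (nat_lit 0) xc2 xc3)) (XT.nd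 (nat_lit 92976) (nat_lit 0) (nat_lit 0) (XT.nd (nat_lit 61230) (nat_lit 0) (nat_lit 0) xc4 xc5) (XT.nd (nat_lit 31590) (nat_lit 0) (nat_lit 0) xc6 xc7))) (XT.nd (nat_lit 124254) (nat_lit 0) (nat_lit 0) (XT.nd (nat_lit 62400) (nat_lit 0) (nat_lit 0) (XT.nd (nat_lit 31278) (nat_lit 0) (nat_lit 0) xc8 xc9) (XT.nd (nat_lit 30966) (nat_lit 0) (nat_lit 0) xc10 xc11)) (XT.nd (nat_lit 61152) (nat_lit 0) (nat_lit 0) (XT.nd (nat_lit 30654) (nat_lit 0) (nat_lit 0) xc12 xc13) (XT.nd (nat_lit 2730) (nat_lit 0) (nat_lit 0) xc14 xc15)))) (XT.nd (nat_lit 184626) (nat_lit 0) (nat_lit 0) (XT.nd (nat_lit 92898) (nat_lit 0) (nat_lit 0) (XT.nd (nat_lit 60216) (nat_lit 0) (nat_lit 0) (XT.nd (nat_lit 30186) (nat_lit 0) (nat_lit 0) xc16 xc17) (XT.nd (nat_lit 2730) (nat_lit 0) (nat_lit 0) xc18 xc19)) (XT.nd (nat_lit 32526) (nat_lit 0) (nat_lit 0) (XT.nd (nat_lit 29796) (nat_lit 0) (nat_lit 0) xc20 xc21) (XT.nd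 (nat_lit 29640) (nat_lit 0) (nat_lit 0) xc22 xc23))) (XT.nd (nat_lit 64740) (nat_lit 0) (nat_lit 0) (XT.nd (nat_lit 32292) (nat_lit 0) (nat_lit 0) (XT.nd (nat_lit 2730) (nat_lit 0) (nat_lit 0) xc24 xc25) (XT.nd (nat_lit 2730) (nat_lit 0) (nat_lit 0) xc26 xc27)) (XT.nd (nat_lit 32526) (nat_lit 0) (nat_lit 0) (XT.nd (nat_lit 29718) (nat_lit 0) (nat_lit 0) xc28 xc29) (XT.nd (nat_lit 29796) (nat_lit 0) (nat_lit 0) xc30 xc31))))) (XT.nd (nat_lit 377130) (nat_lit 0) (nat_lit 0) (XT.nd (nat_lit 159276) (nat_lit 0) (nat_lit 0) (XT.nd (nat_lit 65676) (nat_lit 0) (nat_lit 0) (XT.nd (nat_lit 32760) (nat_lit 0) (nat_lit 0) (XT.nd (nat_lit 2730) (nat_lit 0) (nat_lit 0) xc32 xc33) (XT.nd (nat_lit 30108) (nat_lit 0) (nat_lit 0) xc34 xc35)) (XT.nd (nat_lit 60450) (nat_lit 0) (nat_lit 0) (XT.nd (nat_lit 30186) (nat_lit 0) (nat_lit 0) xc36 xc37) (XT.nd (nat_lit 30342) (nat_lit 0) (nat_lit 0) xc38 xc39)))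 (XT.nd (nat_lit 122382) (nat_lit 0) (nat_lit 0) (XT.nd (nat_lit 60918) (nat_lit 0) (nat_lit 0) (XT.nd (nat_lit 30420) (nat_lit 0) (nat_lit 0) xc40 xc41) (XT.nd (nat_lit 30654) (nat_lit 0) (nat_lit 0) xc42 xc43)) (XT.nd (nat_lit 33540) (nat_lit 0) (nat_lit 0) (XT.nd (nat_lit 2730) (nat_lit 0) (nat_lit 0) xc44 xc45) (XT.nd (nat_lit 30888) (nat_lit 0) (nat_lit 0) xc46 xc47)))) (XT.nd (nat_lit 251550) (nat_lit 0) (nat_lit 152) (XT.nd (nat_lit 125034) (nat_lit 0) (nat_lit 0) (XT.nd (nat_lit 62322) (nat_lit 0) (nat_lit 0) (XT.nd (nat_lit 31122) (nat_lit 0) (nat_lit 0) xc48 xc49) (XT.nd (nat_lit 31278) (nat_lit 0) (nat_lit 0) xc50 xc51)) (XT.nd (nat_lit 63024) (nat_lit 0) (nat_lit 76) (XT.nd (nat_lit 31434) (nat_lit 0) (nat_lit 0) xc52 xc53) (XT.nd (nat_lit 31668) (nat_lit 0) (nat_lit 76) xc54 xc55))) (XT.nd (nat_lit 187200) (nat_lit 0) (nat_lit 152) (XT.nd (nat_lit 93132) (nat_lit 0) (nat_lit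 76) (XT.nd (nat_lit 61074) (nat_lit 0) (nat_lit 76) xc56 xc57) (XT.nd (nat_lit 61620) (nat_lit 0) (nat_lit 76) xc58 xc59)) (XT.nd (nat_lit 125034) (nat_lit 0) (nat_lit 228) (XT.nd (nat_lit 62244) (nat_lit 0) (nat_lit 152) xc60 xc61) (XT.nd (nat_lit 93522) (nat_lit 0) (nat_lit 608) xc62 xc63)))))) XT.nil))

set_option maxRecDepth 10000000 in
noncomputable def Te : XT := XT.nil

set_option maxRecDepth 10000000 in
noncomputable def Tz : ZL := (ZL.cons (nat_lit 76) (nat_lit 6) (nat_lit 167472867737695153290) (ZL.cons (nat_lit 152) (nat_lit 6) (nat_lit 158983327320513351348) (ZL.cons (nat_lit 228) (nat_lit 3) (nat_lit 78765735570022635179) (ZL.cons (nat_lit 304) (nat_lit 6) (nat_lit 149220355840754279116) (ZL.cons (nat_lit 380) (nat_lit 6) (nat_lit 142376913062227355818) (ZL.cons (nat_lit 456) (nat_lit 3) (nat_lit 70557214713518860088) (ZL.cons (nat_lit 532) (nat_lit 6) (nat_lit 134506953866921394030)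 (ZL.cons (nat_lit 608) (nat_lit 6) (nat_lit 129268652464663894298) (ZL.cons (nat_lit 684) (nat_lit 3) (nat_lit 64085420303988627302) (ZL.cons (nat_lit 760) (nat_lit 6) (nat_lit 125297036714568878594) (ZL.cons (nat_lit 836) (nat_lit 6) (nat_lit 123244605852067769606) (ZL.cons (nat_lit 912) (nat_lit 6) (nat_lit 122514401091091009652) (ZL.cons (nat_lit 988) (nat_lit 6) (nat_lit 119631866745272970840) (ZL.cons (nat_lit 1064) (nat_lit 3) (nat_lit 59338623869729250773) (ZL.cons (nat_lit 1140) (nat_lit 6) (nat_lit 116088455254600033884) (ZL.cons (nat_lit 1216) (nat_lit 6) (nat_lit 117261939261590351380) (ZL.cons (nat_lit 1292) (nat_lit 6) (nat_lit 115477216772458952262) (ZL.cons (nat_lit 1368) (nat_lit 3) (nat_lit 56477113078714884825) (ZL.cons (nat_lit 1444) (nat_lit 6) (nat_lit 113581903649540869704) (ZL.cons (nat_lit 1520) (nat_lit 3) (nat_lit 56375900083111969940) (ZL.cons (nat_lit 1596)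 (nat_lit 6) (nat_lit 111402293558185074764) (ZL.cons (nat_lit 1672) (nat_lit 1) (nat_lit 18446744073709551617) ZL.nil))))))))))))))))))))))

noncomputable def vl : XL := ⟨(nat_lit 0), (nat_lit 76), (nat_lit 334104732), (nat_lit 228), (nat_lit 67798454), (nat_lit 76), (nat_lit 334104732), (nat_lit 1), (nat_lit 5), (nat_lit 3), (nat_lit 4), (nat_lit 1), (nat_lit 4), (nat_lit 0), (nat_lit 0), (nat_lit 0)⟩

noncomputable def cp0 : Nat := (nat_lit 424084380784169786897200193440634287605505902914619710643643399251720366854828285461405827317148277825584030710011982346273799247904385461282998259779759815185271615286346816778787438489782673433135473634402403433782922618359533021731713243362793441094168473480474841624758135865725401155166881667092613742082590093330172627321697536044574232841926629611884902005056297075328832718171391989323057073930003599102757743764247787614897051009930990251307762186484936358673947134068248091655643609013204397215795313043597950976)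

noncomputable def cp1 : Nat := (nat_lit 932731453879870663417886471303797439170636582154255917639641709017560193390615234997536545455954553229249071084990983834639516801496152940404552867074358110117165318665363935973555239657268313507986886657267853807949752890912865006963908438064110972200975714830027946128489616015764263498083423513231436520950032850337646173722369546112597150489489144065884871418924797772714027303237817953726687913145076673418311432146891380459692673541986600714048535529315718677031825648188407861245705278947104519719378809175152449165116042275735125330393278462065568945139653737575510025240813310712652106785022370493856548987539167352315635415789388275253126508432756027098250545139592130045209047873503571374671313685628121855459233879576315761192144934742621051250944988373139414629890964485763690125264244322781679953922240761572961153334663174450197601022712726772835315669882467759087429350483041568547275075375902682033748907282463129855047450097645474837176469847897480193138014568696552096703725615541587223185013093591442697808390235780812050737114038340673298181688677948242724597259449027124251871407955423785755535876791369934303852747201760490605287712819189936951278558337929576448)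

noncomputable def rc0 : Nat := (nat_lit 932731453879870663417886471303797439170636582154255917639641709017560193390615234997536545455954553229249071084990983834639516801496152940404552867074358110117165318665363935973555239657268313507986886657267853807949752890912865006963908438064110972200975714830027946128489616015764263498083423513231436520950032850337646173722369546112597150489489144065884871418924797772714027303237817953726687913145076673418311432146891380459692673541986600714048535529315718677031825648188407861245705278947104519719378809175152449165116042275735125330393278462065568945139653737575510025240813310712652106785022370493856548987539167352315635415789388275253126508432756027098250545139592130045209047873503571374671313685628121855459233879576315761192144934742621051250944988373139414629890964485763690125264244322781679953922240761572961153334663174450197601022712726772835315669882467759087429350483041568547275075375902682033748907282463129855047450097645474837176469847897480193138014568696552096703725615541587223185013093591442697808390235780812050737114038340673298181688677948242724597259449027124251871407955423785755535876791369934303852747201760490605287712819189936951278558337929576448)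

end Vale.Agent.Lib.P154.PChain.BW.S1
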