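import Vale.Agent.Lib.P154.PChain.BW.R1_0

set_option linter.all false

namespace Vale.Agent.Lib.P154.PChain.BW.S2

open Vale.Agent.Lib.P154.Chain

noncomputable def pc0 : PT := (PT.nd (nat_lit 4024254) (PT.nd (nat_lit 3911856) (PT.nd (nat_lit 3836976) (PT.nd (nat_lit 3836820) (PT.nd (nat_lit 3799458) (PT.nd (nat_lit 3799380) PT.nil (PT.lf (nat_lit 76) (nat_lit 6) (nat_lit 1) (nat_lit 3) (nat_lit 129) (nat_lit 101) (nat_lit 130))) (PT.lf (nat_lit 76) (nat_lit 6) (nat_lit 1) (nat_lit 1) (nat_lit 130) (nat_lit 101) (nat_lit 129))) (PT.nd (nat_lit 78) (PT.lf (nat_lit 152) (nat_lit 6) (nat_lit 2) (nat_lit 3) (nat_lit 128) (nat_lit 102) (nat_lit 130)) (PT.lf (nat_lit 228) (nat_lit 3) (nat_lit 3) (nat_lit 1) (nat_lit 129) (nat_lit 102) (nat_lit 129)))) (PT.nd (nat_lit 37440) (PT.nd (nat_lit 37362) (PT.lf (nat_lit 152) (nat_lit 6) (nat_lit 2) (nat_lit 1) (nat_lit 130) (nat_lit 102) (nat_lit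 128)) (PT.lf (nat_lit 304) (nat_lit 6) (nat_lit 4) (nat_lit 3) (nat_lit 128) (nat_lit 103) (nat_lit 129))) (PT.nd (nat_lit 37362) (PT.lf (nat_lit 304) (nat_lit 6) (nat_lit 4) (nat_lit 1) (nat_lit 129) (nat_lit 103) (nat_lit 128)) (PT.lf (nat_lit 380) (nat_lit 6) (nat_lit 5) (nat_lit 3) (nat_lit 127) (nat_lit 104) (nat_lit 129))))) (PT.nd (nat_lit 74880) (PT.nd (nat_lit 37440) (PT.nd (nat_lit 78) (PT.lf (nat_lit 456) (nat_lit 3) (nat_lit 6) (nat_lit 1) (nat_lit 128) (nat_lit 104) (nat_lit 128)) (PT.lf (nat_lit 380) (nat_lit 6) (nat_lit 5) (nat_lit 1) (nat_lit 129) (nat_lit 104) (nat_lit 127))) (PT.nd (nat_lit 78) (PT.lf (nat_lit 532) (nat_lit 6) (nat_lit 7) (nat_lit 3) (nat_lit 127) (nat_lit 105) (nat_lit 128)) (PT.lf (nat_lit 532) (nat_lit 6) (nat_lit 7) (nat_lit 1) (nat_lit 128) (nat_lit 105) (nat_lit 127)))) (PT.nd (nat_lit 156) (PT.nd (nat_lit 78) (PT.lf (nat_lit 608) (nat_lit 6)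 (nat_lit 8) (nat_lit 3) (nat_lit 126) (nat_lit 106) (nat_lit 128)) (PT.lf (nat_lit 684) (nat_lit 3) (nat_lit 9) (nat_lit 1) (nat_lit 127) (nat_lit 106) (nat_lit 127))) (PT.nd (nat_lit 37284) (PT.lf (nat_lit 608) (nat_lit 6) (nat_lit 8) (nat_lit 1) (nat_lit 128) (nat_lit 106) (nat_lit 126)) (PT.lf (nat_lit 760) (nat_lit 6) (nat_lit 10) (nat_lit 3) (nat_lit 125) (nat_lit 107) (nat_lit 128)))))) (PT.nd (nat_lit 75036) (PT.nd (nat_lit 37518) (PT.nd (nat_lit 156) (PT.nd (nat_lit 78) (PT.lf (nat_lit 836) (nat_lit 6) (nat_lit 11) (nat_lit 3) (nat_lit 126) (nat_lit 107) (nat_lit 127)) (PT.lf (nat_lit 836) (nat_lit 6) (nat_lit 11) (nat_lit 1) (nat_lit 127) (nat_lit 107) (nat_lit 126))) (PT.nd (nat_lit 37284) (PT.lf (nat_lit 760) (nat_lit 6) (nat_lit 10) (nat_lit 1) (nat_lit 128) (nat_lit 107) (nat_lit 125)) (PT.lf (nat_lit 912) (nat_lit 6) (nat_lit 12) (nat_lit 3) (nat_lit 125) (nat_lit 108)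 (nat_lit 127)))) (PT.nd (nat_lit 37362) (PT.nd (nat_lit 78) (PT.lf (nat_lit 988) (nat_lit 3) (nat_lit 13) (nat_lit 1) (nat_lit 126) (nat_lit 108) (nat_lit 126)) (PT.lf (nat_lit 912) (nat_lit 6) (nat_lit 12) (nat_lit 1) (nat_lit 127) (nat_lit 108) (nat_lit 125))) (PT.nd (nat_lit 78) (PT.lf (nat_lit 1064) (nat_lit 6) (nat_lit 14) (nat_lit 3) (nat_lit 124) (nat_lit 109) (nat_lit 127)) (PT.lf (nat_lit 1140) (nat_lit 6) (nat_lit 15) (nat_lit 3) (nat_lit 125) (nat_lit 109) (nat_lit 126))))) (PT.nd (nat_lit 37440) (PT.nd (nat_lit 37284) (PT.nd (nat_lit 78) (PT.lf (nat_lit 1140) (nat_lit 6) (nat_lit 15) (nat_lit 1) (nat_lit 126) (nat_lit 109) (nat_lit 125)) (PT.lf (nat_lit 1064) (nat_lit 6) (nat_lit 14) (nat_lit 1) (nat_lit 127) (nat_lit 109) (nat_lit 124))) (PT.nd (nat_lit 78) (PT.lf (nat_lit 1216) (nat_lit 6) (nat_lit 16) (nat_lit 3) (nat_lit 123) (nat_lit 110) (nat_lit 127)) (PT.lf (nat_lit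 1292) (nat_lit 6) (nat_lit 17) (nat_lit 3) (nat_lit 124) (nat_lit 110) (nat_lit 126)))) (PT.nd (nat_lit 156) (PT.nd (nat_lit 78) (PT.lf (nat_lit 1368) (nat_lit 3) (nat_lit 18) (nat_lit 1) (nat_lit 125) (nat_lit 110) (nat_lit 125)) (PT.lf (nat_lit 1292) (nat_lit 6) (nat_lit 17) (nat_lit 1) (nat_lit 126) (nat_lit 110) (nat_lit 124))) (PT.nd (nat_lit 37206) (PT.lf (nat_lit 1216) (nat_lit 6) (nat_lit 16) (nat_lit 1) (nat_lit 127) (nat_lit 110) (nat_lit 123)) (PT.nd (nat_lit 78) (PT.lf (nat_lit 1444) (nat_lit 6) (nat_lit 19) (nat_lit 3) (nat_lit 123) (nat_lit 111) (nat_lit 126)) (PT.lf (nat_lit 1520) (nat_lit 6) (nat_lit 20) (nat_lit 3) (nat_lit 124) (nat_lit 111) (nat_lit 125))))))))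
noncomputable def pc1 : PT := (PT.nd (nat_lit 112398) (PT.nd (nat_lit 74802) (PT.nd (nat_lit 37440) (PT.nd (nat_lit 37284) (PT.nd (nat_lit 78) (PT.lf (nat_lit 1520) (nat_lit 6) (nat_lit 20) (nat_lit 1) (nat_lit 125) (nat_lit 111) (nat_lit 124)) (PT.lf (nat_lit 1444) (nat_lit 6) (nat_lit 19) (nat_lit 1) (nat_lit 126) (nat_lit 111) (nat_lit 123))) (PT.nd (nat_lit 78) (PT.lf (nat_lit 1596) (nat_lit 6) (nat_lit 21) (nat_lit 3) (nat_lit 122) (nat_lit 112) (nat_lit 126)) (PT.lf (nat_lit 1672) (nat_lit 6) (nat_lit 22) (nat_lit 3) (nat_lit 123) (nat_lit 112) (nat_lit 125)))) (PT.nd (nat_lit 156) (PT.nd (nat_lit 78) (PT.lf (nat_lit 1748) (nat_lit 3) (nat_lit 23) (nat_lit 1) (nat_lit 124) (nat_lit 112) (nat_lit 124)) (PT.lf (nat_lit 1672) (nat_lit 6) (nat_lit 22) (nat_lit 1) (nat_lit 125) (nat_lit 112) (nat_lit 123))) (PT.nd (nat_lit 37128) (PT.lf (nat_lit 1596) (nat_lit 6) (nat_lit 21) (nat_lit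 1) (nat_lit 126) (nat_lit 112) (nat_lit 122)) (PT.lf (nat_lit 1824) (nat_lit 6) (nat_lit 24) (nat_lit 3) (nat_lit 121) (nat_lit 113) (nat_lit 126))))) (PT.nd (nat_lit 312) (PT.nd (nat_lit 156) (PT.nd (nat_lit 78) (PT.lf (nat_lit 1900) (nat_lit 6) (nat_lit 25) (nat_lit 3) (nat_lit 122) (nat_lit 113) (nat_lit 125)) (PT.lf (nat_lit 1976) (nat_lit 6) (nat_lit 26) (nat_lit 3) (nat_lit 123) (nat_lit 113) (nat_lit 124))) (PT.nd (nat_lit 78) (PT.lf (nat_lit 1976) (nat_lit 6) (nat_lit 26) (nat_lit 1) (nat_lit 124) (nat_lit 113) (nat_lit 123)) (PT.lf (nat_lit 1900) (nat_lit 6) (nat_lit 25) (nat_lit 1) (nat_lit 125) (nat_lit 113) (nat_lit 122)))) (PT.nd (nat_lit 37128) (PT.nd (nat_lit 37050) (PT.lf (nat_lit 1824) (nat_lit 6) (nat_lit 24) (nat_lit 1) (nat_lit 126) (nat_lit 113) (nat_lit 121)) (PT.lf (nat_lit 2280) (nat_lit 6) (nat_lit 30) (nat_lit 3) (nat_lit 120) (nat_lit 114) (nat_lit 126)))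 (PT.nd (nat_lit 78) (PT.lf (nat_lit 2356) (nat_lit 6) (nat_lit 31) (nat_lit 3) (nat_lit 121) (nat_lit 114) (nat_lit 125)) (PT.lf (nat_lit 2432) (nat_lit 6) (nat_lit 32) (nat_lit 3) (nat_lit 122) (nat_lit 114) (nat_lit 124)))))) (PT.nd (nat_lit 37518) (PT.nd (nat_lit 37206) (PT.nd (nat_lit 156) (PT.nd (nat_lit 78) (PT.lf (nat_lit 2508) (nat_lit 3) (nat_lit 33) (nat_lit 1) (nat_lit 123) (nat_lit 114) (nat_lit 123)) (PT.lf (nat_lit 2432) (nat_lit 6) (nat_lit 32) (nat_lit 1) (nat_lit 124) (nat_lit 114) (nat_lit 122))) (PT.nd (nat_lit 78) (PT.lf (nat_lit 2356) (nat_lit 6) (nat_lit 31) (nat_lit 1) (nat_lit 125) (nat_lit 114) (nat_lit 121)) (PT.lf (nat_lit 2280) (nat_lit 6) (nat_lit 30) (nat_lit 1) (nat_lit 126) (nat_lit 114) (nat_lit 120)))) (PT.nd (nat_lit 156) (PT.nd (nat_lit 78) (PT.lf (nat_lit 2204) (nat_lit 6) (nat_lit 29) (nat_lit 3) (nat_lit 119) (nat_lit 115) (nat_lit 126)) (PT.lf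 (nat_lit 2736) (nat_lit 6) (nat_lit 36) (nat_lit 3) (nat_lit 120) (nat_lit 115) (nat_lit 125))) (PT.nd (nat_lit 78) (PT.lf (nat_lit 2812) (nat_lit 6) (nat_lit 37) (nat_lit 3) (nat_lit 121) (nat_lit 115) (nat_lit 124)) (PT.lf (nat_lit 2888) (nat_lit 6) (nat_lit 38) (nat_lit 3) (nat_lit 122) (nat_lit 115) (nat_lit 123))))) (PT.nd (nat_lit 37128) (PT.nd (nat_lit 156) (PT.nd (nat_lit 78) (PT.lf (nat_lit 2888) (nat_lit 6) (nat_lit 38) (nat_lit 1) (nat_lit 123) (nat_lit 115) (nat_lit 122)) (PT.lf (nat_lit 2812) (nat_lit 6) (nat_lit 37) (nat_lit 1) (nat_lit 124) (nat_lit 115) (nat_lit 121))) (PT.nd (nat_lit 78) (PT.lf (nat_lit 2736) (nat_lit 6) (nat_lit 36) (nat_lit 1) (nat_lit 125) (nat_lit 115) (nat_lit 120)) (PT.lf (nat_lit 2204) (nat_lit 6) (nat_lit 29) (nat_lit 1) (nat_lit 126) (nat_lit 115) (nat_lit 119)))) (PT.nd (nat_lit 156) (PT.nd (nat_lit 78) (PT.lf (nat_lit 2128) (nat_lit 6) (nat_lit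 28) (nat_lit 3) (nat_lit 118) (nat_lit 116) (nat_lit 126)) (PT.lf (nat_lit 2660) (nat_lit 6) (nat_lit 35) (nat_lit 3) (nat_lit 119) (nat_lit 116) (nat_lit 125))) (PT.nd (nat_lit 78) (PT.lf (nat_lit 3116) (nat_lit 6) (nat_lit 41) (nat_lit 3) (nat_lit 120) (nat_lit 116) (nat_lit 124)) (PT.nd (nat_lit 78) (PT.lf (nat_lit 3192) (nat_lit 6) (nat_lit 42) (nat_lit 3) (nat_lit 121) (nat_lit 116) (nat_lit 123)) (PT.lf (nat_lit 3268) (nat_lit 3) (nat_lit 43) (nat_lit 1) (nat_lit 122) (nat_lit 116) (nat_lit 122))))))))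
noncomputable def pc2 : PT := (PT.nd (nat_lit 74646) (PT.nd (nat_lit 37362) (PT.nd (nat_lit 37050) (PT.nd (nat_lit 156) (PT.nd (nat_lit 78) (PT.lf (nat_lit 3192) (nat_lit 6) (nat_lit 42) (nat_lit 1) (nat_lit 123) (nat_lit 116) (nat_lit 121)) (PT.lf (nat_lit 3116) (nat_lit 6) (nat_lit 41) (nat_lit 1) (nat_lit 124) (nat_lit 116) (nat_lit 120))) (PT.nd (nat_lit 78) (PT.lf (nat_lit 2660) (nat_lit 6) (nat_lit 35) (nat_lit 1) (nat_lit 125) (nat_lit 116) (nat_lit 119)) (PT.lf (nat_lit 2128) (nat_lit 6) (nat_lit 28) (nat_lit 1) (nat_lit 126) (nat_lit 116) (nat_lit 118)))) (PT.nd (nat_lit 156) (PT.nd (nat_lit 78) (PT.lf (nat_lit 2052) (nat_lit 3) (nat_lit 27) (nat_lit 3) (nat_lit 117) (nat_lit 117) (nat_lit 126)) (PT.lf (nat_lit 2584) (nat_lit 6) (nat_lit 34) (nat_lit 3) (nat_lit 118) (nat_lit 117) (nat_lit 125))) (PT.nd (nat_lit 78) (PT.lf (nat_lit 3040) (nat_lit 6) (nat_lit 40) (nat_lit 3)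 (nat_lit 119) (nat_lit 117) (nat_lit 124)) (PT.lf (nat_lit 3420) (nat_lit 6) (nat_lit 45) (nat_lit 3) (nat_lit 120) (nat_lit 117) (nat_lit 123))))) (PT.nd (nat_lit 312) (PT.nd (nat_lit 156) (PT.nd (nat_lit 78) (PT.lf (nat_lit 3496) (nat_lit 6) (nat_lit 46) (nat_lit 3) (nat_lit 121) (nat_lit 117) (nat_lit 122)) (PT.lf (nat_lit 3496) (nat_lit 6) (nat_lit 46) (nat_lit 1) (nat_lit 122) (nat_lit 117) (nat_lit 121))) (PT.nd (nat_lit 78) (PT.lf (nat_lit 3420) (nat_lit 6) (nat_lit 45) (nat_lit 1) (nat_lit 123) (nat_lit 117) (nat_lit 120)) (PT.lf (nat_lit 3040) (nat_lit 6) (nat_lit 40) (nat_lit 1) (nat_lit 124) (nat_lit 117) (nat_lit 119)))) (PT.nd (nat_lit 36816) (PT.nd (nat_lit 78) (PT.lf (nat_lit 2584) (nat_lit 6) (nat_lit 34) (nat_lit 1) (nat_lit 125) (nat_lit 117) (nat_lit 118)) (PT.lf (nat_lit 2052) (nat_lit 3) (nat_lit 27) (nat_lit 0) (nat_lit 126) (nat_lit 117) (nat_lit 117))) (PT.nd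 (nat_lit 78) (PT.lf (nat_lit 2128) (nat_lit 6) (nat_lit 28) (nat_lit 5) (nat_lit 116) (nat_lit 118) (nat_lit 126)) (PT.lf (nat_lit 2584) (nat_lit 6) (nat_lit 34) (nat_lit 5) (nat_lit 117) (nat_lit 118) (nat_lit 125)))))) (PT.nd (nat_lit 624) (PT.nd (nat_lit 312) (PT.nd (nat_lit 156) (PT.nd (nat_lit 78) (PT.lf (nat_lit 2964) (nat_lit 3) (nat_lit 39) (nat_lit 3) (nat_lit 118) (nat_lit 118) (nat_lit 124)) (PT.lf (nat_lit 3344) (nat_lit 6) (nat_lit 44) (nat_lit 3) (nat_lit 119) (nat_lit 118) (nat_lit 123))) (PT.nd (nat_lit 78) (PT.lf (nat_lit 3648) (nat_lit 6) (nat_lit 48) (nat_lit 3) (nat_lit 120) (nat_lit 118) (nat_lit 122)) (PT.lf (nat_lit 3724) (nat_lit 3) (nat_lit 49) (nat_lit 1) (nat_lit 121) (nat_lit 118) (nat_lit 121)))) (PT.nd (nat_lit 156) (PT.nd (nat_lit 78) (PT.lf (nat_lit 3648) (nat_lit 6) (nat_lit 48) (nat_lit 1) (nat_lit 122) (nat_lit 118) (nat_lit 120)) (PT.lf (nat_lit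 3344) (nat_lit 6) (nat_lit 44) (nat_lit 1) (nat_lit 123) (nat_lit 118) (nat_lit 119))) (PT.nd (nat_lit 78) (PT.lf (nat_lit 2964) (nat_lit 3) (nat_lit 39) (nat_lit 0) (nat_lit 124) (nat_lit 118) (nat_lit 118)) (PT.lf (nat_lit 2584) (nat_lit 6) (nat_lit 34) (nat_lit 0) (nat_lit 125) (nat_lit 118) (nat_lit 117))))) (PT.nd (nat_lit 36894) (PT.nd (nat_lit 36738) (PT.nd (nat_lit 36660) (PT.lf (nat_lit 2128) (nat_lit 6) (nat_lit 28) (nat_lit 0) (nat_lit 126) (nat_lit 118) (nat_lit 116)) (PT.lf (nat_lit 2204) (nat_lit 6) (nat_lit 29) (nat_lit 5) (nat_lit 115) (nat_lit 119) (nat_lit 126))) (PT.nd (nat_lit 78) (PT.lf (nat_lit 2660) (nat_lit 6) (nat_lit 35) (nat_lit 5) (nat_lit 116) (nat_lit 119) (nat_lit 125)) (PT.lf (nat_lit 3040) (nat_lit 6) (nat_lit 40) (nat_lit 5) (nat_lit 117) (nat_lit 119) (nat_lit 124)))) (PT.nd (nat_lit 156) (PT.nd (nat_lit 78) (PT.lf (nat_lit 3344) (nat_lit 6) (nat_lit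 44) (nat_lit 5) (nat_lit 118) (nat_lit 119) (nat_lit 123)) (PT.lf (nat_lit 3572) (nat_lit 3) (nat_lit 47) (nat_lit 3) (nat_lit 119) (nat_lit 119) (nat_lit 122))) (PT.nd (nat_lit 78) (PT.lf (nat_lit 3800) (nat_lit 6) (nat_lit 50) (nat_lit 3) (nat_lit 120) (nat_lit 119) (nat_lit 121)) (PT.nd (nat_lit 78) (PT.lf (nat_lit 3800) (nat_lit 6) (nat_lit 50) (nat_lit 1) (nat_lit 121) (nat_lit 119) (nat_lit 120)) (PT.lf (nat_lit 3572) (nat_lit 3) (nat_lit 47) (nat_lit 0) (nat_lit 122) (nat_lit 119) (nat_lit 119))))))))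
noncomputable def pc3 : PT := (PT.nd (nat_lit 37752) (PT.nd (nat_lit 37128) (PT.nd (nat_lit 36816) (PT.nd (nat_lit 156) (PT.nd (nat_lit 78) (PT.lf (nat_lit 3344) (nat_lit 6) (nat_lit 44) (nat_lit 0) (nat_lit 123) (nat_lit 119) (nat_lit 118)) (PT.lf (nat_lit 3040) (nat_lit 6) (nat_lit 40) (nat_lit 0) (nat_lit 124) (nat_lit 119) (nat_lit 117))) (PT.nd (nat_lit 78) (PT.lf (nat_lit 2660) (nat_lit 6) (nat_lit 35) (nat_lit 0) (nat_lit 125) (nat_lit 119) (nat_lit 116)) (PT.lf (nat_lit 2204) (nat_lit 6) (nat_lit 29) (nat_lit 0) (nat_lit 126) (nat_lit 119) (nat_lit 115)))) (PT.nd (nat_lit 156) (PT.nd (nat_lit 78) (PT.lf (nat_lit 2280) (nat_lit 6) (nat_lit 30) (nat_lit 5) (nat_lit 114) (nat_lit 120) (nat_lit 126)) (PT.lf (nat_lit 2736) (nat_lit 6) (nat_lit 36) (nat_lit 5) (nat_lit 115) (nat_lit 120) (nat_lit 125))) (PT.nd (nat_lit 78) (PT.lf (nat_lit 3116) (nat_lit 6) (nat_lit 41) (nat_lit 5)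 (nat_lit 116) (nat_lit 120) (nat_lit 124)) (PT.lf (nat_lit 3420) (nat_lit 6) (nat_lit 45) (nat_lit 5) (nat_lit 117) (nat_lit 120) (nat_lit 123))))) (PT.nd (nat_lit 312) (PT.nd (nat_lit 156) (PT.nd (nat_lit 78) (PT.lf (nat_lit 3648) (nat_lit 6) (nat_lit 48) (nat_lit 5) (nat_lit 118) (nat_lit 120) (nat_lit 122)) (PT.lf (nat_lit 3800) (nat_lit 6) (nat_lit 50) (nat_lit 5) (nat_lit 119) (nat_lit 120) (nat_lit 121))) (PT.nd (nat_lit 78) (PT.lf (nat_lit 3876) (nat_lit 1) (nat_lit 51) (nat_lit 0) (nat_lit 120) (nat_lit 120) (nat_lit 120)) (PT.lf (nat_lit 3800) (nat_lit 6) (nat_lit 50) (nat_lit 0) (nat_lit 121) (nat_lit 120) (nat_lit 119)))) (PT.nd (nat_lit 156) (PT.nd (nat_lit 78) (PT.lf (nat_lit 3648) (nat_lit 6) (nat_lit 48) (nat_lit 0) (nat_lit 122) (nat_lit 120) (nat_lit 118)) (PT.lf (nat_lit 3420) (nat_lit 6) (nat_lit 45) (nat_lit 0) (nat_lit 123) (nat_lit 120) (nat_lit 117))) (PT.nd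 (nat_lit 78) (PT.lf (nat_lit 3116) (nat_lit 6) (nat_lit 41) (nat_lit 0) (nat_lit 124) (nat_lit 120) (nat_lit 116)) (PT.lf (nat_lit 2736) (nat_lit 6) (nat_lit 36) (nat_lit 0) (nat_lit 125) (nat_lit 120) (nat_lit 115)))))) (PT.nd (nat_lit 37050) (PT.nd (nat_lit 36738) (PT.nd (nat_lit 36582) (PT.nd (nat_lit 36504) (PT.lf (nat_lit 2280) (nat_lit 6) (nat_lit 30) (nat_lit 0) (nat_lit 126) (nat_lit 120) (nat_lit 114)) (PT.lf (nat_lit 1824) (nat_lit 6) (nat_lit 24) (nat_lit 5) (nat_lit 113) (nat_lit 121) (nat_lit 126))) (PT.nd (nat_lit 78) (PT.lf (nat_lit 2356) (nat_lit 6) (nat_lit 31) (nat_lit 5) (nat_lit 114) (nat_lit 121) (nat_lit 125)) (PT.lf (nat_lit 2812) (nat_lit 6) (nat_lit 37) (nat_lit 5) (nat_lit 115) (nat_lit 121) (nat_lit 124)))) (PT.nd (nat_lit 156) (PT.nd (nat_lit 78) (PT.lf (nat_lit 3192) (nat_lit 6) (nat_lit 42) (nat_lit 5) (nat_lit 116) (nat_lit 121) (nat_lit 123)) (PT.lf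 (nat_lit 3496) (nat_lit 6) (nat_lit 46) (nat_lit 5) (nat_lit 117) (nat_lit 121) (nat_lit 122))) (PT.nd (nat_lit 78) (PT.lf (nat_lit 3724) (nat_lit 3) (nat_lit 49) (nat_lit 4) (nat_lit 118) (nat_lit 121) (nat_lit 121)) (PT.lf (nat_lit 3800) (nat_lit 6) (nat_lit 50) (nat_lit 4) (nat_lit 119) (nat_lit 121) (nat_lit 120))))) (PT.nd (nat_lit 312) (PT.nd (nat_lit 156) (PT.nd (nat_lit 78) (PT.lf (nat_lit 3800) (nat_lit 6) (nat_lit 50) (nat_lit 2) (nat_lit 120) (nat_lit 121) (nat_lit 119)) (PT.lf (nat_lit 3724) (nat_lit 3) (nat_lit 49) (nat_lit 0) (nat_lit 121) (nat_lit 121) (nat_lit 118))) (PT.nd (nat_lit 78) (PT.lf (nat_lit 3496) (nat_lit 6) (nat_lit 46) (nat_lit 0) (nat_lit 122) (nat_lit 121) (nat_lit 117)) (PT.lf (nat_lit 3192) (nat_lit 6) (nat_lit 42) (nat_lit 0) (nat_lit 123) (nat_lit 121) (nat_lit 116)))) (PT.nd (nat_lit 156) (PT.nd (nat_lit 78) (PT.lf (nat_lit 2812) (nat_lit 6) (nat_lit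 37) (nat_lit 0) (nat_lit 124) (nat_lit 121) (nat_lit 115)) (PT.lf (nat_lit 2356) (nat_lit 6) (nat_lit 31) (nat_lit 0) (nat_lit 125) (nat_lit 121) (nat_lit 114))) (PT.nd (nat_lit 36426) (PT.lf (nat_lit 1824) (nat_lit 6) (nat_lit 24) (nat_lit 0) (nat_lit 126) (nat_lit 121) (nat_lit 113)) (PT.nd (nat_lit 78) (PT.lf (nat_lit 1596) (nat_lit 6) (nat_lit 21) (nat_lit 5) (nat_lit 112) (nat_lit 122) (nat_lit 126)) (PT.lf (nat_lit 1900) (nat_lit 6) (nat_lit 25) (nat_lit 5) (nat_lit 113) (nat_lit 122) (nat_lit 125))))))))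
noncomputable def pc4 : PT := (PT.nd (nat_lit 37440) (PT.nd (nat_lit 624) (PT.nd (nat_lit 312) (PT.nd (nat_lit 156) (PT.nd (nat_lit 78) (PT.lf (nat_lit 2432) (nat_lit 6) (nat_lit 32) (nat_lit 5) (nat_lit 114) (nat_lit 122) (nat_lit 124)) (PT.lf (nat_lit 2888) (nat_lit 6) (nat_lit 38) (nat_lit 5) (nat_lit 115) (nat_lit 122) (nat_lit 123))) (PT.nd (nat_lit 78) (PT.lf (nat_lit 3268) (nat_lit 3) (nat_lit 43) (nat_lit 4) (nat_lit 116) (nat_lit 122) (nat_lit 122)) (PT.lf (nat_lit 3496) (nat_lit 6) (nat_lit 46) (nat_lit 4) (nat_lit 117) (nat_lit 122) (nat_lit 121)))) (PT.nd (nat_lit 156) (PT.nd (nat_lit 78) (PT.lf (nat_lit 3648) (nat_lit 6) (nat_lit 48) (nat_lit 4) (nat_lit 118) (nat_lit 122) (nat_lit 120)) (PT.lf (nat_lit 3572) (nat_lit 3) (nat_lit 47) (nat_lit 2) (nat_lit 119) (nat_lit 122) (nat_lit 119))) (PT.nd (nat_lit 78) (PT.lf (nat_lit 3648) (nat_lit 6) (nat_lit 48) (nat_lit 2) (nat_lit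 120) (nat_lit 122) (nat_lit 118)) (PT.lf (nat_lit 3496) (nat_lit 6) (nat_lit 46) (nat_lit 2) (nat_lit 121) (nat_lit 122) (nat_lit 117))))) (PT.nd (nat_lit 312) (PT.nd (nat_lit 156) (PT.nd (nat_lit 78) (PT.lf (nat_lit 3268) (nat_lit 3) (nat_lit 43) (nat_lit 0) (nat_lit 122) (nat_lit 122) (nat_lit 116)) (PT.lf (nat_lit 2888) (nat_lit 6) (nat_lit 38) (nat_lit 0) (nat_lit 123) (nat_lit 122) (nat_lit 115))) (PT.nd (nat_lit 78) (PT.lf (nat_lit 2432) (nat_lit 6) (nat_lit 32) (nat_lit 0) (nat_lit 124) (nat_lit 122) (nat_lit 114)) (PT.lf (nat_lit 1900) (nat_lit 6) (nat_lit 25) (nat_lit 0) (nat_lit 125) (nat_lit 122) (nat_lit 113)))) (PT.nd (nat_lit 36348) (PT.nd (nat_lit 36270) (PT.lf (nat_lit 1596) (nat_lit 6) (nat_lit 21) (nat_lit 0) (nat_lit 126) (nat_lit 122) (nat_lit 112)) (PT.lf (nat_lit 1216) (nat_lit 6) (nat_lit 16) (nat_lit 5) (nat_lit 110) (nat_lit 123) (nat_lit 127))) (PT.nd (nat_lit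 78) (PT.lf (nat_lit 1444) (nat_lit 6) (nat_lit 19) (nat_lit 5) (nat_lit 111) (nat_lit 123) (nat_lit 126)) (PT.lf (nat_lit 1672) (nat_lit 6) (nat_lit 22) (nat_lit 5) (nat_lit 112) (nat_lit 123) (nat_lit 125)))))) (PT.nd (nat_lit 624) (PT.nd (nat_lit 312) (PT.nd (nat_lit 156) (PT.nd (nat_lit 78) (PT.lf (nat_lit 1976) (nat_lit 6) (nat_lit 26) (nat_lit 5) (nat_lit 113) (nat_lit 123) (nat_lit 124)) (PT.lf (nat_lit 2508) (nat_lit 3) (nat_lit 33) (nat_lit 4) (nat_lit 114) (nat_lit 123) (nat_lit 123))) (PT.nd (nat_lit 78) (PT.lf (nat_lit 2888) (nat_lit 6) (nat_lit 38) (nat_lit 4) (nat_lit 115) (nat_lit 123) (nat_lit 122)) (PT.lf (nat_lit 3192) (nat_lit 6) (nat_lit 42) (nat_lit 4) (nat_lit 116) (nat_lit 123) (nat_lit 121)))) (PT.nd (nat_lit 156) (PT.nd (nat_lit 78) (PT.lf (nat_lit 3420) (nat_lit 6) (nat_lit 45) (nat_lit 4) (nat_lit 117) (nat_lit 123) (nat_lit 120)) (PT.lf (nat_lit 3344) (nat_lit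 6) (nat_lit 44) (nat_lit 4) (nat_lit 118) (nat_lit 123) (nat_lit 119))) (PT.nd (nat_lit 78) (PT.lf (nat_lit 3344) (nat_lit 6) (nat_lit 44) (nat_lit 2) (nat_lit 119) (nat_lit 123) (nat_lit 118)) (PT.lf (nat_lit 3420) (nat_lit 6) (nat_lit 45) (nat_lit 2) (nat_lit 120) (nat_lit 123) (nat_lit 117))))) (PT.nd (nat_lit 312) (PT.nd (nat_lit 156) (PT.nd (nat_lit 78) (PT.lf (nat_lit 3192) (nat_lit 6) (nat_lit 42) (nat_lit 2) (nat_lit 121) (nat_lit 123) (nat_lit 116)) (PT.lf (nat_lit 2888) (nat_lit 6) (nat_lit 38) (nat_lit 2) (nat_lit 122) (nat_lit 123) (nat_lit 115))) (PT.nd (nat_lit 78) (PT.lf (nat_lit 2508) (nat_lit 3) (nat_lit 33) (nat_lit 0) (nat_lit 123) (nat_lit 123) (nat_lit 114)) (PT.lf (nat_lit 1976) (nat_lit 6) (nat_lit 26) (nat_lit 0) (nat_lit 124) (nat_lit 123) (nat_lit 113)))) (PT.nd (nat_lit 156) (PT.nd (nat_lit 78) (PT.lf (nat_lit 1672) (nat_lit 6) (nat_lit 22) (nat_lit 0) (nat_lit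 125) (nat_lit 123) (nat_lit 112)) (PT.lf (nat_lit 1444) (nat_lit 6) (nat_lit 19) (nat_lit 0) (nat_lit 126) (nat_lit 123) (nat_lit 111))) (PT.nd (nat_lit 36114) (PT.lf (nat_lit 1216) (nat_lit 6) (nat_lit 16) (nat_lit 0) (nat_lit 127) (nat_lit 123) (nat_lit 110)) (PT.nd (nat_lit 78) (PT.lf (nat_lit 1064) (nat_lit 6) (nat_lit 14) (nat_lit 5) (nat_lit 109) (nat_lit 124) (nat_lit 127)) (PT.lf (nat_lit 1292) (nat_lit 6) (nat_lit 17) (nat_lit 5) (nat_lit 110) (nat_lit 124) (nat_lit 126))))))))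
noncomputable def pc5 : PT := (PT.nd (nat_lit 1248) (PT.nd (nat_lit 624) (PT.nd (nat_lit 312) (PT.nd (nat_lit 156) (PT.nd (nat_lit 78) (PT.lf (nat_lit 1520) (nat_lit 6) (nat_lit 20) (nat_lit 5) (nat_lit 111) (nat_lit 124) (nat_lit 125)) (PT.lf (nat_lit 1748) (nat_lit 3) (nat_lit 23) (nat_lit 4) (nat_lit 112) (nat_lit 124) (nat_lit 124))) (PT.nd (nat_lit 78) (PT.lf (nat_lit 1976) (nat_lit 6) (nat_lit 26) (nat_lit 4) (nat_lit 113) (nat_lit 124) (nat_lit 123)) (PT.lf (nat_lit 2432) (nat_lit 6) (nat_lit 32) (nat_lit 4) (nat_lit 114) (nat_lit 124) (nat_lit 122)))) (PT.nd (nat_lit 156) (PT.nd (nat_lit 78) (PT.lf (nat_lit 2812) (nat_lit 6) (nat_lit 37) (nat_lit 4) (nat_lit 115) (nat_lit 124) (nat_lit 121)) (PT.lf (nat_lit 3116) (nat_lit 6) (nat_lit 41) (nat_lit 4) (nat_lit 116) (nat_lit 124) (nat_lit 120))) (PT.nd (nat_lit 78) (PT.lf (nat_lit 3040) (nat_lit 6) (nat_lit 40) (nat_lit 4) (nat_lit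 117) (nat_lit 124) (nat_lit 119)) (PT.lf (nat_lit 2964) (nat_lit 3) (nat_lit 39) (nat_lit 2) (nat_lit 118) (nat_lit 124) (nat_lit 118))))) (PT.nd (nat_lit 312) (PT.nd (nat_lit 156) (PT.nd (nat_lit 78) (PT.lf (nat_lit 3040) (nat_lit 6) (nat_lit 40) (nat_lit 2) (nat_lit 119) (nat_lit 124) (nat_lit 117)) (PT.lf (nat_lit 3116) (nat_lit 6) (nat_lit 41) (nat_lit 2) (nat_lit 120) (nat_lit 124) (nat_lit 116))) (PT.nd (nat_lit 78) (PT.lf (nat_lit 2812) (nat_lit 6) (nat_lit 37) (nat_lit 2) (nat_lit 121) (nat_lit 124) (nat_lit 115)) (PT.lf (nat_lit 2432) (nat_lit 6) (nat_lit 32) (nat_lit 2) (nat_lit 122) (nat_lit 124) (nat_lit 114)))) (PT.nd (nat_lit 156) (PT.nd (nat_lit 78) (PT.lf (nat_lit 1976) (nat_lit 6) (nat_lit 26) (nat_lit 2) (nat_lit 123) (nat_lit 124) (nat_lit 113)) (PT.lf (nat_lit 1748) (nat_lit 3) (nat_lit 23) (nat_lit 0) (nat_lit 124) (nat_lit 124) (nat_lit 112))) (PT.nd (nat_lit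 78) (PT.lf (nat_lit 1520) (nat_lit 6) (nat_lit 20) (nat_lit 0) (nat_lit 125) (nat_lit 124) (nat_lit 111)) (PT.lf (nat_lit 1292) (nat_lit 6) (nat_lit 17) (nat_lit 0) (nat_lit 126) (nat_lit 124) (nat_lit 110)))))) (PT.nd (nat_lit 36504) (PT.nd (nat_lit 36192) (PT.nd (nat_lit 36036) (PT.nd (nat_lit 35958) (PT.lf (nat_lit 1064) (nat_lit 6) (nat_lit 14) (nat_lit 0) (nat_lit 127) (nat_lit 124) (nat_lit 109)) (PT.lf (nat_lit 760) (nat_lit 6) (nat_lit 10) (nat_lit 5) (nat_lit 107) (nat_lit 125) (nat_lit 128))) (PT.nd (nat_lit 78) (PT.lf (nat_lit 912) (nat_lit 6) (nat_lit 12) (nat_lit 5) (nat_lit 108) (nat_lit 125) (nat_lit 127)) (PT.lf (nat_lit 1140) (nat_lit 6) (nat_lit 15) (nat_lit 5) (nat_lit 109) (nat_lit 125) (nat_lit 126)))) (PT.nd (nat_lit 156) (PT.nd (nat_lit 78) (PT.lf (nat_lit 1368) (nat_lit 3) (nat_lit 18) (nat_lit 4) (nat_lit 110) (nat_lit 125) (nat_lit 125)) (PT.lf (nat_lit 1520)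 (nat_lit 6) (nat_lit 20) (nat_lit 4) (nat_lit 111) (nat_lit 125) (nat_lit 124))) (PT.nd (nat_lit 78) (PT.lf (nat_lit 1672) (nat_lit 6) (nat_lit 22) (nat_lit 4) (nat_lit 112) (nat_lit 125) (nat_lit 123)) (PT.lf (nat_lit 1900) (nat_lit 6) (nat_lit 25) (nat_lit 4) (nat_lit 113) (nat_lit 125) (nat_lit 122))))) (PT.nd (nat_lit 312) (PT.nd (nat_lit 156) (PT.nd (nat_lit 78) (PT.lf (nat_lit 2356) (nat_lit 6) (nat_lit 31) (nat_lit 4) (nat_lit 114) (nat_lit 125) (nat_lit 121)) (PT.lf (nat_lit 2736) (nat_lit 6) (nat_lit 36) (nat_lit 4) (nat_lit 115) (nat_lit 125) (nat_lit 120))) (PT.nd (nat_lit 78) (PT.lf (nat_lit 2660) (nat_lit 6) (nat_lit 35) (nat_lit 4) (nat_lit 116) (nat_lit 125) (nat_lit 119)) (PT.lf (nat_lit 2584) (nat_lit 6) (nat_lit 34) (nat_lit 4) (nat_lit 117) (nat_lit 125) (nat_lit 118)))) (PT.nd (nat_lit 156) (PT.nd (nat_lit 78) (PT.lf (nat_lit 2584) (nat_lit 6) (nat_lit 34) (nat_lit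 2) (nat_lit 118) (nat_lit 125) (nat_lit 117)) (PT.lf (nat_lit 2660) (nat_lit 6) (nat_lit 35) (nat_lit 2) (nat_lit 119) (nat_lit 125) (nat_lit 116))) (PT.nd (nat_lit 78) (PT.lf (nat_lit 2736) (nat_lit 6) (nat_lit 36) (nat_lit 2) (nat_lit 120) (nat_lit 125) (nat_lit 115)) (PT.nd (nat_lit 78) (PT.lf (nat_lit 2356) (nat_lit 6) (nat_lit 31) (nat_lit 2) (nat_lit 121) (nat_lit 125) (nat_lit 114)) (PT.lf (nat_lit 1900) (nat_lit 6) (nat_lit 25) (nat_lit 2) (nat_lit 122) (nat_lit 125) (nat_lit 113))))))))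
noncomputable def pc6 : PT := (PT.nd (nat_lit 36972) (PT.nd (nat_lit 36348) (PT.nd (nat_lit 312) (PT.nd (nat_lit 156) (PT.nd (nat_lit 78) (PT.lf (nat_lit 1672) (nat_lit 6) (nat_lit 22) (nat_lit 2) (nat_lit 123) (nat_lit 125) (nat_lit 112)) (PT.lf (nat_lit 1520) (nat_lit 6) (nat_lit 20) (nat_lit 2) (nat_lit 124) (nat_lit 125) (nat_lit 111))) (PT.nd (nat_lit 78) (PT.lf (nat_lit 1368) (nat_lit 3) (nat_lit 18) (nat_lit 0) (nat_lit 125) (nat_lit 125) (nat_lit 110)) (PT.lf (nat_lit 1140) (nat_lit 6) (nat_lit 15) (nat_lit 0) (nat_lit 126) (nat_lit 125) (nat_lit 109)))) (PT.nd (nat_lit 35880) (PT.nd (nat_lit 78) (PT.lf (nat_lit 912) (nat_lit 6) (nat_lit 12) (nat_lit 0) (nat_lit 127) (nat_lit 125) (nat_lit 108)) (PT.lf (nat_lit 760) (nat_lit 6) (nat_lit 10) (nat_lit 0) (nat_lit 128) (nat_lit 125) (nat_lit 107))) (PT.nd (nat_lit 78) (PT.lf (nat_lit 608) (nat_lit 6) (nat_lit 8) (nat_lit 5) (nat_lit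 106) (nat_lit 126) (nat_lit 128)) (PT.lf (nat_lit 836) (nat_lit 6) (nat_lit 11) (nat_lit 5) (nat_lit 107) (nat_lit 126) (nat_lit 127))))) (PT.nd (nat_lit 312) (PT.nd (nat_lit 156) (PT.nd (nat_lit 78) (PT.lf (nat_lit 988) (nat_lit 3) (nat_lit 13) (nat_lit 4) (nat_lit 108) (nat_lit 126) (nat_lit 126)) (PT.lf (nat_lit 1140) (nat_lit 6) (nat_lit 15) (nat_lit 4) (nat_lit 109) (nat_lit 126) (nat_lit 125))) (PT.nd (nat_lit 78) (PT.lf (nat_lit 1292) (nat_lit 6) (nat_lit 17) (nat_lit 4) (nat_lit 110) (nat_lit 126) (nat_lit 124)) (PT.lf (nat_lit 1444) (nat_lit 6) (nat_lit 19) (nat_lit 4) (nat_lit 111) (nat_lit 126) (nat_lit 123)))) (PT.nd (nat_lit 156) (PT.nd (nat_lit 78) (PT.lf (nat_lit 1596) (nat_lit 6) (nat_lit 21) (nat_lit 4) (nat_lit 112) (nat_lit 126) (nat_lit 122)) (PT.lf (nat_lit 1824) (nat_lit 6) (nat_lit 24) (nat_lit 4) (nat_lit 113) (nat_lit 126) (nat_lit 121))) (PT.nd (nat_lit 78)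 (PT.lf (nat_lit 2280) (nat_lit 6) (nat_lit 30) (nat_lit 4) (nat_lit 114) (nat_lit 126) (nat_lit 120)) (PT.lf (nat_lit 2204) (nat_lit 6) (nat_lit 29) (nat_lit 4) (nat_lit 115) (nat_lit 126) (nat_lit 119)))))) (PT.nd (nat_lit 624) (PT.nd (nat_lit 312) (PT.nd (nat_lit 156) (PT.nd (nat_lit 78) (PT.lf (nat_lit 2128) (nat_lit 6) (nat_lit 28) (nat_lit 4) (nat_lit 116) (nat_lit 126) (nat_lit 118)) (PT.lf (nat_lit 2052) (nat_lit 3) (nat_lit 27) (nat_lit 2) (nat_lit 117) (nat_lit 126) (nat_lit 117))) (PT.nd (nat_lit 78) (PT.lf (nat_lit 2128) (nat_lit 6) (nat_lit 28) (nat_lit 2) (nat_lit 118) (nat_lit 126) (nat_lit 116)) (PT.lf (nat_lit 2204) (nat_lit 6) (nat_lit 29) (nat_lit 2) (nat_lit 119) (nat_lit 126) (nat_lit 115)))) (PT.nd (nat_lit 156) (PT.nd (nat_lit 78) (PT.lf (nat_lit 2280) (nat_lit 6) (nat_lit 30) (nat_lit 2) (nat_lit 120) (nat_lit 126) (nat_lit 114)) (PT.lf (nat_lit 1824) (nat_lit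 6) (nat_lit 24) (nat_lit 2) (nat_lit 121) (nat_lit 126) (nat_lit 113))) (PT.nd (nat_lit 78) (PT.lf (nat_lit 1596) (nat_lit 6) (nat_lit 21) (nat_lit 2) (nat_lit 122) (nat_lit 126) (nat_lit 112)) (PT.lf (nat_lit 1444) (nat_lit 6) (nat_lit 19) (nat_lit 2) (nat_lit 123) (nat_lit 126) (nat_lit 111))))) (PT.nd (nat_lit 312) (PT.nd (nat_lit 156) (PT.nd (nat_lit 78) (PT.lf (nat_lit 1292) (nat_lit 6) (nat_lit 17) (nat_lit 2) (nat_lit 124) (nat_lit 126) (nat_lit 110)) (PT.lf (nat_lit 1140) (nat_lit 6) (nat_lit 15) (nat_lit 2) (nat_lit 125) (nat_lit 126) (nat_lit 109))) (PT.nd (nat_lit 78) (PT.lf (nat_lit 988) (nat_lit 3) (nat_lit 13) (nat_lit 0) (nat_lit 126) (nat_lit 126) (nat_lit 108)) (PT.lf (nat_lit 836) (nat_lit 6) (nat_lit 11) (nat_lit 0) (nat_lit 127) (nat_lit 126) (nat_lit 107)))) (PT.nd (nat_lit 35724) (PT.nd (nat_lit 35646) (PT.lf (nat_lit 608) (nat_lit 6) (nat_lit 8) (nat_lit 0) (nat_lit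 128) (nat_lit 126) (nat_lit 106)) (PT.lf (nat_lit 380) (nat_lit 6) (nat_lit 5) (nat_lit 5) (nat_lit 104) (nat_lit 127) (nat_lit 129))) (PT.nd (nat_lit 78) (PT.lf (nat_lit 532) (nat_lit 6) (nat_lit 7) (nat_lit 5) (nat_lit 105) (nat_lit 127) (nat_lit 128)) (PT.nd (nat_lit 78) (PT.lf (nat_lit 684) (nat_lit 3) (nat_lit 9) (nat_lit 4) (nat_lit 106) (nat_lit 127) (nat_lit 127)) (PT.lf (nat_lit 836) (nat_lit 6) (nat_lit 11) (nat_lit 4) (nat_lit 107) (nat_lit 127) (nat_lit 126))))))))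
noncomputable def pc7 : PT := (PT.nd (nat_lit 38922) (PT.nd (nat_lit 1560) (PT.nd (nat_lit 1248) (PT.nd (nat_lit 156) (PT.nd (nat_lit 78) (PT.lf (nat_lit 912) (nat_lit 6) (nat_lit 12) (nat_lit 4) (nat_lit 108) (nat_lit 127) (nat_lit 125)) (PT.lf (nat_lit 1064) (nat_lit 6) (nat_lit 14) (nat_lit 4) (nat_lit 109) (nat_lit 127) (nat_lit 124))) (PT.nd (nat_lit 1014) (PT.lf (nat_lit 1216) (nat_lit 6) (nat_lit 16) (nat_lit 4) (nat_lit 110) (nat_lit 127) (nat_lit 123)) (PT.lf (nat_lit 1216) (nat_lit 6) (nat_lit 16) (nat_lit 2) (nat_lit 123) (nat_lit 127) (nat_lit 110)))) (PT.nd (nat_lit 156) (PT.nd (nat_lit 78) (PT.lf (nat_lit 1064) (nat_lit 6) (nat_lit 14) (nat_lit 2) (nat_lit 124) (nat_lit 127) (nat_lit 109)) (PT.lf (nat_lit 912) (nat_lit 6) (nat_lit 12) (nat_lit 2) (nat_lit 125) (nat_lit 127) (nat_lit 108))) (PT.nd (nat_lit 78) (PT.lf (nat_lit 836) (nat_lit 6) (nat_lit 11) (nat_lit 2) (nat_lit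 126) (nat_lit 127) (nat_lit 107)) (PT.lf (nat_lit 684) (nat_lit 3) (nat_lit 9) (nat_lit 0) (nat_lit 127) (nat_lit 127) (nat_lit 106))))) (PT.nd (nat_lit 35646) (PT.nd (nat_lit 35490) (PT.nd (nat_lit 78) (PT.lf (nat_lit 532) (nat_lit 6) (nat_lit 7) (nat_lit 0) (nat_lit 128) (nat_lit 127) (nat_lit 105)) (PT.lf (nat_lit 380) (nat_lit 6) (nat_lit 5) (nat_lit 0) (nat_lit 129) (nat_lit 127) (nat_lit 104))) (PT.nd (nat_lit 78) (PT.lf (nat_lit 152) (nat_lit 6) (nat_lit 2) (nat_lit 5) (nat_lit 102) (nat_lit 128) (nat_lit 130)) (PT.lf (nat_lit 304) (nat_lit 6) (nat_lit 4) (nat_lit 5) (nat_lit 103) (nat_lit 128) (nat_lit 129)))) (PT.nd (nat_lit 156) (PT.nd (nat_lit 78) (PT.lf (nat_lit 456) (nat_lit 3) (nat_lit 6) (nat_lit 4) (nat_lit 104) (nat_lit 128) (nat_lit 128)) (PT.lf (nat_lit 532) (nat_lit 6) (nat_lit 7) (nat_lit 4) (nat_lit 105) (nat_lit 128) (nat_lit 127))) (PT.nd (nat_lit 78) (PT.lf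 (nat_lit 608) (nat_lit 6) (nat_lit 8) (nat_lit 4) (nat_lit 106) (nat_lit 128) (nat_lit 126)) (PT.nd (nat_lit 1404) (PT.lf (nat_lit 760) (nat_lit 6) (nat_lit 10) (nat_lit 4) (nat_lit 107) (nat_lit 128) (nat_lit 125)) (PT.lf (nat_lit 760) (nat_lit 6) (nat_lit 10) (nat_lit 2) (nat_lit 125) (nat_lit 128) (nat_lit 107))))))) (PT.nd (nat_lit 35802) (PT.nd (nat_lit 312) (PT.nd (nat_lit 156) (PT.nd (nat_lit 78) (PT.lf (nat_lit 608) (nat_lit 6) (nat_lit 8) (nat_lit 2) (nat_lit 126) (nat_lit 128) (nat_lit 106)) (PT.lf (nat_lit 532) (nat_lit 6) (nat_lit 7) (nat_lit 2) (nat_lit 127) (nat_lit 128) (nat_lit 105))) (PT.nd (nat_lit 78) (PT.lf (nat_lit 456) (nat_lit 3) (nat_lit 6) (nat_lit 0) (nat_lit 128) (nat_lit 128) (nat_lit 104)) (PT.lf (nat_lit 304) (nat_lit 6) (nat_lit 4) (nat_lit 0) (nat_lit 129) (nat_lit 128) (nat_lit 103)))) (PT.nd (nat_lit 35334) (PT.nd (nat_lit 35256) (PT.lf (nat_lit 152)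 (nat_lit 6) (nat_lit 2) (nat_lit 0) (nat_lit 130) (nat_lit 128) (nat_lit 102)) (PT.lf (nat_lit 76) (nat_lit 6) (nat_lit 1) (nat_lit 5) (nat_lit 101) (nat_lit 129) (nat_lit 130))) (PT.nd (nat_lit 78) (PT.lf (nat_lit 228) (nat_lit 3) (nat_lit 3) (nat_lit 4) (nat_lit 102) (nat_lit 129) (nat_lit 129)) (PT.lf (nat_lit 304) (nat_lit 6) (nat_lit 4) (nat_lit 4) (nat_lit 103) (nat_lit 129) (nat_lit 128))))) (PT.nd (nat_lit 2028) (PT.nd (nat_lit 1872) (PT.nd (nat_lit 1794) (PT.lf (nat_lit 380) (nat_lit 6) (nat_lit 5) (nat_lit 4) (nat_lit 104) (nat_lit 129) (nat_lit 127)) (PT.lf (nat_lit 380) (nat_lit 6) (nat_lit 5) (nat_lit 2) (nat_lit 127) (nat_lit 129) (nat_lit 104))) (PT.nd (nat_lit 78) (PT.lf (nat_lit 304) (nat_lit 6) (nat_lit 4) (nat_lit 2) (nat_lit 128) (nat_lit 129) (nat_lit 103)) (PT.lf (nat_lit 228) (nat_lit 3) (nat_lit 3) (nat_lit 0) (nat_lit 129) (nat_lit 129) (nat_lit 102)))) (PT.nd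 (nat_lit 35334) (PT.nd (nat_lit 35256) (PT.lf (nat_lit 76) (nat_lit 6) (nat_lit 1) (nat_lit 0) (nat_lit 130) (nat_lit 129) (nat_lit 101)) (PT.lf (nat_lit 76) (nat_lit 6) (nat_lit 1) (nat_lit 4) (nat_lit 101) (nat_lit 130) (nat_lit 129))) (PT.nd (nat_lit 2028) (PT.lf (nat_lit 152) (nat_lit 6) (nat_lit 2) (nat_lit 4) (nat_lit 102) (nat_lit 130) (nat_lit 128)) (PT.nd (nat_lit 78) (PT.lf (nat_lit 152) (nat_lit 6) (nat_lit 2) (nat_lit 2) (nat_lit 128) (nat_lit 130) (nat_lit 102)) (PT.lf (nat_lit 76) (nat_lit 6) (nat_lit 1) (nat_lit 2) (nat_lit 129) (nat_lit 130) (nat_lit 101))))))))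
noncomputable def xc0 : XT := (XT.nd (nat_lit 149916) (nat_lit 0) (nat_lit 0) (XT.nd (nat_lit 112242) (nat_lit 0) (nat_lit 0) (XT.nd (nat_lit 74802) (nat_lit 0) (nat_lit 0) (XT.nd (nat_lit 37440) (nat_lit 0) (nat_lit 0) (XT.nd (nat_lit 37362) (nat_lit 0) (nat_lit 0) (XT.lf (nat_lit 0) (nat_lit 538974897980) (nat_lit 152) (nat_lit 112214158595) (nat_lit 0) (nat_lit 538974897980) (nat_lit 1) (nat_lit 5) (nat_lit 3) (nat_lit 4) (nat_lit 1) (nat_lit 4) (nat_lit 336) (nat_lit 192) (nat_lit 192)) (XT.lf (nat_lit 0) (nat_lit 461808945776) (nat_lit 152) (nat_lit 96782581260) (nat_lit 0) (nat_lit 461808945776) (nat_lit 1) (nat_lit 5) (nat_lit 3) (nat_lit 4) (nat_lit 1) (nat_lit 4) (nat_lit 334) (nat_lit 193) (nat_lit 193))) (XT.nd (nat_lit 78) (nat_lit 0) (nat_lit 0) (XT.lf (nat_lit 0) (nat_lit 997836556129) (nat_lit 152) (nat_lit 208395243797) (nat_lit 0) (nat_lit 997802893630) (nat_lit 1)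 (nat_lit 5) (nat_lit 3) (nat_lit 4) (nat_lit 1) (nat_lit 4) (nat_lit 335) (nat_lit 193) (nat_lit 192)) (XT.nd (nat_lit 37206) (nat_lit 0) (nat_lit 0) (XT.lf (nat_lit 0) (nat_lit 1077974888634) (nat_lit 152) (nat_lit 224443674240) (nat_lit 0) (nat_lit 1077910057155) (nat_lit 1) (nat_lit 5) (nat_lit 3) (nat_lit 4) (nat_lit 1) (nat_lit 4) (nat_lit 336) (nat_lit 193) (nat_lit 191)) (XT.lf (nat_lit 0) (nat_lit 395629566752) (nat_lit 152) (nat_lit 83598653104) (nat_lit 0) (nat_lit 395629566752) (nat_lit 1) (nat_lit 5) (nat_lit 3) (nat_lit 4) (nat_lit 1) (nat_lit 4) (nat_lit 332) (nat_lit 194) (nat_lit 194))))) (XT.nd (nat_lit 234) (nat_lit 0) (nat_lit 0) (XT.nd (nat_lit 78) (nat_lit 0) (nat_lit 0) (XT.lf (nat_lit 0) (nat_lit 854915436096) (nat_lit 152) (nat_lit 179865548444) (nat_lit 0) (nat_lit 854879080598) (nat_lit 1) (nat_lit 5) (nat_lit 3) (nat_lit 4) (nat_lit 1) (nat_lit 4) (nat_lit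 333) (nat_lit 194) (nat_lit 193)) (XT.nd (nat_lit 78) (nat_lit 0) (nat_lit 0) (XT.lf (nat_lit 0) (nat_lit 923644991640) (nat_lit 152) (nat_lit 193581748133) (nat_lit 0) (nat_lit 923574973643) (nat_lit 1) (nat_lit 5) (nat_lit 3) (nat_lit 4) (nat_lit 1) (nat_lit 4) (nat_lit 334) (nat_lit 194) (nat_lit 192)) (XT.lf (nat_lit 0) (nat_lit 997855086390) (nat_lit 152) (nat_lit 208427186460) (nat_lit 0) (nat_lit 997753899413) (nat_lit 1) (nat_lit 5) (nat_lit 3) (nat_lit 4) (nat_lit 1) (nat_lit 4) (nat_lit 335) (nat_lit 194) (nat_lit 191)))) (XT.nd (nat_lit 37050) (nat_lit 0) (nat_lit 0) (XT.lf (nat_lit 0) (nat_lit 1077985483872) (nat_lit 152) (nat_lit 224489836393) (nat_lit 0) (nat_lit 1077855436728) (nat_lit 1) (nat_lit 5) (nat_lit 3) (nat_lit 4) (nat_lit 1) (nat_lit 4) (nat_lit 336) (nat_lit 194) (nat_lit 190)) (XT.nd (nat_lit 78) (nat_lit 0) (nat_lit 0) (XT.lf (nat_lit 0) (nat_lit 338867642409)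 (nat_lit 152) (nat_lit 72345414817) (nat_lit 0) (nat_lit 338867642409) (nat_lit 1) (nat_lit 5) (nat_lit 3) (nat_lit 4) (nat_lit 1) (nat_lit 4) (nat_lit 330) (nat_lit 195) (nat_lit 195)) (XT.lf (nat_lit 0) (nat_lit 732338125269) (nat_lit 152) (nat_lit 155501950363) (nat_lit 0) (nat_lit 732298861330) (nat_lit 1) (nat_lit 5) (nat_lit 3) (nat_lit 4) (nat_lit 1) (nat_lit 4) (nat_lit 331) (nat_lit 195) (nat_lit 194)))))) (XT.nd (nat_lit 37206) (nat_lit 0) (nat_lit 0) (XT.nd (nat_lit 156) (nat_lit 0) (nat_lit 0) (XT.nd (nat_lit 78) (nat_lit 0) (nat_lit 0) (XT.lf (nat_lit 0) (nat_lit 791288401598) (nat_lit 152) (nat_lit 167215218671) (nat_lit 0) (nat_lit 791212782162) (nat_lit 1) (nat_lit 5) (nat_lit 3) (nat_lit 4) (nat_lit 1) (nat_lit 4) (nat_lit 332) (nat_lit 195) (nat_lit 193)) (XT.lf (nat_lit 0) (nat_lit 854935448779) (nat_lit 152) (nat_lit 179900046519) (nat_lit 0) (nat_lit 854826166844)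 (nat_lit 1) (nat_lit 5) (nat_lit 3) (nat_lit 4) (nat_lit 1) (nat_lit 4) (nat_lit 333) (nat_lit 195) (nat_lit 192))) (XT.nd (nat_lit 78) (nat_lit 0) (nat_lit 0) (XT.lf (nat_lit 0) (nat_lit 923656434497) (nat_lit 152) (nat_lit 193631603258) (nat_lit 0) (nat_lit 923515983582) (nat_lit 1) (nat_lit 5) (nat_lit 3) (nat_lit 4) (nat_lit 1) (nat_lit 4) (nat_lit 334) (nat_lit 195) (nat_lit 191)) (XT.nd (nat_lit 78) (nat_lit 0) (nat_lit 0) (XT.lf (nat_lit 0) (nat_lit 997858594224) (nat_lit 152) (nat_lit 208491261075) (nat_lit 0) (nat_lit 997689283142) (nat_lit 1) (nat_lit 5) (nat_lit 3) (nat_lit 4) (nat_lit 1) (nat_lit 4) (nat_lit 335) (nat_lit 195) (nat_lit 190)) (XT.lf (nat_lit 0) (nat_lit 1077981644462) (nat_lit 152) (nat_lit 224567077202) (nat_lit 0) (nat_lit 1077785611003) (nat_lit 1) (nat_lit 5) (nat_lit 3) (nat_lit 4) (nat_lit 1) (nat_lit 4) (nat_lit 336) (nat_lit 195) (nat_lit 189)))))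 (XT.nd (nat_lit 234) (nat_lit 0) (nat_lit 0) (XT.nd (nat_lit 78) (nat_lit 0) (nat_lit 0) (XT.lf (nat_lit 0) (nat_lit 290177765665) (nat_lit 152) (nat_lit 62751420315) (nat_lit 0) (nat_lit 290177765665) (nat_lit 1) (nat_lit 5) (nat_lit 3) (nat_lit 4) (nat_lit 1) (nat_lit 4) (nat_lit 328) (nat_lit 196) (nat_lit 196)) (XT.nd (nat_lit 78) (nat_lit 0) (nat_lit 0) (XT.lf (nat_lit 0) (nat_lit 627198712914) (nat_lit 152) (nat_lit 134717790586) (nat_lit 0) (nat_lit 627156307861) (nat_lit 1) (nat_lit 5) (nat_lit 3) (nat_lit 4) (nat_lit 1) (nat_lit 4) (nat_lit 329) (nat_lit 196) (nat_lit 195)) (XT.lf (nat_lit 0) (nat_lit 677766894360) (nat_lit 152) (nat_lit 144710175094) (nat_lit 0) (nat_lit 677685225368) (nat_lit 1) (nat_lit 5) (nat_lit 3) (nat_lit 4) (nat_lit 1) (nat_lit 4) (nat_lit 330) (nat_lit 196) (nat_lit 194)))) (XT.nd (nat_lit 78) (nat_lit 0) (nat_lit 0) (XT.lf (nat_lit 0) (nat_lit 732359738966)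 (nat_lit 152) (nat_lit 155539208285) (nat_lit 0) (nat_lit 732241714476) (nat_lit 1) (nat_lit 5) (nat_lit 3) (nat_lit 4) (nat_lit 1) (nat_lit 4) (nat_lit 331) (nat_lit 196) (nat_lit 193)) (XT.nd (nat_lit 78) (nat_lit 0) (nat_lit 0) (XT.lf (nat_lit 0) (nat_lit 791300759884) (nat_lit 152) (nat_lit 167269062206) (nat_lit 0) (nat_lit 791149072896) (nat_lit 1) (nat_lit 5) (nat_lit 3) (nat_lit 4) (nat_lit 1) (nat_lit 4) (nat_lit 332) (nat_lit 196) (nat_lit 192)) (XT.lf (nat_lit 0) (nat_lit 854939237240) (nat_lit 152) (nat_lit 179969247103) (nat_lit 0) (nat_lit 854756381271) (nat_lit 1) (nat_lit 5) (nat_lit 3) (nat_lit 4) (nat_lit 1) (nat_lit 4) (nat_lit 333) (nat_lit 196) (nat_lit 191))))))) (XT.nd (nat_lit 37518) (nat_lit 0) (nat_lit 0) (XT.nd (nat_lit 37050) (nat_lit 0) (nat_lit 0) (XT.nd (nat_lit 156) (nat_lit 0) (nat_lit 0) (XT.nd (nat_lit 78) (nat_lit 0) (nat_lit 0) (XT.lf (nat_lit 0)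 (nat_lit 923652287934) (nat_lit 152) (nat_lit 193715023332) (nat_lit 0) (nat_lit 923440571799) (nat_lit 1) (nat_lit 5) (nat_lit 3) (nat_lit 4) (nat_lit 1) (nat_lit 4) (nat_lit 334) (nat_lit 196) (nat_lit 190)) (XT.lf (nat_lit 0) (nat_lit 997847100417) (nat_lit 152) (nat_lit 208587847344) (nat_lit 0) (nat_lit 997608661905) (nat_lit 1) (nat_lit 5) (nat_lit 3) (nat_lit 4) (nat_lit 1) (nat_lit 4) (nat_lit 335) (nat_lit 196) (nat_lit 189))) (XT.nd (nat_lit 36738) (nat_lit 0) (nat_lit 0) (XT.lf (nat_lit 0) (nat_lit 1077963347651) (nat_lit 152) (nat_lit 224675854392) (nat_lit 0) (nat_lit 1077700166197) (nat_lit 1) (nat_lit 5) (nat_lit 3) (nat_lit 4) (nat_lit 1) (nat_lit 4) (nat_lit 336) (nat_lit 196) (nat_lit 188)) (XT.nd (nat_lit 78) (nat_lit 0) (nat_lit 0) (XT.lf (nat_lit 0) (nat_lit 248406314647) (nat_lit 152) (nat_lit 54584267404) (nat_lit 0) (nat_lit 248406314647) (nat_lit 1) (nat_lit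 5) (nat_lit 3) (nat_lit 4) (nat_lit 1) (nat_lit 4) (nat_lit 326) (nat_lit 197) (nat_lit 197)) (XT.lf (nat_lit 0) (nat_lit 537005557841) (nat_lit 152) (nat_lit 117010718115) (nat_lit 0) (nat_lit 536959760384) (nat_lit 1) (nat_lit 5) (nat_lit 3) (nat_lit 4) (nat_lit 1) (nat_lit 4) (nat_lit 327) (nat_lit 197) (nat_lit 196))))) (XT.nd (nat_lit 234) (nat_lit 0) (nat_lit 0) (XT.nd (nat_lit 78) (nat_lit 0) (nat_lit 0) (XT.lf (nat_lit 0) (nat_lit 580389669635) (nat_lit 152) (nat_lit 125523733726) (nat_lit 0) (nat_lit 580301467124) (nat_lit 1) (nat_lit 5) (nat_lit 3) (nat_lit 4) (nat_lit 1) (nat_lit 4) (nat_lit 328) (nat_lit 197) (nat_lit 195)) (XT.nd (nat_lit 78) (nat_lit 0) (nat_lit 0) (XT.lf (nat_lit 0) (nat_lit 627222055707) (nat_lit 152) (nat_lit 134758029142) (nat_lit 0) (nat_lit 627094589258) (nat_lit 1) (nat_lit 5) (nat_lit 3) (nat_lit 4) (nat_lit 1) (nat_lit 4) (nat_lit 329) (nat_lit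 197) (nat_lit 194)) (XT.lf (nat_lit 0) (nat_lit 677780241309) (nat_lit 152) (nat_lit 144768326112) (nat_lit 0) (nat_lit 677616419361) (nat_lit 1) (nat_lit 5) (nat_lit 3) (nat_lit 4) (nat_lit 1) (nat_lit 4) (nat_lit 330) (nat_lit 197) (nat_lit 193)))) (XT.nd (nat_lit 78) (nat_lit 0) (nat_lit 0) (XT.lf (nat_lit 0) (nat_lit 732363830503) (nat_lit 152) (nat_lit 155613944916) (nat_lit 0) (nat_lit 732166346057) (nat_lit 1) (nat_lit 5) (nat_lit 3) (nat_lit 4) (nat_lit 1) (nat_lit 4) (nat_lit 331) (nat_lit 197) (nat_lit 192)) (XT.nd (nat_lit 78) (nat_lit 0) (nat_lit 0) (XT.lf (nat_lit 0) (nat_lit 791296281596) (nat_lit 152) (nat_lit 167359155886) (nat_lit 0) (nat_lit 791067628170) (nat_lit 1) (nat_lit 5) (nat_lit 3) (nat_lit 4) (nat_lit 1) (nat_lit 4) (nat_lit 332) (nat_lit 197) (nat_lit 191)) (XT.lf (nat_lit 0) (nat_lit 854926823928) (nat_lit 152) (nat_lit 180073560274) (nat_lit 0) (nat_lit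 854669310335) (nat_lit 1) (nat_lit 5) (nat_lit 3) (nat_lit 4) (nat_lit 1) (nat_lit 4) (nat_lit 333) (nat_lit 197) (nat_lit 190)))))) (XT.nd (nat_lit 36972) (nat_lit 0) (nat_lit 0) (XT.nd (nat_lit 36738) (nat_lit 0) (nat_lit 0) (XT.nd (nat_lit 78) (nat_lit 0) (nat_lit 0) (XT.lf (nat_lit 0) (nat_lit 923632527379) (nat_lit 152) (nat_lit 193832502697) (nat_lit 0) (nat_lit 923348291409) (nat_lit 1) (nat_lit 5) (nat_lit 3) (nat_lit 4) (nat_lit 1) (nat_lit 4) (nat_lit 334) (nat_lit 197) (nat_lit 189)) (XT.nd (nat_lit 78) (nat_lit 0) (nat_lit 0) (XT.lf (nat_lit 0) (nat_lit 997820536858) (nat_lit 152) (nat_lit 208717517630) (nat_lit 0) (nat_lit 997511557947) (nat_lit 1) (nat_lit 5) (nat_lit 3) (nat_lit 4) (nat_lit 1) (nat_lit 4) (nat_lit 335) (nat_lit 197) (nat_lit 188)) (XT.lf (nat_lit 0) (nat_lit 1077930485014) (nat_lit 152) (nat_lit 224816812567) (nat_lit 0) (nat_lit 1077598595972) (nat_lit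 1) (nat_lit 5) (nat_lit 3) (nat_lit 4) (nat_lit 1) (nat_lit 4) (nat_lit 336) (nat_lit 197) (nat_lit 187)))) (XT.nd (nat_lit 78) (nat_lit 0) (nat_lit 0) (XT.lf (nat_lit 0) (nat_lit 212564080217) (nat_lit 152) (nat_lit 47645053261) (nat_lit 0) (nat_lit 212564080217) (nat_lit 1) (nat_lit 5) (nat_lit 3) (nat_lit 4) (nat_lit 1) (nat_lit 4) (nat_lit 324) (nat_lit 198) (nat_lit 198)) (XT.nd (nat_lit 78) (nat_lit 0) (nat_lit 0) (XT.lf (nat_lit 0) (nat_lit 459622164930) (nat_lit 152) (nat_lit 101950711608) (nat_lit 0) (nat_lit 459572703675) (nat_lit 1) (nat_lit 5) (nat_lit 3) (nat_lit 4) (nat_lit 1) (nat_lit 4) (nat_lit 325) (nat_lit 198) (nat_lit 197)) (XT.lf (nat_lit 0) (nat_lit 496849498663) (nat_lit 152) (nat_lit 109191099352) (nat_lit 0) (nat_lit 496754239951) (nat_lit 1) (nat_lit 5) (nat_lit 3) (nat_lit 4) (nat_lit 1) (nat_lit 4) (nat_lit 326) (nat_lit 198) (nat_lit 196))))) (XT.nd (nat_lit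 234) (nat_lit 0) (nat_lit 0) (XT.nd (nat_lit 78) (nat_lit 0) (nat_lit 0) (XT.lf (nat_lit 0) (nat_lit 537030768058) (nat_lit 152) (nat_lit 117054175754) (nat_lit 0) (nat_lit 536893104293) (nat_lit 1) (nat_lit 5) (nat_lit 3) (nat_lit 4) (nat_lit 1) (nat_lit 4) (nat_lit 327) (nat_lit 198) (nat_lit 195)) (XT.nd (nat_lit 78) (nat_lit 0) (nat_lit 0) (XT.lf (nat_lit 0) (nat_lit 580404084339) (nat_lit 152) (nat_lit 125586536825) (nat_lit 0) (nat_lit 580227156636) (nat_lit 1) (nat_lit 5) (nat_lit 3) (nat_lit 4) (nat_lit 1) (nat_lit 4) (nat_lit 328) (nat_lit 198) (nat_lit 194)) (XT.lf (nat_lit 0) (nat_lit 627226474567) (nat_lit 152) (nat_lit 134838744703) (nat_lit 0) (nat_lit 627013191365) (nat_lit 1) (nat_lit 5) (nat_lit 3) (nat_lit 4) (nat_lit 1) (nat_lit 4) (nat_lit 329) (nat_lit 198) (nat_lit 193)))) (XT.nd (nat_lit 78) (nat_lit 0) (nat_lit 0) (XT.lf (nat_lit 0) (nat_lit 677775404758) (nat_lit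 152) (nat_lit 144865627287) (nat_lit 0) (nat_lit 677528459057) (nat_lit 1) (nat_lit 5) (nat_lit 3) (nat_lit 4) (nat_lit 1) (nat_lit 4) (nat_lit 330) (nat_lit 198) (nat_lit 192)) (XT.nd (nat_lit 78) (nat_lit 0) (nat_lit 0) (XT.lf (nat_lit 0) (nat_lit 732350424127) (nat_lit 152) (nat_lit 155726603140) (nat_lit 0) (nat_lit 732072309446) (nat_lit 1) (nat_lit 5) (nat_lit 3) (nat_lit 4) (nat_lit 1) (nat_lit 4) (nat_lit 331) (nat_lit 198) (nat_lit 191)) (XT.lf (nat_lit 0) (nat_lit 791274940196) (nat_lit 152) (nat_lit 167486033600) (nat_lit 0) (nat_lit 790967965349) (nat_lit 1) (nat_lit 5) (nat_lit 3) (nat_lit 4) (nat_lit 1) (nat_lit 4) (nat_lit 332) (nat_lit 198) (nat_lit 190))))))))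
noncomputable def xc1 : XT := (XT.nd (nat_lit 74334) (nat_lit 0) (nat_lit 0) (XT.nd (nat_lit 37206) (nat_lit 0) (nat_lit 0) (XT.nd (nat_lit 36738) (nat_lit 0) (nat_lit 0) (XT.nd (nat_lit 156) (nat_lit 0) (nat_lit 0) (XT.nd (nat_lit 78) (nat_lit 0) (nat_lit 0) (XT.lf (nat_lit 0) (nat_lit 854898135284) (nat_lit 152) (nat_lit 180213604182) (nat_lit 0) (nat_lit 854564438060) (nat_lit 1) (nat_lit 5) (nat_lit 3) (nat_lit 4) (nat_lit 1) (nat_lit 4) (nat_lit 333) (nat_lit 198) (nat_lit 189)) (XT.lf (nat_lit 0) (nat_lit 923597035731) (nat_lit 152) (nat_lit 193984737527) (nat_lit 0) (nat_lit 923238595566) (nat_lit 1) (nat_lit 5) (nat_lit 3) (nat_lit 4) (nat_lit 1) (nat_lit 4) (nat_lit 334) (nat_lit 198) (nat_lit 188))) (XT.nd (nat_lit 78) (nat_lit 0) (nat_lit 0) (XT.lf (nat_lit 0) (nat_lit 997778746133) (nat_lit 152) (nat_lit 208881040349) (nat_lit 0) (nat_lit 997397395836) (nat_lit 1) (nat_lit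 5) (nat_lit 3) (nat_lit 4) (nat_lit 1) (nat_lit 4) (nat_lit 335) (nat_lit 198) (nat_lit 187)) (XT.nd (nat_lit 36426) (nat_lit 0) (nat_lit 0) (XT.lf (nat_lit 0) (nat_lit 1077882861810) (nat_lit 152) (nat_lit 224990787036) (nat_lit 0) (nat_lit 1077480298430) (nat_lit 1) (nat_lit 5) (nat_lit 3) (nat_lit 4) (nat_lit 1) (nat_lit 4) (nat_lit 336) (nat_lit 198) (nat_lit 186)) (XT.lf (nat_lit 0) (nat_lit 181802797511) (nat_lit 152) (nat_lit 41763622941) (nat_lit 0) (nat_lit 181802797511) (nat_lit 1) (nat_lit 5) (nat_lit 3) (nat_lit 4) (nat_lit 1) (nat_lit 4) (nat_lit 322) (nat_lit 199) (nat_lit 199))))) (XT.nd (nat_lit 234) (nat_lit 0) (nat_lit 0) (XT.nd (nat_lit 78) (nat_lit 0) (nat_lit 0) (XT.lf (nat_lit 0) (nat_lit 393216494418) (nat_lit 152) (nat_lit 89169813842) (nat_lit 0) (nat_lit 393163076263) (nat_lit 1) (nat_lit 5) (nat_lit 3) (nat_lit 4) (nat_lit 1) (nat_lit 4) (nat_lit 323) (nat_lit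 199) (nat_lit 198)) (XT.nd (nat_lit 78) (nat_lit 0) (nat_lit 0) (XT.lf (nat_lit 0) (nat_lit 425167979354) (nat_lit 152) (nat_lit 95314476229) (nat_lit 0) (nat_lit 425065099945) (nat_lit 1) (nat_lit 5) (nat_lit 3) (nat_lit 4) (nat_lit 1) (nat_lit 4) (nat_lit 324) (nat_lit 199) (nat_lit 197)) (XT.lf (nat_lit 0) (nat_lit 459649391963) (nat_lit 152) (nat_lit 101997645859) (nat_lit 0) (nat_lit 459500715097) (nat_lit 1) (nat_lit 5) (nat_lit 3) (nat_lit 4) (nat_lit 1) (nat_lit 4) (nat_lit 325) (nat_lit 199) (nat_lit 196)))) (XT.nd (nat_lit 78) (nat_lit 0) (nat_lit 0) (XT.lf (nat_lit 0) (nat_lit 496865066544) (nat_lit 152) (nat_lit 109258926699) (nat_lit 0) (nat_lit 496673984624) (nat_lit 1) (nat_lit 5) (nat_lit 3) (nat_lit 4) (nat_lit 1) (nat_lit 4) (nat_lit 326) (nat_lit 199) (nat_lit 195)) (XT.nd (nat_lit 78) (nat_lit 0) (nat_lit 0) (XT.lf (nat_lit 0) (nat_lit 537035540427) (nat_lit 152)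 (nat_lit 117141348561) (nat_lit 0) (nat_lit 536805194569) (nat_lit 1) (nat_lit 5) (nat_lit 3) (nat_lit 4) (nat_lit 1) (nat_lit 4) (nat_lit 327) (nat_lit 199) (nat_lit 194)) (XT.lf (nat_lit 0) (nat_lit 580398860864) (nat_lit 152) (nat_lit 125691622094) (nat_lit 0) (nat_lit 580132159508) (nat_lit 1) (nat_lit 5) (nat_lit 3) (nat_lit 4) (nat_lit 1) (nat_lit 4) (nat_lit 328) (nat_lit 199) (nat_lit 193)))))) (XT.nd (nat_lit 468) (nat_lit 0) (nat_lit 0) (XT.nd (nat_lit 234) (nat_lit 0) (nat_lit 0) (XT.nd (nat_lit 78) (nat_lit 0) (nat_lit 0) (XT.lf (nat_lit 0) (nat_lit 627211995681) (nat_lit 152) (nat_lit 134960415585) (nat_lit 0) (nat_lit 626911631826) (nat_lit 1) (nat_lit 5) (nat_lit 3) (nat_lit 4) (nat_lit 1) (nat_lit 4) (nat_lit 329) (nat_lit 199) (nat_lit 192)) (XT.nd (nat_lit 78) (nat_lit 0) (nat_lit 0) (XT.lf (nat_lit 0) (nat_lit 677752356046) (nat_lit 152) (nat_lit 145002655218) (nat_lit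 0) (nat_lit 677420823211) (nat_lit 1) (nat_lit 5) (nat_lit 3) (nat_lit 4) (nat_lit 1) (nat_lit 4) (nat_lit 330) (nat_lit 199) (nat_lit 191)) (XT.lf (nat_lit 0) (nat_lit 732319440391) (nat_lit 152) (nat_lit 155877850561) (nat_lit 0) (nat_lit 731959047389) (nat_lit 1) (nat_lit 5) (nat_lit 3) (nat_lit 4) (nat_lit 1) (nat_lit 4) (nat_lit 331) (nat_lit 199) (nat_lit 190)))) (XT.nd (nat_lit 78) (nat_lit 0) (nat_lit 0) (XT.lf (nat_lit 0) (nat_lit 791236609217) (nat_lit 152) (nat_lit 167650447216) (nat_lit 0) (nat_lit 790849493838) (nat_lit 1) (nat_lit 5) (nat_lit 3) (nat_lit 4) (nat_lit 1) (nat_lit 4) (nat_lit 332) (nat_lit 199) (nat_lit 189)) (XT.nd (nat_lit 78) (nat_lit 0) (nat_lit 0) (XT.lf (nat_lit 0) (nat_lit 854853001301) (nat_lit 152) (nat_lit 180390208719) (nat_lit 0) (nat_lit 854441142981) (nat_lit 1) (nat_lit 5) (nat_lit 3) (nat_lit 4) (nat_lit 1) (nat_lit 4) (nat_lit 333) (nat_lit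 199) (nat_lit 188)) (XT.lf (nat_lit 0) (nat_lit 923545602671) (nat_lit 152) (nat_lit 194172629953) (nat_lit 0) (nat_lit 923110834220) (nat_lit 1) (nat_lit 5) (nat_lit 3) (nat_lit 4) (nat_lit 1) (nat_lit 4) (nat_lit 334) (nat_lit 199) (nat_lit 187))))) (XT.nd (nat_lit 36426) (nat_lit 0) (nat_lit 0) (XT.nd (nat_lit 78) (nat_lit 0) (nat_lit 0) (XT.lf (nat_lit 0) (nat_lit 997721480593) (nat_lit 152) (nat_lit 209079384525) (nat_lit 0) (nat_lit 997265499058) (nat_lit 1) (nat_lit 5) (nat_lit 3) (nat_lit 4) (nat_lit 1) (nat_lit 4) (nat_lit 335) (nat_lit 199) (nat_lit 186)) (XT.nd (nat_lit 36270) (nat_lit 0) (nat_lit 0) (XT.lf (nat_lit 0) (nat_lit 1077820195827) (nat_lit 152) (nat_lit 225198808759) (nat_lit 0) (nat_lit 1077344572547) (nat_lit 1) (nat_lit 5) (nat_lit 3) (nat_lit 4) (nat_lit 1) (nat_lit 4) (nat_lit 336) (nat_lit 199) (nat_lit 185)) (XT.lf (nat_lit 0) (nat_lit 155395024464) (nat_lit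 152) (nat_lit 36794497943) (nat_lit 0) (nat_lit 155395024464) (nat_lit 1) (nat_lit 5) (nat_lit 3) (nat_lit 4) (nat_lit 1) (nat_lit 4) (nat_lit 320) (nat_lit 200) (nat_lit 200)))) (XT.nd (nat_lit 78) (nat_lit 0) (nat_lit 0) (XT.lf (nat_lit 0) (nat_lit 336217500780) (nat_lit 152) (nat_lit 78353334910) (nat_lit 0) (nat_lit 336159809173) (nat_lit 1) (nat_lit 5) (nat_lit 3) (nat_lit 4) (nat_lit 1) (nat_lit 4) (nat_lit 321) (nat_lit 200) (nat_lit 199)) (XT.nd (nat_lit 78) (nat_lit 0) (nat_lit 0) (XT.lf (nat_lit 0) (nat_lit 363648599455) (nat_lit 152) (nat_lit 83553565166) (nat_lit 0) (nat_lit 363537489693) (nat_lit 1) (nat_lit 5) (nat_lit 3) (nat_lit 4) (nat_lit 1) (nat_lit 4) (nat_lit 322) (nat_lit 200) (nat_lit 198)) (XT.lf (nat_lit 0) (nat_lit 393245899614) (nat_lit 152) (nat_lit 89220502833) (nat_lit 0) (nat_lit 393085328598) (nat_lit 1) (nat_lit 5) (nat_lit 3) (nat_lit 4) (nat_lit 1)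 (nat_lit 4) (nat_lit 323) (nat_lit 200) (nat_lit 197))))))) (XT.nd (nat_lit 858) (nat_lit 0) (nat_lit 0) (XT.nd (nat_lit 390) (nat_lit 0) (nat_lit 0) (XT.nd (nat_lit 156) (nat_lit 0) (nat_lit 0) (XT.nd (nat_lit 78) (nat_lit 0) (nat_lit 0) (XT.lf (nat_lit 0) (nat_lit 425184792665) (nat_lit 152) (nat_lit 95387729764) (nat_lit 0) (nat_lit 424978424191) (nat_lit 1) (nat_lit 5) (nat_lit 3) (nat_lit 4) (nat_lit 1) (nat_lit 4) (nat_lit 324) (nat_lit 200) (nat_lit 196)) (XT.lf (nat_lit 0) (nat_lit 459654546122) (nat_lit 152) (nat_lit 102091792490) (nat_lit 0) (nat_lit 459405772595) (nat_lit 1) (nat_lit 5) (nat_lit 3) (nat_lit 4) (nat_lit 1) (nat_lit 4) (nat_lit 325) (nat_lit 200) (nat_lit 195))) (XT.nd (nat_lit 78) (nat_lit 0) (nat_lit 0) (XT.lf (nat_lit 0) (nat_lit 496859425191) (nat_lit 152) (nat_lit 109372418789) (nat_lit 0) (nat_lit 496571387726) (nat_lit 1) (nat_lit 5) (nat_lit 3) (nat_lit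 4) (nat_lit 1) (nat_lit 4) (nat_lit 326) (nat_lit 200) (nat_lit 194)) (XT.nd (nat_lit 78) (nat_lit 0) (nat_lit 0) (XT.lf (nat_lit 0) (nat_lit 537019903230) (nat_lit 152) (nat_lit 117272753113) (nat_lit 0) (nat_lit 536695510266) (nat_lit 1) (nat_lit 5) (nat_lit 3) (nat_lit 4) (nat_lit 1) (nat_lit 4) (nat_lit 327) (nat_lit 200) (nat_lit 193)) (XT.lf (nat_lit 0) (nat_lit 580373968256) (nat_lit 152) (nat_lit 125839612260) (nat_lit 0) (nat_lit 580015912793) (nat_lit 1) (nat_lit 5) (nat_lit 3) (nat_lit 4) (nat_lit 1) (nat_lit 4) (nat_lit 328) (nat_lit 200) (nat_lit 192))))) (XT.nd (nat_lit 234) (nat_lit 0) (nat_lit 0) (XT.nd (nat_lit 78) (nat_lit 0) (nat_lit 0) (XT.lf (nat_lit 0) (nat_lit 627178533247) (nat_lit 152) (nat_lit 135123762800) (nat_lit 0) (nat_lit 626789308804) (nat_lit 1) (nat_lit 5) (nat_lit 3) (nat_lit 4) (nat_lit 1) (nat_lit 4) (nat_lit 329) (nat_lit 200) (nat_lit 191)) (XT.nd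 (nat_lit 78) (nat_lit 0) (nat_lit 0) (XT.lf (nat_lit 0) (nat_lit 677710958588) (nat_lit 152) (nat_lit 145180221923) (nat_lit 0) (nat_lit 677292873979) (nat_lit 1) (nat_lit 5) (nat_lit 3) (nat_lit 4) (nat_lit 1) (nat_lit 4) (nat_lit 330) (nat_lit 200) (nat_lit 190)) (XT.lf (nat_lit 0) (nat_lit 732270695690) (nat_lit 152) (nat_lit 156068583461) (nat_lit 0) (nat_lit 731825888704) (nat_lit 1) (nat_lit 5) (nat_lit 3) (nat_lit 4) (nat_lit 1) (nat_lit 4) (nat_lit 331) (nat_lit 200) (nat_lit 189)))) (XT.nd (nat_lit 78) (nat_lit 0) (nat_lit 0) (XT.lf (nat_lit 0) (nat_lit 791181061512) (nat_lit 152) (nat_lit 167853371037) (nat_lit 0) (nat_lit 790711511584) (nat_lit 1) (nat_lit 5) (nat_lit 3) (nat_lit 4) (nat_lit 1) (nat_lit 4) (nat_lit 332) (nat_lit 200) (nat_lit 188)) (XT.nd (nat_lit 78) (nat_lit 0) (nat_lit 0) (XT.lf (nat_lit 0) (nat_lit 854791154518) (nat_lit 152) (nat_lit 180604420430) (nat_lit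 0) (nat_lit 854298694460) (nat_lit 1) (nat_lit 5) (nat_lit 3) (nat_lit 4) (nat_lit 1) (nat_lit 4) (nat_lit 333) (nat_lit 200) (nat_lit 187)) (XT.lf (nat_lit 0) (nat_lit 923477923409) (nat_lit 152) (nat_lit 194397293413) (nat_lit 0) (nat_lit 922964250266) (nat_lit 1) (nat_lit 5) (nat_lit 3) (nat_lit 4) (nat_lit 1) (nat_lit 4) (nat_lit 334) (nat_lit 200) (nat_lit 186)))))) (XT.nd (nat_lit 36504) (nat_lit 0) (nat_lit 0) (XT.nd (nat_lit 36270) (nat_lit 0) (nat_lit 0) (XT.nd (nat_lit 78) (nat_lit 0) (nat_lit 0) (XT.lf (nat_lit 0) (nat_lit 997648400888) (nat_lit 152) (nat_lit 209313725531) (nat_lit 0) (nat_lit 997115086001) (nat_lit 1) (nat_lit 5) (nat_lit 3) (nat_lit 4) (nat_lit 1) (nat_lit 4) (nat_lit 335) (nat_lit 200) (nat_lit 185)) (XT.nd (nat_lit 36114) (nat_lit 0) (nat_lit 0) (XT.lf (nat_lit 0) (nat_lit 1077742115711) (nat_lit 152) (nat_lit 225442110455) (nat_lit 0) (nat_lit 1077190614023)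 (nat_lit 1) (nat_lit 5) (nat_lit 3) (nat_lit 4) (nat_lit 1) (nat_lit 4) (nat_lit 336) (nat_lit 200) (nat_lit 184)) (XT.lf (nat_lit 0) (nat_lit 132716889755) (nat_lit 152) (nat_lit 32613387997) (nat_lit 0) (nat_lit 132716889755) (nat_lit 1) (nat_lit 5) (nat_lit 3) (nat_lit 4) (nat_lit 1) (nat_lit 4) (nat_lit 318) (nat_lit 201) (nat_lit 201)))) (XT.nd (nat_lit 78) (nat_lit 0) (nat_lit 0) (XT.lf (nat_lit 0) (nat_lit 287277869642) (nat_lit 152) (nat_lit 69232314976) (nat_lit 0) (nat_lit 287215562707) (nat_lit 1) (nat_lit 5) (nat_lit 3) (nat_lit 4) (nat_lit 1) (nat_lit 4) (nat_lit 319) (nat_lit 201) (nat_lit 200)) (XT.nd (nat_lit 78) (nat_lit 0) (nat_lit 0) (XT.lf (nat_lit 0) (nat_lit 310836493716) (nat_lit 152) (nat_lit 73617420713) (nat_lit 0) (nat_lit 310716495173) (nat_lit 1) (nat_lit 5) (nat_lit 3) (nat_lit 4) (nat_lit 1) (nat_lit 4) (nat_lit 320) (nat_lit 201) (nat_lit 199)) (XT.lf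 (nat_lit 0) (nat_lit 336249258392) (nat_lit 152) (nat_lit 78408079020) (nat_lit 0) (nat_lit 336075841695) (nat_lit 1) (nat_lit 5) (nat_lit 3) (nat_lit 4) (nat_lit 1) (nat_lit 4) (nat_lit 321) (nat_lit 201) (nat_lit 198))))) (XT.nd (nat_lit 234) (nat_lit 0) (nat_lit 0) (XT.nd (nat_lit 78) (nat_lit 0) (nat_lit 0) (XT.lf (nat_lit 0) (nat_lit 363666757832) (nat_lit 152) (nat_lit 83632678983) (nat_lit 0) (nat_lit 363443879880) (nat_lit 1) (nat_lit 5) (nat_lit 3) (nat_lit 4) (nat_lit 1) (nat_lit 4) (nat_lit 322) (nat_lit 201) (nat_lit 197)) (XT.nd (nat_lit 78) (nat_lit 0) (nat_lit 0) (XT.lf (nat_lit 0) (nat_lit 393251466105) (nat_lit 152) (nat_lit 89322181194) (nat_lit 0) (nat_lit 392982790696) (nat_lit 1) (nat_lit 5) (nat_lit 3) (nat_lit 4) (nat_lit 1) (nat_lit 4) (nat_lit 323) (nat_lit 201) (nat_lit 196)) (XT.lf (nat_lit 0) (nat_lit 425178700004) (nat_lit 152) (nat_lit 95510301221) (nat_lit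 0) (nat_lit 424867619541) (nat_lit 1) (nat_lit 5) (nat_lit 3) (nat_lit 4) (nat_lit 1) (nat_lit 4) (nat_lit 324) (nat_lit 201) (nat_lit 195)))) (XT.nd (nat_lit 78) (nat_lit 0) (nat_lit 0) (XT.lf (nat_lit 0) (nat_lit 459637657949) (nat_lit 152) (nat_lit 102233709406) (nat_lit 0) (nat_lit 459287313548) (nat_lit 1) (nat_lit 5) (nat_lit 3) (nat_lit 4) (nat_lit 1) (nat_lit 4) (nat_lit 325) (nat_lit 201) (nat_lit 194)) (XT.nd (nat_lit 78) (nat_lit 0) (nat_lit 0) (XT.lf (nat_lit 0) (nat_lit 496832541174) (nat_lit 152) (nat_lit 109532248168) (nat_lit 0) (nat_lit 496445841274) (nat_lit 1) (nat_lit 5) (nat_lit 3) (nat_lit 4) (nat_lit 1) (nat_lit 4) (nat_lit 326) (nat_lit 201) (nat_lit 193)) (XT.lf (nat_lit 0) (nat_lit 536983763801) (nat_lit 152) (nat_lit 117449168106) (nat_lit 0) (nat_lit 536563401403) (nat_lit 1) (nat_lit 5) (nat_lit 3) (nat_lit 4) (nat_lit 1) (nat_lit 4) (nat_lit 327) (nat_lit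 201) (nat_lit 192))))))))
noncomputable def xc2 : XT := (XT.nd (nat_lit 37674) (nat_lit 0) (nat_lit 0) (XT.nd (nat_lit 36738) (nat_lit 0) (nat_lit 0) (XT.nd (nat_lit 390) (nat_lit 0) (nat_lit 0) (XT.nd (nat_lit 156) (nat_lit 0) (nat_lit 0) (XT.nd (nat_lit 78) (nat_lit 0) (nat_lit 0) (XT.lf (nat_lit 0) (nat_lit 580329259001) (nat_lit 152) (nat_lit 126031384301) (nat_lit 0) (nat_lit 579877727623) (nat_lit 1) (nat_lit 5) (nat_lit 3) (nat_lit 4) (nat_lit 1) (nat_lit 4) (nat_lit 328) (nat_lit 201) (nat_lit 191)) (XT.lf (nat_lit 0) (nat_lit 627125888969) (nat_lit 152) (nat_lit 135329754332) (nat_lit 0) (nat_lit 626645497424) (nat_lit 1) (nat_lit 5) (nat_lit 3) (nat_lit 4) (nat_lit 1) (nat_lit 4) (nat_lit 329) (nat_lit 201) (nat_lit 190))) (XT.nd (nat_lit 78) (nat_lit 0) (nat_lit 0) (XT.lf (nat_lit 0) (nat_lit 677650967067) (nat_lit 152) (nat_lit 145399379649) (nat_lit 0) (nat_lit 677143853145)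 (nat_lit 1) (nat_lit 5) (nat_lit 3) (nat_lit 4) (nat_lit 1) (nat_lit 4) (nat_lit 330) (nat_lit 201) (nat_lit 189)) (XT.nd (nat_lit 78) (nat_lit 0) (nat_lit 0) (XT.lf (nat_lit 0) (nat_lit 732203901164) (nat_lit 152) (nat_lit 156299932108) (nat_lit 0) (nat_lit 731672044301) (nat_lit 1) (nat_lit 5) (nat_lit 3) (nat_lit 4) (nat_lit 1) (nat_lit 4) (nat_lit 331) (nat_lit 201) (nat_lit 188)) (XT.lf (nat_lit 0) (nat_lit 791107967909) (nat_lit 152) (nat_lit 168096007574) (nat_lit 0) (nat_lit 790553200915) (nat_lit 1) (nat_lit 5) (nat_lit 3) (nat_lit 4) (nat_lit 1) (nat_lit 4) (nat_lit 332) (nat_lit 201) (nat_lit 187))))) (XT.nd (nat_lit 234) (nat_lit 0) (nat_lit 0) (XT.nd (nat_lit 78) (nat_lit 0) (nat_lit 0) (XT.lf (nat_lit 0) (nat_lit 854712228436) (nat_lit 152) (nat_lit 180857508716) (nat_lit 0) (nat_lit 854136248358) (nat_lit 1) (nat_lit 5) (nat_lit 3) (nat_lit 4) (nat_lit 1) (nat_lit 4)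 (nat_lit 333) (nat_lit 201) (nat_lit 186)) (XT.nd (nat_lit 78) (nat_lit 0) (nat_lit 0) (XT.lf (nat_lit 0) (nat_lit 923393596883) (nat_lit 152) (nat_lit 194660059246) (nat_lit 0) (nat_lit 922797975061) (nat_lit 1) (nat_lit 5) (nat_lit 3) (nat_lit 4) (nat_lit 1) (nat_lit 4) (nat_lit 334) (nat_lit 201) (nat_lit 185)) (XT.lf (nat_lit 0) (nat_lit 997559073951) (nat_lit 152) (nat_lit 209585452054) (nat_lit 0) (nat_lit 996945265328) (nat_lit 1) (nat_lit 5) (nat_lit 3) (nat_lit 4) (nat_lit 1) (nat_lit 4) (nat_lit 335) (nat_lit 201) (nat_lit 184)))) (XT.nd (nat_lit 35958) (nat_lit 0) (nat_lit 0) (XT.lf (nat_lit 0) (nat_lit 1077648158764) (nat_lit 152) (nat_lit 225722133915) (nat_lit 0) (nat_lit 1077017510511) (nat_lit 1) (nat_lit 5) (nat_lit 3) (nat_lit 4) (nat_lit 1) (nat_lit 4) (nat_lit 336) (nat_lit 201) (nat_lit 183)) (XT.nd (nat_lit 78) (nat_lit 0) (nat_lit 0) (XT.lf (nat_lit 0) (nat_lit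 113233300720) (nat_lit 152) (nat_lit 29114203052) (nat_lit 0) (nat_lit 113233300720) (nat_lit 1) (nat_lit 5) (nat_lit 3) (nat_lit 4) (nat_lit 1) (nat_lit 4) (nat_lit 316) (nat_lit 202) (nat_lit 202)) (XT.lf (nat_lit 0) (nat_lit 245242068350) (nat_lit 152) (nat_lit 61577067246) (nat_lit 0) (nat_lit 245174776859) (nat_lit 1) (nat_lit 5) (nat_lit 3) (nat_lit 4) (nat_lit 1) (nat_lit 4) (nat_lit 317) (nat_lit 202) (nat_lit 201)))))) (XT.nd (nat_lit 468) (nat_lit 0) (nat_lit 0) (XT.nd (nat_lit 234) (nat_lit 0) (nat_lit 0) (XT.nd (nat_lit 78) (nat_lit 0) (nat_lit 0) (XT.lf (nat_lit 0) (nat_lit 265483939880) (nat_lit 152) (nat_lit 65257474808) (nat_lit 0) (nat_lit 265354341454) (nat_lit 1) (nat_lit 5) (nat_lit 3) (nat_lit 4) (nat_lit 1) (nat_lit 4) (nat_lit 318) (nat_lit 202) (nat_lit 200)) (XT.nd (nat_lit 78) (nat_lit 0) (nat_lit 0) (XT.lf (nat_lit 0) (nat_lit 287312167864) (nat_lit 152)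 (nat_lit 69291438615) (nat_lit 0) (nat_lit 287124877831) (nat_lit 1) (nat_lit 5) (nat_lit 3) (nat_lit 4) (nat_lit 1) (nat_lit 4) (nat_lit 319) (nat_lit 202) (nat_lit 199)) (XT.lf (nat_lit 0) (nat_lit 310856104762) (nat_lit 152) (nat_lit 73702863636) (nat_lit 0) (nat_lit 310615396575) (nat_lit 1) (nat_lit 5) (nat_lit 3) (nat_lit 4) (nat_lit 1) (nat_lit 4) (nat_lit 320) (nat_lit 202) (nat_lit 198)))) (XT.nd (nat_lit 78) (nat_lit 0) (nat_lit 0) (XT.lf (nat_lit 0) (nat_lit 336255270203) (nat_lit 152) (nat_lit 78517891651) (nat_lit 0) (nat_lit 335965100761) (nat_lit 1) (nat_lit 5) (nat_lit 3) (nat_lit 4) (nat_lit 1) (nat_lit 4) (nat_lit 321) (nat_lit 202) (nat_lit 197)) (XT.nd (nat_lit 78) (nat_lit 0) (nat_lit 0) (XT.lf (nat_lit 0) (nat_lit 363660177757) (nat_lit 152) (nat_lit 83765056157) (nat_lit 0) (nat_lit 363324210858) (nat_lit 1) (nat_lit 5) (nat_lit 3) (nat_lit 4) (nat_lit 1) (nat_lit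 4) (nat_lit 322) (nat_lit 202) (nat_lit 196)) (XT.lf (nat_lit 0) (nat_lit 393233226878) (nat_lit 152) (nat_lit 89475451464) (nat_lit 0) (nat_lit 392854854925) (nat_lit 1) (nat_lit 5) (nat_lit 3) (nat_lit 4) (nat_lit 1) (nat_lit 4) (nat_lit 323) (nat_lit 202) (nat_lit 195))))) (XT.nd (nat_lit 234) (nat_lit 0) (nat_lit 0) (XT.nd (nat_lit 78) (nat_lit 0) (nat_lit 0) (XT.lf (nat_lit 0) (nat_lit 425149665265) (nat_lit 152) (nat_lit 95682916951) (nat_lit 0) (nat_lit 424732029373) (nat_lit 1) (nat_lit 5) (nat_lit 3) (nat_lit 4) (nat_lit 1) (nat_lit 4) (nat_lit 324) (nat_lit 202) (nat_lit 194)) (XT.nd (nat_lit 78) (nat_lit 0) (nat_lit 0) (XT.lf (nat_lit 0) (nat_lit 459598627366) (nat_lit 152) (nat_lit 102424237598) (nat_lit 0) (nat_lit 459144635976) (nat_lit 1) (nat_lit 5) (nat_lit 3) (nat_lit 4) (nat_lit 1) (nat_lit 4) (nat_lit 325) (nat_lit 202) (nat_lit 193)) (XT.lf (nat_lit 0) (nat_lit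 496784255179) (nat_lit 152) (nat_lit 109739361973) (nat_lit 0) (nat_lit 496296601291) (nat_lit 1) (nat_lit 5) (nat_lit 3) (nat_lit 4) (nat_lit 1) (nat_lit 4) (nat_lit 326) (nat_lit 202) (nat_lit 192)))) (XT.nd (nat_lit 78) (nat_lit 0) (nat_lit 0) (XT.lf (nat_lit 0) (nat_lit 536926907981) (nat_lit 152) (nat_lit 117671638960) (nat_lit 0) (nat_lit 536408085112) (nat_lit 1) (nat_lit 5) (nat_lit 3) (nat_lit 4) (nat_lit 1) (nat_lit 4) (nat_lit 327) (nat_lit 202) (nat_lit 191)) (XT.nd (nat_lit 78) (nat_lit 0) (nat_lit 0) (XT.lf (nat_lit 0) (nat_lit 580264468158) (nat_lit 152) (nat_lit 126268074645) (nat_lit 0) (nat_lit 579716785122) (nat_lit 1) (nat_lit 5) (nat_lit 3) (nat_lit 4) (nat_lit 1) (nat_lit 4) (nat_lit 328) (nat_lit 202) (nat_lit 190)) (XT.lf (nat_lit 0) (nat_lit 627053750881) (nat_lit 152) (nat_lit 135579610871) (nat_lit 0) (nat_lit 626479345470) (nat_lit 1) (nat_lit 5) (nat_lit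 3) (nat_lit 4) (nat_lit 1) (nat_lit 4) (nat_lit 329) (nat_lit 202) (nat_lit 189))))))) (XT.nd (nat_lit 36582) (nat_lit 0) (nat_lit 0) (XT.nd (nat_lit 390) (nat_lit 0) (nat_lit 0) (XT.nd (nat_lit 156) (nat_lit 0) (nat_lit 0) (XT.nd (nat_lit 78) (nat_lit 0) (nat_lit 0) (XT.lf (nat_lit 0) (nat_lit 677572025975) (nat_lit 152) (nat_lit 145661427109) (nat_lit 0) (nat_lit 676972877622) (nat_lit 1) (nat_lit 5) (nat_lit 3) (nat_lit 4) (nat_lit 1) (nat_lit 4) (nat_lit 330) (nat_lit 202) (nat_lit 188)) (XT.lf (nat_lit 0) (nat_lit 732118660996) (nat_lit 152) (nat_lit 156573267457) (nat_lit 0) (nat_lit 731496602512) (nat_lit 1) (nat_lit 5) (nat_lit 3) (nat_lit 4) (nat_lit 1) (nat_lit 4) (nat_lit 331) (nat_lit 202) (nat_lit 187))) (XT.nd (nat_lit 78) (nat_lit 0) (nat_lit 0) (XT.lf (nat_lit 0) (nat_lit 791016895261) (nat_lit 152) (nat_lit 168379794673) (nat_lit 0) (nat_lit 790373623693) (nat_lit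 1) (nat_lit 5) (nat_lit 3) (nat_lit 4) (nat_lit 1) (nat_lit 4) (nat_lit 332) (nat_lit 202) (nat_lit 186)) (XT.nd (nat_lit 78) (nat_lit 0) (nat_lit 0) (XT.lf (nat_lit 0) (nat_lit 854615755345) (nat_lit 152) (nat_lit 181150973361) (nat_lit 0) (nat_lit 853952842032) (nat_lit 1) (nat_lit 5) (nat_lit 3) (nat_lit 4) (nat_lit 1) (nat_lit 4) (nat_lit 333) (nat_lit 202) (nat_lit 185)) (XT.lf (nat_lit 0) (nat_lit 923292123381) (nat_lit 152) (nat_lit 194962484582) (nat_lit 0) (nat_lit 922611023268) (nat_lit 1) (nat_lit 5) (nat_lit 3) (nat_lit 4) (nat_lit 1) (nat_lit 4) (nat_lit 334) (nat_lit 202) (nat_lit 184))))) (XT.nd (nat_lit 35958) (nat_lit 0) (nat_lit 0) (XT.nd (nat_lit 78) (nat_lit 0) (nat_lit 0) (XT.lf (nat_lit 0) (nat_lit 997452970439) (nat_lit 152) (nat_lit 209896174326) (nat_lit 0) (nat_lit 996755030696) (nat_lit 1) (nat_lit 5) (nat_lit 3) (nat_lit 4) (nat_lit 1) (nat_lit 4) (nat_lit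 335) (nat_lit 202) (nat_lit 183)) (XT.nd (nat_lit 35802) (nat_lit 0) (nat_lit 0) (XT.lf (nat_lit 0) (nat_lit 1077537768206) (nat_lit 152) (nat_lit 226040538535) (nat_lit 0) (nat_lit 1076824236212) (nat_lit 1) (nat_lit 5) (nat_lit 3) (nat_lit 4) (nat_lit 1) (nat_lit 4) (nat_lit 336) (nat_lit 202) (nat_lit 182)) (XT.lf (nat_lit 0) (nat_lit 96485260204) (nat_lit 152) (nat_lit 26206494316) (nat_lit 0) (nat_lit 96485260204) (nat_lit 1) (nat_lit 5) (nat_lit 3) (nat_lit 4) (nat_lit 1) (nat_lit 4) (nat_lit 314) (nat_lit 203) (nat_lit 203)))) (XT.nd (nat_lit 78) (nat_lit 0) (nat_lit 0) (XT.lf (nat_lit 0) (nat_lit 209118951938) (nat_lit 152) (nat_lit 55191647467) (nat_lit 0) (nat_lit 209046277129) (nat_lit 1) (nat_lit 5) (nat_lit 3) (nat_lit 4) (nat_lit 1) (nat_lit 4) (nat_lit 315) (nat_lit 203) (nat_lit 202)) (XT.nd (nat_lit 78) (nat_lit 0) (nat_lit 0) (XT.lf (nat_lit 0) (nat_lit 226520774641)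 (nat_lit 152) (nat_lit 58261560822) (nat_lit 0) (nat_lit 226380808341) (nat_lit 1) (nat_lit 5) (nat_lit 3) (nat_lit 4) (nat_lit 1) (nat_lit 4) (nat_lit 316) (nat_lit 203) (nat_lit 201)) (XT.lf (nat_lit 0) (nat_lit 245279110429) (nat_lit 152) (nat_lit 61640920776) (nat_lit 0) (nat_lit 245076837193) (nat_lit 1) (nat_lit 5) (nat_lit 3) (nat_lit 4) (nat_lit 1) (nat_lit 4) (nat_lit 317) (nat_lit 203) (nat_lit 200)))))) (XT.nd (nat_lit 468) (nat_lit 0) (nat_lit 0) (XT.nd (nat_lit 234) (nat_lit 0) (nat_lit 0) (XT.nd (nat_lit 78) (nat_lit 0) (nat_lit 0) (XT.lf (nat_lit 0) (nat_lit 265505119810) (nat_lit 152) (nat_lit 65349753165) (nat_lit 0) (nat_lit 265245154968) (nat_lit 1) (nat_lit 5) (nat_lit 3) (nat_lit 4) (nat_lit 1) (nat_lit 4) (nat_lit 318) (nat_lit 203) (nat_lit 199)) (XT.nd (nat_lit 78) (nat_lit 0) (nat_lit 0) (XT.lf (nat_lit 0) (nat_lit 287318660619) (nat_lit 152) (nat_lit 69410036255)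 (nat_lit 0) (nat_lit 287005277622) (nat_lit 1) (nat_lit 5) (nat_lit 3) (nat_lit 4) (nat_lit 1) (nat_lit 4) (nat_lit 319) (nat_lit 203) (nat_lit 198)) (XT.lf (nat_lit 0) (nat_lit 310848998282) (nat_lit 152) (nat_lit 73845830984) (nat_lit 0) (nat_lit 310486154031) (nat_lit 1) (nat_lit 5) (nat_lit 3) (nat_lit 4) (nat_lit 1) (nat_lit 4) (nat_lit 320) (nat_lit 203) (nat_lit 197)))) (XT.nd (nat_lit 78) (nat_lit 0) (nat_lit 0) (XT.lf (nat_lit 0) (nat_lit 336235571837) (nat_lit 152) (nat_lit 78683423542) (nat_lit 0) (nat_lit 335826930128) (nat_lit 1) (nat_lit 5) (nat_lit 3) (nat_lit 4) (nat_lit 1) (nat_lit 4) (nat_lit 321) (nat_lit 203) (nat_lit 196)) (XT.nd (nat_lit 78) (nat_lit 0) (nat_lit 0) (XT.lf (nat_lit 0) (nat_lit 363628820239) (nat_lit 152) (nat_lit 83951481145) (nat_lit 0) (nat_lit 363177773477) (nat_lit 1) (nat_lit 5) (nat_lit 3) (nat_lit 4) (nat_lit 1) (nat_lit 4) (nat_lit 322)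 (nat_lit 203) (nat_lit 195)) (XT.lf (nat_lit 0) (nat_lit 393191073848) (nat_lit 152) (nat_lit 89681221911) (nat_lit 0) (nat_lit 392700763148) (nat_lit 1) (nat_lit 5) (nat_lit 3) (nat_lit 4) (nat_lit 1) (nat_lit 4) (nat_lit 323) (nat_lit 203) (nat_lit 194))))) (XT.nd (nat_lit 234) (nat_lit 0) (nat_lit 0) (XT.nd (nat_lit 78) (nat_lit 0) (nat_lit 0) (XT.lf (nat_lit 0) (nat_lit 425097516390) (nat_lit 152) (nat_lit 95906599860) (nat_lit 0) (nat_lit 424570850191) (nat_lit 1) (nat_lit 5) (nat_lit 3) (nat_lit 4) (nat_lit 1) (nat_lit 4) (nat_lit 324) (nat_lit 203) (nat_lit 193)) (XT.nd (nat_lit 78) (nat_lit 0) (nat_lit 0) (XT.lf (nat_lit 0) (nat_lit 459537223080) (nat_lit 152) (nat_lit 102664506121) (nat_lit 0) (nat_lit 458976894382) (nat_lit 1) (nat_lit 5) (nat_lit 3) (nat_lit 4) (nat_lit 1) (nat_lit 4) (nat_lit 325) (nat_lit 203) (nat_lit 192)) (XT.lf (nat_lit 0) (nat_lit 496714281068) (nat_lit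 152) (nat_lit 109994987545) (nat_lit 0) (nat_lit 496122783390) (nat_lit 1) (nat_lit 5) (nat_lit 3) (nat_lit 4) (nat_lit 1) (nat_lit 4) (nat_lit 326) (nat_lit 203) (nat_lit 191)))) (XT.nd (nat_lit 78) (nat_lit 0) (nat_lit 0) (XT.lf (nat_lit 0) (nat_lit 536848998846) (nat_lit 152) (nat_lit 117941484022) (nat_lit 0) (nat_lit 536228641001) (nat_lit 1) (nat_lit 5) (nat_lit 3) (nat_lit 4) (nat_lit 1) (nat_lit 4) (nat_lit 327) (nat_lit 203) (nat_lit 190)) (XT.nd (nat_lit 78) (nat_lit 0) (nat_lit 0) (XT.lf (nat_lit 0) (nat_lit 580179211779) (nat_lit 152) (nat_lit 126551085902) (nat_lit 0) (nat_lit 579532131558) (nat_lit 1) (nat_lit 5) (nat_lit 3) (nat_lit 4) (nat_lit 1) (nat_lit 4) (nat_lit 328) (nat_lit 203) (nat_lit 189)) (XT.lf (nat_lit 0) (nat_lit 626961691499) (nat_lit 152) (nat_lit 135874813048) (nat_lit 0) (nat_lit 626289868336) (nat_lit 1) (nat_lit 5) (nat_lit 3) (nat_lit 4) (nat_lit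 1) (nat_lit 4) (nat_lit 329) (nat_lit 203) (nat_lit 188))))))))
noncomputable def xc3 : XT := (XT.nd (nat_lit 37362) (nat_lit 0) (nat_lit 0) (XT.nd (nat_lit 36426) (nat_lit 0) (nat_lit 0) (XT.nd (nat_lit 390) (nat_lit 0) (nat_lit 0) (XT.nd (nat_lit 156) (nat_lit 0) (nat_lit 0) (XT.nd (nat_lit 78) (nat_lit 0) (nat_lit 0) (XT.lf (nat_lit 0) (nat_lit 677473667516) (nat_lit 152) (nat_lit 145967917176) (nat_lit 0) (nat_lit 676778934222) (nat_lit 1) (nat_lit 5) (nat_lit 3) (nat_lit 4) (nat_lit 1) (nat_lit 4) (nat_lit 330) (nat_lit 203) (nat_lit 187)) (XT.lf (nat_lit 0) (nat_lit 732014470057) (nat_lit 152) (nat_lit 156890209274) (nat_lit 0) (nat_lit 731298523679) (nat_lit 1) (nat_lit 5) (nat_lit 3) (nat_lit 4) (nat_lit 1) (nat_lit 4) (nat_lit 331) (nat_lit 203) (nat_lit 186))) (XT.nd (nat_lit 78) (nat_lit 0) (nat_lit 0) (XT.lf (nat_lit 0) (nat_lit 790907303879) (nat_lit 152) (nat_lit 168706414036)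 (nat_lit 0) (nat_lit 790171715756) (nat_lit 1) (nat_lit 5) (nat_lit 3) (nat_lit 4) (nat_lit 1) (nat_lit 4) (nat_lit 332) (nat_lit 203) (nat_lit 185)) (XT.nd (nat_lit 78) (nat_lit 0) (nat_lit 0) (XT.lf (nat_lit 0) (nat_lit 854501163552) (nat_lit 152) (nat_lit 181486553415) (nat_lit 0) (nat_lit 853747388629) (nat_lit 1) (nat_lit 5) (nat_lit 3) (nat_lit 4) (nat_lit 1) (nat_lit 4) (nat_lit 333) (nat_lit 203) (nat_lit 184)) (XT.lf (nat_lit 0) (nat_lit 923172901578) (nat_lit 152) (nat_lit 195306361571) (nat_lit 0) (nat_lit 922402287025) (nat_lit 1) (nat_lit 5) (nat_lit 3) (nat_lit 4) (nat_lit 1) (nat_lit 4) (nat_lit 334) (nat_lit 203) (nat_lit 183))))) (XT.nd (nat_lit 35802) (nat_lit 0) (nat_lit 0) (XT.nd (nat_lit 78) (nat_lit 0) (nat_lit 0) (XT.lf (nat_lit 0) (nat_lit 997329461590) (nat_lit 152) (nat_lit 210247733664) (nat_lit 0) (nat_lit 996543254786) (nat_lit 1) (nat_lit 5) (nat_lit 3)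 (nat_lit 4) (nat_lit 1) (nat_lit 4) (nat_lit 335) (nat_lit 203) (nat_lit 182)) (XT.nd (nat_lit 35646) (nat_lit 0) (nat_lit 0) (XT.lf (nat_lit 0) (nat_lit 1077410289869) (nat_lit 152) (nat_lit 226399211157) (nat_lit 0) (nat_lit 1076609645797) (nat_lit 1) (nat_lit 5) (nat_lit 3) (nat_lit 4) (nat_lit 1) (nat_lit 4) (nat_lit 336) (nat_lit 203) (nat_lit 181)) (XT.lf (nat_lit 0) (nat_lit 82078991366) (nat_lit 152) (nat_lit 23813263363) (nat_lit 0) (nat_lit 82078991366) (nat_lit 1) (nat_lit 5) (nat_lit 3) (nat_lit 4) (nat_lit 1) (nat_lit 4) (nat_lit 312) (nat_lit 204) (nat_lit 204)))) (XT.nd (nat_lit 78) (nat_lit 0) (nat_lit 0) (XT.lf (nat_lit 0) (nat_lit 178058274439) (nat_lit 152) (nat_lit 49909118190) (nat_lit 0) (nat_lit 177979785644) (nat_lit 1) (nat_lit 5) (nat_lit 3) (nat_lit 4) (nat_lit 1) (nat_lit 4) (nat_lit 313) (nat_lit 204) (nat_lit 203)) (XT.nd (nat_lit 78) (nat_lit 0) (nat_lit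 0) (XT.lf (nat_lit 0) (nat_lit 193029027465) (nat_lit 152) (nat_lit 52448795727) (nat_lit 0) (nat_lit 192877863861) (nat_lit 1) (nat_lit 5) (nat_lit 3) (nat_lit 4) (nat_lit 1) (nat_lit 4) (nat_lit 314) (nat_lit 204) (nat_lit 202)) (XT.lf (nat_lit 0) (nat_lit 209158957384) (nat_lit 152) (nat_lit 55260609280) (nat_lit 0) (nat_lit 208940502289) (nat_lit 1) (nat_lit 5) (nat_lit 3) (nat_lit 4) (nat_lit 1) (nat_lit 4) (nat_lit 315) (nat_lit 204) (nat_lit 201)))))) (XT.nd (nat_lit 468) (nat_lit 0) (nat_lit 0) (XT.nd (nat_lit 234) (nat_lit 0) (nat_lit 0) (XT.nd (nat_lit 78) (nat_lit 0) (nat_lit 0) (XT.lf (nat_lit 0) (nat_lit 226543648965) (nat_lit 152) (nat_lit 58361221448) (nat_lit 0) (nat_lit 226262886936) (nat_lit 1) (nat_lit 5) (nat_lit 3) (nat_lit 4) (nat_lit 1) (nat_lit 4) (nat_lit 316) (nat_lit 204) (nat_lit 200)) (XT.nd (nat_lit 78) (nat_lit 0) (nat_lit 0) (XT.lf (nat_lit 0) (nat_lit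 245286122605) (nat_lit 152) (nat_lit 61769006228) (nat_lit 0) (nat_lit 244947668968) (nat_lit 1) (nat_lit 5) (nat_lit 3) (nat_lit 4) (nat_lit 1) (nat_lit 4) (nat_lit 317) (nat_lit 204) (nat_lit 199)) (XT.lf (nat_lit 0) (nat_lit 265497444812) (nat_lit 152) (nat_lit 65504157901) (nat_lit 0) (nat_lit 265105573020) (nat_lit 1) (nat_lit 5) (nat_lit 3) (nat_lit 4) (nat_lit 1) (nat_lit 4) (nat_lit 318) (nat_lit 204) (nat_lit 198)))) (XT.nd (nat_lit 78) (nat_lit 0) (nat_lit 0) (XT.lf (nat_lit 0) (nat_lit 287297386385) (nat_lit 152) (nat_lit 69588810698) (nat_lit 0) (nat_lit 286856053339) (nat_lit 1) (nat_lit 5) (nat_lit 3) (nat_lit 4) (nat_lit 1) (nat_lit 4) (nat_lit 319) (nat_lit 204) (nat_lit 197)) (XT.nd (nat_lit 78) (nat_lit 0) (nat_lit 0) (XT.lf (nat_lit 0) (nat_lit 310815132163) (nat_lit 152) (nat_lit 74047169971) (nat_lit 0) (nat_lit 310328001659) (nat_lit 1) (nat_lit 5) (nat_lit 3)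 (nat_lit 4) (nat_lit 1) (nat_lit 4) (nat_lit 320) (nat_lit 204) (nat_lit 196)) (XT.lf (nat_lit 0) (nat_lit 336190046565) (nat_lit 152) (nat_lit 78905655625) (nat_lit 0) (nat_lit 335660511008) (nat_lit 1) (nat_lit 5) (nat_lit 3) (nat_lit 4) (nat_lit 1) (nat_lit 4) (nat_lit 321) (nat_lit 204) (nat_lit 195))))) (XT.nd (nat_lit 234) (nat_lit 0) (nat_lit 0) (XT.nd (nat_lit 78) (nat_lit 0) (nat_lit 0) (XT.lf (nat_lit 0) (nat_lit 363572499455) (nat_lit 152) (nat_lit 84193058687) (nat_lit 0) (nat_lit 363003699960) (nat_lit 1) (nat_lit 5) (nat_lit 3) (nat_lit 4) (nat_lit 1) (nat_lit 4) (nat_lit 322) (nat_lit 204) (nat_lit 194)) (XT.nd (nat_lit 78) (nat_lit 0) (nat_lit 0) (XT.lf (nat_lit 0) (nat_lit 393124757220) (nat_lit 152) (nat_lit 89940711915) (nat_lit 0) (nat_lit 392519602226) (nat_lit 1) (nat_lit 5) (nat_lit 3) (nat_lit 4) (nat_lit 1) (nat_lit 4) (nat_lit 323) (nat_lit 204) (nat_lit 193))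 (XT.lf (nat_lit 0) (nat_lit 425021944351) (nat_lit 152) (nat_lit 96182675478) (nat_lit 0) (nat_lit 424383126858) (nat_lit 1) (nat_lit 5) (nat_lit 3) (nat_lit 4) (nat_lit 1) (nat_lit 4) (nat_lit 324) (nat_lit 204) (nat_lit 192)))) (XT.nd (nat_lit 78) (nat_lit 0) (nat_lit 0) (XT.lf (nat_lit 0) (nat_lit 459453081215) (nat_lit 152) (nat_lit 102955938788) (nat_lit 0) (nat_lit 458783094742) (nat_lit 1) (nat_lit 5) (nat_lit 3) (nat_lit 4) (nat_lit 1) (nat_lit 4) (nat_lit 325) (nat_lit 204) (nat_lit 191)) (XT.nd (nat_lit 78) (nat_lit 0) (nat_lit 0) (XT.lf (nat_lit 0) (nat_lit 496622204179) (nat_lit 152) (nat_lit 110300639702) (nat_lit 0) (nat_lit 495923357540) (nat_lit 1) (nat_lit 5) (nat_lit 3) (nat_lit 4) (nat_lit 1) (nat_lit 4) (nat_lit 326) (nat_lit 204) (nat_lit 190)) (XT.lf (nat_lit 0) (nat_lit 536749574714) (nat_lit 152) (nat_lit 118260302373) (nat_lit 0) (nat_lit 536024005698) (nat_lit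 1) (nat_lit 5) (nat_lit 3) (nat_lit 4) (nat_lit 1) (nat_lit 4) (nat_lit 327) (nat_lit 204) (nat_lit 189))))))) (XT.nd (nat_lit 36270) (nat_lit 0) (nat_lit 0) (XT.nd (nat_lit 390) (nat_lit 0) (nat_lit 0) (XT.nd (nat_lit 156) (nat_lit 0) (nat_lit 0) (XT.nd (nat_lit 78) (nat_lit 0) (nat_lit 0) (XT.lf (nat_lit 0) (nat_lit 580072984643) (nat_lit 152) (nat_lit 126882095175) (nat_lit 0) (nat_lit 579322672686) (nat_lit 1) (nat_lit 5) (nat_lit 3) (nat_lit 4) (nat_lit 1) (nat_lit 4) (nat_lit 328) (nat_lit 204) (nat_lit 188)) (XT.lf (nat_lit 0) (nat_lit 626849165286) (nat_lit 152) (nat_lit 136217110210) (nat_lit 0) (nat_lit 626075943197) (nat_lit 1) (nat_lit 5) (nat_lit 3) (nat_lit 4) (nat_lit 1) (nat_lit 4) (nat_lit 329) (nat_lit 204) (nat_lit 187))) (XT.nd (nat_lit 78) (nat_lit 0) (nat_lit 0) (XT.lf (nat_lit 0) (nat_lit 677355308823) (nat_lit 152) (nat_lit 146320666088) (nat_lit 0) (nat_lit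 676560873651) (nat_lit 1) (nat_lit 5) (nat_lit 3) (nat_lit 4) (nat_lit 1) (nat_lit 4) (nat_lit 330) (nat_lit 204) (nat_lit 186)) (XT.nd (nat_lit 78) (nat_lit 0) (nat_lit 0) (XT.lf (nat_lit 0) (nat_lit 731890710920) (nat_lit 152) (nat_lit 157252635732) (nat_lit 0) (nat_lit 731076634004) (nat_lit 1) (nat_lit 5) (nat_lit 3) (nat_lit 4) (nat_lit 1) (nat_lit 4) (nat_lit 331) (nat_lit 204) (nat_lit 185)) (XT.lf (nat_lit 0) (nat_lit 790778544331) (nat_lit 152) (nat_lit 169077801184) (nat_lit 0) (nat_lit 789946280614) (nat_lit 1) (nat_lit 5) (nat_lit 3) (nat_lit 4) (nat_lit 1) (nat_lit 4) (nat_lit 332) (nat_lit 204) (nat_lit 184))))) (XT.nd (nat_lit 234) (nat_lit 0) (nat_lit 0) (XT.nd (nat_lit 78) (nat_lit 0) (nat_lit 0) (XT.lf (nat_lit 0) (nat_lit 854367773994) (nat_lit 152) (nat_lit 181866237500) (nat_lit 0) (nat_lit 853518670647) (nat_lit 1) (nat_lit 5) (nat_lit 3) (nat_lit 4) (nat_lit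 1) (nat_lit 4) (nat_lit 333) (nat_lit 204) (nat_lit 183)) (XT.nd (nat_lit 78) (nat_lit 0) (nat_lit 0) (XT.lf (nat_lit 0) (nat_lit 923035224974) (nat_lit 152) (nat_lit 195693728004) (nat_lit 0) (nat_lit 922170529376) (nat_lit 1) (nat_lit 5) (nat_lit 3) (nat_lit 4) (nat_lit 1) (nat_lit 4) (nat_lit 334) (nat_lit 204) (nat_lit 182)) (XT.lf (nat_lit 0) (nat_lit 997187815499) (nat_lit 152) (nat_lit 210642213382) (nat_lit 0) (nat_lit 996308682632) (nat_lit 1) (nat_lit 5) (nat_lit 3) (nat_lit 4) (nat_lit 1) (nat_lit 4) (nat_lit 335) (nat_lit 204) (nat_lit 181)))) (XT.nd (nat_lit 35490) (nat_lit 0) (nat_lit 0) (XT.lf (nat_lit 0) (nat_lit 1077264968327) (nat_lit 152) (nat_lit 226800277251) (nat_lit 0) (nat_lit 1076372467619) (nat_lit 1) (nat_lit 5) (nat_lit 3) (nat_lit 4) (nat_lit 1) (nat_lit 4) (nat_lit 336) (nat_lit 204) (nat_lit 180)) (XT.nd (nat_lit 78) (nat_lit 0) (nat_lit 0) (XT.lf (nat_lit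 0) (nat_lit 69676612411) (nat_lit 152) (nat_lit 21869087037) (nat_lit 0) (nat_lit 69676612411) (nat_lit 1) (nat_lit 5) (nat_lit 3) (nat_lit 4) (nat_lit 1) (nat_lit 4) (nat_lit 310) (nat_lit 205) (nat_lit 205)) (XT.lf (nat_lit 0) (nat_lit 151330548143) (nat_lit 152) (nat_lit 45587494871) (nat_lit 0) (nat_lit 151245780245) (nat_lit 1) (nat_lit 5) (nat_lit 3) (nat_lit 4) (nat_lit 1) (nat_lit 4) (nat_lit 311) (nat_lit 205) (nat_lit 204)))))) (XT.nd (nat_lit 468) (nat_lit 0) (nat_lit 0) (XT.nd (nat_lit 234) (nat_lit 0) (nat_lit 0) (XT.nd (nat_lit 78) (nat_lit 0) (nat_lit 0) (XT.lf (nat_lit 0) (nat_lit 164221170352) (nat_lit 152) (nat_lit 47665198390) (nat_lit 0) (nat_lit 164057913659) (nat_lit 1) (nat_lit 5) (nat_lit 3) (nat_lit 4) (nat_lit 1) (nat_lit 4) (nat_lit 312) (nat_lit 205) (nat_lit 203)) (XT.nd (nat_lit 78) (nat_lit 0) (nat_lit 0) (XT.lf (nat_lit 0) (nat_lit 178101480319) (nat_lit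 152) (nat_lit 49983596947) (nat_lit 0) (nat_lit 177865548817) (nat_lit 1) (nat_lit 5) (nat_lit 3) (nat_lit 4) (nat_lit 1) (nat_lit 4) (nat_lit 313) (nat_lit 205) (nat_lit 202)) (XT.lf (nat_lit 0) (nat_lit 193053731735) (nat_lit 152) (nat_lit 52556429202) (nat_lit 0) (nat_lit 192750508743) (nat_lit 1) (nat_lit 5) (nat_lit 3) (nat_lit 4) (nat_lit 1) (nat_lit 4) (nat_lit 314) (nat_lit 205) (nat_lit 201)))) (XT.nd (nat_lit 78) (nat_lit 0) (nat_lit 0) (XT.lf (nat_lit 0) (nat_lit 209166530534) (nat_lit 152) (nat_lit 55398941568) (nat_lit 0) (nat_lit 208801000606) (nat_lit 1) (nat_lit 5) (nat_lit 3) (nat_lit 4) (nat_lit 1) (nat_lit 4) (nat_lit 315) (nat_lit 205) (nat_lit 200)) (XT.nd (nat_lit 78) (nat_lit 0) (nat_lit 0) (XT.lf (nat_lit 0) (nat_lit 226535359967) (nat_lit 152) (nat_lit 58527978562) (nat_lit 0) (nat_lit 226112138432) (nat_lit 1) (nat_lit 5) (nat_lit 3) (nat_lit 4) (nat_lit 1)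 (nat_lit 4) (nat_lit 316) (nat_lit 205) (nat_lit 199)) (XT.lf (nat_lit 0) (nat_lit 245263146431) (nat_lit 152) (nat_lit 61962082626) (nat_lit 0) (nat_lit 244786506742) (nat_lit 1) (nat_lit 5) (nat_lit 3) (nat_lit 4) (nat_lit 1) (nat_lit 4) (nat_lit 317) (nat_lit 205) (nat_lit 198))))) (XT.nd (nat_lit 234) (nat_lit 0) (nat_lit 0) (XT.nd (nat_lit 78) (nat_lit 0) (nat_lit 0) (XT.lf (nat_lit 0) (nat_lit 265460869402) (nat_lit 152) (nat_lit 65721604006) (nat_lit 0) (nat_lit 264934768459) (nat_lit 1) (nat_lit 5) (nat_lit 3) (nat_lit 4) (nat_lit 1) (nat_lit 4) (nat_lit 318) (nat_lit 205) (nat_lit 197)) (XT.nd (nat_lit 78) (nat_lit 0) (nat_lit 0) (XT.lf (nat_lit 0) (nat_lit 287248219090) (nat_lit 152) (nat_lit 69828821348) (nat_lit 0) (nat_lit 286676320689) (nat_lit 1) (nat_lit 5) (nat_lit 3) (nat_lit 4) (nat_lit 1) (nat_lit 4) (nat_lit 319) (nat_lit 205) (nat_lit 196)) (XT.lf (nat_lit 0)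 (nat_lit 310754305716) (nat_lit 152) (nat_lit 74308073716) (nat_lit 0) (nat_lit 310140002261) (nat_lit 1) (nat_lit 5) (nat_lit 3) (nat_lit 4) (nat_lit 1) (nat_lit 4) (nat_lit 320) (nat_lit 205) (nat_lit 195)))) (XT.nd (nat_lit 78) (nat_lit 0) (nat_lit 0) (XT.lf (nat_lit 0) (nat_lit 336118424606) (nat_lit 152) (nat_lit 79185904830) (nat_lit 0) (nat_lit 335464857213) (nat_lit 1) (nat_lit 5) (nat_lit 3) (nat_lit 4) (nat_lit 1) (nat_lit 4) (nat_lit 321) (nat_lit 205) (nat_lit 194)) (XT.nd (nat_lit 78) (nat_lit 0) (nat_lit 0) (XT.lf (nat_lit 0) (nat_lit 363490881652) (nat_lit 152) (nat_lit 84491220354) (nat_lit 0) (nat_lit 362800958760) (nat_lit 1) (nat_lit 5) (nat_lit 3) (nat_lit 4) (nat_lit 1) (nat_lit 4) (nat_lit 322) (nat_lit 205) (nat_lit 193)) (XT.lf (nat_lit 0) (nat_lit 393033884006) (nat_lit 152) (nat_lit 90255459196) (nat_lit 0) (nat_lit 392310298615) (nat_lit 1) (nat_lit 5) (nat_lit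 3) (nat_lit 4) (nat_lit 1) (nat_lit 4) (nat_lit 323) (nat_lit 205) (nat_lit 192))))))))
noncomputable def xc4 : XT := (XT.nd (nat_lit 37050) (nat_lit 0) (nat_lit 0) (XT.nd (nat_lit 858) (nat_lit 0) (nat_lit 0) (XT.nd (nat_lit 390) (nat_lit 0) (nat_lit 0) (XT.nd (nat_lit 156) (nat_lit 0) (nat_lit 0) (XT.nd (nat_lit 78) (nat_lit 0) (nat_lit 0) (XT.lf (nat_lit 0) (nat_lit 424922501311) (nat_lit 152) (nat_lit 96512779807) (nat_lit 0) (nat_lit 424167746940) (nat_lit 1) (nat_lit 5) (nat_lit 3) (nat_lit 4) (nat_lit 1) (nat_lit 4) (nat_lit 324) (nat_lit 205) (nat_lit 191)) (XT.lf (nat_lit 0) (nat_lit 459345703152) (nat_lit 152) (nat_lit 103300262607) (nat_lit 0) (nat_lit 458562088614) (nat_lit 1) (nat_lit 5) (nat_lit 3) (nat_lit 4) (nat_lit 1) (nat_lit 4) (nat_lit 325) (nat_lit 205) (nat_lit 190))) (XT.nd (nat_lit 78) (nat_lit 0) (nat_lit 0) (XT.lf (nat_lit 0) (nat_lit 496507478872) (nat_lit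 152) (nat_lit 110658129716) (nat_lit 0) (nat_lit 495697141958) (nat_lit 1) (nat_lit 5) (nat_lit 3) (nat_lit 4) (nat_lit 1) (nat_lit 4) (nat_lit 326) (nat_lit 205) (nat_lit 189)) (XT.nd (nat_lit 78) (nat_lit 0) (nat_lit 0) (XT.lf (nat_lit 0) (nat_lit 536628046403) (nat_lit 152) (nat_lit 118629983309) (nat_lit 0) (nat_lit 535792966547) (nat_lit 1) (nat_lit 5) (nat_lit 3) (nat_lit 4) (nat_lit 1) (nat_lit 4) (nat_lit 327) (nat_lit 205) (nat_lit 188)) (XT.lf (nat_lit 0) (nat_lit 579945157255) (nat_lit 152) (nat_lit 127263063999) (nat_lit 0) (nat_lit 579087167268) (nat_lit 1) (nat_lit 5) (nat_lit 3) (nat_lit 4) (nat_lit 1) (nat_lit 4) (nat_lit 328) (nat_lit 205) (nat_lit 187))))) (XT.nd (nat_lit 234) (nat_lit 0) (nat_lit 0) (XT.nd (nat_lit 78) (nat_lit 0) (nat_lit 0) (XT.lf (nat_lit 0) (nat_lit 626715505418) (nat_lit 152) (nat_lit 136608530785) (nat_lit 0) (nat_lit 625836302348) (nat_lit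 1) (nat_lit 5) (nat_lit 3) (nat_lit 4) (nat_lit 1) (nat_lit 4) (nat_lit 329) (nat_lit 205) (nat_lit 186)) (XT.nd (nat_lit 78) (nat_lit 0) (nat_lit 0) (XT.lf (nat_lit 0) (nat_lit 677216248512) (nat_lit 152) (nat_lit 146721764209) (nat_lit 0) (nat_lit 676317403697) (nat_lit 1) (nat_lit 5) (nat_lit 3) (nat_lit 4) (nat_lit 1) (nat_lit 4) (nat_lit 330) (nat_lit 205) (nat_lit 185)) (XT.lf (nat_lit 0) (nat_lit 731746650199) (nat_lit 152) (nat_lit 157662694544) (nat_lit 0) (nat_lit 730829618583) (nat_lit 1) (nat_lit 5) (nat_lit 3) (nat_lit 4) (nat_lit 1) (nat_lit 4) (nat_lit 331) (nat_lit 205) (nat_lit 184)))) (XT.nd (nat_lit 78) (nat_lit 0) (nat_lit 0) (XT.lf (nat_lit 0) (nat_lit 790629853599) (nat_lit 152) (nat_lit 169496156932) (nat_lit 0) (nat_lit 789695982354) (nat_lit 1) (nat_lit 5) (nat_lit 3) (nat_lit 4) (nat_lit 1) (nat_lit 4) (nat_lit 332) (nat_lit 205) (nat_lit 183)) (XT.nd (nat_lit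 78) (nat_lit 0) (nat_lit 0) (XT.lf (nat_lit 0) (nat_lit 854214796216) (nat_lit 152) (nat_lit 182292275595) (nat_lit 0) (nat_lit 853265332720) (nat_lit 1) (nat_lit 5) (nat_lit 3) (nat_lit 4) (nat_lit 1) (nat_lit 4) (nat_lit 333) (nat_lit 205) (nat_lit 182)) (XT.lf (nat_lit 0) (nat_lit 922878277709) (nat_lit 152) (nat_lit 196126879385) (nat_lit 0) (nat_lit 921914376944) (nat_lit 1) (nat_lit 5) (nat_lit 3) (nat_lit 4) (nat_lit 1) (nat_lit 4) (nat_lit 334) (nat_lit 205) (nat_lit 181)))))) (XT.nd (nat_lit 35724) (nat_lit 0) (nat_lit 0) (XT.nd (nat_lit 35490) (nat_lit 0) (nat_lit 0) (XT.nd (nat_lit 78) (nat_lit 0) (nat_lit 0) (XT.lf (nat_lit 0) (nat_lit 997027192782) (nat_lit 152) (nat_lit 211081951138) (nat_lit 0) (nat_lit 996049924176) (nat_lit 1) (nat_lit 5) (nat_lit 3) (nat_lit 4) (nat_lit 1) (nat_lit 4) (nat_lit 335) (nat_lit 205) (nat_lit 180)) (XT.nd (nat_lit 35334) (nat_lit 0) (nat_lit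 0) (XT.lf (nat_lit 0) (nat_lit 1077100942415) (nat_lit 152) (nat_lit 227246113502) (nat_lit 0) (nat_lit 1076111296178) (nat_lit 1) (nat_lit 5) (nat_lit 3) (nat_lit 4) (nat_lit 1) (nat_lit 4) (nat_lit 336) (nat_lit 205) (nat_lit 179)) (XT.lf (nat_lit 0) (nat_lit 58988140012) (nat_lit 152) (nat_lit 20318513353) (nat_lit 0) (nat_lit 58988140012) (nat_lit 1) (nat_lit 5) (nat_lit 3) (nat_lit 4) (nat_lit 1) (nat_lit 4) (nat_lit 308) (nat_lit 206) (nat_lit 206)))) (XT.nd (nat_lit 78) (nat_lit 0) (nat_lit 0) (XT.lf (nat_lit 0) (nat_lit 128309772988) (nat_lit 152) (nat_lit 42106277063) (nat_lit 0) (nat_lit 128218223658) (nat_lit 1) (nat_lit 5) (nat_lit 3) (nat_lit 4) (nat_lit 1) (nat_lit 4) (nat_lit 309) (nat_lit 206) (nat_lit 205)) (XT.nd (nat_lit 78) (nat_lit 0) (nat_lit 0) (XT.lf (nat_lit 0) (nat_lit 139421467452) (nat_lit 152) (nat_lit 43779939471) (nat_lit 0) (nat_lit 139245150224) (nat_lit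 1) (nat_lit 5) (nat_lit 3) (nat_lit 4) (nat_lit 1) (nat_lit 4) (nat_lit 310) (nat_lit 206) (nat_lit 204)) (XT.lf (nat_lit 0) (nat_lit 151377210495) (nat_lit 152) (nat_lit 45667931930) (nat_lit 0) (nat_lit 151122404473) (nat_lit 1) (nat_lit 5) (nat_lit 3) (nat_lit 4) (nat_lit 1) (nat_lit 4) (nat_lit 311) (nat_lit 206) (nat_lit 203))))) (XT.nd (nat_lit 234) (nat_lit 0) (nat_lit 0) (XT.nd (nat_lit 78) (nat_lit 0) (nat_lit 0) (XT.lf (nat_lit 0) (nat_lit 164247850964) (nat_lit 152) (nat_lit 47781442543) (nat_lit 0) (nat_lit 163920370132) (nat_lit 1) (nat_lit 5) (nat_lit 3) (nat_lit 4) (nat_lit 1) (nat_lit 4) (nat_lit 312) (nat_lit 206) (nat_lit 202)) (XT.nd (nat_lit 78) (nat_lit 0) (nat_lit 0) (XT.lf (nat_lit 0) (nat_lit 178109659321) (nat_lit 152) (nat_lit 50132995819) (nat_lit 0) (nat_lit 177714886999) (nat_lit 1) (nat_lit 5) (nat_lit 3) (nat_lit 4) (nat_lit 1) (nat_lit 4) (nat_lit 313)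 (nat_lit 206) (nat_lit 201)) (XT.lf (nat_lit 0) (nat_lit 193044779617) (nat_lit 152) (nat_lit 52736526886) (nat_lit 0) (nat_lit 192587700359) (nat_lit 1) (nat_lit 5) (nat_lit 3) (nat_lit 4) (nat_lit 1) (nat_lit 4) (nat_lit 314) (nat_lit 206) (nat_lit 200)))) (XT.nd (nat_lit 78) (nat_lit 0) (nat_lit 0) (XT.lf (nat_lit 0) (nat_lit 209141716267) (nat_lit 152) (nat_lit 55607464078) (nat_lit 0) (nat_lit 208626945402) (nat_lit 1) (nat_lit 5) (nat_lit 3) (nat_lit 4) (nat_lit 1) (nat_lit 4) (nat_lit 315) (nat_lit 206) (nat_lit 199)) (XT.nd (nat_lit 78) (nat_lit 0) (nat_lit 0) (XT.lf (nat_lit 0) (nat_lit 226495858525) (nat_lit 152) (nat_lit 58762820356) (nat_lit 0) (nat_lit 225927669506) (nat_lit 1) (nat_lit 5) (nat_lit 3) (nat_lit 4) (nat_lit 1) (nat_lit 4) (nat_lit 316) (nat_lit 206) (nat_lit 198)) (XT.lf (nat_lit 0) (nat_lit 245210045754) (nat_lit 152) (nat_lit 62221294127) (nat_lit 0) (nat_lit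 244592395480) (nat_lit 1) (nat_lit 5) (nat_lit 3) (nat_lit 4) (nat_lit 1) (nat_lit 4) (nat_lit 317) (nat_lit 206) (nat_lit 197))))))) (XT.nd (nat_lit 858) (nat_lit 0) (nat_lit 0) (XT.nd (nat_lit 390) (nat_lit 0) (nat_lit 0) (XT.nd (nat_lit 156) (nat_lit 0) (nat_lit 0) (XT.nd (nat_lit 78) (nat_lit 0) (nat_lit 0) (XT.lf (nat_lit 0) (nat_lit 265395176840) (nat_lit 152) (nat_lit 66003380051) (nat_lit 0) (nat_lit 264731729109) (nat_lit 1) (nat_lit 5) (nat_lit 3) (nat_lit 4) (nat_lit 1) (nat_lit 4) (nat_lit 318) (nat_lit 206) (nat_lit 196)) (XT.lf (nat_lit 0) (nat_lit 287170867375) (nat_lit 152) (nat_lit 70131490489) (nat_lit 0) (nat_lit 286465014590) (nat_lit 1) (nat_lit 5) (nat_lit 3) (nat_lit 4) (nat_lit 1) (nat_lit 4) (nat_lit 319) (nat_lit 206) (nat_lit 195))) (XT.nd (nat_lit 78) (nat_lit 0) (nat_lit 0) (XT.lf (nat_lit 0) (nat_lit 310666158488) (nat_lit 152) (nat_lit 74630088317) (nat_lit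 0) (nat_lit 309921041765) (nat_lit 1) (nat_lit 5) (nat_lit 3) (nat_lit 4) (nat_lit 1) (nat_lit 4) (nat_lit 320) (nat_lit 206) (nat_lit 194)) (XT.nd (nat_lit 78) (nat_lit 0) (nat_lit 0) (XT.lf (nat_lit 0) (nat_lit 336020281535) (nat_lit 152) (nat_lit 79525831893) (nat_lit 0) (nat_lit 335238809313) (nat_lit 1) (nat_lit 5) (nat_lit 3) (nat_lit 4) (nat_lit 1) (nat_lit 4) (nat_lit 321) (nat_lit 206) (nat_lit 193)) (XT.lf (nat_lit 0) (nat_lit 363383483169) (nat_lit 152) (nat_lit 84847733030) (nat_lit 0) (nat_lit 362568348449) (nat_lit 1) (nat_lit 5) (nat_lit 3) (nat_lit 4) (nat_lit 1) (nat_lit 4) (nat_lit 322) (nat_lit 206) (nat_lit 192))))) (XT.nd (nat_lit 234) (nat_lit 0) (nat_lit 0) (XT.nd (nat_lit 78) (nat_lit 0) (nat_lit 0) (XT.lf (nat_lit 0) (nat_lit 392917915697) (nat_lit 152) (nat_lit 90627328921) (nat_lit 0) (nat_lit 392071611997) (nat_lit 1) (nat_lit 5) (nat_lit 3) (nat_lit 4)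 (nat_lit 1) (nat_lit 4) (nat_lit 323) (nat_lit 206) (nat_lit 191)) (XT.nd (nat_lit 78) (nat_lit 0) (nat_lit 0) (XT.lf (nat_lit 0) (nat_lit 424798597979) (nat_lit 152) (nat_lit 96898869023) (nat_lit 0) (nat_lit 423923434112) (nat_lit 1) (nat_lit 5) (nat_lit 3) (nat_lit 4) (nat_lit 1) (nat_lit 4) (nat_lit 324) (nat_lit 206) (nat_lit 190)) (XT.lf (nat_lit 0) (nat_lit 459214452576) (nat_lit 152) (nat_lit 103699518017) (nat_lit 0) (nat_lit 458312566332) (nat_lit 1) (nat_lit 5) (nat_lit 3) (nat_lit 4) (nat_lit 1) (nat_lit 4) (nat_lit 325) (nat_lit 206) (nat_lit 189)))) (XT.nd (nat_lit 78) (nat_lit 0) (nat_lit 0) (XT.lf (nat_lit 0) (nat_lit 496369425293) (nat_lit 152) (nat_lit 111069576047) (nat_lit 0) (nat_lit 495442796108) (nat_lit 1) (nat_lit 5) (nat_lit 3) (nat_lit 4) (nat_lit 1) (nat_lit 4) (nat_lit 326) (nat_lit 206) (nat_lit 188)) (XT.nd (nat_lit 78) (nat_lit 0) (nat_lit 0) (XT.lf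 (nat_lit 0) (nat_lit 536483693746) (nat_lit 152) (nat_lit 119052717529) (nat_lit 0) (nat_lit 535534154430) (nat_lit 1) (nat_lit 5) (nat_lit 3) (nat_lit 4) (nat_lit 1) (nat_lit 4) (nat_lit 327) (nat_lit 206) (nat_lit 187)) (XT.lf (nat_lit 0) (nat_lit 579794972119) (nat_lit 152) (nat_lit 127696249970) (nat_lit 0) (nat_lit 578824219718) (nat_lit 1) (nat_lit 5) (nat_lit 3) (nat_lit 4) (nat_lit 1) (nat_lit 4) (nat_lit 328) (nat_lit 206) (nat_lit 186)))))) (XT.nd (nat_lit 468) (nat_lit 0) (nat_lit 0) (XT.nd (nat_lit 234) (nat_lit 0) (nat_lit 0) (XT.nd (nat_lit 78) (nat_lit 0) (nat_lit 0) (XT.lf (nat_lit 0) (nat_lit 626559919838) (nat_lit 152) (nat_lit 137051394301) (nat_lit 0) (nat_lit 625569525694) (nat_lit 1) (nat_lit 5) (nat_lit 3) (nat_lit 4) (nat_lit 1) (nat_lit 4) (nat_lit 329) (nat_lit 206) (nat_lit 185)) (XT.nd (nat_lit 78) (nat_lit 0) (nat_lit 0) (XT.lf (nat_lit 0) (nat_lit 677055662521)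 (nat_lit 152) (nat_lit 147173588416) (nat_lit 0) (nat_lit 676047081576) (nat_lit 1) (nat_lit 5) (nat_lit 3) (nat_lit 4) (nat_lit 1) (nat_lit 4) (nat_lit 330) (nat_lit 206) (nat_lit 184)) (XT.lf (nat_lit 0) (nat_lit 731581434198) (nat_lit 152) (nat_lit 158122815687) (nat_lit 0) (nat_lit 730556013623) (nat_lit 1) (nat_lit 5) (nat_lit 3) (nat_lit 4) (nat_lit 1) (nat_lit 4) (nat_lit 331) (nat_lit 206) (nat_lit 183)))) (XT.nd (nat_lit 78) (nat_lit 0) (nat_lit 0) (XT.lf (nat_lit 0) (nat_lit 790460350553) (nat_lit 152) (nat_lit 169963960423) (nat_lit 0) (nat_lit 789419337727) (nat_lit 1) (nat_lit 5) (nat_lit 3) (nat_lit 4) (nat_lit 1) (nat_lit 4) (nat_lit 332) (nat_lit 206) (nat_lit 182)) (XT.nd (nat_lit 78) (nat_lit 0) (nat_lit 0) (XT.lf (nat_lit 0) (nat_lit 854041323682) (nat_lit 152) (nat_lit 182767192371) (nat_lit 0) (nat_lit 852985873588) (nat_lit 1) (nat_lit 5) (nat_lit 3) (nat_lit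 4) (nat_lit 1) (nat_lit 4) (nat_lit 333) (nat_lit 206) (nat_lit 181)) (XT.lf (nat_lit 0) (nat_lit 922701129723) (nat_lit 152) (nat_lit 196608382536) (nat_lit 0) (nat_lit 921632311788) (nat_lit 1) (nat_lit 5) (nat_lit 3) (nat_lit 4) (nat_lit 1) (nat_lit 4) (nat_lit 334) (nat_lit 206) (nat_lit 180))))) (XT.nd (nat_lit 35334) (nat_lit 0) (nat_lit 0) (XT.nd (nat_lit 78) (nat_lit 0) (nat_lit 0) (XT.lf (nat_lit 0) (nat_lit 996846641601) (nat_lit 152) (nat_lit 211569552785) (nat_lit 0) (nat_lit 995765446035) (nat_lit 1) (nat_lit 5) (nat_lit 3) (nat_lit 4) (nat_lit 1) (nat_lit 4) (nat_lit 335) (nat_lit 206) (nat_lit 179)) (XT.nd (nat_lit 35178) (nat_lit 0) (nat_lit 0) (XT.lf (nat_lit 0) (nat_lit 1076917240127) (nat_lit 152) (nat_lit 227739361904) (nat_lit 0) (nat_lit 1075824583791) (nat_lit 1) (nat_lit 5) (nat_lit 3) (nat_lit 4) (nat_lit 1) (nat_lit 4) (nat_lit 336) (nat_lit 206) (nat_lit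 178)) (XT.lf (nat_lit 0) (nat_lit 49764631720) (nat_lit 152) (nat_lit 19114690025) (nat_lit 0) (nat_lit 49764631720) (nat_lit 1) (nat_lit 5) (nat_lit 3) (nat_lit 4) (nat_lit 1) (nat_lit 4) (nat_lit 306) (nat_lit 207) (nat_lit 207)))) (XT.nd (nat_lit 78) (nat_lit 0) (nat_lit 0) (XT.lf (nat_lit 0) (nat_lit 108458626322) (nat_lit 152) (nat_lit 39363481733) (nat_lit 0) (nat_lit 108359753046) (nat_lit 1) (nat_lit 5) (nat_lit 3) (nat_lit 4) (nat_lit 1) (nat_lit 4) (nat_lit 307) (nat_lit 207) (nat_lit 206)) (XT.nd (nat_lit 78) (nat_lit 0) (nat_lit 0) (XT.lf (nat_lit 0) (nat_lit 118049982063) (nat_lit 152) (nat_lit 40682133334) (nat_lit 0) (nat_lit 117859559457) (nat_lit 1) (nat_lit 5) (nat_lit 3) (nat_lit 4) (nat_lit 1) (nat_lit 4) (nat_lit 308) (nat_lit 207) (nat_lit 205)) (XT.lf (nat_lit 0) (nat_lit 128360168327) (nat_lit 152) (nat_lit 42193149086) (nat_lit 0) (nat_lit 128084977823) (nat_lit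 1) (nat_lit 5) (nat_lit 3) (nat_lit 4) (nat_lit 1) (nat_lit 4) (nat_lit 309) (nat_lit 207) (nat_lit 204))))))))
noncomputable def xc5 : XT := (XT.nd (nat_lit 1794) (nat_lit 0) (nat_lit 0) (XT.nd (nat_lit 858) (nat_lit 0) (nat_lit 0) (XT.nd (nat_lit 390) (nat_lit 0) (nat_lit 0) (XT.nd (nat_lit 156) (nat_lit 0) (nat_lit 0) (XT.nd (nat_lit 78) (nat_lit 0) (nat_lit 0) (XT.lf (nat_lit 0) (nat_lit 139450282513) (nat_lit 152) (nat_lit 43905483157) (nat_lit 0) (nat_lit 139096603215) (nat_lit 1) (nat_lit 5) (nat_lit 3) (nat_lit 4) (nat_lit 1) (nat_lit 4) (nat_lit 310) (nat_lit 207) (nat_lit 203)) (XT.lf (nat_lit 0) (nat_lit 151386043817) (nat_lit 152) (nat_lit 45829282711) (nat_lit 0) (nat_lit 150959689709) (nat_lit 1) (nat_lit 5) (nat_lit 3) (nat_lit 4) (nat_lit 1) (nat_lit 4) (nat_lit 311) (nat_lit 207) (nat_lit 202))) (XT.nd (nat_lit 78) (nat_lit 0) (nat_lit 0) (XT.lf (nat_lit 0) (nat_lit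 164238182676) (nat_lit 152) (nat_lit 47975948042) (nat_lit 0) (nat_lit 163744537078) (nat_lit 1) (nat_lit 5) (nat_lit 3) (nat_lit 4) (nat_lit 1) (nat_lit 4) (nat_lit 312) (nat_lit 207) (nat_lit 201)) (XT.nd (nat_lit 78) (nat_lit 0) (nat_lit 0) (XT.lf (nat_lit 0) (nat_lit 178082859913) (nat_lit 152) (nat_lit 50358200130) (nat_lit 0) (nat_lit 177526907379) (nat_lit 1) (nat_lit 5) (nat_lit 3) (nat_lit 4) (nat_lit 1) (nat_lit 4) (nat_lit 313) (nat_lit 207) (nat_lit 200)) (XT.lf (nat_lit 0) (nat_lit 193002118060) (nat_lit 152) (nat_lit 52990156024) (nat_lit 0) (nat_lit 192388473919) (nat_lit 1) (nat_lit 5) (nat_lit 3) (nat_lit 4) (nat_lit 1) (nat_lit 4) (nat_lit 314) (nat_lit 207) (nat_lit 199))))) (XT.nd (nat_lit 234) (nat_lit 0) (nat_lit 0) (XT.nd (nat_lit 78) (nat_lit 0) (nat_lit 0) (XT.lf (nat_lit 0) (nat_lit 209084367535) (nat_lit 152) (nat_lit 55887412500) (nat_lit 0) (nat_lit 208417305239)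 (nat_lit 1) (nat_lit 5) (nat_lit 3) (nat_lit 4) (nat_lit 1) (nat_lit 4) (nat_lit 315) (nat_lit 207) (nat_lit 198)) (XT.nd (nat_lit 78) (nat_lit 0) (nat_lit 0) (XT.lf (nat_lit 0) (nat_lit 226424910557) (nat_lit 152) (nat_lit 59067138485) (nat_lit 0) (nat_lit 225708387008) (nat_lit 1) (nat_lit 5) (nat_lit 3) (nat_lit 4) (nat_lit 1) (nat_lit 4) (nat_lit 316) (nat_lit 207) (nat_lit 197)) (XT.lf (nat_lit 0) (nat_lit 245126505901) (nat_lit 152) (nat_lit 62548176800) (nat_lit 0) (nat_lit 244364184894) (nat_lit 1) (nat_lit 5) (nat_lit 3) (nat_lit 4) (nat_lit 1) (nat_lit 4) (nat_lit 317) (nat_lit 207) (nat_lit 196)))) (XT.nd (nat_lit 78) (nat_lit 0) (nat_lit 0) (XT.lf (nat_lit 0) (nat_lit 265299977834) (nat_lit 152) (nat_lit 66351155820) (nat_lit 0) (nat_lit 264495251774) (nat_lit 1) (nat_lit 5) (nat_lit 3) (nat_lit 4) (nat_lit 1) (nat_lit 4) (nat_lit 318) (nat_lit 207) (nat_lit 195)) (XT.nd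 (nat_lit 78) (nat_lit 0) (nat_lit 0) (XT.lf (nat_lit 0) (nat_lit 287064872858) (nat_lit 152) (nat_lit 70498611717) (nat_lit 0) (nat_lit 286220882859) (nat_lit 1) (nat_lit 5) (nat_lit 3) (nat_lit 4) (nat_lit 1) (nat_lit 4) (nat_lit 319) (nat_lit 207) (nat_lit 194)) (XT.lf (nat_lit 0) (nat_lit 310550168127) (nat_lit 152) (nat_lit 75015122007) (nat_lit 0) (nat_lit 309669822629) (nat_lit 1) (nat_lit 5) (nat_lit 3) (nat_lit 4) (nat_lit 1) (nat_lit 4) (nat_lit 320) (nat_lit 207) (nat_lit 193)))))) (XT.nd (nat_lit 468) (nat_lit 0) (nat_lit 0) (XT.nd (nat_lit 234) (nat_lit 0) (nat_lit 0) (XT.nd (nat_lit 78) (nat_lit 0) (nat_lit 0) (XT.lf (nat_lit 0) (nat_lit 335895035762) (nat_lit 152) (nat_lit 79927451196) (nat_lit 0) (nat_lit 334981027765) (nat_lit 1) (nat_lit 5) (nat_lit 3) (nat_lit 4) (nat_lit 1) (nat_lit 4) (nat_lit 321) (nat_lit 207) (nat_lit 192)) (XT.nd (nat_lit 78) (nat_lit 0) (nat_lit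 0) (XT.lf (nat_lit 0) (nat_lit 363249667571) (nat_lit 152) (nat_lit 85264709383) (nat_lit 0) (nat_lit 362304490594) (nat_lit 1) (nat_lit 5) (nat_lit 3) (nat_lit 4) (nat_lit 1) (nat_lit 4) (nat_lit 322) (nat_lit 207) (nat_lit 191)) (XT.lf (nat_lit 0) (nat_lit 392776165075) (nat_lit 152) (nat_lit 91058524764) (nat_lit 0) (nat_lit 391802127932) (nat_lit 1) (nat_lit 5) (nat_lit 3) (nat_lit 4) (nat_lit 1) (nat_lit 4) (nat_lit 323) (nat_lit 207) (nat_lit 190)))) (XT.nd (nat_lit 78) (nat_lit 0) (nat_lit 0) (XT.lf (nat_lit 0) (nat_lit 424649500113) (nat_lit 152) (nat_lit 97343231060) (nat_lit 0) (nat_lit 423648740593) (nat_lit 1) (nat_lit 5) (nat_lit 3) (nat_lit 4) (nat_lit 1) (nat_lit 4) (nat_lit 324) (nat_lit 207) (nat_lit 189)) (XT.nd (nat_lit 78) (nat_lit 0) (nat_lit 0) (XT.lf (nat_lit 0) (nat_lit 459058551706) (nat_lit 152) (nat_lit 104156070975) (nat_lit 0) (nat_lit 458033049245) (nat_lit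 1) (nat_lit 5) (nat_lit 3) (nat_lit 4) (nat_lit 1) (nat_lit 4) (nat_lit 325) (nat_lit 207) (nat_lit 188)) (XT.lf (nat_lit 0) (nat_lit 496207225346) (nat_lit 152) (nat_lit 111537416895) (nat_lit 0) (nat_lit 495158812754) (nat_lit 1) (nat_lit 5) (nat_lit 3) (nat_lit 4) (nat_lit 1) (nat_lit 4) (nat_lit 326) (nat_lit 207) (nat_lit 187))))) (XT.nd (nat_lit 234) (nat_lit 0) (nat_lit 0) (XT.nd (nat_lit 78) (nat_lit 0) (nat_lit 0) (XT.lf (nat_lit 0) (nat_lit 536315661320) (nat_lit 152) (nat_lit 119531010127) (nat_lit 0) (nat_lit 535246035643) (nat_lit 1) (nat_lit 5) (nat_lit 3) (nat_lit 4) (nat_lit 1) (nat_lit 4) (nat_lit 327) (nat_lit 207) (nat_lit 186)) (XT.nd (nat_lit 78) (nat_lit 0) (nat_lit 0) (XT.lf (nat_lit 0) (nat_lit 579621539249) (nat_lit 152) (nat_lit 128184220113) (nat_lit 0) (nat_lit 578532271828) (nat_lit 1) (nat_lit 5) (nat_lit 3) (nat_lit 4) (nat_lit 1) (nat_lit 4) (nat_lit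 328) (nat_lit 207) (nat_lit 185)) (XT.lf (nat_lit 0) (nat_lit 626381486558) (nat_lit 152) (nat_lit 137548325136) (nat_lit 0) (nat_lit 625274032336) (nat_lit 1) (nat_lit 5) (nat_lit 3) (nat_lit 4) (nat_lit 1) (nat_lit 4) (nat_lit 329) (nat_lit 207) (nat_lit 184)))) (XT.nd (nat_lit 78) (nat_lit 0) (nat_lit 0) (XT.lf (nat_lit 0) (nat_lit 676872599231) (nat_lit 152) (nat_lit 147678816186) (nat_lit 0) (nat_lit 675748305379) (nat_lit 1) (nat_lit 5) (nat_lit 3) (nat_lit 4) (nat_lit 1) (nat_lit 4) (nat_lit 330) (nat_lit 207) (nat_lit 183)) (XT.nd (nat_lit 78) (nat_lit 0) (nat_lit 0) (XT.lf (nat_lit 0) (nat_lit 731394083861) (nat_lit 152) (nat_lit 158635725805) (nat_lit 0) (nat_lit 730254197760) (nat_lit 1) (nat_lit 5) (nat_lit 3) (nat_lit 4) (nat_lit 1) (nat_lit 4) (nat_lit 331) (nat_lit 207) (nat_lit 182)) (XT.lf (nat_lit 0) (nat_lit 790269030729) (nat_lit 152) (nat_lit 170483983826) (nat_lit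 0) (nat_lit 789114707358) (nat_lit 1) (nat_lit 5) (nat_lit 3) (nat_lit 4) (nat_lit 1) (nat_lit 4) (nat_lit 332) (nat_lit 207) (nat_lit 181))))))) (XT.nd (nat_lit 35802) (nat_lit 0) (nat_lit 0) (XT.nd (nat_lit 35334) (nat_lit 0) (nat_lit 0) (XT.nd (nat_lit 156) (nat_lit 0) (nat_lit 0) (XT.nd (nat_lit 78) (nat_lit 0) (nat_lit 0) (XT.lf (nat_lit 0) (nat_lit 853846328407) (nat_lit 152) (nat_lit 183293802150) (nat_lit 0) (nat_lit 852678637195) (nat_lit 1) (nat_lit 5) (nat_lit 3) (nat_lit 4) (nat_lit 1) (nat_lit 4) (nat_lit 333) (nat_lit 207) (nat_lit 180)) (XT.lf (nat_lit 0) (nat_lit 922502731253) (nat_lit 152) (nat_lit 197141090811) (nat_lit 0) (nat_lit 921322662410) (nat_lit 1) (nat_lit 5) (nat_lit 3) (nat_lit 4) (nat_lit 1) (nat_lit 4) (nat_lit 334) (nat_lit 207) (nat_lit 179))) (XT.nd (nat_lit 78) (nat_lit 0) (nat_lit 0) (XT.lf (nat_lit 0) (nat_lit 996645092023) (nat_lit 152) (nat_lit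 212107907814) (nat_lit 0) (nat_lit 995453562412) (nat_lit 1) (nat_lit 5) (nat_lit 3) (nat_lit 4) (nat_lit 1) (nat_lit 4) (nat_lit 335) (nat_lit 207) (nat_lit 178)) (XT.nd (nat_lit 35022) (nat_lit 0) (nat_lit 0) (XT.lf (nat_lit 0) (nat_lit 1076712772857) (nat_lit 152) (nat_lit 228282945411) (nat_lit 0) (nat_lit 1075510631422) (nat_lit 1) (nat_lit 5) (nat_lit 3) (nat_lit 4) (nat_lit 1) (nat_lit 4) (nat_lit 336) (nat_lit 207) (nat_lit 177)) (XT.lf (nat_lit 0) (nat_lit 41792304750) (nat_lit 152) (nat_lit 18218192734) (nat_lit 0) (nat_lit 41792304750) (nat_lit 1) (nat_lit 5) (nat_lit 3) (nat_lit 4) (nat_lit 1) (nat_lit 4) (nat_lit 304) (nat_lit 208) (nat_lit 208))))) (XT.nd (nat_lit 234) (nat_lit 0) (nat_lit 0) (XT.nd (nat_lit 78) (nat_lit 0) (nat_lit 0) (XT.lf (nat_lit 0) (nat_lit 91315761812) (nat_lit 152) (nat_lit 37273107686) (nat_lit 0) (nat_lit 91208978674) (nat_lit 1) (nat_lit 5)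 (nat_lit 3) (nat_lit 4) (nat_lit 1) (nat_lit 4) (nat_lit 305) (nat_lit 208) (nat_lit 207)) (XT.nd (nat_lit 78) (nat_lit 0) (nat_lit 0) (XT.lf (nat_lit 0) (nat_lit 99608861643) (nat_lit 152) (nat_lit 38278095209) (nat_lit 0) (nat_lit 99403205229) (nat_lit 1) (nat_lit 5) (nat_lit 3) (nat_lit 4) (nat_lit 1) (nat_lit 4) (nat_lit 306) (nat_lit 208) (nat_lit 206)) (XT.lf (nat_lit 0) (nat_lit 108513053289) (nat_lit 152) (nat_lit 39457303518) (nat_lit 0) (nat_lit 108215847545) (nat_lit 1) (nat_lit 5) (nat_lit 3) (nat_lit 4) (nat_lit 1) (nat_lit 4) (nat_lit 307) (nat_lit 208) (nat_lit 205)))) (XT.nd (nat_lit 78) (nat_lit 0) (nat_lit 0) (XT.lf (nat_lit 0) (nat_lit 118081102329) (nat_lit 152) (nat_lit 40817720514) (nat_lit 0) (nat_lit 117699128687) (nat_lit 1) (nat_lit 5) (nat_lit 3) (nat_lit 4) (nat_lit 1) (nat_lit 4) (nat_lit 308) (nat_lit 208) (nat_lit 204)) (XT.nd (nat_lit 78) (nat_lit 0)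 (nat_lit 0) (XT.lf (nat_lit 0) (nat_lit 128369708315) (nat_lit 152) (nat_lit 42367407929) (nat_lit 0) (nat_lit 127909245878) (nat_lit 1) (nat_lit 5) (nat_lit 3) (nat_lit 4) (nat_lit 1) (nat_lit 4) (nat_lit 309) (nat_lit 208) (nat_lit 203)) (XT.lf (nat_lit 0) (nat_lit 139439840762) (nat_lit 152) (nat_lit 44115549095) (nat_lit 0) (nat_lit 138906703516) (nat_lit 1) (nat_lit 5) (nat_lit 3) (nat_lit 4) (nat_lit 1) (nat_lit 4) (nat_lit 310) (nat_lit 208) (nat_lit 202)))))) (XT.nd (nat_lit 468) (nat_lit 0) (nat_lit 0) (XT.nd (nat_lit 234) (nat_lit 0) (nat_lit 0) (XT.nd (nat_lit 78) (nat_lit 0) (nat_lit 0) (XT.lf (nat_lit 0) (nat_lit 151357100456) (nat_lit 152) (nat_lit 46072503367) (nat_lit 0) (nat_lit 150756671719) (nat_lit 1) (nat_lit 5) (nat_lit 3) (nat_lit 4) (nat_lit 1) (nat_lit 4) (nat_lit 311) (nat_lit 208) (nat_lit 201)) (XT.nd (nat_lit 78) (nat_lit 0) (nat_lit 0) (XT.lf (nat_lit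 0) (nat_lit 164192108194) (nat_lit 152) (nat_lit 48249867510) (nat_lit 0) (nat_lit 163529372522) (nat_lit 1) (nat_lit 5) (nat_lit 3) (nat_lit 4) (nat_lit 1) (nat_lit 4) (nat_lit 312) (nat_lit 208) (nat_lit 200)) (XT.lf (nat_lit 0) (nat_lit 178020923283) (nat_lit 152) (nat_lit 50660544425) (nat_lit 0) (nat_lit 177300496003) (nat_lit 1) (nat_lit 5) (nat_lit 3) (nat_lit 4) (nat_lit 1) (nat_lit 4) (nat_lit 313) (nat_lit 208) (nat_lit 199)))) (XT.nd (nat_lit 78) (nat_lit 0) (nat_lit 0) (XT.lf (nat_lit 0) (nat_lit 192925494255) (nat_lit 152) (nat_lit 53318819603) (nat_lit 0) (nat_lit 192151648821) (nat_lit 1) (nat_lit 5) (nat_lit 3) (nat_lit 4) (nat_lit 1) (nat_lit 4) (nat_lit 314) (nat_lit 208) (nat_lit 198)) (XT.nd (nat_lit 78) (nat_lit 0) (nat_lit 0) (XT.lf (nat_lit 0) (nat_lit 208994144494) (nat_lit 152) (nat_lit 56240445786) (nat_lit 0) (nat_lit 208170837806) (nat_lit 1) (nat_lit 5)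 (nat_lit 3) (nat_lit 4) (nat_lit 1) (nat_lit 4) (nat_lit 315) (nat_lit 208) (nat_lit 197)) (XT.lf (nat_lit 0) (nat_lit 226322095632) (nat_lit 152) (nat_lit 59442736315) (nat_lit 0) (nat_lit 225452991486) (nat_lit 1) (nat_lit 5) (nat_lit 3) (nat_lit 4) (nat_lit 1) (nat_lit 4) (nat_lit 316) (nat_lit 208) (nat_lit 196))))) (XT.nd (nat_lit 234) (nat_lit 0) (nat_lit 0) (XT.nd (nat_lit 78) (nat_lit 0) (nat_lit 0) (XT.lf (nat_lit 0) (nat_lit 245012031822) (nat_lit 152) (nat_lit 62944667726) (nat_lit 0) (nat_lit 244100522623) (nat_lit 1) (nat_lit 5) (nat_lit 3) (nat_lit 4) (nat_lit 1) (nat_lit 4) (nat_lit 317) (nat_lit 208) (nat_lit 195)) (XT.nd (nat_lit 78) (nat_lit 0) (nat_lit 0) (XT.lf (nat_lit 0) (nat_lit 265174708244) (nat_lit 152) (nat_lit 66766992205) (nat_lit 0) (nat_lit 264223935106) (nat_lit 1) (nat_lit 5) (nat_lit 3) (nat_lit 4) (nat_lit 1) (nat_lit 4) (nat_lit 318) (nat_lit 208)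 (nat_lit 194)) (XT.lf (nat_lit 0) (nat_lit 286929607423) (nat_lit 152) (nat_lit 70932360564) (nat_lit 0) (nat_lit 285942478787) (nat_lit 1) (nat_lit 5) (nat_lit 3) (nat_lit 4) (nat_lit 1) (nat_lit 4) (nat_lit 319) (nat_lit 208) (nat_lit 193)))) (XT.nd (nat_lit 78) (nat_lit 0) (nat_lit 0) (XT.lf (nat_lit 0) (nat_lit 310405647281) (nat_lit 152) (nat_lit 75465456468) (nat_lit 0) (nat_lit 309384856146) (nat_lit 1) (nat_lit 5) (nat_lit 3) (nat_lit 4) (nat_lit 1) (nat_lit 4) (nat_lit 320) (nat_lit 208) (nat_lit 192)) (XT.nd (nat_lit 78) (nat_lit 0) (nat_lit 0) (XT.lf (nat_lit 0) (nat_lit 335741945090) (nat_lit 152) (nat_lit 80393142706) (nat_lit 0) (nat_lit 334689984975) (nat_lit 1) (nat_lit 5) (nat_lit 3) (nat_lit 4) (nat_lit 1) (nat_lit 4) (nat_lit 321) (nat_lit 208) (nat_lit 191)) (XT.lf (nat_lit 0) (nat_lit 363088641876) (nat_lit 152) (nat_lit 85744620383) (nat_lit 0) (nat_lit 362007821594)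 (nat_lit 1) (nat_lit 5) (nat_lit 3) (nat_lit 4) (nat_lit 1) (nat_lit 4) (nat_lit 322) (nat_lit 208) (nat_lit 190))))))))
noncomputable def xc6 : XT := (XT.nd (nat_lit 36582) (nat_lit 0) (nat_lit 0) (XT.nd (nat_lit 858) (nat_lit 0) (nat_lit 0) (XT.nd (nat_lit 390) (nat_lit 0) (nat_lit 0) (XT.nd (nat_lit 156) (nat_lit 0) (nat_lit 0) (XT.nd (nat_lit 78) (nat_lit 0) (nat_lit 0) (XT.lf (nat_lit 0) (nat_lit 392607792136) (nat_lit 152) (nat_lit 91551601959) (nat_lit 0) (nat_lit 391500249478) (nat_lit 1) (nat_lit 5) (nat_lit 3) (nat_lit 4) (nat_lit 1) (nat_lit 4) (nat_lit 323) (nat_lit 208) (nat_lit 189)) (XT.lf (nat_lit 0) (nat_lit 424474324170) (nat_lit 152) (nat_lit 97848499176) (nat_lit 0) (nat_lit 423342038571) (nat_lit 1) (nat_lit 5) (nat_lit 3) (nat_lit 4) (nat_lit 1) (nat_lit 4) (nat_lit 324) (nat_lit 208) (nat_lit 188))) (XT.nd (nat_lit 78) (nat_lit 0) (nat_lit 0) (XT.lf (nat_lit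 0) (nat_lit 458877076686) (nat_lit 152) (nat_lit 104672626981) (nat_lit 0) (nat_lit 457721880956) (nat_lit 1) (nat_lit 5) (nat_lit 3) (nat_lit 4) (nat_lit 1) (nat_lit 4) (nat_lit 325) (nat_lit 208) (nat_lit 187)) (XT.nd (nat_lit 78) (nat_lit 0) (nat_lit 0) (XT.lf (nat_lit 0) (nat_lit 496019917846) (nat_lit 152) (nat_lit 112064424650) (nat_lit 0) (nat_lit 494843509032) (nat_lit 1) (nat_lit 5) (nat_lit 3) (nat_lit 4) (nat_lit 1) (nat_lit 4) (nat_lit 326) (nat_lit 208) (nat_lit 186)) (XT.lf (nat_lit 0) (nat_lit 536122953377) (nat_lit 152) (nat_lit 120067695428) (nat_lit 0) (nat_lit 534926902818) (nat_lit 1) (nat_lit 5) (nat_lit 3) (nat_lit 4) (nat_lit 1) (nat_lit 4) (nat_lit 327) (nat_lit 208) (nat_lit 185))))) (XT.nd (nat_lit 234) (nat_lit 0) (nat_lit 0) (XT.nd (nat_lit 78) (nat_lit 0) (nat_lit 0) (XT.lf (nat_lit 0) (nat_lit 579423830895) (nat_lit 152) (nat_lit 128729866105) (nat_lit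 0) (nat_lit 578209593535) (nat_lit 1) (nat_lit 5) (nat_lit 3) (nat_lit 4) (nat_lit 1) (nat_lit 4) (nat_lit 328) (nat_lit 208) (nat_lit 184)) (XT.nd (nat_lit 78) (nat_lit 0) (nat_lit 0) (XT.lf (nat_lit 0) (nat_lit 626179148194) (nat_lit 152) (nat_lit 138102268063) (nat_lit 0) (nat_lit 624948071204) (nat_lit 1) (nat_lit 5) (nat_lit 3) (nat_lit 4) (nat_lit 1) (nat_lit 4) (nat_lit 329) (nat_lit 208) (nat_lit 183)) (XT.lf (nat_lit 0) (nat_lit 676665973821) (nat_lit 152) (nat_lit 148240441462) (nat_lit 0) (nat_lit 675419304581) (nat_lit 1) (nat_lit 5) (nat_lit 3) (nat_lit 4) (nat_lit 1) (nat_lit 4) (nat_lit 330) (nat_lit 208) (nat_lit 182)))) (XT.nd (nat_lit 78) (nat_lit 0) (nat_lit 0) (XT.lf (nat_lit 0) (nat_lit 731183488964) (nat_lit 152) (nat_lit 159204464366) (nat_lit 0) (nat_lit 729922382455) (nat_lit 1) (nat_lit 5) (nat_lit 3) (nat_lit 4) (nat_lit 1) (nat_lit 4) (nat_lit 331) (nat_lit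 208) (nat_lit 181)) (XT.nd (nat_lit 78) (nat_lit 0) (nat_lit 0) (XT.lf (nat_lit 0) (nat_lit 790054760380) (nat_lit 152) (nat_lit 171059308763) (nat_lit 0) (nat_lit 788780286030) (nat_lit 1) (nat_lit 5) (nat_lit 3) (nat_lit 4) (nat_lit 1) (nat_lit 4) (nat_lit 332) (nat_lit 208) (nat_lit 180)) (XT.lf (nat_lit 0) (nat_lit 853628654863) (nat_lit 152) (nat_lit 183875225582) (nat_lit 0) (nat_lit 852341802882) (nat_lit 1) (nat_lit 5) (nat_lit 3) (nat_lit 4) (nat_lit 1) (nat_lit 4) (nat_lit 333) (nat_lit 208) (nat_lit 179)))))) (XT.nd (nat_lit 35256) (nat_lit 0) (nat_lit 0) (XT.nd (nat_lit 35022) (nat_lit 0) (nat_lit 0) (XT.nd (nat_lit 78) (nat_lit 0) (nat_lit 0) (XT.lf (nat_lit 0) (nat_lit 922281906601) (nat_lit 152) (nat_lit 197728160998) (nat_lit 0) (nat_lit 920983593851) (nat_lit 1) (nat_lit 5) (nat_lit 3) (nat_lit 4) (nat_lit 1) (nat_lit 4) (nat_lit 334) (nat_lit 208) (nat_lit 178)) (XT.nd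 (nat_lit 78) (nat_lit 0) (nat_lit 0) (XT.lf (nat_lit 0) (nat_lit 996421349681) (nat_lit 152) (nat_lit 212700206479) (nat_lit 0) (nat_lit 995112425107) (nat_lit 1) (nat_lit 5) (nat_lit 3) (nat_lit 4) (nat_lit 1) (nat_lit 4) (nat_lit 335) (nat_lit 208) (nat_lit 177)) (XT.lf (nat_lit 0) (nat_lit 1076486328948) (nat_lit 152) (nat_lit 228880085257) (nat_lit 0) (nat_lit 1075167578612) (nat_lit 1) (nat_lit 5) (nat_lit 3) (nat_lit 4) (nat_lit 1) (nat_lit 4) (nat_lit 336) (nat_lit 208) (nat_lit 176)))) (XT.nd (nat_lit 78) (nat_lit 0) (nat_lit 0) (XT.lf (nat_lit 0) (nat_lit 34887491678) (nat_lit 152) (nat_lit 17596024959) (nat_lit 0) (nat_lit 34887491678) (nat_lit 1) (nat_lit 5) (nat_lit 3) (nat_lit 4) (nat_lit 1) (nat_lit 4) (nat_lit 302) (nat_lit 209) (nat_lit 209)) (XT.nd (nat_lit 78) (nat_lit 0) (nat_lit 0) (XT.lf (nat_lit 0) (nat_lit 76484916262) (nat_lit 152) (nat_lit 35762970203) (nat_lit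 0) (nat_lit 76369590472) (nat_lit 1) (nat_lit 5) (nat_lit 3) (nat_lit 4) (nat_lit 1) (nat_lit 4) (nat_lit 303) (nat_lit 209) (nat_lit 208)) (XT.lf (nat_lit 0) (nat_lit 83670575560) (nat_lit 152) (nat_lit 36488997839) (nat_lit 0) (nat_lit 83448466632) (nat_lit 1) (nat_lit 5) (nat_lit 3) (nat_lit 4) (nat_lit 1) (nat_lit 4) (nat_lit 304) (nat_lit 209) (nat_lit 207))))) (XT.nd (nat_lit 234) (nat_lit 0) (nat_lit 0) (XT.nd (nat_lit 78) (nat_lit 0) (nat_lit 0) (XT.lf (nat_lit 0) (nat_lit 91374542936) (nat_lit 152) (nat_lit 37374435214) (nat_lit 0) (nat_lit 91053560732) (nat_lit 1) (nat_lit 5) (nat_lit 3) (nat_lit 4) (nat_lit 1) (nat_lit 4) (nat_lit 305) (nat_lit 209) (nat_lit 206)) (XT.nd (nat_lit 78) (nat_lit 0) (nat_lit 0) (XT.lf (nat_lit 0) (nat_lit 99642471530) (nat_lit 152) (nat_lit 38424529364) (nat_lit 0) (nat_lit 99229939997) (nat_lit 1) (nat_lit 5) (nat_lit 3) (nat_lit 4) (nat_lit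 1) (nat_lit 4) (nat_lit 306) (nat_lit 209) (nat_lit 205)) (XT.lf (nat_lit 0) (nat_lit 108523356476) (nat_lit 152) (nat_lit 39645503068) (nat_lit 0) (nat_lit 108026057044) (nat_lit 1) (nat_lit 5) (nat_lit 3) (nat_lit 4) (nat_lit 1) (nat_lit 4) (nat_lit 307) (nat_lit 209) (nat_lit 204)))) (XT.nd (nat_lit 78) (nat_lit 0) (nat_lit 0) (XT.lf (nat_lit 0) (nat_lit 118069825238) (nat_lit 152) (nat_lit 41044591728) (nat_lit 0) (nat_lit 117494037013) (nat_lit 1) (nat_lit 5) (nat_lit 3) (nat_lit 4) (nat_lit 1) (nat_lit 4) (nat_lit 308) (nat_lit 209) (nat_lit 203)) (XT.nd (nat_lit 78) (nat_lit 0) (nat_lit 0) (XT.lf (nat_lit 0) (nat_lit 128338449485) (nat_lit 152) (nat_lit 42630086238) (nat_lit 0) (nat_lit 127689986449) (nat_lit 1) (nat_lit 5) (nat_lit 3) (nat_lit 4) (nat_lit 1) (nat_lit 4) (nat_lit 309) (nat_lit 209) (nat_lit 202)) (XT.lf (nat_lit 0) (nat_lit 139390080322) (nat_lit 152) (nat_lit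 44411382121) (nat_lit 0) (nat_lit 138674325796) (nat_lit 1) (nat_lit 5) (nat_lit 3) (nat_lit 4) (nat_lit 1) (nat_lit 4) (nat_lit 310) (nat_lit 209) (nat_lit 201))))))) (XT.nd (nat_lit 858) (nat_lit 0) (nat_lit 0) (XT.nd (nat_lit 390) (nat_lit 0) (nat_lit 0) (XT.nd (nat_lit 156) (nat_lit 0) (nat_lit 0) (XT.nd (nat_lit 78) (nat_lit 0) (nat_lit 0) (XT.lf (nat_lit 0) (nat_lit 151290208895) (nat_lit 152) (nat_lit 46399035205) (nat_lit 0) (nat_lit 150512147433) (nat_lit 1) (nat_lit 5) (nat_lit 3) (nat_lit 4) (nat_lit 1) (nat_lit 4) (nat_lit 311) (nat_lit 209) (nat_lit 200)) (XT.lf (nat_lit 0) (nat_lit 164109354485) (nat_lit 152) (nat_lit 48604824176) (nat_lit 0) (nat_lit 163273601416) (nat_lit 1) (nat_lit 5) (nat_lit 3) (nat_lit 4) (nat_lit 1) (nat_lit 4) (nat_lit 312) (nat_lit 209) (nat_lit 199))) (XT.nd (nat_lit 78) (nat_lit 0) (nat_lit 0) (XT.lf (nat_lit 0) (nat_lit 177923482398) (nat_lit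 152) (nat_lit 51041820374) (nat_lit 0) (nat_lit 177034311175) (nat_lit 1) (nat_lit 5) (nat_lit 3) (nat_lit 4) (nat_lit 1) (nat_lit 4) (nat_lit 313) (nat_lit 209) (nat_lit 198)) (XT.nd (nat_lit 78) (nat_lit 0) (nat_lit 0) (XT.lf (nat_lit 0) (nat_lit 192814454135) (nat_lit 152) (nat_lit 53724465259) (nat_lit 0) (nat_lit 191875821657) (nat_lit 1) (nat_lit 5) (nat_lit 3) (nat_lit 4) (nat_lit 1) (nat_lit 4) (nat_lit 314) (nat_lit 209) (nat_lit 197)) (XT.lf (nat_lit 0) (nat_lit 208870512489) (nat_lit 152) (nat_lit 56668655986) (nat_lit 0) (nat_lit 207886082554) (nat_lit 1) (nat_lit 5) (nat_lit 3) (nat_lit 4) (nat_lit 1) (nat_lit 4) (nat_lit 315) (nat_lit 209) (nat_lit 196))))) (XT.nd (nat_lit 234) (nat_lit 0) (nat_lit 0) (XT.nd (nat_lit 78) (nat_lit 0) (nat_lit 0) (XT.lf (nat_lit 0) (nat_lit 226186804474) (nat_lit 152) (nat_lit 59891839611) (nat_lit 0) (nat_lit 225159969485) (nat_lit 1)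 (nat_lit 5) (nat_lit 3) (nat_lit 4) (nat_lit 1) (nat_lit 4) (nat_lit 316) (nat_lit 209) (nat_lit 195)) (XT.nd (nat_lit 78) (nat_lit 0) (nat_lit 0) (XT.lf (nat_lit 0) (nat_lit 244865945153) (nat_lit 152) (nat_lit 63413116481) (nat_lit 0) (nat_lit 243799846226) (nat_lit 1) (nat_lit 5) (nat_lit 3) (nat_lit 4) (nat_lit 1) (nat_lit 4) (nat_lit 317) (nat_lit 209) (nat_lit 194)) (XT.lf (nat_lit 0) (nat_lit 265018625730) (nat_lit 152) (nat_lit 67253353423) (nat_lit 0) (nat_lit 263916171305) (nat_lit 1) (nat_lit 5) (nat_lit 3) (nat_lit 4) (nat_lit 1) (nat_lit 4) (nat_lit 318) (nat_lit 209) (nat_lit 193)))) (XT.nd (nat_lit 78) (nat_lit 0) (nat_lit 0) (XT.lf (nat_lit 0) (nat_lit 286764269498) (nat_lit 152) (nat_lit 71435307395) (nat_lit 0) (nat_lit 285628152574) (nat_lit 1) (nat_lit 5) (nat_lit 3) (nat_lit 4) (nat_lit 1) (nat_lit 4) (nat_lit 319) (nat_lit 209) (nat_lit 192)) (XT.nd (nat_lit 78)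 (nat_lit 0) (nat_lit 0) (XT.lf (nat_lit 0) (nat_lit 310231739530) (nat_lit 152) (nat_lit 75983760348) (nat_lit 0) (nat_lit 309064453626) (nat_lit 1) (nat_lit 5) (nat_lit 3) (nat_lit 4) (nat_lit 1) (nat_lit 4) (nat_lit 320) (nat_lit 209) (nat_lit 191)) (XT.lf (nat_lit 0) (nat_lit 335560102316) (nat_lit 152) (nat_lit 80925666077) (nat_lit 0) (nat_lit 334363956245) (nat_lit 1) (nat_lit 5) (nat_lit 3) (nat_lit 4) (nat_lit 1) (nat_lit 4) (nat_lit 321) (nat_lit 209) (nat_lit 190)))))) (XT.nd (nat_lit 468) (nat_lit 0) (nat_lit 0) (XT.nd (nat_lit 234) (nat_lit 0) (nat_lit 0) (XT.nd (nat_lit 78) (nat_lit 0) (nat_lit 0) (XT.lf (nat_lit 0) (nat_lit 362899451857) (nat_lit 152) (nat_lit 86290309948) (nat_lit 0) (nat_lit 361676583410) (nat_lit 1) (nat_lit 5) (nat_lit 3) (nat_lit 4) (nat_lit 1) (nat_lit 4) (nat_lit 322) (nat_lit 209) (nat_lit 189)) (XT.nd (nat_lit 78) (nat_lit 0) (nat_lit 0) (XT.lf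 (nat_lit 0) (nat_lit 392411799115) (nat_lit 152) (nat_lit 92109482445) (nat_lit 0) (nat_lit 391164187726) (nat_lit 1) (nat_lit 5) (nat_lit 3) (nat_lit 4) (nat_lit 1) (nat_lit 4) (nat_lit 323) (nat_lit 209) (nat_lit 188)) (XT.lf (nat_lit 0) (nat_lit 424272032071) (nat_lit 152) (nat_lit 98417667551) (nat_lit 0) (nat_lit 423001510551) (nat_lit 1) (nat_lit 5) (nat_lit 3) (nat_lit 4) (nat_lit 1) (nat_lit 4) (nat_lit 324) (nat_lit 209) (nat_lit 187)))) (XT.nd (nat_lit 78) (nat_lit 0) (nat_lit 0) (XT.lf (nat_lit 0) (nat_lit 458668952108) (nat_lit 152) (nat_lit 105252247106) (nat_lit 0) (nat_lit 457377217504) (nat_lit 1) (nat_lit 5) (nat_lit 3) (nat_lit 4) (nat_lit 1) (nat_lit 4) (nat_lit 325) (nat_lit 209) (nat_lit 186)) (XT.nd (nat_lit 78) (nat_lit 0) (nat_lit 0) (XT.lf (nat_lit 0) (nat_lit 495806392824) (nat_lit 152) (nat_lit 112653722321) (nat_lit 0) (nat_lit 494495016476) (nat_lit 1)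 (nat_lit 5) (nat_lit 3) (nat_lit 4) (nat_lit 1) (nat_lit 4) (nat_lit 326) (nat_lit 209) (nat_lit 185)) (XT.lf (nat_lit 0) (nat_lit 535904427944) (nat_lit 152) (nat_lit 120665953790) (nat_lit 0) (nat_lit 534574864795) (nat_lit 1) (nat_lit 5) (nat_lit 3) (nat_lit 4) (nat_lit 1) (nat_lit 4) (nat_lit 327) (nat_lit 209) (nat_lit 184))))) (XT.nd (nat_lit 234) (nat_lit 0) (nat_lit 0) (XT.nd (nat_lit 78) (nat_lit 0) (nat_lit 0) (XT.lf (nat_lit 0) (nat_lit 579200675452) (nat_lit 152) (nat_lit 129336421403) (nat_lit 0) (nat_lit 577854272673) (nat_lit 1) (nat_lit 5) (nat_lit 3) (nat_lit 4) (nat_lit 1) (nat_lit 4) (nat_lit 328) (nat_lit 209) (nat_lit 183)) (XT.nd (nat_lit 78) (nat_lit 0) (nat_lit 0) (XT.lf (nat_lit 0) (nat_lit 625951705705) (nat_lit 152) (nat_lit 138716505710) (nat_lit 0) (nat_lit 624589710676) (nat_lit 1) (nat_lit 5) (nat_lit 3) (nat_lit 4) (nat_lit 1) (nat_lit 4) (nat_lit 329)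 (nat_lit 209) (nat_lit 182)) (XT.lf (nat_lit 0) (nat_lit 676434561844) (nat_lit 152) (nat_lit 148861792393) (nat_lit 0) (nat_lit 675058129546) (nat_lit 1) (nat_lit 5) (nat_lit 3) (nat_lit 4) (nat_lit 1) (nat_lit 4) (nat_lit 330) (nat_lit 209) (nat_lit 181)))) (XT.nd (nat_lit 78) (nat_lit 0) (nat_lit 0) (XT.lf (nat_lit 0) (nat_lit 730948401536) (nat_lit 152) (nat_lit 159832401673) (nat_lit 0) (nat_lit 729558601397) (nat_lit 1) (nat_lit 5) (nat_lit 3) (nat_lit 4) (nat_lit 1) (nat_lit 4) (nat_lit 331) (nat_lit 209) (nat_lit 180)) (XT.nd (nat_lit 78) (nat_lit 0) (nat_lit 0) (XT.lf (nat_lit 0) (nat_lit 789816269757) (nat_lit 152) (nat_lit 171693344565) (nat_lit 0) (nat_lit 788414091987) (nat_lit 1) (nat_lit 5) (nat_lit 3) (nat_lit 4) (nat_lit 1) (nat_lit 4) (nat_lit 332) (nat_lit 209) (nat_lit 179)) (XT.lf (nat_lit 0) (nat_lit 853387013133) (nat_lit 152) (nat_lit 184514908139) (nat_lit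 0) (nat_lit 851973374593) (nat_lit 1) (nat_lit 5) (nat_lit 3) (nat_lit 4) (nat_lit 1) (nat_lit 4) (nat_lit 333) (nat_lit 209) (nat_lit 178))))))))
noncomputable def xc7 : XT := (XT.nd (nat_lit 36426) (nat_lit 0) (nat_lit 0) (XT.nd (nat_lit 35490) (nat_lit 0) (nat_lit 0) (XT.nd (nat_lit 35022) (nat_lit 0) (nat_lit 0) (XT.nd (nat_lit 156) (nat_lit 0) (nat_lit 0) (XT.nd (nat_lit 78) (nat_lit 0) (nat_lit 0) (XT.lf (nat_lit 0) (nat_lit 922037347180) (nat_lit 152) (nat_lit 198373072032) (nat_lit 0) (nat_lit 920613096817) (nat_lit 1) (nat_lit 5) (nat_lit 3) (nat_lit 4) (nat_lit 1) (nat_lit 4) (nat_lit 334) (nat_lit 209) (nat_lit 177)) (XT.lf (nat_lit 0) (nat_lit 996174088692) (nat_lit 152) (nat_lit 213349958695) (nat_lit 0) (nat_lit 994740012567) (nat_lit 1) (nat_lit 5) (nat_lit 3) (nat_lit 4) (nat_lit 1) (nat_lit 4) (nat_lit 335) (nat_lit 209) (nat_lit 176))) (XT.nd (nat_lit 34710) (nat_lit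 0) (nat_lit 0) (XT.lf (nat_lit 0) (nat_lit 1076236566510) (nat_lit 152) (nat_lit 229534320050) (nat_lit 0) (nat_lit 1074793392456) (nat_lit 1) (nat_lit 5) (nat_lit 3) (nat_lit 4) (nat_lit 1) (nat_lit 4) (nat_lit 336) (nat_lit 209) (nat_lit 175)) (XT.nd (nat_lit 78) (nat_lit 0) (nat_lit 0) (XT.lf (nat_lit 0) (nat_lit 28892313499) (nat_lit 152) (nat_lit 17220765261) (nat_lit 0) (nat_lit 28892313499) (nat_lit 1) (nat_lit 5) (nat_lit 3) (nat_lit 4) (nat_lit 1) (nat_lit 4) (nat_lit 300) (nat_lit 210) (nat_lit 210)) (XT.lf (nat_lit 0) (nat_lit 63625566134) (nat_lit 152) (nat_lit 34772853757) (nat_lit 0) (nat_lit 63501014281) (nat_lit 1) (nat_lit 5) (nat_lit 3) (nat_lit 4) (nat_lit 1) (nat_lit 4) (nat_lit 301) (nat_lit 210) (nat_lit 209))))) (XT.nd (nat_lit 234) (nat_lit 0) (nat_lit 0) (XT.nd (nat_lit 78) (nat_lit 0) (nat_lit 0) (XT.lf (nat_lit 0) (nat_lit 69867826701) (nat_lit 152) (nat_lit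 35248871279) (nat_lit 0) (nat_lit 69627949059) (nat_lit 1) (nat_lit 5) (nat_lit 3) (nat_lit 4) (nat_lit 1) (nat_lit 4) (nat_lit 302) (nat_lit 210) (nat_lit 208)) (XT.nd (nat_lit 78) (nat_lit 0) (nat_lit 0) (XT.lf (nat_lit 0) (nat_lit 76548399875) (nat_lit 152) (nat_lit 35872403933) (nat_lit 0) (nat_lit 76201739095) (nat_lit 1) (nat_lit 5) (nat_lit 3) (nat_lit 4) (nat_lit 1) (nat_lit 4) (nat_lit 303) (nat_lit 210) (nat_lit 207)) (XT.lf (nat_lit 0) (nat_lit 83706874238) (nat_lit 152) (nat_lit 36647146727) (nat_lit 0) (nat_lit 83261340182) (nat_lit 1) (nat_lit 5) (nat_lit 3) (nat_lit 4) (nat_lit 1) (nat_lit 4) (nat_lit 304) (nat_lit 210) (nat_lit 206)))) (XT.nd (nat_lit 78) (nat_lit 0) (nat_lit 0) (XT.lf (nat_lit 0) (nat_lit 91385670378) (nat_lit 152) (nat_lit 37577690729) (nat_lit 0) (nat_lit 90848586992) (nat_lit 1) (nat_lit 5) (nat_lit 3) (nat_lit 4) (nat_lit 1) (nat_lit 4) (nat_lit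 305) (nat_lit 210) (nat_lit 205)) (XT.nd (nat_lit 78) (nat_lit 0) (nat_lit 0) (XT.lf (nat_lit 0) (nat_lit 99630292272) (nat_lit 152) (nat_lit 38669550274) (nat_lit 0) (nat_lit 99008440988) (nat_lit 1) (nat_lit 5) (nat_lit 3) (nat_lit 4) (nat_lit 1) (nat_lit 4) (nat_lit 306) (nat_lit 210) (nat_lit 204)) (XT.lf (nat_lit 0) (nat_lit 108489596939) (nat_lit 152) (nat_lit 39929195641) (nat_lit 0) (nat_lit 107789256861) (nat_lit 1) (nat_lit 5) (nat_lit 3) (nat_lit 4) (nat_lit 1) (nat_lit 4) (nat_lit 307) (nat_lit 210) (nat_lit 203)))))) (XT.nd (nat_lit 468) (nat_lit 0) (nat_lit 0) (XT.nd (nat_lit 234) (nat_lit 0) (nat_lit 0) (XT.nd (nat_lit 78) (nat_lit 0) (nat_lit 0) (XT.lf (nat_lit 0) (nat_lit 118016083963) (nat_lit 152) (nat_lit 41364091396) (nat_lit 0) (nat_lit 117243069075) (nat_lit 1) (nat_lit 5) (nat_lit 3) (nat_lit 4) (nat_lit 1) (nat_lit 4) (nat_lit 308) (nat_lit 210) (nat_lit 202))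 (XT.nd (nat_lit 78) (nat_lit 0) (nat_lit 0) (XT.lf (nat_lit 0) (nat_lit 128266206599) (nat_lit 152) (nat_lit 42982740623) (nat_lit 0) (nat_lit 127425900221) (nat_lit 1) (nat_lit 5) (nat_lit 3) (nat_lit 4) (nat_lit 1) (nat_lit 4) (nat_lit 309) (nat_lit 210) (nat_lit 201)) (XT.lf (nat_lit 0) (nat_lit 139300706316) (nat_lit 152) (nat_lit 44794735319) (nat_lit 0) (nat_lit 138398093002) (nat_lit 1) (nat_lit 5) (nat_lit 3) (nat_lit 4) (nat_lit 1) (nat_lit 4) (nat_lit 310) (nat_lit 210) (nat_lit 200)))) (XT.nd (nat_lit 78) (nat_lit 0) (nat_lit 0) (XT.lf (nat_lit 0) (nat_lit 151184972740) (nat_lit 152) (nat_lit 46810813230) (nat_lit 0) (nat_lit 150224667819) (nat_lit 1) (nat_lit 5) (nat_lit 3) (nat_lit 4) (nat_lit 1) (nat_lit 4) (nat_lit 311) (nat_lit 210) (nat_lit 199)) (XT.nd (nat_lit 78) (nat_lit 0) (nat_lit 0) (XT.lf (nat_lit 0) (nat_lit 163989431155) (nat_lit 152) (nat_lit 49042921484)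 (nat_lit 0) (nat_lit 162975708080) (nat_lit 1) (nat_lit 5) (nat_lit 3) (nat_lit 4) (nat_lit 1) (nat_lit 4) (nat_lit 312) (nat_lit 210) (nat_lit 198)) (XT.lf (nat_lit 0) (nat_lit 177789959833) (nat_lit 152) (nat_lit 51504287390) (nat_lit 0) (nat_lit 176726775503) (nat_lit 1) (nat_lit 5) (nat_lit 3) (nat_lit 4) (nat_lit 1) (nat_lit 4) (nat_lit 313) (nat_lit 210) (nat_lit 197))))) (XT.nd (nat_lit 234) (nat_lit 0) (nat_lit 0) (XT.nd (nat_lit 78) (nat_lit 0) (nat_lit 0) (XT.lf (nat_lit 0) (nat_lit 192668339684) (nat_lit 152) (nat_lit 54209496819) (nat_lit 0) (nat_lit 191559357897) (nat_lit 1) (nat_lit 5) (nat_lit 3) (nat_lit 4) (nat_lit 1) (nat_lit 4) (nat_lit 314) (nat_lit 210) (nat_lit 196)) (XT.nd (nat_lit 78) (nat_lit 0) (nat_lit 0) (XT.lf (nat_lit 0) (nat_lit 208712738886) (nat_lit 152) (nat_lit 57174580642) (nat_lit 0) (nat_lit 207561352045) (nat_lit 1) (nat_lit 5) (nat_lit 3) (nat_lit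 4) (nat_lit 1) (nat_lit 4) (nat_lit 315) (nat_lit 210) (nat_lit 195)) (XT.lf (nat_lit 0) (nat_lit 226018235359) (nat_lit 152) (nat_lit 60417109726) (nat_lit 0) (nat_lit 224827584579) (nat_lit 1) (nat_lit 5) (nat_lit 3) (nat_lit 4) (nat_lit 1) (nat_lit 4) (nat_lit 316) (nat_lit 210) (nat_lit 194)))) (XT.nd (nat_lit 78) (nat_lit 0) (nat_lit 0) (XT.lf (nat_lit 0) (nat_lit 244687380193) (nat_lit 152) (nat_lit 63956299059) (nat_lit 0) (nat_lit 243460373916) (nat_lit 1) (nat_lit 5) (nat_lit 3) (nat_lit 4) (nat_lit 1) (nat_lit 4) (nat_lit 317) (nat_lit 210) (nat_lit 193)) (XT.nd (nat_lit 78) (nat_lit 0) (nat_lit 0) (XT.lf (nat_lit 0) (nat_lit 264830805359) (nat_lit 152) (nat_lit 67813121614) (nat_lit 0) (nat_lit 263570136583) (nat_lit 1) (nat_lit 5) (nat_lit 3) (nat_lit 4) (nat_lit 1) (nat_lit 4) (nat_lit 318) (nat_lit 210) (nat_lit 192)) (XT.lf (nat_lit 0) (nat_lit 286567879301) (nat_lit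 152) (nat_lit 72010432635) (nat_lit 0) (nat_lit 285276041545) (nat_lit 1) (nat_lit 5) (nat_lit 3) (nat_lit 4) (nat_lit 1) (nat_lit 4) (nat_lit 319) (nat_lit 210) (nat_lit 191))))))) (XT.nd (nat_lit 858) (nat_lit 0) (nat_lit 0) (XT.nd (nat_lit 390) (nat_lit 0) (nat_lit 0) (XT.nd (nat_lit 156) (nat_lit 0) (nat_lit 0) (XT.nd (nat_lit 78) (nat_lit 0) (nat_lit 0) (XT.lf (nat_lit 0) (nat_lit 310027414310) (nat_lit 152) (nat_lit 76573105078) (nat_lit 0) (nat_lit 308706716387) (nat_lit 1) (nat_lit 5) (nat_lit 3) (nat_lit 4) (nat_lit 1) (nat_lit 4) (nat_lit 320) (nat_lit 210) (nat_lit 190)) (XT.lf (nat_lit 0) (nat_lit 335348429852) (nat_lit 152) (nat_lit 81528177001) (nat_lit 0) (nat_lit 334001009552) (nat_lit 1) (nat_lit 5) (nat_lit 3) (nat_lit 4) (nat_lit 1) (nat_lit 4) (nat_lit 321) (nat_lit 210) (nat_lit 189))) (XT.nd (nat_lit 78) (nat_lit 0) (nat_lit 0) (XT.lf (nat_lit 0) (nat_lit 362680976390)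 (nat_lit 152) (nat_lit 86905011794) (nat_lit 0) (nat_lit 361308813149) (nat_lit 1) (nat_lit 5) (nat_lit 3) (nat_lit 4) (nat_lit 1) (nat_lit 4) (nat_lit 322) (nat_lit 210) (nat_lit 188)) (XT.nd (nat_lit 78) (nat_lit 0) (nat_lit 0) (XT.lf (nat_lit 0) (nat_lit 392187024570) (nat_lit 152) (nat_lit 92735472180) (nat_lit 0) (nat_lit 390791951198) (nat_lit 1) (nat_lit 5) (nat_lit 3) (nat_lit 4) (nat_lit 1) (nat_lit 4) (nat_lit 323) (nat_lit 210) (nat_lit 187)) (XT.lf (nat_lit 0) (nat_lit 424041425047) (nat_lit 152) (nat_lit 99054109036) (nat_lit 0) (nat_lit 422625138591) (nat_lit 1) (nat_lit 5) (nat_lit 3) (nat_lit 4) (nat_lit 1) (nat_lit 4) (nat_lit 324) (nat_lit 210) (nat_lit 186))))) (XT.nd (nat_lit 234) (nat_lit 0) (nat_lit 0) (XT.nd (nat_lit 78) (nat_lit 0) (nat_lit 0) (XT.lf (nat_lit 0) (nat_lit 458432944640) (nat_lit 152) (nat_lit 105898366137) (nat_lit 0) (nat_lit 456997016439) (nat_lit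 1) (nat_lit 5) (nat_lit 3) (nat_lit 4) (nat_lit 1) (nat_lit 4) (nat_lit 325) (nat_lit 210) (nat_lit 185)) (XT.nd (nat_lit 78) (nat_lit 0) (nat_lit 0) (XT.lf (nat_lit 0) (nat_lit 495565384946) (nat_lit 152) (nat_lit 113308802043) (nat_lit 0) (nat_lit 494111269945) (nat_lit 1) (nat_lit 5) (nat_lit 3) (nat_lit 4) (nat_lit 1) (nat_lit 4) (nat_lit 326) (nat_lit 210) (nat_lit 184)) (XT.lf (nat_lit 0) (nat_lit 535658790056) (nat_lit 152) (nat_lit 121329330448) (nat_lit 0) (nat_lit 534187835424) (nat_lit 1) (nat_lit 5) (nat_lit 3) (nat_lit 4) (nat_lit 1) (nat_lit 4) (nat_lit 327) (nat_lit 210) (nat_lit 183)))) (XT.nd (nat_lit 78) (nat_lit 0) (nat_lit 0) (XT.lf (nat_lit 0) (nat_lit 578950750518) (nat_lit 152) (nat_lit 130007480409) (nat_lit 0) (nat_lit 577464203636) (nat_lit 1) (nat_lit 5) (nat_lit 3) (nat_lit 4) (nat_lit 1) (nat_lit 4) (nat_lit 328) (nat_lit 210) (nat_lit 182)) (XT.nd (nat_lit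 78) (nat_lit 0) (nat_lit 0) (XT.lf (nat_lit 0) (nat_lit 625697811283) (nat_lit 152) (nat_lit 139394678001) (nat_lit 0) (nat_lit 624196827133) (nat_lit 1) (nat_lit 5) (nat_lit 3) (nat_lit 4) (nat_lit 1) (nat_lit 4) (nat_lit 329) (nat_lit 210) (nat_lit 181)) (XT.lf (nat_lit 0) (nat_lit 676176991971) (nat_lit 152) (nat_lit 149546551060) (nat_lit 0) (nat_lit 674662639980) (nat_lit 1) (nat_lit 5) (nat_lit 3) (nat_lit 4) (nat_lit 1) (nat_lit 4) (nat_lit 330) (nat_lit 210) (nat_lit 180)))))) (XT.nd (nat_lit 34944) (nat_lit 0) (nat_lit 0) (XT.nd (nat_lit 234) (nat_lit 0) (nat_lit 0) (XT.nd (nat_lit 78) (nat_lit 0) (nat_lit 0) (XT.lf (nat_lit 0) (nat_lit 730687428468) (nat_lit 152) (nat_lit 160523258835) (nat_lit 0) (nat_lit 729160698845) (nat_lit 1) (nat_lit 5) (nat_lit 3) (nat_lit 4) (nat_lit 1) (nat_lit 4) (nat_lit 331) (nat_lit 210) (nat_lit 179)) (XT.nd (nat_lit 78) (nat_lit 0) (nat_lit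 0) (XT.lf (nat_lit 0) (nat_lit 789552145581) (nat_lit 152) (nat_lit 172389848482) (nat_lit 0) (nat_lit 788013955189) (nat_lit 1) (nat_lit 5) (nat_lit 3) (nat_lit 4) (nat_lit 1) (nat_lit 4) (nat_lit 332) (nat_lit 210) (nat_lit 178)) (XT.lf (nat_lit 0) (nat_lit 853119971265) (nat_lit 152) (nat_lit 185216640533) (nat_lit 0) (nat_lit 851571169050) (nat_lit 1) (nat_lit 5) (nat_lit 3) (nat_lit 4) (nat_lit 1) (nat_lit 4) (nat_lit 333) (nat_lit 210) (nat_lit 177)))) (XT.nd (nat_lit 78) (nat_lit 0) (nat_lit 0) (XT.lf (nat_lit 0) (nat_lit 921767603746) (nat_lit 152) (nat_lit 199079645608) (nat_lit 0) (nat_lit 920208975768) (nat_lit 1) (nat_lit 5) (nat_lit 3) (nat_lit 4) (nat_lit 1) (nat_lit 4) (nat_lit 334) (nat_lit 210) (nat_lit 176)) (XT.nd (nat_lit 78) (nat_lit 0) (nat_lit 0) (XT.lf (nat_lit 0) (nat_lit 995901843808) (nat_lit 152) (nat_lit 214061014848) (nat_lit 0) (nat_lit 994334117903)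 (nat_lit 1) (nat_lit 5) (nat_lit 3) (nat_lit 4) (nat_lit 1) (nat_lit 4) (nat_lit 335) (nat_lit 210) (nat_lit 175)) (XT.lf (nat_lit 0) (nat_lit 1075962005468) (nat_lit 152) (nat_lit 230249526737) (nat_lit 0) (nat_lit 1074385855554) (nat_lit 1) (nat_lit 5) (nat_lit 3) (nat_lit 4) (nat_lit 1) (nat_lit 4) (nat_lit 336) (nat_lit 210) (nat_lit 174))))) (XT.nd (nat_lit 234) (nat_lit 0) (nat_lit 0) (XT.nd (nat_lit 78) (nat_lit 0) (nat_lit 0) (XT.lf (nat_lit 0) (nat_lit 23670967515) (nat_lit 152) (nat_lit 17069841352) (nat_lit 0) (nat_lit 23670967515) (nat_lit 1) (nat_lit 5) (nat_lit 3) (nat_lit 4) (nat_lit 1) (nat_lit 4) (nat_lit 298) (nat_lit 211) (nat_lit 211)) (XT.nd (nat_lit 78) (nat_lit 0) (nat_lit 0) (XT.lf (nat_lit 0) (nat_lit 52444912326) (nat_lit 152) (nat_lit 34252938177) (nat_lit 0) (nat_lit 52310396325) (nat_lit 1) (nat_lit 5) (nat_lit 3) (nat_lit 4) (nat_lit 1) (nat_lit 4) (nat_lit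 299) (nat_lit 211) (nat_lit 210)) (XT.lf (nat_lit 0) (nat_lit 57884897811) (nat_lit 152) (nat_lit 34502897590) (nat_lit 0) (nat_lit 57625829958) (nat_lit 1) (nat_lit 5) (nat_lit 3) (nat_lit 4) (nat_lit 1) (nat_lit 4) (nat_lit 300) (nat_lit 211) (nat_lit 209)))) (XT.nd (nat_lit 78) (nat_lit 0) (nat_lit 0) (XT.lf (nat_lit 0) (nat_lit 63694128437) (nat_lit 152) (nat_lit 34891042185) (nat_lit 0) (nat_lit 63319734794) (nat_lit 1) (nat_lit 5) (nat_lit 3) (nat_lit 4) (nat_lit 1) (nat_lit 4) (nat_lit 301) (nat_lit 211) (nat_lit 208)) (XT.nd (nat_lit 78) (nat_lit 0) (nat_lit 0) (XT.lf (nat_lit 0) (nat_lit 69907029274) (nat_lit 152) (nat_lit 35419672077) (nat_lit 0) (nat_lit 69425852493) (nat_lit 1) (nat_lit 5) (nat_lit 3) (nat_lit 4) (nat_lit 1) (nat_lit 4) (nat_lit 302) (nat_lit 211) (nat_lit 207)) (XT.lf (nat_lit 0) (nat_lit 76560417513) (nat_lit 152) (nat_lit 36091919889) (nat_lit 0) (nat_lit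 75980367456) (nat_lit 1) (nat_lit 5) (nat_lit 3) (nat_lit 4) (nat_lit 1) (nat_lit 4) (nat_lit 303) (nat_lit 211) (nat_lit 206))))))))
noncomputable def xc8 : XT := (XT.nd (nat_lit 1794) (nat_lit 0) (nat_lit 0) (XT.nd (nat_lit 858) (nat_lit 0) (nat_lit 0) (XT.nd (nat_lit 390) (nat_lit 0) (nat_lit 0) (XT.nd (nat_lit 156) (nat_lit 0) (nat_lit 0) (XT.nd (nat_lit 78) (nat_lit 0) (nat_lit 0) (XT.lf (nat_lit 0) (nat_lit 83693720639) (nat_lit 152) (nat_lit 36911769310) (nat_lit 0) (nat_lit 83022121252) (nat_lit 1) (nat_lit 5) (nat_lit 3) (nat_lit 4) (nat_lit 1) (nat_lit 4) (nat_lit 304) (nat_lit 211) (nat_lit 205)) (XT.lf (nat_lit 0) (nat_lit 91349210078) (nat_lit 152) (nat_lit 37884078708) (nat_lit 0) (nat_lit 90592842794) (nat_lit 1) (nat_lit 5) (nat_lit 3) (nat_lit 4) (nat_lit 1) (nat_lit 4) (nat_lit 305) (nat_lit 211) (nat_lit 204))) (XT.nd (nat_lit 78) (nat_lit 0) (nat_lit 0) (XT.lf (nat_lit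 0) (nat_lit 99572251695) (nat_lit 152) (nat_lit 39014609916) (nat_lit 0) (nat_lit 98737395616) (nat_lit 1) (nat_lit 5) (nat_lit 3) (nat_lit 4) (nat_lit 1) (nat_lit 4) (nat_lit 306) (nat_lit 211) (nat_lit 203)) (XT.nd (nat_lit 78) (nat_lit 0) (nat_lit 0) (XT.lf (nat_lit 0) (nat_lit 108411574623) (nat_lit 152) (nat_lit 40310062378) (nat_lit 0) (nat_lit 107504043734) (nat_lit 1) (nat_lit 5) (nat_lit 3) (nat_lit 4) (nat_lit 1) (nat_lit 4) (nat_lit 307) (nat_lit 211) (nat_lit 202)) (XT.lf (nat_lit 0) (nat_lit 117919560036) (nat_lit 152) (nat_lit 41778112850) (nat_lit 0) (nat_lit 116944737657) (nat_lit 1) (nat_lit 5) (nat_lit 3) (nat_lit 4) (nat_lit 1) (nat_lit 4) (nat_lit 308) (nat_lit 211) (nat_lit 201))))) (XT.nd (nat_lit 234) (nat_lit 0) (nat_lit 0) (XT.nd (nat_lit 78) (nat_lit 0) (nat_lit 0) (XT.lf (nat_lit 0) (nat_lit 128152551552) (nat_lit 152) (nat_lit 43427460890) (nat_lit 0) (nat_lit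 127115422237) (nat_lit 1) (nat_lit 5) (nat_lit 3) (nat_lit 4) (nat_lit 1) (nat_lit 4) (nat_lit 309) (nat_lit 211) (nat_lit 200)) (XT.nd (nat_lit 78) (nat_lit 0) (nat_lit 0) (XT.lf (nat_lit 0) (nat_lit 139171189120) (nat_lit 152) (nat_lit 45267880413) (nat_lit 0) (nat_lit 138076368198) (nat_lit 1) (nat_lit 5) (nat_lit 3) (nat_lit 4) (nat_lit 1) (nat_lit 4) (nat_lit 310) (nat_lit 211) (nat_lit 199)) (XT.lf (nat_lit 0) (nat_lit 151040768369) (nat_lit 152) (nat_lit 47310277608) (nat_lit 0) (nat_lit 149892529293) (nat_lit 1) (nat_lit 5) (nat_lit 3) (nat_lit 4) (nat_lit 1) (nat_lit 4) (nat_lit 311) (nat_lit 211) (nat_lit 198)))) (XT.nd (nat_lit 78) (nat_lit 0) (nat_lit 0) (XT.lf (nat_lit 0) (nat_lit 163831627549) (nat_lit 152) (nat_lit 49566755569) (nat_lit 0) (nat_lit 162633927218) (nat_lit 1) (nat_lit 5) (nat_lit 3) (nat_lit 4) (nat_lit 1) (nat_lit 4) (nat_lit 312) (nat_lit 211) (nat_lit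 197)) (XT.nd (nat_lit 78) (nat_lit 0) (nat_lit 0) (XT.lf (nat_lit 0) (nat_lit 177619564342) (nat_lit 152) (nat_lit 52050686018) (nat_lit 0) (nat_lit 176376066553) (nat_lit 1) (nat_lit 5) (nat_lit 3) (nat_lit 4) (nat_lit 1) (nat_lit 4) (nat_lit 313) (nat_lit 211) (nat_lit 196)) (XT.lf (nat_lit 0) (nat_lit 192486285040) (nat_lit 152) (nat_lit 54776788543) (nat_lit 0) (nat_lit 191200382198) (nat_lit 1) (nat_lit 5) (nat_lit 3) (nat_lit 4) (nat_lit 1) (nat_lit 4) (nat_lit 314) (nat_lit 211) (nat_lit 195)))))) (XT.nd (nat_lit 468) (nat_lit 0) (nat_lit 0) (XT.nd (nat_lit 234) (nat_lit 0) (nat_lit 0) (XT.nd (nat_lit 78) (nat_lit 0) (nat_lit 0) (XT.lf (nat_lit 0) (nat_lit 208519888730) (nat_lit 152) (nat_lit 57761217826) (nat_lit 0) (nat_lit 207194721950) (nat_lit 1) (nat_lit 5) (nat_lit 3) (nat_lit 4) (nat_lit 1) (nat_lit 4) (nat_lit 315) (nat_lit 211) (nat_lit 194)) (XT.nd (nat_lit 78) (nat_lit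 0) (nat_lit 0) (XT.lf (nat_lit 0) (nat_lit 225815389358) (nat_lit 152) (nat_lit 61021659372) (nat_lit 0) (nat_lit 224453867080) (nat_lit 1) (nat_lit 5) (nat_lit 3) (nat_lit 4) (nat_lit 1) (nat_lit 4) (nat_lit 316) (nat_lit 211) (nat_lit 193)) (XT.lf (nat_lit 0) (nat_lit 244475278782) (nat_lit 152) (nat_lit 64577434318) (nat_lit 0) (nat_lit 243080094005) (nat_lit 1) (nat_lit 5) (nat_lit 3) (nat_lit 4) (nat_lit 1) (nat_lit 4) (nat_lit 317) (nat_lit 211) (nat_lit 192)))) (XT.nd (nat_lit 78) (nat_lit 0) (nat_lit 0) (XT.lf (nat_lit 0) (nat_lit 264610134122) (nat_lit 152) (nat_lit 68449613922) (nat_lit 0) (nat_lit 263183780365) (nat_lit 1) (nat_lit 5) (nat_lit 3) (nat_lit 4) (nat_lit 1) (nat_lit 4) (nat_lit 318) (nat_lit 211) (nat_lit 191)) (XT.nd (nat_lit 78) (nat_lit 0) (nat_lit 0) (XT.lf (nat_lit 0) (nat_lit 286339273041) (nat_lit 152) (nat_lit 72661144434) (nat_lit 0) (nat_lit 284884059117)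 (nat_lit 1) (nat_lit 5) (nat_lit 3) (nat_lit 4) (nat_lit 1) (nat_lit 4) (nat_lit 319) (nat_lit 211) (nat_lit 190)) (XT.lf (nat_lit 0) (nat_lit 309791460806) (nat_lit 152) (nat_lit 77236983072) (nat_lit 0) (nat_lit 308309524505) (nat_lit 1) (nat_lit 5) (nat_lit 3) (nat_lit 4) (nat_lit 1) (nat_lit 4) (nat_lit 320) (nat_lit 211) (nat_lit 189))))) (XT.nd (nat_lit 234) (nat_lit 0) (nat_lit 0) (XT.nd (nat_lit 78) (nat_lit 0) (nat_lit 0) (XT.lf (nat_lit 0) (nat_lit 335105673344) (nat_lit 152) (nat_lit 82204245915) (nat_lit 0) (nat_lit 333598994102) (nat_lit 1) (nat_lit 5) (nat_lit 3) (nat_lit 4) (nat_lit 1) (nat_lit 4) (nat_lit 321) (nat_lit 211) (nat_lit 188)) (XT.nd (nat_lit 78) (nat_lit 0) (nat_lit 0) (XT.lf (nat_lit 0) (nat_lit 362431920804) (nat_lit 152) (nat_lit 87592368597) (nat_lit 0) (nat_lit 360902331432) (nat_lit 1) (nat_lit 5) (nat_lit 3) (nat_lit 4) (nat_lit 1) (nat_lit 4) (nat_lit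 322) (nat_lit 211) (nat_lit 187)) (XT.lf (nat_lit 0) (nat_lit 391932136505) (nat_lit 152) (nat_lit 93433280733) (nat_lit 0) (nat_lit 390381334048) (nat_lit 1) (nat_lit 5) (nat_lit 3) (nat_lit 4) (nat_lit 1) (nat_lit 4) (nat_lit 323) (nat_lit 211) (nat_lit 186)))) (XT.nd (nat_lit 78) (nat_lit 0) (nat_lit 0) (XT.lf (nat_lit 0) (nat_lit 423781136539) (nat_lit 152) (nat_lit 99761595136) (nat_lit 0) (nat_lit 422210692337) (nat_lit 1) (nat_lit 5) (nat_lit 3) (nat_lit 4) (nat_lit 1) (nat_lit 4) (nat_lit 324) (nat_lit 211) (nat_lit 185)) (XT.nd (nat_lit 78) (nat_lit 0) (nat_lit 0) (XT.lf (nat_lit 0) (nat_lit 458167655721) (nat_lit 152) (nat_lit 106614812928) (nat_lit 0) (nat_lit 456579024719) (nat_lit 1) (nat_lit 5) (nat_lit 3) (nat_lit 4) (nat_lit 1) (nat_lit 4) (nat_lit 325) (nat_lit 211) (nat_lit 184)) (XT.lf (nat_lit 0) (nat_lit 495295466017) (nat_lit 152) (nat_lit 114033545769) (nat_lit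 0) (nat_lit 493689995385) (nat_lit 1) (nat_lit 5) (nat_lit 3) (nat_lit 4) (nat_lit 1) (nat_lit 4) (nat_lit 326) (nat_lit 211) (nat_lit 183))))))) (XT.nd (nat_lit 35178) (nat_lit 0) (nat_lit 0) (XT.nd (nat_lit 390) (nat_lit 0) (nat_lit 0) (XT.nd (nat_lit 156) (nat_lit 0) (nat_lit 0) (XT.nd (nat_lit 78) (nat_lit 0) (nat_lit 0) (XT.lf (nat_lit 0) (nat_lit 535384584080) (nat_lit 152) (nat_lit 122061756522) (nat_lit 0) (nat_lit 533763521198) (nat_lit 1) (nat_lit 5) (nat_lit 3) (nat_lit 4) (nat_lit 1) (nat_lit 4) (nat_lit 327) (nat_lit 211) (nat_lit 182)) (XT.lf (nat_lit 0) (nat_lit 578672575055) (nat_lit 152) (nat_lit 130747019769) (nat_lit 0) (nat_lit 577037074904) (nat_lit 1) (nat_lit 5) (nat_lit 3) (nat_lit 4) (nat_lit 1) (nat_lit 4) (nat_lit 328) (nat_lit 211) (nat_lit 181))) (XT.nd (nat_lit 78) (nat_lit 0) (nat_lit 0) (XT.lf (nat_lit 0) (nat_lit 625415960369) (nat_lit 152) (nat_lit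 140140803735) (nat_lit 0) (nat_lit 623767092377) (nat_lit 1) (nat_lit 5) (nat_lit 3) (nat_lit 4) (nat_lit 1) (nat_lit 4) (nat_lit 329) (nat_lit 211) (nat_lit 180)) (XT.nd (nat_lit 78) (nat_lit 0) (nat_lit 0) (XT.lf (nat_lit 0) (nat_lit 675891737862) (nat_lit 152) (nat_lit 150298775290) (nat_lit 0) (nat_lit 674230492238) (nat_lit 1) (nat_lit 5) (nat_lit 3) (nat_lit 4) (nat_lit 1) (nat_lit 4) (nat_lit 330) (nat_lit 211) (nat_lit 179)) (XT.lf (nat_lit 0) (nat_lit 730399023251) (nat_lit 152) (nat_lit 161281129820) (nat_lit 0) (nat_lit 728726316858) (nat_lit 1) (nat_lit 5) (nat_lit 3) (nat_lit 4) (nat_lit 1) (nat_lit 4) (nat_lit 331) (nat_lit 211) (nat_lit 178))))) (XT.nd (nat_lit 234) (nat_lit 0) (nat_lit 0) (XT.nd (nat_lit 78) (nat_lit 0) (nat_lit 0) (XT.lf (nat_lit 0) (nat_lit 789260822673) (nat_lit 152) (nat_lit 173152947945) (nat_lit 0) (nat_lit 787577504457) (nat_lit 1) (nat_lit 5)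 (nat_lit 3) (nat_lit 4) (nat_lit 1) (nat_lit 4) (nat_lit 332) (nat_lit 211) (nat_lit 177)) (XT.nd (nat_lit 78) (nat_lit 0) (nat_lit 0) (XT.lf (nat_lit 0) (nat_lit 852825946791) (nat_lit 152) (nat_lit 185984581178) (nat_lit 0) (nat_lit 851132802812) (nat_lit 1) (nat_lit 5) (nat_lit 3) (nat_lit 4) (nat_lit 1) (nat_lit 4) (nat_lit 333) (nat_lit 211) (nat_lit 176)) (XT.lf (nat_lit 0) (nat_lit 921471077821) (nat_lit 152) (nat_lit 199852068830) (nat_lit 0) (nat_lit 919768835914) (nat_lit 1) (nat_lit 5) (nat_lit 3) (nat_lit 4) (nat_lit 1) (nat_lit 4) (nat_lit 334) (nat_lit 211) (nat_lit 175)))) (XT.nd (nat_lit 78) (nat_lit 0) (nat_lit 0) (XT.lf (nat_lit 0) (nat_lit 995603001726) (nat_lit 152) (nat_lit 214837588603) (nat_lit 0) (nat_lit 993892335812) (nat_lit 1) (nat_lit 5) (nat_lit 3) (nat_lit 4) (nat_lit 1) (nat_lit 4) (nat_lit 335) (nat_lit 211) (nat_lit 174)) (XT.nd (nat_lit 34398) (nat_lit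 0) (nat_lit 0) (XT.lf (nat_lit 0) (nat_lit 1075661018795) (nat_lit 152) (nat_lit 231029943578) (nat_lit 0) (nat_lit 1073942552873) (nat_lit 1) (nat_lit 5) (nat_lit 3) (nat_lit 4) (nat_lit 1) (nat_lit 4) (nat_lit 336) (nat_lit 211) (nat_lit 173)) (XT.lf (nat_lit 0) (nat_lit 19106542152) (nat_lit 152) (nat_lit 17124913288) (nat_lit 0) (nat_lit 19106542152) (nat_lit 1) (nat_lit 5) (nat_lit 3) (nat_lit 4) (nat_lit 1) (nat_lit 4) (nat_lit 296) (nat_lit 212) (nat_lit 212)))))) (XT.nd (nat_lit 468) (nat_lit 0) (nat_lit 0) (XT.nd (nat_lit 234) (nat_lit 0) (nat_lit 0) (XT.nd (nat_lit 78) (nat_lit 0) (nat_lit 0) (XT.lf (nat_lit 0) (nat_lit 42691003341) (nat_lit 152) (nat_lit 34162460028) (nat_lit 0) (nat_lit 42545726060) (nat_lit 1) (nat_lit 5) (nat_lit 3) (nat_lit 4) (nat_lit 1) (nat_lit 4) (nat_lit 297) (nat_lit 212) (nat_lit 211)) (XT.nd (nat_lit 78) (nat_lit 0) (nat_lit 0) (XT.lf (nat_lit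 0) (nat_lit 47450227507) (nat_lit 152) (nat_lit 34205959138) (nat_lit 0) (nat_lit 47170434226) (nat_lit 1) (nat_lit 5) (nat_lit 3) (nat_lit 4) (nat_lit 1) (nat_lit 4) (nat_lit 298) (nat_lit 212) (nat_lit 210)) (XT.lf (nat_lit 0) (nat_lit 52518959613) (nat_lit 152) (nat_lit 34380581679) (nat_lit 0) (nat_lit 52114614479) (nat_lit 1) (nat_lit 5) (nat_lit 3) (nat_lit 4) (nat_lit 1) (nat_lit 4) (nat_lit 299) (nat_lit 212) (nat_lit 209)))) (XT.nd (nat_lit 78) (nat_lit 0) (nat_lit 0) (XT.lf (nat_lit 0) (nat_lit 57927236589) (nat_lit 152) (nat_lit 34687362453) (nat_lit 0) (nat_lit 57407565666) (nat_lit 1) (nat_lit 5) (nat_lit 3) (nat_lit 4) (nat_lit 1) (nat_lit 4) (nat_lit 300) (nat_lit 212) (nat_lit 208)) (XT.nd (nat_lit 78) (nat_lit 0) (nat_lit 0) (XT.lf (nat_lit 0) (nat_lit 63707107485) (nat_lit 152) (nat_lit 35128119418) (nat_lit 0) (nat_lit 63080653424) (nat_lit 1) (nat_lit 5) (nat_lit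 3) (nat_lit 4) (nat_lit 1) (nat_lit 4) (nat_lit 301) (nat_lit 212) (nat_lit 207)) (XT.lf (nat_lit 0) (nat_lit 69892823387) (nat_lit 152) (nat_lit 35705464467) (nat_lit 0) (nat_lit 69167496049) (nat_lit 1) (nat_lit 5) (nat_lit 3) (nat_lit 4) (nat_lit 1) (nat_lit 4) (nat_lit 302) (nat_lit 212) (nat_lit 206))))) (XT.nd (nat_lit 234) (nat_lit 0) (nat_lit 0) (XT.nd (nat_lit 78) (nat_lit 0) (nat_lit 0) (XT.lf (nat_lit 0) (nat_lit 76521040389) (nat_lit 152) (nat_lit 36422818906) (nat_lit 0) (nat_lit 75704163722) (nat_lit 1) (nat_lit 5) (nat_lit 3) (nat_lit 4) (nat_lit 1) (nat_lit 4) (nat_lit 303) (nat_lit 212) (nat_lit 205)) (XT.nd (nat_lit 78) (nat_lit 0) (nat_lit 0) (XT.lf (nat_lit 0) (nat_lit 83631036815) (nat_lit 152) (nat_lit 37284433723) (nat_lit 0) (nat_lit 82729392250) (nat_lit 1) (nat_lit 5) (nat_lit 3) (nat_lit 4) (nat_lit 1) (nat_lit 4) (nat_lit 304) (nat_lit 212) (nat_lit 204))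 (XT.lf (nat_lit 0) (nat_lit 91264945977) (nat_lit 152) (nat_lit 38295414783) (nat_lit 0) (nat_lit 90284812617) (nat_lit 1) (nat_lit 5) (nat_lit 3) (nat_lit 4) (nat_lit 1) (nat_lit 4) (nat_lit 305) (nat_lit 212) (nat_lit 203)))) (XT.nd (nat_lit 78) (nat_lit 0) (nat_lit 0) (XT.lf (nat_lit 0) (nat_lit 99468005854) (nat_lit 152) (nat_lit 39461753086) (nat_lit 0) (nat_lit 98415197684) (nat_lit 1) (nat_lit 5) (nat_lit 3) (nat_lit 4) (nat_lit 1) (nat_lit 4) (nat_lit 306) (nat_lit 212) (nat_lit 202)) (XT.nd (nat_lit 78) (nat_lit 0) (nat_lit 0) (XT.lf (nat_lit 0) (nat_lit 108288827172) (nat_lit 152) (nat_lit 40790360266) (nat_lit 0) (nat_lit 107168727512) (nat_lit 1) (nat_lit 5) (nat_lit 3) (nat_lit 4) (nat_lit 1) (nat_lit 4) (nat_lit 307) (nat_lit 212) (nat_lit 201)) (XT.lf (nat_lit 0) (nat_lit 117779681465) (nat_lit 152) (nat_lit 42289109551) (nat_lit 0) (nat_lit 116597274869) (nat_lit 1)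 (nat_lit 5) (nat_lit 3) (nat_lit 4) (nat_lit 1) (nat_lit 4) (nat_lit 308) (nat_lit 212) (nat_lit 200))))))))
noncomputable def xc9 : XT := (XT.nd (nat_lit 1794) (nat_lit 0) (nat_lit 0) (XT.nd (nat_lit 858) (nat_lit 0) (nat_lit 0) (XT.nd (nat_lit 390) (nat_lit 0) (nat_lit 0) (XT.nd (nat_lit 156) (nat_lit 0) (nat_lit 0) (XT.nd (nat_lit 78) (nat_lit 0) (nat_lit 0) (XT.lf (nat_lit 0) (nat_lit 127996810832) (nat_lit 152) (nat_lit 43966882418) (nat_lit 0) (nat_lit 126756712629) (nat_lit 1) (nat_lit 5) (nat_lit 3) (nat_lit 4) (nat_lit 1) (nat_lit 4) (nat_lit 309) (nat_lit 212) (nat_lit 199)) (XT.lf (nat_lit 0) (nat_lit 139000761225) (nat_lit 152) (nat_lit 45833621224) (nat_lit 0) (nat_lit 137707244868) (nat_lit 1) (nat_lit 5) (nat_lit 3) (nat_lit 4) (nat_lit 1) (nat_lit 4) (nat_lit 310) (nat_lit 212) (nat_lit 198))) (XT.nd (nat_lit 78) (nat_lit 0) (nat_lit 0) (XT.lf (nat_lit 0) (nat_lit 150856741239)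 (nat_lit 152) (nat_lit 47900388126) (nat_lit 0) (nat_lit 149513763627) (nat_lit 1) (nat_lit 5) (nat_lit 3) (nat_lit 4) (nat_lit 1) (nat_lit 4) (nat_lit 311) (nat_lit 212) (nat_lit 197)) (XT.nd (nat_lit 78) (nat_lit 0) (nat_lit 0) (XT.lf (nat_lit 0) (nat_lit 163635008533) (nat_lit 152) (nat_lit 50179430631) (nat_lit 0) (nat_lit 162246233464) (nat_lit 1) (nat_lit 5) (nat_lit 3) (nat_lit 4) (nat_lit 1) (nat_lit 4) (nat_lit 312) (nat_lit 212) (nat_lit 196)) (XT.lf (nat_lit 0) (nat_lit 177411286173) (nat_lit 152) (nat_lit 52684254177) (nat_lit 0) (nat_lit 175980106051) (nat_lit 1) (nat_lit 5) (nat_lit 3) (nat_lit 4) (nat_lit 1) (nat_lit 4) (nat_lit 313) (nat_lit 212) (nat_lit 195))))) (XT.nd (nat_lit 234) (nat_lit 0) (nat_lit 0) (XT.nd (nat_lit 78) (nat_lit 0) (nat_lit 0) (XT.lf (nat_lit 0) (nat_lit 192267211360) (nat_lit 152) (nat_lit 55429702161) (nat_lit 0) (nat_lit 190796767299) (nat_lit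 1) (nat_lit 5) (nat_lit 3) (nat_lit 4) (nat_lit 1) (nat_lit 4) (nat_lit 314) (nat_lit 212) (nat_lit 194)) (XT.nd (nat_lit 78) (nat_lit 0) (nat_lit 0) (XT.lf (nat_lit 0) (nat_lit 208290819205) (nat_lit 152) (nat_lit 58432043906) (nat_lit 0) (nat_lit 206784019646) (nat_lit 1) (nat_lit 5) (nat_lit 3) (nat_lit 4) (nat_lit 1) (nat_lit 4) (nat_lit 315) (nat_lit 212) (nat_lit 193)) (XT.lf (nat_lit 0) (nat_lit 225577064422) (nat_lit 152) (nat_lit 61709071065) (nat_lit 0) (nat_lit 224036602365) (nat_lit 1) (nat_lit 5) (nat_lit 3) (nat_lit 4) (nat_lit 1) (nat_lit 4) (nat_lit 316) (nat_lit 212) (nat_lit 192)))) (XT.nd (nat_lit 78) (nat_lit 0) (nat_lit 0) (XT.lf (nat_lit 0) (nat_lit 244228384020) (nat_lit 152) (nat_lit 65280203061) (nat_lit 0) (nat_lit 242656752982) (nat_lit 1) (nat_lit 5) (nat_lit 3) (nat_lit 4) (nat_lit 1) (nat_lit 4) (nat_lit 317) (nat_lit 212) (nat_lit 191)) (XT.nd (nat_lit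 78) (nat_lit 0) (nat_lit 0) (XT.lf (nat_lit 0) (nat_lit 264355304337) (nat_lit 152) (nat_lit 69166602155) (nat_lit 0) (nat_lit 262754813132) (nat_lit 1) (nat_lit 5) (nat_lit 3) (nat_lit 4) (nat_lit 1) (nat_lit 4) (nat_lit 318) (nat_lit 212) (nat_lit 190)) (XT.lf (nat_lit 0) (nat_lit 286077096012) (nat_lit 152) (nat_lit 73391298861) (nat_lit 0) (nat_lit 284449882431) (nat_lit 1) (nat_lit 5) (nat_lit 3) (nat_lit 4) (nat_lit 1) (nat_lit 4) (nat_lit 319) (nat_lit 212) (nat_lit 189)))))) (XT.nd (nat_lit 468) (nat_lit 0) (nat_lit 0) (XT.nd (nat_lit 234) (nat_lit 0) (nat_lit 0) (XT.nd (nat_lit 78) (nat_lit 0) (nat_lit 0) (XT.lf (nat_lit 0) (nat_lit 309522480773) (nat_lit 152) (nat_lit 77979328420) (nat_lit 0) (nat_lit 307870524250) (nat_lit 1) (nat_lit 5) (nat_lit 3) (nat_lit 4) (nat_lit 1) (nat_lit 4) (nat_lit 320) (nat_lit 212) (nat_lit 188)) (XT.nd (nat_lit 78) (nat_lit 0) (nat_lit 0)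 (XT.lf (nat_lit 0) (nat_lit 334830394234) (nat_lit 152) (nat_lit 82957879153) (nat_lit 0) (nat_lit 333155527581) (nat_lit 1) (nat_lit 5) (nat_lit 3) (nat_lit 4) (nat_lit 1) (nat_lit 4) (nat_lit 321) (nat_lit 212) (nat_lit 187)) (XT.lf (nat_lit 0) (nat_lit 362150809215) (nat_lit 152) (nat_lit 88356453585) (nat_lit 0) (nat_lit 360454729478) (nat_lit 1) (nat_lit 5) (nat_lit 3) (nat_lit 4) (nat_lit 1) (nat_lit 4) (nat_lit 322) (nat_lit 212) (nat_lit 186)))) (XT.nd (nat_lit 78) (nat_lit 0) (nat_lit 0) (XT.lf (nat_lit 0) (nat_lit 391645624472) (nat_lit 152) (nat_lit 94207043267) (nat_lit 0) (nat_lit 389929902990) (nat_lit 1) (nat_lit 5) (nat_lit 3) (nat_lit 4) (nat_lit 1) (nat_lit 4) (nat_lit 323) (nat_lit 212) (nat_lit 185)) (XT.nd (nat_lit 78) (nat_lit 0) (nat_lit 0) (XT.lf (nat_lit 0) (nat_lit 423489624095) (nat_lit 152) (nat_lit 100544318360) (nat_lit 0) (nat_lit 421755715812) (nat_lit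 1) (nat_lit 5) (nat_lit 3) (nat_lit 4) (nat_lit 1) (nat_lit 4) (nat_lit 324) (nat_lit 212) (nat_lit 184)) (XT.lf (nat_lit 0) (nat_lit 457871513267) (nat_lit 152) (nat_lit 107405833088) (nat_lit 0) (nat_lit 456120765354) (nat_lit 1) (nat_lit 5) (nat_lit 3) (nat_lit 4) (nat_lit 1) (nat_lit 4) (nat_lit 325) (nat_lit 212) (nat_lit 183))))) (XT.nd (nat_lit 234) (nat_lit 0) (nat_lit 0) (XT.nd (nat_lit 78) (nat_lit 0) (nat_lit 0) (XT.lf (nat_lit 0) (nat_lit 494995036517) (nat_lit 152) (nat_lit 114832248278) (nat_lit 0) (nat_lit 493228696354) (nat_lit 1) (nat_lit 5) (nat_lit 3) (nat_lit 4) (nat_lit 1) (nat_lit 4) (nat_lit 326) (nat_lit 212) (nat_lit 182)) (XT.nd (nat_lit 78) (nat_lit 0) (nat_lit 0) (XT.lf (nat_lit 0) (nat_lit 535080185093) (nat_lit 152) (nat_lit 122867572316) (nat_lit 0) (nat_lit 533299407661) (nat_lit 1) (nat_lit 5) (nat_lit 3) (nat_lit 4) (nat_lit 1) (nat_lit 4) (nat_lit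 327) (nat_lit 212) (nat_lit 181)) (XT.lf (nat_lit 0) (nat_lit 578364500616) (nat_lit 152) (nat_lit 131559421938) (nat_lit 0) (nat_lit 576570355343) (nat_lit 1) (nat_lit 5) (nat_lit 3) (nat_lit 4) (nat_lit 1) (nat_lit 4) (nat_lit 328) (nat_lit 212) (nat_lit 180)))) (XT.nd (nat_lit 78) (nat_lit 0) (nat_lit 0) (XT.lf (nat_lit 0) (nat_lit 625104482735) (nat_lit 152) (nat_lit 140959304400) (nat_lit 0) (nat_lit 623297959831) (nat_lit 1) (nat_lit 5) (nat_lit 3) (nat_lit 4) (nat_lit 1) (nat_lit 4) (nat_lit 329) (nat_lit 212) (nat_lit 179)) (XT.nd (nat_lit 78) (nat_lit 0) (nat_lit 0) (XT.lf (nat_lit 0) (nat_lit 675577109121) (nat_lit 152) (nat_lit 151122922710) (nat_lit 0) (nat_lit 673759125447) (nat_lit 1) (nat_lit 5) (nat_lit 3) (nat_lit 4) (nat_lit 1) (nat_lit 4) (nat_lit 330) (nat_lit 212) (nat_lit 178)) (XT.lf (nat_lit 0) (nat_lit 730081476818) (nat_lit 152) (nat_lit 162110505717) (nat_lit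 0) (nat_lit 728252881322) (nat_lit 1) (nat_lit 5) (nat_lit 3) (nat_lit 4) (nat_lit 1) (nat_lit 4) (nat_lit 331) (nat_lit 212) (nat_lit 177))))))) (XT.nd (nat_lit 35022) (nat_lit 0) (nat_lit 0) (XT.nd (nat_lit 34554) (nat_lit 0) (nat_lit 0) (XT.nd (nat_lit 156) (nat_lit 0) (nat_lit 0) (XT.nd (nat_lit 78) (nat_lit 0) (nat_lit 0) (XT.lf (nat_lit 0) (nat_lit 788940574674) (nat_lit 152) (nat_lit 173987165024) (nat_lit 0) (nat_lit 787102153415) (nat_lit 1) (nat_lit 5) (nat_lit 3) (nat_lit 4) (nat_lit 1) (nat_lit 4) (nat_lit 332) (nat_lit 212) (nat_lit 176)) (XT.lf (nat_lit 0) (nat_lit 852503197341) (nat_lit 152) (nat_lit 186823280834) (nat_lit 0) (nat_lit 850655678154) (nat_lit 1) (nat_lit 5) (nat_lit 3) (nat_lit 4) (nat_lit 1) (nat_lit 4) (nat_lit 333) (nat_lit 212) (nat_lit 175))) (XT.nd (nat_lit 78) (nat_lit 0) (nat_lit 0) (XT.lf (nat_lit 0) (nat_lit 921146012214) (nat_lit 152) (nat_lit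 200694919019) (nat_lit 0) (nat_lit 919290069019) (nat_lit 1) (nat_lit 5) (nat_lit 3) (nat_lit 4) (nat_lit 1) (nat_lit 4) (nat_lit 334) (nat_lit 212) (nat_lit 174)) (XT.nd (nat_lit 78) (nat_lit 0) (nat_lit 0) (XT.lf (nat_lit 0) (nat_lit 995275791528) (nat_lit 152) (nat_lit 215684281879) (nat_lit 0) (nat_lit 993412048326) (nat_lit 1) (nat_lit 5) (nat_lit 3) (nat_lit 4) (nat_lit 1) (nat_lit 4) (nat_lit 335) (nat_lit 212) (nat_lit 173)) (XT.lf (nat_lit 0) (nat_lit 1075331822865) (nat_lit 152) (nat_lit 231880195268) (nat_lit 0) (nat_lit 1073460857435) (nat_lit 1) (nat_lit 5) (nat_lit 3) (nat_lit 4) (nat_lit 1) (nat_lit 4) (nat_lit 336) (nat_lit 212) (nat_lit 172))))) (XT.nd (nat_lit 234) (nat_lit 0) (nat_lit 0) (XT.nd (nat_lit 78) (nat_lit 0) (nat_lit 0) (XT.lf (nat_lit 0) (nat_lit 15098283319) (nat_lit 152) (nat_lit 17371350648) (nat_lit 0) (nat_lit 15098283319) (nat_lit 1) (nat_lit 5)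 (nat_lit 3) (nat_lit 4) (nat_lit 1) (nat_lit 4) (nat_lit 294) (nat_lit 213) (nat_lit 213)) (XT.nd (nat_lit 78) (nat_lit 0) (nat_lit 0) (XT.lf (nat_lit 0) (nat_lit 34146834045) (nat_lit 152) (nat_lit 34468576511) (nat_lit 0) (nat_lit 33989934582) (nat_lit 1) (nat_lit 5) (nat_lit 3) (nat_lit 4) (nat_lit 1) (nat_lit 4) (nat_lit 295) (nat_lit 213) (nat_lit 212)) (XT.lf (nat_lit 0) (nat_lit 38330040179) (nat_lit 152) (nat_lit 34321405125) (nat_lit 0) (nat_lit 38027863435) (nat_lit 1) (nat_lit 5) (nat_lit 3) (nat_lit 4) (nat_lit 1) (nat_lit 4) (nat_lit 296) (nat_lit 213) (nat_lit 211)))) (XT.nd (nat_lit 78) (nat_lit 0) (nat_lit 0) (XT.lf (nat_lit 0) (nat_lit 42770974411) (nat_lit 152) (nat_lit 34300315010) (nat_lit 0) (nat_lit 42334281667) (nat_lit 1) (nat_lit 5) (nat_lit 3) (nat_lit 4) (nat_lit 1) (nat_lit 4) (nat_lit 297) (nat_lit 213) (nat_lit 210)) (XT.nd (nat_lit 78) (nat_lit 0) (nat_lit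 0) (XT.lf (nat_lit 0) (nat_lit 47495953388) (nat_lit 152) (nat_lit 34405181189) (nat_lit 0) (nat_lit 46934708791) (nat_lit 1) (nat_lit 5) (nat_lit 3) (nat_lit 4) (nat_lit 1) (nat_lit 4) (nat_lit 298) (nat_lit 213) (nat_lit 209)) (XT.lf (nat_lit 0) (nat_lit 52532976985) (nat_lit 152) (nat_lit 34636625090) (nat_lit 0) (nat_lit 51856406599) (nat_lit 1) (nat_lit 5) (nat_lit 3) (nat_lit 4) (nat_lit 1) (nat_lit 4) (nat_lit 299) (nat_lit 213) (nat_lit 208)))))) (XT.nd (nat_lit 468) (nat_lit 0) (nat_lit 0) (XT.nd (nat_lit 234) (nat_lit 0) (nat_lit 0) (XT.nd (nat_lit 78) (nat_lit 0) (nat_lit 0) (XT.lf (nat_lit 0) (nat_lit 57911894231) (nat_lit 152) (nat_lit 34996018234) (nat_lit 0) (nat_lit 57128540707) (nat_lit 1) (nat_lit 5) (nat_lit 3) (nat_lit 4) (nat_lit 1) (nat_lit 4) (nat_lit 300) (nat_lit 213) (nat_lit 207)) (XT.nd (nat_lit 78) (nat_lit 0) (nat_lit 0) (XT.lf (nat_lit 0) (nat_lit 63664580192)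 (nat_lit 152) (nat_lit 35485490356) (nat_lit 0) (nat_lit 62782353391) (nat_lit 1) (nat_lit 5) (nat_lit 3) (nat_lit 4) (nat_lit 1) (nat_lit 4) (nat_lit 301) (nat_lit 213) (nat_lit 206)) (XT.lf (nat_lit 0) (nat_lit 69825124857) (nat_lit 152) (nat_lit 36107942033) (nat_lit 0) (nat_lit 68851348727) (nat_lit 1) (nat_lit 5) (nat_lit 3) (nat_lit 4) (nat_lit 1) (nat_lit 4) (nat_lit 302) (nat_lit 213) (nat_lit 205)))) (XT.nd (nat_lit 78) (nat_lit 0) (nat_lit 0) (XT.lf (nat_lit 0) (nat_lit 76430035159) (nat_lit 152) (nat_lit 36867061868) (nat_lit 0) (nat_lit 75371491131) (nat_lit 1) (nat_lit 5) (nat_lit 3) (nat_lit 4) (nat_lit 1) (nat_lit 4) (nat_lit 303) (nat_lit 213) (nat_lit 204)) (XT.nd (nat_lit 78) (nat_lit 0) (nat_lit 0) (XT.lf (nat_lit 0) (nat_lit 83518451307) (nat_lit 152) (nat_lit 37767348347) (nat_lit 0) (nat_lit 82381418484) (nat_lit 1) (nat_lit 5) (nat_lit 3) (nat_lit 4) (nat_lit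 1) (nat_lit 4) (nat_lit 304) (nat_lit 213) (nat_lit 203)) (XT.lf (nat_lit 0) (nat_lit 91132378729) (nat_lit 152) (nat_lit 38814136503) (nat_lit 0) (nat_lit 89922671097) (nat_lit 1) (nat_lit 5) (nat_lit 3) (nat_lit 4) (nat_lit 1) (nat_lit 4) (nat_lit 305) (nat_lit 213) (nat_lit 202))))) (XT.nd (nat_lit 234) (nat_lit 0) (nat_lit 0) (XT.nd (nat_lit 78) (nat_lit 0) (nat_lit 0) (XT.lf (nat_lit 0) (nat_lit 99316936996) (nat_lit 152) (nat_lit 40013629524) (nat_lit 0) (nat_lit 98039937873) (nat_lit 1) (nat_lit 5) (nat_lit 3) (nat_lit 4) (nat_lit 1) (nat_lit 4) (nat_lit 306) (nat_lit 213) (nat_lit 201)) (XT.nd (nat_lit 78) (nat_lit 0) (nat_lit 0) (XT.lf (nat_lit 0) (nat_lit 108120627194) (nat_lit 152) (nat_lit 41372935516) (nat_lit 0) (nat_lit 106781321135) (nat_lit 1) (nat_lit 5) (nat_lit 3) (nat_lit 4) (nat_lit 1) (nat_lit 4) (nat_lit 307) (nat_lit 213) (nat_lit 200)) (XT.lf (nat_lit 0) (nat_lit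 117595619338) (nat_lit 152) (nat_lit 42900109628) (nat_lit 0) (nat_lit 116198621673) (nat_lit 1) (nat_lit 5) (nat_lit 3) (nat_lit 4) (nat_lit 1) (nat_lit 4) (nat_lit 308) (nat_lit 213) (nat_lit 199)))) (XT.nd (nat_lit 78) (nat_lit 0) (nat_lit 0) (XT.lf (nat_lit 0) (nat_lit 127798061530) (nat_lit 152) (nat_lit 44604201778) (nat_lit 0) (nat_lit 126347645710) (nat_lit 1) (nat_lit 5) (nat_lit 3) (nat_lit 4) (nat_lit 1) (nat_lit 4) (nat_lit 309) (nat_lit 213) (nat_lit 198)) (XT.nd (nat_lit 78) (nat_lit 0) (nat_lit 0) (XT.lf (nat_lit 0) (nat_lit 138788412688) (nat_lit 152) (nat_lit 46495310292) (nat_lit 0) (nat_lit 137288535613) (nat_lit 1) (nat_lit 5) (nat_lit 3) (nat_lit 4) (nat_lit 1) (nat_lit 4) (nat_lit 310) (nat_lit 213) (nat_lit 197)) (XT.lf (nat_lit 0) (nat_lit 150631800817) (nat_lit 152) (nat_lit 48584641737) (nat_lit 0) (nat_lit 149086126285) (nat_lit 1) (nat_lit 5) (nat_lit 3)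 (nat_lit 4) (nat_lit 1) (nat_lit 4) (nat_lit 311) (nat_lit 213) (nat_lit 196))))))))
noncomputable def xc10 : XT := (XT.nd (nat_lit 1794) (nat_lit 0) (nat_lit 0) (XT.nd (nat_lit 858) (nat_lit 0) (nat_lit 0) (XT.nd (nat_lit 390) (nat_lit 0) (nat_lit 0) (XT.nd (nat_lit 156) (nat_lit 0) (nat_lit 0) (XT.nd (nat_lit 78) (nat_lit 0) (nat_lit 0) (XT.lf (nat_lit 0) (nat_lit 163398408958) (nat_lit 152) (nat_lit 50884577339) (nat_lit 0) (nat_lit 161810329373) (nat_lit 1) (nat_lit 5) (nat_lit 3) (nat_lit 4) (nat_lit 1) (nat_lit 4) (nat_lit 312) (nat_lit 213) (nat_lit 195)) (XT.lf (nat_lit 0) (nat_lit 177163891086) (nat_lit 152) (nat_lit 53408746343) (nat_lit 0) (nat_lit 175536547562) (nat_lit 1) (nat_lit 5) (nat_lit 3) (nat_lit 4) (nat_lit 1) (nat_lit 4) (nat_lit 313) (nat_lit 213) (nat_lit 194))) (XT.nd (nat_lit 78) (nat_lit 0) (nat_lit 0) (XT.lf (nat_lit 0) (nat_lit 192009820429) (nat_lit 152)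 (nat_lit 56172106790) (nat_lit 0) (nat_lit 190346121406) (nat_lit 1) (nat_lit 5) (nat_lit 3) (nat_lit 4) (nat_lit 1) (nat_lit 4) (nat_lit 314) (nat_lit 213) (nat_lit 193)) (XT.nd (nat_lit 78) (nat_lit 0) (nat_lit 0) (XT.lf (nat_lit 0) (nat_lit 208024172863) (nat_lit 152) (nat_lit 59191034148) (nat_lit 0) (nat_lit 206326811342) (nat_lit 1) (nat_lit 5) (nat_lit 3) (nat_lit 4) (nat_lit 1) (nat_lit 4) (nat_lit 315) (nat_lit 213) (nat_lit 192)) (XT.lf (nat_lit 0) (nat_lit 225301848254) (nat_lit 152) (nat_lit 62483418357) (nat_lit 0) (nat_lit 223573317754) (nat_lit 1) (nat_lit 5) (nat_lit 3) (nat_lit 4) (nat_lit 1) (nat_lit 4) (nat_lit 316) (nat_lit 213) (nat_lit 191))))) (XT.nd (nat_lit 234) (nat_lit 0) (nat_lit 0) (XT.nd (nat_lit 78) (nat_lit 0) (nat_lit 0) (XT.lf (nat_lit 0) (nat_lit 243945232829) (nat_lit 152) (nat_lit 66068769842) (nat_lit 0) (nat_lit 242187842161) (nat_lit 1) (nat_lit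 5) (nat_lit 3) (nat_lit 4) (nat_lit 1) (nat_lit 4) (nat_lit 317) (nat_lit 213) (nat_lit 190)) (XT.nd (nat_lit 78) (nat_lit 0) (nat_lit 0) (XT.lf (nat_lit 0) (nat_lit 264064805902) (nat_lit 152) (nat_lit 69968335131) (nat_lit 0) (nat_lit 262280692857) (nat_lit 1) (nat_lit 5) (nat_lit 3) (nat_lit 4) (nat_lit 1) (nat_lit 4) (nat_lit 318) (nat_lit 213) (nat_lit 189)) (XT.lf (nat_lit 0) (nat_lit 285779794573) (nat_lit 152) (nat_lit 74205222758) (nat_lit 0) (nat_lit 283970938587) (nat_lit 1) (nat_lit 5) (nat_lit 3) (nat_lit 4) (nat_lit 1) (nat_lit 4) (nat_lit 319) (nat_lit 213) (nat_lit 188)))) (XT.nd (nat_lit 78) (nat_lit 0) (nat_lit 0) (XT.lf (nat_lit 0) (nat_lit 309218880257) (nat_lit 152) (nat_lit 78804540206) (nat_lit 0) (nat_lit 307387114140) (nat_lit 1) (nat_lit 5) (nat_lit 3) (nat_lit 4) (nat_lit 1) (nat_lit 4) (nat_lit 320) (nat_lit 213) (nat_lit 187)) (XT.nd (nat_lit 78) (nat_lit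 0) (nat_lit 0) (XT.lf (nat_lit 0) (nat_lit 334520961239) (nat_lit 152) (nat_lit 83793542690) (nat_lit 0) (nat_lit 332667982038) (nat_lit 1) (nat_lit 5) (nat_lit 3) (nat_lit 4) (nat_lit 1) (nat_lit 4) (nat_lit 321) (nat_lit 213) (nat_lit 186)) (XT.lf (nat_lit 0) (nat_lit 361835975776) (nat_lit 152) (nat_lit 89201794667) (nat_lit 0) (nat_lit 359963354831) (nat_lit 1) (nat_lit 5) (nat_lit 3) (nat_lit 4) (nat_lit 1) (nat_lit 4) (nat_lit 322) (nat_lit 213) (nat_lit 185)))))) (XT.nd (nat_lit 468) (nat_lit 0) (nat_lit 0) (XT.nd (nat_lit 234) (nat_lit 0) (nat_lit 0) (XT.nd (nat_lit 78) (nat_lit 0) (nat_lit 0) (XT.lf (nat_lit 0) (nat_lit 391325790622) (nat_lit 152) (nat_lit 95061345040) (nat_lit 0) (nat_lit 389434982876) (nat_lit 1) (nat_lit 5) (nat_lit 3) (nat_lit 4) (nat_lit 1) (nat_lit 4) (nat_lit 323) (nat_lit 213) (nat_lit 184)) (XT.nd (nat_lit 78) (nat_lit 0) (nat_lit 0) (XT.lf (nat_lit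 0) (nat_lit 423165160235) (nat_lit 152) (nat_lit 101406917069) (nat_lit 0) (nat_lit 421257512859) (nat_lit 1) (nat_lit 5) (nat_lit 3) (nat_lit 4) (nat_lit 1) (nat_lit 4) (nat_lit 324) (nat_lit 213) (nat_lit 183)) (XT.lf (nat_lit 0) (nat_lit 457542762361) (nat_lit 152) (nat_lit 108276114145) (nat_lit 0) (nat_lit 455619522735) (nat_lit 1) (nat_lit 5) (nat_lit 3) (nat_lit 4) (nat_lit 1) (nat_lit 4) (nat_lit 325) (nat_lit 213) (nat_lit 182)))) (XT.nd (nat_lit 78) (nat_lit 0) (nat_lit 0) (XT.lf (nat_lit 0) (nat_lit 494662316123) (nat_lit 152) (nat_lit 115709642620) (nat_lit 0) (nat_lit 492724639228) (nat_lit 1) (nat_lit 5) (nat_lit 3) (nat_lit 4) (nat_lit 1) (nat_lit 4) (nat_lit 326) (nat_lit 213) (nat_lit 181)) (XT.nd (nat_lit 78) (nat_lit 0) (nat_lit 0) (XT.lf (nat_lit 0) (nat_lit 534743789248) (nat_lit 152) (nat_lit 123751553033) (nat_lit 0) (nat_lit 532792744512) (nat_lit 1) (nat_lit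 5) (nat_lit 3) (nat_lit 4) (nat_lit 1) (nat_lit 4) (nat_lit 327) (nat_lit 213) (nat_lit 180)) (XT.lf (nat_lit 0) (nat_lit 578024701576) (nat_lit 152) (nat_lit 132449501151) (nat_lit 0) (nat_lit 576061279209) (nat_lit 1) (nat_lit 5) (nat_lit 3) (nat_lit 4) (nat_lit 1) (nat_lit 4) (nat_lit 328) (nat_lit 213) (nat_lit 179))))) (XT.nd (nat_lit 234) (nat_lit 0) (nat_lit 0) (XT.nd (nat_lit 78) (nat_lit 0) (nat_lit 0) (XT.lf (nat_lit 0) (nat_lit 624761532588) (nat_lit 152) (nat_lit 141855030368) (nat_lit 0) (nat_lit 622786649451) (nat_lit 1) (nat_lit 5) (nat_lit 3) (nat_lit 4) (nat_lit 1) (nat_lit 4) (nat_lit 329) (nat_lit 213) (nat_lit 178)) (XT.nd (nat_lit 78) (nat_lit 0) (nat_lit 0) (XT.lf (nat_lit 0) (nat_lit 675231241282) (nat_lit 152) (nat_lit 152023877155) (nat_lit 0) (nat_lit 673245746322) (nat_lit 1) (nat_lit 5) (nat_lit 3) (nat_lit 4) (nat_lit 1) (nat_lit 4) (nat_lit 330) (nat_lit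 213) (nat_lit 177)) (XT.lf (nat_lit 0) (nat_lit 729732907413) (nat_lit 152) (nat_lit 163016301344) (nat_lit 0) (nat_lit 727737586691) (nat_lit 1) (nat_lit 5) (nat_lit 3) (nat_lit 4) (nat_lit 1) (nat_lit 4) (nat_lit 331) (nat_lit 213) (nat_lit 176)))) (XT.nd (nat_lit 78) (nat_lit 0) (nat_lit 0) (XT.lf (nat_lit 0) (nat_lit 788589503818) (nat_lit 152) (nat_lit 174897443227) (nat_lit 0) (nat_lit 786585085168) (nat_lit 1) (nat_lit 5) (nat_lit 3) (nat_lit 4) (nat_lit 1) (nat_lit 4) (nat_lit 332) (nat_lit 213) (nat_lit 175)) (XT.nd (nat_lit 78) (nat_lit 0) (nat_lit 0) (XT.lf (nat_lit 0) (nat_lit 852149810328) (nat_lit 152) (nat_lit 187737709571) (nat_lit 0) (nat_lit 850136967670) (nat_lit 1) (nat_lit 5) (nat_lit 3) (nat_lit 4) (nat_lit 1) (nat_lit 4) (nat_lit 333) (nat_lit 213) (nat_lit 174)) (XT.lf (nat_lit 0) (nat_lit 920790480610) (nat_lit 152) (nat_lit 201613190843) (nat_lit 0) (nat_lit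 918769837945) (nat_lit 1) (nat_lit 5) (nat_lit 3) (nat_lit 4) (nat_lit 1) (nat_lit 4) (nat_lit 334) (nat_lit 213) (nat_lit 173))))))) (XT.nd (nat_lit 34866) (nat_lit 0) (nat_lit 0) (XT.nd (nat_lit 34398) (nat_lit 0) (nat_lit 0) (XT.nd (nat_lit 34164) (nat_lit 0) (nat_lit 0) (XT.nd (nat_lit 78) (nat_lit 0) (nat_lit 0) (XT.lf (nat_lit 0) (nat_lit 994918274193) (nat_lit 152) (nat_lit 216606112116) (nat_lit 0) (nat_lit 992890409299) (nat_lit 1) (nat_lit 5) (nat_lit 3) (nat_lit 4) (nat_lit 1) (nat_lit 4) (nat_lit 335) (nat_lit 213) (nat_lit 172)) (XT.lf (nat_lit 0) (nat_lit 1074972466889) (nat_lit 152) (nat_lit 232805320333) (nat_lit 0) (nat_lit 1072937914746) (nat_lit 1) (nat_lit 5) (nat_lit 3) (nat_lit 4) (nat_lit 1) (nat_lit 4) (nat_lit 336) (nat_lit 213) (nat_lit 171))) (XT.nd (nat_lit 78) (nat_lit 0) (nat_lit 0) (XT.lf (nat_lit 0) (nat_lit 11559247660) (nat_lit 152) (nat_lit 17797790779)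 (nat_lit 0) (nat_lit 11559247660) (nat_lit 1) (nat_lit 5) (nat_lit 3) (nat_lit 4) (nat_lit 1) (nat_lit 4) (nat_lit 292) (nat_lit 214) (nat_lit 214)) (XT.nd (nat_lit 78) (nat_lit 0) (nat_lit 0) (XT.lf (nat_lit 0) (nat_lit 26625280388) (nat_lit 152) (nat_lit 35145403923) (nat_lit 0) (nat_lit 26455828968) (nat_lit 1) (nat_lit 5) (nat_lit 3) (nat_lit 4) (nat_lit 1) (nat_lit 4) (nat_lit 293) (nat_lit 214) (nat_lit 213)) (XT.lf (nat_lit 0) (nat_lit 30322878983) (nat_lit 152) (nat_lit 34820006129) (nat_lit 0) (nat_lit 29996528100) (nat_lit 1) (nat_lit 5) (nat_lit 3) (nat_lit 4) (nat_lit 1) (nat_lit 4) (nat_lit 294) (nat_lit 214) (nat_lit 212))))) (XT.nd (nat_lit 234) (nat_lit 0) (nat_lit 0) (XT.nd (nat_lit 78) (nat_lit 0) (nat_lit 0) (XT.lf (nat_lit 0) (nat_lit 34233202801) (nat_lit 152) (nat_lit 34617459893) (nat_lit 0) (nat_lit 33761574636) (nat_lit 1) (nat_lit 5) (nat_lit 3) (nat_lit 4)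 (nat_lit 1) (nat_lit 4) (nat_lit 295) (nat_lit 214) (nat_lit 211)) (XT.nd (nat_lit 78) (nat_lit 0) (nat_lit 0) (XT.lf (nat_lit 0) (nat_lit 38379424130) (nat_lit 152) (nat_lit 34536564940) (nat_lit 0) (nat_lit 37773279966) (nat_lit 1) (nat_lit 5) (nat_lit 3) (nat_lit 4) (nat_lit 1) (nat_lit 4) (nat_lit 296) (nat_lit 214) (nat_lit 210)) (XT.lf (nat_lit 0) (nat_lit 42786113173) (nat_lit 152) (nat_lit 34576841894) (nat_lit 0) (nat_lit 42055417156) (nat_lit 1) (nat_lit 5) (nat_lit 3) (nat_lit 4) (nat_lit 1) (nat_lit 4) (nat_lit 297) (nat_lit 214) (nat_lit 209)))) (XT.nd (nat_lit 78) (nat_lit 0) (nat_lit 0) (XT.lf (nat_lit 0) (nat_lit 47479383641) (nat_lit 152) (nat_lit 34738529433) (nat_lit 0) (nat_lit 46633361835) (nat_lit 1) (nat_lit 5) (nat_lit 3) (nat_lit 4) (nat_lit 1) (nat_lit 4) (nat_lit 298) (nat_lit 214) (nat_lit 208)) (XT.nd (nat_lit 78) (nat_lit 0) (nat_lit 0) (XT.lf (nat_lit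 0) (nat_lit 52487047508) (nat_lit 152) (nat_lit 35022585704) (nat_lit 0) (nat_lit 51534242564) (nat_lit 1) (nat_lit 5) (nat_lit 3) (nat_lit 4) (nat_lit 1) (nat_lit 4) (nat_lit 299) (nat_lit 214) (nat_lit 207)) (XT.lf (nat_lit 0) (nat_lit 57838779819) (nat_lit 152) (nat_lit 35430694005) (nat_lit 0) (nat_lit 56787101598) (nat_lit 1) (nat_lit 5) (nat_lit 3) (nat_lit 4) (nat_lit 1) (nat_lit 4) (nat_lit 300) (nat_lit 214) (nat_lit 206)))))) (XT.nd (nat_lit 468) (nat_lit 0) (nat_lit 0) (XT.nd (nat_lit 234) (nat_lit 0) (nat_lit 0) (XT.nd (nat_lit 78) (nat_lit 0) (nat_lit 0) (XT.lf (nat_lit 0) (nat_lit 63566294543) (nat_lit 152) (nat_lit 35965272755) (nat_lit 0) (nat_lit 62423066993) (nat_lit 1) (nat_lit 5) (nat_lit 3) (nat_lit 4) (nat_lit 1) (nat_lit 4) (nat_lit 301) (nat_lit 214) (nat_lit 205)) (XT.nd (nat_lit 78) (nat_lit 0) (nat_lit 0) (XT.lf (nat_lit 0) (nat_lit 69703532509) (nat_lit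 152) (nat_lit 36629489828) (nat_lit 0) (nat_lit 68475537060) (nat_lit 1) (nat_lit 5) (nat_lit 3) (nat_lit 4) (nat_lit 1) (nat_lit 4) (nat_lit 302) (nat_lit 214) (nat_lit 204)) (XT.lf (nat_lit 0) (nat_lit 76286862532) (nat_lit 152) (nat_lit 37427281325) (nat_lit 0) (nat_lit 74980378289) (nat_lit 1) (nat_lit 5) (nat_lit 3) (nat_lit 4) (nat_lit 1) (nat_lit 4) (nat_lit 303) (nat_lit 214) (nat_lit 203)))) (XT.nd (nat_lit 78) (nat_lit 0) (nat_lit 0) (XT.lf (nat_lit 0) (nat_lit 83355296941) (nat_lit 152) (nat_lit 38363374899) (nat_lit 0) (nat_lit 81976137888) (nat_lit 1) (nat_lit 5) (nat_lit 3) (nat_lit 4) (nat_lit 1) (nat_lit 4) (nat_lit 304) (nat_lit 214) (nat_lit 202)) (XT.nd (nat_lit 78) (nat_lit 0) (nat_lit 0) (XT.lf (nat_lit 0) (nat_lit 90950722753) (nat_lit 152) (nat_lit 39443317773) (nat_lit 0) (nat_lit 89504272210) (nat_lit 1) (nat_lit 5) (nat_lit 3) (nat_lit 4) (nat_lit 1) (nat_lit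 4) (nat_lit 305) (nat_lit 214) (nat_lit 201)) (XT.lf (nat_lit 0) (nat_lit 99118149900) (nat_lit 152) (nat_lit 40673509606) (nat_lit 0) (nat_lit 97609392421) (nat_lit 1) (nat_lit 5) (nat_lit 3) (nat_lit 4) (nat_lit 1) (nat_lit 4) (nat_lit 306) (nat_lit 214) (nat_lit 200))))) (XT.nd (nat_lit 234) (nat_lit 0) (nat_lit 0) (XT.nd (nat_lit 78) (nat_lit 0) (nat_lit 0) (XT.lf (nat_lit 0) (nat_lit 107905977949) (nat_lit 152) (nat_lit 42061240425) (nat_lit 0) (nat_lit 106339528863) (nat_lit 1) (nat_lit 5) (nat_lit 3) (nat_lit 4) (nat_lit 1) (nat_lit 4) (nat_lit 307) (nat_lit 214) (nat_lit 199)) (XT.nd (nat_lit 78) (nat_lit 0) (nat_lit 0) (XT.lf (nat_lit 0) (nat_lit 117366282918) (nat_lit 152) (nat_lit 43614733820) (nat_lit 0) (nat_lit 115746415678) (nat_lit 1) (nat_lit 5) (nat_lit 3) (nat_lit 4) (nat_lit 1) (nat_lit 4) (nat_lit 308) (nat_lit 214) (nat_lit 198)) (XT.lf (nat_lit 0) (nat_lit 127555125875)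 (nat_lit 152) (nat_lit 45343195678) (nat_lit 0) (nat_lit 125885797380) (nat_lit 1) (nat_lit 5) (nat_lit 3) (nat_lit 4) (nat_lit 1) (nat_lit 4) (nat_lit 309) (nat_lit 214) (nat_lit 197)))) (XT.nd (nat_lit 78) (nat_lit 0) (nat_lit 0) (XT.lf (nat_lit 0) (nat_lit 138532885147) (nat_lit 152) (nat_lit 47256868735) (nat_lit 0) (nat_lit 136817759194) (nat_lit 1) (nat_lit 5) (nat_lit 3) (nat_lit 4) (nat_lit 1) (nat_lit 4) (nat_lit 310) (nat_lit 214) (nat_lit 196)) (XT.nd (nat_lit 78) (nat_lit 0) (nat_lit 0) (XT.lf (nat_lit 0) (nat_lit 150364614123) (nat_lit 152) (nat_lit 49367093277) (nat_lit 0) (nat_lit 148607083117) (nat_lit 1) (nat_lit 5) (nat_lit 3) (nat_lit 4) (nat_lit 1) (nat_lit 4) (nat_lit 311) (nat_lit 214) (nat_lit 195)) (XT.lf (nat_lit 0) (nat_lit 163120426753) (nat_lit 152) (nat_lit 51686374338) (nat_lit 0) (nat_lit 161323631809) (nat_lit 1) (nat_lit 5) (nat_lit 3) (nat_lit 4) (nat_lit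 1) (nat_lit 4) (nat_lit 312) (nat_lit 214) (nat_lit 194))))))))
noncomputable def xc11 : XT := (XT.nd (nat_lit 1794) (nat_lit 0) (nat_lit 0) (XT.nd (nat_lit 858) (nat_lit 0) (nat_lit 0) (XT.nd (nat_lit 390) (nat_lit 0) (nat_lit 0) (XT.nd (nat_lit 156) (nat_lit 0) (nat_lit 0) (XT.nd (nat_lit 78) (nat_lit 0) (nat_lit 0) (XT.lf (nat_lit 0) (nat_lit 176875913037) (nat_lit 152) (nat_lit 54228455805) (nat_lit 0) (nat_lit 175042762594) (nat_lit 1) (nat_lit 5) (nat_lit 3) (nat_lit 4) (nat_lit 1) (nat_lit 4) (nat_lit 313) (nat_lit 214) (nat_lit 193)) (XT.lf (nat_lit 0) (nat_lit 191712586967) (nat_lit 152) (nat_lit 57008401864) (nat_lit 0) (nat_lit 189845774026) (nat_lit 1) (nat_lit 5) (nat_lit 3) (nat_lit 4) (nat_lit 1) (nat_lit 4) (nat_lit 314) (nat_lit 214) (nat_lit 192))) (XT.nd (nat_lit 78) (nat_lit 0) (nat_lit 0) (XT.lf (nat_lit 0) (nat_lit 207718369576) (nat_lit 152) (nat_lit 60042686272)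 (nat_lit 0) (nat_lit 205820387655) (nat_lit 1) (nat_lit 5) (nat_lit 3) (nat_lit 4) (nat_lit 1) (nat_lit 4) (nat_lit 315) (nat_lit 214) (nat_lit 191)) (XT.nd (nat_lit 78) (nat_lit 0) (nat_lit 0) (XT.lf (nat_lit 0) (nat_lit 224988109944) (nat_lit 152) (nat_lit 63349289971) (nat_lit 0) (nat_lit 223061267856) (nat_lit 1) (nat_lit 5) (nat_lit 3) (nat_lit 4) (nat_lit 1) (nat_lit 4) (nat_lit 316) (nat_lit 214) (nat_lit 190)) (XT.lf (nat_lit 0) (nat_lit 243624147275) (nat_lit 152) (nat_lit 66947807651) (nat_lit 0) (nat_lit 241670582810) (nat_lit 1) (nat_lit 5) (nat_lit 3) (nat_lit 4) (nat_lit 1) (nat_lit 4) (nat_lit 317) (nat_lit 214) (nat_lit 189))))) (XT.nd (nat_lit 234) (nat_lit 0) (nat_lit 0) (XT.nd (nat_lit 78) (nat_lit 0) (nat_lit 0) (XT.lf (nat_lit 0) (nat_lit 263736917344) (nat_lit 152) (nat_lit 70859563860) (nat_lit 0) (nat_lit 261758609938) (nat_lit 1) (nat_lit 5) (nat_lit 3) (nat_lit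 4) (nat_lit 1) (nat_lit 4) (nat_lit 318) (nat_lit 214) (nat_lit 188)) (XT.nd (nat_lit 78) (nat_lit 0) (nat_lit 0) (XT.lf (nat_lit 0) (nat_lit 285445606938) (nat_lit 152) (nat_lit 75107739377) (nat_lit 0) (nat_lit 283444389401) (nat_lit 1) (nat_lit 5) (nat_lit 3) (nat_lit 4) (nat_lit 1) (nat_lit 4) (nat_lit 319) (nat_lit 214) (nat_lit 187)) (XT.lf (nat_lit 0) (nat_lit 308878860143) (nat_lit 152) (nat_lit 79717508575) (nat_lit 0) (nat_lit 306856429521) (nat_lit 1) (nat_lit 5) (nat_lit 3) (nat_lit 4) (nat_lit 1) (nat_lit 4) (nat_lit 320) (nat_lit 214) (nat_lit 186)))) (XT.nd (nat_lit 78) (nat_lit 0) (nat_lit 0) (XT.lf (nat_lit 0) (nat_lit 334175540681) (nat_lit 152) (nat_lit 84716188605) (nat_lit 0) (nat_lit 332133468315) (nat_lit 1) (nat_lit 5) (nat_lit 3) (nat_lit 4) (nat_lit 1) (nat_lit 4) (nat_lit 321) (nat_lit 214) (nat_lit 185)) (XT.nd (nat_lit 78) (nat_lit 0) (nat_lit 0) (XT.lf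 (nat_lit 0) (nat_lit 361485554807) (nat_lit 152) (nat_lit 90133401273) (nat_lit 0) (nat_lit 359425295641) (nat_lit 1) (nat_lit 5) (nat_lit 3) (nat_lit 4) (nat_lit 1) (nat_lit 4) (nat_lit 322) (nat_lit 214) (nat_lit 184)) (XT.lf (nat_lit 0) (nat_lit 390970739644) (nat_lit 152) (nat_lit 96001248582) (nat_lit 0) (nat_lit 388893640847) (nat_lit 1) (nat_lit 5) (nat_lit 3) (nat_lit 4) (nat_lit 1) (nat_lit 4) (nat_lit 323) (nat_lit 214) (nat_lit 183)))))) (XT.nd (nat_lit 468) (nat_lit 0) (nat_lit 0) (XT.nd (nat_lit 234) (nat_lit 0) (nat_lit 0) (XT.nd (nat_lit 78) (nat_lit 0) (nat_lit 0) (XT.lf (nat_lit 0) (nat_lit 422805822210) (nat_lit 152) (nat_lit 102354502959) (nat_lit 0) (nat_lit 420713131164) (nat_lit 1) (nat_lit 5) (nat_lit 3) (nat_lit 4) (nat_lit 1) (nat_lit 4) (nat_lit 324) (nat_lit 214) (nat_lit 182)) (XT.nd (nat_lit 78) (nat_lit 0) (nat_lit 0) (XT.lf (nat_lit 0) (nat_lit 457179454849)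 (nat_lit 152) (nat_lit 109230813320) (nat_lit 0) (nat_lit 455072326534) (nat_lit 1) (nat_lit 5) (nat_lit 3) (nat_lit 4) (nat_lit 1) (nat_lit 4) (nat_lit 325) (nat_lit 214) (nat_lit 181)) (XT.lf (nat_lit 0) (nat_lit 494295333160) (nat_lit 152) (nat_lit 116670928170) (nat_lit 0) (nat_lit 492174837003) (nat_lit 1) (nat_lit 5) (nat_lit 3) (nat_lit 4) (nat_lit 1) (nat_lit 4) (nat_lit 326) (nat_lit 214) (nat_lit 180)))) (XT.nd (nat_lit 78) (nat_lit 0) (nat_lit 0) (XT.lf (nat_lit 0) (nat_lit 534373403089) (nat_lit 152) (nat_lit 124718937079) (nat_lit 0) (nat_lit 532240529302) (nat_lit 1) (nat_lit 5) (nat_lit 3) (nat_lit 4) (nat_lit 1) (nat_lit 4) (nat_lit 327) (nat_lit 214) (nat_lit 179)) (XT.nd (nat_lit 78) (nat_lit 0) (nat_lit 0) (XT.lf (nat_lit 0) (nat_lit 577651164310) (nat_lit 152) (nat_lit 133422531952) (nat_lit 0) (nat_lit 575506829753) (nat_lit 1) (nat_lit 5) (nat_lit 3) (nat_lit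 4) (nat_lit 1) (nat_lit 4) (nat_lit 328) (nat_lit 214) (nat_lit 178)) (XT.lf (nat_lit 0) (nat_lit 624385077630) (nat_lit 152) (nat_lit 142833289646) (nat_lit 0) (nat_lit 622230131250) (nat_lit 1) (nat_lit 5) (nat_lit 3) (nat_lit 4) (nat_lit 1) (nat_lit 4) (nat_lit 329) (nat_lit 214) (nat_lit 177))))) (XT.nd (nat_lit 234) (nat_lit 0) (nat_lit 0) (XT.nd (nat_lit 78) (nat_lit 0) (nat_lit 0) (XT.lf (nat_lit 0) (nat_lit 674852084758) (nat_lit 152) (nat_lit 153006977615) (nat_lit 0) (nat_lit 672687312615) (nat_lit 1) (nat_lit 5) (nat_lit 3) (nat_lit 4) (nat_lit 1) (nat_lit 4) (nat_lit 330) (nat_lit 214) (nat_lit 176)) (XT.nd (nat_lit 78) (nat_lit 0) (nat_lit 0) (XT.lf (nat_lit 0) (nat_lit 729351249439) (nat_lit 152) (nat_lit 164003884381) (nat_lit 0) (nat_lit 727177379368) (nat_lit 1) (nat_lit 5) (nat_lit 3) (nat_lit 4) (nat_lit 1) (nat_lit 4) (nat_lit 331) (nat_lit 214) (nat_lit 175)) (XT.lf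 (nat_lit 0) (nat_lit 788205529686) (nat_lit 152) (nat_lit 175889176798) (nat_lit 0) (nat_lit 786023235608) (nat_lit 1) (nat_lit 5) (nat_lit 3) (nat_lit 4) (nat_lit 1) (nat_lit 4) (nat_lit 332) (nat_lit 214) (nat_lit 174)))) (XT.nd (nat_lit 78) (nat_lit 0) (nat_lit 0) (XT.lf (nat_lit 0) (nat_lit 851763691605) (nat_lit 152) (nat_lit 188733286228) (nat_lit 0) (nat_lit 849573597520) (nat_lit 1) (nat_lit 5) (nat_lit 3) (nat_lit 4) (nat_lit 1) (nat_lit 4) (nat_lit 333) (nat_lit 214) (nat_lit 173)) (XT.nd (nat_lit 78) (nat_lit 0) (nat_lit 0) (XT.lf (nat_lit 0) (nat_lit 920402376156) (nat_lit 152) (nat_lit 202612325913) (nat_lit 0) (nat_lit 918205059842) (nat_lit 1) (nat_lit 5) (nat_lit 3) (nat_lit 4) (nat_lit 1) (nat_lit 4) (nat_lit 334) (nat_lit 214) (nat_lit 172)) (XT.lf (nat_lit 0) (nat_lit 994528331097) (nat_lit 152) (nat_lit 217608542014) (nat_lit 0) (nat_lit 992324327534) (nat_lit 1)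 (nat_lit 5) (nat_lit 3) (nat_lit 4) (nat_lit 1) (nat_lit 4) (nat_lit 335) (nat_lit 214) (nat_lit 171))))))) (XT.nd (nat_lit 34710) (nat_lit 0) (nat_lit 0) (XT.nd (nat_lit 34242) (nat_lit 0) (nat_lit 0) (XT.nd (nat_lit 34008) (nat_lit 0) (nat_lit 0) (XT.nd (nat_lit 33930) (nat_lit 0) (nat_lit 0) (XT.lf (nat_lit 0) (nat_lit 1074580821349) (nat_lit 152) (nat_lit 233810800997) (nat_lit 0) (nat_lit 1072370625889) (nat_lit 1) (nat_lit 5) (nat_lit 3) (nat_lit 4) (nat_lit 1) (nat_lit 4) (nat_lit 336) (nat_lit 214) (nat_lit 170)) (XT.lf (nat_lit 0) (nat_lit 8414287264) (nat_lit 152) (nat_lit 18395767058) (nat_lit 0) (nat_lit 8414287264) (nat_lit 1) (nat_lit 5) (nat_lit 3) (nat_lit 4) (nat_lit 1) (nat_lit 4) (nat_lit 290) (nat_lit 215) (nat_lit 215))) (XT.nd (nat_lit 78) (nat_lit 0) (nat_lit 0) (XT.lf (nat_lit 0) (nat_lit 19964750367) (nat_lit 152) (nat_lit 36173206754) (nat_lit 0) (nat_lit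 19781742833) (nat_lit 1) (nat_lit 5) (nat_lit 3) (nat_lit 4) (nat_lit 1) (nat_lit 4) (nat_lit 291) (nat_lit 215) (nat_lit 214)) (XT.nd (nat_lit 78) (nat_lit 0) (nat_lit 0) (XT.lf (nat_lit 0) (nat_lit 23254912653) (nat_lit 152) (nat_lit 35679070777) (nat_lit 0) (nat_lit 22902453699) (nat_lit 1) (nat_lit 5) (nat_lit 3) (nat_lit 4) (nat_lit 1) (nat_lit 4) (nat_lit 292) (nat_lit 215) (nat_lit 213)) (XT.lf (nat_lit 0) (nat_lit 26718558644) (nat_lit 152) (nat_lit 35306197975) (nat_lit 0) (nat_lit 26209200227) (nat_lit 1) (nat_lit 5) (nat_lit 3) (nat_lit 4) (nat_lit 1) (nat_lit 4) (nat_lit 293) (nat_lit 215) (nat_lit 212))))) (XT.nd (nat_lit 234) (nat_lit 0) (nat_lit 0) (XT.nd (nat_lit 78) (nat_lit 0) (nat_lit 0) (XT.lf (nat_lit 0) (nat_lit 30376213650) (nat_lit 152) (nat_lit 35052378730) (nat_lit 0) (nat_lit 29721577952) (nat_lit 1) (nat_lit 5) (nat_lit 3) (nat_lit 4) (nat_lit 1) (nat_lit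 4) (nat_lit 294) (nat_lit 215) (nat_lit 211)) (XT.nd (nat_lit 78) (nat_lit 0) (nat_lit 0) (XT.lf (nat_lit 0) (nat_lit 34249552664) (nat_lit 152) (nat_lit 34916108927) (nat_lit 0) (nat_lit 33460400965) (nat_lit 1) (nat_lit 5) (nat_lit 3) (nat_lit 4) (nat_lit 1) (nat_lit 4) (nat_lit 295) (nat_lit 215) (nat_lit 210)) (XT.lf (nat_lit 0) (nat_lit 38361528804) (nat_lit 152) (nat_lit 34896581043) (nat_lit 0) (nat_lit 37447825253) (nat_lit 1) (nat_lit 5) (nat_lit 3) (nat_lit 4) (nat_lit 1) (nat_lit 4) (nat_lit 296) (nat_lit 215) (nat_lit 209)))) (XT.nd (nat_lit 78) (nat_lit 0) (nat_lit 0) (XT.lf (nat_lit 0) (nat_lit 42736509338) (nat_lit 152) (nat_lit 34993679357) (nat_lit 0) (nat_lit 41707479998) (nat_lit 1) (nat_lit 5) (nat_lit 3) (nat_lit 4) (nat_lit 1) (nat_lit 4) (nat_lit 297) (nat_lit 215) (nat_lit 208)) (XT.nd (nat_lit 78) (nat_lit 0) (nat_lit 0) (XT.lf (nat_lit 0) (nat_lit 47400420076)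 (nat_lit 152) (nat_lit 35207979266) (nat_lit 0) (nat_lit 46264607598) (nat_lit 1) (nat_lit 5) (nat_lit 3) (nat_lit 4) (nat_lit 1) (nat_lit 4) (nat_lit 298) (nat_lit 215) (nat_lit 207)) (XT.lf (nat_lit 0) (nat_lit 52380899008) (nat_lit 152) (nat_lit 35540750695) (nat_lit 0) (nat_lit 51146213253) (nat_lit 1) (nat_lit 5) (nat_lit 3) (nat_lit 4) (nat_lit 1) (nat_lit 4) (nat_lit 299) (nat_lit 215) (nat_lit 206)))))) (XT.nd (nat_lit 468) (nat_lit 0) (nat_lit 0) (XT.nd (nat_lit 234) (nat_lit 0) (nat_lit 0) (XT.nd (nat_lit 78) (nat_lit 0) (nat_lit 0) (XT.lf (nat_lit 0) (nat_lit 57707460083) (nat_lit 152) (nat_lit 35993965623) (nat_lit 0) (nat_lit 56381224998) (nat_lit 1) (nat_lit 5) (nat_lit 3) (nat_lit 4) (nat_lit 1) (nat_lit 4) (nat_lit 300) (nat_lit 215) (nat_lit 205)) (XT.nd (nat_lit 78) (nat_lit 0) (nat_lit 0) (XT.lf (nat_lit 0) (nat_lit 63411668106) (nat_lit 152) (nat_lit 36570309768)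 (nat_lit 0) (nat_lit 62000665124) (nat_lit 1) (nat_lit 5) (nat_lit 3) (nat_lit 4) (nat_lit 1) (nat_lit 4) (nat_lit 301) (nat_lit 215) (nat_lit 204)) (XT.lf (nat_lit 0) (nat_lit 69527325793) (nat_lit 152) (nat_lit 37273198504) (nat_lit 0) (nat_lit 68037834016) (nat_lit 1) (nat_lit 5) (nat_lit 3) (nat_lit 4) (nat_lit 1) (nat_lit 4) (nat_lit 302) (nat_lit 215) (nat_lit 203)))) (XT.nd (nat_lit 78) (nat_lit 0) (nat_lit 0) (XT.lf (nat_lit 0) (nat_lit 76090674078) (nat_lit 152) (nat_lit 38106797096) (nat_lit 0) (nat_lit 74528507492) (nat_lit 1) (nat_lit 5) (nat_lit 3) (nat_lit 4) (nat_lit 1) (nat_lit 4) (nat_lit 303) (nat_lit 215) (nat_lit 202)) (XT.nd (nat_lit 78) (nat_lit 0) (nat_lit 0) (XT.lf (nat_lit 0) (nat_lit 83140606877) (nat_lit 152) (nat_lit 39076045388) (nat_lit 0) (nat_lit 81511148800) (nat_lit 1) (nat_lit 5) (nat_lit 3) (nat_lit 4) (nat_lit 1) (nat_lit 4) (nat_lit 304) (nat_lit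 215) (nat_lit 201)) (XT.lf (nat_lit 0) (nat_lit 90718901568) (nat_lit 152) (nat_lit 40186687074) (nat_lit 0) (nat_lit 89027136556) (nat_lit 1) (nat_lit 5) (nat_lit 3) (nat_lit 4) (nat_lit 1) (nat_lit 4) (nat_lit 305) (nat_lit 215) (nat_lit 200))))) (XT.nd (nat_lit 234) (nat_lit 0) (nat_lit 0) (XT.nd (nat_lit 78) (nat_lit 0) (nat_lit 0) (XT.lf (nat_lit 0) (nat_lit 98870466566) (nat_lit 152) (nat_lit 41445303734) (nat_lit 0) (nat_lit 97121009947) (nat_lit 1) (nat_lit 5) (nat_lit 3) (nat_lit 4) (nat_lit 1) (nat_lit 4) (nat_lit 306) (nat_lit 215) (nat_lit 199)) (XT.nd (nat_lit 78) (nat_lit 0) (nat_lit 0) (XT.lf (nat_lit 0) (nat_lit 107643607440) (nat_lit 152) (nat_lit 42859353837) (nat_lit 0) (nat_lit 105840732666) (nat_lit 1) (nat_lit 5) (nat_lit 3) (nat_lit 4) (nat_lit 1) (nat_lit 4) (nat_lit 307) (nat_lit 215) (nat_lit 198)) (XT.lf (nat_lit 0) (nat_lit 117090313174) (nat_lit 152) (nat_lit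 44437216939) (nat_lit 0) (nat_lit 115237977145) (nat_lit 1) (nat_lit 5) (nat_lit 3) (nat_lit 4) (nat_lit 1) (nat_lit 4) (nat_lit 308) (nat_lit 215) (nat_lit 197)))) (XT.nd (nat_lit 78) (nat_lit 0) (nat_lit 0) (XT.lf (nat_lit 0) (nat_lit 127266564245) (nat_lit 152) (nat_lit 46188243341) (nat_lit 0) (nat_lit 125368430759) (nat_lit 1) (nat_lit 5) (nat_lit 3) (nat_lit 4) (nat_lit 1) (nat_lit 4) (nat_lit 309) (nat_lit 215) (nat_lit 196)) (XT.nd (nat_lit 78) (nat_lit 0) (nat_lit 0) (XT.lf (nat_lit 0) (nat_lit 138232664365) (nat_lit 152) (nat_lit 48122809494) (nat_lit 0) (nat_lit 136292125825) (nat_lit 1) (nat_lit 5) (nat_lit 3) (nat_lit 4) (nat_lit 1) (nat_lit 4) (nat_lit 310) (nat_lit 215) (nat_lit 195)) (XT.lf (nat_lit 0) (nat_lit 150053597829) (nat_lit 152) (nat_lit 50252379495) (nat_lit 0) (nat_lit 148073795351) (nat_lit 1) (nat_lit 5) (nat_lit 3) (nat_lit 4) (nat_lit 1) (nat_lit 4)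 (nat_lit 311) (nat_lit 215) (nat_lit 194))))))))
noncomputable def xc12 : XT := (XT.nd (nat_lit 1794) (nat_lit 0) (nat_lit 0) (XT.nd (nat_lit 858) (nat_lit 0) (nat_lit 0) (XT.nd (nat_lit 390) (nat_lit 0) (nat_lit 0) (XT.nd (nat_lit 156) (nat_lit 0) (nat_lit 0) (XT.nd (nat_lit 78) (nat_lit 0) (nat_lit 0) (XT.lf (nat_lit 0) (nat_lit 162799414615) (nat_lit 152) (nat_lit 52589573018) (nat_lit 0) (nat_lit 160783256638) (nat_lit 1) (nat_lit 5) (nat_lit 3) (nat_lit 4) (nat_lit 1) (nat_lit 4) (nat_lit 312) (nat_lit 215) (nat_lit 193)) (XT.lf (nat_lit 0) (nat_lit 176545645487) (nat_lit 152) (nat_lit 55148240098) (nat_lit 0) (nat_lit 174495825012) (nat_lit 1) (nat_lit 5) (nat_lit 3) (nat_lit 4) (nat_lit 1) (nat_lit 4) (nat_lit 313) (nat_lit 215) (nat_lit 192))) (XT.nd (nat_lit 78) (nat_lit 0) (nat_lit 0) (XT.lf (nat_lit 0) (nat_lit 191373749593) (nat_lit 152) (nat_lit 57943543208) (nat_lit 0)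 (nat_lit 189292760138) (nat_lit 1) (nat_lit 5) (nat_lit 3) (nat_lit 4) (nat_lit 1) (nat_lit 4) (nat_lit 314) (nat_lit 215) (nat_lit 191)) (XT.nd (nat_lit 78) (nat_lit 0) (nat_lit 0) (XT.lf (nat_lit 0) (nat_lit 207371597178) (nat_lit 152) (nat_lit 60992047105) (nat_lit 0) (nat_lit 205261747556) (nat_lit 1) (nat_lit 5) (nat_lit 3) (nat_lit 4) (nat_lit 1) (nat_lit 4) (nat_lit 315) (nat_lit 215) (nat_lit 190)) (XT.lf (nat_lit 0) (nat_lit 224633990302) (nat_lit 152) (nat_lit 64311816999) (nat_lit 0) (nat_lit 222497418304) (nat_lit 1) (nat_lit 5) (nat_lit 3) (nat_lit 4) (nat_lit 1) (nat_lit 4) (nat_lit 316) (nat_lit 215) (nat_lit 189))))) (XT.nd (nat_lit 234) (nat_lit 0) (nat_lit 0) (XT.nd (nat_lit 78) (nat_lit 0) (nat_lit 0) (XT.lf (nat_lit 0) (nat_lit 243263224629) (nat_lit 152) (nat_lit 67922525599) (nat_lit 0) (nat_lit 241101909689) (nat_lit 1) (nat_lit 5) (nat_lit 3) (nat_lit 4) (nat_lit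 1) (nat_lit 4) (nat_lit 317) (nat_lit 215) (nat_lit 188)) (XT.nd (nat_lit 78) (nat_lit 0) (nat_lit 0) (XT.lf (nat_lit 0) (nat_lit 263369695621) (nat_lit 152) (nat_lit 71845569699) (nat_lit 0) (nat_lit 261185470550) (nat_lit 1) (nat_lit 5) (nat_lit 3) (nat_lit 4) (nat_lit 1) (nat_lit 4) (nat_lit 318) (nat_lit 215) (nat_lit 187)) (XT.lf (nat_lit 0) (nat_lit 285072552735) (nat_lit 152) (nat_lit 76104196966) (nat_lit 0) (nat_lit 282867114580) (nat_lit 1) (nat_lit 5) (nat_lit 3) (nat_lit 4) (nat_lit 1) (nat_lit 4) (nat_lit 319) (nat_lit 215) (nat_lit 186)))) (XT.nd (nat_lit 78) (nat_lit 0) (nat_lit 0) (XT.lf (nat_lit 0) (nat_lit 308500405496) (nat_lit 152) (nat_lit 80723643709) (nat_lit 0) (nat_lit 306275325597) (nat_lit 1) (nat_lit 5) (nat_lit 3) (nat_lit 4) (nat_lit 1) (nat_lit 4) (nat_lit 320) (nat_lit 215) (nat_lit 185)) (XT.nd (nat_lit 78) (nat_lit 0) (nat_lit 0) (XT.lf (nat_lit 0)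 (nat_lit 333792085624) (nat_lit 152) (nat_lit 85731284429) (nat_lit 0) (nat_lit 331548818924) (nat_lit 1) (nat_lit 5) (nat_lit 3) (nat_lit 4) (nat_lit 1) (nat_lit 4) (nat_lit 321) (nat_lit 215) (nat_lit 184)) (XT.lf (nat_lit 0) (nat_lit 361097469740) (nat_lit 152) (nat_lit 91156794034) (nat_lit 0) (nat_lit 358837363410) (nat_lit 1) (nat_lit 5) (nat_lit 3) (nat_lit 4) (nat_lit 1) (nat_lit 4) (nat_lit 322) (nat_lit 215) (nat_lit 183)))))) (XT.nd (nat_lit 468) (nat_lit 0) (nat_lit 0) (XT.nd (nat_lit 234) (nat_lit 0) (nat_lit 0) (XT.nd (nat_lit 78) (nat_lit 0) (nat_lit 0) (XT.lf (nat_lit 0) (nat_lit 390578367530) (nat_lit 152) (nat_lit 97032323691) (nat_lit 0) (nat_lit 388302668950) (nat_lit 1) (nat_lit 5) (nat_lit 3) (nat_lit 4) (nat_lit 1) (nat_lit 4) (nat_lit 323) (nat_lit 215) (nat_lit 182)) (XT.nd (nat_lit 78) (nat_lit 0) (nat_lit 0) (XT.lf (nat_lit 0) (nat_lit 422409480610) (nat_lit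 152) (nat_lit 103392691353) (nat_lit 0) (nat_lit 420119344761) (nat_lit 1) (nat_lit 5) (nat_lit 3) (nat_lit 4) (nat_lit 1) (nat_lit 4) (nat_lit 324) (nat_lit 215) (nat_lit 181)) (XT.lf (nat_lit 0) (nat_lit 456779437797) (nat_lit 152) (nat_lit 110275588089) (nat_lit 0) (nat_lit 454475934107) (nat_lit 1) (nat_lit 5) (nat_lit 3) (nat_lit 4) (nat_lit 1) (nat_lit 4) (nat_lit 325) (nat_lit 215) (nat_lit 180)))) (XT.nd (nat_lit 78) (nat_lit 0) (nat_lit 0) (XT.lf (nat_lit 0) (nat_lit 493891912913) (nat_lit 152) (nat_lit 117721801435) (nat_lit 0) (nat_lit 491576031591) (nat_lit 1) (nat_lit 5) (nat_lit 3) (nat_lit 4) (nat_lit 1) (nat_lit 4) (nat_lit 326) (nat_lit 215) (nat_lit 179)) (XT.nd (nat_lit 78) (nat_lit 0) (nat_lit 0) (XT.lf (nat_lit 0) (nat_lit 533966831735) (nat_lit 152) (nat_lit 125775457099) (nat_lit 0) (nat_lit 531639489644) (nat_lit 1) (nat_lit 5) (nat_lit 3) (nat_lit 4) (nat_lit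 1) (nat_lit 4) (nat_lit 327) (nat_lit 215) (nat_lit 178)) (XT.lf (nat_lit 0) (nat_lit 577241675264) (nat_lit 152) (nat_lit 134484280449) (nat_lit 0) (nat_lit 574903721350) (nat_lit 1) (nat_lit 5) (nat_lit 3) (nat_lit 4) (nat_lit 1) (nat_lit 4) (nat_lit 328) (nat_lit 215) (nat_lit 177))))) (XT.nd (nat_lit 234) (nat_lit 0) (nat_lit 0) (XT.nd (nat_lit 78) (nat_lit 0) (nat_lit 0) (XT.lf (nat_lit 0) (nat_lit 623972887018) (nat_lit 152) (nat_lit 143899879325) (nat_lit 0) (nat_lit 621625107341) (nat_lit 1) (nat_lit 5) (nat_lit 3) (nat_lit 4) (nat_lit 1) (nat_lit 4) (nat_lit 329) (nat_lit 215) (nat_lit 176)) (XT.nd (nat_lit 78) (nat_lit 0) (nat_lit 0) (XT.lf (nat_lit 0) (nat_lit 674437392695) (nat_lit 152) (nat_lit 154078049871) (nat_lit 0) (nat_lit 672080515090) (nat_lit 1) (nat_lit 5) (nat_lit 3) (nat_lit 4) (nat_lit 1) (nat_lit 4) (nat_lit 330) (nat_lit 215) (nat_lit 175)) (XT.lf (nat_lit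 0) (nat_lit 728934241218) (nat_lit 152) (nat_lit 165079107170) (nat_lit 0) (nat_lit 726568939606) (nat_lit 1) (nat_lit 5) (nat_lit 3) (nat_lit 4) (nat_lit 1) (nat_lit 4) (nat_lit 331) (nat_lit 215) (nat_lit 174)))) (XT.nd (nat_lit 78) (nat_lit 0) (nat_lit 0) (XT.lf (nat_lit 0) (nat_lit 787786376875) (nat_lit 152) (nat_lit 176968242674) (nat_lit 0) (nat_lit 785413275256) (nat_lit 1) (nat_lit 5) (nat_lit 3) (nat_lit 4) (nat_lit 1) (nat_lit 4) (nat_lit 332) (nat_lit 215) (nat_lit 173)) (XT.nd (nat_lit 78) (nat_lit 0) (nat_lit 0) (XT.lf (nat_lit 0) (nat_lit 851342553063) (nat_lit 152) (nat_lit 189815910518) (nat_lit 0) (nat_lit 848962229215) (nat_lit 1) (nat_lit 5) (nat_lit 3) (nat_lit 4) (nat_lit 1) (nat_lit 4) (nat_lit 333) (nat_lit 215) (nat_lit 172)) (XT.lf (nat_lit 0) (nat_lit 919979398972) (nat_lit 152) (nat_lit 203698245030) (nat_lit 0) (nat_lit 917592387875) (nat_lit 1) (nat_lit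 5) (nat_lit 3) (nat_lit 4) (nat_lit 1) (nat_lit 4) (nat_lit 334) (nat_lit 215) (nat_lit 171))))))) (XT.nd (nat_lit 34632) (nat_lit 0) (nat_lit 0) (XT.nd (nat_lit 34164) (nat_lit 0) (nat_lit 0) (XT.nd (nat_lit 33930) (nat_lit 0) (nat_lit 0) (XT.nd (nat_lit 33852) (nat_lit 0) (nat_lit 0) (XT.lf (nat_lit 0) (nat_lit 994103651469) (nat_lit 152) (nat_lit 218697511898) (nat_lit 0) (nat_lit 991710448475) (nat_lit 1) (nat_lit 5) (nat_lit 3) (nat_lit 4) (nat_lit 1) (nat_lit 4) (nat_lit 335) (nat_lit 215) (nat_lit 170)) (XT.lf (nat_lit 0) (nat_lit 5598318269) (nat_lit 152) (nat_lit 19159397745) (nat_lit 0) (nat_lit 5598318269) (nat_lit 1) (nat_lit 5) (nat_lit 3) (nat_lit 4) (nat_lit 1) (nat_lit 4) (nat_lit 288) (nat_lit 216) (nat_lit 216))) (XT.nd (nat_lit 78) (nat_lit 0) (nat_lit 0) (XT.lf (nat_lit 0) (nat_lit 14025448528) (nat_lit 152) (nat_lit 37537717029) (nat_lit 0) (nat_lit 13827800391)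 (nat_lit 1) (nat_lit 5) (nat_lit 3) (nat_lit 4) (nat_lit 1) (nat_lit 4) (nat_lit 289) (nat_lit 216) (nat_lit 215)) (XT.nd (nat_lit 78) (nat_lit 0) (nat_lit 0) (XT.lf (nat_lit 0) (nat_lit 16975905247) (nat_lit 152) (nat_lit 36881702474) (nat_lit 0) (nat_lit 16595249577) (nat_lit 1) (nat_lit 5) (nat_lit 3) (nat_lit 4) (nat_lit 1) (nat_lit 4) (nat_lit 290) (nat_lit 216) (nat_lit 214)) (XT.lf (nat_lit 0) (nat_lit 20065490884) (nat_lit 152) (nat_lit 36346864330) (nat_lit 0) (nat_lit 19515383793) (nat_lit 1) (nat_lit 5) (nat_lit 3) (nat_lit 4) (nat_lit 1) (nat_lit 4) (nat_lit 291) (nat_lit 216) (nat_lit 213))))) (XT.nd (nat_lit 234) (nat_lit 0) (nat_lit 0) (XT.nd (nat_lit 78) (nat_lit 0) (nat_lit 0) (XT.lf (nat_lit 0) (nat_lit 23312514094) (nat_lit 152) (nat_lit 35930033186) (nat_lit 0) (nat_lit 22605507540) (nat_lit 1) (nat_lit 5) (nat_lit 3) (nat_lit 4) (nat_lit 1) (nat_lit 4) (nat_lit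 292) (nat_lit 216) (nat_lit 212)) (XT.nd (nat_lit 78) (nat_lit 0) (nat_lit 0) (XT.lf (nat_lit 0) (nat_lit 26736216497) (nat_lit 152) (nat_lit 35628738932) (nat_lit 0) (nat_lit 25883932662) (nat_lit 1) (nat_lit 5) (nat_lit 3) (nat_lit 4) (nat_lit 1) (nat_lit 4) (nat_lit 293) (nat_lit 216) (nat_lit 211)) (XT.lf (nat_lit 0) (nat_lit 30356886698) (nat_lit 152) (nat_lit 35441196121) (nat_lit 0) (nat_lit 29370086863) (nat_lit 1) (nat_lit 5) (nat_lit 3) (nat_lit 4) (nat_lit 1) (nat_lit 4) (nat_lit 294) (nat_lit 216) (nat_lit 210)))) (XT.nd (nat_lit 78) (nat_lit 0) (nat_lit 0) (XT.lf (nat_lit 0) (nat_lit 34195980522) (nat_lit 152) (nat_lit 35366293387) (nat_lit 0) (nat_lit 33084628834) (nat_lit 1) (nat_lit 5) (nat_lit 3) (nat_lit 4) (nat_lit 1) (nat_lit 4) (nat_lit 295) (nat_lit 216) (nat_lit 209)) (XT.nd (nat_lit 78) (nat_lit 0) (nat_lit 0) (XT.lf (nat_lit 0) (nat_lit 38276248154) (nat_lit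 152) (nat_lit 35403586863) (nat_lit 0) (nat_lit 37049570677) (nat_lit 1) (nat_lit 5) (nat_lit 3) (nat_lit 4) (nat_lit 1) (nat_lit 4) (nat_lit 296) (nat_lit 216) (nat_lit 208)) (XT.lf (nat_lit 0) (nat_lit 42621868958) (nat_lit 152) (nat_lit 35553297547) (nat_lit 0) (nat_lit 41288408343) (nat_lit 1) (nat_lit 5) (nat_lit 3) (nat_lit 4) (nat_lit 1) (nat_lit 4) (nat_lit 297) (nat_lit 216) (nat_lit 207)))))) (XT.nd (nat_lit 468) (nat_lit 0) (nat_lit 0) (XT.nd (nat_lit 234) (nat_lit 0) (nat_lit 0) (XT.nd (nat_lit 78) (nat_lit 0) (nat_lit 0) (XT.lf (nat_lit 0) (nat_lit 47258594761) (nat_lit 152) (nat_lit 35816312613) (nat_lit 0) (nat_lit 45826260869) (nat_lit 1) (nat_lit 5) (nat_lit 3) (nat_lit 4) (nat_lit 1) (nat_lit 4) (nat_lit 298) (nat_lit 216) (nat_lit 206)) (XT.nd (nat_lit 78) (nat_lit 0) (nat_lit 0) (XT.lf (nat_lit 0) (nat_lit 52213902456) (nat_lit 152) (nat_lit 36194190669) (nat_lit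 0) (nat_lit 50690019235) (nat_lit 1) (nat_lit 5) (nat_lit 3) (nat_lit 4) (nat_lit 1) (nat_lit 4) (nat_lit 299) (nat_lit 216) (nat_lit 205)) (XT.lf (nat_lit 0) (nat_lit 57517156830) (nat_lit 152) (nat_lit 36689170993) (nat_lit 0) (nat_lit 55908505711) (nat_lit 1) (nat_lit 5) (nat_lit 3) (nat_lit 4) (nat_lit 1) (nat_lit 4) (nat_lit 300) (nat_lit 216) (nat_lit 204)))) (XT.nd (nat_lit 78) (nat_lit 0) (nat_lit 0) (XT.lf (nat_lit 0) (nat_lit 63199784576) (nat_lit 152) (nat_lit 37304186802) (nat_lit 0) (nat_lit 61512644662) (nat_lit 1) (nat_lit 5) (nat_lit 3) (nat_lit 4) (nat_lit 1) (nat_lit 4) (nat_lit 301) (nat_lit 216) (nat_lit 203)) (XT.nd (nat_lit 78) (nat_lit 0) (nat_lit 0) (XT.lf (nat_lit 0) (nat_lit 69295460524) (nat_lit 152) (nat_lit 38042882632) (nat_lit 0) (nat_lit 67535645801) (nat_lit 1) (nat_lit 5) (nat_lit 3) (nat_lit 4) (nat_lit 1) (nat_lit 4) (nat_lit 302) (nat_lit 216) (nat_lit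 202)) (XT.lf (nat_lit 0) (nat_lit 75840307199) (nat_lit 152) (nat_lit 38909635942) (nat_lit 0) (nat_lit 74013200985) (nat_lit 1) (nat_lit 5) (nat_lit 3) (nat_lit 4) (nat_lit 1) (nat_lit 4) (nat_lit 303) (nat_lit 216) (nat_lit 201))))) (XT.nd (nat_lit 234) (nat_lit 0) (nat_lit 0) (XT.nd (nat_lit 78) (nat_lit 0) (nat_lit 0) (XT.lf (nat_lit 0) (nat_lit 82873108876) (nat_lit 152) (nat_lit 39909583047) (nat_lit 0) (nat_lit 80983695727) (nat_lit 1) (nat_lit 5) (nat_lit 3) (nat_lit 4) (nat_lit 1) (nat_lit 4) (nat_lit 304) (nat_lit 216) (nat_lit 200)) (XT.nd (nat_lit 78) (nat_lit 0) (nat_lit 0) (XT.lf (nat_lit 0) (nat_lit 90435541419) (nat_lit 152) (nat_lit 41048649559) (nat_lit 0) (nat_lit 88488436663) (nat_lit 1) (nat_lit 5) (nat_lit 3) (nat_lit 4) (nat_lit 1) (nat_lit 4) (nat_lit 305) (nat_lit 216) (nat_lit 199)) (XT.lf (nat_lit 0) (nat_lit 98572419242) (nat_lit 152) (nat_lit 42333585503)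 (nat_lit 0) (nat_lit 96571896332) (nat_lit 1) (nat_lit 5) (nat_lit 3) (nat_lit 4) (nat_lit 1) (nat_lit 4) (nat_lit 306) (nat_lit 216) (nat_lit 198)))) (XT.nd (nat_lit 78) (nat_lit 0) (nat_lit 0) (XT.lf (nat_lit 0) (nat_lit 107331960881) (nat_lit 152) (nat_lit 43772005313) (nat_lit 0) (nat_lit 105281976716) (nat_lit 1) (nat_lit 5) (nat_lit 3) (nat_lit 4) (nat_lit 1) (nat_lit 4) (nat_lit 307) (nat_lit 216) (nat_lit 197)) (XT.nd (nat_lit 78) (nat_lit 0) (nat_lit 0) (XT.lf (nat_lit 0) (nat_lit 116766074729) (nat_lit 152) (nat_lit 45372432959) (nat_lit 0) (nat_lit 114670293107) (nat_lit 1) (nat_lit 5) (nat_lit 3) (nat_lit 4) (nat_lit 1) (nat_lit 4) (nat_lit 308) (nat_lit 216) (nat_lit 196)) (XT.lf (nat_lit 0) (nat_lit 126930666648) (nat_lit 152) (nat_lit 47144352457) (nat_lit 0) (nat_lit 124792479972) (nat_lit 1) (nat_lit 5) (nat_lit 3) (nat_lit 4) (nat_lit 1) (nat_lit 4) (nat_lit 309)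 (nat_lit 216) (nat_lit 195))))))))
noncomputable def xc13 : XT := (XT.nd (nat_lit 1794) (nat_lit 0) (nat_lit 0) (XT.nd (nat_lit 858) (nat_lit 0) (nat_lit 0) (XT.nd (nat_lit 390) (nat_lit 0) (nat_lit 0) (XT.nd (nat_lit 156) (nat_lit 0) (nat_lit 0) (XT.nd (nat_lit 78) (nat_lit 0) (nat_lit 0) (XT.lf (nat_lit 0) (nat_lit 137885971256) (nat_lit 152) (nat_lit 49098264069) (nat_lit 0) (nat_lit 135708520641) (nat_lit 1) (nat_lit 5) (nat_lit 3) (nat_lit 4) (nat_lit 1) (nat_lit 4) (nat_lit 310) (nat_lit 216) (nat_lit 194)) (XT.lf (nat_lit 0) (nat_lit 149696908876) (nat_lit 152) (nat_lit 51245746533) (nat_lit 0) (nat_lit 147483102763) (nat_lit 1) (nat_lit 5) (nat_lit 3) (nat_lit 4) (nat_lit 1) (nat_lit 4) (nat_lit 311) (nat_lit 216) (nat_lit 193))) (XT.nd (nat_lit 78) (nat_lit 0) (nat_lit 0) (XT.lf (nat_lit 0) (nat_lit 162433470250) (nat_lit 152) (nat_lit 53599525669) (nat_lit 0) (nat_lit 160186001638)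 (nat_lit 1) (nat_lit 5) (nat_lit 3) (nat_lit 4) (nat_lit 1) (nat_lit 4) (nat_lit 312) (nat_lit 216) (nat_lit 192)) (XT.nd (nat_lit 78) (nat_lit 0) (nat_lit 0) (XT.lf (nat_lit 0) (nat_lit 176171131297) (nat_lit 152) (nat_lit 56173549798) (nat_lit 0) (nat_lit 173892493705) (nat_lit 1) (nat_lit 5) (nat_lit 3) (nat_lit 4) (nat_lit 1) (nat_lit 4) (nat_lit 313) (nat_lit 216) (nat_lit 191)) (XT.lf (nat_lit 0) (nat_lit 190991300379) (nat_lit 152) (nat_lit 58983072398) (nat_lit 0) (nat_lit 188683802621) (nat_lit 1) (nat_lit 5) (nat_lit 3) (nat_lit 4) (nat_lit 1) (nat_lit 4) (nat_lit 314) (nat_lit 216) (nat_lit 190))))) (XT.nd (nat_lit 234) (nat_lit 0) (nat_lit 0) (XT.nd (nat_lit 78) (nat_lit 0) (nat_lit 0) (XT.lf (nat_lit 0) (nat_lit 206981800720) (nat_lit 152) (nat_lit 62044742490) (nat_lit 0) (nat_lit 204647580585) (nat_lit 1) (nat_lit 5) (nat_lit 3) (nat_lit 4) (nat_lit 1) (nat_lit 4) (nat_lit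 315) (nat_lit 216) (nat_lit 189)) (XT.nd (nat_lit 78) (nat_lit 0) (nat_lit 0) (XT.lf (nat_lit 0) (nat_lit 224237390841) (nat_lit 152) (nat_lit 65376703304) (nat_lit 0) (nat_lit 221878427764) (nat_lit 1) (nat_lit 5) (nat_lit 3) (nat_lit 4) (nat_lit 1) (nat_lit 4) (nat_lit 316) (nat_lit 216) (nat_lit 188)) (XT.lf (nat_lit 0) (nat_lit 242860326090) (nat_lit 152) (nat_lit 68998699795) (nat_lit 0) (nat_lit 240478452883) (nat_lit 1) (nat_lit 5) (nat_lit 3) (nat_lit 4) (nat_lit 1) (nat_lit 4) (nat_lit 317) (nat_lit 216) (nat_lit 187)))) (XT.nd (nat_lit 78) (nat_lit 0) (nat_lit 0) (XT.lf (nat_lit 0) (nat_lit 262960964603) (nat_lit 152) (nat_lit 72932195644) (nat_lit 0) (nat_lit 260557878311) (nat_lit 1) (nat_lit 5) (nat_lit 3) (nat_lit 4) (nat_lit 1) (nat_lit 4) (nat_lit 318) (nat_lit 216) (nat_lit 186)) (XT.nd (nat_lit 78) (nat_lit 0) (nat_lit 0) (XT.lf (nat_lit 0) (nat_lit 284658421274)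 (nat_lit 152) (nat_lit 77200500457) (nat_lit 0) (nat_lit 282235693238) (nat_lit 1) (nat_lit 5) (nat_lit 3) (nat_lit 4) (nat_lit 1) (nat_lit 4) (nat_lit 319) (nat_lit 216) (nat_lit 185)) (XT.lf (nat_lit 0) (nat_lit 308081273624) (nat_lit 152) (nat_lit 81828907891) (nat_lit 0) (nat_lit 305640358787) (nat_lit 1) (nat_lit 5) (nat_lit 3) (nat_lit 4) (nat_lit 1) (nat_lit 4) (nat_lit 320) (nat_lit 216) (nat_lit 184)))))) (XT.nd (nat_lit 468) (nat_lit 0) (nat_lit 0) (XT.nd (nat_lit 234) (nat_lit 0) (nat_lit 0) (XT.nd (nat_lit 78) (nat_lit 0) (nat_lit 0) (XT.lf (nat_lit 0) (nat_lit 333368323741) (nat_lit 152) (nat_lit 86844845547) (nat_lit 0) (nat_lit 330910569275) (nat_lit 1) (nat_lit 5) (nat_lit 3) (nat_lit 4) (nat_lit 1) (nat_lit 4) (nat_lit 321) (nat_lit 216) (nat_lit 183)) (XT.nd (nat_lit 78) (nat_lit 0) (nat_lit 0) (XT.lf (nat_lit 0) (nat_lit 360669420812) (nat_lit 152) (nat_lit 92278037500)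 (nat_lit 0) (nat_lit 358196074095) (nat_lit 1) (nat_lit 5) (nat_lit 3) (nat_lit 4) (nat_lit 1) (nat_lit 4) (nat_lit 322) (nat_lit 216) (nat_lit 182)) (XT.lf (nat_lit 0) (nat_lit 390146349114) (nat_lit 152) (nat_lit 98160680442) (nat_lit 0) (nat_lit 387658565129) (nat_lit 1) (nat_lit 5) (nat_lit 3) (nat_lit 4) (nat_lit 1) (nat_lit 4) (nat_lit 323) (nat_lit 216) (nat_lit 181)))) (XT.nd (nat_lit 78) (nat_lit 0) (nat_lit 0) (XT.lf (nat_lit 0) (nat_lit 421973786743) (nat_lit 152) (nat_lit 104527634479) (nat_lit 0) (nat_lit 419472634916) (nat_lit 1) (nat_lit 5) (nat_lit 3) (nat_lit 4) (nat_lit 1) (nat_lit 4) (nat_lit 324) (nat_lit 216) (nat_lit 180)) (XT.nd (nat_lit 78) (nat_lit 0) (nat_lit 0) (XT.lf (nat_lit 0) (nat_lit 456340340734) (nat_lit 152) (nat_lit 111416629711) (nat_lit 0) (nat_lit 453826811277) (nat_lit 1) (nat_lit 5) (nat_lit 3) (nat_lit 4) (nat_lit 1) (nat_lit 4) (nat_lit 325)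 (nat_lit 216) (nat_lit 179)) (XT.lf (nat_lit 0) (nat_lit 493449664743) (nat_lit 152) (nat_lit 118868489812) (nat_lit 0) (nat_lit 490924674516) (nat_lit 1) (nat_lit 5) (nat_lit 3) (nat_lit 4) (nat_lit 1) (nat_lit 4) (nat_lit 326) (nat_lit 216) (nat_lit 178))))) (XT.nd (nat_lit 234) (nat_lit 0) (nat_lit 0) (XT.nd (nat_lit 78) (nat_lit 0) (nat_lit 0) (XT.lf (nat_lit 0) (nat_lit 533521665873) (nat_lit 152) (nat_lit 126927373953) (nat_lit 0) (nat_lit 530986063823) (nat_lit 1) (nat_lit 5) (nat_lit 3) (nat_lit 4) (nat_lit 1) (nat_lit 4) (nat_lit 327) (nat_lit 216) (nat_lit 177)) (XT.nd (nat_lit 78) (nat_lit 0) (nat_lit 0) (XT.lf (nat_lit 0) (nat_lit 576793807836) (nat_lit 152) (nat_lit 135641038485) (nat_lit 0) (nat_lit 574248380023) (nat_lit 1) (nat_lit 5) (nat_lit 3) (nat_lit 4) (nat_lit 1) (nat_lit 4) (nat_lit 328) (nat_lit 216) (nat_lit 176)) (XT.lf (nat_lit 0) (nat_lit 623522518140)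 (nat_lit 152) (nat_lit 145061119938) (nat_lit 0) (nat_lit 620967992399) (nat_lit 1) (nat_lit 5) (nat_lit 3) (nat_lit 4) (nat_lit 1) (nat_lit 4) (nat_lit 329) (nat_lit 216) (nat_lit 175)))) (XT.nd (nat_lit 78) (nat_lit 0) (nat_lit 0) (XT.lf (nat_lit 0) (nat_lit 673984707659) (nat_lit 152) (nat_lit 155243441017) (nat_lit 0) (nat_lit 671421757911) (nat_lit 1) (nat_lit 5) (nat_lit 3) (nat_lit 4) (nat_lit 1) (nat_lit 4) (nat_lit 330) (nat_lit 216) (nat_lit 174)) (XT.nd (nat_lit 78) (nat_lit 0) (nat_lit 0) (XT.lf (nat_lit 0) (nat_lit 728479411592) (nat_lit 152) (nat_lit 166248341403) (nat_lit 0) (nat_lit 725908661836) (nat_lit 1) (nat_lit 5) (nat_lit 3) (nat_lit 4) (nat_lit 1) (nat_lit 4) (nat_lit 331) (nat_lit 216) (nat_lit 173)) (XT.lf (nat_lit 0) (nat_lit 787329561517) (nat_lit 152) (nat_lit 178141035320) (nat_lit 0) (nat_lit 784751589533) (nat_lit 1) (nat_lit 5) (nat_lit 3) (nat_lit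 4) (nat_lit 1) (nat_lit 4) (nat_lit 332) (nat_lit 216) (nat_lit 172))))))) (XT.nd (nat_lit 34476) (nat_lit 0) (nat_lit 0) (XT.nd (nat_lit 34008) (nat_lit 0) (nat_lit 0) (XT.nd (nat_lit 156) (nat_lit 0) (nat_lit 0) (XT.nd (nat_lit 78) (nat_lit 0) (nat_lit 0) (XT.lf (nat_lit 0) (nat_lit 850883899064) (nat_lit 152) (nat_lit 190991997992) (nat_lit 0) (nat_lit 848299239830) (nat_lit 1) (nat_lit 5) (nat_lit 3) (nat_lit 4) (nat_lit 1) (nat_lit 4) (nat_lit 333) (nat_lit 216) (nat_lit 171)) (XT.lf (nat_lit 0) (nat_lit 919519042528) (nat_lit 152) (nat_lit 204877383271) (nat_lit 0) (nat_lit 916928191398) (nat_lit 1) (nat_lit 5) (nat_lit 3) (nat_lit 4) (nat_lit 1) (nat_lit 4) (nat_lit 334) (nat_lit 216) (nat_lit 170))) (XT.nd (nat_lit 33696) (nat_lit 0) (nat_lit 0) (XT.lf (nat_lit 0) (nat_lit 993641718687) (nat_lit 152) (nat_lit 219879474921) (nat_lit 0) (nat_lit 991045134319) (nat_lit 1) (nat_lit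 5) (nat_lit 3) (nat_lit 4) (nat_lit 1) (nat_lit 4) (nat_lit 335) (nat_lit 216) (nat_lit 169)) (XT.nd (nat_lit 78) (nat_lit 0) (nat_lit 0) (XT.lf (nat_lit 0) (nat_lit 3054832584) (nat_lit 152) (nat_lit 20085127378) (nat_lit 0) (nat_lit 3054832584) (nat_lit 1) (nat_lit 5) (nat_lit 3) (nat_lit 4) (nat_lit 1) (nat_lit 4) (nat_lit 286) (nat_lit 217) (nat_lit 217)) (XT.lf (nat_lit 0) (nat_lit 8686165935) (nat_lit 152) (nat_lit 39229566469) (nat_lit 0) (nat_lit 8472705947) (nat_lit 1) (nat_lit 5) (nat_lit 3) (nat_lit 4) (nat_lit 1) (nat_lit 4) (nat_lit 287) (nat_lit 217) (nat_lit 216))))) (XT.nd (nat_lit 234) (nat_lit 0) (nat_lit 0) (XT.nd (nat_lit 78) (nat_lit 0) (nat_lit 0) (XT.lf (nat_lit 0) (nat_lit 11355753714) (nat_lit 152) (nat_lit 38416177315) (nat_lit 0) (nat_lit 10944645590) (nat_lit 1) (nat_lit 5) (nat_lit 3) (nat_lit 4) (nat_lit 1) (nat_lit 4) (nat_lit 288) (nat_lit 217) (nat_lit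 215)) (XT.nd (nat_lit 78) (nat_lit 0) (nat_lit 0) (XT.lf (nat_lit 0) (nat_lit 14134248286) (nat_lit 152) (nat_lit 37725267211) (nat_lit 0) (nat_lit 13540132628) (nat_lit 1) (nat_lit 5) (nat_lit 3) (nat_lit 4) (nat_lit 1) (nat_lit 4) (nat_lit 289) (nat_lit 217) (nat_lit 214)) (XT.lf (nat_lit 0) (nat_lit 17038114803) (nat_lit 152) (nat_lit 37152741875) (nat_lit 0) (nat_lit 16274547725) (nat_lit 1) (nat_lit 5) (nat_lit 3) (nat_lit 4) (nat_lit 1) (nat_lit 4) (nat_lit 290) (nat_lit 217) (nat_lit 213)))) (XT.nd (nat_lit 78) (nat_lit 0) (nat_lit 0) (XT.lf (nat_lit 0) (nat_lit 20084561364) (nat_lit 152) (nat_lit 36695208564) (nat_lit 0) (nat_lit 19164094823) (nat_lit 1) (nat_lit 5) (nat_lit 3) (nat_lit 4) (nat_lit 1) (nat_lit 4) (nat_lit 291) (nat_lit 217) (nat_lit 212)) (XT.nd (nat_lit 78) (nat_lit 0) (nat_lit 0) (XT.lf (nat_lit 0) (nat_lit 23291640986) (nat_lit 152) (nat_lit 36349955969)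 (nat_lit 0) (nat_lit 22225897164) (nat_lit 1) (nat_lit 5) (nat_lit 3) (nat_lit 4) (nat_lit 1) (nat_lit 4) (nat_lit 292) (nat_lit 217) (nat_lit 211)) (XT.lf (nat_lit 0) (nat_lit 26678358584) (nat_lit 152) (nat_lit 36114938149) (nat_lit 0) (nat_lit 25478098761) (nat_lit 1) (nat_lit 5) (nat_lit 3) (nat_lit 4) (nat_lit 1) (nat_lit 4) (nat_lit 293) (nat_lit 217) (nat_lit 210)))))) (XT.nd (nat_lit 468) (nat_lit 0) (nat_lit 0) (XT.nd (nat_lit 234) (nat_lit 0) (nat_lit 0) (XT.nd (nat_lit 78) (nat_lit 0) (nat_lit 0) (XT.lf (nat_lit 0) (nat_lit 30264783596) (nat_lit 152) (nat_lit 35988762406) (nat_lit 0) (nat_lit 28939971921) (nat_lit 1) (nat_lit 5) (nat_lit 3) (nat_lit 4) (nat_lit 1) (nat_lit 4) (nat_lit 294) (nat_lit 217) (nat_lit 209)) (XT.nd (nat_lit 78) (nat_lit 0) (nat_lit 0) (XT.lf (nat_lit 0) (nat_lit 34072168911) (nat_lit 152) (nat_lit 35970681032) (nat_lit 0) (nat_lit 32632031447)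 (nat_lit 1) (nat_lit 5) (nat_lit 3) (nat_lit 4) (nat_lit 1) (nat_lit 4) (nat_lit 295) (nat_lit 217) (nat_lit 208)) (XT.lf (nat_lit 0) (nat_lit 38123076813) (nat_lit 152) (nat_lit 36060586878) (nat_lit 0) (nat_lit 36576156210) (nat_lit 1) (nat_lit 5) (nat_lit 3) (nat_lit 4) (nat_lit 1) (nat_lit 4) (nat_lit 296) (nat_lit 217) (nat_lit 207)))) (XT.nd (nat_lit 78) (nat_lit 0) (nat_lit 0) (XT.lf (nat_lit 0) (nat_lit 42441512682) (nat_lit 152) (nat_lit 36259012719) (nat_lit 0) (nat_lit 40795718803) (nat_lit 1) (nat_lit 5) (nat_lit 3) (nat_lit 4) (nat_lit 1) (nat_lit 4) (nat_lit 297) (nat_lit 217) (nat_lit 206)) (XT.nd (nat_lit 78) (nat_lit 0) (nat_lit 0) (XT.lf (nat_lit 0) (nat_lit 47053067248) (nat_lit 152) (nat_lit 36567134413) (nat_lit 0) (nat_lit 45315724040) (nat_lit 1) (nat_lit 5) (nat_lit 3) (nat_lit 4) (nat_lit 1) (nat_lit 4) (nat_lit 298) (nat_lit 217) (nat_lit 205)) (XT.lf (nat_lit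 0) (nat_lit 51985068243) (nat_lit 152) (nat_lit 36986777865) (nat_lit 0) (nat_lit 50162957136) (nat_lit 1) (nat_lit 5) (nat_lit 3) (nat_lit 4) (nat_lit 1) (nat_lit 4) (nat_lit 299) (nat_lit 217) (nat_lit 204))))) (XT.nd (nat_lit 234) (nat_lit 0) (nat_lit 0) (XT.nd (nat_lit 78) (nat_lit 0) (nat_lit 0) (XT.lf (nat_lit 0) (nat_lit 57266742339) (nat_lit 152) (nat_lit 37520429852) (nat_lit 0) (nat_lit 55366142438) (nat_lit 1) (nat_lit 5) (nat_lit 3) (nat_lit 4) (nat_lit 1) (nat_lit 4) (nat_lit 300) (nat_lit 217) (nat_lit 203)) (XT.nd (nat_lit 78) (nat_lit 0) (nat_lit 0) (XT.lf (nat_lit 0) (nat_lit 62929388346) (nat_lit 152) (nat_lit 38171252755) (nat_lit 0) (nat_lit 60956113635) (nat_lit 1) (nat_lit 5) (nat_lit 3) (nat_lit 4) (nat_lit 1) (nat_lit 4) (nat_lit 301) (nat_lit 217) (nat_lit 202)) (XT.lf (nat_lit 0) (nat_lit 69006562684) (nat_lit 152) (nat_lit 38943103303) (nat_lit 0) (nat_lit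 66965996482) (nat_lit 1) (nat_lit 5) (nat_lit 3) (nat_lit 4) (nat_lit 1) (nat_lit 4) (nat_lit 302) (nat_lit 217) (nat_lit 201)))) (XT.nd (nat_lit 78) (nat_lit 0) (nat_lit 0) (XT.lf (nat_lit 0) (nat_lit 75534278238) (nat_lit 152) (nat_lit 39840555426) (nat_lit 0) (nat_lit 73431405101) (nat_lit 1) (nat_lit 5) (nat_lit 3) (nat_lit 4) (nat_lit 1) (nat_lit 4) (nat_lit 303) (nat_lit 217) (nat_lit 200)) (XT.nd (nat_lit 78) (nat_lit 0) (nat_lit 0) (XT.lf (nat_lit 0) (nat_lit 82551217767) (nat_lit 152) (nat_lit 40868927357) (nat_lit 0) (nat_lit 80390653023) (nat_lit 1) (nat_lit 5) (nat_lit 3) (nat_lit 4) (nat_lit 1) (nat_lit 4) (nat_lit 304) (nat_lit 217) (nat_lit 199)) (XT.lf (nat_lit 0) (nat_lit 90098963135) (nat_lit 152) (nat_lit 42034313153) (nat_lit 0) (nat_lit 87884980237) (nat_lit 1) (nat_lit 5) (nat_lit 3) (nat_lit 4) (nat_lit 1) (nat_lit 4) (nat_lit 305) (nat_lit 217) (nat_lit 198))))))))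
noncomputable def xc14 : XT := (XT.nd (nat_lit 1794) (nat_lit 0) (nat_lit 0) (XT.nd (nat_lit 858) (nat_lit 0) (nat_lit 0) (XT.nd (nat_lit 390) (nat_lit 0) (nat_lit 0) (XT.nd (nat_lit 156) (nat_lit 0) (nat_lit 0) (XT.nd (nat_lit 78) (nat_lit 0) (nat_lit 0) (XT.lf (nat_lit 0) (nat_lit 98222241722) (nat_lit 152) (nat_lit 43343618804) (nat_lit 0) (nat_lit 95958797570) (nat_lit 1) (nat_lit 5) (nat_lit 3) (nat_lit 4) (nat_lit 1) (nat_lit 4) (nat_lit 306) (nat_lit 217) (nat_lit 197)) (XT.lf (nat_lit 0) (nat_lit 106969191476) (nat_lit 152) (nat_lit 44804603158) (nat_lit 0) (nat_lit 104659949866) (nat_lit 1) (nat_lit 5) (nat_lit 3) (nat_lit 4) (nat_lit 1) (nat_lit 4) (nat_lit 307) (nat_lit 217) (nat_lit 196))) (XT.nd (nat_lit 78) (nat_lit 0) (nat_lit 0) (XT.lf (nat_lit 0) (nat_lit 116391646172) (nat_lit 152) (nat_lit 46425923900) (nat_lit 0) (nat_lit 114039999508) (nat_lit 1) (nat_lit 5) (nat_lit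 3) (nat_lit 4) (nat_lit 1) (nat_lit 4) (nat_lit 308) (nat_lit 217) (nat_lit 195)) (XT.nd (nat_lit 78) (nat_lit 0) (nat_lit 0) (XT.lf (nat_lit 0) (nat_lit 126545442579) (nat_lit 152) (nat_lit 48217188857) (nat_lit 0) (nat_lit 124154531977) (nat_lit 1) (nat_lit 5) (nat_lit 3) (nat_lit 4) (nat_lit 1) (nat_lit 4) (nat_lit 309) (nat_lit 217) (nat_lit 194)) (XT.lf (nat_lit 0) (nat_lit 137490751342) (nat_lit 152) (nat_lit 50189012932) (nat_lit 0) (nat_lit 135063485241) (nat_lit 1) (nat_lit 5) (nat_lit 3) (nat_lit 4) (nat_lit 1) (nat_lit 4) (nat_lit 310) (nat_lit 217) (nat_lit 193))))) (XT.nd (nat_lit 234) (nat_lit 0) (nat_lit 0) (XT.nd (nat_lit 78) (nat_lit 0) (nat_lit 0) (XT.lf (nat_lit 0) (nat_lit 149292433550) (nat_lit 152) (nat_lit 52353081009) (nat_lit 0) (nat_lit 146831504952) (nat_lit 1) (nat_lit 5) (nat_lit 3) (nat_lit 4) (nat_lit 1) (nat_lit 4) (nat_lit 311) (nat_lit 217) (nat_lit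 192)) (XT.nd (nat_lit 78) (nat_lit 0) (nat_lit 0) (XT.lf (nat_lit 0) (nat_lit 162020425099) (nat_lit 152) (nat_lit 54722217194) (nat_lit 0) (nat_lit 159528327520) (nat_lit 1) (nat_lit 5) (nat_lit 3) (nat_lit 4) (nat_lit 1) (nat_lit 4) (nat_lit 312) (nat_lit 217) (nat_lit 191)) (XT.lf (nat_lit 0) (nat_lit 175750151123) (nat_lit 152) (nat_lit 57310460814) (nat_lit 0) (nat_lit 173229193377) (nat_lit 1) (nat_lit 5) (nat_lit 3) (nat_lit 4) (nat_lit 1) (nat_lit 4) (nat_lit 313) (nat_lit 217) (nat_lit 190)))) (XT.nd (nat_lit 78) (nat_lit 0) (nat_lit 0) (XT.lf (nat_lit 0) (nat_lit 190562972961) (nat_lit 152) (nat_lit 60133149608) (nat_lit 0) (nat_lit 188015292838) (nat_lit 1) (nat_lit 5) (nat_lit 3) (nat_lit 4) (nat_lit 1) (nat_lit 4) (nat_lit 314) (nat_lit 217) (nat_lit 189)) (XT.nd (nat_lit 78) (nat_lit 0) (nat_lit 0) (XT.lf (nat_lit 0) (nat_lit 206546670298) (nat_lit 152) (nat_lit 63207010620)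 (nat_lit 0) (nat_lit 203974247234) (nat_lit 1) (nat_lit 5) (nat_lit 3) (nat_lit 4) (nat_lit 1) (nat_lit 4) (nat_lit 315) (nat_lit 217) (nat_lit 188)) (XT.lf (nat_lit 0) (nat_lit 223795961342) (nat_lit 152) (nat_lit 66550259325) (nat_lit 0) (nat_lit 221200628147) (nat_lit 1) (nat_lit 5) (nat_lit 3) (nat_lit 4) (nat_lit 1) (nat_lit 4) (nat_lit 316) (nat_lit 217) (nat_lit 187)))))) (XT.nd (nat_lit 468) (nat_lit 0) (nat_lit 0) (XT.nd (nat_lit 234) (nat_lit 0) (nat_lit 0) (XT.nd (nat_lit 78) (nat_lit 0) (nat_lit 0) (XT.lf (nat_lit 0) (nat_lit 242413064112) (nat_lit 152) (nat_lit 70182707565) (nat_lit 0) (nat_lit 239796517833) (nat_lit 1) (nat_lit 5) (nat_lit 3) (nat_lit 4) (nat_lit 1) (nat_lit 4) (nat_lit 317) (nat_lit 217) (nat_lit 186)) (XT.nd (nat_lit 78) (nat_lit 0) (nat_lit 0) (XT.lf (nat_lit 0) (nat_lit 262508302181) (nat_lit 152) (nat_lit 74125880960) (nat_lit 0) (nat_lit 259872114157)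 (nat_lit 1) (nat_lit 5) (nat_lit 3) (nat_lit 4) (nat_lit 1) (nat_lit 4) (nat_lit 318) (nat_lit 217) (nat_lit 185)) (XT.lf (nat_lit 0) (nat_lit 284200758441) (nat_lit 152) (nat_lit 78403146464) (nat_lit 0) (nat_lit 281546383617) (nat_lit 1) (nat_lit 5) (nat_lit 3) (nat_lit 4) (nat_lit 1) (nat_lit 4) (nat_lit 319) (nat_lit 217) (nat_lit 184)))) (XT.nd (nat_lit 78) (nat_lit 0) (nat_lit 0) (XT.lf (nat_lit 0) (nat_lit 307618980781) (nat_lit 152) (nat_lit 83039850834) (nat_lit 0) (nat_lit 304947766327) (nat_lit 1) (nat_lit 5) (nat_lit 3) (nat_lit 4) (nat_lit 1) (nat_lit 4) (nat_lit 320) (nat_lit 217) (nat_lit 183)) (XT.nd (nat_lit 78) (nat_lit 0) (nat_lit 0) (XT.lf (nat_lit 0) (nat_lit 332901743852) (nat_lit 152) (nat_lit 88063470838) (nat_lit 0) (nat_lit 330214937148) (nat_lit 1) (nat_lit 5) (nat_lit 3) (nat_lit 4) (nat_lit 1) (nat_lit 4) (nat_lit 321) (nat_lit 217) (nat_lit 182)) (XT.lf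 (nat_lit 0) (nat_lit 360198871435) (nat_lit 152) (nat_lit 93503776076) (nat_lit 0) (nat_lit 357497627462) (nat_lit 1) (nat_lit 5) (nat_lit 3) (nat_lit 4) (nat_lit 1) (nat_lit 4) (nat_lit 322) (nat_lit 217) (nat_lit 181))))) (XT.nd (nat_lit 234) (nat_lit 0) (nat_lit 0) (XT.nd (nat_lit 78) (nat_lit 0) (nat_lit 0) (XT.lf (nat_lit 0) (nat_lit 389672124287) (nat_lit 152) (nat_lit 99393005393) (nat_lit 0) (nat_lit 386957512472) (nat_lit 1) (nat_lit 5) (nat_lit 3) (nat_lit 4) (nat_lit 1) (nat_lit 4) (nat_lit 323) (nat_lit 217) (nat_lit 180)) (XT.nd (nat_lit 78) (nat_lit 0) (nat_lit 0) (XT.lf (nat_lit 0) (nat_lit 421496158719) (nat_lit 152) (nat_lit 105766057927) (nat_lit 0) (nat_lit 418769169274) (nat_lit 1) (nat_lit 5) (nat_lit 3) (nat_lit 4) (nat_lit 1) (nat_lit 4) (nat_lit 324) (nat_lit 217) (nat_lit 179)) (XT.lf (nat_lit 0) (nat_lit 455859561604) (nat_lit 152) (nat_lit 112660699913) (nat_lit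 0) (nat_lit 453121111390) (nat_lit 1) (nat_lit 5) (nat_lit 3) (nat_lit 4) (nat_lit 1) (nat_lit 4) (nat_lit 325) (nat_lit 217) (nat_lit 178)))) (XT.nd (nat_lit 78) (nat_lit 0) (nat_lit 0) (XT.lf (nat_lit 0) (nat_lit 492965967921) (nat_lit 152) (nat_lit 120117788491) (nat_lit 0) (nat_lit 490216905883) (nat_lit 1) (nat_lit 5) (nat_lit 3) (nat_lit 4) (nat_lit 1) (nat_lit 4) (nat_lit 326) (nat_lit 217) (nat_lit 177)) (XT.nd (nat_lit 78) (nat_lit 0) (nat_lit 0) (XT.lf (nat_lit 0) (nat_lit 533035267485) (nat_lit 152) (nat_lit 128181513815) (nat_lit 0) (nat_lit 530276379685) (nat_lit 1) (nat_lit 5) (nat_lit 3) (nat_lit 4) (nat_lit 1) (nat_lit 4) (nat_lit 327) (nat_lit 217) (nat_lit 176)) (XT.lf (nat_lit 0) (nat_lit 576304907998) (nat_lit 152) (nat_lit 136899660923) (nat_lit 0) (nat_lit 573536922269) (nat_lit 1) (nat_lit 5) (nat_lit 3) (nat_lit 4) (nat_lit 1) (nat_lit 4) (nat_lit 328) (nat_lit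 217) (nat_lit 175))))))) (XT.nd (nat_lit 34320) (nat_lit 0) (nat_lit 0) (XT.nd (nat_lit 390) (nat_lit 0) (nat_lit 0) (XT.nd (nat_lit 156) (nat_lit 0) (nat_lit 0) (XT.nd (nat_lit 78) (nat_lit 0) (nat_lit 0) (XT.lf (nat_lit 0) (nat_lit 623031302143) (nat_lit 152) (nat_lit 146323892910) (nat_lit 0) (nat_lit 620254892407) (nat_lit 1) (nat_lit 5) (nat_lit 3) (nat_lit 4) (nat_lit 1) (nat_lit 4) (nat_lit 329) (nat_lit 217) (nat_lit 174)) (XT.lf (nat_lit 0) (nat_lit 673491347072) (nat_lit 152) (nat_lit 156510057076) (nat_lit 0) (nat_lit 670707137329) (nat_lit 1) (nat_lit 5) (nat_lit 3) (nat_lit 4) (nat_lit 1) (nat_lit 4) (nat_lit 330) (nat_lit 217) (nat_lit 173))) (XT.nd (nat_lit 78) (nat_lit 0) (nat_lit 0) (XT.lf (nat_lit 0) (nat_lit 727984065273) (nat_lit 152) (nat_lit 167518515875) (nat_lit 0) (nat_lit 725192633301) (nat_lit 1) (nat_lit 5) (nat_lit 3) (nat_lit 4) (nat_lit 1) (nat_lit 4)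 (nat_lit 331) (nat_lit 217) (nat_lit 172)) (XT.nd (nat_lit 78) (nat_lit 0) (nat_lit 0) (XT.lf (nat_lit 0) (nat_lit 786832376558) (nat_lit 152) (nat_lit 179414504620) (nat_lit 0) (nat_lit 784034257337) (nat_lit 1) (nat_lit 5) (nat_lit 3) (nat_lit 4) (nat_lit 1) (nat_lit 4) (nat_lit 332) (nat_lit 217) (nat_lit 171)) (XT.lf (nat_lit 0) (nat_lit 850385011659) (nat_lit 152) (nat_lit 192268518057) (nat_lit 0) (nat_lit 847580700542) (nat_lit 1) (nat_lit 5) (nat_lit 3) (nat_lit 4) (nat_lit 1) (nat_lit 4) (nat_lit 333) (nat_lit 217) (nat_lit 170))))) (XT.nd (nat_lit 33696) (nat_lit 0) (nat_lit 0) (XT.nd (nat_lit 78) (nat_lit 0) (nat_lit 0) (XT.lf (nat_lit 0) (nat_lit 919018578786) (nat_lit 152) (nat_lit 206156728119) (nat_lit 0) (nat_lit 916208534430) (nat_lit 1) (nat_lit 5) (nat_lit 3) (nat_lit 4) (nat_lit 1) (nat_lit 4) (nat_lit 334) (nat_lit 217) (nat_lit 169)) (XT.nd (nat_lit 33540) (nat_lit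 0) (nat_lit 0) (XT.lf (nat_lit 0) (nat_lit 993139795372) (nat_lit 152) (nat_lit 221161435310) (nat_lit 0) (nat_lit 990324442463) (nat_lit 1) (nat_lit 5) (nat_lit 3) (nat_lit 4) (nat_lit 1) (nat_lit 4) (nat_lit 335) (nat_lit 217) (nat_lit 168)) (XT.lf (nat_lit 0) (nat_lit 734617729) (nat_lit 152) (nat_lit 21171513883) (nat_lit 0) (nat_lit 734617729) (nat_lit 1) (nat_lit 5) (nat_lit 3) (nat_lit 4) (nat_lit 1) (nat_lit 4) (nat_lit 284) (nat_lit 218) (nat_lit 218)))) (XT.nd (nat_lit 78) (nat_lit 0) (nat_lit 0) (XT.lf (nat_lit 0) (nat_lit 3841520051) (nat_lit 152) (nat_lit 41243816627) (nat_lit 0) (nat_lit 3610983264) (nat_lit 1) (nat_lit 5) (nat_lit 3) (nat_lit 4) (nat_lit 1) (nat_lit 4) (nat_lit 285) (nat_lit 218) (nat_lit 217)) (XT.nd (nat_lit 78) (nat_lit 0) (nat_lit 0) (XT.lf (nat_lit 0) (nat_lit 6281511719) (nat_lit 152) (nat_lit 40275427128) (nat_lit 0) (nat_lit 5837514945) (nat_lit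 1) (nat_lit 5) (nat_lit 3) (nat_lit 4) (nat_lit 1) (nat_lit 4) (nat_lit 286) (nat_lit 218) (nat_lit 216)) (XT.lf (nat_lit 0) (nat_lit 8803669674) (nat_lit 152) (nat_lit 39432120666) (nat_lit 0) (nat_lit 8162024763) (nat_lit 1) (nat_lit 5) (nat_lit 3) (nat_lit 4) (nat_lit 1) (nat_lit 4) (nat_lit 287) (nat_lit 218) (nat_lit 215)))))) (XT.nd (nat_lit 468) (nat_lit 0) (nat_lit 0) (XT.nd (nat_lit 234) (nat_lit 0) (nat_lit 0) (XT.nd (nat_lit 78) (nat_lit 0) (nat_lit 0) (XT.lf (nat_lit 0) (nat_lit 11422940034) (nat_lit 152) (nat_lit 38708899869) (nat_lit 0) (nat_lit 10598287590) (nat_lit 1) (nat_lit 5) (nat_lit 3) (nat_lit 4) (nat_lit 1) (nat_lit 4) (nat_lit 288) (nat_lit 218) (nat_lit 214)) (XT.nd (nat_lit 78) (nat_lit 0) (nat_lit 0) (XT.lf (nat_lit 0) (nat_lit 14154844404) (nat_lit 152) (nat_lit 38101478984) (nat_lit 0) (nat_lit 13160740540) (nat_lit 1) (nat_lit 5) (nat_lit 3) (nat_lit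 4) (nat_lit 1) (nat_lit 4) (nat_lit 289) (nat_lit 218) (nat_lit 213)) (XT.lf (nat_lit 0) (nat_lit 17015571846) (nat_lit 152) (nat_lit 37606258480) (nat_lit 0) (nat_lit 15864568518) (nat_lit 1) (nat_lit 5) (nat_lit 3) (nat_lit 4) (nat_lit 1) (nat_lit 4) (nat_lit 290) (nat_lit 218) (nat_lit 212)))) (XT.nd (nat_lit 78) (nat_lit 0) (nat_lit 0) (XT.lf (nat_lit 0) (nat_lit 20022074818) (nat_lit 152) (nat_lit 37220303718) (nat_lit 0) (nat_lit 18725794210) (nat_lit 1) (nat_lit 5) (nat_lit 3) (nat_lit 4) (nat_lit 1) (nat_lit 4) (nat_lit 291) (nat_lit 218) (nat_lit 211)) (XT.nd (nat_lit 78) (nat_lit 0) (nat_lit 0) (XT.lf (nat_lit 0) (nat_lit 23192169635) (nat_lit 152) (nat_lit 36941327557) (nat_lit 0) (nat_lit 21761373026) (nat_lit 1) (nat_lit 5) (nat_lit 3) (nat_lit 4) (nat_lit 1) (nat_lit 4) (nat_lit 292) (nat_lit 218) (nat_lit 210)) (XT.lf (nat_lit 0) (nat_lit 26544642044) (nat_lit 152) (nat_lit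 36767676805) (nat_lit 0) (nat_lit 24989293582) (nat_lit 1) (nat_lit 5) (nat_lit 3) (nat_lit 4) (nat_lit 1) (nat_lit 4) (nat_lit 293) (nat_lit 218) (nat_lit 209))))) (XT.nd (nat_lit 234) (nat_lit 0) (nat_lit 0) (XT.nd (nat_lit 78) (nat_lit 0) (nat_lit 0) (XT.lf (nat_lit 0) (nat_lit 30099358548) (nat_lit 152) (nat_lit 36698322422) (nat_lit 0) (nat_lit 28428684297) (nat_lit 1) (nat_lit 5) (nat_lit 3) (nat_lit 4) (nat_lit 1) (nat_lit 4) (nat_lit 294) (nat_lit 218) (nat_lit 208)) (XT.nd (nat_lit 78) (nat_lit 0) (nat_lit 0) (XT.lf (nat_lit 0) (nat_lit 33877384133) (nat_lit 152) (nat_lit 36732853419) (nat_lit 0) (nat_lit 32099926744) (nat_lit 1) (nat_lit 5) (nat_lit 3) (nat_lit 4) (nat_lit 1) (nat_lit 4) (nat_lit 295) (nat_lit 218) (nat_lit 207)) (XT.lf (nat_lit 0) (nat_lit 37901107100) (nat_lit 152) (nat_lit 36871474422) (nat_lit 0) (nat_lit 36024776434) (nat_lit 1) (nat_lit 5) (nat_lit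 3) (nat_lit 4) (nat_lit 1) (nat_lit 4) (nat_lit 296) (nat_lit 218) (nat_lit 206)))) (XT.nd (nat_lit 78) (nat_lit 0) (nat_lit 0) (XT.lf (nat_lit 0) (nat_lit 42194371732) (nat_lit 152) (nat_lit 37115006891) (nat_lit 0) (nat_lit 40226491737) (nat_lit 1) (nat_lit 5) (nat_lit 3) (nat_lit 4) (nat_lit 1) (nat_lit 4) (nat_lit 297) (nat_lit 218) (nat_lit 205)) (XT.nd (nat_lit 78) (nat_lit 0) (nat_lit 0) (XT.lf (nat_lit 0) (nat_lit 46782619598) (nat_lit 152) (nat_lit 37464893980) (nat_lit 0) (nat_lit 44729971705) (nat_lit 1) (nat_lit 5) (nat_lit 3) (nat_lit 4) (nat_lit 1) (nat_lit 4) (nat_lit 298) (nat_lit 218) (nat_lit 204)) (XT.lf (nat_lit 0) (nat_lit 51693040315) (nat_lit 152) (nat_lit 37923209095) (nat_lit 0) (nat_lit 49561903627) (nat_lit 1) (nat_lit 5) (nat_lit 3) (nat_lit 4) (nat_lit 1) (nat_lit 4) (nat_lit 299) (nat_lit 218) (nat_lit 203))))))))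
noncomputable def xc15 : XT := (XT.nd (nat_lit 1794) (nat_lit 0) (nat_lit 0) (XT.nd (nat_lit 858) (nat_lit 0) (nat_lit 0) (XT.nd (nat_lit 390) (nat_lit 0) (nat_lit 0) (XT.nd (nat_lit 156) (nat_lit 0) (nat_lit 0) (XT.nd (nat_lit 78) (nat_lit 0) (nat_lit 0) (XT.lf (nat_lit 0) (nat_lit 56954732672) (nat_lit 152) (nat_lit 38492668176) (nat_lit 0) (nat_lit 54750921174) (nat_lit 1) (nat_lit 5) (nat_lit 3) (nat_lit 4) (nat_lit 1) (nat_lit 4) (nat_lit 300) (nat_lit 218) (nat_lit 202)) (XT.lf (nat_lit 0) (nat_lit 62598877068) (nat_lit 152) (nat_lit 39176645797) (nat_lit 0) (nat_lit 60327774080) (nat_lit 1) (nat_lit 5) (nat_lit 3) (nat_lit 4) (nat_lit 1) (nat_lit 4) (nat_lit 301) (nat_lit 218) (nat_lit 201))) (XT.nd (nat_lit 78) (nat_lit 0) (nat_lit 0) (XT.lf (nat_lit 0) (nat_lit 68658920285) (nat_lit 152) (nat_lit 39979195158) (nat_lit 0) (nat_lit 66325510362) (nat_lit 1) (nat_lit 5) (nat_lit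 3) (nat_lit 4) (nat_lit 1) (nat_lit 4) (nat_lit 302) (nat_lit 218) (nat_lit 200)) (XT.nd (nat_lit 78) (nat_lit 0) (nat_lit 0) (XT.lf (nat_lit 0) (nat_lit 75170773691) (nat_lit 152) (nat_lit 40905072107) (nat_lit 0) (nat_lit 72779672161) (nat_lit 1) (nat_lit 5) (nat_lit 3) (nat_lit 4) (nat_lit 1) (nat_lit 4) (nat_lit 303) (nat_lit 218) (nat_lit 199)) (XT.lf (nat_lit 0) (nat_lit 82173026045) (nat_lit 152) (nat_lit 41959763322) (nat_lit 0) (nat_lit 79728506361) (nat_lit 1) (nat_lit 5) (nat_lit 3) (nat_lit 4) (nat_lit 1) (nat_lit 4) (nat_lit 304) (nat_lit 218) (nat_lit 198))))) (XT.nd (nat_lit 234) (nat_lit 0) (nat_lit 0) (XT.nd (nat_lit 78) (nat_lit 0) (nat_lit 0) (XT.lf (nat_lit 0) (nat_lit 89707172178) (nat_lit 152) (nat_lit 43149518826) (nat_lit 0) (nat_lit 87213191239) (nat_lit 1) (nat_lit 5) (nat_lit 3) (nat_lit 4) (nat_lit 1) (nat_lit 4) (nat_lit 305) (nat_lit 218) (nat_lit 197))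 (XT.nd (nat_lit 78) (nat_lit 0) (nat_lit 0) (XT.lf (nat_lit 0) (nat_lit 97817858880) (nat_lit 152) (nat_lit 44481389020) (nat_lit 0) (nat_lit 95278080483) (nat_lit 1) (nat_lit 5) (nat_lit 3) (nat_lit 4) (nat_lit 1) (nat_lit 4) (nat_lit 306) (nat_lit 218) (nat_lit 196)) (XT.lf (nat_lit 0) (nat_lit 106553149481) (nat_lit 152) (nat_lit 45963266471) (nat_lit 0) (nat_lit 103970966030) (nat_lit 1) (nat_lit 5) (nat_lit 3) (nat_lit 4) (nat_lit 1) (nat_lit 4) (nat_lit 307) (nat_lit 218) (nat_lit 195)))) (XT.nd (nat_lit 78) (nat_lit 0) (nat_lit 0) (XT.lf (nat_lit 0) (nat_lit 115964808665) (nat_lit 152) (nat_lit 47603932672) (nat_lit 0) (nat_lit 113343361276) (nat_lit 1) (nat_lit 5) (nat_lit 3) (nat_lit 4) (nat_lit 1) (nat_lit 4) (nat_lit 308) (nat_lit 218) (nat_lit 194)) (XT.nd (nat_lit 78) (nat_lit 0) (nat_lit 0) (XT.lf (nat_lit 0) (nat_lit 126108609227) (nat_lit 152) (nat_lit 49413110091)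 (nat_lit 0) (nat_lit 123450806340) (nat_lit 1) (nat_lit 5) (nat_lit 3) (nat_lit 4) (nat_lit 1) (nat_lit 4) (nat_lit 309) (nat_lit 218) (nat_lit 193)) (XT.lf (nat_lit 0) (nat_lit 137044662579) (nat_lit 152) (nat_lit 51401519779) (nat_lit 0) (nat_lit 134353197194) (nat_lit 1) (nat_lit 5) (nat_lit 3) (nat_lit 4) (nat_lit 1) (nat_lit 4) (nat_lit 310) (nat_lit 218) (nat_lit 192)))))) (XT.nd (nat_lit 468) (nat_lit 0) (nat_lit 0) (XT.nd (nat_lit 234) (nat_lit 0) (nat_lit 0) (XT.nd (nat_lit 78) (nat_lit 0) (nat_lit 0) (XT.lf (nat_lit 0) (nat_lit 148837774962) (nat_lit 152) (nat_lit 53580944905) (nat_lit 0) (nat_lit 146115140597) (nat_lit 1) (nat_lit 5) (nat_lit 3) (nat_lit 4) (nat_lit 1) (nat_lit 4) (nat_lit 311) (nat_lit 218) (nat_lit 191)) (XT.nd (nat_lit 78) (nat_lit 0) (nat_lit 0) (XT.lf (nat_lit 0) (nat_lit 161557831487) (nat_lit 152) (nat_lit 55964300581) (nat_lit 0) (nat_lit 158806336955)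 (nat_lit 1) (nat_lit 5) (nat_lit 3) (nat_lit 4) (nat_lit 1) (nat_lit 4) (nat_lit 312) (nat_lit 218) (nat_lit 190)) (XT.lf (nat_lit 0) (nat_lit 175280210267) (nat_lit 152) (nat_lit 58565710395) (nat_lit 0) (nat_lit 172501993358) (nat_lit 1) (nat_lit 5) (nat_lit 3) (nat_lit 4) (nat_lit 1) (nat_lit 4) (nat_lit 313) (nat_lit 218) (nat_lit 189)))) (XT.nd (nat_lit 78) (nat_lit 0) (nat_lit 0) (XT.lf (nat_lit 0) (nat_lit 190086229102) (nat_lit 152) (nat_lit 61400590110) (nat_lit 0) (nat_lit 187283269251) (nat_lit 1) (nat_lit 5) (nat_lit 3) (nat_lit 4) (nat_lit 1) (nat_lit 4) (nat_lit 314) (nat_lit 218) (nat_lit 188)) (XT.nd (nat_lit 78) (nat_lit 0) (nat_lit 0) (XT.lf (nat_lit 0) (nat_lit 206063627362) (nat_lit 152) (nat_lit 64485739012) (nat_lit 0) (nat_lit 203237757380) (nat_lit 1) (nat_lit 5) (nat_lit 3) (nat_lit 4) (nat_lit 1) (nat_lit 4) (nat_lit 315) (nat_lit 218) (nat_lit 187)) (XT.lf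 (nat_lit 0) (nat_lit 223307085926) (nat_lit 152) (nat_lit 67839439466) (nat_lit 0) (nat_lit 220460002860) (nat_lit 1) (nat_lit 5) (nat_lit 3) (nat_lit 4) (nat_lit 1) (nat_lit 4) (nat_lit 316) (nat_lit 218) (nat_lit 186))))) (XT.nd (nat_lit 234) (nat_lit 0) (nat_lit 0) (XT.nd (nat_lit 78) (nat_lit 0) (nat_lit 0) (XT.lf (nat_lit 0) (nat_lit 241918788252) (nat_lit 152) (nat_lit 71481565253) (nat_lit 0) (nat_lit 239052063442) (nat_lit 1) (nat_lit 5) (nat_lit 3) (nat_lit 4) (nat_lit 1) (nat_lit 4) (nat_lit 317) (nat_lit 218) (nat_lit 185)) (XT.nd (nat_lit 78) (nat_lit 0) (nat_lit 0) (XT.lf (nat_lit 0) (nat_lit 262009025911) (nat_lit 152) (nat_lit 75433699338) (nat_lit 0) (nat_lit 259124114300) (nat_lit 1) (nat_lit 5) (nat_lit 3) (nat_lit 4) (nat_lit 1) (nat_lit 4) (nat_lit 318) (nat_lit 218) (nat_lit 184)) (XT.lf (nat_lit 0) (nat_lit 283696852161) (nat_lit 152) (nat_lit 79719261778) (nat_lit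 0) (nat_lit 280795100920) (nat_lit 1) (nat_lit 5) (nat_lit 3) (nat_lit 4) (nat_lit 1) (nat_lit 4) (nat_lit 319) (nat_lit 218) (nat_lit 183)))) (XT.nd (nat_lit 78) (nat_lit 0) (nat_lit 0) (XT.lf (nat_lit 0) (nat_lit 307110787455) (nat_lit 152) (nat_lit 84363648496) (nat_lit 0) (nat_lit 304193443964) (nat_lit 1) (nat_lit 5) (nat_lit 3) (nat_lit 4) (nat_lit 1) (nat_lit 4) (nat_lit 320) (nat_lit 218) (nat_lit 182)) (XT.nd (nat_lit 78) (nat_lit 0) (nat_lit 0) (XT.lf (nat_lit 0) (nat_lit 332389581038) (nat_lit 152) (nat_lit 89394381786) (nat_lit 0) (nat_lit 329457800279) (nat_lit 1) (nat_lit 5) (nat_lit 3) (nat_lit 4) (nat_lit 1) (nat_lit 4) (nat_lit 321) (nat_lit 218) (nat_lit 181)) (XT.lf (nat_lit 0) (nat_lit 359683033170) (nat_lit 152) (nat_lit 94841273399) (nat_lit 0) (nat_lit 356737884569) (nat_lit 1) (nat_lit 5) (nat_lit 3) (nat_lit 4) (nat_lit 1) (nat_lit 4) (nat_lit 322) (nat_lit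 218) (nat_lit 180))))))) (XT.nd (nat_lit 858) (nat_lit 0) (nat_lit 0) (XT.nd (nat_lit 390) (nat_lit 0) (nat_lit 0) (XT.nd (nat_lit 156) (nat_lit 0) (nat_lit 0) (XT.nd (nat_lit 78) (nat_lit 0) (nat_lit 0) (XT.lf (nat_lit 0) (nat_lit 389152882826) (nat_lit 152) (nat_lit 100736601212) (nat_lit 0) (nat_lit 386195356594) (nat_lit 1) (nat_lit 5) (nat_lit 3) (nat_lit 4) (nat_lit 1) (nat_lit 4) (nat_lit 323) (nat_lit 218) (nat_lit 179)) (XT.lf (nat_lit 0) (nat_lit 420973766152) (nat_lit 152) (nat_lit 107115300500) (nat_lit 0) (nat_lit 418004779151) (nat_lit 1) (nat_lit 5) (nat_lit 3) (nat_lit 4) (nat_lit 1) (nat_lit 4) (nat_lit 324) (nat_lit 218) (nat_lit 178))) (XT.nd (nat_lit 78) (nat_lit 0) (nat_lit 0) (XT.lf (nat_lit 0) (nat_lit 455334251345) (nat_lit 152) (nat_lit 114015170964) (nat_lit 0) (nat_lit 452354652520) (nat_lit 1) (nat_lit 5) (nat_lit 3) (nat_lit 4) (nat_lit 1) (nat_lit 4) (nat_lit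 325) (nat_lit 218) (nat_lit 177)) (XT.nd (nat_lit 78) (nat_lit 0) (nat_lit 0) (XT.lf (nat_lit 0) (nat_lit 492437956095) (nat_lit 152) (nat_lit 121477100724) (nat_lit 0) (nat_lit 489448531508) (nat_lit 1) (nat_lit 5) (nat_lit 3) (nat_lit 4) (nat_lit 1) (nat_lit 4) (nat_lit 326) (nat_lit 218) (nat_lit 176)) (XT.lf (nat_lit 0) (nat_lit 532504754209) (nat_lit 152) (nat_lit 129545308624) (nat_lit 0) (nat_lit 529506231694) (nat_lit 1) (nat_lit 5) (nat_lit 3) (nat_lit 4) (nat_lit 1) (nat_lit 4) (nat_lit 327) (nat_lit 218) (nat_lit 175))))) (XT.nd (nat_lit 234) (nat_lit 0) (nat_lit 0) (XT.nd (nat_lit 78) (nat_lit 0) (nat_lit 0) (XT.lf (nat_lit 0) (nat_lit 575772078564) (nat_lit 152) (nat_lit 138267606266) (nat_lit 0) (nat_lit 572765132041) (nat_lit 1) (nat_lit 5) (nat_lit 3) (nat_lit 4) (nat_lit 1) (nat_lit 4) (nat_lit 328) (nat_lit 218) (nat_lit 174)) (XT.nd (nat_lit 78) (nat_lit 0) (nat_lit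 0) (XT.lf (nat_lit 0) (nat_lit 622496328119) (nat_lit 152) (nat_lit 147695681339) (nat_lit 0) (nat_lit 619481581589) (nat_lit 1) (nat_lit 5) (nat_lit 3) (nat_lit 4) (nat_lit 1) (nat_lit 4) (nat_lit 329) (nat_lit 218) (nat_lit 173)) (XT.lf (nat_lit 0) (nat_lit 672954387316) (nat_lit 152) (nat_lit 157885403919) (nat_lit 0) (nat_lit 669932418558) (nat_lit 1) (nat_lit 5) (nat_lit 3) (nat_lit 4) (nat_lit 1) (nat_lit 4) (nat_lit 330) (nat_lit 218) (nat_lit 172)))) (XT.nd (nat_lit 78) (nat_lit 0) (nat_lit 0) (XT.lf (nat_lit 0) (nat_lit 727445266877) (nat_lit 152) (nat_lit 168897157546) (nat_lit 0) (nat_lit 724416610869) (nat_lit 1) (nat_lit 5) (nat_lit 3) (nat_lit 4) (nat_lit 1) (nat_lit 4) (nat_lit 331) (nat_lit 218) (nat_lit 171)) (XT.nd (nat_lit 78) (nat_lit 0) (nat_lit 0) (XT.lf (nat_lit 0) (nat_lit 786291875716) (nat_lit 152) (nat_lit 180796197056) (nat_lit 0) (nat_lit 783257027812)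 (nat_lit 1) (nat_lit 5) (nat_lit 3) (nat_lit 4) (nat_lit 1) (nat_lit 4) (nat_lit 332) (nat_lit 218) (nat_lit 170)) (XT.lf (nat_lit 0) (nat_lit 849842934480) (nat_lit 152) (nat_lit 193653035277) (nat_lit 0) (nat_lit 846802353337) (nat_lit 1) (nat_lit 5) (nat_lit 3) (nat_lit 4) (nat_lit 1) (nat_lit 4) (nat_lit 333) (nat_lit 218) (nat_lit 169)))))) (XT.nd (nat_lit 33774) (nat_lit 0) (nat_lit 0) (XT.nd (nat_lit 33540) (nat_lit 0) (nat_lit 0) (XT.nd (nat_lit 78) (nat_lit 0) (nat_lit 0) (XT.lf (nat_lit 0) (nat_lit 918475042034) (nat_lit 152) (nat_lit 207543860880) (nat_lit 0) (nat_lit 915429152338) (nat_lit 1) (nat_lit 5) (nat_lit 3) (nat_lit 4) (nat_lit 1) (nat_lit 4) (nat_lit 334) (nat_lit 218) (nat_lit 168)) (XT.nd (nat_lit 33384) (nat_lit 0) (nat_lit 152) (XT.lf (nat_lit 0) (nat_lit 992594907164) (nat_lit 152) (nat_lit 222550989867) (nat_lit 0) (nat_lit 989544102141) (nat_lit 1) (nat_lit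 5) (nat_lit 3) (nat_lit 4) (nat_lit 1) (nat_lit 4) (nat_lit 335) (nat_lit 218) (nat_lit 167)) (XT.lf (nat_lit 0) (nat_lit 16857867902) (nat_lit 76) (nat_lit 1369766884) (nat_lit 76) (nat_lit 1369766884) (nat_lit 3) (nat_lit 4) (nat_lit 4) (nat_lit 5) (nat_lit 4) (nat_lit 4) (nat_lit 282) (nat_lit 219) (nat_lit 219)))) (XT.nd (nat_lit 78) (nat_lit 152) (nat_lit 0) (XT.lf (nat_lit 0) (nat_lit 40710982815) (nat_lit 76) (nat_lit 841007074) (nat_lit 76) (nat_lit 572108966) (nat_lit 3) (nat_lit 4) (nat_lit 4) (nat_lit 5) (nat_lit 4) (nat_lit 4) (nat_lit 283) (nat_lit 219) (nat_lit 218)) (XT.nd (nat_lit 78) (nat_lit 0) (nat_lit 0) (XT.lf (nat_lit 0) (nat_lit 1654829732) (nat_lit 152) (nat_lit 42456613928) (nat_lit 0) (nat_lit 1175313216) (nat_lit 1) (nat_lit 5) (nat_lit 3) (nat_lit 4) (nat_lit 1) (nat_lit 4) (nat_lit 284) (nat_lit 219) (nat_lit 217)) (XT.lf (nat_lit 0) (nat_lit 3968424089)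 (nat_lit 152) (nat_lit 41462575159) (nat_lit 0) (nat_lit 3275447585) (nat_lit 1) (nat_lit 5) (nat_lit 3) (nat_lit 4) (nat_lit 1) (nat_lit 4) (nat_lit 285) (nat_lit 219) (nat_lit 216))))) (XT.nd (nat_lit 234) (nat_lit 0) (nat_lit 0) (XT.nd (nat_lit 78) (nat_lit 0) (nat_lit 0) (XT.lf (nat_lit 0) (nat_lit 6354072946) (nat_lit 152) (nat_lit 40591567485) (nat_lit 0) (nat_lit 5463448306) (nat_lit 1) (nat_lit 5) (nat_lit 3) (nat_lit 4) (nat_lit 1) (nat_lit 4) (nat_lit 286) (nat_lit 219) (nat_lit 215)) (XT.nd (nat_lit 78) (nat_lit 0) (nat_lit 0) (XT.lf (nat_lit 0) (nat_lit 8825913482) (nat_lit 152) (nat_lit 39838429380) (nat_lit 0) (nat_lit 7752281308) (nat_lit 1) (nat_lit 5) (nat_lit 3) (nat_lit 4) (nat_lit 1) (nat_lit 4) (nat_lit 287) (nat_lit 219) (nat_lit 214)) (XT.lf (nat_lit 0) (nat_lit 11398593641) (nat_lit 152) (nat_lit 39198697802) (nat_lit 0) (nat_lit 10155510047) (nat_lit 1) (nat_lit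 5) (nat_lit 3) (nat_lit 4) (nat_lit 1) (nat_lit 4) (nat_lit 288) (nat_lit 219) (nat_lit 213)))) (XT.nd (nat_lit 78) (nat_lit 0) (nat_lit 0) (XT.lf (nat_lit 0) (nat_lit 14087358935) (nat_lit 152) (nat_lit 38668581750) (nat_lit 0) (nat_lit 12687375877) (nat_lit 1) (nat_lit 5) (nat_lit 3) (nat_lit 4) (nat_lit 1) (nat_lit 4) (nat_lit 289) (nat_lit 219) (nat_lit 212)) (XT.nd (nat_lit 78) (nat_lit 0) (nat_lit 0) (XT.lf (nat_lit 0) (nat_lit 16908142787) (nat_lit 152) (nat_lit 38244939795) (nat_lit 0) (nat_lit 15362882450) (nat_lit 1) (nat_lit 5) (nat_lit 3) (nat_lit 4) (nat_lit 1) (nat_lit 4) (nat_lit 290) (nat_lit 219) (nat_lit 211)) (XT.lf (nat_lit 0) (nat_lit 19877660955) (nat_lit 152) (nat_lit 37925261467) (nat_lit 0) (nat_lit 18197884617) (nat_lit 1) (nat_lit 5) (nat_lit 3) (nat_lit 4) (nat_lit 1) (nat_lit 4) (nat_lit 291) (nat_lit 219) (nat_lit 210))))))))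
noncomputable def xc16 : XT := (XT.nd (nat_lit 1794) (nat_lit 0) (nat_lit 0) (XT.nd (nat_lit 858) (nat_lit 0) (nat_lit 0) (XT.nd (nat_lit 390) (nat_lit 0) (nat_lit 0) (XT.nd (nat_lit 156) (nat_lit 0) (nat_lit 0) (XT.nd (nat_lit 78) (nat_lit 0) (nat_lit 0) (XT.lf (nat_lit 0) (nat_lit 23013510583) (nat_lit 152) (nat_lit 37707652374) (nat_lit 0) (nat_lit 21209182392) (nat_lit 1) (nat_lit 5) (nat_lit 3) (nat_lit 4) (nat_lit 1) (nat_lit 4) (nat_lit 292) (nat_lit 219) (nat_lit 209)) (XT.lf (nat_lit 0) (nat_lit 26334274483) (nat_lit 152) (nat_lit 37590822983) (nat_lit 0) (nat_lit 24414620503) (nat_lit 1) (nat_lit 5) (nat_lit 3) (nat_lit 4) (nat_lit 1) (nat_lit 4) (nat_lit 293) (nat_lit 219) (nat_lit 208))) (XT.nd (nat_lit 78) (nat_lit 0) (nat_lit 0) (XT.lf (nat_lit 0) (nat_lit 29859631257) (nat_lit 152) (nat_lit 37574080970) (nat_lit 0) (nat_lit 27833194138) (nat_lit 1) (nat_lit 5) (nat_lit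 3) (nat_lit 4) (nat_lit 1) (nat_lit 4) (nat_lit 294) (nat_lit 219) (nat_lit 207)) (XT.nd (nat_lit 78) (nat_lit 0) (nat_lit 0) (XT.lf (nat_lit 0) (nat_lit 33610471907) (nat_lit 152) (nat_lit 37657327124) (nat_lit 0) (nat_lit 31485161512) (nat_lit 1) (nat_lit 5) (nat_lit 3) (nat_lit 4) (nat_lit 1) (nat_lit 4) (nat_lit 295) (nat_lit 219) (nat_lit 206)) (XT.lf (nat_lit 0) (nat_lit 37609023637) (nat_lit 152) (nat_lit 37841054754) (nat_lit 0) (nat_lit 35392163913) (nat_lit 1) (nat_lit 5) (nat_lit 3) (nat_lit 4) (nat_lit 1) (nat_lit 4) (nat_lit 296) (nat_lit 219) (nat_lit 205))))) (XT.nd (nat_lit 234) (nat_lit 0) (nat_lit 0) (XT.nd (nat_lit 78) (nat_lit 0) (nat_lit 0) (XT.lf (nat_lit 0) (nat_lit 41878981569) (nat_lit 152) (nat_lit 38126352619) (nat_lit 0) (nat_lit 39577353946) (nat_lit 1) (nat_lit 5) (nat_lit 3) (nat_lit 4) (nat_lit 1) (nat_lit 4) (nat_lit 297) (nat_lit 219) (nat_lit 204))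 (XT.nd (nat_lit 78) (nat_lit 0) (nat_lit 0) (XT.lf (nat_lit 0) (nat_lit 46445649157) (nat_lit 152) (nat_lit 38514911371) (nat_lit 0) (nat_lit 44065532740) (nat_lit 1) (nat_lit 5) (nat_lit 3) (nat_lit 4) (nat_lit 1) (nat_lit 4) (nat_lit 298) (nat_lit 219) (nat_lit 203)) (XT.lf (nat_lit 0) (nat_lit 51336088135) (nat_lit 152) (nat_lit 39009033581) (nat_lit 0) (nat_lit 48883296908) (nat_lit 1) (nat_lit 5) (nat_lit 3) (nat_lit 4) (nat_lit 1) (nat_lit 4) (nat_lit 299) (nat_lit 219) (nat_lit 202)))) (XT.nd (nat_lit 78) (nat_lit 0) (nat_lit 0) (XT.lf (nat_lit 0) (nat_lit 56579278881) (nat_lit 152) (nat_lit 39611647380) (nat_lit 0) (nat_lit 54059196164) (nat_lit 1) (nat_lit 5) (nat_lit 3) (nat_lit 4) (nat_lit 1) (nat_lit 4) (nat_lit 300) (nat_lit 219) (nat_lit 201)) (XT.nd (nat_lit 78) (nat_lit 0) (nat_lit 0) (XT.lf (nat_lit 0) (nat_lit 62206292157) (nat_lit 152) (nat_lit 40326323813) (nat_lit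 0) (nat_lit 59623902505) (nat_lit 1) (nat_lit 5) (nat_lit 3) (nat_lit 4) (nat_lit 1) (nat_lit 4) (nat_lit 301) (nat_lit 219) (nat_lit 200)) (XT.lf (nat_lit 0) (nat_lit 68250473226) (nat_lit 152) (nat_lit 41157298001) (nat_lit 0) (nat_lit 65610391966) (nat_lit 1) (nat_lit 5) (nat_lit 3) (nat_lit 4) (nat_lit 1) (nat_lit 4) (nat_lit 302) (nat_lit 219) (nat_lit 199)))))) (XT.nd (nat_lit 468) (nat_lit 0) (nat_lit 0) (XT.nd (nat_lit 234) (nat_lit 0) (nat_lit 0) (XT.nd (nat_lit 78) (nat_lit 0) (nat_lit 0) (XT.lf (nat_lit 0) (nat_lit 74747639457) (nat_lit 152) (nat_lit 42109494234) (nat_lit 0) (nat_lit 72054140043) (nat_lit 1) (nat_lit 5) (nat_lit 3) (nat_lit 4) (nat_lit 1) (nat_lit 4) (nat_lit 303) (nat_lit 219) (nat_lit 198)) (XT.nd (nat_lit 78) (nat_lit 0) (nat_lit 0) (XT.lf (nat_lit 0) (nat_lit 81736292575) (nat_lit 152) (nat_lit 43188555156) (nat_lit 0) (nat_lit 78993331907) (nat_lit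 1) (nat_lit 5) (nat_lit 3) (nat_lit 4) (nat_lit 1) (nat_lit 4) (nat_lit 304) (nat_lit 219) (nat_lit 197)) (XT.lf (nat_lit 0) (nat_lit 89257846823) (nat_lit 152) (nat_lit 44400875203) (nat_lit 0) (nat_lit 86469088697) (nat_lit 1) (nat_lit 5) (nat_lit 3) (nat_lit 4) (nat_lit 1) (nat_lit 4) (nat_lit 305) (nat_lit 219) (nat_lit 196)))) (XT.nd (nat_lit 78) (nat_lit 0) (nat_lit 0) (XT.lf (nat_lit 0) (nat_lit 97356874372) (nat_lit 152) (nat_lit 45753638494) (nat_lit 0) (nat_lit 94525711193) (nat_lit 1) (nat_lit 5) (nat_lit 3) (nat_lit 4) (nat_lit 1) (nat_lit 4) (nat_lit 306) (nat_lit 219) (nat_lit 195)) (XT.nd (nat_lit 78) (nat_lit 0) (nat_lit 0) (XT.lf (nat_lit 0) (nat_lit 106081369461) (nat_lit 152) (nat_lit 47254861403) (nat_lit 0) (nat_lit 103210942343) (nat_lit 1) (nat_lit 5) (nat_lit 3) (nat_lit 4) (nat_lit 1) (nat_lit 4) (nat_lit 307) (nat_lit 219) (nat_lit 194)) (XT.lf (nat_lit 0)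 (nat_lit 115483032801) (nat_lit 152) (nat_lit 48913440067) (nat_lit 0) (nat_lit 112576250185) (nat_lit 1) (nat_lit 5) (nat_lit 3) (nat_lit 4) (nat_lit 1) (nat_lit 4) (nat_lit 308) (nat_lit 219) (nat_lit 193))))) (XT.nd (nat_lit 234) (nat_lit 0) (nat_lit 0) (XT.nd (nat_lit 78) (nat_lit 0) (nat_lit 0) (XT.lf (nat_lit 0) (nat_lit 125617577952) (nat_lit 152) (nat_lit 50739203100) (nat_lit 0) (nat_lit 122677132837) (nat_lit 1) (nat_lit 5) (nat_lit 3) (nat_lit 4) (nat_lit 1) (nat_lit 4) (nat_lit 309) (nat_lit 219) (nat_lit 192)) (XT.nd (nat_lit 78) (nat_lit 0) (nat_lit 0) (XT.lf (nat_lit 0) (nat_lit 136545061478) (nat_lit 152) (nat_lit 52742969837) (nat_lit 0) (nat_lit 133573447383) (nat_lit 1) (nat_lit 5) (nat_lit 3) (nat_lit 4) (nat_lit 1) (nat_lit 4) (nat_lit 310) (nat_lit 219) (nat_lit 191)) (XT.lf (nat_lit 0) (nat_lit 148330238838) (nat_lit 152) (nat_lit 54936614453) (nat_lit 0) (nat_lit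 145329764576) (nat_lit 1) (nat_lit 5) (nat_lit 3) (nat_lit 4) (nat_lit 1) (nat_lit 4) (nat_lit 311) (nat_lit 219) (nat_lit 190)))) (XT.nd (nat_lit 78) (nat_lit 0) (nat_lit 0) (XT.lf (nat_lit 0) (nat_lit 161042948119) (nat_lit 152) (nat_lit 57333136323) (nat_lit 0) (nat_lit 158015751481) (nat_lit 1) (nat_lit 5) (nat_lit 3) (nat_lit 4) (nat_lit 1) (nat_lit 4) (nat_lit 312) (nat_lit 219) (nat_lit 189)) (XT.nd (nat_lit 78) (nat_lit 0) (nat_lit 0) (XT.lf (nat_lit 0) (nat_lit 174758523895) (nat_lit 152) (nat_lit 59946737058) (nat_lit 0) (nat_lit 171706584316) (nat_lit 1) (nat_lit 5) (nat_lit 3) (nat_lit 4) (nat_lit 1) (nat_lit 4) (nat_lit 313) (nat_lit 219) (nat_lit 188)) (XT.lf (nat_lit 0) (nat_lit 189558243652) (nat_lit 152) (nat_lit 62792904663) (nat_lit 0) (nat_lit 186483393942) (nat_lit 1) (nat_lit 5) (nat_lit 3) (nat_lit 4) (nat_lit 1) (nat_lit 4) (nat_lit 314) (nat_lit 219) (nat_lit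 187))))))) (XT.nd (nat_lit 858) (nat_lit 0) (nat_lit 0) (XT.nd (nat_lit 390) (nat_lit 0) (nat_lit 0) (XT.nd (nat_lit 156) (nat_lit 0) (nat_lit 0) (XT.nd (nat_lit 78) (nat_lit 0) (nat_lit 0) (XT.lf (nat_lit 0) (nat_lit 205529809433) (nat_lit 152) (nat_lit 65888505315) (nat_lit 0) (nat_lit 202433746638) (nat_lit 1) (nat_lit 5) (nat_lit 3) (nat_lit 4) (nat_lit 1) (nat_lit 4) (nat_lit 315) (nat_lit 219) (nat_lit 186)) (XT.lf (nat_lit 0) (nat_lit 222767867554) (nat_lit 152) (nat_lit 69251883315) (nat_lit 0) (nat_lit 219652163014) (nat_lit 1) (nat_lit 5) (nat_lit 3) (nat_lit 4) (nat_lit 1) (nat_lit 4) (nat_lit 316) (nat_lit 219) (nat_lit 185))) (XT.nd (nat_lit 78) (nat_lit 0) (nat_lit 0) (XT.lf (nat_lit 0) (nat_lit 241374569470) (nat_lit 152) (nat_lit 72902969792) (nat_lit 0) (nat_lit 238240678130) (nat_lit 1) (nat_lit 5) (nat_lit 3) (nat_lit 4) (nat_lit 1) (nat_lit 4) (nat_lit 317) (nat_lit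 219) (nat_lit 184)) (XT.nd (nat_lit 78) (nat_lit 0) (nat_lit 0) (XT.lf (nat_lit 0) (nat_lit 261460177118) (nat_lit 152) (nat_lit 76863400814) (nat_lit 0) (nat_lit 258309446148) (nat_lit 1) (nat_lit 5) (nat_lit 3) (nat_lit 4) (nat_lit 1) (nat_lit 4) (nat_lit 318) (nat_lit 219) (nat_lit 183)) (XT.lf (nat_lit 0) (nat_lit 283143716322) (nat_lit 152) (nat_lit 81156645601) (nat_lit 0) (nat_lit 279977393101) (nat_lit 1) (nat_lit 5) (nat_lit 3) (nat_lit 4) (nat_lit 1) (nat_lit 4) (nat_lit 319) (nat_lit 219) (nat_lit 182))))) (XT.nd (nat_lit 234) (nat_lit 0) (nat_lit 0) (XT.nd (nat_lit 78) (nat_lit 0) (nat_lit 0) (XT.lf (nat_lit 0) (nat_lit 306553682128) (nat_lit 152) (nat_lit 85808145605) (nat_lit 0) (nat_lit 303372921639) (nat_lit 1) (nat_lit 5) (nat_lit 3) (nat_lit 4) (nat_lit 1) (nat_lit 4) (nat_lit 320) (nat_lit 219) (nat_lit 181)) (XT.nd (nat_lit 78) (nat_lit 0) (nat_lit 0) (XT.lf (nat_lit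 0) (nat_lit 331828800261) (nat_lit 152) (nat_lit 90845465270) (nat_lit 0) (nat_lit 328634671931) (nat_lit 1) (nat_lit 5) (nat_lit 3) (nat_lit 4) (nat_lit 1) (nat_lit 4) (nat_lit 321) (nat_lit 219) (nat_lit 180)) (XT.lf (nat_lit 0) (nat_lit 359118849197) (nat_lit 152) (nat_lit 96298455378) (nat_lit 0) (nat_lit 355912343236) (nat_lit 1) (nat_lit 5) (nat_lit 3) (nat_lit 4) (nat_lit 1) (nat_lit 4) (nat_lit 322) (nat_lit 219) (nat_lit 179)))) (XT.nd (nat_lit 78) (nat_lit 0) (nat_lit 0) (XT.lf (nat_lit 0) (nat_lit 388585547746) (nat_lit 152) (nat_lit 102199429946) (nat_lit 0) (nat_lit 385367581016) (nat_lit 1) (nat_lit 5) (nat_lit 3) (nat_lit 4) (nat_lit 1) (nat_lit 4) (nat_lit 323) (nat_lit 219) (nat_lit 178)) (XT.nd (nat_lit 78) (nat_lit 0) (nat_lit 0) (XT.lf (nat_lit 0) (nat_lit 420403513380) (nat_lit 152) (nat_lit 108583357712) (nat_lit 0) (nat_lit 417174934826) (nat_lit 1) (nat_lit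 5) (nat_lit 3) (nat_lit 4) (nat_lit 1) (nat_lit 4) (nat_lit 324) (nat_lit 219) (nat_lit 177)) (XT.lf (nat_lit 0) (nat_lit 454761297007) (nat_lit 152) (nat_lit 115488069358) (nat_lit 0) (nat_lit 451522892690) (nat_lit 1) (nat_lit 5) (nat_lit 3) (nat_lit 4) (nat_lit 1) (nat_lit 4) (nat_lit 325) (nat_lit 219) (nat_lit 176)))))) (XT.nd (nat_lit 468) (nat_lit 0) (nat_lit 0) (XT.nd (nat_lit 234) (nat_lit 0) (nat_lit 0) (XT.nd (nat_lit 78) (nat_lit 0) (nat_lit 0) (XT.lf (nat_lit 0) (nat_lit 491862500307) (nat_lit 152) (nat_lit 122954481695) (nat_lit 0) (nat_lit 488614998062) (nat_lit 1) (nat_lit 5) (nat_lit 3) (nat_lit 4) (nat_lit 1) (nat_lit 4) (nat_lit 326) (nat_lit 219) (nat_lit 175)) (XT.nd (nat_lit 78) (nat_lit 0) (nat_lit 0) (XT.lf (nat_lit 0) (nat_lit 531926982263) (nat_lit 152) (nat_lit 131026840128) (nat_lit 0) (nat_lit 528671056011) (nat_lit 1) (nat_lit 5) (nat_lit 3) (nat_lit 4)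 (nat_lit 1) (nat_lit 4) (nat_lit 327) (nat_lit 219) (nat_lit 174)) (XT.lf (nat_lit 0) (nat_lit 575192162028) (nat_lit 152) (nat_lit 139752980856) (nat_lit 0) (nat_lit 571928435768) (nat_lit 1) (nat_lit 5) (nat_lit 3) (nat_lit 4) (nat_lit 1) (nat_lit 4) (nat_lit 328) (nat_lit 219) (nat_lit 173)))) (XT.nd (nat_lit 78) (nat_lit 0) (nat_lit 0) (XT.lf (nat_lit 0) (nat_lit 621914425851) (nat_lit 152) (nat_lit 149184614344) (nat_lit 0) (nat_lit 618643477363) (nat_lit 1) (nat_lit 5) (nat_lit 3) (nat_lit 4) (nat_lit 1) (nat_lit 4) (nat_lit 329) (nat_lit 219) (nat_lit 172)) (XT.nd (nat_lit 78) (nat_lit 0) (nat_lit 0) (XT.lf (nat_lit 0) (nat_lit 672370646407) (nat_lit 152) (nat_lit 159377631750) (nat_lit 0) (nat_lit 669093010670) (nat_lit 1) (nat_lit 5) (nat_lit 3) (nat_lit 4) (nat_lit 1) (nat_lit 4) (nat_lit 330) (nat_lit 219) (nat_lit 171)) (XT.lf (nat_lit 0) (nat_lit 726859823522) (nat_lit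 152) (nat_lit 170392436144) (nat_lit 0) (nat_lit 723575995889) (nat_lit 1) (nat_lit 5) (nat_lit 3) (nat_lit 4) (nat_lit 1) (nat_lit 4) (nat_lit 331) (nat_lit 219) (nat_lit 170))))) (XT.nd (nat_lit 234) (nat_lit 0) (nat_lit 0) (XT.nd (nat_lit 78) (nat_lit 0) (nat_lit 0) (XT.lf (nat_lit 0) (nat_lit 785704856024) (nat_lit 152) (nat_lit 182294300438) (nat_lit 0) (nat_lit 782415295152) (nat_lit 1) (nat_lit 5) (nat_lit 3) (nat_lit 4) (nat_lit 1) (nat_lit 4) (nat_lit 332) (nat_lit 219) (nat_lit 169)) (XT.nd (nat_lit 78) (nat_lit 0) (nat_lit 0) (XT.lf (nat_lit 0) (nat_lit 849254455215) (nat_lit 152) (nat_lit 195153754199) (nat_lit 0) (nat_lit 845959585790) (nat_lit 1) (nat_lit 5) (nat_lit 3) (nat_lit 4) (nat_lit 1) (nat_lit 4) (nat_lit 333) (nat_lit 219) (nat_lit 168)) (XT.lf (nat_lit 0) (nat_lit 917885211313) (nat_lit 152) (nat_lit 209047001598) (nat_lit 0) (nat_lit 914585426560) (nat_lit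 1) (nat_lit 5) (nat_lit 3) (nat_lit 4) (nat_lit 1) (nat_lit 4) (nat_lit 334) (nat_lit 219) (nat_lit 167)))) (XT.nd (nat_lit 33228) (nat_lit 0) (nat_lit 152) (XT.lf (nat_lit 0) (nat_lit 992003825096) (nat_lit 152) (nat_lit 224056372989) (nat_lit 0) (nat_lit 988699489114) (nat_lit 1) (nat_lit 5) (nat_lit 3) (nat_lit 4) (nat_lit 1) (nat_lit 4) (nat_lit 335) (nat_lit 219) (nat_lit 166)) (XT.nd (nat_lit 78) (nat_lit 0) (nat_lit 0) (XT.lf (nat_lit 0) (nat_lit 10364476100) (nat_lit 76) (nat_lit 3316683866) (nat_lit 76) (nat_lit 3316683866) (nat_lit 3) (nat_lit 4) (nat_lit 4) (nat_lit 5) (nat_lit 4) (nat_lit 4) (nat_lit 280) (nat_lit 220) (nat_lit 220)) (XT.lf (nat_lit 0) (nat_lit 27029095573) (nat_lit 76) (nat_lit 4876932605) (nat_lit 76) (nat_lit 4586522648) (nat_lit 3) (nat_lit 4) (nat_lit 4) (nat_lit 5) (nat_lit 4) (nat_lit 4) (nat_lit 281) (nat_lit 220) (nat_lit 219))))))))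
noncomputable def xc17 : XT := (XT.nd (nat_lit 1794) (nat_lit 0) (nat_lit 0) (XT.nd (nat_lit 858) (nat_lit 0) (nat_lit 0) (XT.nd (nat_lit 390) (nat_lit 0) (nat_lit 0) (XT.nd (nat_lit 156) (nat_lit 152) (nat_lit 0) (XT.nd (nat_lit 78) (nat_lit 0) (nat_lit 0) (XT.lf (nat_lit 0) (nat_lit 33606925978) (nat_lit 76) (nat_lit 3076203963) (nat_lit 76) (nat_lit 2516895899) (nat_lit 3) (nat_lit 4) (nat_lit 4) (nat_lit 5) (nat_lit 4) (nat_lit 4) (nat_lit 282) (nat_lit 220) (nat_lit 218)) (XT.lf (nat_lit 0) (nat_lit 40501423149) (nat_lit 76) (nat_lit 1220510824) (nat_lit 76) (nat_lit 412223030) (nat_lit 3) (nat_lit 4) (nat_lit 4) (nat_lit 5) (nat_lit 4) (nat_lit 4) (nat_lit 283) (nat_lit 220) (nat_lit 217))) (XT.nd (nat_lit 78) (nat_lit 0) (nat_lit 0) (XT.lf (nat_lit 0) (nat_lit 1733195856) (nat_lit 152) (nat_lit 42798045514) (nat_lit 0) (nat_lit 771321245) (nat_lit 1) (nat_lit 5) (nat_lit 3)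 (nat_lit 4) (nat_lit 1) (nat_lit 4) (nat_lit 284) (nat_lit 220) (nat_lit 216)) (XT.nd (nat_lit 78) (nat_lit 0) (nat_lit 0) (XT.lf (nat_lit 0) (nat_lit 3992447401) (nat_lit 152) (nat_lit 41901388571) (nat_lit 0) (nat_lit 2832924654) (nat_lit 1) (nat_lit 5) (nat_lit 3) (nat_lit 4) (nat_lit 1) (nat_lit 4) (nat_lit 285) (nat_lit 220) (nat_lit 215)) (XT.lf (nat_lit 0) (nat_lit 6327778840) (nat_lit 152) (nat_lit 41120549254) (nat_lit 0) (nat_lit 4985248559) (nat_lit 1) (nat_lit 5) (nat_lit 3) (nat_lit 4) (nat_lit 1) (nat_lit 4) (nat_lit 286) (nat_lit 220) (nat_lit 214))))) (XT.nd (nat_lit 234) (nat_lit 0) (nat_lit 0) (XT.nd (nat_lit 78) (nat_lit 0) (nat_lit 0) (XT.lf (nat_lit 0) (nat_lit 8753029174) (nat_lit 152) (nat_lit 40450900368) (nat_lit 0) (nat_lit 7241047473) (nat_lit 1) (nat_lit 5) (nat_lit 3) (nat_lit 4) (nat_lit 1) (nat_lit 4) (nat_lit 287) (nat_lit 220) (nat_lit 213)) (XT.nd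 (nat_lit 78) (nat_lit 0) (nat_lit 0) (XT.lf (nat_lit 0) (nat_lit 11282570258) (nat_lit 152) (nat_lit 39888473623) (nat_lit 0) (nat_lit 9613689093) (nat_lit 1) (nat_lit 5) (nat_lit 3) (nat_lit 4) (nat_lit 1) (nat_lit 4) (nat_lit 288) (nat_lit 220) (nat_lit 212)) (XT.lf (nat_lit 0) (nat_lit 13931391963) (nat_lit 152) (nat_lit 39429936119) (nat_lit 0) (nat_lit 12117233517) (nat_lit 1) (nat_lit 5) (nat_lit 3) (nat_lit 4) (nat_lit 1) (nat_lit 4) (nat_lit 289) (nat_lit 220) (nat_lit 211)))) (XT.nd (nat_lit 78) (nat_lit 0) (nat_lit 0) (XT.lf (nat_lit 0) (nat_lit 16715191011) (nat_lit 152) (nat_lit 39072570598) (nat_lit 0) (nat_lit 14766516565) (nat_lit 1) (nat_lit 5) (nat_lit 3) (nat_lit 4) (nat_lit 1) (nat_lit 4) (nat_lit 290) (nat_lit 220) (nat_lit 210)) (XT.nd (nat_lit 78) (nat_lit 0) (nat_lit 0) (XT.lf (nat_lit 0) (nat_lit 19650463990) (nat_lit 152) (nat_lit 38814259338) (nat_lit 0) (nat_lit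 17577237691) (nat_lit 1) (nat_lit 5) (nat_lit 3) (nat_lit 4) (nat_lit 1) (nat_lit 4) (nat_lit 291) (nat_lit 220) (nat_lit 209)) (XT.lf (nat_lit 0) (nat_lit 22754605109) (nat_lit 152) (nat_lit 38653471606) (nat_lit 0) (nat_lit 20566053021) (nat_lit 1) (nat_lit 5) (nat_lit 3) (nat_lit 4) (nat_lit 1) (nat_lit 4) (nat_lit 292) (nat_lit 220) (nat_lit 208)))))) (XT.nd (nat_lit 468) (nat_lit 0) (nat_lit 0) (XT.nd (nat_lit 234) (nat_lit 0) (nat_lit 0) (XT.nd (nat_lit 78) (nat_lit 0) (nat_lit 0) (XT.lf (nat_lit 0) (nat_lit 26046009279) (nat_lit 152) (nat_lit 38589254584) (nat_lit 0) (nat_lit 23750674053) (nat_lit 1) (nat_lit 5) (nat_lit 3) (nat_lit 4) (nat_lit 1) (nat_lit 4) (nat_lit 293) (nat_lit 220) (nat_lit 207)) (XT.nd (nat_lit 78) (nat_lit 0) (nat_lit 0) (XT.lf (nat_lit 0) (nat_lit 29544181118) (nat_lit 152) (nat_lit 38621227729) (nat_lit 0) (nat_lit 27149972615) (nat_lit 1) (nat_lit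 5) (nat_lit 3) (nat_lit 4) (nat_lit 1) (nat_lit 4) (nat_lit 294) (nat_lit 220) (nat_lit 206)) (XT.lf (nat_lit 0) (nat_lit 33269850531) (nat_lit 152) (nat_lit 38749580510) (nat_lit 0) (nat_lit 30784092699) (nat_lit 1) (nat_lit 5) (nat_lit 3) (nat_lit 4) (nat_lit 1) (nat_lit 4) (nat_lit 295) (nat_lit 220) (nat_lit 205)))) (XT.nd (nat_lit 78) (nat_lit 0) (nat_lit 0) (XT.lf (nat_lit 0) (nat_lit 37245095561) (nat_lit 152) (nat_lit 38975073536) (nat_lit 0) (nat_lit 34674569831) (nat_lit 1) (nat_lit 5) (nat_lit 3) (nat_lit 4) (nat_lit 1) (nat_lit 4) (nat_lit 296) (nat_lit 220) (nat_lit 204)) (XT.nd (nat_lit 78) (nat_lit 0) (nat_lit 0) (XT.lf (nat_lit 0) (nat_lit 41493473215) (nat_lit 152) (nat_lit 39299043064) (nat_lit 0) (nat_lit 38844458690) (nat_lit 1) (nat_lit 5) (nat_lit 3) (nat_lit 4) (nat_lit 1) (nat_lit 4) (nat_lit 297) (nat_lit 220) (nat_lit 203)) (XT.lf (nat_lit 0) (nat_lit 46040159064)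 (nat_lit 152) (nat_lit 39723408910) (nat_lit 0) (nat_lit 43318469729) (nat_lit 1) (nat_lit 5) (nat_lit 3) (nat_lit 4) (nat_lit 1) (nat_lit 4) (nat_lit 298) (nat_lit 220) (nat_lit 202))))) (XT.nd (nat_lit 234) (nat_lit 0) (nat_lit 0) (XT.nd (nat_lit 78) (nat_lit 0) (nat_lit 0) (XT.lf (nat_lit 0) (nat_lit 50912096431) (nat_lit 152) (nat_lit 40250685838) (nat_lit 0) (nat_lit 48123115606) (nat_lit 1) (nat_lit 5) (nat_lit 3) (nat_lit 4) (nat_lit 1) (nat_lit 4) (nat_lit 299) (nat_lit 220) (nat_lit 201)) (XT.nd (nat_lit 78) (nat_lit 0) (nat_lit 0) (XT.lf (nat_lit 0) (nat_lit 56138156057) (nat_lit 152) (nat_lit 40883998450) (nat_lit 0) (nat_lit 53286868297) (nat_lit 1) (nat_lit 5) (nat_lit 3) (nat_lit 4) (nat_lit 1) (nat_lit 4) (nat_lit 300) (nat_lit 220) (nat_lit 200)) (XT.lf (nat_lit 0) (nat_lit 61749307184) (nat_lit 152) (nat_lit 41627099710) (nat_lit 0) (nat_lit 58840327817) (nat_lit 1)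 (nat_lit 5) (nat_lit 3) (nat_lit 4) (nat_lit 1) (nat_lit 4) (nat_lit 301) (nat_lit 220) (nat_lit 199)))) (XT.nd (nat_lit 78) (nat_lit 0) (nat_lit 0) (XT.lf (nat_lit 0) (nat_lit 67778801078) (nat_lit 152) (nat_lit 42484393181) (nat_lit 0) (nat_lit 64816403557) (nat_lit 1) (nat_lit 5) (nat_lit 3) (nat_lit 4) (nat_lit 1) (nat_lit 4) (nat_lit 302) (nat_lit 220) (nat_lit 198)) (XT.nd (nat_lit 78) (nat_lit 0) (nat_lit 0) (XT.lf (nat_lit 0) (nat_lit 74262368073) (nat_lit 152) (nat_lit 43460959121) (nat_lit 0) (nat_lit 71250509297) (nat_lit 1) (nat_lit 5) (nat_lit 3) (nat_lit 4) (nat_lit 1) (nat_lit 4) (nat_lit 303) (nat_lit 220) (nat_lit 197)) (XT.lf (nat_lit 0) (nat_lit 81238429307) (nat_lit 152) (nat_lit 44562584587) (nat_lit 0) (nat_lit 78180773073) (nat_lit 1) (nat_lit 5) (nat_lit 3) (nat_lit 4) (nat_lit 1) (nat_lit 4) (nat_lit 304) (nat_lit 220) (nat_lit 196))))))) (XT.nd (nat_lit 858)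 (nat_lit 0) (nat_lit 0) (XT.nd (nat_lit 390) (nat_lit 0) (nat_lit 0) (XT.nd (nat_lit 156) (nat_lit 0) (nat_lit 0) (XT.nd (nat_lit 78) (nat_lit 0) (nat_lit 0) (XT.lf (nat_lit 0) (nat_lit 88748324402) (nat_lit 152) (nat_lit 45795797731) (nat_lit 0) (nat_lit 85648263115) (nat_lit 1) (nat_lit 5) (nat_lit 3) (nat_lit 4) (nat_lit 1) (nat_lit 4) (nat_lit 305) (nat_lit 220) (nat_lit 195)) (XT.lf (nat_lit 0) (nat_lit 96836556439) (nat_lit 152) (nat_lit 47167906481) (nat_lit 0) (nat_lit 93697231214) (nat_lit 1) (nat_lit 5) (nat_lit 3) (nat_lit 4) (nat_lit 1) (nat_lit 4) (nat_lit 306) (nat_lit 220) (nat_lit 194))) (XT.nd (nat_lit 78) (nat_lit 0) (nat_lit 0) (XT.lf (nat_lit 0) (nat_lit 105551055684) (nat_lit 152) (nat_lit 48687041852) (nat_lit 0) (nat_lit 102375374960) (nat_lit 1) (nat_lit 5) (nat_lit 3) (nat_lit 4) (nat_lit 1) (nat_lit 4) (nat_lit 307) (nat_lit 220) (nat_lit 193)) (XT.nd (nat_lit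 78) (nat_lit 0) (nat_lit 0) (XT.lf (nat_lit 0) (nat_lit 114943463612) (nat_lit 152) (nat_lit 50362206129) (nat_lit 0) (nat_lit 111734120390) (nat_lit 1) (nat_lit 5) (nat_lit 3) (nat_lit 4) (nat_lit 1) (nat_lit 4) (nat_lit 308) (nat_lit 220) (nat_lit 192)) (XT.lf (nat_lit 0) (nat_lit 125069438938) (nat_lit 152) (nat_lit 52203326211) (nat_lit 0) (nat_lit 121828926735) (nat_lit 1) (nat_lit 5) (nat_lit 3) (nat_lit 4) (nat_lit 1) (nat_lit 4) (nat_lit 309) (nat_lit 220) (nat_lit 191))))) (XT.nd (nat_lit 234) (nat_lit 0) (nat_lit 0) (XT.nd (nat_lit 78) (nat_lit 0) (nat_lit 0) (XT.lf (nat_lit 0) (nat_lit 135988987441) (nat_lit 152) (nat_lit 54221312439) (nat_lit 0) (nat_lit 132719615071) (nat_lit 1) (nat_lit 5) (nat_lit 3) (nat_lit 4) (nat_lit 1) (nat_lit 4) (nat_lit 310) (nat_lit 220) (nat_lit 190)) (XT.nd (nat_lit 78) (nat_lit 0) (nat_lit 0) (XT.lf (nat_lit 0) (nat_lit 147766817557) (nat_lit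 152) (nat_lit 56428123250) (nat_lit 0) (nat_lit 144470722811) (nat_lit 1) (nat_lit 5) (nat_lit 3) (nat_lit 4) (nat_lit 1) (nat_lit 4) (nat_lit 311) (nat_lit 220) (nat_lit 189)) (XT.lf (nat_lit 0) (nat_lit 160472723834) (nat_lit 152) (nat_lit 58836836040) (nat_lit 0) (nat_lit 157151886147) (nat_lit 1) (nat_lit 5) (nat_lit 3) (nat_lit 4) (nat_lit 1) (nat_lit 4) (nat_lit 312) (nat_lit 220) (nat_lit 188)))) (XT.nd (nat_lit 78) (nat_lit 0) (nat_lit 0) (XT.lf (nat_lit 0) (nat_lit 174182000533) (nat_lit 152) (nat_lit 61461724665) (nat_lit 0) (nat_lit 170838252714) (nat_lit 1) (nat_lit 5) (nat_lit 3) (nat_lit 4) (nat_lit 1) (nat_lit 4) (nat_lit 313) (nat_lit 220) (nat_lit 187)) (XT.nd (nat_lit 78) (nat_lit 0) (nat_lit 0) (XT.lf (nat_lit 0) (nat_lit 188975887811) (nat_lit 152) (nat_lit 64318344019) (nat_lit 0) (nat_lit 185610926908) (nat_lit 1) (nat_lit 5) (nat_lit 3) (nat_lit 4) (nat_lit 1)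 (nat_lit 4) (nat_lit 314) (nat_lit 220) (nat_lit 186)) (XT.lf (nat_lit 0) (nat_lit 204942053148) (nat_lit 152) (nat_lit 67423622218) (nat_lit 0) (nat_lit 201557450501) (nat_lit 1) (nat_lit 5) (nat_lit 3) (nat_lit 4) (nat_lit 1) (nat_lit 4) (nat_lit 315) (nat_lit 220) (nat_lit 185)))))) (XT.nd (nat_lit 468) (nat_lit 0) (nat_lit 0) (XT.nd (nat_lit 234) (nat_lit 0) (nat_lit 0) (XT.nd (nat_lit 78) (nat_lit 0) (nat_lit 0) (XT.lf (nat_lit 0) (nat_lit 222175110858) (nat_lit 152) (nat_lit 70795960908) (nat_lit 0) (nat_lit 218772321410) (nat_lit 1) (nat_lit 5) (nat_lit 3) (nat_lit 4) (nat_lit 1) (nat_lit 4) (nat_lit 316) (nat_lit 220) (nat_lit 184)) (XT.nd (nat_lit 78) (nat_lit 0) (nat_lit 0) (XT.lf (nat_lit 0) (nat_lit 240777182763) (nat_lit 152) (nat_lit 74455344321) (nat_lit 0) (nat_lit 237357553686) (nat_lit 1) (nat_lit 5) (nat_lit 3) (nat_lit 4) (nat_lit 1) (nat_lit 4) (nat_lit 317) (nat_lit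 220) (nat_lit 183)) (XT.lf (nat_lit 0) (nat_lit 260858503365) (nat_lit 152) (nat_lit 78423457691) (nat_lit 0) (nat_lit 257423282037) (nat_lit 1) (nat_lit 5) (nat_lit 3) (nat_lit 4) (nat_lit 1) (nat_lit 4) (nat_lit 318) (nat_lit 220) (nat_lit 182)))) (XT.nd (nat_lit 78) (nat_lit 0) (nat_lit 0) (XT.lf (nat_lit 0) (nat_lit 282538073082) (nat_lit 152) (nat_lit 82723815764) (nat_lit 0) (nat_lit 279088414485) (nat_lit 1) (nat_lit 5) (nat_lit 3) (nat_lit 4) (nat_lit 1) (nat_lit 4) (nat_lit 319) (nat_lit 220) (nat_lit 181)) (XT.nd (nat_lit 78) (nat_lit 0) (nat_lit 0) (XT.lf (nat_lit 0) (nat_lit 305944363437) (nat_lit 152) (nat_lit 87381902143) (nat_lit 0) (nat_lit 302481336999) (nat_lit 1) (nat_lit 5) (nat_lit 3) (nat_lit 4) (nat_lit 1) (nat_lit 4) (nat_lit 320) (nat_lit 220) (nat_lit 180)) (XT.lf (nat_lit 0) (nat_lit 331216078374) (nat_lit 152) (nat_lit 92425320303) (nat_lit 0) (nat_lit 327740674305)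 (nat_lit 1) (nat_lit 5) (nat_lit 3) (nat_lit 4) (nat_lit 1) (nat_lit 4) (nat_lit 321) (nat_lit 220) (nat_lit 179))))) (XT.nd (nat_lit 234) (nat_lit 0) (nat_lit 0) (XT.nd (nat_lit 78) (nat_lit 0) (nat_lit 0) (XT.lf (nat_lit 0) (nat_lit 358502976204) (nat_lit 152) (nat_lit 97883957167) (nat_lit 0) (nat_lit 355016111366) (nat_lit 1) (nat_lit 5) (nat_lit 3) (nat_lit 4) (nat_lit 1) (nat_lit 4) (nat_lit 322) (nat_lit 220) (nat_lit 178)) (XT.nd (nat_lit 78) (nat_lit 0) (nat_lit 0) (XT.lf (nat_lit 0) (nat_lit 387966757061) (nat_lit 152) (nat_lit 103790160212) (nat_lit 0) (nat_lit 384469280399) (nat_lit 1) (nat_lit 5) (nat_lit 3) (nat_lit 4) (nat_lit 1) (nat_lit 4) (nat_lit 323) (nat_lit 220) (nat_lit 177)) (XT.lf (nat_lit 0) (nat_lit 419782021129) (nat_lit 152) (nat_lit 110178929160) (nat_lit 0) (nat_lit 416274718704) (nat_lit 1) (nat_lit 5) (nat_lit 3) (nat_lit 4) (nat_lit 1) (nat_lit 4)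 (nat_lit 324) (nat_lit 220) (nat_lit 176)))) (XT.nd (nat_lit 78) (nat_lit 0) (nat_lit 0) (XT.lf (nat_lit 0) (nat_lit 454137303305) (nat_lit 152) (nat_lit 117088123382) (nat_lit 0) (nat_lit 450620902953) (nat_lit 1) (nat_lit 5) (nat_lit 3) (nat_lit 4) (nat_lit 1) (nat_lit 4) (nat_lit 325) (nat_lit 220) (nat_lit 175)) (XT.nd (nat_lit 78) (nat_lit 0) (nat_lit 0) (XT.lf (nat_lit 0) (nat_lit 491236190447) (nat_lit 152) (nat_lit 124558686252) (nat_lit 0) (nat_lit 487711366088) (nat_lit 1) (nat_lit 5) (nat_lit 3) (nat_lit 4) (nat_lit 1) (nat_lit 4) (nat_lit 326) (nat_lit 220) (nat_lit 174)) (XT.lf (nat_lit 0) (nat_lit 531298527813) (nat_lit 152) (nat_lit 132634887773) (nat_lit 0) (nat_lit 527765903446) (nat_lit 1) (nat_lit 5) (nat_lit 3) (nat_lit 4) (nat_lit 1) (nat_lit 4) (nat_lit 327) (nat_lit 220) (nat_lit 173))))))))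
noncomputable def xc18 : XT := (XT.nd (nat_lit 34788) (nat_lit 0) (nat_lit 0) (XT.nd (nat_lit 33852) (nat_lit 0) (nat_lit 0) (XT.nd (nat_lit 390) (nat_lit 0) (nat_lit 0) (XT.nd (nat_lit 156) (nat_lit 0) (nat_lit 0) (XT.nd (nat_lit 78) (nat_lit 0) (nat_lit 0) (XT.lf (nat_lit 0) (nat_lit 574561721846) (nat_lit 152) (nat_lit 141364586915) (nat_lit 0) (nat_lit 571021875250) (nat_lit 1) (nat_lit 5) (nat_lit 3) (nat_lit 4) (nat_lit 1) (nat_lit 4) (nat_lit 328) (nat_lit 220) (nat_lit 172)) (XT.lf (nat_lit 0) (nat_lit 621282147028) (nat_lit 152) (nat_lit 150799515229) (nat_lit 0) (nat_lit 617735613184) (nat_lit 1) (nat_lit 5) (nat_lit 3) (nat_lit 4) (nat_lit 1) (nat_lit 4) (nat_lit 329) (nat_lit 220) (nat_lit 171))) (XT.nd (nat_lit 78) (nat_lit 0) (nat_lit 0) (XT.lf (nat_lit 0) (nat_lit 671736665140) (nat_lit 152) (nat_lit 160995583402) (nat_lit 0) (nat_lit 668183939398) (nat_lit 1) (nat_lit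 5) (nat_lit 3) (nat_lit 4) (nat_lit 1) (nat_lit 4) (nat_lit 330) (nat_lit 220) (nat_lit 170)) (XT.nd (nat_lit 78) (nat_lit 0) (nat_lit 0) (XT.lf (nat_lit 0) (nat_lit 726224265917) (nat_lit 152) (nat_lit 172013212579) (nat_lit 0) (nat_lit 722665806937) (nat_lit 1) (nat_lit 5) (nat_lit 3) (nat_lit 4) (nat_lit 1) (nat_lit 4) (nat_lit 331) (nat_lit 220) (nat_lit 169)) (XT.lf (nat_lit 0) (nat_lit 785067838846) (nat_lit 152) (nat_lit 183917692413) (nat_lit 0) (nat_lit 781504071313) (nat_lit 1) (nat_lit 5) (nat_lit 3) (nat_lit 4) (nat_lit 1) (nat_lit 4) (nat_lit 332) (nat_lit 220) (nat_lit 168))))) (XT.nd (nat_lit 33228) (nat_lit 0) (nat_lit 152) (XT.nd (nat_lit 78) (nat_lit 0) (nat_lit 0) (XT.lf (nat_lit 0) (nat_lit 848616086581) (nat_lit 152) (nat_lit 196779567971) (nat_lit 0) (nat_lit 845047403721) (nat_lit 1) (nat_lit 5) (nat_lit 3) (nat_lit 4) (nat_lit 1) (nat_lit 4) (nat_lit 333) (nat_lit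 220) (nat_lit 167)) (XT.nd (nat_lit 78) (nat_lit 0) (nat_lit 0) (XT.lf (nat_lit 0) (nat_lit 917245591332) (nat_lit 152) (nat_lit 210675057774) (nat_lit 0) (nat_lit 913672357242) (nat_lit 1) (nat_lit 5) (nat_lit 3) (nat_lit 4) (nat_lit 1) (nat_lit 4) (nat_lit 334) (nat_lit 220) (nat_lit 166)) (XT.lf (nat_lit 0) (nat_lit 991363046459) (nat_lit 152) (nat_lit 225686505465) (nat_lit 0) (nat_lit 987785598268) (nat_lit 1) (nat_lit 5) (nat_lit 3) (nat_lit 4) (nat_lit 1) (nat_lit 4) (nat_lit 335) (nat_lit 220) (nat_lit 165)))) (XT.nd (nat_lit 78) (nat_lit 0) (nat_lit 0) (XT.lf (nat_lit 0) (nat_lit 4470364953) (nat_lit 76) (nat_lit 5157237739) (nat_lit 76) (nat_lit 5157237739) (nat_lit 3) (nat_lit 4) (nat_lit 4) (nat_lit 5) (nat_lit 4) (nat_lit 4) (nat_lit 278) (nat_lit 221) (nat_lit 221)) (XT.nd (nat_lit 78) (nat_lit 0) (nat_lit 0) (XT.lf (nat_lit 0) (nat_lit 14669161674) (nat_lit 76) (nat_lit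 8669560606) (nat_lit 76) (nat_lit 8355917853) (nat_lit 3) (nat_lit 4) (nat_lit 4) (nat_lit 5) (nat_lit 4) (nat_lit 4) (nat_lit 279) (nat_lit 221) (nat_lit 220)) (XT.lf (nat_lit 0) (nat_lit 20611437587) (nat_lit 76) (nat_lit 6996971544) (nat_lit 76) (nat_lit 6392918835) (nat_lit 3) (nat_lit 4) (nat_lit 4) (nat_lit 5) (nat_lit 4) (nat_lit 4) (nat_lit 280) (nat_lit 221) (nat_lit 219)))))) (XT.nd (nat_lit 468) (nat_lit 0) (nat_lit 0) (XT.nd (nat_lit 234) (nat_lit 152) (nat_lit 0) (XT.nd (nat_lit 78) (nat_lit 0) (nat_lit 0) (XT.lf (nat_lit 0) (nat_lit 26802771134) (nat_lit 76) (nat_lit 5286796655) (nat_lit 76) (nat_lit 4413845838) (nat_lit 3) (nat_lit 4) (nat_lit 4) (nat_lit 5) (nat_lit 4) (nat_lit 4) (nat_lit 281) (nat_lit 221) (nat_lit 218)) (XT.nd (nat_lit 78) (nat_lit 0) (nat_lit 0) (XT.lf (nat_lit 0) (nat_lit 33279851700) (nat_lit 76) (nat_lit 3528901568) (nat_lit 76) (nat_lit 2406971021)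 (nat_lit 3) (nat_lit 4) (nat_lit 4) (nat_lit 5) (nat_lit 4) (nat_lit 4) (nat_lit 282) (nat_lit 221) (nat_lit 217)) (XT.lf (nat_lit 0) (nat_lit 40081061982) (nat_lit 76) (nat_lit 1712869127) (nat_lit 76) (nat_lit 360401794) (nat_lit 3) (nat_lit 4) (nat_lit 4) (nat_lit 5) (nat_lit 4) (nat_lit 4) (nat_lit 283) (nat_lit 221) (nat_lit 216)))) (XT.nd (nat_lit 78) (nat_lit 0) (nat_lit 0) (XT.lf (nat_lit 0) (nat_lit 1704798223) (nat_lit 152) (nat_lit 43369345824) (nat_lit 0) (nat_lit 254865519) (nat_lit 1) (nat_lit 5) (nat_lit 3) (nat_lit 4) (nat_lit 1) (nat_lit 4) (nat_lit 284) (nat_lit 221) (nat_lit 215)) (XT.nd (nat_lit 78) (nat_lit 0) (nat_lit 0) (XT.lf (nat_lit 0) (nat_lit 3913732350) (nat_lit 152) (nat_lit 42562857237) (nat_lit 0) (nat_lit 2280792112) (nat_lit 1) (nat_lit 5) (nat_lit 3) (nat_lit 4) (nat_lit 1) (nat_lit 4) (nat_lit 285) (nat_lit 221) (nat_lit 214)) (XT.lf (nat_lit 0)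 (nat_lit 6202473587) (nat_lit 152) (nat_lit 41865507140) (nat_lit 0) (nat_lit 4400081928) (nat_lit 1) (nat_lit 5) (nat_lit 3) (nat_lit 4) (nat_lit 1) (nat_lit 4) (nat_lit 286) (nat_lit 221) (nat_lit 213))))) (XT.nd (nat_lit 234) (nat_lit 0) (nat_lit 0) (XT.nd (nat_lit 78) (nat_lit 0) (nat_lit 0) (XT.lf (nat_lit 0) (nat_lit 8584584845) (nat_lit 152) (nat_lit 41273163086) (nat_lit 0) (nat_lit 6625293724) (nat_lit 1) (nat_lit 5) (nat_lit 3) (nat_lit 4) (nat_lit 1) (nat_lit 4) (nat_lit 287) (nat_lit 221) (nat_lit 212)) (XT.nd (nat_lit 78) (nat_lit 0) (nat_lit 0) (XT.lf (nat_lit 0) (nat_lit 11074182339) (nat_lit 152) (nat_lit 40782314890) (nat_lit 0) (nat_lit 8969613937) (nat_lit 1) (nat_lit 5) (nat_lit 3) (nat_lit 4) (nat_lit 1) (nat_lit 4) (nat_lit 288) (nat_lit 221) (nat_lit 211)) (XT.lf (nat_lit 0) (nat_lit 13686019240) (nat_lit 152) (nat_lit 40390053820) (nat_lit 0) (nat_lit 11446934837)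 (nat_lit 1) (nat_lit 5) (nat_lit 3) (nat_lit 4) (nat_lit 1) (nat_lit 4) (nat_lit 289) (nat_lit 221) (nat_lit 210)))) (XT.nd (nat_lit 78) (nat_lit 0) (nat_lit 0) (XT.lf (nat_lit 0) (nat_lit 16435573099) (nat_lit 152) (nat_lit 40094055368) (nat_lit 0) (nat_lit 14071936844) (nat_lit 1) (nat_lit 5) (nat_lit 3) (nat_lit 4) (nat_lit 1) (nat_lit 4) (nat_lit 290) (nat_lit 221) (nat_lit 209)) (XT.nd (nat_lit 78) (nat_lit 0) (nat_lit 0) (XT.lf (nat_lit 0) (nat_lit 19339137570) (nat_lit 152) (nat_lit 39892565468) (nat_lit 0) (nat_lit 16860175525) (nat_lit 1) (nat_lit 5) (nat_lit 3) (nat_lit 4) (nat_lit 1) (nat_lit 4) (nat_lit 291) (nat_lit 221) (nat_lit 208)) (XT.lf (nat_lit 0) (nat_lit 22413918959) (nat_lit 152) (nat_lit 39784390105) (nat_lit 0) (nat_lit 19828173776) (nat_lit 1) (nat_lit 5) (nat_lit 3) (nat_lit 4) (nat_lit 1) (nat_lit 4) (nat_lit 292) (nat_lit 221) (nat_lit 207))))))) (XT.nd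 (nat_lit 858) (nat_lit 0) (nat_lit 0) (XT.nd (nat_lit 390) (nat_lit 0) (nat_lit 0) (XT.nd (nat_lit 156) (nat_lit 0) (nat_lit 0) (XT.nd (nat_lit 78) (nat_lit 0) (nat_lit 0) (XT.lf (nat_lit 0) (nat_lit 25678138193) (nat_lit 152) (nat_lit 39768888241) (nat_lit 0) (nat_lit 22993519735) (nat_lit 1) (nat_lit 5) (nat_lit 3) (nat_lit 4) (nat_lit 1) (nat_lit 4) (nat_lit 293) (nat_lit 221) (nat_lit 206)) (XT.lf (nat_lit 0) (nat_lit 29151138795) (nat_lit 152) (nat_lit 39845968013) (nat_lit 0) (nat_lit 26374971007) (nat_lit 1) (nat_lit 5) (nat_lit 3) (nat_lit 4) (nat_lit 1) (nat_lit 4) (nat_lit 294) (nat_lit 221) (nat_lit 205))) (XT.nd (nat_lit 78) (nat_lit 0) (nat_lit 0) (XT.lf (nat_lit 0) (nat_lit 32853501508) (nat_lit 152) (nat_lit 40016086190) (nat_lit 0) (nat_lit 29992565822) (nat_lit 1) (nat_lit 5) (nat_lit 3) (nat_lit 4) (nat_lit 1) (nat_lit 4) (nat_lit 295) (nat_lit 221) (nat_lit 204))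 (XT.nd (nat_lit 78) (nat_lit 0) (nat_lit 0) (XT.lf (nat_lit 0) (nat_lit 36807166260) (nat_lit 152) (nat_lit 40280250879) (nat_lit 0) (nat_lit 33867741779) (nat_lit 1) (nat_lit 5) (nat_lit 3) (nat_lit 4) (nat_lit 1) (nat_lit 4) (nat_lit 296) (nat_lit 221) (nat_lit 203)) (XT.lf (nat_lit 0) (nat_lit 41035562175) (nat_lit 152) (nat_lit 40640027501) (nat_lit 0) (nat_lit 38023462884) (nat_lit 1) (nat_lit 5) (nat_lit 3) (nat_lit 4) (nat_lit 1) (nat_lit 4) (nat_lit 297) (nat_lit 221) (nat_lit 202))))) (XT.nd (nat_lit 234) (nat_lit 0) (nat_lit 0) (XT.nd (nat_lit 78) (nat_lit 0) (nat_lit 0) (XT.lf (nat_lit 0) (nat_lit 45563746413) (nat_lit 152) (nat_lit 41097548066) (nat_lit 0) (nat_lit 42484355632) (nat_lit 1) (nat_lit 5) (nat_lit 3) (nat_lit 4) (nat_lit 1) (nat_lit 4) (nat_lit 298) (nat_lit 221) (nat_lit 201)) (XT.nd (nat_lit 78) (nat_lit 0) (nat_lit 0) (XT.lf (nat_lit 0) (nat_lit 50418552661)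 (nat_lit 152) (nat_lit 41655523806) (nat_lit 0) (nat_lit 47276854944) (nat_lit 1) (nat_lit 5) (nat_lit 3) (nat_lit 4) (nat_lit 1) (nat_lit 4) (nat_lit 299) (nat_lit 221) (nat_lit 200)) (XT.lf (nat_lit 0) (nat_lit 55628750138) (nat_lit 152) (nat_lit 42317261245) (nat_lit 0) (nat_lit 52429360814) (nat_lit 1) (nat_lit 5) (nat_lit 3) (nat_lit 4) (nat_lit 1) (nat_lit 4) (nat_lit 300) (nat_lit 221) (nat_lit 199)))) (XT.nd (nat_lit 78) (nat_lit 0) (nat_lit 0) (XT.lf (nat_lit 0) (nat_lit 61225214091) (nat_lit 152) (nat_lit 43086681789) (nat_lit 0) (nat_lit 57972406612) (nat_lit 1) (nat_lit 5) (nat_lit 3) (nat_lit 4) (nat_lit 1) (nat_lit 4) (nat_lit 301) (nat_lit 221) (nat_lit 198)) (XT.nd (nat_lit 78) (nat_lit 0) (nat_lit 0) (XT.lf (nat_lit 0) (nat_lit 67241108749) (nat_lit 152) (nat_lit 43968344967) (nat_lit 0) (nat_lit 63938840016) (nat_lit 1) (nat_lit 5) (nat_lit 3) (nat_lit 4) (nat_lit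 1) (nat_lit 4) (nat_lit 302) (nat_lit 221) (nat_lit 197)) (XT.lf (nat_lit 0) (nat_lit 73712083859) (nat_lit 152) (nat_lit 44967475451) (nat_lit 0) (nat_lit 70364017668) (nat_lit 1) (nat_lit 5) (nat_lit 3) (nat_lit 4) (nat_lit 1) (nat_lit 4) (nat_lit 303) (nat_lit 221) (nat_lit 196)))))) (XT.nd (nat_lit 468) (nat_lit 0) (nat_lit 0) (XT.nd (nat_lit 234) (nat_lit 0) (nat_lit 0) (XT.nd (nat_lit 78) (nat_lit 0) (nat_lit 0) (XT.lf (nat_lit 0) (nat_lit 80676485940) (nat_lit 152) (nat_lit 46089994013) (nat_lit 0) (nat_lit 77286014696) (nat_lit 1) (nat_lit 5) (nat_lit 3) (nat_lit 4) (nat_lit 1) (nat_lit 4) (nat_lit 304) (nat_lit 221) (nat_lit 195)) (XT.nd (nat_lit 78) (nat_lit 0) (nat_lit 0) (XT.lf (nat_lit 0) (nat_lit 88175585522) (nat_lit 152) (nat_lit 47342552616) (nat_lit 0) (nat_lit 84745850341) (nat_lit 1) (nat_lit 5) (nat_lit 3) (nat_lit 4) (nat_lit 1) (nat_lit 4) (nat_lit 305) (nat_lit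 221) (nat_lit 194)) (XT.lf (nat_lit 0) (nat_lit 96253821716) (nat_lit 152) (nat_lit 48732573828) (nat_lit 0) (nat_lit 92787731035) (nat_lit 1) (nat_lit 5) (nat_lit 3) (nat_lit 4) (nat_lit 1) (nat_lit 4) (nat_lit 306) (nat_lit 221) (nat_lit 193)))) (XT.nd (nat_lit 78) (nat_lit 0) (nat_lit 0) (XT.lf (nat_lit 0) (nat_lit 104959065549) (nat_lit 152) (nat_lit 50268294813) (nat_lit 0) (nat_lit 101459312370) (nat_lit 1) (nat_lit 5) (nat_lit 3) (nat_lit 4) (nat_lit 1) (nat_lit 4) (nat_lit 307) (nat_lit 221) (nat_lit 192)) (XT.nd (nat_lit 78) (nat_lit 0) (nat_lit 0) (XT.lf (nat_lit 0) (nat_lit 114342903652) (nat_lit 152) (nat_lit 51958816139) (nat_lit 0) (nat_lit 110811981493) (nat_lit 1) (nat_lit 5) (nat_lit 3) (nat_lit 4) (nat_lit 1) (nat_lit 4) (nat_lit 308) (nat_lit 221) (nat_lit 191)) (XT.lf (nat_lit 0) (nat_lit 124460943954) (nat_lit 152) (nat_lit 53814155711) (nat_lit 0) (nat_lit 120901161628)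 (nat_lit 1) (nat_lit 5) (nat_lit 3) (nat_lit 4) (nat_lit 1) (nat_lit 4) (nat_lit 309) (nat_lit 221) (nat_lit 190))))) (XT.nd (nat_lit 234) (nat_lit 0) (nat_lit 0) (XT.nd (nat_lit 78) (nat_lit 0) (nat_lit 0) (XT.lf (nat_lit 0) (nat_lit 135373145213) (nat_lit 152) (nat_lit 55845308133) (nat_lit 0) (nat_lit 131786640511) (nat_lit 1) (nat_lit 5) (nat_lit 3) (nat_lit 4) (nat_lit 1) (nat_lit 4) (nat_lit 310) (nat_lit 221) (nat_lit 189)) (XT.nd (nat_lit 78) (nat_lit 0) (nat_lit 0) (XT.lf (nat_lit 0) (nat_lit 147144172325) (nat_lit 152) (nat_lit 58064309865) (nat_lit 0) (nat_lit 143532924681) (nat_lit 1) (nat_lit 5) (nat_lit 3) (nat_lit 4) (nat_lit 1) (nat_lit 4) (nat_lit 311) (nat_lit 221) (nat_lit 188)) (XT.lf (nat_lit 0) (nat_lit 159843779525) (nat_lit 152) (nat_lit 60484310546) (nat_lit 0) (nat_lit 156209621750) (nat_lit 1) (nat_lit 5) (nat_lit 3) (nat_lit 4) (nat_lit 1) (nat_lit 4) (nat_lit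 312) (nat_lit 221) (nat_lit 187)))) (XT.nd (nat_lit 78) (nat_lit 0) (nat_lit 0) (XT.lf (nat_lit 0) (nat_lit 173547223745) (nat_lit 152) (nat_lit 63119650920) (nat_lit 0) (nat_lit 169891852886) (nat_lit 1) (nat_lit 5) (nat_lit 3) (nat_lit 4) (nat_lit 1) (nat_lit 4) (nat_lit 313) (nat_lit 221) (nat_lit 186)) (XT.nd (nat_lit 78) (nat_lit 0) (nat_lit 0) (XT.lf (nat_lit 0) (nat_lit 188335710579) (nat_lit 152) (nat_lit 65985947820) (nat_lit 0) (nat_lit 184660697975) (nat_lit 1) (nat_lit 5) (nat_lit 3) (nat_lit 4) (nat_lit 1) (nat_lit 4) (nat_lit 314) (nat_lit 221) (nat_lit 185)) (XT.lf (nat_lit 0) (nat_lit 204296875505) (nat_lit 152) (nat_lit 69100186709) (nat_lit 0) (nat_lit 200603676101) (nat_lit 1) (nat_lit 5) (nat_lit 3) (nat_lit 4) (nat_lit 1) (nat_lit 4) (nat_lit 315) (nat_lit 221) (nat_lit 184))))))))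
noncomputable def xc19 : XT := (XT.nd (nat_lit 34632) (nat_lit 0) (nat_lit 0) (XT.nd (nat_lit 858) (nat_lit 0) (nat_lit 0) (XT.nd (nat_lit 390) (nat_lit 0) (nat_lit 0) (XT.nd (nat_lit 156) (nat_lit 0) (nat_lit 0) (XT.nd (nat_lit 78) (nat_lit 0) (nat_lit 0) (XT.lf (nat_lit 0) (nat_lit 221525303205) (nat_lit 152) (nat_lit 72480822336) (nat_lit 0) (nat_lit 217815264171) (nat_lit 1) (nat_lit 5) (nat_lit 3) (nat_lit 4) (nat_lit 1) (nat_lit 4) (nat_lit 316) (nat_lit 221) (nat_lit 183)) (XT.lf (nat_lit 0) (nat_lit 240123088065) (nat_lit 152) (nat_lit 76147888097) (nat_lit 0) (nat_lit 236397456780) (nat_lit 1) (nat_lit 5) (nat_lit 3) (nat_lit 4) (nat_lit 1) (nat_lit 4) (nat_lit 317) (nat_lit 221) (nat_lit 182))) (XT.nd (nat_lit 78) (nat_lit 0) (nat_lit 0) (XT.lf (nat_lit 0) (nat_lit 260200439179) (nat_lit 152) (nat_lit 80123114752) (nat_lit 0) (nat_lit 256460370626) (nat_lit 1) (nat_lit 5)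 (nat_lit 3) (nat_lit 4) (nat_lit 1) (nat_lit 4) (nat_lit 318) (nat_lit 221) (nat_lit 181)) (XT.nd (nat_lit 78) (nat_lit 0) (nat_lit 0) (XT.lf (nat_lit 0) (nat_lit 281876333445) (nat_lit 152) (nat_lit 84430059200) (nat_lit 0) (nat_lit 278122897050) (nat_lit 1) (nat_lit 5) (nat_lit 3) (nat_lit 4) (nat_lit 1) (nat_lit 4) (nat_lit 319) (nat_lit 221) (nat_lit 180)) (XT.lf (nat_lit 0) (nat_lit 305279220604) (nat_lit 152) (nat_lit 89094244075) (nat_lit 0) (nat_lit 301513406579) (nat_lit 1) (nat_lit 5) (nat_lit 3) (nat_lit 4) (nat_lit 1) (nat_lit 4) (nat_lit 320) (nat_lit 221) (nat_lit 179))))) (XT.nd (nat_lit 234) (nat_lit 0) (nat_lit 0) (XT.nd (nat_lit 78) (nat_lit 0) (nat_lit 0) (XT.lf (nat_lit 0) (nat_lit 330547784434) (nat_lit 152) (nat_lit 94143308990) (nat_lit 0) (nat_lit 326770509640) (nat_lit 1) (nat_lit 5) (nat_lit 3) (nat_lit 4) (nat_lit 1) (nat_lit 4) (nat_lit 321) (nat_lit 221)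 (nat_lit 178)) (XT.nd (nat_lit 78) (nat_lit 0) (nat_lit 0) (XT.lf (nat_lit 0) (nat_lit 357831764572) (nat_lit 152) (nat_lit 99607174331) (nat_lit 0) (nat_lit 354043877954) (nat_lit 1) (nat_lit 5) (nat_lit 3) (nat_lit 4) (nat_lit 1) (nat_lit 4) (nat_lit 322) (nat_lit 221) (nat_lit 177)) (XT.lf (nat_lit 0) (nat_lit 387292843863) (nat_lit 152) (nat_lit 105518218558) (nat_lit 0) (nat_lit 383495131482) (nat_lit 1) (nat_lit 5) (nat_lit 3) (nat_lit 4) (nat_lit 1) (nat_lit 4) (nat_lit 323) (nat_lit 221) (nat_lit 176)))) (XT.nd (nat_lit 78) (nat_lit 0) (nat_lit 0) (XT.lf (nat_lit 0) (nat_lit 419105606480) (nat_lit 152) (nat_lit 111911470082) (nat_lit 0) (nat_lit 415298796172) (nat_lit 1) (nat_lit 5) (nat_lit 3) (nat_lit 4) (nat_lit 1) (nat_lit 4) (nat_lit 324) (nat_lit 221) (nat_lit 175)) (XT.nd (nat_lit 78) (nat_lit 0) (nat_lit 0) (XT.lf (nat_lit 0) (nat_lit 453458572499) (nat_lit 152) (nat_lit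 118824814838) (nat_lit 0) (nat_lit 449643338183) (nat_lit 1) (nat_lit 5) (nat_lit 3) (nat_lit 4) (nat_lit 1) (nat_lit 4) (nat_lit 325) (nat_lit 221) (nat_lit 174)) (XT.lf (nat_lit 0) (nat_lit 490555315051) (nat_lit 152) (nat_lit 126299220795) (nat_lit 0) (nat_lit 486732280728) (nat_lit 1) (nat_lit 5) (nat_lit 3) (nat_lit 4) (nat_lit 1) (nat_lit 4) (nat_lit 326) (nat_lit 221) (nat_lit 173)))))) (XT.nd (nat_lit 468) (nat_lit 0) (nat_lit 0) (XT.nd (nat_lit 234) (nat_lit 0) (nat_lit 0) (XT.nd (nat_lit 78) (nat_lit 0) (nat_lit 0) (XT.lf (nat_lit 0) (nat_lit 530615666685) (nat_lit 152) (nat_lit 134378980729) (nat_lit 0) (nat_lit 526785410133) (nat_lit 1) (nat_lit 5) (nat_lit 3) (nat_lit 4) (nat_lit 1) (nat_lit 4) (nat_lit 327) (nat_lit 221) (nat_lit 172)) (XT.nd (nat_lit 78) (nat_lit 0) (nat_lit 0) (XT.lf (nat_lit 0) (nat_lit 573877022077) (nat_lit 152) (nat_lit 143111974698) (nat_lit 0)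 (nat_lit 570040078276) (nat_lit 1) (nat_lit 5) (nat_lit 3) (nat_lit 4) (nat_lit 1) (nat_lit 4) (nat_lit 328) (nat_lit 221) (nat_lit 171)) (XT.lf (nat_lit 0) (nat_lit 620595744814) (nat_lit 152) (nat_lit 152549953779) (nat_lit 0) (nat_lit 616752609116) (nat_lit 1) (nat_lit 5) (nat_lit 3) (nat_lit 4) (nat_lit 1) (nat_lit 4) (nat_lit 329) (nat_lit 221) (nat_lit 170)))) (XT.nd (nat_lit 78) (nat_lit 0) (nat_lit 0) (XT.lf (nat_lit 0) (nat_lit 671048686587) (nat_lit 152) (nat_lit 162748846736) (nat_lit 0) (nat_lit 667199817651) (nat_lit 1) (nat_lit 5) (nat_lit 3) (nat_lit 4) (nat_lit 1) (nat_lit 4) (nat_lit 330) (nat_lit 221) (nat_lit 169)) (XT.nd (nat_lit 78) (nat_lit 0) (nat_lit 0) (XT.lf (nat_lit 0) (nat_lit 725534827792) (nat_lit 152) (nat_lit 173769091452) (nat_lit 0) (nat_lit 721680650303) (nat_lit 1) (nat_lit 5) (nat_lit 3) (nat_lit 4) (nat_lit 1) (nat_lit 4) (nat_lit 331) (nat_lit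 221) (nat_lit 168)) (XT.lf (nat_lit 0) (nat_lit 784377049266) (nat_lit 152) (nat_lit 185675993083) (nat_lit 0) (nat_lit 780517956449) (nat_lit 1) (nat_lit 5) (nat_lit 3) (nat_lit 4) (nat_lit 1) (nat_lit 4) (nat_lit 332) (nat_lit 221) (nat_lit 167))))) (XT.nd (nat_lit 33072) (nat_lit 0) (nat_lit 152) (XT.nd (nat_lit 78) (nat_lit 0) (nat_lit 0) (XT.lf (nat_lit 0) (nat_lit 847924045653) (nat_lit 152) (nat_lit 198540111045) (nat_lit 0) (nat_lit 844060401607) (nat_lit 1) (nat_lit 5) (nat_lit 3) (nat_lit 4) (nat_lit 1) (nat_lit 4) (nat_lit 333) (nat_lit 221) (nat_lit 166)) (XT.nd (nat_lit 78) (nat_lit 0) (nat_lit 0) (XT.lf (nat_lit 0) (nat_lit 916552391748) (nat_lit 152) (nat_lit 212437677148) (nat_lit 0) (nat_lit 912684533601) (nat_lit 1) (nat_lit 5) (nat_lit 3) (nat_lit 4) (nat_lit 1) (nat_lit 4) (nat_lit 334) (nat_lit 221) (nat_lit 165)) (XT.lf (nat_lit 0) (nat_lit 990668774046) (nat_lit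 152) (nat_lit 227451047340) (nat_lit 0) (nat_lit 986797013953) (nat_lit 1) (nat_lit 5) (nat_lit 3) (nat_lit 4) (nat_lit 1) (nat_lit 4) (nat_lit 335) (nat_lit 221) (nat_lit 164)))) (XT.nd (nat_lit 78) (nat_lit 76) (nat_lit 0) (XT.lf (nat_lit 0) (nat_lit 6006701576) (nat_lit 152) (nat_lit 889296771) (nat_lit 0) (nat_lit 6006701576) (nat_lit 4) (nat_lit 5) (nat_lit 6) (nat_lit 4) (nat_lit 4) (nat_lit 4) (nat_lit 276) (nat_lit 222) (nat_lit 222)) (XT.nd (nat_lit 78) (nat_lit 0) (nat_lit 0) (XT.lf (nat_lit 0) (nat_lit 3392196026) (nat_lit 76) (nat_lit 12280197979) (nat_lit 76) (nat_lit 11941463806) (nat_lit 3) (nat_lit 4) (nat_lit 4) (nat_lit 5) (nat_lit 4) (nat_lit 4) (nat_lit 277) (nat_lit 222) (nat_lit 221)) (XT.lf (nat_lit 0) (nat_lit 8813814126) (nat_lit 76) (nat_lit 10707167594) (nat_lit 76) (nat_lit 10054790668) (nat_lit 3) (nat_lit 4) (nat_lit 4) (nat_lit 5) (nat_lit 4) (nat_lit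 4) (nat_lit 278) (nat_lit 222) (nat_lit 220))))))) (XT.nd (nat_lit 858) (nat_lit 0) (nat_lit 0) (XT.nd (nat_lit 390) (nat_lit 152) (nat_lit 0) (XT.nd (nat_lit 156) (nat_lit 0) (nat_lit 0) (XT.nd (nat_lit 78) (nat_lit 0) (nat_lit 0) (XT.lf (nat_lit 0) (nat_lit 14424731280) (nat_lit 76) (nat_lit 9112213780) (nat_lit 76) (nat_lit 8169426897) (nat_lit 3) (nat_lit 4) (nat_lit 4) (nat_lit 5) (nat_lit 4) (nat_lit 4) (nat_lit 279) (nat_lit 222) (nat_lit 219)) (XT.lf (nat_lit 0) (nat_lit 20258197366) (nat_lit 76) (nat_lit 7485884957) (nat_lit 76) (nat_lit 6274199967) (nat_lit 3) (nat_lit 4) (nat_lit 4) (nat_lit 5) (nat_lit 4) (nat_lit 4) (nat_lit 280) (nat_lit 222) (nat_lit 218))) (XT.nd (nat_lit 78) (nat_lit 0) (nat_lit 0) (XT.lf (nat_lit 0) (nat_lit 26348781074) (nat_lit 76) (nat_lit 5818543622) (nat_lit 76) (nat_lit 4357878903) (nat_lit 3) (nat_lit 4) (nat_lit 4) (nat_lit 5) (nat_lit 4)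 (nat_lit 4) (nat_lit 281) (nat_lit 222) (nat_lit 217)) (XT.nd (nat_lit 78) (nat_lit 0) (nat_lit 0) (XT.lf (nat_lit 0) (nat_lit 32732574751) (nat_lit 76) (nat_lit 4100309234) (nat_lit 76) (nat_lit 2409107728) (nat_lit 3) (nat_lit 4) (nat_lit 4) (nat_lit 5) (nat_lit 4) (nat_lit 4) (nat_lit 282) (nat_lit 222) (nat_lit 216)) (XT.lf (nat_lit 0) (nat_lit 39447408286) (nat_lit 76) (nat_lit 2320999662) (nat_lit 76) (nat_lit 416338169) (nat_lit 3) (nat_lit 4) (nat_lit 4) (nat_lit 5) (nat_lit 4) (nat_lit 4) (nat_lit 283) (nat_lit 222) (nat_lit 215))))) (XT.nd (nat_lit 234) (nat_lit 0) (nat_lit 0) (XT.nd (nat_lit 78) (nat_lit 0) (nat_lit 0) (XT.lf (nat_lit 0) (nat_lit 1182043130) (nat_lit 76) (nat_lit 396972619) (nat_lit 152) (nat_lit 43786474922) (nat_lit 1) (nat_lit 5) (nat_lit 2) (nat_lit 5) (nat_lit 3) (nat_lit 4) (nat_lit 284) (nat_lit 222) (nat_lit 214)) (XT.nd (nat_lit 78) (nat_lit 0)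 (nat_lit 0) (XT.lf (nat_lit 0) (nat_lit 3731812474) (nat_lit 152) (nat_lit 43450900973) (nat_lit 0) (nat_lit 1615778063) (nat_lit 1) (nat_lit 5) (nat_lit 3) (nat_lit 4) (nat_lit 1) (nat_lit 4) (nat_lit 285) (nat_lit 222) (nat_lit 213)) (XT.lf (nat_lit 0) (nat_lit 5977414635) (nat_lit 152) (nat_lit 42830855708) (nat_lit 0) (nat_lit 3704480761) (nat_lit 1) (nat_lit 5) (nat_lit 3) (nat_lit 4) (nat_lit 1) (nat_lit 4) (nat_lit 286) (nat_lit 222) (nat_lit 212)))) (XT.nd (nat_lit 78) (nat_lit 0) (nat_lit 0) (XT.lf (nat_lit 0) (nat_lit 8319582304) (nat_lit 152) (nat_lit 42310090204) (nat_lit 0) (nat_lit 5901371150) (nat_lit 1) (nat_lit 5) (nat_lit 3) (nat_lit 4) (nat_lit 1) (nat_lit 4) (nat_lit 287) (nat_lit 222) (nat_lit 211)) (XT.nd (nat_lit 78) (nat_lit 0) (nat_lit 0) (XT.lf (nat_lit 0) (nat_lit 10772194994) (nat_lit 152) (nat_lit 41885518441) (nat_lit 0) (nat_lit 8219467839) (nat_lit 1)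 (nat_lit 5) (nat_lit 3) (nat_lit 4) (nat_lit 1) (nat_lit 4) (nat_lit 288) (nat_lit 222) (nat_lit 210)) (XT.lf (nat_lit 0) (nat_lit 13349786706) (nat_lit 152) (nat_lit 41554624440) (nat_lit 0) (nat_lit 10672507698) (nat_lit 1) (nat_lit 5) (nat_lit 3) (nat_lit 4) (nat_lit 1) (nat_lit 4) (nat_lit 289) (nat_lit 222) (nat_lit 209)))))) (XT.nd (nat_lit 468) (nat_lit 0) (nat_lit 0) (XT.nd (nat_lit 234) (nat_lit 0) (nat_lit 0) (XT.nd (nat_lit 78) (nat_lit 0) (nat_lit 0) (XT.lf (nat_lit 0) (nat_lit 16067632057) (nat_lit 152) (nat_lit 41315447348) (nat_lit 0) (nat_lit 13275027259) (nat_lit 1) (nat_lit 5) (nat_lit 3) (nat_lit 4) (nat_lit 1) (nat_lit 4) (nat_lit 290) (nat_lit 222) (nat_lit 208)) (XT.nd (nat_lit 78) (nat_lit 0) (nat_lit 0) (XT.lf (nat_lit 0) (nat_lit 18941836797) (nat_lit 152) (nat_lit 41166569817) (nat_lit 0) (nat_lit 16042448861) (nat_lit 1) (nat_lit 5) (nat_lit 3) (nat_lit 4)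 (nat_lit 1) (nat_lit 4) (nat_lit 291) (nat_lit 222) (nat_lit 207)) (XT.lf (nat_lit 0) (nat_lit 21989433251) (nat_lit 152) (nat_lit 41107109613) (nat_lit 0) (nat_lit 18991172039) (nat_lit 1) (nat_lit 5) (nat_lit 3) (nat_lit 4) (nat_lit 1) (nat_lit 4) (nat_lit 292) (nat_lit 222) (nat_lit 206)))) (XT.nd (nat_lit 78) (nat_lit 0) (nat_lit 0) (XT.lf (nat_lit 0) (nat_lit 25228481249) (nat_lit 152) (nat_lit 41136714376) (nat_lit 0) (nat_lit 22138670707) (nat_lit 1) (nat_lit 5) (nat_lit 3) (nat_lit 4) (nat_lit 1) (nat_lit 4) (nat_lit 293) (nat_lit 222) (nat_lit 205)) (XT.nd (nat_lit 78) (nat_lit 0) (nat_lit 0) (XT.lf (nat_lit 0) (nat_lit 28678175150) (nat_lit 152) (nat_lit 41255559544) (nat_lit 0) (nat_lit 25503596711) (nat_lit 1) (nat_lit 5) (nat_lit 3) (nat_lit 4) (nat_lit 1) (nat_lit 4) (nat_lit 294) (nat_lit 222) (nat_lit 204)) (XT.lf (nat_lit 0) (nat_lit 32358957585) (nat_lit 152) (nat_lit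 41464349383) (nat_lit 0) (nat_lit 29105890351) (nat_lit 1) (nat_lit 5) (nat_lit 3) (nat_lit 4) (nat_lit 1) (nat_lit 4) (nat_lit 295) (nat_lit 222) (nat_lit 203))))) (XT.nd (nat_lit 234) (nat_lit 0) (nat_lit 0) (XT.nd (nat_lit 78) (nat_lit 0) (nat_lit 0) (XT.lf (nat_lit 0) (nat_lit 36292640598) (nat_lit 152) (nat_lit 41764321167) (nat_lit 0) (nat_lit 32966898554) (nat_lit 1) (nat_lit 5) (nat_lit 3) (nat_lit 4) (nat_lit 1) (nat_lit 4) (nat_lit 296) (nat_lit 222) (nat_lit 202)) (XT.nd (nat_lit 78) (nat_lit 0) (nat_lit 0) (XT.lf (nat_lit 0) (nat_lit 40502534903) (nat_lit 152) (nat_lit 42157252507) (nat_lit 0) (nat_lit 37109501369) (nat_lit 1) (nat_lit 5) (nat_lit 3) (nat_lit 4) (nat_lit 1) (nat_lit 4) (nat_lit 297) (nat_lit 222) (nat_lit 201)) (XT.lf (nat_lit 0) (nat_lit 45013588021) (nat_lit 152) (nat_lit 42645471884) (nat_lit 0) (nat_lit 41558247551) (nat_lit 1) (nat_lit 5) (nat_lit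 3) (nat_lit 4) (nat_lit 1) (nat_lit 4) (nat_lit 298) (nat_lit 222) (nat_lit 200)))) (XT.nd (nat_lit 78) (nat_lit 0) (nat_lit 0) (XT.lf (nat_lit 0) (nat_lit 49852532119) (nat_lit 152) (nat_lit 43231872451) (nat_lit 0) (nat_lit 46339500043) (nat_lit 1) (nat_lit 5) (nat_lit 3) (nat_lit 4) (nat_lit 1) (nat_lit 4) (nat_lit 299) (nat_lit 222) (nat_lit 199)) (XT.nd (nat_lit 78) (nat_lit 0) (nat_lit 0) (XT.lf (nat_lit 0) (nat_lit 55048042422) (nat_lit 152) (nat_lit 43919929173) (nat_lit 0) (nat_lit 51481592191) (nat_lit 1) (nat_lit 5) (nat_lit 3) (nat_lit 4) (nat_lit 1) (nat_lit 4) (nat_lit 300) (nat_lit 222) (nat_lit 198)) (XT.lf (nat_lit 0) (nat_lit 60630907139) (nat_lit 152) (nat_lit 44713719425) (nat_lit 0) (nat_lit 57014995653) (nat_lit 1) (nat_lit 5) (nat_lit 3) (nat_lit 4) (nat_lit 1) (nat_lit 4) (nat_lit 301) (nat_lit 222) (nat_lit 197))))))))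
noncomputable def xc20 : XT := (XT.nd (nat_lit 1794) (nat_lit 0) (nat_lit 0) (XT.nd (nat_lit 858) (nat_lit 0) (nat_lit 0) (XT.nd (nat_lit 390) (nat_lit 0) (nat_lit 0) (XT.nd (nat_lit 156) (nat_lit 0) (nat_lit 0) (XT.nd (nat_lit 78) (nat_lit 0) (nat_lit 0) (XT.lf (nat_lit 0) (nat_lit 66634209912) (nat_lit 152) (nat_lit 45617947147) (nat_lit 0) (nat_lit 62972500969) (nat_lit 1) (nat_lit 5) (nat_lit 3) (nat_lit 4) (nat_lit 1) (nat_lit 4) (nat_lit 302) (nat_lit 222) (nat_lit 196)) (XT.lf (nat_lit 0) (nat_lit 73093525869) (nat_lit 152) (nat_lit 46637970727) (nat_lit 0) (nat_lit 69389411872) (nat_lit 1) (nat_lit 5) (nat_lit 3) (nat_lit 4) (nat_lit 1) (nat_lit 4) (nat_lit 303) (nat_lit 222) (nat_lit 195))) (XT.nd (nat_lit 78) (nat_lit 0) (nat_lit 0) (XT.lf (nat_lit 0) (nat_lit 80047132438) (nat_lit 152) (nat_lit 47779834748) (nat_lit 0) (nat_lit 76303754503) (nat_lit 1) (nat_lit 5) (nat_lit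 3) (nat_lit 4) (nat_lit 1) (nat_lit 4) (nat_lit 304) (nat_lit 222) (nat_lit 194)) (XT.nd (nat_lit 78) (nat_lit 0) (nat_lit 0) (XT.lf (nat_lit 0) (nat_lit 87536236177) (nat_lit 152) (nat_lit 49050305813) (nat_lit 0) (nat_lit 83756502743) (nat_lit 1) (nat_lit 5) (nat_lit 3) (nat_lit 4) (nat_lit 1) (nat_lit 4) (nat_lit 305) (nat_lit 222) (nat_lit 193)) (XT.lf (nat_lit 0) (nat_lit 95605216958) (nat_lit 152) (nat_lit 50456912639) (nat_lit 0) (nat_lit 91791821027) (nat_lit 1) (nat_lit 5) (nat_lit 3) (nat_lit 4) (nat_lit 1) (nat_lit 4) (nat_lit 306) (nat_lit 222) (nat_lit 192))))) (XT.nd (nat_lit 234) (nat_lit 0) (nat_lit 0) (XT.nd (nat_lit 78) (nat_lit 0) (nat_lit 0) (XT.lf (nat_lit 0) (nat_lit 104301890966) (nat_lit 152) (nat_lit 52007990673) (nat_lit 0) (nat_lit 100457326054) (nat_lit 1) (nat_lit 5) (nat_lit 3) (nat_lit 4) (nat_lit 1) (nat_lit 4) (nat_lit 307) (nat_lit 222) (nat_lit 191))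 (XT.nd (nat_lit 78) (nat_lit 0) (nat_lit 0) (XT.lf (nat_lit 0) (nat_lit 113677794046) (nat_lit 152) (nat_lit 53712731489) (nat_lit 0) (nat_lit 109804368967) (nat_lit 1) (nat_lit 5) (nat_lit 3) (nat_lit 4) (nat_lit 1) (nat_lit 4) (nat_lit 308) (nat_lit 222) (nat_lit 190)) (XT.lf (nat_lit 0) (nat_lit 123788487104) (nat_lit 152) (nat_lit 55581237256) (nat_lit 0) (nat_lit 119888339649) (nat_lit 1) (nat_lit 5) (nat_lit 3) (nat_lit 4) (nat_lit 1) (nat_lit 4) (nat_lit 309) (nat_lit 222) (nat_lit 189)))) (XT.nd (nat_lit 78) (nat_lit 0) (nat_lit 0) (XT.lf (nat_lit 0) (nat_lit 134693885359) (nat_lit 152) (nat_lit 57624580599) (nat_lit 0) (nat_lit 130768994963) (nat_lit 1) (nat_lit 5) (nat_lit 3) (nat_lit 4) (nat_lit 1) (nat_lit 4) (nat_lit 310) (nat_lit 222) (nat_lit 188)) (XT.nd (nat_lit 78) (nat_lit 0) (nat_lit 0) (XT.lf (nat_lit 0) (nat_lit 146458613394) (nat_lit 152) (nat_lit 59854870220)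 (nat_lit 0) (nat_lit 142510812866) (nat_lit 1) (nat_lit 5) (nat_lit 3) (nat_lit 4) (nat_lit 1) (nat_lit 4) (nat_lit 311) (nat_lit 222) (nat_lit 187)) (XT.lf (nat_lit 0) (nat_lit 159152388115) (nat_lit 152) (nat_lit 62285322650) (nat_lit 0) (nat_lit 155183374503) (nat_lit 1) (nat_lit 5) (nat_lit 3) (nat_lit 4) (nat_lit 1) (nat_lit 4) (nat_lit 312) (nat_lit 222) (nat_lit 186)))))) (XT.nd (nat_lit 468) (nat_lit 0) (nat_lit 0) (XT.nd (nat_lit 234) (nat_lit 0) (nat_lit 0) (XT.nd (nat_lit 78) (nat_lit 0) (nat_lit 0) (XT.lf (nat_lit 0) (nat_lit 172850431891) (nat_lit 152) (nat_lit 64930340571) (nat_lit 0) (nat_lit 168861776534) (nat_lit 1) (nat_lit 5) (nat_lit 3) (nat_lit 4) (nat_lit 1) (nat_lit 4) (nat_lit 313) (nat_lit 222) (nat_lit 185)) (XT.nd (nat_lit 78) (nat_lit 0) (nat_lit 0) (XT.lf (nat_lit 0) (nat_lit 187633918314) (nat_lit 152) (nat_lit 67805598162) (nat_lit 0) (nat_lit 183627076157)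 (nat_lit 1) (nat_lit 5) (nat_lit 3) (nat_lit 4) (nat_lit 1) (nat_lit 4) (nat_lit 314) (nat_lit 222) (nat_lit 184)) (XT.lf (nat_lit 0) (nat_lit 203590453231) (nat_lit 152) (nat_lit 70928133987) (nat_lit 0) (nat_lit 199566771443) (nat_lit 1) (nat_lit 5) (nat_lit 3) (nat_lit 4) (nat_lit 1) (nat_lit 4) (nat_lit 315) (nat_lit 222) (nat_lit 183)))) (XT.nd (nat_lit 78) (nat_lit 0) (nat_lit 0) (XT.lf (nat_lit 0) (nat_lit 220814593884) (nat_lit 152) (nat_lit 74316451962) (nat_lit 0) (nat_lit 216775319847) (nat_lit 1) (nat_lit 5) (nat_lit 3) (nat_lit 4) (nat_lit 1) (nat_lit 4) (nat_lit 316) (nat_lit 222) (nat_lit 182)) (XT.nd (nat_lit 78) (nat_lit 0) (nat_lit 0) (XT.lf (nat_lit 0) (nat_lit 239408409256) (nat_lit 152) (nat_lit 77990631008) (nat_lit 0) (nat_lit 235354697950) (nat_lit 1) (nat_lit 5) (nat_lit 3) (nat_lit 4) (nat_lit 1) (nat_lit 4) (nat_lit 317) (nat_lit 222) (nat_lit 181)) (XT.lf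 (nat_lit 0) (nat_lit 259482084920) (nat_lit 152) (nat_lit 81972444038) (nat_lit 0) (nat_lit 255415005772) (nat_lit 1) (nat_lit 5) (nat_lit 3) (nat_lit 4) (nat_lit 1) (nat_lit 4) (nat_lit 318) (nat_lit 222) (nat_lit 180))))) (XT.nd (nat_lit 234) (nat_lit 0) (nat_lit 0) (XT.nd (nat_lit 78) (nat_lit 0) (nat_lit 0) (XT.lf (nat_lit 0) (nat_lit 281154575989) (nat_lit 152) (nat_lit 86285486982) (nat_lit 0) (nat_lit 277075119211) (nat_lit 1) (nat_lit 5) (nat_lit 3) (nat_lit 4) (nat_lit 1) (nat_lit 4) (nat_lit 319) (nat_lit 222) (nat_lit 179)) (XT.nd (nat_lit 78) (nat_lit 0) (nat_lit 0) (XT.lf (nat_lit 0) (nat_lit 304554312042) (nat_lit 152) (nat_lit 90955318611) (nat_lit 0) (nat_lit 300463394495) (nat_lit 1) (nat_lit 5) (nat_lit 3) (nat_lit 4) (nat_lit 1) (nat_lit 4) (nat_lit 320) (nat_lit 222) (nat_lit 178)) (XT.lf (nat_lit 0) (nat_lit 329819958181) (nat_lit 152) (nat_lit 96009612004) (nat_lit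 0) (nat_lit 325718428810) (nat_lit 1) (nat_lit 5) (nat_lit 3) (nat_lit 4) (nat_lit 1) (nat_lit 4) (nat_lit 321) (nat_lit 222) (nat_lit 177)))) (XT.nd (nat_lit 78) (nat_lit 0) (nat_lit 0) (XT.lf (nat_lit 0) (nat_lit 357101236752) (nat_lit 152) (nat_lit 101478318527) (nat_lit 0) (nat_lit 352989881619) (nat_lit 1) (nat_lit 5) (nat_lit 3) (nat_lit 4) (nat_lit 1) (nat_lit 4) (nat_lit 322) (nat_lit 222) (nat_lit 176)) (XT.nd (nat_lit 78) (nat_lit 0) (nat_lit 0) (XT.lf (nat_lit 0) (nat_lit 386559814592) (nat_lit 152) (nat_lit 107393845331) (nat_lit 0) (nat_lit 382439361531) (nat_lit 1) (nat_lit 5) (nat_lit 3) (nat_lit 4) (nat_lit 1) (nat_lit 4) (nat_lit 323) (nat_lit 222) (nat_lit 175)) (XT.lf (nat_lit 0) (nat_lit 418370261052) (nat_lit 152) (nat_lit 113791247388) (nat_lit 0) (nat_lit 414241383983) (nat_lit 1) (nat_lit 5) (nat_lit 3) (nat_lit 4) (nat_lit 1) (nat_lit 4) (nat_lit 324) (nat_lit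 222) (nat_lit 174))))))) (XT.nd (nat_lit 33540) (nat_lit 0) (nat_lit 0) (XT.nd (nat_lit 390) (nat_lit 0) (nat_lit 0) (XT.nd (nat_lit 156) (nat_lit 0) (nat_lit 0) (XT.nd (nat_lit 78) (nat_lit 0) (nat_lit 0) (XT.lf (nat_lit 0) (nat_lit 452721082480) (nat_lit 152) (nat_lit 120708435231) (nat_lit 0) (nat_lit 448584405404) (nat_lit 1) (nat_lit 5) (nat_lit 3) (nat_lit 4) (nat_lit 1) (nat_lit 4) (nat_lit 325) (nat_lit 222) (nat_lit 173)) (XT.lf (nat_lit 0) (nat_lit 489815839300) (nat_lit 152) (nat_lit 128186399602) (nat_lit 0) (nat_lit 485671939995) (nat_lit 1) (nat_lit 5) (nat_lit 3) (nat_lit 4) (nat_lit 1) (nat_lit 4) (nat_lit 326) (nat_lit 222) (nat_lit 172))) (XT.nd (nat_lit 78) (nat_lit 0) (nat_lit 0) (XT.lf (nat_lit 0) (nat_lit 529874352293) (nat_lit 152) (nat_lit 136269454363) (nat_lit 0) (nat_lit 525723765740) (nat_lit 1) (nat_lit 5) (nat_lit 3) (nat_lit 4) (nat_lit 1) (nat_lit 4)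 (nat_lit 327) (nat_lit 222) (nat_lit 171)) (XT.nd (nat_lit 78) (nat_lit 0) (nat_lit 0) (XT.lf (nat_lit 0) (nat_lit 573134005240) (nat_lit 152) (nat_lit 145005499099) (nat_lit 0) (nat_lit 568977226789) (nat_lit 1) (nat_lit 5) (nat_lit 3) (nat_lit 4) (nat_lit 1) (nat_lit 4) (nat_lit 328) (nat_lit 222) (nat_lit 170)) (XT.lf (nat_lit 0) (nat_lit 619851151640) (nat_lit 152) (nat_lit 154446302962) (nat_lit 0) (nat_lit 615688639951) (nat_lit 1) (nat_lit 5) (nat_lit 3) (nat_lit 4) (nat_lit 1) (nat_lit 4) (nat_lit 329) (nat_lit 222) (nat_lit 169))))) (XT.nd (nat_lit 234) (nat_lit 0) (nat_lit 0) (XT.nd (nat_lit 78) (nat_lit 0) (nat_lit 0) (XT.lf (nat_lit 0) (nat_lit 670302633841) (nat_lit 152) (nat_lit 164647811459) (nat_lit 0) (nat_lit 666134813598) (nat_lit 1) (nat_lit 5) (nat_lit 3) (nat_lit 4) (nat_lit 1) (nat_lit 4) (nat_lit 330) (nat_lit 222) (nat_lit 168)) (XT.nd (nat_lit 78) (nat_lit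 0) (nat_lit 0) (XT.lf (nat_lit 0) (nat_lit 724787423590) (nat_lit 152) (nat_lit 175670477972) (nat_lit 0) (nat_lit 720614688020) (nat_lit 1) (nat_lit 5) (nat_lit 3) (nat_lit 4) (nat_lit 1) (nat_lit 4) (nat_lit 331) (nat_lit 222) (nat_lit 167)) (XT.lf (nat_lit 0) (nat_lit 783628393715) (nat_lit 152) (nat_lit 187579622007) (nat_lit 0) (nat_lit 779451106916) (nat_lit 1) (nat_lit 5) (nat_lit 3) (nat_lit 4) (nat_lit 1) (nat_lit 4) (nat_lit 332) (nat_lit 222) (nat_lit 166)))) (XT.nd (nat_lit 78) (nat_lit 0) (nat_lit 0) (XT.lf (nat_lit 0) (nat_lit 847174231447) (nat_lit 152) (nat_lit 200445816269) (nat_lit 0) (nat_lit 842992730547) (nat_lit 1) (nat_lit 5) (nat_lit 3) (nat_lit 4) (nat_lit 1) (nat_lit 4) (nat_lit 333) (nat_lit 222) (nat_lit 165)) (XT.nd (nat_lit 78) (nat_lit 0) (nat_lit 0) (XT.lf (nat_lit 0) (nat_lit 915801504713) (nat_lit 152) (nat_lit 214345304873) (nat_lit 0) (nat_lit 911616101867)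 (nat_lit 1) (nat_lit 5) (nat_lit 3) (nat_lit 4) (nat_lit 1) (nat_lit 4) (nat_lit 334) (nat_lit 222) (nat_lit 164)) (XT.lf (nat_lit 0) (nat_lit 989916893651) (nat_lit 152) (nat_lit 229360455157) (nat_lit 0) (nat_lit 985727877893) (nat_lit 1) (nat_lit 5) (nat_lit 3) (nat_lit 4) (nat_lit 1) (nat_lit 4) (nat_lit 335) (nat_lit 222) (nat_lit 163)))))) (XT.nd (nat_lit 468) (nat_lit 152) (nat_lit 0) (XT.nd (nat_lit 234) (nat_lit 76) (nat_lit 0) (XT.nd (nat_lit 78) (nat_lit 0) (nat_lit 0) (XT.lf (nat_lit 0) (nat_lit 2822117712) (nat_lit 152) (nat_lit 5655035078) (nat_lit 0) (nat_lit 2822117712) (nat_lit 4) (nat_lit 5) (nat_lit 6) (nat_lit 4) (nat_lit 4) (nat_lit 4) (nat_lit 274) (nat_lit 223) (nat_lit 223)) (XT.nd (nat_lit 78) (nat_lit 0) (nat_lit 0) (XT.lf (nat_lit 0) (nat_lit 8921417359) (nat_lit 152) (nat_lit 6660019246) (nat_lit 0) (nat_lit 8555584452) (nat_lit 4) (nat_lit 5) (nat_lit 6)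 (nat_lit 4) (nat_lit 4) (nat_lit 4) (nat_lit 275) (nat_lit 223) (nat_lit 222)) (XT.lf (nat_lit 0) (nat_lit 12303738107) (nat_lit 152) (nat_lit 1908805838) (nat_lit 0) (nat_lit 11599171027) (nat_lit 4) (nat_lit 5) (nat_lit 6) (nat_lit 4) (nat_lit 4) (nat_lit 4) (nat_lit 276) (nat_lit 223) (nat_lit 221)))) (XT.nd (nat_lit 78) (nat_lit 0) (nat_lit 0) (XT.lf (nat_lit 0) (nat_lit 3128211200) (nat_lit 76) (nat_lit 12758263406) (nat_lit 76) (nat_lit 11740053574) (nat_lit 3) (nat_lit 4) (nat_lit 4) (nat_lit 5) (nat_lit 4) (nat_lit 4) (nat_lit 277) (nat_lit 223) (nat_lit 220)) (XT.nd (nat_lit 78) (nat_lit 0) (nat_lit 0) (XT.lf (nat_lit 0) (nat_lit 8432314688) (nat_lit 76) (nat_lit 11235194080) (nat_lit 76) (nat_lit 9926574291) (nat_lit 3) (nat_lit 4) (nat_lit 4) (nat_lit 5) (nat_lit 4) (nat_lit 4) (nat_lit 278) (nat_lit 223) (nat_lit 219)) (XT.lf (nat_lit 0) (nat_lit 13934422015) (nat_lit 76)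 (nat_lit 9686500504) (nat_lit 76) (nat_lit 8108982607) (nat_lit 3) (nat_lit 4) (nat_lit 4) (nat_lit 5) (nat_lit 4) (nat_lit 4) (nat_lit 279) (nat_lit 223) (nat_lit 218))))) (XT.nd (nat_lit 234) (nat_lit 152) (nat_lit 0) (XT.nd (nat_lit 78) (nat_lit 0) (nat_lit 0) (XT.lf (nat_lit 0) (nat_lit 19667138262) (nat_lit 76) (nat_lit 8103005236) (nat_lit 76) (nat_lit 6276507610) (nat_lit 3) (nat_lit 4) (nat_lit 4) (nat_lit 5) (nat_lit 4) (nat_lit 4) (nat_lit 280) (nat_lit 223) (nat_lit 217)) (XT.nd (nat_lit 78) (nat_lit 0) (nat_lit 0) (XT.lf (nat_lit 0) (nat_lit 25664435082) (nat_lit 76) (nat_lit 6475324600) (nat_lit 76) (nat_lit 4418290187) (nat_lit 3) (nat_lit 4) (nat_lit 4) (nat_lit 5) (nat_lit 4) (nat_lit 4) (nat_lit 281) (nat_lit 223) (nat_lit 216)) (XT.lf (nat_lit 0) (nat_lit 31961852010) (nat_lit 76) (nat_lit 4793813081) (nat_lit 76) (nat_lit 2523318681) (nat_lit 3) (nat_lit 4) (nat_lit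 4) (nat_lit 5) (nat_lit 4) (nat_lit 4) (nat_lit 282) (nat_lit 223) (nat_lit 215)))) (XT.nd (nat_lit 78) (nat_lit 152) (nat_lit 0) (XT.lf (nat_lit 0) (nat_lit 38596707074) (nat_lit 76) (nat_lit 3048506166) (nat_lit 76) (nat_lit 580363629) (nat_lit 3) (nat_lit 4) (nat_lit 4) (nat_lit 5) (nat_lit 4) (nat_lit 4) (nat_lit 283) (nat_lit 223) (nat_lit 214)) (XT.nd (nat_lit 78) (nat_lit 0) (nat_lit 0) (XT.lf (nat_lit 0) (nat_lit 167189715) (nat_lit 76) (nat_lit 1187781335) (nat_lit 152) (nat_lit 44057261629) (nat_lit 1) (nat_lit 5) (nat_lit 2) (nat_lit 5) (nat_lit 3) (nat_lit 4) (nat_lit 284) (nat_lit 223) (nat_lit 213)) (XT.lf (nat_lit 0) (nat_lit 3445609730) (nat_lit 152) (nat_lit 44570782260) (nat_lit 0) (nat_lit 833941683) (nat_lit 1) (nat_lit 5) (nat_lit 3) (nat_lit 4) (nat_lit 1) (nat_lit 4) (nat_lit 285) (nat_lit 223) (nat_lit 212))))))))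
noncomputable def xc21 : XT := (XT.nd (nat_lit 1794) (nat_lit 0) (nat_lit 0) (XT.nd (nat_lit 858) (nat_lit 0) (nat_lit 0) (XT.nd (nat_lit 390) (nat_lit 0) (nat_lit 0) (XT.nd (nat_lit 156) (nat_lit 0) (nat_lit 0) (XT.nd (nat_lit 78) (nat_lit 0) (nat_lit 0) (XT.lf (nat_lit 0) (nat_lit 5651268303) (nat_lit 152) (nat_lit 44022315544) (nat_lit 0) (nat_lit 2894322974) (nat_lit 1) (nat_lit 5) (nat_lit 3) (nat_lit 4) (nat_lit 1) (nat_lit 4) (nat_lit 286) (nat_lit 223) (nat_lit 211)) (XT.lf (nat_lit 0) (nat_lit 7956451168) (nat_lit 152) (nat_lit 43567826473) (nat_lit 0) (nat_lit 5064989839) (nat_lit 1) (nat_lit 5) (nat_lit 3) (nat_lit 4) (nat_lit 1) (nat_lit 4) (nat_lit 287) (nat_lit 223) (nat_lit 210))) (XT.nd (nat_lit 78) (nat_lit 0) (nat_lit 0) (XT.lf (nat_lit 0) (nat_lit 10374818668) (nat_lit 152) (nat_lit 43204621779) (nat_lit 0) (nat_lit 7358805487) (nat_lit 1) (nat_lit 5) (nat_lit 3)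 (nat_lit 4) (nat_lit 1) (nat_lit 4) (nat_lit 288) (nat_lit 223) (nat_lit 209)) (XT.nd (nat_lit 78) (nat_lit 0) (nat_lit 0) (XT.lf (nat_lit 0) (nat_lit 12920701871) (nat_lit 152) (nat_lit 42930549138) (nat_lit 0) (nat_lit 9789362901) (nat_lit 1) (nat_lit 5) (nat_lit 3) (nat_lit 4) (nat_lit 1) (nat_lit 4) (nat_lit 289) (nat_lit 223) (nat_lit 208)) (XT.lf (nat_lit 0) (nat_lit 15609187492) (nat_lit 152) (nat_lit 42743984416) (nat_lit 0) (nat_lit 12371065383) (nat_lit 1) (nat_lit 5) (nat_lit 3) (nat_lit 4) (nat_lit 1) (nat_lit 4) (nat_lit 290) (nat_lit 223) (nat_lit 207))))) (XT.nd (nat_lit 234) (nat_lit 0) (nat_lit 0) (XT.nd (nat_lit 78) (nat_lit 0) (nat_lit 0) (XT.lf (nat_lit 0) (nat_lit 18456207297) (nat_lit 152) (nat_lit 42643822043) (nat_lit 0) (nat_lit 15119211912) (nat_lit 1) (nat_lit 5) (nat_lit 3) (nat_lit 4) (nat_lit 1) (nat_lit 4) (nat_lit 291) (nat_lit 223) (nat_lit 206)) (XT.nd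 (nat_lit 78) (nat_lit 0) (nat_lit 0) (XT.lf (nat_lit 0) (nat_lit 21478632514) (nat_lit 152) (nat_lit 42629468465) (nat_lit 0) (nat_lit 18050087799) (nat_lit 1) (nat_lit 5) (nat_lit 3) (nat_lit 4) (nat_lit 1) (nat_lit 4) (nat_lit 292) (nat_lit 223) (nat_lit 205)) (XT.lf (nat_lit 0) (nat_lit 24694373812) (nat_lit 152) (nat_lit 42700838625) (nat_lit 0) (nat_lit 21181061199) (nat_lit 1) (nat_lit 5) (nat_lit 3) (nat_lit 4) (nat_lit 1) (nat_lit 4) (nat_lit 293) (nat_lit 223) (nat_lit 204)))) (XT.nd (nat_lit 78) (nat_lit 0) (nat_lit 0) (XT.lf (nat_lit 0) (nat_lit 28122487435) (nat_lit 152) (nat_lit 42858355455) (nat_lit 0) (nat_lit 24530686028) (nat_lit 1) (nat_lit 5) (nat_lit 3) (nat_lit 4) (nat_lit 1) (nat_lit 4) (nat_lit 294) (nat_lit 223) (nat_lit 203)) (XT.nd (nat_lit 78) (nat_lit 0) (nat_lit 0) (XT.lf (nat_lit 0) (nat_lit 31783288131) (nat_lit 152) (nat_lit 43102952389) (nat_lit 0)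 (nat_lit 28118811915) (nat_lit 1) (nat_lit 5) (nat_lit 3) (nat_lit 4) (nat_lit 1) (nat_lit 4) (nat_lit 295) (nat_lit 223) (nat_lit 202)) (XT.lf (nat_lit 0) (nat_lit 35698469534) (nat_lit 152) (nat_lit 43436078891) (nat_lit 0) (nat_lit 31966701827) (nat_lit 1) (nat_lit 5) (nat_lit 3) (nat_lit 4) (nat_lit 1) (nat_lit 4) (nat_lit 296) (nat_lit 223) (nat_lit 201)))))) (XT.nd (nat_lit 468) (nat_lit 0) (nat_lit 0) (XT.nd (nat_lit 234) (nat_lit 0) (nat_lit 0) (XT.nd (nat_lit 78) (nat_lit 0) (nat_lit 0) (XT.lf (nat_lit 0) (nat_lit 39891232718) (nat_lit 152) (nat_lit 43859709044) (nat_lit 0) (nat_lit 36097158075) (nat_lit 1) (nat_lit 5) (nat_lit 3) (nat_lit 4) (nat_lit 1) (nat_lit 4) (nat_lit 297) (nat_lit 223) (nat_lit 200)) (XT.nd (nat_lit 78) (nat_lit 0) (nat_lit 0) (XT.lf (nat_lit 0) (nat_lit 44386423687) (nat_lit 152) (nat_lit 44376353248) (nat_lit 0) (nat_lit 40534657438) (nat_lit 1)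 (nat_lit 5) (nat_lit 3) (nat_lit 4) (nat_lit 1) (nat_lit 4) (nat_lit 298) (nat_lit 223) (nat_lit 199)) (XT.lf (nat_lit 0) (nat_lit 49210680611) (nat_lit 152) (nat_lit 44989073098) (nat_lit 0) (nat_lit 45305496207) (nat_lit 1) (nat_lit 5) (nat_lit 3) (nat_lit 4) (nat_lit 1) (nat_lit 4) (nat_lit 299) (nat_lit 223) (nat_lit 198)))) (XT.nd (nat_lit 78) (nat_lit 0) (nat_lit 0) (XT.lf (nat_lit 0) (nat_lit 54392591678) (nat_lit 152) (nat_lit 45701499527) (nat_lit 0) (nat_lit 50437946020) (nat_lit 1) (nat_lit 5) (nat_lit 3) (nat_lit 4) (nat_lit 1) (nat_lit 4) (nat_lit 300) (nat_lit 223) (nat_lit 197)) (XT.nd (nat_lit 78) (nat_lit 0) (nat_lit 0) (XT.lf (nat_lit 0) (nat_lit 59962864510) (nat_lit 152) (nat_lit 46517854322) (nat_lit 0) (nat_lit 55962421394) (nat_lit 1) (nat_lit 5) (nat_lit 3) (nat_lit 4) (nat_lit 1) (nat_lit 4) (nat_lit 301) (nat_lit 223) (nat_lit 196)) (XT.lf (nat_lit 0) (nat_lit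 65954508130) (nat_lit 152) (nat_lit 47442975141) (nat_lit 0) (nat_lit 61911659960) (nat_lit 1) (nat_lit 5) (nat_lit 3) (nat_lit 4) (nat_lit 1) (nat_lit 4) (nat_lit 302) (nat_lit 223) (nat_lit 195))))) (XT.nd (nat_lit 234) (nat_lit 0) (nat_lit 0) (XT.nd (nat_lit 78) (nat_lit 0) (nat_lit 0) (XT.lf (nat_lit 0) (nat_lit 72403028575) (nat_lit 152) (nat_lit 48482344180) (nat_lit 0) (nat_lit 68320916467) (nat_lit 1) (nat_lit 5) (nat_lit 3) (nat_lit 4) (nat_lit 1) (nat_lit 4) (nat_lit 303) (nat_lit 223) (nat_lit 194)) (XT.nd (nat_lit 78) (nat_lit 0) (nat_lit 0) (XT.lf (nat_lit 0) (nat_lit 79346639300) (nat_lit 152) (nat_lit 49642120664) (nat_lit 0) (nat_lit 75228171694) (nat_lit 1) (nat_lit 5) (nat_lit 3) (nat_lit 4) (nat_lit 1) (nat_lit 4) (nat_lit 304) (nat_lit 223) (nat_lit 193)) (XT.lf (nat_lit 0) (nat_lit 86826487627) (nat_lit 152) (nat_lit 50929177342) (nat_lit 0) (nat_lit 82674357522)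 (nat_lit 1) (nat_lit 5) (nat_lit 3) (nat_lit 4) (nat_lit 1) (nat_lit 4) (nat_lit 305) (nat_lit 223) (nat_lit 192)))) (XT.nd (nat_lit 78) (nat_lit 0) (nat_lit 0) (XT.lf (nat_lit 0) (nat_lit 94886898584) (nat_lit 152) (nat_lit 52351141217) (nat_lit 0) (nat_lit 90703599499) (nat_lit 1) (nat_lit 5) (nat_lit 3) (nat_lit 4) (nat_lit 1) (nat_lit 4) (nat_lit 306) (nat_lit 223) (nat_lit 191)) (XT.nd (nat_lit 78) (nat_lit 0) (nat_lit 0) (XT.lf (nat_lit 0) (nat_lit 103575637568) (nat_lit 152) (nat_lit 53916438741) (nat_lit 0) (nat_lit 99363478316) (nat_lit 1) (nat_lit 5) (nat_lit 3) (nat_lit 4) (nat_lit 1) (nat_lit 4) (nat_lit 307) (nat_lit 223) (nat_lit 190)) (XT.lf (nat_lit 0) (nat_lit 112944193404) (nat_lit 152) (nat_lit 55634345752) (nat_lit 0) (nat_lit 108705311775) (nat_lit 1) (nat_lit 5) (nat_lit 3) (nat_lit 4) (nat_lit 1) (nat_lit 4) (nat_lit 308) (nat_lit 223) (nat_lit 189))))))) (XT.nd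 (nat_lit 858) (nat_lit 0) (nat_lit 0) (XT.nd (nat_lit 390) (nat_lit 0) (nat_lit 0) (XT.nd (nat_lit 156) (nat_lit 0) (nat_lit 0) (XT.nd (nat_lit 78) (nat_lit 0) (nat_lit 0) (XT.lf (nat_lit 0) (nat_lit 123048083458) (nat_lit 152) (nat_lit 57515042439) (nat_lit 0) (nat_lit 118784458888) (nat_lit 1) (nat_lit 5) (nat_lit 3) (nat_lit 4) (nat_lit 1) (nat_lit 4) (nat_lit 309) (nat_lit 223) (nat_lit 188)) (XT.lf (nat_lit 0) (nat_lit 133947182636) (nat_lit 152) (nat_lit 59569673672) (nat_lit 0) (nat_lit 129660647935) (nat_lit 1) (nat_lit 5) (nat_lit 3) (nat_lit 4) (nat_lit 1) (nat_lit 4) (nat_lit 310) (nat_lit 223) (nat_lit 187))) (XT.nd (nat_lit 78) (nat_lit 0) (nat_lit 0) (XT.lf (nat_lit 0) (nat_lit 145706078192) (nat_lit 152) (nat_lit 61810415043) (nat_lit 0) (nat_lit 141398330407) (nat_lit 1) (nat_lit 5) (nat_lit 3) (nat_lit 4) (nat_lit 1) (nat_lit 4) (nat_lit 311) (nat_lit 223) (nat_lit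 186)) (XT.nd (nat_lit 78) (nat_lit 0) (nat_lit 0) (XT.lf (nat_lit 0) (nat_lit 158394452469) (nat_lit 152) (nat_lit 64250545020) (nat_lit 0) (nat_lit 154067062939) (nat_lit 1) (nat_lit 5) (nat_lit 3) (nat_lit 4) (nat_lit 1) (nat_lit 4) (nat_lit 312) (nat_lit 223) (nat_lit 185)) (XT.lf (nat_lit 0) (nat_lit 172087495834) (nat_lit 152) (nat_lit 66904523631) (nat_lit 0) (nat_lit 167741919504) (nat_lit 1) (nat_lit 5) (nat_lit 3) (nat_lit 4) (nat_lit 1) (nat_lit 4) (nat_lit 313) (nat_lit 223) (nat_lit 184))))) (XT.nd (nat_lit 234) (nat_lit 0) (nat_lit 0) (XT.nd (nat_lit 78) (nat_lit 0) (nat_lit 0) (XT.lf (nat_lit 0) (nat_lit 186866352247) (nat_lit 152) (nat_lit 69788078158) (nat_lit 0) (nat_lit 182503936287) (nat_lit 1) (nat_lit 5) (nat_lit 3) (nat_lit 4) (nat_lit 1) (nat_lit 4) (nat_lit 314) (nat_lit 223) (nat_lit 183)) (XT.nd (nat_lit 78) (nat_lit 0) (nat_lit 0) (XT.lf (nat_lit 0) (nat_lit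 202818600118) (nat_lit 152) (nat_lit 72918296331) (nat_lit 0) (nat_lit 198440591907) (nat_lit 1) (nat_lit 5) (nat_lit 3) (nat_lit 4) (nat_lit 1) (nat_lit 4) (nat_lit 315) (nat_lit 223) (nat_lit 182)) (XT.lf (nat_lit 0) (nat_lit 220038771284) (nat_lit 152) (nat_lit 76313727591) (nat_lit 0) (nat_lit 215646325805) (nat_lit 1) (nat_lit 5) (nat_lit 3) (nat_lit 4) (nat_lit 1) (nat_lit 4) (nat_lit 316) (nat_lit 223) (nat_lit 181)))) (XT.nd (nat_lit 78) (nat_lit 0) (nat_lit 0) (XT.lf (nat_lit 0) (nat_lit 238628911205) (nat_lit 152) (nat_lit 79994493012) (nat_lit 0) (nat_lit 234223097884) (nat_lit 1) (nat_lit 5) (nat_lit 3) (nat_lit 4) (nat_lit 1) (nat_lit 4) (nat_lit 317) (nat_lit 223) (nat_lit 180)) (XT.nd (nat_lit 78) (nat_lit 0) (nat_lit 0) (XT.lf (nat_lit 0) (nat_lit 258699183673) (nat_lit 152) (nat_lit 83982404538) (nat_lit 0) (nat_lit 254280992721) (nat_lit 1) (nat_lit 5) (nat_lit 3)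 (nat_lit 4) (nat_lit 1) (nat_lit 4) (nat_lit 318) (nat_lit 223) (nat_lit 179)) (XT.lf (nat_lit 0) (nat_lit 280368523635) (nat_lit 152) (nat_lit 88301094237) (nat_lit 0) (nat_lit 275938871915) (nat_lit 1) (nat_lit 5) (nat_lit 3) (nat_lit 4) (nat_lit 1) (nat_lit 4) (nat_lit 319) (nat_lit 223) (nat_lit 178)))))) (XT.nd (nat_lit 468) (nat_lit 0) (nat_lit 0) (XT.nd (nat_lit 234) (nat_lit 0) (nat_lit 0) (XT.nd (nat_lit 78) (nat_lit 0) (nat_lit 0) (XT.lf (nat_lit 0) (nat_lit 303765341997) (nat_lit 152) (nat_lit 92976154343) (nat_lit 0) (nat_lit 299325078452) (nat_lit 1) (nat_lit 5) (nat_lit 3) (nat_lit 4) (nat_lit 1) (nat_lit 4) (nat_lit 320) (nat_lit 223) (nat_lit 177)) (XT.nd (nat_lit 78) (nat_lit 0) (nat_lit 0) (XT.lf (nat_lit 0) (nat_lit 329028286569) (nat_lit 152) (nat_lit 98035288918) (nat_lit 0) (nat_lit 324578197262) (nat_lit 1) (nat_lit 5) (nat_lit 3) (nat_lit 4) (nat_lit 1) (nat_lit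 4) (nat_lit 321) (nat_lit 223) (nat_lit 176)) (XT.lf (nat_lit 0) (nat_lit 356307063690) (nat_lit 152) (nat_lit 103508478018) (nat_lit 0) (nat_lit 351847876455) (nat_lit 1) (nat_lit 5) (nat_lit 3) (nat_lit 4) (nat_lit 1) (nat_lit 4) (nat_lit 322) (nat_lit 223) (nat_lit 175)))) (XT.nd (nat_lit 78) (nat_lit 0) (nat_lit 0) (XT.lf (nat_lit 0) (nat_lit 385763325372) (nat_lit 152) (nat_lit 109428155355) (nat_lit 0) (nat_lit 381295714130) (nat_lit 1) (nat_lit 5) (nat_lit 3) (nat_lit 4) (nat_lit 1) (nat_lit 4) (nat_lit 323) (nat_lit 223) (nat_lit 174)) (XT.nd (nat_lit 78) (nat_lit 0) (nat_lit 0) (XT.lf (nat_lit 0) (nat_lit 417571627241) (nat_lit 152) (nat_lit 115829400499) (nat_lit 0) (nat_lit 413096215992) (nat_lit 1) (nat_lit 5) (nat_lit 3) (nat_lit 4) (nat_lit 1) (nat_lit 4) (nat_lit 324) (nat_lit 223) (nat_lit 173)) (XT.lf (nat_lit 0) (nat_lit 451920462938) (nat_lit 152) (nat_lit 122750146756)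 (nat_lit 0) (nat_lit 447437829460) (nat_lit 1) (nat_lit 5) (nat_lit 3) (nat_lit 4) (nat_lit 1) (nat_lit 4) (nat_lit 325) (nat_lit 223) (nat_lit 172))))) (XT.nd (nat_lit 234) (nat_lit 0) (nat_lit 0) (XT.nd (nat_lit 78) (nat_lit 0) (nat_lit 0) (XT.lf (nat_lit 0) (nat_lit 489013381117) (nat_lit 152) (nat_lit 130231405954) (nat_lit 0) (nat_lit 484524060390) (nat_lit 1) (nat_lit 5) (nat_lit 3) (nat_lit 4) (nat_lit 1) (nat_lit 4) (nat_lit 326) (nat_lit 223) (nat_lit 171)) (XT.nd (nat_lit 78) (nat_lit 0) (nat_lit 0) (XT.lf (nat_lit 0) (nat_lit 529070191665) (nat_lit 152) (nat_lit 138317511481) (nat_lit 0) (nat_lit 524574679041) (nat_lit 1) (nat_lit 5) (nat_lit 3) (nat_lit 4) (nat_lit 1) (nat_lit 4) (nat_lit 327) (nat_lit 223) (nat_lit 170)) (XT.lf (nat_lit 0) (nat_lit 572328268274) (nat_lit 152) (nat_lit 147056381000) (nat_lit 0) (nat_lit 567827022412) (nat_lit 1) (nat_lit 5) (nat_lit 3)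 (nat_lit 4) (nat_lit 1) (nat_lit 4) (nat_lit 328) (nat_lit 223) (nat_lit 169)))) (XT.nd (nat_lit 78) (nat_lit 0) (nat_lit 0) (XT.lf (nat_lit 0) (nat_lit 619043955101) (nat_lit 152) (nat_lit 156499800404) (nat_lit 0) (nat_lit 614537400685) (nat_lit 1) (nat_lit 5) (nat_lit 3) (nat_lit 4) (nat_lit 1) (nat_lit 4) (nat_lit 329) (nat_lit 223) (nat_lit 168)) (XT.nd (nat_lit 78) (nat_lit 0) (nat_lit 0) (XT.lf (nat_lit 0) (nat_lit 669494085846) (nat_lit 152) (nat_lit 166703730698) (nat_lit 0) (nat_lit 664982616103) (nat_lit 1) (nat_lit 5) (nat_lit 3) (nat_lit 4) (nat_lit 1) (nat_lit 4) (nat_lit 330) (nat_lit 223) (nat_lit 167)) (XT.lf (nat_lit 0) (nat_lit 723977624248) (nat_lit 152) (nat_lit 177728639615) (nat_lit 0) (nat_lit 719461603275) (nat_lit 1) (nat_lit 5) (nat_lit 3) (nat_lit 4) (nat_lit 1) (nat_lit 4) (nat_lit 331) (nat_lit 223) (nat_lit 166))))))))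
noncomputable def xc22 : XT := (XT.nd (nat_lit 34320) (nat_lit 0) (nat_lit 0) (XT.nd (nat_lit 33384) (nat_lit 0) (nat_lit 0) (XT.nd (nat_lit 32916) (nat_lit 0) (nat_lit 152) (XT.nd (nat_lit 156) (nat_lit 0) (nat_lit 0) (XT.nd (nat_lit 78) (nat_lit 0) (nat_lit 0) (XT.lf (nat_lit 0) (nat_lit 782817435718) (nat_lit 152) (nat_lit 189639859950) (nat_lit 0) (nat_lit 778297200644) (nat_lit 1) (nat_lit 5) (nat_lit 3) (nat_lit 4) (nat_lit 1) (nat_lit 4) (nat_lit 332) (nat_lit 223) (nat_lit 165)) (XT.lf (nat_lit 0) (nat_lit 846362200620) (nat_lit 152) (nat_lit 202507976712) (nat_lit 0) (nat_lit 841838063601) (nat_lit 1) (nat_lit 5) (nat_lit 3) (nat_lit 4) (nat_lit 1) (nat_lit 4) (nat_lit 333) (nat_lit 223) (nat_lit 164))) (XT.nd (nat_lit 78) (nat_lit 0) (nat_lit 0) (XT.lf (nat_lit 0) (nat_lit 914988480526) (nat_lit 152) (nat_lit 216409245408) (nat_lit 0) (nat_lit 910460730595) (nat_lit 1) (nat_lit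 5) (nat_lit 3) (nat_lit 4) (nat_lit 1) (nat_lit 4) (nat_lit 334) (nat_lit 223) (nat_lit 163)) (XT.nd (nat_lit 32604) (nat_lit 0) (nat_lit 380) (XT.lf (nat_lit 0) (nat_lit 989102949685) (nat_lit 152) (nat_lit 231426043927) (nat_lit 0) (nat_lit 984571854465) (nat_lit 1) (nat_lit 5) (nat_lit 3) (nat_lit 4) (nat_lit 1) (nat_lit 4) (nat_lit 335) (nat_lit 223) (nat_lit 162)) (XT.lf (nat_lit 0) (nat_lit 9758887678) (nat_lit 76) (nat_lit 91973595) (nat_lit 76) (nat_lit 91973595) (nat_lit 6) (nat_lit 4) (nat_lit 7) (nat_lit 5) (nat_lit 7) (nat_lit 4) (nat_lit 272) (nat_lit 224) (nat_lit 224))))) (XT.nd (nat_lit 234) (nat_lit 76) (nat_lit 0) (XT.nd (nat_lit 78) (nat_lit 0) (nat_lit 0) (XT.lf (nat_lit 0) (nat_lit 2847871506) (nat_lit 152) (nat_lit 15886514425) (nat_lit 0) (nat_lit 2452771966) (nat_lit 4) (nat_lit 5) (nat_lit 6) (nat_lit 4) (nat_lit 4) (nat_lit 4) (nat_lit 273) (nat_lit 224) (nat_lit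 223)) (XT.nd (nat_lit 78) (nat_lit 0) (nat_lit 0) (XT.lf (nat_lit 0) (nat_lit 5957797175) (nat_lit 152) (nat_lit 11450699435) (nat_lit 0) (nat_lit 5196864729) (nat_lit 4) (nat_lit 5) (nat_lit 6) (nat_lit 4) (nat_lit 4) (nat_lit 4) (nat_lit 274) (nat_lit 224) (nat_lit 222)) (XT.lf (nat_lit 0) (nat_lit 9159481158) (nat_lit 152) (nat_lit 6930860820) (nat_lit 0) (nat_lit 8059814538) (nat_lit 4) (nat_lit 5) (nat_lit 6) (nat_lit 4) (nat_lit 4) (nat_lit 4) (nat_lit 275) (nat_lit 224) (nat_lit 221)))) (XT.nd (nat_lit 78) (nat_lit 76) (nat_lit 0) (XT.lf (nat_lit 0) (nat_lit 12471896395) (nat_lit 152) (nat_lit 2300214352) (nat_lit 0) (nat_lit 11058587023) (nat_lit 4) (nat_lit 5) (nat_lit 6) (nat_lit 4) (nat_lit 4) (nat_lit 4) (nat_lit 276) (nat_lit 224) (nat_lit 220)) (XT.nd (nat_lit 78) (nat_lit 0) (nat_lit 0) (XT.lf (nat_lit 0) (nat_lit 2598677194) (nat_lit 76) (nat_lit 13378493069) (nat_lit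 76) (nat_lit 11674773740) (nat_lit 3) (nat_lit 4) (nat_lit 4) (nat_lit 5) (nat_lit 4) (nat_lit 4) (nat_lit 277) (nat_lit 224) (nat_lit 219)) (XT.lf (nat_lit 0) (nat_lit 7793970855) (nat_lit 76) (nat_lit 11901683982) (nat_lit 76) (nat_lit 9929066545) (nat_lit 3) (nat_lit 4) (nat_lit 4) (nat_lit 5) (nat_lit 4) (nat_lit 4) (nat_lit 278) (nat_lit 224) (nat_lit 218)))))) (XT.nd (nat_lit 468) (nat_lit 76) (nat_lit 0) (XT.nd (nat_lit 234) (nat_lit 76) (nat_lit 0) (XT.nd (nat_lit 78) (nat_lit 0) (nat_lit 0) (XT.lf (nat_lit 0) (nat_lit 13195328343) (nat_lit 76) (nat_lit 10395823961) (nat_lit 76) (nat_lit 8174226795) (nat_lit 3) (nat_lit 4) (nat_lit 4) (nat_lit 5) (nat_lit 4) (nat_lit 4) (nat_lit 279) (nat_lit 224) (nat_lit 217)) (XT.nd (nat_lit 78) (nat_lit 0) (nat_lit 0) (XT.lf (nat_lit 0) (nat_lit 18834757702) (nat_lit 76) (nat_lit 8851989392) (nat_lit 76) (nat_lit 6399855439) (nat_lit 3)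 (nat_lit 4) (nat_lit 4) (nat_lit 5) (nat_lit 4) (nat_lit 4) (nat_lit 280) (nat_lit 224) (nat_lit 216)) (XT.lf (nat_lit 0) (nat_lit 24745677773) (nat_lit 76) (nat_lit 7261031625) (nat_lit 76) (nat_lit 4595437685) (nat_lit 3) (nat_lit 4) (nat_lit 4) (nat_lit 5) (nat_lit 4) (nat_lit 4) (nat_lit 281) (nat_lit 224) (nat_lit 215)))) (XT.nd (nat_lit 78) (nat_lit 76) (nat_lit 0) (XT.lf (nat_lit 0) (nat_lit 30963116231) (nat_lit 76) (nat_lit 5613522762) (nat_lit 76) (nat_lit 2750280685) (nat_lit 3) (nat_lit 4) (nat_lit 4) (nat_lit 5) (nat_lit 4) (nat_lit 4) (nat_lit 282) (nat_lit 224) (nat_lit 214)) (XT.nd (nat_lit 78) (nat_lit 76) (nat_lit 0) (XT.lf (nat_lit 0) (nat_lit 37523917155) (nat_lit 76) (nat_lit 3899699788) (nat_lit 76) (nat_lit 853450178) (nat_lit 3) (nat_lit 4) (nat_lit 4) (nat_lit 5) (nat_lit 4) (nat_lit 4) (nat_lit 283) (nat_lit 224) (nat_lit 213)) (XT.lf (nat_lit 0) (nat_lit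 1050952992) (nat_lit 152) (nat_lit 1029718806) (nat_lit 76) (nat_lit 43387271457) (nat_lit 2) (nat_lit 5) (nat_lit 4) (nat_lit 5) (nat_lit 3) (nat_lit 4) (nat_lit 284) (nat_lit 224) (nat_lit 212))))) (XT.nd (nat_lit 234) (nat_lit 0) (nat_lit 0) (XT.nd (nat_lit 78) (nat_lit 0) (nat_lit 0) (XT.lf (nat_lit 0) (nat_lit 2982181815) (nat_lit 76) (nat_lit 73001987) (nat_lit 152) (nat_lit 45857891143) (nat_lit 1) (nat_lit 5) (nat_lit 2) (nat_lit 5) (nat_lit 3) (nat_lit 4) (nat_lit 285) (nat_lit 224) (nat_lit 211)) (XT.nd (nat_lit 78) (nat_lit 0) (nat_lit 0) (XT.lf (nat_lit 0) (nat_lit 5222101870) (nat_lit 152) (nat_lit 45446947149) (nat_lit 0) (nat_lit 1964807635) (nat_lit 1) (nat_lit 5) (nat_lit 3) (nat_lit 4) (nat_lit 1) (nat_lit 4) (nat_lit 286) (nat_lit 224) (nat_lit 210)) (XT.lf (nat_lit 0) (nat_lit 7493039546) (nat_lit 152) (nat_lit 45053825147) (nat_lit 0) (nat_lit 4111193458) (nat_lit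 1) (nat_lit 5) (nat_lit 3) (nat_lit 4) (nat_lit 1) (nat_lit 4) (nat_lit 287) (nat_lit 224) (nat_lit 209)))) (XT.nd (nat_lit 78) (nat_lit 0) (nat_lit 0) (XT.lf (nat_lit 0) (nat_lit 9879698539) (nat_lit 152) (nat_lit 44747441813) (nat_lit 0) (nat_lit 6382526661) (nat_lit 1) (nat_lit 5) (nat_lit 3) (nat_lit 4) (nat_lit 1) (nat_lit 4) (nat_lit 288) (nat_lit 224) (nat_lit 208)) (XT.nd (nat_lit 78) (nat_lit 0) (nat_lit 0) (XT.lf (nat_lit 0) (nat_lit 12396222011) (nat_lit 152) (nat_lit 44525981542) (nat_lit 0) (nat_lit 8792266996) (nat_lit 1) (nat_lit 5) (nat_lit 3) (nat_lit 4) (nat_lit 1) (nat_lit 4) (nat_lit 289) (nat_lit 224) (nat_lit 207)) (XT.lf (nat_lit 0) (nat_lit 15057522697) (nat_lit 152) (nat_lit 44388131977) (nat_lit 0) (nat_lit 11354694405) (nat_lit 1) (nat_lit 5) (nat_lit 3) (nat_lit 4) (nat_lit 1) (nat_lit 4) (nat_lit 290) (nat_lit 224) (nat_lit 206))))))) (XT.nd (nat_lit 858)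 (nat_lit 0) (nat_lit 0) (XT.nd (nat_lit 390) (nat_lit 0) (nat_lit 0) (XT.nd (nat_lit 156) (nat_lit 0) (nat_lit 0) (XT.nd (nat_lit 78) (nat_lit 0) (nat_lit 0) (XT.lf (nat_lit 0) (nat_lit 17879371265) (nat_lit 152) (nat_lit 44333076231) (nat_lit 0) (nat_lit 14084993643) (nat_lit 1) (nat_lit 5) (nat_lit 3) (nat_lit 4) (nat_lit 1) (nat_lit 4) (nat_lit 291) (nat_lit 224) (nat_lit 205)) (XT.lf (nat_lit 0) (nat_lit 20878489782) (nat_lit 152) (nat_lit 44360488049) (nat_lit 0) (nat_lit 16999344262) (nat_lit 1) (nat_lit 5) (nat_lit 3) (nat_lit 4) (nat_lit 1) (nat_lit 4) (nat_lit 292) (nat_lit 224) (nat_lit 204))) (XT.nd (nat_lit 78) (nat_lit 0) (nat_lit 0) (XT.lf (nat_lit 0) (nat_lit 24072650802) (nat_lit 152) (nat_lit 44470529871) (nat_lit 0) (nat_lit 20115016488) (nat_lit 1) (nat_lit 5) (nat_lit 3) (nat_lit 4) (nat_lit 1) (nat_lit 4) (nat_lit 293) (nat_lit 224) (nat_lit 203)) (XT.nd (nat_lit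 78) (nat_lit 0) (nat_lit 0) (XT.lf (nat_lit 0) (nat_lit 27480782686) (nat_lit 152) (nat_lit 44663853797) (nat_lit 0) (nat_lit 23450473562) (nat_lit 1) (nat_lit 5) (nat_lit 3) (nat_lit 4) (nat_lit 1) (nat_lit 4) (nat_lit 294) (nat_lit 224) (nat_lit 202)) (XT.lf (nat_lit 0) (nat_lit 31123081772) (nat_lit 152) (nat_lit 44941605449) (nat_lit 0) (nat_lit 27025481158) (nat_lit 1) (nat_lit 5) (nat_lit 3) (nat_lit 4) (nat_lit 1) (nat_lit 4) (nat_lit 295) (nat_lit 224) (nat_lit 201))))) (XT.nd (nat_lit 234) (nat_lit 0) (nat_lit 0) (XT.nd (nat_lit 78) (nat_lit 0) (nat_lit 0) (XT.lf (nat_lit 0) (nat_lit 35021132054) (nat_lit 152) (nat_lit 45305430763) (nat_lit 0) (nat_lit 30861224504) (nat_lit 1) (nat_lit 5) (nat_lit 3) (nat_lit 4) (nat_lit 1) (nat_lit 4) (nat_lit 296) (nat_lit 224) (nat_lit 200)) (XT.nd (nat_lit 78) (nat_lit 0) (nat_lit 0) (XT.lf (nat_lit 0) (nat_lit 39198033089) (nat_lit 152)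 (nat_lit 45757485742) (nat_lit 0) (nat_lit 34980433933) (nat_lit 1) (nat_lit 5) (nat_lit 3) (nat_lit 4) (nat_lit 1) (nat_lit 4) (nat_lit 297) (nat_lit 224) (nat_lit 199)) (XT.lf (nat_lit 0) (nat_lit 43678536884) (nat_lit 152) (nat_lit 46300449230) (nat_lit 0) (nat_lit 39407519573) (nat_lit 1) (nat_lit 5) (nat_lit 3) (nat_lit 4) (nat_lit 1) (nat_lit 4) (nat_lit 298) (nat_lit 224) (nat_lit 198)))) (XT.nd (nat_lit 78) (nat_lit 0) (nat_lit 0) (XT.lf (nat_lit 0) (nat_lit 48489194572) (nat_lit 152) (nat_lit 46937538788) (nat_lit 0) (nat_lit 44168716006) (nat_lit 1) (nat_lit 5) (nat_lit 3) (nat_lit 4) (nat_lit 1) (nat_lit 4) (nat_lit 299) (nat_lit 224) (nat_lit 197)) (XT.nd (nat_lit 78) (nat_lit 0) (nat_lit 0) (XT.lf (nat_lit 0) (nat_lit 53658513754) (nat_lit 152) (nat_lit 47672529761) (nat_lit 0) (nat_lit 49292237731) (nat_lit 1) (nat_lit 5) (nat_lit 3) (nat_lit 4) (nat_lit 1) (nat_lit 4)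 (nat_lit 300) (nat_lit 224) (nat_lit 196)) (XT.lf (nat_lit 0) (nat_lit 59217127433) (nat_lit 152) (nat_lit 48509777652) (nat_lit 0) (nat_lit 54808446356) (nat_lit 1) (nat_lit 5) (nat_lit 3) (nat_lit 4) (nat_lit 1) (nat_lit 4) (nat_lit 301) (nat_lit 224) (nat_lit 195)))))) (XT.nd (nat_lit 468) (nat_lit 0) (nat_lit 0) (XT.nd (nat_lit 234) (nat_lit 0) (nat_lit 0) (XT.nd (nat_lit 78) (nat_lit 0) (nat_lit 0) (XT.lf (nat_lit 0) (nat_lit 65197975541) (nat_lit 152) (nat_lit 49454243929) (nat_lit 0) (nat_lit 60750030526) (nat_lit 1) (nat_lit 5) (nat_lit 3) (nat_lit 4) (nat_lit 1) (nat_lit 4) (nat_lit 302) (nat_lit 224) (nat_lit 194)) (XT.nd (nat_lit 78) (nat_lit 0) (nat_lit 0) (XT.lf (nat_lit 0) (nat_lit 71636500142) (nat_lit 152) (nat_lit 50511525431) (nat_lit 0) (nat_lit 67152199629) (nat_lit 1) (nat_lit 5) (nat_lit 3) (nat_lit 4) (nat_lit 1) (nat_lit 4) (nat_lit 303) (nat_lit 224) (nat_lit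 193)) (XT.lf (nat_lit 0) (nat_lit 78570855456) (nat_lit 152) (nat_lit 51687887528) (nat_lit 0) (nat_lit 74052892444) (nat_lit 1) (nat_lit 5) (nat_lit 3) (nat_lit 4) (nat_lit 1) (nat_lit 4) (nat_lit 304) (nat_lit 224) (nat_lit 192)))) (XT.nd (nat_lit 78) (nat_lit 0) (nat_lit 0) (XT.lf (nat_lit 0) (nat_lit 86042133957) (nat_lit 152) (nat_lit 52990301255) (nat_lit 0) (nat_lit 81493001965) (nat_lit 1) (nat_lit 5) (nat_lit 3) (nat_lit 4) (nat_lit 1) (nat_lit 4) (nat_lit 305) (nat_lit 224) (nat_lit 191)) (XT.nd (nat_lit 78) (nat_lit 0) (nat_lit 0) (XT.lf (nat_lit 0) (nat_lit 94094609890) (nat_lit 152) (nat_lit 54426484620) (nat_lit 0) (nat_lit 89516617732) (nat_lit 1) (nat_lit 5) (nat_lit 3) (nat_lit 4) (nat_lit 1) (nat_lit 4) (nat_lit 306) (nat_lit 224) (nat_lit 190)) (XT.lf (nat_lit 0) (nat_lit 102776001631) (nat_lit 152) (nat_lit 56004948339) (nat_lit 0) (nat_lit 98171287095) (nat_lit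 1) (nat_lit 5) (nat_lit 3) (nat_lit 4) (nat_lit 1) (nat_lit 4) (nat_lit 307) (nat_lit 224) (nat_lit 189))))) (XT.nd (nat_lit 234) (nat_lit 0) (nat_lit 0) (XT.nd (nat_lit 78) (nat_lit 0) (nat_lit 0) (XT.lf (nat_lit 0) (nat_lit 112137754463) (nat_lit 152) (nat_lit 57735046271) (nat_lit 0) (nat_lit 107508296986) (nat_lit 1) (nat_lit 5) (nat_lit 3) (nat_lit 4) (nat_lit 1) (nat_lit 4) (nat_lit 308) (nat_lit 224) (nat_lit 188)) (XT.nd (nat_lit 78) (nat_lit 0) (nat_lit 0) (XT.lf (nat_lit 0) (nat_lit 122235345440) (nat_lit 152) (nat_lit 59627030848) (nat_lit 0) (nat_lit 117582977832) (nat_lit 1) (nat_lit 5) (nat_lit 3) (nat_lit 4) (nat_lit 1) (nat_lit 4) (nat_lit 309) (nat_lit 224) (nat_lit 187)) (XT.lf (nat_lit 0) (nat_lit 133128612139) (nat_lit 152) (nat_lit 61692113831) (nat_lit 0) (nat_lit 128455031447) (nat_lit 1) (nat_lit 5) (nat_lit 3) (nat_lit 4) (nat_lit 1) (nat_lit 4) (nat_lit 310)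 (nat_lit 224) (nat_lit 186)))) (XT.nd (nat_lit 78) (nat_lit 0) (nat_lit 0) (XT.lf (nat_lit 0) (nat_lit 144882107250) (nat_lit 152) (nat_lit 63942532748) (nat_lit 0) (nat_lit 140188884814) (nat_lit 1) (nat_lit 5) (nat_lit 3) (nat_lit 4) (nat_lit 1) (nat_lit 4) (nat_lit 311) (nat_lit 224) (nat_lit 185)) (XT.nd (nat_lit 78) (nat_lit 0) (nat_lit 0) (XT.lf (nat_lit 0) (nat_lit 157565481117) (nat_lit 152) (nat_lit 66391623415) (nat_lit 0) (nat_lit 152854071880) (nat_lit 1) (nat_lit 5) (nat_lit 3) (nat_lit 4) (nat_lit 1) (nat_lit 4) (nat_lit 312) (nat_lit 224) (nat_lit 184)) (XT.lf (nat_lit 0) (nat_lit 171253894472) (nat_lit 152) (nat_lit 69053898962) (nat_lit 0) (nat_lit 166525645605) (nat_lit 1) (nat_lit 5) (nat_lit 3) (nat_lit 4) (nat_lit 1) (nat_lit 4) (nat_lit 313) (nat_lit 224) (nat_lit 183))))))))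
noncomputable def xc23 : XT := (XT.nd (nat_lit 34164) (nat_lit 0) (nat_lit 0) (XT.nd (nat_lit 858) (nat_lit 0) (nat_lit 0) (XT.nd (nat_lit 390) (nat_lit 0) (nat_lit 0) (XT.nd (nat_lit 156) (nat_lit 0) (nat_lit 0) (XT.nd (nat_lit 78) (nat_lit 0) (nat_lit 0) (XT.lf (nat_lit 0) (nat_lit 186028463839) (nat_lit 152) (nat_lit 71945135837) (nat_lit 0) (nat_lit 181284622722) (nat_lit 1) (nat_lit 5) (nat_lit 3) (nat_lit 4) (nat_lit 1) (nat_lit 4) (nat_lit 314) (nat_lit 224) (nat_lit 182)) (XT.lf (nat_lit 0) (nat_lit 201976742222) (nat_lit 152) (nat_lit 75082467295) (nat_lit 0) (nat_lit 197218463836) (nat_lit 1) (nat_lit 5) (nat_lit 3) (nat_lit 4) (nat_lit 1) (nat_lit 4) (nat_lit 315) (nat_lit 224) (nat_lit 181))) (XT.nd (nat_lit 78) (nat_lit 0) (nat_lit 0) (XT.lf (nat_lit 0) (nat_lit 219193237937) (nat_lit 152) (nat_lit 78484484931) (nat_lit 0) (nat_lit 214421591709) (nat_lit 1) (nat_lit 5)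 (nat_lit 3) (nat_lit 4) (nat_lit 1) (nat_lit 4) (nat_lit 316) (nat_lit 224) (nat_lit 180)) (XT.nd (nat_lit 78) (nat_lit 0) (nat_lit 0) (XT.lf (nat_lit 0) (nat_lit 237779974662) (nat_lit 152) (nat_lit 82171348848) (nat_lit 0) (nat_lit 232995950804) (nat_lit 1) (nat_lit 5) (nat_lit 3) (nat_lit 4) (nat_lit 1) (nat_lit 4) (nat_lit 317) (nat_lit 224) (nat_lit 179)) (XT.lf (nat_lit 0) (nat_lit 257847096023) (nat_lit 152) (nat_lit 86164907129) (nat_lit 0) (nat_lit 253051611396) (nat_lit 1) (nat_lit 5) (nat_lit 3) (nat_lit 4) (nat_lit 1) (nat_lit 4) (nat_lit 318) (nat_lit 224) (nat_lit 178))))) (XT.nd (nat_lit 234) (nat_lit 0) (nat_lit 0) (XT.nd (nat_lit 78) (nat_lit 0) (nat_lit 0) (XT.lf (nat_lit 0) (nat_lit 279513518294) (nat_lit 152) (nat_lit 90488825304) (nat_lit 0) (nat_lit 274707421843) (nat_lit 1) (nat_lit 5) (nat_lit 3) (nat_lit 4) (nat_lit 1) (nat_lit 4) (nat_lit 319) (nat_lit 224)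 (nat_lit 177)) (XT.nd (nat_lit 78) (nat_lit 0) (nat_lit 0) (XT.lf (nat_lit 0) (nat_lit 302907635089) (nat_lit 152) (nat_lit 95168726593) (nat_lit 0) (nat_lit 298091712876) (nat_lit 1) (nat_lit 5) (nat_lit 3) (nat_lit 4) (nat_lit 1) (nat_lit 4) (nat_lit 320) (nat_lit 224) (nat_lit 176)) (XT.lf (nat_lit 0) (nat_lit 328168078211) (nat_lit 152) (nat_lit 100232343745) (nat_lit 0) (nat_lit 323343058069) (nat_lit 1) (nat_lit 5) (nat_lit 3) (nat_lit 4) (nat_lit 1) (nat_lit 4) (nat_lit 321) (nat_lit 224) (nat_lit 175)))) (XT.nd (nat_lit 78) (nat_lit 0) (nat_lit 0) (XT.lf (nat_lit 0) (nat_lit 355444539174) (nat_lit 152) (nat_lit 105709683378) (nat_lit 0) (nat_lit 350611095025) (nat_lit 1) (nat_lit 5) (nat_lit 3) (nat_lit 4) (nat_lit 1) (nat_lit 4) (nat_lit 322) (nat_lit 224) (nat_lit 174)) (XT.nd (nat_lit 78) (nat_lit 0) (nat_lit 0) (XT.lf (nat_lit 0) (nat_lit 384898656266) (nat_lit 152) (nat_lit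 111633203802) (nat_lit 0) (nat_lit 380057412110) (nat_lit 1) (nat_lit 5) (nat_lit 3) (nat_lit 4) (nat_lit 1) (nat_lit 4) (nat_lit 323) (nat_lit 224) (nat_lit 173)) (XT.lf (nat_lit 0) (nat_lit 416704972404) (nat_lit 152) (nat_lit 118038007360) (nat_lit 0) (nat_lit 411856506019) (nat_lit 1) (nat_lit 5) (nat_lit 3) (nat_lit 4) (nat_lit 1) (nat_lit 4) (nat_lit 324) (nat_lit 224) (nat_lit 172)))))) (XT.nd (nat_lit 468) (nat_lit 0) (nat_lit 0) (XT.nd (nat_lit 234) (nat_lit 0) (nat_lit 0) (XT.nd (nat_lit 78) (nat_lit 0) (nat_lit 0) (XT.lf (nat_lit 0) (nat_lit 451051969459) (nat_lit 152) (nat_lit 124962048443) (nat_lit 0) (nat_lit 446196815825) (nat_lit 1) (nat_lit 5) (nat_lit 3) (nat_lit 4) (nat_lit 1) (nat_lit 4) (nat_lit 325) (nat_lit 224) (nat_lit 171)) (XT.nd (nat_lit 78) (nat_lit 0) (nat_lit 0) (XT.lf (nat_lit 0) (nat_lit 488143185193) (nat_lit 152) (nat_lit 132446358408) (nat_lit 0)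 (nat_lit 483281839663) (nat_lit 1) (nat_lit 5) (nat_lit 3) (nat_lit 4) (nat_lit 1) (nat_lit 4) (nat_lit 326) (nat_lit 224) (nat_lit 170)) (XT.lf (nat_lit 0) (nat_lit 528198419403) (nat_lit 152) (nat_lit 140535288718) (nat_lit 0) (nat_lit 523331340635) (nat_lit 1) (nat_lit 5) (nat_lit 3) (nat_lit 4) (nat_lit 1) (nat_lit 4) (nat_lit 327) (nat_lit 224) (nat_lit 169)))) (XT.nd (nat_lit 78) (nat_lit 0) (nat_lit 0) (XT.lf (nat_lit 0) (nat_lit 571455036440) (nat_lit 152) (nat_lit 149276773777) (nat_lit 0) (nat_lit 566582649117) (nat_lit 1) (nat_lit 5) (nat_lit 3) (nat_lit 4) (nat_lit 1) (nat_lit 4) (nat_lit 328) (nat_lit 224) (nat_lit 168)) (XT.nd (nat_lit 78) (nat_lit 0) (nat_lit 0) (XT.lf (nat_lit 0) (nat_lit 618169371811) (nat_lit 152) (nat_lit 158722614978) (nat_lit 0) (nat_lit 613292069161) (nat_lit 1) (nat_lit 5) (nat_lit 3) (nat_lit 4) (nat_lit 1) (nat_lit 4) (nat_lit 329) (nat_lit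 224) (nat_lit 167)) (XT.lf (nat_lit 0) (nat_lit 668618251209) (nat_lit 152) (nat_lit 168928787676) (nat_lit 0) (nat_lit 663736397329) (nat_lit 1) (nat_lit 5) (nat_lit 3) (nat_lit 4) (nat_lit 1) (nat_lit 4) (nat_lit 330) (nat_lit 224) (nat_lit 166))))) (XT.nd (nat_lit 234) (nat_lit 0) (nat_lit 0) (XT.nd (nat_lit 78) (nat_lit 0) (nat_lit 0) (XT.lf (nat_lit 0) (nat_lit 723100630954) (nat_lit 152) (nat_lit 179955772893) (nat_lit 0) (nat_lit 718214562974) (nat_lit 1) (nat_lit 5) (nat_lit 3) (nat_lit 4) (nat_lit 1) (nat_lit 4) (nat_lit 331) (nat_lit 224) (nat_lit 165)) (XT.nd (nat_lit 78) (nat_lit 0) (nat_lit 0) (XT.lf (nat_lit 0) (nat_lit 781939369595) (nat_lit 152) (nat_lit 191868915728) (nat_lit 0) (nat_lit 777049399669) (nat_lit 1) (nat_lit 5) (nat_lit 3) (nat_lit 4) (nat_lit 1) (nat_lit 4) (nat_lit 332) (nat_lit 224) (nat_lit 164)) (XT.lf (nat_lit 0) (nat_lit 845483141138) (nat_lit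 152) (nat_lit 204738812583) (nat_lit 0) (nat_lit 840589558299) (nat_lit 1) (nat_lit 5) (nat_lit 3) (nat_lit 4) (nat_lit 1) (nat_lit 4) (nat_lit 333) (nat_lit 224) (nat_lit 163)))) (XT.nd (nat_lit 78) (nat_lit 0) (nat_lit 0) (XT.lf (nat_lit 0) (nat_lit 914108501265) (nat_lit 152) (nat_lit 218641729513) (nat_lit 0) (nat_lit 909211573138) (nat_lit 1) (nat_lit 5) (nat_lit 3) (nat_lit 4) (nat_lit 1) (nat_lit 4) (nat_lit 334) (nat_lit 224) (nat_lit 162)) (XT.nd (nat_lit 32448) (nat_lit 0) (nat_lit 380) (XT.lf (nat_lit 0) (nat_lit 988222118778) (nat_lit 152) (nat_lit 233660054174) (nat_lit 0) (nat_lit 983322093161) (nat_lit 1) (nat_lit 5) (nat_lit 3) (nat_lit 4) (nat_lit 1) (nat_lit 4) (nat_lit 335) (nat_lit 224) (nat_lit 161)) (XT.lf (nat_lit 0) (nat_lit 3329762823) (nat_lit 76) (nat_lit 2725102251) (nat_lit 76) (nat_lit 2725102251) (nat_lit 6) (nat_lit 4) (nat_lit 7) (nat_lit 5) (nat_lit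 7) (nat_lit 4) (nat_lit 270) (nat_lit 225) (nat_lit 225))))))) (XT.nd (nat_lit 858) (nat_lit 152) (nat_lit 0) (XT.nd (nat_lit 390) (nat_lit 76) (nat_lit 0) (XT.nd (nat_lit 156) (nat_lit 76) (nat_lit 0) (XT.nd (nat_lit 78) (nat_lit 76) (nat_lit 0) (XT.lf (nat_lit 0) (nat_lit 12910980815) (nat_lit 76) (nat_lit 3112203929) (nat_lit 76) (nat_lit 2651359827) (nat_lit 6) (nat_lit 4) (nat_lit 7) (nat_lit 5) (nat_lit 7) (nat_lit 4) (nat_lit 271) (nat_lit 225) (nat_lit 224)) (XT.lf (nat_lit 0) (nat_lit 179926460) (nat_lit 152) (nat_lit 513304566) (nat_lit 76) (nat_lit 19198876572) (nat_lit 5) (nat_lit 5) (nat_lit 7) (nat_lit 5) (nat_lit 6) (nat_lit 4) (nat_lit 272) (nat_lit 225) (nat_lit 223))) (XT.nd (nat_lit 78) (nat_lit 0) (nat_lit 0) (XT.lf (nat_lit 0) (nat_lit 3104980409) (nat_lit 152) (nat_lit 16179023325) (nat_lit 0) (nat_lit 1917340459) (nat_lit 4) (nat_lit 5) (nat_lit 6) (nat_lit 4)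 (nat_lit 4) (nat_lit 4) (nat_lit 273) (nat_lit 225) (nat_lit 222)) (XT.nd (nat_lit 78) (nat_lit 0) (nat_lit 0) (XT.lf (nat_lit 0) (nat_lit 6139408126) (nat_lit 152) (nat_lit 11873420631) (nat_lit 0) (nat_lit 4613034004) (nat_lit 4) (nat_lit 5) (nat_lit 6) (nat_lit 4) (nat_lit 4) (nat_lit 4) (nat_lit 274) (nat_lit 225) (nat_lit 221)) (XT.lf (nat_lit 0) (nat_lit 9271186597) (nat_lit 152) (nat_lit 7474148957) (nat_lit 0) (nat_lit 7431169722) (nat_lit 4) (nat_lit 5) (nat_lit 6) (nat_lit 4) (nat_lit 4) (nat_lit 4) (nat_lit 275) (nat_lit 225) (nat_lit 220))))) (XT.nd (nat_lit 234) (nat_lit 0) (nat_lit 0) (XT.nd (nat_lit 78) (nat_lit 76) (nat_lit 0) (XT.lf (nat_lit 0) (nat_lit 12518874509) (nat_lit 152) (nat_lit 2955138544) (nat_lit 0) (nat_lit 10388447678) (nat_lit 4) (nat_lit 5) (nat_lit 6) (nat_lit 4) (nat_lit 4) (nat_lit 4) (nat_lit 276) (nat_lit 225) (nat_lit 219)) (XT.nd (nat_lit 78)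 (nat_lit 0) (nat_lit 0) (XT.lf (nat_lit 0) (nat_lit 1800456029) (nat_lit 76) (nat_lit 14144562402) (nat_lit 76) (nat_lit 11745237463) (nat_lit 3) (nat_lit 4) (nat_lit 4) (nat_lit 5) (nat_lit 4) (nat_lit 4) (nat_lit 277) (nat_lit 225) (nat_lit 218)) (XT.lf (nat_lit 0) (nat_lit 6894999850) (nat_lit 76) (nat_lit 12710586869) (nat_lit 76) (nat_lit 10062282201) (nat_lit 3) (nat_lit 4) (nat_lit 4) (nat_lit 5) (nat_lit 4) (nat_lit 4) (nat_lit 278) (nat_lit 225) (nat_lit 217)))) (XT.nd (nat_lit 78) (nat_lit 0) (nat_lit 0) (XT.lf (nat_lit 0) (nat_lit 12203070450) (nat_lit 76) (nat_lit 11244387547) (nat_lit 76) (nat_lit 8365546092) (nat_lit 3) (nat_lit 4) (nat_lit 4) (nat_lit 5) (nat_lit 4) (nat_lit 4) (nat_lit 279) (nat_lit 225) (nat_lit 216)) (XT.nd (nat_lit 78) (nat_lit 0) (nat_lit 0) (XT.lf (nat_lit 0) (nat_lit 17756123060) (nat_lit 76) (nat_lit 9737275847) (nat_lit 76) (nat_lit 6644974404)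 (nat_lit 3) (nat_lit 4) (nat_lit 4) (nat_lit 5) (nat_lit 4) (nat_lit 4) (nat_lit 280) (nat_lit 225) (nat_lit 215)) (XT.lf (nat_lit 0) (nat_lit 23587064661) (nat_lit 76) (nat_lit 8180320737) (nat_lit 76) (nat_lit 4890371157) (nat_lit 3) (nat_lit 4) (nat_lit 4) (nat_lit 5) (nat_lit 4) (nat_lit 4) (nat_lit 281) (nat_lit 225) (nat_lit 214)))))) (XT.nd (nat_lit 468) (nat_lit 0) (nat_lit 0) (XT.nd (nat_lit 234) (nat_lit 76) (nat_lit 0) (XT.nd (nat_lit 78) (nat_lit 76) (nat_lit 0) (XT.lf (nat_lit 0) (nat_lit 29730448979) (nat_lit 76) (nat_lit 6564295815) (nat_lit 76) (nat_lit 3091338702) (nat_lit 3) (nat_lit 4) (nat_lit 4) (nat_lit 5) (nat_lit 4) (nat_lit 4) (nat_lit 282) (nat_lit 225) (nat_lit 213)) (XT.nd (nat_lit 78) (nat_lit 76) (nat_lit 0) (XT.lf (nat_lit 0) (nat_lit 36222681256) (nat_lit 76) (nat_lit 4879624639) (nat_lit 76) (nat_lit 1237216106) (nat_lit 3) (nat_lit 4) (nat_lit 4) (nat_lit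 5) (nat_lit 4) (nat_lit 4) (nat_lit 283) (nat_lit 225) (nat_lit 212)) (XT.lf (nat_lit 0) (nat_lit 648818397) (nat_lit 152) (nat_lit 2449765730) (nat_lit 76) (nat_lit 42435675736) (nat_lit 2) (nat_lit 5) (nat_lit 4) (nat_lit 5) (nat_lit 3) (nat_lit 4) (nat_lit 284) (nat_lit 225) (nat_lit 211)))) (XT.nd (nat_lit 78) (nat_lit 0) (nat_lit 0) (XT.lf (nat_lit 0) (nat_lit 1423432410) (nat_lit 76) (nat_lit 1157345323) (nat_lit 152) (nat_lit 46404504858) (nat_lit 1) (nat_lit 5) (nat_lit 2) (nat_lit 5) (nat_lit 3) (nat_lit 4) (nat_lit 285) (nat_lit 225) (nat_lit 210)) (XT.nd (nat_lit 78) (nat_lit 0) (nat_lit 0) (XT.lf (nat_lit 0) (nat_lit 4687372130) (nat_lit 152) (nat_lit 47113192785) (nat_lit 0) (nat_lit 910426502) (nat_lit 1) (nat_lit 5) (nat_lit 3) (nat_lit 4) (nat_lit 1) (nat_lit 4) (nat_lit 286) (nat_lit 225) (nat_lit 209)) (XT.lf (nat_lit 0) (nat_lit 6926601297) (nat_lit 152) (nat_lit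 46776892142) (nat_lit 0) (nat_lit 3034329880) (nat_lit 1) (nat_lit 5) (nat_lit 3) (nat_lit 4) (nat_lit 1) (nat_lit 4) (nat_lit 287) (nat_lit 225) (nat_lit 208))))) (XT.nd (nat_lit 234) (nat_lit 0) (nat_lit 0) (XT.nd (nat_lit 78) (nat_lit 0) (nat_lit 0) (XT.lf (nat_lit 0) (nat_lit 9283900559) (nat_lit 152) (nat_lit 46523121178) (nat_lit 0) (nat_lit 5284846004) (nat_lit 1) (nat_lit 5) (nat_lit 3) (nat_lit 4) (nat_lit 1) (nat_lit 4) (nat_lit 288) (nat_lit 225) (nat_lit 207)) (XT.nd (nat_lit 78) (nat_lit 0) (nat_lit 0) (XT.lf (nat_lit 0) (nat_lit 11773239097) (nat_lit 152) (nat_lit 46350376065) (nat_lit 0) (nat_lit 7675311266) (nat_lit 1) (nat_lit 5) (nat_lit 3) (nat_lit 4) (nat_lit 1) (nat_lit 4) (nat_lit 289) (nat_lit 225) (nat_lit 206)) (XT.lf (nat_lit 0) (nat_lit 14409368546) (nat_lit 152) (nat_lit 46257633127) (nat_lit 0) (nat_lit 10219891385) (nat_lit 1) (nat_lit 5) (nat_lit 3) (nat_lit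 4) (nat_lit 1) (nat_lit 4) (nat_lit 290) (nat_lit 225) (nat_lit 205)))) (XT.nd (nat_lit 78) (nat_lit 0) (nat_lit 0) (XT.lf (nat_lit 0) (nat_lit 17207910414) (nat_lit 152) (nat_lit 46244342778) (nat_lit 0) (nat_lit 12933665355) (nat_lit 1) (nat_lit 5) (nat_lit 3) (nat_lit 4) (nat_lit 1) (nat_lit 4) (nat_lit 291) (nat_lit 225) (nat_lit 204)) (XT.nd (nat_lit 78) (nat_lit 0) (nat_lit 0) (XT.lf (nat_lit 0) (nat_lit 20185448653) (nat_lit 152) (nat_lit 46310426258) (nat_lit 0) (nat_lit 15832714799) (nat_lit 1) (nat_lit 5) (nat_lit 3) (nat_lit 4) (nat_lit 1) (nat_lit 4) (nat_lit 292) (nat_lit 225) (nat_lit 203)) (XT.lf (nat_lit 0) (nat_lit 23359627933) (nat_lit 152) (nat_lit 46456275175) (nat_lit 0) (nat_lit 18934219270) (nat_lit 1) (nat_lit 5) (nat_lit 3) (nat_lit 4) (nat_lit 1) (nat_lit 4) (nat_lit 293) (nat_lit 225) (nat_lit 202))))))))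
noncomputable def xc24 : XT := (XT.nd (nat_lit 1794) (nat_lit 0) (nat_lit 0) (XT.nd (nat_lit 858) (nat_lit 0) (nat_lit 0) (XT.nd (nat_lit 390) (nat_lit 0) (nat_lit 0) (XT.nd (nat_lit 156) (nat_lit 0) (nat_lit 0) (XT.nd (nat_lit 78) (nat_lit 0) (nat_lit 0) (XT.lf (nat_lit 0) (nat_lit 26749258208) (nat_lit 152) (nat_lit 46682753818) (nat_lit 0) (nat_lit 22256558054) (nat_lit 1) (nat_lit 5) (nat_lit 3) (nat_lit 4) (nat_lit 1) (nat_lit 4) (nat_lit 294) (nat_lit 225) (nat_lit 201)) (XT.lf (nat_lit 0) (nat_lit 30374426173) (nat_lit 152) (nat_lit 46991204283) (nat_lit 0) (nat_lit 25819419084) (nat_lit 1) (nat_lit 5) (nat_lit 3) (nat_lit 4) (nat_lit 1) (nat_lit 4) (nat_lit 295) (nat_lit 225) (nat_lit 200))) (XT.nd (nat_lit 78) (nat_lit 0) (nat_lit 0) (XT.lf (nat_lit 0) (nat_lit 34256614306) (nat_lit 152) (nat_lit 47383454424) (nat_lit 0) (nat_lit 29643915610) (nat_lit 1) (nat_lit 5) (nat_lit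 3) (nat_lit 4) (nat_lit 1) (nat_lit 4) (nat_lit 296) (nat_lit 225) (nat_lit 199)) (XT.nd (nat_lit 78) (nat_lit 0) (nat_lit 0) (XT.lf (nat_lit 0) (nat_lit 38418828167) (nat_lit 152) (nat_lit 47861828687) (nat_lit 0) (nat_lit 33752711316) (nat_lit 1) (nat_lit 5) (nat_lit 3) (nat_lit 4) (nat_lit 1) (nat_lit 4) (nat_lit 297) (nat_lit 225) (nat_lit 198)) (XT.lf (nat_lit 0) (nat_lit 42885732726) (nat_lit 152) (nat_lit 48429161882) (nat_lit 0) (nat_lit 38170154621) (nat_lit 1) (nat_lit 5) (nat_lit 3) (nat_lit 4) (nat_lit 1) (nat_lit 4) (nat_lit 298) (nat_lit 225) (nat_lit 197))))) (XT.nd (nat_lit 234) (nat_lit 0) (nat_lit 0) (XT.nd (nat_lit 78) (nat_lit 0) (nat_lit 0) (XT.lf (nat_lit 0) (nat_lit 47683798529) (nat_lit 152) (nat_lit 49088815983) (nat_lit 0) (nat_lit 42922422966) (nat_lit 1) (nat_lit 5) (nat_lit 3) (nat_lit 4) (nat_lit 1) (nat_lit 4) (nat_lit 299) (nat_lit 225) (nat_lit 196))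 (XT.nd (nat_lit 78) (nat_lit 0) (nat_lit 0) (XT.lf (nat_lit 0) (nat_lit 52841458558) (nat_lit 152) (nat_lit 49844700053) (nat_lit 0) (nat_lit 48037677942) (nat_lit 1) (nat_lit 5) (nat_lit 3) (nat_lit 4) (nat_lit 1) (nat_lit 4) (nat_lit 300) (nat_lit 225) (nat_lit 195)) (XT.lf (nat_lit 0) (nat_lit 58389276725) (nat_lit 152) (nat_lit 50701293403) (nat_lit 0) (nat_lit 53546232170) (nat_lit 1) (nat_lit 5) (nat_lit 3) (nat_lit 4) (nat_lit 1) (nat_lit 4) (nat_lit 301) (nat_lit 225) (nat_lit 194)))) (XT.nd (nat_lit 78) (nat_lit 0) (nat_lit 0) (XT.lf (nat_lit 0) (nat_lit 64360128989) (nat_lit 152) (nat_lit 51663672143) (nat_lit 0) (nat_lit 59480728936) (nat_lit 1) (nat_lit 5) (nat_lit 3) (nat_lit 4) (nat_lit 1) (nat_lit 4) (nat_lit 302) (nat_lit 225) (nat_lit 193)) (XT.nd (nat_lit 78) (nat_lit 0) (nat_lit 0) (XT.lf (nat_lit 0) (nat_lit 70789398179) (nat_lit 152) (nat_lit 52737539258) (nat_lit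 0) (nat_lit 65876335627) (nat_lit 1) (nat_lit 5) (nat_lit 3) (nat_lit 4) (nat_lit 1) (nat_lit 4) (nat_lit 303) (nat_lit 225) (nat_lit 192)) (XT.lf (nat_lit 0) (nat_lit 77715183667) (nat_lit 152) (nat_lit 53929258404) (nat_lit 0) (nat_lit 72770952135) (nat_lit 1) (nat_lit 5) (nat_lit 3) (nat_lit 4) (nat_lit 1) (nat_lit 4) (nat_lit 304) (nat_lit 225) (nat_lit 191)))))) (XT.nd (nat_lit 468) (nat_lit 0) (nat_lit 0) (XT.nd (nat_lit 234) (nat_lit 0) (nat_lit 0) (XT.nd (nat_lit 78) (nat_lit 0) (nat_lit 0) (XT.lf (nat_lit 0) (nat_lit 85178527145) (nat_lit 152) (nat_lit 55245891622) (nat_lit 0) (nat_lit 80205435447) (nat_lit 1) (nat_lit 5) (nat_lit 3) (nat_lit 4) (nat_lit 1) (nat_lit 4) (nat_lit 305) (nat_lit 225) (nat_lit 190)) (XT.nd (nat_lit 78) (nat_lit 0) (nat_lit 0) (XT.lf (nat_lit 0) (nat_lit 93223655834) (nat_lit 152) (nat_lit 56695241181) (nat_lit 0) (nat_lit 88223841759) (nat_lit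 1) (nat_lit 5) (nat_lit 3) (nat_lit 4) (nat_lit 1) (nat_lit 4) (nat_lit 306) (nat_lit 225) (nat_lit 189)) (XT.lf (nat_lit 0) (nat_lit 101898244571) (nat_lit 152) (nat_lit 58285895821) (nat_lit 0) (nat_lit 96873687554) (nat_lit 1) (nat_lit 5) (nat_lit 3) (nat_lit 4) (nat_lit 1) (nat_lit 4) (nat_lit 307) (nat_lit 225) (nat_lit 188)))) (XT.nd (nat_lit 78) (nat_lit 0) (nat_lit 0) (XT.lf (nat_lit 0) (nat_lit 111253698325) (nat_lit 152) (nat_lit 60027281643) (nat_lit 0) (nat_lit 106206231178) (nat_lit 1) (nat_lit 5) (nat_lit 3) (nat_lit 4) (nat_lit 1) (nat_lit 4) (nat_lit 308) (nat_lit 225) (nat_lit 187)) (XT.nd (nat_lit 78) (nat_lit 0) (nat_lit 0) (XT.lf (nat_lit 0) (nat_lit 121345456823) (nat_lit 152) (nat_lit 61929717969) (nat_lit 0) (nat_lit 116276776592) (nat_lit 1) (nat_lit 5) (nat_lit 3) (nat_lit 4) (nat_lit 1) (nat_lit 4) (nat_lit 309) (nat_lit 225) (nat_lit 186)) (XT.lf (nat_lit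 0) (nat_lit 132233323078) (nat_lit 152) (nat_lit 64004478498) (nat_lit 0) (nat_lit 127145001102) (nat_lit 1) (nat_lit 5) (nat_lit 3) (nat_lit 4) (nat_lit 1) (nat_lit 4) (nat_lit 310) (nat_lit 225) (nat_lit 185))))) (XT.nd (nat_lit 234) (nat_lit 0) (nat_lit 0) (XT.nd (nat_lit 78) (nat_lit 0) (nat_lit 0) (XT.lf (nat_lit 0) (nat_lit 143981817779) (nat_lit 152) (nat_lit 66263858106) (nat_lit 0) (nat_lit 138875309003) (nat_lit 1) (nat_lit 5) (nat_lit 3) (nat_lit 4) (nat_lit 1) (nat_lit 4) (nat_lit 311) (nat_lit 225) (nat_lit 184)) (XT.nd (nat_lit 78) (nat_lit 0) (nat_lit 0) (XT.lf (nat_lit 0) (nat_lit 156660561636) (nat_lit 152) (nat_lit 68721245709) (nat_lit 0) (nat_lit 151537213229) (nat_lit 1) (nat_lit 5) (nat_lit 3) (nat_lit 4) (nat_lit 1) (nat_lit 4) (nat_lit 312) (nat_lit 225) (nat_lit 183)) (XT.lf (nat_lit 0) (nat_lit 170344687945) (nat_lit 152) (nat_lit 71391203604) (nat_lit 0)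 (nat_lit 165205747288) (nat_lit 1) (nat_lit 5) (nat_lit 3) (nat_lit 4) (nat_lit 1) (nat_lit 4) (nat_lit 313) (nat_lit 225) (nat_lit 182)))) (XT.nd (nat_lit 78) (nat_lit 0) (nat_lit 0) (XT.lf (nat_lit 0) (nat_lit 185115287824) (nat_lit 152) (nat_lit 74289553764) (nat_lit 0) (nat_lit 179961909899) (nat_lit 1) (nat_lit 5) (nat_lit 3) (nat_lit 4) (nat_lit 1) (nat_lit 4) (nat_lit 314) (nat_lit 225) (nat_lit 181)) (XT.nd (nat_lit 78) (nat_lit 0) (nat_lit 0) (XT.lf (nat_lit 0) (nat_lit 201059890756) (nat_lit 152) (nat_lit 77433471598) (nat_lit 0) (nat_lit 195893144989) (nat_lit 1) (nat_lit 5) (nat_lit 3) (nat_lit 4) (nat_lit 1) (nat_lit 4) (nat_lit 315) (nat_lit 225) (nat_lit 180)) (XT.lf (nat_lit 0) (nat_lit 218272983275) (nat_lit 152) (nat_lit 80841587728) (nat_lit 0) (nat_lit 213093859878) (nat_lit 1) (nat_lit 5) (nat_lit 3) (nat_lit 4) (nat_lit 1) (nat_lit 4) (nat_lit 316) (nat_lit 225)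 (nat_lit 179))))))) (XT.nd (nat_lit 858) (nat_lit 0) (nat_lit 0) (XT.nd (nat_lit 390) (nat_lit 0) (nat_lit 0) (XT.nd (nat_lit 156) (nat_lit 0) (nat_lit 0) (XT.nd (nat_lit 78) (nat_lit 0) (nat_lit 0) (XT.lf (nat_lit 0) (nat_lit 236856568894) (nat_lit 152) (nat_lit 84534098401) (nat_lit 0) (nat_lit 231665984727) (nat_lit 1) (nat_lit 5) (nat_lit 3) (nat_lit 4) (nat_lit 1) (nat_lit 4) (nat_lit 317) (nat_lit 225) (nat_lit 178)) (XT.lf (nat_lit 0) (nat_lit 256920772563) (nat_lit 152) (nat_lit 88532885159) (nat_lit 0) (nat_lit 251719576573) (nat_lit 1) (nat_lit 5) (nat_lit 3) (nat_lit 4) (nat_lit 1) (nat_lit 4) (nat_lit 318) (nat_lit 225) (nat_lit 177))) (XT.nd (nat_lit 78) (nat_lit 0) (nat_lit 0) (XT.lf (nat_lit 0) (nat_lit 278584493268) (nat_lit 152) (nat_lit 92861644517) (nat_lit 0) (nat_lit 273373471515) (nat_lit 1) (nat_lit 5) (nat_lit 3) (nat_lit 4) (nat_lit 1) (nat_lit 4) (nat_lit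 319) (nat_lit 225) (nat_lit 176)) (XT.nd (nat_lit 78) (nat_lit 0) (nat_lit 0) (XT.lf (nat_lit 0) (nat_lit 301976108612) (nat_lit 152) (nat_lit 97546028382) (nat_lit 0) (nat_lit 296755988931) (nat_lit 1) (nat_lit 5) (nat_lit 3) (nat_lit 4) (nat_lit 1) (nat_lit 4) (nat_lit 320) (nat_lit 225) (nat_lit 175)) (XT.lf (nat_lit 0) (nat_lit 327234235576) (nat_lit 152) (nat_lit 102613796067) (nat_lit 0) (nat_lit 322005691888) (nat_lit 1) (nat_lit 5) (nat_lit 3) (nat_lit 4) (nat_lit 1) (nat_lit 4) (nat_lit 321) (nat_lit 225) (nat_lit 174))))) (XT.nd (nat_lit 234) (nat_lit 0) (nat_lit 0) (XT.nd (nat_lit 78) (nat_lit 0) (nat_lit 0) (XT.lf (nat_lit 0) (nat_lit 354508551949) (nat_lit 152) (nat_lit 108094978787) (nat_lit 0) (nat_lit 349272208253) (nat_lit 1) (nat_lit 5) (nat_lit 3) (nat_lit 4) (nat_lit 1) (nat_lit 4) (nat_lit 322) (nat_lit 225) (nat_lit 173)) (XT.nd (nat_lit 78) (nat_lit 0) (nat_lit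 0) (XT.lf (nat_lit 0) (nat_lit 383960683309) (nat_lit 152) (nat_lit 114022057624) (nat_lit 0) (nat_lit 378717117385) (nat_lit 1) (nat_lit 5) (nat_lit 3) (nat_lit 4) (nat_lit 1) (nat_lit 4) (nat_lit 323) (nat_lit 225) (nat_lit 172)) (XT.lf (nat_lit 0) (nat_lit 415765160806) (nat_lit 152) (nat_lit 120430156010) (nat_lit 0) (nat_lit 410514907633) (nat_lit 1) (nat_lit 5) (nat_lit 3) (nat_lit 4) (nat_lit 1) (nat_lit 4) (nat_lit 324) (nat_lit 225) (nat_lit 171)))) (XT.nd (nat_lit 78) (nat_lit 0) (nat_lit 0) (XT.lf (nat_lit 0) (nat_lit 450110455417) (nat_lit 152) (nat_lit 127357247860) (nat_lit 0) (nat_lit 444854010346) (nat_lit 1) (nat_lit 5) (nat_lit 3) (nat_lit 4) (nat_lit 1) (nat_lit 4) (nat_lit 325) (nat_lit 225) (nat_lit 170)) (XT.nd (nat_lit 78) (nat_lit 0) (nat_lit 0) (XT.lf (nat_lit 0) (nat_lit 487200094813) (nat_lit 152) (nat_lit 134844382607) (nat_lit 0) (nat_lit 481937916504)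 (nat_lit 1) (nat_lit 5) (nat_lit 3) (nat_lit 4) (nat_lit 1) (nat_lit 4) (nat_lit 326) (nat_lit 225) (nat_lit 169)) (XT.lf (nat_lit 0) (nat_lit 527253869451) (nat_lit 152) (nat_lit 142935928458) (nat_lit 0) (nat_lit 521986382588) (nat_lit 1) (nat_lit 5) (nat_lit 3) (nat_lit 4) (nat_lit 1) (nat_lit 4) (nat_lit 327) (nat_lit 225) (nat_lit 168)))))) (XT.nd (nat_lit 468) (nat_lit 0) (nat_lit 0) (XT.nd (nat_lit 234) (nat_lit 0) (nat_lit 0) (XT.nd (nat_lit 78) (nat_lit 0) (nat_lit 0) (XT.lf (nat_lit 0) (nat_lit 570509135031) (nat_lit 152) (nat_lit 151679835314) (nat_lit 0) (nat_lit 565236732842) (nat_lit 1) (nat_lit 5) (nat_lit 3) (nat_lit 4) (nat_lit 1) (nat_lit 4) (nat_lit 328) (nat_lit 225) (nat_lit 167)) (XT.nd (nat_lit 78) (nat_lit 0) (nat_lit 0) (XT.lf (nat_lit 0) (nat_lit 617222219055) (nat_lit 152) (nat_lit 161127918919) (nat_lit 0) (nat_lit 611945265636) (nat_lit 1) (nat_lit 5) (nat_lit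 3) (nat_lit 4) (nat_lit 1) (nat_lit 4) (nat_lit 329) (nat_lit 225) (nat_lit 166)) (XT.lf (nat_lit 0) (nat_lit 667669939797) (nat_lit 152) (nat_lit 171336167916) (nat_lit 0) (nat_lit 662388772277) (nat_lit 1) (nat_lit 5) (nat_lit 3) (nat_lit 4) (nat_lit 1) (nat_lit 4) (nat_lit 330) (nat_lit 225) (nat_lit 165)))) (XT.nd (nat_lit 78) (nat_lit 0) (nat_lit 0) (XT.lf (nat_lit 0) (nat_lit 722151246713) (nat_lit 152) (nat_lit 182365075634) (nat_lit 0) (nat_lit 716866177248) (nat_lit 1) (nat_lit 5) (nat_lit 3) (nat_lit 4) (nat_lit 1) (nat_lit 4) (nat_lit 331) (nat_lit 225) (nat_lit 164)) (XT.nd (nat_lit 78) (nat_lit 0) (nat_lit 0) (XT.lf (nat_lit 0) (nat_lit 780988991994) (nat_lit 152) (nat_lit 194279998562) (nat_lit 0) (nat_lit 775700309616) (nat_lit 1) (nat_lit 5) (nat_lit 3) (nat_lit 4) (nat_lit 1) (nat_lit 4) (nat_lit 332) (nat_lit 225) (nat_lit 163)) (XT.lf (nat_lit 0) (nat_lit 844531843758)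 (nat_lit 152) (nat_lit 207151543651) (nat_lit 0) (nat_lit 839239816091) (nat_lit 1) (nat_lit 5) (nat_lit 3) (nat_lit 4) (nat_lit 1) (nat_lit 4) (nat_lit 333) (nat_lit 225) (nat_lit 162))))) (XT.nd (nat_lit 32448) (nat_lit 0) (nat_lit 380) (XT.nd (nat_lit 78) (nat_lit 0) (nat_lit 0) (XT.lf (nat_lit 0) (nat_lit 913156352239) (nat_lit 152) (nat_lit 221055986723) (nat_lit 0) (nat_lit 907861227082) (nat_lit 1) (nat_lit 5) (nat_lit 3) (nat_lit 4) (nat_lit 1) (nat_lit 4) (nat_lit 334) (nat_lit 225) (nat_lit 161)) (XT.nd (nat_lit 32292) (nat_lit 0) (nat_lit 456) (XT.lf (nat_lit 0) (nat_lit 987269181191) (nat_lit 152) (nat_lit 236075724479) (nat_lit 0) (nat_lit 981971187987) (nat_lit 1) (nat_lit 5) (nat_lit 3) (nat_lit 4) (nat_lit 1) (nat_lit 4) (nat_lit 335) (nat_lit 225) (nat_lit 160)) (XT.lf (nat_lit 0) (nat_lit 2671329713) (nat_lit 152) (nat_lit 2455809741) (nat_lit 0) (nat_lit 2671329713)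 (nat_lit 7) (nat_lit 5) (nat_lit 9) (nat_lit 4) (nat_lit 7) (nat_lit 4) (nat_lit 268) (nat_lit 226) (nat_lit 226)))) (XT.nd (nat_lit 78) (nat_lit 0) (nat_lit 0) (XT.lf (nat_lit 0) (nat_lit 592311373) (nat_lit 76) (nat_lit 8223718705) (nat_lit 76) (nat_lit 7726007074) (nat_lit 6) (nat_lit 4) (nat_lit 7) (nat_lit 5) (nat_lit 7) (nat_lit 4) (nat_lit 269) (nat_lit 226) (nat_lit 225)) (XT.nd (nat_lit 78) (nat_lit 0) (nat_lit 0) (XT.lf (nat_lit 0) (nat_lit 6514748605) (nat_lit 76) (nat_lit 6005544116) (nat_lit 76) (nat_lit 5046988382) (nat_lit 6) (nat_lit 4) (nat_lit 7) (nat_lit 5) (nat_lit 7) (nat_lit 4) (nat_lit 270) (nat_lit 226) (nat_lit 224)) (XT.lf (nat_lit 0) (nat_lit 12632150958) (nat_lit 76) (nat_lit 3720902786) (nat_lit 76) (nat_lit 2335639549) (nat_lit 6) (nat_lit 4) (nat_lit 7) (nat_lit 5) (nat_lit 7) (nat_lit 4) (nat_lit 271) (nat_lit 226) (nat_lit 223))))))))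
noncomputable def xc25 : XT := (XT.nd (nat_lit 1794) (nat_lit 0) (nat_lit 0) (XT.nd (nat_lit 858) (nat_lit 152) (nat_lit 0) (XT.nd (nat_lit 390) (nat_lit 76) (nat_lit 0) (XT.nd (nat_lit 156) (nat_lit 0) (nat_lit 0) (XT.nd (nat_lit 78) (nat_lit 76) (nat_lit 0) (XT.lf (nat_lit 0) (nat_lit 402891143) (nat_lit 152) (nat_lit 942349197) (nat_lit 76) (nat_lit 18566862805) (nat_lit 5) (nat_lit 5) (nat_lit 7) (nat_lit 5) (nat_lit 6) (nat_lit 4) (nat_lit 272) (nat_lit 226) (nat_lit 222)) (XT.lf (nat_lit 0) (nat_lit 3225622283) (nat_lit 152) (nat_lit 16765774512) (nat_lit 0) (nat_lit 1238404058) (nat_lit 4) (nat_lit 5) (nat_lit 6) (nat_lit 4) (nat_lit 4) (nat_lit 4) (nat_lit 273) (nat_lit 226) (nat_lit 221))) (XT.nd (nat_lit 78) (nat_lit 0) (nat_lit 0) (XT.lf (nat_lit 0) (nat_lit 6190144489) (nat_lit 152) (nat_lit 12580738758) (nat_lit 0) (nat_lit 3889283511) (nat_lit 4) (nat_lit 5) (nat_lit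 6) (nat_lit 4) (nat_lit 4) (nat_lit 4) (nat_lit 274) (nat_lit 226) (nat_lit 220)) (XT.nd (nat_lit 78) (nat_lit 0) (nat_lit 0) (XT.lf (nat_lit 0) (nat_lit 9257195635) (nat_lit 152) (nat_lit 8293103139) (nat_lit 0) (nat_lit 6665924701) (nat_lit 4) (nat_lit 5) (nat_lit 6) (nat_lit 4) (nat_lit 4) (nat_lit 4) (nat_lit 275) (nat_lit 226) (nat_lit 219)) (XT.lf (nat_lit 0) (nat_lit 12444950839) (nat_lit 152) (nat_lit 3877459445) (nat_lit 0) (nat_lit 9584781797) (nat_lit 4) (nat_lit 5) (nat_lit 6) (nat_lit 4) (nat_lit 4) (nat_lit 4) (nat_lit 276) (nat_lit 226) (nat_lit 218))))) (XT.nd (nat_lit 234) (nat_lit 0) (nat_lit 0) (XT.nd (nat_lit 78) (nat_lit 0) (nat_lit 0) (XT.lf (nat_lit 0) (nat_lit 728817504) (nat_lit 76) (nat_lit 15061011075) (nat_lit 76) (nat_lit 11951862304) (nat_lit 3) (nat_lit 4) (nat_lit 4) (nat_lit 5) (nat_lit 4) (nat_lit 4) (nat_lit 277) (nat_lit 226) (nat_lit 217)) (XT.nd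 (nat_lit 78) (nat_lit 0) (nat_lit 0) (XT.lf (nat_lit 0) (nat_lit 5730074437) (nat_lit 76) (nat_lit 13666696241) (nat_lit 76) (nat_lit 10327010683) (nat_lit 3) (nat_lit 4) (nat_lit 4) (nat_lit 5) (nat_lit 4) (nat_lit 4) (nat_lit 278) (nat_lit 226) (nat_lit 216)) (XT.lf (nat_lit 0) (nat_lit 10951768288) (nat_lit 76) (nat_lit 12237219788) (nat_lit 76) (nat_lit 8684074243) (nat_lit 3) (nat_lit 4) (nat_lit 4) (nat_lit 5) (nat_lit 4) (nat_lit 4) (nat_lit 279) (nat_lit 226) (nat_lit 215)))) (XT.nd (nat_lit 78) (nat_lit 0) (nat_lit 0) (XT.lf (nat_lit 0) (nat_lit 16424842428) (nat_lit 76) (nat_lit 10764110745) (nat_lit 76) (nat_lit 7013317063) (nat_lit 3) (nat_lit 4) (nat_lit 4) (nat_lit 5) (nat_lit 4) (nat_lit 4) (nat_lit 280) (nat_lit 226) (nat_lit 214)) (XT.nd (nat_lit 78) (nat_lit 0) (nat_lit 0) (XT.lf (nat_lit 0) (nat_lit 22181729889) (nat_lit 76) (nat_lit 9238639576) (nat_lit 76) (nat_lit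 5304838360) (nat_lit 3) (nat_lit 4) (nat_lit 4) (nat_lit 5) (nat_lit 4) (nat_lit 4) (nat_lit 281) (nat_lit 226) (nat_lit 213)) (XT.lf (nat_lit 0) (nat_lit 28256545560) (nat_lit 76) (nat_lit 7651766452) (nat_lit 76) (nat_lit 3548513816) (nat_lit 3) (nat_lit 4) (nat_lit 4) (nat_lit 5) (nat_lit 4) (nat_lit 4) (nat_lit 282) (nat_lit 226) (nat_lit 212)))))) (XT.nd (nat_lit 468) (nat_lit 0) (nat_lit 0) (XT.nd (nat_lit 234) (nat_lit 76) (nat_lit 0) (XT.nd (nat_lit 78) (nat_lit 76) (nat_lit 0) (XT.lf (nat_lit 0) (nat_lit 34685288348) (nat_lit 76) (nat_lit 5994087681) (nat_lit 76) (nat_lit 1733935582) (nat_lit 3) (nat_lit 4) (nat_lit 4) (nat_lit 5) (nat_lit 4) (nat_lit 4) (nat_lit 283) (nat_lit 226) (nat_lit 211)) (XT.nd (nat_lit 78) (nat_lit 0) (nat_lit 0) (XT.lf (nat_lit 0) (nat_lit 142163329) (nat_lit 152) (nat_lit 4109729654) (nat_lit 76) (nat_lit 41360004179) (nat_lit 2) (nat_lit 5) (nat_lit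 4) (nat_lit 5) (nat_lit 3) (nat_lit 4) (nat_lit 284) (nat_lit 226) (nat_lit 210)) (XT.lf (nat_lit 0) (nat_lit 2007682127) (nat_lit 152) (nat_lit 363966555) (nat_lit 76) (nat_lit 46696687676) (nat_lit 2) (nat_lit 5) (nat_lit 4) (nat_lit 5) (nat_lit 3) (nat_lit 4) (nat_lit 285) (nat_lit 226) (nat_lit 209)))) (XT.nd (nat_lit 78) (nat_lit 0) (nat_lit 0) (XT.lf (nat_lit 0) (nat_lit 3761320843) (nat_lit 76) (nat_lit 289553231) (nat_lit 152) (nat_lit 48748337030) (nat_lit 1) (nat_lit 5) (nat_lit 2) (nat_lit 5) (nat_lit 3) (nat_lit 4) (nat_lit 286) (nat_lit 226) (nat_lit 208)) (XT.nd (nat_lit 78) (nat_lit 0) (nat_lit 0) (XT.lf (nat_lit 0) (nat_lit 6253779750) (nat_lit 152) (nat_lit 48747238228) (nat_lit 0) (nat_lit 1828017692) (nat_lit 1) (nat_lit 5) (nat_lit 3) (nat_lit 4) (nat_lit 1) (nat_lit 4) (nat_lit 287) (nat_lit 226) (nat_lit 207)) (XT.lf (nat_lit 0) (nat_lit 8583894077) (nat_lit 152)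 (nat_lit 48542182421) (nat_lit 0) (nat_lit 4059258743) (nat_lit 1) (nat_lit 5) (nat_lit 3) (nat_lit 4) (nat_lit 1) (nat_lit 4) (nat_lit 288) (nat_lit 226) (nat_lit 206))))) (XT.nd (nat_lit 234) (nat_lit 0) (nat_lit 0) (XT.nd (nat_lit 78) (nat_lit 0) (nat_lit 0) (XT.lf (nat_lit 0) (nat_lit 11048061378) (nat_lit 152) (nat_lit 48414543935) (nat_lit 0) (nat_lit 6431876714) (nat_lit 1) (nat_lit 5) (nat_lit 3) (nat_lit 4) (nat_lit 1) (nat_lit 4) (nat_lit 289) (nat_lit 226) (nat_lit 205)) (XT.nd (nat_lit 78) (nat_lit 0) (nat_lit 0) (XT.lf (nat_lit 0) (nat_lit 13660884126) (nat_lit 152) (nat_lit 48363566393) (nat_lit 0) (nat_lit 8959931564) (nat_lit 1) (nat_lit 5) (nat_lit 3) (nat_lit 4) (nat_lit 1) (nat_lit 4) (nat_lit 290) (nat_lit 226) (nat_lit 204)) (XT.lf (nat_lit 0) (nat_lit 16437845716) (nat_lit 152) (nat_lit 48388947706) (nat_lit 0) (nat_lit 11658404360) (nat_lit 1) (nat_lit 5) (nat_lit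 3) (nat_lit 4) (nat_lit 1) (nat_lit 4) (nat_lit 291) (nat_lit 226) (nat_lit 203)))) (XT.nd (nat_lit 78) (nat_lit 0) (nat_lit 0) (XT.lf (nat_lit 0) (nat_lit 19395402216) (nat_lit 152) (nat_lit 48490838282) (nat_lit 0) (nat_lit 14543286050) (nat_lit 1) (nat_lit 5) (nat_lit 3) (nat_lit 4) (nat_lit 1) (nat_lit 4) (nat_lit 292) (nat_lit 226) (nat_lit 202)) (XT.nd (nat_lit 78) (nat_lit 0) (nat_lit 0) (XT.lf (nat_lit 0) (nat_lit 22551079887) (nat_lit 152) (nat_lit 48669841917) (nat_lit 0) (nat_lit 17631672230) (nat_lit 1) (nat_lit 5) (nat_lit 3) (nat_lit 4) (nat_lit 1) (nat_lit 4) (nat_lit 293) (nat_lit 226) (nat_lit 201)) (XT.lf (nat_lit 0) (nat_lit 25923579040) (nat_lit 152) (nat_lit 48927019372) (nat_lit 0) (nat_lit 20941864448) (nat_lit 1) (nat_lit 5) (nat_lit 3) (nat_lit 4) (nat_lit 1) (nat_lit 4) (nat_lit 294) (nat_lit 226) (nat_lit 200))))))) (XT.nd (nat_lit 858) (nat_lit 0) (nat_lit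 0) (XT.nd (nat_lit 390) (nat_lit 0) (nat_lit 0) (XT.nd (nat_lit 156) (nat_lit 0) (nat_lit 0) (XT.nd (nat_lit 78) (nat_lit 0) (nat_lit 0) (XT.lf (nat_lit 0) (nat_lit 29532884857) (nat_lit 152) (nat_lit 49263894664) (nat_lit 0) (nat_lit 24493478658) (nat_lit 1) (nat_lit 5) (nat_lit 3) (nat_lit 4) (nat_lit 1) (nat_lit 4) (nat_lit 295) (nat_lit 226) (nat_lit 199)) (XT.lf (nat_lit 0) (nat_lit 33400385815) (nat_lit 152) (nat_lit 49682464089) (nat_lit 0) (nat_lit 28307561462) (nat_lit 1) (nat_lit 5) (nat_lit 3) (nat_lit 4) (nat_lit 1) (nat_lit 4) (nat_lit 296) (nat_lit 226) (nat_lit 198))) (XT.nd (nat_lit 78) (nat_lit 0) (nat_lit 0) (XT.lf (nat_lit 0) (nat_lit 37549000440) (nat_lit 152) (nat_lit 50185208059) (nat_lit 0) (nat_lit 32406714832) (nat_lit 1) (nat_lit 5) (nat_lit 3) (nat_lit 4) (nat_lit 1) (nat_lit 4) (nat_lit 297) (nat_lit 226) (nat_lit 197)) (XT.nd (nat_lit 78) (nat_lit 0) (nat_lit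 0) (XT.lf (nat_lit 0) (nat_lit 42003313114) (nat_lit 152) (nat_lit 50775105797) (nat_lit 0) (nat_lit 36815230049) (nat_lit 1) (nat_lit 5) (nat_lit 3) (nat_lit 4) (nat_lit 1) (nat_lit 4) (nat_lit 298) (nat_lit 226) (nat_lit 196)) (XT.lf (nat_lit 0) (nat_lit 46789719764) (nat_lit 152) (nat_lit 51455652995) (nat_lit 0) (nat_lit 41559231645) (nat_lit 1) (nat_lit 5) (nat_lit 3) (nat_lit 4) (nat_lit 1) (nat_lit 4) (nat_lit 299) (nat_lit 226) (nat_lit 195))))) (XT.nd (nat_lit 234) (nat_lit 0) (nat_lit 0) (XT.nd (nat_lit 78) (nat_lit 0) (nat_lit 0) (XT.lf (nat_lit 0) (nat_lit 51936584282) (nat_lit 152) (nat_lit 52230882523) (nat_lit 0) (nat_lit 46666832224) (nat_lit 1) (nat_lit 5) (nat_lit 3) (nat_lit 4) (nat_lit 1) (nat_lit 4) (nat_lit 300) (nat_lit 226) (nat_lit 194)) (XT.nd (nat_lit 78) (nat_lit 0) (nat_lit 0) (XT.lf (nat_lit 0) (nat_lit 57474406604) (nat_lit 152) (nat_lit 53105388336)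 (nat_lit 0) (nat_lit 52168299049) (nat_lit 1) (nat_lit 5) (nat_lit 3) (nat_lit 4) (nat_lit 1) (nat_lit 4) (nat_lit 301) (nat_lit 226) (nat_lit 193)) (XT.lf (nat_lit 0) (nat_lit 63436003457) (nat_lit 152) (nat_lit 54084352689) (nat_lit 0) (nat_lit 58096233403) (nat_lit 1) (nat_lit 5) (nat_lit 3) (nat_lit 4) (nat_lit 1) (nat_lit 4) (nat_lit 302) (nat_lit 226) (nat_lit 192)))) (XT.nd (nat_lit 78) (nat_lit 0) (nat_lit 0) (XT.lf (nat_lit 0) (nat_lit 69856702821) (nat_lit 152) (nat_lit 55173576853) (nat_lit 0) (nat_lit 64485763787) (nat_lit 1) (nat_lit 5) (nat_lit 3) (nat_lit 4) (nat_lit 1) (nat_lit 4) (nat_lit 303) (nat_lit 226) (nat_lit 191)) (XT.nd (nat_lit 78) (nat_lit 0) (nat_lit 0) (XT.lf (nat_lit 0) (nat_lit 76774553286) (nat_lit 152) (nat_lit 56379515490) (nat_lit 0) (nat_lit 71374754085) (nat_lit 1) (nat_lit 5) (nat_lit 3) (nat_lit 4) (nat_lit 1) (nat_lit 4) (nat_lit 304) (nat_lit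 226) (nat_lit 190)) (XT.lf (nat_lit 0) (nat_lit 84230549520) (nat_lit 152) (nat_lit 57709314902) (nat_lit 0) (nat_lit 78804027942) (nat_lit 1) (nat_lit 5) (nat_lit 3) (nat_lit 4) (nat_lit 1) (nat_lit 4) (nat_lit 305) (nat_lit 226) (nat_lit 189)))))) (XT.nd (nat_lit 468) (nat_lit 0) (nat_lit 0) (XT.nd (nat_lit 234) (nat_lit 0) (nat_lit 0) (XT.nd (nat_lit 78) (nat_lit 0) (nat_lit 0) (XT.lf (nat_lit 0) (nat_lit 92268875206) (nat_lit 152) (nat_lit 59170855382) (nat_lit 0) (nat_lit 86817610687) (nat_lit 1) (nat_lit 5) (nat_lit 3) (nat_lit 4) (nat_lit 1) (nat_lit 4) (nat_lit 306) (nat_lit 226) (nat_lit 188)) (XT.nd (nat_lit 78) (nat_lit 0) (nat_lit 0) (XT.lf (nat_lit 0) (nat_lit 100937164865) (nat_lit 152) (nat_lit 60772797912) (nat_lit 0) (nat_lit 95462990215) (nat_lit 1) (nat_lit 5) (nat_lit 3) (nat_lit 4) (nat_lit 1) (nat_lit 4) (nat_lit 307) (nat_lit 226) (nat_lit 187)) (XT.lf (nat_lit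 0) (nat_lit 110286786140) (nat_lit 152) (nat_lit 62524635483) (nat_lit 0) (nat_lit 104791398406) (nat_lit 1) (nat_lit 5) (nat_lit 3) (nat_lit 4) (nat_lit 1) (nat_lit 4) (nat_lit 308) (nat_lit 226) (nat_lit 186)))) (XT.nd (nat_lit 78) (nat_lit 0) (nat_lit 0) (XT.lf (nat_lit 0) (nat_lit 120373144194) (nat_lit 152) (nat_lit 64436749356) (nat_lit 0) (nat_lit 114858114716) (nat_lit 1) (nat_lit 5) (nat_lit 3) (nat_lit 4) (nat_lit 1) (nat_lit 4) (nat_lit 309) (nat_lit 226) (nat_lit 185)) (XT.nd (nat_lit 78) (nat_lit 0) (nat_lit 0) (XT.lf (nat_lit 0) (nat_lit 131256010039) (nat_lit 152) (nat_lit 66520470575) (nat_lit 0) (nat_lit 125722793759) (nat_lit 1) (nat_lit 5) (nat_lit 3) (nat_lit 4) (nat_lit 1) (nat_lit 4) (nat_lit 310) (nat_lit 226) (nat_lit 184)) (XT.lf (nat_lit 0) (nat_lit 142999874730) (nat_lit 152) (nat_lit 68788147119) (nat_lit 0) (nat_lit 137449818820) (nat_lit 1) (nat_lit 5)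 (nat_lit 3) (nat_lit 4) (nat_lit 1) (nat_lit 4) (nat_lit 311) (nat_lit 226) (nat_lit 183))))) (XT.nd (nat_lit 234) (nat_lit 0) (nat_lit 0) (XT.nd (nat_lit 78) (nat_lit 0) (nat_lit 0) (XT.lf (nat_lit 0) (nat_lit 155674331540) (nat_lit 152) (nat_lit 71253217070) (nat_lit 0) (nat_lit 150108683380) (nat_lit 1) (nat_lit 5) (nat_lit 3) (nat_lit 4) (nat_lit 1) (nat_lit 4) (nat_lit 312) (nat_lit 226) (nat_lit 182)) (XT.nd (nat_lit 78) (nat_lit 0) (nat_lit 0) (XT.lf (nat_lit 0) (nat_lit 169354488361) (nat_lit 152) (nat_lit 73930288250) (nat_lit 0) (nat_lit 163774402933) (nat_lit 1) (nat_lit 5) (nat_lit 3) (nat_lit 4) (nat_lit 1) (nat_lit 4) (nat_lit 313) (nat_lit 226) (nat_lit 181)) (XT.lf (nat_lit 0) (nat_lit 184121412790) (nat_lit 152) (nat_lit 76835224786) (nat_lit 0) (nat_lit 178527959520) (nat_lit 1) (nat_lit 5) (nat_lit 3) (nat_lit 4) (nat_lit 1) (nat_lit 4) (nat_lit 314) (nat_lit 226)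 (nat_lit 180)))) (XT.nd (nat_lit 78) (nat_lit 0) (nat_lit 0) (XT.lf (nat_lit 0) (nat_lit 200062612526) (nat_lit 152) (nat_lit 79985241115) (nat_lit 0) (nat_lit 194456781626) (nat_lit 1) (nat_lit 5) (nat_lit 3) (nat_lit 4) (nat_lit 1) (nat_lit 4) (nat_lit 315) (nat_lit 226) (nat_lit 179)) (XT.nd (nat_lit 78) (nat_lit 0) (nat_lit 0) (XT.lf (nat_lit 0) (nat_lit 217272553939) (nat_lit 152) (nat_lit 83399004001) (nat_lit 0) (nat_lit 211655262269) (nat_lit 1) (nat_lit 5) (nat_lit 3) (nat_lit 4) (nat_lit 1) (nat_lit 4) (nat_lit 316) (nat_lit 226) (nat_lit 178)) (XT.lf (nat_lit 0) (nat_lit 235853221865) (nat_lit 152) (nat_lit 87096743150) (nat_lit 0) (nat_lit 230225318372) (nat_lit 1) (nat_lit 5) (nat_lit 3) (nat_lit 4) (nat_lit 1) (nat_lit 4) (nat_lit 317) (nat_lit 226) (nat_lit 177))))))))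
noncomputable def xc26 : XT := (XT.nd (nat_lit 33852) (nat_lit 0) (nat_lit 0) (XT.nd (nat_lit 858) (nat_lit 0) (nat_lit 0) (XT.nd (nat_lit 390) (nat_lit 0) (nat_lit 0) (XT.nd (nat_lit 156) (nat_lit 0) (nat_lit 0) (XT.nd (nat_lit 78) (nat_lit 0) (nat_lit 0) (XT.lf (nat_lit 0) (nat_lit 255914723968) (nat_lit 152) (nat_lit 91100371090) (nat_lit 0) (nat_lit 250276994713) (nat_lit 1) (nat_lit 5) (nat_lit 3) (nat_lit 4) (nat_lit 1) (nat_lit 4) (nat_lit 318) (nat_lit 226) (nat_lit 176)) (XT.lf (nat_lit 0) (nat_lit 277575943223) (nat_lit 152) (nat_lit 95433613025) (nat_lit 0) (nat_lit 271929116039) (nat_lit 1) (nat_lit 5) (nat_lit 3) (nat_lit 4) (nat_lit 1) (nat_lit 4) (nat_lit 319) (nat_lit 226) (nat_lit 175))) (XT.nd (nat_lit 78) (nat_lit 0) (nat_lit 0) (XT.lf (nat_lit 0) (nat_lit 300965242409) (nat_lit 152) (nat_lit 100122147424) (nat_lit 0) (nat_lit 295309991218) (nat_lit 1) (nat_lit 5)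 (nat_lit 3) (nat_lit 4) (nat_lit 1) (nat_lit 4) (nat_lit 320) (nat_lit 226) (nat_lit 174)) (XT.nd (nat_lit 78) (nat_lit 0) (nat_lit 0) (XT.lf (nat_lit 0) (nat_lit 326221224783) (nat_lit 152) (nat_lit 105193758195) (nat_lit 0) (nat_lit 320558173584) (nat_lit 1) (nat_lit 5) (nat_lit 3) (nat_lit 4) (nat_lit 1) (nat_lit 4) (nat_lit 321) (nat_lit 226) (nat_lit 173)) (XT.lf (nat_lit 0) (nat_lit 353493555424) (nat_lit 152) (nat_lit 110678499329) (nat_lit 0) (nat_lit 347823281997) (nat_lit 1) (nat_lit 5) (nat_lit 3) (nat_lit 4) (nat_lit 1) (nat_lit 4) (nat_lit 322) (nat_lit 226) (nat_lit 172))))) (XT.nd (nat_lit 234) (nat_lit 0) (nat_lit 0) (XT.nd (nat_lit 78) (nat_lit 0) (nat_lit 0) (XT.lf (nat_lit 0) (nat_lit 382943848143) (nat_lit 152) (nat_lit 116608872994) (nat_lit 0) (nat_lit 377266887467) (nat_lit 1) (nat_lit 5) (nat_lit 3) (nat_lit 4) (nat_lit 1) (nat_lit 4) (nat_lit 323) (nat_lit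 226) (nat_lit 171)) (XT.nd (nat_lit 78) (nat_lit 0) (nat_lit 0) (XT.lf (nat_lit 0) (nat_lit 414746623195) (nat_lit 152) (nat_lit 123020022145) (nat_lit 0) (nat_lit 409063470622) (nat_lit 1) (nat_lit 5) (nat_lit 3) (nat_lit 4) (nat_lit 1) (nat_lit 4) (nat_lit 324) (nat_lit 226) (nat_lit 170)) (XT.lf (nat_lit 0) (nat_lit 449090341467) (nat_lit 152) (nat_lit 129949938779) (nat_lit 0) (nat_lit 443401455656) (nat_lit 1) (nat_lit 5) (nat_lit 3) (nat_lit 4) (nat_lit 1) (nat_lit 4) (nat_lit 325) (nat_lit 226) (nat_lit 169)))) (XT.nd (nat_lit 78) (nat_lit 0) (nat_lit 0) (XT.lf (nat_lit 0) (nat_lit 486178521292) (nat_lit 152) (nat_lit 137439689066) (nat_lit 0) (nat_lit 480484326927) (nat_lit 1) (nat_lit 5) (nat_lit 3) (nat_lit 4) (nat_lit 1) (nat_lit 4) (nat_lit 326) (nat_lit 226) (nat_lit 168)) (XT.nd (nat_lit 78) (nat_lit 0) (nat_lit 0) (XT.lf (nat_lit 0) (nat_lit 526230944473) (nat_lit 152)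 (nat_lit 145533656714) (nat_lit 0) (nat_lit 520531834781) (nat_lit 1) (nat_lit 5) (nat_lit 3) (nat_lit 4) (nat_lit 1) (nat_lit 4) (nat_lit 327) (nat_lit 226) (nat_lit 167)) (XT.lf (nat_lit 0) (nat_lit 569484958706) (nat_lit 152) (nat_lit 154279805974) (nat_lit 0) (nat_lit 563781297785) (nat_lit 1) (nat_lit 5) (nat_lit 3) (nat_lit 4) (nat_lit 1) (nat_lit 4) (nat_lit 328) (nat_lit 226) (nat_lit 166)))))) (XT.nd (nat_lit 468) (nat_lit 0) (nat_lit 0) (XT.nd (nat_lit 234) (nat_lit 0) (nat_lit 0) (XT.nd (nat_lit 78) (nat_lit 0) (nat_lit 0) (XT.lf (nat_lit 0) (nat_lit 616196884074) (nat_lit 152) (nat_lit 163729965879) (nat_lit 0) (nat_lit 610489009052) (nat_lit 1) (nat_lit 5) (nat_lit 3) (nat_lit 4) (nat_lit 1) (nat_lit 4) (nat_lit 329) (nat_lit 226) (nat_lit 165)) (XT.nd (nat_lit 78) (nat_lit 0) (nat_lit 0) (XT.lf (nat_lit 0) (nat_lit 666643531987) (nat_lit 152) (nat_lit 173940137376) (nat_lit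 0) (nat_lit 660931755019) (nat_lit 1) (nat_lit 5) (nat_lit 3) (nat_lit 4) (nat_lit 1) (nat_lit 4) (nat_lit 330) (nat_lit 226) (nat_lit 164)) (XT.lf (nat_lit 0) (nat_lit 721123845543) (nat_lit 152) (nat_lit 184970825187) (nat_lit 0) (nat_lit 715408455663) (nat_lit 1) (nat_lit 5) (nat_lit 3) (nat_lit 4) (nat_lit 1) (nat_lit 4) (nat_lit 331) (nat_lit 226) (nat_lit 163)))) (XT.nd (nat_lit 78) (nat_lit 0) (nat_lit 0) (XT.lf (nat_lit 0) (nat_lit 779960671045) (nat_lit 152) (nat_lit 196887396349) (nat_lit 0) (nat_lit 774241935876) (nat_lit 1) (nat_lit 5) (nat_lit 3) (nat_lit 4) (nat_lit 1) (nat_lit 4) (nat_lit 332) (nat_lit 226) (nat_lit 162)) (XT.nd (nat_lit 78) (nat_lit 0) (nat_lit 0) (XT.lf (nat_lit 0) (nat_lit 843502671163) (nat_lit 152) (nat_lit 209760467580) (nat_lit 0) (nat_lit 837780838504) (nat_lit 1) (nat_lit 5) (nat_lit 3) (nat_lit 4) (nat_lit 1) (nat_lit 4) (nat_lit 333) (nat_lit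 226) (nat_lit 161)) (XT.lf (nat_lit 0) (nat_lit 912126391083) (nat_lit 152) (nat_lit 223666323748) (nat_lit 0) (nat_lit 906401690377) (nat_lit 1) (nat_lit 5) (nat_lit 3) (nat_lit 4) (nat_lit 1) (nat_lit 4) (nat_lit 334) (nat_lit 226) (nat_lit 160))))) (XT.nd (nat_lit 32292) (nat_lit 0) (nat_lit 380) (XT.nd (nat_lit 32136) (nat_lit 0) (nat_lit 456) (XT.lf (nat_lit 0) (nat_lit 986238489885) (nat_lit 152) (nat_lit 238687369925) (nat_lit 0) (nat_lit 980511133580) (nat_lit 1) (nat_lit 5) (nat_lit 3) (nat_lit 4) (nat_lit 1) (nat_lit 4) (nat_lit 335) (nat_lit 226) (nat_lit 159)) (XT.nd (nat_lit 78) (nat_lit 152) (nat_lit 0) (XT.lf (nat_lit 0) (nat_lit 6274160302) (nat_lit 152) (nat_lit 347900460) (nat_lit 152) (nat_lit 347900460) (nat_lit 9) (nat_lit 4) (nat_lit 11) (nat_lit 5) (nat_lit 11) (nat_lit 4) (nat_lit 266) (nat_lit 227) (nat_lit 227)) (XT.lf (nat_lit 0) (nat_lit 2503266253) (nat_lit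 152) (nat_lit 10266488935) (nat_lit 0) (nat_lit 1965737691) (nat_lit 7) (nat_lit 5) (nat_lit 9) (nat_lit 4) (nat_lit 7) (nat_lit 4) (nat_lit 267) (nat_lit 227) (nat_lit 226)))) (XT.nd (nat_lit 78) (nat_lit 76) (nat_lit 0) (XT.lf (nat_lit 0) (nat_lit 5789827447) (nat_lit 152) (nat_lit 5060156966) (nat_lit 0) (nat_lit 4754587254) (nat_lit 7) (nat_lit 5) (nat_lit 9) (nat_lit 4) (nat_lit 7) (nat_lit 4) (nat_lit 268) (nat_lit 227) (nat_lit 225)) (XT.nd (nat_lit 78) (nat_lit 0) (nat_lit 0) (XT.lf (nat_lit 0) (nat_lit 291175128) (nat_lit 76) (nat_lit 8881113470) (nat_lit 76) (nat_lit 7385029174) (nat_lit 6) (nat_lit 4) (nat_lit 7) (nat_lit 5) (nat_lit 7) (nat_lit 4) (nat_lit 269) (nat_lit 227) (nat_lit 224)) (XT.lf (nat_lit 0) (nat_lit 6079559544) (nat_lit 76) (nat_lit 6716298124) (nat_lit 76) (nat_lit 4793506326) (nat_lit 6) (nat_lit 4) (nat_lit 7) (nat_lit 5) (nat_lit 7) (nat_lit 4) (nat_lit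 270) (nat_lit 227) (nat_lit 223))))))) (XT.nd (nat_lit 858) (nat_lit 152) (nat_lit 0) (XT.nd (nat_lit 390) (nat_lit 76) (nat_lit 0) (XT.nd (nat_lit 156) (nat_lit 76) (nat_lit 0) (XT.nd (nat_lit 78) (nat_lit 76) (nat_lit 0) (XT.lf (nat_lit 0) (nat_lit 12072838920) (nat_lit 76) (nat_lit 4481063500) (nat_lit 76) (nat_lit 2163172162) (nat_lit 6) (nat_lit 4) (nat_lit 7) (nat_lit 5) (nat_lit 7) (nat_lit 4) (nat_lit 271) (nat_lit 227) (nat_lit 222)) (XT.lf (nat_lit 0) (nat_lit 495469913) (nat_lit 152) (nat_lit 1653146823) (nat_lit 76) (nat_lit 17797512046) (nat_lit 5) (nat_lit 5) (nat_lit 7) (nat_lit 5) (nat_lit 6) (nat_lit 4) (nat_lit 272) (nat_lit 227) (nat_lit 221))) (XT.nd (nat_lit 78) (nat_lit 0) (nat_lit 0) (XT.lf (nat_lit 0) (nat_lit 3210512044) (nat_lit 152) (nat_lit 17650245030) (nat_lit 0) (nat_lit 411939435) (nat_lit 4) (nat_lit 5) (nat_lit 6) (nat_lit 4) (nat_lit 4) (nat_lit 4)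 (nat_lit 273) (nat_lit 227) (nat_lit 220)) (XT.nd (nat_lit 78) (nat_lit 0) (nat_lit 0) (XT.lf (nat_lit 0) (nat_lit 6110306925) (nat_lit 152) (nat_lit 13576845331) (nat_lit 0) (nat_lit 3021324359) (nat_lit 4) (nat_lit 5) (nat_lit 6) (nat_lit 4) (nat_lit 4) (nat_lit 4) (nat_lit 274) (nat_lit 227) (nat_lit 219)) (XT.lf (nat_lit 0) (nat_lit 9117425362) (nat_lit 152) (nat_lit 9392576431) (nat_lit 0) (nat_lit 5759544689) (nat_lit 4) (nat_lit 5) (nat_lit 6) (nat_lit 4) (nat_lit 4) (nat_lit 4) (nat_lit 275) (nat_lit 227) (nat_lit 218))))) (XT.nd (nat_lit 234) (nat_lit 0) (nat_lit 0) (XT.nd (nat_lit 78) (nat_lit 76) (nat_lit 0) (XT.lf (nat_lit 0) (nat_lit 12249687317) (nat_lit 152) (nat_lit 5072642661) (nat_lit 0) (nat_lit 8642826915) (nat_lit 4) (nat_lit 5) (nat_lit 6) (nat_lit 4) (nat_lit 4) (nat_lit 4) (nat_lit 276) (nat_lit 227) (nat_lit 217)) (XT.nd (nat_lit 78) (nat_lit 76) (nat_lit 0)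 (XT.lf (nat_lit 0) (nat_lit 15525654342) (nat_lit 152) (nat_lit 591444414) (nat_lit 0) (nat_lit 11688257153) (nat_lit 4) (nat_lit 5) (nat_lit 6) (nat_lit 4) (nat_lit 4) (nat_lit 4) (nat_lit 277) (nat_lit 227) (nat_lit 216)) (XT.lf (nat_lit 0) (nat_lit 4292291355) (nat_lit 76) (nat_lit 14775677931) (nat_lit 76) (nat_lit 10724820754) (nat_lit 3) (nat_lit 4) (nat_lit 4) (nat_lit 5) (nat_lit 4) (nat_lit 4) (nat_lit 278) (nat_lit 227) (nat_lit 215)))) (XT.nd (nat_lit 78) (nat_lit 0) (nat_lit 0) (XT.lf (nat_lit 0) (nat_lit 9434006735) (nat_lit 76) (nat_lit 13380204134) (nat_lit 76) (nat_lit 9131698821) (nat_lit 3) (nat_lit 4) (nat_lit 4) (nat_lit 5) (nat_lit 4) (nat_lit 4) (nat_lit 279) (nat_lit 227) (nat_lit 214)) (XT.nd (nat_lit 78) (nat_lit 0) (nat_lit 0) (XT.lf (nat_lit 0) (nat_lit 14833026735) (nat_lit 76) (nat_lit 11938579032) (nat_lit 76) (nat_lit 7507066185) (nat_lit 3) (nat_lit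 4) (nat_lit 4) (nat_lit 5) (nat_lit 4) (nat_lit 4) (nat_lit 280) (nat_lit 227) (nat_lit 213)) (XT.lf (nat_lit 0) (nat_lit 20521345549) (nat_lit 76) (nat_lit 10442259661) (nat_lit 76) (nat_lit 5841295393) (nat_lit 3) (nat_lit 4) (nat_lit 4) (nat_lit 5) (nat_lit 4) (nat_lit 4) (nat_lit 281) (nat_lit 227) (nat_lit 212)))))) (XT.nd (nat_lit 468) (nat_lit 0) (nat_lit 0) (XT.nd (nat_lit 234) (nat_lit 152) (nat_lit 0) (XT.nd (nat_lit 78) (nat_lit 0) (nat_lit 0) (XT.lf (nat_lit 0) (nat_lit 26532671730) (nat_lit 76) (nat_lit 8882378942) (nat_lit 76) (nat_lit 4124515211) (nat_lit 3) (nat_lit 4) (nat_lit 4) (nat_lit 5) (nat_lit 4) (nat_lit 4) (nat_lit 282) (nat_lit 227) (nat_lit 211)) (XT.nd (nat_lit 78) (nat_lit 0) (nat_lit 0) (XT.lf (nat_lit 0) (nat_lit 32902627955) (nat_lit 76) (nat_lit 7249693139) (nat_lit 76) (nat_lit 2346552128) (nat_lit 3) (nat_lit 4) (nat_lit 4) (nat_lit 5) (nat_lit 4)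 (nat_lit 4) (nat_lit 283) (nat_lit 227) (nat_lit 210)) (XT.lf (nat_lit 0) (nat_lit 39668962110) (nat_lit 76) (nat_lit 5534527076) (nat_lit 76) (nat_lit 496870064) (nat_lit 3) (nat_lit 4) (nat_lit 4) (nat_lit 5) (nat_lit 4) (nat_lit 4) (nat_lit 284) (nat_lit 227) (nat_lit 209)))) (XT.nd (nat_lit 78) (nat_lit 76) (nat_lit 0) (XT.lf (nat_lit 0) (nat_lit 1363682931) (nat_lit 152) (nat_lit 2325748366) (nat_lit 76) (nat_lit 45470802552) (nat_lit 2) (nat_lit 5) (nat_lit 4) (nat_lit 5) (nat_lit 3) (nat_lit 4) (nat_lit 285) (nat_lit 227) (nat_lit 208)) (XT.nd (nat_lit 78) (nat_lit 0) (nat_lit 0) (XT.lf (nat_lit 0) (nat_lit 1645489093) (nat_lit 76) (nat_lit 1682887707) (nat_lit 152) (nat_lit 49569098424) (nat_lit 1) (nat_lit 5) (nat_lit 2) (nat_lit 5) (nat_lit 3) (nat_lit 4) (nat_lit 286) (nat_lit 227) (nat_lit 207)) (XT.lf (nat_lit 0) (nat_lit 5470587813) (nat_lit 152) (nat_lit 50976539527)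 (nat_lit 0) (nat_lit 485108376) (nat_lit 1) (nat_lit 5) (nat_lit 3) (nat_lit 4) (nat_lit 1) (nat_lit 4) (nat_lit 287) (nat_lit 227) (nat_lit 206))))) (XT.nd (nat_lit 234) (nat_lit 0) (nat_lit 0) (XT.nd (nat_lit 78) (nat_lit 0) (nat_lit 0) (XT.lf (nat_lit 0) (nat_lit 7775530903) (nat_lit 152) (nat_lit 50816590348) (nat_lit 0) (nat_lit 2698502137) (nat_lit 1) (nat_lit 5) (nat_lit 3) (nat_lit 4) (nat_lit 1) (nat_lit 4) (nat_lit 288) (nat_lit 227) (nat_lit 205)) (XT.nd (nat_lit 78) (nat_lit 0) (nat_lit 0) (XT.lf (nat_lit 0) (nat_lit 10216391504) (nat_lit 152) (nat_lit 50730717258) (nat_lit 0) (nat_lit 5054594839) (nat_lit 1) (nat_lit 5) (nat_lit 3) (nat_lit 4) (nat_lit 1) (nat_lit 4) (nat_lit 289) (nat_lit 227) (nat_lit 204)) (XT.lf (nat_lit 0) (nat_lit 12807633975) (nat_lit 152) (nat_lit 50718411379) (nat_lit 0) (nat_lit 7567348515) (nat_lit 1) (nat_lit 5) (nat_lit 3) (nat_lit 4) (nat_lit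 1) (nat_lit 4) (nat_lit 290) (nat_lit 227) (nat_lit 203)))) (XT.nd (nat_lit 78) (nat_lit 0) (nat_lit 0) (XT.lf (nat_lit 0) (nat_lit 15564613825) (nat_lit 152) (nat_lit 50779599787) (nat_lit 0) (nat_lit 10251653557) (nat_lit 1) (nat_lit 5) (nat_lit 3) (nat_lit 4) (nat_lit 1) (nat_lit 4) (nat_lit 291) (nat_lit 227) (nat_lit 202)) (XT.nd (nat_lit 78) (nat_lit 0) (nat_lit 0) (XT.lf (nat_lit 0) (nat_lit 18503668715) (nat_lit 152) (nat_lit 50914645080) (nat_lit 0) (nat_lit 13123416956) (nat_lit 1) (nat_lit 5) (nat_lit 3) (nat_lit 4) (nat_lit 1) (nat_lit 4) (nat_lit 292) (nat_lit 227) (nat_lit 201)) (XT.lf (nat_lit 0) (nat_lit 21642215265) (nat_lit 152) (nat_lit 51124347527) (nat_lit 0) (nat_lit 16199656570) (nat_lit 1) (nat_lit 5) (nat_lit 3) (nat_lit 4) (nat_lit 1) (nat_lit 4) (nat_lit 293) (nat_lit 227) (nat_lit 200))))))))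
noncomputable def xc27 : XT := (XT.nd (nat_lit 1794) (nat_lit 0) (nat_lit 0) (XT.nd (nat_lit 858) (nat_lit 0) (nat_lit 0) (XT.nd (nat_lit 390) (nat_lit 0) (nat_lit 0) (XT.nd (nat_lit 156) (nat_lit 0) (nat_lit 0) (XT.nd (nat_lit 78) (nat_lit 0) (nat_lit 0) (XT.lf (nat_lit 0) (nat_lit 24998852270) (nat_lit 152) (nat_lit 51409949810) (nat_lit 0) (nat_lit 19498601968) (nat_lit 1) (nat_lit 5) (nat_lit 3) (nat_lit 4) (nat_lit 1) (nat_lit 4) (nat_lit 294) (nat_lit 227) (nat_lit 199)) (XT.lf (nat_lit 0) (nat_lit 28593470912) (nat_lit 152) (nat_lit 51773144385) (nat_lit 0) (nat_lit 23039802456) (nat_lit 1) (nat_lit 5) (nat_lit 3) (nat_lit 4) (nat_lit 1) (nat_lit 4) (nat_lit 295) (nat_lit 227) (nat_lit 198))) (XT.nd (nat_lit 78) (nat_lit 0) (nat_lit 0) (XT.lf (nat_lit 0) (nat_lit 32447372635) (nat_lit 152) (nat_lit 52216083517) (nat_lit 0) (nat_lit 26844242924) (nat_lit 1) (nat_lit 5) (nat_lit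 3) (nat_lit 4) (nat_lit 1) (nat_lit 4) (nat_lit 296) (nat_lit 227) (nat_lit 197)) (XT.nd (nat_lit 78) (nat_lit 0) (nat_lit 0) (XT.lf (nat_lit 0) (nat_lit 36583395374) (nat_lit 152) (nat_lit 52741392031) (nat_lit 0) (nat_lit 30934468206) (nat_lit 1) (nat_lit 5) (nat_lit 3) (nat_lit 4) (nat_lit 1) (nat_lit 4) (nat_lit 297) (nat_lit 227) (nat_lit 196)) (XT.lf (nat_lit 0) (nat_lit 41026048896) (nat_lit 152) (nat_lit 53352182865) (nat_lit 0) (nat_lit 35334716674) (nat_lit 1) (nat_lit 5) (nat_lit 3) (nat_lit 4) (nat_lit 1) (nat_lit 4) (nat_lit 298) (nat_lit 227) (nat_lit 195))))) (XT.nd (nat_lit 234) (nat_lit 0) (nat_lit 0) (XT.nd (nat_lit 78) (nat_lit 0) (nat_lit 0) (XT.lf (nat_lit 0) (nat_lit 45801660034) (nat_lit 152) (nat_lit 54052075522) (nat_lit 0) (nat_lit 40071063874) (nat_lit 1) (nat_lit 5) (nat_lit 3) (nat_lit 4) (nat_lit 1) (nat_lit 4) (nat_lit 299) (nat_lit 227) (nat_lit 194))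 (XT.nd (nat_lit 78) (nat_lit 0) (nat_lit 0) (XT.lf (nat_lit 0) (nat_lit 50938528707) (nat_lit 152) (nat_lit 54845217513) (nat_lit 0) (nat_lit 45171577049) (nat_lit 1) (nat_lit 5) (nat_lit 3) (nat_lit 4) (nat_lit 1) (nat_lit 4) (nat_lit 300) (nat_lit 227) (nat_lit 193)) (XT.lf (nat_lit 0) (nat_lit 56467095618) (nat_lit 152) (nat_lit 55736308939) (nat_lit 0) (nat_lit 50666481461) (nat_lit 1) (nat_lit 5) (nat_lit 3) (nat_lit 4) (nat_lit 1) (nat_lit 4) (nat_lit 301) (nat_lit 227) (nat_lit 192)))) (XT.nd (nat_lit 78) (nat_lit 0) (nat_lit 0) (XT.lf (nat_lit 0) (nat_lit 62420122646) (nat_lit 152) (nat_lit 56730630341) (nat_lit 0) (nat_lit 56588339509) (nat_lit 1) (nat_lit 5) (nat_lit 3) (nat_lit 4) (nat_lit 1) (nat_lit 4) (nat_lit 302) (nat_lit 227) (nat_lit 191)) (XT.nd (nat_lit 78) (nat_lit 0) (nat_lit 0) (XT.lf (nat_lit 0) (nat_lit 68832886987) (nat_lit 152) (nat_lit 57834073996) (nat_lit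 0) (nat_lit 62972243683) (nat_lit 1) (nat_lit 5) (nat_lit 3) (nat_lit 4) (nat_lit 1) (nat_lit 4) (nat_lit 303) (nat_lit 227) (nat_lit 190)) (XT.lf (nat_lit 0) (nat_lit 75743390207) (nat_lit 152) (nat_lit 59053178827) (nat_lit 0) (nat_lit 69856024527) (nat_lit 1) (nat_lit 5) (nat_lit 3) (nat_lit 4) (nat_lit 1) (nat_lit 4) (nat_lit 304) (nat_lit 227) (nat_lit 189)))))) (XT.nd (nat_lit 468) (nat_lit 0) (nat_lit 0) (XT.nd (nat_lit 234) (nat_lit 0) (nat_lit 0) (XT.nd (nat_lit 78) (nat_lit 0) (nat_lit 0) (XT.lf (nat_lit 0) (nat_lit 83192583438) (nat_lit 152) (nat_lit 60395169160) (nat_lit 0) (nat_lit 77280474816) (nat_lit 1) (nat_lit 5) (nat_lit 3) (nat_lit 4) (nat_lit 1) (nat_lit 4) (nat_lit 305) (nat_lit 227) (nat_lit 188)) (XT.nd (nat_lit 78) (nat_lit 0) (nat_lit 0) (XT.lf (nat_lit 0) (nat_lit 91224610046) (nat_lit 152) (nat_lit 61867997530) (nat_lit 0) (nat_lit 85289591293) (nat_lit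 1) (nat_lit 5) (nat_lit 3) (nat_lit 4) (nat_lit 1) (nat_lit 4) (nat_lit 306) (nat_lit 227) (nat_lit 187)) (XT.lf (nat_lit 0) (nat_lit 99887067226) (nat_lit 152) (nat_lit 63480391809) (nat_lit 0) (nat_lit 93930835389) (nat_lit 1) (nat_lit 5) (nat_lit 3) (nat_lit 4) (nat_lit 1) (nat_lit 4) (nat_lit 307) (nat_lit 227) (nat_lit 186)))) (XT.nd (nat_lit 78) (nat_lit 0) (nat_lit 0) (XT.lf (nat_lit 0) (nat_lit 109231288057) (nat_lit 152) (nat_lit 65241906926) (nat_lit 0) (nat_lit 103255414476) (nat_lit 1) (nat_lit 5) (nat_lit 3) (nat_lit 4) (nat_lit 1) (nat_lit 4) (nat_lit 308) (nat_lit 227) (nat_lit 185)) (XT.nd (nat_lit 78) (nat_lit 0) (nat_lit 0) (XT.lf (nat_lit 0) (nat_lit 119312645701) (nat_lit 152) (nat_lit 67162981490) (nat_lit 0) (nat_lit 113318585319) (nat_lit 1) (nat_lit 5) (nat_lit 3) (nat_lit 4) (nat_lit 1) (nat_lit 4) (nat_lit 309) (nat_lit 227) (nat_lit 184)) (XT.lf (nat_lit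 0) (nat_lit 130190881535) (nat_lit 152) (nat_lit 69254999645) (nat_lit 0) (nat_lit 124179981523) (nat_lit 1) (nat_lit 5) (nat_lit 3) (nat_lit 4) (nat_lit 1) (nat_lit 4) (nat_lit 310) (nat_lit 227) (nat_lit 183))))) (XT.nd (nat_lit 234) (nat_lit 0) (nat_lit 0) (XT.nd (nat_lit 78) (nat_lit 0) (nat_lit 0) (XT.lf (nat_lit 0) (nat_lit 141930459180) (nat_lit 152) (nat_lit 71530358537) (nat_lit 0) (nat_lit 135903966918) (nat_lit 1) (nat_lit 5) (nat_lit 3) (nat_lit 4) (nat_lit 1) (nat_lit 4) (nat_lit 311) (nat_lit 227) (nat_lit 182)) (XT.nd (nat_lit 78) (nat_lit 0) (nat_lit 0) (XT.lf (nat_lit 0) (nat_lit 154600946503) (nat_lit 152) (nat_lit 74002541773) (nat_lit 0) (nat_lit 148560016972) (nat_lit 1) (nat_lit 5) (nat_lit 3) (nat_lit 4) (nat_lit 1) (nat_lit 4) (nat_lit 312) (nat_lit 227) (nat_lit 181)) (XT.lf (nat_lit 0) (nat_lit 168277427873) (nat_lit 152) (nat_lit 76686199329) (nat_lit 0)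 (nat_lit 162223130501) (nat_lit 1) (nat_lit 5) (nat_lit 3) (nat_lit 4) (nat_lit 1) (nat_lit 4) (nat_lit 313) (nat_lit 227) (nat_lit 180)))) (XT.nd (nat_lit 78) (nat_lit 0) (nat_lit 0) (XT.lf (nat_lit 0) (nat_lit 183040949106) (nat_lit 152) (nat_lit 79597234360) (nat_lit 0) (nat_lit 176974274103) (nat_lit 1) (nat_lit 5) (nat_lit 3) (nat_lit 4) (nat_lit 1) (nat_lit 4) (nat_lit 314) (nat_lit 227) (nat_lit 179)) (XT.nd (nat_lit 78) (nat_lit 0) (nat_lit 0) (XT.lf (nat_lit 0) (nat_lit 198978997735) (nat_lit 152) (nat_lit 82752897444) (nat_lit 0) (nat_lit 192900861963) (nat_lit 1) (nat_lit 5) (nat_lit 3) (nat_lit 4) (nat_lit 1) (nat_lit 4) (nat_lit 315) (nat_lit 227) (nat_lit 178)) (XT.lf (nat_lit 0) (nat_lit 216186021456) (nat_lit 152) (nat_lit 86171888807) (nat_lit 0) (nat_lit 210097273860) (nat_lit 1) (nat_lit 5) (nat_lit 3) (nat_lit 4) (nat_lit 1) (nat_lit 4) (nat_lit 316) (nat_lit 227)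 (nat_lit 177))))))) (XT.nd (nat_lit 858) (nat_lit 0) (nat_lit 0) (XT.nd (nat_lit 390) (nat_lit 0) (nat_lit 0) (XT.nd (nat_lit 156) (nat_lit 0) (nat_lit 0) (XT.nd (nat_lit 78) (nat_lit 0) (nat_lit 0) (XT.lf (nat_lit 0) (nat_lit 234763987817) (nat_lit 152) (nat_lit 89874469139) (nat_lit 0) (nat_lit 228665414458) (nat_lit 1) (nat_lit 5) (nat_lit 3) (nat_lit 4) (nat_lit 1) (nat_lit 4) (nat_lit 317) (nat_lit 227) (nat_lit 176)) (XT.lf (nat_lit 0) (nat_lit 254822988469) (nat_lit 152) (nat_lit 93882579655) (nat_lit 0) (nat_lit 248715317182) (nat_lit 1) (nat_lit 5) (nat_lit 3) (nat_lit 4) (nat_lit 1) (nat_lit 4) (nat_lit 318) (nat_lit 227) (nat_lit 175))) (XT.nd (nat_lit 78) (nat_lit 0) (nat_lit 0) (XT.lf (nat_lit 0) (nat_lit 276481891566) (nat_lit 152) (nat_lit 98219972124) (nat_lit 0) (nat_lit 270365796271) (nat_lit 1) (nat_lit 5) (nat_lit 3) (nat_lit 4) (nat_lit 1) (nat_lit 4) (nat_lit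 319) (nat_lit 227) (nat_lit 174)) (XT.nd (nat_lit 78) (nat_lit 0) (nat_lit 0) (XT.lf (nat_lit 0) (nat_lit 299869046162) (nat_lit 152) (nat_lit 102912349609) (nat_lit 0) (nat_lit 293745150861) (nat_lit 1) (nat_lit 5) (nat_lit 3) (nat_lit 4) (nat_lit 1) (nat_lit 4) (nat_lit 320) (nat_lit 227) (nat_lit 173)) (XT.lf (nat_lit 0) (nat_lit 325123042804) (nat_lit 152) (nat_lit 107987518794) (nat_lit 0) (nat_lit 318991925274) (nat_lit 1) (nat_lit 5) (nat_lit 3) (nat_lit 4) (nat_lit 1) (nat_lit 4) (nat_lit 321) (nat_lit 227) (nat_lit 172))))) (XT.nd (nat_lit 234) (nat_lit 0) (nat_lit 0) (XT.nd (nat_lit 78) (nat_lit 0) (nat_lit 0) (XT.lf (nat_lit 0) (nat_lit 352393534804) (nat_lit 152) (nat_lit 113475554755) (nat_lit 0) (nat_lit 346255730025) (nat_lit 1) (nat_lit 5) (nat_lit 3) (nat_lit 4) (nat_lit 1) (nat_lit 4) (nat_lit 322) (nat_lit 227) (nat_lit 171)) (XT.nd (nat_lit 78) (nat_lit 0) (nat_lit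 0) (XT.lf (nat_lit 0) (nat_lit 381842125078) (nat_lit 152) (nat_lit 119408979186) (nat_lit 0) (nat_lit 375698128403) (nat_lit 1) (nat_lit 5) (nat_lit 3) (nat_lit 4) (nat_lit 1) (nat_lit 4) (nat_lit 323) (nat_lit 227) (nat_lit 170)) (XT.lf (nat_lit 0) (nat_lit 413643323792) (nat_lit 152) (nat_lit 125822953121) (nat_lit 0) (nat_lit 407493593878) (nat_lit 1) (nat_lit 5) (nat_lit 3) (nat_lit 4) (nat_lit 1) (nat_lit 4) (nat_lit 324) (nat_lit 227) (nat_lit 169)))) (XT.nd (nat_lit 78) (nat_lit 0) (nat_lit 0) (XT.lf (nat_lit 0) (nat_lit 447985582492) (nat_lit 152) (nat_lit 132755485295) (nat_lit 0) (nat_lit 441830544025) (nat_lit 1) (nat_lit 5) (nat_lit 3) (nat_lit 4) (nat_lit 1) (nat_lit 4) (nat_lit 325) (nat_lit 227) (nat_lit 168)) (XT.nd (nat_lit 78) (nat_lit 0) (nat_lit 0) (XT.lf (nat_lit 0) (nat_lit 485072410860) (nat_lit 152) (nat_lit 140247657379) (nat_lit 0) (nat_lit 478912457065)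 (nat_lit 1) (nat_lit 5) (nat_lit 3) (nat_lit 4) (nat_lit 1) (nat_lit 4) (nat_lit 326) (nat_lit 227) (nat_lit 167)) (XT.lf (nat_lit 0) (nat_lit 525123582694) (nat_lit 152) (nat_lit 148343867431) (nat_lit 0) (nat_lit 518959077670) (nat_lit 1) (nat_lit 5) (nat_lit 3) (nat_lit 4) (nat_lit 1) (nat_lit 4) (nat_lit 327) (nat_lit 227) (nat_lit 166)))))) (XT.nd (nat_lit 468) (nat_lit 0) (nat_lit 0) (XT.nd (nat_lit 234) (nat_lit 0) (nat_lit 0) (XT.nd (nat_lit 78) (nat_lit 0) (nat_lit 0) (XT.lf (nat_lit 0) (nat_lit 568376438272) (nat_lit 152) (nat_lit 157092092991) (nat_lit 0) (nat_lit 562207719146) (nat_lit 1) (nat_lit 5) (nat_lit 3) (nat_lit 4) (nat_lit 1) (nat_lit 4) (nat_lit 328) (nat_lit 227) (nat_lit 165)) (XT.nd (nat_lit 78) (nat_lit 0) (nat_lit 0) (XT.lf (nat_lit 0) (nat_lit 615087290811) (nat_lit 152) (nat_lit 166544175396) (nat_lit 0) (nat_lit 608914669740) (nat_lit 1) (nat_lit 5) (nat_lit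 3) (nat_lit 4) (nat_lit 1) (nat_lit 4) (nat_lit 329) (nat_lit 227) (nat_lit 164)) (XT.lf (nat_lit 0) (nat_lit 665532945363) (nat_lit 152) (nat_lit 176756126986) (nat_lit 0) (nat_lit 659356711380) (nat_lit 1) (nat_lit 5) (nat_lit 3) (nat_lit 4) (nat_lit 1) (nat_lit 4) (nat_lit 330) (nat_lit 227) (nat_lit 163)))) (XT.nd (nat_lit 78) (nat_lit 0) (nat_lit 0) (XT.lf (nat_lit 0) (nat_lit 720012339141) (nat_lit 152) (nat_lit 187788463031) (nat_lit 0) (nat_lit 713832759868) (nat_lit 1) (nat_lit 5) (nat_lit 3) (nat_lit 4) (nat_lit 1) (nat_lit 4) (nat_lit 331) (nat_lit 227) (nat_lit 162)) (XT.nd (nat_lit 78) (nat_lit 0) (nat_lit 0) (XT.lf (nat_lit 0) (nat_lit 778848312997) (nat_lit 152) (nat_lit 199706560335) (nat_lit 0) (nat_lit 772665636234) (nat_lit 1) (nat_lit 5) (nat_lit 3) (nat_lit 4) (nat_lit 1) (nat_lit 4) (nat_lit 332) (nat_lit 227) (nat_lit 161)) (XT.lf (nat_lit 0) (nat_lit 842389524553)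 (nat_lit 152) (nat_lit 212581044662) (nat_lit 0) (nat_lit 836203979744) (nat_lit 1) (nat_lit 5) (nat_lit 3) (nat_lit 4) (nat_lit 1) (nat_lit 4) (nat_lit 333) (nat_lit 227) (nat_lit 160))))) (XT.nd (nat_lit 32136) (nat_lit 0) (nat_lit 456) (XT.nd (nat_lit 78) (nat_lit 0) (nat_lit 0) (XT.lf (nat_lit 0) (nat_lit 911012514324) (nat_lit 152) (nat_lit 226488209251) (nat_lit 0) (nat_lit 904824313916) (nat_lit 1) (nat_lit 5) (nat_lit 3) (nat_lit 4) (nat_lit 1) (nat_lit 4) (nat_lit 334) (nat_lit 227) (nat_lit 159)) (XT.nd (nat_lit 31980) (nat_lit 0) (nat_lit 608) (XT.lf (nat_lit 0) (nat_lit 985123937061) (nat_lit 152) (nat_lit 241510466929) (nat_lit 0) (nat_lit 978933277766) (nat_lit 1) (nat_lit 5) (nat_lit 3) (nat_lit 4) (nat_lit 1) (nat_lit 4) (nat_lit 335) (nat_lit 227) (nat_lit 158)) (XT.lf (nat_lit 0) (nat_lit 93404853) (nat_lit 152) (nat_lit 3084835431) (nat_lit 152) (nat_lit 3084835431)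 (nat_lit 9) (nat_lit 4) (nat_lit 11) (nat_lit 5) (nat_lit 11) (nat_lit 4) (nat_lit 264) (nat_lit 228) (nat_lit 228)))) (XT.nd (nat_lit 78) (nat_lit 152) (nat_lit 0) (XT.lf (nat_lit 0) (nat_lit 6202885799) (nat_lit 152) (nat_lit 3812982108) (nat_lit 152) (nat_lit 3186008794) (nat_lit 9) (nat_lit 4) (nat_lit 11) (nat_lit 5) (nat_lit 11) (nat_lit 4) (nat_lit 265) (nat_lit 228) (nat_lit 227)) (XT.nd (nat_lit 78) (nat_lit 152) (nat_lit 0) (XT.lf (nat_lit 0) (nat_lit 12407647108) (nat_lit 152) (nat_lit 1373714958) (nat_lit 152) (nat_lit 166210797) (nat_lit 9) (nat_lit 4) (nat_lit 11) (nat_lit 5) (nat_lit 11) (nat_lit 4) (nat_lit 266) (nat_lit 228) (nat_lit 226)) (XT.lf (nat_lit 0) (nat_lit 2895847175) (nat_lit 152) (nat_lit 10575446900) (nat_lit 0) (nat_lit 1280076135) (nat_lit 7) (nat_lit 5) (nat_lit 9) (nat_lit 4) (nat_lit 7) (nat_lit 4) (nat_lit 267) (nat_lit 228) (nat_lit 225))))))))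
noncomputable def xc28 : XT := (XT.nd (nat_lit 1794) (nat_lit 0) (nat_lit 0) (XT.nd (nat_lit 858) (nat_lit 152) (nat_lit 0) (XT.nd (nat_lit 390) (nat_lit 152) (nat_lit 0) (XT.nd (nat_lit 156) (nat_lit 152) (nat_lit 0) (XT.nd (nat_lit 78) (nat_lit 0) (nat_lit 0) (XT.lf (nat_lit 0) (nat_lit 6098741202) (nat_lit 152) (nat_lit 5506649639) (nat_lit 0) (nat_lit 4022126059) (nat_lit 7) (nat_lit 5) (nat_lit 9) (nat_lit 4) (nat_lit 7) (nat_lit 4) (nat_lit 268) (nat_lit 228) (nat_lit 224)) (XT.lf (nat_lit 0) (nat_lit 9396729984) (nat_lit 152) (nat_lit 297230254) (nat_lit 0) (nat_lit 6893407339) (nat_lit 7) (nat_lit 5) (nat_lit 9) (nat_lit 4) (nat_lit 7) (nat_lit 4) (nat_lit 269) (nat_lit 228) (nat_lit 223))) (XT.nd (nat_lit 78) (nat_lit 76) (nat_lit 0) (XT.lf (nat_lit 0) (nat_lit 5351379565) (nat_lit 76) (nat_lit 7586678402) (nat_lit 76) (nat_lit 4688256217) (nat_lit 6) (nat_lit 4) (nat_lit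 7) (nat_lit 5) (nat_lit 7) (nat_lit 4) (nat_lit 270) (nat_lit 228) (nat_lit 222)) (XT.nd (nat_lit 78) (nat_lit 76) (nat_lit 0) (XT.lf (nat_lit 0) (nat_lit 11229730258) (nat_lit 76) (nat_lit 5397190728) (nat_lit 76) (nat_lit 2132935637) (nat_lit 6) (nat_lit 4) (nat_lit 7) (nat_lit 5) (nat_lit 7) (nat_lit 4) (nat_lit 271) (nat_lit 228) (nat_lit 221)) (XT.lf (nat_lit 0) (nat_lit 458211386) (nat_lit 152) (nat_lit 2649909581) (nat_lit 76) (nat_lit 16886265179) (nat_lit 5) (nat_lit 5) (nat_lit 7) (nat_lit 5) (nat_lit 6) (nat_lit 4) (nat_lit 272) (nat_lit 228) (nat_lit 220))))) (XT.nd (nat_lit 234) (nat_lit 76) (nat_lit 0) (XT.nd (nat_lit 78) (nat_lit 0) (nat_lit 0) (XT.lf (nat_lit 0) (nat_lit 2477107728) (nat_lit 76) (nat_lit 596805610) (nat_lit 152) (nat_lit 18255223763) (nat_lit 4) (nat_lit 5) (nat_lit 5) (nat_lit 5) (nat_lit 6) (nat_lit 4) (nat_lit 273) (nat_lit 228) (nat_lit 219)) (XT.nd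 (nat_lit 78) (nat_lit 0) (nat_lit 0) (XT.lf (nat_lit 0) (nat_lit 5899422322) (nat_lit 152) (nat_lit 14867643204) (nat_lit 0) (nat_lit 2004013087) (nat_lit 4) (nat_lit 5) (nat_lit 6) (nat_lit 4) (nat_lit 4) (nat_lit 4) (nat_lit 274) (nat_lit 228) (nat_lit 218)) (XT.lf (nat_lit 0) (nat_lit 8851047510) (nat_lit 152) (nat_lit 10779084228) (nat_lit 0) (nat_lit 4706658546) (nat_lit 4) (nat_lit 5) (nat_lit 6) (nat_lit 4) (nat_lit 4) (nat_lit 4) (nat_lit 275) (nat_lit 228) (nat_lit 217)))) (XT.nd (nat_lit 78) (nat_lit 76) (nat_lit 0) (XT.lf (nat_lit 0) (nat_lit 11931926828) (nat_lit 152) (nat_lit 6547770759) (nat_lit 0) (nat_lit 7557001077) (nat_lit 4) (nat_lit 5) (nat_lit 6) (nat_lit 4) (nat_lit 4) (nat_lit 4) (nat_lit 276) (nat_lit 228) (nat_lit 216)) (XT.nd (nat_lit 78) (nat_lit 76) (nat_lit 0) (XT.lf (nat_lit 0) (nat_lit 15160317337) (nat_lit 152) (nat_lit 2148628346) (nat_lit 0) (nat_lit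 10571931598) (nat_lit 4) (nat_lit 5) (nat_lit 6) (nat_lit 4) (nat_lit 4) (nat_lit 4) (nat_lit 277) (nat_lit 228) (nat_lit 215)) (XT.lf (nat_lit 0) (nat_lit 2573130406) (nat_lit 76) (nat_lit 16044103681) (nat_lit 76) (nat_lit 11258069806) (nat_lit 3) (nat_lit 4) (nat_lit 4) (nat_lit 5) (nat_lit 4) (nat_lit 4) (nat_lit 278) (nat_lit 228) (nat_lit 214)))))) (XT.nd (nat_lit 468) (nat_lit 152) (nat_lit 0) (XT.nd (nat_lit 234) (nat_lit 0) (nat_lit 0) (XT.nd (nat_lit 78) (nat_lit 0) (nat_lit 0) (XT.lf (nat_lit 0) (nat_lit 7640791647) (nat_lit 76) (nat_lit 14680113826) (nat_lit 76) (nat_lit 9711072417) (nat_lit 3) (nat_lit 4) (nat_lit 4) (nat_lit 5) (nat_lit 4) (nat_lit 4) (nat_lit 279) (nat_lit 228) (nat_lit 213)) (XT.nd (nat_lit 78) (nat_lit 0) (nat_lit 0) (XT.lf (nat_lit 0) (nat_lit 12971243000) (nat_lit 76) (nat_lit 13267640521) (nat_lit 76) (nat_lit 8129147692) (nat_lit 3) (nat_lit 4)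 (nat_lit 4) (nat_lit 5) (nat_lit 4) (nat_lit 4) (nat_lit 280) (nat_lit 228) (nat_lit 212)) (XT.lf (nat_lit 0) (nat_lit 18596072324) (nat_lit 76) (nat_lit 11798313555) (nat_lit 76) (nat_lit 6502921263) (nat_lit 3) (nat_lit 4) (nat_lit 4) (nat_lit 5) (nat_lit 4) (nat_lit 4) (nat_lit 281) (nat_lit 228) (nat_lit 211)))) (XT.nd (nat_lit 78) (nat_lit 0) (nat_lit 0) (XT.lf (nat_lit 0) (nat_lit 24548611943) (nat_lit 76) (nat_lit 10263425804) (nat_lit 76) (nat_lit 4822756231) (nat_lit 3) (nat_lit 4) (nat_lit 4) (nat_lit 5) (nat_lit 4) (nat_lit 4) (nat_lit 282) (nat_lit 228) (nat_lit 210)) (XT.nd (nat_lit 78) (nat_lit 0) (nat_lit 0) (XT.lf (nat_lit 0) (nat_lit 30864136163) (nat_lit 76) (nat_lit 8653881638) (nat_lit 76) (nat_lit 3078696064) (nat_lit 3) (nat_lit 4) (nat_lit 4) (nat_lit 5) (nat_lit 4) (nat_lit 4) (nat_lit 283) (nat_lit 228) (nat_lit 209)) (XT.lf (nat_lit 0) (nat_lit 37580070315)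 (nat_lit 76) (nat_lit 6960143016) (nat_lit 76) (nat_lit 1260405590) (nat_lit 3) (nat_lit 4) (nat_lit 4) (nat_lit 5) (nat_lit 4) (nat_lit 4) (nat_lit 284) (nat_lit 228) (nat_lit 208))))) (XT.nd (nat_lit 234) (nat_lit 0) (nat_lit 0) (XT.nd (nat_lit 78) (nat_lit 76) (nat_lit 0) (XT.lf (nat_lit 0) (nat_lit 610730271) (nat_lit 152) (nat_lit 4544744250) (nat_lit 76) (nat_lit 44108783808) (nat_lit 2) (nat_lit 5) (nat_lit 4) (nat_lit 5) (nat_lit 3) (nat_lit 4) (nat_lit 285) (nat_lit 228) (nat_lit 207)) (XT.nd (nat_lit 78) (nat_lit 76) (nat_lit 0) (XT.lf (nat_lit 0) (nat_lit 2510283169) (nat_lit 152) (nat_lit 700457361) (nat_lit 76) (nat_lit 49796050807) (nat_lit 2) (nat_lit 5) (nat_lit 4) (nat_lit 5) (nat_lit 3) (nat_lit 4) (nat_lit 286) (nat_lit 228) (nat_lit 206)) (XT.lf (nat_lit 0) (nat_lit 3542622111) (nat_lit 76) (nat_lit 1055138340) (nat_lit 152) (nat_lit 52448244478) (nat_lit 1) (nat_lit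 5) (nat_lit 2) (nat_lit 5) (nat_lit 3) (nat_lit 4) (nat_lit 287) (nat_lit 228) (nat_lit 205)))) (XT.nd (nat_lit 78) (nat_lit 0) (nat_lit 0) (XT.lf (nat_lit 0) (nat_lit 6854020740) (nat_lit 152) (nat_lit 53359822933) (nat_lit 0) (nat_lit 1194512444) (nat_lit 1) (nat_lit 5) (nat_lit 3) (nat_lit 4) (nat_lit 1) (nat_lit 4) (nat_lit 288) (nat_lit 228) (nat_lit 204)) (XT.nd (nat_lit 78) (nat_lit 0) (nat_lit 0) (XT.lf (nat_lit 0) (nat_lit 9273301062) (nat_lit 152) (nat_lit 53312621505) (nat_lit 0) (nat_lit 3535303972) (nat_lit 1) (nat_lit 5) (nat_lit 3) (nat_lit 4) (nat_lit 1) (nat_lit 4) (nat_lit 289) (nat_lit 228) (nat_lit 203)) (XT.lf (nat_lit 0) (nat_lit 11844561794) (nat_lit 152) (nat_lit 53336122721) (nat_lit 0) (nat_lit 6033889894) (nat_lit 1) (nat_lit 5) (nat_lit 3) (nat_lit 4) (nat_lit 1) (nat_lit 4) (nat_lit 290) (nat_lit 228) (nat_lit 202))))))) (XT.nd (nat_lit 858) (nat_lit 0)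 (nat_lit 0) (XT.nd (nat_lit 390) (nat_lit 0) (nat_lit 0) (XT.nd (nat_lit 156) (nat_lit 0) (nat_lit 0) (XT.nd (nat_lit 78) (nat_lit 0) (nat_lit 0) (XT.lf (nat_lit 0) (nat_lit 14583040034) (nat_lit 152) (nat_lit 53430465846) (nat_lit 0) (nat_lit 8705076644) (nat_lit 1) (nat_lit 5) (nat_lit 3) (nat_lit 4) (nat_lit 1) (nat_lit 4) (nat_lit 291) (nat_lit 228) (nat_lit 201)) (XT.lf (nat_lit 0) (nat_lit 17504963803) (nat_lit 152) (nat_lit 53596209953) (nat_lit 0) (nat_lit 11564693477) (nat_lit 1) (nat_lit 5) (nat_lit 3) (nat_lit 4) (nat_lit 1) (nat_lit 4) (nat_lit 292) (nat_lit 228) (nat_lit 200))) (XT.nd (nat_lit 78) (nat_lit 0) (nat_lit 0) (XT.lf (nat_lit 0) (nat_lit 20627648205) (nat_lit 152) (nat_lit 53834337226) (nat_lit 0) (nat_lit 14629686272) (nat_lit 1) (nat_lit 5) (nat_lit 3) (nat_lit 4) (nat_lit 1) (nat_lit 4) (nat_lit 293) (nat_lit 228) (nat_lit 199)) (XT.nd (nat_lit 78) (nat_lit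 0) (nat_lit 0) (XT.lf (nat_lit 0) (nat_lit 23969598035) (nat_lit 152) (nat_lit 54146258792) (nat_lit 0) (nat_lit 17918217947) (nat_lit 1) (nat_lit 5) (nat_lit 3) (nat_lit 4) (nat_lit 1) (nat_lit 4) (nat_lit 294) (nat_lit 228) (nat_lit 198)) (XT.lf (nat_lit 0) (nat_lit 27550617441) (nat_lit 152) (nat_lit 54533823075) (nat_lit 0) (nat_lit 21449776099) (nat_lit 1) (nat_lit 5) (nat_lit 3) (nat_lit 4) (nat_lit 1) (nat_lit 4) (nat_lit 295) (nat_lit 228) (nat_lit 197))))) (XT.nd (nat_lit 234) (nat_lit 0) (nat_lit 0) (XT.nd (nat_lit 78) (nat_lit 0) (nat_lit 0) (XT.lf (nat_lit 0) (nat_lit 31391927279) (nat_lit 152) (nat_lit 54999326751) (nat_lit 0) (nat_lit 25245288479) (nat_lit 1) (nat_lit 5) (nat_lit 3) (nat_lit 4) (nat_lit 1) (nat_lit 4) (nat_lit 296) (nat_lit 228) (nat_lit 196)) (XT.nd (nat_lit 78) (nat_lit 0) (nat_lit 0) (XT.lf (nat_lit 0) (nat_lit 35516290866) (nat_lit 152) (nat_lit 55545528360)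 (nat_lit 0) (nat_lit 29327247013) (nat_lit 1) (nat_lit 5) (nat_lit 3) (nat_lit 4) (nat_lit 1) (nat_lit 4) (nat_lit 297) (nat_lit 228) (nat_lit 195)) (XT.lf (nat_lit 0) (nat_lit 39948148875) (nat_lit 152) (nat_lit 56175664654) (nat_lit 0) (nat_lit 33719841084) (nat_lit 1) (nat_lit 5) (nat_lit 3) (nat_lit 4) (nat_lit 1) (nat_lit 4) (nat_lit 298) (nat_lit 228) (nat_lit 194)))) (XT.nd (nat_lit 78) (nat_lit 0) (nat_lit 0) (XT.lf (nat_lit 0) (nat_lit 44713764169) (nat_lit 152) (nat_lit 56893469774) (nat_lit 0) (nat_lit 38449100879) (nat_lit 1) (nat_lit 5) (nat_lit 3) (nat_lit 4) (nat_lit 1) (nat_lit 4) (nat_lit 299) (nat_lit 228) (nat_lit 193)) (XT.nd (nat_lit 78) (nat_lit 0) (nat_lit 0) (XT.lf (nat_lit 0) (nat_lit 49841377431) (nat_lit 152) (nat_lit 57703197378) (nat_lit 0) (nat_lit 43543051643) (nat_lit 1) (nat_lit 5) (nat_lit 3) (nat_lit 4) (nat_lit 1) (nat_lit 4) (nat_lit 300) (nat_lit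 228) (nat_lit 192)) (XT.lf (nat_lit 0) (nat_lit 55361374517) (nat_lit 152) (nat_lit 58609645853) (nat_lit 0) (nat_lit 49031879748) (nat_lit 1) (nat_lit 5) (nat_lit 3) (nat_lit 4) (nat_lit 1) (nat_lit 4) (nat_lit 301) (nat_lit 228) (nat_lit 191)))))) (XT.nd (nat_lit 468) (nat_lit 0) (nat_lit 0) (XT.nd (nat_lit 234) (nat_lit 0) (nat_lit 0) (XT.nd (nat_lit 78) (nat_lit 0) (nat_lit 0) (XT.lf (nat_lit 0) (nat_lit 61306466521) (nat_lit 152) (nat_lit 59618186745) (nat_lit 0) (nat_lit 54948111586) (nat_lit 1) (nat_lit 5) (nat_lit 3) (nat_lit 4) (nat_lit 1) (nat_lit 4) (nat_lit 302) (nat_lit 228) (nat_lit 190)) (XT.nd (nat_lit 78) (nat_lit 0) (nat_lit 0) (XT.lf (nat_lit 0) (nat_lit 67711883618) (nat_lit 152) (nat_lit 60734796594) (nat_lit 0) (nat_lit 61326806306) (nat_lit 1) (nat_lit 5) (nat_lit 3) (nat_lit 4) (nat_lit 1) (nat_lit 4) (nat_lit 303) (nat_lit 228) (nat_lit 189)) (XT.lf (nat_lit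 0) (nat_lit 74615583834) (nat_lit 152) (nat_lit 61966092346) (nat_lit 0) (nat_lit 68205763581) (nat_lit 1) (nat_lit 5) (nat_lit 3) (nat_lit 4) (nat_lit 1) (nat_lit 4) (nat_lit 304) (nat_lit 228) (nat_lit 188)))) (XT.nd (nat_lit 78) (nat_lit 0) (nat_lit 0) (XT.lf (nat_lit 0) (nat_lit 82058477988) (nat_lit 152) (nat_lit 63319370569) (nat_lit 0) (nat_lit 75625747604) (nat_lit 1) (nat_lit 5) (nat_lit 3) (nat_lit 4) (nat_lit 1) (nat_lit 4) (nat_lit 305) (nat_lit 228) (nat_lit 187)) (XT.nd (nat_lit 78) (nat_lit 0) (nat_lit 0) (XT.lf (nat_lit 0) (nat_lit 90084672116) (nat_lit 152) (nat_lit 64802650689) (nat_lit 0) (nat_lit 83630728648) (nat_lit 1) (nat_lit 5) (nat_lit 3) (nat_lit 4) (nat_lit 1) (nat_lit 4) (nat_lit 306) (nat_lit 228) (nat_lit 186)) (XT.lf (nat_lit 0) (nat_lit 98741728853) (nat_lit 152) (nat_lit 66424722514) (nat_lit 0) (nat_lit 92268143640) (nat_lit 1) (nat_lit 5) (nat_lit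 3) (nat_lit 4) (nat_lit 1) (nat_lit 4) (nat_lit 307) (nat_lit 228) (nat_lit 185))))) (XT.nd (nat_lit 234) (nat_lit 0) (nat_lit 0) (XT.nd (nat_lit 78) (nat_lit 0) (nat_lit 0) (XT.lf (nat_lit 0) (nat_lit 108080949274) (nat_lit 152) (nat_lit 68195198322) (nat_lit 0) (nat_lit 101589177260) (nat_lit 1) (nat_lit 5) (nat_lit 3) (nat_lit 4) (nat_lit 1) (nat_lit 4) (nat_lit 308) (nat_lit 228) (nat_lit 184)) (XT.nd (nat_lit 78) (nat_lit 0) (nat_lit 0) (XT.lf (nat_lit 0) (nat_lit 118157676907) (nat_lit 152) (nat_lit 70124569822) (nat_lit 0) (nat_lit 111649065264) (nat_lit 1) (nat_lit 5) (nat_lit 3) (nat_lit 4) (nat_lit 1) (nat_lit 4) (nat_lit 309) (nat_lit 228) (nat_lit 183)) (XT.lf (nat_lit 0) (nat_lit 129031625695) (nat_lit 152) (nat_lit 72224270325) (nat_lit 0) (nat_lit 122507421802) (nat_lit 1) (nat_lit 5) (nat_lit 3) (nat_lit 4) (nat_lit 1) (nat_lit 4) (nat_lit 310) (nat_lit 228) (nat_lit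 182)))) (XT.nd (nat_lit 78) (nat_lit 0) (nat_lit 0) (XT.lf (nat_lit 0) (nat_lit 140767233853) (nat_lit 152) (nat_lit 74506742502) (nat_lit 0) (nat_lit 134228592691) (nat_lit 1) (nat_lit 5) (nat_lit 3) (nat_lit 4) (nat_lit 1) (nat_lit 4) (nat_lit 311) (nat_lit 228) (nat_lit 181)) (XT.nd (nat_lit 78) (nat_lit 0) (nat_lit 0) (XT.lf (nat_lit 0) (nat_lit 153434045725) (nat_lit 152) (nat_lit 76985512113) (nat_lit 0) (nat_lit 146882036721) (nat_lit 1) (nat_lit 5) (nat_lit 3) (nat_lit 4) (nat_lit 1) (nat_lit 4) (nat_lit 312) (nat_lit 228) (nat_lit 180)) (XT.lf (nat_lit 0) (nat_lit 167107123899) (nat_lit 152) (nat_lit 79675268165) (nat_lit 0) (nat_lit 160542737265) (nat_lit 1) (nat_lit 5) (nat_lit 3) (nat_lit 4) (nat_lit 1) (nat_lit 4) (nat_lit 313) (nat_lit 228) (nat_lit 179))))))))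
noncomputable def xc29 : XT := (XT.nd (nat_lit 33540) (nat_lit 0) (nat_lit 152) (XT.nd (nat_lit 858) (nat_lit 0) (nat_lit 0) (XT.nd (nat_lit 390) (nat_lit 0) (nat_lit 0) (XT.nd (nat_lit 156) (nat_lit 0) (nat_lit 0) (XT.nd (nat_lit 78) (nat_lit 0) (nat_lit 0) (XT.lf (nat_lit 0) (nat_lit 181867494025) (nat_lit 152) (nat_lit 82591949951) (nat_lit 0) (nat_lit 175291646621) (nat_lit 1) (nat_lit 5) (nat_lit 3) (nat_lit 4) (nat_lit 1) (nat_lit 4) (nat_lit 314) (nat_lit 228) (nat_lit 178)) (XT.lf (nat_lit 0) (nat_lit 197802624963) (nat_lit 152) (nat_lit 85752841512) (nat_lit 0) (nat_lit 191216165735) (nat_lit 1) (nat_lit 5) (nat_lit 3) (nat_lit 4) (nat_lit 1) (nat_lit 4) (nat_lit 315) (nat_lit 228) (nat_lit 177))) (XT.nd (nat_lit 78) (nat_lit 0) (nat_lit 0) (XT.lf (nat_lit 0) (nat_lit 215006947117) (nat_lit 152) (nat_lit 89176674057) (nat_lit 0) (nat_lit 208410662127) (nat_lit 1) (nat_lit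 5) (nat_lit 3) (nat_lit 4) (nat_lit 1) (nat_lit 4) (nat_lit 316) (nat_lit 228) (nat_lit 176)) (XT.nd (nat_lit 78) (nat_lit 0) (nat_lit 0) (XT.lf (nat_lit 0) (nat_lit 233582412027) (nat_lit 152) (nat_lit 92883736965) (nat_lit 0) (nat_lit 226977029109) (nat_lit 1) (nat_lit 5) (nat_lit 3) (nat_lit 4) (nat_lit 1) (nat_lit 4) (nat_lit 317) (nat_lit 228) (nat_lit 175)) (XT.lf (nat_lit 0) (nat_lit 253639096522) (nat_lit 152) (nat_lit 96895998016) (nat_lit 0) (nat_lit 247025289596) (nat_lit 1) (nat_lit 5) (nat_lit 3) (nat_lit 4) (nat_lit 1) (nat_lit 4) (nat_lit 318) (nat_lit 228) (nat_lit 174))))) (XT.nd (nat_lit 234) (nat_lit 0) (nat_lit 0) (XT.nd (nat_lit 78) (nat_lit 0) (nat_lit 0) (XT.lf (nat_lit 0) (nat_lit 275295855028) (nat_lit 152) (nat_lit 101237233570) (nat_lit 0) (nat_lit 268674248096) (nat_lit 1) (nat_lit 5) (nat_lit 3) (nat_lit 4) (nat_lit 1) (nat_lit 4) (nat_lit 319) (nat_lit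 228) (nat_lit 173)) (XT.nd (nat_lit 78) (nat_lit 0) (nat_lit 0) (XT.lf (nat_lit 0) (nat_lit 298681023892) (nat_lit 152) (nat_lit 105933169470) (nat_lit 0) (nat_lit 292052194731) (nat_lit 1) (nat_lit 5) (nat_lit 3) (nat_lit 4) (nat_lit 1) (nat_lit 4) (nat_lit 320) (nat_lit 228) (nat_lit 172)) (XT.lf (nat_lit 0) (nat_lit 323933181893) (nat_lit 152) (nat_lit 111011633482) (nat_lit 0) (nat_lit 317297665483) (nat_lit 1) (nat_lit 5) (nat_lit 3) (nat_lit 4) (nat_lit 1) (nat_lit 4) (nat_lit 321) (nat_lit 228) (nat_lit 171)))) (XT.nd (nat_lit 78) (nat_lit 0) (nat_lit 0) (XT.lf (nat_lit 0) (nat_lit 351201971449) (nat_lit 152) (nat_lit 116502720209) (nat_lit 0) (nat_lit 344560263142) (nat_lit 1) (nat_lit 5) (nat_lit 3) (nat_lit 4) (nat_lit 1) (nat_lit 4) (nat_lit 322) (nat_lit 228) (nat_lit 170)) (XT.nd (nat_lit 78) (nat_lit 0) (nat_lit 0) (XT.lf (nat_lit 0) (nat_lit 380648985385) (nat_lit 152)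 (nat_lit 122438969423) (nat_lit 0) (nat_lit 374001543840) (nat_lit 1) (nat_lit 5) (nat_lit 3) (nat_lit 4) (nat_lit 1) (nat_lit 4) (nat_lit 323) (nat_lit 228) (nat_lit 169)) (XT.lf (nat_lit 0) (nat_lit 412448724526) (nat_lit 152) (nat_lit 128855558899) (nat_lit 0) (nat_lit 405795974428) (nat_lit 1) (nat_lit 5) (nat_lit 3) (nat_lit 4) (nat_lit 1) (nat_lit 4) (nat_lit 324) (nat_lit 228) (nat_lit 168)))))) (XT.nd (nat_lit 468) (nat_lit 0) (nat_lit 0) (XT.nd (nat_lit 234) (nat_lit 0) (nat_lit 0) (XT.nd (nat_lit 78) (nat_lit 0) (nat_lit 0) (XT.lf (nat_lit 0) (nat_lit 446789631771) (nat_lit 152) (nat_lit 135790512869) (nat_lit 0) (nat_lit 440131966345) (nat_lit 1) (nat_lit 5) (nat_lit 3) (nat_lit 4) (nat_lit 1) (nat_lit 4) (nat_lit 325) (nat_lit 228) (nat_lit 167)) (XT.nd (nat_lit 78) (nat_lit 0) (nat_lit 0) (XT.lf (nat_lit 0) (nat_lit 483875208791) (nat_lit 152) (nat_lit 143284927357) (nat_lit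 0) (nat_lit 477212992136) (nat_lit 1) (nat_lit 5) (nat_lit 3) (nat_lit 4) (nat_lit 1) (nat_lit 4) (nat_lit 326) (nat_lit 228) (nat_lit 166)) (XT.lf (nat_lit 0) (nat_lit 523925221970) (nat_lit 152) (nat_lit 151383213709) (nat_lit 0) (nat_lit 517258791213) (nat_lit 1) (nat_lit 5) (nat_lit 3) (nat_lit 4) (nat_lit 1) (nat_lit 4) (nat_lit 327) (nat_lit 228) (nat_lit 165)))) (XT.nd (nat_lit 78) (nat_lit 0) (nat_lit 0) (XT.lf (nat_lit 0) (nat_lit 567177004718) (nat_lit 152) (nat_lit 160133361769) (nat_lit 0) (nat_lit 560506672016) (nat_lit 1) (nat_lit 5) (nat_lit 3) (nat_lit 4) (nat_lit 1) (nat_lit 4) (nat_lit 328) (nat_lit 228) (nat_lit 164)) (XT.nd (nat_lit 78) (nat_lit 0) (nat_lit 0) (XT.lf (nat_lit 0) (nat_lit 613886863896) (nat_lit 152) (nat_lit 169587224267) (nat_lit 0) (nat_lit 607212918282) (nat_lit 1) (nat_lit 5) (nat_lit 3) (nat_lit 4) (nat_lit 1) (nat_lit 4) (nat_lit 329) (nat_lit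 228) (nat_lit 163)) (XT.lf (nat_lit 0) (nat_lit 664331598671) (nat_lit 152) (nat_lit 179800824092) (nat_lit 0) (nat_lit 657654307767) (nat_lit 1) (nat_lit 5) (nat_lit 3) (nat_lit 4) (nat_lit 1) (nat_lit 4) (nat_lit 330) (nat_lit 228) (nat_lit 162))))) (XT.nd (nat_lit 234) (nat_lit 0) (nat_lit 0) (XT.nd (nat_lit 78) (nat_lit 0) (nat_lit 0) (XT.lf (nat_lit 0) (nat_lit 718810140802) (nat_lit 152) (nat_lit 190834686279) (nat_lit 0) (nat_lit 712129752408) (nat_lit 1) (nat_lit 5) (nat_lit 3) (nat_lit 4) (nat_lit 1) (nat_lit 4) (nat_lit 331) (nat_lit 228) (nat_lit 161)) (XT.nd (nat_lit 78) (nat_lit 0) (nat_lit 0) (XT.lf (nat_lit 0) (nat_lit 777645326097) (nat_lit 152) (nat_lit 202754196678) (nat_lit 0) (nat_lit 770962069656) (nat_lit 1) (nat_lit 5) (nat_lit 3) (nat_lit 4) (nat_lit 1) (nat_lit 4) (nat_lit 332) (nat_lit 228) (nat_lit 160)) (XT.lf (nat_lit 0) (nat_lit 841185807504) (nat_lit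 152) (nat_lit 215629989426) (nat_lit 0) (nat_lit 834499895465) (nat_lit 1) (nat_lit 5) (nat_lit 3) (nat_lit 4) (nat_lit 1) (nat_lit 4) (nat_lit 333) (nat_lit 228) (nat_lit 159)))) (XT.nd (nat_lit 78) (nat_lit 0) (nat_lit 0) (XT.lf (nat_lit 0) (nat_lit 909808121209) (nat_lit 152) (nat_lit 229538365516) (nat_lit 0) (nat_lit 903119750283) (nat_lit 1) (nat_lit 5) (nat_lit 3) (nat_lit 4) (nat_lit 1) (nat_lit 4) (nat_lit 334) (nat_lit 228) (nat_lit 158)) (XT.nd (nat_lit 31824) (nat_lit 0) (nat_lit 760) (XT.lf (nat_lit 0) (nat_lit 983918917962) (nat_lit 152) (nat_lit 244561744955) (nat_lit 0) (nat_lit 977228270288) (nat_lit 1) (nat_lit 5) (nat_lit 3) (nat_lit 4) (nat_lit 1) (nat_lit 4) (nat_lit 335) (nat_lit 228) (nat_lit 157)) (XT.lf (nat_lit 0) (nat_lit 161154918) (nat_lit 152) (nat_lit 5346892932) (nat_lit 0) (nat_lit 161154918) (nat_lit 11) (nat_lit 5) (nat_lit 13) (nat_lit 4) (nat_lit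 11) (nat_lit 4) (nat_lit 262) (nat_lit 229) (nat_lit 229))))))) (XT.nd (nat_lit 858) (nat_lit 76) (nat_lit 0) (XT.nd (nat_lit 390) (nat_lit 228) (nat_lit 0) (XT.nd (nat_lit 156) (nat_lit 152) (nat_lit 0) (XT.nd (nat_lit 78) (nat_lit 152) (nat_lit 0) (XT.lf (nat_lit 0) (nat_lit 3595159488) (nat_lit 152) (nat_lit 5392283877) (nat_lit 0) (nat_lit 2918028308) (nat_lit 11) (nat_lit 5) (nat_lit 13) (nat_lit 4) (nat_lit 11) (nat_lit 4) (nat_lit 263) (nat_lit 229) (nat_lit 228)) (XT.lf (nat_lit 0) (nat_lit 34882331) (nat_lit 152) (nat_lit 6901818022) (nat_lit 152) (nat_lit 5597713529) (nat_lit 9) (nat_lit 4) (nat_lit 11) (nat_lit 5) (nat_lit 11) (nat_lit 4) (nat_lit 264) (nat_lit 229) (nat_lit 227))) (XT.nd (nat_lit 78) (nat_lit 152) (nat_lit 0) (XT.lf (nat_lit 0) (nat_lit 5910284928) (nat_lit 152) (nat_lit 4596069991) (nat_lit 152) (nat_lit 2711434651) (nat_lit 9) (nat_lit 4) (nat_lit 11)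 (nat_lit 5) (nat_lit 11) (nat_lit 4) (nat_lit 265) (nat_lit 229) (nat_lit 226)) (XT.nd (nat_lit 78) (nat_lit 76) (nat_lit 0) (XT.lf (nat_lit 0) (nat_lit 207278790) (nat_lit 228) (nat_lit 1991024017) (nat_lit 76) (nat_lit 11771846841) (nat_lit 8) (nat_lit 5) (nat_lit 11) (nat_lit 5) (nat_lit 9) (nat_lit 4) (nat_lit 266) (nat_lit 229) (nat_lit 225)) (XT.lf (nat_lit 0) (nat_lit 3145806862) (nat_lit 152) (nat_lit 11195193694) (nat_lit 0) (nat_lit 442218406) (nat_lit 7) (nat_lit 5) (nat_lit 9) (nat_lit 4) (nat_lit 7) (nat_lit 4) (nat_lit 267) (nat_lit 229) (nat_lit 224))))) (XT.nd (nat_lit 234) (nat_lit 152) (nat_lit 0) (XT.nd (nat_lit 78) (nat_lit 76) (nat_lit 0) (XT.lf (nat_lit 0) (nat_lit 6271231290) (nat_lit 152) (nat_lit 6253743383) (nat_lit 0) (nat_lit 3140935331) (nat_lit 7) (nat_lit 5) (nat_lit 9) (nat_lit 4) (nat_lit 7) (nat_lit 4) (nat_lit 268) (nat_lit 229) (nat_lit 223)) (XT.nd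 (nat_lit 78) (nat_lit 76) (nat_lit 0) (XT.lf (nat_lit 0) (nat_lit 9497488962) (nat_lit 152) (nat_lit 1162237842) (nat_lit 0) (nat_lit 5972093464) (nat_lit 7) (nat_lit 5) (nat_lit 9) (nat_lit 4) (nat_lit 7) (nat_lit 4) (nat_lit 269) (nat_lit 229) (nat_lit 222)) (XT.lf (nat_lit 0) (nat_lit 4325893527) (nat_lit 76) (nat_lit 8621842758) (nat_lit 76) (nat_lit 4730614353) (nat_lit 6) (nat_lit 4) (nat_lit 7) (nat_lit 5) (nat_lit 7) (nat_lit 4) (nat_lit 270) (nat_lit 229) (nat_lit 221)))) (XT.nd (nat_lit 78) (nat_lit 152) (nat_lit 0) (XT.lf (nat_lit 0) (nat_lit 10097828773) (nat_lit 76) (nat_lit 6474713372) (nat_lit 76) (nat_lit 2244750793) (nat_lit 6) (nat_lit 4) (nat_lit 7) (nat_lit 5) (nat_lit 7) (nat_lit 4) (nat_lit 271) (nat_lit 229) (nat_lit 220)) (XT.nd (nat_lit 78) (nat_lit 76) (nat_lit 0) (XT.lf (nat_lit 0) (nat_lit 290894769) (nat_lit 152) (nat_lit 3938544211) (nat_lit 76) (nat_lit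 15827722223) (nat_lit 5) (nat_lit 5) (nat_lit 7) (nat_lit 5) (nat_lit 6) (nat_lit 4) (nat_lit 272) (nat_lit 229) (nat_lit 219)) (XT.lf (nat_lit 0) (nat_lit 1021211819) (nat_lit 76) (nat_lit 1793801212) (nat_lit 152) (nat_lit 18584444355) (nat_lit 4) (nat_lit 5) (nat_lit 5) (nat_lit 5) (nat_lit 6) (nat_lit 4) (nat_lit 273) (nat_lit 229) (nat_lit 218)))))) (XT.nd (nat_lit 468) (nat_lit 0) (nat_lit 0) (XT.nd (nat_lit 234) (nat_lit 76) (nat_lit 0) (XT.nd (nat_lit 78) (nat_lit 0) (nat_lit 0) (XT.lf (nat_lit 0) (nat_lit 5556240993) (nat_lit 152) (nat_lit 16460781550) (nat_lit 0) (nat_lit 831321182) (nat_lit 4) (nat_lit 5) (nat_lit 6) (nat_lit 4) (nat_lit 4) (nat_lit 4) (nat_lit 274) (nat_lit 229) (nat_lit 217)) (XT.nd (nat_lit 78) (nat_lit 0) (nat_lit 0) (XT.lf (nat_lit 0) (nat_lit 8456483544) (nat_lit 152) (nat_lit 12460842874) (nat_lit 0) (nat_lit 3501026947) (nat_lit 4) (nat_lit 5) (nat_lit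 6) (nat_lit 4) (nat_lit 4) (nat_lit 4) (nat_lit 275) (nat_lit 229) (nat_lit 216)) (XT.lf (nat_lit 0) (nat_lit 11489786345) (nat_lit 152) (nat_lit 8311585238) (nat_lit 0) (nat_lit 6320869760) (nat_lit 4) (nat_lit 5) (nat_lit 6) (nat_lit 4) (nat_lit 4) (nat_lit 4) (nat_lit 276) (nat_lit 229) (nat_lit 215)))) (XT.nd (nat_lit 78) (nat_lit 76) (nat_lit 0) (XT.lf (nat_lit 0) (nat_lit 14674124524) (nat_lit 152) (nat_lit 3988420449) (nat_lit 0) (nat_lit 9307559802) (nat_lit 4) (nat_lit 5) (nat_lit 6) (nat_lit 4) (nat_lit 4) (nat_lit 4) (nat_lit 277) (nat_lit 229) (nat_lit 214)) (XT.nd (nat_lit 78) (nat_lit 0) (nat_lit 0) (XT.lf (nat_lit 0) (nat_lit 562403972) (nat_lit 76) (nat_lit 17479490090) (nat_lit 76) (nat_lit 11929917834) (nat_lit 3) (nat_lit 4) (nat_lit 4) (nat_lit 5) (nat_lit 4) (nat_lit 4) (nat_lit 278) (nat_lit 229) (nat_lit 213)) (XT.lf (nat_lit 0) (nat_lit 5561496565) (nat_lit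 76) (nat_lit 16144652032) (nat_lit 76) (nat_lit 10425628356) (nat_lit 3) (nat_lit 4) (nat_lit 4) (nat_lit 5) (nat_lit 4) (nat_lit 4) (nat_lit 279) (nat_lit 229) (nat_lit 212))))) (XT.nd (nat_lit 234) (nat_lit 0) (nat_lit 0) (XT.nd (nat_lit 78) (nat_lit 0) (nat_lit 0) (XT.lf (nat_lit 0) (nat_lit 10828458429) (nat_lit 76) (nat_lit 14759171132) (nat_lit 76) (nat_lit 8883247994) (nat_lit 3) (nat_lit 4) (nat_lit 4) (nat_lit 5) (nat_lit 4) (nat_lit 4) (nat_lit 280) (nat_lit 229) (nat_lit 211)) (XT.nd (nat_lit 78) (nat_lit 0) (nat_lit 0) (XT.lf (nat_lit 0) (nat_lit 16394501190) (nat_lit 76) (nat_lit 13314837134) (nat_lit 76) (nat_lit 7293636714) (nat_lit 3) (nat_lit 4) (nat_lit 4) (nat_lit 5) (nat_lit 4) (nat_lit 4) (nat_lit 281) (nat_lit 229) (nat_lit 210)) (XT.lf (nat_lit 0) (nat_lit 22292608805) (nat_lit 76) (nat_lit 11803091020) (nat_lit 76) (nat_lit 5647374600) (nat_lit 3) (nat_lit 4)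 (nat_lit 4) (nat_lit 5) (nat_lit 4) (nat_lit 4) (nat_lit 282) (nat_lit 229) (nat_lit 209)))) (XT.nd (nat_lit 78) (nat_lit 0) (nat_lit 0) (XT.lf (nat_lit 0) (nat_lit 28557733022) (nat_lit 76) (nat_lit 10214974295) (nat_lit 76) (nat_lit 3934706022) (nat_lit 3) (nat_lit 4) (nat_lit 4) (nat_lit 5) (nat_lit 4) (nat_lit 4) (nat_lit 283) (nat_lit 229) (nat_lit 208)) (XT.nd (nat_lit 78) (nat_lit 0) (nat_lit 0) (XT.lf (nat_lit 0) (nat_lit 35227000505) (nat_lit 76) (nat_lit 8541075897) (nat_lit 76) (nat_lit 2145481835) (nat_lit 3) (nat_lit 4) (nat_lit 4) (nat_lit 5) (nat_lit 4) (nat_lit 4) (nat_lit 284) (nat_lit 229) (nat_lit 207)) (XT.lf (nat_lit 0) (nat_lit 42339932838) (nat_lit 76) (nat_lit 6771476428) (nat_lit 76) (nat_lit 269099227) (nat_lit 3) (nat_lit 4) (nat_lit 4) (nat_lit 5) (nat_lit 4) (nat_lit 4) (nat_lit 285) (nat_lit 229) (nat_lit 206))))))))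
noncomputable def xc30 : XT := (XT.nd (nat_lit 1794) (nat_lit 0) (nat_lit 0) (XT.nd (nat_lit 858) (nat_lit 0) (nat_lit 0) (XT.nd (nat_lit 390) (nat_lit 0) (nat_lit 0) (XT.nd (nat_lit 156) (nat_lit 0) (nat_lit 0) (XT.nd (nat_lit 78) (nat_lit 76) (nat_lit 0) (XT.lf (nat_lit 0) (nat_lit 1620242029) (nat_lit 152) (nat_lit 3231147055) (nat_lit 76) (nat_lit 48274138412) (nat_lit 2) (nat_lit 5) (nat_lit 4) (nat_lit 5) (nat_lit 3) (nat_lit 4) (nat_lit 286) (nat_lit 229) (nat_lit 205)) (XT.lf (nat_lit 0) (nat_lit 838386984) (nat_lit 76) (nat_lit 2782375895) (nat_lit 152) (nat_lit 53551003614) (nat_lit 1) (nat_lit 5) (nat_lit 2) (nat_lit 5) (nat_lit 3) (nat_lit 4) (nat_lit 287) (nat_lit 229) (nat_lit 204))) (XT.nd (nat_lit 78) (nat_lit 0) (nat_lit 0) (XT.lf (nat_lit 0) (nat_lit 5339658330) (nat_lit 76) (nat_lit 485931109) (nat_lit 152) (nat_lit 55712706728) (nat_lit 1) (nat_lit 5) (nat_lit 2)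 (nat_lit 5) (nat_lit 3) (nat_lit 4) (nat_lit 288) (nat_lit 229) (nat_lit 203)) (XT.nd (nat_lit 78) (nat_lit 0) (nat_lit 0) (XT.lf (nat_lit 0) (nat_lit 8213201368) (nat_lit 152) (nat_lit 56175556849) (nat_lit 0) (nat_lit 1865000906) (nat_lit 1) (nat_lit 5) (nat_lit 3) (nat_lit 4) (nat_lit 1) (nat_lit 4) (nat_lit 289) (nat_lit 229) (nat_lit 202)) (XT.lf (nat_lit 0) (nat_lit 10765960489) (nat_lit 152) (nat_lit 56232212783) (nat_lit 0) (nat_lit 4350468537) (nat_lit 1) (nat_lit 5) (nat_lit 3) (nat_lit 4) (nat_lit 1) (nat_lit 4) (nat_lit 290) (nat_lit 229) (nat_lit 201))))) (XT.nd (nat_lit 234) (nat_lit 0) (nat_lit 0) (XT.nd (nat_lit 78) (nat_lit 0) (nat_lit 0) (XT.lf (nat_lit 0) (nat_lit 13487307609) (nat_lit 152) (nat_lit 56357254721) (nat_lit 0) (nat_lit 7009508721) (nat_lit 1) (nat_lit 5) (nat_lit 3) (nat_lit 4) (nat_lit 1) (nat_lit 4) (nat_lit 291) (nat_lit 229) (nat_lit 200)) (XT.nd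 (nat_lit 78) (nat_lit 0) (nat_lit 0) (XT.lf (nat_lit 0) (nat_lit 16393369229) (nat_lit 152) (nat_lit 56551423654) (nat_lit 0) (nat_lit 9857878735) (nat_lit 1) (nat_lit 5) (nat_lit 3) (nat_lit 4) (nat_lit 1) (nat_lit 4) (nat_lit 292) (nat_lit 229) (nat_lit 199)) (XT.lf (nat_lit 0) (nat_lit 19501366456) (nat_lit 152) (nat_lit 56815870211) (nat_lit 0) (nat_lit 12912457807) (nat_lit 1) (nat_lit 5) (nat_lit 3) (nat_lit 4) (nat_lit 1) (nat_lit 4) (nat_lit 293) (nat_lit 229) (nat_lit 198)))) (XT.nd (nat_lit 78) (nat_lit 0) (nat_lit 0) (XT.lf (nat_lit 0) (nat_lit 22829717051) (nat_lit 152) (nat_lit 57152161485) (nat_lit 0) (nat_lit 16191347147) (nat_lit 1) (nat_lit 5) (nat_lit 3) (nat_lit 4) (nat_lit 1) (nat_lit 4) (nat_lit 294) (nat_lit 229) (nat_lit 197)) (XT.nd (nat_lit 78) (nat_lit 0) (nat_lit 0) (XT.lf (nat_lit 0) (nat_lit 26398144572) (nat_lit 152) (nat_lit 57562290311) (nat_lit 0) (nat_lit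 19713977211) (nat_lit 1) (nat_lit 5) (nat_lit 3) (nat_lit 4) (nat_lit 1) (nat_lit 4) (nat_lit 295) (nat_lit 229) (nat_lit 196)) (XT.lf (nat_lit 0) (nat_lit 30227795257) (nat_lit 152) (nat_lit 58048687083) (nat_lit 0) (nat_lit 23501222842) (nat_lit 1) (nat_lit 5) (nat_lit 3) (nat_lit 4) (nat_lit 1) (nat_lit 4) (nat_lit 296) (nat_lit 229) (nat_lit 195)))))) (XT.nd (nat_lit 468) (nat_lit 0) (nat_lit 0) (XT.nd (nat_lit 234) (nat_lit 0) (nat_lit 0) (XT.nd (nat_lit 78) (nat_lit 0) (nat_lit 0) (XT.lf (nat_lit 0) (nat_lit 34341363332) (nat_lit 152) (nat_lit 58614234152) (nat_lit 0) (nat_lit 27575526979) (nat_lit 1) (nat_lit 5) (nat_lit 3) (nat_lit 4) (nat_lit 1) (nat_lit 4) (nat_lit 297) (nat_lit 229) (nat_lit 194)) (XT.nd (nat_lit 78) (nat_lit 0) (nat_lit 0) (XT.lf (nat_lit 0) (nat_lit 38763225497) (nat_lit 152) (nat_lit 59262282908) (nat_lit 0) (nat_lit 31961033646) (nat_lit 1) (nat_lit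 5) (nat_lit 3) (nat_lit 4) (nat_lit 1) (nat_lit 4) (nat_lit 298) (nat_lit 229) (nat_lit 193)) (XT.lf (nat_lit 0) (nat_lit 43519585379) (nat_lit 152) (nat_lit 59996673641) (nat_lit 0) (nat_lit 36683731030) (nat_lit 1) (nat_lit 5) (nat_lit 3) (nat_lit 4) (nat_lit 1) (nat_lit 4) (nat_lit 299) (nat_lit 229) (nat_lit 192)))) (XT.nd (nat_lit 78) (nat_lit 0) (nat_lit 0) (XT.lf (nat_lit 0) (nat_lit 48638628816) (nat_lit 152) (nat_lit 60821758294) (nat_lit 0) (nat_lit 41771605486) (nat_lit 1) (nat_lit 5) (nat_lit 3) (nat_lit 4) (nat_lit 1) (nat_lit 4) (nat_lit 300) (nat_lit 229) (nat_lit 191)) (XT.nd (nat_lit 78) (nat_lit 0) (nat_lit 0) (XT.lf (nat_lit 0) (nat_lit 54150690878) (nat_lit 152) (nat_lit 61742426259) (nat_lit 0) (nat_lit 47254807381) (nat_lit 1) (nat_lit 5) (nat_lit 3) (nat_lit 4) (nat_lit 1) (nat_lit 4) (nat_lit 301) (nat_lit 229) (nat_lit 190)) (XT.lf (nat_lit 0) (nat_lit 60088435638)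 (nat_lit 152) (nat_lit 62764133346) (nat_lit 0) (nat_lit 53165829765) (nat_lit 1) (nat_lit 5) (nat_lit 3) (nat_lit 4) (nat_lit 1) (nat_lit 4) (nat_lit 302) (nat_lit 229) (nat_lit 189))))) (XT.nd (nat_lit 234) (nat_lit 0) (nat_lit 0) (XT.nd (nat_lit 78) (nat_lit 0) (nat_lit 0) (XT.lf (nat_lit 0) (nat_lit 66487049731) (nat_lit 152) (nat_lit 63892934116) (nat_lit 0) (nat_lit 59539700917) (nat_lit 1) (nat_lit 5) (nat_lit 3) (nat_lit 4) (nat_lit 1) (nat_lit 4) (nat_lit 303) (nat_lit 229) (nat_lit 188)) (XT.nd (nat_lit 78) (nat_lit 0) (nat_lit 0) (XT.lf (nat_lit 0) (nat_lit 73384450871) (nat_lit 152) (nat_lit 65135517758) (nat_lit 0) (nat_lit 66414191925) (nat_lit 1) (nat_lit 5) (nat_lit 3) (nat_lit 4) (nat_lit 1) (nat_lit 4) (nat_lit 304) (nat_lit 229) (nat_lit 187)) (XT.lf (nat_lit 0) (nat_lit 80821512545) (nat_lit 152) (nat_lit 66499247730) (nat_lit 0) (nat_lit 73830040515) (nat_lit 1)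 (nat_lit 5) (nat_lit 3) (nat_lit 4) (nat_lit 1) (nat_lit 4) (nat_lit 305) (nat_lit 229) (nat_lit 186)))) (XT.nd (nat_lit 78) (nat_lit 0) (nat_lit 0) (XT.lf (nat_lit 0) (nat_lit 88842306230) (nat_lit 152) (nat_lit 67992205396) (nat_lit 0) (nat_lit 81831192456) (nat_lit 1) (nat_lit 5) (nat_lit 3) (nat_lit 4) (nat_lit 1) (nat_lit 4) (nat_lit 306) (nat_lit 229) (nat_lit 185)) (XT.nd (nat_lit 78) (nat_lit 0) (nat_lit 0) (XT.lf (nat_lit 0) (nat_lit 97494362556) (nat_lit 152) (nat_lit 69623237912) (nat_lit 0) (nat_lit 90465061981) (nat_lit 1) (nat_lit 5) (nat_lit 3) (nat_lit 4) (nat_lit 1) (nat_lit 4) (nat_lit 307) (nat_lit 229) (nat_lit 184)) (XT.lf (nat_lit 0) (nat_lit 106828952966) (nat_lit 152) (nat_lit 71402010656) (nat_lit 0) (nat_lit 99782812761) (nat_lit 1) (nat_lit 5) (nat_lit 3) (nat_lit 4) (nat_lit 1) (nat_lit 4) (nat_lit 308) (nat_lit 229) (nat_lit 183))))))) (XT.nd (nat_lit 858)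 (nat_lit 0) (nat_lit 0) (XT.nd (nat_lit 390) (nat_lit 0) (nat_lit 0) (XT.nd (nat_lit 156) (nat_lit 0) (nat_lit 0) (XT.nd (nat_lit 78) (nat_lit 0) (nat_lit 0) (XT.lf (nat_lit 0) (nat_lit 116901393554) (nat_lit 152) (nat_lit 73339064504) (nat_lit 0) (nat_lit 109839661098) (nat_lit 1) (nat_lit 5) (nat_lit 3) (nat_lit 4) (nat_lit 1) (nat_lit 4) (nat_lit 309) (nat_lit 229) (nat_lit 182)) (XT.lf (nat_lit 0) (nat_lit 127771372855) (nat_lit 152) (nat_lit 75445878292) (nat_lit 0) (nat_lit 120695203131) (nat_lit 1) (nat_lit 5) (nat_lit 3) (nat_lit 4) (nat_lit 1) (nat_lit 4) (nat_lit 310) (nat_lit 229) (nat_lit 181))) (XT.nd (nat_lit 78) (nat_lit 0) (nat_lit 0) (XT.lf (nat_lit 0) (nat_lit 139503305561) (nat_lit 152) (nat_lit 77734936844) (nat_lit 0) (nat_lit 132413767996) (nat_lit 1) (nat_lit 5) (nat_lit 3) (nat_lit 4) (nat_lit 1) (nat_lit 4) (nat_lit 311) (nat_lit 229) (nat_lit 180)) (XT.nd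 (nat_lit 78) (nat_lit 0) (nat_lit 0) (XT.lf (nat_lit 0) (nat_lit 152166714237) (nat_lit 152) (nat_lit 80219804952) (nat_lit 0) (nat_lit 145064799041) (nat_lit 1) (nat_lit 5) (nat_lit 3) (nat_lit 4) (nat_lit 1) (nat_lit 4) (nat_lit 312) (nat_lit 229) (nat_lit 179)) (XT.lf (nat_lit 0) (nat_lit 165836641305) (nat_lit 152) (nat_lit 82915207758) (nat_lit 0) (nat_lit 158723265339) (nat_lit 1) (nat_lit 5) (nat_lit 3) (nat_lit 4) (nat_lit 1) (nat_lit 4) (nat_lit 313) (nat_lit 229) (nat_lit 178))))) (XT.nd (nat_lit 234) (nat_lit 0) (nat_lit 0) (XT.nd (nat_lit 78) (nat_lit 0) (nat_lit 0) (XT.lf (nat_lit 0) (nat_lit 180594093739) (nat_lit 152) (nat_lit 85837118021) (nat_lit 0) (nat_lit 173470105950) (nat_lit 1) (nat_lit 5) (nat_lit 3) (nat_lit 4) (nat_lit 1) (nat_lit 4) (nat_lit 314) (nat_lit 229) (nat_lit 177)) (XT.nd (nat_lit 78) (nat_lit 0) (nat_lit 0) (XT.lf (nat_lit 0) (nat_lit 196526523110)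 (nat_lit 152) (nat_lit 89002850765) (nat_lit 0) (nat_lit 189392709559) (nat_lit 1) (nat_lit 5) (nat_lit 3) (nat_lit 4) (nat_lit 1) (nat_lit 4) (nat_lit 315) (nat_lit 229) (nat_lit 176)) (XT.lf (nat_lit 0) (nat_lit 213728343814) (nat_lit 152) (nat_lit 92431165886) (nat_lit 0) (nat_lit 206585432335) (nat_lit 1) (nat_lit 5) (nat_lit 3) (nat_lit 4) (nat_lit 1) (nat_lit 4) (nat_lit 316) (nat_lit 229) (nat_lit 175)))) (XT.nd (nat_lit 78) (nat_lit 0) (nat_lit 0) (XT.lf (nat_lit 0) (nat_lit 232301492566) (nat_lit 152) (nat_lit 96142379328) (nat_lit 0) (nat_lit 225150157079) (nat_lit 1) (nat_lit 5) (nat_lit 3) (nat_lit 4) (nat_lit 1) (nat_lit 4) (nat_lit 317) (nat_lit 229) (nat_lit 174)) (XT.nd (nat_lit 78) (nat_lit 0) (nat_lit 0) (XT.lf (nat_lit 0) (nat_lit 252356032471) (nat_lit 152) (nat_lit 100158483465) (nat_lit 0) (nat_lit 245196896977) (nat_lit 1) (nat_lit 5) (nat_lit 3) (nat_lit 4)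 (nat_lit 1) (nat_lit 4) (nat_lit 318) (nat_lit 229) (nat_lit 173)) (XT.lf (nat_lit 0) (nat_lit 274010805245) (nat_lit 152) (nat_lit 104503277433) (nat_lit 0) (nat_lit 266844447522) (nat_lit 1) (nat_lit 5) (nat_lit 3) (nat_lit 4) (nat_lit 1) (nat_lit 4) (nat_lit 319) (nat_lit 229) (nat_lit 172)))))) (XT.nd (nat_lit 468) (nat_lit 0) (nat_lit 0) (XT.nd (nat_lit 234) (nat_lit 0) (nat_lit 0) (XT.nd (nat_lit 78) (nat_lit 0) (nat_lit 0) (XT.lf (nat_lit 0) (nat_lit 297394135469) (nat_lit 152) (nat_lit 109202508160) (nat_lit 0) (nat_lit 290221090497) (nat_lit 1) (nat_lit 5) (nat_lit 3) (nat_lit 4) (nat_lit 1) (nat_lit 4) (nat_lit 320) (nat_lit 229) (nat_lit 171)) (XT.nd (nat_lit 78) (nat_lit 0) (nat_lit 0) (XT.lf (nat_lit 0) (nat_lit 322644591025) (nat_lit 152) (nat_lit 114284022939) (nat_lit 0) (nat_lit 315465354156) (nat_lit 1) (nat_lit 5) (nat_lit 3) (nat_lit 4) (nat_lit 1) (nat_lit 4) (nat_lit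 321) (nat_lit 229) (nat_lit 170)) (XT.lf (nat_lit 0) (nat_lit 349911804242) (nat_lit 152) (nat_lit 119777934449) (nat_lit 0) (nat_lit 342726834135) (nat_lit 1) (nat_lit 5) (nat_lit 3) (nat_lit 4) (nat_lit 1) (nat_lit 4) (nat_lit 322) (nat_lit 229) (nat_lit 169)))) (XT.nd (nat_lit 78) (nat_lit 0) (nat_lit 0) (XT.lf (nat_lit 0) (nat_lit 379357358606) (nat_lit 152) (nat_lit 125716799204) (nat_lit 0) (nat_lit 372167079946) (nat_lit 1) (nat_lit 5) (nat_lit 3) (nat_lit 4) (nat_lit 1) (nat_lit 4) (nat_lit 323) (nat_lit 229) (nat_lit 168)) (XT.nd (nat_lit 78) (nat_lit 0) (nat_lit 0) (XT.lf (nat_lit 0) (nat_lit 411155746292) (nat_lit 152) (nat_lit 132135810475) (nat_lit 0) (nat_lit 403960552304) (nat_lit 1) (nat_lit 5) (nat_lit 3) (nat_lit 4) (nat_lit 1) (nat_lit 4) (nat_lit 324) (nat_lit 229) (nat_lit 167)) (XT.lf (nat_lit 0) (nat_lit 445495402188) (nat_lit 152) (nat_lit 139073006850) (nat_lit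 0) (nat_lit 438295656971) (nat_lit 1) (nat_lit 5) (nat_lit 3) (nat_lit 4) (nat_lit 1) (nat_lit 4) (nat_lit 325) (nat_lit 229) (nat_lit 166))))) (XT.nd (nat_lit 234) (nat_lit 0) (nat_lit 0) (XT.nd (nat_lit 78) (nat_lit 0) (nat_lit 0) (XT.lf (nat_lit 0) (nat_lit 482579820553) (nat_lit 152) (nat_lit 146569497638) (nat_lit 0) (nat_lit 475375861235) (nat_lit 1) (nat_lit 5) (nat_lit 3) (nat_lit 4) (nat_lit 1) (nat_lit 4) (nat_lit 326) (nat_lit 229) (nat_lit 165)) (XT.nd (nat_lit 78) (nat_lit 0) (nat_lit 0) (XT.lf (nat_lit 0) (nat_lit 522628760902) (nat_lit 152) (nat_lit 154669706490) (nat_lit 0) (nat_lit 515420899639) (nat_lit 1) (nat_lit 5) (nat_lit 3) (nat_lit 4) (nat_lit 1) (nat_lit 4) (nat_lit 327) (nat_lit 229) (nat_lit 164)) (XT.lf (nat_lit 0) (nat_lit 565879550290) (nat_lit 152) (nat_lit 163421634643) (nat_lit 0) (nat_lit 558668076114) (nat_lit 1) (nat_lit 5) (nat_lit 3) (nat_lit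 4) (nat_lit 1) (nat_lit 4) (nat_lit 328) (nat_lit 229) (nat_lit 163)))) (XT.nd (nat_lit 78) (nat_lit 0) (nat_lit 0) (XT.lf (nat_lit 0) (nat_lit 612588489690) (nat_lit 152) (nat_lit 172877145375) (nat_lit 0) (nat_lit 605373670225) (nat_lit 1) (nat_lit 5) (nat_lit 3) (nat_lit 4) (nat_lit 1) (nat_lit 4) (nat_lit 329) (nat_lit 229) (nat_lit 162)) (XT.nd (nat_lit 78) (nat_lit 0) (nat_lit 0) (XT.lf (nat_lit 0) (nat_lit 663032372818) (nat_lit 152) (nat_lit 183092271342) (nat_lit 0) (nat_lit 655814455863) (nat_lit 1) (nat_lit 5) (nat_lit 3) (nat_lit 4) (nat_lit 1) (nat_lit 4) (nat_lit 330) (nat_lit 229) (nat_lit 161)) (XT.lf (nat_lit 0) (nat_lit 717510126389) (nat_lit 152) (nat_lit 194127546624) (nat_lit 0) (nat_lit 710289341387) (nat_lit 1) (nat_lit 5) (nat_lit 3) (nat_lit 4) (nat_lit 1) (nat_lit 4) (nat_lit 331) (nat_lit 229) (nat_lit 160))))))))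
noncomputable def xc31 : XT := (XT.nd (nat_lit 33384) (nat_lit 0) (nat_lit 0) (XT.nd (nat_lit 32448) (nat_lit 0) (nat_lit 228) (XT.nd (nat_lit 31980) (nat_lit 0) (nat_lit 532) (XT.nd (nat_lit 156) (nat_lit 0) (nat_lit 0) (XT.nd (nat_lit 78) (nat_lit 0) (nat_lit 0) (XT.lf (nat_lit 0) (nat_lit 776344581533) (nat_lit 152) (nat_lit 206048365445) (nat_lit 0) (nat_lit 769121140933) (nat_lit 1) (nat_lit 5) (nat_lit 3) (nat_lit 4) (nat_lit 1) (nat_lit 4) (nat_lit 332) (nat_lit 229) (nat_lit 159)) (XT.lf (nat_lit 0) (nat_lit 839884386876) (nat_lit 152) (nat_lit 218925369694) (nat_lit 0) (nat_lit 832658487388) (nat_lit 1) (nat_lit 5) (nat_lit 3) (nat_lit 4) (nat_lit 1) (nat_lit 4) (nat_lit 333) (nat_lit 229) (nat_lit 158))) (XT.nd (nat_lit 78) (nat_lit 0) (nat_lit 0) (XT.lf (nat_lit 0) (nat_lit 908506074596) (nat_lit 152) (nat_lit 232834867544) (nat_lit 0) (nat_lit 901277898361) (nat_lit 1)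 (nat_lit 5) (nat_lit 3) (nat_lit 4) (nat_lit 1) (nat_lit 4) (nat_lit 334) (nat_lit 229) (nat_lit 157)) (XT.nd (nat_lit 31668) (nat_lit 0) (nat_lit 912) (XT.lf (nat_lit 0) (nat_lit 982616291732) (nat_lit 152) (nat_lit 247859285650) (nat_lit 0) (nat_lit 975386007397) (nat_lit 1) (nat_lit 5) (nat_lit 3) (nat_lit 4) (nat_lit 1) (nat_lit 4) (nat_lit 335) (nat_lit 229) (nat_lit 156)) (XT.lf (nat_lit 0) (nat_lit 39393314) (nat_lit 152) (nat_lit 2561978512) (nat_lit 152) (nat_lit 2561978512) (nat_lit 13) (nat_lit 4) (nat_lit 15) (nat_lit 5) (nat_lit 15) (nat_lit 4) (nat_lit 260) (nat_lit 230) (nat_lit 230))))) (XT.nd (nat_lit 234) (nat_lit 228) (nat_lit 0) (XT.nd (nat_lit 78) (nat_lit 152) (nat_lit 0) (XT.lf (nat_lit 0) (nat_lit 5865699156) (nat_lit 152) (nat_lit 2867120798) (nat_lit 152) (nat_lit 2077314990) (nat_lit 13) (nat_lit 4) (nat_lit 15) (nat_lit 5) (nat_lit 15) (nat_lit 4) (nat_lit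 261) (nat_lit 230) (nat_lit 229)) (XT.nd (nat_lit 78) (nat_lit 0) (nat_lit 0) (XT.lf (nat_lit 0) (nat_lit 484898631) (nat_lit 76) (nat_lit 479527384) (nat_lit 152) (nat_lit 10381664666) (nat_lit 11) (nat_lit 5) (nat_lit 12) (nat_lit 5) (nat_lit 13) (nat_lit 4) (nat_lit 262) (nat_lit 230) (nat_lit 228)) (XT.lf (nat_lit 0) (nat_lit 4132485484) (nat_lit 152) (nat_lit 5692484770) (nat_lit 0) (nat_lit 2097079317) (nat_lit 11) (nat_lit 5) (nat_lit 13) (nat_lit 4) (nat_lit 11) (nat_lit 4) (nat_lit 263) (nat_lit 230) (nat_lit 227)))) (XT.nd (nat_lit 78) (nat_lit 228) (nat_lit 0) (XT.lf (nat_lit 0) (nat_lit 7386837858) (nat_lit 152) (nat_lit 400699954) (nat_lit 0) (nat_lit 4770900844) (nat_lit 11) (nat_lit 5) (nat_lit 13) (nat_lit 4) (nat_lit 11) (nat_lit 4) (nat_lit 264) (nat_lit 230) (nat_lit 226)) (XT.nd (nat_lit 78) (nat_lit 76) (nat_lit 0) (XT.lf (nat_lit 0) (nat_lit 5323349256) (nat_lit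 152) (nat_lit 5539912964) (nat_lit 152) (nat_lit 2386447389) (nat_lit 9) (nat_lit 4) (nat_lit 11) (nat_lit 5) (nat_lit 11) (nat_lit 4) (nat_lit 265) (nat_lit 230) (nat_lit 225)) (XT.lf (nat_lit 0) (nat_lit 436695011) (nat_lit 228) (nat_lit 2742851582) (nat_lit 76) (nat_lit 10828617453) (nat_lit 8) (nat_lit 5) (nat_lit 11) (nat_lit 5) (nat_lit 9) (nat_lit 4) (nat_lit 266) (nat_lit 230) (nat_lit 224)))))) (XT.nd (nat_lit 468) (nat_lit 152) (nat_lit 0) (XT.nd (nat_lit 234) (nat_lit 76) (nat_lit 0) (XT.nd (nat_lit 78) (nat_lit 0) (nat_lit 0) (XT.lf (nat_lit 0) (nat_lit 2686711431) (nat_lit 76) (nat_lit 581910078) (nat_lit 152) (nat_lit 11561486762) (nat_lit 7) (nat_lit 5) (nat_lit 8) (nat_lit 5) (nat_lit 9) (nat_lit 4) (nat_lit 267) (nat_lit 230) (nat_lit 223)) (XT.nd (nat_lit 78) (nat_lit 0) (nat_lit 0) (XT.lf (nat_lit 0) (nat_lit 6308319876) (nat_lit 152) (nat_lit 7305865422) (nat_lit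 0) (nat_lit 2105793198) (nat_lit 7) (nat_lit 5) (nat_lit 9) (nat_lit 4) (nat_lit 7) (nat_lit 4) (nat_lit 268) (nat_lit 230) (nat_lit 222)) (XT.lf (nat_lit 0) (nat_lit 9468159853) (nat_lit 152) (nat_lit 2323539366) (nat_lit 0) (nat_lit 4899800268) (nat_lit 7) (nat_lit 5) (nat_lit 9) (nat_lit 4) (nat_lit 7) (nat_lit 4) (nat_lit 269) (nat_lit 230) (nat_lit 221)))) (XT.nd (nat_lit 78) (nat_lit 0) (nat_lit 0) (XT.lf (nat_lit 0) (nat_lit 2997024477) (nat_lit 76) (nat_lit 9827925501) (nat_lit 76) (nat_lit 4920831743) (nat_lit 6) (nat_lit 4) (nat_lit 7) (nat_lit 5) (nat_lit 7) (nat_lit 4) (nat_lit 270) (nat_lit 230) (nat_lit 220)) (XT.nd (nat_lit 78) (nat_lit 0) (nat_lit 0) (XT.lf (nat_lit 0) (nat_lit 8670426901) (nat_lit 76) (nat_lit 7720016752) (nat_lit 76) (nat_lit 2499280241) (nat_lit 6) (nat_lit 4) (nat_lit 7) (nat_lit 5) (nat_lit 7) (nat_lit 4) (nat_lit 271) (nat_lit 230) (nat_lit 219))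 (XT.lf (nat_lit 0) (nat_lit 14607934605) (nat_lit 76) (nat_lit 5519011342) (nat_lit 76) (nat_lit 7864875) (nat_lit 6) (nat_lit 4) (nat_lit 7) (nat_lit 5) (nat_lit 7) (nat_lit 4) (nat_lit 272) (nat_lit 230) (nat_lit 218))))) (XT.nd (nat_lit 234) (nat_lit 0) (nat_lit 0) (XT.nd (nat_lit 78) (nat_lit 76) (nat_lit 0) (XT.lf (nat_lit 0) (nat_lit 2439707616) (nat_lit 152) (nat_lit 705452733) (nat_lit 76) (nat_lit 18338319272) (nat_lit 5) (nat_lit 5) (nat_lit 7) (nat_lit 5) (nat_lit 6) (nat_lit 4) (nat_lit 273) (nat_lit 230) (nat_lit 217)) (XT.nd (nat_lit 78) (nat_lit 0) (nat_lit 0) (XT.lf (nat_lit 0) (nat_lit 4561256565) (nat_lit 76) (nat_lit 530224622) (nat_lit 152) (nat_lit 17848228481) (nat_lit 4) (nat_lit 5) (nat_lit 5) (nat_lit 5) (nat_lit 6) (nat_lit 4) (nat_lit 274) (nat_lit 230) (nat_lit 216)) (XT.lf (nat_lit 0) (nat_lit 7931395307) (nat_lit 152) (nat_lit 14447818346) (nat_lit 0)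 (nat_lit 2135505407) (nat_lit 4) (nat_lit 5) (nat_lit 6) (nat_lit 4) (nat_lit 4) (nat_lit 4) (nat_lit 275) (nat_lit 230) (nat_lit 215)))) (XT.nd (nat_lit 78) (nat_lit 0) (nat_lit 0) (XT.lf (nat_lit 0) (nat_lit 10920645778) (nat_lit 152) (nat_lit 10374538334) (nat_lit 0) (nat_lit 4927107742) (nat_lit 4) (nat_lit 5) (nat_lit 6) (nat_lit 4) (nat_lit 4) (nat_lit 4) (nat_lit 276) (nat_lit 230) (nat_lit 214)) (XT.nd (nat_lit 78) (nat_lit 0) (nat_lit 0) (XT.lf (nat_lit 0) (nat_lit 14064194762) (nat_lit 152) (nat_lit 6121723196) (nat_lit 0) (nat_lit 7887649192) (nat_lit 4) (nat_lit 5) (nat_lit 6) (nat_lit 4) (nat_lit 4) (nat_lit 4) (nat_lit 277) (nat_lit 230) (nat_lit 213)) (XT.lf (nat_lit 0) (nat_lit 17380670698) (nat_lit 152) (nat_lit 1664171065) (nat_lit 0) (nat_lit 11034673708) (nat_lit 4) (nat_lit 5) (nat_lit 6) (nat_lit 4) (nat_lit 4) (nat_lit 4) (nat_lit 278) (nat_lit 230) (nat_lit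 212))))))) (XT.nd (nat_lit 858) (nat_lit 0) (nat_lit 0) (XT.nd (nat_lit 390) (nat_lit 152) (nat_lit 0) (XT.nd (nat_lit 156) (nat_lit 0) (nat_lit 0) (XT.nd (nat_lit 78) (nat_lit 0) (nat_lit 0) (XT.lf (nat_lit 0) (nat_lit 3183799739) (nat_lit 76) (nat_lit 17782497497) (nat_lit 76) (nat_lit 11279601044) (nat_lit 3) (nat_lit 4) (nat_lit 4) (nat_lit 5) (nat_lit 4) (nat_lit 4) (nat_lit 279) (nat_lit 230) (nat_lit 211)) (XT.lf (nat_lit 0) (nat_lit 8391975040) (nat_lit 76) (nat_lit 16422009565) (nat_lit 76) (nat_lit 9773835832) (nat_lit 3) (nat_lit 4) (nat_lit 4) (nat_lit 5) (nat_lit 4) (nat_lit 4) (nat_lit 280) (nat_lit 230) (nat_lit 210))) (XT.nd (nat_lit 78) (nat_lit 0) (nat_lit 0) (XT.lf (nat_lit 0) (nat_lit 13903585797) (nat_lit 76) (nat_lit 15000817203) (nat_lit 76) (nat_lit 8218127469) (nat_lit 3) (nat_lit 4) (nat_lit 4) (nat_lit 5) (nat_lit 4) (nat_lit 4) (nat_lit 281) (nat_lit 230)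 (nat_lit 209)) (XT.nd (nat_lit 78) (nat_lit 0) (nat_lit 0) (XT.lf (nat_lit 0) (nat_lit 19751293409) (nat_lit 76) (nat_lit 13510498531) (nat_lit 76) (nat_lit 6603256944) (nat_lit 3) (nat_lit 4) (nat_lit 4) (nat_lit 5) (nat_lit 4) (nat_lit 4) (nat_lit 282) (nat_lit 230) (nat_lit 208)) (XT.lf (nat_lit 0) (nat_lit 25969750958) (nat_lit 76) (nat_lit 11942222029) (nat_lit 76) (nat_lit 4919654653) (nat_lit 3) (nat_lit 4) (nat_lit 4) (nat_lit 5) (nat_lit 4) (nat_lit 4) (nat_lit 283) (nat_lit 230) (nat_lit 207))))) (XT.nd (nat_lit 234) (nat_lit 76) (nat_lit 0) (XT.nd (nat_lit 78) (nat_lit 76) (nat_lit 0) (XT.lf (nat_lit 0) (nat_lit 32595808561) (nat_lit 76) (nat_lit 10286694209) (nat_lit 76) (nat_lit 3157343694) (nat_lit 3) (nat_lit 4) (nat_lit 4) (nat_lit 5) (nat_lit 4) (nat_lit 4) (nat_lit 284) (nat_lit 230) (nat_lit 206)) (XT.nd (nat_lit 78) (nat_lit 76) (nat_lit 0) (XT.lf (nat_lit 0) (nat_lit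 39668731746) (nat_lit 76) (nat_lit 8534104533) (nat_lit 76) (nat_lit 1305880743) (nat_lit 3) (nat_lit 4) (nat_lit 4) (nat_lit 5) (nat_lit 4) (nat_lit 4) (nat_lit 285) (nat_lit 230) (nat_lit 205)) (XT.lf (nat_lit 0) (nat_lit 613405011) (nat_lit 152) (nat_lit 6043890696) (nat_lit 76) (nat_lit 46600257540) (nat_lit 2) (nat_lit 5) (nat_lit 4) (nat_lit 5) (nat_lit 3) (nat_lit 4) (nat_lit 286) (nat_lit 230) (nat_lit 204)))) (XT.nd (nat_lit 78) (nat_lit 76) (nat_lit 0) (XT.lf (nat_lit 0) (nat_lit 2573466789) (nat_lit 152) (nat_lit 2051730095) (nat_lit 76) (nat_lit 52681895874) (nat_lit 2) (nat_lit 5) (nat_lit 4) (nat_lit 5) (nat_lit 3) (nat_lit 4) (nat_lit 287) (nat_lit 230) (nat_lit 203)) (XT.nd (nat_lit 78) (nat_lit 0) (nat_lit 0) (XT.lf (nat_lit 0) (nat_lit 2306963914) (nat_lit 76) (nat_lit 2399763838) (nat_lit 152) (nat_lit 56972678988) (nat_lit 1) (nat_lit 5) (nat_lit 2) (nat_lit 5)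 (nat_lit 3) (nat_lit 4) (nat_lit 288) (nat_lit 230) (nat_lit 202)) (XT.lf (nat_lit 0) (nat_lit 7029810349) (nat_lit 152) (nat_lit 59336488834) (nat_lit 0) (nat_lit 33787550) (nat_lit 1) (nat_lit 5) (nat_lit 3) (nat_lit 4) (nat_lit 1) (nat_lit 4) (nat_lit 289) (nat_lit 230) (nat_lit 201)))))) (XT.nd (nat_lit 468) (nat_lit 0) (nat_lit 0) (XT.nd (nat_lit 234) (nat_lit 0) (nat_lit 0) (XT.nd (nat_lit 78) (nat_lit 0) (nat_lit 0) (XT.lf (nat_lit 0) (nat_lit 9565438349) (nat_lit 152) (nat_lit 59423843580) (nat_lit 0) (nat_lit 2507108615) (nat_lit 1) (nat_lit 5) (nat_lit 3) (nat_lit 4) (nat_lit 1) (nat_lit 4) (nat_lit 290) (nat_lit 230) (nat_lit 200)) (XT.nd (nat_lit 78) (nat_lit 0) (nat_lit 0) (XT.lf (nat_lit 0) (nat_lit 12270923321) (nat_lit 152) (nat_lit 59577310345) (nat_lit 0) (nat_lit 5154901980) (nat_lit 1) (nat_lit 5) (nat_lit 3) (nat_lit 4) (nat_lit 1) (nat_lit 4) (nat_lit 291) (nat_lit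 230) (nat_lit 199)) (XT.lf (nat_lit 0) (nat_lit 15162297766) (nat_lit 152) (nat_lit 59797798562) (nat_lit 0) (nat_lit 7992858271) (nat_lit 1) (nat_lit 5) (nat_lit 3) (nat_lit 4) (nat_lit 1) (nat_lit 4) (nat_lit 292) (nat_lit 230) (nat_lit 198)))) (XT.nd (nat_lit 78) (nat_lit 0) (nat_lit 0) (XT.lf (nat_lit 0) (nat_lit 18256695757) (nat_lit 152) (nat_lit 60086614826) (nat_lit 0) (nat_lit 11037795007) (nat_lit 1) (nat_lit 5) (nat_lit 3) (nat_lit 4) (nat_lit 1) (nat_lit 4) (nat_lit 293) (nat_lit 230) (nat_lit 197)) (XT.nd (nat_lit 78) (nat_lit 0) (nat_lit 0) (XT.lf (nat_lit 0) (nat_lit 21572454467) (nat_lit 152) (nat_lit 60445470643) (nat_lit 0) (nat_lit 14307756259) (nat_lit 1) (nat_lit 5) (nat_lit 3) (nat_lit 4) (nat_lit 1) (nat_lit 4) (nat_lit 294) (nat_lit 230) (nat_lit 196)) (XT.lf (nat_lit 0) (nat_lit 25129222835) (nat_lit 152) (nat_lit 60876492566) (nat_lit 0) (nat_lit 17822119574)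 (nat_lit 1) (nat_lit 5) (nat_lit 3) (nat_lit 4) (nat_lit 1) (nat_lit 4) (nat_lit 295) (nat_lit 230) (nat_lit 195))))) (XT.nd (nat_lit 234) (nat_lit 0) (nat_lit 0) (XT.nd (nat_lit 78) (nat_lit 0) (nat_lit 0) (XT.lf (nat_lit 0) (nat_lit 28948078008) (nat_lit 152) (nat_lit 61382234797) (nat_lit 0) (nat_lit 21601710809) (nat_lit 1) (nat_lit 5) (nat_lit 3) (nat_lit 4) (nat_lit 1) (nat_lit 4) (nat_lit 296) (nat_lit 230) (nat_lit 194)) (XT.nd (nat_lit 78) (nat_lit 0) (nat_lit 0) (XT.lf (nat_lit 0) (nat_lit 33051650239) (nat_lit 152) (nat_lit 61965694328) (nat_lit 0) (nat_lit 25668927541) (nat_lit 1) (nat_lit 5) (nat_lit 3) (nat_lit 4) (nat_lit 1) (nat_lit 4) (nat_lit 297) (nat_lit 230) (nat_lit 193)) (XT.lf (nat_lit 0) (nat_lit 37464256993) (nat_lit 152) (nat_lit 62630328698) (nat_lit 0) (nat_lit 30047871796) (nat_lit 1) (nat_lit 5) (nat_lit 3) (nat_lit 4) (nat_lit 1) (nat_lit 4) (nat_lit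 298) (nat_lit 230) (nat_lit 192)))) (XT.nd (nat_lit 78) (nat_lit 0) (nat_lit 0) (XT.lf (nat_lit 0) (nat_lit 42212047050) (nat_lit 152) (nat_lit 63380076480) (nat_lit 0) (nat_lit 34764492873) (nat_lit 1) (nat_lit 5) (nat_lit 3) (nat_lit 4) (nat_lit 1) (nat_lit 4) (nat_lit 299) (nat_lit 230) (nat_lit 191)) (XT.nd (nat_lit 78) (nat_lit 0) (nat_lit 0) (XT.lf (nat_lit 0) (nat_lit 47323155463) (nat_lit 152) (nat_lit 64219380623) (nat_lit 0) (nat_lit 39846741119) (nat_lit 1) (nat_lit 5) (nat_lit 3) (nat_lit 4) (nat_lit 1) (nat_lit 4) (nat_lit 300) (nat_lit 230) (nat_lit 190)) (XT.lf (nat_lit 0) (nat_lit 52827870281) (nat_lit 152) (nat_lit 65153214783) (nat_lit 0) (nat_lit 45324733561) (nat_lit 1) (nat_lit 5) (nat_lit 3) (nat_lit 4) (nat_lit 1) (nat_lit 4) (nat_lit 301) (nat_lit 230) (nat_lit 189))))))))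
noncomputable def xc32 : XT := (XT.nd (nat_lit 1716) (nat_lit 0) (nat_lit 0) (XT.nd (nat_lit 858) (nat_lit 0) (nat_lit 0) (XT.nd (nat_lit 390) (nat_lit 0) (nat_lit 0) (XT.nd (nat_lit 156) (nat_lit 0) (nat_lit 0) (XT.nd (nat_lit 78) (nat_lit 0) (nat_lit 0) (XT.lf (nat_lit 0) (nat_lit 58758812037) (nat_lit 152) (nat_lit 66187112791) (nat_lit 0) (nat_lit 51230932376) (nat_lit 1) (nat_lit 5) (nat_lit 3) (nat_lit 4) (nat_lit 1) (nat_lit 4) (nat_lit 302) (nat_lit 230) (nat_lit 188)) (XT.lf (nat_lit 0) (nat_lit 65151127053) (nat_lit 152) (nat_lit 67327201450) (nat_lit 0) (nat_lit 57600337261) (nat_lit 1) (nat_lit 5) (nat_lit 3) (nat_lit 4) (nat_lit 1) (nat_lit 4) (nat_lit 303) (nat_lit 230) (nat_lit 187))) (XT.nd (nat_lit 78) (nat_lit 0) (nat_lit 0) (XT.lf (nat_lit 0) (nat_lit 72042695713) (nat_lit 152) (nat_lit 68580236842) (nat_lit 0) (nat_lit 64470692837) (nat_lit 1) (nat_lit 5) (nat_lit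 3) (nat_lit 4) (nat_lit 1) (nat_lit 4) (nat_lit 304) (nat_lit 230) (nat_lit 186)) (XT.nd (nat_lit 78) (nat_lit 0) (nat_lit 0) (XT.lf (nat_lit 0) (nat_lit 79474356944) (nat_lit 152) (nat_lit 69953644360) (nat_lit 0) (nat_lit 71882712323) (nat_lit 1) (nat_lit 5) (nat_lit 3) (nat_lit 4) (nat_lit 1) (nat_lit 4) (nat_lit 305) (nat_lit 230) (nat_lit 185)) (XT.lf (nat_lit 0) (nat_lit 87490150218) (nat_lit 152) (nat_lit 71455562717) (nat_lit 0) (nat_lit 79880318797) (nat_lit 1) (nat_lit 5) (nat_lit 3) (nat_lit 4) (nat_lit 1) (nat_lit 4) (nat_lit 306) (nat_lit 230) (nat_lit 184))))) (XT.nd (nat_lit 234) (nat_lit 0) (nat_lit 0) (XT.nd (nat_lit 78) (nat_lit 0) (nat_lit 0) (XT.lf (nat_lit 0) (nat_lit 96137576534) (nat_lit 152) (nat_lit 73094892169) (nat_lit 0) (nat_lit 88510905482) (nat_lit 1) (nat_lit 5) (nat_lit 3) (nat_lit 4) (nat_lit 1) (nat_lit 4) (nat_lit 307) (nat_lit 230) (nat_lit 183))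 (XT.nd (nat_lit 78) (nat_lit 0) (nat_lit 0) (XT.lf (nat_lit 0) (nat_lit 105467879898) (nat_lit 152) (nat_lit 74881347261) (nat_lit 0) (nat_lit 97825616596) (nat_lit 1) (nat_lit 5) (nat_lit 3) (nat_lit 4) (nat_lit 1) (nat_lit 4) (nat_lit 308) (nat_lit 230) (nat_lit 182)) (XT.lf (nat_lit 0) (nat_lit 115536350998) (nat_lit 152) (nat_lit 76825514394) (nat_lit 0) (nat_lit 107879650428) (nat_lit 1) (nat_lit 5) (nat_lit 3) (nat_lit 4) (nat_lit 1) (nat_lit 4) (nat_lit 309) (nat_lit 230) (nat_lit 181)))) (XT.nd (nat_lit 78) (nat_lit 0) (nat_lit 0) (XT.lf (nat_lit 0) (nat_lit 126402654848) (nat_lit 152) (nat_lit 78938914557) (nat_lit 0) (nat_lit 118732586436) (nat_lit 1) (nat_lit 5) (nat_lit 3) (nat_lit 4) (nat_lit 1) (nat_lit 4) (nat_lit 310) (nat_lit 230) (nat_lit 180)) (XT.nd (nat_lit 78) (nat_lit 0) (nat_lit 0) (XT.lf (nat_lit 0) (nat_lit 138131184359) (nat_lit 152) (nat_lit 81234071605)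 (nat_lit 0) (nat_lit 130448738316) (nat_lit 1) (nat_lit 5) (nat_lit 3) (nat_lit 4) (nat_lit 1) (nat_lit 4) (nat_lit 311) (nat_lit 230) (nat_lit 179)) (XT.lf (nat_lit 0) (nat_lit 150791441928) (nat_lit 152) (nat_lit 83724586467) (nat_lit 0) (nat_lit 143097535116) (nat_lit 1) (nat_lit 5) (nat_lit 3) (nat_lit 4) (nat_lit 1) (nat_lit 4) (nat_lit 312) (nat_lit 230) (nat_lit 178)))))) (XT.nd (nat_lit 390) (nat_lit 0) (nat_lit 0) (XT.nd (nat_lit 156) (nat_lit 0) (nat_lit 0) (XT.nd (nat_lit 78) (nat_lit 0) (nat_lit 0) (XT.lf (nat_lit 0) (nat_lit 164458451304) (nat_lit 152) (nat_lit 86425217751) (nat_lit 0) (nat_lit 156753932668) (nat_lit 1) (nat_lit 5) (nat_lit 3) (nat_lit 4) (nat_lit 1) (nat_lit 4) (nat_lit 313) (nat_lit 230) (nat_lit 177)) (XT.lf (nat_lit 0) (nat_lit 179213202172) (nat_lit 152) (nat_lit 89351969196) (nat_lit 0) (nat_lit 171498857774) (nat_lit 1) (nat_lit 5) (nat_lit 3) (nat_lit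 4) (nat_lit 1) (nat_lit 4) (nat_lit 314) (nat_lit 230) (nat_lit 176))) (XT.nd (nat_lit 78) (nat_lit 0) (nat_lit 0) (XT.lf (nat_lit 0) (nat_lit 195143130093) (nat_lit 152) (nat_lit 92522184516) (nat_lit 0) (nat_lit 187419687766) (nat_lit 1) (nat_lit 5) (nat_lit 3) (nat_lit 4) (nat_lit 1) (nat_lit 4) (nat_lit 315) (nat_lit 230) (nat_lit 175)) (XT.nd (nat_lit 78) (nat_lit 0) (nat_lit 0) (XT.lf (nat_lit 0) (nat_lit 212342634639) (nat_lit 152) (nat_lit 95954650172) (nat_lit 0) (nat_lit 204610768305) (nat_lit 1) (nat_lit 5) (nat_lit 3) (nat_lit 4) (nat_lit 1) (nat_lit 4) (nat_lit 316) (nat_lit 230) (nat_lit 174)) (XT.lf (nat_lit 0) (nat_lit 230913638801) (nat_lit 152) (nat_lit 99669706700) (nat_lit 0) (nat_lit 223173972460) (nat_lit 1) (nat_lit 5) (nat_lit 3) (nat_lit 4) (nat_lit 1) (nat_lit 4) (nat_lit 317) (nat_lit 230) (nat_lit 173))))) (XT.nd (nat_lit 234) (nat_lit 0) (nat_lit 0) (XT.nd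 (nat_lit 78) (nat_lit 0) (nat_lit 0) (XT.lf (nat_lit 0) (nat_lit 250966192973) (nat_lit 152) (nat_lit 103689369251) (nat_lit 0) (nat_lit 243219304404) (nat_lit 1) (nat_lit 5) (nat_lit 3) (nat_lit 4) (nat_lit 1) (nat_lit 4) (nat_lit 318) (nat_lit 230) (nat_lit 172)) (XT.nd (nat_lit 78) (nat_lit 0) (nat_lit 0) (XT.lf (nat_lit 0) (nat_lit 272619127107) (nat_lit 152) (nat_lit 108037458046) (nat_lit 0) (nat_lit 264865551289) (nat_lit 1) (nat_lit 5) (nat_lit 3) (nat_lit 4) (nat_lit 1) (nat_lit 4) (nat_lit 319) (nat_lit 230) (nat_lit 171)) (XT.lf (nat_lit 0) (nat_lit 296000754885) (nat_lit 152) (nat_lit 112739739539) (nat_lit 0) (nat_lit 288240987170) (nat_lit 1) (nat_lit 5) (nat_lit 3) (nat_lit 4) (nat_lit 1) (nat_lit 4) (nat_lit 320) (nat_lit 230) (nat_lit 170)))) (XT.nd (nat_lit 78) (nat_lit 0) (nat_lit 0) (XT.lf (nat_lit 0) (nat_lit 321249634103) (nat_lit 152) (nat_lit 117824079101) (nat_lit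 0) (nat_lit 313484133150) (nat_lit 1) (nat_lit 5) (nat_lit 3) (nat_lit 4) (nat_lit 1) (nat_lit 4) (nat_lit 321) (nat_lit 230) (nat_lit 169)) (XT.nd (nat_lit 78) (nat_lit 0) (nat_lit 0) (XT.lf (nat_lit 0) (nat_lit 348515387748) (nat_lit 152) (nat_lit 123320606152) (nat_lit 0) (nat_lit 340744578241) (nat_lit 1) (nat_lit 5) (nat_lit 3) (nat_lit 4) (nat_lit 1) (nat_lit 4) (nat_lit 322) (nat_lit 230) (nat_lit 168)) (XT.lf (nat_lit 0) (nat_lit 377959590657) (nat_lit 152) (nat_lit 129261892703) (nat_lit 0) (nat_lit 370183865822) (nat_lit 1) (nat_lit 5) (nat_lit 3) (nat_lit 4) (nat_lit 1) (nat_lit 4) (nat_lit 323) (nat_lit 230) (nat_lit 167))))))) (XT.nd (nat_lit 32370) (nat_lit 0) (nat_lit 456) (XT.nd (nat_lit 390) (nat_lit 0) (nat_lit 0) (XT.nd (nat_lit 156) (nat_lit 0) (nat_lit 0) (XT.nd (nat_lit 78) (nat_lit 0) (nat_lit 0) (XT.lf (nat_lit 0) (nat_lit 409756726994) (nat_lit 152) (nat_lit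 135683146379) (nat_lit 0) (nat_lit 401976450931) (nat_lit 1) (nat_lit 5) (nat_lit 3) (nat_lit 4) (nat_lit 1) (nat_lit 4) (nat_lit 324) (nat_lit 230) (nat_lit 166)) (XT.lf (nat_lit 0) (nat_lit 444095224235) (nat_lit 152) (nat_lit 142622419053) (nat_lit 0) (nat_lit 436310734071) (nat_lit 1) (nat_lit 5) (nat_lit 3) (nat_lit 4) (nat_lit 1) (nat_lit 4) (nat_lit 325) (nat_lit 230) (nat_lit 165))) (XT.nd (nat_lit 78) (nat_lit 0) (nat_lit 0) (XT.lf (nat_lit 0) (nat_lit 481178569771) (nat_lit 152) (nat_lit 150120832342) (nat_lit 0) (nat_lit 473390177661) (nat_lit 1) (nat_lit 5) (nat_lit 3) (nat_lit 4) (nat_lit 1) (nat_lit 4) (nat_lit 326) (nat_lit 230) (nat_lit 164)) (XT.nd (nat_lit 78) (nat_lit 0) (nat_lit 0) (XT.lf (nat_lit 0) (nat_lit 521226516760) (nat_lit 152) (nat_lit 158222821286) (nat_lit 0) (nat_lit 513434511737) (nat_lit 1) (nat_lit 5) (nat_lit 3) (nat_lit 4) (nat_lit 1) (nat_lit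 4) (nat_lit 327) (nat_lit 230) (nat_lit 163)) (XT.lf (nat_lit 0) (nat_lit 564476386370) (nat_lit 152) (nat_lit 166976397673) (nat_lit 0) (nat_lit 556681036058) (nat_lit 1) (nat_lit 5) (nat_lit 3) (nat_lit 4) (nat_lit 1) (nat_lit 4) (nat_lit 328) (nat_lit 230) (nat_lit 162))))) (XT.nd (nat_lit 234) (nat_lit 0) (nat_lit 0) (XT.nd (nat_lit 78) (nat_lit 0) (nat_lit 0) (XT.lf (nat_lit 0) (nat_lit 611184474124) (nat_lit 152) (nat_lit 176433434548) (nat_lit 0) (nat_lit 603386026321) (nat_lit 1) (nat_lit 5) (nat_lit 3) (nat_lit 4) (nat_lit 1) (nat_lit 4) (nat_lit 329) (nat_lit 230) (nat_lit 161)) (XT.nd (nat_lit 78) (nat_lit 0) (nat_lit 0) (XT.lf (nat_lit 0) (nat_lit 661627568690) (nat_lit 152) (nat_lit 186649973610) (nat_lit 0) (nat_lit 653826252842) (nat_lit 1) (nat_lit 5) (nat_lit 3) (nat_lit 4) (nat_lit 1) (nat_lit 4) (nat_lit 330) (nat_lit 230) (nat_lit 160)) (XT.lf (nat_lit 0) (nat_lit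 716104592111) (nat_lit 152) (nat_lit 197686557313) (nat_lit 0) (nat_lit 708300620664) (nat_lit 1) (nat_lit 5) (nat_lit 3) (nat_lit 4) (nat_lit 1) (nat_lit 4) (nat_lit 331) (nat_lit 230) (nat_lit 159)))) (XT.nd (nat_lit 78) (nat_lit 0) (nat_lit 0) (XT.lf (nat_lit 0) (nat_lit 774938371191) (nat_lit 152) (nat_lit 209608587635) (nat_lit 0) (nat_lit 767131940857) (nat_lit 1) (nat_lit 5) (nat_lit 3) (nat_lit 4) (nat_lit 1) (nat_lit 4) (nat_lit 332) (nat_lit 230) (nat_lit 158)) (XT.nd (nat_lit 78) (nat_lit 0) (nat_lit 0) (XT.lf (nat_lit 0) (nat_lit 838477550548) (nat_lit 152) (nat_lit 222486713645) (nat_lit 0) (nat_lit 830668843466) (nat_lit 1) (nat_lit 5) (nat_lit 3) (nat_lit 4) (nat_lit 1) (nat_lit 4) (nat_lit 333) (nat_lit 230) (nat_lit 157)) (XT.lf (nat_lit 0) (nat_lit 907098658652) (nat_lit 152) (nat_lit 236397250162) (nat_lit 0) (nat_lit 899287843471) (nat_lit 1) (nat_lit 5) (nat_lit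 3) (nat_lit 4) (nat_lit 1) (nat_lit 4) (nat_lit 334) (nat_lit 230) (nat_lit 156)))))) (XT.nd (nat_lit 468) (nat_lit 304) (nat_lit 0) (XT.nd (nat_lit 234) (nat_lit 304) (nat_lit 0) (XT.nd (nat_lit 78) (nat_lit 228) (nat_lit 0) (XT.lf (nat_lit 0) (nat_lit 4302454420) (nat_lit 152) (nat_lit 219005598) (nat_lit 152) (nat_lit 219005598) (nat_lit 18) (nat_lit 4) (nat_lit 20) (nat_lit 5) (nat_lit 20) (nat_lit 4) (nat_lit 258) (nat_lit 231) (nat_lit 231)) (XT.nd (nat_lit 78) (nat_lit 0) (nat_lit 0) (XT.lf (nat_lit 0) (nat_lit 2727480488) (nat_lit 228) (nat_lit 5283114993) (nat_lit 0) (nat_lit 1874490216) (nat_lit 15) (nat_lit 5) (nat_lit 18) (nat_lit 4) (nat_lit 15) (nat_lit 4) (nat_lit 259) (nat_lit 231) (nat_lit 230)) (XT.lf (nat_lit 0) (nat_lit 5956932187) (nat_lit 228) (nat_lit 64178396) (nat_lit 0) (nat_lit 4314136107) (nat_lit 15) (nat_lit 5) (nat_lit 18) (nat_lit 4) (nat_lit 15) (nat_lit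 4) (nat_lit 260) (nat_lit 231) (nat_lit 229)))) (XT.nd (nat_lit 78) (nat_lit 152) (nat_lit 0) (XT.lf (nat_lit 0) (nat_lit 5583850399) (nat_lit 152) (nat_lit 3808545811) (nat_lit 152) (nat_lit 1434448057) (nat_lit 13) (nat_lit 4) (nat_lit 15) (nat_lit 5) (nat_lit 15) (nat_lit 4) (nat_lit 261) (nat_lit 231) (nat_lit 228)) (XT.nd (nat_lit 78) (nat_lit 0) (nat_lit 0) (XT.lf (nat_lit 0) (nat_lit 16808269) (nat_lit 76) (nat_lit 1458209616) (nat_lit 152) (nat_lit 9895064083) (nat_lit 11) (nat_lit 5) (nat_lit 12) (nat_lit 5) (nat_lit 13) (nat_lit 4) (nat_lit 262) (nat_lit 231) (nat_lit 227)) (XT.lf (nat_lit 0) (nat_lit 4533190451) (nat_lit 152) (nat_lit 6294665525) (nat_lit 0) (nat_lit 1127447630) (nat_lit 11) (nat_lit 5) (nat_lit 13) (nat_lit 4) (nat_lit 11) (nat_lit 4) (nat_lit 263) (nat_lit 231) (nat_lit 226))))) (XT.nd (nat_lit 234) (nat_lit 76) (nat_lit 0) (XT.nd (nat_lit 78) (nat_lit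 228) (nat_lit 0) (XT.lf (nat_lit 0) (nat_lit 7707589518) (nat_lit 152) (nat_lit 1126618151) (nat_lit 0) (nat_lit 3764318135) (nat_lit 11) (nat_lit 5) (nat_lit 13) (nat_lit 4) (nat_lit 11) (nat_lit 4) (nat_lit 264) (nat_lit 231) (nat_lit 225)) (XT.nd (nat_lit 78) (nat_lit 76) (nat_lit 0) (XT.lf (nat_lit 0) (nat_lit 4438600645) (nat_lit 152) (nat_lit 6650104171) (nat_lit 152) (nat_lit 2209121156) (nat_lit 9) (nat_lit 4) (nat_lit 11) (nat_lit 5) (nat_lit 11) (nat_lit 4) (nat_lit 265) (nat_lit 231) (nat_lit 224)) (XT.lf (nat_lit 0) (nat_lit 531711905) (nat_lit 228) (nat_lit 3795866352) (nat_lit 76) (nat_lit 9734582861) (nat_lit 8) (nat_lit 5) (nat_lit 11) (nat_lit 5) (nat_lit 9) (nat_lit 4) (nat_lit 266) (nat_lit 231) (nat_lit 223)))) (XT.nd (nat_lit 78) (nat_lit 0) (nat_lit 0) (XT.lf (nat_lit 0) (nat_lit 1465295474) (nat_lit 76) (nat_lit 1800968994) (nat_lit 152) (nat_lit 11625951888)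 (nat_lit 7) (nat_lit 5) (nat_lit 8) (nat_lit 5) (nat_lit 9) (nat_lit 4) (nat_lit 267) (nat_lit 231) (nat_lit 222)) (XT.nd (nat_lit 78) (nat_lit 0) (nat_lit 0) (XT.lf (nat_lit 0) (nat_lit 6210226743) (nat_lit 152) (nat_lit 8669250552) (nat_lit 0) (nat_lit 910565484) (nat_lit 7) (nat_lit 5) (nat_lit 9) (nat_lit 4) (nat_lit 7) (nat_lit 4) (nat_lit 268) (nat_lit 231) (nat_lit 221)) (XT.lf (nat_lit 0) (nat_lit 9308568854) (nat_lit 152) (nat_lit 3788016611) (nat_lit 0) (nat_lit 3670173422) (nat_lit 7) (nat_lit 5) (nat_lit 9) (nat_lit 4) (nat_lit 7) (nat_lit 4) (nat_lit 269) (nat_lit 231) (nat_lit 220))))))))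
noncomputable def xc33 : XT := (XT.nd (nat_lit 1794) (nat_lit 0) (nat_lit 0) (XT.nd (nat_lit 858) (nat_lit 152) (nat_lit 0) (XT.nd (nat_lit 390) (nat_lit 76) (nat_lit 0) (XT.nd (nat_lit 156) (nat_lit 152) (nat_lit 0) (XT.nd (nat_lit 78) (nat_lit 0) (nat_lit 0) (XT.lf (nat_lit 0) (nat_lit 1356897633) (nat_lit 76) (nat_lit 11212073788) (nat_lit 76) (nat_lit 5260035603) (nat_lit 6) (nat_lit 4) (nat_lit 7) (nat_lit 5) (nat_lit 7) (nat_lit 4) (nat_lit 270) (nat_lit 231) (nat_lit 219)) (XT.lf (nat_lit 0) (nat_lit 6939065964) (nat_lit 76) (nat_lit 9140480442) (nat_lit 76) (nat_lit 2898032301) (nat_lit 6) (nat_lit 4) (nat_lit 7) (nat_lit 5) (nat_lit 7) (nat_lit 4) (nat_lit 271) (nat_lit 231) (nat_lit 218))) (XT.nd (nat_lit 78) (nat_lit 152) (nat_lit 0) (XT.lf (nat_lit 0) (nat_lit 12792097655) (nat_lit 76) (nat_lit 6973100407) (nat_lit 76) (nat_lit 461754158) (nat_lit 6) (nat_lit 4) (nat_lit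 7) (nat_lit 5) (nat_lit 7) (nat_lit 4) (nat_lit 272) (nat_lit 231) (nat_lit 217)) (XT.nd (nat_lit 78) (nat_lit 76) (nat_lit 0) (XT.lf (nat_lit 0) (nat_lit 1960024606) (nat_lit 152) (nat_lit 2683474797) (nat_lit 76) (nat_lit 16937062185) (nat_lit 5) (nat_lit 5) (nat_lit 7) (nat_lit 5) (nat_lit 6) (nat_lit 4) (nat_lit 273) (nat_lit 231) (nat_lit 216)) (XT.lf (nat_lit 0) (nat_lit 2400165214) (nat_lit 76) (nat_lit 2114752083) (nat_lit 152) (nat_lit 18529798286) (nat_lit 4) (nat_lit 5) (nat_lit 5) (nat_lit 5) (nat_lit 6) (nat_lit 4) (nat_lit 274) (nat_lit 231) (nat_lit 215))))) (XT.nd (nat_lit 234) (nat_lit 76) (nat_lit 0) (XT.nd (nat_lit 78) (nat_lit 0) (nat_lit 0) (XT.lf (nat_lit 0) (nat_lit 7272671164) (nat_lit 152) (nat_lit 16751785312) (nat_lit 0) (nat_lit 602001948) (nat_lit 4) (nat_lit 5) (nat_lit 6) (nat_lit 4) (nat_lit 4) (nat_lit 4) (nat_lit 275) (nat_lit 231) (nat_lit 214)) (XT.nd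 (nat_lit 78) (nat_lit 0) (nat_lit 0) (XT.lf (nat_lit 0) (nat_lit 10221132440) (nat_lit 152) (nat_lit 12748854952) (nat_lit 0) (nat_lit 3367455691) (nat_lit 4) (nat_lit 5) (nat_lit 6) (nat_lit 4) (nat_lit 4) (nat_lit 4) (nat_lit 276) (nat_lit 231) (nat_lit 213)) (XT.lf (nat_lit 0) (nat_lit 13326913652) (nat_lit 152) (nat_lit 8561178380) (nat_lit 0) (nat_lit 6303785483) (nat_lit 4) (nat_lit 5) (nat_lit 6) (nat_lit 4) (nat_lit 4) (nat_lit 4) (nat_lit 277) (nat_lit 231) (nat_lit 212)))) (XT.nd (nat_lit 78) (nat_lit 76) (nat_lit 0) (XT.lf (nat_lit 0) (nat_lit 16608419428) (nat_lit 152) (nat_lit 4163939737) (nat_lit 0) (nat_lit 9428391796) (nat_lit 4) (nat_lit 5) (nat_lit 6) (nat_lit 4) (nat_lit 4) (nat_lit 4) (nat_lit 278) (nat_lit 231) (nat_lit 211)) (XT.nd (nat_lit 78) (nat_lit 0) (nat_lit 0) (XT.lf (nat_lit 0) (nat_lit 493611116) (nat_lit 76) (nat_lit 19603355972) (nat_lit 76) (nat_lit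 12278051059) (nat_lit 3) (nat_lit 4) (nat_lit 4) (nat_lit 5) (nat_lit 4) (nat_lit 4) (nat_lit 279) (nat_lit 231) (nat_lit 210)) (XT.lf (nat_lit 0) (nat_lit 5647354413) (nat_lit 76) (nat_lit 18266009677) (nat_lit 76) (nat_lit 10806188763) (nat_lit 3) (nat_lit 4) (nat_lit 4) (nat_lit 5) (nat_lit 4) (nat_lit 4) (nat_lit 280) (nat_lit 231) (nat_lit 209)))))) (XT.nd (nat_lit 468) (nat_lit 152) (nat_lit 0) (XT.nd (nat_lit 234) (nat_lit 0) (nat_lit 0) (XT.nd (nat_lit 78) (nat_lit 0) (nat_lit 0) (XT.lf (nat_lit 0) (nat_lit 11108565167) (nat_lit 76) (nat_lit 16866244757) (nat_lit 76) (nat_lit 9281871990) (nat_lit 3) (nat_lit 4) (nat_lit 4) (nat_lit 5) (nat_lit 4) (nat_lit 4) (nat_lit 281) (nat_lit 231) (nat_lit 208)) (XT.nd (nat_lit 78) (nat_lit 0) (nat_lit 0) (XT.lf (nat_lit 0) (nat_lit 16909606110) (nat_lit 76) (nat_lit 15395766308) (nat_lit 76) (nat_lit 7696067752) (nat_lit 3) (nat_lit 4)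 (nat_lit 4) (nat_lit 5) (nat_lit 4) (nat_lit 4) (nat_lit 282) (nat_lit 231) (nat_lit 207)) (XT.lf (nat_lit 0) (nat_lit 23084853779) (nat_lit 76) (nat_lit 13845860383) (nat_lit 76) (nat_lit 6039378690) (nat_lit 3) (nat_lit 4) (nat_lit 4) (nat_lit 5) (nat_lit 4) (nat_lit 4) (nat_lit 283) (nat_lit 231) (nat_lit 206)))) (XT.nd (nat_lit 78) (nat_lit 0) (nat_lit 0) (XT.lf (nat_lit 0) (nat_lit 29670902235) (nat_lit 76) (nat_lit 12207342357) (nat_lit 76) (nat_lit 4301987387) (nat_lit 3) (nat_lit 4) (nat_lit 4) (nat_lit 5) (nat_lit 4) (nat_lit 4) (nat_lit 284) (nat_lit 231) (nat_lit 205)) (XT.nd (nat_lit 78) (nat_lit 0) (nat_lit 0) (XT.lf (nat_lit 0) (nat_lit 36706779913) (nat_lit 76) (nat_lit 10470502491) (nat_lit 76) (nat_lit 2473598191) (nat_lit 3) (nat_lit 4) (nat_lit 4) (nat_lit 5) (nat_lit 4) (nat_lit 4) (nat_lit 285) (nat_lit 231) (nat_lit 204)) (XT.lf (nat_lit 0) (nat_lit 44234180904)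 (nat_lit 76) (nat_lit 8625048401) (nat_lit 76) (nat_lit 543376203) (nat_lit 3) (nat_lit 4) (nat_lit 4) (nat_lit 5) (nat_lit 4) (nat_lit 4) (nat_lit 286) (nat_lit 231) (nat_lit 203))))) (XT.nd (nat_lit 234) (nat_lit 0) (nat_lit 0) (XT.nd (nat_lit 78) (nat_lit 76) (nat_lit 0) (XT.lf (nat_lit 0) (nat_lit 1425075003) (nat_lit 152) (nat_lit 5196004984) (nat_lit 76) (nat_lit 50833672948) (nat_lit 2) (nat_lit 5) (nat_lit 4) (nat_lit 5) (nat_lit 3) (nat_lit 4) (nat_lit 287) (nat_lit 231) (nat_lit 202)) (XT.nd (nat_lit 78) (nat_lit 76) (nat_lit 0) (XT.lf (nat_lit 0) (nat_lit 3485453013) (nat_lit 152) (nat_lit 983093533) (nat_lit 76) (nat_lit 57364405696) (nat_lit 2) (nat_lit 5) (nat_lit 4) (nat_lit 5) (nat_lit 3) (nat_lit 4) (nat_lit 288) (nat_lit 231) (nat_lit 201)) (XT.lf (nat_lit 0) (nat_lit 3693086504) (nat_lit 76) (nat_lit 2072881666) (nat_lit 152) (nat_lit 60791120095) (nat_lit 1) (nat_lit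 5) (nat_lit 2) (nat_lit 5) (nat_lit 3) (nat_lit 4) (nat_lit 289) (nat_lit 231) (nat_lit 200)))) (XT.nd (nat_lit 78) (nat_lit 0) (nat_lit 0) (XT.lf (nat_lit 0) (nat_lit 8235881169) (nat_lit 152) (nat_lit 62929928481) (nat_lit 0) (nat_lit 492886514) (nat_lit 1) (nat_lit 5) (nat_lit 3) (nat_lit 4) (nat_lit 1) (nat_lit 4) (nat_lit 290) (nat_lit 231) (nat_lit 199)) (XT.nd (nat_lit 78) (nat_lit 0) (nat_lit 0) (XT.lf (nat_lit 0) (nat_lit 10926678966) (nat_lit 152) (nat_lit 63109714529) (nat_lit 0) (nat_lit 3130266156) (nat_lit 1) (nat_lit 5) (nat_lit 3) (nat_lit 4) (nat_lit 1) (nat_lit 4) (nat_lit 291) (nat_lit 231) (nat_lit 198)) (XT.lf (nat_lit 0) (nat_lit 13804454176) (nat_lit 152) (nat_lit 63354572453) (nat_lit 0) (nat_lit 5958580111) (nat_lit 1) (nat_lit 5) (nat_lit 3) (nat_lit 4) (nat_lit 1) (nat_lit 4) (nat_lit 292) (nat_lit 231) (nat_lit 197))))))) (XT.nd (nat_lit 858) (nat_lit 0)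 (nat_lit 0) (XT.nd (nat_lit 390) (nat_lit 0) (nat_lit 0) (XT.nd (nat_lit 156) (nat_lit 0) (nat_lit 0) (XT.nd (nat_lit 78) (nat_lit 0) (nat_lit 0) (XT.lf (nat_lit 0) (nat_lit 16886260282) (nat_lit 152) (nat_lit 63665953262) (nat_lit 0) (nat_lit 8994588760) (nat_lit 1) (nat_lit 5) (nat_lit 3) (nat_lit 4) (nat_lit 1) (nat_lit 4) (nat_lit 293) (nat_lit 231) (nat_lit 196)) (XT.lf (nat_lit 0) (nat_lit 20190359838) (nat_lit 152) (nat_lit 64045702175) (nat_lit 0) (nat_lit 12256283263) (nat_lit 1) (nat_lit 5) (nat_lit 3) (nat_lit 4) (nat_lit 1) (nat_lit 4) (nat_lit 294) (nat_lit 231) (nat_lit 195))) (XT.nd (nat_lit 78) (nat_lit 0) (nat_lit 0) (XT.lf (nat_lit 0) (nat_lit 23736332695) (nat_lit 152) (nat_lit 64496069556) (nat_lit 0) (nat_lit 15762992181) (nat_lit 1) (nat_lit 5) (nat_lit 3) (nat_lit 4) (nat_lit 1) (nat_lit 4) (nat_lit 295) (nat_lit 231) (nat_lit 194)) (XT.nd (nat_lit 78) (nat_lit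 0) (nat_lit 0) (XT.lf (nat_lit 0) (nat_lit 27545192023) (nat_lit 152) (nat_lit 65019724250) (nat_lit 0) (nat_lit 19535496011) (nat_lit 1) (nat_lit 5) (nat_lit 3) (nat_lit 4) (nat_lit 1) (nat_lit 4) (nat_lit 296) (nat_lit 231) (nat_lit 193)) (XT.lf (nat_lit 0) (nat_lit 31639508843) (nat_lit 152) (nat_lit 65619769394) (nat_lit 0) (nat_lit 23596150332) (nat_lit 1) (nat_lit 5) (nat_lit 3) (nat_lit 4) (nat_lit 1) (nat_lit 4) (nat_lit 297) (nat_lit 231) (nat_lit 192))))) (XT.nd (nat_lit 234) (nat_lit 0) (nat_lit 0) (XT.nd (nat_lit 78) (nat_lit 0) (nat_lit 0) (XT.lf (nat_lit 0) (nat_lit 36043545771) (nat_lit 152) (nat_lit 66299760813) (nat_lit 0) (nat_lit 27969018280) (nat_lit 1) (nat_lit 5) (nat_lit 3) (nat_lit 4) (nat_lit 1) (nat_lit 4) (nat_lit 298) (nat_lit 231) (nat_lit 191)) (XT.nd (nat_lit 78) (nat_lit 0) (nat_lit 0) (XT.lf (nat_lit 0) (nat_lit 40783400805) (nat_lit 152) (nat_lit 67063728085)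 (nat_lit 0) (nat_lit 32680013147) (nat_lit 1) (nat_lit 5) (nat_lit 3) (nat_lit 4) (nat_lit 1) (nat_lit 4) (nat_lit 299) (nat_lit 231) (nat_lit 190)) (XT.lf (nat_lit 0) (nat_lit 45887161974) (nat_lit 152) (nat_lit 67916198423) (nat_lit 0) (nat_lit 37757051940) (nat_lit 1) (nat_lit 5) (nat_lit 3) (nat_lit 4) (nat_lit 1) (nat_lit 4) (nat_lit 300) (nat_lit 231) (nat_lit 189)))) (XT.nd (nat_lit 78) (nat_lit 0) (nat_lit 0) (XT.lf (nat_lit 0) (nat_lit 51385073789) (nat_lit 152) (nat_lit 68862223504) (nat_lit 0) (nat_lit 43230220813) (nat_lit 1) (nat_lit 5) (nat_lit 3) (nat_lit 4) (nat_lit 1) (nat_lit 4) (nat_lit 301) (nat_lit 231) (nat_lit 188)) (XT.nd (nat_lit 78) (nat_lit 0) (nat_lit 0) (XT.lf (nat_lit 0) (nat_lit 57309716468) (nat_lit 152) (nat_lit 69907409402) (nat_lit 0) (nat_lit 49131953361) (nat_lit 1) (nat_lit 5) (nat_lit 3) (nat_lit 4) (nat_lit 1) (nat_lit 4) (nat_lit 302) (nat_lit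 231) (nat_lit 187)) (XT.lf (nat_lit 0) (nat_lit 63696199004) (nat_lit 152) (nat_lit 71057949811) (nat_lit 0) (nat_lit 55497222813) (nat_lit 1) (nat_lit 5) (nat_lit 3) (nat_lit 4) (nat_lit 1) (nat_lit 4) (nat_lit 303) (nat_lit 231) (nat_lit 186)))))) (XT.nd (nat_lit 468) (nat_lit 0) (nat_lit 0) (XT.nd (nat_lit 234) (nat_lit 0) (nat_lit 0) (XT.nd (nat_lit 78) (nat_lit 0) (nat_lit 0) (XT.lf (nat_lit 0) (nat_lit 70582367221) (nat_lit 152) (nat_lit 72320662748) (nat_lit 0) (nat_lit 62363749285) (nat_lit 1) (nat_lit 5) (nat_lit 3) (nat_lit 4) (nat_lit 1) (nat_lit 4) (nat_lit 304) (nat_lit 231) (nat_lit 185)) (XT.nd (nat_lit 78) (nat_lit 0) (nat_lit 0) (XT.lf (nat_lit 0) (nat_lit 78009028040) (nat_lit 152) (nat_lit 73703030957) (nat_lit 0) (nat_lit 69772223305) (nat_lit 1) (nat_lit 5) (nat_lit 3) (nat_lit 4) (nat_lit 1) (nat_lit 4) (nat_lit 305) (nat_lit 231) (nat_lit 184)) (XT.lf (nat_lit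 0) (nat_lit 86020191305) (nat_lit 152) (nat_lit 75213246250) (nat_lit 0) (nat_lit 77766546939) (nat_lit 1) (nat_lit 5) (nat_lit 3) (nat_lit 4) (nat_lit 1) (nat_lit 4) (nat_lit 306) (nat_lit 231) (nat_lit 183)))) (XT.nd (nat_lit 78) (nat_lit 0) (nat_lit 0) (XT.lf (nat_lit 0) (nat_lit 94663330574) (nat_lit 152) (nat_lit 76860258050) (nat_lit 0) (nat_lit 86394093958) (nat_lit 1) (nat_lit 5) (nat_lit 3) (nat_lit 4) (nat_lit 1) (nat_lit 4) (nat_lit 307) (nat_lit 231) (nat_lit 182)) (XT.nd (nat_lit 78) (nat_lit 0) (nat_lit 0) (XT.lf (nat_lit 0) (nat_lit 103989664451) (nat_lit 152) (nat_lit 78653826427) (nat_lit 0) (nat_lit 95705990566) (nat_lit 1) (nat_lit 5) (nat_lit 3) (nat_lit 4) (nat_lit 1) (nat_lit 4) (nat_lit 308) (nat_lit 231) (nat_lit 181)) (XT.lf (nat_lit 0) (nat_lit 114054460100) (nat_lit 152) (nat_lit 80604579935) (nat_lit 0) (nat_lit 105757418374) (nat_lit 1) (nat_lit 5) (nat_lit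 3) (nat_lit 4) (nat_lit 1) (nat_lit 4) (nat_lit 309) (nat_lit 231) (nat_lit 180))))) (XT.nd (nat_lit 234) (nat_lit 0) (nat_lit 0) (XT.nd (nat_lit 78) (nat_lit 0) (nat_lit 0) (XT.lf (nat_lit 0) (nat_lit 124917360754) (nat_lit 152) (nat_lit 82724078595) (nat_lit 0) (nat_lit 116607941397) (nat_lit 1) (nat_lit 5) (nat_lit 3) (nat_lit 4) (nat_lit 1) (nat_lit 4) (nat_lit 310) (nat_lit 231) (nat_lit 179)) (XT.nd (nat_lit 78) (nat_lit 0) (nat_lit 0) (XT.lf (nat_lit 0) (nat_lit 136642739158) (nat_lit 152) (nat_lit 85024882398) (nat_lit 0) (nat_lit 128321859032) (nat_lit 1) (nat_lit 5) (nat_lit 3) (nat_lit 4) (nat_lit 1) (nat_lit 4) (nat_lit 311) (nat_lit 231) (nat_lit 178)) (XT.lf (nat_lit 0) (nat_lit 149300079035) (nat_lit 152) (nat_lit 87520625737) (nat_lit 0) (nat_lit 140968587086) (nat_lit 1) (nat_lit 5) (nat_lit 3) (nat_lit 4) (nat_lit 1) (nat_lit 4) (nat_lit 312) (nat_lit 231) (nat_lit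 177)))) (XT.nd (nat_lit 78) (nat_lit 0) (nat_lit 0) (XT.lf (nat_lit 0) (nat_lit 162964386845) (nat_lit 152) (nat_lit 90226098203) (nat_lit 0) (nat_lit 154623069133) (nat_lit 1) (nat_lit 5) (nat_lit 3) (nat_lit 4) (nat_lit 1) (nat_lit 4) (nat_lit 313) (nat_lit 231) (nat_lit 176)) (XT.nd (nat_lit 78) (nat_lit 0) (nat_lit 0) (XT.lf (nat_lit 0) (nat_lit 177716636263) (nat_lit 152) (nat_lit 93157332225) (nat_lit 0) (nat_lit 169366220622) (nat_lit 1) (nat_lit 5) (nat_lit 3) (nat_lit 4) (nat_lit 1) (nat_lit 4) (nat_lit 314) (nat_lit 231) (nat_lit 175)) (XT.lf (nat_lit 0) (nat_lit 193644248026) (nat_lit 152) (nat_lit 96331698078) (nat_lit 0) (nat_lit 185285408378) (nat_lit 1) (nat_lit 5) (nat_lit 3) (nat_lit 4) (nat_lit 1) (nat_lit 4) (nat_lit 315) (nat_lit 231) (nat_lit 174))))))))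
noncomputable def xc34 : XT := (XT.nd (nat_lit 33150) (nat_lit 0) (nat_lit 152) (XT.nd (nat_lit 858) (nat_lit 0) (nat_lit 0) (XT.nd (nat_lit 390) (nat_lit 0) (nat_lit 0) (XT.nd (nat_lit 156) (nat_lit 0) (nat_lit 0) (XT.nd (nat_lit 78) (nat_lit 0) (nat_lit 0) (XT.lf (nat_lit 0) (nat_lit 210841607981) (nat_lit 152) (nat_lit 99768006820) (nat_lit 0) (nat_lit 202474968327) (nat_lit 1) (nat_lit 5) (nat_lit 3) (nat_lit 4) (nat_lit 1) (nat_lit 4) (nat_lit 316) (nat_lit 231) (nat_lit 173)) (XT.lf (nat_lit 0) (nat_lit 229410626411) (nat_lit 152) (nat_lit 103486621762) (nat_lit 0) (nat_lit 221036764528) (nat_lit 1) (nat_lit 5) (nat_lit 3) (nat_lit 4) (nat_lit 1) (nat_lit 4) (nat_lit 317) (nat_lit 231) (nat_lit 172))) (XT.nd (nat_lit 78) (nat_lit 0) (nat_lit 0) (XT.lf (nat_lit 0) (nat_lit 249461341943) (nat_lit 152) (nat_lit 107509579140) (nat_lit 0) (nat_lit 241080792811) (nat_lit 1) (nat_lit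 5) (nat_lit 3) (nat_lit 4) (nat_lit 1) (nat_lit 4) (nat_lit 318) (nat_lit 231) (nat_lit 171)) (XT.nd (nat_lit 78) (nat_lit 0) (nat_lit 0) (XT.lf (nat_lit 0) (nat_lit 271112573632) (nat_lit 152) (nat_lit 111860718702) (nat_lit 0) (nat_lit 262725832602) (nat_lit 1) (nat_lit 5) (nat_lit 3) (nat_lit 4) (nat_lit 1) (nat_lit 4) (nat_lit 319) (nat_lit 231) (nat_lit 170)) (XT.lf (nat_lit 0) (nat_lit 294492625072) (nat_lit 152) (nat_lit 116565824978) (nat_lit 0) (nat_lit 286100150805) (nat_lit 1) (nat_lit 5) (nat_lit 3) (nat_lit 4) (nat_lit 1) (nat_lit 4) (nat_lit 320) (nat_lit 231) (nat_lit 169))))) (XT.nd (nat_lit 234) (nat_lit 0) (nat_lit 0) (XT.nd (nat_lit 78) (nat_lit 0) (nat_lit 0) (XT.lf (nat_lit 0) (nat_lit 319740044718) (nat_lit 152) (nat_lit 121652780080) (nat_lit 0) (nat_lit 311342261897) (nat_lit 1) (nat_lit 5) (nat_lit 3) (nat_lit 4) (nat_lit 1) (nat_lit 4) (nat_lit 321) (nat_lit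 231) (nat_lit 168)) (XT.nd (nat_lit 78) (nat_lit 0) (nat_lit 0) (XT.lf (nat_lit 0) (nat_lit 347004446907) (nat_lit 152) (nat_lit 127151728927) (nat_lit 0) (nat_lit 338601748758) (nat_lit 1) (nat_lit 5) (nat_lit 3) (nat_lit 4) (nat_lit 1) (nat_lit 4) (nat_lit 322) (nat_lit 231) (nat_lit 167)) (XT.lf (nat_lit 0) (nat_lit 376447398468) (nat_lit 152) (nat_lit 133095257883) (nat_lit 0) (nat_lit 368040149090) (nat_lit 1) (nat_lit 5) (nat_lit 3) (nat_lit 4) (nat_lit 1) (nat_lit 4) (nat_lit 323) (nat_lit 231) (nat_lit 166)))) (XT.nd (nat_lit 78) (nat_lit 0) (nat_lit 0) (XT.lf (nat_lit 0) (nat_lit 408243376150) (nat_lit 152) (nat_lit 139518587859) (nat_lit 0) (nat_lit 399831912671) (nat_lit 1) (nat_lit 5) (nat_lit 3) (nat_lit 4) (nat_lit 1) (nat_lit 4) (nat_lit 324) (nat_lit 231) (nat_lit 165)) (XT.nd (nat_lit 78) (nat_lit 0) (nat_lit 0) (XT.lf (nat_lit 0) (nat_lit 442580800562) (nat_lit 152)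 (nat_lit 146459783033) (nat_lit 0) (nat_lit 434165435137) (nat_lit 1) (nat_lit 5) (nat_lit 3) (nat_lit 4) (nat_lit 1) (nat_lit 4) (nat_lit 325) (nat_lit 231) (nat_lit 164)) (XT.lf (nat_lit 0) (nat_lit 479663152737) (nat_lit 152) (nat_lit 153959976415) (nat_lit 0) (nat_lit 471244174400) (nat_lit 1) (nat_lit 5) (nat_lit 3) (nat_lit 4) (nat_lit 1) (nat_lit 4) (nat_lit 326) (nat_lit 231) (nat_lit 163)))))) (XT.nd (nat_lit 468) (nat_lit 0) (nat_lit 0) (XT.nd (nat_lit 234) (nat_lit 0) (nat_lit 0) (XT.nd (nat_lit 78) (nat_lit 0) (nat_lit 0) (XT.lf (nat_lit 0) (nat_lit 519710179948) (nat_lit 152) (nat_lit 162063613593) (nat_lit 0) (nat_lit 511287856322) (nat_lit 1) (nat_lit 5) (nat_lit 3) (nat_lit 4) (nat_lit 1) (nat_lit 4) (nat_lit 327) (nat_lit 231) (nat_lit 162)) (XT.nd (nat_lit 78) (nat_lit 0) (nat_lit 0) (XT.lf (nat_lit 0) (nat_lit 562959197911) (nat_lit 152) (nat_lit 170818716123) (nat_lit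 0) (nat_lit 554533776795) (nat_lit 1) (nat_lit 5) (nat_lit 3) (nat_lit 4) (nat_lit 1) (nat_lit 4) (nat_lit 328) (nat_lit 231) (nat_lit 161)) (XT.lf (nat_lit 0) (nat_lit 609666497104) (nat_lit 152) (nat_lit 180277166092) (nat_lit 0) (nat_lit 601238207941) (nat_lit 1) (nat_lit 5) (nat_lit 3) (nat_lit 4) (nat_lit 1) (nat_lit 4) (nat_lit 329) (nat_lit 231) (nat_lit 160)))) (XT.nd (nat_lit 78) (nat_lit 0) (nat_lit 0) (XT.lf (nat_lit 0) (nat_lit 660108861520) (nat_lit 152) (nat_lit 190495013576) (nat_lit 0) (nat_lit 651677916759) (nat_lit 1) (nat_lit 5) (nat_lit 3) (nat_lit 4) (nat_lit 1) (nat_lit 4) (nat_lit 330) (nat_lit 231) (nat_lit 159)) (XT.nd (nat_lit 78) (nat_lit 0) (nat_lit 0) (XT.lf (nat_lit 0) (nat_lit 714585208877) (nat_lit 152) (nat_lit 201532808780) (nat_lit 0) (nat_lit 706151805228) (nat_lit 1) (nat_lit 5) (nat_lit 3) (nat_lit 4) (nat_lit 1) (nat_lit 4) (nat_lit 331) (nat_lit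 231) (nat_lit 158)) (XT.lf (nat_lit 0) (nat_lit 773418361972) (nat_lit 152) (nat_lit 213455960863) (nat_lit 0) (nat_lit 764982681575) (nat_lit 1) (nat_lit 5) (nat_lit 3) (nat_lit 4) (nat_lit 1) (nat_lit 4) (nat_lit 332) (nat_lit 231) (nat_lit 157))))) (XT.nd (nat_lit 31590) (nat_lit 0) (nat_lit 1064) (XT.nd (nat_lit 78) (nat_lit 0) (nat_lit 0) (XT.lf (nat_lit 0) (nat_lit 836956961713) (nat_lit 152) (nat_lit 226335125539) (nat_lit 0) (nat_lit 828519173217) (nat_lit 1) (nat_lit 5) (nat_lit 3) (nat_lit 4) (nat_lit 1) (nat_lit 4) (nat_lit 333) (nat_lit 231) (nat_lit 156)) (XT.nd (nat_lit 31434) (nat_lit 0) (nat_lit 1444) (XT.lf (nat_lit 0) (nat_lit 905577533135) (nat_lit 152) (nat_lit 240246623785) (nat_lit 0) (nat_lit 897137792695) (nat_lit 1) (nat_lit 5) (nat_lit 3) (nat_lit 4) (nat_lit 1) (nat_lit 4) (nat_lit 334) (nat_lit 231) (nat_lit 155)) (XT.lf (nat_lit 0) (nat_lit 1640875249)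 (nat_lit 228) (nat_lit 1100175466) (nat_lit 0) (nat_lit 1640875249) (nat_lit 20) (nat_lit 5) (nat_lit 23) (nat_lit 4) (nat_lit 20) (nat_lit 4) (nat_lit 256) (nat_lit 232) (nat_lit 232)))) (XT.nd (nat_lit 78) (nat_lit 228) (nat_lit 0) (XT.lf (nat_lit 0) (nat_lit 3001300826) (nat_lit 152) (nat_lit 3550060461) (nat_lit 152) (nat_lit 2555132607) (nat_lit 18) (nat_lit 4) (nat_lit 20) (nat_lit 5) (nat_lit 20) (nat_lit 4) (nat_lit 257) (nat_lit 232) (nat_lit 231)) (XT.nd (nat_lit 78) (nat_lit 152) (nat_lit 0) (XT.lf (nat_lit 0) (nat_lit 428736908) (nat_lit 228) (nat_lit 1024384577) (nat_lit 76) (nat_lit 8035457106) (nat_lit 17) (nat_lit 5) (nat_lit 20) (nat_lit 5) (nat_lit 18) (nat_lit 4) (nat_lit 258) (nat_lit 232) (nat_lit 230)) (XT.lf (nat_lit 0) (nat_lit 3447143592) (nat_lit 228) (nat_lit 5572284497) (nat_lit 0) (nat_lit 883118018) (nat_lit 15) (nat_lit 5) (nat_lit 18) (nat_lit 4) (nat_lit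 15) (nat_lit 4) (nat_lit 259) (nat_lit 232) (nat_lit 229))))))) (XT.nd (nat_lit 858) (nat_lit 304) (nat_lit 0) (XT.nd (nat_lit 390) (nat_lit 304) (nat_lit 0) (XT.nd (nat_lit 156) (nat_lit 152) (nat_lit 0) (XT.nd (nat_lit 78) (nat_lit 152) (nat_lit 0) (XT.lf (nat_lit 0) (nat_lit 6586866662) (nat_lit 228) (nat_lit 482073640) (nat_lit 0) (nat_lit 3291539414) (nat_lit 15) (nat_lit 5) (nat_lit 18) (nat_lit 4) (nat_lit 15) (nat_lit 4) (nat_lit 260) (nat_lit 232) (nat_lit 228)) (XT.lf (nat_lit 0) (nat_lit 5018482671) (nat_lit 152) (nat_lit 4907168844) (nat_lit 152) (nat_lit 934710417) (nat_lit 13) (nat_lit 4) (nat_lit 15) (nat_lit 5) (nat_lit 15) (nat_lit 4) (nat_lit 261) (nat_lit 232) (nat_lit 227))) (XT.nd (nat_lit 78) (nat_lit 76) (nat_lit 0) (XT.lf (nat_lit 0) (nat_lit 1867075839) (nat_lit 228) (nat_lit 715913995) (nat_lit 76) (nat_lit 8826734561) (nat_lit 12) (nat_lit 5) (nat_lit 15)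 (nat_lit 5) (nat_lit 13) (nat_lit 4) (nat_lit 262) (nat_lit 232) (nat_lit 226)) (XT.nd (nat_lit 78) (nat_lit 0) (nat_lit 0) (XT.lf (nat_lit 0) (nat_lit 4799648938) (nat_lit 152) (nat_lit 7202394619) (nat_lit 0) (nat_lit 3387282) (nat_lit 11) (nat_lit 5) (nat_lit 13) (nat_lit 4) (nat_lit 11) (nat_lit 4) (nat_lit 263) (nat_lit 232) (nat_lit 225)) (XT.lf (nat_lit 0) (nat_lit 7900017165) (nat_lit 152) (nat_lit 2148918951) (nat_lit 0) (nat_lit 2606043878) (nat_lit 11) (nat_lit 5) (nat_lit 13) (nat_lit 4) (nat_lit 11) (nat_lit 4) (nat_lit 264) (nat_lit 232) (nat_lit 224))))) (XT.nd (nat_lit 234) (nat_lit 76) (nat_lit 0) (XT.nd (nat_lit 78) (nat_lit 76) (nat_lit 0) (XT.lf (nat_lit 0) (nat_lit 3250796140) (nat_lit 152) (nat_lit 7933222522) (nat_lit 152) (nat_lit 2178405132) (nat_lit 9) (nat_lit 4) (nat_lit 11) (nat_lit 5) (nat_lit 11) (nat_lit 4) (nat_lit 265) (nat_lit 232) (nat_lit 223))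 (XT.nd (nat_lit 78) (nat_lit 0) (nat_lit 0) (XT.lf (nat_lit 0) (nat_lit 492892537) (nat_lit 228) (nat_lit 5156308414) (nat_lit 76) (nat_lit 8483259897) (nat_lit 8) (nat_lit 5) (nat_lit 11) (nat_lit 5) (nat_lit 9) (nat_lit 4) (nat_lit 266) (nat_lit 232) (nat_lit 222)) (XT.lf (nat_lit 0) (nat_lit 3129242807) (nat_lit 228) (nat_lit 67799392) (nat_lit 76) (nat_lit 11773627380) (nat_lit 8) (nat_lit 5) (nat_lit 11) (nat_lit 5) (nat_lit 9) (nat_lit 4) (nat_lit 267) (nat_lit 232) (nat_lit 221)))) (XT.nd (nat_lit 78) (nat_lit 0) (nat_lit 0) (XT.lf (nat_lit 0) (nat_lit 5512186107) (nat_lit 76) (nat_lit 475623241) (nat_lit 152) (nat_lit 9887793601) (nat_lit 7) (nat_lit 5) (nat_lit 8) (nat_lit 5) (nat_lit 9) (nat_lit 4) (nat_lit 268) (nat_lit 232) (nat_lit 220)) (XT.nd (nat_lit 78) (nat_lit 0) (nat_lit 0) (XT.lf (nat_lit 0) (nat_lit 9017770242) (nat_lit 152) (nat_lit 5564347962) (nat_lit 0) (nat_lit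 2275926249) (nat_lit 7) (nat_lit 5) (nat_lit 9) (nat_lit 4) (nat_lit 7) (nat_lit 4) (nat_lit 269) (nat_lit 232) (nat_lit 219)) (XT.lf (nat_lit 0) (nat_lit 12192814881) (nat_lit 152) (nat_lit 573981427) (nat_lit 0) (nat_lit 5160560932) (nat_lit 7) (nat_lit 5) (nat_lit 9) (nat_lit 4) (nat_lit 7) (nat_lit 4) (nat_lit 270) (nat_lit 232) (nat_lit 218)))))) (XT.nd (nat_lit 468) (nat_lit 76) (nat_lit 0) (XT.nd (nat_lit 234) (nat_lit 76) (nat_lit 0) (XT.nd (nat_lit 78) (nat_lit 76) (nat_lit 0) (XT.lf (nat_lit 0) (nat_lit 4893486046) (nat_lit 76) (nat_lit 10744522006) (nat_lit 76) (nat_lit 3443369949) (nat_lit 6) (nat_lit 4) (nat_lit 7) (nat_lit 5) (nat_lit 7) (nat_lit 4) (nat_lit 271) (nat_lit 232) (nat_lit 217)) (XT.nd (nat_lit 78) (nat_lit 76) (nat_lit 0) (XT.lf (nat_lit 0) (nat_lit 10668299206) (nat_lit 76) (nat_lit 8608276577) (nat_lit 76) (nat_lit 1058144791) (nat_lit 6) (nat_lit 4) (nat_lit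 7) (nat_lit 5) (nat_lit 7) (nat_lit 4) (nat_lit 272) (nat_lit 232) (nat_lit 216)) (XT.lf (nat_lit 0) (nat_lit 1348561268) (nat_lit 152) (nat_lit 4975661134) (nat_lit 76) (nat_lit 15369021000) (nat_lit 5) (nat_lit 5) (nat_lit 7) (nat_lit 5) (nat_lit 6) (nat_lit 4) (nat_lit 273) (nat_lit 232) (nat_lit 215)))) (XT.nd (nat_lit 78) (nat_lit 76) (nat_lit 0) (XT.lf (nat_lit 0) (nat_lit 3804149761) (nat_lit 152) (nat_lit 81497056) (nat_lit 76) (nat_lit 19279855545) (nat_lit 5) (nat_lit 5) (nat_lit 7) (nat_lit 5) (nat_lit 6) (nat_lit 4) (nat_lit 274) (nat_lit 232) (nat_lit 214)) (XT.nd (nat_lit 78) (nat_lit 0) (nat_lit 0) (XT.lf (nat_lit 0) (nat_lit 5337526415) (nat_lit 76) (nat_lit 1166946234) (nat_lit 152) (nat_lit 18247515762) (nat_lit 4) (nat_lit 5) (nat_lit 5) (nat_lit 5) (nat_lit 6) (nat_lit 4) (nat_lit 275) (nat_lit 232) (nat_lit 213)) (XT.lf (nat_lit 0) (nat_lit 9387101069) (nat_lit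 152) (nat_lit 15448605117) (nat_lit 0) (nat_lit 1632671226) (nat_lit 4) (nat_lit 5) (nat_lit 6) (nat_lit 4) (nat_lit 4) (nat_lit 4) (nat_lit 276) (nat_lit 232) (nat_lit 212))))) (XT.nd (nat_lit 234) (nat_lit 76) (nat_lit 0) (XT.nd (nat_lit 78) (nat_lit 0) (nat_lit 0) (XT.lf (nat_lit 0) (nat_lit 12457912121) (nat_lit 152) (nat_lit 11321242033) (nat_lit 0) (nat_lit 4546582815) (nat_lit 4) (nat_lit 5) (nat_lit 6) (nat_lit 4) (nat_lit 4) (nat_lit 4) (nat_lit 277) (nat_lit 232) (nat_lit 211)) (XT.nd (nat_lit 78) (nat_lit 0) (nat_lit 0) (XT.lf (nat_lit 0) (nat_lit 15707038119) (nat_lit 152) (nat_lit 6979849211) (nat_lit 0) (nat_lit 7650431533) (nat_lit 4) (nat_lit 5) (nat_lit 6) (nat_lit 4) (nat_lit 4) (nat_lit 4) (nat_lit 278) (nat_lit 232) (nat_lit 210)) (XT.lf (nat_lit 0) (nat_lit 19153733145) (nat_lit 152) (nat_lit 2398699879) (nat_lit 0) (nat_lit 10962610557) (nat_lit 4) (nat_lit 5)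 (nat_lit 6) (nat_lit 4) (nat_lit 4) (nat_lit 4) (nat_lit 279) (nat_lit 232) (nat_lit 209)))) (XT.nd (nat_lit 78) (nat_lit 0) (nat_lit 0) (XT.lf (nat_lit 0) (nat_lit 2578332129) (nat_lit 76) (nat_lit 20302098876) (nat_lit 76) (nat_lit 11986424436) (nat_lit 3) (nat_lit 4) (nat_lit 4) (nat_lit 5) (nat_lit 4) (nat_lit 4) (nat_lit 280) (nat_lit 232) (nat_lit 208)) (XT.nd (nat_lit 78) (nat_lit 0) (nat_lit 0) (XT.lf (nat_lit 0) (nat_lit 7992876214) (nat_lit 76) (nat_lit 18922174179) (nat_lit 76) (nat_lit 10491173950) (nat_lit 3) (nat_lit 4) (nat_lit 4) (nat_lit 5) (nat_lit 4) (nat_lit 4) (nat_lit 281) (nat_lit 232) (nat_lit 207)) (XT.lf (nat_lit 0) (nat_lit 13750707278) (nat_lit 76) (nat_lit 17470066307) (nat_lit 76) (nat_lit 8932282940) (nat_lit 3) (nat_lit 4) (nat_lit 4) (nat_lit 5) (nat_lit 4) (nat_lit 4) (nat_lit 282) (nat_lit 232) (nat_lit 206))))))))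
noncomputable def xc35 : XT := (XT.nd (nat_lit 1794) (nat_lit 0) (nat_lit 0) (XT.nd (nat_lit 858) (nat_lit 0) (nat_lit 0) (XT.nd (nat_lit 390) (nat_lit 76) (nat_lit 0) (XT.nd (nat_lit 156) (nat_lit 76) (nat_lit 0) (XT.nd (nat_lit 78) (nat_lit 0) (nat_lit 0) (XT.lf (nat_lit 0) (nat_lit 19885945799) (nat_lit 76) (nat_lit 15937170177) (nat_lit 76) (nat_lit 7300513533) (nat_lit 3) (nat_lit 4) (nat_lit 4) (nat_lit 5) (nat_lit 4) (nat_lit 4) (nat_lit 283) (nat_lit 232) (nat_lit 205)) (XT.lf (nat_lit 0) (nat_lit 26434948749) (nat_lit 76) (nat_lit 14314401960) (nat_lit 76) (nat_lit 5586195986) (nat_lit 3) (nat_lit 4) (nat_lit 4) (nat_lit 5) (nat_lit 4) (nat_lit 4) (nat_lit 284) (nat_lit 232) (nat_lit 204))) (XT.nd (nat_lit 78) (nat_lit 76) (nat_lit 0) (XT.lf (nat_lit 0) (nat_lit 33436525032) (nat_lit 76) (nat_lit 12592145250) (nat_lit 76) (nat_lit 3779171379) (nat_lit 3) (nat_lit 4) (nat_lit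 4) (nat_lit 5) (nat_lit 4) (nat_lit 4) (nat_lit 285) (nat_lit 232) (nat_lit 203)) (XT.nd (nat_lit 78) (nat_lit 76) (nat_lit 0) (XT.lf (nat_lit 0) (nat_lit 40932165471) (nat_lit 76) (nat_lit 10760194084) (nat_lit 76) (nat_lit 1868731418) (nat_lit 3) (nat_lit 4) (nat_lit 4) (nat_lit 5) (nat_lit 4) (nat_lit 4) (nat_lit 286) (nat_lit 232) (nat_lit 202)) (XT.lf (nat_lit 0) (nat_lit 148619008) (nat_lit 152) (nat_lit 8655009937) (nat_lit 76) (nat_lit 48813606161) (nat_lit 2) (nat_lit 5) (nat_lit 4) (nat_lit 5) (nat_lit 3) (nat_lit 4) (nat_lit 287) (nat_lit 232) (nat_lit 201))))) (XT.nd (nat_lit 234) (nat_lit 0) (nat_lit 0) (XT.nd (nat_lit 78) (nat_lit 76) (nat_lit 0) (XT.lf (nat_lit 0) (nat_lit 2192885522) (nat_lit 152) (nat_lit 4470227078) (nat_lit 76) (nat_lit 55333661369) (nat_lit 2) (nat_lit 5) (nat_lit 4) (nat_lit 5) (nat_lit 3) (nat_lit 4) (nat_lit 288) (nat_lit 232) (nat_lit 200))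 (XT.nd (nat_lit 78) (nat_lit 76) (nat_lit 0) (XT.lf (nat_lit 0) (nat_lit 4369663809) (nat_lit 152) (nat_lit 4835178) (nat_lit 76) (nat_lit 62354756842) (nat_lit 2) (nat_lit 5) (nat_lit 4) (nat_lit 5) (nat_lit 3) (nat_lit 4) (nat_lit 289) (nat_lit 232) (nat_lit 199)) (XT.lf (nat_lit 0) (nat_lit 5018682153) (nat_lit 76) (nat_lit 1793870568) (nat_lit 152) (nat_lit 65020516345) (nat_lit 1) (nat_lit 5) (nat_lit 2) (nat_lit 5) (nat_lit 3) (nat_lit 4) (nat_lit 290) (nat_lit 232) (nat_lit 198)))) (XT.nd (nat_lit 78) (nat_lit 0) (nat_lit 0) (XT.lf (nat_lit 0) (nat_lit 9446608652) (nat_lit 152) (nat_lit 66975400039) (nat_lit 0) (nat_lit 923603408) (nat_lit 1) (nat_lit 5) (nat_lit 3) (nat_lit 4) (nat_lit 1) (nat_lit 4) (nat_lit 291) (nat_lit 232) (nat_lit 197)) (XT.nd (nat_lit 78) (nat_lit 0) (nat_lit 0) (XT.lf (nat_lit 0) (nat_lit 12311791977) (nat_lit 152) (nat_lit 67242822507) (nat_lit 0)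 (nat_lit 3742989276) (nat_lit 1) (nat_lit 5) (nat_lit 3) (nat_lit 4) (nat_lit 1) (nat_lit 4) (nat_lit 292) (nat_lit 232) (nat_lit 196)) (XT.lf (nat_lit 0) (nat_lit 15381938930) (nat_lit 152) (nat_lit 67575096411) (nat_lit 0) (nat_lit 6770731175) (nat_lit 1) (nat_lit 5) (nat_lit 3) (nat_lit 4) (nat_lit 1) (nat_lit 4) (nat_lit 293) (nat_lit 232) (nat_lit 195)))))) (XT.nd (nat_lit 468) (nat_lit 0) (nat_lit 0) (XT.nd (nat_lit 234) (nat_lit 0) (nat_lit 0) (XT.nd (nat_lit 78) (nat_lit 0) (nat_lit 0) (XT.lf (nat_lit 0) (nat_lit 18675242975) (nat_lit 152) (nat_lit 67974190784) (nat_lit 0) (nat_lit 10024771282) (nat_lit 1) (nat_lit 5) (nat_lit 3) (nat_lit 4) (nat_lit 1) (nat_lit 4) (nat_lit 294) (nat_lit 232) (nat_lit 194)) (XT.nd (nat_lit 78) (nat_lit 0) (nat_lit 0) (XT.lf (nat_lit 0) (nat_lit 22211219987) (nat_lit 152) (nat_lit 68442470628) (nat_lit 0) (nat_lit 13524392796) (nat_lit 1) (nat_lit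 5) (nat_lit 3) (nat_lit 4) (nat_lit 1) (nat_lit 4) (nat_lit 295) (nat_lit 232) (nat_lit 193)) (XT.lf (nat_lit 0) (nat_lit 26010823904) (nat_lit 152) (nat_lit 68982710934) (nat_lit 0) (nat_lit 17290334214) (nat_lit 1) (nat_lit 5) (nat_lit 3) (nat_lit 4) (nat_lit 1) (nat_lit 4) (nat_lit 296) (nat_lit 232) (nat_lit 192)))) (XT.nd (nat_lit 78) (nat_lit 0) (nat_lit 0) (XT.lf (nat_lit 0) (nat_lit 30096570899) (nat_lit 152) (nat_lit 69598113128) (nat_lit 0) (nat_lit 21344912228) (nat_lit 1) (nat_lit 5) (nat_lit 3) (nat_lit 4) (nat_lit 1) (nat_lit 4) (nat_lit 297) (nat_lit 232) (nat_lit 191)) (XT.nd (nat_lit 78) (nat_lit 0) (nat_lit 0) (XT.lf (nat_lit 0) (nat_lit 34492672803) (nat_lit 152) (nat_lit 70292324037) (nat_lit 0) (nat_lit 25712153966) (nat_lit 1) (nat_lit 5) (nat_lit 3) (nat_lit 4) (nat_lit 1) (nat_lit 4) (nat_lit 298) (nat_lit 232) (nat_lit 190)) (XT.lf (nat_lit 0) (nat_lit 39225180593)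 (nat_lit 152) (nat_lit 71069457504) (nat_lit 0) (nat_lit 30417939379) (nat_lit 1) (nat_lit 5) (nat_lit 3) (nat_lit 4) (nat_lit 1) (nat_lit 4) (nat_lit 299) (nat_lit 232) (nat_lit 189))))) (XT.nd (nat_lit 234) (nat_lit 0) (nat_lit 0) (XT.nd (nat_lit 78) (nat_lit 0) (nat_lit 0) (XT.lf (nat_lit 0) (nat_lit 44322138758) (nat_lit 152) (nat_lit 71934118763) (nat_lit 0) (nat_lit 35490154603) (nat_lit 1) (nat_lit 5) (nat_lit 3) (nat_lit 4) (nat_lit 1) (nat_lit 4) (nat_lit 300) (nat_lit 232) (nat_lit 188)) (XT.nd (nat_lit 78) (nat_lit 0) (nat_lit 0) (XT.lf (nat_lit 0) (nat_lit 49813751496) (nat_lit 152) (nat_lit 72891431733) (nat_lit 0) (nat_lit 40958857210) (nat_lit 1) (nat_lit 5) (nat_lit 3) (nat_lit 4) (nat_lit 1) (nat_lit 4) (nat_lit 301) (nat_lit 232) (nat_lit 187)) (XT.lf (nat_lit 0) (nat_lit 55732561695) (nat_lit 152) (nat_lit 73947069381) (nat_lit 0) (nat_lit 46856454325) (nat_lit 1)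 (nat_lit 5) (nat_lit 3) (nat_lit 4) (nat_lit 1) (nat_lit 4) (nat_lit 302) (nat_lit 232) (nat_lit 186)))) (XT.nd (nat_lit 78) (nat_lit 0) (nat_lit 0) (XT.lf (nat_lit 0) (nat_lit 62113643788) (nat_lit 152) (nat_lit 75107287336) (nat_lit 0) (nat_lit 53217894674) (nat_lit 1) (nat_lit 5) (nat_lit 3) (nat_lit 4) (nat_lit 1) (nat_lit 4) (nat_lit 303) (nat_lit 232) (nat_lit 185)) (XT.nd (nat_lit 78) (nat_lit 0) (nat_lit 0) (XT.lf (nat_lit 0) (nat_lit 68994811594) (nat_lit 152) (nat_lit 76378960964) (nat_lit 0) (nat_lit 60080875679) (nat_lit 1) (nat_lit 5) (nat_lit 3) (nat_lit 4) (nat_lit 1) (nat_lit 4) (nat_lit 304) (nat_lit 232) (nat_lit 184)) (XT.lf (nat_lit 0) (nat_lit 76416842404) (nat_lit 152) (nat_lit 77769626109) (nat_lit 0) (nat_lit 67486066858) (nat_lit 1) (nat_lit 5) (nat_lit 3) (nat_lit 4) (nat_lit 1) (nat_lit 4) (nat_lit 305) (nat_lit 232) (nat_lit 183))))))) (XT.nd (nat_lit 858)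 (nat_lit 0) (nat_lit 0) (XT.nd (nat_lit 390) (nat_lit 0) (nat_lit 0) (XT.nd (nat_lit 156) (nat_lit 0) (nat_lit 0) (XT.nd (nat_lit 78) (nat_lit 0) (nat_lit 0) (XT.lf (nat_lit 0) (nat_lit 84423718622) (nat_lit 152) (nat_lit 79287523750) (nat_lit 0) (nat_lit 75477350826) (nat_lit 1) (nat_lit 5) (nat_lit 3) (nat_lit 4) (nat_lit 1) (nat_lit 4) (nat_lit 306) (nat_lit 232) (nat_lit 182)) (XT.lf (nat_lit 0) (nat_lit 93062888404) (nat_lit 152) (nat_lit 80941648835) (nat_lit 0) (nat_lit 84102083340) (nat_lit 1) (nat_lit 5) (nat_lit 3) (nat_lit 4) (nat_lit 1) (nat_lit 4) (nat_lit 307) (nat_lit 232) (nat_lit 181))) (XT.nd (nat_lit 78) (nat_lit 0) (nat_lit 0) (XT.lf (nat_lit 0) (nat_lit 102385546830) (nat_lit 152) (nat_lit 82741803587) (nat_lit 0) (nat_lit 93411373924) (nat_lit 1) (nat_lit 5) (nat_lit 3) (nat_lit 4) (nat_lit 1) (nat_lit 4) (nat_lit 308) (nat_lit 232) (nat_lit 180)) (XT.nd (nat_lit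 78) (nat_lit 0) (nat_lit 0) (XT.lf (nat_lit 0) (nat_lit 112446939283) (nat_lit 152) (nat_lit 84698655591) (nat_lit 0) (nat_lit 103460388747) (nat_lit 1) (nat_lit 5) (nat_lit 3) (nat_lit 4) (nat_lit 1) (nat_lit 4) (nat_lit 309) (nat_lit 232) (nat_lit 179)) (XT.lf (nat_lit 0) (nat_lit 123306688830) (nat_lit 152) (nat_lit 86823801006) (nat_lit 0) (nat_lit 114308677525) (nat_lit 1) (nat_lit 5) (nat_lit 3) (nat_lit 4) (nat_lit 1) (nat_lit 4) (nat_lit 310) (nat_lit 232) (nat_lit 178))))) (XT.nd (nat_lit 234) (nat_lit 0) (nat_lit 0) (XT.nd (nat_lit 78) (nat_lit 0) (nat_lit 0) (XT.lf (nat_lit 0) (nat_lit 135029149542) (nat_lit 152) (nat_lit 89129833285) (nat_lit 0) (nat_lit 126020526413) (nat_lit 1) (nat_lit 5) (nat_lit 3) (nat_lit 4) (nat_lit 1) (nat_lit 4) (nat_lit 311) (nat_lit 232) (nat_lit 177)) (XT.nd (nat_lit 78) (nat_lit 0) (nat_lit 0) (XT.lf (nat_lit 0) (nat_lit 147683787853) (nat_lit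 152) (nat_lit 91630417807) (nat_lit 0) (nat_lit 138665338962) (nat_lit 1) (nat_lit 5) (nat_lit 3) (nat_lit 4) (nat_lit 1) (nat_lit 4) (nat_lit 312) (nat_lit 232) (nat_lit 176)) (XT.lf (nat_lit 0) (nat_lit 161345594213) (nat_lit 152) (nat_lit 94340372849) (nat_lit 0) (nat_lit 152318047393) (nat_lit 1) (nat_lit 5) (nat_lit 3) (nat_lit 4) (nat_lit 1) (nat_lit 4) (nat_lit 313) (nat_lit 232) (nat_lit 175)))) (XT.nd (nat_lit 78) (nat_lit 0) (nat_lit 0) (XT.lf (nat_lit 0) (nat_lit 176095527473) (nat_lit 152) (nat_lit 97275757405) (nat_lit 0) (nat_lit 167059556645) (nat_lit 1) (nat_lit 5) (nat_lit 3) (nat_lit 4) (nat_lit 1) (nat_lit 4) (nat_lit 314) (nat_lit 232) (nat_lit 174)) (XT.nd (nat_lit 78) (nat_lit 0) (nat_lit 0) (XT.lf (nat_lit 0) (nat_lit 192020994645) (nat_lit 152) (nat_lit 100453966345) (nat_lit 0) (nat_lit 182977223811) (nat_lit 1) (nat_lit 5) (nat_lit 3) (nat_lit 4) (nat_lit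 1) (nat_lit 4) (nat_lit 315) (nat_lit 232) (nat_lit 173)) (XT.lf (nat_lit 0) (nat_lit 209216368869) (nat_lit 152) (nat_lit 103893833501) (nat_lit 0) (nat_lit 200165375806) (nat_lit 1) (nat_lit 5) (nat_lit 3) (nat_lit 4) (nat_lit 1) (nat_lit 4) (nat_lit 316) (nat_lit 232) (nat_lit 172)))))) (XT.nd (nat_lit 468) (nat_lit 0) (nat_lit 0) (XT.nd (nat_lit 234) (nat_lit 0) (nat_lit 0) (XT.nd (nat_lit 78) (nat_lit 0) (nat_lit 0) (XT.lf (nat_lit 0) (nat_lit 227783548658) (nat_lit 152) (nat_lit 107615743270) (nat_lit 0) (nat_lit 218725868346) (nat_lit 1) (nat_lit 5) (nat_lit 3) (nat_lit 4) (nat_lit 1) (nat_lit 4) (nat_lit 317) (nat_lit 232) (nat_lit 171)) (XT.nd (nat_lit 78) (nat_lit 0) (nat_lit 0) (XT.lf (nat_lit 0) (nat_lit 247832561745) (nat_lit 152) (nat_lit 111641751414) (nat_lit 0) (nat_lit 238768689536) (nat_lit 1) (nat_lit 5) (nat_lit 3) (nat_lit 4) (nat_lit 1) (nat_lit 4) (nat_lit 318)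 (nat_lit 232) (nat_lit 170)) (XT.lf (nat_lit 0) (nat_lit 269482217096) (nat_lit 152) (nat_lit 115995715759) (nat_lit 0) (nat_lit 260412611649) (nat_lit 1) (nat_lit 5) (nat_lit 3) (nat_lit 4) (nat_lit 1) (nat_lit 4) (nat_lit 319) (nat_lit 232) (nat_lit 169)))) (XT.nd (nat_lit 78) (nat_lit 0) (nat_lit 0) (XT.lf (nat_lit 0) (nat_lit 292860808964) (nat_lit 152) (nat_lit 120703437576) (nat_lit 0) (nat_lit 283785894963) (nat_lit 1) (nat_lit 5) (nat_lit 3) (nat_lit 4) (nat_lit 1) (nat_lit 4) (nat_lit 320) (nat_lit 232) (nat_lit 168)) (XT.nd (nat_lit 78) (nat_lit 0) (nat_lit 0) (XT.lf (nat_lit 0) (nat_lit 318106877154) (nat_lit 152) (nat_lit 125792814474) (nat_lit 0) (nat_lit 309027047826) (nat_lit 1) (nat_lit 5) (nat_lit 3) (nat_lit 4) (nat_lit 1) (nat_lit 4) (nat_lit 321) (nat_lit 232) (nat_lit 167)) (XT.lf (nat_lit 0) (nat_lit 345370027995) (nat_lit 152) (nat_lit 131294005726) (nat_lit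 0) (nat_lit 336285647438) (nat_lit 1) (nat_lit 5) (nat_lit 3) (nat_lit 4) (nat_lit 1) (nat_lit 4) (nat_lit 322) (nat_lit 232) (nat_lit 166))))) (XT.nd (nat_lit 234) (nat_lit 0) (nat_lit 0) (XT.nd (nat_lit 78) (nat_lit 0) (nat_lit 0) (XT.lf (nat_lit 0) (nat_lit 374811820900) (nat_lit 152) (nat_lit 137239610981) (nat_lit 0) (nat_lit 365723226242) (nat_lit 1) (nat_lit 5) (nat_lit 3) (nat_lit 4) (nat_lit 1) (nat_lit 4) (nat_lit 323) (nat_lit 232) (nat_lit 165)) (XT.nd (nat_lit 78) (nat_lit 0) (nat_lit 0) (XT.lf (nat_lit 0) (nat_lit 406606725753) (nat_lit 152) (nat_lit 143664863457) (nat_lit 0) (nat_lit 397514229149) (nat_lit 1) (nat_lit 5) (nat_lit 3) (nat_lit 4) (nat_lit 1) (nat_lit 4) (nat_lit 324) (nat_lit 232) (nat_lit 164)) (XT.lf (nat_lit 0) (nat_lit 440943156804) (nat_lit 152) (nat_lit 150607838725) (nat_lit 0) (nat_lit 431847047288) (nat_lit 1) (nat_lit 5) (nat_lit 3) (nat_lit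 4) (nat_lit 1) (nat_lit 4) (nat_lit 325) (nat_lit 232) (nat_lit 163)))) (XT.nd (nat_lit 78) (nat_lit 0) (nat_lit 0) (XT.lf (nat_lit 0) (nat_lit 478024589202) (nat_lit 152) (nat_lit 158109680340) (nat_lit 0) (nat_lit 468925134396) (nat_lit 1) (nat_lit 5) (nat_lit 3) (nat_lit 4) (nat_lit 1) (nat_lit 4) (nat_lit 326) (nat_lit 232) (nat_lit 162)) (XT.nd (nat_lit 78) (nat_lit 0) (nat_lit 0) (XT.lf (nat_lit 0) (nat_lit 518070764766) (nat_lit 152) (nat_lit 166214843661) (nat_lit 0) (nat_lit 508968212470) (nat_lit 1) (nat_lit 5) (nat_lit 3) (nat_lit 4) (nat_lit 1) (nat_lit 4) (nat_lit 327) (nat_lit 232) (nat_lit 161)) (XT.lf (nat_lit 0) (nat_lit 561318994168) (nat_lit 152) (nat_lit 174971359286) (nat_lit 0) (nat_lit 552213573826) (nat_lit 1) (nat_lit 5) (nat_lit 3) (nat_lit 4) (nat_lit 1) (nat_lit 4) (nat_lit 328) (nat_lit 232) (nat_lit 160))))))))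
noncomputable def xc36 : XT := (XT.nd (nat_lit 32994) (nat_lit 0) (nat_lit 0) (XT.nd (nat_lit 32058) (nat_lit 0) (nat_lit 456) (XT.nd (nat_lit 390) (nat_lit 0) (nat_lit 0) (XT.nd (nat_lit 156) (nat_lit 0) (nat_lit 0) (XT.nd (nat_lit 78) (nat_lit 0) (nat_lit 0) (XT.lf (nat_lit 0) (nat_lit 608025563211) (nat_lit 152) (nat_lit 184431117677) (nat_lit 0) (nat_lit 598917487270) (nat_lit 1) (nat_lit 5) (nat_lit 3) (nat_lit 4) (nat_lit 1) (nat_lit 4) (nat_lit 329) (nat_lit 232) (nat_lit 159)) (XT.lf (nat_lit 0) (nat_lit 658467251564) (nat_lit 152) (nat_lit 194650176661) (nat_lit 0) (nat_lit 649356716735) (nat_lit 1) (nat_lit 5) (nat_lit 3) (nat_lit 4) (nat_lit 1) (nat_lit 4) (nat_lit 330) (nat_lit 232) (nat_lit 158))) (XT.nd (nat_lit 78) (nat_lit 0) (nat_lit 0) (XT.lf (nat_lit 0) (nat_lit 712942972934) (nat_lit 152) (nat_lit 205689093626) (nat_lit 0) (nat_lit 703830161359) (nat_lit 1) (nat_lit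 5) (nat_lit 3) (nat_lit 4) (nat_lit 1) (nat_lit 4) (nat_lit 331) (nat_lit 232) (nat_lit 157)) (XT.nd (nat_lit 78) (nat_lit 0) (nat_lit 0) (XT.lf (nat_lit 0) (nat_lit 771775546413) (nat_lit 152) (nat_lit 217613284375) (nat_lit 0) (nat_lit 762660626738) (nat_lit 1) (nat_lit 5) (nat_lit 3) (nat_lit 4) (nat_lit 1) (nat_lit 4) (nat_lit 332) (nat_lit 232) (nat_lit 156)) (XT.lf (nat_lit 0) (nat_lit 835313609473) (nat_lit 152) (nat_lit 230493410780) (nat_lit 0) (nat_lit 826196737853) (nat_lit 1) (nat_lit 5) (nat_lit 3) (nat_lit 4) (nat_lit 1) (nat_lit 4) (nat_lit 333) (nat_lit 232) (nat_lit 155))))) (XT.nd (nat_lit 31434) (nat_lit 0) (nat_lit 1216) (XT.nd (nat_lit 31278) (nat_lit 0) (nat_lit 1444) (XT.lf (nat_lit 0) (nat_lit 903933683967) (nat_lit 152) (nat_lit 244405799516) (nat_lit 0) (nat_lit 894815004992) (nat_lit 1) (nat_lit 5) (nat_lit 3) (nat_lit 4) (nat_lit 1) (nat_lit 4) (nat_lit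 334) (nat_lit 232) (nat_lit 154)) (XT.nd (nat_lit 78) (nat_lit 228) (nat_lit 0) (XT.lf (nat_lit 0) (nat_lit 2307751586) (nat_lit 228) (nat_lit 888712901) (nat_lit 228) (nat_lit 888712901) (nat_lit 23) (nat_lit 4) (nat_lit 26) (nat_lit 5) (nat_lit 26) (nat_lit 4) (nat_lit 254) (nat_lit 233) (nat_lit 233)) (XT.lf (nat_lit 0) (nat_lit 1200200419) (nat_lit 228) (nat_lit 7132561733) (nat_lit 0) (nat_lit 125678337) (nat_lit 20) (nat_lit 5) (nat_lit 23) (nat_lit 4) (nat_lit 20) (nat_lit 4) (nat_lit 255) (nat_lit 233) (nat_lit 232)))) (XT.nd (nat_lit 78) (nat_lit 228) (nat_lit 0) (XT.lf (nat_lit 0) (nat_lit 4254768492) (nat_lit 228) (nat_lit 2332693783) (nat_lit 0) (nat_lit 2185318557) (nat_lit 20) (nat_lit 5) (nat_lit 23) (nat_lit 4) (nat_lit 20) (nat_lit 4) (nat_lit 256) (nat_lit 233) (nat_lit 231)) (XT.nd (nat_lit 78) (nat_lit 76) (nat_lit 0) (XT.lf (nat_lit 0) (nat_lit 2732996636) (nat_lit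 152) (nat_lit 4690944656) (nat_lit 152) (nat_lit 1700265226) (nat_lit 18) (nat_lit 4) (nat_lit 20) (nat_lit 5) (nat_lit 20) (nat_lit 4) (nat_lit 257) (nat_lit 233) (nat_lit 230)) (XT.lf (nat_lit 0) (nat_lit 1147950989) (nat_lit 228) (nat_lit 1455931643) (nat_lit 76) (nat_lit 6908836841) (nat_lit 17) (nat_lit 5) (nat_lit 20) (nat_lit 5) (nat_lit 18) (nat_lit 4) (nat_lit 258) (nat_lit 233) (nat_lit 229)))))) (XT.nd (nat_lit 468) (nat_lit 304) (nat_lit 0) (XT.nd (nat_lit 234) (nat_lit 152) (nat_lit 0) (XT.nd (nat_lit 78) (nat_lit 152) (nat_lit 0) (XT.lf (nat_lit 0) (nat_lit 3778329198) (nat_lit 152) (nat_lit 265807680) (nat_lit 228) (nat_lit 5892922102) (nat_lit 15) (nat_lit 5) (nat_lit 17) (nat_lit 5) (nat_lit 18) (nat_lit 4) (nat_lit 259) (nat_lit 233) (nat_lit 228)) (XT.nd (nat_lit 78) (nat_lit 152) (nat_lit 0) (XT.lf (nat_lit 0) (nat_lit 7094385204) (nat_lit 228) (nat_lit 1181316745)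 (nat_lit 0) (nat_lit 2126998923) (nat_lit 15) (nat_lit 5) (nat_lit 18) (nat_lit 4) (nat_lit 15) (nat_lit 4) (nat_lit 260) (nat_lit 233) (nat_lit 227)) (XT.lf (nat_lit 0) (nat_lit 4166245644) (nat_lit 152) (nat_lit 6169500255) (nat_lit 152) (nat_lit 575140660) (nat_lit 13) (nat_lit 4) (nat_lit 15) (nat_lit 5) (nat_lit 15) (nat_lit 4) (nat_lit 261) (nat_lit 233) (nat_lit 226)))) (XT.nd (nat_lit 78) (nat_lit 76) (nat_lit 0) (XT.lf (nat_lit 0) (nat_lit 2132476471) (nat_lit 228) (nat_lit 1739339380) (nat_lit 76) (nat_lit 7594272767) (nat_lit 12) (nat_lit 5) (nat_lit 15) (nat_lit 5) (nat_lit 13) (nat_lit 4) (nat_lit 262) (nat_lit 233) (nat_lit 225)) (XT.nd (nat_lit 78) (nat_lit 0) (nat_lit 0) (XT.lf (nat_lit 0) (nat_lit 3616631465) (nat_lit 76) (nat_lit 1349258182) (nat_lit 152) (nat_lit 7104242698) (nat_lit 11) (nat_lit 5) (nat_lit 12) (nat_lit 5) (nat_lit 13) (nat_lit 4) (nat_lit 263)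 (nat_lit 233) (nat_lit 224)) (XT.lf (nat_lit 0) (nat_lit 7965261110) (nat_lit 152) (nat_lit 3473660434) (nat_lit 0) (nat_lit 1289214226) (nat_lit 11) (nat_lit 5) (nat_lit 13) (nat_lit 4) (nat_lit 11) (nat_lit 4) (nat_lit 264) (nat_lit 233) (nat_lit 223))))) (XT.nd (nat_lit 234) (nat_lit 76) (nat_lit 0) (XT.nd (nat_lit 78) (nat_lit 76) (nat_lit 0) (XT.lf (nat_lit 0) (nat_lit 1752896900) (nat_lit 152) (nat_lit 9396871681) (nat_lit 152) (nat_lit 2294117294) (nat_lit 9) (nat_lit 4) (nat_lit 11) (nat_lit 5) (nat_lit 11) (nat_lit 4) (nat_lit 265) (nat_lit 233) (nat_lit 222)) (XT.nd (nat_lit 78) (nat_lit 0) (nat_lit 0) (XT.lf (nat_lit 0) (nat_lit 320006864) (nat_lit 228) (nat_lit 6832239646) (nat_lit 76) (nat_lit 7067233313) (nat_lit 8) (nat_lit 5) (nat_lit 11) (nat_lit 5) (nat_lit 9) (nat_lit 4) (nat_lit 266) (nat_lit 233) (nat_lit 221)) (XT.lf (nat_lit 0) (nat_lit 2898059078) (nat_lit 228)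 (nat_lit 1835723950) (nat_lit 76) (nat_lit 10328844661) (nat_lit 8) (nat_lit 5) (nat_lit 11) (nat_lit 5) (nat_lit 9) (nat_lit 4) (nat_lit 267) (nat_lit 233) (nat_lit 220)))) (XT.nd (nat_lit 78) (nat_lit 0) (nat_lit 0) (XT.lf (nat_lit 0) (nat_lit 3561501395) (nat_lit 76) (nat_lit 2094230528) (nat_lit 152) (nat_lit 10320155528) (nat_lit 7) (nat_lit 5) (nat_lit 8) (nat_lit 5) (nat_lit 9) (nat_lit 4) (nat_lit 268) (nat_lit 233) (nat_lit 219)) (XT.nd (nat_lit 78) (nat_lit 0) (nat_lit 0) (XT.lf (nat_lit 0) (nat_lit 8594040765) (nat_lit 152) (nat_lit 7663059826) (nat_lit 0) (nat_lit 708796543) (nat_lit 7) (nat_lit 5) (nat_lit 9) (nat_lit 4) (nat_lit 7) (nat_lit 4) (nat_lit 269) (nat_lit 233) (nat_lit 218)) (XT.lf (nat_lit 0) (nat_lit 11720266415) (nat_lit 152) (nat_lit 2752943472) (nat_lit 0) (nat_lit 3566124086) (nat_lit 7) (nat_lit 5) (nat_lit 9) (nat_lit 4) (nat_lit 7) (nat_lit 4) (nat_lit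 270) (nat_lit 233) (nat_lit 217))))))) (XT.nd (nat_lit 858) (nat_lit 152) (nat_lit 0) (XT.nd (nat_lit 390) (nat_lit 76) (nat_lit 0) (XT.nd (nat_lit 156) (nat_lit 152) (nat_lit 0) (XT.nd (nat_lit 78) (nat_lit 0) (nat_lit 0) (XT.lf (nat_lit 0) (nat_lit 2521565190) (nat_lit 76) (nat_lit 12541646875) (nat_lit 76) (nat_lit 4138524817) (nat_lit 6) (nat_lit 4) (nat_lit 7) (nat_lit 5) (nat_lit 7) (nat_lit 4) (nat_lit 271) (nat_lit 233) (nat_lit 216)) (XT.lf (nat_lit 0) (nat_lit 8223953785) (nat_lit 76) (nat_lit 10434229784) (nat_lit 76) (nat_lit 1800570939) (nat_lit 6) (nat_lit 4) (nat_lit 7) (nat_lit 5) (nat_lit 7) (nat_lit 4) (nat_lit 272) (nat_lit 233) (nat_lit 215))) (XT.nd (nat_lit 78) (nat_lit 76) (nat_lit 0) (XT.lf (nat_lit 0) (nat_lit 601694114) (nat_lit 152) (nat_lit 7595595073) (nat_lit 76) (nat_lit 13624903622) (nat_lit 5) (nat_lit 5) (nat_lit 7) (nat_lit 5) (nat_lit 6) (nat_lit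 4) (nat_lit 273) (nat_lit 233) (nat_lit 214)) (XT.nd (nat_lit 78) (nat_lit 76) (nat_lit 0) (XT.lf (nat_lit 0) (nat_lit 3018782453) (nat_lit 152) (nat_lit 2765699466) (nat_lit 76) (nat_lit 17513198593) (nat_lit 5) (nat_lit 5) (nat_lit 7) (nat_lit 5) (nat_lit 6) (nat_lit 4) (nat_lit 274) (nat_lit 233) (nat_lit 213)) (XT.lf (nat_lit 0) (nat_lit 2449337242) (nat_lit 76) (nat_lit 3164658788) (nat_lit 152) (nat_lit 19278716988) (nat_lit 4) (nat_lit 5) (nat_lit 5) (nat_lit 5) (nat_lit 6) (nat_lit 4) (nat_lit 275) (nat_lit 233) (nat_lit 212))))) (XT.nd (nat_lit 234) (nat_lit 76) (nat_lit 0) (XT.nd (nat_lit 78) (nat_lit 0) (nat_lit 0) (XT.lf (nat_lit 0) (nat_lit 8118221931) (nat_lit 76) (nat_lit 302666460) (nat_lit 152) (nat_lit 18194400025) (nat_lit 4) (nat_lit 5) (nat_lit 5) (nat_lit 5) (nat_lit 6) (nat_lit 4) (nat_lit 276) (nat_lit 233) (nat_lit 211)) (XT.nd (nat_lit 78) (nat_lit 0) (nat_lit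 0) (XT.lf (nat_lit 0) (nat_lit 11452040530) (nat_lit 152) (nat_lit 14418270087) (nat_lit 0) (nat_lit 2605628135) (nat_lit 4) (nat_lit 5) (nat_lit 6) (nat_lit 4) (nat_lit 4) (nat_lit 4) (nat_lit 277) (nat_lit 233) (nat_lit 210)) (XT.lf (nat_lit 0) (nat_lit 14671185253) (nat_lit 152) (nat_lit 10128586359) (nat_lit 0) (nat_lit 5690256858) (nat_lit 4) (nat_lit 5) (nat_lit 6) (nat_lit 4) (nat_lit 4) (nat_lit 4) (nat_lit 278) (nat_lit 233) (nat_lit 209)))) (XT.nd (nat_lit 78) (nat_lit 76) (nat_lit 0) (XT.lf (nat_lit 0) (nat_lit 18090119838) (nat_lit 152) (nat_lit 5595315818) (nat_lit 0) (nat_lit 8984639590) (nat_lit 4) (nat_lit 5) (nat_lit 6) (nat_lit 4) (nat_lit 4) (nat_lit 4) (nat_lit 279) (nat_lit 233) (nat_lit 208)) (XT.nd (nat_lit 78) (nat_lit 76) (nat_lit 0) (XT.lf (nat_lit 0) (nat_lit 21729104638) (nat_lit 152) (nat_lit 791594637) (nat_lit 0) (nat_lit 12508298601) (nat_lit 4) (nat_lit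 5) (nat_lit 6) (nat_lit 4) (nat_lit 4) (nat_lit 4) (nat_lit 280) (nat_lit 233) (nat_lit 207)) (XT.lf (nat_lit 0) (nat_lit 4538055597) (nat_lit 76) (nat_lit 21180788757) (nat_lit 76) (nat_lit 11853199581) (nat_lit 3) (nat_lit 4) (nat_lit 4) (nat_lit 5) (nat_lit 4) (nat_lit 4) (nat_lit 281) (nat_lit 233) (nat_lit 206)))))) (XT.nd (nat_lit 468) (nat_lit 152) (nat_lit 0) (XT.nd (nat_lit 234) (nat_lit 0) (nat_lit 0) (XT.nd (nat_lit 78) (nat_lit 0) (nat_lit 0) (XT.lf (nat_lit 0) (nat_lit 10255877512) (nat_lit 76) (nat_lit 19745690679) (nat_lit 76) (nat_lit 10319228227) (nat_lit 3) (nat_lit 4) (nat_lit 4) (nat_lit 5) (nat_lit 4) (nat_lit 4) (nat_lit 282) (nat_lit 233) (nat_lit 205)) (XT.nd (nat_lit 78) (nat_lit 0) (nat_lit 0) (XT.lf (nat_lit 0) (nat_lit 16354070527) (nat_lit 76) (nat_lit 18228544358) (nat_lit 76) (nat_lit 8710532576) (nat_lit 3) (nat_lit 4) (nat_lit 4) (nat_lit 5) (nat_lit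 4) (nat_lit 4) (nat_lit 283) (nat_lit 233) (nat_lit 204)) (XT.lf (nat_lit 0) (nat_lit 22868772081) (nat_lit 76) (nat_lit 16620359296) (nat_lit 76) (nat_lit 7017579617) (nat_lit 3) (nat_lit 4) (nat_lit 4) (nat_lit 5) (nat_lit 4) (nat_lit 4) (nat_lit 284) (nat_lit 233) (nat_lit 203)))) (XT.nd (nat_lit 78) (nat_lit 0) (nat_lit 0) (XT.lf (nat_lit 0) (nat_lit 29838587813) (nat_lit 76) (nat_lit 14911605510) (nat_lit 76) (nat_lit 5230337036) (nat_lit 3) (nat_lit 4) (nat_lit 4) (nat_lit 5) (nat_lit 4) (nat_lit 4) (nat_lit 285) (nat_lit 233) (nat_lit 202)) (XT.nd (nat_lit 78) (nat_lit 0) (nat_lit 0) (XT.lf (nat_lit 0) (nat_lit 37304820335) (nat_lit 76) (nat_lit 13092157049) (nat_lit 76) (nat_lit 3338213766) (nat_lit 3) (nat_lit 4) (nat_lit 4) (nat_lit 5) (nat_lit 4) (nat_lit 4) (nat_lit 286) (nat_lit 233) (nat_lit 201)) (XT.lf (nat_lit 0) (nat_lit 45311713987) (nat_lit 76) (nat_lit 11151231998)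 (nat_lit 76) (nat_lit 1329997225) (nat_lit 3) (nat_lit 4) (nat_lit 4) (nat_lit 5) (nat_lit 4) (nat_lit 4) (nat_lit 287) (nat_lit 233) (nat_lit 200))))) (XT.nd (nat_lit 234) (nat_lit 0) (nat_lit 0) (XT.nd (nat_lit 78) (nat_lit 76) (nat_lit 0) (XT.lf (nat_lit 0) (nat_lit 765883084) (nat_lit 152) (nat_lit 8290504894) (nat_lit 76) (nat_lit 53119893344) (nat_lit 2) (nat_lit 5) (nat_lit 4) (nat_lit 5) (nat_lit 3) (nat_lit 4) (nat_lit 288) (nat_lit 233) (nat_lit 199)) (XT.nd (nat_lit 78) (nat_lit 76) (nat_lit 0) (XT.lf (nat_lit 0) (nat_lit 2928848359) (nat_lit 152) (nat_lit 3849228728) (nat_lit 76) (nat_lit 60131834547) (nat_lit 2) (nat_lit 5) (nat_lit 4) (nat_lit 5) (nat_lit 3) (nat_lit 4) (nat_lit 289) (nat_lit 233) (nat_lit 198)) (XT.lf (nat_lit 0) (nat_lit 948344441) (nat_lit 76) (nat_lit 4312711285) (nat_lit 152) (nat_lit 66761563866) (nat_lit 1) (nat_lit 5) (nat_lit 2) (nat_lit 5) (nat_lit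 3) (nat_lit 4) (nat_lit 290) (nat_lit 233) (nat_lit 197)))) (XT.nd (nat_lit 78) (nat_lit 0) (nat_lit 0) (XT.lf (nat_lit 0) (nat_lit 6303363220) (nat_lit 76) (nat_lit 1556000214) (nat_lit 152) (nat_lit 69678696269) (nat_lit 1) (nat_lit 5) (nat_lit 2) (nat_lit 5) (nat_lit 3) (nat_lit 4) (nat_lit 291) (nat_lit 233) (nat_lit 196)) (XT.nd (nat_lit 78) (nat_lit 0) (nat_lit 0) (XT.lf (nat_lit 0) (nat_lit 10675465764) (nat_lit 152) (nat_lit 71485590205) (nat_lit 0) (nat_lit 1332956336) (nat_lit 1) (nat_lit 5) (nat_lit 3) (nat_lit 4) (nat_lit 1) (nat_lit 4) (nat_lit 292) (nat_lit 233) (nat_lit 195)) (XT.lf (nat_lit 0) (nat_lit 13734817206) (nat_lit 152) (nat_lit 71837209568) (nat_lit 0) (nat_lit 4353043839) (nat_lit 1) (nat_lit 5) (nat_lit 3) (nat_lit 4) (nat_lit 1) (nat_lit 4) (nat_lit 293) (nat_lit 233) (nat_lit 194))))))))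
noncomputable def xc37 : XT := (XT.nd (nat_lit 1794) (nat_lit 0) (nat_lit 0) (XT.nd (nat_lit 858) (nat_lit 0) (nat_lit 0) (XT.nd (nat_lit 390) (nat_lit 0) (nat_lit 0) (XT.nd (nat_lit 156) (nat_lit 0) (nat_lit 0) (XT.nd (nat_lit 78) (nat_lit 0) (nat_lit 0) (XT.lf (nat_lit 0) (nat_lit 17018125406) (nat_lit 152) (nat_lit 72254216403) (nat_lit 0) (nat_lit 7599996541) (nat_lit 1) (nat_lit 5) (nat_lit 3) (nat_lit 4) (nat_lit 1) (nat_lit 4) (nat_lit 294) (nat_lit 233) (nat_lit 193)) (XT.lf (nat_lit 0) (nat_lit 20544847007) (nat_lit 152) (nat_lit 72739081860) (nat_lit 0) (nat_lit 11093055643) (nat_lit 1) (nat_lit 5) (nat_lit 3) (nat_lit 4) (nat_lit 1) (nat_lit 4) (nat_lit 295) (nat_lit 233) (nat_lit 192))) (XT.nd (nat_lit 78) (nat_lit 0) (nat_lit 0) (XT.lf (nat_lit 0) (nat_lit 24335881099) (nat_lit 152) (nat_lit 73294679216) (nat_lit 0) (nat_lit 14852920755) (nat_lit 1) (nat_lit 5) (nat_lit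 3) (nat_lit 4) (nat_lit 1) (nat_lit 4) (nat_lit 296) (nat_lit 233) (nat_lit 191)) (XT.nd (nat_lit 78) (nat_lit 0) (nat_lit 0) (XT.lf (nat_lit 0) (nat_lit 28413693070) (nat_lit 152) (nat_lit 73924300901) (nat_lit 0) (nat_lit 18901872559) (nat_lit 1) (nat_lit 5) (nat_lit 3) (nat_lit 4) (nat_lit 1) (nat_lit 4) (nat_lit 297) (nat_lit 233) (nat_lit 190)) (XT.lf (nat_lit 0) (nat_lit 32802447731) (nat_lit 152) (nat_lit 74631678004) (nat_lit 0) (nat_lit 23263904843) (nat_lit 1) (nat_lit 5) (nat_lit 3) (nat_lit 4) (nat_lit 1) (nat_lit 4) (nat_lit 298) (nat_lit 233) (nat_lit 189))))) (XT.nd (nat_lit 234) (nat_lit 0) (nat_lit 0) (XT.nd (nat_lit 78) (nat_lit 0) (nat_lit 0) (XT.lf (nat_lit 0) (nat_lit 37528152517) (nat_lit 152) (nat_lit 75421002391) (nat_lit 0) (nat_lit 27964866688) (nat_lit 1) (nat_lit 5) (nat_lit 3) (nat_lit 4) (nat_lit 1) (nat_lit 4) (nat_lit 299) (nat_lit 233) (nat_lit 188))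 (XT.nd (nat_lit 78) (nat_lit 0) (nat_lit 0) (XT.lf (nat_lit 0) (nat_lit 42618811604) (nat_lit 152) (nat_lit 76296951540) (nat_lit 0) (nat_lit 33032615645) (nat_lit 1) (nat_lit 5) (nat_lit 3) (nat_lit 4) (nat_lit 1) (nat_lit 4) (nat_lit 300) (nat_lit 233) (nat_lit 187)) (XT.lf (nat_lit 0) (nat_lit 48104591863) (nat_lit 152) (nat_lit 77264716260) (nat_lit 0) (nat_lit 38497182819) (nat_lit 1) (nat_lit 5) (nat_lit 3) (nat_lit 4) (nat_lit 1) (nat_lit 4) (nat_lit 301) (nat_lit 233) (nat_lit 186)))) (XT.nd (nat_lit 78) (nat_lit 0) (nat_lit 0) (XT.lf (nat_lit 0) (nat_lit 54018001619) (nat_lit 152) (nat_lit 78330031454) (nat_lit 0) (nat_lit 44390950830) (nat_lit 1) (nat_lit 5) (nat_lit 3) (nat_lit 4) (nat_lit 1) (nat_lit 4) (nat_lit 302) (nat_lit 233) (nat_lit 185)) (XT.nd (nat_lit 78) (nat_lit 0) (nat_lit 0) (XT.lf (nat_lit 0) (nat_lit 60394083301) (nat_lit 152) (nat_lit 79499210099) (nat_lit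 0) (nat_lit 50748845712) (nat_lit 1) (nat_lit 5) (nat_lit 3) (nat_lit 4) (nat_lit 1) (nat_lit 4) (nat_lit 303) (nat_lit 233) (nat_lit 184)) (XT.lf (nat_lit 0) (nat_lit 67270621097) (nat_lit 152) (nat_lit 80779180663) (nat_lit 0) (nat_lit 57608543878) (nat_lit 1) (nat_lit 5) (nat_lit 3) (nat_lit 4) (nat_lit 1) (nat_lit 4) (nat_lit 304) (nat_lit 233) (nat_lit 183)))))) (XT.nd (nat_lit 468) (nat_lit 0) (nat_lit 0) (XT.nd (nat_lit 234) (nat_lit 0) (nat_lit 0) (XT.nd (nat_lit 78) (nat_lit 0) (nat_lit 0) (XT.lf (nat_lit 0) (nat_lit 74688364860) (nat_lit 152) (nat_lit 82177528157) (nat_lit 0) (nat_lit 65010695391) (nat_lit 1) (nat_lit 5) (nat_lit 3) (nat_lit 4) (nat_lit 1) (nat_lit 4) (nat_lit 305) (nat_lit 233) (nat_lit 182)) (XT.nd (nat_lit 78) (nat_lit 0) (nat_lit 0) (XT.lf (nat_lit 0) (nat_lit 82691271591) (nat_lit 152) (nat_lit 83702539083) (nat_lit 0) (nat_lit 72999164853) (nat_lit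 1) (nat_lit 5) (nat_lit 3) (nat_lit 4) (nat_lit 1) (nat_lit 4) (nat_lit 306) (nat_lit 233) (nat_lit 181)) (XT.lf (nat_lit 0) (nat_lit 91326765922) (nat_lit 152) (nat_lit 85363250543) (nat_lit 0) (nat_lit 81621291342) (nat_lit 1) (nat_lit 5) (nat_lit 3) (nat_lit 4) (nat_lit 1) (nat_lit 4) (nat_lit 307) (nat_lit 233) (nat_lit 180)))) (XT.nd (nat_lit 78) (nat_lit 0) (nat_lit 0) (XT.lf (nat_lit 0) (nat_lit 100646021152) (nat_lit 152) (nat_lit 87169503791) (nat_lit 0) (nat_lit 90928168942) (nat_lit 1) (nat_lit 5) (nat_lit 3) (nat_lit 4) (nat_lit 1) (nat_lit 4) (nat_lit 308) (nat_lit 233) (nat_lit 179)) (XT.nd (nat_lit 78) (nat_lit 0) (nat_lit 0) (XT.lf (nat_lit 0) (nat_lit 110704262498) (nat_lit 152) (nat_lit 89132002550) (nat_lit 0) (nat_lit 100974949519) (nat_lit 1) (nat_lit 5) (nat_lit 3) (nat_lit 4) (nat_lit 1) (nat_lit 4) (nat_lit 309) (nat_lit 233) (nat_lit 178)) (XT.lf (nat_lit 0)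 (nat_lit 121561094354) (nat_lit 152) (nat_lit 91262376442) (nat_lit 0) (nat_lit 111821169551) (nat_lit 1) (nat_lit 5) (nat_lit 3) (nat_lit 4) (nat_lit 1) (nat_lit 4) (nat_lit 310) (nat_lit 233) (nat_lit 177))))) (XT.nd (nat_lit 234) (nat_lit 0) (nat_lit 0) (XT.nd (nat_lit 78) (nat_lit 0) (nat_lit 0) (XT.lf (nat_lit 0) (nat_lit 133280853499) (nat_lit 152) (nat_lit 93573249904) (nat_lit 0) (nat_lit 123531102934) (nat_lit 1) (nat_lit 5) (nat_lit 3) (nat_lit 4) (nat_lit 1) (nat_lit 4) (nat_lit 311) (nat_lit 233) (nat_lit 176)) (XT.nd (nat_lit 78) (nat_lit 0) (nat_lit 0) (XT.lf (nat_lit 0) (nat_lit 145932990360) (nat_lit 152) (nat_lit 96078317002) (nat_lit 0) (nat_lit 136174141867) (nat_lit 1) (nat_lit 5) (nat_lit 3) (nat_lit 4) (nat_lit 1) (nat_lit 4) (nat_lit 312) (nat_lit 233) (nat_lit 175)) (XT.lf (nat_lit 0) (nat_lit 159592480562) (nat_lit 152) (nat_lit 98792422578) (nat_lit 0) (nat_lit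 149825208061) (nat_lit 1) (nat_lit 5) (nat_lit 3) (nat_lit 4) (nat_lit 1) (nat_lit 4) (nat_lit 313) (nat_lit 233) (nat_lit 174)))) (XT.nd (nat_lit 78) (nat_lit 0) (nat_lit 0) (XT.lf (nat_lit 0) (nat_lit 174340269231) (nat_lit 152) (nat_lit 101731650220) (nat_lit 0) (nat_lit 164565196723) (nat_lit 1) (nat_lit 5) (nat_lit 3) (nat_lit 4) (nat_lit 1) (nat_lit 4) (nat_lit 314) (nat_lit 233) (nat_lit 173)) (XT.nd (nat_lit 78) (nat_lit 0) (nat_lit 0) (XT.lf (nat_lit 0) (nat_lit 190263750672) (nat_lit 152) (nat_lit 104913417574) (nat_lit 0) (nat_lit 180481455935) (nat_lit 1) (nat_lit 5) (nat_lit 3) (nat_lit 4) (nat_lit 1) (nat_lit 4) (nat_lit 315) (nat_lit 233) (nat_lit 172)) (XT.lf (nat_lit 0) (nat_lit 207457286255) (nat_lit 152) (nat_lit 108356579557) (nat_lit 0) (nat_lit 197668304269) (nat_lit 1) (nat_lit 5) (nat_lit 3) (nat_lit 4) (nat_lit 1) (nat_lit 4) (nat_lit 316) (nat_lit 233) (nat_lit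 171))))))) (XT.nd (nat_lit 858) (nat_lit 0) (nat_lit 0) (XT.nd (nat_lit 390) (nat_lit 0) (nat_lit 0) (XT.nd (nat_lit 156) (nat_lit 0) (nat_lit 0) (XT.nd (nat_lit 78) (nat_lit 0) (nat_lit 0) (XT.lf (nat_lit 0) (nat_lit 226022763599) (nat_lit 152) (nat_lit 112081540092) (nat_lit 0) (nat_lit 216227589717) (nat_lit 1) (nat_lit 5) (nat_lit 3) (nat_lit 4) (nat_lit 1) (nat_lit 4) (nat_lit 317) (nat_lit 233) (nat_lit 170)) (XT.lf (nat_lit 0) (nat_lit 246070200348) (nat_lit 152) (nat_lit 116110373020) (nat_lit 0) (nat_lit 236269293227) (nat_lit 1) (nat_lit 5) (nat_lit 3) (nat_lit 4) (nat_lit 1) (nat_lit 4) (nat_lit 318) (nat_lit 233) (nat_lit 169))) (XT.nd (nat_lit 78) (nat_lit 0) (nat_lit 0) (XT.lf (nat_lit 0) (nat_lit 267718396126) (nat_lit 152) (nat_lit 120466952905) (nat_lit 0) (nat_lit 257912180452) (nat_lit 1) (nat_lit 5) (nat_lit 3) (nat_lit 4) (nat_lit 1) (nat_lit 4) (nat_lit 319) (nat_lit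 233) (nat_lit 168)) (XT.nd (nat_lit 78) (nat_lit 0) (nat_lit 0) (XT.lf (nat_lit 0) (nat_lit 291095636539) (nat_lit 152) (nat_lit 125177096518) (nat_lit 0) (nat_lit 281284505537) (nat_lit 1) (nat_lit 5) (nat_lit 3) (nat_lit 4) (nat_lit 1) (nat_lit 4) (nat_lit 320) (nat_lit 233) (nat_lit 167)) (XT.lf (nat_lit 0) (nat_lit 316340453381) (nat_lit 152) (nat_lit 130268715821) (nat_lit 0) (nat_lit 306524771150) (nat_lit 1) (nat_lit 5) (nat_lit 3) (nat_lit 4) (nat_lit 1) (nat_lit 4) (nat_lit 321) (nat_lit 233) (nat_lit 166))))) (XT.nd (nat_lit 234) (nat_lit 0) (nat_lit 0) (XT.nd (nat_lit 78) (nat_lit 0) (nat_lit 0) (XT.lf (nat_lit 0) (nat_lit 343602445566) (nat_lit 152) (nat_lit 135771983372) (nat_lit 0) (nat_lit 333782549234) (nat_lit 1) (nat_lit 5) (nat_lit 3) (nat_lit 4) (nat_lit 1) (nat_lit 4) (nat_lit 322) (nat_lit 233) (nat_lit 165)) (XT.nd (nat_lit 78) (nat_lit 0) (nat_lit 0) (XT.lf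 (nat_lit 0) (nat_lit 373043165642) (nat_lit 152) (nat_lit 141719511128) (nat_lit 0) (nat_lit 363219367365) (nat_lit 1) (nat_lit 5) (nat_lit 3) (nat_lit 4) (nat_lit 1) (nat_lit 4) (nat_lit 323) (nat_lit 233) (nat_lit 164)) (XT.lf (nat_lit 0) (nat_lit 404837077135) (nat_lit 152) (nat_lit 148146543697) (nat_lit 0) (nat_lit 395009665945) (nat_lit 1) (nat_lit 5) (nat_lit 3) (nat_lit 4) (nat_lit 1) (nat_lit 4) (nat_lit 324) (nat_lit 233) (nat_lit 163)))) (XT.nd (nat_lit 78) (nat_lit 0) (nat_lit 0) (XT.lf (nat_lit 0) (nat_lit 439172588408) (nat_lit 152) (nat_lit 155091167198) (nat_lit 0) (nat_lit 429341831929) (nat_lit 1) (nat_lit 5) (nat_lit 3) (nat_lit 4) (nat_lit 1) (nat_lit 4) (nat_lit 325) (nat_lit 233) (nat_lit 162)) (XT.nd (nat_lit 78) (nat_lit 0) (nat_lit 0) (XT.lf (nat_lit 0) (nat_lit 476253169159) (nat_lit 152) (nat_lit 162594534956) (nat_lit 0) (nat_lit 466419315190) (nat_lit 1)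 (nat_lit 5) (nat_lit 3) (nat_lit 4) (nat_lit 1) (nat_lit 4) (nat_lit 326) (nat_lit 233) (nat_lit 161)) (XT.lf (nat_lit 0) (nat_lit 516298556162) (nat_lit 152) (nat_lit 170701111372) (nat_lit 0) (nat_lit 506461834146) (nat_lit 1) (nat_lit 5) (nat_lit 3) (nat_lit 4) (nat_lit 1) (nat_lit 4) (nat_lit 327) (nat_lit 233) (nat_lit 160)))))) (XT.nd (nat_lit 468) (nat_lit 0) (nat_lit 0) (XT.nd (nat_lit 234) (nat_lit 0) (nat_lit 0) (XT.nd (nat_lit 78) (nat_lit 0) (nat_lit 0) (XT.lf (nat_lit 0) (nat_lit 559546055414) (nat_lit 152) (nat_lit 179458935418) (nat_lit 0) (nat_lit 549706677800) (nat_lit 1) (nat_lit 5) (nat_lit 3) (nat_lit 4) (nat_lit 1) (nat_lit 4) (nat_lit 328) (nat_lit 233) (nat_lit 159)) (XT.nd (nat_lit 78) (nat_lit 0) (nat_lit 0) (XT.lf (nat_lit 0) (nat_lit 606251948393) (nat_lit 152) (nat_lit 188919905310) (nat_lit 0) (nat_lit 596410111891) (nat_lit 1) (nat_lit 5) (nat_lit 3) (nat_lit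 4) (nat_lit 1) (nat_lit 4) (nat_lit 329) (nat_lit 233) (nat_lit 158)) (XT.lf (nat_lit 0) (nat_lit 656693010760) (nat_lit 152) (nat_lit 199140086055) (nat_lit 0) (nat_lit 646848897510) (nat_lit 1) (nat_lit 5) (nat_lit 3) (nat_lit 4) (nat_lit 1) (nat_lit 4) (nat_lit 330) (nat_lit 233) (nat_lit 157)))) (XT.nd (nat_lit 78) (nat_lit 0) (nat_lit 0) (XT.lf (nat_lit 0) (nat_lit 711168152515) (nat_lit 152) (nat_lit 210180041687) (nat_lit 0) (nat_lit 701321931165) (nat_lit 1) (nat_lit 5) (nat_lit 3) (nat_lit 4) (nat_lit 1) (nat_lit 4) (nat_lit 331) (nat_lit 233) (nat_lit 156)) (XT.nd (nat_lit 78) (nat_lit 0) (nat_lit 0) (XT.lf (nat_lit 0) (nat_lit 770000189312) (nat_lit 152) (nat_lit 222105194165) (nat_lit 0) (nat_lit 760152016018) (nat_lit 1) (nat_lit 5) (nat_lit 3) (nat_lit 4) (nat_lit 1) (nat_lit 4) (nat_lit 332) (nat_lit 233) (nat_lit 155)) (XT.lf (nat_lit 0) (nat_lit 833537755444) (nat_lit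 152) (nat_lit 234986211060) (nat_lit 0) (nat_lit 823687774794) (nat_lit 1) (nat_lit 5) (nat_lit 3) (nat_lit 4) (nat_lit 1) (nat_lit 4) (nat_lit 333) (nat_lit 233) (nat_lit 154))))) (XT.nd (nat_lit 31278) (nat_lit 0) (nat_lit 1444) (XT.nd (nat_lit 31122) (nat_lit 0) (nat_lit 1900) (XT.lf (nat_lit 0) (nat_lit 902157369820) (nat_lit 152) (nat_lit 248899424323) (nat_lit 0) (nat_lit 892305715694) (nat_lit 1) (nat_lit 5) (nat_lit 3) (nat_lit 4) (nat_lit 1) (nat_lit 4) (nat_lit 334) (nat_lit 233) (nat_lit 153)) (XT.nd (nat_lit 78) (nat_lit 0) (nat_lit 0) (XT.lf (nat_lit 0) (nat_lit 704147007) (nat_lit 532) (nat_lit 2431961762) (nat_lit 0) (nat_lit 704147007) (nat_lit 26) (nat_lit 5) (nat_lit 33) (nat_lit 4) (nat_lit 26) (nat_lit 4) (nat_lit 252) (nat_lit 234) (nat_lit 234)) (XT.lf (nat_lit 0) (nat_lit 4405529473) (nat_lit 532) (nat_lit 357929623) (nat_lit 0) (nat_lit 3152206916) (nat_lit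 26) (nat_lit 5) (nat_lit 33) (nat_lit 4) (nat_lit 26) (nat_lit 4) (nat_lit 253) (nat_lit 234) (nat_lit 233)))) (XT.nd (nat_lit 78) (nat_lit 228) (nat_lit 0) (XT.lf (nat_lit 0) (nat_lit 4494713781) (nat_lit 228) (nat_lit 3049285358) (nat_lit 228) (nat_lit 635478953) (nat_lit 23) (nat_lit 4) (nat_lit 26) (nat_lit 5) (nat_lit 26) (nat_lit 4) (nat_lit 254) (nat_lit 234) (nat_lit 232)) (XT.nd (nat_lit 78) (nat_lit 0) (nat_lit 0) (XT.lf (nat_lit 0) (nat_lit 1039638296) (nat_lit 152) (nat_lit 1137268810) (nat_lit 228) (nat_lit 6297917395) (nat_lit 20) (nat_lit 5) (nat_lit 22) (nat_lit 5) (nat_lit 23) (nat_lit 4) (nat_lit 255) (nat_lit 234) (nat_lit 231)) (XT.lf (nat_lit 0) (nat_lit 5110138571) (nat_lit 228) (nat_lit 2730506589) (nat_lit 0) (nat_lit 958975293) (nat_lit 20) (nat_lit 5) (nat_lit 23) (nat_lit 4) (nat_lit 20) (nat_lit 4) (nat_lit 256) (nat_lit 234) (nat_lit 230))))))))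
noncomputable def xc38 : XT := (XT.nd (nat_lit 1794) (nat_lit 228) (nat_lit 0) (XT.nd (nat_lit 858) (nat_lit 304) (nat_lit 0) (XT.nd (nat_lit 390) (nat_lit 380) (nat_lit 0) (XT.nd (nat_lit 156) (nat_lit 304) (nat_lit 0) (XT.nd (nat_lit 78) (nat_lit 76) (nat_lit 0) (XT.lf (nat_lit 0) (nat_lit 2194798305) (nat_lit 152) (nat_lit 5984545987) (nat_lit 152) (nat_lit 980392437) (nat_lit 18) (nat_lit 4) (nat_lit 20) (nat_lit 5) (nat_lit 20) (nat_lit 4) (nat_lit 257) (nat_lit 234) (nat_lit 229)) (XT.lf (nat_lit 0) (nat_lit 1745804149) (nat_lit 228) (nat_lit 2162686726) (nat_lit 76) (nat_lit 5645848795) (nat_lit 17) (nat_lit 5) (nat_lit 20) (nat_lit 5) (nat_lit 18) (nat_lit 4) (nat_lit 258) (nat_lit 234) (nat_lit 228))) (XT.nd (nat_lit 78) (nat_lit 152) (nat_lit 0) (XT.lf (nat_lit 0) (nat_lit 2921573518) (nat_lit 152) (nat_lit 1620173861) (nat_lit 228) (nat_lit 5445501514) (nat_lit 15) (nat_lit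 5) (nat_lit 17) (nat_lit 5) (nat_lit 18) (nat_lit 4) (nat_lit 259) (nat_lit 234) (nat_lit 227)) (XT.nd (nat_lit 78) (nat_lit 152) (nat_lit 0) (XT.lf (nat_lit 0) (nat_lit 7482495330) (nat_lit 228) (nat_lit 2166051373) (nat_lit 0) (nat_lit 813613653) (nat_lit 15) (nat_lit 5) (nat_lit 18) (nat_lit 4) (nat_lit 15) (nat_lit 4) (nat_lit 260) (nat_lit 234) (nat_lit 226)) (XT.lf (nat_lit 0) (nat_lit 3022089024) (nat_lit 152) (nat_lit 7603020528) (nat_lit 152) (nat_lit 353608005) (nat_lit 13) (nat_lit 4) (nat_lit 15) (nat_lit 5) (nat_lit 15) (nat_lit 4) (nat_lit 261) (nat_lit 234) (nat_lit 225))))) (XT.nd (nat_lit 234) (nat_lit 228) (nat_lit 0) (XT.nd (nat_lit 78) (nat_lit 76) (nat_lit 0) (XT.lf (nat_lit 0) (nat_lit 2272388288) (nat_lit 228) (nat_lit 3060373444) (nat_lit 76) (nat_lit 6206779254) (nat_lit 12) (nat_lit 5) (nat_lit 15) (nat_lit 5) (nat_lit 13) (nat_lit 4) (nat_lit 262) (nat_lit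 234) (nat_lit 224)) (XT.nd (nat_lit 78) (nat_lit 0) (nat_lit 0) (XT.lf (nat_lit 0) (nat_lit 2124941294) (nat_lit 76) (nat_lit 2879671210) (nat_lit 152) (nat_lit 7147441854) (nat_lit 11) (nat_lit 5) (nat_lit 12) (nat_lit 5) (nat_lit 13) (nat_lit 4) (nat_lit 263) (nat_lit 234) (nat_lit 223)) (XT.lf (nat_lit 0) (nat_lit 7704430127) (nat_lit 76) (nat_lit 204188596) (nat_lit 152) (nat_lit 4909415062) (nat_lit 11) (nat_lit 5) (nat_lit 12) (nat_lit 5) (nat_lit 13) (nat_lit 4) (nat_lit 264) (nat_lit 234) (nat_lit 222)))) (XT.nd (nat_lit 78) (nat_lit 228) (nat_lit 0) (XT.lf (nat_lit 0) (nat_lit 10987290175) (nat_lit 152) (nat_lit 60773300) (nat_lit 0) (nat_lit 2494508395) (nat_lit 11) (nat_lit 5) (nat_lit 13) (nat_lit 4) (nat_lit 11) (nat_lit 4) (nat_lit 265) (nat_lit 234) (nat_lit 221)) (XT.nd (nat_lit 78) (nat_lit 0) (nat_lit 0) (XT.lf (nat_lit 0) (nat_lit 12030380) (nat_lit 228) (nat_lit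 8833591494) (nat_lit 76) (nat_lit 5478111840) (nat_lit 8) (nat_lit 5) (nat_lit 11) (nat_lit 5) (nat_lit 9) (nat_lit 4) (nat_lit 266) (nat_lit 234) (nat_lit 220)) (XT.lf (nat_lit 0) (nat_lit 2536102911) (nat_lit 228) (nat_lit 3922254802) (nat_lit 76) (nat_lit 8713097137) (nat_lit 8) (nat_lit 5) (nat_lit 11) (nat_lit 5) (nat_lit 9) (nat_lit 4) (nat_lit 267) (nat_lit 234) (nat_lit 219)))))) (XT.nd (nat_lit 468) (nat_lit 152) (nat_lit 0) (XT.nd (nat_lit 234) (nat_lit 76) (nat_lit 0) (XT.nd (nat_lit 78) (nat_lit 0) (nat_lit 0) (XT.lf (nat_lit 0) (nat_lit 1282074952) (nat_lit 76) (nat_lit 3906899357) (nat_lit 152) (nat_lit 10904360436) (nat_lit 7) (nat_lit 5) (nat_lit 8) (nat_lit 5) (nat_lit 9) (nat_lit 4) (nat_lit 268) (nat_lit 234) (nat_lit 218)) (XT.nd (nat_lit 78) (nat_lit 0) (nat_lit 0) (XT.lf (nat_lit 0) (nat_lit 6965917865) (nat_lit 76) (nat_lit 1095293401) (nat_lit 152) (nat_lit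 9027637447) (nat_lit 7) (nat_lit 5) (nat_lit 8) (nat_lit 5) (nat_lit 9) (nat_lit 4) (nat_lit 269) (nat_lit 234) (nat_lit 217)) (XT.lf (nat_lit 0) (nat_lit 11115892317) (nat_lit 152) (nat_lit 5260778384) (nat_lit 0) (nat_lit 1791540764) (nat_lit 7) (nat_lit 5) (nat_lit 9) (nat_lit 4) (nat_lit 7) (nat_lit 4) (nat_lit 270) (nat_lit 234) (nat_lit 216)))) (XT.nd (nat_lit 78) (nat_lit 76) (nat_lit 0) (XT.lf (nat_lit 0) (nat_lit 14356339849) (nat_lit 152) (nat_lit 181210219) (nat_lit 0) (nat_lit 4801451511) (nat_lit 7) (nat_lit 5) (nat_lit 9) (nat_lit 4) (nat_lit 7) (nat_lit 4) (nat_lit 271) (nat_lit 234) (nat_lit 215)) (XT.nd (nat_lit 78) (nat_lit 0) (nat_lit 0) (XT.lf (nat_lit 0) (nat_lit 5444576383) (nat_lit 76) (nat_lit 12461780493) (nat_lit 76) (nat_lit 2693432167) (nat_lit 6) (nat_lit 4) (nat_lit 7) (nat_lit 5) (nat_lit 7) (nat_lit 4) (nat_lit 272) (nat_lit 234) (nat_lit 214)) (XT.lf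 (nat_lit 0) (nat_lit 11401579327) (nat_lit 76) (nat_lit 10266006934) (nat_lit 76) (nat_lit 300010471) (nat_lit 6) (nat_lit 4) (nat_lit 7) (nat_lit 5) (nat_lit 7) (nat_lit 4) (nat_lit 273) (nat_lit 234) (nat_lit 213))))) (XT.nd (nat_lit 234) (nat_lit 0) (nat_lit 0) (XT.nd (nat_lit 78) (nat_lit 76) (nat_lit 0) (XT.lf (nat_lit 0) (nat_lit 2096437313) (nat_lit 152) (nat_lit 5788414383) (nat_lit 76) (nat_lit 15561799534) (nat_lit 5) (nat_lit 5) (nat_lit 7) (nat_lit 5) (nat_lit 6) (nat_lit 4) (nat_lit 274) (nat_lit 234) (nat_lit 212)) (XT.nd (nat_lit 78) (nat_lit 76) (nat_lit 0) (XT.lf (nat_lit 0) (nat_lit 4599736595) (nat_lit 152) (nat_lit 751003298) (nat_lit 76) (nat_lit 19698424501) (nat_lit 5) (nat_lit 5) (nat_lit 7) (nat_lit 5) (nat_lit 6) (nat_lit 4) (nat_lit 275) (nat_lit 234) (nat_lit 211)) (XT.lf (nat_lit 0) (nat_lit 4824629964) (nat_lit 76) (nat_lit 2531131979) (nat_lit 152) (nat_lit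 19420165275) (nat_lit 4) (nat_lit 5) (nat_lit 5) (nat_lit 5) (nat_lit 6) (nat_lit 4) (nat_lit 276) (nat_lit 234) (nat_lit 210)))) (XT.nd (nat_lit 78) (nat_lit 0) (nat_lit 0) (XT.lf (nat_lit 0) (nat_lit 10303338158) (nat_lit 152) (nat_lit 17870615301) (nat_lit 0) (nat_lit 469419491) (nat_lit 4) (nat_lit 5) (nat_lit 6) (nat_lit 4) (nat_lit 4) (nat_lit 4) (nat_lit 277) (nat_lit 234) (nat_lit 209)) (XT.nd (nat_lit 78) (nat_lit 0) (nat_lit 0) (XT.lf (nat_lit 0) (nat_lit 13494722441) (nat_lit 152) (nat_lit 13628810364) (nat_lit 0) (nat_lit 3536251921) (nat_lit 4) (nat_lit 5) (nat_lit 6) (nat_lit 4) (nat_lit 4) (nat_lit 4) (nat_lit 278) (nat_lit 234) (nat_lit 208)) (XT.lf (nat_lit 0) (nat_lit 16887952914) (nat_lit 152) (nat_lit 9139872036) (nat_lit 0) (nat_lit 6814156605) (nat_lit 4) (nat_lit 5) (nat_lit 6) (nat_lit 4) (nat_lit 4) (nat_lit 4) (nat_lit 279) (nat_lit 234) (nat_lit 207)))))))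 (XT.nd (nat_lit 858) (nat_lit 76) (nat_lit 0) (XT.nd (nat_lit 390) (nat_lit 76) (nat_lit 0) (XT.nd (nat_lit 156) (nat_lit 0) (nat_lit 0) (XT.nd (nat_lit 78) (nat_lit 76) (nat_lit 0) (XT.lf (nat_lit 0) (nat_lit 20503137611) (nat_lit 152) (nat_lit 4377199202) (nat_lit 0) (nat_lit 10322558164) (nat_lit 4) (nat_lit 5) (nat_lit 6) (nat_lit 4) (nat_lit 4) (nat_lit 4) (nat_lit 280) (nat_lit 234) (nat_lit 206)) (XT.lf (nat_lit 0) (nat_lit 723630303) (nat_lit 76) (nat_lit 23655472871) (nat_lit 76) (nat_lit 13376020148) (nat_lit 3) (nat_lit 4) (nat_lit 4) (nat_lit 5) (nat_lit 4) (nat_lit 4) (nat_lit 281) (nat_lit 234) (nat_lit 205))) (XT.nd (nat_lit 78) (nat_lit 0) (nat_lit 0) (XT.lf (nat_lit 0) (nat_lit 6404406712) (nat_lit 76) (nat_lit 22236124603) (nat_lit 76) (nat_lit 11865122549) (nat_lit 3) (nat_lit 4) (nat_lit 4) (nat_lit 5) (nat_lit 4) (nat_lit 4) (nat_lit 282) (nat_lit 234) (nat_lit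 204)) (XT.nd (nat_lit 78) (nat_lit 0) (nat_lit 0) (XT.lf (nat_lit 0) (nat_lit 12468298331) (nat_lit 76) (nat_lit 20733561438) (nat_lit 76) (nat_lit 10277791487) (nat_lit 3) (nat_lit 4) (nat_lit 4) (nat_lit 5) (nat_lit 4) (nat_lit 4) (nat_lit 283) (nat_lit 234) (nat_lit 203)) (XT.lf (nat_lit 0) (nat_lit 18951239334) (nat_lit 76) (nat_lit 19138879300) (nat_lit 76) (nat_lit 8604620554) (nat_lit 3) (nat_lit 4) (nat_lit 4) (nat_lit 5) (nat_lit 4) (nat_lit 4) (nat_lit 284) (nat_lit 234) (nat_lit 202))))) (XT.nd (nat_lit 234) (nat_lit 76) (nat_lit 0) (XT.nd (nat_lit 78) (nat_lit 0) (nat_lit 0) (XT.lf (nat_lit 0) (nat_lit 25891647149) (nat_lit 76) (nat_lit 17442628219) (nat_lit 76) (nat_lit 6835694664) (nat_lit 3) (nat_lit 4) (nat_lit 4) (nat_lit 5) (nat_lit 4) (nat_lit 4) (nat_lit 285) (nat_lit 234) (nat_lit 201)) (XT.nd (nat_lit 78) (nat_lit 0) (nat_lit 0) (XT.lf (nat_lit 0) (nat_lit 33330650117)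 (nat_lit 76) (nat_lit 15634756339) (nat_lit 76) (nat_lit 4960531293) (nat_lit 3) (nat_lit 4) (nat_lit 4) (nat_lit 5) (nat_lit 4) (nat_lit 4) (nat_lit 286) (nat_lit 234) (nat_lit 200)) (XT.lf (nat_lit 0) (nat_lit 41312331220) (nat_lit 76) (nat_lit 13704550343) (nat_lit 76) (nat_lit 2968018362) (nat_lit 3) (nat_lit 4) (nat_lit 4) (nat_lit 5) (nat_lit 4) (nat_lit 4) (nat_lit 287) (nat_lit 234) (nat_lit 199)))) (XT.nd (nat_lit 78) (nat_lit 76) (nat_lit 0) (XT.lf (nat_lit 0) (nat_lit 49883989308) (nat_lit 76) (nat_lit 11640571975) (nat_lit 76) (nat_lit 846348386) (nat_lit 3) (nat_lit 4) (nat_lit 4) (nat_lit 5) (nat_lit 4) (nat_lit 4) (nat_lit 288) (nat_lit 234) (nat_lit 198)) (XT.nd (nat_lit 78) (nat_lit 0) (nat_lit 0) (XT.lf (nat_lit 0) (nat_lit 1346164837) (nat_lit 152) (nat_lit 8047618881) (nat_lit 76) (nat_lit 57713448023) (nat_lit 2) (nat_lit 5) (nat_lit 4) (nat_lit 5) (nat_lit 3)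 (nat_lit 4) (nat_lit 289) (nat_lit 234) (nat_lit 197)) (XT.lf (nat_lit 0) (nat_lit 3643722067) (nat_lit 152) (nat_lit 3318161096) (nat_lit 76) (nat_lit 65260865766) (nat_lit 2) (nat_lit 5) (nat_lit 4) (nat_lit 5) (nat_lit 3) (nat_lit 4) (nat_lit 290) (nat_lit 234) (nat_lit 196)))))) (XT.nd (nat_lit 468) (nat_lit 0) (nat_lit 0) (XT.nd (nat_lit 234) (nat_lit 0) (nat_lit 0) (XT.nd (nat_lit 78) (nat_lit 0) (nat_lit 0) (XT.lf (nat_lit 0) (nat_lit 1841977270) (nat_lit 76) (nat_lit 4304598559) (nat_lit 152) (nat_lit 71599283990) (nat_lit 1) (nat_lit 5) (nat_lit 2) (nat_lit 5) (nat_lit 3) (nat_lit 4) (nat_lit 291) (nat_lit 234) (nat_lit 195)) (XT.nd (nat_lit 78) (nat_lit 0) (nat_lit 0) (XT.lf (nat_lit 0) (nat_lit 7564822346) (nat_lit 76) (nat_lit 1353508353) (nat_lit 152) (nat_lit 74787061429) (nat_lit 1) (nat_lit 5) (nat_lit 2) (nat_lit 5) (nat_lit 3) (nat_lit 4) (nat_lit 292) (nat_lit 234)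 (nat_lit 194)) (XT.lf (nat_lit 0) (nat_lit 11935134387) (nat_lit 152) (nat_lit 76477549700) (nat_lit 0) (nat_lit 1727199715) (nat_lit 1) (nat_lit 5) (nat_lit 3) (nat_lit 4) (nat_lit 1) (nat_lit 4) (nat_lit 293) (nat_lit 234) (nat_lit 193)))) (XT.nd (nat_lit 78) (nat_lit 0) (nat_lit 0) (XT.lf (nat_lit 0) (nat_lit 15209187176) (nat_lit 152) (nat_lit 76911142148) (nat_lit 0) (nat_lit 4967590005) (nat_lit 1) (nat_lit 5) (nat_lit 3) (nat_lit 4) (nat_lit 1) (nat_lit 4) (nat_lit 294) (nat_lit 234) (nat_lit 192)) (XT.nd (nat_lit 78) (nat_lit 0) (nat_lit 0) (XT.lf (nat_lit 0) (nat_lit 18727338952) (nat_lit 152) (nat_lit 77411364654) (nat_lit 0) (nat_lit 8454572800) (nat_lit 1) (nat_lit 5) (nat_lit 3) (nat_lit 4) (nat_lit 1) (nat_lit 4) (nat_lit 295) (nat_lit 234) (nat_lit 191)) (XT.lf (nat_lit 0) (nat_lit 22510438020) (nat_lit 152) (nat_lit 77981181500) (nat_lit 0) (nat_lit 12208811702) (nat_lit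 1) (nat_lit 5) (nat_lit 3) (nat_lit 4) (nat_lit 1) (nat_lit 4) (nat_lit 296) (nat_lit 234) (nat_lit 190))))) (XT.nd (nat_lit 234) (nat_lit 0) (nat_lit 0) (XT.nd (nat_lit 78) (nat_lit 0) (nat_lit 0) (XT.lf (nat_lit 0) (nat_lit 26580902747) (nat_lit 152) (nat_lit 78623969379) (nat_lit 0) (nat_lit 16252554052) (nat_lit 1) (nat_lit 5) (nat_lit 3) (nat_lit 4) (nat_lit 1) (nat_lit 4) (nat_lit 297) (nat_lit 234) (nat_lit 189)) (XT.nd (nat_lit 78) (nat_lit 0) (nat_lit 0) (XT.lf (nat_lit 0) (nat_lit 30962854404) (nat_lit 152) (nat_lit 79343537404) (nat_lit 0) (nat_lit 20609762768) (nat_lit 1) (nat_lit 5) (nat_lit 3) (nat_lit 4) (nat_lit 1) (nat_lit 4) (nat_lit 298) (nat_lit 234) (nat_lit 188)) (XT.lf (nat_lit 0) (nat_lit 35682260113) (nat_lit 152) (nat_lit 80144149680) (nat_lit 0) (nat_lit 25306258346) (nat_lit 1) (nat_lit 5) (nat_lit 3) (nat_lit 4) (nat_lit 1) (nat_lit 4) (nat_lit 299) (nat_lit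 234) (nat_lit 187)))) (XT.nd (nat_lit 78) (nat_lit 0) (nat_lit 0) (XT.lf (nat_lit 0) (nat_lit 40767086722) (nat_lit 152) (nat_lit 81030550579) (nat_lit 0) (nat_lit 30369871870) (nat_lit 1) (nat_lit 5) (nat_lit 3) (nat_lit 4) (nat_lit 1) (nat_lit 4) (nat_lit 300) (nat_lit 234) (nat_lit 186)) (XT.nd (nat_lit 78) (nat_lit 0) (nat_lit 0) (XT.lf (nat_lit 0) (nat_lit 46247466536) (nat_lit 152) (nat_lit 82007992845) (nat_lit 0) (nat_lit 35830609940) (nat_lit 1) (nat_lit 5) (nat_lit 3) (nat_lit 4) (nat_lit 1) (nat_lit 4) (nat_lit 301) (nat_lit 234) (nat_lit 185)) (XT.lf (nat_lit 0) (nat_lit 52155875881) (nat_lit 152) (nat_lit 83082268729) (nat_lit 0) (nat_lit 41720832485) (nat_lit 1) (nat_lit 5) (nat_lit 3) (nat_lit 4) (nat_lit 1) (nat_lit 4) (nat_lit 302) (nat_lit 234) (nat_lit 184))))))))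
noncomputable def xc39 : XT := (XT.nd (nat_lit 1794) (nat_lit 0) (nat_lit 0) (XT.nd (nat_lit 858) (nat_lit 0) (nat_lit 0) (XT.nd (nat_lit 390) (nat_lit 0) (nat_lit 0) (XT.nd (nat_lit 156) (nat_lit 0) (nat_lit 0) (XT.nd (nat_lit 78) (nat_lit 0) (nat_lit 0) (XT.lf (nat_lit 0) (nat_lit 58527327554) (nat_lit 152) (nat_lit 84259744311) (nat_lit 0) (nat_lit 48075444527) (nat_lit 1) (nat_lit 5) (nat_lit 3) (nat_lit 4) (nat_lit 1) (nat_lit 4) (nat_lit 303) (nat_lit 234) (nat_lit 183)) (XT.lf (nat_lit 0) (nat_lit 65399578303) (nat_lit 152) (nat_lit 85547397223) (nat_lit 0) (nat_lit 54932103026) (nat_lit 1) (nat_lit 5) (nat_lit 3) (nat_lit 4) (nat_lit 1) (nat_lit 4) (nat_lit 304) (nat_lit 234) (nat_lit 182))) (XT.nd (nat_lit 78) (nat_lit 0) (nat_lit 0) (XT.lf (nat_lit 0) (nat_lit 72813352579) (nat_lit 152) (nat_lit 86952858002) (nat_lit 0) (nat_lit 62331440034) (nat_lit 1) (nat_lit 5) (nat_lit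 3) (nat_lit 4) (nat_lit 1) (nat_lit 4) (nat_lit 305) (nat_lit 234) (nat_lit 181)) (XT.nd (nat_lit 78) (nat_lit 0) (nat_lit 0) (XT.lf (nat_lit 0) (nat_lit 80812583859) (nat_lit 152) (nat_lit 88484455303) (nat_lit 0) (nat_lit 70317303472) (nat_lit 1) (nat_lit 5) (nat_lit 3) (nat_lit 4) (nat_lit 1) (nat_lit 4) (nat_lit 306) (nat_lit 234) (nat_lit 180)) (XT.lf (nat_lit 0) (nat_lit 89444674994) (nat_lit 152) (nat_lit 90151265259) (nat_lit 0) (nat_lit 78937016976) (nat_lit 1) (nat_lit 5) (nat_lit 3) (nat_lit 4) (nat_lit 1) (nat_lit 4) (nat_lit 307) (nat_lit 234) (nat_lit 179))))) (XT.nd (nat_lit 234) (nat_lit 0) (nat_lit 0) (XT.nd (nat_lit 78) (nat_lit 0) (nat_lit 0) (XT.lf (nat_lit 0) (nat_lit 98760779117) (nat_lit 152) (nat_lit 91963165262) (nat_lit 0) (nat_lit 88241660330) (nat_lit 1) (nat_lit 5) (nat_lit 3) (nat_lit 4) (nat_lit 1) (nat_lit 4) (nat_lit 308) (nat_lit 234) (nat_lit 178))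 (XT.nd (nat_lit 78) (nat_lit 0) (nat_lit 0) (XT.lf (nat_lit 0) (nat_lit 108816102772) (nat_lit 152) (nat_lit 93930892498) (nat_lit 0) (nat_lit 98286372161) (nat_lit 1) (nat_lit 5) (nat_lit 3) (nat_lit 4) (nat_lit 1) (nat_lit 4) (nat_lit 309) (nat_lit 234) (nat_lit 177)) (XT.lf (nat_lit 0) (nat_lit 119670233061) (nat_lit 152) (nat_lit 96066107572) (nat_lit 0) (nat_lit 109130676688) (nat_lit 1) (nat_lit 5) (nat_lit 3) (nat_lit 4) (nat_lit 1) (nat_lit 4) (nat_lit 310) (nat_lit 234) (nat_lit 176)))) (XT.nd (nat_lit 78) (nat_lit 0) (nat_lit 0) (XT.lf (nat_lit 0) (nat_lit 131387490756) (nat_lit 152) (nat_lit 98381463610) (nat_lit 0) (nat_lit 120838836455) (nat_lit 1) (nat_lit 5) (nat_lit 3) (nat_lit 4) (nat_lit 1) (nat_lit 4) (nat_lit 311) (nat_lit 234) (nat_lit 175)) (XT.nd (nat_lit 78) (nat_lit 0) (nat_lit 0) (XT.lf (nat_lit 0) (nat_lit 144037311459) (nat_lit 152) (nat_lit 100890681242)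 (nat_lit 0) (nat_lit 133480233151) (nat_lit 1) (nat_lit 5) (nat_lit 3) (nat_lit 4) (nat_lit 1) (nat_lit 4) (nat_lit 312) (nat_lit 234) (nat_lit 174)) (XT.lf (nat_lit 0) (nat_lit 157694657071) (nat_lit 152) (nat_lit 103608629904) (nat_lit 0) (nat_lit 147129778755) (nat_lit 1) (nat_lit 5) (nat_lit 3) (nat_lit 4) (nat_lit 1) (nat_lit 4) (nat_lit 313) (nat_lit 234) (nat_lit 173)))))) (XT.nd (nat_lit 468) (nat_lit 0) (nat_lit 0) (XT.nd (nat_lit 234) (nat_lit 0) (nat_lit 0) (XT.nd (nat_lit 78) (nat_lit 0) (nat_lit 0) (XT.lf (nat_lit 0) (nat_lit 172440460008) (nat_lit 152) (nat_lit 106551415960) (nat_lit 0) (nat_lit 161868359464) (nat_lit 1) (nat_lit 5) (nat_lit 3) (nat_lit 4) (nat_lit 1) (nat_lit 4) (nat_lit 314) (nat_lit 234) (nat_lit 172)) (XT.nd (nat_lit 78) (nat_lit 0) (nat_lit 0) (XT.lf (nat_lit 0) (nat_lit 188362102808) (nat_lit 152) (nat_lit 109736478141) (nat_lit 0) (nat_lit 177783315015)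 (nat_lit 1) (nat_lit 5) (nat_lit 3) (nat_lit 4) (nat_lit 1) (nat_lit 4) (nat_lit 315) (nat_lit 234) (nat_lit 171)) (XT.lf (nat_lit 0) (nat_lit 205553935946) (nat_lit 152) (nat_lit 113182690891) (nat_lit 0) (nat_lit 194968956256) (nat_lit 1) (nat_lit 5) (nat_lit 3) (nat_lit 4) (nat_lit 1) (nat_lit 4) (nat_lit 316) (nat_lit 234) (nat_lit 170)))) (XT.nd (nat_lit 78) (nat_lit 0) (nat_lit 0) (XT.lf (nat_lit 0) (nat_lit 224117836952) (nat_lit 152) (nat_lit 116910476209) (nat_lit 0) (nat_lit 213527124024) (nat_lit 1) (nat_lit 5) (nat_lit 3) (nat_lit 4) (nat_lit 1) (nat_lit 4) (nat_lit 317) (nat_lit 234) (nat_lit 169)) (XT.nd (nat_lit 78) (nat_lit 0) (nat_lit 0) (XT.lf (nat_lit 0) (nat_lit 244163814129) (nat_lit 152) (nat_lit 120941924677) (nat_lit 0) (nat_lit 233567792647) (nat_lit 1) (nat_lit 5) (nat_lit 3) (nat_lit 4) (nat_lit 1) (nat_lit 4) (nat_lit 318) (nat_lit 234) (nat_lit 168)) (XT.lf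 (nat_lit 0) (nat_lit 265810658451) (nat_lit 152) (nat_lit 125300926359) (nat_lit 0) (nat_lit 255209721642) (nat_lit 1) (nat_lit 5) (nat_lit 3) (nat_lit 4) (nat_lit 1) (nat_lit 4) (nat_lit 319) (nat_lit 234) (nat_lit 167))))) (XT.nd (nat_lit 234) (nat_lit 0) (nat_lit 0) (XT.nd (nat_lit 78) (nat_lit 0) (nat_lit 0) (XT.lf (nat_lit 0) (nat_lit 289186647516) (nat_lit 152) (nat_lit 130013312376) (nat_lit 0) (nat_lit 278581159477) (nat_lit 1) (nat_lit 5) (nat_lit 3) (nat_lit 4) (nat_lit 1) (nat_lit 4) (nat_lit 320) (nat_lit 234) (nat_lit 166)) (XT.nd (nat_lit 78) (nat_lit 0) (nat_lit 0) (XT.lf (nat_lit 0) (nat_lit 314430305702) (nat_lit 152) (nat_lit 135107007979) (nat_lit 0) (nat_lit 303820603563) (nat_lit 1) (nat_lit 5) (nat_lit 3) (nat_lit 4) (nat_lit 1) (nat_lit 4) (nat_lit 321) (nat_lit 234) (nat_lit 165)) (XT.lf (nat_lit 0) (nat_lit 341691225059) (nat_lit 152) (nat_lit 140612198031)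 (nat_lit 0) (nat_lit 331077620974) (nat_lit 1) (nat_lit 5) (nat_lit 3) (nat_lit 4) (nat_lit 1) (nat_lit 4) (nat_lit 322) (nat_lit 234) (nat_lit 164)))) (XT.nd (nat_lit 78) (nat_lit 0) (nat_lit 0) (XT.lf (nat_lit 0) (nat_lit 371130951775) (nat_lit 152) (nat_lit 146561505879) (nat_lit 0) (nat_lit 360513734777) (nat_lit 1) (nat_lit 5) (nat_lit 3) (nat_lit 4) (nat_lit 1) (nat_lit 4) (nat_lit 323) (nat_lit 234) (nat_lit 163)) (XT.nd (nat_lit 78) (nat_lit 0) (nat_lit 0) (XT.lf (nat_lit 0) (nat_lit 402923943489) (nat_lit 152) (nat_lit 152990186682) (nat_lit 0) (nat_lit 392303381202) (nat_lit 1) (nat_lit 5) (nat_lit 3) (nat_lit 4) (nat_lit 1) (nat_lit 4) (nat_lit 324) (nat_lit 234) (nat_lit 162)) (XT.lf (nat_lit 0) (nat_lit 437258603116) (nat_lit 152) (nat_lit 159936336326) (nat_lit 0) (nat_lit 426634943339) (nat_lit 1) (nat_lit 5) (nat_lit 3) (nat_lit 4) (nat_lit 1) (nat_lit 4) (nat_lit 325)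 (nat_lit 234) (nat_lit 161))))))) (XT.nd (nat_lit 31746) (nat_lit 0) (nat_lit 760) (XT.nd (nat_lit 390) (nat_lit 0) (nat_lit 0) (XT.nd (nat_lit 156) (nat_lit 0) (nat_lit 0) (XT.nd (nat_lit 78) (nat_lit 0) (nat_lit 0) (XT.lf (nat_lit 0) (nat_lit 474338395305) (nat_lit 152) (nat_lit 167441117179) (nat_lit 0) (nat_lit 463711867482) (nat_lit 1) (nat_lit 5) (nat_lit 3) (nat_lit 4) (nat_lit 1) (nat_lit 4) (nat_lit 326) (nat_lit 234) (nat_lit 160)) (XT.lf (nat_lit 0) (nat_lit 514383052159) (nat_lit 152) (nat_lit 175549002017) (nat_lit 0) (nat_lit 503753868737) (nat_lit 1) (nat_lit 5) (nat_lit 3) (nat_lit 4) (nat_lit 1) (nat_lit 4) (nat_lit 327) (nat_lit 234) (nat_lit 159))) (XT.nd (nat_lit 78) (nat_lit 0) (nat_lit 0) (XT.lf (nat_lit 0) (nat_lit 557629875347) (nat_lit 152) (nat_lit 184308037564) (nat_lit 0) (nat_lit 546998233037) (nat_lit 1) (nat_lit 5) (nat_lit 3) (nat_lit 4) (nat_lit 1)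 (nat_lit 4) (nat_lit 328) (nat_lit 234) (nat_lit 158)) (XT.nd (nat_lit 78) (nat_lit 0) (nat_lit 0) (XT.lf (nat_lit 0) (nat_lit 604335142340) (nat_lit 152) (nat_lit 193770129216) (nat_lit 0) (nat_lit 593701223283) (nat_lit 1) (nat_lit 5) (nat_lit 3) (nat_lit 4) (nat_lit 1) (nat_lit 4) (nat_lit 329) (nat_lit 234) (nat_lit 157)) (XT.lf (nat_lit 0) (nat_lit 654775625091) (nat_lit 152) (nat_lit 203991348628) (nat_lit 0) (nat_lit 644139597934) (nat_lit 1) (nat_lit 5) (nat_lit 3) (nat_lit 4) (nat_lit 1) (nat_lit 4) (nat_lit 330) (nat_lit 234) (nat_lit 156))))) (XT.nd (nat_lit 234) (nat_lit 0) (nat_lit 0) (XT.nd (nat_lit 78) (nat_lit 0) (nat_lit 0) (XT.lf (nat_lit 0) (nat_lit 709250230164) (nat_lit 152) (nat_lit 215032265988) (nat_lit 0) (nat_lit 698612251063) (nat_lit 1) (nat_lit 5) (nat_lit 3) (nat_lit 4) (nat_lit 1) (nat_lit 4) (nat_lit 331) (nat_lit 234) (nat_lit 155)) (XT.nd (nat_lit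 78) (nat_lit 0) (nat_lit 0) (XT.lf (nat_lit 0) (nat_lit 768081770033) (nat_lit 152) (nat_lit 226958308956) (nat_lit 0) (nat_lit 757441983576) (nat_lit 1) (nat_lit 5) (nat_lit 3) (nat_lit 4) (nat_lit 1) (nat_lit 4) (nat_lit 332) (nat_lit 234) (nat_lit 154)) (XT.lf (nat_lit 0) (nat_lit 831618876047) (nat_lit 152) (nat_lit 239840150378) (nat_lit 0) (nat_lit 820977416113) (nat_lit 1) (nat_lit 5) (nat_lit 3) (nat_lit 4) (nat_lit 1) (nat_lit 4) (nat_lit 333) (nat_lit 234) (nat_lit 153)))) (XT.nd (nat_lit 30966) (nat_lit 0) (nat_lit 2432) (XT.lf (nat_lit 0) (nat_lit 900238064389) (nat_lit 152) (nat_lit 253754127092) (nat_lit 0) (nat_lit 889595054938) (nat_lit 1) (nat_lit 5) (nat_lit 3) (nat_lit 4) (nat_lit 1) (nat_lit 4) (nat_lit 334) (nat_lit 234) (nat_lit 152)) (XT.nd (nat_lit 78) (nat_lit 0) (nat_lit 0) (XT.lf (nat_lit 0) (nat_lit 631075830) (nat_lit 380) (nat_lit 1505035905) (nat_lit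 380) (nat_lit 1505035905) (nat_lit 33) (nat_lit 4) (nat_lit 38) (nat_lit 5) (nat_lit 38) (nat_lit 4) (nat_lit 250) (nat_lit 235) (nat_lit 235)) (XT.lf (nat_lit 0) (nat_lit 5726134485) (nat_lit 380) (nat_lit 1605007039) (nat_lit 380) (nat_lit 143131609) (nat_lit 33) (nat_lit 4) (nat_lit 38) (nat_lit 5) (nat_lit 38) (nat_lit 4) (nat_lit 251) (nat_lit 235) (nat_lit 234)))))) (XT.nd (nat_lit 468) (nat_lit 532) (nat_lit 0) (XT.nd (nat_lit 234) (nat_lit 304) (nat_lit 0) (XT.nd (nat_lit 78) (nat_lit 304) (nat_lit 0) (XT.lf (nat_lit 0) (nat_lit 2654587178) (nat_lit 532) (nat_lit 4987850304) (nat_lit 0) (nat_lit 47676261) (nat_lit 26) (nat_lit 5) (nat_lit 33) (nat_lit 4) (nat_lit 26) (nat_lit 4) (nat_lit 252) (nat_lit 235) (nat_lit 233)) (XT.nd (nat_lit 78) (nat_lit 304) (nat_lit 0) (XT.lf (nat_lit 0) (nat_lit 5552475231) (nat_lit 532) (nat_lit 596603420) (nat_lit 0) (nat_lit 1785080465) (nat_lit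 26) (nat_lit 5) (nat_lit 33) (nat_lit 4) (nat_lit 26) (nat_lit 4) (nat_lit 253) (nat_lit 235) (nat_lit 232)) (XT.lf (nat_lit 0) (nat_lit 364146947) (nat_lit 304) (nat_lit 4084491197) (nat_lit 76) (nat_lit 3757526444) (nat_lit 22) (nat_lit 5) (nat_lit 26) (nat_lit 5) (nat_lit 23) (nat_lit 4) (nat_lit 254) (nat_lit 235) (nat_lit 231)))) (XT.nd (nat_lit 78) (nat_lit 152) (nat_lit 0) (XT.lf (nat_lit 0) (nat_lit 487947573) (nat_lit 152) (nat_lit 2552817942) (nat_lit 228) (nat_lit 5468589761) (nat_lit 20) (nat_lit 5) (nat_lit 22) (nat_lit 5) (nat_lit 23) (nat_lit 4) (nat_lit 255) (nat_lit 235) (nat_lit 230)) (XT.nd (nat_lit 78) (nat_lit 152) (nat_lit 0) (XT.lf (nat_lit 0) (nat_lit 5437322065) (nat_lit 152) (nat_lit 425849213) (nat_lit 228) (nat_lit 2980539231) (nat_lit 20) (nat_lit 5) (nat_lit 22) (nat_lit 5) (nat_lit 23) (nat_lit 4) (nat_lit 256) (nat_lit 235) (nat_lit 229)) (XT.lf (nat_lit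 0) (nat_lit 1383516511) (nat_lit 152) (nat_lit 7438530241) (nat_lit 152) (nat_lit 391248327) (nat_lit 18) (nat_lit 4) (nat_lit 20) (nat_lit 5) (nat_lit 20) (nat_lit 4) (nat_lit 257) (nat_lit 235) (nat_lit 228))))) (XT.nd (nat_lit 234) (nat_lit 304) (nat_lit 0) (XT.nd (nat_lit 78) (nat_lit 152) (nat_lit 0) (XT.lf (nat_lit 0) (nat_lit 2225839221) (nat_lit 228) (nat_lit 3148838007) (nat_lit 76) (nat_lit 4239008594) (nat_lit 17) (nat_lit 5) (nat_lit 20) (nat_lit 5) (nat_lit 18) (nat_lit 4) (nat_lit 258) (nat_lit 235) (nat_lit 227)) (XT.nd (nat_lit 78) (nat_lit 0) (nat_lit 0) (XT.lf (nat_lit 0) (nat_lit 1779063513) (nat_lit 152) (nat_lit 3141502967) (nat_lit 228) (nat_lit 5134635382) (nat_lit 15) (nat_lit 5) (nat_lit 17) (nat_lit 5) (nat_lit 18) (nat_lit 4) (nat_lit 259) (nat_lit 235) (nat_lit 226)) (XT.lf (nat_lit 0) (nat_lit 7079150407) (nat_lit 152) (nat_lit 690964250) (nat_lit 228)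 (nat_lit 2767766446) (nat_lit 15) (nat_lit 5) (nat_lit 17) (nat_lit 5) (nat_lit 18) (nat_lit 4) (nat_lit 260) (nat_lit 235) (nat_lit 225)))) (XT.nd (nat_lit 78) (nat_lit 152) (nat_lit 0) (XT.lf (nat_lit 0) (nat_lit 1579232625) (nat_lit 152) (nat_lit 9216224597) (nat_lit 152) (nat_lit 268799664) (nat_lit 13) (nat_lit 4) (nat_lit 15) (nat_lit 5) (nat_lit 15) (nat_lit 4) (nat_lit 261) (nat_lit 235) (nat_lit 224)) (XT.nd (nat_lit 78) (nat_lit 76) (nat_lit 0) (XT.lf (nat_lit 0) (nat_lit 2287640397) (nat_lit 228) (nat_lit 4686844538) (nat_lit 76) (nat_lit 4656031839) (nat_lit 12) (nat_lit 5) (nat_lit 15) (nat_lit 5) (nat_lit 13) (nat_lit 4) (nat_lit 262) (nat_lit 235) (nat_lit 223)) (XT.lf (nat_lit 0) (nat_lit 319218675) (nat_lit 76) (nat_lit 4596742547) (nat_lit 152) (nat_lit 7335727979) (nat_lit 11) (nat_lit 5) (nat_lit 12) (nat_lit 5) (nat_lit 13) (nat_lit 4) (nat_lit 263) (nat_lit 235)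 (nat_lit 222))))))))
noncomputable def xc40 : XT := (XT.nd (nat_lit 1794) (nat_lit 152) (nat_lit 0) (XT.nd (nat_lit 858) (nat_lit 152) (nat_lit 0) (XT.nd (nat_lit 390) (nat_lit 228) (nat_lit 0) (XT.nd (nat_lit 156) (nat_lit 228) (nat_lit 0) (XT.nd (nat_lit 78) (nat_lit 0) (nat_lit 0) (XT.lf (nat_lit 0) (nat_lit 5812036731) (nat_lit 76) (nat_lit 1949850240) (nat_lit 152) (nat_lit 5160749191) (nat_lit 11) (nat_lit 5) (nat_lit 12) (nat_lit 5) (nat_lit 13) (nat_lit 4) (nat_lit 264) (nat_lit 235) (nat_lit 221)) (XT.lf (nat_lit 0) (nat_lit 10744160341) (nat_lit 152) (nat_lit 2099999492) (nat_lit 0) (nat_lit 811023572) (nat_lit 11) (nat_lit 5) (nat_lit 13) (nat_lit 4) (nat_lit 11) (nat_lit 4) (nat_lit 265) (nat_lit 235) (nat_lit 220))) (XT.nd (nat_lit 78) (nat_lit 76) (nat_lit 0) (XT.lf (nat_lit 0) (nat_lit 3261781290) (nat_lit 152) (nat_lit 10727526645) (nat_lit 152) (nat_lit 455655704)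 (nat_lit 9) (nat_lit 4) (nat_lit 11) (nat_lit 5) (nat_lit 11) (nat_lit 4) (nat_lit 266) (nat_lit 235) (nat_lit 219)) (XT.nd (nat_lit 78) (nat_lit 0) (nat_lit 0) (XT.lf (nat_lit 0) (nat_lit 2041229383) (nat_lit 228) (nat_lit 6339756576) (nat_lit 76) (nat_lit 6916810009) (nat_lit 8) (nat_lit 5) (nat_lit 11) (nat_lit 5) (nat_lit 9) (nat_lit 4) (nat_lit 267) (nat_lit 235) (nat_lit 218)) (XT.lf (nat_lit 0) (nat_lit 4616987970) (nat_lit 228) (nat_lit 1272588671) (nat_lit 76) (nat_lit 10336486780) (nat_lit 8) (nat_lit 5) (nat_lit 11) (nat_lit 5) (nat_lit 9) (nat_lit 4) (nat_lit 268) (nat_lit 235) (nat_lit 217))))) (XT.nd (nat_lit 234) (nat_lit 152) (nat_lit 0) (XT.nd (nat_lit 78) (nat_lit 0) (nat_lit 0) (XT.lf (nat_lit 0) (nat_lit 4273063501) (nat_lit 76) (nat_lit 3139381334) (nat_lit 152) (nat_lit 9815477305) (nat_lit 7) (nat_lit 5) (nat_lit 8) (nat_lit 5) (nat_lit 9) (nat_lit 4) (nat_lit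 269) (nat_lit 235) (nat_lit 216)) (XT.nd (nat_lit 78) (nat_lit 0) (nat_lit 0) (XT.lf (nat_lit 0) (nat_lit 10197656621) (nat_lit 76) (nat_lit 182852084) (nat_lit 152) (nat_lit 7933892919) (nat_lit 7) (nat_lit 5) (nat_lit 8) (nat_lit 5) (nat_lit 9) (nat_lit 4) (nat_lit 270) (nat_lit 235) (nat_lit 215)) (XT.lf (nat_lit 0) (nat_lit 13577804555) (nat_lit 152) (nat_lit 3096484423) (nat_lit 0) (nat_lit 2814528375) (nat_lit 7) (nat_lit 5) (nat_lit 9) (nat_lit 4) (nat_lit 7) (nat_lit 4) (nat_lit 271) (nat_lit 235) (nat_lit 214)))) (XT.nd (nat_lit 78) (nat_lit 76) (nat_lit 0) (XT.lf (nat_lit 0) (nat_lit 2313696615) (nat_lit 76) (nat_lit 14702943819) (nat_lit 76) (nat_lit 3742019503) (nat_lit 6) (nat_lit 4) (nat_lit 7) (nat_lit 5) (nat_lit 7) (nat_lit 4) (nat_lit 272) (nat_lit 235) (nat_lit 213)) (XT.nd (nat_lit 78) (nat_lit 76) (nat_lit 0) (XT.lf (nat_lit 0) (nat_lit 8213206604) (nat_lit 76)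 (nat_lit 12530055125) (nat_lit 76) (nat_lit 1386123274) (nat_lit 6) (nat_lit 4) (nat_lit 7) (nat_lit 5) (nat_lit 7) (nat_lit 4) (nat_lit 273) (nat_lit 235) (nat_lit 212)) (XT.lf (nat_lit 0) (nat_lit 1031648594) (nat_lit 152) (nat_lit 9167554193) (nat_lit 76) (nat_lit 13414094523) (nat_lit 5) (nat_lit 5) (nat_lit 7) (nat_lit 5) (nat_lit 6) (nat_lit 4) (nat_lit 274) (nat_lit 235) (nat_lit 211)))))) (XT.nd (nat_lit 468) (nat_lit 76) (nat_lit 0) (XT.nd (nat_lit 234) (nat_lit 0) (nat_lit 0) (XT.nd (nat_lit 78) (nat_lit 76) (nat_lit 0) (XT.lf (nat_lit 0) (nat_lit 3504385212) (nat_lit 152) (nat_lit 4181161492) (nat_lit 76) (nat_lit 17532826850) (nat_lit 5) (nat_lit 5) (nat_lit 7) (nat_lit 5) (nat_lit 6) (nat_lit 4) (nat_lit 275) (nat_lit 235) (nat_lit 210)) (XT.nd (nat_lit 78) (nat_lit 0) (nat_lit 0) (XT.lf (nat_lit 0) (nat_lit 1164118939) (nat_lit 76) (nat_lit 4979957480) (nat_lit 152) (nat_lit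 20810476011) (nat_lit 4) (nat_lit 5) (nat_lit 5) (nat_lit 5) (nat_lit 6) (nat_lit 4) (nat_lit 276) (nat_lit 235) (nat_lit 209)) (XT.lf (nat_lit 0) (nat_lit 7079038070) (nat_lit 76) (nat_lit 1973420624) (nat_lit 152) (nat_lit 19772776205) (nat_lit 4) (nat_lit 5) (nat_lit 5) (nat_lit 5) (nat_lit 6) (nat_lit 4) (nat_lit 277) (nat_lit 235) (nat_lit 208)))) (XT.nd (nat_lit 78) (nat_lit 0) (nat_lit 0) (XT.lf (nat_lit 0) (nat_lit 12170678052) (nat_lit 152) (nat_lit 17501263293) (nat_lit 0) (nat_lit 1175652249) (nat_lit 4) (nat_lit 5) (nat_lit 6) (nat_lit 4) (nat_lit 4) (nat_lit 4) (nat_lit 278) (nat_lit 235) (nat_lit 207)) (XT.nd (nat_lit 78) (nat_lit 0) (nat_lit 0) (XT.lf (nat_lit 0) (nat_lit 15540108423) (nat_lit 152) (nat_lit 13053373312) (nat_lit 0) (nat_lit 4438299481) (nat_lit 4) (nat_lit 5) (nat_lit 6) (nat_lit 4) (nat_lit 4) (nat_lit 4) (nat_lit 279) (nat_lit 235) (nat_lit 206)) (XT.lf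 (nat_lit 0) (nat_lit 19133255987) (nat_lit 152) (nat_lit 8328708205) (nat_lit 0) (nat_lit 7932573769) (nat_lit 4) (nat_lit 5) (nat_lit 6) (nat_lit 4) (nat_lit 4) (nat_lit 4) (nat_lit 280) (nat_lit 235) (nat_lit 205))))) (XT.nd (nat_lit 234) (nat_lit 0) (nat_lit 0) (XT.nd (nat_lit 78) (nat_lit 76) (nat_lit 0) (XT.lf (nat_lit 0) (nat_lit 22971413472) (nat_lit 152) (nat_lit 3299269959) (nat_lit 0) (nat_lit 11679181924) (nat_lit 4) (nat_lit 5) (nat_lit 6) (nat_lit 4) (nat_lit 4) (nat_lit 4) (nat_lit 281) (nat_lit 235) (nat_lit 204)) (XT.nd (nat_lit 78) (nat_lit 0) (nat_lit 0) (XT.lf (nat_lit 0) (nat_lit 2173471345) (nat_lit 76) (nat_lit 24956126206) (nat_lit 76) (nat_lit 13579126761) (nat_lit 3) (nat_lit 4) (nat_lit 4) (nat_lit 5) (nat_lit 4) (nat_lit 4) (nat_lit 282) (nat_lit 235) (nat_lit 203)) (XT.lf (nat_lit 0) (nat_lit 8205602413) (nat_lit 76) (nat_lit 23467065964) (nat_lit 76) (nat_lit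 12011577724) (nat_lit 3) (nat_lit 4) (nat_lit 4) (nat_lit 5) (nat_lit 4) (nat_lit 4) (nat_lit 283) (nat_lit 235) (nat_lit 202)))) (XT.nd (nat_lit 78) (nat_lit 0) (nat_lit 0) (XT.lf (nat_lit 0) (nat_lit 14659135499) (nat_lit 76) (nat_lit 21884886532) (nat_lit 76) (nat_lit 10356723483) (nat_lit 3) (nat_lit 4) (nat_lit 4) (nat_lit 5) (nat_lit 4) (nat_lit 4) (nat_lit 284) (nat_lit 235) (nat_lit 201)) (XT.nd (nat_lit 78) (nat_lit 0) (nat_lit 0) (XT.lf (nat_lit 0) (nat_lit 21572313759) (nat_lit 76) (nat_lit 20200212032) (nat_lit 76) (nat_lit 8604757492) (nat_lit 3) (nat_lit 4) (nat_lit 4) (nat_lit 5) (nat_lit 4) (nat_lit 4) (nat_lit 285) (nat_lit 235) (nat_lit 200)) (XT.lf (nat_lit 0) (nat_lit 28986104178) (nat_lit 76) (nat_lit 18403059207) (nat_lit 76) (nat_lit 6745297731) (nat_lit 3) (nat_lit 4) (nat_lit 4) (nat_lit 5) (nat_lit 4) (nat_lit 4) (nat_lit 286) (nat_lit 235) (nat_lit 199)))))))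 (XT.nd (nat_lit 858) (nat_lit 0) (nat_lit 0) (XT.nd (nat_lit 390) (nat_lit 76) (nat_lit 0) (XT.nd (nat_lit 156) (nat_lit 76) (nat_lit 0) (XT.nd (nat_lit 78) (nat_lit 0) (nat_lit 0) (XT.lf (nat_lit 0) (nat_lit 36944440328) (nat_lit 76) (nat_lit 16482778263) (nat_lit 76) (nat_lit 4767325180) (nat_lit 3) (nat_lit 4) (nat_lit 4) (nat_lit 5) (nat_lit 4) (nat_lit 4) (nat_lit 287) (nat_lit 235) (nat_lit 198)) (XT.lf (nat_lit 0) (nat_lit 45494482719) (nat_lit 76) (nat_lit 14427989756) (nat_lit 76) (nat_lit 2659118519) (nat_lit 3) (nat_lit 4) (nat_lit 4) (nat_lit 5) (nat_lit 4) (nat_lit 4) (nat_lit 288) (nat_lit 235) (nat_lit 197))) (XT.nd (nat_lit 78) (nat_lit 76) (nat_lit 0) (XT.lf (nat_lit 0) (nat_lit 54686898269) (nat_lit 76) (nat_lit 12226517164) (nat_lit 76) (nat_lit 408184672) (nat_lit 3) (nat_lit 4) (nat_lit 4) (nat_lit 5) (nat_lit 4) (nat_lit 4) (nat_lit 289) (nat_lit 235) (nat_lit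 196)) (XT.nd (nat_lit 78) (nat_lit 0) (nat_lit 0) (XT.lf (nat_lit 0) (nat_lit 1898826394) (nat_lit 152) (nat_lit 7914571049) (nat_lit 76) (nat_lit 62625416879) (nat_lit 2) (nat_lit 5) (nat_lit 4) (nat_lit 5) (nat_lit 3) (nat_lit 4) (nat_lit 290) (nat_lit 235) (nat_lit 195)) (XT.lf (nat_lit 0) (nat_lit 4347227582) (nat_lit 152) (nat_lit 2864301630) (nat_lit 76) (nat_lit 70754784115) (nat_lit 2) (nat_lit 5) (nat_lit 4) (nat_lit 5) (nat_lit 3) (nat_lit 4) (nat_lit 291) (nat_lit 235) (nat_lit 194))))) (XT.nd (nat_lit 234) (nat_lit 0) (nat_lit 0) (XT.nd (nat_lit 78) (nat_lit 0) (nat_lit 0) (XT.lf (nat_lit 0) (nat_lit 2690437366) (nat_lit 76) (nat_lit 4346214704) (nat_lit 152) (nat_lit 76895809542) (nat_lit 1) (nat_lit 5) (nat_lit 2) (nat_lit 5) (nat_lit 3) (nat_lit 4) (nat_lit 292) (nat_lit 235) (nat_lit 193)) (XT.nd (nat_lit 78) (nat_lit 0) (nat_lit 0) (XT.lf (nat_lit 0) (nat_lit 8819176573)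 (nat_lit 76) (nat_lit 1181463336) (nat_lit 152) (nat_lit 80370566002) (nat_lit 1) (nat_lit 5) (nat_lit 2) (nat_lit 5) (nat_lit 3) (nat_lit 4) (nat_lit 293) (nat_lit 235) (nat_lit 192)) (XT.lf (nat_lit 0) (nat_lit 13237708652) (nat_lit 152) (nat_lit 81972564614) (nat_lit 0) (nat_lit 2111952228) (nat_lit 1) (nat_lit 5) (nat_lit 3) (nat_lit 4) (nat_lit 1) (nat_lit 4) (nat_lit 294) (nat_lit 235) (nat_lit 191)))) (XT.nd (nat_lit 78) (nat_lit 0) (nat_lit 0) (XT.lf (nat_lit 0) (nat_lit 16747925404) (nat_lit 152) (nat_lit 82487006611) (nat_lit 0) (nat_lit 5593308813) (nat_lit 1) (nat_lit 5) (nat_lit 3) (nat_lit 4) (nat_lit 1) (nat_lit 4) (nat_lit 295) (nat_lit 235) (nat_lit 190)) (XT.nd (nat_lit 78) (nat_lit 0) (nat_lit 0) (XT.lf (nat_lit 0) (nat_lit 20523677228) (nat_lit 152) (nat_lit 83069989652) (nat_lit 0) (nat_lit 9342338261) (nat_lit 1) (nat_lit 5) (nat_lit 3) (nat_lit 4) (nat_lit 1)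 (nat_lit 4) (nat_lit 296) (nat_lit 235) (nat_lit 189)) (XT.lf (nat_lit 0) (nat_lit 24587338951) (nat_lit 152) (nat_lit 83724968451) (nat_lit 0) (nat_lit 13381257042) (nat_lit 1) (nat_lit 5) (nat_lit 3) (nat_lit 4) (nat_lit 1) (nat_lit 4) (nat_lit 297) (nat_lit 235) (nat_lit 188)))))) (XT.nd (nat_lit 468) (nat_lit 0) (nat_lit 0) (XT.nd (nat_lit 234) (nat_lit 0) (nat_lit 0) (XT.nd (nat_lit 78) (nat_lit 0) (nat_lit 0) (XT.lf (nat_lit 0) (nat_lit 28962991531) (nat_lit 152) (nat_lit 84455824365) (nat_lit 0) (nat_lit 17733999491) (nat_lit 1) (nat_lit 5) (nat_lit 3) (nat_lit 4) (nat_lit 1) (nat_lit 4) (nat_lit 298) (nat_lit 235) (nat_lit 187)) (XT.nd (nat_lit 78) (nat_lit 0) (nat_lit 0) (XT.lf (nat_lit 0) (nat_lit 33676564760) (nat_lit 152) (nat_lit 85266888392) (nat_lit 0) (nat_lit 22426359636) (nat_lit 1) (nat_lit 5) (nat_lit 3) (nat_lit 4) (nat_lit 1) (nat_lit 4) (nat_lit 299) (nat_lit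 235) (nat_lit 186)) (XT.lf (nat_lit 0) (nat_lit 38755990925) (nat_lit 152) (nat_lit 86162966837) (nat_lit 0) (nat_lit 27486144057) (nat_lit 1) (nat_lit 5) (nat_lit 3) (nat_lit 4) (nat_lit 1) (nat_lit 4) (nat_lit 300) (nat_lit 235) (nat_lit 185)))) (XT.nd (nat_lit 78) (nat_lit 0) (nat_lit 0) (XT.lf (nat_lit 0) (nat_lit 44231370329) (nat_lit 152) (nat_lit 87149369794) (nat_lit 0) (nat_lit 32943336660) (nat_lit 1) (nat_lit 5) (nat_lit 3) (nat_lit 4) (nat_lit 1) (nat_lit 4) (nat_lit 301) (nat_lit 235) (nat_lit 184)) (XT.nd (nat_lit 78) (nat_lit 0) (nat_lit 0) (XT.lf (nat_lit 0) (nat_lit 50135149664) (nat_lit 152) (nat_lit 88231942614) (nat_lit 0) (nat_lit 38830276365) (nat_lit 1) (nat_lit 5) (nat_lit 3) (nat_lit 4) (nat_lit 1) (nat_lit 4) (nat_lit 302) (nat_lit 235) (nat_lit 183)) (XT.lf (nat_lit 0) (nat_lit 56502314290) (nat_lit 152) (nat_lit 89417100543) (nat_lit 0) (nat_lit 45181848741)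 (nat_lit 1) (nat_lit 5) (nat_lit 3) (nat_lit 4) (nat_lit 1) (nat_lit 4) (nat_lit 303) (nat_lit 235) (nat_lit 182))))) (XT.nd (nat_lit 234) (nat_lit 0) (nat_lit 0) (XT.nd (nat_lit 78) (nat_lit 0) (nat_lit 0) (XT.lf (nat_lit 0) (nat_lit 63370595552) (nat_lit 152) (nat_lit 90711866741) (nat_lit 0) (nat_lit 52035692735) (nat_lit 1) (nat_lit 5) (nat_lit 3) (nat_lit 4) (nat_lit 1) (nat_lit 4) (nat_lit 304) (nat_lit 235) (nat_lit 181)) (XT.nd (nat_lit 78) (nat_lit 0) (nat_lit 0) (XT.lf (nat_lit 0) (nat_lit 70780694377) (nat_lit 152) (nat_lit 92123913894) (nat_lit 0) (nat_lit 59432423718) (nat_lit 1) (nat_lit 5) (nat_lit 3) (nat_lit 4) (nat_lit 1) (nat_lit 4) (nat_lit 305) (nat_lit 235) (nat_lit 180)) (XT.lf (nat_lit 0) (nat_lit 78776522461) (nat_lit 152) (nat_lit 93661609691) (nat_lit 0) (nat_lit 67415874171) (nat_lit 1) (nat_lit 5) (nat_lit 3) (nat_lit 4) (nat_lit 1) (nat_lit 4) (nat_lit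 306) (nat_lit 235) (nat_lit 179)))) (XT.nd (nat_lit 78) (nat_lit 0) (nat_lit 0) (XT.lf (nat_lit 0) (nat_lit 87405462490) (nat_lit 152) (nat_lit 95334066402) (nat_lit 0) (nat_lit 76033353430) (nat_lit 1) (nat_lit 5) (nat_lit 3) (nat_lit 4) (nat_lit 1) (nat_lit 4) (nat_lit 307) (nat_lit 235) (nat_lit 178)) (XT.nd (nat_lit 78) (nat_lit 0) (nat_lit 0) (XT.lf (nat_lit 0) (nat_lit 96718648921) (nat_lit 152) (nat_lit 97151194883) (nat_lit 0) (nat_lit 85335928038) (nat_lit 1) (nat_lit 5) (nat_lit 3) (nat_lit 4) (nat_lit 1) (nat_lit 4) (nat_lit 308) (nat_lit 235) (nat_lit 177)) (XT.lf (nat_lit 0) (nat_lit 106771271010) (nat_lit 152) (nat_lit 99123763301) (nat_lit 0) (nat_lit 95378724364) (nat_lit 1) (nat_lit 5) (nat_lit 3) (nat_lit 4) (nat_lit 1) (nat_lit 4) (nat_lit 309) (nat_lit 235) (nat_lit 176))))))))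
noncomputable def xc41 : XT := (XT.nd (nat_lit 1794) (nat_lit 0) (nat_lit 0) (XT.nd (nat_lit 858) (nat_lit 0) (nat_lit 0) (XT.nd (nat_lit 390) (nat_lit 0) (nat_lit 0) (XT.nd (nat_lit 156) (nat_lit 0) (nat_lit 0) (XT.nd (nat_lit 78) (nat_lit 0) (nat_lit 0) (XT.lf (nat_lit 0) (nat_lit 117622899848) (nat_lit 152) (nat_lit 101263460951) (nat_lit 0) (nat_lit 106221255275) (nat_lit 1) (nat_lit 5) (nat_lit 3) (nat_lit 4) (nat_lit 1) (nat_lit 4) (nat_lit 310) (nat_lit 235) (nat_lit 175)) (XT.lf (nat_lit 0) (nat_lit 129337841386) (nat_lit 152) (nat_lit 103582967523) (nat_lit 0) (nat_lit 117927772805) (nat_lit 1) (nat_lit 5) (nat_lit 3) (nat_lit 4) (nat_lit 1) (nat_lit 4) (nat_lit 311) (nat_lit 235) (nat_lit 174))) (XT.nd (nat_lit 78) (nat_lit 0) (nat_lit 0) (XT.lf (nat_lit 0) (nat_lit 141985517499) (nat_lit 152) (nat_lit 106096028242) (nat_lit 0) (nat_lit 130567648910) (nat_lit 1) (nat_lit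 5) (nat_lit 3) (nat_lit 4) (nat_lit 1) (nat_lit 4) (nat_lit 312) (nat_lit 235) (nat_lit 173)) (XT.nd (nat_lit 78) (nat_lit 0) (nat_lit 0) (XT.lf (nat_lit 0) (nat_lit 155640877378) (nat_lit 152) (nat_lit 108817535318) (nat_lit 0) (nat_lit 144215786561) (nat_lit 1) (nat_lit 5) (nat_lit 3) (nat_lit 4) (nat_lit 1) (nat_lit 4) (nat_lit 313) (nat_lit 235) (nat_lit 172)) (XT.lf (nat_lit 0) (nat_lit 170384841675) (nat_lit 152) (nat_lit 111763616201) (nat_lit 0) (nat_lit 158953063609) (nat_lit 1) (nat_lit 5) (nat_lit 3) (nat_lit 4) (nat_lit 1) (nat_lit 4) (nat_lit 314) (nat_lit 235) (nat_lit 171))))) (XT.nd (nat_lit 234) (nat_lit 0) (nat_lit 0) (XT.nd (nat_lit 78) (nat_lit 0) (nat_lit 0) (XT.lf (nat_lit 0) (nat_lit 186304782029) (nat_lit 152) (nat_lit 114951729148) (nat_lit 0) (nat_lit 174866812067) (nat_lit 1) (nat_lit 5) (nat_lit 3) (nat_lit 4) (nat_lit 1) (nat_lit 4) (nat_lit 315) (nat_lit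 235) (nat_lit 170)) (XT.nd (nat_lit 78) (nat_lit 0) (nat_lit 0) (XT.lf (nat_lit 0) (nat_lit 203495038830) (nat_lit 152) (nat_lit 118400766681) (nat_lit 0) (nat_lit 192051335629) (nat_lit 1) (nat_lit 5) (nat_lit 3) (nat_lit 4) (nat_lit 1) (nat_lit 4) (nat_lit 316) (nat_lit 235) (nat_lit 169)) (XT.lf (nat_lit 0) (nat_lit 222057480264) (nat_lit 152) (nat_lit 122131167540) (nat_lit 0) (nat_lit 210608468509) (nat_lit 1) (nat_lit 5) (nat_lit 3) (nat_lit 4) (nat_lit 1) (nat_lit 4) (nat_lit 317) (nat_lit 235) (nat_lit 168)))) (XT.nd (nat_lit 78) (nat_lit 0) (nat_lit 0) (XT.lf (nat_lit 0) (nat_lit 242102105984) (nat_lit 152) (nat_lit 126165037804) (nat_lit 0) (nat_lit 230648178902) (nat_lit 1) (nat_lit 5) (nat_lit 3) (nat_lit 4) (nat_lit 1) (nat_lit 4) (nat_lit 318) (nat_lit 235) (nat_lit 167)) (XT.nd (nat_lit 78) (nat_lit 0) (nat_lit 0) (XT.lf (nat_lit 0) (nat_lit 263747698959) (nat_lit 152)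 (nat_lit 130526281890) (nat_lit 0) (nat_lit 252289220648) (nat_lit 1) (nat_lit 5) (nat_lit 3) (nat_lit 4) (nat_lit 1) (nat_lit 4) (nat_lit 319) (nat_lit 235) (nat_lit 166)) (XT.lf (nat_lit 0) (nat_lit 287122529368) (nat_lit 152) (nat_lit 135240744208) (nat_lit 0) (nat_lit 275659836956) (nat_lit 1) (nat_lit 5) (nat_lit 3) (nat_lit 4) (nat_lit 1) (nat_lit 4) (nat_lit 320) (nat_lit 235) (nat_lit 165)))))) (XT.nd (nat_lit 468) (nat_lit 0) (nat_lit 0) (XT.nd (nat_lit 234) (nat_lit 0) (nat_lit 0) (XT.nd (nat_lit 78) (nat_lit 0) (nat_lit 0) (XT.lf (nat_lit 0) (nat_lit 312365114725) (nat_lit 152) (nat_lit 140336362311) (nat_lit 0) (nat_lit 300898520368) (nat_lit 1) (nat_lit 5) (nat_lit 3) (nat_lit 4) (nat_lit 1) (nat_lit 4) (nat_lit 321) (nat_lit 235) (nat_lit 164)) (XT.nd (nat_lit 78) (nat_lit 0) (nat_lit 0) (XT.lf (nat_lit 0) (nat_lit 339625040721) (nat_lit 152) (nat_lit 145843332455) (nat_lit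 0) (nat_lit 328154833451) (nat_lit 1) (nat_lit 5) (nat_lit 3) (nat_lit 4) (nat_lit 1) (nat_lit 4) (nat_lit 322) (nat_lit 235) (nat_lit 163)) (XT.lf (nat_lit 0) (nat_lit 369063847659) (nat_lit 152) (nat_lit 151794288537) (nat_lit 0) (nat_lit 357590295099) (nat_lit 1) (nat_lit 5) (nat_lit 3) (nat_lit 4) (nat_lit 1) (nat_lit 4) (nat_lit 323) (nat_lit 235) (nat_lit 162)))) (XT.nd (nat_lit 78) (nat_lit 0) (nat_lit 0) (XT.lf (nat_lit 0) (nat_lit 400855987727) (nat_lit 152) (nat_lit 158224495483) (nat_lit 0) (nat_lit 389379337677) (nat_lit 1) (nat_lit 5) (nat_lit 3) (nat_lit 4) (nat_lit 1) (nat_lit 4) (nat_lit 324) (nat_lit 235) (nat_lit 161)) (XT.nd (nat_lit 78) (nat_lit 0) (nat_lit 0) (XT.lf (nat_lit 0) (nat_lit 435189858792) (nat_lit 152) (nat_lit 165172058222) (nat_lit 0) (nat_lit 423710340697) (nat_lit 1) (nat_lit 5) (nat_lit 3) (nat_lit 4) (nat_lit 1) (nat_lit 4) (nat_lit 325) (nat_lit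 235) (nat_lit 160)) (XT.lf (nat_lit 0) (nat_lit 472268920832) (nat_lit 152) (nat_lit 172678147496) (nat_lit 0) (nat_lit 460786747138) (nat_lit 1) (nat_lit 5) (nat_lit 3) (nat_lit 4) (nat_lit 1) (nat_lit 4) (nat_lit 326) (nat_lit 235) (nat_lit 159))))) (XT.nd (nat_lit 234) (nat_lit 0) (nat_lit 0) (XT.nd (nat_lit 78) (nat_lit 0) (nat_lit 0) (XT.lf (nat_lit 0) (nat_lit 512312901621) (nat_lit 152) (nat_lit 180787243835) (nat_lit 0) (nat_lit 500828269040) (nat_lit 1) (nat_lit 5) (nat_lit 3) (nat_lit 4) (nat_lit 1) (nat_lit 4) (nat_lit 327) (nat_lit 235) (nat_lit 158)) (XT.nd (nat_lit 78) (nat_lit 0) (nat_lit 0) (XT.lf (nat_lit 0) (nat_lit 555559098824) (nat_lit 152) (nat_lit 189547401142) (nat_lit 0) (nat_lit 544072189494) (nat_lit 1) (nat_lit 5) (nat_lit 3) (nat_lit 4) (nat_lit 1) (nat_lit 4) (nat_lit 328) (nat_lit 235) (nat_lit 157)) (XT.lf (nat_lit 0) (nat_lit 602263786201) (nat_lit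 152) (nat_lit 199010531462) (nat_lit 0) (nat_lit 590774768771) (nat_lit 1) (nat_lit 5) (nat_lit 3) (nat_lit 4) (nat_lit 1) (nat_lit 4) (nat_lit 329) (nat_lit 235) (nat_lit 156)))) (XT.nd (nat_lit 78) (nat_lit 0) (nat_lit 0) (XT.lf (nat_lit 0) (nat_lit 652703732270) (nat_lit 152) (nat_lit 209232712602) (nat_lit 0) (nat_lit 641212762896) (nat_lit 1) (nat_lit 5) (nat_lit 3) (nat_lit 4) (nat_lit 1) (nat_lit 4) (nat_lit 330) (nat_lit 235) (nat_lit 155)) (XT.nd (nat_lit 78) (nat_lit 0) (nat_lit 0) (XT.lf (nat_lit 0) (nat_lit 707177840415) (nat_lit 152) (nat_lit 220274520452) (nat_lit 0) (nat_lit 695685063686) (nat_lit 1) (nat_lit 5) (nat_lit 3) (nat_lit 4) (nat_lit 1) (nat_lit 4) (nat_lit 331) (nat_lit 235) (nat_lit 154)) (XT.lf (nat_lit 0) (nat_lit 766008920167) (nat_lit 152) (nat_lit 232201387947) (nat_lit 0) (nat_lit 754514469960) (nat_lit 1) (nat_lit 5) (nat_lit 3) (nat_lit 4) (nat_lit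 1) (nat_lit 4) (nat_lit 332) (nat_lit 235) (nat_lit 153))))))) (XT.nd (nat_lit 31590) (nat_lit 0) (nat_lit 532) (XT.nd (nat_lit 31122) (nat_lit 0) (nat_lit 1444) (XT.nd (nat_lit 30888) (nat_lit 0) (nat_lit 2432) (XT.nd (nat_lit 78) (nat_lit 0) (nat_lit 0) (XT.lf (nat_lit 0) (nat_lit 829545600146) (nat_lit 152) (nat_lit 245083992821) (nat_lit 0) (nat_lit 818049600423) (nat_lit 1) (nat_lit 5) (nat_lit 3) (nat_lit 4) (nat_lit 1) (nat_lit 4) (nat_lit 333) (nat_lit 235) (nat_lit 152)) (XT.lf (nat_lit 0) (nat_lit 898164394010) (nat_lit 152) (nat_lit 258998676434) (nat_lit 0) (nat_lit 886666959550) (nat_lit 1) (nat_lit 5) (nat_lit 3) (nat_lit 4) (nat_lit 1) (nat_lit 4) (nat_lit 334) (nat_lit 235) (nat_lit 151))) (XT.nd (nat_lit 78) (nat_lit 380) (nat_lit 0) (XT.lf (nat_lit 0) (nat_lit 28813743) (nat_lit 380) (nat_lit 3428686328) (nat_lit 0) (nat_lit 28813743) (nat_lit 38) (nat_lit 5) (nat_lit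 43) (nat_lit 4) (nat_lit 38) (nat_lit 4) (nat_lit 248) (nat_lit 236) (nat_lit 236)) (XT.nd (nat_lit 78) (nat_lit 380) (nat_lit 0) (XT.lf (nat_lit 0) (nat_lit 2883424120) (nat_lit 380) (nat_lit 2929626823) (nat_lit 0) (nat_lit 1304598656) (nat_lit 38) (nat_lit 5) (nat_lit 43) (nat_lit 4) (nat_lit 38) (nat_lit 4) (nat_lit 249) (nat_lit 236) (nat_lit 235)) (XT.lf (nat_lit 0) (nat_lit 1151695693) (nat_lit 380) (nat_lit 4590594618) (nat_lit 380) (nat_lit 1549893725) (nat_lit 33) (nat_lit 4) (nat_lit 38) (nat_lit 5) (nat_lit 38) (nat_lit 4) (nat_lit 250) (nat_lit 236) (nat_lit 234))))) (XT.nd (nat_lit 234) (nat_lit 456) (nat_lit 0) (XT.nd (nat_lit 78) (nat_lit 456) (nat_lit 0) (XT.lf (nat_lit 0) (nat_lit 1146799371) (nat_lit 456) (nat_lit 2008946561) (nat_lit 76) (nat_lit 4335249576) (nat_lit 32) (nat_lit 5) (nat_lit 38) (nat_lit 5) (nat_lit 33) (nat_lit 4) (nat_lit 251) (nat_lit 236) (nat_lit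 233)) (XT.nd (nat_lit 78) (nat_lit 0) (nat_lit 0) (XT.lf (nat_lit 0) (nat_lit 2319367751) (nat_lit 456) (nat_lit 1510910884) (nat_lit 532) (nat_lit 3885791582) (nat_lit 26) (nat_lit 5) (nat_lit 32) (nat_lit 5) (nat_lit 33) (nat_lit 4) (nat_lit 252) (nat_lit 236) (nat_lit 232)) (XT.lf (nat_lit 0) (nat_lit 6599840907) (nat_lit 532) (nat_lit 1075365378) (nat_lit 0) (nat_lit 296048630) (nat_lit 26) (nat_lit 5) (nat_lit 33) (nat_lit 4) (nat_lit 26) (nat_lit 4) (nat_lit 253) (nat_lit 236) (nat_lit 231)))) (XT.nd (nat_lit 78) (nat_lit 152) (nat_lit 0) (XT.lf (nat_lit 0) (nat_lit 1220733572) (nat_lit 304) (nat_lit 4759594298) (nat_lit 76) (nat_lit 2269989073) (nat_lit 22) (nat_lit 5) (nat_lit 26) (nat_lit 5) (nat_lit 23) (nat_lit 4) (nat_lit 254) (nat_lit 236) (nat_lit 230)) (XT.nd (nat_lit 78) (nat_lit 152) (nat_lit 0) (XT.lf (nat_lit 0) (nat_lit 3801626171) (nat_lit 304) (nat_lit 312567187)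 (nat_lit 76) (nat_lit 4447665576) (nat_lit 22) (nat_lit 5) (nat_lit 26) (nat_lit 5) (nat_lit 23) (nat_lit 4) (nat_lit 255) (nat_lit 236) (nat_lit 229)) (XT.lf (nat_lit 0) (nat_lit 4521902551) (nat_lit 152) (nat_lit 2014079394) (nat_lit 228) (nat_lit 2367918094) (nat_lit 20) (nat_lit 5) (nat_lit 22) (nat_lit 5) (nat_lit 23) (nat_lit 4) (nat_lit 256) (nat_lit 236) (nat_lit 228)))))) (XT.nd (nat_lit 468) (nat_lit 304) (nat_lit 0) (XT.nd (nat_lit 234) (nat_lit 228) (nat_lit 0) (XT.nd (nat_lit 78) (nat_lit 152) (nat_lit 0) (XT.lf (nat_lit 0) (nat_lit 67123712) (nat_lit 228) (nat_lit 8992554627) (nat_lit 76) (nat_lit 225384663) (nat_lit 17) (nat_lit 5) (nat_lit 20) (nat_lit 5) (nat_lit 18) (nat_lit 4) (nat_lit 257) (nat_lit 236) (nat_lit 227)) (XT.nd (nat_lit 78) (nat_lit 152) (nat_lit 0) (XT.lf (nat_lit 0) (nat_lit 2590900857) (nat_lit 228) (nat_lit 4420229344) (nat_lit 76) (nat_lit 2679979407)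 (nat_lit 17) (nat_lit 5) (nat_lit 20) (nat_lit 5) (nat_lit 18) (nat_lit 4) (nat_lit 258) (nat_lit 236) (nat_lit 226)) (XT.lf (nat_lit 0) (nat_lit 344028752) (nat_lit 152) (nat_lit 4838810283) (nat_lit 228) (nat_lit 4958481537) (nat_lit 15) (nat_lit 5) (nat_lit 17) (nat_lit 5) (nat_lit 18) (nat_lit 4) (nat_lit 259) (nat_lit 236) (nat_lit 225)))) (XT.nd (nat_lit 78) (nat_lit 228) (nat_lit 0) (XT.lf (nat_lit 0) (nat_lit 5554583971) (nat_lit 152) (nat_lit 2412431057) (nat_lit 228) (nat_lit 2662651408) (nat_lit 15) (nat_lit 5) (nat_lit 17) (nat_lit 5) (nat_lit 18) (nat_lit 4) (nat_lit 260) (nat_lit 236) (nat_lit 224)) (XT.nd (nat_lit 78) (nat_lit 228) (nat_lit 0) (XT.lf (nat_lit 0) (nat_lit 10851907897) (nat_lit 228) (nat_lit 162326012) (nat_lit 0) (nat_lit 153448776) (nat_lit 15) (nat_lit 5) (nat_lit 18) (nat_lit 4) (nat_lit 15) (nat_lit 4) (nat_lit 261) (nat_lit 236) (nat_lit 223)) (XT.lf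 (nat_lit 0) (nat_lit 2178323180) (nat_lit 228) (nat_lit 6628391009) (nat_lit 76) (nat_lit 2932840906) (nat_lit 12) (nat_lit 5) (nat_lit 15) (nat_lit 5) (nat_lit 13) (nat_lit 4) (nat_lit 262) (nat_lit 236) (nat_lit 222))))) (XT.nd (nat_lit 234) (nat_lit 228) (nat_lit 0) (XT.nd (nat_lit 78) (nat_lit 76) (nat_lit 0) (XT.lf (nat_lit 0) (nat_lit 4742970752) (nat_lit 228) (nat_lit 1720631560) (nat_lit 76) (nat_lit 5902540166) (nat_lit 12) (nat_lit 5) (nat_lit 15) (nat_lit 5) (nat_lit 13) (nat_lit 4) (nat_lit 263) (nat_lit 236) (nat_lit 221)) (XT.nd (nat_lit 78) (nat_lit 0) (nat_lit 0) (XT.lf (nat_lit 0) (nat_lit 3601330367) (nat_lit 76) (nat_lit 3890227629) (nat_lit 152) (nat_lit 5553615837) (nat_lit 11) (nat_lit 5) (nat_lit 12) (nat_lit 5) (nat_lit 13) (nat_lit 4) (nat_lit 264) (nat_lit 236) (nat_lit 220)) (XT.lf (nat_lit 0) (nat_lit 9292346149) (nat_lit 76) (nat_lit 1111158332) (nat_lit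 152) (nat_lit 3380118034) (nat_lit 11) (nat_lit 5) (nat_lit 12) (nat_lit 5) (nat_lit 13) (nat_lit 4) (nat_lit 265) (nat_lit 236) (nat_lit 219)))) (XT.nd (nat_lit 78) (nat_lit 76) (nat_lit 0) (XT.lf (nat_lit 0) (nat_lit 696713092) (nat_lit 152) (nat_lit 12816873661) (nat_lit 152) (nat_lit 1070876119) (nat_lit 9) (nat_lit 4) (nat_lit 11) (nat_lit 5) (nat_lit 11) (nat_lit 4) (nat_lit 266) (nat_lit 236) (nat_lit 218)) (XT.nd (nat_lit 78) (nat_lit 0) (nat_lit 0) (XT.lf (nat_lit 0) (nat_lit 1410505908) (nat_lit 228) (nat_lit 9102555209) (nat_lit 76) (nat_lit 4929338613) (nat_lit 8) (nat_lit 5) (nat_lit 11) (nat_lit 5) (nat_lit 9) (nat_lit 4) (nat_lit 267) (nat_lit 236) (nat_lit 217)) (XT.lf (nat_lit 0) (nat_lit 3943413684) (nat_lit 228) (nat_lit 4103005144) (nat_lit 76) (nat_lit 8327878765) (nat_lit 8) (nat_lit 5) (nat_lit 11) (nat_lit 5) (nat_lit 9) (nat_lit 4) (nat_lit 268) (nat_lit 236)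 (nat_lit 216))))))))
noncomputable def xc42 : XT := (XT.nd (nat_lit 1794) (nat_lit 76) (nat_lit 0) (XT.nd (nat_lit 858) (nat_lit 152) (nat_lit 0) (XT.nd (nat_lit 390) (nat_lit 152) (nat_lit 0) (XT.nd (nat_lit 156) (nat_lit 76) (nat_lit 0) (XT.nd (nat_lit 78) (nat_lit 0) (nat_lit 0) (XT.lf (nat_lit 0) (nat_lit 1227696317) (nat_lit 76) (nat_lit 5398256400) (nat_lit 152) (nat_lit 10759424379) (nat_lit 7) (nat_lit 5) (nat_lit 8) (nat_lit 5) (nat_lit 9) (nat_lit 4) (nat_lit 269) (nat_lit 236) (nat_lit 215)) (XT.lf (nat_lit 0) (nat_lit 7091265366) (nat_lit 76) (nat_lit 2464545926) (nat_lit 152) (nat_lit 8919275190) (nat_lit 7) (nat_lit 5) (nat_lit 8) (nat_lit 5) (nat_lit 9) (nat_lit 4) (nat_lit 270) (nat_lit 236) (nat_lit 214))) (XT.nd (nat_lit 78) (nat_lit 76) (nat_lit 0) (XT.lf (nat_lit 0) (nat_lit 12662348935) (nat_lit 152) (nat_lit 6367672022) (nat_lit 0) (nat_lit 626902537) (nat_lit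 7) (nat_lit 5) (nat_lit 9) (nat_lit 4) (nat_lit 7) (nat_lit 4) (nat_lit 271) (nat_lit 236) (nat_lit 213)) (XT.nd (nat_lit 78) (nat_lit 76) (nat_lit 0) (XT.lf (nat_lit 0) (nat_lit 16012314973) (nat_lit 152) (nat_lit 1127848383) (nat_lit 0) (nat_lit 3793861040) (nat_lit 7) (nat_lit 5) (nat_lit 9) (nat_lit 4) (nat_lit 7) (nat_lit 4) (nat_lit 272) (nat_lit 236) (nat_lit 212)) (XT.lf (nat_lit 0) (nat_lit 4659036890) (nat_lit 76) (nat_lit 15019301724) (nat_lit 76) (nat_lit 2631396372) (nat_lit 6) (nat_lit 4) (nat_lit 7) (nat_lit 5) (nat_lit 7) (nat_lit 4) (nat_lit 273) (nat_lit 236) (nat_lit 211))))) (XT.nd (nat_lit 234) (nat_lit 76) (nat_lit 0) (XT.nd (nat_lit 78) (nat_lit 76) (nat_lit 0) (XT.lf (nat_lit 0) (nat_lit 10870489563) (nat_lit 76) (nat_lit 12736276571) (nat_lit 76) (nat_lit 191471756) (nat_lit 6) (nat_lit 4) (nat_lit 7) (nat_lit 5) (nat_lit 7) (nat_lit 4) (nat_lit 274) (nat_lit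 236) (nat_lit 210)) (XT.nd (nat_lit 78) (nat_lit 0) (nat_lit 0) (XT.lf (nat_lit 0) (nat_lit 2262544290) (nat_lit 152) (nat_lit 7983989971) (nat_lit 76) (nat_lit 15159521486) (nat_lit 5) (nat_lit 5) (nat_lit 7) (nat_lit 5) (nat_lit 6) (nat_lit 4) (nat_lit 275) (nat_lit 236) (nat_lit 209)) (XT.lf (nat_lit 0) (nat_lit 4848035851) (nat_lit 152) (nat_lit 2740683525) (nat_lit 76) (nat_lit 19557952443) (nat_lit 5) (nat_lit 5) (nat_lit 7) (nat_lit 5) (nat_lit 6) (nat_lit 4) (nat_lit 276) (nat_lit 236) (nat_lit 208)))) (XT.nd (nat_lit 78) (nat_lit 0) (nat_lit 0) (XT.lf (nat_lit 0) (nat_lit 2987283369) (nat_lit 76) (nat_lit 4674463418) (nat_lit 152) (nat_lit 21363274933) (nat_lit 4) (nat_lit 5) (nat_lit 5) (nat_lit 5) (nat_lit 6) (nat_lit 4) (nat_lit 277) (nat_lit 236) (nat_lit 207)) (XT.nd (nat_lit 78) (nat_lit 0) (nat_lit 0) (XT.lf (nat_lit 0) (nat_lit 9247245296) (nat_lit 76) (nat_lit 1479543663)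 (nat_lit 152) (nat_lit 20324932414) (nat_lit 4) (nat_lit 5) (nat_lit 5) (nat_lit 5) (nat_lit 6) (nat_lit 4) (nat_lit 278) (nat_lit 236) (nat_lit 206)) (XT.lf (nat_lit 0) (nat_lit 14038599136) (nat_lit 152) (nat_lit 17359010763) (nat_lit 0) (nat_lit 1842989064) (nat_lit 4) (nat_lit 5) (nat_lit 6) (nat_lit 4) (nat_lit 4) (nat_lit 4) (nat_lit 279) (nat_lit 236) (nat_lit 205)))))) (XT.nd (nat_lit 468) (nat_lit 76) (nat_lit 0) (XT.nd (nat_lit 234) (nat_lit 76) (nat_lit 0) (XT.nd (nat_lit 78) (nat_lit 0) (nat_lit 0) (XT.lf (nat_lit 0) (nat_lit 17611341948) (nat_lit 152) (nat_lit 12669537997) (nat_lit 0) (nat_lit 5324182547) (nat_lit 4) (nat_lit 5) (nat_lit 6) (nat_lit 4) (nat_lit 4) (nat_lit 4) (nat_lit 280) (nat_lit 236) (nat_lit 204)) (XT.nd (nat_lit 78) (nat_lit 0) (nat_lit 0) (XT.lf (nat_lit 0) (nat_lit 21430606143) (nat_lit 152) (nat_lit 7672685251) (nat_lit 0) (nat_lit 9058678844)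 (nat_lit 4) (nat_lit 5) (nat_lit 6) (nat_lit 4) (nat_lit 4) (nat_lit 4) (nat_lit 281) (nat_lit 236) (nat_lit 203)) (XT.lf (nat_lit 0) (nat_lit 25519024399) (nat_lit 152) (nat_lit 2338841546) (nat_lit 0) (nat_lit 13068608305) (nat_lit 4) (nat_lit 5) (nat_lit 6) (nat_lit 4) (nat_lit 4) (nat_lit 4) (nat_lit 282) (nat_lit 236) (nat_lit 202)))) (XT.nd (nat_lit 78) (nat_lit 0) (nat_lit 0) (XT.lf (nat_lit 0) (nat_lit 3540722353) (nat_lit 76) (nat_lit 26445256482) (nat_lit 76) (nat_lit 13922165579) (nat_lit 3) (nat_lit 4) (nat_lit 4) (nat_lit 5) (nat_lit 4) (nat_lit 4) (nat_lit 283) (nat_lit 236) (nat_lit 201)) (XT.nd (nat_lit 78) (nat_lit 0) (nat_lit 0) (XT.lf (nat_lit 0) (nat_lit 9967025885) (nat_lit 76) (nat_lit 24874653630) (nat_lit 76) (nat_lit 12284271236) (nat_lit 3) (nat_lit 4) (nat_lit 4) (nat_lit 5) (nat_lit 4) (nat_lit 4) (nat_lit 284) (nat_lit 236) (nat_lit 200)) (XT.lf (nat_lit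 0) (nat_lit 16854991596) (nat_lit 76) (nat_lit 23200698185) (nat_lit 76) (nat_lit 10548008856) (nat_lit 3) (nat_lit 4) (nat_lit 4) (nat_lit 5) (nat_lit 4) (nat_lit 4) (nat_lit 285) (nat_lit 236) (nat_lit 199))))) (XT.nd (nat_lit 234) (nat_lit 76) (nat_lit 0) (XT.nd (nat_lit 78) (nat_lit 0) (nat_lit 0) (XT.lf (nat_lit 0) (nat_lit 24245437062) (nat_lit 76) (nat_lit 21413470411) (nat_lit 76) (nat_lit 8703089475) (nat_lit 3) (nat_lit 4) (nat_lit 4) (nat_lit 5) (nat_lit 4) (nat_lit 4) (nat_lit 286) (nat_lit 236) (nat_lit 198)) (XT.nd (nat_lit 78) (nat_lit 0) (nat_lit 0) (XT.lf (nat_lit 0) (nat_lit 32182157514) (nat_lit 76) (nat_lit 19502379329) (nat_lit 76) (nat_lit 6738580238) (nat_lit 3) (nat_lit 4) (nat_lit 4) (nat_lit 5) (nat_lit 4) (nat_lit 4) (nat_lit 287) (nat_lit 236) (nat_lit 197)) (XT.lf (nat_lit 0) (nat_lit 40712185370) (nat_lit 76) (nat_lit 17456099955) (nat_lit 76) (nat_lit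 4642839610) (nat_lit 3) (nat_lit 4) (nat_lit 4) (nat_lit 5) (nat_lit 4) (nat_lit 4) (nat_lit 288) (nat_lit 236) (nat_lit 196)))) (XT.nd (nat_lit 78) (nat_lit 76) (nat_lit 0) (XT.lf (nat_lit 0) (nat_lit 49886068944) (nat_lit 76) (nat_lit 15262506188) (nat_lit 76) (nat_lit 2403448385) (nat_lit 3) (nat_lit 4) (nat_lit 4) (nat_lit 5) (nat_lit 4) (nat_lit 4) (nat_lit 289) (nat_lit 236) (nat_lit 195)) (XT.nd (nat_lit 78) (nat_lit 76) (nat_lit 0) (XT.lf (nat_lit 0) (nat_lit 59758171989) (nat_lit 76) (nat_lit 12908598955) (nat_lit 76) (nat_lit 7136099) (nat_lit 3) (nat_lit 4) (nat_lit 4) (nat_lit 5) (nat_lit 4) (nat_lit 4) (nat_lit 290) (nat_lit 236) (nat_lit 194)) (XT.lf (nat_lit 0) (nat_lit 2432221162) (nat_lit 152) (nat_lit 7881706775) (nat_lit 76) (nat_lit 67888273458) (nat_lit 2) (nat_lit 5) (nat_lit 4) (nat_lit 5) (nat_lit 3) (nat_lit 4) (nat_lit 291) (nat_lit 236) (nat_lit 193)))))))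 (XT.nd (nat_lit 858) (nat_lit 0) (nat_lit 0) (XT.nd (nat_lit 390) (nat_lit 0) (nat_lit 0) (XT.nd (nat_lit 156) (nat_lit 0) (nat_lit 0) (XT.nd (nat_lit 78) (nat_lit 76) (nat_lit 0) (XT.lf (nat_lit 0) (nat_lit 5048236027) (nat_lit 152) (nat_lit 2476751355) (nat_lit 76) (nat_lit 76649262426) (nat_lit 2) (nat_lit 5) (nat_lit 4) (nat_lit 5) (nat_lit 3) (nat_lit 4) (nat_lit 292) (nat_lit 236) (nat_lit 192)) (XT.lf (nat_lit 0) (nat_lit 3506754244) (nat_lit 76) (nat_lit 4434351061) (nat_lit 152) (nat_lit 82677603619) (nat_lit 1) (nat_lit 5) (nat_lit 2) (nat_lit 5) (nat_lit 3) (nat_lit 4) (nat_lit 293) (nat_lit 236) (nat_lit 191))) (XT.nd (nat_lit 78) (nat_lit 0) (nat_lit 0) (XT.lf (nat_lit 0) (nat_lit 10081268003) (nat_lit 76) (nat_lit 1035646311) (nat_lit 152) (nat_lit 86457738425) (nat_lit 1) (nat_lit 5) (nat_lit 2) (nat_lit 5) (nat_lit 3) (nat_lit 4) (nat_lit 294) (nat_lit 236) (nat_lit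 190)) (XT.nd (nat_lit 78) (nat_lit 0) (nat_lit 0) (XT.lf (nat_lit 0) (nat_lit 14594876504) (nat_lit 152) (nat_lit 87996085609) (nat_lit 0) (nat_lit 2492308042) (nat_lit 1) (nat_lit 5) (nat_lit 3) (nat_lit 4) (nat_lit 1) (nat_lit 4) (nat_lit 295) (nat_lit 236) (nat_lit 189)) (XT.lf (nat_lit 0) (nat_lit 18363825325) (nat_lit 152) (nat_lit 88591259571) (nat_lit 0) (nat_lit 6236513922) (nat_lit 1) (nat_lit 5) (nat_lit 3) (nat_lit 4) (nat_lit 1) (nat_lit 4) (nat_lit 296) (nat_lit 236) (nat_lit 188))))) (XT.nd (nat_lit 234) (nat_lit 0) (nat_lit 0) (XT.nd (nat_lit 78) (nat_lit 0) (nat_lit 0) (XT.lf (nat_lit 0) (nat_lit 22421187970) (nat_lit 152) (nat_lit 89257526260) (nat_lit 0) (nat_lit 10270966437) (nat_lit 1) (nat_lit 5) (nat_lit 3) (nat_lit 4) (nat_lit 1) (nat_lit 4) (nat_lit 297) (nat_lit 236) (nat_lit 187)) (XT.nd (nat_lit 78) (nat_lit 0) (nat_lit 0) (XT.lf (nat_lit 0) (nat_lit 26791008071)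 (nat_lit 152) (nat_lit 89998833924) (nat_lit 0) (nat_lit 14619573453) (nat_lit 1) (nat_lit 5) (nat_lit 3) (nat_lit 4) (nat_lit 1) (nat_lit 4) (nat_lit 298) (nat_lit 236) (nat_lit 186)) (XT.lf (nat_lit 0) (nat_lit 31499180857) (nat_lit 152) (nat_lit 90819575497) (nat_lit 0) (nat_lit 19308104494) (nat_lit 1) (nat_lit 5) (nat_lit 3) (nat_lit 4) (nat_lit 1) (nat_lit 4) (nat_lit 299) (nat_lit 236) (nat_lit 185)))) (XT.nd (nat_lit 78) (nat_lit 0) (nat_lit 0) (XT.lf (nat_lit 0) (nat_lit 36573606611) (nat_lit 152) (nat_lit 91724614632) (nat_lit 0) (nat_lit 24364343448) (nat_lit 1) (nat_lit 5) (nat_lit 3) (nat_lit 4) (nat_lit 1) (nat_lit 4) (nat_lit 300) (nat_lit 236) (nat_lit 184)) (XT.nd (nat_lit 78) (nat_lit 0) (nat_lit 0) (XT.lf (nat_lit 0) (nat_lit 42044356005) (nat_lit 152) (nat_lit 92719314525) (nat_lit 0) (nat_lit 29818253211) (nat_lit 1) (nat_lit 5) (nat_lit 3) (nat_lit 4) (nat_lit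 1) (nat_lit 4) (nat_lit 301) (nat_lit 236) (nat_lit 183)) (XT.lf (nat_lit 0) (nat_lit 47943848294) (nat_lit 152) (nat_lit 93809569693) (nat_lit 0) (nat_lit 35702153250) (nat_lit 1) (nat_lit 5) (nat_lit 3) (nat_lit 4) (nat_lit 1) (nat_lit 4) (nat_lit 302) (nat_lit 236) (nat_lit 182)))))) (XT.nd (nat_lit 468) (nat_lit 0) (nat_lit 0) (XT.nd (nat_lit 234) (nat_lit 0) (nat_lit 0) (XT.nd (nat_lit 78) (nat_lit 0) (nat_lit 0) (XT.lf (nat_lit 0) (nat_lit 54307043432) (nat_lit 152) (nat_lit 95001840908) (nat_lit 0) (nat_lit 42050911120) (nat_lit 1) (nat_lit 5) (nat_lit 3) (nat_lit 4) (nat_lit 1) (nat_lit 4) (nat_lit 303) (nat_lit 236) (nat_lit 181)) (XT.nd (nat_lit 78) (nat_lit 0) (nat_lit 0) (XT.lf (nat_lit 0) (nat_lit 61171649243) (nat_lit 152) (nat_lit 96303193480) (nat_lit 0) (nat_lit 48902149090) (nat_lit 1) (nat_lit 5) (nat_lit 3) (nat_lit 4) (nat_lit 1) (nat_lit 4) (nat_lit 304) (nat_lit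 236) (nat_lit 180)) (XT.lf (nat_lit 0) (nat_lit 68578344873) (nat_lit 152) (nat_lit 97721339130) (nat_lit 0) (nat_lit 56296467088) (nat_lit 1) (nat_lit 5) (nat_lit 3) (nat_lit 4) (nat_lit 1) (nat_lit 4) (nat_lit 305) (nat_lit 236) (nat_lit 179)))) (XT.nd (nat_lit 78) (nat_lit 0) (nat_lit 0) (XT.lf (nat_lit 0) (nat_lit 76571021850) (nat_lit 152) (nat_lit 99264681682) (nat_lit 0) (nat_lit 64277683296) (nat_lit 1) (nat_lit 5) (nat_lit 3) (nat_lit 4) (nat_lit 1) (nat_lit 4) (nat_lit 306) (nat_lit 236) (nat_lit 178)) (XT.nd (nat_lit 78) (nat_lit 0) (nat_lit 0) (XT.lf (nat_lit 0) (nat_lit 85197044186) (nat_lit 152) (nat_lit 100942366870) (nat_lit 0) (nat_lit 72893093809) (nat_lit 1) (nat_lit 5) (nat_lit 3) (nat_lit 4) (nat_lit 1) (nat_lit 4) (nat_lit 307) (nat_lit 236) (nat_lit 177)) (XT.lf (nat_lit 0) (nat_lit 94507529052) (nat_lit 152) (nat_lit 102764336532) (nat_lit 0) (nat_lit 82193752912)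 (nat_lit 1) (nat_lit 5) (nat_lit 3) (nat_lit 4) (nat_lit 1) (nat_lit 4) (nat_lit 308) (nat_lit 236) (nat_lit 176))))) (XT.nd (nat_lit 234) (nat_lit 0) (nat_lit 0) (XT.nd (nat_lit 78) (nat_lit 0) (nat_lit 0) (XT.lf (nat_lit 0) (nat_lit 104557649689) (nat_lit 152) (nat_lit 104741387527) (nat_lit 0) (nat_lit 92234775622) (nat_lit 1) (nat_lit 5) (nat_lit 3) (nat_lit 4) (nat_lit 1) (nat_lit 4) (nat_lit 309) (nat_lit 236) (nat_lit 175)) (XT.nd (nat_lit 78) (nat_lit 0) (nat_lit 0) (XT.lf (nat_lit 0) (nat_lit 115406962370) (nat_lit 152) (nat_lit 106885235711) (nat_lit 0) (nat_lit 103075664295) (nat_lit 1) (nat_lit 5) (nat_lit 3) (nat_lit 4) (nat_lit 1) (nat_lit 4) (nat_lit 310) (nat_lit 236) (nat_lit 174)) (XT.lf (nat_lit 0) (nat_lit 127119759318) (nat_lit 152) (nat_lit 109208585370) (nat_lit 0) (nat_lit 114780661236) (nat_lit 1) (nat_lit 5) (nat_lit 3) (nat_lit 4) (nat_lit 1) (nat_lit 4)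 (nat_lit 311) (nat_lit 236) (nat_lit 173)))) (XT.nd (nat_lit 78) (nat_lit 0) (nat_lit 0) (XT.lf (nat_lit 0) (nat_lit 139765449698) (nat_lit 152) (nat_lit 111725204502) (nat_lit 0) (nat_lit 127419129387) (nat_lit 1) (nat_lit 5) (nat_lit 3) (nat_lit 4) (nat_lit 1) (nat_lit 4) (nat_lit 312) (nat_lit 236) (nat_lit 172)) (XT.nd (nat_lit 78) (nat_lit 0) (nat_lit 0) (XT.lf (nat_lit 0) (nat_lit 153418970937) (nat_lit 152) (nat_lit 114450006405) (nat_lit 0) (nat_lit 141065963377) (nat_lit 1) (nat_lit 5) (nat_lit 3) (nat_lit 4) (nat_lit 1) (nat_lit 4) (nat_lit 313) (nat_lit 236) (nat_lit 171)) (XT.lf (nat_lit 0) (nat_lit 168161232789) (nat_lit 152) (nat_lit 117399138054) (nat_lit 0) (nat_lit 155802033332) (nat_lit 1) (nat_lit 5) (nat_lit 3) (nat_lit 4) (nat_lit 1) (nat_lit 4) (nat_lit 314) (nat_lit 236) (nat_lit 170))))))))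
noncomputable def xc43 : XT := (XT.nd (nat_lit 32370) (nat_lit 0) (nat_lit 456) (XT.nd (nat_lit 858) (nat_lit 0) (nat_lit 0) (XT.nd (nat_lit 390) (nat_lit 0) (nat_lit 0) (XT.nd (nat_lit 156) (nat_lit 0) (nat_lit 0) (XT.nd (nat_lit 78) (nat_lit 0) (nat_lit 0) (XT.lf (nat_lit 0) (nat_lit 184079596805) (nat_lit 152) (nat_lit 120590075785) (nat_lit 0) (nat_lit 171714664111) (nat_lit 1) (nat_lit 5) (nat_lit 3) (nat_lit 4) (nat_lit 1) (nat_lit 4) (nat_lit 315) (nat_lit 236) (nat_lit 169)) (XT.lf (nat_lit 0) (nat_lit 201268394033) (nat_lit 152) (nat_lit 124041728858) (nat_lit 0) (nat_lit 188898152785) (nat_lit 1) (nat_lit 5) (nat_lit 3) (nat_lit 4) (nat_lit 1) (nat_lit 4) (nat_lit 316) (nat_lit 236) (nat_lit 168))) (XT.nd (nat_lit 78) (nat_lit 0) (nat_lit 0) (XT.lf (nat_lit 0) (nat_lit 219829484012) (nat_lit 152) (nat_lit 127774551513) (nat_lit 0) (nat_lit 207454327436) (nat_lit 1) (nat_lit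 5) (nat_lit 3) (nat_lit 4) (nat_lit 1) (nat_lit 4) (nat_lit 317) (nat_lit 236) (nat_lit 167)) (XT.nd (nat_lit 78) (nat_lit 0) (nat_lit 0) (XT.lf (nat_lit 0) (nat_lit 239872858384) (nat_lit 152) (nat_lit 131810664182) (nat_lit 0) (nat_lit 227493150579) (nat_lit 1) (nat_lit 5) (nat_lit 3) (nat_lit 4) (nat_lit 1) (nat_lit 4) (nat_lit 318) (nat_lit 236) (nat_lit 166)) (XT.lf (nat_lit 0) (nat_lit 261517292703) (nat_lit 152) (nat_lit 136173984568) (nat_lit 0) (nat_lit 249133370797) (nat_lit 1) (nat_lit 5) (nat_lit 3) (nat_lit 4) (nat_lit 1) (nat_lit 4) (nat_lit 319) (nat_lit 236) (nat_lit 165))))) (XT.nd (nat_lit 234) (nat_lit 0) (nat_lit 0) (XT.nd (nat_lit 78) (nat_lit 0) (nat_lit 0) (XT.lf (nat_lit 0) (nat_lit 284891050283) (nat_lit 152) (nat_lit 140890369386) (nat_lit 0) (nat_lit 272503226432) (nat_lit 1) (nat_lit 5) (nat_lit 3) (nat_lit 4) (nat_lit 1) (nat_lit 4) (nat_lit 320) (nat_lit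 236) (nat_lit 164)) (XT.nd (nat_lit 78) (nat_lit 0) (nat_lit 0) (XT.lf (nat_lit 0) (nat_lit 310132642280) (nat_lit 152) (nat_lit 145987767581) (nat_lit 0) (nat_lit 297741205516) (nat_lit 1) (nat_lit 5) (nat_lit 3) (nat_lit 4) (nat_lit 1) (nat_lit 4) (nat_lit 321) (nat_lit 236) (nat_lit 163)) (XT.lf (nat_lit 0) (nat_lit 337391648498) (nat_lit 152) (nat_lit 151496385960) (nat_lit 0) (nat_lit 324996866445) (nat_lit 1) (nat_lit 5) (nat_lit 3) (nat_lit 4) (nat_lit 1) (nat_lit 4) (nat_lit 322) (nat_lit 236) (nat_lit 162)))) (XT.nd (nat_lit 78) (nat_lit 0) (nat_lit 0) (XT.lf (nat_lit 0) (nat_lit 366829603789) (nat_lit 152) (nat_lit 157448868185) (nat_lit 0) (nat_lit 354431724246) (nat_lit 1) (nat_lit 5) (nat_lit 3) (nat_lit 4) (nat_lit 1) (nat_lit 4) (nat_lit 323) (nat_lit 236) (nat_lit 161)) (XT.nd (nat_lit 78) (nat_lit 0) (nat_lit 0) (XT.lf (nat_lit 0) (nat_lit 398620955296) (nat_lit 152)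 (nat_lit 163880488225) (nat_lit 0) (nat_lit 386220207706) (nat_lit 1) (nat_lit 5) (nat_lit 3) (nat_lit 4) (nat_lit 1) (nat_lit 4) (nat_lit 324) (nat_lit 236) (nat_lit 160)) (XT.lf (nat_lit 0) (nat_lit 432954096212) (nat_lit 152) (nat_lit 170829359386) (nat_lit 0) (nat_lit 420550693024) (nat_lit 1) (nat_lit 5) (nat_lit 3) (nat_lit 4) (nat_lit 1) (nat_lit 4) (nat_lit 325) (nat_lit 236) (nat_lit 159)))))) (XT.nd (nat_lit 468) (nat_lit 0) (nat_lit 0) (XT.nd (nat_lit 234) (nat_lit 0) (nat_lit 0) (XT.nd (nat_lit 78) (nat_lit 0) (nat_lit 0) (XT.lf (nat_lit 0) (nat_lit 470032482188) (nat_lit 152) (nat_lit 178336660161) (nat_lit 0) (nat_lit 457626620112) (nat_lit 1) (nat_lit 5) (nat_lit 3) (nat_lit 4) (nat_lit 1) (nat_lit 4) (nat_lit 326) (nat_lit 236) (nat_lit 158)) (XT.nd (nat_lit 78) (nat_lit 0) (nat_lit 0) (XT.lf (nat_lit 0) (nat_lit 510075836991) (nat_lit 152) (nat_lit 186446878260) (nat_lit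 0) (nat_lit 497667698167) (nat_lit 1) (nat_lit 5) (nat_lit 3) (nat_lit 4) (nat_lit 1) (nat_lit 4) (nat_lit 327) (nat_lit 236) (nat_lit 157)) (XT.lf (nat_lit 0) (nat_lit 553321454577) (nat_lit 152) (nat_lit 195208074234) (nat_lit 0) (nat_lit 540911207654) (nat_lit 1) (nat_lit 5) (nat_lit 3) (nat_lit 4) (nat_lit 1) (nat_lit 4) (nat_lit 328) (nat_lit 236) (nat_lit 156)))) (XT.nd (nat_lit 78) (nat_lit 0) (nat_lit 0) (XT.lf (nat_lit 0) (nat_lit 600025605273) (nat_lit 152) (nat_lit 204672166283) (nat_lit 0) (nat_lit 587613406405) (nat_lit 1) (nat_lit 5) (nat_lit 3) (nat_lit 4) (nat_lit 1) (nat_lit 4) (nat_lit 329) (nat_lit 236) (nat_lit 155)) (XT.nd (nat_lit 78) (nat_lit 0) (nat_lit 0) (XT.lf (nat_lit 0) (nat_lit 650465054414) (nat_lit 152) (nat_lit 214895237913) (nat_lit 0) (nat_lit 638051048191) (nat_lit 1) (nat_lit 5) (nat_lit 3) (nat_lit 4) (nat_lit 1) (nat_lit 4) (nat_lit 330) (nat_lit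 236) (nat_lit 154)) (XT.lf (nat_lit 0) (nat_lit 704938702442) (nat_lit 152) (nat_lit 225937870290) (nat_lit 0) (nat_lit 692523022741) (nat_lit 1) (nat_lit 5) (nat_lit 3) (nat_lit 4) (nat_lit 1) (nat_lit 4) (nat_lit 331) (nat_lit 236) (nat_lit 153))))) (XT.nd (nat_lit 30810) (nat_lit 0) (nat_lit 3116) (XT.nd (nat_lit 78) (nat_lit 0) (nat_lit 0) (XT.lf (nat_lit 0) (nat_lit 763769356158) (nat_lit 152) (nat_lit 237865501236) (nat_lit 0) (nat_lit 751352126941) (nat_lit 1) (nat_lit 5) (nat_lit 3) (nat_lit 4) (nat_lit 1) (nat_lit 4) (nat_lit 332) (nat_lit 236) (nat_lit 152)) (XT.nd (nat_lit 78) (nat_lit 0) (nat_lit 0) (XT.lf (nat_lit 0) (nat_lit 827305641660) (nat_lit 152) (nat_lit 250748813009) (nat_lit 0) (nat_lit 814886977705) (nat_lit 1) (nat_lit 5) (nat_lit 3) (nat_lit 4) (nat_lit 1) (nat_lit 4) (nat_lit 333) (nat_lit 236) (nat_lit 151)) (XT.lf (nat_lit 0) (nat_lit 895924070267) (nat_lit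 152) (nat_lit 264664151159) (nat_lit 0) (nat_lit 883504077853) (nat_lit 1) (nat_lit 5) (nat_lit 3) (nat_lit 4) (nat_lit 1) (nat_lit 4) (nat_lit 334) (nat_lit 236) (nat_lit 150)))) (XT.nd (nat_lit 78) (nat_lit 304) (nat_lit 0) (XT.lf (nat_lit 0) (nat_lit 1515508751) (nat_lit 228) (nat_lit 335033015) (nat_lit 0) (nat_lit 1515508751) (nat_lit 46) (nat_lit 5) (nat_lit 49) (nat_lit 4) (nat_lit 46) (nat_lit 4) (nat_lit 246) (nat_lit 237) (nat_lit 237)) (XT.nd (nat_lit 78) (nat_lit 76) (nat_lit 0) (XT.lf (nat_lit 0) (nat_lit 3087055088) (nat_lit 228) (nat_lit 2798964377) (nat_lit 228) (nat_lit 957422356) (nat_lit 43) (nat_lit 4) (nat_lit 46) (nat_lit 5) (nat_lit 46) (nat_lit 4) (nat_lit 247) (nat_lit 237) (nat_lit 236)) (XT.lf (nat_lit 0) (nat_lit 1690358920) (nat_lit 304) (nat_lit 30726968) (nat_lit 76) (nat_lit 5258616855) (nat_lit 42) (nat_lit 5) (nat_lit 46) (nat_lit 5) (nat_lit 43) (nat_lit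 4) (nat_lit 248) (nat_lit 237) (nat_lit 235))))))) (XT.nd (nat_lit 858) (nat_lit 760) (nat_lit 0) (XT.nd (nat_lit 390) (nat_lit 684) (nat_lit 0) (XT.nd (nat_lit 156) (nat_lit 532) (nat_lit 0) (XT.nd (nat_lit 78) (nat_lit 380) (nat_lit 0) (XT.lf (nat_lit 0) (nat_lit 3979559534) (nat_lit 304) (nat_lit 397872446) (nat_lit 380) (nat_lit 2759578684) (nat_lit 38) (nat_lit 5) (nat_lit 42) (nat_lit 5) (nat_lit 43) (nat_lit 4) (nat_lit 249) (nat_lit 237) (nat_lit 234)) (XT.lf (nat_lit 0) (nat_lit 819673239) (nat_lit 380) (nat_lit 6300828207) (nat_lit 380) (nat_lit 201407452) (nat_lit 33) (nat_lit 4) (nat_lit 38) (nat_lit 5) (nat_lit 38) (nat_lit 4) (nat_lit 250) (nat_lit 237) (nat_lit 233))) (XT.nd (nat_lit 78) (nat_lit 456) (nat_lit 0) (XT.lf (nat_lit 0) (nat_lit 2331196393) (nat_lit 456) (nat_lit 2503854812) (nat_lit 76) (nat_lit 2691748397) (nat_lit 32) (nat_lit 5) (nat_lit 38) (nat_lit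 5) (nat_lit 33) (nat_lit 4) (nat_lit 251) (nat_lit 237) (nat_lit 232)) (XT.nd (nat_lit 78) (nat_lit 0) (nat_lit 0) (XT.lf (nat_lit 0) (nat_lit 1700218821) (nat_lit 456) (nat_lit 3210091746) (nat_lit 532) (nat_lit 2850786214) (nat_lit 26) (nat_lit 5) (nat_lit 32) (nat_lit 5) (nat_lit 33) (nat_lit 4) (nat_lit 252) (nat_lit 237) (nat_lit 231)) (XT.lf (nat_lit 0) (nat_lit 6193927985) (nat_lit 456) (nat_lit 1393416835) (nat_lit 532) (nat_lit 437147477) (nat_lit 26) (nat_lit 5) (nat_lit 32) (nat_lit 5) (nat_lit 33) (nat_lit 4) (nat_lit 253) (nat_lit 237) (nat_lit 230))))) (XT.nd (nat_lit 234) (nat_lit 228) (nat_lit 0) (XT.nd (nat_lit 78) (nat_lit 152) (nat_lit 0) (XT.lf (nat_lit 0) (nat_lit 1971146223) (nat_lit 304) (nat_lit 5698790943) (nat_lit 76) (nat_lit 643482300) (nat_lit 22) (nat_lit 5) (nat_lit 26) (nat_lit 5) (nat_lit 23) (nat_lit 4) (nat_lit 254) (nat_lit 237) (nat_lit 229)) (XT.nd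 (nat_lit 78) (nat_lit 152) (nat_lit 0) (XT.lf (nat_lit 0) (nat_lit 4474269544) (nat_lit 304) (nat_lit 1345284707) (nat_lit 76) (nat_lit 2812270621) (nat_lit 22) (nat_lit 5) (nat_lit 26) (nat_lit 5) (nat_lit 23) (nat_lit 4) (nat_lit 255) (nat_lit 237) (nat_lit 228)) (XT.lf (nat_lit 0) (nat_lit 3343650697) (nat_lit 152) (nat_lit 3764629045) (nat_lit 228) (nat_lit 1874208209) (nat_lit 20) (nat_lit 5) (nat_lit 22) (nat_lit 5) (nat_lit 23) (nat_lit 4) (nat_lit 256) (nat_lit 237) (nat_lit 227)))) (XT.nd (nat_lit 78) (nat_lit 152) (nat_lit 0) (XT.lf (nat_lit 0) (nat_lit 452235471) (nat_lit 228) (nat_lit 1073633491) (nat_lit 76) (nat_lit 7844053654) (nat_lit 19) (nat_lit 5) (nat_lit 22) (nat_lit 5) (nat_lit 20) (nat_lit 5) (nat_lit 257) (nat_lit 237) (nat_lit 226)) (XT.nd (nat_lit 78) (nat_lit 0) (nat_lit 0) (XT.lf (nat_lit 0) (nat_lit 2843152386) (nat_lit 228) (nat_lit 5984394908) (nat_lit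 76) (nat_lit 959522544) (nat_lit 17) (nat_lit 5) (nat_lit 20) (nat_lit 5) (nat_lit 18) (nat_lit 4) (nat_lit 258) (nat_lit 237) (nat_lit 225)) (XT.lf (nat_lit 0) (nat_lit 5363597719) (nat_lit 228) (nat_lit 1322399461) (nat_lit 76) (nat_lit 3557439897) (nat_lit 17) (nat_lit 5) (nat_lit 20) (nat_lit 5) (nat_lit 18) (nat_lit 4) (nat_lit 259) (nat_lit 237) (nat_lit 224)))))) (XT.nd (nat_lit 468) (nat_lit 304) (nat_lit 0) (XT.nd (nat_lit 234) (nat_lit 76) (nat_lit 0) (XT.nd (nat_lit 78) (nat_lit 228) (nat_lit 0) (XT.lf (nat_lit 0) (nat_lit 3735620846) (nat_lit 152) (nat_lit 4318144599) (nat_lit 228) (nat_lit 2685942648) (nat_lit 15) (nat_lit 5) (nat_lit 17) (nat_lit 5) (nat_lit 18) (nat_lit 4) (nat_lit 260) (nat_lit 237) (nat_lit 223)) (XT.nd (nat_lit 78) (nat_lit 228) (nat_lit 0) (XT.lf (nat_lit 0) (nat_lit 9113830128) (nat_lit 152) (nat_lit 1764897294) (nat_lit 228) (nat_lit 404165917)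 (nat_lit 15) (nat_lit 5) (nat_lit 17) (nat_lit 5) (nat_lit 18) (nat_lit 4) (nat_lit 261) (nat_lit 237) (nat_lit 222)) (XT.lf (nat_lit 0) (nat_lit 1943788831) (nat_lit 228) (nat_lit 8896518318) (nat_lit 76) (nat_lit 1026994954) (nat_lit 12) (nat_lit 5) (nat_lit 15) (nat_lit 5) (nat_lit 13) (nat_lit 4) (nat_lit 262) (nat_lit 237) (nat_lit 221)))) (XT.nd (nat_lit 78) (nat_lit 76) (nat_lit 0) (XT.lf (nat_lit 0) (nat_lit 4456588223) (nat_lit 228) (nat_lit 4064995122) (nat_lit 76) (nat_lit 3976751308) (nat_lit 12) (nat_lit 5) (nat_lit 15) (nat_lit 5) (nat_lit 13) (nat_lit 4) (nat_lit 263) (nat_lit 237) (nat_lit 220)) (XT.nd (nat_lit 78) (nat_lit 0) (nat_lit 0) (XT.lf (nat_lit 0) (nat_lit 1059210552) (nat_lit 76) (nat_lit 6036819296) (nat_lit 152) (nat_lit 6090343097) (nat_lit 11) (nat_lit 5) (nat_lit 12) (nat_lit 5) (nat_lit 13) (nat_lit 4) (nat_lit 264) (nat_lit 237) (nat_lit 219)) (XT.lf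 (nat_lit 0) (nat_lit 6681424278) (nat_lit 76) (nat_lit 3280445907) (nat_lit 152) (nat_lit 3966894833) (nat_lit 11) (nat_lit 5) (nat_lit 12) (nat_lit 5) (nat_lit 13) (nat_lit 4) (nat_lit 265) (nat_lit 237) (nat_lit 218))))) (XT.nd (nat_lit 234) (nat_lit 76) (nat_lit 0) (XT.nd (nat_lit 78) (nat_lit 228) (nat_lit 0) (XT.lf (nat_lit 0) (nat_lit 12620907435) (nat_lit 76) (nat_lit 347273283) (nat_lit 152) (nat_lit 1769962410) (nat_lit 11) (nat_lit 5) (nat_lit 12) (nat_lit 5) (nat_lit 13) (nat_lit 4) (nat_lit 266) (nat_lit 237) (nat_lit 217)) (XT.nd (nat_lit 78) (nat_lit 0) (nat_lit 0) (XT.lf (nat_lit 0) (nat_lit 640194866) (nat_lit 228) (nat_lit 12227022840) (nat_lit 76) (nat_lit 2738905339) (nat_lit 8) (nat_lit 5) (nat_lit 11) (nat_lit 5) (nat_lit 9) (nat_lit 4) (nat_lit 267) (nat_lit 237) (nat_lit 216)) (XT.lf (nat_lit 0) (nat_lit 3133425964) (nat_lit 228) (nat_lit 7290081886) (nat_lit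 76) (nat_lit 6117874549) (nat_lit 8) (nat_lit 5) (nat_lit 11) (nat_lit 5) (nat_lit 9) (nat_lit 4) (nat_lit 268) (nat_lit 237) (nat_lit 215)))) (XT.nd (nat_lit 78) (nat_lit 76) (nat_lit 0) (XT.lf (nat_lit 0) (nat_lit 5749701207) (nat_lit 228) (nat_lit 2078766166) (nat_lit 76) (nat_lit 9729469111) (nat_lit 8) (nat_lit 5) (nat_lit 11) (nat_lit 5) (nat_lit 9) (nat_lit 4) (nat_lit 269) (nat_lit 237) (nat_lit 214)) (XT.nd (nat_lit 78) (nat_lit 0) (nat_lit 0) (XT.lf (nat_lit 0) (nat_lit 3618834970) (nat_lit 76) (nat_lit 4972722547) (nat_lit 152) (nat_lit 10063289162) (nat_lit 7) (nat_lit 5) (nat_lit 8) (nat_lit 5) (nat_lit 9) (nat_lit 4) (nat_lit 270) (nat_lit 237) (nat_lit 213)) (XT.lf (nat_lit 0) (nat_lit 9781643399) (nat_lit 76) (nat_lit 1867825928) (nat_lit 152) (nat_lit 8191253162) (nat_lit 7) (nat_lit 5) (nat_lit 8) (nat_lit 5) (nat_lit 9) (nat_lit 4) (nat_lit 271) (nat_lit 237) (nat_lit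 212))))))))
noncomputable def xc44 : XT := (XT.nd (nat_lit 1794) (nat_lit 0) (nat_lit 0) (XT.nd (nat_lit 858) (nat_lit 228) (nat_lit 0) (XT.nd (nat_lit 390) (nat_lit 76) (nat_lit 0) (XT.nd (nat_lit 156) (nat_lit 76) (nat_lit 0) (XT.nd (nat_lit 78) (nat_lit 76) (nat_lit 0) (XT.lf (nat_lit 0) (nat_lit 14923749863) (nat_lit 152) (nat_lit 4824905419) (nat_lit 0) (nat_lit 1375360662) (nat_lit 7) (nat_lit 5) (nat_lit 9) (nat_lit 4) (nat_lit 7) (nat_lit 4) (nat_lit 272) (nat_lit 237) (nat_lit 211)) (XT.lf (nat_lit 0) (nat_lit 718008440) (nat_lit 76) (nat_lit 17748497825) (nat_lit 76) (nat_lit 4043209160) (nat_lit 6) (nat_lit 4) (nat_lit 7) (nat_lit 5) (nat_lit 7) (nat_lit 4) (nat_lit 273) (nat_lit 237) (nat_lit 210))) (XT.nd (nat_lit 78) (nat_lit 76) (nat_lit 0) (XT.lf (nat_lit 0) (nat_lit 6883821352) (nat_lit 76) (nat_lit 15483639415) (nat_lit 76) (nat_lit 1633073470) (nat_lit 6) (nat_lit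 4) (nat_lit 7) (nat_lit 5) (nat_lit 7) (nat_lit 4) (nat_lit 274) (nat_lit 237) (nat_lit 209)) (XT.nd (nat_lit 78) (nat_lit 0) (nat_lit 0) (XT.lf (nat_lit 0) (nat_lit 866854774) (nat_lit 152) (nat_lit 12182024015) (nat_lit 76) (nat_lit 12564444378) (nat_lit 5) (nat_lit 5) (nat_lit 7) (nat_lit 5) (nat_lit 6) (nat_lit 4) (nat_lit 275) (nat_lit 237) (nat_lit 208)) (XT.lf (nat_lit 0) (nat_lit 3428084706) (nat_lit 152) (nat_lit 6979217607) (nat_lit 76) (nat_lit 16948671580) (nat_lit 5) (nat_lit 5) (nat_lit 7) (nat_lit 5) (nat_lit 6) (nat_lit 4) (nat_lit 276) (nat_lit 237) (nat_lit 207))))) (XT.nd (nat_lit 234) (nat_lit 0) (nat_lit 0) (XT.nd (nat_lit 78) (nat_lit 76) (nat_lit 0) (XT.lf (nat_lit 0) (nat_lit 6147486935) (nat_lit 152) (nat_lit 1438186761) (nat_lit 76) (nat_lit 21656281578) (nat_lit 5) (nat_lit 5) (nat_lit 7) (nat_lit 5) (nat_lit 6) (nat_lit 4) (nat_lit 277) (nat_lit 237) (nat_lit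 206)) (XT.nd (nat_lit 78) (nat_lit 0) (nat_lit 0) (XT.lf (nat_lit 0) (nat_lit 4709492131) (nat_lit 76) (nat_lit 4444947703) (nat_lit 152) (nat_lit 22118942588) (nat_lit 4) (nat_lit 5) (nat_lit 5) (nat_lit 5) (nat_lit 6) (nat_lit 4) (nat_lit 278) (nat_lit 237) (nat_lit 205)) (XT.lf (nat_lit 0) (nat_lit 11360382413) (nat_lit 76) (nat_lit 1039136055) (nat_lit 152) (nat_lit 21068154470) (nat_lit 4) (nat_lit 5) (nat_lit 5) (nat_lit 5) (nat_lit 6) (nat_lit 4) (nat_lit 279) (nat_lit 237) (nat_lit 204)))) (XT.nd (nat_lit 78) (nat_lit 0) (nat_lit 0) (XT.lf (nat_lit 0) (nat_lit 15928376744) (nat_lit 152) (nat_lit 17425412013) (nat_lit 0) (nat_lit 2481927363) (nat_lit 4) (nat_lit 5) (nat_lit 6) (nat_lit 4) (nat_lit 4) (nat_lit 4) (nat_lit 280) (nat_lit 237) (nat_lit 203)) (XT.nd (nat_lit 78) (nat_lit 0) (nat_lit 0) (XT.lf (nat_lit 0) (nat_lit 19730147153) (nat_lit 152) (nat_lit 12458731027) (nat_lit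 0) (nat_lit 6205208977) (nat_lit 4) (nat_lit 5) (nat_lit 6) (nat_lit 4) (nat_lit 4) (nat_lit 4) (nat_lit 281) (nat_lit 237) (nat_lit 202)) (XT.lf (nat_lit 0) (nat_lit 23802367458) (nat_lit 152) (nat_lit 7152824136) (nat_lit 0) (nat_lit 10204754473) (nat_lit 4) (nat_lit 5) (nat_lit 6) (nat_lit 4) (nat_lit 4) (nat_lit 4) (nat_lit 282) (nat_lit 237) (nat_lit 201)))))) (XT.nd (nat_lit 468) (nat_lit 152) (nat_lit 0) (XT.nd (nat_lit 234) (nat_lit 0) (nat_lit 0) (XT.nd (nat_lit 78) (nat_lit 76) (nat_lit 0) (XT.lf (nat_lit 0) (nat_lit 28169169335) (nat_lit 152) (nat_lit 1476248929) (nat_lit 0) (nat_lit 14504264860) (nat_lit 4) (nat_lit 5) (nat_lit 6) (nat_lit 4) (nat_lit 4) (nat_lit 4) (nat_lit 283) (nat_lit 237) (nat_lit 200)) (XT.nd (nat_lit 78) (nat_lit 0) (nat_lit 0) (XT.lf (nat_lit 0) (nat_lit 4847105399) (nat_lit 76) (nat_lit 28125897730) (nat_lit 76) (nat_lit 14398686319) (nat_lit 3)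 (nat_lit 4) (nat_lit 4) (nat_lit 5) (nat_lit 4) (nat_lit 4) (nat_lit 284) (nat_lit 237) (nat_lit 199)) (XT.lf (nat_lit 0) (nat_lit 11711726158) (nat_lit 76) (nat_lit 26461867337) (nat_lit 76) (nat_lit 12676964319) (nat_lit 3) (nat_lit 4) (nat_lit 4) (nat_lit 5) (nat_lit 4) (nat_lit 4) (nat_lit 285) (nat_lit 237) (nat_lit 198)))) (XT.nd (nat_lit 78) (nat_lit 0) (nat_lit 0) (XT.lf (nat_lit 0) (nat_lit 19080555926) (nat_lit 76) (nat_lit 24683829425) (nat_lit 76) (nat_lit 10845508253) (nat_lit 3) (nat_lit 4) (nat_lit 4) (nat_lit 5) (nat_lit 4) (nat_lit 4) (nat_lit 286) (nat_lit 237) (nat_lit 197)) (XT.nd (nat_lit 78) (nat_lit 0) (nat_lit 0) (XT.lf (nat_lit 0) (nat_lit 26997261843) (nat_lit 76) (nat_lit 22781247475) (nat_lit 76) (nat_lit 8893465048) (nat_lit 3) (nat_lit 4) (nat_lit 4) (nat_lit 5) (nat_lit 4) (nat_lit 4) (nat_lit 287) (nat_lit 237) (nat_lit 196)) (XT.lf (nat_lit 0) (nat_lit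 35508757723) (nat_lit 76) (nat_lit 20742846926) (nat_lit 76) (nat_lit 6809267042) (nat_lit 3) (nat_lit 4) (nat_lit 4) (nat_lit 5) (nat_lit 4) (nat_lit 4) (nat_lit 288) (nat_lit 237) (nat_lit 195))))) (XT.nd (nat_lit 234) (nat_lit 76) (nat_lit 0) (XT.nd (nat_lit 78) (nat_lit 76) (nat_lit 0) (XT.lf (nat_lit 0) (nat_lit 44665482059) (nat_lit 76) (nat_lit 18556548369) (nat_lit 76) (nat_lit 4580563431) (nat_lit 3) (nat_lit 4) (nat_lit 4) (nat_lit 5) (nat_lit 4) (nat_lit 4) (nat_lit 289) (nat_lit 237) (nat_lit 194)) (XT.nd (nat_lit 78) (nat_lit 76) (nat_lit 0) (XT.lf (nat_lit 0) (nat_lit 54521696922) (nat_lit 76) (nat_lit 16209395959) (nat_lit 76) (nat_lit 2194147082) (nat_lit 3) (nat_lit 4) (nat_lit 4) (nat_lit 5) (nat_lit 4) (nat_lit 4) (nat_lit 290) (nat_lit 237) (nat_lit 193)) (XT.lf (nat_lit 0) (nat_lit 345908785) (nat_lit 152) (nat_lit 13332114100) (nat_lit 76) (nat_lit 64780442965)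 (nat_lit 2) (nat_lit 5) (nat_lit 4) (nat_lit 5) (nat_lit 3) (nat_lit 4) (nat_lit 291) (nat_lit 237) (nat_lit 192)))) (XT.nd (nat_lit 78) (nat_lit 76) (nat_lit 0) (XT.lf (nat_lit 0) (nat_lit 2953863891) (nat_lit 152) (nat_lit 7941229979) (nat_lit 76) (nat_lit 73536090504) (nat_lit 2) (nat_lit 5) (nat_lit 4) (nat_lit 5) (nat_lit 3) (nat_lit 4) (nat_lit 292) (nat_lit 237) (nat_lit 191)) (XT.nd (nat_lit 78) (nat_lit 76) (nat_lit 0) (XT.lf (nat_lit 0) (nat_lit 5754932905) (nat_lit 152) (nat_lit 2146175410) (nat_lit 76) (nat_lit 82981902651) (nat_lit 2) (nat_lit 5) (nat_lit 4) (nat_lit 5) (nat_lit 3) (nat_lit 4) (nat_lit 293) (nat_lit 237) (nat_lit 190)) (XT.lf (nat_lit 0) (nat_lit 4302625421) (nat_lit 76) (nat_lit 4566567579) (nat_lit 152) (nat_lit 88974707411) (nat_lit 1) (nat_lit 5) (nat_lit 2) (nat_lit 5) (nat_lit 3) (nat_lit 4) (nat_lit 294) (nat_lit 237) (nat_lit 189))))))) (XT.nd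 (nat_lit 858) (nat_lit 0) (nat_lit 0) (XT.nd (nat_lit 390) (nat_lit 0) (nat_lit 0) (XT.nd (nat_lit 156) (nat_lit 0) (nat_lit 0) (XT.nd (nat_lit 78) (nat_lit 0) (nat_lit 0) (XT.lf (nat_lit 0) (nat_lit 11364927626) (nat_lit 76) (nat_lit 912450269) (nat_lit 152) (nat_lit 93080742224) (nat_lit 1) (nat_lit 5) (nat_lit 2) (nat_lit 5) (nat_lit 3) (nat_lit 4) (nat_lit 295) (nat_lit 237) (nat_lit 188)) (XT.lf (nat_lit 0) (nat_lit 16018083188) (nat_lit 152) (nat_lit 94577709894) (nat_lit 0) (nat_lit 2872933801) (nat_lit 1) (nat_lit 5) (nat_lit 3) (nat_lit 4) (nat_lit 1) (nat_lit 4) (nat_lit 296) (nat_lit 237) (nat_lit 187))) (XT.nd (nat_lit 78) (nat_lit 0) (nat_lit 0) (XT.lf (nat_lit 0) (nat_lit 20069613354) (nat_lit 152) (nat_lit 95254428333) (nat_lit 0) (nat_lit 6903250883) (nat_lit 1) (nat_lit 5) (nat_lit 3) (nat_lit 4) (nat_lit 1) (nat_lit 4) (nat_lit 297) (nat_lit 237) (nat_lit 186)) (XT.nd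 (nat_lit 78) (nat_lit 0) (nat_lit 0) (XT.lf (nat_lit 0) (nat_lit 24434033011) (nat_lit 152) (nat_lit 96005413543) (nat_lit 0) (nat_lit 11248028795) (nat_lit 1) (nat_lit 5) (nat_lit 3) (nat_lit 4) (nat_lit 1) (nat_lit 4) (nat_lit 298) (nat_lit 237) (nat_lit 185)) (XT.lf (nat_lit 0) (nat_lit 29137205386) (nat_lit 152) (nat_lit 96835115806) (nat_lit 0) (nat_lit 15933014370) (nat_lit 1) (nat_lit 5) (nat_lit 3) (nat_lit 4) (nat_lit 1) (nat_lit 4) (nat_lit 299) (nat_lit 237) (nat_lit 184))))) (XT.nd (nat_lit 234) (nat_lit 0) (nat_lit 0) (XT.nd (nat_lit 78) (nat_lit 0) (nat_lit 0) (XT.lf (nat_lit 0) (nat_lit 34207001131) (nat_lit 152) (nat_lit 97748451877) (nat_lit 0) (nat_lit 20985970484) (nat_lit 1) (nat_lit 5) (nat_lit 3) (nat_lit 4) (nat_lit 1) (nat_lit 4) (nat_lit 300) (nat_lit 237) (nat_lit 183)) (XT.nd (nat_lit 78) (nat_lit 0) (nat_lit 0) (XT.lf (nat_lit 0) (nat_lit 39673463478) (nat_lit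 152) (nat_lit 98750834118) (nat_lit 0) (nat_lit 26436840581) (nat_lit 1) (nat_lit 5) (nat_lit 3) (nat_lit 4) (nat_lit 1) (nat_lit 4) (nat_lit 301) (nat_lit 237) (nat_lit 182)) (XT.lf (nat_lit 0) (nat_lit 45568986280) (nat_lit 152) (nat_lit 99848202572) (nat_lit 0) (nat_lit 32317926114) (nat_lit 1) (nat_lit 5) (nat_lit 3) (nat_lit 4) (nat_lit 1) (nat_lit 4) (nat_lit 302) (nat_lit 237) (nat_lit 181)))) (XT.nd (nat_lit 78) (nat_lit 0) (nat_lit 0) (XT.lf (nat_lit 0) (nat_lit 51928505967) (nat_lit 152) (nat_lit 101047060162) (nat_lit 0) (nat_lit 38664077960) (nat_lit 1) (nat_lit 5) (nat_lit 3) (nat_lit 4) (nat_lit 1) (nat_lit 4) (nat_lit 303) (nat_lit 237) (nat_lit 180)) (XT.nd (nat_lit 78) (nat_lit 0) (nat_lit 0) (XT.lf (nat_lit 0) (nat_lit 58789708583) (nat_lit 152) (nat_lit 102354511230) (nat_lit 0) (nat_lit 45512902945) (nat_lit 1) (nat_lit 5) (nat_lit 3) (nat_lit 4) (nat_lit 1) (nat_lit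 4) (nat_lit 304) (nat_lit 237) (nat_lit 179)) (XT.lf (nat_lit 0) (nat_lit 66193253105) (nat_lit 152) (nat_lit 103778303634) (nat_lit 0) (nat_lit 52904986698) (nat_lit 1) (nat_lit 5) (nat_lit 3) (nat_lit 4) (nat_lit 1) (nat_lit 4) (nat_lit 305) (nat_lit 237) (nat_lit 178)))))) (XT.nd (nat_lit 468) (nat_lit 0) (nat_lit 0) (XT.nd (nat_lit 234) (nat_lit 0) (nat_lit 0) (XT.nd (nat_lit 78) (nat_lit 0) (nat_lit 0) (XT.lf (nat_lit 0) (nat_lit 74183012390) (nat_lit 152) (nat_lit 105326874663) (nat_lit 0) (nat_lit 60884134160) (nat_lit 1) (nat_lit 5) (nat_lit 3) (nat_lit 4) (nat_lit 1) (nat_lit 4) (nat_lit 306) (nat_lit 237) (nat_lit 177)) (XT.nd (nat_lit 78) (nat_lit 0) (nat_lit 0) (XT.lf (nat_lit 0) (nat_lit 82806333160) (nat_lit 152) (nat_lit 107009401034) (nat_lit 0) (nat_lit 69497629167) (nat_lit 1) (nat_lit 5) (nat_lit 3) (nat_lit 4) (nat_lit 1) (nat_lit 4) (nat_lit 307) (nat_lit 237)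 (nat_lit 176)) (XT.lf (nat_lit 0) (nat_lit 92114316575) (nat_lit 152) (nat_lit 108835853273) (nat_lit 0) (nat_lit 78796514654) (nat_lit 1) (nat_lit 5) (nat_lit 3) (nat_lit 4) (nat_lit 1) (nat_lit 4) (nat_lit 308) (nat_lit 237) (nat_lit 175)))) (XT.nd (nat_lit 78) (nat_lit 0) (nat_lit 0) (XT.lf (nat_lit 0) (nat_lit 102162121056) (nat_lit 152) (nat_lit 110817054801) (nat_lit 0) (nat_lit 88835895127) (nat_lit 1) (nat_lit 5) (nat_lit 3) (nat_lit 4) (nat_lit 1) (nat_lit 4) (nat_lit 309) (nat_lit 237) (nat_lit 174)) (XT.nd (nat_lit 78) (nat_lit 0) (nat_lit 0) (XT.lf (nat_lit 0) (nat_lit 113009289146) (nat_lit 152) (nat_lit 112964746072) (nat_lit 0) (nat_lit 99675263210) (nat_lit 1) (nat_lit 5) (nat_lit 3) (nat_lit 4) (nat_lit 1) (nat_lit 4) (nat_lit 310) (nat_lit 237) (nat_lit 173)) (XT.lf (nat_lit 0) (nat_lit 124720100362) (nat_lit 152) (nat_lit 115291654144) (nat_lit 0) (nat_lit 111378852197)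 (nat_lit 1) (nat_lit 5) (nat_lit 3) (nat_lit 4) (nat_lit 1) (nat_lit 4) (nat_lit 311) (nat_lit 237) (nat_lit 172))))) (XT.nd (nat_lit 234) (nat_lit 0) (nat_lit 0) (XT.nd (nat_lit 78) (nat_lit 0) (nat_lit 0) (XT.lf (nat_lit 0) (nat_lit 137363952101) (nat_lit 152) (nat_lit 117811568103) (nat_lit 0) (nat_lit 124016016688) (nat_lit 1) (nat_lit 5) (nat_lit 3) (nat_lit 4) (nat_lit 1) (nat_lit 4) (nat_lit 312) (nat_lit 237) (nat_lit 171)) (XT.nd (nat_lit 78) (nat_lit 0) (nat_lit 0) (XT.lf (nat_lit 0) (nat_lit 151015770895) (nat_lit 152) (nat_lit 120539420773) (nat_lit 0) (nat_lit 137661643585) (nat_lit 1) (nat_lit 5) (nat_lit 3) (nat_lit 4) (nat_lit 1) (nat_lit 4) (nat_lit 313) (nat_lit 237) (nat_lit 170)) (XT.lf (nat_lit 0) (nat_lit 165756456409) (nat_lit 152) (nat_lit 123491377206) (nat_lit 0) (nat_lit 152396595860) (nat_lit 1) (nat_lit 5) (nat_lit 3) (nat_lit 4) (nat_lit 1) (nat_lit 4)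 (nat_lit 314) (nat_lit 237) (nat_lit 169)))) (XT.nd (nat_lit 78) (nat_lit 0) (nat_lit 0) (XT.lf (nat_lit 0) (nat_lit 181673360853) (nat_lit 152) (nat_lit 126684930477) (nat_lit 0) (nat_lit 168308191751) (nat_lit 1) (nat_lit 5) (nat_lit 3) (nat_lit 4) (nat_lit 1) (nat_lit 4) (nat_lit 315) (nat_lit 237) (nat_lit 168)) (XT.nd (nat_lit 78) (nat_lit 0) (nat_lit 0) (XT.lf (nat_lit 0) (nat_lit 198860806626) (nat_lit 152) (nat_lit 130139005346) (nat_lit 0) (nat_lit 185490722196) (nat_lit 1) (nat_lit 5) (nat_lit 3) (nat_lit 4) (nat_lit 1) (nat_lit 4) (nat_lit 316) (nat_lit 237) (nat_lit 167)) (XT.lf (nat_lit 0) (nat_lit 217420645256) (nat_lit 152) (nat_lit 133874070406) (nat_lit 0) (nat_lit 204046009597) (nat_lit 1) (nat_lit 5) (nat_lit 3) (nat_lit 4) (nat_lit 1) (nat_lit 4) (nat_lit 317) (nat_lit 237) (nat_lit 166))))))))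
noncomputable def xc45 : XT := (XT.nd (nat_lit 32214) (nat_lit 0) (nat_lit 456) (XT.nd (nat_lit 858) (nat_lit 0) (nat_lit 0) (XT.nd (nat_lit 390) (nat_lit 0) (nat_lit 0) (XT.nd (nat_lit 156) (nat_lit 0) (nat_lit 0) (XT.nd (nat_lit 78) (nat_lit 0) (nat_lit 0) (XT.lf (nat_lit 0) (nat_lit 237462860973) (nat_lit 152) (nat_lit 137912259374) (nat_lit 0) (nat_lit 224084011213) (nat_lit 1) (nat_lit 5) (nat_lit 3) (nat_lit 4) (nat_lit 1) (nat_lit 4) (nat_lit 318) (nat_lit 237) (nat_lit 165)) (XT.lf (nat_lit 0) (nat_lit 259106222463) (nat_lit 152) (nat_lit 142277502261) (nat_lit 0) (nat_lit 245723470758) (nat_lit 1) (nat_lit 5) (nat_lit 3) (nat_lit 4) (nat_lit 1) (nat_lit 4) (nat_lit 319) (nat_lit 237) (nat_lit 164))) (XT.nd (nat_lit 78) (nat_lit 0) (nat_lit 0) (XT.lf (nat_lit 0) (nat_lit 282478986682) (nat_lit 152) (nat_lit 146995667171) (nat_lit 0) (nat_lit 269092622065) (nat_lit 1) (nat_lit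 5) (nat_lit 3) (nat_lit 4) (nat_lit 1) (nat_lit 4) (nat_lit 320) (nat_lit 237) (nat_lit 163)) (XT.nd (nat_lit 78) (nat_lit 0) (nat_lit 0) (XT.lf (nat_lit 0) (nat_lit 307719658901) (nat_lit 152) (nat_lit 152094713601) (nat_lit 0) (nat_lit 294329948994) (nat_lit 1) (nat_lit 5) (nat_lit 3) (nat_lit 4) (nat_lit 1) (nat_lit 4) (nat_lit 321) (nat_lit 237) (nat_lit 162)) (XT.lf (nat_lit 0) (nat_lit 334977813473) (nat_lit 152) (nat_lit 157604858121) (nat_lit 0) (nat_lit 321585006076) (nat_lit 1) (nat_lit 5) (nat_lit 3) (nat_lit 4) (nat_lit 1) (nat_lit 4) (nat_lit 322) (nat_lit 237) (nat_lit 161))))) (XT.nd (nat_lit 234) (nat_lit 0) (nat_lit 0) (XT.nd (nat_lit 78) (nat_lit 0) (nat_lit 0) (XT.lf (nat_lit 0) (nat_lit 364414980203) (nat_lit 152) (nat_lit 163558753441) (nat_lit 0) (nat_lit 351019304759) (nat_lit 1) (nat_lit 5) (nat_lit 3) (nat_lit 4) (nat_lit 1) (nat_lit 4) (nat_lit 323) (nat_lit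 237) (nat_lit 160)) (XT.nd (nat_lit 78) (nat_lit 0) (nat_lit 0) (XT.lf (nat_lit 0) (nat_lit 396205601560) (nat_lit 152) (nat_lit 169991681903) (nat_lit 0) (nat_lit 382807270517) (nat_lit 1) (nat_lit 5) (nat_lit 3) (nat_lit 4) (nat_lit 1) (nat_lit 4) (nat_lit 324) (nat_lit 237) (nat_lit 159)) (XT.lf (nat_lit 0) (nat_lit 430538066411) (nat_lit 152) (nat_lit 176941764565) (nat_lit 0) (nat_lit 417137276482) (nat_lit 1) (nat_lit 5) (nat_lit 3) (nat_lit 4) (nat_lit 1) (nat_lit 4) (nat_lit 325) (nat_lit 237) (nat_lit 158)))) (XT.nd (nat_lit 78) (nat_lit 0) (nat_lit 0) (XT.lf (nat_lit 0) (nat_lit 467615826401) (nat_lit 152) (nat_lit 184450187101) (nat_lit 0) (nat_lit 454212759724) (nat_lit 1) (nat_lit 5) (nat_lit 3) (nat_lit 4) (nat_lit 1) (nat_lit 4) (nat_lit 326) (nat_lit 237) (nat_lit 157)) (XT.nd (nat_lit 78) (nat_lit 0) (nat_lit 0) (XT.lf (nat_lit 0) (nat_lit 507658601589) (nat_lit 152)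 (nat_lit 192561443867) (nat_lit 0) (nat_lit 494253426812) (nat_lit 1) (nat_lit 5) (nat_lit 3) (nat_lit 4) (nat_lit 1) (nat_lit 4) (nat_lit 327) (nat_lit 237) (nat_lit 156)) (XT.lf (nat_lit 0) (nat_lit 550903682493) (nat_lit 152) (nat_lit 201323601570) (nat_lit 0) (nat_lit 537496555772) (nat_lit 1) (nat_lit 5) (nat_lit 3) (nat_lit 4) (nat_lit 1) (nat_lit 4) (nat_lit 328) (nat_lit 237) (nat_lit 155)))))) (XT.nd (nat_lit 30888) (nat_lit 0) (nat_lit 2812) (XT.nd (nat_lit 234) (nat_lit 0) (nat_lit 0) (XT.nd (nat_lit 78) (nat_lit 0) (nat_lit 0) (XT.lf (nat_lit 0) (nat_lit 597607336261) (nat_lit 152) (nat_lit 210788584107) (nat_lit 0) (nat_lit 584198402184) (nat_lit 1) (nat_lit 5) (nat_lit 3) (nat_lit 4) (nat_lit 1) (nat_lit 4) (nat_lit 329) (nat_lit 237) (nat_lit 154)) (XT.nd (nat_lit 78) (nat_lit 0) (nat_lit 0) (XT.lf (nat_lit 0) (nat_lit 648046325285) (nat_lit 152) (nat_lit 221012480265)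 (nat_lit 0) (nat_lit 634635717730) (nat_lit 1) (nat_lit 5) (nat_lit 3) (nat_lit 4) (nat_lit 1) (nat_lit 4) (nat_lit 330) (nat_lit 237) (nat_lit 153)) (XT.lf (nat_lit 0) (nat_lit 702519547277) (nat_lit 152) (nat_lit 232055876094) (nat_lit 0) (nat_lit 689107390206) (nat_lit 1) (nat_lit 5) (nat_lit 3) (nat_lit 4) (nat_lit 1) (nat_lit 4) (nat_lit 331) (nat_lit 237) (nat_lit 152)))) (XT.nd (nat_lit 78) (nat_lit 0) (nat_lit 0) (XT.lf (nat_lit 0) (nat_lit 761349806516) (nat_lit 152) (nat_lit 243984213939) (nat_lit 0) (nat_lit 747936214708) (nat_lit 1) (nat_lit 5) (nat_lit 3) (nat_lit 4) (nat_lit 1) (nat_lit 4) (nat_lit 332) (nat_lit 237) (nat_lit 151)) (XT.nd (nat_lit 78) (nat_lit 0) (nat_lit 0) (XT.lf (nat_lit 0) (nat_lit 824885726761) (nat_lit 152) (nat_lit 256868180248) (nat_lit 0) (nat_lit 811470806493) (nat_lit 1) (nat_lit 5) (nat_lit 3) (nat_lit 4) (nat_lit 1) (nat_lit 4) (nat_lit 333)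 (nat_lit 237) (nat_lit 150)) (XT.lf (nat_lit 0) (nat_lit 893503817169) (nat_lit 152) (nat_lit 270784124451) (nat_lit 0) (nat_lit 880087666844) (nat_lit 1) (nat_lit 5) (nat_lit 3) (nat_lit 4) (nat_lit 1) (nat_lit 4) (nat_lit 334) (nat_lit 237) (nat_lit 149))))) (XT.nd (nat_lit 234) (nat_lit 608) (nat_lit 0) (XT.nd (nat_lit 78) (nat_lit 228) (nat_lit 0) (XT.lf (nat_lit 0) (nat_lit 2818172562) (nat_lit 76) (nat_lit 233276458) (nat_lit 76) (nat_lit 233276458) (nat_lit 49) (nat_lit 4) (nat_lit 50) (nat_lit 5) (nat_lit 50) (nat_lit 4) (nat_lit 244) (nat_lit 238) (nat_lit 238)) (XT.nd (nat_lit 78) (nat_lit 0) (nat_lit 0) (XT.lf (nat_lit 0) (nat_lit 2224374090) (nat_lit 228) (nat_lit 4184166372) (nat_lit 0) (nat_lit 235508707) (nat_lit 46) (nat_lit 5) (nat_lit 49) (nat_lit 4) (nat_lit 46) (nat_lit 4) (nat_lit 245) (nat_lit 238) (nat_lit 237)) (XT.lf (nat_lit 0) (nat_lit 4905271691) (nat_lit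 228) (nat_lit 762630573) (nat_lit 0) (nat_lit 1074864287) (nat_lit 46) (nat_lit 5) (nat_lit 49) (nat_lit 4) (nat_lit 46) (nat_lit 4) (nat_lit 246) (nat_lit 238) (nat_lit 236)))) (XT.nd (nat_lit 78) (nat_lit 304) (nat_lit 0) (XT.lf (nat_lit 0) (nat_lit 746011439) (nat_lit 304) (nat_lit 3983835110) (nat_lit 76) (nat_lit 2132986411) (nat_lit 42) (nat_lit 5) (nat_lit 46) (nat_lit 5) (nat_lit 43) (nat_lit 4) (nat_lit 247) (nat_lit 238) (nat_lit 235)) (XT.nd (nat_lit 78) (nat_lit 304) (nat_lit 0) (XT.lf (nat_lit 0) (nat_lit 3241805522) (nat_lit 304) (nat_lit 371408882) (nat_lit 76) (nat_lit 3393552902) (nat_lit 42) (nat_lit 5) (nat_lit 46) (nat_lit 5) (nat_lit 43) (nat_lit 4) (nat_lit 248) (nat_lit 238) (nat_lit 234)) (XT.lf (nat_lit 0) (nat_lit 3533014140) (nat_lit 304) (nat_lit 2288742561) (nat_lit 380) (nat_lit 1351988337) (nat_lit 38) (nat_lit 5) (nat_lit 42) (nat_lit 5) (nat_lit 43)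 (nat_lit 4) (nat_lit 249) (nat_lit 238) (nat_lit 233))))))) (XT.nd (nat_lit 858) (nat_lit 608) (nat_lit 0) (XT.nd (nat_lit 390) (nat_lit 532) (nat_lit 0) (XT.nd (nat_lit 156) (nat_lit 760) (nat_lit 0) (XT.nd (nat_lit 78) (nat_lit 0) (nat_lit 0) (XT.lf (nat_lit 0) (nat_lit 216395738) (nat_lit 380) (nat_lit 793881165) (nat_lit 456) (nat_lit 6357834221) (nat_lit 32) (nat_lit 5) (nat_lit 37) (nat_lit 5) (nat_lit 38) (nat_lit 5) (nat_lit 250) (nat_lit 238) (nat_lit 232)) (XT.lf (nat_lit 0) (nat_lit 3424238128) (nat_lit 456) (nat_lit 3232353873) (nat_lit 76) (nat_lit 925580974) (nat_lit 32) (nat_lit 5) (nat_lit 38) (nat_lit 5) (nat_lit 33) (nat_lit 4) (nat_lit 251) (nat_lit 238) (nat_lit 231))) (XT.nd (nat_lit 78) (nat_lit 304) (nat_lit 0) (XT.lf (nat_lit 0) (nat_lit 842451174) (nat_lit 456) (nat_lit 5057424997) (nat_lit 532) (nat_lit 1925680649) (nat_lit 26) (nat_lit 5) (nat_lit 32) (nat_lit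 5) (nat_lit 33) (nat_lit 4) (nat_lit 252) (nat_lit 238) (nat_lit 230)) (XT.nd (nat_lit 78) (nat_lit 228) (nat_lit 0) (XT.lf (nat_lit 0) (nat_lit 382057801) (nat_lit 532) (nat_lit 2853685036) (nat_lit 76) (nat_lit 4859483142) (nat_lit 25) (nat_lit 5) (nat_lit 32) (nat_lit 5) (nat_lit 26) (nat_lit 5) (nat_lit 253) (nat_lit 238) (nat_lit 229)) (XT.lf (nat_lit 0) (nat_lit 1457258519) (nat_lit 228) (nat_lit 1191222191) (nat_lit 304) (nat_lit 5745073472) (nat_lit 22) (nat_lit 5) (nat_lit 25) (nat_lit 5) (nat_lit 26) (nat_lit 5) (nat_lit 254) (nat_lit 238) (nat_lit 228))))) (XT.nd (nat_lit 234) (nat_lit 304) (nat_lit 0) (XT.nd (nat_lit 78) (nat_lit 228) (nat_lit 0) (XT.lf (nat_lit 0) (nat_lit 5050946519) (nat_lit 304) (nat_lit 2640733908) (nat_lit 76) (nat_lit 1028926089) (nat_lit 22) (nat_lit 5) (nat_lit 26) (nat_lit 5) (nat_lit 23) (nat_lit 4) (nat_lit 255) (nat_lit 238) (nat_lit 227))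 (XT.nd (nat_lit 78) (nat_lit 76) (nat_lit 0) (XT.lf (nat_lit 0) (nat_lit 1895584272) (nat_lit 152) (nat_lit 5687871793) (nat_lit 228) (nat_lit 1496483888) (nat_lit 20) (nat_lit 5) (nat_lit 22) (nat_lit 5) (nat_lit 23) (nat_lit 4) (nat_lit 256) (nat_lit 238) (nat_lit 226)) (XT.lf (nat_lit 0) (nat_lit 745312846) (nat_lit 228) (nat_lit 2710319585) (nat_lit 76) (nat_lit 6016747371) (nat_lit 19) (nat_lit 5) (nat_lit 22) (nat_lit 5) (nat_lit 20) (nat_lit 5) (nat_lit 257) (nat_lit 238) (nat_lit 225)))) (XT.nd (nat_lit 78) (nat_lit 152) (nat_lit 0) (XT.lf (nat_lit 0) (nat_lit 2026033565) (nat_lit 152) (nat_lit 981664111) (nat_lit 228) (nat_lit 6892548763) (nat_lit 17) (nat_lit 5) (nat_lit 19) (nat_lit 5) (nat_lit 20) (nat_lit 5) (nat_lit 258) (nat_lit 238) (nat_lit 224)) (XT.nd (nat_lit 78) (nat_lit 152) (nat_lit 0) (XT.lf (nat_lit 0) (nat_lit 5445997904) (nat_lit 228) (nat_lit 3267361103)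 (nat_lit 76) (nat_lit 1650230770) (nat_lit 17) (nat_lit 5) (nat_lit 20) (nat_lit 5) (nat_lit 18) (nat_lit 4) (nat_lit 259) (nat_lit 238) (nat_lit 223)) (XT.lf (nat_lit 0) (nat_lit 1611481991) (nat_lit 152) (nat_lit 6419397992) (nat_lit 228) (nat_lit 2837778188) (nat_lit 15) (nat_lit 5) (nat_lit 17) (nat_lit 5) (nat_lit 18) (nat_lit 4) (nat_lit 260) (nat_lit 238) (nat_lit 222)))))) (XT.nd (nat_lit 468) (nat_lit 304) (nat_lit 0) (XT.nd (nat_lit 234) (nat_lit 76) (nat_lit 0) (XT.nd (nat_lit 78) (nat_lit 228) (nat_lit 0) (XT.lf (nat_lit 0) (nat_lit 6918618142) (nat_lit 152) (nat_lit 3885329271) (nat_lit 228) (nat_lit 612394353) (nat_lit 15) (nat_lit 5) (nat_lit 17) (nat_lit 5) (nat_lit 18) (nat_lit 4) (nat_lit 261) (nat_lit 238) (nat_lit 221)) (XT.nd (nat_lit 78) (nat_lit 0) (nat_lit 0) (XT.lf (nat_lit 0) (nat_lit 480515349) (nat_lit 152) (nat_lit 1129291659) (nat_lit 228) (nat_lit 10402535050)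 (nat_lit 12) (nat_lit 5) (nat_lit 14) (nat_lit 5) (nat_lit 15) (nat_lit 5) (nat_lit 262) (nat_lit 238) (nat_lit 220)) (XT.lf (nat_lit 0) (nat_lit 4047439334) (nat_lit 228) (nat_lit 6743733146) (nat_lit 76) (nat_lit 1858490782) (nat_lit 12) (nat_lit 5) (nat_lit 15) (nat_lit 5) (nat_lit 13) (nat_lit 4) (nat_lit 263) (nat_lit 238) (nat_lit 219)))) (XT.nd (nat_lit 78) (nat_lit 76) (nat_lit 0) (XT.lf (nat_lit 0) (nat_lit 6616955463) (nat_lit 228) (nat_lit 1737873772) (nat_lit 76) (nat_lit 4988721257) (nat_lit 12) (nat_lit 5) (nat_lit 15) (nat_lit 5) (nat_lit 13) (nat_lit 4) (nat_lit 264) (nat_lit 238) (nat_lit 218)) (XT.nd (nat_lit 78) (nat_lit 0) (nat_lit 0) (XT.lf (nat_lit 0) (nat_lit 3729120990) (nat_lit 76) (nat_lit 5666987124) (nat_lit 152) (nat_lit 4697005479) (nat_lit 11) (nat_lit 5) (nat_lit 12) (nat_lit 5) (nat_lit 13) (nat_lit 4) (nat_lit 265) (nat_lit 238) (nat_lit 217)) (XT.lf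 (nat_lit 0) (nat_lit 9609617473) (nat_lit 76) (nat_lit 2753272583) (nat_lit 152) (nat_lit 2542982469) (nat_lit 11) (nat_lit 5) (nat_lit 12) (nat_lit 5) (nat_lit 13) (nat_lit 4) (nat_lit 266) (nat_lit 238) (nat_lit 216))))) (XT.nd (nat_lit 234) (nat_lit 76) (nat_lit 0) (XT.nd (nat_lit 78) (nat_lit 76) (nat_lit 0) (XT.lf (nat_lit 0) (nat_lit 50762307) (nat_lit 152) (nat_lit 15449907297) (nat_lit 152) (nat_lit 288711043) (nat_lit 9) (nat_lit 4) (nat_lit 11) (nat_lit 5) (nat_lit 11) (nat_lit 4) (nat_lit 267) (nat_lit 238) (nat_lit 215)) (XT.nd (nat_lit 78) (nat_lit 0) (nat_lit 0) (XT.lf (nat_lit 0) (nat_lit 2182224885) (nat_lit 228) (nat_lit 10852705278) (nat_lit 76) (nat_lit 3693377810) (nat_lit 8) (nat_lit 5) (nat_lit 11) (nat_lit 5) (nat_lit 9) (nat_lit 4) (nat_lit 268) (nat_lit 238) (nat_lit 214)) (XT.lf (nat_lit 0) (nat_lit 4764483772) (nat_lit 228) (nat_lit 5695066781) (nat_lit 76)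 (nat_lit 7288193443) (nat_lit 8) (nat_lit 5) (nat_lit 11) (nat_lit 5) (nat_lit 9) (nat_lit 4) (nat_lit 269) (nat_lit 238) (nat_lit 213)))) (XT.nd (nat_lit 78) (nat_lit 76) (nat_lit 0) (XT.lf (nat_lit 0) (nat_lit 7487810388) (nat_lit 228) (nat_lit 228195556) (nat_lit 76) (nat_lit 11138279352) (nat_lit 8) (nat_lit 5) (nat_lit 11) (nat_lit 5) (nat_lit 9) (nat_lit 4) (nat_lit 270) (nat_lit 238) (nat_lit 212)) (XT.nd (nat_lit 78) (nat_lit 0) (nat_lit 0) (XT.lf (nat_lit 0) (nat_lit 5874153624) (nat_lit 76) (nat_lit 4635462876) (nat_lit 152) (nat_lit 9533570774) (nat_lit 7) (nat_lit 5) (nat_lit 8) (nat_lit 5) (nat_lit 9) (nat_lit 4) (nat_lit 271) (nat_lit 238) (nat_lit 211)) (XT.lf (nat_lit 0) (nat_lit 12384371034) (nat_lit 76) (nat_lit 1336624711) (nat_lit 152) (nat_lit 7610644598) (nat_lit 7) (nat_lit 5) (nat_lit 8) (nat_lit 5) (nat_lit 9) (nat_lit 4) (nat_lit 272) (nat_lit 238) (nat_lit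 210))))))))
noncomputable def xc46 : XT := (XT.nd (nat_lit 1794) (nat_lit 0) (nat_lit 0) (XT.nd (nat_lit 858) (nat_lit 228) (nat_lit 0) (XT.nd (nat_lit 390) (nat_lit 76) (nat_lit 0) (XT.nd (nat_lit 156) (nat_lit 76) (nat_lit 0) (XT.nd (nat_lit 78) (nat_lit 76) (nat_lit 0) (XT.lf (nat_lit 0) (nat_lit 17187962791) (nat_lit 152) (nat_lit 3451483959) (nat_lit 0) (nat_lit 2084074290) (nat_lit 7) (nat_lit 5) (nat_lit 9) (nat_lit 4) (nat_lit 7) (nat_lit 4) (nat_lit 273) (nat_lit 238) (nat_lit 209)) (XT.lf (nat_lit 0) (nat_lit 2490320885) (nat_lit 76) (nat_lit 18485779088) (nat_lit 76) (nat_lit 3247374586) (nat_lit 6) (nat_lit 4) (nat_lit 7) (nat_lit 5) (nat_lit 7) (nat_lit 4) (nat_lit 274) (nat_lit 238) (nat_lit 208))) (XT.nd (nat_lit 78) (nat_lit 76) (nat_lit 0) (XT.lf (nat_lit 0) (nat_lit 9022371291) (nat_lit 76) (nat_lit 16090294862) (nat_lit 76) (nat_lit 727338508) (nat_lit 6) (nat_lit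 4) (nat_lit 7) (nat_lit 5) (nat_lit 7) (nat_lit 4) (nat_lit 275) (nat_lit 238) (nat_lit 207)) (XT.nd (nat_lit 78) (nat_lit 0) (nat_lit 0) (XT.lf (nat_lit 0) (nat_lit 1847811371) (nat_lit 152) (nat_lit 11634834490) (nat_lit 76) (nat_lit 14103292868) (nat_lit 5) (nat_lit 5) (nat_lit 7) (nat_lit 5) (nat_lit 6) (nat_lit 4) (nat_lit 276) (nat_lit 238) (nat_lit 206)) (XT.lf (nat_lit 0) (nat_lit 4546413164) (nat_lit 152) (nat_lit 6128525899) (nat_lit 76) (nat_lit 18798725436) (nat_lit 5) (nat_lit 5) (nat_lit 7) (nat_lit 5) (nat_lit 6) (nat_lit 4) (nat_lit 277) (nat_lit 238) (nat_lit 205))))) (XT.nd (nat_lit 234) (nat_lit 0) (nat_lit 0) (XT.nd (nat_lit 78) (nat_lit 76) (nat_lit 0) (XT.lf (nat_lit 0) (nat_lit 7420843002) (nat_lit 152) (nat_lit 248585112) (nat_lit 76) (nat_lit 23846339780) (nat_lit 5) (nat_lit 5) (nat_lit 7) (nat_lit 5) (nat_lit 6) (nat_lit 4) (nat_lit 278) (nat_lit 238) (nat_lit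 204)) (XT.nd (nat_lit 78) (nat_lit 0) (nat_lit 0) (XT.lf (nat_lit 0) (nat_lit 6357878811) (nat_lit 76) (nat_lit 4283162871) (nat_lit 152) (nat_lit 23071076016) (nat_lit 4) (nat_lit 5) (nat_lit 5) (nat_lit 5) (nat_lit 6) (nat_lit 4) (nat_lit 279) (nat_lit 238) (nat_lit 203)) (XT.lf (nat_lit 0) (nat_lit 13446645699) (nat_lit 76) (nat_lit 643210783) (nat_lit 152) (nat_lit 21996771662) (nat_lit 4) (nat_lit 5) (nat_lit 5) (nat_lit 5) (nat_lit 6) (nat_lit 4) (nat_lit 280) (nat_lit 238) (nat_lit 202)))) (XT.nd (nat_lit 78) (nat_lit 0) (nat_lit 0) (XT.lf (nat_lit 0) (nat_lit 17859959707) (nat_lit 152) (nat_lit 17685769040) (nat_lit 0) (nat_lit 3101862873) (nat_lit 4) (nat_lit 5) (nat_lit 6) (nat_lit 4) (nat_lit 4) (nat_lit 4) (nat_lit 281) (nat_lit 238) (nat_lit 201)) (XT.nd (nat_lit 78) (nat_lit 0) (nat_lit 0) (XT.lf (nat_lit 0) (nat_lit 21917181910) (nat_lit 152) (nat_lit 12405729569) (nat_lit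 0) (nat_lit 7091793586) (nat_lit 4) (nat_lit 5) (nat_lit 6) (nat_lit 4) (nat_lit 4) (nat_lit 4) (nat_lit 282) (nat_lit 238) (nat_lit 200)) (XT.lf (nat_lit 0) (nat_lit 26270096655) (nat_lit 152) (nat_lit 6753105678) (nat_lit 0) (nat_lit 11382401396) (nat_lit 4) (nat_lit 5) (nat_lit 6) (nat_lit 4) (nat_lit 4) (nat_lit 4) (nat_lit 283) (nat_lit 238) (nat_lit 199)))))) (XT.nd (nat_lit 468) (nat_lit 152) (nat_lit 0) (XT.nd (nat_lit 234) (nat_lit 0) (nat_lit 0) (XT.nd (nat_lit 78) (nat_lit 76) (nat_lit 0) (XT.lf (nat_lit 0) (nat_lit 30944498994) (nat_lit 152) (nat_lit 694400336) (nat_lit 0) (nat_lit 15999112127) (nat_lit 4) (nat_lit 5) (nat_lit 6) (nat_lit 4) (nat_lit 4) (nat_lit 4) (nat_lit 284) (nat_lit 238) (nat_lit 198)) (XT.nd (nat_lit 78) (nat_lit 0) (nat_lit 0) (XT.lf (nat_lit 0) (nat_lit 6112038833) (nat_lit 76) (nat_lit 30003044934) (nat_lit 76) (nat_lit 15004239913) (nat_lit 3)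 (nat_lit 4) (nat_lit 4) (nat_lit 5) (nat_lit 4) (nat_lit 4) (nat_lit 285) (nat_lit 238) (nat_lit 197)) (XT.lf (nat_lit 0) (nat_lit 13460854066) (nat_lit 76) (nat_lit 28233516155) (nat_lit 76) (nat_lit 13185249879) (nat_lit 3) (nat_lit 4) (nat_lit 4) (nat_lit 5) (nat_lit 4) (nat_lit 4) (nat_lit 286) (nat_lit 238) (nat_lit 196)))) (XT.nd (nat_lit 78) (nat_lit 0) (nat_lit 0) (XT.lf (nat_lit 0) (nat_lit 21359028007) (nat_lit 76) (nat_lit 26338813030) (nat_lit 76) (nat_lit 11244749297) (nat_lit 3) (nat_lit 4) (nat_lit 4) (nat_lit 5) (nat_lit 4) (nat_lit 4) (nat_lit 287) (nat_lit 238) (nat_lit 195)) (XT.nd (nat_lit 78) (nat_lit 0) (nat_lit 0) (XT.lf (nat_lit 0) (nat_lit 29853364650) (nat_lit 76) (nat_lit 24307707691) (nat_lit 76) (nat_lit 9171238904) (nat_lit 3) (nat_lit 4) (nat_lit 4) (nat_lit 5) (nat_lit 4) (nat_lit 4) (nat_lit 288) (nat_lit 238) (nat_lit 194)) (XT.lf (nat_lit 0) (nat_lit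 38994200803) (nat_lit 76) (nat_lit 22128163956) (nat_lit 76) (nat_lit 6952431231) (nat_lit 3) (nat_lit 4) (nat_lit 4) (nat_lit 5) (nat_lit 4) (nat_lit 4) (nat_lit 289) (nat_lit 238) (nat_lit 193))))) (XT.nd (nat_lit 234) (nat_lit 76) (nat_lit 0) (XT.nd (nat_lit 78) (nat_lit 76) (nat_lit 0) (XT.lf (nat_lit 0) (nat_lit 48835704385) (nat_lit 76) (nat_lit 19787266012) (nat_lit 76) (nat_lit 4575177789) (nat_lit 3) (nat_lit 4) (nat_lit 4) (nat_lit 5) (nat_lit 4) (nat_lit 4) (nat_lit 290) (nat_lit 238) (nat_lit 192)) (XT.nd (nat_lit 78) (nat_lit 76) (nat_lit 0) (XT.lf (nat_lit 0) (nat_lit 59436195417) (nat_lit 76) (nat_lit 17271141870) (nat_lit 76) (nat_lit 2025391149) (nat_lit 3) (nat_lit 4) (nat_lit 4) (nat_lit 5) (nat_lit 4) (nat_lit 4) (nat_lit 291) (nat_lit 238) (nat_lit 191)) (XT.lf (nat_lit 0) (nat_lit 676419484) (nat_lit 152) (nat_lit 13869967174) (nat_lit 76) (nat_lit 70163577632)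 (nat_lit 2) (nat_lit 5) (nat_lit 4) (nat_lit 5) (nat_lit 3) (nat_lit 4) (nat_lit 292) (nat_lit 238) (nat_lit 190)))) (XT.nd (nat_lit 78) (nat_lit 76) (nat_lit 0) (XT.lf (nat_lit 0) (nat_lit 3470578553) (nat_lit 152) (nat_lit 8086976476) (nat_lit 76) (nat_lit 79604810365) (nat_lit 2) (nat_lit 5) (nat_lit 4) (nat_lit 5) (nat_lit 3) (nat_lit 4) (nat_lit 293) (nat_lit 238) (nat_lit 189)) (XT.nd (nat_lit 78) (nat_lit 76) (nat_lit 0) (XT.lf (nat_lit 0) (nat_lit 6474962307) (nat_lit 152) (nat_lit 1864580645) (nat_lit 76) (nat_lit 89792522104) (nat_lit 2) (nat_lit 5) (nat_lit 4) (nat_lit 5) (nat_lit 3) (nat_lit 4) (nat_lit 294) (nat_lit 238) (nat_lit 188)) (XT.lf (nat_lit 0) (nat_lit 5088648587) (nat_lit 76) (nat_lit 4741108034) (nat_lit 152) (nat_lit 95820818008) (nat_lit 1) (nat_lit 5) (nat_lit 2) (nat_lit 5) (nat_lit 3) (nat_lit 4) (nat_lit 295) (nat_lit 238) (nat_lit 187))))))) (XT.nd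 (nat_lit 858) (nat_lit 0) (nat_lit 0) (XT.nd (nat_lit 390) (nat_lit 0) (nat_lit 0) (XT.nd (nat_lit 156) (nat_lit 0) (nat_lit 0) (XT.nd (nat_lit 78) (nat_lit 0) (nat_lit 0) (XT.lf (nat_lit 0) (nat_lit 12683208070) (nat_lit 76) (nat_lit 808793558) (nat_lit 152) (nat_lit 100275473828) (nat_lit 1) (nat_lit 5) (nat_lit 2) (nat_lit 5) (nat_lit 3) (nat_lit 4) (nat_lit 296) (nat_lit 238) (nat_lit 186)) (XT.lf (nat_lit 0) (nat_lit 17518679846) (nat_lit 152) (nat_lit 101751211867) (nat_lit 0) (nat_lit 3258153548) (nat_lit 1) (nat_lit 5) (nat_lit 3) (nat_lit 4) (nat_lit 1) (nat_lit 4) (nat_lit 297) (nat_lit 238) (nat_lit 185))) (XT.nd (nat_lit 78) (nat_lit 0) (nat_lit 0) (XT.lf (nat_lit 0) (nat_lit 21878099093) (nat_lit 152) (nat_lit 102511157768) (nat_lit 0) (nat_lit 7599385994) (nat_lit 1) (nat_lit 5) (nat_lit 3) (nat_lit 4) (nat_lit 1) (nat_lit 4) (nat_lit 298) (nat_lit 238) (nat_lit 184))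 (XT.nd (nat_lit 78) (nat_lit 0) (nat_lit 0) (XT.lf (nat_lit 0) (nat_lit 26576641458) (nat_lit 152) (nat_lit 103349156967) (nat_lit 0) (nat_lit 12281088729) (nat_lit 1) (nat_lit 5) (nat_lit 3) (nat_lit 4) (nat_lit 1) (nat_lit 4) (nat_lit 299) (nat_lit 238) (nat_lit 183)) (XT.lf (nat_lit 0) (nat_lit 31642150155) (nat_lit 152) (nat_lit 104270175386) (nat_lit 0) (nat_lit 17331005177) (nat_lit 1) (nat_lit 5) (nat_lit 3) (nat_lit 4) (nat_lit 1) (nat_lit 4) (nat_lit 300) (nat_lit 238) (nat_lit 182))))) (XT.nd (nat_lit 234) (nat_lit 0) (nat_lit 0) (XT.nd (nat_lit 78) (nat_lit 0) (nat_lit 0) (XT.lf (nat_lit 0) (nat_lit 37104643016) (nat_lit 152) (nat_lit 105279670912) (nat_lit 0) (nat_lit 22779060768) (nat_lit 1) (nat_lit 5) (nat_lit 3) (nat_lit 4) (nat_lit 1) (nat_lit 4) (nat_lit 301) (nat_lit 238) (nat_lit 181)) (XT.nd (nat_lit 78) (nat_lit 0) (nat_lit 0) (XT.lf (nat_lit 0) (nat_lit 42996490366)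 (nat_lit 152) (nat_lit 106383625741) (nat_lit 0) (nat_lit 28657540277) (nat_lit 1) (nat_lit 5) (nat_lit 3) (nat_lit 4) (nat_lit 1) (nat_lit 4) (nat_lit 302) (nat_lit 238) (nat_lit 180)) (XT.lf (nat_lit 0) (nat_lit 49352606858) (nat_lit 152) (nat_lit 107588581827) (nat_lit 0) (nat_lit 35001279138) (nat_lit 1) (nat_lit 5) (nat_lit 3) (nat_lit 4) (nat_lit 1) (nat_lit 4) (nat_lit 303) (nat_lit 238) (nat_lit 179)))) (XT.nd (nat_lit 78) (nat_lit 0) (nat_lit 0) (XT.lf (nat_lit 0) (nat_lit 56210658367) (nat_lit 152) (nat_lit 108901679650) (nat_lit 0) (nat_lit 41847869878) (nat_lit 1) (nat_lit 5) (nat_lit 3) (nat_lit 4) (nat_lit 1) (nat_lit 4) (nat_lit 304) (nat_lit 238) (nat_lit 178)) (XT.nd (nat_lit 78) (nat_lit 0) (nat_lit 0) (XT.lf (nat_lit 0) (nat_lit 63611285197) (nat_lit 152) (nat_lit 110330700532) (nat_lit 0) (nat_lit 49237884885) (nat_lit 1) (nat_lit 5) (nat_lit 3) (nat_lit 4) (nat_lit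 1) (nat_lit 4) (nat_lit 305) (nat_lit 238) (nat_lit 177)) (XT.lf (nat_lit 0) (nat_lit 71598342916) (nat_lit 152) (nat_lit 111884112743) (nat_lit 0) (nat_lit 57215116841) (nat_lit 1) (nat_lit 5) (nat_lit 3) (nat_lit 4) (nat_lit 1) (nat_lit 4) (nat_lit 306) (nat_lit 238) (nat_lit 176)))))) (XT.nd (nat_lit 468) (nat_lit 0) (nat_lit 0) (XT.nd (nat_lit 234) (nat_lit 0) (nat_lit 0) (XT.nd (nat_lit 78) (nat_lit 0) (nat_lit 0) (XT.lf (nat_lit 0) (nat_lit 80219162236) (nat_lit 152) (nat_lit 113571121690) (nat_lit 0) (nat_lit 65826838233) (nat_lit 1) (nat_lit 5) (nat_lit 3) (nat_lit 4) (nat_lit 1) (nat_lit 4) (nat_lit 307) (nat_lit 238) (nat_lit 175)) (XT.nd (nat_lit 78) (nat_lit 0) (nat_lit 0) (XT.lf (nat_lit 0) (nat_lit 89524829493) (nat_lit 152) (nat_lit 115401724463) (nat_lit 0) (nat_lit 75124081483) (nat_lit 1) (nat_lit 5) (nat_lit 3) (nat_lit 4) (nat_lit 1) (nat_lit 4) (nat_lit 308) (nat_lit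 238) (nat_lit 174)) (XT.lf (nat_lit 0) (nat_lit 99570489383) (nat_lit 152) (nat_lit 117386769077) (nat_lit 0) (nat_lit 85161941365) (nat_lit 1) (nat_lit 5) (nat_lit 3) (nat_lit 4) (nat_lit 1) (nat_lit 4) (nat_lit 309) (nat_lit 238) (nat_lit 173)))) (XT.nd (nat_lit 78) (nat_lit 0) (nat_lit 0) (XT.lf (nat_lit 0) (nat_lit 110415671742) (nat_lit 152) (nat_lit 119538018761) (nat_lit 0) (nat_lit 95999901495) (nat_lit 1) (nat_lit 5) (nat_lit 3) (nat_lit 4) (nat_lit 1) (nat_lit 4) (nat_lit 310) (nat_lit 238) (nat_lit 172)) (XT.nd (nat_lit 78) (nat_lit 0) (nat_lit 0) (XT.lf (nat_lit 0) (nat_lit 122124644316) (nat_lit 152) (nat_lit 121868221661) (nat_lit 0) (nat_lit 107702186821) (nat_lit 1) (nat_lit 5) (nat_lit 3) (nat_lit 4) (nat_lit 1) (nat_lit 4) (nat_lit 311) (nat_lit 238) (nat_lit 171)) (XT.lf (nat_lit 0) (nat_lit 134766793611) (nat_lit 152) (nat_lit 124391186387) (nat_lit 0) (nat_lit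 120338144219) (nat_lit 1) (nat_lit 5) (nat_lit 3) (nat_lit 4) (nat_lit 1) (nat_lit 4) (nat_lit 312) (nat_lit 238) (nat_lit 170))))) (XT.nd (nat_lit 234) (nat_lit 0) (nat_lit 0) (XT.nd (nat_lit 78) (nat_lit 0) (nat_lit 0) (XT.lf (nat_lit 0) (nat_lit 148417036067) (nat_lit 152) (nat_lit 127121863840) (nat_lit 0) (nat_lit 133982653436) (nat_lit 1) (nat_lit 5) (nat_lit 3) (nat_lit 4) (nat_lit 1) (nat_lit 4) (nat_lit 313) (nat_lit 238) (nat_lit 169)) (XT.nd (nat_lit 78) (nat_lit 0) (nat_lit 0) (XT.lf (nat_lit 0) (nat_lit 163156262008) (nat_lit 152) (nat_lit 130076435813) (nat_lit 0) (nat_lit 148716570824) (nat_lit 1) (nat_lit 5) (nat_lit 3) (nat_lit 4) (nat_lit 1) (nat_lit 4) (nat_lit 314) (nat_lit 238) (nat_lit 168)) (XT.lf (nat_lit 0) (nat_lit 179071814997) (nat_lit 152) (nat_lit 133272410880) (nat_lit 0) (nat_lit 164627208486) (nat_lit 1) (nat_lit 5) (nat_lit 3) (nat_lit 4) (nat_lit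 1) (nat_lit 4) (nat_lit 315) (nat_lit 238) (nat_lit 167)))) (XT.nd (nat_lit 78) (nat_lit 0) (nat_lit 0) (XT.lf (nat_lit 0) (nat_lit 196258009421) (nat_lit 152) (nat_lit 136728728154) (nat_lit 0) (nat_lit 181808851681) (nat_lit 1) (nat_lit 5) (nat_lit 3) (nat_lit 4) (nat_lit 1) (nat_lit 4) (nat_lit 316) (nat_lit 238) (nat_lit 166)) (XT.nd (nat_lit 78) (nat_lit 0) (nat_lit 0) (XT.lf (nat_lit 0) (nat_lit 214816689396) (nat_lit 152) (nat_lit 140465869513) (nat_lit 0) (nat_lit 200363317554) (nat_lit 1) (nat_lit 5) (nat_lit 3) (nat_lit 4) (nat_lit 1) (nat_lit 4) (nat_lit 317) (nat_lit 238) (nat_lit 165)) (XT.lf (nat_lit 0) (nat_lit 234857832284) (nat_lit 152) (nat_lit 144505980982) (nat_lit 0) (nat_lit 220400558497) (nat_lit 1) (nat_lit 5) (nat_lit 3) (nat_lit 4) (nat_lit 1) (nat_lit 4) (nat_lit 318) (nat_lit 238) (nat_lit 164))))))))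
noncomputable def xc47 : XT := (XT.nd (nat_lit 32058) (nat_lit 0) (nat_lit 456) (XT.nd (nat_lit 858) (nat_lit 0) (nat_lit 0) (XT.nd (nat_lit 390) (nat_lit 0) (nat_lit 0) (XT.nd (nat_lit 156) (nat_lit 0) (nat_lit 0) (XT.nd (nat_lit 78) (nat_lit 0) (nat_lit 0) (XT.lf (nat_lit 0) (nat_lit 256500200414) (nat_lit 152) (nat_lit 148873003961) (nat_lit 0) (nat_lit 242039313714) (nat_lit 1) (nat_lit 5) (nat_lit 3) (nat_lit 4) (nat_lit 1) (nat_lit 4) (nat_lit 319) (nat_lit 238) (nat_lit 163)) (XT.lf (nat_lit 0) (nat_lit 279872044855) (nat_lit 152) (nat_lit 153592817106) (nat_lit 0) (nat_lit 265407812866) (nat_lit 1) (nat_lit 5) (nat_lit 3) (nat_lit 4) (nat_lit 1) (nat_lit 4) (nat_lit 320) (nat_lit 238) (nat_lit 162))) (XT.nd (nat_lit 78) (nat_lit 0) (nat_lit 0) (XT.lf (nat_lit 0) (nat_lit 305111865427) (nat_lit 152) (nat_lit 158693389678) (nat_lit 0) (nat_lit 290644535948) (nat_lit 1) (nat_lit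 5) (nat_lit 3) (nat_lit 4) (nat_lit 1) (nat_lit 4) (nat_lit 321) (nat_lit 238) (nat_lit 161)) (XT.nd (nat_lit 78) (nat_lit 0) (nat_lit 0) (XT.lf (nat_lit 0) (nat_lit 332369231438) (nat_lit 152) (nat_lit 164204947294) (nat_lit 0) (nat_lit 317899033912) (nat_lit 1) (nat_lit 5) (nat_lit 3) (nat_lit 4) (nat_lit 1) (nat_lit 4) (nat_lit 322) (nat_lit 238) (nat_lit 160)) (XT.lf (nat_lit 0) (nat_lit 361805668018) (nat_lit 152) (nat_lit 170160151035) (nat_lit 0) (nat_lit 347332814894) (nat_lit 1) (nat_lit 5) (nat_lit 3) (nat_lit 4) (nat_lit 1) (nat_lit 4) (nat_lit 323) (nat_lit 238) (nat_lit 159))))) (XT.nd (nat_lit 234) (nat_lit 0) (nat_lit 0) (XT.nd (nat_lit 78) (nat_lit 0) (nat_lit 0) (XT.lf (nat_lit 0) (nat_lit 393595613310) (nat_lit 152) (nat_lit 176594290998) (nat_lit 0) (nat_lit 379120301299) (nat_lit 1) (nat_lit 5) (nat_lit 3) (nat_lit 4) (nat_lit 1) (nat_lit 4) (nat_lit 324) (nat_lit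 238) (nat_lit 158)) (XT.nd (nat_lit 78) (nat_lit 0) (nat_lit 0) (XT.lf (nat_lit 0) (nat_lit 427927452177) (nat_lit 152) (nat_lit 183545495420) (nat_lit 0) (nat_lit 413449863417) (nat_lit 1) (nat_lit 5) (nat_lit 3) (nat_lit 4) (nat_lit 1) (nat_lit 4) (nat_lit 325) (nat_lit 238) (nat_lit 157)) (XT.lf (nat_lit 0) (nat_lit 465004632550) (nat_lit 152) (nat_lit 191054956623) (nat_lit 0) (nat_lit 450524935692) (nat_lit 1) (nat_lit 5) (nat_lit 3) (nat_lit 4) (nat_lit 1) (nat_lit 4) (nat_lit 326) (nat_lit 238) (nat_lit 156)))) (XT.nd (nat_lit 78) (nat_lit 0) (nat_lit 0) (XT.lf (nat_lit 0) (nat_lit 505046871056) (nat_lit 152) (nat_lit 199167175118) (nat_lit 0) (nat_lit 490565222253) (nat_lit 1) (nat_lit 5) (nat_lit 3) (nat_lit 4) (nat_lit 1) (nat_lit 4) (nat_lit 327) (nat_lit 238) (nat_lit 155)) (XT.nd (nat_lit 78) (nat_lit 0) (nat_lit 0) (XT.lf (nat_lit 0) (nat_lit 548291455033) (nat_lit 152)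 (nat_lit 207930223310) (nat_lit 0) (nat_lit 533807998874) (nat_lit 1) (nat_lit 5) (nat_lit 3) (nat_lit 4) (nat_lit 1) (nat_lit 4) (nat_lit 328) (nat_lit 238) (nat_lit 154)) (XT.lf (nat_lit 0) (nat_lit 594994648683) (nat_lit 152) (nat_lit 217396030375) (nat_lit 0) (nat_lit 580509519047) (nat_lit 1) (nat_lit 5) (nat_lit 3) (nat_lit 4) (nat_lit 1) (nat_lit 4) (nat_lit 329) (nat_lit 238) (nat_lit 153)))))) (XT.nd (nat_lit 30732) (nat_lit 0) (nat_lit 3116) (XT.nd (nat_lit 234) (nat_lit 0) (nat_lit 0) (XT.nd (nat_lit 78) (nat_lit 0) (nat_lit 0) (XT.lf (nat_lit 0) (nat_lit 645433211671) (nat_lit 152) (nat_lit 227620689984) (nat_lit 0) (nat_lit 630946532519) (nat_lit 1) (nat_lit 5) (nat_lit 3) (nat_lit 4) (nat_lit 1) (nat_lit 4) (nat_lit 330) (nat_lit 238) (nat_lit 152)) (XT.nd (nat_lit 78) (nat_lit 0) (nat_lit 0) (XT.lf (nat_lit 0) (nat_lit 699906039186) (nat_lit 152) (nat_lit 238664792712)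 (nat_lit 0) (nat_lit 685417925297) (nat_lit 1) (nat_lit 5) (nat_lit 3) (nat_lit 4) (nat_lit 1) (nat_lit 4) (nat_lit 331) (nat_lit 238) (nat_lit 151)) (XT.lf (nat_lit 0) (nat_lit 758735933169) (nat_lit 152) (nat_lit 250593785094) (nat_lit 0) (nat_lit 744246490819) (nat_lit 1) (nat_lit 5) (nat_lit 3) (nat_lit 4) (nat_lit 1) (nat_lit 4) (nat_lit 332) (nat_lit 238) (nat_lit 150)))) (XT.nd (nat_lit 78) (nat_lit 0) (nat_lit 0) (XT.lf (nat_lit 0) (nat_lit 822271515214) (nat_lit 152) (nat_lit 263478357455) (nat_lit 0) (nat_lit 807780842808) (nat_lit 1) (nat_lit 5) (nat_lit 3) (nat_lit 4) (nat_lit 1) (nat_lit 4) (nat_lit 333) (nat_lit 238) (nat_lit 149)) (XT.nd (nat_lit 30342) (nat_lit 0) (nat_lit 3724) (XT.lf (nat_lit 0) (nat_lit 890889292473) (nat_lit 152) (nat_lit 277394862817) (nat_lit 0) (nat_lit 876397481126) (nat_lit 1) (nat_lit 5) (nat_lit 3) (nat_lit 4) (nat_lit 1) (nat_lit 4) (nat_lit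 334) (nat_lit 238) (nat_lit 148)) (XT.lf (nat_lit 0) (nat_lit 1426007232) (nat_lit 76) (nat_lit 383175174) (nat_lit 0) (nat_lit 1426007232) (nat_lit 50) (nat_lit 5) (nat_lit 51) (nat_lit 0) (nat_lit 50) (nat_lit 4) (nat_lit 242) (nat_lit 239) (nat_lit 239))))) (XT.nd (nat_lit 234) (nat_lit 304) (nat_lit 0) (XT.nd (nat_lit 78) (nat_lit 228) (nat_lit 0) (XT.lf (nat_lit 0) (nat_lit 2329877261) (nat_lit 76) (nat_lit 3251474682) (nat_lit 76) (nat_lit 931662099) (nat_lit 49) (nat_lit 4) (nat_lit 50) (nat_lit 5) (nat_lit 50) (nat_lit 4) (nat_lit 243) (nat_lit 239) (nat_lit 238)) (XT.nd (nat_lit 78) (nat_lit 152) (nat_lit 0) (XT.lf (nat_lit 0) (nat_lit 1637981628) (nat_lit 152) (nat_lit 1060785408) (nat_lit 76) (nat_lit 3878540233) (nat_lit 48) (nat_lit 5) (nat_lit 50) (nat_lit 5) (nat_lit 49) (nat_lit 4) (nat_lit 244) (nat_lit 239) (nat_lit 237)) (XT.lf (nat_lit 0) (nat_lit 2239102982) (nat_lit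 152) (nat_lit 1941548729) (nat_lit 228) (nat_lit 2481846183) (nat_lit 46) (nat_lit 5) (nat_lit 48) (nat_lit 5) (nat_lit 49) (nat_lit 4) (nat_lit 245) (nat_lit 239) (nat_lit 236)))) (XT.nd (nat_lit 78) (nat_lit 304) (nat_lit 0) (XT.lf (nat_lit 0) (nat_lit 5707301354) (nat_lit 152) (nat_lit 1026110162) (nat_lit 228) (nat_lit 39440541) (nat_lit 46) (nat_lit 5) (nat_lit 48) (nat_lit 5) (nat_lit 49) (nat_lit 4) (nat_lit 246) (nat_lit 239) (nat_lit 235)) (XT.nd (nat_lit 78) (nat_lit 0) (nat_lit 0) (XT.lf (nat_lit 0) (nat_lit 2317480719) (nat_lit 304) (nat_lit 4441979086) (nat_lit 76) (nat_lit 142118392) (nat_lit 42) (nat_lit 5) (nat_lit 46) (nat_lit 5) (nat_lit 43) (nat_lit 4) (nat_lit 247) (nat_lit 239) (nat_lit 234)) (XT.lf (nat_lit 0) (nat_lit 4716892348) (nat_lit 304) (nat_lit 913078328) (nat_lit 76) (nat_lit 1424352523) (nat_lit 42) (nat_lit 5) (nat_lit 46) (nat_lit 5) (nat_lit 43)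 (nat_lit 4) (nat_lit 248) (nat_lit 239) (nat_lit 233))))))) (XT.nd (nat_lit 858) (nat_lit 760) (nat_lit 0) (XT.nd (nat_lit 390) (nat_lit 608) (nat_lit 0) (XT.nd (nat_lit 156) (nat_lit 912) (nat_lit 0) (XT.nd (nat_lit 78) (nat_lit 76) (nat_lit 0) (XT.lf (nat_lit 0) (nat_lit 2881410439) (nat_lit 304) (nat_lit 4310518989) (nat_lit 380) (nat_lit 38783203) (nat_lit 38) (nat_lit 5) (nat_lit 42) (nat_lit 5) (nat_lit 43) (nat_lit 4) (nat_lit 249) (nat_lit 239) (nat_lit 232)) (XT.lf (nat_lit 0) (nat_lit 2165051224) (nat_lit 380) (nat_lit 615446308) (nat_lit 76) (nat_lit 4650346956) (nat_lit 37) (nat_lit 5) (nat_lit 42) (nat_lit 5) (nat_lit 38) (nat_lit 5) (nat_lit 250) (nat_lit 239) (nat_lit 231))) (XT.nd (nat_lit 78) (nat_lit 532) (nat_lit 0) (XT.lf (nat_lit 0) (nat_lit 3432059790) (nat_lit 380) (nat_lit 1024993181) (nat_lit 456) (nat_lit 3198418703) (nat_lit 32) (nat_lit 5) (nat_lit 37) (nat_lit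 5) (nat_lit 38) (nat_lit 5) (nat_lit 251) (nat_lit 239) (nat_lit 230)) (XT.nd (nat_lit 78) (nat_lit 532) (nat_lit 0) (XT.lf (nat_lit 0) (nat_lit 6811068934) (nat_lit 456) (nat_lit 246061116) (nat_lit 76) (nat_lit 852203918) (nat_lit 32) (nat_lit 5) (nat_lit 38) (nat_lit 5) (nat_lit 33) (nat_lit 4) (nat_lit 252) (nat_lit 239) (nat_lit 229)) (XT.lf (nat_lit 0) (nat_lit 1086237237) (nat_lit 532) (nat_lit 4141720895) (nat_lit 76) (nat_lit 2956642559) (nat_lit 25) (nat_lit 5) (nat_lit 32) (nat_lit 5) (nat_lit 26) (nat_lit 5) (nat_lit 253) (nat_lit 239) (nat_lit 228))))) (XT.nd (nat_lit 234) (nat_lit 228) (nat_lit 0) (XT.nd (nat_lit 78) (nat_lit 152) (nat_lit 0) (XT.lf (nat_lit 0) (nat_lit 20933568) (nat_lit 228) (nat_lit 3227317834) (nat_lit 304) (nat_lit 5243624519) (nat_lit 22) (nat_lit 5) (nat_lit 25) (nat_lit 5) (nat_lit 26) (nat_lit 5) (nat_lit 254) (nat_lit 239) (nat_lit 227)) (XT.nd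 (nat_lit 78) (nat_lit 152) (nat_lit 0) (XT.lf (nat_lit 0) (nat_lit 4597177168) (nat_lit 228) (nat_lit 961009576) (nat_lit 304) (nat_lit 3268694253) (nat_lit 22) (nat_lit 5) (nat_lit 25) (nat_lit 5) (nat_lit 26) (nat_lit 5) (nat_lit 255) (nat_lit 239) (nat_lit 226)) (XT.lf (nat_lit 0) (nat_lit 169122139) (nat_lit 152) (nat_lit 7795204631) (nat_lit 228) (nat_lit 1232506764) (nat_lit 20) (nat_lit 5) (nat_lit 22) (nat_lit 5) (nat_lit 23) (nat_lit 4) (nat_lit 256) (nat_lit 239) (nat_lit 225)))) (XT.nd (nat_lit 78) (nat_lit 152) (nat_lit 0) (XT.lf (nat_lit 0) (nat_lit 935203612) (nat_lit 228) (nat_lit 4636027093) (nat_lit 76) (nat_lit 4022842128) (nat_lit 19) (nat_lit 5) (nat_lit 22) (nat_lit 5) (nat_lit 20) (nat_lit 5) (nat_lit 257) (nat_lit 239) (nat_lit 224)) (XT.nd (nat_lit 78) (nat_lit 152) (nat_lit 0) (XT.lf (nat_lit 0) (nat_lit 3092490848) (nat_lit 228) (nat_lit 71397622) (nat_lit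 76) (nat_lit 6866863297) (nat_lit 19) (nat_lit 5) (nat_lit 22) (nat_lit 5) (nat_lit 20) (nat_lit 5) (nat_lit 258) (nat_lit 239) (nat_lit 223)) (XT.lf (nat_lit 0) (nat_lit 4971566374) (nat_lit 152) (nat_lit 461793764) (nat_lit 228) (nat_lit 5068903968) (nat_lit 17) (nat_lit 5) (nat_lit 19) (nat_lit 5) (nat_lit 20) (nat_lit 5) (nat_lit 259) (nat_lit 239) (nat_lit 222)))))) (XT.nd (nat_lit 468) (nat_lit 304) (nat_lit 0) (XT.nd (nat_lit 234) (nat_lit 228) (nat_lit 0) (XT.nd (nat_lit 78) (nat_lit 228) (nat_lit 0) (XT.lf (nat_lit 0) (nat_lit 7918194649) (nat_lit 228) (nat_lit 788879107) (nat_lit 76) (nat_lit 2308609334) (nat_lit 17) (nat_lit 5) (nat_lit 20) (nat_lit 5) (nat_lit 18) (nat_lit 4) (nat_lit 260) (nat_lit 239) (nat_lit 221)) (XT.nd (nat_lit 78) (nat_lit 76) (nat_lit 0) (XT.lf (nat_lit 0) (nat_lit 4410907614) (nat_lit 152) (nat_lit 6212332336) (nat_lit 228) (nat_lit 945889603)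 (nat_lit 15) (nat_lit 5) (nat_lit 17) (nat_lit 5) (nat_lit 18) (nat_lit 4) (nat_lit 261) (nat_lit 239) (nat_lit 220)) (XT.lf (nat_lit 0) (nat_lit 1235508871) (nat_lit 228) (nat_lit 2259627316) (nat_lit 76) (nat_lit 8675509446) (nat_lit 14) (nat_lit 5) (nat_lit 17) (nat_lit 5) (nat_lit 15) (nat_lit 5) (nat_lit 262) (nat_lit 239) (nat_lit 219)))) (XT.nd (nat_lit 78) (nat_lit 76) (nat_lit 0) (XT.lf (nat_lit 0) (nat_lit 3035597141) (nat_lit 152) (nat_lit 489269298) (nat_lit 228) (nat_lit 9295217276) (nat_lit 12) (nat_lit 5) (nat_lit 14) (nat_lit 5) (nat_lit 15) (nat_lit 5) (nat_lit 263) (nat_lit 239) (nat_lit 218)) (XT.nd (nat_lit 78) (nat_lit 76) (nat_lit 0) (XT.lf (nat_lit 0) (nat_lit 6041456872) (nat_lit 228) (nat_lit 4827379058) (nat_lit 76) (nat_lit 2649605085) (nat_lit 12) (nat_lit 5) (nat_lit 15) (nat_lit 5) (nat_lit 13) (nat_lit 4) (nat_lit 264) (nat_lit 239) (nat_lit 217)) (XT.lf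 (nat_lit 0) (nat_lit 417941157) (nat_lit 76) (nat_lit 8284924451) (nat_lit 152) (nat_lit 5574776555) (nat_lit 11) (nat_lit 5) (nat_lit 12) (nat_lit 5) (nat_lit 13) (nat_lit 4) (nat_lit 265) (nat_lit 239) (nat_lit 216))))) (XT.nd (nat_lit 234) (nat_lit 76) (nat_lit 0) (XT.nd (nat_lit 78) (nat_lit 228) (nat_lit 0) (XT.lf (nat_lit 0) (nat_lit 6243820349) (nat_lit 76) (nat_lit 5389226654) (nat_lit 152) (nat_lit 3460484482) (nat_lit 11) (nat_lit 5) (nat_lit 12) (nat_lit 5) (nat_lit 13) (nat_lit 4) (nat_lit 266) (nat_lit 239) (nat_lit 215)) (XT.nd (nat_lit 78) (nat_lit 228) (nat_lit 0) (XT.lf (nat_lit 0) (nat_lit 12430581018) (nat_lit 76) (nat_lit 2296571945) (nat_lit 152) (nat_lit 1253567886) (nat_lit 11) (nat_lit 5) (nat_lit 12) (nat_lit 5) (nat_lit 13) (nat_lit 4) (nat_lit 267) (nat_lit 239) (nat_lit 214)) (XT.lf (nat_lit 0) (nat_lit 1084173698) (nat_lit 228) (nat_lit 14811987164) (nat_lit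 76) (nat_lit 1040021160) (nat_lit 8) (nat_lit 5) (nat_lit 11) (nat_lit 5) (nat_lit 9) (nat_lit 4) (nat_lit 268) (nat_lit 239) (nat_lit 213)))) (XT.nd (nat_lit 78) (nat_lit 76) (nat_lit 0) (XT.lf (nat_lit 0) (nat_lit 3634935959) (nat_lit 228) (nat_lit 9704049797) (nat_lit 76) (nat_lit 4619300748) (nat_lit 8) (nat_lit 5) (nat_lit 11) (nat_lit 5) (nat_lit 9) (nat_lit 4) (nat_lit 269) (nat_lit 239) (nat_lit 212)) (XT.nd (nat_lit 78) (nat_lit 76) (nat_lit 0) (XT.lf (nat_lit 0) (nat_lit 6329099033) (nat_lit 228) (nat_lit 4283198138) (nat_lit 76) (nat_lit 8455001430) (nat_lit 8) (nat_lit 5) (nat_lit 11) (nat_lit 5) (nat_lit 9) (nat_lit 4) (nat_lit 270) (nat_lit 239) (nat_lit 211)) (XT.lf (nat_lit 0) (nat_lit 1560767278) (nat_lit 76) (nat_lit 7659397541) (nat_lit 152) (nat_lit 11046622498) (nat_lit 7) (nat_lit 5) (nat_lit 8) (nat_lit 5) (nat_lit 9) (nat_lit 4) (nat_lit 271) (nat_lit 239) (nat_lit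 210))))))))
noncomputable def xc48 : XT := (XT.nd (nat_lit 1794) (nat_lit 76) (nat_lit 0) (XT.nd (nat_lit 858) (nat_lit 152) (nat_lit 0) (XT.nd (nat_lit 390) (nat_lit 76) (nat_lit 0) (XT.nd (nat_lit 156) (nat_lit 152) (nat_lit 0) (XT.nd (nat_lit 78) (nat_lit 0) (nat_lit 0) (XT.lf (nat_lit 0) (nat_lit 8029452731) (nat_lit 76) (nat_lit 4376089452) (nat_lit 152) (nat_lit 9151896421) (nat_lit 7) (nat_lit 5) (nat_lit 8) (nat_lit 5) (nat_lit 9) (nat_lit 4) (nat_lit 272) (nat_lit 239) (nat_lit 209)) (XT.lf (nat_lit 0) (nat_lit 14935645548) (nat_lit 76) (nat_lit 860026490) (nat_lit 152) (nat_lit 7159903560) (nat_lit 7) (nat_lit 5) (nat_lit 8) (nat_lit 5) (nat_lit 9) (nat_lit 4) (nat_lit 273) (nat_lit 239) (nat_lit 208))) (XT.nd (nat_lit 78) (nat_lit 152) (nat_lit 0) (XT.lf (nat_lit 0) (nat_lit 19480620647) (nat_lit 152) (nat_lit 2219188845) (nat_lit 0) (nat_lit 2764075932) (nat_lit 7) (nat_lit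 5) (nat_lit 9) (nat_lit 4) (nat_lit 7) (nat_lit 4) (nat_lit 274) (nat_lit 239) (nat_lit 207)) (XT.nd (nat_lit 78) (nat_lit 76) (nat_lit 0) (XT.lf (nat_lit 0) (nat_lit 4159772695) (nat_lit 76) (nat_lit 19379423169) (nat_lit 76) (nat_lit 2547552665) (nat_lit 6) (nat_lit 4) (nat_lit 7) (nat_lit 5) (nat_lit 7) (nat_lit 4) (nat_lit 275) (nat_lit 239) (nat_lit 206)) (XT.lf (nat_lit 0) (nat_lit 97851263) (nat_lit 152) (nat_lit 16735123014) (nat_lit 76) (nat_lit 11004954804) (nat_lit 5) (nat_lit 5) (nat_lit 7) (nat_lit 5) (nat_lit 6) (nat_lit 4) (nat_lit 276) (nat_lit 239) (nat_lit 205))))) (XT.nd (nat_lit 234) (nat_lit 0) (nat_lit 0) (XT.nd (nat_lit 78) (nat_lit 76) (nat_lit 0) (XT.lf (nat_lit 0) (nat_lit 2777193393) (nat_lit 152) (nat_lit 11260964660) (nat_lit 76) (nat_lit 15689111973) (nat_lit 5) (nat_lit 5) (nat_lit 7) (nat_lit 5) (nat_lit 6) (nat_lit 4) (nat_lit 277) (nat_lit 239) (nat_lit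 204)) (XT.nd (nat_lit 78) (nat_lit 76) (nat_lit 0) (XT.lf (nat_lit 0) (nat_lit 5633790210) (nat_lit 152) (nat_lit 5410792610) (nat_lit 76) (nat_lit 20726286133) (nat_lit 5) (nat_lit 5) (nat_lit 7) (nat_lit 5) (nat_lit 6) (nat_lit 4) (nat_lit 278) (nat_lit 239) (nat_lit 203)) (XT.lf (nat_lit 0) (nat_lit 894823515) (nat_lit 76) (nat_lit 7811266706) (nat_lit 152) (nat_lit 25273024216) (nat_lit 4) (nat_lit 5) (nat_lit 5) (nat_lit 5) (nat_lit 6) (nat_lit 4) (nat_lit 279) (nat_lit 239) (nat_lit 202)))) (XT.nd (nat_lit 78) (nat_lit 0) (nat_lit 0) (XT.lf (nat_lit 0) (nat_lit 7956724572) (nat_lit 76) (nat_lit 4182245385) (nat_lit 152) (nat_lit 24215988796) (nat_lit 4) (nat_lit 5) (nat_lit 5) (nat_lit 5) (nat_lit 6) (nat_lit 4) (nat_lit 280) (nat_lit 239) (nat_lit 201)) (XT.nd (nat_lit 78) (nat_lit 0) (nat_lit 0) (XT.lf (nat_lit 0) (nat_lit 15531836111) (nat_lit 76) (nat_lit 283954206) (nat_lit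 152) (nat_lit 23107649227) (nat_lit 4) (nat_lit 5) (nat_lit 5) (nat_lit 5) (nat_lit 6) (nat_lit 4) (nat_lit 281) (nat_lit 239) (nat_lit 200)) (XT.lf (nat_lit 0) (nat_lit 19852296284) (nat_lit 152) (nat_lit 18128686174) (nat_lit 0) (nat_lit 3711278468) (nat_lit 4) (nat_lit 5) (nat_lit 6) (nat_lit 4) (nat_lit 4) (nat_lit 4) (nat_lit 282) (nat_lit 239) (nat_lit 199)))))) (XT.nd (nat_lit 468) (nat_lit 76) (nat_lit 0) (XT.nd (nat_lit 234) (nat_lit 0) (nat_lit 0) (XT.nd (nat_lit 78) (nat_lit 76) (nat_lit 0) (XT.lf (nat_lit 0) (nat_lit 24192352574) (nat_lit 152) (nat_lit 12498239427) (nat_lit 0) (nat_lit 7993643151) (nat_lit 4) (nat_lit 5) (nat_lit 6) (nat_lit 4) (nat_lit 4) (nat_lit 4) (nat_lit 283) (nat_lit 239) (nat_lit 198)) (XT.nd (nat_lit 78) (nat_lit 76) (nat_lit 0) (XT.lf (nat_lit 0) (nat_lit 28854848935) (nat_lit 152) (nat_lit 6460068477) (nat_lit 0) (nat_lit 12602721358) (nat_lit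 4) (nat_lit 5) (nat_lit 6) (nat_lit 4) (nat_lit 4) (nat_lit 4) (nat_lit 284) (nat_lit 239) (nat_lit 197)) (XT.lf (nat_lit 0) (nat_lit 22746290) (nat_lit 76) (nat_lit 33845215734) (nat_lit 76) (nat_lit 17543626902) (nat_lit 3) (nat_lit 4) (nat_lit 4) (nat_lit 5) (nat_lit 4) (nat_lit 4) (nat_lit 285) (nat_lit 239) (nat_lit 196)))) (XT.nd (nat_lit 78) (nat_lit 0) (nat_lit 0) (XT.lf (nat_lit 0) (nat_lit 7353029547) (nat_lit 76) (nat_lit 32083565780) (nat_lit 76) (nat_lit 15736179491) (nat_lit 3) (nat_lit 4) (nat_lit 4) (nat_lit 5) (nat_lit 4) (nat_lit 4) (nat_lit 286) (nat_lit 239) (nat_lit 195)) (XT.nd (nat_lit 78) (nat_lit 0) (nat_lit 0) (XT.lf (nat_lit 0) (nat_lit 15234044251) (nat_lit 76) (nat_lit 30196157865) (nat_lit 76) (nat_lit 13806366522) (nat_lit 3) (nat_lit 4) (nat_lit 4) (nat_lit 5) (nat_lit 4) (nat_lit 4) (nat_lit 287) (nat_lit 239) (nat_lit 194)) (XT.lf (nat_lit 0) (nat_lit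 23712492710) (nat_lit 76) (nat_lit 28171807348) (nat_lit 76) (nat_lit 11742752067) (nat_lit 3) (nat_lit 4) (nat_lit 4) (nat_lit 5) (nat_lit 4) (nat_lit 4) (nat_lit 288) (nat_lit 239) (nat_lit 193))))) (XT.nd (nat_lit 234) (nat_lit 76) (nat_lit 0) (XT.nd (nat_lit 78) (nat_lit 0) (nat_lit 0) (XT.lf (nat_lit 0) (nat_lit 32838617583) (nat_lit 76) (nat_lit 25998518080) (nat_lit 76) (nat_lit 9533107300) (nat_lit 3) (nat_lit 4) (nat_lit 4) (nat_lit 5) (nat_lit 4) (nat_lit 4) (nat_lit 289) (nat_lit 239) (nat_lit 192)) (XT.nd (nat_lit 78) (nat_lit 0) (nat_lit 0) (XT.lf (nat_lit 0) (nat_lit 42666499609) (nat_lit 76) (nat_lit 23663411308) (nat_lit 76) (nat_lit 7164338030) (nat_lit 3) (nat_lit 4) (nat_lit 4) (nat_lit 5) (nat_lit 4) (nat_lit 4) (nat_lit 290) (nat_lit 239) (nat_lit 191)) (XT.lf (nat_lit 0) (nat_lit 53254378089) (nat_lit 76) (nat_lit 21152649362) (nat_lit 76) (nat_lit 4622407104)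 (nat_lit 3) (nat_lit 4) (nat_lit 4) (nat_lit 5) (nat_lit 4) (nat_lit 4) (nat_lit 291) (nat_lit 239) (nat_lit 190)))) (XT.nd (nat_lit 78) (nat_lit 76) (nat_lit 0) (XT.lf (nat_lit 0) (nat_lit 64664996007) (nat_lit 76) (nat_lit 18451353655) (nat_lit 76) (nat_lit 1892251230) (nat_lit 3) (nat_lit 4) (nat_lit 4) (nat_lit 5) (nat_lit 4) (nat_lit 4) (nat_lit 292) (nat_lit 239) (nat_lit 189)) (XT.nd (nat_lit 78) (nat_lit 0) (nat_lit 0) (XT.lf (nat_lit 0) (nat_lit 990167812) (nat_lit 152) (nat_lit 14526275750) (nat_lit 76) (nat_lit 75948731084) (nat_lit 2) (nat_lit 5) (nat_lit 4) (nat_lit 5) (nat_lit 3) (nat_lit 4) (nat_lit 293) (nat_lit 239) (nat_lit 188)) (XT.lf (nat_lit 0) (nat_lit 3988627403) (nat_lit 152) (nat_lit 8314222744) (nat_lit 76) (nat_lit 86132516714) (nat_lit 2) (nat_lit 5) (nat_lit 4) (nat_lit 5) (nat_lit 3) (nat_lit 4) (nat_lit 294) (nat_lit 239) (nat_lit 187))))))) (XT.nd (nat_lit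 858) (nat_lit 0) (nat_lit 0) (XT.nd (nat_lit 390) (nat_lit 0) (nat_lit 0) (XT.nd (nat_lit 156) (nat_lit 0) (nat_lit 0) (XT.nd (nat_lit 78) (nat_lit 76) (nat_lit 0) (XT.lf (nat_lit 0) (nat_lit 7215554259) (nat_lit 152) (nat_lit 1625125013) (nat_lit 76) (nat_lit 97123443798) (nat_lit 2) (nat_lit 5) (nat_lit 4) (nat_lit 5) (nat_lit 3) (nat_lit 4) (nat_lit 295) (nat_lit 239) (nat_lit 186)) (XT.lf (nat_lit 0) (nat_lit 5874524023) (nat_lit 76) (nat_lit 4956829332) (nat_lit 152) (nat_lit 103253402177) (nat_lit 1) (nat_lit 5) (nat_lit 2) (nat_lit 5) (nat_lit 3) (nat_lit 4) (nat_lit 296) (nat_lit 239) (nat_lit 185))) (XT.nd (nat_lit 78) (nat_lit 0) (nat_lit 0) (XT.lf (nat_lit 0) (nat_lit 14048590224) (nat_lit 76) (nat_lit 722045798) (nat_lit 152) (nat_lit 108081695742) (nat_lit 1) (nat_lit 5) (nat_lit 2) (nat_lit 5) (nat_lit 3) (nat_lit 4) (nat_lit 297) (nat_lit 239) (nat_lit 184)) (XT.nd (nat_lit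 78) (nat_lit 0) (nat_lit 0) (XT.lf (nat_lit 0) (nat_lit 19108060039) (nat_lit 152) (nat_lit 109554619157) (nat_lit 0) (nat_lit 3652023462) (nat_lit 1) (nat_lit 5) (nat_lit 3) (nat_lit 4) (nat_lit 1) (nat_lit 4) (nat_lit 298) (nat_lit 239) (nat_lit 183)) (XT.lf (nat_lit 0) (nat_lit 23802315358) (nat_lit 152) (nat_lit 110400300705) (nat_lit 0) (nat_lit 8330686531) (nat_lit 1) (nat_lit 5) (nat_lit 3) (nat_lit 4) (nat_lit 1) (nat_lit 4) (nat_lit 299) (nat_lit 239) (nat_lit 182))))) (XT.nd (nat_lit 234) (nat_lit 0) (nat_lit 0) (XT.nd (nat_lit 78) (nat_lit 0) (nat_lit 0) (XT.lf (nat_lit 0) (nat_lit 28863854569) (nat_lit 152) (nat_lit 111328432409) (nat_lit 0) (nat_lit 13377788473) (nat_lit 1) (nat_lit 5) (nat_lit 3) (nat_lit 4) (nat_lit 1) (nat_lit 4) (nat_lit 300) (nat_lit 239) (nat_lit 181)) (XT.nd (nat_lit 78) (nat_lit 0) (nat_lit 0) (XT.lf (nat_lit 0) (nat_lit 34322671978) (nat_lit 152)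 (nat_lit 112344514311) (nat_lit 0) (nat_lit 18823238041) (nat_lit 1) (nat_lit 5) (nat_lit 3) (nat_lit 4) (nat_lit 1) (nat_lit 4) (nat_lit 301) (nat_lit 239) (nat_lit 180)) (XT.lf (nat_lit 0) (nat_lit 40211116133) (nat_lit 152) (nat_lit 113454567635) (nat_lit 0) (nat_lit 24699304565) (nat_lit 1) (nat_lit 5) (nat_lit 3) (nat_lit 4) (nat_lit 1) (nat_lit 4) (nat_lit 302) (nat_lit 239) (nat_lit 179)))) (XT.nd (nat_lit 78) (nat_lit 0) (nat_lit 0) (XT.lf (nat_lit 0) (nat_lit 46564081518) (nat_lit 152) (nat_lit 114665170476) (nat_lit 0) (nat_lit 31040809180) (nat_lit 1) (nat_lit 5) (nat_lit 3) (nat_lit 4) (nat_lit 1) (nat_lit 4) (nat_lit 303) (nat_lit 239) (nat_lit 178)) (XT.nd (nat_lit 78) (nat_lit 0) (nat_lit 0) (XT.lf (nat_lit 0) (nat_lit 53419215334) (nat_lit 152) (nat_lit 115983496776) (nat_lit 0) (nat_lit 37885331174) (nat_lit 1) (nat_lit 5) (nat_lit 3) (nat_lit 4) (nat_lit 1) (nat_lit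 4) (nat_lit 304) (nat_lit 239) (nat_lit 177)) (XT.lf (nat_lit 0) (nat_lit 60817140599) (nat_lit 152) (nat_lit 117417358840) (nat_lit 0) (nat_lit 45273430675) (nat_lit 1) (nat_lit 5) (nat_lit 3) (nat_lit 4) (nat_lit 1) (nat_lit 4) (nat_lit 305) (nat_lit 239) (nat_lit 176)))))) (XT.nd (nat_lit 468) (nat_lit 0) (nat_lit 0) (XT.nd (nat_lit 234) (nat_lit 0) (nat_lit 0) (XT.nd (nat_lit 78) (nat_lit 0) (nat_lit 0) (XT.lf (nat_lit 0) (nat_lit 68801696867) (nat_lit 152) (nat_lit 118975253628) (nat_lit 0) (nat_lit 53248889016) (nat_lit 1) (nat_lit 5) (nat_lit 3) (nat_lit 4) (nat_lit 1) (nat_lit 4) (nat_lit 306) (nat_lit 239) (nat_lit 175)) (XT.nd (nat_lit 78) (nat_lit 0) (nat_lit 0) (XT.lf (nat_lit 0) (nat_lit 77420200029) (nat_lit 152) (nat_lit 120666413108) (nat_lit 0) (nat_lit 61858968170) (nat_lit 1) (nat_lit 5) (nat_lit 3) (nat_lit 4) (nat_lit 1) (nat_lit 4) (nat_lit 307) (nat_lit 239)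 (nat_lit 174)) (XT.lf (nat_lit 0) (nat_lit 86723722696) (nat_lit 152) (nat_lit 122500858968) (nat_lit 0) (nat_lit 71154690830) (nat_lit 1) (nat_lit 5) (nat_lit 3) (nat_lit 4) (nat_lit 1) (nat_lit 4) (nat_lit 308) (nat_lit 239) (nat_lit 173)))) (XT.nd (nat_lit 78) (nat_lit 0) (nat_lit 0) (XT.lf (nat_lit 0) (nat_lit 96767396854) (nat_lit 152) (nat_lit 124489461996) (nat_lit 0) (nat_lit 81191142759) (nat_lit 1) (nat_lit 5) (nat_lit 3) (nat_lit 4) (nat_lit 1) (nat_lit 4) (nat_lit 309) (nat_lit 239) (nat_lit 172)) (XT.nd (nat_lit 78) (nat_lit 0) (nat_lit 0) (XT.lf (nat_lit 0) (nat_lit 107610740572) (nat_lit 152) (nat_lit 126644006507) (nat_lit 0) (nat_lit 92027799229) (nat_lit 1) (nat_lit 5) (nat_lit 3) (nat_lit 4) (nat_lit 1) (nat_lit 4) (nat_lit 310) (nat_lit 239) (nat_lit 171)) (XT.lf (nat_lit 0) (nat_lit 119318010702) (nat_lit 152) (nat_lit 128977260174) (nat_lit 0) (nat_lit 103728877461)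 (nat_lit 1) (nat_lit 5) (nat_lit 3) (nat_lit 4) (nat_lit 1) (nat_lit 4) (nat_lit 311) (nat_lit 239) (nat_lit 170))))) (XT.nd (nat_lit 234) (nat_lit 0) (nat_lit 0) (XT.nd (nat_lit 78) (nat_lit 0) (nat_lit 0) (XT.lf (nat_lit 0) (nat_lit 131958583659) (nat_lit 152) (nat_lit 131503049682) (nat_lit 0) (nat_lit 116363717180) (nat_lit 1) (nat_lit 5) (nat_lit 3) (nat_lit 4) (nat_lit 1) (nat_lit 4) (nat_lit 312) (nat_lit 239) (nat_lit 169)) (XT.nd (nat_lit 78) (nat_lit 0) (nat_lit 0) (XT.lf (nat_lit 0) (nat_lit 145607366542) (nat_lit 152) (nat_lit 134236342676) (nat_lit 0) (nat_lit 130007191509) (nat_lit 1) (nat_lit 5) (nat_lit 3) (nat_lit 4) (nat_lit 1) (nat_lit 4) (nat_lit 313) (nat_lit 239) (nat_lit 168)) (XT.lf (nat_lit 0) (nat_lit 160345241027) (nat_lit 152) (nat_lit 137193336445) (nat_lit 0) (nat_lit 144740150668) (nat_lit 1) (nat_lit 5) (nat_lit 3) (nat_lit 4) (nat_lit 1) (nat_lit 4)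 (nat_lit 314) (nat_lit 239) (nat_lit 167)))) (XT.nd (nat_lit 78) (nat_lit 0) (nat_lit 0) (XT.lf (nat_lit 0) (nat_lit 176259542668) (nat_lit 152) (nat_lit 140391553917) (nat_lit 0) (nat_lit 160649901079) (nat_lit 1) (nat_lit 5) (nat_lit 3) (nat_lit 4) (nat_lit 1) (nat_lit 4) (nat_lit 315) (nat_lit 239) (nat_lit 166)) (XT.nd (nat_lit 78) (nat_lit 0) (nat_lit 0) (XT.lf (nat_lit 0) (nat_lit 193444578437) (nat_lit 152) (nat_lit 143849947490) (nat_lit 0) (nat_lit 177830722747) (nat_lit 1) (nat_lit 5) (nat_lit 3) (nat_lit 4) (nat_lit 1) (nat_lit 4) (nat_lit 316) (nat_lit 239) (nat_lit 165)) (XT.lf (nat_lit 0) (nat_lit 212002185583) (nat_lit 152) (nat_lit 147589011350) (nat_lit 0) (nat_lit 196384427947) (nat_lit 1) (nat_lit 5) (nat_lit 3) (nat_lit 4) (nat_lit 1) (nat_lit 4) (nat_lit 317) (nat_lit 239) (nat_lit 164))))))))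
noncomputable def xc49 : XT := (XT.nd (nat_lit 31902) (nat_lit 0) (nat_lit 760) (XT.nd (nat_lit 858) (nat_lit 0) (nat_lit 0) (XT.nd (nat_lit 390) (nat_lit 0) (nat_lit 0) (XT.nd (nat_lit 156) (nat_lit 0) (nat_lit 0) (XT.nd (nat_lit 78) (nat_lit 0) (nat_lit 0) (XT.lf (nat_lit 0) (nat_lit 232042335110) (nat_lit 152) (nat_lit 151630902912) (nat_lit 0) (nat_lit 216420964562) (nat_lit 1) (nat_lit 5) (nat_lit 3) (nat_lit 4) (nat_lit 1) (nat_lit 4) (nat_lit 318) (nat_lit 239) (nat_lit 163)) (XT.lf (nat_lit 0) (nat_lit 253683783462) (nat_lit 152) (nat_lit 155999574125) (nat_lit 0) (nat_lit 238059067624) (nat_lit 1) (nat_lit 5) (nat_lit 3) (nat_lit 4) (nat_lit 1) (nat_lit 4) (nat_lit 319) (nat_lit 239) (nat_lit 162))) (XT.nd (nat_lit 78) (nat_lit 0) (nat_lit 0) (XT.lf (nat_lit 0) (nat_lit 277054776257) (nat_lit 152) (nat_lit 160720913412) (nat_lit 0) (nat_lit 261426962930) (nat_lit 1) (nat_lit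 5) (nat_lit 3) (nat_lit 4) (nat_lit 1) (nat_lit 4) (nat_lit 320) (nat_lit 239) (nat_lit 161)) (XT.nd (nat_lit 78) (nat_lit 0) (nat_lit 0) (XT.lf (nat_lit 0) (nat_lit 302293808268) (nat_lit 152) (nat_lit 165822899079) (nat_lit 0) (nat_lit 286663126894) (nat_lit 1) (nat_lit 5) (nat_lit 3) (nat_lit 4) (nat_lit 1) (nat_lit 4) (nat_lit 321) (nat_lit 239) (nat_lit 160)) (XT.lf (nat_lit 0) (nat_lit 329550444129) (nat_lit 152) (nat_lit 171335765116) (nat_lit 0) (nat_lit 313917107156) (nat_lit 1) (nat_lit 5) (nat_lit 3) (nat_lit 4) (nat_lit 1) (nat_lit 4) (nat_lit 322) (nat_lit 239) (nat_lit 159))))) (XT.nd (nat_lit 234) (nat_lit 0) (nat_lit 0) (XT.nd (nat_lit 78) (nat_lit 0) (nat_lit 0) (XT.lf (nat_lit 0) (nat_lit 358986204644) (nat_lit 152) (nat_lit 177292180359) (nat_lit 0) (nat_lit 343350408784) (nat_lit 1) (nat_lit 5) (nat_lit 3) (nat_lit 4) (nat_lit 1) (nat_lit 4) (nat_lit 323) (nat_lit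 239) (nat_lit 158)) (XT.nd (nat_lit 78) (nat_lit 0) (nat_lit 0) (XT.lf (nat_lit 0) (nat_lit 390775523952) (nat_lit 152) (nat_lit 183727442082) (nat_lit 0) (nat_lit 375137451344) (nat_lit 1) (nat_lit 5) (nat_lit 3) (nat_lit 4) (nat_lit 1) (nat_lit 4) (nat_lit 324) (nat_lit 239) (nat_lit 157)) (XT.lf (nat_lit 0) (nat_lit 425106783202) (nat_lit 152) (nat_lit 190679685171) (nat_lit 0) (nat_lit 409466602494) (nat_lit 1) (nat_lit 5) (nat_lit 3) (nat_lit 4) (nat_lit 1) (nat_lit 4) (nat_lit 325) (nat_lit 239) (nat_lit 156)))) (XT.nd (nat_lit 78) (nat_lit 0) (nat_lit 0) (XT.lf (nat_lit 0) (nat_lit 462183426894) (nat_lit 152) (nat_lit 198190108103) (nat_lit 0) (nat_lit 446541294242) (nat_lit 1) (nat_lit 5) (nat_lit 3) (nat_lit 4) (nat_lit 1) (nat_lit 4) (nat_lit 326) (nat_lit 239) (nat_lit 155)) (XT.nd (nat_lit 78) (nat_lit 0) (nat_lit 0) (XT.lf (nat_lit 0) (nat_lit 502225168472) (nat_lit 152)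 (nat_lit 206303217087) (nat_lit 0) (nat_lit 486581228465) (nat_lit 1) (nat_lit 5) (nat_lit 3) (nat_lit 4) (nat_lit 1) (nat_lit 4) (nat_lit 327) (nat_lit 239) (nat_lit 154)) (XT.lf (nat_lit 0) (nat_lit 545469292331) (nat_lit 152) (nat_lit 215067089807) (nat_lit 0) (nat_lit 529823678846) (nat_lit 1) (nat_lit 5) (nat_lit 3) (nat_lit 4) (nat_lit 1) (nat_lit 4) (nat_lit 328) (nat_lit 239) (nat_lit 153)))))) (XT.nd (nat_lit 30576) (nat_lit 0) (nat_lit 3420) (XT.nd (nat_lit 234) (nat_lit 0) (nat_lit 0) (XT.nd (nat_lit 78) (nat_lit 0) (nat_lit 0) (XT.lf (nat_lit 0) (nat_lit 592172059945) (nat_lit 152) (nat_lit 224533660323) (nat_lit 0) (nat_lit 576524896944) (nat_lit 1) (nat_lit 5) (nat_lit 3) (nat_lit 4) (nat_lit 1) (nat_lit 4) (nat_lit 329) (nat_lit 239) (nat_lit 152)) (XT.nd (nat_lit 78) (nat_lit 0) (nat_lit 0) (XT.lf (nat_lit 0) (nat_lit 642610228457) (nat_lit 152) (nat_lit 234759026831)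 (nat_lit 0) (nat_lit 626961630718) (nat_lit 1) (nat_lit 5) (nat_lit 3) (nat_lit 4) (nat_lit 1) (nat_lit 4) (nat_lit 330) (nat_lit 239) (nat_lit 151)) (XT.lf (nat_lit 0) (nat_lit 697082690715) (nat_lit 152) (nat_lit 245803784096) (nat_lit 0) (nat_lit 681432764517) (nat_lit 1) (nat_lit 5) (nat_lit 3) (nat_lit 4) (nat_lit 1) (nat_lit 4) (nat_lit 331) (nat_lit 239) (nat_lit 150)))) (XT.nd (nat_lit 78) (nat_lit 0) (nat_lit 0) (XT.lf (nat_lit 0) (nat_lit 755912246498) (nat_lit 152) (nat_lit 257733382530) (nat_lit 0) (nat_lit 740261090243) (nat_lit 1) (nat_lit 5) (nat_lit 3) (nat_lit 4) (nat_lit 1) (nat_lit 4) (nat_lit 332) (nat_lit 239) (nat_lit 149)) (XT.nd (nat_lit 78) (nat_lit 0) (nat_lit 0) (XT.lf (nat_lit 0) (nat_lit 819447515393) (nat_lit 152) (nat_lit 270618516050) (nat_lit 0) (nat_lit 803795220198) (nat_lit 1) (nat_lit 5) (nat_lit 3) (nat_lit 4) (nat_lit 1) (nat_lit 4) (nat_lit 333)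 (nat_lit 239) (nat_lit 148)) (XT.lf (nat_lit 0) (nat_lit 888065002700) (nat_lit 152) (nat_lit 284535541004) (nat_lit 0) (nat_lit 872411652930) (nat_lit 1) (nat_lit 5) (nat_lit 3) (nat_lit 4) (nat_lit 1) (nat_lit 4) (nat_lit 334) (nat_lit 239) (nat_lit 147))))) (XT.nd (nat_lit 234) (nat_lit 304) (nat_lit 0) (XT.nd (nat_lit 78) (nat_lit 76) (nat_lit 0) (XT.lf (nat_lit 0) (nat_lit 1073741823) (nat_lit 0) (nat_lit 0) (nat_lit 0) (nat_lit 0) (nat_lit 51) (nat_lit 0) (nat_lit 1) (nat_lit 0) (nat_lit 1) (nat_lit 0) (nat_lit 240) (nat_lit 240) (nat_lit 240)) (XT.nd (nat_lit 78) (nat_lit 0) (nat_lit 0) (XT.lf (nat_lit 0) (nat_lit 2640754134) (nat_lit 76) (nat_lit 3673582418) (nat_lit 0) (nat_lit 135356545) (nat_lit 50) (nat_lit 5) (nat_lit 51) (nat_lit 0) (nat_lit 50) (nat_lit 4) (nat_lit 241) (nat_lit 240) (nat_lit 239)) (XT.lf (nat_lit 0) (nat_lit 5232081920) (nat_lit 76) (nat_lit 843337330)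 (nat_lit 0) (nat_lit 406871748) (nat_lit 50) (nat_lit 5) (nat_lit 51) (nat_lit 0) (nat_lit 50) (nat_lit 4) (nat_lit 242) (nat_lit 240) (nat_lit 238)))) (XT.nd (nat_lit 78) (nat_lit 152) (nat_lit 0) (XT.lf (nat_lit 0) (nat_lit 1240064262) (nat_lit 152) (nat_lit 4393851119) (nat_lit 76) (nat_lit 899828522) (nat_lit 48) (nat_lit 5) (nat_lit 50) (nat_lit 5) (nat_lit 49) (nat_lit 4) (nat_lit 243) (nat_lit 240) (nat_lit 237)) (XT.nd (nat_lit 78) (nat_lit 152) (nat_lit 0) (XT.lf (nat_lit 0) (nat_lit 3649611291) (nat_lit 152) (nat_lit 1370858682) (nat_lit 76) (nat_lit 1586350551) (nat_lit 48) (nat_lit 5) (nat_lit 50) (nat_lit 5) (nat_lit 49) (nat_lit 4) (nat_lit 244) (nat_lit 240) (nat_lit 236)) (XT.lf (nat_lit 0) (nat_lit 1837697521) (nat_lit 152) (nat_lit 4239845608) (nat_lit 228) (nat_lit 625032837) (nat_lit 46) (nat_lit 5) (nat_lit 48) (nat_lit 5) (nat_lit 49) (nat_lit 4) (nat_lit 245)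 (nat_lit 240) (nat_lit 235))))))) (XT.nd (nat_lit 858) (nat_lit 836) (nat_lit 0) (XT.nd (nat_lit 390) (nat_lit 1140) (nat_lit 0) (XT.nd (nat_lit 156) (nat_lit 380) (nat_lit 0) (XT.nd (nat_lit 78) (nat_lit 228) (nat_lit 0) (XT.lf (nat_lit 0) (nat_lit 1623700231) (nat_lit 228) (nat_lit 1626789736) (nat_lit 76) (nat_lit 3568352416) (nat_lit 45) (nat_lit 5) (nat_lit 48) (nat_lit 5) (nat_lit 46) (nat_lit 5) (nat_lit 246) (nat_lit 240) (nat_lit 234)) (XT.lf (nat_lit 0) (nat_lit 1797571117) (nat_lit 228) (nat_lit 2066315865) (nat_lit 304) (nat_lit 3093886638) (nat_lit 42) (nat_lit 5) (nat_lit 45) (nat_lit 5) (nat_lit 46) (nat_lit 5) (nat_lit 247) (nat_lit 240) (nat_lit 233))) (XT.nd (nat_lit 78) (nat_lit 380) (nat_lit 0) (XT.lf (nat_lit 0) (nat_lit 5445643593) (nat_lit 228) (nat_lit 695442466) (nat_lit 304) (nat_lit 980228140) (nat_lit 42) (nat_lit 5) (nat_lit 45) (nat_lit 5) (nat_lit 46)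 (nat_lit 5) (nat_lit 248) (nat_lit 240) (nat_lit 232)) (XT.nd (nat_lit 78) (nat_lit 0) (nat_lit 0) (XT.lf (nat_lit 0) (nat_lit 1128399173) (nat_lit 380) (nat_lit 5315931022) (nat_lit 76) (nat_lit 861635470) (nat_lit 37) (nat_lit 5) (nat_lit 42) (nat_lit 5) (nat_lit 38) (nat_lit 5) (nat_lit 249) (nat_lit 240) (nat_lit 231)) (XT.lf (nat_lit 0) (nat_lit 3249242905) (nat_lit 380) (nat_lit 1657881159) (nat_lit 76) (nat_lit 2606191463) (nat_lit 37) (nat_lit 5) (nat_lit 42) (nat_lit 5) (nat_lit 38) (nat_lit 5) (nat_lit 250) (nat_lit 240) (nat_lit 230))))) (XT.nd (nat_lit 234) (nat_lit 228) (nat_lit 0) (XT.nd (nat_lit 78) (nat_lit 532) (nat_lit 0) (XT.lf (nat_lit 0) (nat_lit 2261754410) (nat_lit 380) (nat_lit 3176297515) (nat_lit 456) (nat_lit 2308894888) (nat_lit 32) (nat_lit 5) (nat_lit 37) (nat_lit 5) (nat_lit 38) (nat_lit 5) (nat_lit 251) (nat_lit 240) (nat_lit 229)) (XT.nd (nat_lit 78)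 (nat_lit 532) (nat_lit 0) (XT.lf (nat_lit 0) (nat_lit 6448696240) (nat_lit 380) (nat_lit 1250683928) (nat_lit 456) (nat_lit 309537179) (nat_lit 32) (nat_lit 5) (nat_lit 37) (nat_lit 5) (nat_lit 38) (nat_lit 5) (nat_lit 252) (nat_lit 240) (nat_lit 228)) (XT.lf (nat_lit 0) (nat_lit 1701431631) (nat_lit 532) (nat_lit 5691791288) (nat_lit 76) (nat_lit 900764215) (nat_lit 25) (nat_lit 5) (nat_lit 32) (nat_lit 5) (nat_lit 26) (nat_lit 5) (nat_lit 253) (nat_lit 240) (nat_lit 227)))) (XT.nd (nat_lit 78) (nat_lit 228) (nat_lit 0) (XT.lf (nat_lit 0) (nat_lit 3798252442) (nat_lit 532) (nat_lit 1600960209) (nat_lit 76) (nat_lit 3207815484) (nat_lit 25) (nat_lit 5) (nat_lit 32) (nat_lit 5) (nat_lit 26) (nat_lit 5) (nat_lit 254) (nat_lit 240) (nat_lit 226)) (XT.nd (nat_lit 78) (nat_lit 0) (nat_lit 0) (XT.lf (nat_lit 0) (nat_lit 2821995260) (nat_lit 228) (nat_lit 3184104751) (nat_lit 304) (nat_lit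 2944609762) (nat_lit 22) (nat_lit 5) (nat_lit 25) (nat_lit 5) (nat_lit 26) (nat_lit 5) (nat_lit 255) (nat_lit 240) (nat_lit 225)) (XT.lf (nat_lit 0) (nat_lit 7556976347) (nat_lit 228) (nat_lit 758817648) (nat_lit 304) (nat_lit 1013055795) (nat_lit 22) (nat_lit 5) (nat_lit 25) (nat_lit 5) (nat_lit 26) (nat_lit 5) (nat_lit 256) (nat_lit 240) (nat_lit 224)))))) (XT.nd (nat_lit 468) (nat_lit 228) (nat_lit 0) (XT.nd (nat_lit 234) (nat_lit 228) (nat_lit 0) (XT.nd (nat_lit 78) (nat_lit 152) (nat_lit 0) (XT.lf (nat_lit 0) (nat_lit 1023033047) (nat_lit 228) (nat_lit 6862167615) (nat_lit 76) (nat_lit 1850522189) (nat_lit 19) (nat_lit 5) (nat_lit 22) (nat_lit 5) (nat_lit 20) (nat_lit 5) (nat_lit 257) (nat_lit 240) (nat_lit 223)) (XT.nd (nat_lit 78) (nat_lit 152) (nat_lit 0) (XT.lf (nat_lit 0) (nat_lit 3128124506) (nat_lit 228) (nat_lit 2362698585) (nat_lit 76) (nat_lit 4686128883) (nat_lit 19)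 (nat_lit 5) (nat_lit 22) (nat_lit 5) (nat_lit 20) (nat_lit 5) (nat_lit 258) (nat_lit 240) (nat_lit 222)) (XT.lf (nat_lit 0) (nat_lit 2496098754) (nat_lit 152) (nat_lit 2865030564) (nat_lit 228) (nat_lit 5296310938) (nat_lit 17) (nat_lit 5) (nat_lit 19) (nat_lit 5) (nat_lit 20) (nat_lit 5) (nat_lit 259) (nat_lit 240) (nat_lit 221)))) (XT.nd (nat_lit 78) (nat_lit 228) (nat_lit 0) (XT.lf (nat_lit 0) (nat_lit 7741698115) (nat_lit 228) (nat_lit 3424241423) (nat_lit 76) (nat_lit 13582056) (nat_lit 17) (nat_lit 5) (nat_lit 20) (nat_lit 5) (nat_lit 18) (nat_lit 4) (nat_lit 260) (nat_lit 240) (nat_lit 220)) (XT.nd (nat_lit 78) (nat_lit 76) (nat_lit 0) (XT.lf (nat_lit 0) (nat_lit 1575838035) (nat_lit 152) (nat_lit 8759696137) (nat_lit 228) (nat_lit 1406627937) (nat_lit 15) (nat_lit 5) (nat_lit 17) (nat_lit 5) (nat_lit 18) (nat_lit 4) (nat_lit 261) (nat_lit 240) (nat_lit 219)) (XT.lf (nat_lit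 0) (nat_lit 755291438) (nat_lit 228) (nat_lit 5315563123) (nat_lit 76) (nat_lit 6277367153) (nat_lit 14) (nat_lit 5) (nat_lit 17) (nat_lit 5) (nat_lit 15) (nat_lit 5) (nat_lit 262) (nat_lit 240) (nat_lit 218))))) (XT.nd (nat_lit 234) (nat_lit 76) (nat_lit 0) (XT.nd (nat_lit 78) (nat_lit 152) (nat_lit 0) (XT.lf (nat_lit 0) (nat_lit 2932265881) (nat_lit 228) (nat_lit 226741936) (nat_lit 76) (nat_lit 9847878645) (nat_lit 14) (nat_lit 5) (nat_lit 17) (nat_lit 5) (nat_lit 15) (nat_lit 5) (nat_lit 263) (nat_lit 240) (nat_lit 217)) (XT.nd (nat_lit 78) (nat_lit 0) (nat_lit 0) (XT.lf (nat_lit 0) (nat_lit 5340649676) (nat_lit 228) (nat_lit 8280599484) (nat_lit 76) (nat_lit 92869667) (nat_lit 12) (nat_lit 5) (nat_lit 15) (nat_lit 5) (nat_lit 13) (nat_lit 4) (nat_lit 264) (nat_lit 240) (nat_lit 216)) (XT.lf (nat_lit 0) (nat_lit 7956719917) (nat_lit 228) (nat_lit 3108071491) (nat_lit 76) (nat_lit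 3412357992) (nat_lit 12) (nat_lit 5) (nat_lit 15) (nat_lit 5) (nat_lit 13) (nat_lit 4) (nat_lit 265) (nat_lit 240) (nat_lit 215)))) (XT.nd (nat_lit 78) (nat_lit 0) (nat_lit 0) (XT.lf (nat_lit 0) (nat_lit 2503570597) (nat_lit 76) (nat_lit 8270755962) (nat_lit 152) (nat_lit 4527905498) (nat_lit 11) (nat_lit 5) (nat_lit 12) (nat_lit 5) (nat_lit 13) (nat_lit 4) (nat_lit 266) (nat_lit 240) (nat_lit 214)) (XT.nd (nat_lit 78) (nat_lit 0) (nat_lit 0) (XT.lf (nat_lit 0) (nat_lit 8643505743) (nat_lit 76) (nat_lit 5193547707) (nat_lit 152) (nat_lit 2355051777) (nat_lit 11) (nat_lit 5) (nat_lit 12) (nat_lit 5) (nat_lit 13) (nat_lit 4) (nat_lit 267) (nat_lit 240) (nat_lit 213)) (XT.lf (nat_lit 0) (nat_lit 15184453209) (nat_lit 76) (nat_lit 1899911517) (nat_lit 152) (nat_lit 73972332) (nat_lit 11) (nat_lit 5) (nat_lit 12) (nat_lit 5) (nat_lit 13) (nat_lit 4) (nat_lit 268) (nat_lit 240) (nat_lit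 212))))))))
noncomputable def xc50 : XT := (XT.nd (nat_lit 1794) (nat_lit 152) (nat_lit 0) (XT.nd (nat_lit 858) (nat_lit 152) (nat_lit 0) (XT.nd (nat_lit 390) (nat_lit 152) (nat_lit 0) (XT.nd (nat_lit 156) (nat_lit 76) (nat_lit 0) (XT.nd (nat_lit 78) (nat_lit 0) (nat_lit 0) (XT.lf (nat_lit 0) (nat_lit 2354364153) (nat_lit 228) (nat_lit 14129472152) (nat_lit 76) (nat_lit 1706975365) (nat_lit 8) (nat_lit 5) (nat_lit 11) (nat_lit 5) (nat_lit 9) (nat_lit 4) (nat_lit 269) (nat_lit 240) (nat_lit 211)) (XT.lf (nat_lit 0) (nat_lit 5021523946) (nat_lit 228) (nat_lit 8751231202) (nat_lit 76) (nat_lit 5529356393) (nat_lit 8) (nat_lit 5) (nat_lit 11) (nat_lit 5) (nat_lit 9) (nat_lit 4) (nat_lit 270) (nat_lit 240) (nat_lit 210))) (XT.nd (nat_lit 78) (nat_lit 76) (nat_lit 0) (XT.lf (nat_lit 0) (nat_lit 7850050206) (nat_lit 228) (nat_lit 3024796046) (nat_lit 76) (nat_lit 9631875234) (nat_lit 8) (nat_lit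 5) (nat_lit 11) (nat_lit 5) (nat_lit 9) (nat_lit 4) (nat_lit 271) (nat_lit 240) (nat_lit 209)) (XT.nd (nat_lit 78) (nat_lit 0) (nat_lit 0) (XT.lf (nat_lit 0) (nat_lit 3246153491) (nat_lit 76) (nat_lit 7688621146) (nat_lit 152) (nat_lit 10870759691) (nat_lit 7) (nat_lit 5) (nat_lit 8) (nat_lit 5) (nat_lit 9) (nat_lit 4) (nat_lit 272) (nat_lit 240) (nat_lit 208)) (XT.lf (nat_lit 0) (nat_lit 10116739349) (nat_lit 76) (nat_lit 4185872720) (nat_lit 152) (nat_lit 8902943869) (nat_lit 7) (nat_lit 5) (nat_lit 8) (nat_lit 5) (nat_lit 9) (nat_lit 4) (nat_lit 273) (nat_lit 240) (nat_lit 207))))) (XT.nd (nat_lit 234) (nat_lit 76) (nat_lit 0) (XT.nd (nat_lit 78) (nat_lit 76) (nat_lit 0) (XT.lf (nat_lit 0) (nat_lit 17468395709) (nat_lit 76) (nat_lit 428547231) (nat_lit 152) (nat_lit 6824265969) (nat_lit 7) (nat_lit 5) (nat_lit 8) (nat_lit 5) (nat_lit 9) (nat_lit 4) (nat_lit 274) (nat_lit 240) (nat_lit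 206)) (XT.nd (nat_lit 78) (nat_lit 76) (nat_lit 0) (XT.lf (nat_lit 0) (nat_lit 21825782261) (nat_lit 152) (nat_lit 1103502217) (nat_lit 0) (nat_lit 3425253189) (nat_lit 7) (nat_lit 5) (nat_lit 9) (nat_lit 4) (nat_lit 7) (nat_lit 4) (nat_lit 275) (nat_lit 240) (nat_lit 205)) (XT.lf (nat_lit 0) (nat_lit 5753036455) (nat_lit 76) (nat_lit 20428046702) (nat_lit 76) (nat_lit 1928644353) (nat_lit 6) (nat_lit 4) (nat_lit 7) (nat_lit 5) (nat_lit 7) (nat_lit 4) (nat_lit 276) (nat_lit 240) (nat_lit 204)))) (XT.nd (nat_lit 78) (nat_lit 0) (nat_lit 0) (XT.lf (nat_lit 0) (nat_lit 829343357) (nat_lit 152) (nat_lit 16865917495) (nat_lit 76) (nat_lit 12309013850) (nat_lit 5) (nat_lit 5) (nat_lit 7) (nat_lit 5) (nat_lit 6) (nat_lit 4) (nat_lit 277) (nat_lit 240) (nat_lit 203)) (XT.nd (nat_lit 78) (nat_lit 0) (nat_lit 0) (XT.lf (nat_lit 0) (nat_lit 3669428117) (nat_lit 152) (nat_lit 11043309091) (nat_lit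 76) (nat_lit 17336521174) (nat_lit 5) (nat_lit 5) (nat_lit 7) (nat_lit 5) (nat_lit 6) (nat_lit 4) (nat_lit 278) (nat_lit 240) (nat_lit 202)) (XT.lf (nat_lit 0) (nat_lit 6704918661) (nat_lit 152) (nat_lit 4807977555) (nat_lit 76) (nat_lit 22747611471) (nat_lit 5) (nat_lit 5) (nat_lit 7) (nat_lit 5) (nat_lit 6) (nat_lit 4) (nat_lit 279) (nat_lit 240) (nat_lit 201)))))) (XT.nd (nat_lit 468) (nat_lit 76) (nat_lit 0) (XT.nd (nat_lit 234) (nat_lit 0) (nat_lit 0) (XT.nd (nat_lit 78) (nat_lit 0) (nat_lit 0) (XT.lf (nat_lit 0) (nat_lit 1975868153) (nat_lit 76) (nat_lit 8025454603) (nat_lit 152) (nat_lit 26646001985) (nat_lit 4) (nat_lit 5) (nat_lit 5) (nat_lit 5) (nat_lit 6) (nat_lit 4) (nat_lit 280) (nat_lit 240) (nat_lit 200)) (XT.nd (nat_lit 78) (nat_lit 0) (nat_lit 0) (XT.lf (nat_lit 0) (nat_lit 9527946572) (nat_lit 76) (nat_lit 4136534794) (nat_lit 152) (nat_lit 25552467744) (nat_lit 4)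 (nat_lit 5) (nat_lit 5) (nat_lit 5) (nat_lit 6) (nat_lit 4) (nat_lit 281) (nat_lit 240) (nat_lit 199)) (XT.lf (nat_lit 0) (nat_lit 17595474221) (nat_lit 152) (nat_lit 24355607767) (nat_lit 0) (nat_lit 43176438) (nat_lit 4) (nat_lit 5) (nat_lit 6) (nat_lit 4) (nat_lit 4) (nat_lit 4) (nat_lit 282) (nat_lit 240) (nat_lit 198)))) (XT.nd (nat_lit 78) (nat_lit 0) (nat_lit 0) (XT.lf (nat_lit 0) (nat_lit 21923624534) (nat_lit 152) (nat_lit 18745695412) (nat_lit 0) (nat_lit 4317908596) (nat_lit 4) (nat_lit 5) (nat_lit 6) (nat_lit 4) (nat_lit 4) (nat_lit 4) (nat_lit 283) (nat_lit 240) (nat_lit 197)) (XT.nd (nat_lit 78) (nat_lit 0) (nat_lit 0) (XT.lf (nat_lit 0) (nat_lit 26575096843) (nat_lit 152) (nat_lit 12726537789) (nat_lit 0) (nat_lit 8919919650) (nat_lit 4) (nat_lit 5) (nat_lit 6) (nat_lit 4) (nat_lit 4) (nat_lit 4) (nat_lit 284) (nat_lit 240) (nat_lit 196)) (XT.lf (nat_lit 0) (nat_lit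 31577455427) (nat_lit 152) (nat_lit 6262465814) (nat_lit 0) (nat_lit 13876480777) (nat_lit 4) (nat_lit 5) (nat_lit 6) (nat_lit 4) (nat_lit 4) (nat_lit 4) (nat_lit 285) (nat_lit 240) (nat_lit 195))))) (XT.nd (nat_lit 234) (nat_lit 0) (nat_lit 0) (XT.nd (nat_lit 78) (nat_lit 0) (nat_lit 0) (XT.lf (nat_lit 0) (nat_lit 720887852) (nat_lit 76) (nat_lit 36256793410) (nat_lit 76) (nat_lit 18513413707) (nat_lit 3) (nat_lit 4) (nat_lit 4) (nat_lit 5) (nat_lit 4) (nat_lit 4) (nat_lit 286) (nat_lit 240) (nat_lit 194)) (XT.nd (nat_lit 78) (nat_lit 0) (nat_lit 0) (XT.lf (nat_lit 0) (nat_lit 8586014373) (nat_lit 76) (nat_lit 34376140318) (nat_lit 76) (nat_lit 16593496676) (nat_lit 3) (nat_lit 4) (nat_lit 4) (nat_lit 5) (nat_lit 4) (nat_lit 4) (nat_lit 287) (nat_lit 240) (nat_lit 193)) (XT.lf (nat_lit 0) (nat_lit 17049751552) (nat_lit 76) (nat_lit 32358044268) (nat_lit 76) (nat_lit 14539045127) (nat_lit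 3) (nat_lit 4) (nat_lit 4) (nat_lit 5) (nat_lit 4) (nat_lit 4) (nat_lit 288) (nat_lit 240) (nat_lit 192)))) (XT.nd (nat_lit 78) (nat_lit 0) (nat_lit 0) (XT.lf (nat_lit 0) (nat_lit 26162254869) (nat_lit 76) (nat_lit 30190546171) (nat_lit 76) (nat_lit 12337884532) (nat_lit 3) (nat_lit 4) (nat_lit 4) (nat_lit 5) (nat_lit 4) (nat_lit 4) (nat_lit 289) (nat_lit 240) (nat_lit 191)) (XT.nd (nat_lit 78) (nat_lit 0) (nat_lit 0) (XT.lf (nat_lit 0) (nat_lit 35977524343) (nat_lit 76) (nat_lit 27860801595) (nat_lit 76) (nat_lit 9976970976) (nat_lit 3) (nat_lit 4) (nat_lit 4) (nat_lit 5) (nat_lit 4) (nat_lit 4) (nat_lit 290) (nat_lit 240) (nat_lit 190)) (XT.lf (nat_lit 0) (nat_lit 46553724534) (nat_lit 76) (nat_lit 25355004647) (nat_lit 76) (nat_lit 7442313861) (nat_lit 3) (nat_lit 4) (nat_lit 4) (nat_lit 5) (nat_lit 4) (nat_lit 4) (nat_lit 291) (nat_lit 240) (nat_lit 189))))))) (XT.nd (nat_lit 858)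 (nat_lit 0) (nat_lit 0) (XT.nd (nat_lit 390) (nat_lit 76) (nat_lit 0) (XT.nd (nat_lit 156) (nat_lit 76) (nat_lit 0) (XT.nd (nat_lit 78) (nat_lit 0) (nat_lit 0) (XT.lf (nat_lit 0) (nat_lit 57953529222) (nat_lit 76) (nat_lit 22658306158) (nat_lit 76) (nat_lit 4718892996) (nat_lit 3) (nat_lit 4) (nat_lit 4) (nat_lit 5) (nat_lit 4) (nat_lit 4) (nat_lit 292) (nat_lit 240) (nat_lit 188)) (XT.lf (nat_lit 0) (nat_lit 70244492805) (nat_lit 76) (nat_lit 19754725694) (nat_lit 76) (nat_lit 1790569590) (nat_lit 3) (nat_lit 4) (nat_lit 4) (nat_lit 5) (nat_lit 4) (nat_lit 4) (nat_lit 293) (nat_lit 240) (nat_lit 187))) (XT.nd (nat_lit 78) (nat_lit 0) (nat_lit 0) (XT.lf (nat_lit 0) (nat_lit 1291976205) (nat_lit 152) (nat_lit 15299755727) (nat_lit 76) (nat_lit 82172149497) (nat_lit 2) (nat_lit 5) (nat_lit 4) (nat_lit 5) (nat_lit 3) (nat_lit 4) (nat_lit 294) (nat_lit 240) (nat_lit 186)) (XT.nd (nat_lit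 78) (nat_lit 0) (nat_lit 0) (XT.lf (nat_lit 0) (nat_lit 4513824046) (nat_lit 152) (nat_lit 8619525302) (nat_lit 76) (nat_lit 93159710575) (nat_lit 2) (nat_lit 5) (nat_lit 4) (nat_lit 5) (nat_lit 3) (nat_lit 4) (nat_lit 295) (nat_lit 240) (nat_lit 185)) (XT.lf (nat_lit 0) (nat_lit 7983637907) (nat_lit 152) (nat_lit 1421954216) (nat_lit 76) (nat_lit 105019793861) (nat_lit 2) (nat_lit 5) (nat_lit 4) (nat_lit 5) (nat_lit 3) (nat_lit 4) (nat_lit 296) (nat_lit 240) (nat_lit 184))))) (XT.nd (nat_lit 234) (nat_lit 0) (nat_lit 0) (XT.nd (nat_lit 78) (nat_lit 0) (nat_lit 0) (XT.lf (nat_lit 0) (nat_lit 6669231786) (nat_lit 76) (nat_lit 5213143045) (nat_lit 152) (nat_lit 111313844728) (nat_lit 1) (nat_lit 5) (nat_lit 2) (nat_lit 5) (nat_lit 3) (nat_lit 4) (nat_lit 297) (nat_lit 240) (nat_lit 183)) (XT.nd (nat_lit 78) (nat_lit 0) (nat_lit 0) (XT.lf (nat_lit 0) (nat_lit 15473168036) (nat_lit 76)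 (nat_lit 649964430) (nat_lit 152) (nat_lit 116543203972) (nat_lit 1) (nat_lit 5) (nat_lit 2) (nat_lit 5) (nat_lit 3) (nat_lit 4) (nat_lit 298) (nat_lit 240) (nat_lit 182)) (XT.lf (nat_lit 0) (nat_lit 20797786637) (nat_lit 152) (nat_lit 118030331575) (nat_lit 0) (nat_lit 4058397985) (nat_lit 1) (nat_lit 5) (nat_lit 3) (nat_lit 4) (nat_lit 1) (nat_lit 4) (nat_lit 299) (nat_lit 240) (nat_lit 181)))) (XT.nd (nat_lit 78) (nat_lit 0) (nat_lit 0) (XT.lf (nat_lit 0) (nat_lit 25855650397) (nat_lit 152) (nat_lit 118965049655) (nat_lit 0) (nat_lit 9102893903) (nat_lit 1) (nat_lit 5) (nat_lit 3) (nat_lit 4) (nat_lit 1) (nat_lit 4) (nat_lit 300) (nat_lit 240) (nat_lit 180)) (XT.nd (nat_lit 78) (nat_lit 0) (nat_lit 0) (XT.lf (nat_lit 0) (nat_lit 31311064610) (nat_lit 152) (nat_lit 119987230052) (nat_lit 0) (nat_lit 14545930486) (nat_lit 1) (nat_lit 5) (nat_lit 3) (nat_lit 4) (nat_lit 1) (nat_lit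 4) (nat_lit 301) (nat_lit 240) (nat_lit 179)) (XT.lf (nat_lit 0) (nat_lit 37196357658) (nat_lit 152) (nat_lit 121102930131) (nat_lit 0) (nat_lit 20419762765) (nat_lit 1) (nat_lit 5) (nat_lit 3) (nat_lit 4) (nat_lit 1) (nat_lit 4) (nat_lit 302) (nat_lit 240) (nat_lit 178)))))) (XT.nd (nat_lit 468) (nat_lit 0) (nat_lit 0) (XT.nd (nat_lit 234) (nat_lit 0) (nat_lit 0) (XT.nd (nat_lit 78) (nat_lit 0) (nat_lit 0) (XT.lf (nat_lit 0) (nat_lit 43546405351) (nat_lit 152) (nat_lit 122318761449) (nat_lit 0) (nat_lit 26759198634) (nat_lit 1) (nat_lit 5) (nat_lit 3) (nat_lit 4) (nat_lit 1) (nat_lit 4) (nat_lit 303) (nat_lit 240) (nat_lit 177)) (XT.nd (nat_lit 78) (nat_lit 0) (nat_lit 0) (XT.lf (nat_lit 0) (nat_lit 50398837602) (nat_lit 152) (nat_lit 123641928932) (nat_lit 0) (nat_lit 33601805122) (nat_lit 1) (nat_lit 5) (nat_lit 3) (nat_lit 4) (nat_lit 1) (nat_lit 4) (nat_lit 304) (nat_lit 240)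 (nat_lit 176)) (XT.lf (nat_lit 0) (nat_lit 57794261416) (nat_lit 152) (nat_lit 125080273572) (nat_lit 0) (nat_lit 40988131008) (nat_lit 1) (nat_lit 5) (nat_lit 3) (nat_lit 4) (nat_lit 1) (nat_lit 4) (nat_lit 305) (nat_lit 240) (nat_lit 175)))) (XT.nd (nat_lit 78) (nat_lit 0) (nat_lit 0) (XT.lf (nat_lit 0) (nat_lit 65776501527) (nat_lit 152) (nat_lit 126642318893) (nat_lit 0) (nat_lit 48961947111) (nat_lit 1) (nat_lit 5) (nat_lit 3) (nat_lit 4) (nat_lit 1) (nat_lit 4) (nat_lit 306) (nat_lit 240) (nat_lit 174)) (XT.nd (nat_lit 78) (nat_lit 0) (nat_lit 0) (XT.lf (nat_lit 0) (nat_lit 74392860098) (nat_lit 152) (nat_lit 128337321460) (nat_lit 0) (nat_lit 57570505676) (nat_lit 1) (nat_lit 5) (nat_lit 3) (nat_lit 4) (nat_lit 1) (nat_lit 4) (nat_lit 307) (nat_lit 240) (nat_lit 173)) (XT.lf (nat_lit 0) (nat_lit 83694397033) (nat_lit 152) (nat_lit 130175325733) (nat_lit 0) (nat_lit 66864820382)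 (nat_lit 1) (nat_lit 5) (nat_lit 3) (nat_lit 4) (nat_lit 1) (nat_lit 4) (nat_lit 308) (nat_lit 240) (nat_lit 172))))) (XT.nd (nat_lit 234) (nat_lit 0) (nat_lit 0) (XT.nd (nat_lit 78) (nat_lit 0) (nat_lit 0) (XT.lf (nat_lit 0) (nat_lit 93736232550) (nat_lit 152) (nat_lit 132167223589) (nat_lit 0) (nat_lit 76899968651) (nat_lit 1) (nat_lit 5) (nat_lit 3) (nat_lit 4) (nat_lit 1) (nat_lit 4) (nat_lit 309) (nat_lit 240) (nat_lit 171)) (XT.nd (nat_lit 78) (nat_lit 0) (nat_lit 0) (XT.lf (nat_lit 0) (nat_lit 104577873823) (nat_lit 152) (nat_lit 134324818867) (nat_lit 0) (nat_lit 87735418026) (nat_lit 1) (nat_lit 5) (nat_lit 3) (nat_lit 4) (nat_lit 1) (nat_lit 4) (nat_lit 310) (nat_lit 240) (nat_lit 170)) (XT.lf (nat_lit 0) (nat_lit 116283567615) (nat_lit 152) (nat_lit 136660897316) (nat_lit 0) (nat_lit 99435378580) (nat_lit 1) (nat_lit 5) (nat_lit 3) (nat_lit 4) (nat_lit 1) (nat_lit 4) (nat_lit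 311) (nat_lit 240) (nat_lit 169)))) (XT.nd (nat_lit 78) (nat_lit 0) (nat_lit 0) (XT.lf (nat_lit 0) (nat_lit 128922680999) (nat_lit 152) (nat_lit 139189302365) (nat_lit 0) (nat_lit 112069183411) (nat_lit 1) (nat_lit 5) (nat_lit 3) (nat_lit 4) (nat_lit 1) (nat_lit 4) (nat_lit 312) (nat_lit 240) (nat_lit 168)) (XT.nd (nat_lit 78) (nat_lit 0) (nat_lit 0) (XT.lf (nat_lit 0) (nat_lit 142570112427) (nat_lit 152) (nat_lit 141925017155) (nat_lit 0) (nat_lit 125711699511) (nat_lit 1) (nat_lit 5) (nat_lit 3) (nat_lit 4) (nat_lit 1) (nat_lit 4) (nat_lit 313) (nat_lit 240) (nat_lit 167)) (XT.lf (nat_lit 0) (nat_lit 157306735565) (nat_lit 152) (nat_lit 144884253329) (nat_lit 0) (nat_lit 140443771419) (nat_lit 1) (nat_lit 5) (nat_lit 3) (nat_lit 4) (nat_lit 1) (nat_lit 4) (nat_lit 314) (nat_lit 240) (nat_lit 166))))))))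
noncomputable def xc51 : XT := (XT.nd (nat_lit 31980) (nat_lit 0) (nat_lit 836) (XT.nd (nat_lit 858) (nat_lit 0) (nat_lit 0) (XT.nd (nat_lit 390) (nat_lit 0) (nat_lit 0) (XT.nd (nat_lit 156) (nat_lit 0) (nat_lit 0) (XT.nd (nat_lit 78) (nat_lit 0) (nat_lit 0) (XT.lf (nat_lit 0) (nat_lit 173219878550) (nat_lit 152) (nat_lit 148084547100) (nat_lit 0) (nat_lit 156352700304) (nat_lit 1) (nat_lit 5) (nat_lit 3) (nat_lit 4) (nat_lit 1) (nat_lit 4) (nat_lit 315) (nat_lit 240) (nat_lit 165)) (XT.lf (nat_lit 0) (nat_lit 190403841490) (nat_lit 152) (nat_lit 151544863174) (nat_lit 0) (nat_lit 173532761298) (nat_lit 1) (nat_lit 5) (nat_lit 3) (nat_lit 4) (nat_lit 1) (nat_lit 4) (nat_lit 316) (nat_lit 240) (nat_lit 164))) (XT.nd (nat_lit 78) (nat_lit 0) (nat_lit 0) (XT.lf (nat_lit 0) (nat_lit 208960455275) (nat_lit 152) (nat_lit 155285707127) (nat_lit 0) (nat_lit 192085762171) (nat_lit 1) (nat_lit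 5) (nat_lit 3) (nat_lit 4) (nat_lit 1) (nat_lit 4) (nat_lit 317) (nat_lit 240) (nat_lit 163)) (XT.nd (nat_lit 78) (nat_lit 0) (nat_lit 0) (XT.lf (nat_lit 0) (nat_lit 228999685024) (nat_lit 152) (nat_lit 159329246922) (nat_lit 0) (nat_lit 212121646631) (nat_lit 1) (nat_lit 5) (nat_lit 3) (nat_lit 4) (nat_lit 1) (nat_lit 4) (nat_lit 318) (nat_lit 240) (nat_lit 162)) (XT.lf (nat_lit 0) (nat_lit 250640281730) (nat_lit 152) (nat_lit 163699444278) (nat_lit 0) (nat_lit 233759145846) (nat_lit 1) (nat_lit 5) (nat_lit 3) (nat_lit 4) (nat_lit 1) (nat_lit 4) (nat_lit 319) (nat_lit 240) (nat_lit 161))))) (XT.nd (nat_lit 234) (nat_lit 0) (nat_lit 0) (XT.nd (nat_lit 78) (nat_lit 0) (nat_lit 0) (XT.lf (nat_lit 0) (nat_lit 274010485963) (nat_lit 152) (nat_lit 168422196660) (nat_lit 0) (nat_lit 257126482033) (nat_lit 1) (nat_lit 5) (nat_lit 3) (nat_lit 4) (nat_lit 1) (nat_lit 4) (nat_lit 320) (nat_lit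 240) (nat_lit 160)) (XT.nd (nat_lit 78) (nat_lit 0) (nat_lit 0) (XT.lf (nat_lit 0) (nat_lit 299248787825) (nat_lit 152) (nat_lit 173525490749) (nat_lit 0) (nat_lit 282362128296) (nat_lit 1) (nat_lit 5) (nat_lit 3) (nat_lit 4) (nat_lit 1) (nat_lit 4) (nat_lit 321) (nat_lit 240) (nat_lit 159)) (XT.lf (nat_lit 0) (nat_lit 326504747621) (nat_lit 152) (nat_lit 179039568287) (nat_lit 0) (nat_lit 309615629205) (nat_lit 1) (nat_lit 5) (nat_lit 3) (nat_lit 4) (nat_lit 1) (nat_lit 4) (nat_lit 322) (nat_lit 240) (nat_lit 158)))) (XT.nd (nat_lit 78) (nat_lit 0) (nat_lit 0) (XT.lf (nat_lit 0) (nat_lit 355939882151) (nat_lit 152) (nat_lit 184997105290) (nat_lit 0) (nat_lit 339048486987) (nat_lit 1) (nat_lit 5) (nat_lit 3) (nat_lit 4) (nat_lit 1) (nat_lit 4) (nat_lit 323) (nat_lit 240) (nat_lit 157)) (XT.nd (nat_lit 78) (nat_lit 0) (nat_lit 0) (XT.lf (nat_lit 0) (nat_lit 387728621842) (nat_lit 152)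 (nat_lit 191433405680) (nat_lit 0) (nat_lit 370835118579) (nat_lit 1) (nat_lit 5) (nat_lit 3) (nat_lit 4) (nat_lit 1) (nat_lit 4) (nat_lit 324) (nat_lit 240) (nat_lit 156)) (XT.lf (nat_lit 0) (nat_lit 422059344410) (nat_lit 152) (nat_lit 198386610498) (nat_lit 0) (nat_lit 405163889203) (nat_lit 1) (nat_lit 5) (nat_lit 3) (nat_lit 4) (nat_lit 1) (nat_lit 4) (nat_lit 325) (nat_lit 240) (nat_lit 155)))))) (XT.nd (nat_lit 468) (nat_lit 0) (nat_lit 0) (XT.nd (nat_lit 234) (nat_lit 0) (nat_lit 0) (XT.nd (nat_lit 78) (nat_lit 0) (nat_lit 0) (XT.lf (nat_lit 0) (nat_lit 459135491175) (nat_lit 152) (nat_lit 205897923919) (nat_lit 0) (nat_lit 442238228612) (nat_lit 1) (nat_lit 5) (nat_lit 3) (nat_lit 4) (nat_lit 1) (nat_lit 4) (nat_lit 326) (nat_lit 240) (nat_lit 154)) (XT.nd (nat_lit 78) (nat_lit 0) (nat_lit 0) (XT.lf (nat_lit 0) (nat_lit 499176772635) (nat_lit 152) (nat_lit 214011857431) (nat_lit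 0) (nat_lit 482277836594) (nat_lit 1) (nat_lit 5) (nat_lit 3) (nat_lit 4) (nat_lit 1) (nat_lit 4) (nat_lit 327) (nat_lit 240) (nat_lit 153)) (XT.lf (nat_lit 0) (nat_lit 542420470459) (nat_lit 152) (nat_lit 222776493602) (nat_lit 0) (nat_lit 525519984902) (nat_lit 1) (nat_lit 5) (nat_lit 3) (nat_lit 4) (nat_lit 1) (nat_lit 4) (nat_lit 328) (nat_lit 240) (nat_lit 152)))) (XT.nd (nat_lit 78) (nat_lit 0) (nat_lit 0) (XT.lf (nat_lit 0) (nat_lit 589122843596) (nat_lit 152) (nat_lit 232243771017) (nat_lit 0) (nat_lit 572220923302) (nat_lit 1) (nat_lit 5) (nat_lit 3) (nat_lit 4) (nat_lit 1) (nat_lit 4) (nat_lit 329) (nat_lit 240) (nat_lit 151)) (XT.nd (nat_lit 78) (nat_lit 0) (nat_lit 0) (XT.lf (nat_lit 0) (nat_lit 639560646851) (nat_lit 152) (nat_lit 242469792062) (nat_lit 0) (nat_lit 622657398096) (nat_lit 1) (nat_lit 5) (nat_lit 3) (nat_lit 4) (nat_lit 1) (nat_lit 4) (nat_lit 330) (nat_lit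 240) (nat_lit 150)) (XT.lf (nat_lit 0) (nat_lit 694032770909) (nat_lit 152) (nat_lit 253515155379) (nat_lit 0) (nat_lit 677128292099) (nat_lit 1) (nat_lit 5) (nat_lit 3) (nat_lit 4) (nat_lit 1) (nat_lit 4) (nat_lit 331) (nat_lit 240) (nat_lit 149))))) (XT.nd (nat_lit 30420) (nat_lit 0) (nat_lit 3496) (XT.nd (nat_lit 78) (nat_lit 0) (nat_lit 0) (XT.lf (nat_lit 0) (nat_lit 752862013543) (nat_lit 152) (nat_lit 265445314972) (nat_lit 0) (nat_lit 735956395792) (nat_lit 1) (nat_lit 5) (nat_lit 3) (nat_lit 4) (nat_lit 1) (nat_lit 4) (nat_lit 332) (nat_lit 240) (nat_lit 148)) (XT.nd (nat_lit 78) (nat_lit 0) (nat_lit 0) (XT.lf (nat_lit 0) (nat_lit 816396992486) (nat_lit 152) (nat_lit 278330968085) (nat_lit 0) (nat_lit 799490320160) (nat_lit 1) (nat_lit 5) (nat_lit 3) (nat_lit 4) (nat_lit 1) (nat_lit 4) (nat_lit 333) (nat_lit 240) (nat_lit 147)) (XT.lf (nat_lit 0) (nat_lit 885014211318) (nat_lit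 152) (nat_lit 292248474143) (nat_lit 0) (nat_lit 868106562534) (nat_lit 1) (nat_lit 5) (nat_lit 3) (nat_lit 4) (nat_lit 1) (nat_lit 4) (nat_lit 334) (nat_lit 240) (nat_lit 146)))) (XT.nd (nat_lit 78) (nat_lit 228) (nat_lit 0) (XT.lf (nat_lit 0) (nat_lit 1286949799) (nat_lit 0) (nat_lit 1286949799) (nat_lit 76) (nat_lit 660859043) (nat_lit 50) (nat_lit 5) (nat_lit 50) (nat_lit 3) (nat_lit 51) (nat_lit 0) (nat_lit 241) (nat_lit 241) (nat_lit 238)) (XT.nd (nat_lit 78) (nat_lit 0) (nat_lit 0) (XT.lf (nat_lit 0) (nat_lit 1045911040) (nat_lit 228) (nat_lit 1154849352) (nat_lit 228) (nat_lit 4310928760) (nat_lit 47) (nat_lit 3) (nat_lit 50) (nat_lit 3) (nat_lit 50) (nat_lit 5) (nat_lit 242) (nat_lit 241) (nat_lit 237)) (XT.lf (nat_lit 76) (nat_lit 1728716211) (nat_lit 0) (nat_lit 1609116181) (nat_lit 228) (nat_lit 3235265798) (nat_lit 48) (nat_lit 5) (nat_lit 47) (nat_lit 3) (nat_lit 50)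 (nat_lit 5) (nat_lit 243) (nat_lit 241) (nat_lit 236))))))) (XT.nd (nat_lit 858) (nat_lit 988) (nat_lit 0) (XT.nd (nat_lit 390) (nat_lit 1216) (nat_lit 0) (XT.nd (nat_lit 156) (nat_lit 304) (nat_lit 0) (XT.nd (nat_lit 78) (nat_lit 152) (nat_lit 0) (XT.lf (nat_lit 76) (nat_lit 4783289027) (nat_lit 0) (nat_lit 840521233) (nat_lit 228) (nat_lit 1033635841) (nat_lit 48) (nat_lit 5) (nat_lit 47) (nat_lit 3) (nat_lit 50) (nat_lit 5) (nat_lit 244) (nat_lit 241) (nat_lit 235)) (XT.lf (nat_lit 0) (nat_lit 1097534831) (nat_lit 228) (nat_lit 5533056616) (nat_lit 76) (nat_lit 132183563) (nat_lit 45) (nat_lit 5) (nat_lit 48) (nat_lit 5) (nat_lit 46) (nat_lit 5) (nat_lit 245) (nat_lit 241) (nat_lit 234))) (XT.nd (nat_lit 78) (nat_lit 304) (nat_lit 0) (XT.lf (nat_lit 0) (nat_lit 3219852868) (nat_lit 228) (nat_lit 2380414442) (nat_lit 76) (nat_lit 1286283478) (nat_lit 45) (nat_lit 5) (nat_lit 48)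 (nat_lit 5) (nat_lit 46) (nat_lit 5) (nat_lit 246) (nat_lit 241) (nat_lit 233)) (XT.nd (nat_lit 78) (nat_lit 76) (nat_lit 0) (XT.lf (nat_lit 0) (nat_lit 935630032) (nat_lit 228) (nat_lit 4415579553) (nat_lit 304) (nat_lit 1683997417) (nat_lit 42) (nat_lit 5) (nat_lit 45) (nat_lit 5) (nat_lit 46) (nat_lit 5) (nat_lit 247) (nat_lit 241) (nat_lit 232)) (XT.lf (nat_lit 0) (nat_lit 322010525) (nat_lit 304) (nat_lit 2694336577) (nat_lit 76) (nat_lit 4189339648) (nat_lit 41) (nat_lit 5) (nat_lit 45) (nat_lit 5) (nat_lit 42) (nat_lit 5) (nat_lit 248) (nat_lit 241) (nat_lit 231))))) (XT.nd (nat_lit 234) (nat_lit 532) (nat_lit 0) (XT.nd (nat_lit 78) (nat_lit 380) (nat_lit 0) (XT.lf (nat_lit 0) (nat_lit 849257901) (nat_lit 304) (nat_lit 1402753951) (nat_lit 380) (nat_lit 5147616258) (nat_lit 37) (nat_lit 5) (nat_lit 41) (nat_lit 5) (nat_lit 42) (nat_lit 5) (nat_lit 249) (nat_lit 241) (nat_lit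 230)) (XT.nd (nat_lit 78) (nat_lit 380) (nat_lit 0) (XT.lf (nat_lit 0) (nat_lit 4264072463) (nat_lit 380) (nat_lit 2927911195) (nat_lit 76) (nat_lit 424445645) (nat_lit 37) (nat_lit 5) (nat_lit 42) (nat_lit 5) (nat_lit 38) (nat_lit 5) (nat_lit 250) (nat_lit 241) (nat_lit 229)) (XT.lf (nat_lit 0) (nat_lit 857274844) (nat_lit 380) (nat_lit 5492341044) (nat_lit 456) (nat_lit 1509399174) (nat_lit 32) (nat_lit 5) (nat_lit 37) (nat_lit 5) (nat_lit 38) (nat_lit 5) (nat_lit 251) (nat_lit 241) (nat_lit 228)))) (XT.nd (nat_lit 78) (nat_lit 456) (nat_lit 0) (XT.lf (nat_lit 0) (nat_lit 397283479) (nat_lit 456) (nat_lit 3155302895) (nat_lit 76) (nat_lit 4573504096) (nat_lit 31) (nat_lit 5) (nat_lit 37) (nat_lit 5) (nat_lit 32) (nat_lit 5) (nat_lit 252) (nat_lit 241) (nat_lit 227)) (XT.nd (nat_lit 78) (nat_lit 0) (nat_lit 0) (XT.lf (nat_lit 0) (nat_lit 874851411) (nat_lit 456) (nat_lit 1389861368)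 (nat_lit 532) (nat_lit 6156646647) (nat_lit 25) (nat_lit 5) (nat_lit 31) (nat_lit 5) (nat_lit 32) (nat_lit 5) (nat_lit 253) (nat_lit 241) (nat_lit 226)) (XT.lf (nat_lit 0) (nat_lit 4268209334) (nat_lit 532) (nat_lit 3487784260) (nat_lit 76) (nat_lit 986382315) (nat_lit 25) (nat_lit 5) (nat_lit 32) (nat_lit 5) (nat_lit 26) (nat_lit 5) (nat_lit 254) (nat_lit 241) (nat_lit 225)))))) (XT.nd (nat_lit 468) (nat_lit 380) (nat_lit 0) (XT.nd (nat_lit 234) (nat_lit 152) (nat_lit 0) (XT.nd (nat_lit 78) (nat_lit 228) (nat_lit 0) (XT.lf (nat_lit 0) (nat_lit 771939953) (nat_lit 228) (nat_lit 5599351906) (nat_lit 304) (nat_lit 2723618687) (nat_lit 22) (nat_lit 5) (nat_lit 25) (nat_lit 5) (nat_lit 26) (nat_lit 5) (nat_lit 255) (nat_lit 241) (nat_lit 224)) (XT.nd (nat_lit 78) (nat_lit 228) (nat_lit 0) (XT.lf (nat_lit 0) (nat_lit 5447778035) (nat_lit 228) (nat_lit 3180432488) (nat_lit 304) (nat_lit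 849498915) (nat_lit 22) (nat_lit 5) (nat_lit 25) (nat_lit 5) (nat_lit 26) (nat_lit 5) (nat_lit 256) (nat_lit 241) (nat_lit 223)) (XT.lf (nat_lit 0) (nat_lit 482207503) (nat_lit 152) (nat_lit 540103623) (nat_lit 228) (nat_lit 8874818977) (nat_lit 19) (nat_lit 5) (nat_lit 21) (nat_lit 5) (nat_lit 22) (nat_lit 5) (nat_lit 257) (nat_lit 241) (nat_lit 222)))) (XT.nd (nat_lit 78) (nat_lit 152) (nat_lit 0) (XT.lf (nat_lit 0) (nat_lit 3066083659) (nat_lit 228) (nat_lit 4962797806) (nat_lit 76) (nat_lit 2314730060) (nat_lit 19) (nat_lit 5) (nat_lit 22) (nat_lit 5) (nat_lit 20) (nat_lit 5) (nat_lit 258) (nat_lit 241) (nat_lit 221)) (XT.nd (nat_lit 78) (nat_lit 152) (nat_lit 0) (XT.lf (nat_lit 0) (nat_lit 5194307771) (nat_lit 228) (nat_lit 284730011) (nat_lit 76) (nat_lit 5353765579) (nat_lit 19) (nat_lit 5) (nat_lit 22) (nat_lit 5) (nat_lit 20) (nat_lit 5) (nat_lit 259) (nat_lit 241) (nat_lit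 220)) (XT.lf (nat_lit 0) (nat_lit 4905379104) (nat_lit 152) (nat_lit 2619201037) (nat_lit 228) (nat_lit 3834625583) (nat_lit 17) (nat_lit 5) (nat_lit 19) (nat_lit 5) (nat_lit 20) (nat_lit 5) (nat_lit 260) (nat_lit 241) (nat_lit 219))))) (XT.nd (nat_lit 234) (nat_lit 152) (nat_lit 0) (XT.nd (nat_lit 78) (nat_lit 228) (nat_lit 0) (XT.lf (nat_lit 0) (nat_lit 9977686749) (nat_lit 228) (nat_lit 1523182894) (nat_lit 76) (nat_lit 432510240) (nat_lit 17) (nat_lit 5) (nat_lit 20) (nat_lit 5) (nat_lit 18) (nat_lit 4) (nat_lit 261) (nat_lit 241) (nat_lit 218)) (XT.nd (nat_lit 78) (nat_lit 0) (nat_lit 0) (XT.lf (nat_lit 0) (nat_lit 154752572) (nat_lit 228) (nat_lit 8729438644) (nat_lit 76) (nat_lit 3662855903) (nat_lit 14) (nat_lit 5) (nat_lit 17) (nat_lit 5) (nat_lit 15) (nat_lit 5) (nat_lit 262) (nat_lit 241) (nat_lit 217)) (XT.lf (nat_lit 0) (nat_lit 2295266883) (nat_lit 228) (nat_lit 3691127094)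 (nat_lit 76) (nat_lit 7222453233) (nat_lit 14) (nat_lit 5) (nat_lit 17) (nat_lit 5) (nat_lit 15) (nat_lit 5) (nat_lit 263) (nat_lit 241) (nat_lit 216)))) (XT.nd (nat_lit 78) (nat_lit 0) (nat_lit 0) (XT.lf (nat_lit 0) (nat_lit 1740014111) (nat_lit 152) (nat_lit 2838636096) (nat_lit 228) (nat_lit 9347631750) (nat_lit 12) (nat_lit 5) (nat_lit 14) (nat_lit 5) (nat_lit 15) (nat_lit 5) (nat_lit 264) (nat_lit 241) (nat_lit 215)) (XT.nd (nat_lit 78) (nat_lit 0) (nat_lit 0) (XT.lf (nat_lit 0) (nat_lit 7093778034) (nat_lit 228) (nat_lit 6993512358) (nat_lit 76) (nat_lit 610284888) (nat_lit 12) (nat_lit 5) (nat_lit 15) (nat_lit 5) (nat_lit 13) (nat_lit 4) (nat_lit 265) (nat_lit 241) (nat_lit 214)) (XT.lf (nat_lit 0) (nat_lit 9820920828) (nat_lit 228) (nat_lit 1551592132) (nat_lit 76) (nat_lit 4157555565) (nat_lit 12) (nat_lit 5) (nat_lit 15) (nat_lit 5) (nat_lit 13) (nat_lit 4) (nat_lit 266)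 (nat_lit 241) (nat_lit 213))))))))
noncomputable def xc52 : XT := (XT.nd (nat_lit 1794) (nat_lit 152) (nat_lit 0) (XT.nd (nat_lit 858) (nat_lit 228) (nat_lit 0) (XT.nd (nat_lit 390) (nat_lit 152) (nat_lit 0) (XT.nd (nat_lit 156) (nat_lit 228) (nat_lit 0) (XT.nd (nat_lit 78) (nat_lit 0) (nat_lit 0) (XT.lf (nat_lit 0) (nat_lit 4463281954) (nat_lit 76) (nat_lit 8352030256) (nat_lit 152) (nat_lit 3610256954) (nat_lit 11) (nat_lit 5) (nat_lit 12) (nat_lit 5) (nat_lit 13) (nat_lit 4) (nat_lit 267) (nat_lit 241) (nat_lit 212)) (XT.lf (nat_lit 0) (nat_lit 10964084081) (nat_lit 76) (nat_lit 5071636909) (nat_lit 152) (nat_lit 1358380933) (nat_lit 11) (nat_lit 5) (nat_lit 12) (nat_lit 5) (nat_lit 13) (nat_lit 4) (nat_lit 268) (nat_lit 241) (nat_lit 211))) (XT.nd (nat_lit 78) (nat_lit 152) (nat_lit 0) (XT.lf (nat_lit 0) (nat_lit 966506989) (nat_lit 152) (nat_lit 561383829) (nat_lit 76) (nat_lit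 16914700425) (nat_lit 10) (nat_lit 5) (nat_lit 12) (nat_lit 5) (nat_lit 11) (nat_lit 5) (nat_lit 269) (nat_lit 241) (nat_lit 210)) (XT.nd (nat_lit 78) (nat_lit 0) (nat_lit 0) (XT.lf (nat_lit 0) (nat_lit 3557336536) (nat_lit 228) (nat_lit 13658771980) (nat_lit 76) (nat_lit 2344007084) (nat_lit 8) (nat_lit 5) (nat_lit 11) (nat_lit 5) (nat_lit 9) (nat_lit 4) (nat_lit 270) (nat_lit 241) (nat_lit 209)) (XT.lf (nat_lit 0) (nat_lit 6362711835) (nat_lit 228) (nat_lit 7968868639) (nat_lit 76) (nat_lit 6435106469) (nat_lit 8) (nat_lit 5) (nat_lit 11) (nat_lit 5) (nat_lit 9) (nat_lit 4) (nat_lit 271) (nat_lit 241) (nat_lit 208))))) (XT.nd (nat_lit 234) (nat_lit 76) (nat_lit 0) (XT.nd (nat_lit 78) (nat_lit 76) (nat_lit 0) (XT.lf (nat_lit 0) (nat_lit 9347930123) (nat_lit 228) (nat_lit 1894130601) (nat_lit 76) (nat_lit 10831500776) (nat_lit 8) (nat_lit 5) (nat_lit 11) (nat_lit 5) (nat_lit 9) (nat_lit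 4) (nat_lit 272) (nat_lit 241) (nat_lit 207)) (XT.nd (nat_lit 78) (nat_lit 0) (nat_lit 0) (XT.lf (nat_lit 0) (nat_lit 4843744288) (nat_lit 76) (nat_lit 7803429460) (nat_lit 152) (nat_lit 10831990591) (nat_lit 7) (nat_lit 5) (nat_lit 8) (nat_lit 5) (nat_lit 9) (nat_lit 4) (nat_lit 273) (nat_lit 241) (nat_lit 206)) (XT.lf (nat_lit 0) (nat_lit 12164873420) (nat_lit 76) (nat_lit 4057519040) (nat_lit 152) (nat_lit 8774040605) (nat_lit 7) (nat_lit 5) (nat_lit 8) (nat_lit 5) (nat_lit 9) (nat_lit 4) (nat_lit 274) (nat_lit 241) (nat_lit 205)))) (XT.nd (nat_lit 78) (nat_lit 76) (nat_lit 0) (XT.lf (nat_lit 0) (nat_lit 20012899703) (nat_lit 76) (nat_lit 33920364) (nat_lit 152) (nat_lit 6591375049) (nat_lit 7) (nat_lit 5) (nat_lit 8) (nat_lit 5) (nat_lit 9) (nat_lit 4) (nat_lit 275) (nat_lit 241) (nat_lit 204)) (XT.nd (nat_lit 78) (nat_lit 76) (nat_lit 0) (XT.lf (nat_lit 0) (nat_lit 24246323548)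 (nat_lit 152) (nat_lit 83053198) (nat_lit 0) (nat_lit 4076546406) (nat_lit 7) (nat_lit 5) (nat_lit 9) (nat_lit 4) (nat_lit 7) (nat_lit 4) (nat_lit 276) (nat_lit 241) (nat_lit 203)) (XT.lf (nat_lit 0) (nat_lit 7293939474) (nat_lit 76) (nat_lit 21632137556) (nat_lit 76) (nat_lit 1377592516) (nat_lit 6) (nat_lit 4) (nat_lit 7) (nat_lit 5) (nat_lit 7) (nat_lit 4) (nat_lit 277) (nat_lit 241) (nat_lit 202)))))) (XT.nd (nat_lit 468) (nat_lit 76) (nat_lit 0) (XT.nd (nat_lit 234) (nat_lit 76) (nat_lit 0) (XT.nd (nat_lit 78) (nat_lit 0) (nat_lit 0) (XT.lf (nat_lit 0) (nat_lit 1516116059) (nat_lit 152) (nat_lit 17179512430) (nat_lit 76) (nat_lit 13656957406) (nat_lit 5) (nat_lit 5) (nat_lit 7) (nat_lit 5) (nat_lit 6) (nat_lit 4) (nat_lit 278) (nat_lit 241) (nat_lit 201)) (XT.nd (nat_lit 78) (nat_lit 0) (nat_lit 0) (XT.lf (nat_lit 0) (nat_lit 4537450176) (nat_lit 152) (nat_lit 10967812277) (nat_lit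 76) (nat_lit 19059759948) (nat_lit 5) (nat_lit 5) (nat_lit 7) (nat_lit 5) (nat_lit 6) (nat_lit 4) (nat_lit 279) (nat_lit 241) (nat_lit 200)) (XT.lf (nat_lit 0) (nat_lit 7773226792) (nat_lit 152) (nat_lit 4304688407) (nat_lit 76) (nat_lit 24878825093) (nat_lit 5) (nat_lit 5) (nat_lit 7) (nat_lit 5) (nat_lit 6) (nat_lit 4) (nat_lit 280) (nat_lit 241) (nat_lit 199)))) (XT.nd (nat_lit 78) (nat_lit 0) (nat_lit 0) (XT.lf (nat_lit 0) (nat_lit 2999385784) (nat_lit 76) (nat_lit 8315370395) (nat_lit 152) (nat_lit 28221385704) (nat_lit 4) (nat_lit 5) (nat_lit 5) (nat_lit 5) (nat_lit 6) (nat_lit 4) (nat_lit 281) (nat_lit 241) (nat_lit 198)) (XT.nd (nat_lit 78) (nat_lit 0) (nat_lit 0) (XT.lf (nat_lit 0) (nat_lit 11091523204) (nat_lit 76) (nat_lit 4141420007) (nat_lit 152) (nat_lit 27081575866) (nat_lit 4) (nat_lit 5) (nat_lit 5) (nat_lit 5) (nat_lit 6) (nat_lit 4) (nat_lit 282) (nat_lit 241) (nat_lit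 197)) (XT.lf (nat_lit 0) (nat_lit 19450468222) (nat_lit 152) (nat_lit 25532495596) (nat_lit 0) (nat_lit 333415599) (nat_lit 4) (nat_lit 5) (nat_lit 6) (nat_lit 4) (nat_lit 4) (nat_lit 4) (nat_lit 283) (nat_lit 241) (nat_lit 196))))) (XT.nd (nat_lit 234) (nat_lit 76) (nat_lit 0) (XT.nd (nat_lit 78) (nat_lit 0) (nat_lit 0) (XT.lf (nat_lit 0) (nat_lit 24091733074) (nat_lit 152) (nat_lit 19530942904) (nat_lit 0) (nat_lit 4928882994) (nat_lit 4) (nat_lit 5) (nat_lit 6) (nat_lit 4) (nat_lit 4) (nat_lit 4) (nat_lit 284) (nat_lit 241) (nat_lit 195)) (XT.nd (nat_lit 78) (nat_lit 0) (nat_lit 0) (XT.lf (nat_lit 0) (nat_lit 29084640309) (nat_lit 152) (nat_lit 13083171793) (nat_lit 0) (nat_lit 9879385176) (nat_lit 4) (nat_lit 5) (nat_lit 6) (nat_lit 4) (nat_lit 4) (nat_lit 4) (nat_lit 285) (nat_lit 241) (nat_lit 194)) (XT.lf (nat_lit 0) (nat_lit 34458777527) (nat_lit 152) (nat_lit 6150973247) (nat_lit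 0) (nat_lit 15214258455) (nat_lit 4) (nat_lit 5) (nat_lit 6) (nat_lit 4) (nat_lit 4) (nat_lit 4) (nat_lit 286) (nat_lit 241) (nat_lit 193)))) (XT.nd (nat_lit 78) (nat_lit 0) (nat_lit 0) (XT.lf (nat_lit 0) (nat_lit 1375542642) (nat_lit 76) (nat_lit 38903530657) (nat_lit 76) (nat_lit 19622656087) (nat_lit 3) (nat_lit 4) (nat_lit 4) (nat_lit 5) (nat_lit 4) (nat_lit 4) (nat_lit 287) (nat_lit 241) (nat_lit 192)) (XT.nd (nat_lit 78) (nat_lit 0) (nat_lit 0) (XT.lf (nat_lit 0) (nat_lit 9825658265) (nat_lit 76) (nat_lit 36891225779) (nat_lit 76) (nat_lit 17576688710) (nat_lit 3) (nat_lit 4) (nat_lit 4) (nat_lit 5) (nat_lit 4) (nat_lit 4) (nat_lit 288) (nat_lit 241) (nat_lit 191)) (XT.lf (nat_lit 0) (nat_lit 18925549029) (nat_lit 76) (nat_lit 34729089878) (nat_lit 76) (nat_lit 15383383830) (nat_lit 3) (nat_lit 4) (nat_lit 4) (nat_lit 5) (nat_lit 4) (nat_lit 4) (nat_lit 289) (nat_lit 241) (nat_lit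 190))))))) (XT.nd (nat_lit 858) (nat_lit 0) (nat_lit 0) (XT.nd (nat_lit 390) (nat_lit 152) (nat_lit 0) (XT.nd (nat_lit 156) (nat_lit 0) (nat_lit 0) (XT.nd (nat_lit 78) (nat_lit 0) (nat_lit 0) (XT.lf (nat_lit 0) (nat_lit 28729140215) (nat_lit 76) (nat_lit 32404310299) (nat_lit 76) (nat_lit 13029744084) (nat_lit 3) (nat_lit 4) (nat_lit 4) (nat_lit 5) (nat_lit 4) (nat_lit 4) (nat_lit 290) (nat_lit 241) (nat_lit 189)) (XT.lf (nat_lit 0) (nat_lit 39294527176) (nat_lit 76) (nat_lit 29903110570) (nat_lit 76) (nat_lit 10501821978) (nat_lit 3) (nat_lit 4) (nat_lit 4) (nat_lit 5) (nat_lit 4) (nat_lit 4) (nat_lit 291) (nat_lit 241) (nat_lit 188))) (XT.nd (nat_lit 78) (nat_lit 0) (nat_lit 0) (XT.lf (nat_lit 0) (nat_lit 50684319614) (nat_lit 76) (nat_lit 27210668766) (nat_lit 76) (nat_lit 7784637232) (nat_lit 3) (nat_lit 4) (nat_lit 4) (nat_lit 5) (nat_lit 4) (nat_lit 4) (nat_lit 292) (nat_lit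 241) (nat_lit 187)) (XT.nd (nat_lit 78) (nat_lit 0) (nat_lit 0) (XT.lf (nat_lit 0) (nat_lit 62966012594) (nat_lit 76) (nat_lit 24311029676) (nat_lit 76) (nat_lit 4862088012) (nat_lit 3) (nat_lit 4) (nat_lit 4) (nat_lit 5) (nat_lit 4) (nat_lit 4) (nat_lit 293) (nat_lit 241) (nat_lit 186)) (XT.lf (nat_lit 0) (nat_lit 76212386520) (nat_lit 76) (nat_lit 21187010254) (nat_lit 76) (nat_lit 1716855506) (nat_lit 3) (nat_lit 4) (nat_lit 4) (nat_lit 5) (nat_lit 4) (nat_lit 4) (nat_lit 294) (nat_lit 241) (nat_lit 185))))) (XT.nd (nat_lit 234) (nat_lit 76) (nat_lit 0) (XT.nd (nat_lit 78) (nat_lit 0) (nat_lit 0) (XT.lf (nat_lit 0) (nat_lit 1586173608) (nat_lit 152) (nat_lit 16190555387) (nat_lit 76) (nat_lit 88872396016) (nat_lit 2) (nat_lit 5) (nat_lit 4) (nat_lit 5) (nat_lit 3) (nat_lit 4) (nat_lit 295) (nat_lit 241) (nat_lit 184)) (XT.nd (nat_lit 78) (nat_lit 0) (nat_lit 0) (XT.lf (nat_lit 0)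 (nat_lit 5051633032) (nat_lit 152) (nat_lit 9000586587) (nat_lit 76) (nat_lit 100729593494) (nat_lit 2) (nat_lit 5) (nat_lit 4) (nat_lit 5) (nat_lit 3) (nat_lit 4) (nat_lit 296) (nat_lit 241) (nat_lit 183)) (XT.lf (nat_lit 0) (nat_lit 8785942885) (nat_lit 152) (nat_lit 1250061721) (nat_lit 76) (nat_lit 113529808919) (nat_lit 2) (nat_lit 5) (nat_lit 4) (nat_lit 5) (nat_lit 3) (nat_lit 4) (nat_lit 297) (nat_lit 241) (nat_lit 182)))) (XT.nd (nat_lit 78) (nat_lit 0) (nat_lit 0) (XT.lf (nat_lit 0) (nat_lit 7481187546) (nat_lit 76) (nat_lit 5509967607) (nat_lit 152) (nat_lit 120047630613) (nat_lit 1) (nat_lit 5) (nat_lit 2) (nat_lit 5) (nat_lit 3) (nat_lit 4) (nat_lit 298) (nat_lit 241) (nat_lit 181)) (XT.nd (nat_lit 78) (nat_lit 0) (nat_lit 0) (XT.lf (nat_lit 0) (nat_lit 16968815198) (nat_lit 76) (nat_lit 590640398) (nat_lit 152) (nat_lit 125708029093) (nat_lit 1) (nat_lit 5) (nat_lit 2)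 (nat_lit 5) (nat_lit 3) (nat_lit 4) (nat_lit 299) (nat_lit 241) (nat_lit 180)) (XT.lf (nat_lit 0) (nat_lit 22599711244) (nat_lit 152) (nat_lit 127225281151) (nat_lit 0) (nat_lit 4480988759) (nat_lit 1) (nat_lit 5) (nat_lit 3) (nat_lit 4) (nat_lit 1) (nat_lit 4) (nat_lit 300) (nat_lit 241) (nat_lit 179)))))) (XT.nd (nat_lit 468) (nat_lit 0) (nat_lit 0) (XT.nd (nat_lit 234) (nat_lit 0) (nat_lit 0) (XT.nd (nat_lit 78) (nat_lit 0) (nat_lit 0) (XT.lf (nat_lit 0) (nat_lit 28051974351) (nat_lit 152) (nat_lit 128253108303) (nat_lit 0) (nat_lit 9921791096) (nat_lit 1) (nat_lit 5) (nat_lit 3) (nat_lit 4) (nat_lit 1) (nat_lit 4) (nat_lit 301) (nat_lit 241) (nat_lit 178)) (XT.nd (nat_lit 78) (nat_lit 0) (nat_lit 0) (XT.lf (nat_lit 0) (nat_lit 33934349707) (nat_lit 152) (nat_lit 129374036859) (nat_lit 0) (nat_lit 15793554629) (nat_lit 1) (nat_lit 5) (nat_lit 3) (nat_lit 4) (nat_lit 1) (nat_lit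 4) (nat_lit 302) (nat_lit 241) (nat_lit 177)) (XT.lf (nat_lit 0) (nat_lit 40281695834) (nat_lit 152) (nat_lit 130594709359) (nat_lit 0) (nat_lit 22131074993) (nat_lit 1) (nat_lit 5) (nat_lit 3) (nat_lit 4) (nat_lit 1) (nat_lit 4) (nat_lit 303) (nat_lit 241) (nat_lit 176)))) (XT.nd (nat_lit 78) (nat_lit 0) (nat_lit 0) (XT.lf (nat_lit 0) (nat_lit 47131626634) (nat_lit 152) (nat_lit 131922359419) (nat_lit 0) (nat_lit 28971907865) (nat_lit 1) (nat_lit 5) (nat_lit 3) (nat_lit 4) (nat_lit 1) (nat_lit 4) (nat_lit 304) (nat_lit 241) (nat_lit 175)) (XT.nd (nat_lit 78) (nat_lit 0) (nat_lit 0) (XT.lf (nat_lit 0) (nat_lit 54524734290) (nat_lit 152) (nat_lit 133364854592) (nat_lit 0) (nat_lit 36356591514) (nat_lit 1) (nat_lit 5) (nat_lit 3) (nat_lit 4) (nat_lit 1) (nat_lit 4) (nat_lit 305) (nat_lit 241) (nat_lit 174)) (XT.lf (nat_lit 0) (nat_lit 62504829811) (nat_lit 152) (nat_lit 134930743000)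 (nat_lit 0) (nat_lit 44328887027) (nat_lit 1) (nat_lit 5) (nat_lit 3) (nat_lit 4) (nat_lit 1) (nat_lit 4) (nat_lit 306) (nat_lit 241) (nat_lit 173))))) (XT.nd (nat_lit 234) (nat_lit 0) (nat_lit 0) (XT.nd (nat_lit 78) (nat_lit 0) (nat_lit 0) (XT.lf (nat_lit 0) (nat_lit 71119202650) (nat_lit 152) (nat_lit 136629303981) (nat_lit 0) (nat_lit 52936037638) (nat_lit 1) (nat_lit 5) (nat_lit 3) (nat_lit 4) (nat_lit 1) (nat_lit 4) (nat_lit 307) (nat_lit 241) (nat_lit 172)) (XT.nd (nat_lit 78) (nat_lit 0) (nat_lit 0) (XT.lf (nat_lit 0) (nat_lit 80418900945) (nat_lit 152) (nat_lit 138470603081) (nat_lit 0) (nat_lit 62229048684) (nat_lit 1) (nat_lit 5) (nat_lit 3) (nat_lit 4) (nat_lit 1) (nat_lit 4) (nat_lit 308) (nat_lit 241) (nat_lit 171)) (XT.lf (nat_lit 0) (nat_lit 90459034017) (nat_lit 152) (nat_lit 140465551703) (nat_lit 0) (nat_lit 72262989859) (nat_lit 1) (nat_lit 5) (nat_lit 3) (nat_lit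 4) (nat_lit 1) (nat_lit 4) (nat_lit 309) (nat_lit 241) (nat_lit 170)))) (XT.nd (nat_lit 78) (nat_lit 0) (nat_lit 0) (XT.lf (nat_lit 0) (nat_lit 101299098951) (nat_lit 152) (nat_lit 142625971764) (nat_lit 0) (nat_lit 83097321556) (nat_lit 1) (nat_lit 5) (nat_lit 3) (nat_lit 4) (nat_lit 1) (nat_lit 4) (nat_lit 310) (nat_lit 241) (nat_lit 169)) (XT.nd (nat_lit 78) (nat_lit 0) (nat_lit 0) (XT.lf (nat_lit 0) (nat_lit 113003333171) (nat_lit 152) (nat_lit 144964665754) (nat_lit 0) (nat_lit 94796247221) (nat_lit 1) (nat_lit 5) (nat_lit 3) (nat_lit 4) (nat_lit 1) (nat_lit 4) (nat_lit 311) (nat_lit 241) (nat_lit 168)) (XT.lf (nat_lit 0) (nat_lit 125641095100) (nat_lit 152) (nat_lit 147495492600) (nat_lit 0) (nat_lit 107429093823) (nat_lit 1) (nat_lit 5) (nat_lit 3) (nat_lit 4) (nat_lit 1) (nat_lit 4) (nat_lit 312) (nat_lit 241) (nat_lit 167))))))))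
noncomputable def xc53 : XT := (XT.nd (nat_lit 32136) (nat_lit 0) (nat_lit 836) (XT.nd (nat_lit 858) (nat_lit 0) (nat_lit 0) (XT.nd (nat_lit 390) (nat_lit 0) (nat_lit 0) (XT.nd (nat_lit 156) (nat_lit 0) (nat_lit 0) (XT.nd (nat_lit 78) (nat_lit 0) (nat_lit 0) (XT.lf (nat_lit 0) (nat_lit 139287275179) (nat_lit 152) (nat_lit 150233449793) (nat_lit 0) (nat_lit 121070722673) (nat_lit 1) (nat_lit 5) (nat_lit 3) (nat_lit 4) (nat_lit 1) (nat_lit 4) (nat_lit 313) (nat_lit 241) (nat_lit 166)) (XT.lf (nat_lit 0) (nat_lit 154022739661) (nat_lit 152) (nat_lit 153194762267) (nat_lit 0) (nat_lit 135801973054) (nat_lit 1) (nat_lit 5) (nat_lit 3) (nat_lit 4) (nat_lit 1) (nat_lit 4) (nat_lit 314) (nat_lit 241) (nat_lit 165))) (XT.nd (nat_lit 78) (nat_lit 0) (nat_lit 0) (XT.lf (nat_lit 0) (nat_lit 169934809818) (nat_lit 152) (nat_lit 156396978539) (nat_lit 0) (nat_lit 151710141265) (nat_lit 1) (nat_lit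 5) (nat_lit 3) (nat_lit 4) (nat_lit 1) (nat_lit 4) (nat_lit 315) (nat_lit 241) (nat_lit 164)) (XT.nd (nat_lit 78) (nat_lit 0) (nat_lit 0) (XT.lf (nat_lit 0) (nat_lit 187117779397) (nat_lit 152) (nat_lit 159859074706) (nat_lit 0) (nat_lit 168889497932) (nat_lit 1) (nat_lit 5) (nat_lit 3) (nat_lit 4) (nat_lit 1) (nat_lit 4) (nat_lit 316) (nat_lit 241) (nat_lit 163)) (XT.lf (nat_lit 0) (nat_lit 205673473404) (nat_lit 152) (nat_lit 163601566892) (nat_lit 0) (nat_lit 187441846649) (nat_lit 1) (nat_lit 5) (nat_lit 3) (nat_lit 4) (nat_lit 1) (nat_lit 4) (nat_lit 317) (nat_lit 241) (nat_lit 162))))) (XT.nd (nat_lit 234) (nat_lit 0) (nat_lit 0) (XT.nd (nat_lit 78) (nat_lit 0) (nat_lit 0) (XT.lf (nat_lit 0) (nat_lit 225711851507) (nat_lit 152) (nat_lit 167646632830) (nat_lit 0) (nat_lit 207477127263) (nat_lit 1) (nat_lit 5) (nat_lit 3) (nat_lit 4) (nat_lit 1) (nat_lit 4) (nat_lit 318) (nat_lit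 241) (nat_lit 161)) (XT.nd (nat_lit 78) (nat_lit 0) (nat_lit 0) (XT.lf (nat_lit 0) (nat_lit 247351659651) (nat_lit 152) (nat_lit 172018243281) (nat_lit 0) (nat_lit 229114067360) (nat_lit 1) (nat_lit 5) (nat_lit 3) (nat_lit 4) (nat_lit 1) (nat_lit 4) (nat_lit 319) (nat_lit 241) (nat_lit 160)) (XT.lf (nat_lit 0) (nat_lit 270721133735) (nat_lit 152) (nat_lit 176742304084) (nat_lit 0) (nat_lit 252480885845) (nat_lit 1) (nat_lit 5) (nat_lit 3) (nat_lit 4) (nat_lit 1) (nat_lit 4) (nat_lit 320) (nat_lit 241) (nat_lit 159)))) (XT.nd (nat_lit 78) (nat_lit 0) (nat_lit 0) (XT.lf (nat_lit 0) (nat_lit 295958759532) (nat_lit 152) (nat_lit 181846809674) (nat_lit 0) (nat_lit 277716052755) (nat_lit 1) (nat_lit 5) (nat_lit 3) (nat_lit 4) (nat_lit 1) (nat_lit 4) (nat_lit 321) (nat_lit 241) (nat_lit 158)) (XT.nd (nat_lit 78) (nat_lit 0) (nat_lit 0) (XT.lf (nat_lit 0) (nat_lit 323214093343) (nat_lit 152)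 (nat_lit 187362008973) (nat_lit 0) (nat_lit 304969109818) (nat_lit 1) (nat_lit 5) (nat_lit 3) (nat_lit 4) (nat_lit 1) (nat_lit 4) (nat_lit 322) (nat_lit 241) (nat_lit 157)) (XT.lf (nat_lit 0) (nat_lit 352648648257) (nat_lit 152) (nat_lit 193320584643) (nat_lit 0) (nat_lit 334401556632) (nat_lit 1) (nat_lit 5) (nat_lit 3) (nat_lit 4) (nat_lit 1) (nat_lit 4) (nat_lit 323) (nat_lit 241) (nat_lit 156)))))) (XT.nd (nat_lit 468) (nat_lit 0) (nat_lit 0) (XT.nd (nat_lit 234) (nat_lit 0) (nat_lit 0) (XT.nd (nat_lit 78) (nat_lit 0) (nat_lit 0) (XT.lf (nat_lit 0) (nat_lit 384436851266) (nat_lit 152) (nat_lit 199757846762) (nat_lit 0) (nat_lit 366187807697) (nat_lit 1) (nat_lit 5) (nat_lit 3) (nat_lit 4) (nat_lit 1) (nat_lit 4) (nat_lit 324) (nat_lit 241) (nat_lit 155)) (XT.nd (nat_lit 78) (nat_lit 0) (nat_lit 0) (XT.lf (nat_lit 0) (nat_lit 418767076907) (nat_lit 152) (nat_lit 206711942069) (nat_lit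 0) (nat_lit 400516225983) (nat_lit 1) (nat_lit 5) (nat_lit 3) (nat_lit 4) (nat_lit 1) (nat_lit 4) (nat_lit 325) (nat_lit 241) (nat_lit 154)) (XT.lf (nat_lit 0) (nat_lit 455842763553) (nat_lit 152) (nat_lit 214224080017) (nat_lit 0) (nat_lit 437590239152) (nat_lit 1) (nat_lit 5) (nat_lit 3) (nat_lit 4) (nat_lit 1) (nat_lit 4) (nat_lit 326) (nat_lit 241) (nat_lit 153)))) (XT.nd (nat_lit 78) (nat_lit 0) (nat_lit 0) (XT.lf (nat_lit 0) (nat_lit 495883618978) (nat_lit 152) (nat_lit 222338776980) (nat_lit 0) (nat_lit 477629545060) (nat_lit 1) (nat_lit 5) (nat_lit 3) (nat_lit 4) (nat_lit 1) (nat_lit 4) (nat_lit 327) (nat_lit 241) (nat_lit 152)) (XT.nd (nat_lit 78) (nat_lit 0) (nat_lit 0) (XT.lf (nat_lit 0) (nat_lit 539126922325) (nat_lit 152) (nat_lit 231104120051) (nat_lit 0) (nat_lit 520871413670) (nat_lit 1) (nat_lit 5) (nat_lit 3) (nat_lit 4) (nat_lit 1) (nat_lit 4) (nat_lit 328) (nat_lit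 241) (nat_lit 151)) (XT.lf (nat_lit 0) (nat_lit 585828930206) (nat_lit 152) (nat_lit 240572052003) (nat_lit 0) (nat_lit 567572093090) (nat_lit 1) (nat_lit 5) (nat_lit 3) (nat_lit 4) (nat_lit 1) (nat_lit 4) (nat_lit 329) (nat_lit 241) (nat_lit 150))))) (XT.nd (nat_lit 234) (nat_lit 0) (nat_lit 0) (XT.nd (nat_lit 78) (nat_lit 0) (nat_lit 0) (XT.lf (nat_lit 0) (nat_lit 636266395260) (nat_lit 152) (nat_lit 250798679100) (nat_lit 0) (nat_lit 618008328089) (nat_lit 1) (nat_lit 5) (nat_lit 3) (nat_lit 4) (nat_lit 1) (nat_lit 4) (nat_lit 330) (nat_lit 241) (nat_lit 149)) (XT.nd (nat_lit 78) (nat_lit 0) (nat_lit 0) (XT.lf (nat_lit 0) (nat_lit 690738206170) (nat_lit 152) (nat_lit 261844603576) (nat_lit 0) (nat_lit 672479000058) (nat_lit 1) (nat_lit 5) (nat_lit 3) (nat_lit 4) (nat_lit 1) (nat_lit 4) (nat_lit 331) (nat_lit 241) (nat_lit 148)) (XT.lf (nat_lit 0) (nat_lit 749567158851) (nat_lit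 152) (nat_lit 273775282761) (nat_lit 0) (nat_lit 731306898164) (nat_lit 1) (nat_lit 5) (nat_lit 3) (nat_lit 4) (nat_lit 1) (nat_lit 4) (nat_lit 332) (nat_lit 241) (nat_lit 147)))) (XT.nd (nat_lit 30420) (nat_lit 0) (nat_lit 3496) (XT.lf (nat_lit 0) (nat_lit 813101869320) (nat_lit 152) (nat_lit 286661416978) (nat_lit 0) (nat_lit 794840632175) (nat_lit 1) (nat_lit 5) (nat_lit 3) (nat_lit 4) (nat_lit 1) (nat_lit 4) (nat_lit 333) (nat_lit 241) (nat_lit 146)) (XT.nd (nat_lit 78) (nat_lit 0) (nat_lit 0) (XT.lf (nat_lit 0) (nat_lit 1617151943) (nat_lit 228) (nat_lit 831890063) (nat_lit 228) (nat_lit 831890063) (nat_lit 47) (nat_lit 3) (nat_lit 50) (nat_lit 3) (nat_lit 50) (nat_lit 5) (nat_lit 242) (nat_lit 242) (nat_lit 236)) (XT.lf (nat_lit 76) (nat_lit 1132719074) (nat_lit 0) (nat_lit 4274432986) (nat_lit 228) (nat_lit 1227032729) (nat_lit 48) (nat_lit 5) (nat_lit 47) (nat_lit 3) (nat_lit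 50) (nat_lit 5) (nat_lit 243) (nat_lit 242) (nat_lit 235))))))) (XT.nd (nat_lit 858) (nat_lit 988) (nat_lit 0) (XT.nd (nat_lit 390) (nat_lit 1216) (nat_lit 0) (XT.nd (nat_lit 156) (nat_lit 228) (nat_lit 0) (XT.nd (nat_lit 78) (nat_lit 0) (nat_lit 0) (XT.lf (nat_lit 0) (nat_lit 823748145) (nat_lit 228) (nat_lit 2617046895) (nat_lit 304) (nat_lit 3285218259) (nat_lit 44) (nat_lit 5) (nat_lit 47) (nat_lit 3) (nat_lit 48) (nat_lit 5) (nat_lit 244) (nat_lit 242) (nat_lit 234)) (XT.lf (nat_lit 76) (nat_lit 364367364) (nat_lit 0) (nat_lit 2420066619) (nat_lit 304) (nat_lit 4055521822) (nat_lit 45) (nat_lit 5) (nat_lit 44) (nat_lit 5) (nat_lit 48) (nat_lit 5) (nat_lit 245) (nat_lit 242) (nat_lit 233))) (XT.nd (nat_lit 78) (nat_lit 228) (nat_lit 0) (XT.lf (nat_lit 76) (nat_lit 3616055188) (nat_lit 0) (nat_lit 1172594774) (nat_lit 304) (nat_lit 2185548359) (nat_lit 45) (nat_lit 5) (nat_lit 44)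 (nat_lit 5) (nat_lit 48) (nat_lit 5) (nat_lit 246) (nat_lit 242) (nat_lit 232)) (XT.nd (nat_lit 78) (nat_lit 304) (nat_lit 0) (XT.lf (nat_lit 0) (nat_lit 6787729443) (nat_lit 228) (nat_lit 121070797) (nat_lit 76) (nat_lit 225579598) (nat_lit 45) (nat_lit 5) (nat_lit 48) (nat_lit 5) (nat_lit 46) (nat_lit 5) (nat_lit 247) (nat_lit 242) (nat_lit 231)) (XT.lf (nat_lit 0) (nat_lit 1509538181) (nat_lit 304) (nat_lit 3952764570) (nat_lit 76) (nat_lit 1847425939) (nat_lit 41) (nat_lit 5) (nat_lit 45) (nat_lit 5) (nat_lit 42) (nat_lit 5) (nat_lit 248) (nat_lit 242) (nat_lit 230))))) (XT.nd (nat_lit 234) (nat_lit 912) (nat_lit 0) (XT.nd (nat_lit 78) (nat_lit 304) (nat_lit 0) (XT.lf (nat_lit 0) (nat_lit 3345248952) (nat_lit 304) (nat_lit 510773904) (nat_lit 76) (nat_lit 3655939121) (nat_lit 41) (nat_lit 5) (nat_lit 45) (nat_lit 5) (nat_lit 42) (nat_lit 5) (nat_lit 249) (nat_lit 242) (nat_lit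 229)) (XT.nd (nat_lit 78) (nat_lit 0) (nat_lit 0) (XT.lf (nat_lit 0) (nat_lit 3255571180) (nat_lit 304) (nat_lit 2008281748) (nat_lit 380) (nat_lit 2473079998) (nat_lit 37) (nat_lit 5) (nat_lit 41) (nat_lit 5) (nat_lit 42) (nat_lit 5) (nat_lit 250) (nat_lit 242) (nat_lit 228)) (XT.lf (nat_lit 0) (nat_lit 7216139066) (nat_lit 380) (nat_lit 750197668) (nat_lit 76) (nat_lit 24484406) (nat_lit 37) (nat_lit 5) (nat_lit 42) (nat_lit 5) (nat_lit 38) (nat_lit 5) (nat_lit 251) (nat_lit 242) (nat_lit 227)))) (XT.nd (nat_lit 78) (nat_lit 456) (nat_lit 0) (XT.lf (nat_lit 0) (nat_lit 1012645341) (nat_lit 456) (nat_lit 5014587591) (nat_lit 76) (nat_lit 2236408461) (nat_lit 31) (nat_lit 5) (nat_lit 37) (nat_lit 5) (nat_lit 32) (nat_lit 5) (nat_lit 252) (nat_lit 242) (nat_lit 226)) (XT.nd (nat_lit 78) (nat_lit 456) (nat_lit 0) (XT.lf (nat_lit 0) (nat_lit 2800593648) (nat_lit 456) (nat_lit 1085424653)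 (nat_lit 76) (nat_lit 4679760066) (nat_lit 31) (nat_lit 5) (nat_lit 37) (nat_lit 5) (nat_lit 32) (nat_lit 5) (nat_lit 253) (nat_lit 242) (nat_lit 225)) (XT.lf (nat_lit 0) (nat_lit 3208349530) (nat_lit 456) (nat_lit 1487836529) (nat_lit 532) (nat_lit 4199712919) (nat_lit 25) (nat_lit 5) (nat_lit 31) (nat_lit 5) (nat_lit 32) (nat_lit 5) (nat_lit 254) (nat_lit 242) (nat_lit 224)))))) (XT.nd (nat_lit 468) (nat_lit 380) (nat_lit 0) (XT.nd (nat_lit 234) (nat_lit 304) (nat_lit 0) (XT.nd (nat_lit 78) (nat_lit 304) (nat_lit 0) (XT.lf (nat_lit 0) (nat_lit 6693567977) (nat_lit 532) (nat_lit 1486842725) (nat_lit 76) (nat_lit 1076915811) (nat_lit 25) (nat_lit 5) (nat_lit 32) (nat_lit 5) (nat_lit 26) (nat_lit 5) (nat_lit 255) (nat_lit 242) (nat_lit 223)) (XT.nd (nat_lit 78) (nat_lit 76) (nat_lit 0) (XT.lf (nat_lit 0) (nat_lit 3055938811) (nat_lit 228) (nat_lit 5808040204) (nat_lit 304) (nat_lit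 783471489) (nat_lit 22) (nat_lit 5) (nat_lit 25) (nat_lit 5) (nat_lit 26) (nat_lit 5) (nat_lit 256) (nat_lit 242) (nat_lit 222)) (XT.lf (nat_lit 0) (nat_lit 1026661138) (nat_lit 304) (nat_lit 2158598311) (nat_lit 76) (nat_lit 6886501423) (nat_lit 21) (nat_lit 5) (nat_lit 25) (nat_lit 5) (nat_lit 22) (nat_lit 5) (nat_lit 257) (nat_lit 242) (nat_lit 221)))) (XT.nd (nat_lit 78) (nat_lit 152) (nat_lit 0) (XT.lf (nat_lit 0) (nat_lit 2637467998) (nat_lit 152) (nat_lit 275150021) (nat_lit 228) (nat_lit 7618570625) (nat_lit 19) (nat_lit 5) (nat_lit 21) (nat_lit 5) (nat_lit 22) (nat_lit 5) (nat_lit 258) (nat_lit 242) (nat_lit 220)) (XT.nd (nat_lit 78) (nat_lit 152) (nat_lit 0) (XT.lf (nat_lit 0) (nat_lit 4992790077) (nat_lit 228) (nat_lit 3260761945) (nat_lit 76) (nat_lit 2770969934) (nat_lit 19) (nat_lit 5) (nat_lit 22) (nat_lit 5) (nat_lit 20) (nat_lit 5) (nat_lit 259) (nat_lit 242) (nat_lit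 219)) (XT.lf (nat_lit 0) (nat_lit 1722217674) (nat_lit 152) (nat_lit 5485924211) (nat_lit 228) (nat_lit 4352251369) (nat_lit 17) (nat_lit 5) (nat_lit 19) (nat_lit 5) (nat_lit 20) (nat_lit 5) (nat_lit 260) (nat_lit 242) (nat_lit 218))))) (XT.nd (nat_lit 234) (nat_lit 152) (nat_lit 0) (XT.nd (nat_lit 78) (nat_lit 228) (nat_lit 0) (XT.lf (nat_lit 0) (nat_lit 7192178816) (nat_lit 152) (nat_lit 2421473770) (nat_lit 228) (nat_lit 2524977395) (nat_lit 17) (nat_lit 5) (nat_lit 19) (nat_lit 5) (nat_lit 20) (nat_lit 5) (nat_lit 261) (nat_lit 242) (nat_lit 217)) (XT.nd (nat_lit 78) (nat_lit 76) (nat_lit 0) (XT.lf (nat_lit 0) (nat_lit 231240127) (nat_lit 152) (nat_lit 11936242084) (nat_lit 228) (nat_lit 599664104) (nat_lit 15) (nat_lit 5) (nat_lit 17) (nat_lit 5) (nat_lit 18) (nat_lit 4) (nat_lit 262) (nat_lit 242) (nat_lit 216)) (XT.lf (nat_lit 0) (nat_lit 1537088453) (nat_lit 228) (nat_lit 7529940885)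 (nat_lit 76) (nat_lit 4365973919) (nat_lit 14) (nat_lit 5) (nat_lit 17) (nat_lit 5) (nat_lit 15) (nat_lit 5) (nat_lit 263) (nat_lit 242) (nat_lit 215)))) (XT.nd (nat_lit 78) (nat_lit 152) (nat_lit 0) (XT.lf (nat_lit 0) (nat_lit 3747365711) (nat_lit 228) (nat_lit 2229146104) (nat_lit 76) (nat_lit 8179962032) (nat_lit 14) (nat_lit 5) (nat_lit 17) (nat_lit 5) (nat_lit 15) (nat_lit 5) (nat_lit 264) (nat_lit 242) (nat_lit 214)) (XT.nd (nat_lit 78) (nat_lit 0) (nat_lit 0) (XT.lf (nat_lit 0) (nat_lit 3591998521) (nat_lit 152) (nat_lit 2568652365) (nat_lit 228) (nat_lit 8775437174) (nat_lit 12) (nat_lit 5) (nat_lit 14) (nat_lit 5) (nat_lit 15) (nat_lit 5) (nat_lit 265) (nat_lit 242) (nat_lit 213)) (XT.lf (nat_lit 0) (nat_lit 8798005571) (nat_lit 228) (nat_lit 5881581237) (nat_lit 76) (nat_lit 1096338173) (nat_lit 12) (nat_lit 5) (nat_lit 15) (nat_lit 5) (nat_lit 13) (nat_lit 4) (nat_lit 266)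 (nat_lit 242) (nat_lit 212))))))))
noncomputable def xc54 : XT := (XT.nd (nat_lit 1794) (nat_lit 152) (nat_lit 0) (XT.nd (nat_lit 858) (nat_lit 228) (nat_lit 0) (XT.nd (nat_lit 390) (nat_lit 152) (nat_lit 0) (XT.nd (nat_lit 156) (nat_lit 228) (nat_lit 0) (XT.nd (nat_lit 78) (nat_lit 76) (nat_lit 0) (XT.lf (nat_lit 0) (nat_lit 11659117916) (nat_lit 228) (nat_lit 128115697) (nat_lit 76) (nat_lit 4895003060) (nat_lit 12) (nat_lit 5) (nat_lit 15) (nat_lit 5) (nat_lit 13) (nat_lit 4) (nat_lit 267) (nat_lit 242) (nat_lit 211)) (XT.lf (nat_lit 0) (nat_lit 6328768472) (nat_lit 76) (nat_lit 8522605070) (nat_lit 152) (nat_lit 2801785856) (nat_lit 11) (nat_lit 5) (nat_lit 12) (nat_lit 5) (nat_lit 13) (nat_lit 4) (nat_lit 268) (nat_lit 242) (nat_lit 210))) (XT.nd (nat_lit 78) (nat_lit 228) (nat_lit 0) (XT.lf (nat_lit 0) (nat_lit 13237899661) (nat_lit 76) (nat_lit 5016638597) (nat_lit 152) (nat_lit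 451040618) (nat_lit 11) (nat_lit 5) (nat_lit 12) (nat_lit 5) (nat_lit 13) (nat_lit 4) (nat_lit 269) (nat_lit 242) (nat_lit 209)) (XT.nd (nat_lit 78) (nat_lit 0) (nat_lit 0) (XT.lf (nat_lit 0) (nat_lit 777316825) (nat_lit 152) (nat_lit 1178895781) (nat_lit 228) (nat_lit 17884358888) (nat_lit 8) (nat_lit 5) (nat_lit 10) (nat_lit 5) (nat_lit 11) (nat_lit 5) (nat_lit 270) (nat_lit 242) (nat_lit 208)) (XT.lf (nat_lit 0) (nat_lit 4711799359) (nat_lit 228) (nat_lit 13378824610) (nat_lit 76) (nat_lit 2960603173) (nat_lit 8) (nat_lit 5) (nat_lit 11) (nat_lit 5) (nat_lit 9) (nat_lit 4) (nat_lit 271) (nat_lit 242) (nat_lit 207))))) (XT.nd (nat_lit 234) (nat_lit 76) (nat_lit 0) (XT.nd (nat_lit 78) (nat_lit 76) (nat_lit 0) (XT.lf (nat_lit 0) (nat_lit 7677169430) (nat_lit 228) (nat_lit 7335406715) (nat_lit 76) (nat_lit 7347207137) (nat_lit 8) (nat_lit 5) (nat_lit 11) (nat_lit 5) (nat_lit 9) (nat_lit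 4) (nat_lit 272) (nat_lit 242) (nat_lit 206)) (XT.nd (nat_lit 78) (nat_lit 76) (nat_lit 0) (XT.lf (nat_lit 0) (nat_lit 10841542911) (nat_lit 228) (nat_lit 868835665) (nat_lit 76) (nat_lit 12065883941) (nat_lit 8) (nat_lit 5) (nat_lit 11) (nat_lit 5) (nat_lit 9) (nat_lit 4) (nat_lit 273) (nat_lit 242) (nat_lit 205)) (XT.lf (nat_lit 0) (nat_lit 6378276168) (nat_lit 76) (nat_lit 7998793171) (nat_lit 152) (nat_lit 10919717641) (nat_lit 7) (nat_lit 5) (nat_lit 8) (nat_lit 5) (nat_lit 9) (nat_lit 4) (nat_lit 274) (nat_lit 242) (nat_lit 204)))) (XT.nd (nat_lit 78) (nat_lit 76) (nat_lit 0) (XT.lf (nat_lit 0) (nat_lit 14200130272) (nat_lit 76) (nat_lit 3984981077) (nat_lit 152) (nat_lit 8754822930) (nat_lit 7) (nat_lit 5) (nat_lit 8) (nat_lit 5) (nat_lit 9) (nat_lit 4) (nat_lit 275) (nat_lit 242) (nat_lit 203)) (XT.nd (nat_lit 78) (nat_lit 76) (nat_lit 0) (XT.lf (nat_lit 0) (nat_lit 22274201944)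 (nat_lit 152) (nat_lit 6127836890) (nat_lit 0) (nat_lit 314525403) (nat_lit 7) (nat_lit 5) (nat_lit 9) (nat_lit 4) (nat_lit 7) (nat_lit 4) (nat_lit 276) (nat_lit 242) (nat_lit 202)) (XT.lf (nat_lit 0) (nat_lit 906190442) (nat_lit 76) (nat_lit 25879889669) (nat_lit 76) (nat_lit 3841724333) (nat_lit 6) (nat_lit 4) (nat_lit 7) (nat_lit 5) (nat_lit 7) (nat_lit 4) (nat_lit 277) (nat_lit 242) (nat_lit 201)))))) (XT.nd (nat_lit 468) (nat_lit 76) (nat_lit 0) (XT.nd (nat_lit 234) (nat_lit 76) (nat_lit 0) (XT.nd (nat_lit 78) (nat_lit 76) (nat_lit 0) (XT.lf (nat_lit 0) (nat_lit 8803946490) (nat_lit 76) (nat_lit 22993921797) (nat_lit 76) (nat_lit 883081652) (nat_lit 6) (nat_lit 4) (nat_lit 7) (nat_lit 5) (nat_lit 7) (nat_lit 4) (nat_lit 278) (nat_lit 242) (nat_lit 200)) (XT.nd (nat_lit 78) (nat_lit 0) (nat_lit 0) (XT.lf (nat_lit 0) (nat_lit 2169319982) (nat_lit 152) (nat_lit 17665946072) (nat_lit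 76) (nat_lit 15060918703) (nat_lit 5) (nat_lit 5) (nat_lit 7) (nat_lit 5) (nat_lit 6) (nat_lit 4) (nat_lit 279) (nat_lit 242) (nat_lit 199)) (XT.lf (nat_lit 0) (nat_lit 5392959743) (nat_lit 152) (nat_lit 11023082304) (nat_lit 76) (nat_lit 20872878433) (nat_lit 5) (nat_lit 5) (nat_lit 7) (nat_lit 5) (nat_lit 6) (nat_lit 4) (nat_lit 280) (nat_lit 242) (nat_lit 198)))) (XT.nd (nat_lit 78) (nat_lit 76) (nat_lit 0) (XT.lf (nat_lit 0) (nat_lit 8851116003) (nat_lit 152) (nat_lit 3887808890) (nat_lit 76) (nat_lit 27136110442) (nat_lit 5) (nat_lit 5) (nat_lit 7) (nat_lit 5) (nat_lit 6) (nat_lit 4) (nat_lit 281) (nat_lit 242) (nat_lit 197)) (XT.nd (nat_lit 78) (nat_lit 0) (nat_lit 0) (XT.lf (nat_lit 0) (nat_lit 3981318968) (nat_lit 76) (nat_lit 8678713387) (nat_lit 152) (nat_lit 30002162026) (nat_lit 4) (nat_lit 5) (nat_lit 5) (nat_lit 5) (nat_lit 6) (nat_lit 4) (nat_lit 282) (nat_lit 242) (nat_lit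 196)) (XT.lf (nat_lit 0) (nat_lit 12665865728) (nat_lit 76) (nat_lit 4193208942) (nat_lit 152) (nat_lit 28806495886) (nat_lit 4) (nat_lit 5) (nat_lit 5) (nat_lit 5) (nat_lit 6) (nat_lit 4) (nat_lit 283) (nat_lit 242) (nat_lit 195))))) (XT.nd (nat_lit 234) (nat_lit 76) (nat_lit 0) (XT.nd (nat_lit 78) (nat_lit 0) (nat_lit 0) (XT.lf (nat_lit 0) (nat_lit 21390041398) (nat_lit 152) (nat_lit 26913606224) (nat_lit 0) (nat_lit 605960801) (nat_lit 4) (nat_lit 5) (nat_lit 6) (nat_lit 4) (nat_lit 4) (nat_lit 4) (nat_lit 284) (nat_lit 242) (nat_lit 194)) (XT.nd (nat_lit 78) (nat_lit 0) (nat_lit 0) (XT.lf (nat_lit 0) (nat_lit 26374197386) (nat_lit 152) (nat_lit 20480928504) (nat_lit 0) (nat_lit 5550852850) (nat_lit 4) (nat_lit 5) (nat_lit 6) (nat_lit 4) (nat_lit 4) (nat_lit 4) (nat_lit 285) (nat_lit 242) (nat_lit 193)) (XT.lf (nat_lit 0) (nat_lit 31740231595) (nat_lit 152) (nat_lit 13562705321)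 (nat_lit 0) (nat_lit 10880531561) (nat_lit 4) (nat_lit 5) (nat_lit 6) (nat_lit 4) (nat_lit 4) (nat_lit 4) (nat_lit 286) (nat_lit 242) (nat_lit 192)))) (XT.nd (nat_lit 78) (nat_lit 76) (nat_lit 0) (XT.lf (nat_lit 0) (nat_lit 37519942749) (nat_lit 152) (nat_lit 6117939796) (nat_lit 0) (nat_lit 16626580216) (nat_lit 4) (nat_lit 5) (nat_lit 6) (nat_lit 4) (nat_lit 4) (nat_lit 4) (nat_lit 287) (nat_lit 242) (nat_lit 191)) (XT.nd (nat_lit 78) (nat_lit 0) (nat_lit 0) (XT.lf (nat_lit 0) (nat_lit 1997403407) (nat_lit 76) (nat_lit 41798215179) (nat_lit 76) (nat_lit 20873683666) (nat_lit 3) (nat_lit 4) (nat_lit 4) (nat_lit 5) (nat_lit 4) (nat_lit 4) (nat_lit 288) (nat_lit 242) (nat_lit 190)) (XT.lf (nat_lit 0) (nat_lit 11085615883) (nat_lit 76) (nat_lit 39641044275) (nat_lit 76) (nat_lit 18687652596) (nat_lit 3) (nat_lit 4) (nat_lit 4) (nat_lit 5) (nat_lit 4) (nat_lit 4) (nat_lit 289) (nat_lit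 242) (nat_lit 189))))))) (XT.nd (nat_lit 858) (nat_lit 0) (nat_lit 0) (XT.nd (nat_lit 390) (nat_lit 152) (nat_lit 0) (XT.nd (nat_lit 156) (nat_lit 0) (nat_lit 0) (XT.nd (nat_lit 78) (nat_lit 0) (nat_lit 0) (XT.lf (nat_lit 0) (nat_lit 20878393838) (nat_lit 76) (nat_lit 37320861916) (nat_lit 76) (nat_lit 16340747859) (nat_lit 3) (nat_lit 4) (nat_lit 4) (nat_lit 5) (nat_lit 4) (nat_lit 4) (nat_lit 290) (nat_lit 242) (nat_lit 188)) (XT.lf (nat_lit 0) (nat_lit 31433768549) (nat_lit 76) (nat_lit 34823918871) (nat_lit 76) (nat_lit 13819061873) (nat_lit 3) (nat_lit 4) (nat_lit 4) (nat_lit 5) (nat_lit 4) (nat_lit 4) (nat_lit 291) (nat_lit 242) (nat_lit 187))) (XT.nd (nat_lit 78) (nat_lit 0) (nat_lit 0) (XT.lf (nat_lit 0) (nat_lit 42814290384) (nat_lit 76) (nat_lit 32135418441) (nat_lit 76) (nat_lit 11107651312) (nat_lit 3) (nat_lit 4) (nat_lit 4) (nat_lit 5) (nat_lit 4) (nat_lit 4) (nat_lit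 292) (nat_lit 242) (nat_lit 186)) (XT.nd (nat_lit 78) (nat_lit 0) (nat_lit 0) (XT.lf (nat_lit 0) (nat_lit 55087399474) (nat_lit 76) (nat_lit 29239428772) (nat_lit 76) (nat_lit 8190448559) (nat_lit 3) (nat_lit 4) (nat_lit 4) (nat_lit 5) (nat_lit 4) (nat_lit 4) (nat_lit 293) (nat_lit 242) (nat_lit 185)) (XT.lf (nat_lit 0) (nat_lit 68325825352) (nat_lit 76) (nat_lit 26118788443) (nat_lit 76) (nat_lit 5050166486) (nat_lit 3) (nat_lit 4) (nat_lit 4) (nat_lit 5) (nat_lit 4) (nat_lit 4) (nat_lit 294) (nat_lit 242) (nat_lit 184))))) (XT.nd (nat_lit 234) (nat_lit 76) (nat_lit 0) (XT.nd (nat_lit 78) (nat_lit 76) (nat_lit 0) (XT.lf (nat_lit 0) (nat_lit 82608017951) (nat_lit 76) (nat_lit 22755004772) (nat_lit 76) (nat_lit 1668196014) (nat_lit 3) (nat_lit 4) (nat_lit 4) (nat_lit 5) (nat_lit 4) (nat_lit 4) (nat_lit 295) (nat_lit 242) (nat_lit 183)) (XT.nd (nat_lit 78) (nat_lit 0) (nat_lit 0) (XT.lf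 (nat_lit 0) (nat_lit 1876681443) (nat_lit 152) (nat_lit 17200150985) (nat_lit 76) (nat_lit 96090619246) (nat_lit 2) (nat_lit 5) (nat_lit 4) (nat_lit 5) (nat_lit 3) (nat_lit 4) (nat_lit 296) (nat_lit 242) (nat_lit 182)) (XT.lf (nat_lit 0) (nat_lit 5607258069) (nat_lit 152) (nat_lit 9456143854) (nat_lit 76) (nat_lit 108888360556) (nat_lit 2) (nat_lit 5) (nat_lit 4) (nat_lit 5) (nat_lit 3) (nat_lit 4) (nat_lit 297) (nat_lit 242) (nat_lit 181)))) (XT.nd (nat_lit 78) (nat_lit 76) (nat_lit 0) (XT.lf (nat_lit 0) (nat_lit 9629090904) (nat_lit 152) (nat_lit 1105168825) (nat_lit 76) (nat_lit 122705156209) (nat_lit 2) (nat_lit 5) (nat_lit 4) (nat_lit 5) (nat_lit 3) (nat_lit 4) (nat_lit 298) (nat_lit 242) (nat_lit 180)) (XT.nd (nat_lit 78) (nat_lit 0) (nat_lit 0) (XT.lf (nat_lit 0) (nat_lit 8318380438) (nat_lit 76) (nat_lit 5847689843) (nat_lit 152) (nat_lit 129504560324) (nat_lit 1) (nat_lit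 5) (nat_lit 2) (nat_lit 5) (nat_lit 3) (nat_lit 4) (nat_lit 299) (nat_lit 242) (nat_lit 179)) (XT.lf (nat_lit 0) (nat_lit 18547336977) (nat_lit 76) (nat_lit 542451655) (nat_lit 152) (nat_lit 135628670737) (nat_lit 1) (nat_lit 5) (nat_lit 2) (nat_lit 5) (nat_lit 3) (nat_lit 4) (nat_lit 300) (nat_lit 242) (nat_lit 178)))))) (XT.nd (nat_lit 468) (nat_lit 0) (nat_lit 0) (XT.nd (nat_lit 234) (nat_lit 0) (nat_lit 0) (XT.nd (nat_lit 78) (nat_lit 0) (nat_lit 0) (XT.lf (nat_lit 0) (nat_lit 24526088072) (nat_lit 152) (nat_lit 137191132046) (nat_lit 0) (nat_lit 4923417564) (nat_lit 1) (nat_lit 5) (nat_lit 3) (nat_lit 4) (nat_lit 1) (nat_lit 4) (nat_lit 301) (nat_lit 242) (nat_lit 177)) (XT.nd (nat_lit 78) (nat_lit 0) (nat_lit 0) (XT.lf (nat_lit 0) (nat_lit 30405761862) (nat_lit 152) (nat_lit 138316901785) (nat_lit 0) (nat_lit 10793265592) (nat_lit 1) (nat_lit 5) (nat_lit 3) (nat_lit 4) (nat_lit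 1) (nat_lit 4) (nat_lit 302) (nat_lit 242) (nat_lit 176)) (XT.lf (nat_lit 0) (nat_lit 36750606538) (nat_lit 152) (nat_lit 139542056861) (nat_lit 0) (nat_lit 17129012340) (nat_lit 1) (nat_lit 5) (nat_lit 3) (nat_lit 4) (nat_lit 1) (nat_lit 4) (nat_lit 303) (nat_lit 242) (nat_lit 175)))) (XT.nd (nat_lit 78) (nat_lit 0) (nat_lit 0) (XT.lf (nat_lit 0) (nat_lit 43598221180) (nat_lit 152) (nat_lit 140873857454) (nat_lit 0) (nat_lit 23968202975) (nat_lit 1) (nat_lit 5) (nat_lit 3) (nat_lit 4) (nat_lit 1) (nat_lit 4) (nat_lit 304) (nat_lit 242) (nat_lit 174)) (XT.nd (nat_lit 78) (nat_lit 0) (nat_lit 0) (XT.lf (nat_lit 0) (nat_lit 50989184246) (nat_lit 152) (nat_lit 142320195714) (nat_lit 0) (nat_lit 31351366033) (nat_lit 1) (nat_lit 5) (nat_lit 3) (nat_lit 4) (nat_lit 1) (nat_lit 4) (nat_lit 305) (nat_lit 242) (nat_lit 173)) (XT.lf (nat_lit 0) (nat_lit 58967294035) (nat_lit 152) (nat_lit 143889642536)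 (nat_lit 0) (nat_lit 39322253593) (nat_lit 1) (nat_lit 5) (nat_lit 3) (nat_lit 4) (nat_lit 1) (nat_lit 4) (nat_lit 306) (nat_lit 242) (nat_lit 172))))) (XT.nd (nat_lit 234) (nat_lit 0) (nat_lit 0) (XT.nd (nat_lit 78) (nat_lit 0) (nat_lit 0) (XT.lf (nat_lit 0) (nat_lit 67579828234) (nat_lit 152) (nat_lit 145591498344) (nat_lit 0) (nat_lit 47928100543) (nat_lit 1) (nat_lit 5) (nat_lit 3) (nat_lit 4) (nat_lit 1) (nat_lit 4) (nat_lit 307) (nat_lit 242) (nat_lit 171)) (XT.nd (nat_lit 78) (nat_lit 0) (nat_lit 0) (XT.lf (nat_lit 0) (nat_lit 76877824083) (nat_lit 152) (nat_lit 147435848211) (nat_lit 0) (nat_lit 57219904496) (nat_lit 1) (nat_lit 5) (nat_lit 3) (nat_lit 4) (nat_lit 1) (nat_lit 4) (nat_lit 308) (nat_lit 242) (nat_lit 170)) (XT.lf (nat_lit 0) (nat_lit 86916380817) (nat_lit 152) (nat_lit 149433621616) (nat_lit 0) (nat_lit 67252727992) (nat_lit 1) (nat_lit 5) (nat_lit 3) (nat_lit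 4) (nat_lit 1) (nat_lit 4) (nat_lit 309) (nat_lit 242) (nat_lit 169)))) (XT.nd (nat_lit 78) (nat_lit 0) (nat_lit 0) (XT.lf (nat_lit 0) (nat_lit 97754986180) (nat_lit 152) (nat_lit 151596657217) (nat_lit 0) (nat_lit 78086024800) (nat_lit 1) (nat_lit 5) (nat_lit 3) (nat_lit 4) (nat_lit 1) (nat_lit 4) (nat_lit 310) (nat_lit 242) (nat_lit 168)) (XT.nd (nat_lit 78) (nat_lit 0) (nat_lit 0) (XT.lf (nat_lit 0) (nat_lit 109457868943) (nat_lit 152) (nat_lit 153937773003) (nat_lit 0) (nat_lit 89783992237) (nat_lit 1) (nat_lit 5) (nat_lit 3) (nat_lit 4) (nat_lit 1) (nat_lit 4) (nat_lit 311) (nat_lit 242) (nat_lit 167)) (XT.lf (nat_lit 0) (nat_lit 122094379524) (nat_lit 152) (nat_lit 156470842253) (nat_lit 0) (nat_lit 102415951588) (nat_lit 1) (nat_lit 5) (nat_lit 3) (nat_lit 4) (nat_lit 1) (nat_lit 4) (nat_lit 312) (nat_lit 242) (nat_lit 166))))))))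
noncomputable def xc55 : XT := (XT.nd (nat_lit 32214) (nat_lit 0) (nat_lit 836) (XT.nd (nat_lit 858) (nat_lit 0) (nat_lit 0) (XT.nd (nat_lit 390) (nat_lit 0) (nat_lit 0) (XT.nd (nat_lit 156) (nat_lit 0) (nat_lit 0) (XT.nd (nat_lit 78) (nat_lit 0) (nat_lit 0) (XT.lf (nat_lit 0) (nat_lit 135739400948) (nat_lit 152) (nat_lit 159210875747) (nat_lit 0) (nat_lit 116056758911) (nat_lit 1) (nat_lit 5) (nat_lit 3) (nat_lit 4) (nat_lit 1) (nat_lit 4) (nat_lit 313) (nat_lit 242) (nat_lit 165)) (XT.lf (nat_lit 0) (nat_lit 150473792601) (nat_lit 152) (nat_lit 162174110721) (nat_lit 0) (nat_lit 130787248619) (nat_lit 1) (nat_lit 5) (nat_lit 3) (nat_lit 4) (nat_lit 1) (nat_lit 4) (nat_lit 314) (nat_lit 242) (nat_lit 164))) (XT.nd (nat_lit 78) (nat_lit 0) (nat_lit 0) (XT.lf (nat_lit 0) (nat_lit 166384869397) (nat_lit 152) (nat_lit 165378107086) (nat_lit 0) (nat_lit 146694712502) (nat_lit 1) (nat_lit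 5) (nat_lit 3) (nat_lit 4) (nat_lit 1) (nat_lit 4) (nat_lit 315) (nat_lit 242) (nat_lit 163)) (XT.nd (nat_lit 78) (nat_lit 0) (nat_lit 0) (XT.lf (nat_lit 0) (nat_lit 183566919198) (nat_lit 152) (nat_lit 168841851486) (nat_lit 0) (nat_lit 163873417014) (nat_lit 1) (nat_lit 5) (nat_lit 3) (nat_lit 4) (nat_lit 1) (nat_lit 4) (nat_lit 316) (nat_lit 242) (nat_lit 162)) (XT.lf (nat_lit 0) (nat_lit 202121761559) (nat_lit 152) (nat_lit 172585869816) (nat_lit 0) (nat_lit 182425161885) (nat_lit 1) (nat_lit 5) (nat_lit 3) (nat_lit 4) (nat_lit 1) (nat_lit 4) (nat_lit 317) (nat_lit 242) (nat_lit 161))))) (XT.nd (nat_lit 234) (nat_lit 0) (nat_lit 0) (XT.nd (nat_lit 78) (nat_lit 0) (nat_lit 0) (XT.lf (nat_lit 0) (nat_lit 222159351101) (nat_lit 152) (nat_lit 176632348849) (nat_lit 0) (nat_lit 202459883380) (nat_lit 1) (nat_lit 5) (nat_lit 3) (nat_lit 4) (nat_lit 1) (nat_lit 4) (nat_lit 318) (nat_lit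 242) (nat_lit 160)) (XT.nd (nat_lit 78) (nat_lit 0) (nat_lit 0) (XT.lf (nat_lit 0) (nat_lit 243798429095) (nat_lit 152) (nat_lit 181005267721) (nat_lit 0) (nat_lit 224096305776) (nat_lit 1) (nat_lit 5) (nat_lit 3) (nat_lit 4) (nat_lit 1) (nat_lit 4) (nat_lit 319) (nat_lit 242) (nat_lit 159)) (XT.lf (nat_lit 0) (nat_lit 267167227115) (nat_lit 152) (nat_lit 185730540025) (nat_lit 0) (nat_lit 247462644908) (nat_lit 1) (nat_lit 5) (nat_lit 3) (nat_lit 4) (nat_lit 1) (nat_lit 4) (nat_lit 320) (nat_lit 242) (nat_lit 158)))) (XT.nd (nat_lit 78) (nat_lit 0) (nat_lit 0) (XT.lf (nat_lit 0) (nat_lit 292404226926) (nat_lit 152) (nat_lit 190836167375) (nat_lit 0) (nat_lit 272697367972) (nat_lit 1) (nat_lit 5) (nat_lit 3) (nat_lit 4) (nat_lit 1) (nat_lit 4) (nat_lit 321) (nat_lit 242) (nat_lit 157)) (XT.nd (nat_lit 78) (nat_lit 0) (nat_lit 0) (XT.lf (nat_lit 0) (nat_lit 319658981121) (nat_lit 152)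 (nat_lit 196352405341) (nat_lit 0) (nat_lit 299950014067) (nat_lit 1) (nat_lit 5) (nat_lit 3) (nat_lit 4) (nat_lit 1) (nat_lit 4) (nat_lit 322) (nat_lit 242) (nat_lit 156)) (XT.lf (nat_lit 0) (nat_lit 349092999353) (nat_lit 152) (nat_lit 202311942740) (nat_lit 0) (nat_lit 329382080355) (nat_lit 1) (nat_lit 5) (nat_lit 3) (nat_lit 4) (nat_lit 1) (nat_lit 4) (nat_lit 323) (nat_lit 242) (nat_lit 155)))))) (XT.nd (nat_lit 468) (nat_lit 0) (nat_lit 0) (XT.nd (nat_lit 234) (nat_lit 0) (nat_lit 0) (XT.nd (nat_lit 78) (nat_lit 0) (nat_lit 0) (XT.lf (nat_lit 0) (nat_lit 380880705435) (nat_lit 152) (nat_lit 208750095348) (nat_lit 0) (nat_lit 361167979081) (nat_lit 1) (nat_lit 5) (nat_lit 3) (nat_lit 4) (nat_lit 1) (nat_lit 4) (nat_lit 324) (nat_lit 242) (nat_lit 154)) (XT.nd (nat_lit 78) (nat_lit 0) (nat_lit 0) (XT.lf (nat_lit 0) (nat_lit 415210470958) (nat_lit 152) (nat_lit 215705015183) (nat_lit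 0) (nat_lit 395496071126) (nat_lit 1) (nat_lit 5) (nat_lit 3) (nat_lit 4) (nat_lit 1) (nat_lit 4) (nat_lit 325) (nat_lit 242) (nat_lit 153)) (XT.lf (nat_lit 0) (nat_lit 452285731569) (nat_lit 152) (nat_lit 223217916582) (nat_lit 0) (nat_lit 432569782221) (nat_lit 1) (nat_lit 5) (nat_lit 3) (nat_lit 4) (nat_lit 1) (nat_lit 4) (nat_lit 326) (nat_lit 242) (nat_lit 152)))) (XT.nd (nat_lit 78) (nat_lit 0) (nat_lit 0) (XT.lf (nat_lit 0) (nat_lit 492326192517) (nat_lit 152) (nat_lit 231333320445) (nat_lit 0) (nat_lit 472608808432) (nat_lit 1) (nat_lit 5) (nat_lit 3) (nat_lit 4) (nat_lit 1) (nat_lit 4) (nat_lit 327) (nat_lit 242) (nat_lit 151)) (XT.nd (nat_lit 78) (nat_lit 0) (nat_lit 0) (XT.lf (nat_lit 0) (nat_lit 535569130607) (nat_lit 152) (nat_lit 240099318052) (nat_lit 0) (nat_lit 515850418062) (nat_lit 1) (nat_lit 5) (nat_lit 3) (nat_lit 4) (nat_lit 1) (nat_lit 4) (nat_lit 328) (nat_lit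 242) (nat_lit 150)) (XT.lf (nat_lit 0) (nat_lit 582270800287) (nat_lit 152) (nat_lit 249567856056) (nat_lit 0) (nat_lit 562550857686) (nat_lit 1) (nat_lit 5) (nat_lit 3) (nat_lit 4) (nat_lit 1) (nat_lit 4) (nat_lit 329) (nat_lit 242) (nat_lit 149))))) (XT.nd (nat_lit 234) (nat_lit 0) (nat_lit 0) (XT.nd (nat_lit 78) (nat_lit 0) (nat_lit 0) (XT.lf (nat_lit 0) (nat_lit 632707952193) (nat_lit 152) (nat_lit 259795044312) (nat_lit 0) (nat_lit 612986870651) (nat_lit 1) (nat_lit 5) (nat_lit 3) (nat_lit 4) (nat_lit 1) (nat_lit 4) (nat_lit 330) (nat_lit 242) (nat_lit 148)) (XT.nd (nat_lit 78) (nat_lit 0) (nat_lit 0) (XT.lf (nat_lit 0) (nat_lit 687179473150) (nat_lit 152) (nat_lit 270841488380) (nat_lit 0) (nat_lit 667457337033) (nat_lit 1) (nat_lit 5) (nat_lit 3) (nat_lit 4) (nat_lit 1) (nat_lit 4) (nat_lit 331) (nat_lit 242) (nat_lit 147)) (XT.lf (nat_lit 0) (nat_lit 746008157357) (nat_lit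 152) (nat_lit 282772648670) (nat_lit 0) (nat_lit 726285044782) (nat_lit 1) (nat_lit 5) (nat_lit 3) (nat_lit 4) (nat_lit 1) (nat_lit 4) (nat_lit 332) (nat_lit 242) (nat_lit 146)))) (XT.nd (nat_lit 30498) (nat_lit 0) (nat_lit 3268) (XT.lf (nat_lit 0) (nat_lit 809542619239) (nat_lit 152) (nat_lit 295659228353) (nat_lit 0) (nat_lit 789818602536) (nat_lit 1) (nat_lit 5) (nat_lit 3) (nat_lit 4) (nat_lit 1) (nat_lit 4) (nat_lit 333) (nat_lit 242) (nat_lit 145)) (XT.nd (nat_lit 78) (nat_lit 0) (nat_lit 0) (XT.lf (nat_lit 0) (nat_lit 172672427) (nat_lit 0) (nat_lit 172672427) (nat_lit 228) (nat_lit 3013225966) (nat_lit 44) (nat_lit 5) (nat_lit 44) (nat_lit 3) (nat_lit 47) (nat_lit 3) (nat_lit 243) (nat_lit 243) (nat_lit 234)) (XT.lf (nat_lit 0) (nat_lit 2577250755) (nat_lit 228) (nat_lit 3566329802) (nat_lit 304) (nat_lit 672355936) (nat_lit 44) (nat_lit 5) (nat_lit 47) (nat_lit 3) (nat_lit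 48) (nat_lit 5) (nat_lit 244) (nat_lit 243) (nat_lit 233))))))) (XT.nd (nat_lit 858) (nat_lit 988) (nat_lit 0) (XT.nd (nat_lit 390) (nat_lit 1140) (nat_lit 0) (XT.nd (nat_lit 156) (nat_lit 304) (nat_lit 0) (XT.nd (nat_lit 78) (nat_lit 0) (nat_lit 0) (XT.lf (nat_lit 0) (nat_lit 4441642872) (nat_lit 228) (nat_lit 656612322) (nat_lit 304) (nat_lit 1840345876) (nat_lit 44) (nat_lit 5) (nat_lit 47) (nat_lit 3) (nat_lit 48) (nat_lit 5) (nat_lit 245) (nat_lit 243) (nat_lit 232)) (XT.lf (nat_lit 76) (nat_lit 2508383473) (nat_lit 0) (nat_lit 3838551967) (nat_lit 304) (nat_lit 734765143) (nat_lit 45) (nat_lit 5) (nat_lit 44) (nat_lit 5) (nat_lit 48) (nat_lit 5) (nat_lit 246) (nat_lit 243) (nat_lit 231))) (XT.nd (nat_lit 78) (nat_lit 0) (nat_lit 0) (XT.lf (nat_lit 0) (nat_lit 964027517) (nat_lit 304) (nat_lit 1410164783) (nat_lit 380) (nat_lit 4873163791) (nat_lit 40) (nat_lit 5) (nat_lit 44)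 (nat_lit 5) (nat_lit 45) (nat_lit 5) (nat_lit 247) (nat_lit 243) (nat_lit 230)) (XT.nd (nat_lit 78) (nat_lit 0) (nat_lit 76) (XT.lf (nat_lit 76) (nat_lit 1983679589) (nat_lit 0) (nat_lit 670882153) (nat_lit 380) (nat_lit 4780090006) (nat_lit 41) (nat_lit 5) (nat_lit 40) (nat_lit 5) (nat_lit 45) (nat_lit 5) (nat_lit 248) (nat_lit 243) (nat_lit 229)) (XT.lf (nat_lit 0) (nat_lit 4405743444) (nat_lit 304) (nat_lit 2047587959) (nat_lit 76) (nat_lit 1191009182) (nat_lit 41) (nat_lit 5) (nat_lit 45) (nat_lit 5) (nat_lit 42) (nat_lit 5) (nat_lit 249) (nat_lit 243) (nat_lit 228))))) (XT.nd (nat_lit 234) (nat_lit 456) (nat_lit 0) (XT.nd (nat_lit 78) (nat_lit 456) (nat_lit 0) (XT.lf (nat_lit 0) (nat_lit 1584475876) (nat_lit 304) (nat_lit 4636353571) (nat_lit 380) (nat_lit 1657405398) (nat_lit 37) (nat_lit 5) (nat_lit 41) (nat_lit 5) (nat_lit 42) (nat_lit 5) (nat_lit 250) (nat_lit 243) (nat_lit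 227)) (XT.nd (nat_lit 78) (nat_lit 456) (nat_lit 0) (XT.lf (nat_lit 0) (nat_lit 5520794521) (nat_lit 304) (nat_lit 2591875941) (nat_lit 380) (nat_lit 24882536) (nat_lit 37) (nat_lit 5) (nat_lit 41) (nat_lit 5) (nat_lit 42) (nat_lit 5) (nat_lit 251) (nat_lit 243) (nat_lit 226)) (XT.lf (nat_lit 0) (nat_lit 1273830838) (nat_lit 380) (nat_lit 288793960) (nat_lit 456) (nat_lit 6859800342) (nat_lit 31) (nat_lit 5) (nat_lit 36) (nat_lit 5) (nat_lit 37) (nat_lit 5) (nat_lit 252) (nat_lit 243) (nat_lit 225)))) (XT.nd (nat_lit 78) (nat_lit 456) (nat_lit 0) (XT.lf (nat_lit 0) (nat_lit 3289515756) (nat_lit 456) (nat_lit 3265474530) (nat_lit 76) (nat_lit 2174928214) (nat_lit 31) (nat_lit 5) (nat_lit 37) (nat_lit 5) (nat_lit 32) (nat_lit 5) (nat_lit 253) (nat_lit 243) (nat_lit 224)) (XT.nd (nat_lit 78) (nat_lit 0) (nat_lit 0) (XT.lf (nat_lit 0) (nat_lit 861854910) (nat_lit 456) (nat_lit 4216716442)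 (nat_lit 532) (nat_lit 3990427552) (nat_lit 25) (nat_lit 5) (nat_lit 31) (nat_lit 5) (nat_lit 32) (nat_lit 5) (nat_lit 254) (nat_lit 243) (nat_lit 223)) (XT.lf (nat_lit 0) (nat_lit 5405612491) (nat_lit 456) (nat_lit 1595534791) (nat_lit 532) (nat_lit 2435668125) (nat_lit 25) (nat_lit 5) (nat_lit 31) (nat_lit 5) (nat_lit 32) (nat_lit 5) (nat_lit 255) (nat_lit 243) (nat_lit 222)))))) (XT.nd (nat_lit 468) (nat_lit 380) (nat_lit 0) (XT.nd (nat_lit 234) (nat_lit 304) (nat_lit 0) (XT.nd (nat_lit 78) (nat_lit 76) (nat_lit 0) (XT.lf (nat_lit 0) (nat_lit 367284812) (nat_lit 228) (nat_lit 8657211805) (nat_lit 304) (nat_lit 814582244) (nat_lit 22) (nat_lit 5) (nat_lit 25) (nat_lit 5) (nat_lit 26) (nat_lit 5) (nat_lit 256) (nat_lit 243) (nat_lit 221)) (XT.nd (nat_lit 78) (nat_lit 0) (nat_lit 0) (XT.lf (nat_lit 0) (nat_lit 953794306) (nat_lit 304) (nat_lit 5087683926) (nat_lit 76) (nat_lit 4225756942)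 (nat_lit 21) (nat_lit 5) (nat_lit 25) (nat_lit 5) (nat_lit 22) (nat_lit 5) (nat_lit 257) (nat_lit 243) (nat_lit 220)) (XT.lf (nat_lit 0) (nat_lit 2736215978) (nat_lit 304) (nat_lit 469435441) (nat_lit 76) (nat_lit 7529591654) (nat_lit 21) (nat_lit 5) (nat_lit 25) (nat_lit 5) (nat_lit 22) (nat_lit 5) (nat_lit 258) (nat_lit 243) (nat_lit 219)))) (XT.nd (nat_lit 78) (nat_lit 152) (nat_lit 0) (XT.lf (nat_lit 0) (nat_lit 4663180712) (nat_lit 152) (nat_lit 32962870) (nat_lit 228) (nat_lit 6542327648) (nat_lit 19) (nat_lit 5) (nat_lit 21) (nat_lit 5) (nat_lit 22) (nat_lit 5) (nat_lit 259) (nat_lit 243) (nat_lit 218)) (XT.nd (nat_lit 78) (nat_lit 152) (nat_lit 0) (XT.lf (nat_lit 0) (nat_lit 6833759687) (nat_lit 228) (nat_lit 1722017545) (nat_lit 76) (nat_lit 3225039048) (nat_lit 19) (nat_lit 5) (nat_lit 22) (nat_lit 5) (nat_lit 20) (nat_lit 5) (nat_lit 260) (nat_lit 243) (nat_lit 217)) (XT.lf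 (nat_lit 0) (nat_lit 3614040814) (nat_lit 152) (nat_lit 5547702453) (nat_lit 228) (nat_lit 3203747927) (nat_lit 17) (nat_lit 5) (nat_lit 19) (nat_lit 5) (nat_lit 20) (nat_lit 5) (nat_lit 261) (nat_lit 243) (nat_lit 216))))) (XT.nd (nat_lit 234) (nat_lit 152) (nat_lit 0) (XT.nd (nat_lit 78) (nat_lit 228) (nat_lit 0) (XT.lf (nat_lit 0) (nat_lit 9391669534) (nat_lit 152) (nat_lit 2266028991) (nat_lit 228) (nat_lit 1341157484) (nat_lit 17) (nat_lit 5) (nat_lit 19) (nat_lit 5) (nat_lit 20) (nat_lit 5) (nat_lit 262) (nat_lit 243) (nat_lit 215)) (XT.nd (nat_lit 78) (nat_lit 0) (nat_lit 0) (XT.lf (nat_lit 0) (nat_lit 653237681) (nat_lit 228) (nat_lit 11765931834) (nat_lit 76) (nat_lit 1261513419) (nat_lit 14) (nat_lit 5) (nat_lit 17) (nat_lit 5) (nat_lit 15) (nat_lit 5) (nat_lit 263) (nat_lit 243) (nat_lit 214)) (XT.lf (nat_lit 0) (nat_lit 2834571712) (nat_lit 228) (nat_lit 6505233231) (nat_lit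 76) (nat_lit 5066837518) (nat_lit 14) (nat_lit 5) (nat_lit 17) (nat_lit 5) (nat_lit 15) (nat_lit 5) (nat_lit 264) (nat_lit 243) (nat_lit 213)))) (XT.nd (nat_lit 78) (nat_lit 152) (nat_lit 0) (XT.lf (nat_lit 0) (nat_lit 5134669952) (nat_lit 228) (nat_lit 900901011) (nat_lit 76) (nat_lit 9159901296) (nat_lit 14) (nat_lit 5) (nat_lit 17) (nat_lit 5) (nat_lit 15) (nat_lit 5) (nat_lit 265) (nat_lit 243) (nat_lit 212)) (XT.nd (nat_lit 78) (nat_lit 0) (nat_lit 0) (XT.lf (nat_lit 0) (nat_lit 5347794000) (nat_lit 152) (nat_lit 2347983187) (nat_lit 228) (nat_lit 8345780519) (nat_lit 12) (nat_lit 5) (nat_lit 14) (nat_lit 5) (nat_lit 15) (nat_lit 5) (nat_lit 266) (nat_lit 243) (nat_lit 211)) (XT.lf (nat_lit 0) (nat_lit 10476404740) (nat_lit 228) (nat_lit 4919141250) (nat_lit 76) (nat_lit 1558899903) (nat_lit 12) (nat_lit 5) (nat_lit 15) (nat_lit 5) (nat_lit 13) (nat_lit 4) (nat_lit 267) (nat_lit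 243) (nat_lit 210))))))))
noncomputable def xc56 : XT := (XT.nd (nat_lit 1794) (nat_lit 152) (nat_lit 0) (XT.nd (nat_lit 858) (nat_lit 228) (nat_lit 0) (XT.nd (nat_lit 390) (nat_lit 152) (nat_lit 0) (XT.nd (nat_lit 156) (nat_lit 228) (nat_lit 0) (XT.nd (nat_lit 78) (nat_lit 0) (nat_lit 0) (XT.lf (nat_lit 0) (nat_lit 1251037846) (nat_lit 76) (nat_lit 12273266180) (nat_lit 152) (nat_lit 4412740611) (nat_lit 11) (nat_lit 5) (nat_lit 12) (nat_lit 5) (nat_lit 13) (nat_lit 4) (nat_lit 268) (nat_lit 243) (nat_lit 209)) (XT.lf (nat_lit 0) (nat_lit 8128300370) (nat_lit 76) (nat_lit 8777812304) (nat_lit 152) (nat_lit 2085177993) (nat_lit 11) (nat_lit 5) (nat_lit 12) (nat_lit 5) (nat_lit 13) (nat_lit 4) (nat_lit 269) (nat_lit 243) (nat_lit 208))) (XT.nd (nat_lit 78) (nat_lit 152) (nat_lit 0) (XT.lf (nat_lit 0) (nat_lit 364735309) (nat_lit 152) (nat_lit 4648260780) (nat_lit 76) (nat_lit 15119659389)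 (nat_lit 10) (nat_lit 5) (nat_lit 12) (nat_lit 5) (nat_lit 11) (nat_lit 5) (nat_lit 270) (nat_lit 243) (nat_lit 207)) (XT.nd (nat_lit 78) (nat_lit 0) (nat_lit 0) (XT.lf (nat_lit 0) (nat_lit 2053097642) (nat_lit 152) (nat_lit 854994592) (nat_lit 228) (nat_lit 18452291006) (nat_lit 8) (nat_lit 5) (nat_lit 10) (nat_lit 5) (nat_lit 11) (nat_lit 5) (nat_lit 271) (nat_lit 243) (nat_lit 206)) (XT.lf (nat_lit 0) (nat_lit 5834521686) (nat_lit 228) (nat_lit 13272305195) (nat_lit 76) (nat_lit 3565314530) (nat_lit 8) (nat_lit 5) (nat_lit 11) (nat_lit 5) (nat_lit 9) (nat_lit 4) (nat_lit 272) (nat_lit 243) (nat_lit 205))))) (XT.nd (nat_lit 234) (nat_lit 76) (nat_lit 0) (XT.nd (nat_lit 78) (nat_lit 76) (nat_lit 0) (XT.lf (nat_lit 0) (nat_lit 8981878520) (nat_lit 228) (nat_lit 6832586119) (nat_lit 76) (nat_lit 8275597692) (nat_lit 8) (nat_lit 5) (nat_lit 11) (nat_lit 5) (nat_lit 9) (nat_lit 4) (nat_lit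 273) (nat_lit 243) (nat_lit 204)) (XT.nd (nat_lit 78) (nat_lit 0) (nat_lit 0) (XT.lf (nat_lit 0) (nat_lit 74313006) (nat_lit 76) (nat_lit 12275725322) (nat_lit 152) (nat_lit 13274012198) (nat_lit 7) (nat_lit 5) (nat_lit 8) (nat_lit 5) (nat_lit 9) (nat_lit 4) (nat_lit 274) (nat_lit 243) (nat_lit 203)) (XT.lf (nat_lit 0) (nat_lit 7871933612) (nat_lit 76) (nat_lit 8270974878) (nat_lit 152) (nat_lit 11125571974) (nat_lit 7) (nat_lit 5) (nat_lit 8) (nat_lit 5) (nat_lit 9) (nat_lit 4) (nat_lit 275) (nat_lit 243) (nat_lit 202)))) (XT.nd (nat_lit 78) (nat_lit 76) (nat_lit 0) (XT.lf (nat_lit 0) (nat_lit 16246691945) (nat_lit 76) (nat_lit 3963296463) (nat_lit 152) (nat_lit 8836946656) (nat_lit 7) (nat_lit 5) (nat_lit 8) (nat_lit 5) (nat_lit 9) (nat_lit 4) (nat_lit 276) (nat_lit 243) (nat_lit 201)) (XT.nd (nat_lit 78) (nat_lit 76) (nat_lit 0) (XT.lf (nat_lit 0) (nat_lit 24591561042) (nat_lit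 152) (nat_lit 5737918859) (nat_lit 0) (nat_lit 639178875) (nat_lit 7) (nat_lit 5) (nat_lit 9) (nat_lit 4) (nat_lit 7) (nat_lit 4) (nat_lit 277) (nat_lit 243) (nat_lit 200)) (XT.lf (nat_lit 0) (nat_lit 1836548509) (nat_lit 76) (nat_lit 27608811617) (nat_lit 76) (nat_lit 3589137960) (nat_lit 6) (nat_lit 4) (nat_lit 7) (nat_lit 5) (nat_lit 7) (nat_lit 4) (nat_lit 278) (nat_lit 243) (nat_lit 199)))))) (XT.nd (nat_lit 468) (nat_lit 76) (nat_lit 0) (XT.nd (nat_lit 234) (nat_lit 76) (nat_lit 0) (XT.nd (nat_lit 78) (nat_lit 76) (nat_lit 0) (XT.lf (nat_lit 0) (nat_lit 10302579645) (nat_lit 76) (nat_lit 24517260332) (nat_lit 76) (nat_lit 435279739) (nat_lit 6) (nat_lit 4) (nat_lit 7) (nat_lit 5) (nat_lit 7) (nat_lit 4) (nat_lit 279) (nat_lit 243) (nat_lit 198)) (XT.nd (nat_lit 78) (nat_lit 0) (nat_lit 0) (XT.lf (nat_lit 0) (nat_lit 2798896649) (nat_lit 152) (nat_lit 18317967169) (nat_lit 76)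 (nat_lit 16532771541) (nat_lit 5) (nat_lit 5) (nat_lit 7) (nat_lit 5) (nat_lit 6) (nat_lit 4) (nat_lit 280) (nat_lit 243) (nat_lit 197)) (XT.lf (nat_lit 0) (nat_lit 6246647512) (nat_lit 152) (nat_lit 11200063528) (nat_lit 76) (nat_lit 22789911803) (nat_lit 5) (nat_lit 5) (nat_lit 7) (nat_lit 5) (nat_lit 6) (nat_lit 4) (nat_lit 281) (nat_lit 243) (nat_lit 196)))) (XT.nd (nat_lit 78) (nat_lit 76) (nat_lit 0) (XT.lf (nat_lit 0) (nat_lit 9950178422) (nat_lit 152) (nat_lit 3546180490) (nat_lit 76) (nat_lit 29535891032) (nat_lit 5) (nat_lit 5) (nat_lit 7) (nat_lit 5) (nat_lit 6) (nat_lit 4) (nat_lit 282) (nat_lit 243) (nat_lit 195)) (XT.nd (nat_lit 78) (nat_lit 0) (nat_lit 0) (XT.lf (nat_lit 0) (nat_lit 4935954734) (nat_lit 76) (nat_lit 9114191323) (nat_lit 152) (nat_lit 31993440497) (nat_lit 4) (nat_lit 5) (nat_lit 5) (nat_lit 5) (nat_lit 6) (nat_lit 4) (nat_lit 283) (nat_lit 243) (nat_lit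 194)) (XT.lf (nat_lit 0) (nat_lit 14268144475) (nat_lit 76) (nat_lit 4289018310) (nat_lit 152) (nat_lit 30732409547) (nat_lit 4) (nat_lit 5) (nat_lit 5) (nat_lit 5) (nat_lit 6) (nat_lit 4) (nat_lit 284) (nat_lit 243) (nat_lit 193))))) (XT.nd (nat_lit 234) (nat_lit 76) (nat_lit 0) (XT.nd (nat_lit 78) (nat_lit 0) (nat_lit 0) (XT.lf (nat_lit 0) (nat_lit 23430064771) (nat_lit 152) (nat_lit 28499574506) (nat_lit 0) (nat_lit 865233236) (nat_lit 4) (nat_lit 5) (nat_lit 6) (nat_lit 4) (nat_lit 4) (nat_lit 4) (nat_lit 285) (nat_lit 243) (nat_lit 192)) (XT.nd (nat_lit 78) (nat_lit 0) (nat_lit 0) (XT.lf (nat_lit 0) (nat_lit 28788596196) (nat_lit 152) (nat_lit 21594291474) (nat_lit 0) (nat_lit 6190102162) (nat_lit 4) (nat_lit 5) (nat_lit 6) (nat_lit 4) (nat_lit 4) (nat_lit 4) (nat_lit 286) (nat_lit 243) (nat_lit 191)) (XT.lf (nat_lit 0) (nat_lit 34561360326) (nat_lit 152) (nat_lit 14161507570)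 (nat_lit 0) (nat_lit 11931697312) (nat_lit 4) (nat_lit 5) (nat_lit 6) (nat_lit 4) (nat_lit 4) (nat_lit 4) (nat_lit 287) (nat_lit 243) (nat_lit 190)))) (XT.nd (nat_lit 78) (nat_lit 76) (nat_lit 0) (XT.lf (nat_lit 0) (nat_lit 40782566134) (nat_lit 152) (nat_lit 6157176668) (nat_lit 0) (nat_lit 18124042954) (nat_lit 4) (nat_lit 5) (nat_lit 6) (nat_lit 4) (nat_lit 4) (nat_lit 4) (nat_lit 288) (nat_lit 243) (nat_lit 189)) (XT.nd (nat_lit 78) (nat_lit 0) (nat_lit 0) (XT.lf (nat_lit 0) (nat_lit 2595996565) (nat_lit 76) (nat_lit 44955517240) (nat_lit 76) (nat_lit 22270271683) (nat_lit 3) (nat_lit 4) (nat_lit 4) (nat_lit 5) (nat_lit 4) (nat_lit 4) (nat_lit 289) (nat_lit 243) (nat_lit 188)) (XT.lf (nat_lit 0) (nat_lit 12378762270) (nat_lit 76) (nat_lit 42639591565) (nat_lit 76) (nat_lit 19929603066) (nat_lit 3) (nat_lit 4) (nat_lit 4) (nat_lit 5) (nat_lit 4) (nat_lit 4) (nat_lit 290) (nat_lit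 243) (nat_lit 187))))))) (XT.nd (nat_lit 858) (nat_lit 0) (nat_lit 0) (XT.nd (nat_lit 390) (nat_lit 152) (nat_lit 0) (XT.nd (nat_lit 156) (nat_lit 0) (nat_lit 0) (XT.nd (nat_lit 78) (nat_lit 0) (nat_lit 0) (XT.lf (nat_lit 0) (nat_lit 22924866379) (nat_lit 76) (nat_lit 40146589894) (nat_lit 76) (nat_lit 17413691264) (nat_lit 3) (nat_lit 4) (nat_lit 4) (nat_lit 5) (nat_lit 4) (nat_lit 4) (nat_lit 291) (nat_lit 243) (nat_lit 186)) (XT.lf (nat_lit 0) (nat_lit 34296804324) (nat_lit 76) (nat_lit 37461738885) (nat_lit 76) (nat_lit 14707627171) (nat_lit 3) (nat_lit 4) (nat_lit 4) (nat_lit 5) (nat_lit 4) (nat_lit 4) (nat_lit 292) (nat_lit 243) (nat_lit 185))) (XT.nd (nat_lit 78) (nat_lit 0) (nat_lit 0) (XT.lf (nat_lit 0) (nat_lit 46561965366) (nat_lit 76) (nat_lit 34569128309) (nat_lit 76) (nat_lit 11795374851) (nat_lit 3) (nat_lit 4) (nat_lit 4) (nat_lit 5) (nat_lit 4) (nat_lit 4) (nat_lit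 293) (nat_lit 243) (nat_lit 184)) (XT.nd (nat_lit 78) (nat_lit 0) (nat_lit 0) (XT.lf (nat_lit 0) (nat_lit 59793031942) (nat_lit 76) (nat_lit 31451616771) (nat_lit 76) (nat_lit 8659676512) (nat_lit 3) (nat_lit 4) (nat_lit 4) (nat_lit 5) (nat_lit 4) (nat_lit 4) (nat_lit 294) (nat_lit 243) (nat_lit 183)) (XT.lf (nat_lit 0) (nat_lit 74068410371) (nat_lit 76) (nat_lit 28090730128) (nat_lit 76) (nat_lit 5281950238) (nat_lit 3) (nat_lit 4) (nat_lit 4) (nat_lit 5) (nat_lit 4) (nat_lit 4) (nat_lit 295) (nat_lit 243) (nat_lit 182))))) (XT.nd (nat_lit 234) (nat_lit 76) (nat_lit 0) (XT.nd (nat_lit 78) (nat_lit 76) (nat_lit 0) (XT.lf (nat_lit 0) (nat_lit 89472695490) (nat_lit 76) (nat_lit 24466552014) (nat_lit 76) (nat_lit 1642179875) (nat_lit 3) (nat_lit 4) (nat_lit 4) (nat_lit 5) (nat_lit 4) (nat_lit 4) (nat_lit 296) (nat_lit 243) (nat_lit 181)) (XT.nd (nat_lit 78) (nat_lit 0) (nat_lit 0) (XT.lf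 (nat_lit 0) (nat_lit 2167088546) (nat_lit 152) (nat_lit 18331265231) (nat_lit 76) (nat_lit 103870831362) (nat_lit 2) (nat_lit 5) (nat_lit 4) (nat_lit 5) (nat_lit 3) (nat_lit 4) (nat_lit 297) (nat_lit 243) (nat_lit 180)) (XT.lf (nat_lit 0) (nat_lit 6185720740) (nat_lit 152) (nat_lit 9985878109) (nat_lit 76) (nat_lit 117685505861) (nat_lit 2) (nat_lit 5) (nat_lit 4) (nat_lit 5) (nat_lit 3) (nat_lit 4) (nat_lit 298) (nat_lit 243) (nat_lit 179)))) (XT.nd (nat_lit 78) (nat_lit 76) (nat_lit 0) (XT.lf (nat_lit 0) (nat_lit 10519679311) (nat_lit 152) (nat_lit 983621912) (nat_lit 76) (nat_lit 132601269132) (nat_lit 2) (nat_lit 5) (nat_lit 4) (nat_lit 5) (nat_lit 3) (nat_lit 4) (nat_lit 299) (nat_lit 243) (nat_lit 178)) (XT.nd (nat_lit 78) (nat_lit 0) (nat_lit 0) (XT.lf (nat_lit 0) (nat_lit 9188495839) (nat_lit 76) (nat_lit 6227134684) (nat_lit 152) (nat_lit 139738998591) (nat_lit 1) (nat_lit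 5) (nat_lit 2) (nat_lit 5) (nat_lit 3) (nat_lit 4) (nat_lit 300) (nat_lit 243) (nat_lit 177)) (XT.lf (nat_lit 0) (nat_lit 20220610014) (nat_lit 76) (nat_lit 504023392) (nat_lit 152) (nat_lit 146362365730) (nat_lit 1) (nat_lit 5) (nat_lit 2) (nat_lit 5) (nat_lit 3) (nat_lit 4) (nat_lit 301) (nat_lit 243) (nat_lit 176)))))) (XT.nd (nat_lit 468) (nat_lit 0) (nat_lit 0) (XT.nd (nat_lit 234) (nat_lit 0) (nat_lit 0) (XT.nd (nat_lit 78) (nat_lit 0) (nat_lit 0) (XT.lf (nat_lit 0) (nat_lit 26589683972) (nat_lit 152) (nat_lit 147984519663) (nat_lit 0) (nat_lit 5389264310) (nat_lit 1) (nat_lit 5) (nat_lit 3) (nat_lit 4) (nat_lit 1) (nat_lit 4) (nat_lit 302) (nat_lit 243) (nat_lit 175)) (XT.nd (nat_lit 78) (nat_lit 0) (nat_lit 0) (XT.lf (nat_lit 0) (nat_lit 32932212491) (nat_lit 152) (nat_lit 149213825273) (nat_lit 0) (nat_lit 11723368821) (nat_lit 1) (nat_lit 5) (nat_lit 3) (nat_lit 4) (nat_lit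 1) (nat_lit 4) (nat_lit 303) (nat_lit 243) (nat_lit 174)) (XT.lf (nat_lit 0) (nat_lit 39777682543) (nat_lit 152) (nat_lit 150549468953) (nat_lit 0) (nat_lit 18561038866) (nat_lit 1) (nat_lit 5) (nat_lit 3) (nat_lit 4) (nat_lit 1) (nat_lit 4) (nat_lit 304) (nat_lit 243) (nat_lit 173)))) (XT.nd (nat_lit 78) (nat_lit 0) (nat_lit 0) (XT.lf (nat_lit 0) (nat_lit 47166659876) (nat_lit 152) (nat_lit 151999365627) (nat_lit 0) (nat_lit 25942793971) (nat_lit 1) (nat_lit 5) (nat_lit 3) (nat_lit 4) (nat_lit 1) (nat_lit 4) (nat_lit 305) (nat_lit 243) (nat_lit 172)) (XT.nd (nat_lit 78) (nat_lit 0) (nat_lit 0) (XT.lf (nat_lit 0) (nat_lit 55142931024) (nat_lit 152) (nat_lit 153572107276) (nat_lit 0) (nat_lit 33912377870) (nat_lit 1) (nat_lit 5) (nat_lit 3) (nat_lit 4) (nat_lit 1) (nat_lit 4) (nat_lit 306) (nat_lit 243) (nat_lit 171)) (XT.lf (nat_lit 0) (nat_lit 63753762778) (nat_lit 152) (nat_lit 155277013850)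 (nat_lit 0) (nat_lit 42517017727) (nat_lit 1) (nat_lit 5) (nat_lit 3) (nat_lit 4) (nat_lit 1) (nat_lit 4) (nat_lit 307) (nat_lit 243) (nat_lit 170))))) (XT.nd (nat_lit 234) (nat_lit 0) (nat_lit 0) (XT.nd (nat_lit 78) (nat_lit 0) (nat_lit 0) (XT.lf (nat_lit 0) (nat_lit 73050182289) (nat_lit 152) (nat_lit 157124188500) (nat_lit 0) (nat_lit 51807704000) (nat_lit 1) (nat_lit 5) (nat_lit 3) (nat_lit 4) (nat_lit 1) (nat_lit 4) (nat_lit 308) (nat_lit 243) (nat_lit 169)) (XT.nd (nat_lit 78) (nat_lit 0) (nat_lit 0) (XT.lf (nat_lit 0) (nat_lit 83087279451) (nat_lit 152) (nat_lit 159124577445) (nat_lit 0) (nat_lit 61839492608) (nat_lit 1) (nat_lit 5) (nat_lit 3) (nat_lit 4) (nat_lit 1) (nat_lit 4) (nat_lit 309) (nat_lit 243) (nat_lit 168)) (XT.lf (nat_lit 0) (nat_lit 93924533358) (nat_lit 152) (nat_lit 161290034843) (nat_lit 0) (nat_lit 72671831187) (nat_lit 1) (nat_lit 5) (nat_lit 3) (nat_lit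 4) (nat_lit 1) (nat_lit 4) (nat_lit 310) (nat_lit 243) (nat_lit 167)))) (XT.nd (nat_lit 78) (nat_lit 0) (nat_lit 0) (XT.lf (nat_lit 0) (nat_lit 105626164774) (nat_lit 152) (nat_lit 163633393034) (nat_lit 0) (nat_lit 84368911374) (nat_lit 1) (nat_lit 5) (nat_lit 3) (nat_lit 4) (nat_lit 1) (nat_lit 4) (nat_lit 311) (nat_lit 243) (nat_lit 166)) (XT.nd (nat_lit 78) (nat_lit 0) (nat_lit 0) (XT.lf (nat_lit 0) (nat_lit 118261516699) (nat_lit 152) (nat_lit 166168538584) (nat_lit 0) (nat_lit 97000049198) (nat_lit 1) (nat_lit 5) (nat_lit 3) (nat_lit 4) (nat_lit 1) (nat_lit 4) (nat_lit 312) (nat_lit 243) (nat_lit 165)) (XT.lf (nat_lit 0) (nat_lit 131905465294) (nat_lit 152) (nat_lit 168910494578) (nat_lit 0) (nat_lit 110640095847) (nat_lit 1) (nat_lit 5) (nat_lit 3) (nat_lit 4) (nat_lit 1) (nat_lit 4) (nat_lit 313) (nat_lit 243) (nat_lit 164))))))))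
noncomputable def xc57 : XT := (XT.nd (nat_lit 32292) (nat_lit 0) (nat_lit 760) (XT.nd (nat_lit 858) (nat_lit 0) (nat_lit 0) (XT.nd (nat_lit 390) (nat_lit 0) (nat_lit 0) (XT.nd (nat_lit 156) (nat_lit 0) (nat_lit 0) (XT.nd (nat_lit 78) (nat_lit 0) (nat_lit 0) (XT.lf (nat_lit 0) (nat_lit 146638863587) (nat_lit 152) (nat_lit 171875509644) (nat_lit 0) (nat_lit 125369881228) (nat_lit 1) (nat_lit 5) (nat_lit 3) (nat_lit 4) (nat_lit 1) (nat_lit 4) (nat_lit 314) (nat_lit 243) (nat_lit 163)) (XT.lf (nat_lit 0) (nat_lit 162549020604) (nat_lit 152) (nat_lit 175081154243) (nat_lit 0) (nat_lit 141276692956) (nat_lit 1) (nat_lit 5) (nat_lit 3) (nat_lit 4) (nat_lit 1) (nat_lit 4) (nat_lit 315) (nat_lit 243) (nat_lit 162))) (XT.nd (nat_lit 78) (nat_lit 0) (nat_lit 0) (XT.lf (nat_lit 0) (nat_lit 179730218759) (nat_lit 152) (nat_lit 178546424786) (nat_lit 0) (nat_lit 158454793621) (nat_lit 1) (nat_lit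 5) (nat_lit 3) (nat_lit 4) (nat_lit 1) (nat_lit 4) (nat_lit 316) (nat_lit 243) (nat_lit 161)) (XT.nd (nat_lit 78) (nat_lit 0) (nat_lit 0) (XT.lf (nat_lit 0) (nat_lit 198284272558) (nat_lit 152) (nat_lit 182291856210) (nat_lit 0) (nat_lit 177005979374) (nat_lit 1) (nat_lit 5) (nat_lit 3) (nat_lit 4) (nat_lit 1) (nat_lit 4) (nat_lit 317) (nat_lit 243) (nat_lit 160)) (XT.lf (nat_lit 0) (nat_lit 218321131951) (nat_lit 152) (nat_lit 186339643665) (nat_lit 0) (nat_lit 197040183167) (nat_lit 1) (nat_lit 5) (nat_lit 3) (nat_lit 4) (nat_lit 1) (nat_lit 4) (nat_lit 318) (nat_lit 243) (nat_lit 159))))) (XT.nd (nat_lit 234) (nat_lit 0) (nat_lit 0) (XT.nd (nat_lit 78) (nat_lit 0) (nat_lit 0) (XT.lf (nat_lit 0) (nat_lit 239959533880) (nat_lit 152) (nat_lit 190713774038) (nat_lit 0) (nat_lit 218676126210) (nat_lit 1) (nat_lit 5) (nat_lit 3) (nat_lit 4) (nat_lit 1) (nat_lit 4) (nat_lit 319) (nat_lit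 243) (nat_lit 158)) (XT.nd (nat_lit 78) (nat_lit 0) (nat_lit 0) (XT.lf (nat_lit 0) (nat_lit 263327705915) (nat_lit 152) (nat_lit 195440168103) (nat_lit 0) (nat_lit 242042021496) (nat_lit 1) (nat_lit 5) (nat_lit 3) (nat_lit 4) (nat_lit 1) (nat_lit 4) (nat_lit 320) (nat_lit 243) (nat_lit 157)) (XT.lf (nat_lit 0) (nat_lit 288564126110) (nat_lit 152) (nat_lit 200546834120) (nat_lit 0) (nat_lit 267276333592) (nat_lit 1) (nat_lit 5) (nat_lit 3) (nat_lit 4) (nat_lit 1) (nat_lit 4) (nat_lit 321) (nat_lit 243) (nat_lit 156)))) (XT.nd (nat_lit 78) (nat_lit 0) (nat_lit 0) (XT.lf (nat_lit 0) (nat_lit 315818343623) (nat_lit 152) (nat_lit 206064033814) (nat_lit 0) (nat_lit 294528599161) (nat_lit 1) (nat_lit 5) (nat_lit 3) (nat_lit 4) (nat_lit 1) (nat_lit 4) (nat_lit 322) (nat_lit 243) (nat_lit 155)) (XT.nd (nat_lit 78) (nat_lit 0) (nat_lit 0) (XT.lf (nat_lit 0) (nat_lit 345251864928) (nat_lit 152)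 (nat_lit 212024461702) (nat_lit 0) (nat_lit 323960313110) (nat_lit 1) (nat_lit 5) (nat_lit 3) (nat_lit 4) (nat_lit 1) (nat_lit 4) (nat_lit 323) (nat_lit 243) (nat_lit 154)) (XT.lf (nat_lit 0) (nat_lit 377039110892) (nat_lit 152) (nat_lit 218463438839) (nat_lit 0) (nat_lit 355745885596) (nat_lit 1) (nat_lit 5) (nat_lit 3) (nat_lit 4) (nat_lit 1) (nat_lit 4) (nat_lit 324) (nat_lit 243) (nat_lit 153)))))) (XT.nd (nat_lit 468) (nat_lit 0) (nat_lit 0) (XT.nd (nat_lit 234) (nat_lit 0) (nat_lit 0) (XT.nd (nat_lit 78) (nat_lit 0) (nat_lit 0) (XT.lf (nat_lit 0) (nat_lit 411368450379) (nat_lit 152) (nat_lit 225419122124) (nat_lit 0) (nat_lit 390073675567) (nat_lit 1) (nat_lit 5) (nat_lit 3) (nat_lit 4) (nat_lit 1) (nat_lit 4) (nat_lit 325) (nat_lit 243) (nat_lit 152)) (XT.nd (nat_lit 78) (nat_lit 0) (nat_lit 0) (XT.lf (nat_lit 0) (nat_lit 448443316513) (nat_lit 152) (nat_lit 232932730423) (nat_lit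 0) (nat_lit 427147106964) (nat_lit 1) (nat_lit 5) (nat_lit 3) (nat_lit 4) (nat_lit 1) (nat_lit 4) (nat_lit 326) (nat_lit 243) (nat_lit 151)) (XT.lf (nat_lit 0) (nat_lit 488483412205) (nat_lit 152) (nat_lit 241048788822) (nat_lit 0) (nat_lit 467185874195) (nat_lit 1) (nat_lit 5) (nat_lit 3) (nat_lit 4) (nat_lit 1) (nat_lit 4) (nat_lit 327) (nat_lit 243) (nat_lit 150)))) (XT.nd (nat_lit 78) (nat_lit 0) (nat_lit 0) (XT.lf (nat_lit 0) (nat_lit 531726012094) (nat_lit 152) (nat_lit 249815392481) (nat_lit 0) (nat_lit 510427244029) (nat_lit 1) (nat_lit 5) (nat_lit 3) (nat_lit 4) (nat_lit 1) (nat_lit 4) (nat_lit 328) (nat_lit 243) (nat_lit 149)) (XT.nd (nat_lit 78) (nat_lit 0) (nat_lit 0) (XT.lf (nat_lit 0) (nat_lit 578427368626) (nat_lit 152) (nat_lit 259284491645) (nat_lit 0) (nat_lit 557127461620) (nat_lit 1) (nat_lit 5) (nat_lit 3) (nat_lit 4) (nat_lit 1) (nat_lit 4) (nat_lit 329) (nat_lit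 243) (nat_lit 148)) (XT.lf (nat_lit 0) (nat_lit 628864230579) (nat_lit 152) (nat_lit 269512199493) (nat_lit 0) (nat_lit 607563268999) (nat_lit 1) (nat_lit 5) (nat_lit 3) (nat_lit 4) (nat_lit 1) (nat_lit 4) (nat_lit 330) (nat_lit 243) (nat_lit 147))))) (XT.nd (nat_lit 30732) (nat_lit 0) (nat_lit 2964) (XT.nd (nat_lit 78) (nat_lit 0) (nat_lit 0) (XT.lf (nat_lit 0) (nat_lit 683335483062) (nat_lit 152) (nat_lit 280559124665) (nat_lit 0) (nat_lit 662033545023) (nat_lit 1) (nat_lit 5) (nat_lit 3) (nat_lit 4) (nat_lit 1) (nat_lit 4) (nat_lit 331) (nat_lit 243) (nat_lit 146)) (XT.nd (nat_lit 78) (nat_lit 0) (nat_lit 0) (XT.lf (nat_lit 0) (nat_lit 742163918681) (nat_lit 152) (nat_lit 292490730421) (nat_lit 0) (nat_lit 720861076515) (nat_lit 1) (nat_lit 5) (nat_lit 3) (nat_lit 4) (nat_lit 1) (nat_lit 4) (nat_lit 332) (nat_lit 243) (nat_lit 145)) (XT.lf (nat_lit 0) (nat_lit 805698150389) (nat_lit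 152) (nat_lit 305377722573) (nat_lit 0) (nat_lit 784394471067) (nat_lit 1) (nat_lit 5) (nat_lit 3) (nat_lit 4) (nat_lit 1) (nat_lit 4) (nat_lit 333) (nat_lit 243) (nat_lit 144)))) (XT.nd (nat_lit 78) (nat_lit 304) (nat_lit 0) (XT.lf (nat_lit 0) (nat_lit 1085293104) (nat_lit 0) (nat_lit 1085293104) (nat_lit 228) (nat_lit 1292194326) (nat_lit 44) (nat_lit 5) (nat_lit 44) (nat_lit 3) (nat_lit 47) (nat_lit 3) (nat_lit 244) (nat_lit 244) (nat_lit 232)) (XT.nd (nat_lit 78) (nat_lit 304) (nat_lit 0) (XT.lf (nat_lit 0) (nat_lit 5193886491) (nat_lit 0) (nat_lit 900075300) (nat_lit 228) (nat_lit 964135197) (nat_lit 44) (nat_lit 5) (nat_lit 44) (nat_lit 3) (nat_lit 47) (nat_lit 3) (nat_lit 245) (nat_lit 244) (nat_lit 231)) (XT.lf (nat_lit 0) (nat_lit 626109856) (nat_lit 304) (nat_lit 6016424146) (nat_lit 380) (nat_lit 568497683) (nat_lit 40) (nat_lit 5) (nat_lit 44) (nat_lit 5) (nat_lit 45) (nat_lit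 5) (nat_lit 246) (nat_lit 244) (nat_lit 230))))))) (XT.nd (nat_lit 858) (nat_lit 760) (nat_lit 0) (XT.nd (nat_lit 390) (nat_lit 1140) (nat_lit 0) (XT.nd (nat_lit 156) (nat_lit 304) (nat_lit 0) (XT.nd (nat_lit 78) (nat_lit 0) (nat_lit 0) (XT.lf (nat_lit 0) (nat_lit 2214986498) (nat_lit 304) (nat_lit 2920225159) (nat_lit 380) (nat_lit 2246663336) (nat_lit 40) (nat_lit 5) (nat_lit 44) (nat_lit 5) (nat_lit 45) (nat_lit 5) (nat_lit 247) (nat_lit 244) (nat_lit 229)) (XT.lf (nat_lit 76) (nat_lit 346067540) (nat_lit 0) (nat_lit 3452327750) (nat_lit 380) (nat_lit 3780038619) (nat_lit 41) (nat_lit 5) (nat_lit 40) (nat_lit 5) (nat_lit 45) (nat_lit 5) (nat_lit 248) (nat_lit 244) (nat_lit 228))) (XT.nd (nat_lit 78) (nat_lit 304) (nat_lit 0) (XT.lf (nat_lit 76) (nat_lit 3947228426) (nat_lit 0) (nat_lit 1508403790) (nat_lit 380) (nat_lit 2340647986) (nat_lit 41) (nat_lit 5) (nat_lit 40) (nat_lit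 5) (nat_lit 45) (nat_lit 5) (nat_lit 249) (nat_lit 244) (nat_lit 227)) (XT.nd (nat_lit 78) (nat_lit 380) (nat_lit 0) (XT.lf (nat_lit 0) (nat_lit 7137697269) (nat_lit 304) (nat_lit 306904446) (nat_lit 76) (nat_lit 596808750) (nat_lit 41) (nat_lit 5) (nat_lit 45) (nat_lit 5) (nat_lit 42) (nat_lit 5) (nat_lit 250) (nat_lit 244) (nat_lit 226)) (XT.lf (nat_lit 0) (nat_lit 627024769) (nat_lit 380) (nat_lit 4754696502) (nat_lit 76) (nat_lit 2923340807) (nat_lit 36) (nat_lit 5) (nat_lit 41) (nat_lit 5) (nat_lit 37) (nat_lit 5) (nat_lit 251) (nat_lit 244) (nat_lit 225))))) (XT.nd (nat_lit 234) (nat_lit 760) (nat_lit 0) (XT.nd (nat_lit 78) (nat_lit 380) (nat_lit 0) (XT.lf (nat_lit 0) (nat_lit 2129544922) (nat_lit 380) (nat_lit 974051287) (nat_lit 76) (nat_lit 5493461331) (nat_lit 36) (nat_lit 5) (nat_lit 41) (nat_lit 5) (nat_lit 37) (nat_lit 5) (nat_lit 252) (nat_lit 244) (nat_lit 224)) (XT.nd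 (nat_lit 78) (nat_lit 0) (nat_lit 0) (XT.lf (nat_lit 0) (nat_lit 3180267948) (nat_lit 380) (nat_lit 546204504) (nat_lit 456) (nat_lit 5188912369) (nat_lit 31) (nat_lit 5) (nat_lit 36) (nat_lit 5) (nat_lit 37) (nat_lit 5) (nat_lit 253) (nat_lit 244) (nat_lit 223)) (XT.lf (nat_lit 0) (nat_lit 5435271998) (nat_lit 456) (nat_lit 1683193915) (nat_lit 76) (nat_lit 2142824286) (nat_lit 31) (nat_lit 5) (nat_lit 37) (nat_lit 5) (nat_lit 32) (nat_lit 5) (nat_lit 254) (nat_lit 244) (nat_lit 222)))) (XT.nd (nat_lit 78) (nat_lit 304) (nat_lit 0) (XT.lf (nat_lit 0) (nat_lit 2727650524) (nat_lit 456) (nat_lit 4543564257) (nat_lit 532) (nat_lit 2365197101) (nat_lit 25) (nat_lit 5) (nat_lit 31) (nat_lit 5) (nat_lit 32) (nat_lit 5) (nat_lit 255) (nat_lit 244) (nat_lit 221)) (XT.nd (nat_lit 78) (nat_lit 304) (nat_lit 0) (XT.lf (nat_lit 0) (nat_lit 7501808917) (nat_lit 456) (nat_lit 1713465075) (nat_lit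 532) (nat_lit 830091338) (nat_lit 25) (nat_lit 5) (nat_lit 31) (nat_lit 5) (nat_lit 32) (nat_lit 5) (nat_lit 256) (nat_lit 244) (nat_lit 220)) (XT.lf (nat_lit 0) (nat_lit 791681723) (nat_lit 304) (nat_lit 8346528858) (nat_lit 76) (nat_lit 1347428558) (nat_lit 21) (nat_lit 5) (nat_lit 25) (nat_lit 5) (nat_lit 22) (nat_lit 5) (nat_lit 257) (nat_lit 244) (nat_lit 219)))))) (XT.nd (nat_lit 468) (nat_lit 456) (nat_lit 0) (XT.nd (nat_lit 234) (nat_lit 152) (nat_lit 0) (XT.nd (nat_lit 78) (nat_lit 152) (nat_lit 0) (XT.lf (nat_lit 0) (nat_lit 2536970025) (nat_lit 304) (nat_lit 3770762775) (nat_lit 76) (nat_lit 4649160198) (nat_lit 21) (nat_lit 5) (nat_lit 25) (nat_lit 5) (nat_lit 22) (nat_lit 5) (nat_lit 258) (nat_lit 244) (nat_lit 218)) (XT.nd (nat_lit 78) (nat_lit 0) (nat_lit 0) (XT.lf (nat_lit 0) (nat_lit 1146604433) (nat_lit 152) (nat_lit 3231336701) (nat_lit 228) (nat_lit 7091951437)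 (nat_lit 19) (nat_lit 5) (nat_lit 21) (nat_lit 5) (nat_lit 22) (nat_lit 5) (nat_lit 259) (nat_lit 244) (nat_lit 217)) (XT.lf (nat_lit 0) (nat_lit 6405744079) (nat_lit 228) (nat_lit 5434156327) (nat_lit 76) (nat_lit 181358284) (nat_lit 19) (nat_lit 5) (nat_lit 22) (nat_lit 5) (nat_lit 20) (nat_lit 5) (nat_lit 260) (nat_lit 244) (nat_lit 216)))) (XT.nd (nat_lit 78) (nat_lit 152) (nat_lit 0) (XT.lf (nat_lit 0) (nat_lit 8616354156) (nat_lit 228) (nat_lit 316907417) (nat_lit 76) (nat_lit 3682280443) (nat_lit 19) (nat_lit 5) (nat_lit 22) (nat_lit 5) (nat_lit 20) (nat_lit 5) (nat_lit 261) (nat_lit 244) (nat_lit 215)) (XT.nd (nat_lit 78) (nat_lit 0) (nat_lit 0) (XT.lf (nat_lit 0) (nat_lit 5406975572) (nat_lit 152) (nat_lit 5668219871) (nat_lit 228) (nat_lit 2176882851) (nat_lit 17) (nat_lit 5) (nat_lit 19) (nat_lit 5) (nat_lit 20) (nat_lit 5) (nat_lit 262) (nat_lit 244) (nat_lit 214)) (XT.lf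 (nat_lit 0) (nat_lit 11535421146) (nat_lit 152) (nat_lit 2147960590) (nat_lit 228) (nat_lit 260334425) (nat_lit 17) (nat_lit 5) (nat_lit 19) (nat_lit 5) (nat_lit 20) (nat_lit 5) (nat_lit 263) (nat_lit 244) (nat_lit 213))))) (XT.nd (nat_lit 234) (nat_lit 76) (nat_lit 0) (XT.nd (nat_lit 78) (nat_lit 152) (nat_lit 0) (XT.lf (nat_lit 0) (nat_lit 1793011680) (nat_lit 228) (nat_lit 11200629599) (nat_lit 76) (nat_lit 1687976794) (nat_lit 14) (nat_lit 5) (nat_lit 17) (nat_lit 5) (nat_lit 15) (nat_lit 5) (nat_lit 264) (nat_lit 244) (nat_lit 212)) (XT.nd (nat_lit 78) (nat_lit 152) (nat_lit 0) (XT.lf (nat_lit 0) (nat_lit 4068295767) (nat_lit 228) (nat_lit 5630673388) (nat_lit 76) (nat_lit 5773612576) (nat_lit 14) (nat_lit 5) (nat_lit 17) (nat_lit 5) (nat_lit 15) (nat_lit 5) (nat_lit 265) (nat_lit 244) (nat_lit 211)) (XT.lf (nat_lit 0) (nat_lit 335454459) (nat_lit 152) (nat_lit 6150425590) (nat_lit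 228) (nat_lit 9844406681) (nat_lit 12) (nat_lit 5) (nat_lit 14) (nat_lit 5) (nat_lit 15) (nat_lit 5) (nat_lit 266) (nat_lit 244) (nat_lit 210)))) (XT.nd (nat_lit 78) (nat_lit 76) (nat_lit 0) (XT.lf (nat_lit 0) (nat_lit 7034564363) (nat_lit 152) (nat_lit 2170457158) (nat_lit 228) (nat_lit 8043199794) (nat_lit 12) (nat_lit 5) (nat_lit 14) (nat_lit 5) (nat_lit 15) (nat_lit 5) (nat_lit 267) (nat_lit 244) (nat_lit 209)) (XT.nd (nat_lit 78) (nat_lit 76) (nat_lit 0) (XT.lf (nat_lit 0) (nat_lit 12150044145) (nat_lit 228) (nat_lit 4084134753) (nat_lit 76) (nat_lit 2004989361) (nat_lit 12) (nat_lit 5) (nat_lit 15) (nat_lit 5) (nat_lit 13) (nat_lit 4) (nat_lit 268) (nat_lit 244) (nat_lit 208)) (XT.lf (nat_lit 0) (nat_lit 2548556448) (nat_lit 76) (nat_lit 12860126390) (nat_lit 152) (nat_lit 3894694367) (nat_lit 11) (nat_lit 5) (nat_lit 12) (nat_lit 5) (nat_lit 13) (nat_lit 4) (nat_lit 269) (nat_lit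 244) (nat_lit 207))))))))
noncomputable def xc58 : XT := (XT.nd (nat_lit 1794) (nat_lit 152) (nat_lit 0) (XT.nd (nat_lit 858) (nat_lit 228) (nat_lit 0) (XT.nd (nat_lit 390) (nat_lit 152) (nat_lit 0) (XT.nd (nat_lit 156) (nat_lit 152) (nat_lit 0) (XT.nd (nat_lit 78) (nat_lit 76) (nat_lit 0) (XT.lf (nat_lit 0) (nat_lit 9887301043) (nat_lit 76) (nat_lit 9114295543) (nat_lit 152) (nat_lit 1445450110) (nat_lit 11) (nat_lit 5) (nat_lit 12) (nat_lit 5) (nat_lit 13) (nat_lit 4) (nat_lit 270) (nat_lit 244) (nat_lit 206)) (XT.lf (nat_lit 0) (nat_lit 1103354522) (nat_lit 152) (nat_lit 3952634133) (nat_lit 76) (nat_lit 16627002397) (nat_lit 10) (nat_lit 5) (nat_lit 12) (nat_lit 5) (nat_lit 11) (nat_lit 5) (nat_lit 271) (nat_lit 244) (nat_lit 205))) (XT.nd (nat_lit 78) (nat_lit 0) (nat_lit 0) (XT.lf (nat_lit 0) (nat_lit 3257807963) (nat_lit 152) (nat_lit 564844047) (nat_lit 228) (nat_lit 19188748126)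 (nat_lit 8) (nat_lit 5) (nat_lit 10) (nat_lit 5) (nat_lit 11) (nat_lit 5) (nat_lit 272) (nat_lit 244) (nat_lit 204)) (XT.nd (nat_lit 78) (nat_lit 0) (nat_lit 0) (XT.lf (nat_lit 0) (nat_lit 6940668176) (nat_lit 228) (nat_lit 13325151524) (nat_lit 76) (nat_lit 4165923011) (nat_lit 8) (nat_lit 5) (nat_lit 11) (nat_lit 5) (nat_lit 9) (nat_lit 4) (nat_lit 273) (nat_lit 244) (nat_lit 203)) (XT.lf (nat_lit 0) (nat_lit 10292451723) (nat_lit 228) (nat_lit 6444991076) (nat_lit 76) (nat_lit 9229667098) (nat_lit 8) (nat_lit 5) (nat_lit 11) (nat_lit 5) (nat_lit 9) (nat_lit 4) (nat_lit 274) (nat_lit 244) (nat_lit 202))))) (XT.nd (nat_lit 234) (nat_lit 76) (nat_lit 0) (XT.nd (nat_lit 78) (nat_lit 0) (nat_lit 0) (XT.lf (nat_lit 0) (nat_lit 990809296) (nat_lit 76) (nat_lit 12917300249) (nat_lit 152) (nat_lit 13717671065) (nat_lit 7) (nat_lit 5) (nat_lit 8) (nat_lit 5) (nat_lit 9) (nat_lit 4) (nat_lit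 275) (nat_lit 244) (nat_lit 201)) (XT.nd (nat_lit 78) (nat_lit 0) (nat_lit 0) (XT.lf (nat_lit 0) (nat_lit 9344791311) (nat_lit 76) (nat_lit 8617390739) (nat_lit 152) (nat_lit 11443152817) (nat_lit 7) (nat_lit 5) (nat_lit 8) (nat_lit 5) (nat_lit 9) (nat_lit 4) (nat_lit 276) (nat_lit 244) (nat_lit 200)) (XT.lf (nat_lit 0) (nat_lit 18327078235) (nat_lit 76) (nat_lit 3988450802) (nat_lit 152) (nat_lit 9013842281) (nat_lit 7) (nat_lit 5) (nat_lit 8) (nat_lit 5) (nat_lit 9) (nat_lit 4) (nat_lit 277) (nat_lit 244) (nat_lit 199)))) (XT.nd (nat_lit 78) (nat_lit 76) (nat_lit 0) (XT.lf (nat_lit 0) (nat_lit 27017924799) (nat_lit 152) (nat_lit 5442369907) (nat_lit 0) (nat_lit 947078824) (nat_lit 7) (nat_lit 5) (nat_lit 9) (nat_lit 4) (nat_lit 7) (nat_lit 4) (nat_lit 278) (nat_lit 244) (nat_lit 198)) (XT.nd (nat_lit 78) (nat_lit 0) (nat_lit 0) (XT.lf (nat_lit 0) (nat_lit 2718951497) (nat_lit 76)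 (nat_lit 29524761723) (nat_lit 76) (nat_lit 3396224140) (nat_lit 6) (nat_lit 4) (nat_lit 7) (nat_lit 5) (nat_lit 7) (nat_lit 4) (nat_lit 279) (nat_lit 244) (nat_lit 197)) (XT.lf (nat_lit 0) (nat_lit 11807785191) (nat_lit 76) (nat_lit 26207571878) (nat_lit 76) (nat_lit 25616140) (nat_lit 6) (nat_lit 4) (nat_lit 7) (nat_lit 5) (nat_lit 7) (nat_lit 4) (nat_lit 280) (nat_lit 244) (nat_lit 196)))))) (XT.nd (nat_lit 468) (nat_lit 76) (nat_lit 0) (XT.nd (nat_lit 234) (nat_lit 76) (nat_lit 0) (XT.nd (nat_lit 78) (nat_lit 0) (nat_lit 0) (XT.lf (nat_lit 0) (nat_lit 3413781519) (nat_lit 152) (nat_lit 19130751431) (nat_lit 76) (nat_lit 18084285018) (nat_lit 5) (nat_lit 5) (nat_lit 7) (nat_lit 5) (nat_lit 6) (nat_lit 4) (nat_lit 281) (nat_lit 244) (nat_lit 195)) (XT.nd (nat_lit 78) (nat_lit 0) (nat_lit 0) (XT.lf (nat_lit 0) (nat_lit 7108391478) (nat_lit 152) (nat_lit 11491760173) (nat_lit 76) (nat_lit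 24825041556) (nat_lit 5) (nat_lit 5) (nat_lit 7) (nat_lit 5) (nat_lit 6) (nat_lit 4) (nat_lit 282) (nat_lit 244) (nat_lit 194)) (XT.lf (nat_lit 0) (nat_lit 11081389144) (nat_lit 152) (nat_lit 3270330081) (nat_lit 76) (nat_lit 32095000101) (nat_lit 5) (nat_lit 5) (nat_lit 7) (nat_lit 5) (nat_lit 6) (nat_lit 4) (nat_lit 283) (nat_lit 244) (nat_lit 193)))) (XT.nd (nat_lit 78) (nat_lit 0) (nat_lit 0) (XT.lf (nat_lit 0) (nat_lit 5876210268) (nat_lit 76) (nat_lit 9621430937) (nat_lit 152) (nat_lit 34202354617) (nat_lit 4) (nat_lit 5) (nat_lit 5) (nat_lit 5) (nat_lit 6) (nat_lit 4) (nat_lit 284) (nat_lit 244) (nat_lit 192)) (XT.nd (nat_lit 78) (nat_lit 0) (nat_lit 0) (XT.lf (nat_lit 0) (nat_lit 15914576733) (nat_lit 76) (nat_lit 4426680801) (nat_lit 152) (nat_lit 32866408681) (nat_lit 4) (nat_lit 5) (nat_lit 5) (nat_lit 5) (nat_lit 6) (nat_lit 4) (nat_lit 285) (nat_lit 244) (nat_lit 191))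 (XT.lf (nat_lit 0) (nat_lit 25586380156) (nat_lit 152) (nat_lit 30293326290) (nat_lit 0) (nat_lit 1115175121) (nat_lit 4) (nat_lit 5) (nat_lit 6) (nat_lit 4) (nat_lit 4) (nat_lit 4) (nat_lit 286) (nat_lit 244) (nat_lit 190))))) (XT.nd (nat_lit 234) (nat_lit 76) (nat_lit 0) (XT.nd (nat_lit 78) (nat_lit 0) (nat_lit 0) (XT.lf (nat_lit 0) (nat_lit 31352711857) (nat_lit 152) (nat_lit 22871636480) (nat_lit 0) (nat_lit 6852646655) (nat_lit 4) (nat_lit 5) (nat_lit 6) (nat_lit 4) (nat_lit 4) (nat_lit 4) (nat_lit 287) (nat_lit 244) (nat_lit 189)) (XT.nd (nat_lit 78) (nat_lit 0) (nat_lit 0) (XT.lf (nat_lit 0) (nat_lit 37567961713) (nat_lit 152) (nat_lit 14877577887) (nat_lit 0) (nat_lit 13041174134) (nat_lit 4) (nat_lit 5) (nat_lit 6) (nat_lit 4) (nat_lit 4) (nat_lit 4) (nat_lit 288) (nat_lit 244) (nat_lit 188)) (XT.lf (nat_lit 0) (nat_lit 44268960833) (nat_lit 152) (nat_lit 6263778312) (nat_lit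 0) (nat_lit 19717430313) (nat_lit 4) (nat_lit 5) (nat_lit 6) (nat_lit 4) (nat_lit 4) (nat_lit 4) (nat_lit 289) (nat_lit 244) (nat_lit 187)))) (XT.nd (nat_lit 78) (nat_lit 0) (nat_lit 0) (XT.lf (nat_lit 0) (nat_lit 3179877324) (nat_lit 76) (nat_lit 48392017644) (nat_lit 76) (nat_lit 23817576993) (nat_lit 3) (nat_lit 4) (nat_lit 4) (nat_lit 5) (nat_lit 4) (nat_lit 4) (nat_lit 290) (nat_lit 244) (nat_lit 186)) (XT.nd (nat_lit 78) (nat_lit 0) (nat_lit 0) (XT.lf (nat_lit 0) (nat_lit 13717397542) (nat_lit 76) (nat_lit 45902665394) (nat_lit 76) (nat_lit 21307011659) (nat_lit 3) (nat_lit 4) (nat_lit 4) (nat_lit 5) (nat_lit 4) (nat_lit 4) (nat_lit 291) (nat_lit 244) (nat_lit 185)) (XT.lf (nat_lit 0) (nat_lit 25081387440) (nat_lit 76) (nat_lit 43221193479) (nat_lit 76) (nat_lit 18605897999) (nat_lit 3) (nat_lit 4) (nat_lit 4) (nat_lit 5) (nat_lit 4) (nat_lit 4) (nat_lit 292) (nat_lit 244) (nat_lit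 184))))))) (XT.nd (nat_lit 858) (nat_lit 0) (nat_lit 0) (XT.nd (nat_lit 390) (nat_lit 152) (nat_lit 0) (XT.nd (nat_lit 156) (nat_lit 0) (nat_lit 0) (XT.nd (nat_lit 78) (nat_lit 0) (nat_lit 0) (XT.lf (nat_lit 0) (nat_lit 37339189179) (nat_lit 76) (nat_lit 40331711693) (nat_lit 76) (nat_lit 15698229413) (nat_lit 3) (nat_lit 4) (nat_lit 4) (nat_lit 5) (nat_lit 4) (nat_lit 4) (nat_lit 293) (nat_lit 244) (nat_lit 183)) (XT.lf (nat_lit 0) (nat_lit 50563441586) (nat_lit 76) (nat_lit 37217097183) (nat_lit 76) (nat_lit 12566775272) (nat_lit 3) (nat_lit 4) (nat_lit 4) (nat_lit 5) (nat_lit 4) (nat_lit 4) (nat_lit 294) (nat_lit 244) (nat_lit 182))) (XT.nd (nat_lit 78) (nat_lit 0) (nat_lit 0) (XT.lf (nat_lit 0) (nat_lit 64832510599) (nat_lit 76) (nat_lit 33858892973) (nat_lit 76) (nat_lit 9192978812) (nat_lit 3) (nat_lit 4) (nat_lit 4) (nat_lit 5) (nat_lit 4) (nat_lit 4) (nat_lit 295) (nat_lit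 244) (nat_lit 181)) (XT.nd (nat_lit 78) (nat_lit 0) (nat_lit 0) (XT.lf (nat_lit 0) (nat_lit 80230953666) (nat_lit 76) (nat_lit 30237198593) (nat_lit 76) (nat_lit 5556847164) (nat_lit 3) (nat_lit 4) (nat_lit 4) (nat_lit 5) (nat_lit 4) (nat_lit 4) (nat_lit 296) (nat_lit 244) (nat_lit 180)) (XT.lf (nat_lit 0) (nat_lit 96850020819) (nat_lit 76) (nat_lit 26330552152) (nat_lit 76) (nat_lit 1636832882) (nat_lit 3) (nat_lit 4) (nat_lit 4) (nat_lit 5) (nat_lit 4) (nat_lit 4) (nat_lit 297) (nat_lit 244) (nat_lit 179))))) (XT.nd (nat_lit 234) (nat_lit 76) (nat_lit 0) (XT.nd (nat_lit 78) (nat_lit 0) (nat_lit 0) (XT.lf (nat_lit 0) (nat_lit 2460716764) (nat_lit 152) (nat_lit 19587806030) (nat_lit 76) (nat_lit 112260198297) (nat_lit 2) (nat_lit 5) (nat_lit 4) (nat_lit 5) (nat_lit 3) (nat_lit 4) (nat_lit 298) (nat_lit 244) (nat_lit 178)) (XT.nd (nat_lit 78) (nat_lit 0) (nat_lit 0) (XT.lf (nat_lit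 0) (nat_lit 6791931301) (nat_lit 152) (nat_lit 10590340562) (nat_lit 76) (nat_lit 127174143020) (nat_lit 2) (nat_lit 5) (nat_lit 4) (nat_lit 5) (nat_lit 3) (nat_lit 4) (nat_lit 299) (nat_lit 244) (nat_lit 177)) (XT.lf (nat_lit 0) (nat_lit 11464358195) (nat_lit 152) (nat_lit 882304447) (nat_lit 76) (nat_lit 143277700931) (nat_lit 2) (nat_lit 5) (nat_lit 4) (nat_lit 5) (nat_lit 3) (nat_lit 4) (nat_lit 300) (nat_lit 244) (nat_lit 176)))) (XT.nd (nat_lit 78) (nat_lit 0) (nat_lit 0) (XT.lf (nat_lit 0) (nat_lit 10099025579) (nat_lit 76) (nat_lit 6649542130) (nat_lit 152) (nat_lit 150810156751) (nat_lit 1) (nat_lit 5) (nat_lit 2) (nat_lit 5) (nat_lit 3) (nat_lit 4) (nat_lit 301) (nat_lit 244) (nat_lit 175)) (XT.nd (nat_lit 78) (nat_lit 0) (nat_lit 0) (XT.lf (nat_lit 0) (nat_lit 22000712587) (nat_lit 76) (nat_lit 474194033) (nat_lit 152) (nat_lit 157971390426) (nat_lit 1) (nat_lit 5) (nat_lit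 2) (nat_lit 5) (nat_lit 3) (nat_lit 4) (nat_lit 302) (nat_lit 244) (nat_lit 174)) (XT.lf (nat_lit 0) (nat_lit 28803886171) (nat_lit 152) (nat_lit 159667328779) (nat_lit 0) (nat_lit 5882110993) (nat_lit 1) (nat_lit 5) (nat_lit 3) (nat_lit 4) (nat_lit 1) (nat_lit 4) (nat_lit 303) (nat_lit 244) (nat_lit 173)))))) (XT.nd (nat_lit 468) (nat_lit 0) (nat_lit 0) (XT.nd (nat_lit 234) (nat_lit 0) (nat_lit 0) (XT.nd (nat_lit 78) (nat_lit 0) (nat_lit 0) (XT.lf (nat_lit 0) (nat_lit 35647370491) (nat_lit 152) (nat_lit 161006530872) (nat_lit 0) (nat_lit 12718373084) (nat_lit 1) (nat_lit 5) (nat_lit 3) (nat_lit 4) (nat_lit 1) (nat_lit 4) (nat_lit 304) (nat_lit 244) (nat_lit 172)) (XT.nd (nat_lit 78) (nat_lit 0) (nat_lit 0) (XT.lf (nat_lit 0) (nat_lit 43034509184) (nat_lit 152) (nat_lit 162459722373) (nat_lit 0) (nat_lit 20098824529) (nat_lit 1) (nat_lit 5) (nat_lit 3) (nat_lit 4) (nat_lit 1) (nat_lit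 4) (nat_lit 305) (nat_lit 244) (nat_lit 171)) (XT.lf (nat_lit 0) (nat_lit 51009077887) (nat_lit 152) (nat_lit 164035514788) (nat_lit 0) (nat_lit 28067201335) (nat_lit 1) (nat_lit 5) (nat_lit 3) (nat_lit 4) (nat_lit 1) (nat_lit 4) (nat_lit 306) (nat_lit 244) (nat_lit 170)))) (XT.nd (nat_lit 78) (nat_lit 0) (nat_lit 0) (XT.lf (nat_lit 0) (nat_lit 59618333303) (nat_lit 152) (nat_lit 165743246146) (nat_lit 0) (nat_lit 36670723512) (nat_lit 1) (nat_lit 5) (nat_lit 3) (nat_lit 4) (nat_lit 1) (nat_lit 4) (nat_lit 307) (nat_lit 244) (nat_lit 169)) (XT.nd (nat_lit 78) (nat_lit 0) (nat_lit 0) (XT.lf (nat_lit 0) (nat_lit 68913293242) (nat_lit 152) (nat_lit 167593036336) (nat_lit 0) (nat_lit 45960374898) (nat_lit 1) (nat_lit 5) (nat_lit 3) (nat_lit 4) (nat_lit 1) (nat_lit 4) (nat_lit 308) (nat_lit 244) (nat_lit 168)) (XT.lf (nat_lit 0) (nat_lit 78949038948) (nat_lit 152) (nat_lit 169595847078)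 (nat_lit 0) (nat_lit 55991205276) (nat_lit 1) (nat_lit 5) (nat_lit 3) (nat_lit 4) (nat_lit 1) (nat_lit 4) (nat_lit 309) (nat_lit 244) (nat_lit 167))))) (XT.nd (nat_lit 234) (nat_lit 0) (nat_lit 0) (XT.nd (nat_lit 78) (nat_lit 0) (nat_lit 0) (XT.lf (nat_lit 0) (nat_lit 89785041507) (nat_lit 152) (nat_lit 171763546880) (nat_lit 0) (nat_lit 66822656606) (nat_lit 1) (nat_lit 5) (nat_lit 3) (nat_lit 4) (nat_lit 1) (nat_lit 4) (nat_lit 310) (nat_lit 244) (nat_lit 166)) (XT.nd (nat_lit 78) (nat_lit 0) (nat_lit 0) (XT.lf (nat_lit 0) (nat_lit 101485514267) (nat_lit 152) (nat_lit 174108981370) (nat_lit 0) (nat_lit 78518915265) (nat_lit 1) (nat_lit 5) (nat_lit 3) (nat_lit 4) (nat_lit 1) (nat_lit 4) (nat_lit 311) (nat_lit 244) (nat_lit 165)) (XT.lf (nat_lit 0) (nat_lit 114119793363) (nat_lit 152) (nat_lit 176646049421) (nat_lit 0) (nat_lit 91149292416) (nat_lit 1) (nat_lit 5) (nat_lit 3) (nat_lit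 4) (nat_lit 1) (nat_lit 4) (nat_lit 312) (nat_lit 244) (nat_lit 164)))) (XT.nd (nat_lit 78) (nat_lit 0) (nat_lit 0) (XT.lf (nat_lit 0) (nat_lit 127762748598) (nat_lit 152) (nat_lit 179389785507) (nat_lit 0) (nat_lit 104788634738) (nat_lit 1) (nat_lit 5) (nat_lit 3) (nat_lit 4) (nat_lit 1) (nat_lit 4) (nat_lit 313) (nat_lit 244) (nat_lit 163)) (XT.nd (nat_lit 78) (nat_lit 0) (nat_lit 0) (XT.lf (nat_lit 0) (nat_lit 142495227112) (nat_lit 152) (nat_lit 182356448808) (nat_lit 0) (nat_lit 119517767963) (nat_lit 1) (nat_lit 5) (nat_lit 3) (nat_lit 4) (nat_lit 1) (nat_lit 4) (nat_lit 314) (nat_lit 244) (nat_lit 162)) (XT.lf (nat_lit 0) (nat_lit 158404532484) (nat_lit 152) (nat_lit 185563619549) (nat_lit 0) (nat_lit 135423975844) (nat_lit 1) (nat_lit 5) (nat_lit 3) (nat_lit 4) (nat_lit 1) (nat_lit 4) (nat_lit 315) (nat_lit 244) (nat_lit 161))))))))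
noncomputable def xc59 : XT := (XT.nd (nat_lit 32370) (nat_lit 0) (nat_lit 684) (XT.nd (nat_lit 858) (nat_lit 0) (nat_lit 0) (XT.nd (nat_lit 390) (nat_lit 0) (nat_lit 0) (XT.nd (nat_lit 156) (nat_lit 0) (nat_lit 0) (XT.nd (nat_lit 78) (nat_lit 0) (nat_lit 0) (XT.lf (nat_lit 0) (nat_lit 175584942077) (nat_lit 152) (nat_lit 189030303187) (nat_lit 0) (nat_lit 152601517391) (nat_lit 1) (nat_lit 5) (nat_lit 3) (nat_lit 4) (nat_lit 1) (nat_lit 4) (nat_lit 316) (nat_lit 244) (nat_lit 160)) (XT.lf (nat_lit 0) (nat_lit 194138265727) (nat_lit 152) (nat_lit 192777043033) (nat_lit 0) (nat_lit 171152185443) (nat_lit 1) (nat_lit 5) (nat_lit 3) (nat_lit 4) (nat_lit 1) (nat_lit 4) (nat_lit 317) (nat_lit 244) (nat_lit 159))) (XT.nd (nat_lit 78) (nat_lit 0) (nat_lit 0) (XT.lf (nat_lit 0) (nat_lit 214174449055) (nat_lit 152) (nat_lit 196826041989) (nat_lit 0) (nat_lit 191185909883) (nat_lit 1) (nat_lit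 5) (nat_lit 3) (nat_lit 4) (nat_lit 1) (nat_lit 4) (nat_lit 318) (nat_lit 244) (nat_lit 158)) (XT.nd (nat_lit 78) (nat_lit 0) (nat_lit 0) (XT.lf (nat_lit 0) (nat_lit 235812224999) (nat_lit 152) (nat_lit 201201294122) (nat_lit 0) (nat_lit 212821409079) (nat_lit 1) (nat_lit 5) (nat_lit 3) (nat_lit 4) (nat_lit 1) (nat_lit 4) (nat_lit 319) (nat_lit 244) (nat_lit 157)) (XT.lf (nat_lit 0) (nat_lit 259179817417) (nat_lit 152) (nat_lit 205928726854) (nat_lit 0) (nat_lit 236186893398) (nat_lit 1) (nat_lit 5) (nat_lit 3) (nat_lit 4) (nat_lit 1) (nat_lit 4) (nat_lit 320) (nat_lit 244) (nat_lit 156))))) (XT.nd (nat_lit 234) (nat_lit 0) (nat_lit 0) (XT.nd (nat_lit 78) (nat_lit 0) (nat_lit 0) (XT.lf (nat_lit 0) (nat_lit 284415700931) (nat_lit 152) (nat_lit 211036354600) (nat_lit 0) (nat_lit 261420824967) (nat_lit 1) (nat_lit 5) (nat_lit 3) (nat_lit 4) (nat_lit 1) (nat_lit 4) (nat_lit 321) (nat_lit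 244) (nat_lit 155)) (XT.nd (nat_lit 78) (nat_lit 0) (nat_lit 0) (XT.lf (nat_lit 0) (nat_lit 311669421516) (nat_lit 152) (nat_lit 216554444784) (nat_lit 0) (nat_lit 288672738197) (nat_lit 1) (nat_lit 5) (nat_lit 3) (nat_lit 4) (nat_lit 1) (nat_lit 4) (nat_lit 322) (nat_lit 244) (nat_lit 154)) (XT.lf (nat_lit 0) (nat_lit 341102482703) (nat_lit 152) (nat_lit 222515697199) (nat_lit 0) (nat_lit 318104125906) (nat_lit 1) (nat_lit 5) (nat_lit 3) (nat_lit 4) (nat_lit 1) (nat_lit 4) (nat_lit 323) (nat_lit 244) (nat_lit 153)))) (XT.nd (nat_lit 78) (nat_lit 0) (nat_lit 0) (XT.lf (nat_lit 0) (nat_lit 372889302631) (nat_lit 152) (nat_lit 228955437787) (nat_lit 0) (nat_lit 349889396318) (nat_lit 1) (nat_lit 5) (nat_lit 3) (nat_lit 4) (nat_lit 1) (nat_lit 4) (nat_lit 324) (nat_lit 244) (nat_lit 152)) (XT.nd (nat_lit 78) (nat_lit 0) (nat_lit 0) (XT.lf (nat_lit 0) (nat_lit 407218247642) (nat_lit 152)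 (nat_lit 235911827972) (nat_lit 0) (nat_lit 384216906592) (nat_lit 1) (nat_lit 5) (nat_lit 3) (nat_lit 4) (nat_lit 1) (nat_lit 4) (nat_lit 325) (nat_lit 244) (nat_lit 151)) (XT.lf (nat_lit 0) (nat_lit 444292748520) (nat_lit 152) (nat_lit 243426090807) (nat_lit 0) (nat_lit 421290079009) (nat_lit 1) (nat_lit 5) (nat_lit 3) (nat_lit 4) (nat_lit 1) (nat_lit 4) (nat_lit 326) (nat_lit 244) (nat_lit 150)))))) (XT.nd (nat_lit 468) (nat_lit 0) (nat_lit 0) (XT.nd (nat_lit 234) (nat_lit 0) (nat_lit 0) (XT.nd (nat_lit 78) (nat_lit 0) (nat_lit 0) (XT.lf (nat_lit 0) (nat_lit 484332506011) (nat_lit 152) (nat_lit 251542755258) (nat_lit 0) (nat_lit 461328606444) (nat_lit 1) (nat_lit 5) (nat_lit 3) (nat_lit 4) (nat_lit 1) (nat_lit 4) (nat_lit 327) (nat_lit 244) (nat_lit 149)) (XT.nd (nat_lit 78) (nat_lit 0) (nat_lit 0) (XT.lf (nat_lit 0) (nat_lit 527574792752) (nat_lit 152) (nat_lit 260309920077) (nat_lit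 0) (nat_lit 504569754244) (nat_lit 1) (nat_lit 5) (nat_lit 3) (nat_lit 4) (nat_lit 1) (nat_lit 4) (nat_lit 328) (nat_lit 244) (nat_lit 148)) (XT.lf (nat_lit 0) (nat_lit 574275859331) (nat_lit 152) (nat_lit 269779538832) (nat_lit 0) (nat_lit 551269766249) (nat_lit 1) (nat_lit 5) (nat_lit 3) (nat_lit 4) (nat_lit 1) (nat_lit 4) (nat_lit 329) (nat_lit 244) (nat_lit 147)))) (XT.nd (nat_lit 78) (nat_lit 0) (nat_lit 0) (XT.lf (nat_lit 0) (nat_lit 624712452810) (nat_lit 152) (nat_lit 280007727784) (nat_lit 0) (nat_lit 601705383270) (nat_lit 1) (nat_lit 5) (nat_lit 3) (nat_lit 4) (nat_lit 1) (nat_lit 4) (nat_lit 330) (nat_lit 244) (nat_lit 146)) (XT.nd (nat_lit 78) (nat_lit 0) (nat_lit 0) (XT.lf (nat_lit 0) (nat_lit 679183456705) (nat_lit 152) (nat_lit 291055098423) (nat_lit 0) (nat_lit 656175483037) (nat_lit 1) (nat_lit 5) (nat_lit 3) (nat_lit 4) (nat_lit 1) (nat_lit 4) (nat_lit 331) (nat_lit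 244) (nat_lit 145)) (XT.lf (nat_lit 0) (nat_lit 738011662151) (nat_lit 152) (nat_lit 302987116648) (nat_lit 0) (nat_lit 715002851328) (nat_lit 1) (nat_lit 5) (nat_lit 3) (nat_lit 4) (nat_lit 1) (nat_lit 4) (nat_lit 332) (nat_lit 244) (nat_lit 144))))) (XT.nd (nat_lit 30810) (nat_lit 0) (nat_lit 2888) (XT.nd (nat_lit 30654) (nat_lit 0) (nat_lit 2888) (XT.lf (nat_lit 0) (nat_lit 801545680735) (nat_lit 152) (nat_lit 315874490716) (nat_lit 0) (nat_lit 778536094768) (nat_lit 1) (nat_lit 5) (nat_lit 3) (nat_lit 4) (nat_lit 1) (nat_lit 4) (nat_lit 333) (nat_lit 244) (nat_lit 143)) (XT.nd (nat_lit 78) (nat_lit 0) (nat_lit 0) (XT.lf (nat_lit 0) (nat_lit 272268627) (nat_lit 380) (nat_lit 1662985650) (nat_lit 380) (nat_lit 1662985650) (nat_lit 39) (nat_lit 3) (nat_lit 44) (nat_lit 3) (nat_lit 44) (nat_lit 5) (nat_lit 245) (nat_lit 245) (nat_lit 230)) (XT.lf (nat_lit 0) (nat_lit 1970130557) (nat_lit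 380) (nat_lit 375087669) (nat_lit 380) (nat_lit 5012403756) (nat_lit 39) (nat_lit 3) (nat_lit 44) (nat_lit 3) (nat_lit 44) (nat_lit 5) (nat_lit 246) (nat_lit 245) (nat_lit 229)))) (XT.nd (nat_lit 78) (nat_lit 0) (nat_lit 76) (XT.lf (nat_lit 76) (nat_lit 2879339629) (nat_lit 0) (nat_lit 559231177) (nat_lit 380) (nat_lit 4100222617) (nat_lit 40) (nat_lit 5) (nat_lit 39) (nat_lit 3) (nat_lit 44) (nat_lit 5) (nat_lit 247) (nat_lit 245) (nat_lit 228)) (XT.nd (nat_lit 78) (nat_lit 0) (nat_lit 0) (XT.lf (nat_lit 0) (nat_lit 4937484159) (nat_lit 304) (nat_lit 1439274832) (nat_lit 380) (nat_lit 1365994858) (nat_lit 40) (nat_lit 5) (nat_lit 44) (nat_lit 5) (nat_lit 45) (nat_lit 5) (nat_lit 248) (nat_lit 245) (nat_lit 227)) (XT.lf (nat_lit 76) (nat_lit 2044914489) (nat_lit 0) (nat_lit 4454301993) (nat_lit 380) (nat_lit 1469618356) (nat_lit 41) (nat_lit 5) (nat_lit 40) (nat_lit 5) (nat_lit 45)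 (nat_lit 5) (nat_lit 249) (nat_lit 245) (nat_lit 226))))))) (XT.nd (nat_lit 858) (nat_lit 684) (nat_lit 0) (XT.nd (nat_lit 390) (nat_lit 912) (nat_lit 0) (XT.nd (nat_lit 156) (nat_lit 380) (nat_lit 0) (XT.nd (nat_lit 78) (nat_lit 304) (nat_lit 0) (XT.lf (nat_lit 76) (nat_lit 5810378502) (nat_lit 0) (nat_lit 2301102040) (nat_lit 380) (nat_lit 108618943) (nat_lit 41) (nat_lit 5) (nat_lit 40) (nat_lit 5) (nat_lit 45) (nat_lit 5) (nat_lit 250) (nat_lit 245) (nat_lit 225)) (XT.lf (nat_lit 0) (nat_lit 1219278223) (nat_lit 380) (nat_lit 7159212744) (nat_lit 76) (nat_lit 117247521) (nat_lit 36) (nat_lit 5) (nat_lit 41) (nat_lit 5) (nat_lit 37) (nat_lit 5) (nat_lit 251) (nat_lit 245) (nat_lit 224))) (XT.nd (nat_lit 78) (nat_lit 380) (nat_lit 0) (XT.lf (nat_lit 0) (nat_lit 2672625416) (nat_lit 380) (nat_lit 3420811509) (nat_lit 76) (nat_lit 2698667709) (nat_lit 36) (nat_lit 5) (nat_lit 41) (nat_lit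 5) (nat_lit 37) (nat_lit 5) (nat_lit 252) (nat_lit 245) (nat_lit 223)) (XT.nd (nat_lit 78) (nat_lit 0) (nat_lit 0) (XT.lf (nat_lit 0) (nat_lit 563491156) (nat_lit 380) (nat_lit 3597597728) (nat_lit 456) (nat_lit 4958424646) (nat_lit 31) (nat_lit 5) (nat_lit 36) (nat_lit 5) (nat_lit 37) (nat_lit 5) (nat_lit 253) (nat_lit 245) (nat_lit 222)) (XT.lf (nat_lit 0) (nat_lit 4981783557) (nat_lit 380) (nat_lit 790781374) (nat_lit 456) (nat_lit 3701014384) (nat_lit 31) (nat_lit 5) (nat_lit 36) (nat_lit 5) (nat_lit 37) (nat_lit 5) (nat_lit 254) (nat_lit 245) (nat_lit 221))))) (XT.nd (nat_lit 234) (nat_lit 380) (nat_lit 0) (XT.nd (nat_lit 78) (nat_lit 532) (nat_lit 0) (XT.lf (nat_lit 0) (nat_lit 7484115519) (nat_lit 456) (nat_lit 237329386) (nat_lit 76) (nat_lit 2137554253) (nat_lit 31) (nat_lit 5) (nat_lit 37) (nat_lit 5) (nat_lit 32) (nat_lit 5) (nat_lit 255) (nat_lit 245) (nat_lit 220)) (XT.nd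 (nat_lit 78) (nat_lit 76) (nat_lit 0) (XT.lf (nat_lit 0) (nat_lit 4486369442) (nat_lit 456) (nat_lit 4898056342) (nat_lit 532) (nat_lit 887347835) (nat_lit 25) (nat_lit 5) (nat_lit 31) (nat_lit 5) (nat_lit 32) (nat_lit 5) (nat_lit 256) (nat_lit 245) (nat_lit 219)) (XT.lf (nat_lit 0) (nat_lit 614710522) (nat_lit 532) (nat_lit 1210697580) (nat_lit 76) (nat_lit 8896831089) (nat_lit 24) (nat_lit 5) (nat_lit 31) (nat_lit 5) (nat_lit 25) (nat_lit 5) (nat_lit 257) (nat_lit 245) (nat_lit 218)))) (XT.nd (nat_lit 78) (nat_lit 152) (nat_lit 0) (XT.lf (nat_lit 0) (nat_lit 2250268274) (nat_lit 304) (nat_lit 7418014254) (nat_lit 76) (nat_lit 1534243862) (nat_lit 21) (nat_lit 5) (nat_lit 25) (nat_lit 5) (nat_lit 22) (nat_lit 5) (nat_lit 258) (nat_lit 245) (nat_lit 217)) (XT.nd (nat_lit 78) (nat_lit 152) (nat_lit 0) (XT.lf (nat_lit 0) (nat_lit 4031827639) (nat_lit 304) (nat_lit 2594426655) (nat_lit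 76) (nat_lit 5094260624) (nat_lit 21) (nat_lit 5) (nat_lit 25) (nat_lit 5) (nat_lit 22) (nat_lit 5) (nat_lit 259) (nat_lit 245) (nat_lit 216)) (XT.lf (nat_lit 0) (nat_lit 2678912280) (nat_lit 152) (nat_lit 3280113831) (nat_lit 228) (nat_lit 6321121818) (nat_lit 19) (nat_lit 5) (nat_lit 21) (nat_lit 5) (nat_lit 22) (nat_lit 5) (nat_lit 260) (nat_lit 245) (nat_lit 215)))))) (XT.nd (nat_lit 468) (nat_lit 304) (nat_lit 0) (XT.nd (nat_lit 234) (nat_lit 228) (nat_lit 0) (XT.nd (nat_lit 78) (nat_lit 152) (nat_lit 0) (XT.lf (nat_lit 0) (nat_lit 8062549618) (nat_lit 228) (nat_lit 4440304081) (nat_lit 76) (nat_lit 380346827) (nat_lit 19) (nat_lit 5) (nat_lit 22) (nat_lit 5) (nat_lit 20) (nat_lit 5) (nat_lit 261) (nat_lit 245) (nat_lit 214)) (XT.nd (nat_lit 78) (nat_lit 0) (nat_lit 0) (XT.lf (nat_lit 0) (nat_lit 1032135233) (nat_lit 152) (nat_lit 9357929774) (nat_lit 228) (nat_lit 3140365227)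 (nat_lit 17) (nat_lit 5) (nat_lit 19) (nat_lit 5) (nat_lit 20) (nat_lit 5) (nat_lit 262) (nat_lit 245) (nat_lit 213)) (XT.lf (nat_lit 0) (nat_lit 7128809590) (nat_lit 152) (nat_lit 5844500867) (nat_lit 228) (nat_lit 1250926389) (nat_lit 17) (nat_lit 5) (nat_lit 19) (nat_lit 5) (nat_lit 20) (nat_lit 5) (nat_lit 263) (nat_lit 245) (nat_lit 212)))) (XT.nd (nat_lit 78) (nat_lit 152) (nat_lit 0) (XT.lf (nat_lit 0) (nat_lit 700565935) (nat_lit 228) (nat_lit 1343431794) (nat_lit 76) (nat_lit 12932308236) (nat_lit 16) (nat_lit 5) (nat_lit 19) (nat_lit 5) (nat_lit 17) (nat_lit 5) (nat_lit 264) (nat_lit 245) (nat_lit 211)) (XT.nd (nat_lit 78) (nat_lit 0) (nat_lit 0) (XT.lf (nat_lit 0) (nat_lit 2868821428) (nat_lit 228) (nat_lit 10805033206) (nat_lit 76) (nat_lit 2102114991) (nat_lit 14) (nat_lit 5) (nat_lit 17) (nat_lit 5) (nat_lit 15) (nat_lit 5) (nat_lit 265) (nat_lit 245) (nat_lit 210)) (XT.lf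 (nat_lit 0) (nat_lit 5257063885) (nat_lit 228) (nat_lit 4885158037) (nat_lit 76) (nat_lit 6493927557) (nat_lit 14) (nat_lit 5) (nat_lit 17) (nat_lit 5) (nat_lit 15) (nat_lit 5) (nat_lit 266) (nat_lit 245) (nat_lit 209))))) (XT.nd (nat_lit 234) (nat_lit 152) (nat_lit 0) (XT.nd (nat_lit 78) (nat_lit 0) (nat_lit 0) (XT.lf (nat_lit 0) (nat_lit 1527982337) (nat_lit 152) (nat_lit 6304159003) (nat_lit 228) (nat_lit 9733585913) (nat_lit 12) (nat_lit 5) (nat_lit 14) (nat_lit 5) (nat_lit 15) (nat_lit 5) (nat_lit 267) (nat_lit 245) (nat_lit 208)) (XT.nd (nat_lit 78) (nat_lit 0) (nat_lit 0) (XT.lf (nat_lit 0) (nat_lit 8676673513) (nat_lit 152) (nat_lit 2030852403) (nat_lit 228) (nat_lit 7854828646) (nat_lit 12) (nat_lit 5) (nat_lit 14) (nat_lit 5) (nat_lit 15) (nat_lit 5) (nat_lit 268) (nat_lit 245) (nat_lit 207)) (XT.lf (nat_lit 0) (nat_lit 13838377432) (nat_lit 228) (nat_lit 3357592388) (nat_lit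 76) (nat_lit 2440917887) (nat_lit 12) (nat_lit 5) (nat_lit 15) (nat_lit 5) (nat_lit 13) (nat_lit 4) (nat_lit 269) (nat_lit 245) (nat_lit 206)))) (XT.nd (nat_lit 78) (nat_lit 76) (nat_lit 0) (XT.lf (nat_lit 0) (nat_lit 3779048967) (nat_lit 76) (nat_lit 13550286738) (nat_lit 152) (nat_lit 3459471655) (nat_lit 11) (nat_lit 5) (nat_lit 12) (nat_lit 5) (nat_lit 13) (nat_lit 4) (nat_lit 270) (nat_lit 245) (nat_lit 205)) (XT.nd (nat_lit 78) (nat_lit 76) (nat_lit 0) (XT.lf (nat_lit 0) (nat_lit 11628848092) (nat_lit 76) (nat_lit 9529874591) (nat_lit 152) (nat_lit 869606246) (nat_lit 11) (nat_lit 5) (nat_lit 12) (nat_lit 5) (nat_lit 13) (nat_lit 4) (nat_lit 271) (nat_lit 245) (nat_lit 204)) (XT.lf (nat_lit 0) (nat_lit 1799853669) (nat_lit 152) (nat_lit 3353646382) (nat_lit 76) (nat_lit 18212452590) (nat_lit 10) (nat_lit 5) (nat_lit 12) (nat_lit 5) (nat_lit 11) (nat_lit 5) (nat_lit 272) (nat_lit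 245) (nat_lit 203))))))))
noncomputable def xc60 : XT := (XT.nd (nat_lit 1794) (nat_lit 152) (nat_lit 0) (XT.nd (nat_lit 858) (nat_lit 152) (nat_lit 0) (XT.nd (nat_lit 390) (nat_lit 152) (nat_lit 0) (XT.nd (nat_lit 156) (nat_lit 76) (nat_lit 0) (XT.nd (nat_lit 78) (nat_lit 0) (nat_lit 0) (XT.lf (nat_lit 0) (nat_lit 4410461500) (nat_lit 152) (nat_lit 302632640) (nat_lit 228) (nat_lit 20089652023) (nat_lit 8) (nat_lit 5) (nat_lit 10) (nat_lit 5) (nat_lit 11) (nat_lit 5) (nat_lit 273) (nat_lit 245) (nat_lit 202)) (XT.lf (nat_lit 0) (nat_lit 8044091002) (nat_lit 228) (nat_lit 13526161857) (nat_lit 76) (nat_lit 4769587214) (nat_lit 8) (nat_lit 5) (nat_lit 11) (nat_lit 5) (nat_lit 9) (nat_lit 4) (nat_lit 274) (nat_lit 245) (nat_lit 201))) (XT.nd (nat_lit 78) (nat_lit 76) (nat_lit 0) (XT.lf (nat_lit 0) (nat_lit 11623412094) (nat_lit 228) (nat_lit 6159662780) (nat_lit 76) (nat_lit 10218401913)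 (nat_lit 8) (nat_lit 5) (nat_lit 11) (nat_lit 5) (nat_lit 9) (nat_lit 4) (nat_lit 275) (nat_lit 245) (nat_lit 200)) (XT.nd (nat_lit 78) (nat_lit 0) (nat_lit 0) (XT.lf (nat_lit 0) (nat_lit 1850724975) (nat_lit 76) (nat_lit 13658774890) (nat_lit 152) (nat_lit 14285024643) (nat_lit 7) (nat_lit 5) (nat_lit 8) (nat_lit 5) (nat_lit 9) (nat_lit 4) (nat_lit 276) (nat_lit 245) (nat_lit 199)) (XT.lf (nat_lit 0) (nat_lit 10815199555) (nat_lit 76) (nat_lit 9036495536) (nat_lit 152) (nat_lit 11867808647) (nat_lit 7) (nat_lit 5) (nat_lit 8) (nat_lit 5) (nat_lit 9) (nat_lit 4) (nat_lit 277) (nat_lit 245) (nat_lit 198))))) (XT.nd (nat_lit 234) (nat_lit 76) (nat_lit 0) (XT.nd (nat_lit 78) (nat_lit 76) (nat_lit 0) (XT.lf (nat_lit 0) (nat_lit 20462526845) (nat_lit 76) (nat_lit 4057261624) (nat_lit 152) (nat_lit 9280508557) (nat_lit 7) (nat_lit 5) (nat_lit 8) (nat_lit 5) (nat_lit 9) (nat_lit 4) (nat_lit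 278) (nat_lit 245) (nat_lit 197)) (XT.nd (nat_lit 78) (nat_lit 76) (nat_lit 0) (XT.lf (nat_lit 0) (nat_lit 29572910630) (nat_lit 152) (nat_lit 5230826662) (nat_lit 0) (nat_lit 1242980279) (nat_lit 7) (nat_lit 5) (nat_lit 9) (nat_lit 4) (nat_lit 7) (nat_lit 4) (nat_lit 279) (nat_lit 245) (nat_lit 196)) (XT.lf (nat_lit 0) (nat_lit 3567022408) (nat_lit 76) (nat_lit 31635752586) (nat_lit 76) (nat_lit 3256360981) (nat_lit 6) (nat_lit 4) (nat_lit 7) (nat_lit 5) (nat_lit 7) (nat_lit 4) (nat_lit 280) (nat_lit 245) (nat_lit 195)))) (XT.nd (nat_lit 78) (nat_lit 0) (nat_lit 0) (XT.lf (nat_lit 0) (nat_lit 335730669) (nat_lit 152) (nat_lit 27726869269) (nat_lit 76) (nat_lit 12991344893) (nat_lit 5) (nat_lit 5) (nat_lit 7) (nat_lit 5) (nat_lit 6) (nat_lit 4) (nat_lit 281) (nat_lit 245) (nat_lit 194)) (XT.nd (nat_lit 78) (nat_lit 0) (nat_lit 0) (XT.lf (nat_lit 0) (nat_lit 4022080489) (nat_lit 152)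 (nat_lit 20101666697) (nat_lit 76) (nat_lit 19727265606) (nat_lit 5) (nat_lit 5) (nat_lit 7) (nat_lit 5) (nat_lit 6) (nat_lit 4) (nat_lit 282) (nat_lit 245) (nat_lit 193)) (XT.lf (nat_lit 0) (nat_lit 7987429879) (nat_lit 152) (nat_lit 11893003905) (nat_lit 76) (nat_lit 26992746535) (nat_lit 5) (nat_lit 5) (nat_lit 7) (nat_lit 5) (nat_lit 6) (nat_lit 4) (nat_lit 283) (nat_lit 245) (nat_lit 192)))))) (XT.nd (nat_lit 468) (nat_lit 76) (nat_lit 0) (XT.nd (nat_lit 234) (nat_lit 0) (nat_lit 0) (XT.nd (nat_lit 78) (nat_lit 76) (nat_lit 0) (XT.lf (nat_lit 0) (nat_lit 12255277204) (nat_lit 152) (nat_lit 3052236967) (nat_lit 76) (nat_lit 34830842381) (nat_lit 5) (nat_lit 5) (nat_lit 7) (nat_lit 5) (nat_lit 6) (nat_lit 4) (nat_lit 284) (nat_lit 245) (nat_lit 191)) (XT.nd (nat_lit 78) (nat_lit 0) (nat_lit 0) (XT.lf (nat_lit 0) (nat_lit 6813881812) (nat_lit 76) (nat_lit 10200905621) (nat_lit 152)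 (nat_lit 36637993329) (nat_lit 4) (nat_lit 5) (nat_lit 5) (nat_lit 5) (nat_lit 6) (nat_lit 4) (nat_lit 285) (nat_lit 245) (nat_lit 190)) (XT.lf (nat_lit 0) (nat_lit 17620682430) (nat_lit 76) (nat_lit 4604667311) (nat_lit 152) (nat_lit 35217434655) (nat_lit 4) (nat_lit 5) (nat_lit 5) (nat_lit 5) (nat_lit 6) (nat_lit 4) (nat_lit 286) (nat_lit 245) (nat_lit 189)))) (XT.nd (nat_lit 78) (nat_lit 0) (nat_lit 0) (XT.lf (nat_lit 0) (nat_lit 27874983130) (nat_lit 152) (nat_lit 32299942105) (nat_lit 0) (nat_lit 1359330168) (nat_lit 4) (nat_lit 5) (nat_lit 6) (nat_lit 4) (nat_lit 4) (nat_lit 4) (nat_lit 287) (nat_lit 245) (nat_lit 188)) (XT.nd (nat_lit 78) (nat_lit 0) (nat_lit 0) (XT.lf (nat_lit 0) (nat_lit 34084718214) (nat_lit 152) (nat_lit 24315394909) (nat_lit 0) (nat_lit 7544322311) (nat_lit 4) (nat_lit 5) (nat_lit 6) (nat_lit 4) (nat_lit 4) (nat_lit 4) (nat_lit 288) (nat_lit 245) (nat_lit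 187)) (XT.lf (nat_lit 0) (nat_lit 40780611065) (nat_lit 152) (nat_lit 15710402183) (nat_lit 0) (nat_lit 14217305031) (nat_lit 4) (nat_lit 5) (nat_lit 6) (nat_lit 4) (nat_lit 4) (nat_lit 4) (nat_lit 289) (nat_lit 245) (nat_lit 186))))) (XT.nd (nat_lit 234) (nat_lit 0) (nat_lit 0) (XT.nd (nat_lit 78) (nat_lit 76) (nat_lit 0) (XT.lf (nat_lit 0) (nat_lit 48002341047) (nat_lit 152) (nat_lit 6433971378) (nat_lit 0) (nat_lit 21417821929) (nat_lit 4) (nat_lit 5) (nat_lit 6) (nat_lit 4) (nat_lit 4) (nat_lit 4) (nat_lit 290) (nat_lit 245) (nat_lit 185)) (XT.nd (nat_lit 78) (nat_lit 0) (nat_lit 0) (XT.lf (nat_lit 0) (nat_lit 3756799261) (nat_lit 76) (nat_lit 52126255449) (nat_lit 76) (nat_lit 25522094586) (nat_lit 3) (nat_lit 4) (nat_lit 4) (nat_lit 5) (nat_lit 4) (nat_lit 4) (nat_lit 291) (nat_lit 245) (nat_lit 184)) (XT.lf (nat_lit 0) (nat_lit 15113429856) (nat_lit 76) (nat_lit 49447912323)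 (nat_lit 76) (nat_lit 22825564660) (nat_lit 3) (nat_lit 4) (nat_lit 4) (nat_lit 5) (nat_lit 4) (nat_lit 4) (nat_lit 292) (nat_lit 245) (nat_lit 183)))) (XT.nd (nat_lit 78) (nat_lit 0) (nat_lit 0) (XT.lf (nat_lit 0) (nat_lit 27364417426) (nat_lit 76) (nat_lit 46561327566) (nat_lit 76) (nat_lit 19922140272) (nat_lit 3) (nat_lit 4) (nat_lit 4) (nat_lit 5) (nat_lit 4) (nat_lit 4) (nat_lit 293) (nat_lit 245) (nat_lit 182)) (XT.nd (nat_lit 78) (nat_lit 0) (nat_lit 0) (XT.lf (nat_lit 0) (nat_lit 40582360416) (nat_lit 76) (nat_lit 43449395489) (nat_lit 76) (nat_lit 16794615945) (nat_lit 3) (nat_lit 4) (nat_lit 4) (nat_lit 5) (nat_lit 4) (nat_lit 4) (nat_lit 294) (nat_lit 245) (nat_lit 181)) (XT.lf (nat_lit 0) (nat_lit 54845587378) (nat_lit 76) (nat_lit 40093675013) (nat_lit 76) (nat_lit 13424458201) (nat_lit 3) (nat_lit 4) (nat_lit 4) (nat_lit 5) (nat_lit 4) (nat_lit 4) (nat_lit 295) (nat_lit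 245) (nat_lit 180))))))) (XT.nd (nat_lit 858) (nat_lit 0) (nat_lit 0) (XT.nd (nat_lit 390) (nat_lit 76) (nat_lit 0) (XT.nd (nat_lit 156) (nat_lit 76) (nat_lit 0) (XT.nd (nat_lit 78) (nat_lit 0) (nat_lit 0) (XT.lf (nat_lit 0) (nat_lit 70238621137) (nat_lit 76) (nat_lit 36474280388) (nat_lit 76) (nat_lit 9791695734) (nat_lit 3) (nat_lit 4) (nat_lit 4) (nat_lit 5) (nat_lit 4) (nat_lit 4) (nat_lit 296) (nat_lit 245) (nat_lit 179)) (XT.lf (nat_lit 0) (nat_lit 86852679672) (nat_lit 76) (nat_lit 32569763349) (nat_lit 76) (nat_lit 5874801064) (nat_lit 3) (nat_lit 4) (nat_lit 4) (nat_lit 5) (nat_lit 4) (nat_lit 4) (nat_lit 297) (nat_lit 245) (nat_lit 178))) (XT.nd (nat_lit 78) (nat_lit 76) (nat_lit 0) (XT.lf (nat_lit 0) (nat_lit 104786216663) (nat_lit 76) (nat_lit 28356986017) (nat_lit 76) (nat_lit 1650562963) (nat_lit 3) (nat_lit 4) (nat_lit 4) (nat_lit 5) (nat_lit 4) (nat_lit 4) (nat_lit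 298) (nat_lit 245) (nat_lit 177)) (XT.nd (nat_lit 78) (nat_lit 0) (nat_lit 0) (XT.lf (nat_lit 0) (nat_lit 2760678645) (nat_lit 152) (nat_lit 20974823294) (nat_lit 76) (nat_lit 121309344430) (nat_lit 2) (nat_lit 5) (nat_lit 4) (nat_lit 5) (nat_lit 3) (nat_lit 4) (nat_lit 299) (nat_lit 245) (nat_lit 176)) (XT.lf (nat_lit 0) (nat_lit 7430752972) (nat_lit 152) (nat_lit 11270894457) (nat_lit 76) (nat_lit 137411343229) (nat_lit 2) (nat_lit 5) (nat_lit 4) (nat_lit 5) (nat_lit 3) (nat_lit 4) (nat_lit 300) (nat_lit 245) (nat_lit 175))))) (XT.nd (nat_lit 234) (nat_lit 0) (nat_lit 0) (XT.nd (nat_lit 78) (nat_lit 76) (nat_lit 0) (XT.lf (nat_lit 0) (nat_lit 12469902375) (nat_lit 152) (nat_lit 798561626) (nat_lit 76) (nat_lit 154798499198) (nat_lit 2) (nat_lit 5) (nat_lit 4) (nat_lit 5) (nat_lit 3) (nat_lit 4) (nat_lit 301) (nat_lit 245) (nat_lit 174)) (XT.nd (nat_lit 78) (nat_lit 0) (nat_lit 0)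 (XT.lf (nat_lit 0) (nat_lit 11057367785) (nat_lit 76) (nat_lit 7116550657) (nat_lit 152) (nat_lit 162782409511) (nat_lit 1) (nat_lit 5) (nat_lit 2) (nat_lit 5) (nat_lit 3) (nat_lit 4) (nat_lit 302) (nat_lit 245) (nat_lit 173)) (XT.lf (nat_lit 0) (nat_lit 23900047519) (nat_lit 76) (nat_lit 451986183) (nat_lit 152) (nat_lit 170523398160) (nat_lit 1) (nat_lit 5) (nat_lit 2) (nat_lit 5) (nat_lit 3) (nat_lit 4) (nat_lit 303) (nat_lit 245) (nat_lit 172)))) (XT.nd (nat_lit 78) (nat_lit 0) (nat_lit 0) (XT.lf (nat_lit 0) (nat_lit 31182809103) (nat_lit 152) (nat_lit 172307010985) (nat_lit 0) (nat_lit 6405582426) (nat_lit 1) (nat_lit 5) (nat_lit 3) (nat_lit 4) (nat_lit 1) (nat_lit 4) (nat_lit 304) (nat_lit 245) (nat_lit 171)) (XT.nd (nat_lit 78) (nat_lit 0) (nat_lit 0) (XT.lf (nat_lit 0) (nat_lit 38568245351) (nat_lit 152) (nat_lit 173763253253) (nat_lit 0) (nat_lit 13784826777) (nat_lit 1) (nat_lit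 5) (nat_lit 3) (nat_lit 4) (nat_lit 1) (nat_lit 4) (nat_lit 305) (nat_lit 245) (nat_lit 170)) (XT.lf (nat_lit 0) (nat_lit 46541237716) (nat_lit 152) (nat_lit 175341870451) (nat_lit 0) (nat_lit 21752085904) (nat_lit 1) (nat_lit 5) (nat_lit 3) (nat_lit 4) (nat_lit 1) (nat_lit 4) (nat_lit 306) (nat_lit 245) (nat_lit 169)))))) (XT.nd (nat_lit 468) (nat_lit 0) (nat_lit 0) (XT.nd (nat_lit 234) (nat_lit 0) (nat_lit 0) (XT.nd (nat_lit 78) (nat_lit 0) (nat_lit 0) (XT.lf (nat_lit 0) (nat_lit 55149033560) (nat_lit 152) (nat_lit 177052217349) (nat_lit 0) (nat_lit 30354573194) (nat_lit 1) (nat_lit 5) (nat_lit 3) (nat_lit 4) (nat_lit 1) (nat_lit 4) (nat_lit 307) (nat_lit 245) (nat_lit 168)) (XT.nd (nat_lit 78) (nat_lit 0) (nat_lit 0) (XT.lf (nat_lit 0) (nat_lit 64442642043) (nat_lit 152) (nat_lit 178904429336) (nat_lit 0) (nat_lit 39643266350) (nat_lit 1) (nat_lit 5) (nat_lit 3) (nat_lit 4) (nat_lit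 1) (nat_lit 4) (nat_lit 308) (nat_lit 245) (nat_lit 167)) (XT.lf (nat_lit 0) (nat_lit 74477136401) (nat_lit 152) (nat_lit 180909482482) (nat_lit 0) (nat_lit 49673209479) (nat_lit 1) (nat_lit 5) (nat_lit 3) (nat_lit 4) (nat_lit 1) (nat_lit 4) (nat_lit 309) (nat_lit 245) (nat_lit 166)))) (XT.nd (nat_lit 78) (nat_lit 0) (nat_lit 0) (XT.lf (nat_lit 0) (nat_lit 85311980304) (nat_lit 152) (nat_lit 183079258584) (nat_lit 0) (nat_lit 60503839281) (nat_lit 1) (nat_lit 5) (nat_lit 3) (nat_lit 4) (nat_lit 1) (nat_lit 4) (nat_lit 310) (nat_lit 245) (nat_lit 165)) (XT.nd (nat_lit 78) (nat_lit 0) (nat_lit 0) (XT.lf (nat_lit 0) (nat_lit 97011380235) (nat_lit 152) (nat_lit 185426615575) (nat_lit 0) (nat_lit 72199337266) (nat_lit 1) (nat_lit 5) (nat_lit 3) (nat_lit 4) (nat_lit 1) (nat_lit 4) (nat_lit 311) (nat_lit 245) (nat_lit 164)) (XT.lf (nat_lit 0) (nat_lit 109644665971) (nat_lit 152) (nat_lit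 187965463717) (nat_lit 0) (nat_lit 84829010090) (nat_lit 1) (nat_lit 5) (nat_lit 3) (nat_lit 4) (nat_lit 1) (nat_lit 4) (nat_lit 312) (nat_lit 245) (nat_lit 163))))) (XT.nd (nat_lit 234) (nat_lit 0) (nat_lit 0) (XT.nd (nat_lit 78) (nat_lit 0) (nat_lit 0) (XT.lf (nat_lit 0) (nat_lit 123286701428) (nat_lit 152) (nat_lit 190710848038) (nat_lit 0) (nat_lit 98467700257) (nat_lit 1) (nat_lit 5) (nat_lit 3) (nat_lit 4) (nat_lit 1) (nat_lit 4) (nat_lit 313) (nat_lit 245) (nat_lit 162)) (XT.nd (nat_lit 78) (nat_lit 0) (nat_lit 0) (XT.lf (nat_lit 0) (nat_lit 138018328296) (nat_lit 152) (nat_lit 193679037482) (nat_lit 0) (nat_lit 113196229635) (nat_lit 1) (nat_lit 5) (nat_lit 3) (nat_lit 4) (nat_lit 1) (nat_lit 4) (nat_lit 314) (nat_lit 245) (nat_lit 161)) (XT.lf (nat_lit 0) (nat_lit 153926845106) (nat_lit 152) (nat_lit 196887621318) (nat_lit 0) (nat_lit 129101878399) (nat_lit 1) (nat_lit 5)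 (nat_lit 3) (nat_lit 4) (nat_lit 1) (nat_lit 4) (nat_lit 315) (nat_lit 245) (nat_lit 160)))) (XT.nd (nat_lit 78) (nat_lit 0) (nat_lit 0) (XT.lf (nat_lit 0) (nat_lit 171106524550) (nat_lit 152) (nat_lit 200355613377) (nat_lit 0) (nat_lit 146278902244) (nat_lit 1) (nat_lit 5) (nat_lit 3) (nat_lit 4) (nat_lit 1) (nat_lit 4) (nat_lit 316) (nat_lit 245) (nat_lit 159)) (XT.nd (nat_lit 78) (nat_lit 0) (nat_lit 0) (XT.lf (nat_lit 0) (nat_lit 189659172135) (nat_lit 152) (nat_lit 204103564724) (nat_lit 0) (nat_lit 164829090942) (nat_lit 1) (nat_lit 5) (nat_lit 3) (nat_lit 4) (nat_lit 1) (nat_lit 4) (nat_lit 317) (nat_lit 245) (nat_lit 158)) (XT.lf (nat_lit 0) (nat_lit 209694729477) (nat_lit 152) (nat_lit 208153685440) (nat_lit 0) (nat_lit 184862371537) (nat_lit 1) (nat_lit 5) (nat_lit 3) (nat_lit 4) (nat_lit 1) (nat_lit 4) (nat_lit 318) (nat_lit 245) (nat_lit 157))))))))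
noncomputable def xc61 : XT := (XT.nd (nat_lit 32448) (nat_lit 0) (nat_lit 532) (XT.nd (nat_lit 858) (nat_lit 0) (nat_lit 0) (XT.nd (nat_lit 390) (nat_lit 0) (nat_lit 0) (XT.nd (nat_lit 156) (nat_lit 0) (nat_lit 0) (XT.nd (nat_lit 78) (nat_lit 0) (nat_lit 0) (XT.lf (nat_lit 0) (nat_lit 231331925805) (nat_lit 152) (nat_lit 212529976241) (nat_lit 0) (nat_lit 206497459765) (nat_lit 1) (nat_lit 5) (nat_lit 3) (nat_lit 4) (nat_lit 1) (nat_lit 4) (nat_lit 319) (nat_lit 245) (nat_lit 156)) (XT.lf (nat_lit 0) (nat_lit 254698981542) (nat_lit 152) (nat_lit 217258370701) (nat_lit 0) (nat_lit 229862563557) (nat_lit 1) (nat_lit 5) (nat_lit 3) (nat_lit 4) (nat_lit 1) (nat_lit 4) (nat_lit 320) (nat_lit 245) (nat_lit 155))) (XT.nd (nat_lit 78) (nat_lit 0) (nat_lit 0) (XT.lf (nat_lit 0) (nat_lit 279934368128) (nat_lit 152) (nat_lit 222366888936) (nat_lit 0) (nat_lit 255096142787) (nat_lit 1) (nat_lit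 5) (nat_lit 3) (nat_lit 4) (nat_lit 1) (nat_lit 4) (nat_lit 321) (nat_lit 245) (nat_lit 154)) (XT.nd (nat_lit 78) (nat_lit 0) (nat_lit 0) (XT.lf (nat_lit 0) (nat_lit 307187628595) (nat_lit 152) (nat_lit 227885803648) (nat_lit 0) (nat_lit 282347729777) (nat_lit 1) (nat_lit 5) (nat_lit 3) (nat_lit 4) (nat_lit 1) (nat_lit 4) (nat_lit 322) (nat_lit 245) (nat_lit 153)) (XT.lf (nat_lit 0) (nat_lit 336620263747) (nat_lit 152) (nat_lit 233847819514) (nat_lit 0) (nat_lit 311778815413) (nat_lit 1) (nat_lit 5) (nat_lit 3) (nat_lit 4) (nat_lit 1) (nat_lit 4) (nat_lit 323) (nat_lit 245) (nat_lit 152))))) (XT.nd (nat_lit 234) (nat_lit 0) (nat_lit 0) (XT.nd (nat_lit 78) (nat_lit 0) (nat_lit 0) (XT.lf (nat_lit 0) (nat_lit 368406689198) (nat_lit 152) (nat_lit 240288267001) (nat_lit 0) (nat_lit 343563806127) (nat_lit 1) (nat_lit 5) (nat_lit 3) (nat_lit 4) (nat_lit 1) (nat_lit 4) (nat_lit 324) (nat_lit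 245) (nat_lit 151)) (XT.nd (nat_lit 78) (nat_lit 0) (nat_lit 0) (XT.lf (nat_lit 0) (nat_lit 402735268952) (nat_lit 152) (nat_lit 247245311722) (nat_lit 0) (nat_lit 377891057420) (nat_lit 1) (nat_lit 5) (nat_lit 3) (nat_lit 4) (nat_lit 1) (nat_lit 4) (nat_lit 325) (nat_lit 245) (nat_lit 150)) (XT.lf (nat_lit 0) (nat_lit 439809431630) (nat_lit 152) (nat_lit 254760180610) (nat_lit 0) (nat_lit 414963990042) (nat_lit 1) (nat_lit 5) (nat_lit 3) (nat_lit 4) (nat_lit 1) (nat_lit 4) (nat_lit 326) (nat_lit 245) (nat_lit 149)))) (XT.nd (nat_lit 78) (nat_lit 0) (nat_lit 0) (XT.lf (nat_lit 0) (nat_lit 479848875972) (nat_lit 152) (nat_lit 262877406221) (nat_lit 0) (nat_lit 455002295443) (nat_lit 1) (nat_lit 5) (nat_lit 3) (nat_lit 4) (nat_lit 1) (nat_lit 4) (nat_lit 327) (nat_lit 245) (nat_lit 148)) (XT.nd (nat_lit 78) (nat_lit 0) (nat_lit 0) (XT.lf (nat_lit 0) (nat_lit 523090872760) (nat_lit 152)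 (nat_lit 271645090631) (nat_lit 0) (nat_lit 498243237657) (nat_lit 1) (nat_lit 5) (nat_lit 3) (nat_lit 4) (nat_lit 1) (nat_lit 4) (nat_lit 328) (nat_lit 245) (nat_lit 147)) (XT.lf (nat_lit 0) (nat_lit 569791670865) (nat_lit 152) (nat_lit 281115190491) (nat_lit 0) (nat_lit 544943059304) (nat_lit 1) (nat_lit 5) (nat_lit 3) (nat_lit 4) (nat_lit 1) (nat_lit 4) (nat_lit 329) (nat_lit 245) (nat_lit 146)))))) (XT.nd (nat_lit 31122) (nat_lit 0) (nat_lit 2584) (XT.nd (nat_lit 234) (nat_lit 0) (nat_lit 0) (XT.nd (nat_lit 78) (nat_lit 0) (nat_lit 0) (XT.lf (nat_lit 0) (nat_lit 620228015757) (nat_lit 152) (nat_lit 291343824909) (nat_lit 0) (nat_lit 595378500068) (nat_lit 1) (nat_lit 5) (nat_lit 3) (nat_lit 4) (nat_lit 1) (nat_lit 4) (nat_lit 330) (nat_lit 245) (nat_lit 145)) (XT.nd (nat_lit 78) (nat_lit 0) (nat_lit 0) (XT.lf (nat_lit 0) (nat_lit 674698789478) (nat_lit 152) (nat_lit 302391608017)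 (nat_lit 0) (nat_lit 649848436634) (nat_lit 1) (nat_lit 5) (nat_lit 3) (nat_lit 4) (nat_lit 1) (nat_lit 4) (nat_lit 331) (nat_lit 245) (nat_lit 144)) (XT.lf (nat_lit 0) (nat_lit 733526781800) (nat_lit 152) (nat_lit 314324008158) (nat_lit 0) (nat_lit 708675653812) (nat_lit 1) (nat_lit 5) (nat_lit 3) (nat_lit 4) (nat_lit 1) (nat_lit 4) (nat_lit 332) (nat_lit 245) (nat_lit 143)))) (XT.nd (nat_lit 30732) (nat_lit 0) (nat_lit 2888) (XT.lf (nat_lit 0) (nat_lit 797060603048) (nat_lit 152) (nat_lit 327211735851) (nat_lit 0) (nat_lit 772208757334) (nat_lit 1) (nat_lit 5) (nat_lit 3) (nat_lit 4) (nat_lit 1) (nat_lit 4) (nat_lit 333) (nat_lit 245) (nat_lit 142)) (XT.nd (nat_lit 78) (nat_lit 0) (nat_lit 0) (XT.lf (nat_lit 0) (nat_lit 1664100222) (nat_lit 380) (nat_lit 1049164690) (nat_lit 380) (nat_lit 1049164690) (nat_lit 39) (nat_lit 3) (nat_lit 44) (nat_lit 3) (nat_lit 44) (nat_lit 5) (nat_lit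 246) (nat_lit 246) (nat_lit 228)) (XT.lf (nat_lit 76) (nat_lit 1029477687) (nat_lit 0) (nat_lit 3660152102) (nat_lit 380) (nat_lit 3025603604) (nat_lit 40) (nat_lit 5) (nat_lit 39) (nat_lit 3) (nat_lit 44) (nat_lit 5) (nat_lit 247) (nat_lit 246) (nat_lit 227))))) (XT.nd (nat_lit 234) (nat_lit 0) (nat_lit 0) (XT.nd (nat_lit 78) (nat_lit 304) (nat_lit 0) (XT.lf (nat_lit 76) (nat_lit 4457746002) (nat_lit 0) (nat_lit 1637525607) (nat_lit 380) (nat_lit 1831978259) (nat_lit 40) (nat_lit 5) (nat_lit 39) (nat_lit 3) (nat_lit 44) (nat_lit 5) (nat_lit 248) (nat_lit 246) (nat_lit 226)) (XT.nd (nat_lit 78) (nat_lit 380) (nat_lit 0) (XT.lf (nat_lit 0) (nat_lit 7514666311) (nat_lit 304) (nat_lit 84450822) (nat_lit 380) (nat_lit 566151038) (nat_lit 40) (nat_lit 5) (nat_lit 44) (nat_lit 5) (nat_lit 45) (nat_lit 5) (nat_lit 249) (nat_lit 246) (nat_lit 225)) (XT.lf (nat_lit 0) (nat_lit 620227010) (nat_lit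 380) (nat_lit 4795707283) (nat_lit 456) (nat_lit 3004074200) (nat_lit 35) (nat_lit 5) (nat_lit 40) (nat_lit 5) (nat_lit 41) (nat_lit 5) (nat_lit 250) (nat_lit 246) (nat_lit 224)))) (XT.nd (nat_lit 78) (nat_lit 0) (nat_lit 0) (XT.lf (nat_lit 0) (nat_lit 1858946148) (nat_lit 380) (nat_lit 1151571105) (nat_lit 456) (nat_lit 5692057667) (nat_lit 35) (nat_lit 5) (nat_lit 40) (nat_lit 5) (nat_lit 41) (nat_lit 5) (nat_lit 251) (nat_lit 246) (nat_lit 223)) (XT.nd (nat_lit 78) (nat_lit 0) (nat_lit 76) (XT.lf (nat_lit 76) (nat_lit 2858355386) (nat_lit 0) (nat_lit 313636452) (nat_lit 456) (nat_lit 5838577838) (nat_lit 36) (nat_lit 5) (nat_lit 35) (nat_lit 5) (nat_lit 41) (nat_lit 5) (nat_lit 252) (nat_lit 246) (nat_lit 222)) (XT.lf (nat_lit 0) (nat_lit 4597202480) (nat_lit 380) (nat_lit 2224774174) (nat_lit 76) (nat_lit 2521436672) (nat_lit 36) (nat_lit 5) (nat_lit 41) (nat_lit 5) (nat_lit 37)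 (nat_lit 5) (nat_lit 253) (nat_lit 246) (nat_lit 221))))))) (XT.nd (nat_lit 858) (nat_lit 684) (nat_lit 0) (XT.nd (nat_lit 390) (nat_lit 532) (nat_lit 0) (XT.nd (nat_lit 156) (nat_lit 532) (nat_lit 0) (XT.nd (nat_lit 78) (nat_lit 0) (nat_lit 0) (XT.lf (nat_lit 0) (nat_lit 2041065053) (nat_lit 380) (nat_lit 4071406019) (nat_lit 456) (nat_lit 3593051420) (nat_lit 31) (nat_lit 5) (nat_lit 36) (nat_lit 5) (nat_lit 37) (nat_lit 5) (nat_lit 254) (nat_lit 246) (nat_lit 220)) (XT.lf (nat_lit 0) (nat_lit 6706710135) (nat_lit 380) (nat_lit 1026266544) (nat_lit 456) (nat_lit 2365570351) (nat_lit 31) (nat_lit 5) (nat_lit 36) (nat_lit 5) (nat_lit 37) (nat_lit 5) (nat_lit 255) (nat_lit 246) (nat_lit 219))) (XT.nd (nat_lit 78) (nat_lit 76) (nat_lit 0) (XT.lf (nat_lit 0) (nat_lit 1156582386) (nat_lit 456) (nat_lit 8337841722) (nat_lit 532) (nat_lit 1028303722) (nat_lit 25) (nat_lit 5) (nat_lit 31)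 (nat_lit 5) (nat_lit 32) (nat_lit 5) (nat_lit 256) (nat_lit 246) (nat_lit 218)) (XT.nd (nat_lit 78) (nat_lit 0) (nat_lit 0) (XT.lf (nat_lit 0) (nat_lit 447347386) (nat_lit 532) (nat_lit 4822612098) (nat_lit 76) (nat_lit 5706436689) (nat_lit 24) (nat_lit 5) (nat_lit 31) (nat_lit 5) (nat_lit 25) (nat_lit 5) (nat_lit 257) (nat_lit 246) (nat_lit 217)) (XT.lf (nat_lit 0) (nat_lit 1921057009) (nat_lit 532) (nat_lit 8871518) (nat_lit 76) (nat_lit 9539938710) (nat_lit 24) (nat_lit 5) (nat_lit 31) (nat_lit 5) (nat_lit 25) (nat_lit 5) (nat_lit 258) (nat_lit 246) (nat_lit 216))))) (XT.nd (nat_lit 234) (nat_lit 152) (nat_lit 0) (XT.nd (nat_lit 78) (nat_lit 152) (nat_lit 0) (XT.lf (nat_lit 0) (nat_lit 3626493451) (nat_lit 304) (nat_lit 6642939523) (nat_lit 76) (nat_lit 1724731159) (nat_lit 21) (nat_lit 5) (nat_lit 25) (nat_lit 5) (nat_lit 22) (nat_lit 5) (nat_lit 259) (nat_lit 246) (nat_lit 215))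 (XT.nd (nat_lit 78) (nat_lit 152) (nat_lit 0) (XT.lf (nat_lit 0) (nat_lit 5461969883) (nat_lit 304) (nat_lit 1534836462) (nat_lit 76) (nat_lit 5564530907) (nat_lit 21) (nat_lit 5) (nat_lit 25) (nat_lit 5) (nat_lit 22) (nat_lit 5) (nat_lit 260) (nat_lit 246) (nat_lit 214)) (XT.lf (nat_lit 0) (nat_lit 4128289985) (nat_lit 152) (nat_lit 3362713434) (nat_lit 228) (nat_lit 5679532986) (nat_lit 19) (nat_lit 5) (nat_lit 21) (nat_lit 5) (nat_lit 22) (nat_lit 5) (nat_lit 261) (nat_lit 246) (nat_lit 213)))) (XT.nd (nat_lit 78) (nat_lit 152) (nat_lit 0) (XT.lf (nat_lit 0) (nat_lit 9688645848) (nat_lit 228) (nat_lit 3570747242) (nat_lit 76) (nat_lit 568936337) (nat_lit 19) (nat_lit 5) (nat_lit 22) (nat_lit 5) (nat_lit 20) (nat_lit 5) (nat_lit 262) (nat_lit 246) (nat_lit 212)) (XT.nd (nat_lit 78) (nat_lit 0) (nat_lit 0) (XT.lf (nat_lit 0) (nat_lit 2308480099) (nat_lit 152) (nat_lit 9849919162)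 (nat_lit 228) (nat_lit 2372976769) (nat_lit 17) (nat_lit 5) (nat_lit 19) (nat_lit 5) (nat_lit 20) (nat_lit 5) (nat_lit 263) (nat_lit 246) (nat_lit 211)) (XT.lf (nat_lit 0) (nat_lit 8804460698) (nat_lit 152) (nat_lit 6074426683) (nat_lit 228) (nat_lit 407835986) (nat_lit 17) (nat_lit 5) (nat_lit 19) (nat_lit 5) (nat_lit 20) (nat_lit 5) (nat_lit 264) (nat_lit 246) (nat_lit 210)))))) (XT.nd (nat_lit 468) (nat_lit 304) (nat_lit 0) (XT.nd (nat_lit 234) (nat_lit 152) (nat_lit 0) (XT.nd (nat_lit 78) (nat_lit 152) (nat_lit 0) (XT.lf (nat_lit 0) (nat_lit 1586225660) (nat_lit 228) (nat_lit 378577042) (nat_lit 76) (nat_lit 14138064150) (nat_lit 16) (nat_lit 5) (nat_lit 19) (nat_lit 5) (nat_lit 17) (nat_lit 5) (nat_lit 265) (nat_lit 246) (nat_lit 209)) (XT.nd (nat_lit 78) (nat_lit 0) (nat_lit 0) (XT.lf (nat_lit 0) (nat_lit 3897683121) (nat_lit 228) (nat_lit 10562056953) (nat_lit 76) (nat_lit 2509567500)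 (nat_lit 14) (nat_lit 5) (nat_lit 17) (nat_lit 5) (nat_lit 15) (nat_lit 5) (nat_lit 266) (nat_lit 246) (nat_lit 208)) (XT.lf (nat_lit 0) (nat_lit 6417773421) (nat_lit 228) (nat_lit 4250619837) (nat_lit 76) (nat_lit 7235000382) (nat_lit 14) (nat_lit 5) (nat_lit 17) (nat_lit 5) (nat_lit 15) (nat_lit 5) (nat_lit 267) (nat_lit 246) (nat_lit 207)))) (XT.nd (nat_lit 78) (nat_lit 0) (nat_lit 0) (XT.lf (nat_lit 0) (nat_lit 2649613517) (nat_lit 152) (nat_lit 6518453458) (nat_lit 228) (nat_lit 9742062479) (nat_lit 12) (nat_lit 5) (nat_lit 14) (nat_lit 5) (nat_lit 15) (nat_lit 5) (nat_lit 268) (nat_lit 246) (nat_lit 206)) (XT.nd (nat_lit 78) (nat_lit 0) (nat_lit 0) (XT.lf (nat_lit 0) (nat_lit 10296170906) (nat_lit 152) (nat_lit 1924766646) (nat_lit 228) (nat_lit 7770057247) (nat_lit 12) (nat_lit 5) (nat_lit 14) (nat_lit 5) (nat_lit 15) (nat_lit 5) (nat_lit 269) (nat_lit 246) (nat_lit 205)) (XT.lf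 (nat_lit 0) (nat_lit 15559584933) (nat_lit 228) (nat_lit 2723187823) (nat_lit 76) (nat_lit 2872413349) (nat_lit 12) (nat_lit 5) (nat_lit 15) (nat_lit 5) (nat_lit 13) (nat_lit 4) (nat_lit 270) (nat_lit 246) (nat_lit 204))))) (XT.nd (nat_lit 234) (nat_lit 152) (nat_lit 0) (XT.nd (nat_lit 78) (nat_lit 76) (nat_lit 0) (XT.lf (nat_lit 0) (nat_lit 4961523778) (nat_lit 76) (nat_lit 14343972088) (nat_lit 152) (nat_lit 3095970247) (nat_lit 11) (nat_lit 5) (nat_lit 12) (nat_lit 5) (nat_lit 13) (nat_lit 4) (nat_lit 271) (nat_lit 246) (nat_lit 203)) (XT.nd (nat_lit 78) (nat_lit 76) (nat_lit 0) (XT.lf (nat_lit 0) (nat_lit 13374110470) (nat_lit 76) (nat_lit 10023433457) (nat_lit 152) (nat_lit 346342209) (nat_lit 11) (nat_lit 5) (nat_lit 12) (nat_lit 5) (nat_lit 13) (nat_lit 4) (nat_lit 272) (nat_lit 246) (nat_lit 202)) (XT.lf (nat_lit 0) (nat_lit 2465301827) (nat_lit 152) (nat_lit 2837302906) (nat_lit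 76) (nat_lit 19888318825) (nat_lit 10) (nat_lit 5) (nat_lit 12) (nat_lit 5) (nat_lit 11) (nat_lit 5) (nat_lit 273) (nat_lit 246) (nat_lit 201)))) (XT.nd (nat_lit 78) (nat_lit 0) (nat_lit 0) (XT.lf (nat_lit 0) (nat_lit 5528069425) (nat_lit 152) (nat_lit 63298215) (nat_lit 228) (nat_lit 21153103374) (nat_lit 8) (nat_lit 5) (nat_lit 10) (nat_lit 5) (nat_lit 11) (nat_lit 5) (nat_lit 274) (nat_lit 246) (nat_lit 200)) (XT.nd (nat_lit 78) (nat_lit 0) (nat_lit 0) (XT.lf (nat_lit 0) (nat_lit 9157585164) (nat_lit 228) (nat_lit 13866655192) (nat_lit 76) (nat_lit 5382970345) (nat_lit 8) (nat_lit 5) (nat_lit 11) (nat_lit 5) (nat_lit 9) (nat_lit 4) (nat_lit 275) (nat_lit 246) (nat_lit 199)) (XT.lf (nat_lit 0) (nat_lit 12988439582) (nat_lit 228) (nat_lit 5965769494) (nat_lit 76) (nat_lit 11250518653) (nat_lit 8) (nat_lit 5) (nat_lit 11) (nat_lit 5) (nat_lit 9) (nat_lit 4) (nat_lit 276) (nat_lit 246)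 (nat_lit 198))))))))
noncomputable def xc62 : XT := (XT.nd (nat_lit 1794) (nat_lit 152) (nat_lit 0) (XT.nd (nat_lit 858) (nat_lit 76) (nat_lit 0) (XT.nd (nat_lit 390) (nat_lit 152) (nat_lit 0) (XT.nd (nat_lit 156) (nat_lit 76) (nat_lit 0) (XT.nd (nat_lit 78) (nat_lit 0) (nat_lit 0) (XT.lf (nat_lit 0) (nat_lit 2668065325) (nat_lit 76) (nat_lit 14501211639) (nat_lit 152) (nat_lit 14973385508) (nat_lit 7) (nat_lit 5) (nat_lit 8) (nat_lit 5) (nat_lit 9) (nat_lit 4) (nat_lit 277) (nat_lit 246) (nat_lit 197)) (XT.lf (nat_lit 0) (nat_lit 12300121401) (nat_lit 76) (nat_lit 9527688103) (nat_lit 152) (nat_lit 12396454536) (nat_lit 7) (nat_lit 5) (nat_lit 8) (nat_lit 5) (nat_lit 9) (nat_lit 4) (nat_lit 278) (nat_lit 246) (nat_lit 196))) (XT.nd (nat_lit 78) (nat_lit 76) (nat_lit 0) (XT.lf (nat_lit 0) (nat_lit 22673330735) (nat_lit 76) (nat_lit 4167280446) (nat_lit 152) (nat_lit 9633339239) (nat_lit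 7) (nat_lit 5) (nat_lit 8) (nat_lit 5) (nat_lit 9) (nat_lit 4) (nat_lit 279) (nat_lit 246) (nat_lit 195)) (XT.nd (nat_lit 78) (nat_lit 76) (nat_lit 0) (XT.lf (nat_lit 0) (nat_lit 32276150756) (nat_lit 152) (nat_lit 5094652160) (nat_lit 0) (nat_lit 1531149111) (nat_lit 7) (nat_lit 5) (nat_lit 9) (nat_lit 4) (nat_lit 7) (nat_lit 4) (nat_lit 280) (nat_lit 246) (nat_lit 194)) (XT.lf (nat_lit 0) (nat_lit 4392983301) (nat_lit 76) (nat_lit 33951429258) (nat_lit 76) (nat_lit 3164022559) (nat_lit 6) (nat_lit 4) (nat_lit 7) (nat_lit 5) (nat_lit 7) (nat_lit 4) (nat_lit 281) (nat_lit 246) (nat_lit 193))))) (XT.nd (nat_lit 234) (nat_lit 76) (nat_lit 0) (XT.nd (nat_lit 78) (nat_lit 0) (nat_lit 0) (XT.lf (nat_lit 0) (nat_lit 672956205) (nat_lit 152) (nat_lit 29426921729) (nat_lit 76) (nat_lit 14212354139) (nat_lit 5) (nat_lit 5) (nat_lit 7) (nat_lit 5) (nat_lit 6) (nat_lit 4) (nat_lit 282) (nat_lit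 246) (nat_lit 192)) (XT.nd (nat_lit 78) (nat_lit 0) (nat_lit 0) (XT.lf (nat_lit 0) (nat_lit 4631223857) (nat_lit 152) (nat_lit 21230080512) (nat_lit 76) (nat_lit 21473689127) (nat_lit 5) (nat_lit 5) (nat_lit 7) (nat_lit 5) (nat_lit 6) (nat_lit 4) (nat_lit 283) (nat_lit 246) (nat_lit 191)) (XT.lf (nat_lit 0) (nat_lit 8892514017) (nat_lit 152) (nat_lit 12400259477) (nat_lit 76) (nat_lit 29307946139) (nat_lit 5) (nat_lit 5) (nat_lit 7) (nat_lit 5) (nat_lit 6) (nat_lit 4) (nat_lit 284) (nat_lit 246) (nat_lit 190)))) (XT.nd (nat_lit 78) (nat_lit 76) (nat_lit 0) (XT.lf (nat_lit 0) (nat_lit 13482078777) (nat_lit 152) (nat_lit 2885133756) (nat_lit 76) (nat_lit 37761550403) (nat_lit 5) (nat_lit 5) (nat_lit 7) (nat_lit 5) (nat_lit 6) (nat_lit 4) (nat_lit 285) (nat_lit 246) (nat_lit 189)) (XT.nd (nat_lit 78) (nat_lit 0) (nat_lit 0) (XT.lf (nat_lit 0) (nat_lit 7759862318) (nat_lit 76) (nat_lit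 10853878113) (nat_lit 152) (nat_lit 39311359907) (nat_lit 4) (nat_lit 5) (nat_lit 5) (nat_lit 5) (nat_lit 6) (nat_lit 4) (nat_lit 286) (nat_lit 246) (nat_lit 188)) (XT.lf (nat_lit 0) (nat_lit 19401512914) (nat_lit 76) (nat_lit 4822022216) (nat_lit 152) (nat_lit 37796243420) (nat_lit 4) (nat_lit 5) (nat_lit 5) (nat_lit 5) (nat_lit 6) (nat_lit 4) (nat_lit 287) (nat_lit 246) (nat_lit 187)))))) (XT.nd (nat_lit 468) (nat_lit 0) (nat_lit 0) (XT.nd (nat_lit 234) (nat_lit 76) (nat_lit 0) (XT.nd (nat_lit 78) (nat_lit 0) (nat_lit 0) (XT.lf (nat_lit 0) (nat_lit 30312194195) (nat_lit 152) (nat_lit 34526555539) (nat_lit 0) (nat_lit 1600913548) (nat_lit 4) (nat_lit 5) (nat_lit 6) (nat_lit 4) (nat_lit 4) (nat_lit 4) (nat_lit 288) (nat_lit 246) (nat_lit 186)) (XT.nd (nat_lit 78) (nat_lit 0) (nat_lit 0) (XT.lf (nat_lit 0) (nat_lit 37003359019) (nat_lit 152) (nat_lit 25929717303) (nat_lit 0) (nat_lit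 8270865287) (nat_lit 4) (nat_lit 5) (nat_lit 6) (nat_lit 4) (nat_lit 4) (nat_lit 4) (nat_lit 289) (nat_lit 246) (nat_lit 185)) (XT.lf (nat_lit 0) (nat_lit 44220711198) (nat_lit 152) (nat_lit 16660836952) (nat_lit 0) (nat_lit 15468575722) (nat_lit 4) (nat_lit 5) (nat_lit 6) (nat_lit 4) (nat_lit 4) (nat_lit 4) (nat_lit 290) (nat_lit 246) (nat_lit 184)))) (XT.nd (nat_lit 78) (nat_lit 76) (nat_lit 0) (XT.lf (nat_lit 0) (nat_lit 52007020227) (nat_lit 152) (nat_lit 6664987786) (nat_lit 0) (nat_lit 23236697950) (nat_lit 4) (nat_lit 5) (nat_lit 6) (nat_lit 4) (nat_lit 4) (nat_lit 4) (nat_lit 291) (nat_lit 246) (nat_lit 183)) (XT.nd (nat_lit 78) (nat_lit 0) (nat_lit 0) (XT.lf (nat_lit 0) (nat_lit 4333862193) (nat_lit 76) (nat_lit 56178794494) (nat_lit 76) (nat_lit 27391632587) (nat_lit 3) (nat_lit 4) (nat_lit 4) (nat_lit 5) (nat_lit 4) (nat_lit 4) (nat_lit 292) (nat_lit 246) (nat_lit 182))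 (XT.lf (nat_lit 0) (nat_lit 16578540347) (nat_lit 76) (nat_lit 53294892169) (nat_lit 76) (nat_lit 24492138012) (nat_lit 3) (nat_lit 4) (nat_lit 4) (nat_lit 5) (nat_lit 4) (nat_lit 4) (nat_lit 293) (nat_lit 246) (nat_lit 181))))) (XT.nd (nat_lit 234) (nat_lit 0) (nat_lit 0) (XT.nd (nat_lit 78) (nat_lit 0) (nat_lit 0) (XT.lf (nat_lit 0) (nat_lit 29790641285) (nat_lit 76) (nat_lit 50185443827) (nat_lit 76) (nat_lit 21368252401) (nat_lit 3) (nat_lit 4) (nat_lit 4) (nat_lit 5) (nat_lit 4) (nat_lit 4) (nat_lit 294) (nat_lit 246) (nat_lit 180)) (XT.nd (nat_lit 78) (nat_lit 0) (nat_lit 0) (XT.lf (nat_lit 0) (nat_lit 44048458940) (nat_lit 76) (nat_lit 46832023105) (nat_lit 76) (nat_lit 18001463838) (nat_lit 3) (nat_lit 4) (nat_lit 4) (nat_lit 5) (nat_lit 4) (nat_lit 4) (nat_lit 295) (nat_lit 246) (nat_lit 179)) (XT.lf (nat_lit 0) (nat_lit 59436484081) (nat_lit 76) (nat_lit 43214757882) (nat_lit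 76) (nat_lit 14371820984) (nat_lit 3) (nat_lit 4) (nat_lit 4) (nat_lit 5) (nat_lit 4) (nat_lit 4) (nat_lit 296) (nat_lit 246) (nat_lit 178)))) (XT.nd (nat_lit 78) (nat_lit 0) (nat_lit 0) (XT.lf (nat_lit 0) (nat_lit 76045905007) (nat_lit 76) (nat_lit 39312212511) (nat_lit 76) (nat_lit 10457814844) (nat_lit 3) (nat_lit 4) (nat_lit 4) (nat_lit 5) (nat_lit 4) (nat_lit 4) (nat_lit 297) (nat_lit 246) (nat_lit 177)) (XT.nd (nat_lit 78) (nat_lit 0) (nat_lit 0) (XT.lf (nat_lit 0) (nat_lit 93975147915) (nat_lit 76) (nat_lit 35101260799) (nat_lit 76) (nat_lit 6236251308) (nat_lit 3) (nat_lit 4) (nat_lit 4) (nat_lit 5) (nat_lit 4) (nat_lit 4) (nat_lit 298) (nat_lit 246) (nat_lit 176)) (XT.lf (nat_lit 0) (nat_lit 113330460172) (nat_lit 76) (nat_lit 30556948956) (nat_lit 76) (nat_lit 1682113703) (nat_lit 3) (nat_lit 4) (nat_lit 4) (nat_lit 5) (nat_lit 4) (nat_lit 4) (nat_lit 299) (nat_lit 246) (nat_lit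 175))))))) (XT.nd (nat_lit 858) (nat_lit 0) (nat_lit 0) (XT.nd (nat_lit 390) (nat_lit 0) (nat_lit 0) (XT.nd (nat_lit 156) (nat_lit 76) (nat_lit 0) (XT.nd (nat_lit 78) (nat_lit 0) (nat_lit 0) (XT.lf (nat_lit 0) (nat_lit 3069928461) (nat_lit 152) (nat_lit 22498481982) (nat_lit 76) (nat_lit 131072674177) (nat_lit 2) (nat_lit 5) (nat_lit 4) (nat_lit 5) (nat_lit 3) (nat_lit 4) (nat_lit 300) (nat_lit 246) (nat_lit 174)) (XT.lf (nat_lit 0) (nat_lit 8107060917) (nat_lit 152) (nat_lit 12029670480) (nat_lit 76) (nat_lit 148458493458) (nat_lit 2) (nat_lit 5) (nat_lit 4) (nat_lit 5) (nat_lit 3) (nat_lit 4) (nat_lit 301) (nat_lit 246) (nat_lit 173))) (XT.nd (nat_lit 78) (nat_lit 76) (nat_lit 0) (XT.lf (nat_lit 0) (nat_lit 13543279479) (nat_lit 152) (nat_lit 730135877) (nat_lit 76) (nat_lit 167232603922) (nat_lit 2) (nat_lit 5) (nat_lit 4) (nat_lit 5) (nat_lit 3) (nat_lit 4) (nat_lit 302) (nat_lit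 246) (nat_lit 172)) (XT.nd (nat_lit 78) (nat_lit 0) (nat_lit 0) (XT.lf (nat_lit 0) (nat_lit 12070918249) (nat_lit 76) (nat_lit 7630186401) (nat_lit 152) (nat_lit 175725647179) (nat_lit 1) (nat_lit 5) (nat_lit 2) (nat_lit 5) (nat_lit 3) (nat_lit 4) (nat_lit 303) (nat_lit 246) (nat_lit 171)) (XT.lf (nat_lit 0) (nat_lit 25931459693) (nat_lit 76) (nat_lit 436581829) (nat_lit 152) (nat_lit 184091793075) (nat_lit 1) (nat_lit 5) (nat_lit 2) (nat_lit 5) (nat_lit 3) (nat_lit 4) (nat_lit 304) (nat_lit 246) (nat_lit 170))))) (XT.nd (nat_lit 234) (nat_lit 0) (nat_lit 0) (XT.nd (nat_lit 78) (nat_lit 0) (nat_lit 0) (XT.lf (nat_lit 0) (nat_lit 33741401628) (nat_lit 152) (nat_lit 185976942152) (nat_lit 0) (nat_lit 6963384434) (nat_lit 1) (nat_lit 5) (nat_lit 3) (nat_lit 4) (nat_lit 1) (nat_lit 4) (nat_lit 305) (nat_lit 246) (nat_lit 169)) (XT.nd (nat_lit 78) (nat_lit 0) (nat_lit 0) (XT.lf (nat_lit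 0) (nat_lit 41712934421) (nat_lit 152) (nat_lit 187558174891) (nat_lit 0) (nat_lit 14929608672) (nat_lit 1) (nat_lit 5) (nat_lit 3) (nat_lit 4) (nat_lit 1) (nat_lit 4) (nat_lit 306) (nat_lit 246) (nat_lit 168)) (XT.lf (nat_lit 0) (nat_lit 50319378809) (nat_lit 152) (nat_lit 189270943585) (nat_lit 0) (nat_lit 23531137733) (nat_lit 1) (nat_lit 5) (nat_lit 3) (nat_lit 4) (nat_lit 1) (nat_lit 4) (nat_lit 307) (nat_lit 246) (nat_lit 167)))) (XT.nd (nat_lit 78) (nat_lit 0) (nat_lit 0) (XT.lf (nat_lit 0) (nat_lit 59611735944) (nat_lit 152) (nat_lit 191125397976) (nat_lit 0) (nat_lit 32818943639) (nat_lit 1) (nat_lit 5) (nat_lit 3) (nat_lit 4) (nat_lit 1) (nat_lit 4) (nat_lit 308) (nat_lit 246) (nat_lit 166)) (XT.nd (nat_lit 78) (nat_lit 0) (nat_lit 0) (XT.lf (nat_lit 0) (nat_lit 69645071647) (nat_lit 152) (nat_lit 193132527422) (nat_lit 0) (nat_lit 42848065240) (nat_lit 1) (nat_lit 5) (nat_lit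 3) (nat_lit 4) (nat_lit 1) (nat_lit 4) (nat_lit 309) (nat_lit 246) (nat_lit 165)) (XT.lf (nat_lit 0) (nat_lit 80478842721) (nat_lit 152) (nat_lit 195304226025) (nat_lit 0) (nat_lit 53677934369) (nat_lit 1) (nat_lit 5) (nat_lit 3) (nat_lit 4) (nat_lit 1) (nat_lit 4) (nat_lit 310) (nat_lit 246) (nat_lit 164)))))) (XT.nd (nat_lit 468) (nat_lit 0) (nat_lit 0) (XT.nd (nat_lit 234) (nat_lit 0) (nat_lit 0) (XT.nd (nat_lit 78) (nat_lit 0) (nat_lit 0) (XT.lf (nat_lit 0) (nat_lit 92177249292) (nat_lit 152) (nat_lit 197653363108) (nat_lit 0) (nat_lit 65372728027) (nat_lit 1) (nat_lit 5) (nat_lit 3) (nat_lit 4) (nat_lit 1) (nat_lit 4) (nat_lit 311) (nat_lit 246) (nat_lit 163)) (XT.nd (nat_lit 78) (nat_lit 0) (nat_lit 0) (XT.lf (nat_lit 0) (nat_lit 104809615249) (nat_lit 152) (nat_lit 200193859485) (nat_lit 0) (nat_lit 78001748696) (nat_lit 1) (nat_lit 5) (nat_lit 3) (nat_lit 4) (nat_lit 1) (nat_lit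 4) (nat_lit 312) (nat_lit 246) (nat_lit 162)) (XT.lf (nat_lit 0) (nat_lit 118450799059) (nat_lit 152) (nat_lit 202940769948) (nat_lit 0) (nat_lit 91639835016) (nat_lit 1) (nat_lit 5) (nat_lit 3) (nat_lit 4) (nat_lit 1) (nat_lit 4) (nat_lit 313) (nat_lit 246) (nat_lit 161)))) (XT.nd (nat_lit 78) (nat_lit 0) (nat_lit 0) (XT.lf (nat_lit 0) (nat_lit 133181637366) (nat_lit 152) (nat_lit 205910372486) (nat_lit 0) (nat_lit 106367805276) (nat_lit 1) (nat_lit 5) (nat_lit 3) (nat_lit 4) (nat_lit 1) (nat_lit 4) (nat_lit 314) (nat_lit 246) (nat_lit 160)) (XT.nd (nat_lit 78) (nat_lit 0) (nat_lit 0) (XT.lf (nat_lit 0) (nat_lit 149089424027) (nat_lit 152) (nat_lit 209120264744) (nat_lit 0) (nat_lit 122272936338) (nat_lit 1) (nat_lit 5) (nat_lit 3) (nat_lit 4) (nat_lit 1) (nat_lit 4) (nat_lit 315) (nat_lit 246) (nat_lit 159)) (XT.lf (nat_lit 0) (nat_lit 166268427406) (nat_lit 152) (nat_lit 212589468305)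 (nat_lit 0) (nat_lit 139449480830) (nat_lit 1) (nat_lit 5) (nat_lit 3) (nat_lit 4) (nat_lit 1) (nat_lit 4) (nat_lit 316) (nat_lit 246) (nat_lit 158))))) (XT.nd (nat_lit 234) (nat_lit 0) (nat_lit 0) (XT.nd (nat_lit 78) (nat_lit 0) (nat_lit 0) (XT.lf (nat_lit 0) (nat_lit 184820449006) (nat_lit 152) (nat_lit 216338541412) (nat_lit 0) (nat_lit 157999225682) (nat_lit 1) (nat_lit 5) (nat_lit 3) (nat_lit 4) (nat_lit 1) (nat_lit 4) (nat_lit 317) (nat_lit 246) (nat_lit 157)) (XT.nd (nat_lit 78) (nat_lit 0) (nat_lit 0) (XT.lf (nat_lit 0) (nat_lit 204855426732) (nat_lit 152) (nat_lit 220389700795) (nat_lit 0) (nat_lit 178032095308) (nat_lit 1) (nat_lit 5) (nat_lit 3) (nat_lit 4) (nat_lit 1) (nat_lit 4) (nat_lit 318) (nat_lit 246) (nat_lit 156)) (XT.lf (nat_lit 0) (nat_lit 226492086378) (nat_lit 152) (nat_lit 224766953324) (nat_lit 0) (nat_lit 199666803011) (nat_lit 1) (nat_lit 5) (nat_lit 3)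 (nat_lit 4) (nat_lit 1) (nat_lit 4) (nat_lit 319) (nat_lit 246) (nat_lit 155)))) (XT.nd (nat_lit 78) (nat_lit 0) (nat_lit 0) (XT.lf (nat_lit 0) (nat_lit 249858645187) (nat_lit 152) (nat_lit 229496238274) (nat_lit 0) (nat_lit 223031554464) (nat_lit 1) (nat_lit 5) (nat_lit 3) (nat_lit 4) (nat_lit 1) (nat_lit 4) (nat_lit 320) (nat_lit 246) (nat_lit 154)) (XT.nd (nat_lit 78) (nat_lit 0) (nat_lit 0) (XT.lf (nat_lit 0) (nat_lit 275093571655) (nat_lit 152) (nat_lit 234605581037) (nat_lit 0) (nat_lit 248264807454) (nat_lit 1) (nat_lit 5) (nat_lit 3) (nat_lit 4) (nat_lit 1) (nat_lit 4) (nat_lit 321) (nat_lit 246) (nat_lit 153)) (XT.lf (nat_lit 0) (nat_lit 302346406088) (nat_lit 152) (nat_lit 240125259199) (nat_lit 0) (nat_lit 275516092370) (nat_lit 1) (nat_lit 5) (nat_lit 3) (nat_lit 4) (nat_lit 1) (nat_lit 4) (nat_lit 322) (nat_lit 246) (nat_lit 152))))))))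
noncomputable def xc63 : XT := (XT.nd (nat_lit 32526) (nat_lit 0) (nat_lit 456) (XT.nd (nat_lit 31590) (nat_lit 0) (nat_lit 1748) (XT.nd (nat_lit 390) (nat_lit 0) (nat_lit 0) (XT.nd (nat_lit 156) (nat_lit 0) (nat_lit 0) (XT.nd (nat_lit 78) (nat_lit 0) (nat_lit 0) (XT.lf (nat_lit 0) (nat_lit 331778646762) (nat_lit 152) (nat_lit 246087981965) (nat_lit 0) (nat_lit 304946898308) (nat_lit 1) (nat_lit 5) (nat_lit 3) (nat_lit 4) (nat_lit 1) (nat_lit 4) (nat_lit 323) (nat_lit 246) (nat_lit 151)) (XT.lf (nat_lit 0) (nat_lit 363564706957) (nat_lit 152) (nat_lit 252529083989) (nat_lit 0) (nat_lit 336731630042) (nat_lit 1) (nat_lit 5) (nat_lit 3) (nat_lit 4) (nat_lit 1) (nat_lit 4) (nat_lit 324) (nat_lit 246) (nat_lit 150))) (XT.nd (nat_lit 78) (nat_lit 0) (nat_lit 0) (XT.lf (nat_lit 0) (nat_lit 397892948510) (nat_lit 152) (nat_lit 259486734762) (nat_lit 0) (nat_lit 371058641540) (nat_lit 1) (nat_lit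 5) (nat_lit 3) (nat_lit 4) (nat_lit 1) (nat_lit 4) (nat_lit 325) (nat_lit 246) (nat_lit 149)) (XT.nd (nat_lit 78) (nat_lit 0) (nat_lit 0) (XT.lf (nat_lit 0) (nat_lit 434966798039) (nat_lit 152) (nat_lit 267002164809) (nat_lit 0) (nat_lit 408131352128) (nat_lit 1) (nat_lit 5) (nat_lit 3) (nat_lit 4) (nat_lit 1) (nat_lit 4) (nat_lit 326) (nat_lit 246) (nat_lit 148)) (XT.lf (nat_lit 0) (nat_lit 475005952429) (nat_lit 152) (nat_lit 275119910012) (nat_lit 0) (nat_lit 448169451943) (nat_lit 1) (nat_lit 5) (nat_lit 3) (nat_lit 4) (nat_lit 1) (nat_lit 4) (nat_lit 327) (nat_lit 246) (nat_lit 147))))) (XT.nd (nat_lit 234) (nat_lit 0) (nat_lit 0) (XT.nd (nat_lit 78) (nat_lit 0) (nat_lit 0) (XT.lf (nat_lit 0) (nat_lit 518247680743) (nat_lit 152) (nat_lit 283888075526) (nat_lit 0) (nat_lit 491410203799) (nat_lit 1) (nat_lit 5) (nat_lit 3) (nat_lit 4) (nat_lit 1) (nat_lit 4) (nat_lit 328) (nat_lit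 246) (nat_lit 146)) (XT.nd (nat_lit 78) (nat_lit 0) (nat_lit 0) (XT.lf (nat_lit 0) (nat_lit 564948230261) (nat_lit 152) (nat_lit 293358620852) (nat_lit 0) (nat_lit 538109849188) (nat_lit 1) (nat_lit 5) (nat_lit 3) (nat_lit 4) (nat_lit 1) (nat_lit 4) (nat_lit 329) (nat_lit 246) (nat_lit 145)) (XT.lf (nat_lit 0) (nat_lit 615384344978) (nat_lit 152) (nat_lit 303587667740) (nat_lit 0) (nat_lit 588545126751) (nat_lit 1) (nat_lit 5) (nat_lit 3) (nat_lit 4) (nat_lit 1) (nat_lit 4) (nat_lit 330) (nat_lit 246) (nat_lit 144)))) (XT.nd (nat_lit 78) (nat_lit 0) (nat_lit 0) (XT.lf (nat_lit 0) (nat_lit 669854905576) (nat_lit 152) (nat_lit 314635832763) (nat_lit 0) (nat_lit 643014912205) (nat_lit 1) (nat_lit 5) (nat_lit 3) (nat_lit 4) (nat_lit 1) (nat_lit 4) (nat_lit 331) (nat_lit 246) (nat_lit 143)) (XT.nd (nat_lit 78) (nat_lit 0) (nat_lit 0) (XT.lf (nat_lit 0) (nat_lit 728682700562) (nat_lit 152)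 (nat_lit 326568586529) (nat_lit 0) (nat_lit 701841989464) (nat_lit 1) (nat_lit 5) (nat_lit 3) (nat_lit 4) (nat_lit 1) (nat_lit 4) (nat_lit 332) (nat_lit 246) (nat_lit 142)) (XT.lf (nat_lit 0) (nat_lit 792216339090) (nat_lit 152) (nat_lit 339456641654) (nat_lit 0) (nat_lit 765374963432) (nat_lit 1) (nat_lit 5) (nat_lit 3) (nat_lit 4) (nat_lit 1) (nat_lit 4) (nat_lit 333) (nat_lit 246) (nat_lit 141)))))) (XT.nd (nat_lit 468) (nat_lit 760) (nat_lit 0) (XT.nd (nat_lit 234) (nat_lit 0) (nat_lit 0) (XT.nd (nat_lit 78) (nat_lit 380) (nat_lit 0) (XT.lf (nat_lit 0) (nat_lit 2971825381) (nat_lit 380) (nat_lit 492785954) (nat_lit 380) (nat_lit 492785954) (nat_lit 39) (nat_lit 3) (nat_lit 44) (nat_lit 3) (nat_lit 44) (nat_lit 5) (nat_lit 247) (nat_lit 247) (nat_lit 226)) (XT.nd (nat_lit 78) (nat_lit 380) (nat_lit 0) (XT.lf (nat_lit 76) (nat_lit 2360038868) (nat_lit 0) (nat_lit 4909960507) (nat_lit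 380) (nat_lit 863705441) (nat_lit 40) (nat_lit 5) (nat_lit 39) (nat_lit 3) (nat_lit 44) (nat_lit 5) (nat_lit 248) (nat_lit 247) (nat_lit 225)) (XT.lf (nat_lit 0) (nat_lit 234966884) (nat_lit 380) (nat_lit 2413243987) (nat_lit 456) (nat_lit 5728717874) (nat_lit 34) (nat_lit 5) (nat_lit 39) (nat_lit 3) (nat_lit 40) (nat_lit 5) (nat_lit 249) (nat_lit 247) (nat_lit 224)))) (XT.nd (nat_lit 78) (nat_lit 0) (nat_lit 76) (XT.lf (nat_lit 76) (nat_lit 1192170257) (nat_lit 0) (nat_lit 111016433) (nat_lit 456) (nat_lit 7341272533) (nat_lit 35) (nat_lit 5) (nat_lit 34) (nat_lit 5) (nat_lit 40) (nat_lit 5) (nat_lit 250) (nat_lit 247) (nat_lit 223)) (XT.nd (nat_lit 78) (nat_lit 0) (nat_lit 0) (XT.lf (nat_lit 0) (nat_lit 2494276989) (nat_lit 380) (nat_lit 3838524712) (nat_lit 456) (nat_lit 2598438745) (nat_lit 35) (nat_lit 5) (nat_lit 40) (nat_lit 5) (nat_lit 41) (nat_lit 5) (nat_lit 251) (nat_lit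 247) (nat_lit 222)) (XT.lf (nat_lit 0) (nat_lit 3696950560) (nat_lit 380) (nat_lit 2179059) (nat_lit 456) (nat_lit 5549309880) (nat_lit 35) (nat_lit 5) (nat_lit 40) (nat_lit 5) (nat_lit 41) (nat_lit 5) (nat_lit 252) (nat_lit 247) (nat_lit 221))))) (XT.nd (nat_lit 234) (nat_lit 532) (nat_lit 0) (XT.nd (nat_lit 78) (nat_lit 304) (nat_lit 0) (XT.lf (nat_lit 76) (nat_lit 4297110723) (nat_lit 0) (nat_lit 721899303) (nat_lit 456) (nat_lit 4570872001) (nat_lit 36) (nat_lit 5) (nat_lit 35) (nat_lit 5) (nat_lit 41) (nat_lit 5) (nat_lit 253) (nat_lit 247) (nat_lit 220)) (XT.nd (nat_lit 78) (nat_lit 380) (nat_lit 0) (XT.lf (nat_lit 0) (nat_lit 6431685667) (nat_lit 380) (nat_lit 1142723308) (nat_lit 76) (nat_lit 2386110751) (nat_lit 36) (nat_lit 5) (nat_lit 41) (nat_lit 5) (nat_lit 37) (nat_lit 5) (nat_lit 254) (nat_lit 247) (nat_lit 219)) (XT.lf (nat_lit 0) (nat_lit 3432483492) (nat_lit 380)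 (nat_lit 4556583926) (nat_lit 456) (nat_lit 2369824067) (nat_lit 31) (nat_lit 5) (nat_lit 36) (nat_lit 5) (nat_lit 37) (nat_lit 5) (nat_lit 255) (nat_lit 247) (nat_lit 218)))) (XT.nd (nat_lit 78) (nat_lit 532) (nat_lit 0) (XT.lf (nat_lit 0) (nat_lit 8380407348) (nat_lit 380) (nat_lit 1256021039) (nat_lit 456) (nat_lit 1156046103) (nat_lit 31) (nat_lit 5) (nat_lit 36) (nat_lit 5) (nat_lit 37) (nat_lit 5) (nat_lit 256) (nat_lit 247) (nat_lit 217)) (XT.nd (nat_lit 78) (nat_lit 0) (nat_lit 0) (XT.lf (nat_lit 0) (nat_lit 202156735) (nat_lit 532) (nat_lit 8790046023) (nat_lit 76) (nat_lit 2264328944) (nat_lit 24) (nat_lit 5) (nat_lit 31) (nat_lit 5) (nat_lit 25) (nat_lit 5) (nat_lit 257) (nat_lit 247) (nat_lit 216)) (XT.lf (nat_lit 0) (nat_lit 1647181145) (nat_lit 532) (nat_lit 4005937853) (nat_lit 76) (nat_lit 6099397119) (nat_lit 24) (nat_lit 5) (nat_lit 31) (nat_lit 5) (nat_lit 25) (nat_lit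 5) (nat_lit 258) (nat_lit 247) (nat_lit 215))))))) (XT.nd (nat_lit 858) (nat_lit 380) (nat_lit 0) (XT.nd (nat_lit 390) (nat_lit 532) (nat_lit 0) (XT.nd (nat_lit 156) (nat_lit 152) (nat_lit 0) (XT.nd (nat_lit 78) (nat_lit 0) (nat_lit 0) (XT.lf (nat_lit 0) (nat_lit 1161954828) (nat_lit 228) (nat_lit 2018552124) (nat_lit 304) (nat_lit 9110277256) (nat_lit 21) (nat_lit 5) (nat_lit 24) (nat_lit 5) (nat_lit 25) (nat_lit 5) (nat_lit 259) (nat_lit 247) (nat_lit 214)) (XT.lf (nat_lit 0) (nat_lit 4942164809) (nat_lit 304) (nat_lit 6001092902) (nat_lit 76) (nat_lit 1920792459) (nat_lit 21) (nat_lit 5) (nat_lit 25) (nat_lit 5) (nat_lit 22) (nat_lit 5) (nat_lit 260) (nat_lit 247) (nat_lit 213))) (XT.nd (nat_lit 78) (nat_lit 152) (nat_lit 0) (XT.lf (nat_lit 0) (nat_lit 6848512550) (nat_lit 304) (nat_lit 571251358) (nat_lit 76) (nat_lit 6063473757) (nat_lit 21) (nat_lit 5) (nat_lit 25) (nat_lit 5)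 (nat_lit 22) (nat_lit 5) (nat_lit 261) (nat_lit 247) (nat_lit 212)) (XT.nd (nat_lit 78) (nat_lit 0) (nat_lit 0) (XT.lf (nat_lit 0) (nat_lit 5517422116) (nat_lit 152) (nat_lit 3477572840) (nat_lit 228) (nat_lit 5150289162) (nat_lit 19) (nat_lit 5) (nat_lit 21) (nat_lit 5) (nat_lit 22) (nat_lit 5) (nat_lit 262) (nat_lit 247) (nat_lit 211)) (XT.lf (nat_lit 0) (nat_lit 11304865997) (nat_lit 228) (nat_lit 2806354581) (nat_lit 76) (nat_lit 750049463) (nat_lit 19) (nat_lit 5) (nat_lit 22) (nat_lit 5) (nat_lit 20) (nat_lit 5) (nat_lit 263) (nat_lit 247) (nat_lit 210))))) (XT.nd (nat_lit 234) (nat_lit 152) (nat_lit 0) (XT.nd (nat_lit 78) (nat_lit 228) (nat_lit 0) (XT.lf (nat_lit 0) (nat_lit 3516627341) (nat_lit 152) (nat_lit 10417880979) (nat_lit 228) (nat_lit 1689514434) (nat_lit 17) (nat_lit 5) (nat_lit 19) (nat_lit 5) (nat_lit 20) (nat_lit 5) (nat_lit 264) (nat_lit 247) (nat_lit 209)) (XT.nd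 (nat_lit 78) (nat_lit 152) (nat_lit 0) (XT.lf (nat_lit 0) (nat_lit 349732398) (nat_lit 228) (nat_lit 5997353045) (nat_lit 76) (nat_lit 10097179179) (nat_lit 16) (nat_lit 5) (nat_lit 19) (nat_lit 5) (nat_lit 17) (nat_lit 5) (nat_lit 265) (nat_lit 247) (nat_lit 208)) (XT.lf (nat_lit 0) (nat_lit 537367632) (nat_lit 152) (nat_lit 1899940459) (nat_lit 228) (nat_lit 14891417116) (nat_lit 14) (nat_lit 5) (nat_lit 16) (nat_lit 5) (nat_lit 17) (nat_lit 5) (nat_lit 266) (nat_lit 247) (nat_lit 207)))) (XT.nd (nat_lit 78) (nat_lit 152) (nat_lit 0) (XT.lf (nat_lit 0) (nat_lit 4894816682) (nat_lit 228) (nat_lit 10457622581) (nat_lit 76) (nat_lit 2915479770) (nat_lit 14) (nat_lit 5) (nat_lit 17) (nat_lit 5) (nat_lit 15) (nat_lit 5) (nat_lit 267) (nat_lit 247) (nat_lit 206)) (XT.nd (nat_lit 78) (nat_lit 152) (nat_lit 0) (XT.lf (nat_lit 0) (nat_lit 7565749842) (nat_lit 228) (nat_lit 3711596342) (nat_lit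 76) (nat_lit 8003751219) (nat_lit 14) (nat_lit 5) (nat_lit 17) (nat_lit 5) (nat_lit 15) (nat_lit 5) (nat_lit 268) (nat_lit 247) (nat_lit 205)) (XT.lf (nat_lit 0) (nat_lit 3718400665) (nat_lit 152) (nat_lit 6791268670) (nat_lit 228) (nat_lit 9861096282) (nat_lit 12) (nat_lit 5) (nat_lit 14) (nat_lit 5) (nat_lit 15) (nat_lit 5) (nat_lit 269) (nat_lit 247) (nat_lit 204)))))) (XT.nd (nat_lit 468) (nat_lit 76) (nat_lit 0) (XT.nd (nat_lit 234) (nat_lit 228) (nat_lit 0) (XT.nd (nat_lit 78) (nat_lit 76) (nat_lit 0) (XT.lf (nat_lit 0) (nat_lit 11913214641) (nat_lit 152) (nat_lit 1848506251) (nat_lit 228) (nat_lit 7780244052) (nat_lit 12) (nat_lit 5) (nat_lit 14) (nat_lit 5) (nat_lit 15) (nat_lit 5) (nat_lit 270) (nat_lit 247) (nat_lit 203)) (XT.nd (nat_lit 78) (nat_lit 76) (nat_lit 0) (XT.lf (nat_lit 0) (nat_lit 17330875482) (nat_lit 228) (nat_lit 2166855644) (nat_lit 76) (nat_lit 3304728735)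 (nat_lit 12) (nat_lit 5) (nat_lit 15) (nat_lit 5) (nat_lit 13) (nat_lit 4) (nat_lit 271) (nat_lit 247) (nat_lit 202)) (XT.lf (nat_lit 0) (nat_lit 6113033209) (nat_lit 76) (nat_lit 15242572168) (nat_lit 152) (nat_lit 2794728850) (nat_lit 11) (nat_lit 5) (nat_lit 12) (nat_lit 5) (nat_lit 13) (nat_lit 4) (nat_lit 272) (nat_lit 247) (nat_lit 201)))) (XT.nd (nat_lit 78) (nat_lit 152) (nat_lit 0) (XT.lf (nat_lit 0) (nat_lit 127495096) (nat_lit 152) (nat_lit 10463847756) (nat_lit 76) (nat_lit 15011750426) (nat_lit 10) (nat_lit 5) (nat_lit 12) (nat_lit 5) (nat_lit 11) (nat_lit 5) (nat_lit 273) (nat_lit 247) (nat_lit 200)) (XT.nd (nat_lit 78) (nat_lit 152) (nat_lit 0) (XT.lf (nat_lit 0) (nat_lit 3109593758) (nat_lit 152) (nat_lit 2391588933) (nat_lit 76) (nat_lit 21667030103) (nat_lit 10) (nat_lit 5) (nat_lit 12) (nat_lit 5) (nat_lit 11) (nat_lit 5) (nat_lit 274) (nat_lit 247) (nat_lit 199))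 (XT.lf (nat_lit 0) (nat_lit 6472187463) (nat_lit 228) (nat_lit 22225403298) (nat_lit 76) (nat_lit 149702262) (nat_lit 8) (nat_lit 5) (nat_lit 11) (nat_lit 5) (nat_lit 9) (nat_lit 4) (nat_lit 275) (nat_lit 247) (nat_lit 198))))) (XT.nd (nat_lit 234) (nat_lit 0) (nat_lit 0) (XT.nd (nat_lit 78) (nat_lit 76) (nat_lit 0) (XT.lf (nat_lit 0) (nat_lit 10293112830) (nat_lit 228) (nat_lit 14340185469) (nat_lit 76) (nat_lit 6012352961) (nat_lit 8) (nat_lit 5) (nat_lit 11) (nat_lit 5) (nat_lit 9) (nat_lit 4) (nat_lit 276) (nat_lit 247) (nat_lit 197)) (XT.nd (nat_lit 78) (nat_lit 76) (nat_lit 0) (XT.lf (nat_lit 0) (nat_lit 14400589612) (nat_lit 228) (nat_lit 5854325370) (nat_lit 76) (nat_lit 12334583282) (nat_lit 8) (nat_lit 5) (nat_lit 11) (nat_lit 5) (nat_lit 9) (nat_lit 4) (nat_lit 277) (nat_lit 247) (nat_lit 196)) (XT.lf (nat_lit 0) (nat_lit 3455312292) (nat_lit 76) (nat_lit 15446746463) (nat_lit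 152) (nat_lit 15781646346) (nat_lit 7) (nat_lit 5) (nat_lit 8) (nat_lit 5) (nat_lit 9) (nat_lit 4) (nat_lit 278) (nat_lit 247) (nat_lit 195)))) (XT.nd (nat_lit 78) (nat_lit 0) (nat_lit 0) (XT.lf (nat_lit 0) (nat_lit 13815429022) (nat_lit 76) (nat_lit 10091234533) (nat_lit 152) (nat_lit 13027420897) (nat_lit 7) (nat_lit 5) (nat_lit 8) (nat_lit 5) (nat_lit 9) (nat_lit 4) (nat_lit 279) (nat_lit 247) (nat_lit 194)) (XT.nd (nat_lit 78) (nat_lit 0) (nat_lit 0) (XT.lf (nat_lit 0) (nat_lit 24979139702) (nat_lit 76) (nat_lit 4316710457) (nat_lit 152) (nat_lit 10069978598) (nat_lit 7) (nat_lit 5) (nat_lit 8) (nat_lit 5) (nat_lit 9) (nat_lit 4) (nat_lit 280) (nat_lit 247) (nat_lit 193)) (XT.lf (nat_lit 0) (nat_lit 35147515173) (nat_lit 152) (nat_lit 5026709384) (nat_lit 0) (nat_lit 1815446946) (nat_lit 7) (nat_lit 5) (nat_lit 9) (nat_lit 4) (nat_lit 7) (nat_lit 4) (nat_lit 281) (nat_lit 247)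 (nat_lit 192))))))))
noncomputable def xc64 : XT := (XT.nd (nat_lit 1716) (nat_lit 76) (nat_lit 0) (XT.nd (nat_lit 858) (nat_lit 152) (nat_lit 0) (XT.nd (nat_lit 390) (nat_lit 76) (nat_lit 0) (XT.nd (nat_lit 156) (nat_lit 0) (nat_lit 0) (XT.nd (nat_lit 78) (nat_lit 76) (nat_lit 0) (XT.lf (nat_lit 0) (nat_lit 5207898560) (nat_lit 76) (nat_lit 36483058401) (nat_lit 76) (nat_lit 3114634676) (nat_lit 6) (nat_lit 4) (nat_lit 7) (nat_lit 5) (nat_lit 7) (nat_lit 4) (nat_lit 282) (nat_lit 247) (nat_lit 191)) (XT.lf (nat_lit 0) (nat_lit 992882450) (nat_lit 152) (nat_lit 31336890726) (nat_lit 76) (nat_lit 15505122352) (nat_lit 5) (nat_lit 5) (nat_lit 7) (nat_lit 5) (nat_lit 6) (nat_lit 4) (nat_lit 283) (nat_lit 247) (nat_lit 190))) (XT.nd (nat_lit 78) (nat_lit 0) (nat_lit 0) (XT.lf (nat_lit 0) (nat_lit 5248101162) (nat_lit 152) (nat_lit 22517204786) (nat_lit 76) (nat_lit 23335824888) (nat_lit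 5) (nat_lit 5) (nat_lit 7) (nat_lit 5) (nat_lit 6) (nat_lit 4) (nat_lit 284) (nat_lit 247) (nat_lit 189)) (XT.nd (nat_lit 78) (nat_lit 0) (nat_lit 0) (XT.lf (nat_lit 0) (nat_lit 9832044210) (nat_lit 152) (nat_lit 13011463413) (nat_lit 76) (nat_lit 31786137970) (nat_lit 5) (nat_lit 5) (nat_lit 7) (nat_lit 5) (nat_lit 6) (nat_lit 4) (nat_lit 285) (nat_lit 247) (nat_lit 188)) (XT.lf (nat_lit 0) (nat_lit 14771875701) (nat_lit 152) (nat_lit 2763336289) (nat_lit 76) (nat_lit 40906137528) (nat_lit 5) (nat_lit 5) (nat_lit 7) (nat_lit 5) (nat_lit 6) (nat_lit 4) (nat_lit 286) (nat_lit 247) (nat_lit 187))))) (XT.nd (nat_lit 234) (nat_lit 0) (nat_lit 0) (XT.nd (nat_lit 78) (nat_lit 0) (nat_lit 0) (XT.lf (nat_lit 0) (nat_lit 8724332683) (nat_lit 76) (nat_lit 11582356437) (nat_lit 152) (nat_lit 42235355729) (nat_lit 4) (nat_lit 5) (nat_lit 5) (nat_lit 5) (nat_lit 6) (nat_lit 4) (nat_lit 287) (nat_lit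 247) (nat_lit 186)) (XT.nd (nat_lit 78) (nat_lit 0) (nat_lit 0) (XT.lf (nat_lit 0) (nat_lit 21271857446) (nat_lit 76) (nat_lit 5078309988) (nat_lit 152) (nat_lit 40615393847) (nat_lit 4) (nat_lit 5) (nat_lit 5) (nat_lit 5) (nat_lit 6) (nat_lit 4) (nat_lit 288) (nat_lit 247) (nat_lit 185)) (XT.lf (nat_lit 0) (nat_lit 32914820978) (nat_lit 152) (nat_lit 36982282576) (nat_lit 0) (nat_lit 1842872919) (nat_lit 4) (nat_lit 5) (nat_lit 6) (nat_lit 4) (nat_lit 4) (nat_lit 4) (nat_lit 289) (nat_lit 247) (nat_lit 184)))) (XT.nd (nat_lit 78) (nat_lit 0) (nat_lit 0) (XT.lf (nat_lit 0) (nat_lit 40128119636) (nat_lit 152) (nat_lit 27720393385) (nat_lit 0) (nat_lit 9037984777) (nat_lit 4) (nat_lit 5) (nat_lit 6) (nat_lit 4) (nat_lit 4) (nat_lit 4) (nat_lit 290) (nat_lit 247) (nat_lit 183)) (XT.nd (nat_lit 78) (nat_lit 0) (nat_lit 0) (XT.lf (nat_lit 0) (nat_lit 47910675405) (nat_lit 152) (nat_lit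 17731017517) (nat_lit 0) (nat_lit 16803700915) (nat_lit 4) (nat_lit 5) (nat_lit 6) (nat_lit 4) (nat_lit 4) (nat_lit 4) (nat_lit 291) (nat_lit 247) (nat_lit 182)) (XT.lf (nat_lit 0) (nat_lit 56308607133) (nat_lit 152) (nat_lit 6954958670) (nat_lit 0) (nat_lit 25186040394) (nat_lit 4) (nat_lit 5) (nat_lit 6) (nat_lit 4) (nat_lit 4) (nat_lit 4) (nat_lit 292) (nat_lit 247) (nat_lit 181)))))) (XT.nd (nat_lit 390) (nat_lit 76) (nat_lit 0) (XT.nd (nat_lit 156) (nat_lit 0) (nat_lit 0) (XT.nd (nat_lit 78) (nat_lit 0) (nat_lit 0) (XT.lf (nat_lit 0) (nat_lit 4917641633) (nat_lit 76) (nat_lit 60572308109) (nat_lit 76) (nat_lit 29435304100) (nat_lit 3) (nat_lit 4) (nat_lit 4) (nat_lit 5) (nat_lit 4) (nat_lit 4) (nat_lit 293) (nat_lit 247) (nat_lit 180)) (XT.lf (nat_lit 0) (nat_lit 18124333264) (nat_lit 76) (nat_lit 57465159520) (nat_lit 76) (nat_lit 26314787671) (nat_lit 3) (nat_lit 4) (nat_lit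 4) (nat_lit 5) (nat_lit 4) (nat_lit 4) (nat_lit 294) (nat_lit 247) (nat_lit 179))) (XT.nd (nat_lit 78) (nat_lit 0) (nat_lit 0) (XT.lf (nat_lit 0) (nat_lit 32377142301) (nat_lit 76) (nat_lit 54113868201) (nat_lit 76) (nat_lit 22951118720) (nat_lit 3) (nat_lit 4) (nat_lit 4) (nat_lit 5) (nat_lit 4) (nat_lit 4) (nat_lit 295) (nat_lit 247) (nat_lit 178)) (XT.nd (nat_lit 78) (nat_lit 0) (nat_lit 0) (XT.lf (nat_lit 0) (nat_lit 47760529833) (nat_lit 76) (nat_lit 50498574646) (nat_lit 76) (nat_lit 19324364396) (nat_lit 3) (nat_lit 4) (nat_lit 4) (nat_lit 5) (nat_lit 4) (nat_lit 4) (nat_lit 296) (nat_lit 247) (nat_lit 177)) (XT.lf (nat_lit 0) (nat_lit 64365656677) (nat_lit 76) (nat_lit 46597854894) (nat_lit 76) (nat_lit 15413032821) (nat_lit 3) (nat_lit 4) (nat_lit 4) (nat_lit 5) (nat_lit 4) (nat_lit 4) (nat_lit 297) (nat_lit 247) (nat_lit 176))))) (XT.nd (nat_lit 234) (nat_lit 76) (nat_lit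 0) (XT.nd (nat_lit 78) (nat_lit 0) (nat_lit 0) (XT.lf (nat_lit 0) (nat_lit 82290923583) (nat_lit 76) (nat_lit 42388593570) (nat_lit 76) (nat_lit 11193945734) (nat_lit 3) (nat_lit 4) (nat_lit 4) (nat_lit 5) (nat_lit 4) (nat_lit 4) (nat_lit 298) (nat_lit 247) (nat_lit 175)) (XT.nd (nat_lit 78) (nat_lit 0) (nat_lit 0) (XT.lf (nat_lit 0) (nat_lit 101642554355) (nat_lit 76) (nat_lit 37845846901) (nat_lit 76) (nat_lit 6642101137) (nat_lit 3) (nat_lit 4) (nat_lit 4) (nat_lit 5) (nat_lit 4) (nat_lit 4) (nat_lit 299) (nat_lit 247) (nat_lit 174)) (XT.lf (nat_lit 0) (nat_lit 122535225325) (nat_lit 76) (nat_lit 32942694908) (nat_lit 76) (nat_lit 1730525136) (nat_lit 3) (nat_lit 4) (nat_lit 4) (nat_lit 5) (nat_lit 4) (nat_lit 4) (nat_lit 300) (nat_lit 247) (nat_lit 173)))) (XT.nd (nat_lit 78) (nat_lit 0) (nat_lit 0) (XT.lf (nat_lit 0) (nat_lit 3391307652) (nat_lit 152) (nat_lit 24166049861) (nat_lit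 76) (nat_lit 141608712898) (nat_lit 2) (nat_lit 5) (nat_lit 4) (nat_lit 5) (nat_lit 3) (nat_lit 4) (nat_lit 301) (nat_lit 247) (nat_lit 172)) (XT.nd (nat_lit 78) (nat_lit 0) (nat_lit 0) (XT.lf (nat_lit 0) (nat_lit 8825797007) (nat_lit 152) (nat_lit 12869534231) (nat_lit 76) (nat_lit 160381677368) (nat_lit 2) (nat_lit 5) (nat_lit 4) (nat_lit 5) (nat_lit 3) (nat_lit 4) (nat_lit 302) (nat_lit 247) (nat_lit 171)) (XT.lf (nat_lit 0) (nat_lit 14691715187) (nat_lit 152) (nat_lit 675111666) (nat_lit 76) (nat_lit 180654271895) (nat_lit 2) (nat_lit 5) (nat_lit 4) (nat_lit 5) (nat_lit 3) (nat_lit 4) (nat_lit 303) (nat_lit 247) (nat_lit 170))))))) (XT.nd (nat_lit 858) (nat_lit 0) (nat_lit 0) (XT.nd (nat_lit 390) (nat_lit 0) (nat_lit 0) (XT.nd (nat_lit 156) (nat_lit 0) (nat_lit 0) (XT.nd (nat_lit 78) (nat_lit 0) (nat_lit 0) (XT.lf (nat_lit 0) (nat_lit 13147155016) (nat_lit 76) (nat_lit 8192857564)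 (nat_lit 152) (nat_lit 189715664752) (nat_lit 1) (nat_lit 5) (nat_lit 2) (nat_lit 5) (nat_lit 3) (nat_lit 4) (nat_lit 304) (nat_lit 247) (nat_lit 169)) (XT.lf (nat_lit 0) (nat_lit 28108349901) (nat_lit 76) (nat_lit 427301200) (nat_lit 152) (nat_lit 198756141890) (nat_lit 1) (nat_lit 5) (nat_lit 2) (nat_lit 5) (nat_lit 3) (nat_lit 4) (nat_lit 305) (nat_lit 247) (nat_lit 168))) (XT.nd (nat_lit 78) (nat_lit 0) (nat_lit 0) (XT.lf (nat_lit 0) (nat_lit 36495555834) (nat_lit 152) (nat_lit 200756821022) (nat_lit 0) (nat_lit 7559340145) (nat_lit 1) (nat_lit 5) (nat_lit 3) (nat_lit 4) (nat_lit 1) (nat_lit 4) (nat_lit 306) (nat_lit 247) (nat_lit 167)) (XT.nd (nat_lit 78) (nat_lit 0) (nat_lit 0) (XT.lf (nat_lit 0) (nat_lit 45100748874) (nat_lit 152) (nat_lit 202471832121) (nat_lit 0) (nat_lit 16159981955) (nat_lit 1) (nat_lit 5) (nat_lit 3) (nat_lit 4) (nat_lit 1) (nat_lit 4) (nat_lit 307) (nat_lit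 247) (nat_lit 166)) (XT.lf (nat_lit 0) (nat_lit 54391947354) (nat_lit 152) (nat_lit 204328362812) (nat_lit 0) (nat_lit 25446966334) (nat_lit 1) (nat_lit 5) (nat_lit 3) (nat_lit 4) (nat_lit 1) (nat_lit 4) (nat_lit 308) (nat_lit 247) (nat_lit 165))))) (XT.nd (nat_lit 234) (nat_lit 0) (nat_lit 0) (XT.nd (nat_lit 78) (nat_lit 0) (nat_lit 0) (XT.lf (nat_lit 0) (nat_lit 64424210228) (nat_lit 152) (nat_lit 206337414758) (nat_lit 0) (nat_lit 35475327262) (nat_lit 1) (nat_lit 5) (nat_lit 3) (nat_lit 4) (nat_lit 1) (nat_lit 4) (nat_lit 309) (nat_lit 247) (nat_lit 164)) (XT.nd (nat_lit 78) (nat_lit 0) (nat_lit 0) (XT.lf (nat_lit 0) (nat_lit 75256987941) (nat_lit 152) (nat_lit 208510893453) (nat_lit 0) (nat_lit 46304492063) (nat_lit 1) (nat_lit 5) (nat_lit 3) (nat_lit 4) (nat_lit 1) (nat_lit 4) (nat_lit 310) (nat_lit 247) (nat_lit 163)) (XT.lf (nat_lit 0) (nat_lit 86954474734) (nat_lit 152) (nat_lit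 210861678771) (nat_lit 0) (nat_lit 57998633567) (nat_lit 1) (nat_lit 5) (nat_lit 3) (nat_lit 4) (nat_lit 1) (nat_lit 4) (nat_lit 311) (nat_lit 247) (nat_lit 162)))) (XT.nd (nat_lit 78) (nat_lit 0) (nat_lit 0) (XT.lf (nat_lit 0) (nat_lit 99585989045) (nat_lit 152) (nat_lit 213403701290) (nat_lit 0) (nat_lit 70627050388) (nat_lit 1) (nat_lit 5) (nat_lit 3) (nat_lit 4) (nat_lit 1) (nat_lit 4) (nat_lit 312) (nat_lit 247) (nat_lit 161)) (XT.nd (nat_lit 78) (nat_lit 0) (nat_lit 0) (XT.lf (nat_lit 0) (nat_lit 113226384294) (nat_lit 152) (nat_lit 216152024849) (nat_lit 0) (nat_lit 84264577590) (nat_lit 1) (nat_lit 5) (nat_lit 3) (nat_lit 4) (nat_lit 1) (nat_lit 4) (nat_lit 313) (nat_lit 247) (nat_lit 160)) (XT.lf (nat_lit 0) (nat_lit 127956492451) (nat_lit 152) (nat_lit 219122935808) (nat_lit 0) (nat_lit 98992030149) (nat_lit 1) (nat_lit 5) (nat_lit 3) (nat_lit 4) (nat_lit 1) (nat_lit 4) (nat_lit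 314) (nat_lit 247) (nat_lit 159)))))) (XT.nd (nat_lit 468) (nat_lit 0) (nat_lit 0) (XT.nd (nat_lit 234) (nat_lit 0) (nat_lit 0) (XT.nd (nat_lit 78) (nat_lit 0) (nat_lit 0) (XT.lf (nat_lit 0) (nat_lit 143863603047) (nat_lit 152) (nat_lit 222334039567) (nat_lit 0) (nat_lit 114896681857) (nat_lit 1) (nat_lit 5) (nat_lit 3) (nat_lit 4) (nat_lit 1) (nat_lit 4) (nat_lit 315) (nat_lit 247) (nat_lit 158)) (XT.nd (nat_lit 78) (nat_lit 0) (nat_lit 0) (XT.lf (nat_lit 0) (nat_lit 161041980441) (nat_lit 152) (nat_lit 225804364888) (nat_lit 0) (nat_lit 132072782504) (nat_lit 1) (nat_lit 5) (nat_lit 3) (nat_lit 4) (nat_lit 1) (nat_lit 4) (nat_lit 316) (nat_lit 247) (nat_lit 157)) (XT.lf (nat_lit 0) (nat_lit 179593422425) (nat_lit 152) (nat_lit 229554476662) (nat_lit 0) (nat_lit 150622116388) (nat_lit 1) (nat_lit 5) (nat_lit 3) (nat_lit 4) (nat_lit 1) (nat_lit 4) (nat_lit 317) (nat_lit 247) (nat_lit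 156)))) (XT.nd (nat_lit 78) (nat_lit 0) (nat_lit 0) (XT.lf (nat_lit 0) (nat_lit 199627863469) (nat_lit 152) (nat_lit 233606597774) (nat_lit 0) (nat_lit 170654605488) (nat_lit 1) (nat_lit 5) (nat_lit 3) (nat_lit 4) (nat_lit 1) (nat_lit 4) (nat_lit 318) (nat_lit 247) (nat_lit 155)) (XT.nd (nat_lit 78) (nat_lit 0) (nat_lit 0) (XT.lf (nat_lit 0) (nat_lit 221264026188) (nat_lit 152) (nat_lit 237984740792) (nat_lit 0) (nat_lit 192288960851) (nat_lit 1) (nat_lit 5) (nat_lit 3) (nat_lit 4) (nat_lit 1) (nat_lit 4) (nat_lit 319) (nat_lit 247) (nat_lit 154)) (XT.lf (nat_lit 0) (nat_lit 244630124879) (nat_lit 152) (nat_lit 242714850270) (nat_lit 0) (nat_lit 215653386064) (nat_lit 1) (nat_lit 5) (nat_lit 3) (nat_lit 4) (nat_lit 1) (nat_lit 4) (nat_lit 320) (nat_lit 247) (nat_lit 153))))) (XT.nd (nat_lit 234) (nat_lit 0) (nat_lit 0) (XT.nd (nat_lit 78) (nat_lit 0) (nat_lit 0) (XT.lf (nat_lit 0)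 (nat_lit 269864625312) (nat_lit 152) (nat_lit 247824956484) (nat_lit 0) (nat_lit 240886336981) (nat_lit 1) (nat_lit 5) (nat_lit 3) (nat_lit 4) (nat_lit 1) (nat_lit 4) (nat_lit 321) (nat_lit 247) (nat_lit 152)) (XT.nd (nat_lit 78) (nat_lit 0) (nat_lit 0) (XT.lf (nat_lit 0) (nat_lit 297117065267) (nat_lit 152) (nat_lit 253345341546) (nat_lit 0) (nat_lit 268137342199) (nat_lit 1) (nat_lit 5) (nat_lit 3) (nat_lit 4) (nat_lit 1) (nat_lit 4) (nat_lit 322) (nat_lit 247) (nat_lit 151)) (XT.lf (nat_lit 0) (nat_lit 326548940685) (nat_lit 152) (nat_lit 259308718848) (nat_lit 0) (nat_lit 297567889156) (nat_lit 1) (nat_lit 5) (nat_lit 3) (nat_lit 4) (nat_lit 1) (nat_lit 4) (nat_lit 323) (nat_lit 247) (nat_lit 150)))) (XT.nd (nat_lit 78) (nat_lit 0) (nat_lit 0) (XT.lf (nat_lit 0) (nat_lit 358334662679) (nat_lit 152) (nat_lit 265750426924) (nat_lit 0) (nat_lit 329352381095) (nat_lit 1) (nat_lit 5)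 (nat_lit 3) (nat_lit 4) (nat_lit 1) (nat_lit 4) (nat_lit 324) (nat_lit 247) (nat_lit 149)) (XT.nd (nat_lit 78) (nat_lit 0) (nat_lit 0) (XT.lf (nat_lit 0) (nat_lit 392662591084) (nat_lit 152) (nat_lit 272708638857) (nat_lit 0) (nat_lit 363679170559) (nat_lit 1) (nat_lit 5) (nat_lit 3) (nat_lit 4) (nat_lit 1) (nat_lit 4) (nat_lit 325) (nat_lit 247) (nat_lit 148)) (XT.lf (nat_lit 0) (nat_lit 429736150660) (nat_lit 152) (nat_lit 280224588496) (nat_lit 0) (nat_lit 400751675560) (nat_lit 1) (nat_lit 5) (nat_lit 3) (nat_lit 4) (nat_lit 1) (nat_lit 4) (nat_lit 326) (nat_lit 247) (nat_lit 147))))))))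
noncomputable def xc65 : XT := (XT.nd (nat_lit 32604) (nat_lit 0) (nat_lit 304) (XT.nd (nat_lit 31668) (nat_lit 0) (nat_lit 1368) (XT.nd (nat_lit 390) (nat_lit 0) (nat_lit 0) (XT.nd (nat_lit 156) (nat_lit 0) (nat_lit 0) (XT.nd (nat_lit 78) (nat_lit 0) (nat_lit 0) (XT.lf (nat_lit 0) (nat_lit 469775036576) (nat_lit 152) (nat_lit 288342814802) (nat_lit 0) (nat_lit 440789585018) (nat_lit 1) (nat_lit 5) (nat_lit 3) (nat_lit 4) (nat_lit 1) (nat_lit 4) (nat_lit 327) (nat_lit 247) (nat_lit 146)) (XT.lf (nat_lit 0) (nat_lit 513016516302) (nat_lit 152) (nat_lit 297111425783) (nat_lit 0) (nat_lit 484030160617) (nat_lit 1) (nat_lit 5) (nat_lit 3) (nat_lit 4) (nat_lit 1) (nat_lit 4) (nat_lit 328) (nat_lit 247) (nat_lit 145))) (XT.nd (nat_lit 78) (nat_lit 0) (nat_lit 0) (XT.lf (nat_lit 0) (nat_lit 559716835646) (nat_lit 152) (nat_lit 306582383578) (nat_lit 0) (nat_lit 530729642805) (nat_lit 1) (nat_lit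 5) (nat_lit 3) (nat_lit 4) (nat_lit 1) (nat_lit 4) (nat_lit 329) (nat_lit 247) (nat_lit 144)) (XT.nd (nat_lit 78) (nat_lit 0) (nat_lit 0) (XT.lf (nat_lit 0) (nat_lit 610152737240) (nat_lit 152) (nat_lit 316811812381) (nat_lit 0) (nat_lit 581164769255) (nat_lit 1) (nat_lit 5) (nat_lit 3) (nat_lit 4) (nat_lit 1) (nat_lit 4) (nat_lit 330) (nat_lit 247) (nat_lit 143)) (XT.lf (nat_lit 0) (nat_lit 664623100502) (nat_lit 152) (nat_lit 327860331030) (nat_lit 0) (nat_lit 635634414791) (nat_lit 1) (nat_lit 5) (nat_lit 3) (nat_lit 4) (nat_lit 1) (nat_lit 4) (nat_lit 331) (nat_lit 247) (nat_lit 142))))) (XT.nd (nat_lit 31044) (nat_lit 0) (nat_lit 2508) (XT.nd (nat_lit 78) (nat_lit 0) (nat_lit 0) (XT.lf (nat_lit 0) (nat_lit 723450712768) (nat_lit 152) (nat_lit 339793412228) (nat_lit 0) (nat_lit 694461362496) (nat_lit 1) (nat_lit 5) (nat_lit 3) (nat_lit 4) (nat_lit 1) (nat_lit 4) (nat_lit 332) (nat_lit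 247) (nat_lit 141)) (XT.nd (nat_lit 30888) (nat_lit 0) (nat_lit 2508) (XT.lf (nat_lit 0) (nat_lit 786984182112) (nat_lit 152) (nat_lit 352681770529) (nat_lit 0) (nat_lit 757994216506) (nat_lit 1) (nat_lit 5) (nat_lit 3) (nat_lit 4) (nat_lit 1) (nat_lit 4) (nat_lit 333) (nat_lit 247) (nat_lit 140)) (XT.lf (nat_lit 0) (nat_lit 16331239) (nat_lit 0) (nat_lit 16331239) (nat_lit 380) (nat_lit 4150295093) (nat_lit 34) (nat_lit 5) (nat_lit 34) (nat_lit 3) (nat_lit 39) (nat_lit 3) (nat_lit 248) (nat_lit 248) (nat_lit 224)))) (XT.nd (nat_lit 78) (nat_lit 0) (nat_lit 0) (XT.lf (nat_lit 0) (nat_lit 1071757868) (nat_lit 380) (nat_lit 5022165744) (nat_lit 456) (nat_lit 2517913207) (nat_lit 34) (nat_lit 5) (nat_lit 39) (nat_lit 3) (nat_lit 40) (nat_lit 5) (nat_lit 249) (nat_lit 248) (nat_lit 223)) (XT.nd (nat_lit 78) (nat_lit 0) (nat_lit 0) (XT.lf (nat_lit 0) (nat_lit 2066632028) (nat_lit 380) (nat_lit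 1503563162) (nat_lit 456) (nat_lit 5315444249) (nat_lit 34) (nat_lit 5) (nat_lit 39) (nat_lit 3) (nat_lit 40) (nat_lit 5) (nat_lit 250) (nat_lit 248) (nat_lit 222)) (XT.lf (nat_lit 76) (nat_lit 2362366745) (nat_lit 0) (nat_lit 749505686) (nat_lit 456) (nat_lit 6072590749) (nat_lit 35) (nat_lit 5) (nat_lit 34) (nat_lit 5) (nat_lit 40) (nat_lit 5) (nat_lit 251) (nat_lit 248) (nat_lit 221)))))) (XT.nd (nat_lit 468) (nat_lit 912) (nat_lit 0) (XT.nd (nat_lit 234) (nat_lit 304) (nat_lit 0) (XT.nd (nat_lit 78) (nat_lit 0) (nat_lit 0) (XT.lf (nat_lit 0) (nat_lit 4257975370) (nat_lit 380) (nat_lit 2996053231) (nat_lit 456) (nat_lit 2252506067) (nat_lit 35) (nat_lit 5) (nat_lit 40) (nat_lit 5) (nat_lit 41) (nat_lit 5) (nat_lit 252) (nat_lit 248) (nat_lit 220)) (XT.nd (nat_lit 78) (nat_lit 0) (nat_lit 0) (XT.lf (nat_lit 76) (nat_lit 1117973529) (nat_lit 0) (nat_lit 4349913164) (nat_lit 456) (nat_lit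 4389383452) (nat_lit 36) (nat_lit 5) (nat_lit 35) (nat_lit 5) (nat_lit 41) (nat_lit 5) (nat_lit 253) (nat_lit 248) (nat_lit 219)) (XT.lf (nat_lit 76) (nat_lit 5678334061) (nat_lit 0) (nat_lit 1108159423) (nat_lit 456) (nat_lit 3449237180) (nat_lit 36) (nat_lit 5) (nat_lit 35) (nat_lit 5) (nat_lit 41) (nat_lit 5) (nat_lit 254) (nat_lit 248) (nat_lit 218)))) (XT.nd (nat_lit 78) (nat_lit 380) (nat_lit 0) (XT.lf (nat_lit 0) (nat_lit 8203685359) (nat_lit 380) (nat_lit 153866140) (nat_lit 76) (nat_lit 2288041402) (nat_lit 36) (nat_lit 5) (nat_lit 41) (nat_lit 5) (nat_lit 37) (nat_lit 5) (nat_lit 255) (nat_lit 248) (nat_lit 217)) (XT.nd (nat_lit 78) (nat_lit 0) (nat_lit 0) (XT.lf (nat_lit 0) (nat_lit 4760008470) (nat_lit 380) (nat_lit 5057826539) (nat_lit 456) (nat_lit 1264252699) (nat_lit 31) (nat_lit 5) (nat_lit 36) (nat_lit 5) (nat_lit 37) (nat_lit 5) (nat_lit 256) (nat_lit 248) (nat_lit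 216)) (XT.lf (nat_lit 0) (nat_lit 10025771694) (nat_lit 380) (nat_lit 1483091518) (nat_lit 456) (nat_lit 49310076) (nat_lit 31) (nat_lit 5) (nat_lit 36) (nat_lit 5) (nat_lit 37) (nat_lit 5) (nat_lit 257) (nat_lit 248) (nat_lit 215))))) (XT.nd (nat_lit 234) (nat_lit 152) (nat_lit 0) (XT.nd (nat_lit 78) (nat_lit 228) (nat_lit 0) (XT.lf (nat_lit 0) (nat_lit 1296149615) (nat_lit 532) (nat_lit 8379839324) (nat_lit 76) (nat_lit 2386628495) (nat_lit 24) (nat_lit 5) (nat_lit 31) (nat_lit 5) (nat_lit 25) (nat_lit 5) (nat_lit 258) (nat_lit 248) (nat_lit 214)) (XT.nd (nat_lit 78) (nat_lit 228) (nat_lit 0) (XT.lf (nat_lit 0) (nat_lit 2776937434) (nat_lit 532) (nat_lit 3295477343) (nat_lit 76) (nat_lit 6532861143) (nat_lit 24) (nat_lit 5) (nat_lit 31) (nat_lit 5) (nat_lit 25) (nat_lit 5) (nat_lit 259) (nat_lit 248) (nat_lit 213)) (XT.lf (nat_lit 0) (nat_lit 2259747119) (nat_lit 228) (nat_lit 2123423937)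 (nat_lit 304) (nat_lit 8807978244) (nat_lit 21) (nat_lit 5) (nat_lit 24) (nat_lit 5) (nat_lit 25) (nat_lit 5) (nat_lit 260) (nat_lit 248) (nat_lit 212)))) (XT.nd (nat_lit 78) (nat_lit 152) (nat_lit 0) (XT.lf (nat_lit 0) (nat_lit 6216783435) (nat_lit 304) (nat_lit 5475280314) (nat_lit 76) (nat_lit 2124252502) (nat_lit 21) (nat_lit 5) (nat_lit 25) (nat_lit 5) (nat_lit 22) (nat_lit 5) (nat_lit 261) (nat_lit 248) (nat_lit 211)) (XT.nd (nat_lit 78) (nat_lit 0) (nat_lit 0) (XT.lf (nat_lit 0) (nat_lit 330995158) (nat_lit 152) (nat_lit 7887474986) (nat_lit 228) (nat_lit 6271624947) (nat_lit 19) (nat_lit 5) (nat_lit 21) (nat_lit 5) (nat_lit 22) (nat_lit 5) (nat_lit 262) (nat_lit 248) (nat_lit 210)) (XT.lf (nat_lit 0) (nat_lit 6866625326) (nat_lit 152) (nat_lit 3623613314) (nat_lit 228) (nat_lit 4719028290) (nat_lit 19) (nat_lit 5) (nat_lit 21) (nat_lit 5) (nat_lit 22) (nat_lit 5) (nat_lit 263)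 (nat_lit 248) (nat_lit 209))))))) (XT.nd (nat_lit 858) (nat_lit 380) (nat_lit 0) (XT.nd (nat_lit 390) (nat_lit 304) (nat_lit 0) (XT.nd (nat_lit 156) (nat_lit 228) (nat_lit 0) (XT.nd (nat_lit 78) (nat_lit 152) (nat_lit 0) (XT.lf (nat_lit 0) (nat_lit 12930387377) (nat_lit 228) (nat_lit 2130612228) (nat_lit 76) (nat_lit 926307038) (nat_lit 19) (nat_lit 5) (nat_lit 22) (nat_lit 5) (nat_lit 20) (nat_lit 5) (nat_lit 264) (nat_lit 248) (nat_lit 208)) (XT.lf (nat_lit 0) (nat_lit 4675417091) (nat_lit 152) (nat_lit 11062669726) (nat_lit 228) (nat_lit 1075961189) (nat_lit 17) (nat_lit 5) (nat_lit 19) (nat_lit 5) (nat_lit 20) (nat_lit 5) (nat_lit 265) (nat_lit 248) (nat_lit 207))) (XT.nd (nat_lit 78) (nat_lit 152) (nat_lit 0) (XT.lf (nat_lit 0) (nat_lit 1036285688) (nat_lit 228) (nat_lit 5625891721) (nat_lit 76) (nat_lit 11040834774) (nat_lit 16) (nat_lit 5) (nat_lit 19) (nat_lit 5) (nat_lit 17)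 (nat_lit 5) (nat_lit 266) (nat_lit 248) (nat_lit 206)) (XT.nd (nat_lit 78) (nat_lit 0) (nat_lit 0) (XT.lf (nat_lit 0) (nat_lit 1410055988) (nat_lit 152) (nat_lit 1851982416) (nat_lit 228) (nat_lit 15398801801) (nat_lit 14) (nat_lit 5) (nat_lit 16) (nat_lit 5) (nat_lit 17) (nat_lit 5) (nat_lit 267) (nat_lit 248) (nat_lit 205)) (XT.lf (nat_lit 0) (nat_lit 5873952524) (nat_lit 228) (nat_lit 10480275830) (nat_lit 76) (nat_lit 3324598528) (nat_lit 14) (nat_lit 5) (nat_lit 17) (nat_lit 5) (nat_lit 15) (nat_lit 5) (nat_lit 268) (nat_lit 248) (nat_lit 204))))) (XT.nd (nat_lit 234) (nat_lit 152) (nat_lit 0) (XT.nd (nat_lit 78) (nat_lit 152) (nat_lit 0) (XT.lf (nat_lit 0) (nat_lit 8715038077) (nat_lit 228) (nat_lit 3254860571) (nat_lit 76) (nat_lit 8806903517) (nat_lit 14) (nat_lit 5) (nat_lit 17) (nat_lit 5) (nat_lit 15) (nat_lit 5) (nat_lit 269) (nat_lit 248) (nat_lit 203)) (XT.nd (nat_lit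 78) (nat_lit 0) (nat_lit 0) (XT.lf (nat_lit 0) (nat_lit 4750456110) (nat_lit 152) (nat_lit 7121383380) (nat_lit 228) (nat_lit 10083856416) (nat_lit 12) (nat_lit 5) (nat_lit 14) (nat_lit 5) (nat_lit 15) (nat_lit 5) (nat_lit 270) (nat_lit 248) (nat_lit 202)) (XT.lf (nat_lit 0) (nat_lit 13546441618) (nat_lit 152) (nat_lit 1798991581) (nat_lit 228) (nat_lit 7878471384) (nat_lit 12) (nat_lit 5) (nat_lit 14) (nat_lit 5) (nat_lit 15) (nat_lit 5) (nat_lit 271) (nat_lit 248) (nat_lit 201)))) (XT.nd (nat_lit 78) (nat_lit 152) (nat_lit 0) (XT.lf (nat_lit 0) (nat_lit 19168754775) (nat_lit 228) (nat_lit 1676463350) (nat_lit 76) (nat_lit 3742737278) (nat_lit 12) (nat_lit 5) (nat_lit 15) (nat_lit 5) (nat_lit 13) (nat_lit 4) (nat_lit 272) (nat_lit 248) (nat_lit 200)) (XT.nd (nat_lit 78) (nat_lit 76) (nat_lit 0) (XT.lf (nat_lit 0) (nat_lit 7249013048) (nat_lit 76) (nat_lit 16248571147) (nat_lit 152)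 (nat_lit 2547697576) (nat_lit 11) (nat_lit 5) (nat_lit 12) (nat_lit 5) (nat_lit 13) (nat_lit 4) (nat_lit 273) (nat_lit 248) (nat_lit 199)) (XT.lf (nat_lit 0) (nat_lit 551646357) (nat_lit 152) (nat_lit 10678086867) (nat_lit 76) (nat_lit 16386436545) (nat_lit 10) (nat_lit 5) (nat_lit 12) (nat_lit 5) (nat_lit 11) (nat_lit 5) (nat_lit 274) (nat_lit 248) (nat_lit 198)))))) (XT.nd (nat_lit 468) (nat_lit 152) (nat_lit 0) (XT.nd (nat_lit 234) (nat_lit 76) (nat_lit 0) (XT.nd (nat_lit 78) (nat_lit 152) (nat_lit 0) (XT.lf (nat_lit 0) (nat_lit 3741649826) (nat_lit 152) (nat_lit 2006185761) (nat_lit 76) (nat_lit 23561268516) (nat_lit 10) (nat_lit 5) (nat_lit 12) (nat_lit 5) (nat_lit 11) (nat_lit 5) (nat_lit 275) (nat_lit 248) (nat_lit 197)) (XT.nd (nat_lit 78) (nat_lit 0) (nat_lit 0) (XT.lf (nat_lit 0) (nat_lit 7363037323) (nat_lit 228) (nat_lit 23414729879) (nat_lit 76) (nat_lit 345701580) (nat_lit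 8) (nat_lit 5) (nat_lit 11) (nat_lit 5) (nat_lit 9) (nat_lit 4) (nat_lit 276) (nat_lit 248) (nat_lit 196)) (XT.lf (nat_lit 0) (nat_lit 11462001545) (nat_lit 228) (nat_lit 14942302452) (nat_lit 76) (nat_lit 6663732991) (nat_lit 8) (nat_lit 5) (nat_lit 11) (nat_lit 5) (nat_lit 9) (nat_lit 4) (nat_lit 277) (nat_lit 248) (nat_lit 195)))) (XT.nd (nat_lit 78) (nat_lit 76) (nat_lit 0) (XT.lf (nat_lit 0) (nat_lit 15872488344) (nat_lit 228) (nat_lit 5817951164) (nat_lit 76) (nat_lit 13479120124) (nat_lit 8) (nat_lit 5) (nat_lit 11) (nat_lit 5) (nat_lit 9) (nat_lit 4) (nat_lit 278) (nat_lit 248) (nat_lit 194)) (XT.nd (nat_lit 78) (nat_lit 0) (nat_lit 0) (XT.lf (nat_lit 0) (nat_lit 4223679784) (nat_lit 76) (nat_lit 16498533755) (nat_lit 152) (nat_lit 16710150274) (nat_lit 7) (nat_lit 5) (nat_lit 8) (nat_lit 5) (nat_lit 9) (nat_lit 4) (nat_lit 279) (nat_lit 248) (nat_lit 193)) (XT.lf (nat_lit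 0) (nat_lit 15376165666) (nat_lit 76) (nat_lit 10728206977) (nat_lit 152) (nat_lit 13760329587) (nat_lit 7) (nat_lit 5) (nat_lit 8) (nat_lit 5) (nat_lit 9) (nat_lit 4) (nat_lit 280) (nat_lit 248) (nat_lit 192))))) (XT.nd (nat_lit 234) (nat_lit 76) (nat_lit 0) (XT.nd (nat_lit 78) (nat_lit 76) (nat_lit 0) (XT.lf (nat_lit 0) (nat_lit 27399232288) (nat_lit 76) (nat_lit 4504337740) (nat_lit 152) (nat_lit 10589201904) (nat_lit 7) (nat_lit 5) (nat_lit 8) (nat_lit 5) (nat_lit 9) (nat_lit 4) (nat_lit 281) (nat_lit 248) (nat_lit 191)) (XT.nd (nat_lit 78) (nat_lit 76) (nat_lit 0) (XT.lf (nat_lit 0) (nat_lit 38207320807) (nat_lit 152) (nat_lit 5021168711) (nat_lit 0) (nat_lit 2099405187) (nat_lit 7) (nat_lit 5) (nat_lit 9) (nat_lit 4) (nat_lit 7) (nat_lit 4) (nat_lit 282) (nat_lit 248) (nat_lit 190)) (XT.lf (nat_lit 0) (nat_lit 6021886922) (nat_lit 76) (nat_lit 39243536752) (nat_lit 76) (nat_lit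 3104452152) (nat_lit 6) (nat_lit 4) (nat_lit 7) (nat_lit 5) (nat_lit 7) (nat_lit 4) (nat_lit 283) (nat_lit 248) (nat_lit 189)))) (XT.nd (nat_lit 78) (nat_lit 0) (nat_lit 0) (XT.lf (nat_lit 0) (nat_lit 1300442117) (nat_lit 152) (nat_lit 33463025162) (nat_lit 76) (nat_lit 16879088280) (nat_lit 5) (nat_lit 5) (nat_lit 7) (nat_lit 5) (nat_lit 6) (nat_lit 4) (nat_lit 284) (nat_lit 248) (nat_lit 188)) (XT.nd (nat_lit 78) (nat_lit 0) (nat_lit 0) (XT.lf (nat_lit 0) (nat_lit 5879179876) (nat_lit 152) (nat_lit 23965973000) (nat_lit 76) (nat_lit 25326353972) (nat_lit 5) (nat_lit 5) (nat_lit 7) (nat_lit 5) (nat_lit 6) (nat_lit 4) (nat_lit 285) (nat_lit 248) (nat_lit 187)) (XT.lf (nat_lit 0) (nat_lit 10814191655) (nat_lit 152) (nat_lit 13725891441) (nat_lit 76) (nat_lit 34443531872) (nat_lit 5) (nat_lit 5) (nat_lit 7) (nat_lit 5) (nat_lit 6) (nat_lit 4) (nat_lit 286) (nat_lit 248) (nat_lit 186))))))))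
noncomputable def xc66 : XT := (XT.nd (nat_lit 1794) (nat_lit 0) (nat_lit 0) (XT.nd (nat_lit 858) (nat_lit 152) (nat_lit 0) (XT.nd (nat_lit 390) (nat_lit 76) (nat_lit 0) (XT.nd (nat_lit 156) (nat_lit 0) (nat_lit 0) (XT.nd (nat_lit 78) (nat_lit 76) (nat_lit 0) (XT.lf (nat_lit 0) (nat_lit 16134721968) (nat_lit 152) (nat_lit 2682098521) (nat_lit 76) (nat_lit 44284649700) (nat_lit 5) (nat_lit 5) (nat_lit 7) (nat_lit 5) (nat_lit 6) (nat_lit 4) (nat_lit 287) (nat_lit 248) (nat_lit 185)) (XT.lf (nat_lit 0) (nat_lit 9716930686) (nat_lit 76) (nat_lit 12389061614) (nat_lit 152) (nat_lit 45424786922) (nat_lit 4) (nat_lit 5) (nat_lit 5) (nat_lit 5) (nat_lit 6) (nat_lit 4) (nat_lit 288) (nat_lit 248) (nat_lit 184))) (XT.nd (nat_lit 78) (nat_lit 0) (nat_lit 0) (XT.lf (nat_lit 0) (nat_lit 23246431402) (nat_lit 76) (nat_lit 5373571697) (nat_lit 152) (nat_lit 43689257516) (nat_lit 4) (nat_lit 5) (nat_lit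 5) (nat_lit 5) (nat_lit 6) (nat_lit 4) (nat_lit 289) (nat_lit 248) (nat_lit 183)) (XT.nd (nat_lit 78) (nat_lit 0) (nat_lit 0) (XT.lf (nat_lit 0) (nat_lit 35700313968) (nat_lit 152) (nat_lit 39678178791) (nat_lit 0) (nat_lit 2087941889) (nat_lit 4) (nat_lit 5) (nat_lit 6) (nat_lit 4) (nat_lit 4) (nat_lit 4) (nat_lit 290) (nat_lit 248) (nat_lit 182)) (XT.lf (nat_lit 0) (nat_lit 43479394495) (nat_lit 152) (nat_lit 29694796716) (nat_lit 0) (nat_lit 9851430166) (nat_lit 4) (nat_lit 5) (nat_lit 6) (nat_lit 4) (nat_lit 4) (nat_lit 4) (nat_lit 291) (nat_lit 248) (nat_lit 181))))) (XT.nd (nat_lit 234) (nat_lit 0) (nat_lit 0) (XT.nd (nat_lit 78) (nat_lit 76) (nat_lit 0) (XT.lf (nat_lit 0) (nat_lit 51874108408) (nat_lit 152) (nat_lit 18924287678) (nat_lit 0) (nat_lit 18231706810) (nat_lit 4) (nat_lit 5) (nat_lit 6) (nat_lit 4) (nat_lit 4) (nat_lit 4) (nat_lit 292) (nat_lit 248) (nat_lit 180))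 (XT.nd (nat_lit 78) (nat_lit 76) (nat_lit 0) (XT.lf (nat_lit 0) (nat_lit 60934202158) (nat_lit 152) (nat_lit 7302826437) (nat_lit 0) (nat_lit 27278432719) (nat_lit 4) (nat_lit 5) (nat_lit 6) (nat_lit 4) (nat_lit 4) (nat_lit 4) (nat_lit 293) (nat_lit 248) (nat_lit 179)) (XT.lf (nat_lit 0) (nat_lit 5514302677) (nat_lit 76) (nat_lit 65331681625) (nat_lit 76) (nat_lit 31663534556) (nat_lit 3) (nat_lit 4) (nat_lit 4) (nat_lit 5) (nat_lit 4) (nat_lit 4) (nat_lit 294) (nat_lit 248) (nat_lit 178)))) (XT.nd (nat_lit 78) (nat_lit 0) (nat_lit 0) (XT.lf (nat_lit 0) (nat_lit 19762474104) (nat_lit 76) (nat_lit 61982361974) (nat_lit 76) (nat_lit 28302754135) (nat_lit 3) (nat_lit 4) (nat_lit 4) (nat_lit 5) (nat_lit 4) (nat_lit 4) (nat_lit 295) (nat_lit 248) (nat_lit 177)) (XT.nd (nat_lit 78) (nat_lit 0) (nat_lit 0) (XT.lf (nat_lit 0) (nat_lit 35141567554) (nat_lit 76) (nat_lit 58368894039) (nat_lit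 76) (nat_lit 24678674376) (nat_lit 3) (nat_lit 4) (nat_lit 4) (nat_lit 5) (nat_lit 4) (nat_lit 4) (nat_lit 296) (nat_lit 248) (nat_lit 176)) (XT.lf (nat_lit 0) (nat_lit 51742718395) (nat_lit 76) (nat_lit 54469864675) (nat_lit 76) (nat_lit 20769819250) (nat_lit 3) (nat_lit 4) (nat_lit 4) (nat_lit 5) (nat_lit 4) (nat_lit 4) (nat_lit 297) (nat_lit 248) (nat_lit 175)))))) (XT.nd (nat_lit 468) (nat_lit 76) (nat_lit 0) (XT.nd (nat_lit 234) (nat_lit 76) (nat_lit 0) (XT.nd (nat_lit 78) (nat_lit 0) (nat_lit 0) (XT.lf (nat_lit 0) (nat_lit 69664303818) (nat_lit 76) (nat_lit 50262168524) (nat_lit 76) (nat_lit 16553025171) (nat_lit 3) (nat_lit 4) (nat_lit 4) (nat_lit 5) (nat_lit 4) (nat_lit 4) (nat_lit 298) (nat_lit 248) (nat_lit 174)) (XT.nd (nat_lit 78) (nat_lit 0) (nat_lit 0) (XT.lf (nat_lit 0) (nat_lit 89012525809) (nat_lit 76) (nat_lit 45720871091) (nat_lit 76) (nat_lit 12003303730) (nat_lit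 3) (nat_lit 4) (nat_lit 4) (nat_lit 5) (nat_lit 4) (nat_lit 4) (nat_lit 299) (nat_lit 248) (nat_lit 173)) (XT.lf (nat_lit 0) (nat_lit 109902040500) (nat_lit 76) (nat_lit 40819060982) (nat_lit 76) (nat_lit 7093693614) (nat_lit 3) (nat_lit 4) (nat_lit 4) (nat_lit 5) (nat_lit 4) (nat_lit 4) (nat_lit 300) (nat_lit 248) (nat_lit 172)))) (XT.nd (nat_lit 78) (nat_lit 76) (nat_lit 0) (XT.lf (nat_lit 0) (nat_lit 132456637606) (nat_lit 76) (nat_lit 35527690435) (nat_lit 76) (nat_lit 1795100838) (nat_lit 3) (nat_lit 4) (nat_lit 4) (nat_lit 5) (nat_lit 4) (nat_lit 4) (nat_lit 301) (nat_lit 248) (nat_lit 171)) (XT.nd (nat_lit 78) (nat_lit 0) (nat_lit 0) (XT.lf (nat_lit 0) (nat_lit 3727585613) (nat_lit 152) (nat_lit 25985898769) (nat_lit 76) (nat_lit 152980469590) (nat_lit 2) (nat_lit 5) (nat_lit 4) (nat_lit 5) (nat_lit 3) (nat_lit 4) (nat_lit 302) (nat_lit 248) (nat_lit 170)) (XT.lf (nat_lit 0)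 (nat_lit 9592021276) (nat_lit 152) (nat_lit 13794064486) (nat_lit 76) (nat_lit 173252081613) (nat_lit 2) (nat_lit 5) (nat_lit 4) (nat_lit 5) (nat_lit 3) (nat_lit 4) (nat_lit 303) (nat_lit 248) (nat_lit 169))))) (XT.nd (nat_lit 234) (nat_lit 0) (nat_lit 0) (XT.nd (nat_lit 78) (nat_lit 76) (nat_lit 0) (XT.lf (nat_lit 0) (nat_lit 15922756576) (nat_lit 152) (nat_lit 631868300) (nat_lit 76) (nat_lit 195143530365) (nat_lit 2) (nat_lit 5) (nat_lit 4) (nat_lit 5) (nat_lit 3) (nat_lit 4) (nat_lit 304) (nat_lit 248) (nat_lit 168)) (XT.nd (nat_lit 78) (nat_lit 0) (nat_lit 0) (XT.lf (nat_lit 0) (nat_lit 14293717633) (nat_lit 76) (nat_lit 8807353600) (nat_lit 152) (nat_lit 204834589571) (nat_lit 1) (nat_lit 5) (nat_lit 2) (nat_lit 5) (nat_lit 3) (nat_lit 4) (nat_lit 305) (nat_lit 248) (nat_lit 167)) (XT.lf (nat_lit 0) (nat_lit 30444786611) (nat_lit 76) (nat_lit 423584769) (nat_lit 152) (nat_lit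 214602625499) (nat_lit 1) (nat_lit 5) (nat_lit 2) (nat_lit 5) (nat_lit 3) (nat_lit 4) (nat_lit 306) (nat_lit 248) (nat_lit 166)))) (XT.nd (nat_lit 78) (nat_lit 0) (nat_lit 0) (XT.lf (nat_lit 0) (nat_lit 39462218541) (nat_lit 152) (nat_lit 216733110444) (nat_lit 0) (nat_lit 8197424939) (nat_lit 1) (nat_lit 5) (nat_lit 3) (nat_lit 4) (nat_lit 1) (nat_lit 4) (nat_lit 307) (nat_lit 248) (nat_lit 165)) (XT.nd (nat_lit 78) (nat_lit 0) (nat_lit 0) (XT.lf (nat_lit 0) (nat_lit 48752344192) (nat_lit 152) (nat_lit 218591563635) (nat_lit 0) (nat_lit 17483648644) (nat_lit 1) (nat_lit 5) (nat_lit 3) (nat_lit 4) (nat_lit 1) (nat_lit 4) (nat_lit 308) (nat_lit 248) (nat_lit 164)) (XT.lf (nat_lit 0) (nat_lit 58783613705) (nat_lit 152) (nat_lit 220602395674) (nat_lit 0) (nat_lit 27511305245) (nat_lit 1) (nat_lit 5) (nat_lit 3) (nat_lit 4) (nat_lit 1) (nat_lit 4) (nat_lit 309) (nat_lit 248) (nat_lit 163)))))))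 (XT.nd (nat_lit 858) (nat_lit 0) (nat_lit 0) (XT.nd (nat_lit 390) (nat_lit 0) (nat_lit 0) (XT.nd (nat_lit 156) (nat_lit 0) (nat_lit 0) (XT.nd (nat_lit 78) (nat_lit 0) (nat_lit 0) (XT.lf (nat_lit 0) (nat_lit 69615471641) (nat_lit 152) (nat_lit 222777522603) (nat_lit 0) (nat_lit 38339817891) (nat_lit 1) (nat_lit 5) (nat_lit 3) (nat_lit 4) (nat_lit 1) (nat_lit 4) (nat_lit 310) (nat_lit 248) (nat_lit 162)) (XT.lf (nat_lit 0) (nat_lit 81312106787) (nat_lit 152) (nat_lit 225129834063) (nat_lit 0) (nat_lit 50033355547) (nat_lit 1) (nat_lit 5) (nat_lit 3) (nat_lit 4) (nat_lit 1) (nat_lit 4) (nat_lit 311) (nat_lit 248) (nat_lit 161))) (XT.nd (nat_lit 78) (nat_lit 0) (nat_lit 0) (XT.lf (nat_lit 0) (nat_lit 93942832537) (nat_lit 152) (nat_lit 227673269677) (nat_lit 0) (nat_lit 62661213250) (nat_lit 1) (nat_lit 5) (nat_lit 3) (nat_lit 4) (nat_lit 1) (nat_lit 4) (nat_lit 312) (nat_lit 248) (nat_lit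 160)) (XT.nd (nat_lit 78) (nat_lit 0) (nat_lit 0) (XT.lf (nat_lit 0) (nat_lit 107582497636) (nat_lit 152) (nat_lit 230422901657) (nat_lit 0) (nat_lit 76298222751) (nat_lit 1) (nat_lit 5) (nat_lit 3) (nat_lit 4) (nat_lit 1) (nat_lit 4) (nat_lit 313) (nat_lit 248) (nat_lit 159)) (XT.lf (nat_lit 0) (nat_lit 122311929729) (nat_lit 152) (nat_lit 233395024118) (nat_lit 0) (nat_lit 91025195956) (nat_lit 1) (nat_lit 5) (nat_lit 3) (nat_lit 4) (nat_lit 1) (nat_lit 4) (nat_lit 314) (nat_lit 248) (nat_lit 158))))) (XT.nd (nat_lit 234) (nat_lit 0) (nat_lit 0) (XT.nd (nat_lit 78) (nat_lit 0) (nat_lit 0) (XT.lf (nat_lit 0) (nat_lit 138218414339) (nat_lit 152) (nat_lit 236607249637) (nat_lit 0) (nat_lit 106929403819) (nat_lit 1) (nat_lit 5) (nat_lit 3) (nat_lit 4) (nat_lit 1) (nat_lit 4) (nat_lit 315) (nat_lit 248) (nat_lit 157)) (XT.nd (nat_lit 78) (nat_lit 0) (nat_lit 0) (XT.lf (nat_lit 0) (nat_lit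 155396212117) (nat_lit 152) (nat_lit 240078613625) (nat_lit 0) (nat_lit 124105093497) (nat_lit 1) (nat_lit 5) (nat_lit 3) (nat_lit 4) (nat_lit 1) (nat_lit 4) (nat_lit 316) (nat_lit 248) (nat_lit 156)) (XT.lf (nat_lit 0) (nat_lit 173947117419) (nat_lit 152) (nat_lit 243829687128) (nat_lit 0) (nat_lit 142654046855) (nat_lit 1) (nat_lit 5) (nat_lit 3) (nat_lit 4) (nat_lit 1) (nat_lit 4) (nat_lit 317) (nat_lit 248) (nat_lit 155)))) (XT.nd (nat_lit 78) (nat_lit 0) (nat_lit 0) (XT.lf (nat_lit 0) (nat_lit 193981061536) (nat_lit 152) (nat_lit 247882698729) (nat_lit 0) (nat_lit 162686183616) (nat_lit 1) (nat_lit 5) (nat_lit 3) (nat_lit 4) (nat_lit 1) (nat_lit 4) (nat_lit 318) (nat_lit 248) (nat_lit 154)) (XT.nd (nat_lit 78) (nat_lit 0) (nat_lit 0) (XT.lf (nat_lit 0) (nat_lit 215616764137) (nat_lit 152) (nat_lit 252261666275) (nat_lit 0) (nat_lit 184320212740) (nat_lit 1) (nat_lit 5) (nat_lit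 3) (nat_lit 4) (nat_lit 1) (nat_lit 4) (nat_lit 319) (nat_lit 248) (nat_lit 153)) (XT.lf (nat_lit 0) (nat_lit 238982436792) (nat_lit 152) (nat_lit 256992539204) (nat_lit 0) (nat_lit 207684335879) (nat_lit 1) (nat_lit 5) (nat_lit 3) (nat_lit 4) (nat_lit 1) (nat_lit 4) (nat_lit 320) (nat_lit 248) (nat_lit 152)))))) (XT.nd (nat_lit 468) (nat_lit 0) (nat_lit 0) (XT.nd (nat_lit 234) (nat_lit 0) (nat_lit 0) (XT.nd (nat_lit 78) (nat_lit 0) (nat_lit 0) (XT.lf (nat_lit 0) (nat_lit 264216542748) (nat_lit 152) (nat_lit 262103352317) (nat_lit 0) (nat_lit 232917007097) (nat_lit 1) (nat_lit 5) (nat_lit 3) (nat_lit 4) (nat_lit 1) (nat_lit 4) (nat_lit 321) (nat_lit 248) (nat_lit 151)) (XT.nd (nat_lit 78) (nat_lit 0) (nat_lit 0) (XT.lf (nat_lit 0) (nat_lit 291468617447) (nat_lit 152) (nat_lit 267624391916) (nat_lit 0) (nat_lit 260167753336) (nat_lit 1) (nat_lit 5) (nat_lit 3) (nat_lit 4) (nat_lit 1)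 (nat_lit 4) (nat_lit 322) (nat_lit 248) (nat_lit 150)) (XT.lf (nat_lit 0) (nat_lit 320900154664) (nat_lit 152) (nat_lit 273588375270) (nat_lit 0) (nat_lit 289598060497) (nat_lit 1) (nat_lit 5) (nat_lit 3) (nat_lit 4) (nat_lit 1) (nat_lit 4) (nat_lit 323) (nat_lit 248) (nat_lit 149)))) (XT.nd (nat_lit 78) (nat_lit 0) (nat_lit 0) (XT.lf (nat_lit 0) (nat_lit 352685563510) (nat_lit 152) (nat_lit 280030644505) (nat_lit 0) (nat_lit 321382330402) (nat_lit 1) (nat_lit 5) (nat_lit 3) (nat_lit 4) (nat_lit 1) (nat_lit 4) (nat_lit 324) (nat_lit 248) (nat_lit 148)) (XT.nd (nat_lit 78) (nat_lit 0) (nat_lit 0) (XT.lf (nat_lit 0) (nat_lit 387013201963) (nat_lit 152) (nat_lit 286989376030) (nat_lit 0) (nat_lit 355708914280) (nat_lit 1) (nat_lit 5) (nat_lit 3) (nat_lit 4) (nat_lit 1) (nat_lit 4) (nat_lit 325) (nat_lit 248) (nat_lit 147)) (XT.lf (nat_lit 0) (nat_lit 424086493064) (nat_lit 152) (nat_lit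 294505806773) (nat_lit 0) (nat_lit 392781228924) (nat_lit 1) (nat_lit 5) (nat_lit 3) (nat_lit 4) (nat_lit 1) (nat_lit 4) (nat_lit 326) (nat_lit 248) (nat_lit 146))))) (XT.nd (nat_lit 234) (nat_lit 0) (nat_lit 0) (XT.nd (nat_lit 78) (nat_lit 0) (nat_lit 0) (XT.lf (nat_lit 0) (nat_lit 464125130392) (nat_lit 152) (nat_lit 302624478546) (nat_lit 0) (nat_lit 432818962124) (nat_lit 1) (nat_lit 5) (nat_lit 3) (nat_lit 4) (nat_lit 1) (nat_lit 4) (nat_lit 327) (nat_lit 248) (nat_lit 145)) (XT.nd (nat_lit 78) (nat_lit 0) (nat_lit 0) (XT.lf (nat_lit 0) (nat_lit 507366379946) (nat_lit 152) (nat_lit 311393501996) (nat_lit 0) (nat_lit 476059374522) (nat_lit 1) (nat_lit 5) (nat_lit 3) (nat_lit 4) (nat_lit 1) (nat_lit 4) (nat_lit 328) (nat_lit 248) (nat_lit 144)) (XT.lf (nat_lit 0) (nat_lit 554066486166) (nat_lit 152) (nat_lit 320864841707) (nat_lit 0) (nat_lit 522758705598) (nat_lit 1) (nat_lit 5)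 (nat_lit 3) (nat_lit 4) (nat_lit 1) (nat_lit 4) (nat_lit 329) (nat_lit 248) (nat_lit 143)))) (XT.nd (nat_lit 78) (nat_lit 0) (nat_lit 0) (XT.lf (nat_lit 0) (nat_lit 604502190423) (nat_lit 152) (nat_lit 331094624135) (nat_lit 0) (nat_lit 573193692130) (nat_lit 1) (nat_lit 5) (nat_lit 3) (nat_lit 4) (nat_lit 1) (nat_lit 4) (nat_lit 330) (nat_lit 248) (nat_lit 142)) (XT.nd (nat_lit 78) (nat_lit 0) (nat_lit 0) (XT.lf (nat_lit 0) (nat_lit 658972370965) (nat_lit 152) (nat_lit 342143470215) (nat_lit 0) (nat_lit 627663208111) (nat_lit 1) (nat_lit 5) (nat_lit 3) (nat_lit 4) (nat_lit 1) (nat_lit 4) (nat_lit 331) (nat_lit 248) (nat_lit 141)) (XT.lf (nat_lit 0) (nat_lit 717799814047) (nat_lit 152) (nat_lit 354076854590) (nat_lit 0) (nat_lit 686490035858) (nat_lit 1) (nat_lit 5) (nat_lit 3) (nat_lit 4) (nat_lit 1) (nat_lit 4) (nat_lit 332) (nat_lit 248) (nat_lit 140))))))))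
noncomputable def xc67 : XT := (XT.nd (nat_lit 32682) (nat_lit 0) (nat_lit 228) (XT.nd (nat_lit 31746) (nat_lit 0) (nat_lit 988) (XT.nd (nat_lit 31278) (nat_lit 0) (nat_lit 2204) (XT.nd (nat_lit 31044) (nat_lit 0) (nat_lit 2508) (XT.nd (nat_lit 30966) (nat_lit 0) (nat_lit 2508) (XT.lf (nat_lit 0) (nat_lit 781333126738) (nat_lit 152) (nat_lit 366965493611) (nat_lit 0) (nat_lit 750022778796) (nat_lit 1) (nat_lit 5) (nat_lit 3) (nat_lit 4) (nat_lit 1) (nat_lit 4) (nat_lit 333) (nat_lit 248) (nat_lit 139)) (XT.lf (nat_lit 0) (nat_lit 476370959) (nat_lit 0) (nat_lit 476370959) (nat_lit 380) (nat_lit 3483247852) (nat_lit 34) (nat_lit 5) (nat_lit 34) (nat_lit 3) (nat_lit 39) (nat_lit 3) (nat_lit 249) (nat_lit 249) (nat_lit 222))) (XT.nd (nat_lit 78) (nat_lit 0) (nat_lit 0) (XT.lf (nat_lit 0) (nat_lit 2836079788) (nat_lit 380) (nat_lit 4402883129) (nat_lit 456) (nat_lit 1912336028) (nat_lit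 34) (nat_lit 5) (nat_lit 39) (nat_lit 3) (nat_lit 40) (nat_lit 5) (nat_lit 250) (nat_lit 249) (nat_lit 221)) (XT.nd (nat_lit 78) (nat_lit 0) (nat_lit 0) (XT.lf (nat_lit 0) (nat_lit 3786204526) (nat_lit 380) (nat_lit 678426109) (nat_lit 456) (nat_lit 4993448089) (nat_lit 34) (nat_lit 5) (nat_lit 39) (nat_lit 3) (nat_lit 40) (nat_lit 5) (nat_lit 251) (nat_lit 249) (nat_lit 220)) (XT.lf (nat_lit 76) (nat_lit 3472843454) (nat_lit 0) (nat_lit 1349253469) (nat_lit 456) (nat_lit 4967191229) (nat_lit 35) (nat_lit 5) (nat_lit 34) (nat_lit 5) (nat_lit 40) (nat_lit 5) (nat_lit 252) (nat_lit 249) (nat_lit 219))))) (XT.nd (nat_lit 234) (nat_lit 380) (nat_lit 0) (XT.nd (nat_lit 78) (nat_lit 0) (nat_lit 0) (XT.lf (nat_lit 0) (nat_lit 5939625250) (nat_lit 380) (nat_lit 2250180684) (nat_lit 456) (nat_lit 1957905646) (nat_lit 35) (nat_lit 5) (nat_lit 40) (nat_lit 5) (nat_lit 41) (nat_lit 5) (nat_lit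 253) (nat_lit 249) (nat_lit 218)) (XT.nd (nat_lit 78) (nat_lit 0) (nat_lit 0) (XT.lf (nat_lit 76) (nat_lit 2168017412) (nat_lit 0) (nat_lit 5002080453) (nat_lit 456) (nat_lit 3363400256) (nat_lit 36) (nat_lit 5) (nat_lit 35) (nat_lit 5) (nat_lit 41) (nat_lit 5) (nat_lit 254) (nat_lit 249) (nat_lit 217)) (XT.lf (nat_lit 76) (nat_lit 7022050786) (nat_lit 0) (nat_lit 1478454988) (nat_lit 456) (nat_lit 2450052198) (nat_lit 36) (nat_lit 5) (nat_lit 35) (nat_lit 5) (nat_lit 41) (nat_lit 5) (nat_lit 255) (nat_lit 249) (nat_lit 216)))) (XT.nd (nat_lit 78) (nat_lit 76) (nat_lit 0) (XT.lf (nat_lit 0) (nat_lit 800005822) (nat_lit 380) (nat_lit 9157287947) (nat_lit 456) (nat_lit 1442583960) (nat_lit 31) (nat_lit 5) (nat_lit 36) (nat_lit 5) (nat_lit 37) (nat_lit 5) (nat_lit 256) (nat_lit 249) (nat_lit 215)) (XT.nd (nat_lit 78) (nat_lit 76) (nat_lit 0) (XT.lf (nat_lit 0) (nat_lit 6043523738) (nat_lit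 380) (nat_lit 5579664511) (nat_lit 456) (nat_lit 255004290) (nat_lit 31) (nat_lit 5) (nat_lit 36) (nat_lit 5) (nat_lit 37) (nat_lit 5) (nat_lit 257) (nat_lit 249) (nat_lit 214)) (XT.lf (nat_lit 0) (nat_lit 926115151) (nat_lit 456) (nat_lit 758831548) (nat_lit 76) (nat_lit 10712243491) (nat_lit 30) (nat_lit 5) (nat_lit 36) (nat_lit 5) (nat_lit 31) (nat_lit 5) (nat_lit 258) (nat_lit 249) (nat_lit 213)))))) (XT.nd (nat_lit 468) (nat_lit 380) (nat_lit 0) (XT.nd (nat_lit 234) (nat_lit 152) (nat_lit 0) (XT.nd (nat_lit 78) (nat_lit 228) (nat_lit 0) (XT.lf (nat_lit 0) (nat_lit 2323898804) (nat_lit 532) (nat_lit 8095656526) (nat_lit 76) (nat_lit 2527107159) (nat_lit 24) (nat_lit 5) (nat_lit 31) (nat_lit 5) (nat_lit 25) (nat_lit 5) (nat_lit 259) (nat_lit 249) (nat_lit 212)) (XT.nd (nat_lit 78) (nat_lit 228) (nat_lit 0) (XT.lf (nat_lit 0) (nat_lit 3854700966) (nat_lit 532) (nat_lit 2675254472)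 (nat_lit 76) (nat_lit 7008775576) (nat_lit 24) (nat_lit 5) (nat_lit 31) (nat_lit 5) (nat_lit 25) (nat_lit 5) (nat_lit 260) (nat_lit 249) (nat_lit 211)) (XT.lf (nat_lit 0) (nat_lit 3302011718) (nat_lit 228) (nat_lit 2244761880) (nat_lit 304) (nat_lit 8628596277) (nat_lit 21) (nat_lit 5) (nat_lit 24) (nat_lit 5) (nat_lit 25) (nat_lit 5) (nat_lit 261) (nat_lit 249) (nat_lit 210)))) (XT.nd (nat_lit 78) (nat_lit 152) (nat_lit 0) (XT.lf (nat_lit 0) (nat_lit 7467937359) (nat_lit 304) (nat_lit 5050905603) (nat_lit 76) (nat_lit 2336885300) (nat_lit 21) (nat_lit 5) (nat_lit 25) (nat_lit 5) (nat_lit 22) (nat_lit 5) (nat_lit 262) (nat_lit 249) (nat_lit 209)) (XT.nd (nat_lit 78) (nat_lit 0) (nat_lit 0) (XT.lf (nat_lit 0) (nat_lit 1198039068) (nat_lit 152) (nat_lit 8396097657) (nat_lit 228) (nat_lit 5992536420) (nat_lit 19) (nat_lit 5) (nat_lit 21) (nat_lit 5) (nat_lit 22) (nat_lit 5) (nat_lit 263)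 (nat_lit 249) (nat_lit 208)) (XT.lf (nat_lit 0) (nat_lit 8194255628) (nat_lit 152) (nat_lit 3800191891) (nat_lit 228) (nat_lit 4373570440) (nat_lit 19) (nat_lit 5) (nat_lit 21) (nat_lit 5) (nat_lit 22) (nat_lit 5) (nat_lit 264) (nat_lit 249) (nat_lit 207))))) (XT.nd (nat_lit 234) (nat_lit 152) (nat_lit 0) (XT.nd (nat_lit 78) (nat_lit 228) (nat_lit 0) (XT.lf (nat_lit 0) (nat_lit 14583072910) (nat_lit 228) (nat_lit 1529241316) (nat_lit 76) (nat_lit 1100080341) (nat_lit 19) (nat_lit 5) (nat_lit 22) (nat_lit 5) (nat_lit 20) (nat_lit 5) (nat_lit 265) (nat_lit 249) (nat_lit 206)) (XT.nd (nat_lit 78) (nat_lit 76) (nat_lit 0) (XT.lf (nat_lit 0) (nat_lit 5801730605) (nat_lit 152) (nat_lit 11785953424) (nat_lit 228) (nat_lit 520136163) (nat_lit 17) (nat_lit 5) (nat_lit 19) (nat_lit 5) (nat_lit 20) (nat_lit 5) (nat_lit 266) (nat_lit 249) (nat_lit 205)) (XT.lf (nat_lit 0) (nat_lit 1683810198)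 (nat_lit 228) (nat_lit 5346153759) (nat_lit 76) (nat_lit 12040597835) (nat_lit 16) (nat_lit 5) (nat_lit 19) (nat_lit 5) (nat_lit 17) (nat_lit 5) (nat_lit 267) (nat_lit 249) (nat_lit 204)))) (XT.nd (nat_lit 78) (nat_lit 0) (nat_lit 0) (XT.lf (nat_lit 0) (nat_lit 2234193582) (nat_lit 152) (nat_lit 1828713302) (nat_lit 228) (nat_lit 16044347334) (nat_lit 14) (nat_lit 5) (nat_lit 16) (nat_lit 5) (nat_lit 17) (nat_lit 5) (nat_lit 268) (nat_lit 249) (nat_lit 203)) (XT.nd (nat_lit 78) (nat_lit 0) (nat_lit 0) (XT.lf (nat_lit 0) (nat_lit 6847598584) (nat_lit 228) (nat_lit 10620861342) (nat_lit 76) (nat_lit 3741355485) (nat_lit 14) (nat_lit 5) (nat_lit 17) (nat_lit 5) (nat_lit 15) (nat_lit 5) (nat_lit 269) (nat_lit 249) (nat_lit 202)) (XT.lf (nat_lit 0) (nat_lit 9878657659) (nat_lit 228) (nat_lit 2869104459) (nat_lit 76) (nat_lit 9651075311) (nat_lit 14) (nat_lit 5) (nat_lit 17) (nat_lit 5)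 (nat_lit 15) (nat_lit 5) (nat_lit 270) (nat_lit 249) (nat_lit 201))))))) (XT.nd (nat_lit 858) (nat_lit 228) (nat_lit 0) (XT.nd (nat_lit 390) (nat_lit 228) (nat_lit 0) (XT.nd (nat_lit 156) (nat_lit 152) (nat_lit 0) (XT.nd (nat_lit 78) (nat_lit 0) (nat_lit 0) (XT.lf (nat_lit 0) (nat_lit 5760279456) (nat_lit 152) (nat_lit 7508320744) (nat_lit 228) (nat_lit 10405201788) (nat_lit 12) (nat_lit 5) (nat_lit 14) (nat_lit 5) (nat_lit 15) (nat_lit 5) (nat_lit 271) (nat_lit 249) (nat_lit 200)) (XT.lf (nat_lit 0) (nat_lit 15213292927) (nat_lit 152) (nat_lit 1773676365) (nat_lit 228) (nat_lit 8059338778) (nat_lit 12) (nat_lit 5) (nat_lit 14) (nat_lit 5) (nat_lit 15) (nat_lit 5) (nat_lit 272) (nat_lit 249) (nat_lit 199))) (XT.nd (nat_lit 78) (nat_lit 152) (nat_lit 0) (XT.lf (nat_lit 0) (nat_lit 21089265835) (nat_lit 228) (nat_lit 1241529711) (nat_lit 76) (nat_lit 4191016210) (nat_lit 12) (nat_lit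 5) (nat_lit 15) (nat_lit 5) (nat_lit 13) (nat_lit 4) (nat_lit 273) (nat_lit 249) (nat_lit 198)) (XT.nd (nat_lit 78) (nat_lit 76) (nat_lit 0) (XT.lf (nat_lit 0) (nat_lit 8383578452) (nat_lit 76) (nat_lit 17365494908) (nat_lit 152) (nat_lit 2348041519) (nat_lit 11) (nat_lit 5) (nat_lit 12) (nat_lit 5) (nat_lit 13) (nat_lit 4) (nat_lit 274) (nat_lit 249) (nat_lit 197)) (XT.lf (nat_lit 0) (nat_lit 950674887) (nat_lit 152) (nat_lit 10998324293) (nat_lit 76) (nat_lit 17846310732) (nat_lit 10) (nat_lit 5) (nat_lit 12) (nat_lit 5) (nat_lit 11) (nat_lit 5) (nat_lit 275) (nat_lit 249) (nat_lit 196))))) (XT.nd (nat_lit 234) (nat_lit 76) (nat_lit 0) (XT.nd (nat_lit 78) (nat_lit 152) (nat_lit 0) (XT.lf (nat_lit 0) (nat_lit 4369589980) (nat_lit 152) (nat_lit 1672227359) (nat_lit 76) (nat_lit 25584095241) (nat_lit 10) (nat_lit 5) (nat_lit 12) (nat_lit 5) (nat_lit 11) (nat_lit 5) (nat_lit 276) (nat_lit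 249) (nat_lit 195)) (XT.nd (nat_lit 78) (nat_lit 0) (nat_lit 0) (XT.lf (nat_lit 0) (nat_lit 8271931872) (nat_lit 228) (nat_lit 24783188034) (nat_lit 76) (nat_lit 531127886) (nat_lit 8) (nat_lit 5) (nat_lit 11) (nat_lit 5) (nat_lit 9) (nat_lit 4) (nat_lit 277) (nat_lit 249) (nat_lit 194)) (XT.lf (nat_lit 0) (nat_lit 12675120524) (nat_lit 228) (nat_lit 15670353097) (nat_lit 76) (nat_lit 7342915130) (nat_lit 8) (nat_lit 5) (nat_lit 11) (nat_lit 5) (nat_lit 9) (nat_lit 4) (nat_lit 278) (nat_lit 249) (nat_lit 193)))) (XT.nd (nat_lit 78) (nat_lit 76) (nat_lit 0) (XT.lf (nat_lit 0) (nat_lit 17416508574) (nat_lit 228) (nat_lit 5850671005) (nat_lit 76) (nat_lit 14692712233) (nat_lit 8) (nat_lit 5) (nat_lit 11) (nat_lit 5) (nat_lit 9) (nat_lit 4) (nat_lit 279) (nat_lit 249) (nat_lit 192)) (XT.nd (nat_lit 78) (nat_lit 0) (nat_lit 0) (XT.lf (nat_lit 0) (nat_lit 4983335577) (nat_lit 76) (nat_lit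 17660706901) (nat_lit 152) (nat_lit 17760587313) (nat_lit 7) (nat_lit 5) (nat_lit 8) (nat_lit 5) (nat_lit 9) (nat_lit 4) (nat_lit 280) (nat_lit 249) (nat_lit 191)) (XT.lf (nat_lit 0) (nat_lit 16996778743) (nat_lit 76) (nat_lit 11440436170) (nat_lit 152) (nat_lit 14595993933) (nat_lit 7) (nat_lit 5) (nat_lit 8) (nat_lit 5) (nat_lit 9) (nat_lit 4) (nat_lit 281) (nat_lit 249) (nat_lit 190)))))) (XT.nd (nat_lit 468) (nat_lit 76) (nat_lit 0) (XT.nd (nat_lit 234) (nat_lit 76) (nat_lit 0) (XT.nd (nat_lit 78) (nat_lit 76) (nat_lit 0) (XT.lf (nat_lit 0) (nat_lit 29952763300) (nat_lit 76) (nat_lit 4729474236) (nat_lit 152) (nat_lit 11190817666) (nat_lit 7) (nat_lit 5) (nat_lit 8) (nat_lit 5) (nat_lit 9) (nat_lit 4) (nat_lit 282) (nat_lit 249) (nat_lit 189)) (XT.nd (nat_lit 78) (nat_lit 76) (nat_lit 0) (XT.lf (nat_lit 0) (nat_lit 41476530288) (nat_lit 152) (nat_lit 5073344525) (nat_lit 0) (nat_lit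 2386289773) (nat_lit 7) (nat_lit 5) (nat_lit 9) (nat_lit 4) (nat_lit 7) (nat_lit 4) (nat_lit 283) (nat_lit 249) (nat_lit 188)) (XT.lf (nat_lit 0) (nat_lit 6844307009) (nat_lit 76) (nat_lit 42247417564) (nat_lit 76) (nat_lit 3130454672) (nat_lit 6) (nat_lit 4) (nat_lit 7) (nat_lit 5) (nat_lit 7) (nat_lit 4) (nat_lit 284) (nat_lit 249) (nat_lit 187)))) (XT.nd (nat_lit 78) (nat_lit 0) (nat_lit 0) (XT.lf (nat_lit 0) (nat_lit 1600061395) (nat_lit 152) (nat_lit 35813578130) (nat_lit 76) (nat_lit 18343918206) (nat_lit 5) (nat_lit 5) (nat_lit 7) (nat_lit 5) (nat_lit 6) (nat_lit 4) (nat_lit 285) (nat_lit 249) (nat_lit 186)) (XT.nd (nat_lit 78) (nat_lit 0) (nat_lit 0) (XT.lf (nat_lit 0) (nat_lit 6530610478) (nat_lit 152) (nat_lit 25580946169) (nat_lit 76) (nat_lit 27458483460) (nat_lit 5) (nat_lit 5) (nat_lit 7) (nat_lit 5) (nat_lit 6) (nat_lit 4) (nat_lit 286) (nat_lit 249) (nat_lit 185)) (XT.lf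 (nat_lit 0) (nat_lit 11847008665) (nat_lit 152) (nat_lit 14544051024) (nat_lit 76) (nat_lit 37297182171) (nat_lit 5) (nat_lit 5) (nat_lit 7) (nat_lit 5) (nat_lit 6) (nat_lit 4) (nat_lit 287) (nat_lit 249) (nat_lit 184))))) (XT.nd (nat_lit 234) (nat_lit 0) (nat_lit 0) (XT.nd (nat_lit 78) (nat_lit 76) (nat_lit 0) (XT.lf (nat_lit 0) (nat_lit 17580760538) (nat_lit 152) (nat_lit 2637488872) (nat_lit 76) (nat_lit 47918317741) (nat_lit 5) (nat_lit 5) (nat_lit 7) (nat_lit 5) (nat_lit 6) (nat_lit 4) (nat_lit 288) (nat_lit 249) (nat_lit 183)) (XT.nd (nat_lit 78) (nat_lit 0) (nat_lit 0) (XT.lf (nat_lit 0) (nat_lit 10746901215) (nat_lit 76) (nat_lit 13277405904) (nat_lit 152) (nat_lit 48896392247) (nat_lit 4) (nat_lit 5) (nat_lit 5) (nat_lit 5) (nat_lit 6) (nat_lit 4) (nat_lit 289) (nat_lit 249) (nat_lit 182)) (XT.lf (nat_lit 0) (nat_lit 25340049686) (nat_lit 76) (nat_lit 5708290174) (nat_lit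 152) (nat_lit 47034048462) (nat_lit 4) (nat_lit 5) (nat_lit 5) (nat_lit 5) (nat_lit 6) (nat_lit 4) (nat_lit 290) (nat_lit 249) (nat_lit 181)))) (XT.nd (nat_lit 78) (nat_lit 0) (nat_lit 0) (XT.lf (nat_lit 0) (nat_lit 38686918055) (nat_lit 152) (nat_lit 42627221854) (nat_lit 0) (nat_lit 2338687061) (nat_lit 4) (nat_lit 5) (nat_lit 6) (nat_lit 4) (nat_lit 4) (nat_lit 4) (nat_lit 291) (nat_lit 249) (nat_lit 180)) (XT.nd (nat_lit 78) (nat_lit 0) (nat_lit 0) (XT.lf (nat_lit 0) (nat_lit 47078652509) (nat_lit 152) (nat_lit 31861851528) (nat_lit 0) (nat_lit 10717053673) (nat_lit 4) (nat_lit 5) (nat_lit 6) (nat_lit 4) (nat_lit 4) (nat_lit 4) (nat_lit 292) (nat_lit 249) (nat_lit 179)) (XT.lf (nat_lit 0) (nat_lit 56135987501) (nat_lit 152) (nat_lit 20245148353) (nat_lit 0) (nat_lit 19762011034) (nat_lit 4) (nat_lit 5) (nat_lit 6) (nat_lit 4) (nat_lit 4) (nat_lit 4) (nat_lit 293) (nat_lit 249)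 (nat_lit 178))))))))
noncomputable def xc68 : XT := (XT.nd (nat_lit 1794) (nat_lit 0) (nat_lit 0) (XT.nd (nat_lit 858) (nat_lit 76) (nat_lit 0) (XT.nd (nat_lit 390) (nat_lit 76) (nat_lit 0) (XT.nd (nat_lit 156) (nat_lit 0) (nat_lit 0) (XT.nd (nat_lit 78) (nat_lit 76) (nat_lit 0) (XT.lf (nat_lit 0) (nat_lit 65912596127) (nat_lit 152) (nat_lit 7708272608) (nat_lit 0) (nat_lit 29527158892) (nat_lit 4) (nat_lit 5) (nat_lit 6) (nat_lit 4) (nat_lit 4) (nat_lit 4) (nat_lit 294) (nat_lit 249) (nat_lit 177)) (XT.lf (nat_lit 0) (nat_lit 6129700760) (nat_lit 76) (nat_lit 70484132537) (nat_lit 76) (nat_lit 34088083478) (nat_lit 3) (nat_lit 4) (nat_lit 4) (nat_lit 5) (nat_lit 4) (nat_lit 4) (nat_lit 295) (nat_lit 249) (nat_lit 176))) (XT.nd (nat_lit 78) (nat_lit 0) (nat_lit 0) (XT.lf (nat_lit 0) (nat_lit 21504818208) (nat_lit 76) (nat_lit 66872354990) (nat_lit 76) (nat_lit 30466480168) (nat_lit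 3) (nat_lit 4) (nat_lit 4) (nat_lit 5) (nat_lit 4) (nat_lit 4) (nat_lit 296) (nat_lit 249) (nat_lit 175)) (XT.nd (nat_lit 78) (nat_lit 0) (nat_lit 0) (XT.lf (nat_lit 0) (nat_lit 38102287565) (nat_lit 76) (nat_lit 62974890800) (nat_lit 76) (nat_lit 26559918050) (nat_lit 3) (nat_lit 4) (nat_lit 4) (nat_lit 5) (nat_lit 4) (nat_lit 4) (nat_lit 297) (nat_lit 249) (nat_lit 174)) (XT.lf (nat_lit 0) (nat_lit 56020464206) (nat_lit 76) (nat_lit 58768643884) (nat_lit 76) (nat_lit 22345247127) (nat_lit 3) (nat_lit 4) (nat_lit 4) (nat_lit 5) (nat_lit 4) (nat_lit 4) (nat_lit 298) (nat_lit 249) (nat_lit 173))))) (XT.nd (nat_lit 234) (nat_lit 76) (nat_lit 0) (XT.nd (nat_lit 78) (nat_lit 0) (nat_lit 0) (XT.lf (nat_lit 0) (nat_lit 75365529919) (nat_lit 76) (nat_lit 54228688335) (nat_lit 76) (nat_lit 17797491571) (nat_lit 3) (nat_lit 4) (nat_lit 4) (nat_lit 5) (nat_lit 4) (nat_lit 4) (nat_lit 299) (nat_lit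 249) (nat_lit 172)) (XT.nd (nat_lit 78) (nat_lit 0) (nat_lit 0) (XT.lf (nat_lit 0) (nat_lit 96252122129) (nat_lit 76) (nat_lit 49328120712) (nat_lit 76) (nat_lit 12889701719) (nat_lit 3) (nat_lit 4) (nat_lit 4) (nat_lit 5) (nat_lit 4) (nat_lit 4) (nat_lit 300) (nat_lit 249) (nat_lit 171)) (XT.lf (nat_lit 0) (nat_lit 118804013235) (nat_lit 76) (nat_lit 44037900615) (nat_lit 76) (nat_lit 7592794373) (nat_lit 3) (nat_lit 4) (nat_lit 4) (nat_lit 5) (nat_lit 4) (nat_lit 4) (nat_lit 301) (nat_lit 249) (nat_lit 170)))) (XT.nd (nat_lit 78) (nat_lit 76) (nat_lit 0) (XT.lf (nat_lit 0) (nat_lit 143154844074) (nat_lit 76) (nat_lit 38326678590) (nat_lit 76) (nat_lit 1875380451) (nat_lit 3) (nat_lit 4) (nat_lit 4) (nat_lit 5) (nat_lit 4) (nat_lit 4) (nat_lit 302) (nat_lit 249) (nat_lit 169)) (XT.nd (nat_lit 78) (nat_lit 0) (nat_lit 0) (XT.lf (nat_lit 0) (nat_lit 4081496637) (nat_lit 152) (nat_lit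 27967518371) (nat_lit 76) (nat_lit 165255823876) (nat_lit 2) (nat_lit 5) (nat_lit 4) (nat_lit 5) (nat_lit 3) (nat_lit 4) (nat_lit 303) (nat_lit 249) (nat_lit 168)) (XT.lf (nat_lit 0) (nat_lit 10410960918) (nat_lit 152) (nat_lit 14807541220) (nat_lit 76) (nat_lit 187146430288) (nat_lit 2) (nat_lit 5) (nat_lit 4) (nat_lit 5) (nat_lit 3) (nat_lit 4) (nat_lit 304) (nat_lit 249) (nat_lit 167)))))) (XT.nd (nat_lit 468) (nat_lit 0) (nat_lit 0) (XT.nd (nat_lit 234) (nat_lit 0) (nat_lit 0) (XT.nd (nat_lit 78) (nat_lit 76) (nat_lit 0) (XT.lf (nat_lit 0) (nat_lit 17244334454) (nat_lit 152) (nat_lit 599039593) (nat_lit 76) (nat_lit 210786662930) (nat_lit 2) (nat_lit 5) (nat_lit 4) (nat_lit 5) (nat_lit 3) (nat_lit 4) (nat_lit 305) (nat_lit 249) (nat_lit 166)) (XT.nd (nat_lit 78) (nat_lit 0) (nat_lit 0) (XT.lf (nat_lit 0) (nat_lit 15518482375) (nat_lit 76) (nat_lit 9476848808) (nat_lit 152) (nat_lit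 221171349567) (nat_lit 1) (nat_lit 5) (nat_lit 2) (nat_lit 5) (nat_lit 3) (nat_lit 4) (nat_lit 306) (nat_lit 249) (nat_lit 165)) (XT.lf (nat_lit 0) (nat_lit 32955617069) (nat_lit 76) (nat_lit 424977958) (nat_lit 152) (nat_lit 231724532605) (nat_lit 1) (nat_lit 5) (nat_lit 2) (nat_lit 5) (nat_lit 3) (nat_lit 4) (nat_lit 307) (nat_lit 249) (nat_lit 164)))) (XT.nd (nat_lit 78) (nat_lit 0) (nat_lit 0) (XT.lf (nat_lit 0) (nat_lit 42659506588) (nat_lit 152) (nat_lit 233999523116) (nat_lit 0) (nat_lit 8881800538) (nat_lit 1) (nat_lit 5) (nat_lit 3) (nat_lit 4) (nat_lit 1) (nat_lit 4) (nat_lit 308) (nat_lit 249) (nat_lit 163)) (XT.nd (nat_lit 78) (nat_lit 0) (nat_lit 0) (XT.lf (nat_lit 0) (nat_lit 52689856323) (nat_lit 152) (nat_lit 236012003390) (nat_lit 0) (nat_lit 18908804983) (nat_lit 1) (nat_lit 5) (nat_lit 3) (nat_lit 4) (nat_lit 1) (nat_lit 4) (nat_lit 309) (nat_lit 249) (nat_lit 162))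 (XT.lf (nat_lit 0) (nat_lit 63520862612) (nat_lit 152) (nat_lit 238188656461) (nat_lit 0) (nat_lit 29736713783) (nat_lit 1) (nat_lit 5) (nat_lit 3) (nat_lit 4) (nat_lit 1) (nat_lit 4) (nat_lit 310) (nat_lit 249) (nat_lit 161))))) (XT.nd (nat_lit 234) (nat_lit 0) (nat_lit 0) (XT.nd (nat_lit 78) (nat_lit 0) (nat_lit 0) (XT.lf (nat_lit 0) (nat_lit 75216709197) (nat_lit 152) (nat_lit 240542381016) (nat_lit 0) (nat_lit 41429692321) (nat_lit 1) (nat_lit 5) (nat_lit 3) (nat_lit 4) (nat_lit 1) (nat_lit 4) (nat_lit 311) (nat_lit 249) (nat_lit 160)) (XT.nd (nat_lit 78) (nat_lit 0) (nat_lit 0) (XT.lf (nat_lit 0) (nat_lit 87846704797) (nat_lit 152) (nat_lit 243087125052) (nat_lit 0) (nat_lit 54057032323) (nat_lit 1) (nat_lit 5) (nat_lit 3) (nat_lit 4) (nat_lit 1) (nat_lit 4) (nat_lit 312) (nat_lit 249) (nat_lit 159)) (XT.lf (nat_lit 0) (nat_lit 101485693832) (nat_lit 152) (nat_lit 245837968533)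 (nat_lit 0) (nat_lit 67693562470) (nat_lit 1) (nat_lit 5) (nat_lit 3) (nat_lit 4) (nat_lit 1) (nat_lit 4) (nat_lit 313) (nat_lit 249) (nat_lit 158)))) (XT.nd (nat_lit 78) (nat_lit 0) (nat_lit 0) (XT.lf (nat_lit 0) (nat_lit 116214499939) (nat_lit 152) (nat_lit 248811212754) (nat_lit 0) (nat_lit 82420091830) (nat_lit 1) (nat_lit 5) (nat_lit 3) (nat_lit 4) (nat_lit 1) (nat_lit 4) (nat_lit 314) (nat_lit 249) (nat_lit 157)) (XT.nd (nat_lit 78) (nat_lit 0) (nat_lit 0) (XT.lf (nat_lit 0) (nat_lit 132120404933) (nat_lit 152) (nat_lit 252024476940) (nat_lit 0) (nat_lit 98323888724) (nat_lit 1) (nat_lit 5) (nat_lit 3) (nat_lit 4) (nat_lit 1) (nat_lit 4) (nat_lit 315) (nat_lit 249) (nat_lit 156)) (XT.lf (nat_lit 0) (nat_lit 149297666029) (nat_lit 152) (nat_lit 255496802657) (nat_lit 0) (nat_lit 115499197876) (nat_lit 1) (nat_lit 5) (nat_lit 3) (nat_lit 4) (nat_lit 1) (nat_lit 4) (nat_lit 316)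 (nat_lit 249) (nat_lit 155))))))) (XT.nd (nat_lit 858) (nat_lit 0) (nat_lit 0) (XT.nd (nat_lit 390) (nat_lit 0) (nat_lit 0) (XT.nd (nat_lit 156) (nat_lit 0) (nat_lit 0) (XT.nd (nat_lit 78) (nat_lit 0) (nat_lit 0) (XT.lf (nat_lit 0) (nat_lit 167848074404) (nat_lit 152) (nat_lit 259248766649) (nat_lit 0) (nat_lit 134047798895) (nat_lit 1) (nat_lit 5) (nat_lit 3) (nat_lit 4) (nat_lit 1) (nat_lit 4) (nat_lit 317) (nat_lit 249) (nat_lit 154)) (XT.lf (nat_lit 0) (nat_lit 187881558403) (nat_lit 152) (nat_lit 263302602778) (nat_lit 0) (nat_lit 154079609416) (nat_lit 1) (nat_lit 5) (nat_lit 3) (nat_lit 4) (nat_lit 1) (nat_lit 4) (nat_lit 318) (nat_lit 249) (nat_lit 153))) (XT.nd (nat_lit 78) (nat_lit 0) (nat_lit 0) (XT.lf (nat_lit 0) (nat_lit 209516834968) (nat_lit 152) (nat_lit 267682333775) (nat_lit 0) (nat_lit 175713336466) (nat_lit 1) (nat_lit 5) (nat_lit 3) (nat_lit 4) (nat_lit 1) (nat_lit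 4) (nat_lit 319) (nat_lit 249) (nat_lit 152)) (XT.nd (nat_lit 78) (nat_lit 0) (nat_lit 0) (XT.lf (nat_lit 0) (nat_lit 232882113147) (nat_lit 152) (nat_lit 272413913603) (nat_lit 0) (nat_lit 199077179907) (nat_lit 1) (nat_lit 5) (nat_lit 3) (nat_lit 4) (nat_lit 1) (nat_lit 4) (nat_lit 320) (nat_lit 249) (nat_lit 151)) (XT.lf (nat_lit 0) (nat_lit 258115853846) (nat_lit 152) (nat_lit 277525381253) (nat_lit 0) (nat_lit 224309592146) (nat_lit 1) (nat_lit 5) (nat_lit 3) (nat_lit 4) (nat_lit 1) (nat_lit 4) (nat_lit 321) (nat_lit 249) (nat_lit 150))))) (XT.nd (nat_lit 234) (nat_lit 0) (nat_lit 0) (XT.nd (nat_lit 78) (nat_lit 0) (nat_lit 0) (XT.lf (nat_lit 0) (nat_lit 285367590344) (nat_lit 152) (nat_lit 283047026903) (nat_lit 0) (nat_lit 251560098588) (nat_lit 1) (nat_lit 5) (nat_lit 3) (nat_lit 4) (nat_lit 1) (nat_lit 4) (nat_lit 322) (nat_lit 249) (nat_lit 149)) (XT.nd (nat_lit 78) (nat_lit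 0) (nat_lit 0) (XT.lf (nat_lit 0) (nat_lit 314798814413) (nat_lit 152) (nat_lit 289011571418) (nat_lit 0) (nat_lit 280990183716) (nat_lit 1) (nat_lit 5) (nat_lit 3) (nat_lit 4) (nat_lit 1) (nat_lit 4) (nat_lit 323) (nat_lit 249) (nat_lit 148)) (XT.lf (nat_lit 0) (nat_lit 346583933307) (nat_lit 152) (nat_lit 295454360245) (nat_lit 0) (nat_lit 312774248035) (nat_lit 1) (nat_lit 5) (nat_lit 3) (nat_lit 4) (nat_lit 1) (nat_lit 4) (nat_lit 324) (nat_lit 249) (nat_lit 147)))) (XT.nd (nat_lit 78) (nat_lit 0) (nat_lit 0) (XT.lf (nat_lit 0) (nat_lit 380911303285) (nat_lit 152) (nat_lit 302413572873) (nat_lit 0) (nat_lit 347100641555) (nat_lit 1) (nat_lit 5) (nat_lit 3) (nat_lit 4) (nat_lit 1) (nat_lit 4) (nat_lit 325) (nat_lit 249) (nat_lit 146)) (XT.nd (nat_lit 78) (nat_lit 0) (nat_lit 0) (XT.lf (nat_lit 0) (nat_lit 417984345799) (nat_lit 152) (nat_lit 309930449083) (nat_lit 0) (nat_lit 384172779941)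 (nat_lit 1) (nat_lit 5) (nat_lit 3) (nat_lit 4) (nat_lit 1) (nat_lit 4) (nat_lit 326) (nat_lit 249) (nat_lit 145)) (XT.lf (nat_lit 0) (nat_lit 458022752953) (nat_lit 152) (nat_lit 318049533325) (nat_lit 0) (nat_lit 424210349940) (nat_lit 1) (nat_lit 5) (nat_lit 3) (nat_lit 4) (nat_lit 1) (nat_lit 4) (nat_lit 327) (nat_lit 249) (nat_lit 144)))))) (XT.nd (nat_lit 31512) (nat_lit 0) (nat_lit 2508) (XT.nd (nat_lit 234) (nat_lit 0) (nat_lit 0) (XT.nd (nat_lit 78) (nat_lit 0) (nat_lit 0) (XT.lf (nat_lit 0) (nat_lit 501263789383) (nat_lit 152) (nat_lit 326818938690) (nat_lit 0) (nat_lit 467450611226) (nat_lit 1) (nat_lit 5) (nat_lit 3) (nat_lit 4) (nat_lit 1) (nat_lit 4) (nat_lit 328) (nat_lit 249) (nat_lit 143)) (XT.nd (nat_lit 78) (nat_lit 0) (nat_lit 0) (XT.lf (nat_lit 0) (nat_lit 547963698266) (nat_lit 152) (nat_lit 336290632027) (nat_lit 0) (nat_lit 514149802383) (nat_lit 1) (nat_lit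 5) (nat_lit 3) (nat_lit 4) (nat_lit 1) (nat_lit 4) (nat_lit 329) (nat_lit 249) (nat_lit 142)) (XT.lf (nat_lit 0) (nat_lit 598399219804) (nat_lit 152) (nat_lit 346520741887) (nat_lit 0) (nat_lit 564584659361) (nat_lit 1) (nat_lit 5) (nat_lit 3) (nat_lit 4) (nat_lit 1) (nat_lit 4) (nat_lit 330) (nat_lit 249) (nat_lit 141)))) (XT.nd (nat_lit 78) (nat_lit 0) (nat_lit 0) (XT.lf (nat_lit 0) (nat_lit 652869231162) (nat_lit 152) (nat_lit 357569891144) (nat_lit 0) (nat_lit 619054055384) (nat_lit 1) (nat_lit 5) (nat_lit 3) (nat_lit 4) (nat_lit 1) (nat_lit 4) (nat_lit 331) (nat_lit 249) (nat_lit 140)) (XT.nd (nat_lit 31122) (nat_lit 0) (nat_lit 2508) (XT.lf (nat_lit 0) (nat_lit 711696517591) (nat_lit 152) (nat_lit 369503556238) (nat_lit 0) (nat_lit 677880772059) (nat_lit 1) (nat_lit 5) (nat_lit 3) (nat_lit 4) (nat_lit 1) (nat_lit 4) (nat_lit 332) (nat_lit 249) (nat_lit 139)) (XT.lf (nat_lit 0)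 (nat_lit 907770434) (nat_lit 0) (nat_lit 907770434) (nat_lit 380) (nat_lit 2905365458) (nat_lit 34) (nat_lit 5) (nat_lit 34) (nat_lit 3) (nat_lit 39) (nat_lit 3) (nat_lit 250) (nat_lit 250) (nat_lit 220))))) (XT.nd (nat_lit 234) (nat_lit 0) (nat_lit 76) (XT.nd (nat_lit 78) (nat_lit 0) (nat_lit 0) (XT.lf (nat_lit 0) (nat_lit 4502079074) (nat_lit 380) (nat_lit 3879722941) (nat_lit 456) (nat_lit 1373441707) (nat_lit 34) (nat_lit 5) (nat_lit 39) (nat_lit 3) (nat_lit 40) (nat_lit 5) (nat_lit 251) (nat_lit 250) (nat_lit 219)) (XT.nd (nat_lit 78) (nat_lit 0) (nat_lit 0) (XT.lf (nat_lit 76) (nat_lit 81946153) (nat_lit 0) (nat_lit 5341637489) (nat_lit 456) (nat_lit 4672317846) (nat_lit 35) (nat_lit 5) (nat_lit 34) (nat_lit 5) (nat_lit 40) (nat_lit 5) (nat_lit 252) (nat_lit 250) (nat_lit 218)) (XT.lf (nat_lit 76) (nat_lit 4540697825) (nat_lit 0) (nat_lit 1919974377) (nat_lit 456) (nat_lit 4000363185)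 (nat_lit 35) (nat_lit 5) (nat_lit 34) (nat_lit 5) (nat_lit 40) (nat_lit 5) (nat_lit 253) (nat_lit 250) (nat_lit 217)))) (XT.nd (nat_lit 78) (nat_lit 0) (nat_lit 0) (XT.lf (nat_lit 0) (nat_lit 7564496788) (nat_lit 380) (nat_lit 1585239030) (nat_lit 456) (nat_lit 1707472848) (nat_lit 35) (nat_lit 5) (nat_lit 40) (nat_lit 5) (nat_lit 41) (nat_lit 5) (nat_lit 254) (nat_lit 250) (nat_lit 216)) (XT.nd (nat_lit 78) (nat_lit 0) (nat_lit 0) (XT.lf (nat_lit 76) (nat_lit 3165023620) (nat_lit 0) (nat_lit 5663027271) (nat_lit 456) (nat_lit 2451801948) (nat_lit 36) (nat_lit 5) (nat_lit 35) (nat_lit 5) (nat_lit 41) (nat_lit 5) (nat_lit 255) (nat_lit 250) (nat_lit 215)) (XT.lf (nat_lit 76) (nat_lit 8346374863) (nat_lit 0) (nat_lit 1838194703) (nat_lit 456) (nat_lit 1552843106) (nat_lit 36) (nat_lit 5) (nat_lit 35) (nat_lit 5) (nat_lit 41) (nat_lit 5) (nat_lit 256) (nat_lit 250) (nat_lit 214))))))))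
noncomputable def xc69 : XT := (XT.nd (nat_lit 1794) (nat_lit 380) (nat_lit 0) (XT.nd (nat_lit 858) (nat_lit 684) (nat_lit 0) (XT.nd (nat_lit 390) (nat_lit 532) (nat_lit 0) (XT.nd (nat_lit 156) (nat_lit 456) (nat_lit 0) (XT.nd (nat_lit 78) (nat_lit 76) (nat_lit 0) (XT.lf (nat_lit 0) (nat_lit 1699853131) (nat_lit 380) (nat_lit 9998400471) (nat_lit 456) (nat_lit 529853061) (nat_lit 31) (nat_lit 5) (nat_lit 36) (nat_lit 5) (nat_lit 37) (nat_lit 5) (nat_lit 257) (nat_lit 250) (nat_lit 213)) (XT.lf (nat_lit 0) (nat_lit 642729637) (nat_lit 456) (nat_lit 5466224935) (nat_lit 76) (nat_lit 6640634895) (nat_lit 30) (nat_lit 5) (nat_lit 36) (nat_lit 5) (nat_lit 31) (nat_lit 5) (nat_lit 258) (nat_lit 250) (nat_lit 212))) (XT.nd (nat_lit 78) (nat_lit 456) (nat_lit 0) (XT.lf (nat_lit 0) (nat_lit 1837572341) (nat_lit 456) (nat_lit 52321514) (nat_lit 76) (nat_lit 11425563815) (nat_lit 30) (nat_lit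 5) (nat_lit 36) (nat_lit 5) (nat_lit 31) (nat_lit 5) (nat_lit 259) (nat_lit 250) (nat_lit 211)) (XT.nd (nat_lit 78) (nat_lit 0) (nat_lit 0) (XT.lf (nat_lit 0) (nat_lit 3302040835) (nat_lit 532) (nat_lit 7924919179) (nat_lit 76) (nat_lit 2686021603) (nat_lit 24) (nat_lit 5) (nat_lit 31) (nat_lit 5) (nat_lit 25) (nat_lit 5) (nat_lit 260) (nat_lit 250) (nat_lit 210)) (XT.lf (nat_lit 0) (nat_lit 4896623457) (nat_lit 532) (nat_lit 2131506433) (nat_lit 76) (nat_lit 7529427503) (nat_lit 24) (nat_lit 5) (nat_lit 31) (nat_lit 5) (nat_lit 25) (nat_lit 5) (nat_lit 261) (nat_lit 250) (nat_lit 209))))) (XT.nd (nat_lit 234) (nat_lit 152) (nat_lit 0) (XT.nd (nat_lit 78) (nat_lit 152) (nat_lit 0) (XT.lf (nat_lit 0) (nat_lit 4304757043) (nat_lit 228) (nat_lit 2382731058) (nat_lit 304) (nat_lit 8560979120) (nat_lit 21) (nat_lit 5) (nat_lit 24) (nat_lit 5) (nat_lit 25) (nat_lit 5) (nat_lit 262) (nat_lit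 250) (nat_lit 208)) (XT.nd (nat_lit 78) (nat_lit 152) (nat_lit 0) (XT.lf (nat_lit 0) (nat_lit 8711643994) (nat_lit 304) (nat_lit 4715611508) (nat_lit 76) (nat_lit 2560438146) (nat_lit 21) (nat_lit 5) (nat_lit 25) (nat_lit 5) (nat_lit 22) (nat_lit 5) (nat_lit 263) (nat_lit 250) (nat_lit 207)) (XT.lf (nat_lit 0) (nat_lit 2014530597) (nat_lit 152) (nat_lit 8962868351) (nat_lit 228) (nat_lit 5802513303) (nat_lit 19) (nat_lit 5) (nat_lit 21) (nat_lit 5) (nat_lit 22) (nat_lit 5) (nat_lit 264) (nat_lit 250) (nat_lit 206)))) (XT.nd (nat_lit 78) (nat_lit 152) (nat_lit 0) (XT.lf (nat_lit 0) (nat_lit 9517063118) (nat_lit 152) (nat_lit 4007061762) (nat_lit 228) (nat_lit 4103617158) (nat_lit 19) (nat_lit 5) (nat_lit 21) (nat_lit 5) (nat_lit 22) (nat_lit 5) (nat_lit 265) (nat_lit 250) (nat_lit 205)) (XT.nd (nat_lit 78) (nat_lit 152) (nat_lit 0) (XT.lf (nat_lit 0) (nat_lit 16279772364) (nat_lit 228)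 (nat_lit 989869467) (nat_lit 76) (nat_lit 1273536647) (nat_lit 19) (nat_lit 5) (nat_lit 22) (nat_lit 5) (nat_lit 20) (nat_lit 5) (nat_lit 266) (nat_lit 250) (nat_lit 204)) (XT.lf (nat_lit 0) (nat_lit 6910828026) (nat_lit 152) (nat_lit 12590172393) (nat_lit 228) (nat_lit 11419620) (nat_lit 17) (nat_lit 5) (nat_lit 19) (nat_lit 5) (nat_lit 20) (nat_lit 5) (nat_lit 267) (nat_lit 250) (nat_lit 203)))))) (XT.nd (nat_lit 468) (nat_lit 304) (nat_lit 0) (XT.nd (nat_lit 234) (nat_lit 152) (nat_lit 0) (XT.nd (nat_lit 78) (nat_lit 152) (nat_lit 0) (XT.lf (nat_lit 0) (nat_lit 2302587077) (nat_lit 228) (nat_lit 5148152215) (nat_lit 76) (nat_lit 13103722445) (nat_lit 16) (nat_lit 5) (nat_lit 19) (nat_lit 5) (nat_lit 17) (nat_lit 5) (nat_lit 268) (nat_lit 250) (nat_lit 202)) (XT.nd (nat_lit 78) (nat_lit 0) (nat_lit 0) (XT.lf (nat_lit 0) (nat_lit 3022782563) (nat_lit 152) (nat_lit 1828038736) (nat_lit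 228) (nat_lit 16825187121) (nat_lit 14) (nat_lit 5) (nat_lit 16) (nat_lit 5) (nat_lit 17) (nat_lit 5) (nat_lit 269) (nat_lit 250) (nat_lit 201)) (XT.lf (nat_lit 0) (nat_lit 7827273634) (nat_lit 228) (nat_lit 10872247881) (nat_lit 76) (nat_lit 4169941250) (nat_lit 14) (nat_lit 5) (nat_lit 17) (nat_lit 5) (nat_lit 15) (nat_lit 5) (nat_lit 270) (nat_lit 250) (nat_lit 200)))) (XT.nd (nat_lit 78) (nat_lit 152) (nat_lit 0) (XT.lf (nat_lit 0) (nat_lit 11068827275) (nat_lit 228) (nat_lit 2544667659) (nat_lit 76) (nat_lit 10542862565) (nat_lit 14) (nat_lit 5) (nat_lit 17) (nat_lit 5) (nat_lit 15) (nat_lit 5) (nat_lit 271) (nat_lit 250) (nat_lit 199)) (XT.nd (nat_lit 78) (nat_lit 0) (nat_lit 0) (XT.lf (nat_lit 0) (nat_lit 6761042534) (nat_lit 152) (nat_lit 7952287753) (nat_lit 228) (nat_lit 10821497267) (nat_lit 12) (nat_lit 5) (nat_lit 14) (nat_lit 5) (nat_lit 15) (nat_lit 5) (nat_lit 272)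 (nat_lit 250) (nat_lit 198)) (XT.lf (nat_lit 0) (nat_lit 16930301474) (nat_lit 152) (nat_lit 1770479131) (nat_lit 228) (nat_lit 8318788970) (nat_lit 12) (nat_lit 5) (nat_lit 14) (nat_lit 5) (nat_lit 15) (nat_lit 5) (nat_lit 273) (nat_lit 250) (nat_lit 197))))) (XT.nd (nat_lit 234) (nat_lit 152) (nat_lit 0) (XT.nd (nat_lit 78) (nat_lit 152) (nat_lit 0) (XT.lf (nat_lit 0) (nat_lit 23108206379) (nat_lit 228) (nat_lit 852982826) (nat_lit 76) (nat_lit 4653920920) (nat_lit 12) (nat_lit 5) (nat_lit 15) (nat_lit 5) (nat_lit 13) (nat_lit 4) (nat_lit 274) (nat_lit 250) (nat_lit 196)) (XT.nd (nat_lit 78) (nat_lit 76) (nat_lit 0) (XT.lf (nat_lit 0) (nat_lit 9529782870) (nat_lit 76) (nat_lit 18597874136) (nat_lit 152) (nat_lit 2189972748) (nat_lit 11) (nat_lit 5) (nat_lit 12) (nat_lit 5) (nat_lit 13) (nat_lit 4) (nat_lit 275) (nat_lit 250) (nat_lit 195)) (XT.lf (nat_lit 0) (nat_lit 1330995700)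 (nat_lit 152) (nat_lit 11420363141) (nat_lit 76) (nat_lit 19401724150) (nat_lit 10) (nat_lit 5) (nat_lit 12) (nat_lit 5) (nat_lit 11) (nat_lit 5) (nat_lit 276) (nat_lit 250) (nat_lit 194)))) (XT.nd (nat_lit 78) (nat_lit 152) (nat_lit 0) (XT.lf (nat_lit 0) (nat_lit 5000885717) (nat_lit 152) (nat_lit 1382091571) (nat_lit 76) (nat_lit 27749071526) (nat_lit 10) (nat_lit 5) (nat_lit 12) (nat_lit 5) (nat_lit 11) (nat_lit 5) (nat_lit 277) (nat_lit 250) (nat_lit 193)) (XT.nd (nat_lit 78) (nat_lit 0) (nat_lit 0) (XT.lf (nat_lit 0) (nat_lit 9207907584) (nat_lit 228) (nat_lit 26333126825) (nat_lit 76) (nat_lit 708880616) (nat_lit 8) (nat_lit 5) (nat_lit 11) (nat_lit 5) (nat_lit 9) (nat_lit 4) (nat_lit 278) (nat_lit 250) (nat_lit 192)) (XT.lf (nat_lit 0) (nat_lit 13943038649) (nat_lit 228) (nat_lit 16523318149) (nat_lit 76) (nat_lit 8055591395) (nat_lit 8) (nat_lit 5) (nat_lit 11) (nat_lit 5)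 (nat_lit 9) (nat_lit 4) (nat_lit 279) (nat_lit 250) (nat_lit 191))))))) (XT.nd (nat_lit 858) (nat_lit 76) (nat_lit 0) (XT.nd (nat_lit 390) (nat_lit 228) (nat_lit 0) (XT.nd (nat_lit 156) (nat_lit 0) (nat_lit 0) (XT.nd (nat_lit 78) (nat_lit 76) (nat_lit 0) (XT.lf (nat_lit 0) (nat_lit 19044929707) (nat_lit 228) (nat_lit 5947740245) (nat_lit 76) (nat_lit 15984095004) (nat_lit 8) (nat_lit 5) (nat_lit 11) (nat_lit 5) (nat_lit 9) (nat_lit 4) (nat_lit 280) (nat_lit 250) (nat_lit 190)) (XT.lf (nat_lit 0) (nat_lit 5743594852) (nat_lit 76) (nat_lit 18938352930) (nat_lit 152) (nat_lit 18935913908) (nat_lit 7) (nat_lit 5) (nat_lit 8) (nat_lit 5) (nat_lit 9) (nat_lit 4) (nat_lit 281) (nat_lit 250) (nat_lit 189))) (XT.nd (nat_lit 78) (nat_lit 0) (nat_lit 0) (XT.lf (nat_lit 0) (nat_lit 18691328848) (nat_lit 76) (nat_lit 12230476135) (nat_lit 152) (nat_lit 15536339753) (nat_lit 7) (nat_lit 5) (nat_lit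 8) (nat_lit 5) (nat_lit 9) (nat_lit 4) (nat_lit 282) (nat_lit 250) (nat_lit 188)) (XT.nd (nat_lit 78) (nat_lit 0) (nat_lit 0) (XT.lf (nat_lit 0) (nat_lit 32658991591) (nat_lit 76) (nat_lit 4991910944) (nat_lit 152) (nat_lit 11875588918) (nat_lit 7) (nat_lit 5) (nat_lit 8) (nat_lit 5) (nat_lit 9) (nat_lit 4) (nat_lit 283) (nat_lit 250) (nat_lit 187)) (XT.lf (nat_lit 0) (nat_lit 44976943364) (nat_lit 152) (nat_lit 5179557010) (nat_lit 0) (nat_lit 2679158123) (nat_lit 7) (nat_lit 5) (nat_lit 9) (nat_lit 4) (nat_lit 7) (nat_lit 4) (nat_lit 284) (nat_lit 250) (nat_lit 186))))) (XT.nd (nat_lit 234) (nat_lit 76) (nat_lit 0) (XT.nd (nat_lit 78) (nat_lit 76) (nat_lit 0) (XT.lf (nat_lit 0) (nat_lit 7683920442) (nat_lit 76) (nat_lit 45510954001) (nat_lit 76) (nat_lit 3190258629) (nat_lit 6) (nat_lit 4) (nat_lit 7) (nat_lit 5) (nat_lit 7) (nat_lit 4) (nat_lit 285) (nat_lit 250) (nat_lit 185))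 (XT.nd (nat_lit 78) (nat_lit 0) (nat_lit 0) (XT.lf (nat_lit 0) (nat_lit 1895747984) (nat_lit 152) (nat_lit 38398752648) (nat_lit 76) (nat_lit 19909599412) (nat_lit 5) (nat_lit 5) (nat_lit 7) (nat_lit 5) (nat_lit 6) (nat_lit 4) (nat_lit 286) (nat_lit 250) (nat_lit 184)) (XT.lf (nat_lit 0) (nat_lit 7208320128) (nat_lit 152) (nat_lit 27368244332) (nat_lit 76) (nat_lit 29746058201) (nat_lit 5) (nat_lit 5) (nat_lit 7) (nat_lit 5) (nat_lit 6) (nat_lit 4) (nat_lit 287) (nat_lit 250) (nat_lit 183)))) (XT.nd (nat_lit 78) (nat_lit 76) (nat_lit 0) (XT.lf (nat_lit 0) (nat_lit 12938529370) (nat_lit 152) (nat_lit 15467595911) (nat_lit 76) (nat_lit 40365119768) (nat_lit 5) (nat_lit 5) (nat_lit 7) (nat_lit 5) (nat_lit 6) (nat_lit 4) (nat_lit 288) (nat_lit 250) (nat_lit 182)) (XT.nd (nat_lit 78) (nat_lit 76) (nat_lit 0) (XT.lf (nat_lit 0) (nat_lit 19120332503) (nat_lit 152) (nat_lit 2626285024) (nat_lit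 76) (nat_lit 51829711885) (nat_lit 5) (nat_lit 5) (nat_lit 7) (nat_lit 5) (nat_lit 6) (nat_lit 4) (nat_lit 289) (nat_lit 250) (nat_lit 181)) (XT.lf (nat_lit 0) (nat_lit 11823230879) (nat_lit 76) (nat_lit 14251480544) (nat_lit 152) (nat_lit 52668890983) (nat_lit 4) (nat_lit 5) (nat_lit 5) (nat_lit 5) (nat_lit 6) (nat_lit 4) (nat_lit 290) (nat_lit 250) (nat_lit 180)))))) (XT.nd (nat_lit 468) (nat_lit 0) (nat_lit 0) (XT.nd (nat_lit 234) (nat_lit 76) (nat_lit 0) (XT.nd (nat_lit 78) (nat_lit 0) (nat_lit 0) (XT.lf (nat_lit 0) (nat_lit 27567788444) (nat_lit 76) (nat_lit 6083362802) (nat_lit 152) (nat_lit 50667871742) (nat_lit 4) (nat_lit 5) (nat_lit 5) (nat_lit 5) (nat_lit 6) (nat_lit 4) (nat_lit 291) (nat_lit 250) (nat_lit 179)) (XT.nd (nat_lit 78) (nat_lit 0) (nat_lit 0) (XT.lf (nat_lit 0) (nat_lit 41893821920) (nat_lit 152) (nat_lit 45844317263) (nat_lit 0) (nat_lit 2597549706) (nat_lit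 4) (nat_lit 5) (nat_lit 6) (nat_lit 4) (nat_lit 4) (nat_lit 4) (nat_lit 292) (nat_lit 250) (nat_lit 178)) (XT.lf (nat_lit 0) (nat_lit 50948602506) (nat_lit 152) (nat_lit 34232019706) (nat_lit 0) (nat_lit 11640869522) (nat_lit 4) (nat_lit 5) (nat_lit 6) (nat_lit 4) (nat_lit 4) (nat_lit 4) (nat_lit 293) (nat_lit 250) (nat_lit 177)))) (XT.nd (nat_lit 78) (nat_lit 76) (nat_lit 0) (XT.lf (nat_lit 0) (nat_lit 60722845942) (nat_lit 152) (nat_lit 21699223236) (nat_lit 0) (nat_lit 21404501135) (nat_lit 4) (nat_lit 5) (nat_lit 6) (nat_lit 4) (nat_lit 4) (nat_lit 4) (nat_lit 294) (nat_lit 250) (nat_lit 176)) (XT.nd (nat_lit 78) (nat_lit 76) (nat_lit 0) (XT.lf (nat_lit 0) (nat_lit 71274473671) (nat_lit 152) (nat_lit 8171659431) (nat_lit 0) (nat_lit 31946303101) (nat_lit 4) (nat_lit 5) (nat_lit 6) (nat_lit 4) (nat_lit 4) (nat_lit 4) (nat_lit 295) (nat_lit 250) (nat_lit 175)) (XT.lf (nat_lit 0)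 (nat_lit 6769471428) (nat_lit 76) (nat_lit 76059348379) (nat_lit 76) (nat_lit 36722079881) (nat_lit 3) (nat_lit 4) (nat_lit 4) (nat_lit 5) (nat_lit 4) (nat_lit 4) (nat_lit 296) (nat_lit 250) (nat_lit 174))))) (XT.nd (nat_lit 234) (nat_lit 0) (nat_lit 0) (XT.nd (nat_lit 78) (nat_lit 0) (nat_lit 0) (XT.lf (nat_lit 0) (nat_lit 23363532004) (nat_lit 76) (nat_lit 72163333424) (nat_lit 76) (nat_lit 32817640919) (nat_lit 3) (nat_lit 4) (nat_lit 4) (nat_lit 5) (nat_lit 4) (nat_lit 4) (nat_lit 297) (nat_lit 250) (nat_lit 173)) (XT.nd (nat_lit 78) (nat_lit 0) (nat_lit 0) (XT.lf (nat_lit 0) (nat_lit 41278552366) (nat_lit 76) (nat_lit 67958428393) (nat_lit 76) (nat_lit 28604935881) (nat_lit 3) (nat_lit 4) (nat_lit 4) (nat_lit 5) (nat_lit 4) (nat_lit 4) (nat_lit 298) (nat_lit 250) (nat_lit 172)) (XT.lf (nat_lit 0) (nat_lit 60620695598) (nat_lit 76) (nat_lit 63419715330) (nat_lit 76) (nat_lit 24059000588)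 (nat_lit 3) (nat_lit 4) (nat_lit 4) (nat_lit 5) (nat_lit 4) (nat_lit 4) (nat_lit 299) (nat_lit 250) (nat_lit 171)))) (XT.nd (nat_lit 78) (nat_lit 0) (nat_lit 0) (XT.lf (nat_lit 0) (nat_lit 81504581808) (nat_lit 76) (nat_lit 58520298156) (nat_lit 76) (nat_lit 19152896166) (nat_lit 3) (nat_lit 4) (nat_lit 4) (nat_lit 5) (nat_lit 4) (nat_lit 4) (nat_lit 300) (nat_lit 250) (nat_lit 170)) (XT.nd (nat_lit 78) (nat_lit 0) (nat_lit 0) (XT.lf (nat_lit 0) (nat_lit 104053967358) (nat_lit 76) (nat_lit 53231143290) (nat_lit 76) (nat_lit 13857549403) (nat_lit 3) (nat_lit 4) (nat_lit 4) (nat_lit 5) (nat_lit 4) (nat_lit 4) (nat_lit 301) (nat_lit 250) (nat_lit 169)) (XT.lf (nat_lit 0) (nat_lit 128402478238) (nat_lit 76) (nat_lit 47520907590) (nat_lit 76) (nat_lit 8141580465) (nat_lit 3) (nat_lit 4) (nat_lit 4) (nat_lit 5) (nat_lit 4) (nat_lit 4) (nat_lit 302) (nat_lit 250) (nat_lit 168))))))))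
noncomputable def xc70 : XT := (XT.nd (nat_lit 1794) (nat_lit 0) (nat_lit 0) (XT.nd (nat_lit 858) (nat_lit 0) (nat_lit 0) (XT.nd (nat_lit 390) (nat_lit 0) (nat_lit 0) (XT.nd (nat_lit 156) (nat_lit 76) (nat_lit 0) (XT.nd (nat_lit 78) (nat_lit 76) (nat_lit 0) (XT.lf (nat_lit 0) (nat_lit 154694401918) (nat_lit 76) (nat_lit 41355752624) (nat_lit 76) (nat_lit 1971116945) (nat_lit 3) (nat_lit 4) (nat_lit 4) (nat_lit 5) (nat_lit 4) (nat_lit 4) (nat_lit 303) (nat_lit 250) (nat_lit 167)) (XT.lf (nat_lit 0) (nat_lit 4455773719) (nat_lit 152) (nat_lit 30121541670) (nat_lit 76) (nat_lit 178507939922) (nat_lit 2) (nat_lit 5) (nat_lit 4) (nat_lit 5) (nat_lit 3) (nat_lit 4) (nat_lit 304) (nat_lit 250) (nat_lit 166))) (XT.nd (nat_lit 78) (nat_lit 76) (nat_lit 0) (XT.lf (nat_lit 0) (nat_lit 11288057561) (nat_lit 152) (nat_lit 15914942507) (nat_lit 76) (nat_lit 202147450393) (nat_lit 2) (nat_lit 5)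 (nat_lit 4) (nat_lit 5) (nat_lit 3) (nat_lit 4) (nat_lit 305) (nat_lit 250) (nat_lit 165)) (XT.nd (nat_lit 78) (nat_lit 76) (nat_lit 0) (XT.lf (nat_lit 0) (nat_lit 18664825441) (nat_lit 152) (nat_lit 575479418) (nat_lit 76) (nat_lit 227676730855) (nat_lit 2) (nat_lit 5) (nat_lit 4) (nat_lit 5) (nat_lit 3) (nat_lit 4) (nat_lit 306) (nat_lit 250) (nat_lit 164)) (XT.lf (nat_lit 0) (nat_lit 16829634604) (nat_lit 76) (nat_lit 10204910052) (nat_lit 152) (nat_lit 238822184445) (nat_lit 1) (nat_lit 5) (nat_lit 2) (nat_lit 5) (nat_lit 3) (nat_lit 4) (nat_lit 307) (nat_lit 250) (nat_lit 163))))) (XT.nd (nat_lit 234) (nat_lit 0) (nat_lit 0) (XT.nd (nat_lit 78) (nat_lit 0) (nat_lit 0) (XT.lf (nat_lit 0) (nat_lit 35656579063) (nat_lit 76) (nat_lit 431118176) (nat_lit 152) (nat_lit 250222797910) (nat_lit 1) (nat_lit 5) (nat_lit 2) (nat_lit 5) (nat_lit 3) (nat_lit 4) (nat_lit 308) (nat_lit 250) (nat_lit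 162)) (XT.nd (nat_lit 78) (nat_lit 0) (nat_lit 0) (XT.lf (nat_lit 0) (nat_lit 46106826925) (nat_lit 152) (nat_lit 252657554099) (nat_lit 0) (nat_lit 9616848699) (nat_lit 1) (nat_lit 5) (nat_lit 3) (nat_lit 4) (nat_lit 1) (nat_lit 4) (nat_lit 309) (nat_lit 250) (nat_lit 161)) (XT.lf (nat_lit 0) (nat_lit 56937044653) (nat_lit 152) (nat_lit 254835620266) (nat_lit 0) (nat_lit 20444198381) (nat_lit 1) (nat_lit 5) (nat_lit 3) (nat_lit 4) (nat_lit 1) (nat_lit 4) (nat_lit 310) (nat_lit 250) (nat_lit 160)))) (XT.nd (nat_lit 78) (nat_lit 0) (nat_lit 0) (XT.lf (nat_lit 0) (nat_lit 68632161088) (nat_lit 152) (nat_lit 257190653242) (nat_lit 0) (nat_lit 32136659217) (nat_lit 1) (nat_lit 5) (nat_lit 3) (nat_lit 4) (nat_lit 1) (nat_lit 4) (nat_lit 311) (nat_lit 250) (nat_lit 159)) (XT.nd (nat_lit 78) (nat_lit 0) (nat_lit 0) (XT.lf (nat_lit 0) (nat_lit 81261480624) (nat_lit 152) (nat_lit 259736608779)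 (nat_lit 0) (nat_lit 44763519866) (nat_lit 1) (nat_lit 5) (nat_lit 3) (nat_lit 4) (nat_lit 1) (nat_lit 4) (nat_lit 312) (nat_lit 250) (nat_lit 158)) (XT.lf (nat_lit 0) (nat_lit 94899843673) (nat_lit 152) (nat_lit 262488574020) (nat_lit 0) (nat_lit 58399606167) (nat_lit 1) (nat_lit 5) (nat_lit 3) (nat_lit 4) (nat_lit 1) (nat_lit 4) (nat_lit 313) (nat_lit 250) (nat_lit 157)))))) (XT.nd (nat_lit 468) (nat_lit 0) (nat_lit 0) (XT.nd (nat_lit 234) (nat_lit 0) (nat_lit 0) (XT.nd (nat_lit 78) (nat_lit 0) (nat_lit 0) (XT.lf (nat_lit 0) (nat_lit 109628070164) (nat_lit 152) (nat_lit 265462856908) (nat_lit 0) (nat_lit 73125724559) (nat_lit 1) (nat_lit 5) (nat_lit 3) (nat_lit 4) (nat_lit 1) (nat_lit 4) (nat_lit 314) (nat_lit 250) (nat_lit 156)) (XT.nd (nat_lit 78) (nat_lit 0) (nat_lit 0) (XT.lf (nat_lit 0) (nat_lit 125533438477) (nat_lit 152) (nat_lit 268677082823) (nat_lit 0) (nat_lit 89029140927)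 (nat_lit 1) (nat_lit 5) (nat_lit 3) (nat_lit 4) (nat_lit 1) (nat_lit 4) (nat_lit 315) (nat_lit 250) (nat_lit 155)) (XT.lf (nat_lit 0) (nat_lit 142710202645) (nat_lit 152) (nat_lit 272150299030) (nat_lit 0) (nat_lit 106204097740) (nat_lit 1) (nat_lit 5) (nat_lit 3) (nat_lit 4) (nat_lit 1) (nat_lit 4) (nat_lit 316) (nat_lit 250) (nat_lit 154)))) (XT.nd (nat_lit 78) (nat_lit 0) (nat_lit 0) (XT.lf (nat_lit 0) (nat_lit 161260150902) (nat_lit 152) (nat_lit 275903087549) (nat_lit 0) (nat_lit 124752372519) (nat_lit 1) (nat_lit 5) (nat_lit 3) (nat_lit 4) (nat_lit 1) (nat_lit 4) (nat_lit 317) (nat_lit 250) (nat_lit 153)) (XT.nd (nat_lit 78) (nat_lit 0) (nat_lit 0) (XT.lf (nat_lit 0) (nat_lit 181293208866) (nat_lit 152) (nat_lit 279957687129) (nat_lit 0) (nat_lit 144783880966) (nat_lit 1) (nat_lit 5) (nat_lit 3) (nat_lit 4) (nat_lit 1) (nat_lit 4) (nat_lit 318) (nat_lit 250) (nat_lit 152)) (XT.lf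 (nat_lit 0) (nat_lit 202928090954) (nat_lit 152) (nat_lit 284338125026) (nat_lit 0) (nat_lit 166417328318) (nat_lit 1) (nat_lit 5) (nat_lit 3) (nat_lit 4) (nat_lit 1) (nat_lit 4) (nat_lit 319) (nat_lit 250) (nat_lit 151))))) (XT.nd (nat_lit 234) (nat_lit 0) (nat_lit 0) (XT.nd (nat_lit 78) (nat_lit 0) (nat_lit 0) (XT.lf (nat_lit 0) (nat_lit 226293003876) (nat_lit 152) (nat_lit 289070359390) (nat_lit 0) (nat_lit 189780912779) (nat_lit 1) (nat_lit 5) (nat_lit 3) (nat_lit 4) (nat_lit 1) (nat_lit 4) (nat_lit 320) (nat_lit 250) (nat_lit 150)) (XT.nd (nat_lit 78) (nat_lit 0) (nat_lit 0) (XT.lf (nat_lit 0) (nat_lit 251526406375) (nat_lit 152) (nat_lit 294182433092) (nat_lit 0) (nat_lit 215013085222) (nat_lit 1) (nat_lit 5) (nat_lit 3) (nat_lit 4) (nat_lit 1) (nat_lit 4) (nat_lit 321) (nat_lit 250) (nat_lit 149)) (XT.lf (nat_lit 0) (nat_lit 278777829724) (nat_lit 152) (nat_lit 299704639902)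 (nat_lit 0) (nat_lit 242263369631) (nat_lit 1) (nat_lit 5) (nat_lit 3) (nat_lit 4) (nat_lit 1) (nat_lit 4) (nat_lit 322) (nat_lit 250) (nat_lit 148)))) (XT.nd (nat_lit 78) (nat_lit 0) (nat_lit 0) (XT.lf (nat_lit 0) (nat_lit 308208763841) (nat_lit 152) (nat_lit 305669704008) (nat_lit 0) (nat_lit 271693249173) (nat_lit 1) (nat_lit 5) (nat_lit 3) (nat_lit 4) (nat_lit 1) (nat_lit 4) (nat_lit 323) (nat_lit 250) (nat_lit 147)) (XT.nd (nat_lit 78) (nat_lit 0) (nat_lit 0) (XT.lf (nat_lit 0) (nat_lit 339993614260) (nat_lit 152) (nat_lit 312112973939) (nat_lit 0) (nat_lit 303477123133) (nat_lit 1) (nat_lit 5) (nat_lit 3) (nat_lit 4) (nat_lit 1) (nat_lit 4) (nat_lit 324) (nat_lit 250) (nat_lit 146)) (XT.lf (nat_lit 0) (nat_lit 374320735650) (nat_lit 152) (nat_lit 319072632035) (nat_lit 0) (nat_lit 337803340396) (nat_lit 1) (nat_lit 5) (nat_lit 3) (nat_lit 4) (nat_lit 1) (nat_lit 4) (nat_lit 325)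 (nat_lit 250) (nat_lit 145))))))) (XT.nd (nat_lit 31980) (nat_lit 0) (nat_lit 1368) (XT.nd (nat_lit 390) (nat_lit 0) (nat_lit 0) (XT.nd (nat_lit 156) (nat_lit 0) (nat_lit 0) (XT.nd (nat_lit 78) (nat_lit 0) (nat_lit 0) (XT.lf (nat_lit 0) (nat_lit 411393547991) (nat_lit 152) (nat_lit 326589920713) (nat_lit 0) (nat_lit 374875315581) (nat_lit 1) (nat_lit 5) (nat_lit 3) (nat_lit 4) (nat_lit 1) (nat_lit 4) (nat_lit 326) (nat_lit 250) (nat_lit 144)) (XT.lf (nat_lit 0) (nat_lit 451431742022) (nat_lit 152) (nat_lit 334709386870) (nat_lit 0) (nat_lit 414912734468) (nat_lit 1) (nat_lit 5) (nat_lit 3) (nat_lit 4) (nat_lit 1) (nat_lit 4) (nat_lit 327) (nat_lit 250) (nat_lit 143))) (XT.nd (nat_lit 78) (nat_lit 0) (nat_lit 0) (XT.lf (nat_lit 0) (nat_lit 494672581115) (nat_lit 152) (nat_lit 343479145862) (nat_lit 0) (nat_lit 458152855835) (nat_lit 1) (nat_lit 5) (nat_lit 3) (nat_lit 4) (nat_lit 1)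 (nat_lit 4) (nat_lit 328) (nat_lit 250) (nat_lit 142)) (XT.nd (nat_lit 78) (nat_lit 0) (nat_lit 0) (XT.lf (nat_lit 0) (nat_lit 541372307279) (nat_lit 152) (nat_lit 352951166629) (nat_lit 0) (nat_lit 504851917438) (nat_lit 1) (nat_lit 5) (nat_lit 3) (nat_lit 4) (nat_lit 1) (nat_lit 4) (nat_lit 329) (nat_lit 250) (nat_lit 141)) (XT.lf (nat_lit 0) (nat_lit 591807659632) (nat_lit 152) (nat_lit 363181579666) (nat_lit 0) (nat_lit 555286654458) (nat_lit 1) (nat_lit 5) (nat_lit 3) (nat_lit 4) (nat_lit 1) (nat_lit 4) (nat_lit 330) (nat_lit 250) (nat_lit 140))))) (XT.nd (nat_lit 31356) (nat_lit 0) (nat_lit 2508) (XT.nd (nat_lit 78) (nat_lit 0) (nat_lit 0) (XT.lf (nat_lit 0) (nat_lit 646277514338) (nat_lit 152) (nat_lit 374231009643) (nat_lit 0) (nat_lit 609755939409) (nat_lit 1) (nat_lit 5) (nat_lit 3) (nat_lit 4) (nat_lit 1) (nat_lit 4) (nat_lit 331) (nat_lit 250) (nat_lit 139)) (XT.nd (nat_lit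 31200) (nat_lit 0) (nat_lit 2508) (XT.lf (nat_lit 0) (nat_lit 705104655719) (nat_lit 152) (nat_lit 386164934662) (nat_lit 0) (nat_lit 668582553241) (nat_lit 1) (nat_lit 5) (nat_lit 3) (nat_lit 4) (nat_lit 1) (nat_lit 4) (nat_lit 332) (nat_lit 250) (nat_lit 138)) (XT.lf (nat_lit 0) (nat_lit 1317574681) (nat_lit 0) (nat_lit 1317574681) (nat_lit 380) (nat_lit 2403447796) (nat_lit 34) (nat_lit 5) (nat_lit 34) (nat_lit 3) (nat_lit 39) (nat_lit 3) (nat_lit 251) (nat_lit 251) (nat_lit 218)))) (XT.nd (nat_lit 78) (nat_lit 0) (nat_lit 0) (XT.lf (nat_lit 0) (nat_lit 6096052759) (nat_lit 380) (nat_lit 3439594227) (nat_lit 456) (nat_lit 890140429) (nat_lit 34) (nat_lit 5) (nat_lit 39) (nat_lit 3) (nat_lit 40) (nat_lit 5) (nat_lit 252) (nat_lit 251) (nat_lit 217)) (XT.nd (nat_lit 78) (nat_lit 0) (nat_lit 0) (XT.lf (nat_lit 76) (nat_lit 820008229) (nat_lit 0) (nat_lit 6197469072) (nat_lit 456) (nat_lit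 3782952030) (nat_lit 35) (nat_lit 5) (nat_lit 34) (nat_lit 5) (nat_lit 40) (nat_lit 5) (nat_lit 253) (nat_lit 251) (nat_lit 216)) (XT.lf (nat_lit 76) (nat_lit 5581274376) (nat_lit 0) (nat_lit 2470332127) (nat_lit 456) (nat_lit 3150807755) (nat_lit 35) (nat_lit 5) (nat_lit 34) (nat_lit 5) (nat_lit 40) (nat_lit 5) (nat_lit 254) (nat_lit 251) (nat_lit 215)))))) (XT.nd (nat_lit 468) (nat_lit 380) (nat_lit 0) (XT.nd (nat_lit 234) (nat_lit 836) (nat_lit 0) (XT.nd (nat_lit 78) (nat_lit 0) (nat_lit 0) (XT.lf (nat_lit 0) (nat_lit 9155340275) (nat_lit 380) (nat_lit 987644479) (nat_lit 456) (nat_lit 1495077835) (nat_lit 35) (nat_lit 5) (nat_lit 40) (nat_lit 5) (nat_lit 41) (nat_lit 5) (nat_lit 255) (nat_lit 251) (nat_lit 214)) (XT.nd (nat_lit 78) (nat_lit 0) (nat_lit 0) (XT.lf (nat_lit 76) (nat_lit 4124299597) (nat_lit 0) (nat_lit 6339646597) (nat_lit 456) (nat_lit 1635711596) (nat_lit 36) (nat_lit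 5) (nat_lit 35) (nat_lit 5) (nat_lit 41) (nat_lit 5) (nat_lit 256) (nat_lit 251) (nat_lit 213)) (XT.lf (nat_lit 76) (nat_lit 9667857155) (nat_lit 0) (nat_lit 2192266154) (nat_lit 456) (nat_lit 739816382) (nat_lit 36) (nat_lit 5) (nat_lit 35) (nat_lit 5) (nat_lit 41) (nat_lit 5) (nat_lit 257) (nat_lit 251) (nat_lit 212)))) (XT.nd (nat_lit 78) (nat_lit 456) (nat_lit 0) (XT.lf (nat_lit 0) (nat_lit 293752498) (nat_lit 456) (nat_lit 10589534841) (nat_lit 76) (nat_lit 2250661115) (nat_lit 30) (nat_lit 5) (nat_lit 36) (nat_lit 5) (nat_lit 31) (nat_lit 5) (nat_lit 258) (nat_lit 251) (nat_lit 211)) (XT.nd (nat_lit 78) (nat_lit 456) (nat_lit 0) (XT.lf (nat_lit 0) (nat_lit 1469488728) (nat_lit 456) (nat_lit 5193137228) (nat_lit 76) (nat_lit 7038867950) (nat_lit 30) (nat_lit 5) (nat_lit 36) (nat_lit 5) (nat_lit 31) (nat_lit 5) (nat_lit 259) (nat_lit 251) (nat_lit 210)) (XT.lf (nat_lit 0) (nat_lit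 632918447) (nat_lit 456) (nat_lit 2084789458) (nat_lit 532) (nat_lit 11598747607) (nat_lit 24) (nat_lit 5) (nat_lit 30) (nat_lit 5) (nat_lit 31) (nat_lit 5) (nat_lit 260) (nat_lit 251) (nat_lit 209))))) (XT.nd (nat_lit 234) (nat_lit 152) (nat_lit 0) (XT.nd (nat_lit 78) (nat_lit 228) (nat_lit 0) (XT.lf (nat_lit 0) (nat_lit 4245413744) (nat_lit 532) (nat_lit 7857275309) (nat_lit 76) (nat_lit 2863819888) (nat_lit 24) (nat_lit 5) (nat_lit 31) (nat_lit 5) (nat_lit 25) (nat_lit 5) (nat_lit 261) (nat_lit 251) (nat_lit 208)) (XT.nd (nat_lit 78) (nat_lit 228) (nat_lit 0) (XT.lf (nat_lit 0) (nat_lit 5917251150) (nat_lit 532) (nat_lit 1652362684) (nat_lit 76) (nat_lit 8097445182) (nat_lit 24) (nat_lit 5) (nat_lit 31) (nat_lit 5) (nat_lit 25) (nat_lit 5) (nat_lit 262) (nat_lit 251) (nat_lit 207)) (XT.lf (nat_lit 0) (nat_lit 5282354673) (nat_lit 228) (nat_lit 2537674155) (nat_lit 304) (nat_lit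 8596076193) (nat_lit 21) (nat_lit 5) (nat_lit 24) (nat_lit 5) (nat_lit 25) (nat_lit 5) (nat_lit 263) (nat_lit 251) (nat_lit 206)))) (XT.nd (nat_lit 78) (nat_lit 152) (nat_lit 0) (XT.lf (nat_lit 0) (nat_lit 9962649285) (nat_lit 304) (nat_lit 4458972789) (nat_lit 76) (nat_lit 2796653532) (nat_lit 21) (nat_lit 5) (nat_lit 25) (nat_lit 5) (nat_lit 22) (nat_lit 5) (nat_lit 264) (nat_lit 251) (nat_lit 205)) (XT.nd (nat_lit 78) (nat_lit 0) (nat_lit 0) (XT.lf (nat_lit 0) (nat_lit 2793532896) (nat_lit 152) (nat_lit 9589948301) (nat_lit 228) (nat_lit 5692789443) (nat_lit 19) (nat_lit 5) (nat_lit 21) (nat_lit 5) (nat_lit 22) (nat_lit 5) (nat_lit 265) (nat_lit 251) (nat_lit 204)) (XT.lf (nat_lit 0) (nat_lit 10850502104) (nat_lit 152) (nat_lit 4244340112) (nat_lit 228) (nat_lit 3900494564) (nat_lit 19) (nat_lit 5) (nat_lit 21) (nat_lit 5) (nat_lit 22) (nat_lit 5) (nat_lit 266) (nat_lit 251) (nat_lit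 203))))))))
noncomputable def xc71 : XT := (XT.nd (nat_lit 1794) (nat_lit 304) (nat_lit 0) (XT.nd (nat_lit 858) (nat_lit 380) (nat_lit 0) (XT.nd (nat_lit 390) (nat_lit 304) (nat_lit 0) (XT.nd (nat_lit 156) (nat_lit 152) (nat_lit 0) (XT.nd (nat_lit 78) (nat_lit 228) (nat_lit 0) (XT.lf (nat_lit 0) (nat_lit 18036589700) (nat_lit 228) (nat_lit 501748364) (nat_lit 76) (nat_lit 1448679078) (nat_lit 19) (nat_lit 5) (nat_lit 22) (nat_lit 5) (nat_lit 20) (nat_lit 5) (nat_lit 267) (nat_lit 251) (nat_lit 202)) (XT.lf (nat_lit 0) (nat_lit 436498639) (nat_lit 228) (nat_lit 13030076610) (nat_lit 76) (nat_lit 7568209348) (nat_lit 16) (nat_lit 5) (nat_lit 19) (nat_lit 5) (nat_lit 17) (nat_lit 5) (nat_lit 268) (nat_lit 251) (nat_lit 201))) (XT.nd (nat_lit 78) (nat_lit 152) (nat_lit 0) (XT.lf (nat_lit 0) (nat_lit 2901807815) (nat_lit 228) (nat_lit 5023572770) (nat_lit 76) (nat_lit 14237648484) (nat_lit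 16) (nat_lit 5) (nat_lit 19) (nat_lit 5) (nat_lit 17) (nat_lit 5) (nat_lit 269) (nat_lit 251) (nat_lit 200)) (XT.nd (nat_lit 78) (nat_lit 0) (nat_lit 0) (XT.lf (nat_lit 0) (nat_lit 3787456243) (nat_lit 152) (nat_lit 1848277352) (nat_lit 228) (nat_lit 17740211007) (nat_lit 14) (nat_lit 5) (nat_lit 16) (nat_lit 5) (nat_lit 17) (nat_lit 5) (nat_lit 270) (nat_lit 251) (nat_lit 199)) (XT.lf (nat_lit 0) (nat_lit 8823712009) (nat_lit 228) (nat_lit 11229097011) (nat_lit 76) (nat_lit 4614371021) (nat_lit 14) (nat_lit 5) (nat_lit 17) (nat_lit 5) (nat_lit 15) (nat_lit 5) (nat_lit 271) (nat_lit 251) (nat_lit 198))))) (XT.nd (nat_lit 234) (nat_lit 152) (nat_lit 0) (XT.nd (nat_lit 78) (nat_lit 152) (nat_lit 0) (XT.lf (nat_lit 0) (nat_lit 12297163534) (nat_lit 228) (nat_lit 2273305239) (nat_lit 76) (nat_lit 11488916080) (nat_lit 14) (nat_lit 5) (nat_lit 17) (nat_lit 5) (nat_lit 15) (nat_lit 5) (nat_lit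 272) (nat_lit 251) (nat_lit 197)) (XT.nd (nat_lit 78) (nat_lit 0) (nat_lit 0) (XT.lf (nat_lit 0) (nat_lit 7764838078) (nat_lit 152) (nat_lit 8454126938) (nat_lit 228) (nat_lit 11330460650) (nat_lit 12) (nat_lit 5) (nat_lit 14) (nat_lit 5) (nat_lit 15) (nat_lit 5) (nat_lit 273) (nat_lit 251) (nat_lit 196)) (XT.lf (nat_lit 0) (nat_lit 18713347945) (nat_lit 152) (nat_lit 1787725021) (nat_lit 228) (nat_lit 8653962089) (nat_lit 12) (nat_lit 5) (nat_lit 14) (nat_lit 5) (nat_lit 15) (nat_lit 5) (nat_lit 274) (nat_lit 251) (nat_lit 195)))) (XT.nd (nat_lit 78) (nat_lit 152) (nat_lit 0) (XT.lf (nat_lit 0) (nat_lit 25241327291) (nat_lit 228) (nat_lit 502952194) (nat_lit 76) (nat_lit 5135651100) (nat_lit 12) (nat_lit 5) (nat_lit 15) (nat_lit 5) (nat_lit 13) (nat_lit 4) (nat_lit 275) (nat_lit 251) (nat_lit 194)) (XT.nd (nat_lit 78) (nat_lit 76) (nat_lit 0) (XT.lf (nat_lit 0) (nat_lit 10699845662)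 (nat_lit 76) (nat_lit 19951221586) (nat_lit 152) (nat_lit 2068606704) (nat_lit 11) (nat_lit 5) (nat_lit 12) (nat_lit 5) (nat_lit 13) (nat_lit 4) (nat_lit 276) (nat_lit 251) (nat_lit 193)) (XT.lf (nat_lit 0) (nat_lit 1698335114) (nat_lit 152) (nat_lit 11941479250) (nat_lit 76) (nat_lit 21063351587) (nat_lit 10) (nat_lit 5) (nat_lit 12) (nat_lit 5) (nat_lit 11) (nat_lit 5) (nat_lit 277) (nat_lit 251) (nat_lit 192)))))) (XT.nd (nat_lit 468) (nat_lit 152) (nat_lit 0) (XT.nd (nat_lit 234) (nat_lit 76) (nat_lit 0) (XT.nd (nat_lit 78) (nat_lit 152) (nat_lit 0) (XT.lf (nat_lit 0) (nat_lit 5642493388) (nat_lit 152) (nat_lit 1129220988) (nat_lit 76) (nat_lit 30070376420) (nat_lit 10) (nat_lit 5) (nat_lit 12) (nat_lit 5) (nat_lit 11) (nat_lit 5) (nat_lit 278) (nat_lit 251) (nat_lit 191)) (XT.nd (nat_lit 78) (nat_lit 0) (nat_lit 0) (XT.lf (nat_lit 0) (nat_lit 10179640638) (nat_lit 228) (nat_lit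 28068792530) (nat_lit 76) (nat_lit 881556857) (nat_lit 8) (nat_lit 5) (nat_lit 11) (nat_lit 5) (nat_lit 9) (nat_lit 4) (nat_lit 279) (nat_lit 251) (nat_lit 190)) (XT.lf (nat_lit 0) (nat_lit 15276167340) (nat_lit 228) (nat_lit 17501679489) (nat_lit 76) (nat_lit 8807414440) (nat_lit 8) (nat_lit 5) (nat_lit 11) (nat_lit 5) (nat_lit 9) (nat_lit 4) (nat_lit 280) (nat_lit 251) (nat_lit 189)))) (XT.nd (nat_lit 78) (nat_lit 76) (nat_lit 0) (XT.lf (nat_lit 0) (nat_lit 20770084824) (nat_lit 228) (nat_lit 6105500102) (nat_lit 76) (nat_lit 17362244579) (nat_lit 8) (nat_lit 5) (nat_lit 11) (nat_lit 5) (nat_lit 9) (nat_lit 4) (nat_lit 281) (nat_lit 251) (nat_lit 188)) (XT.nd (nat_lit 78) (nat_lit 0) (nat_lit 0) (XT.lf (nat_lit 0) (nat_lit 6513089667) (nat_lit 76) (nat_lit 20337499934) (nat_lit 152) (nat_lit 20240292860) (nat_lit 7) (nat_lit 5) (nat_lit 8) (nat_lit 5) (nat_lit 9) (nat_lit 4) (nat_lit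 282) (nat_lit 251) (nat_lit 187)) (XT.lf (nat_lit 0) (nat_lit 20473678884) (nat_lit 76) (nat_lit 13101579753) (nat_lit 152) (nat_lit 16584344932) (nat_lit 7) (nat_lit 5) (nat_lit 8) (nat_lit 5) (nat_lit 9) (nat_lit 4) (nat_lit 283) (nat_lit 251) (nat_lit 186))))) (XT.nd (nat_lit 234) (nat_lit 76) (nat_lit 0) (XT.nd (nat_lit 78) (nat_lit 76) (nat_lit 0) (XT.lf (nat_lit 0) (nat_lit 35537492149) (nat_lit 76) (nat_lit 5291880049) (nat_lit 152) (nat_lit 12645171215) (nat_lit 7) (nat_lit 5) (nat_lit 8) (nat_lit 5) (nat_lit 9) (nat_lit 4) (nat_lit 284) (nat_lit 251) (nat_lit 185)) (XT.nd (nat_lit 78) (nat_lit 76) (nat_lit 0) (XT.lf (nat_lit 0) (nat_lit 48731383686) (nat_lit 152) (nat_lit 5337015640) (nat_lit 0) (nat_lit 2980909469) (nat_lit 7) (nat_lit 5) (nat_lit 9) (nat_lit 4) (nat_lit 7) (nat_lit 4) (nat_lit 285) (nat_lit 251) (nat_lit 184)) (XT.lf (nat_lit 0) (nat_lit 8549036061) (nat_lit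 76) (nat_lit 49052158709) (nat_lit 76) (nat_lit 3282042748) (nat_lit 6) (nat_lit 4) (nat_lit 7) (nat_lit 5) (nat_lit 7) (nat_lit 4) (nat_lit 286) (nat_lit 251) (nat_lit 183)))) (XT.nd (nat_lit 78) (nat_lit 0) (nat_lit 0) (XT.lf (nat_lit 0) (nat_lit 2191167834) (nat_lit 152) (nat_lit 41230673665) (nat_lit 76) (nat_lit 21586530388) (nat_lit 5) (nat_lit 5) (nat_lit 7) (nat_lit 5) (nat_lit 6) (nat_lit 4) (nat_lit 287) (nat_lit 251) (nat_lit 182)) (XT.nd (nat_lit 78) (nat_lit 0) (nat_lit 0) (XT.lf (nat_lit 0) (nat_lit 7918096860) (nat_lit 152) (nat_lit 29335500921) (nat_lit 76) (nat_lit 32203671582) (nat_lit 5) (nat_lit 5) (nat_lit 7) (nat_lit 5) (nat_lit 6) (nat_lit 4) (nat_lit 288) (nat_lit 251) (nat_lit 181)) (XT.lf (nat_lit 0) (nat_lit 14096862758) (nat_lit 152) (nat_lit 16499260105) (nat_lit 76) (nat_lit 43666485576) (nat_lit 5) (nat_lit 5) (nat_lit 7) (nat_lit 5) (nat_lit 6) (nat_lit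 4) (nat_lit 289) (nat_lit 251) (nat_lit 180))))))) (XT.nd (nat_lit 858) (nat_lit 152) (nat_lit 0) (XT.nd (nat_lit 390) (nat_lit 76) (nat_lit 0) (XT.nd (nat_lit 156) (nat_lit 0) (nat_lit 0) (XT.nd (nat_lit 78) (nat_lit 76) (nat_lit 0) (XT.lf (nat_lit 0) (nat_lit 20764080435) (nat_lit 152) (nat_lit 2645884604) (nat_lit 76) (nat_lit 56042900157) (nat_lit 5) (nat_lit 5) (nat_lit 7) (nat_lit 5) (nat_lit 6) (nat_lit 4) (nat_lit 290) (nat_lit 251) (nat_lit 179)) (XT.lf (nat_lit 0) (nat_lit 12954769704) (nat_lit 76) (nat_lit 15316052149) (nat_lit 152) (nat_lit 56763049858) (nat_lit 4) (nat_lit 5) (nat_lit 5) (nat_lit 5) (nat_lit 6) (nat_lit 4) (nat_lit 291) (nat_lit 251) (nat_lit 178))) (XT.nd (nat_lit 78) (nat_lit 0) (nat_lit 0) (XT.lf (nat_lit 0) (nat_lit 29945137775) (nat_lit 76) (nat_lit 6500081050) (nat_lit 152) (nat_lit 54610789997) (nat_lit 4) (nat_lit 5) (nat_lit 5) (nat_lit 5) (nat_lit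 6) (nat_lit 4) (nat_lit 292) (nat_lit 251) (nat_lit 177)) (XT.nd (nat_lit 78) (nat_lit 0) (nat_lit 0) (XT.lf (nat_lit 0) (nat_lit 45341307115) (nat_lit 152) (nat_lit 49346325660) (nat_lit 0) (nat_lit 2866882900) (nat_lit 4) (nat_lit 5) (nat_lit 6) (nat_lit 4) (nat_lit 4) (nat_lit 4) (nat_lit 293) (nat_lit 251) (nat_lit 176)) (XT.lf (nat_lit 0) (nat_lit 55113360560) (nat_lit 152) (nat_lit 36817306297) (nat_lit 0) (nat_lit 12629110582) (nat_lit 4) (nat_lit 5) (nat_lit 6) (nat_lit 4) (nat_lit 4) (nat_lit 4) (nat_lit 294) (nat_lit 251) (nat_lit 175))))) (XT.nd (nat_lit 234) (nat_lit 0) (nat_lit 0) (XT.nd (nat_lit 78) (nat_lit 76) (nat_lit 0) (XT.lf (nat_lit 0) (nat_lit 65662960519) (nat_lit 152) (nat_lit 23293239812) (nat_lit 0) (nat_lit 23169612613) (nat_lit 4) (nat_lit 5) (nat_lit 6) (nat_lit 4) (nat_lit 4) (nat_lit 4) (nat_lit 295) (nat_lit 251) (nat_lit 174)) (XT.nd (nat_lit 78) (nat_lit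 76) (nat_lit 0) (XT.lf (nat_lit 0) (nat_lit 77052623139) (nat_lit 152) (nat_lit 8693983590) (nat_lit 0) (nat_lit 34550851226) (nat_lit 4) (nat_lit 5) (nat_lit 6) (nat_lit 4) (nat_lit 4) (nat_lit 4) (nat_lit 296) (nat_lit 251) (nat_lit 173)) (XT.lf (nat_lit 0) (nat_lit 7439110938) (nat_lit 76) (nat_lit 82089642578) (nat_lit 76) (nat_lit 39580070658) (nat_lit 3) (nat_lit 4) (nat_lit 4) (nat_lit 5) (nat_lit 4) (nat_lit 4) (nat_lit 297) (nat_lit 251) (nat_lit 172)))) (XT.nd (nat_lit 78) (nat_lit 0) (nat_lit 0) (XT.lf (nat_lit 0) (nat_lit 25351208820) (nat_lit 76) (nat_lit 77885980033) (nat_lit 76) (nat_lit 35369185883) (nat_lit 3) (nat_lit 4) (nat_lit 4) (nat_lit 5) (nat_lit 4) (nat_lit 4) (nat_lit 298) (nat_lit 251) (nat_lit 171)) (XT.nd (nat_lit 78) (nat_lit 0) (nat_lit 0) (XT.lf (nat_lit 0) (nat_lit 44690646051) (nat_lit 76) (nat_lit 73348417419) (nat_lit 76) (nat_lit 30824936021) (nat_lit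 3) (nat_lit 4) (nat_lit 4) (nat_lit 5) (nat_lit 4) (nat_lit 4) (nat_lit 299) (nat_lit 251) (nat_lit 170)) (XT.lf (nat_lit 0) (nat_lit 65572026705) (nat_lit 76) (nat_lit 68450065476) (nat_lit 76) (nat_lit 25920392181) (nat_lit 3) (nat_lit 4) (nat_lit 4) (nat_lit 5) (nat_lit 4) (nat_lit 4) (nat_lit 300) (nat_lit 251) (nat_lit 169)))))) (XT.nd (nat_lit 468) (nat_lit 76) (nat_lit 0) (XT.nd (nat_lit 234) (nat_lit 76) (nat_lit 0) (XT.nd (nat_lit 78) (nat_lit 0) (nat_lit 0) (XT.lf (nat_lit 0) (nat_lit 88119092296) (nat_lit 76) (nat_lit 63161896935) (nat_lit 76) (nat_lit 20626490402) (nat_lit 3) (nat_lit 4) (nat_lit 4) (nat_lit 5) (nat_lit 4) (nat_lit 4) (nat_lit 301) (nat_lit 251) (nat_lit 168)) (XT.nd (nat_lit 78) (nat_lit 0) (nat_lit 0) (XT.lf (nat_lit 0) (nat_lit 112465455065) (nat_lit 76) (nat_lit 57452574499) (nat_lit 76) (nat_lit 14911859413) (nat_lit 3) (nat_lit 4) (nat_lit 4) (nat_lit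 5) (nat_lit 4) (nat_lit 4) (nat_lit 302) (nat_lit 251) (nat_lit 167)) (XT.lf (nat_lit 0) (nat_lit 138755389754) (nat_lit 76) (nat_lit 51288265148) (nat_lit 76) (nat_lit 8742634734) (nat_lit 3) (nat_lit 4) (nat_lit 4) (nat_lit 5) (nat_lit 4) (nat_lit 4) (nat_lit 303) (nat_lit 251) (nat_lit 166)))) (XT.nd (nat_lit 78) (nat_lit 76) (nat_lit 0) (XT.lf (nat_lit 0) (nat_lit 167144688569) (nat_lit 76) (nat_lit 44632439640) (nat_lit 76) (nat_lit 2082257996) (nat_lit 3) (nat_lit 4) (nat_lit 4) (nat_lit 5) (nat_lit 4) (nat_lit 4) (nat_lit 304) (nat_lit 251) (nat_lit 165)) (XT.nd (nat_lit 78) (nat_lit 0) (nat_lit 0) (XT.lf (nat_lit 0) (nat_lit 4853179848) (nat_lit 152) (nat_lit 32459781660) (nat_lit 76) (nat_lit 192815710005) (nat_lit 2) (nat_lit 5) (nat_lit 4) (nat_lit 5) (nat_lit 3) (nat_lit 4) (nat_lit 305) (nat_lit 251) (nat_lit 164)) (XT.lf (nat_lit 0) (nat_lit 12229013491) (nat_lit 152)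 (nat_lit 17121949627) (nat_lit 76) (nat_lit 218344371322) (nat_lit 2) (nat_lit 5) (nat_lit 4) (nat_lit 5) (nat_lit 3) (nat_lit 4) (nat_lit 306) (nat_lit 251) (nat_lit 163))))) (XT.nd (nat_lit 234) (nat_lit 0) (nat_lit 0) (XT.nd (nat_lit 78) (nat_lit 76) (nat_lit 0) (XT.lf (nat_lit 0) (nat_lit 20193114555) (nat_lit 152) (nat_lit 560232326) (nat_lit 76) (nat_lit 245914133118) (nat_lit 2) (nat_lit 5) (nat_lit 4) (nat_lit 5) (nat_lit 3) (nat_lit 4) (nat_lit 307) (nat_lit 251) (nat_lit 162)) (XT.nd (nat_lit 78) (nat_lit 0) (nat_lit 0) (XT.lf (nat_lit 0) (nat_lit 18235739287) (nat_lit 76) (nat_lit 10995508395) (nat_lit 152) (nat_lit 257891202439) (nat_lit 1) (nat_lit 5) (nat_lit 2) (nat_lit 5) (nat_lit 3) (nat_lit 4) (nat_lit 308) (nat_lit 251) (nat_lit 161)) (XT.lf (nat_lit 0) (nat_lit 38564414568) (nat_lit 76) (nat_lit 441723869) (nat_lit 152) (nat_lit 270206587704) (nat_lit 1) (nat_lit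 5) (nat_lit 2) (nat_lit 5) (nat_lit 3) (nat_lit 4) (nat_lit 309) (nat_lit 251) (nat_lit 160)))) (XT.nd (nat_lit 78) (nat_lit 0) (nat_lit 0) (XT.lf (nat_lit 0) (nat_lit 49825002546) (nat_lit 152) (nat_lit 272817062691) (nat_lit 0) (nat_lit 10407204927) (nat_lit 1) (nat_lit 5) (nat_lit 3) (nat_lit 4) (nat_lit 1) (nat_lit 4) (nat_lit 310) (nat_lit 251) (nat_lit 159)) (XT.nd (nat_lit 78) (nat_lit 0) (nat_lit 0) (XT.lf (nat_lit 0) (nat_lit 61519442917) (nat_lit 152) (nat_lit 275173307169) (nat_lit 0) (nat_lit 22099186410) (nat_lit 1) (nat_lit 5) (nat_lit 3) (nat_lit 4) (nat_lit 1) (nat_lit 4) (nat_lit 311) (nat_lit 251) (nat_lit 158)) (XT.lf (nat_lit 0) (nat_lit 74148136467) (nat_lit 152) (nat_lit 277720384466) (nat_lit 0) (nat_lit 34725603213) (nat_lit 1) (nat_lit 5) (nat_lit 3) (nat_lit 4) (nat_lit 1) (nat_lit 4) (nat_lit 312) (nat_lit 251) (nat_lit 157))))))))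
noncomputable def xc72 : XT := (XT.nd (nat_lit 32994) (nat_lit 0) (nat_lit 760) (XT.nd (nat_lit 858) (nat_lit 0) (nat_lit 0) (XT.nd (nat_lit 390) (nat_lit 0) (nat_lit 0) (XT.nd (nat_lit 156) (nat_lit 0) (nat_lit 0) (XT.nd (nat_lit 78) (nat_lit 0) (nat_lit 0) (XT.lf (nat_lit 0) (nat_lit 87785919900) (nat_lit 152) (nat_lit 280473388374) (nat_lit 0) (nat_lit 48361278546) (nat_lit 1) (nat_lit 5) (nat_lit 3) (nat_lit 4) (nat_lit 1) (nat_lit 4) (nat_lit 313) (nat_lit 251) (nat_lit 156)) (XT.lf (nat_lit 0) (nat_lit 102513609710) (nat_lit 152) (nat_lit 283448632991) (nat_lit 0) (nat_lit 63087016412) (nat_lit 1) (nat_lit 5) (nat_lit 3) (nat_lit 4) (nat_lit 1) (nat_lit 4) (nat_lit 314) (nat_lit 251) (nat_lit 155))) (XT.nd (nat_lit 78) (nat_lit 0) (nat_lit 0) (XT.lf (nat_lit 0) (nat_lit 118418481095) (nat_lit 152) (nat_lit 286663749395) (nat_lit 0) (nat_lit 78990080441) (nat_lit 1) (nat_lit 5)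 (nat_lit 3) (nat_lit 4) (nat_lit 1) (nat_lit 4) (nat_lit 315) (nat_lit 251) (nat_lit 154)) (XT.nd (nat_lit 78) (nat_lit 0) (nat_lit 0) (XT.lf (nat_lit 0) (nat_lit 135594785145) (nat_lit 152) (nat_lit 290137790129) (nat_lit 0) (nat_lit 96164711014) (nat_lit 1) (nat_lit 5) (nat_lit 3) (nat_lit 4) (nat_lit 1) (nat_lit 4) (nat_lit 316) (nat_lit 251) (nat_lit 153)) (XT.lf (nat_lit 0) (nat_lit 154144307367) (nat_lit 152) (nat_lit 293891342100) (nat_lit 0) (nat_lit 114712683719) (nat_lit 1) (nat_lit 5) (nat_lit 3) (nat_lit 4) (nat_lit 1) (nat_lit 4) (nat_lit 317) (nat_lit 251) (nat_lit 152))))) (XT.nd (nat_lit 234) (nat_lit 0) (nat_lit 0) (XT.nd (nat_lit 78) (nat_lit 0) (nat_lit 0) (XT.lf (nat_lit 0) (nat_lit 174176970853) (nat_lit 152) (nat_lit 297946648579) (nat_lit 0) (nat_lit 134743912468) (nat_lit 1) (nat_lit 5) (nat_lit 3) (nat_lit 4) (nat_lit 1) (nat_lit 4) (nat_lit 318) (nat_lit 251)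 (nat_lit 151)) (XT.nd (nat_lit 78) (nat_lit 0) (nat_lit 0) (XT.lf (nat_lit 0) (nat_lit 195811487685) (nat_lit 152) (nat_lit 302327741012) (nat_lit 0) (nat_lit 156377100840) (nat_lit 1) (nat_lit 5) (nat_lit 3) (nat_lit 4) (nat_lit 1) (nat_lit 4) (nat_lit 319) (nat_lit 251) (nat_lit 150)) (XT.lf (nat_lit 0) (nat_lit 219176062407) (nat_lit 152) (nat_lit 307060581429) (nat_lit 0) (nat_lit 179740445506) (nat_lit 1) (nat_lit 5) (nat_lit 3) (nat_lit 4) (nat_lit 1) (nat_lit 4) (nat_lit 320) (nat_lit 251) (nat_lit 149)))) (XT.nd (nat_lit 78) (nat_lit 0) (nat_lit 0) (XT.lf (nat_lit 0) (nat_lit 244409151757) (nat_lit 152) (nat_lit 312173216290) (nat_lit 0) (nat_lit 204972395915) (nat_lit 1) (nat_lit 5) (nat_lit 3) (nat_lit 4) (nat_lit 1) (nat_lit 4) (nat_lit 321) (nat_lit 251) (nat_lit 148)) (XT.nd (nat_lit 78) (nat_lit 0) (nat_lit 0) (XT.lf (nat_lit 0) (nat_lit 271660285154) (nat_lit 152) (nat_lit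 317695942692) (nat_lit 0) (nat_lit 232222474737) (nat_lit 1) (nat_lit 5) (nat_lit 3) (nat_lit 4) (nat_lit 1) (nat_lit 4) (nat_lit 322) (nat_lit 251) (nat_lit 147)) (XT.lf (nat_lit 0) (nat_lit 301090950796) (nat_lit 152) (nat_lit 323661487902) (nat_lit 0) (nat_lit 261652163921) (nat_lit 1) (nat_lit 5) (nat_lit 3) (nat_lit 4) (nat_lit 1) (nat_lit 4) (nat_lit 323) (nat_lit 251) (nat_lit 146)))))) (XT.nd (nat_lit 468) (nat_lit 0) (nat_lit 0) (XT.nd (nat_lit 234) (nat_lit 0) (nat_lit 0) (XT.nd (nat_lit 78) (nat_lit 0) (nat_lit 0) (XT.lf (nat_lit 0) (nat_lit 332875552627) (nat_lit 152) (nat_lit 330105203300) (nat_lit 0) (nat_lit 293435861625) (nat_lit 1) (nat_lit 5) (nat_lit 3) (nat_lit 4) (nat_lit 1) (nat_lit 4) (nat_lit 324) (nat_lit 251) (nat_lit 145)) (XT.nd (nat_lit 78) (nat_lit 0) (nat_lit 0) (XT.lf (nat_lit 0) (nat_lit 367202443844) (nat_lit 152) (nat_lit 337065273864) (nat_lit 0)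 (nat_lit 327761915687) (nat_lit 1) (nat_lit 5) (nat_lit 3) (nat_lit 4) (nat_lit 1) (nat_lit 4) (nat_lit 325) (nat_lit 251) (nat_lit 144)) (XT.lf (nat_lit 0) (nat_lit 404275043061) (nat_lit 152) (nat_lit 344582944458) (nat_lit 0) (nat_lit 364833739760) (nat_lit 1) (nat_lit 5) (nat_lit 3) (nat_lit 4) (nat_lit 1) (nat_lit 4) (nat_lit 326) (nat_lit 251) (nat_lit 143)))) (XT.nd (nat_lit 78) (nat_lit 0) (nat_lit 0) (XT.lf (nat_lit 0) (nat_lit 444313039755) (nat_lit 152) (nat_lit 352702764241) (nat_lit 0) (nat_lit 404871018728) (nat_lit 1) (nat_lit 5) (nat_lit 3) (nat_lit 4) (nat_lit 1) (nat_lit 4) (nat_lit 327) (nat_lit 251) (nat_lit 142)) (XT.nd (nat_lit 78) (nat_lit 0) (nat_lit 0) (XT.lf (nat_lit 0) (nat_lit 487553696129) (nat_lit 152) (nat_lit 361472850664) (nat_lit 0) (nat_lit 448111010540) (nat_lit 1) (nat_lit 5) (nat_lit 3) (nat_lit 4) (nat_lit 1) (nat_lit 4) (nat_lit 328) (nat_lit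 251) (nat_lit 141)) (XT.lf (nat_lit 0) (nat_lit 534253253109) (nat_lit 152) (nat_lit 370945174608) (nat_lit 0) (nat_lit 494809952186) (nat_lit 1) (nat_lit 5) (nat_lit 3) (nat_lit 4) (nat_lit 1) (nat_lit 4) (nat_lit 329) (nat_lit 251) (nat_lit 140))))) (XT.nd (nat_lit 31434) (nat_lit 0) (nat_lit 2508) (XT.nd (nat_lit 78) (nat_lit 0) (nat_lit 0) (XT.lf (nat_lit 0) (nat_lit 584688448810) (nat_lit 152) (nat_lit 381175868365) (nat_lit 0) (nat_lit 545244578134) (nat_lit 1) (nat_lit 5) (nat_lit 3) (nat_lit 4) (nat_lit 1) (nat_lit 4) (nat_lit 330) (nat_lit 251) (nat_lit 139)) (XT.nd (nat_lit 78) (nat_lit 0) (nat_lit 0) (XT.lf (nat_lit 0) (nat_lit 639158158467) (nat_lit 152) (nat_lit 392225558266) (nat_lit 0) (nat_lit 599713760241) (nat_lit 1) (nat_lit 5) (nat_lit 3) (nat_lit 4) (nat_lit 1) (nat_lit 4) (nat_lit 331) (nat_lit 251) (nat_lit 138)) (XT.lf (nat_lit 0) (nat_lit 697985165544) (nat_lit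 152) (nat_lit 404159723957) (nat_lit 0) (nat_lit 658540278845) (nat_lit 1) (nat_lit 5) (nat_lit 3) (nat_lit 4) (nat_lit 1) (nat_lit 4) (nat_lit 332) (nat_lit 251) (nat_lit 137)))) (XT.nd (nat_lit 78) (nat_lit 0) (nat_lit 0) (XT.lf (nat_lit 0) (nat_lit 1712060398) (nat_lit 0) (nat_lit 1712060398) (nat_lit 380) (nat_lit 1966139516) (nat_lit 34) (nat_lit 5) (nat_lit 34) (nat_lit 3) (nat_lit 39) (nat_lit 3) (nat_lit 252) (nat_lit 252) (nat_lit 216)) (XT.nd (nat_lit 78) (nat_lit 0) (nat_lit 0) (XT.lf (nat_lit 0) (nat_lit 7641527925) (nat_lit 380) (nat_lit 3071323366) (nat_lit 456) (nat_lit 452798324) (nat_lit 34) (nat_lit 5) (nat_lit 39) (nat_lit 3) (nat_lit 40) (nat_lit 5) (nat_lit 253) (nat_lit 252) (nat_lit 215)) (XT.lf (nat_lit 76) (nat_lit 1512757707) (nat_lit 0) (nat_lit 7060636783) (nat_lit 456) (nat_lit 3002639595) (nat_lit 35) (nat_lit 5) (nat_lit 34) (nat_lit 5) (nat_lit 40) (nat_lit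 5) (nat_lit 254) (nat_lit 252) (nat_lit 214))))))) (XT.nd (nat_lit 858) (nat_lit 760) (nat_lit 0) (XT.nd (nat_lit 390) (nat_lit 608) (nat_lit 0) (XT.nd (nat_lit 156) (nat_lit 380) (nat_lit 0) (XT.nd (nat_lit 78) (nat_lit 0) (nat_lit 76) (XT.lf (nat_lit 76) (nat_lit 6608469678) (nat_lit 0) (nat_lit 3008116276) (nat_lit 456) (nat_lit 2400142193) (nat_lit 35) (nat_lit 5) (nat_lit 34) (nat_lit 5) (nat_lit 40) (nat_lit 5) (nat_lit 255) (nat_lit 252) (nat_lit 213)) (XT.lf (nat_lit 0) (nat_lit 10732832434) (nat_lit 380) (nat_lit 445588073) (nat_lit 456) (nat_lit 1315478952) (nat_lit 35) (nat_lit 5) (nat_lit 40) (nat_lit 5) (nat_lit 41) (nat_lit 5) (nat_lit 256) (nat_lit 252) (nat_lit 212))) (XT.nd (nat_lit 78) (nat_lit 456) (nat_lit 0) (XT.lf (nat_lit 76) (nat_lit 5059588289) (nat_lit 0) (nat_lit 7038499689) (nat_lit 456) (nat_lit 898740585) (nat_lit 36) (nat_lit 5) (nat_lit 35) (nat_lit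 5) (nat_lit 41) (nat_lit 5) (nat_lit 257) (nat_lit 252) (nat_lit 211)) (XT.nd (nat_lit 78) (nat_lit 0) (nat_lit 76) (XT.lf (nat_lit 0) (nat_lit 4315450) (nat_lit 456) (nat_lit 2540696749) (nat_lit 532) (nat_lit 10997356660) (nat_lit 29) (nat_lit 5) (nat_lit 35) (nat_lit 5) (nat_lit 36) (nat_lit 5) (nat_lit 258) (nat_lit 252) (nat_lit 210)) (XT.lf (nat_lit 0) (nat_lit 1035160772) (nat_lit 456) (nat_lit 10778933090) (nat_lit 76) (nat_lit 2307549434) (nat_lit 30) (nat_lit 5) (nat_lit 36) (nat_lit 5) (nat_lit 31) (nat_lit 5) (nat_lit 259) (nat_lit 252) (nat_lit 209))))) (XT.nd (nat_lit 234) (nat_lit 228) (nat_lit 0) (XT.nd (nat_lit 78) (nat_lit 456) (nat_lit 0) (XT.lf (nat_lit 0) (nat_lit 2251777524) (nat_lit 456) (nat_lit 4999546967) (nat_lit 76) (nat_lit 7487936116) (nat_lit 30) (nat_lit 5) (nat_lit 36) (nat_lit 5) (nat_lit 31) (nat_lit 5) (nat_lit 260) (nat_lit 252) (nat_lit 208)) (XT.nd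 (nat_lit 78) (nat_lit 0) (nat_lit 0) (XT.lf (nat_lit 0) (nat_lit 1277174396) (nat_lit 456) (nat_lit 2287717237) (nat_lit 532) (nat_lit 11841707808) (nat_lit 24) (nat_lit 5) (nat_lit 30) (nat_lit 5) (nat_lit 31) (nat_lit 5) (nat_lit 261) (nat_lit 252) (nat_lit 207)) (XT.lf (nat_lit 0) (nat_lit 5167359637) (nat_lit 532) (nat_lit 7884316349) (nat_lit 76) (nat_lit 3061132404) (nat_lit 24) (nat_lit 5) (nat_lit 31) (nat_lit 5) (nat_lit 25) (nat_lit 5) (nat_lit 262) (nat_lit 252) (nat_lit 206)))) (XT.nd (nat_lit 78) (nat_lit 228) (nat_lit 0) (XT.lf (nat_lit 0) (nat_lit 6929809754) (nat_lit 532) (nat_lit 1227569305) (nat_lit 76) (nat_lit 8715802763) (nat_lit 24) (nat_lit 5) (nat_lit 31) (nat_lit 5) (nat_lit 25) (nat_lit 5) (nat_lit 263) (nat_lit 252) (nat_lit 205)) (XT.nd (nat_lit 78) (nat_lit 0) (nat_lit 0) (XT.lf (nat_lit 0) (nat_lit 6247824620) (nat_lit 228) (nat_lit 2710102192) (nat_lit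 304) (nat_lit 8726679592) (nat_lit 21) (nat_lit 5) (nat_lit 24) (nat_lit 5) (nat_lit 25) (nat_lit 5) (nat_lit 264) (nat_lit 252) (nat_lit 204)) (XT.lf (nat_lit 0) (nat_lit 11234690182) (nat_lit 304) (nat_lit 4272234130) (nat_lit 76) (nat_lit 3047289393) (nat_lit 21) (nat_lit 5) (nat_lit 25) (nat_lit 5) (nat_lit 22) (nat_lit 5) (nat_lit 265) (nat_lit 252) (nat_lit 203)))))) (XT.nd (nat_lit 468) (nat_lit 228) (nat_lit 0) (XT.nd (nat_lit 234) (nat_lit 380) (nat_lit 0) (XT.nd (nat_lit 78) (nat_lit 0) (nat_lit 0) (XT.lf (nat_lit 0) (nat_lit 3546713617) (nat_lit 152) (nat_lit 10280026951) (nat_lit 228) (nat_lit 5656164482) (nat_lit 19) (nat_lit 5) (nat_lit 21) (nat_lit 5) (nat_lit 22) (nat_lit 5) (nat_lit 266) (nat_lit 252) (nat_lit 202)) (XT.nd (nat_lit 78) (nat_lit 0) (nat_lit 0) (XT.lf (nat_lit 0) (nat_lit 12209003466) (nat_lit 152) (nat_lit 4512482493) (nat_lit 228) (nat_lit 3756934021)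 (nat_lit 19) (nat_lit 5) (nat_lit 21) (nat_lit 5) (nat_lit 22) (nat_lit 5) (nat_lit 267) (nat_lit 252) (nat_lit 201)) (XT.lf (nat_lit 0) (nat_lit 19869122111) (nat_lit 228) (nat_lit 55510780) (nat_lit 76) (nat_lit 1627381617) (nat_lit 19) (nat_lit 5) (nat_lit 22) (nat_lit 5) (nat_lit 20) (nat_lit 5) (nat_lit 268) (nat_lit 252) (nat_lit 200)))) (XT.nd (nat_lit 78) (nat_lit 152) (nat_lit 0) (XT.lf (nat_lit 0) (nat_lit 855690541) (nat_lit 228) (nat_lit 13575786792) (nat_lit 76) (nat_lit 8252951507) (nat_lit 16) (nat_lit 5) (nat_lit 19) (nat_lit 5) (nat_lit 17) (nat_lit 5) (nat_lit 269) (nat_lit 252) (nat_lit 199)) (XT.nd (nat_lit 78) (nat_lit 152) (nat_lit 0) (XT.lf (nat_lit 0) (nat_lit 3489759858) (nat_lit 228) (nat_lit 4965554937) (nat_lit 76) (nat_lit 15450072780) (nat_lit 16) (nat_lit 5) (nat_lit 19) (nat_lit 5) (nat_lit 17) (nat_lit 5) (nat_lit 270) (nat_lit 252) (nat_lit 198)) (XT.lf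 (nat_lit 0) (nat_lit 4538713266) (nat_lit 152) (nat_lit 1888111005) (nat_lit 228) (nat_lit 18789922501) (nat_lit 14) (nat_lit 5) (nat_lit 16) (nat_lit 5) (nat_lit 17) (nat_lit 5) (nat_lit 271) (nat_lit 252) (nat_lit 197))))) (XT.nd (nat_lit 234) (nat_lit 76) (nat_lit 0) (XT.nd (nat_lit 78) (nat_lit 152) (nat_lit 0) (XT.lf (nat_lit 0) (nat_lit 9847044227) (nat_lit 228) (nat_lit 11687669371) (nat_lit 76) (nat_lit 5078543398) (nat_lit 14) (nat_lit 5) (nat_lit 17) (nat_lit 5) (nat_lit 15) (nat_lit 5) (nat_lit 272) (nat_lit 252) (nat_lit 196)) (XT.nd (nat_lit 78) (nat_lit 152) (nat_lit 0) (XT.lf (nat_lit 0) (nat_lit 13574858152) (nat_lit 228) (nat_lit 2047988731) (nat_lit 76) (nat_lit 12496013343) (nat_lit 14) (nat_lit 5) (nat_lit 17) (nat_lit 5) (nat_lit 15) (nat_lit 5) (nat_lit 273) (nat_lit 252) (nat_lit 195)) (XT.lf (nat_lit 0) (nat_lit 8782897674) (nat_lit 152) (nat_lit 9015278907)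 (nat_lit 228) (nat_lit 11931036392) (nat_lit 12) (nat_lit 5) (nat_lit 14) (nat_lit 5) (nat_lit 15) (nat_lit 5) (nat_lit 274) (nat_lit 252) (nat_lit 194)))) (XT.nd (nat_lit 78) (nat_lit 76) (nat_lit 0) (XT.lf (nat_lit 0) (nat_lit 20577890363) (nat_lit 152) (nat_lit 1824096554) (nat_lit 228) (nat_lit 9063074324) (nat_lit 12) (nat_lit 5) (nat_lit 14) (nat_lit 5) (nat_lit 15) (nat_lit 5) (nat_lit 275) (nat_lit 252) (nat_lit 193)) (XT.nd (nat_lit 78) (nat_lit 76) (nat_lit 0) (XT.lf (nat_lit 0) (nat_lit 27504515848) (nat_lit 228) (nat_lit 184589898) (nat_lit 76) (nat_lit 5640310207) (nat_lit 12) (nat_lit 5) (nat_lit 15) (nat_lit 5) (nat_lit 13) (nat_lit 4) (nat_lit 276) (nat_lit 252) (nat_lit 192)) (XT.lf (nat_lit 0) (nat_lit 11905353345) (nat_lit 76) (nat_lit 21432022261) (nat_lit 152) (nat_lit 1979839526) (nat_lit 11) (nat_lit 5) (nat_lit 12) (nat_lit 5) (nat_lit 13) (nat_lit 4) (nat_lit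 277) (nat_lit 252) (nat_lit 191))))))))
noncomputable def xc73 : XT := (XT.nd (nat_lit 1794) (nat_lit 152) (nat_lit 0) (XT.nd (nat_lit 858) (nat_lit 152) (nat_lit 0) (XT.nd (nat_lit 390) (nat_lit 228) (nat_lit 0) (XT.nd (nat_lit 156) (nat_lit 152) (nat_lit 0) (XT.nd (nat_lit 78) (nat_lit 0) (nat_lit 0) (XT.lf (nat_lit 0) (nat_lit 2057847121) (nat_lit 152) (nat_lit 12560281008) (nat_lit 76) (nat_lit 22842289318) (nat_lit 10) (nat_lit 5) (nat_lit 12) (nat_lit 5) (nat_lit 11) (nat_lit 5) (nat_lit 278) (nat_lit 252) (nat_lit 190)) (XT.lf (nat_lit 0) (nat_lit 6300971746) (nat_lit 152) (nat_lit 907969238) (nat_lit 76) (nat_lit 32562922833) (nat_lit 10) (nat_lit 5) (nat_lit 12) (nat_lit 5) (nat_lit 11) (nat_lit 5) (nat_lit 279) (nat_lit 252) (nat_lit 189))) (XT.nd (nat_lit 78) (nat_lit 0) (nat_lit 0) (XT.lf (nat_lit 0) (nat_lit 11195572630) (nat_lit 228) (nat_lit 29996236570) (nat_lit 76)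 (nat_lit 1051503381) (nat_lit 8) (nat_lit 5) (nat_lit 11) (nat_lit 5) (nat_lit 9) (nat_lit 4) (nat_lit 280) (nat_lit 252) (nat_lit 188)) (XT.nd (nat_lit 78) (nat_lit 0) (nat_lit 0) (XT.lf (nat_lit 0) (nat_lit 16684891043) (nat_lit 228) (nat_lit 18607314438) (nat_lit 76) (nat_lit 9604064979) (nat_lit 8) (nat_lit 5) (nat_lit 11) (nat_lit 5) (nat_lit 9) (nat_lit 4) (nat_lit 281) (nat_lit 252) (nat_lit 187)) (XT.lf (nat_lit 0) (nat_lit 22604497458) (nat_lit 228) (nat_lit 6321255472) (nat_lit 76) (nat_lit 18836462464) (nat_lit 8) (nat_lit 5) (nat_lit 11) (nat_lit 5) (nat_lit 9) (nat_lit 4) (nat_lit 282) (nat_lit 252) (nat_lit 186))))) (XT.nd (nat_lit 234) (nat_lit 152) (nat_lit 0) (XT.nd (nat_lit 78) (nat_lit 0) (nat_lit 0) (XT.lf (nat_lit 0) (nat_lit 7299918071) (nat_lit 76) (nat_lit 21865116158) (nat_lit 152) (nat_lit 21679051472) (nat_lit 7) (nat_lit 5) (nat_lit 8) (nat_lit 5) (nat_lit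 9) (nat_lit 4) (nat_lit 283) (nat_lit 252) (nat_lit 185)) (XT.nd (nat_lit 78) (nat_lit 0) (nat_lit 0) (XT.lf (nat_lit 0) (nat_lit 22357666927) (nat_lit 76) (nat_lit 14057684123) (nat_lit 152) (nat_lit 17743995475) (nat_lit 7) (nat_lit 5) (nat_lit 8) (nat_lit 5) (nat_lit 9) (nat_lit 4) (nat_lit 284) (nat_lit 252) (nat_lit 184)) (XT.lf (nat_lit 0) (nat_lit 38608356087) (nat_lit 76) (nat_lit 5630024887) (nat_lit 152) (nat_lit 13502065420) (nat_lit 7) (nat_lit 5) (nat_lit 8) (nat_lit 5) (nat_lit 9) (nat_lit 4) (nat_lit 285) (nat_lit 252) (nat_lit 183)))) (XT.nd (nat_lit 78) (nat_lit 152) (nat_lit 0) (XT.lf (nat_lit 0) (nat_lit 52763883453) (nat_lit 152) (nat_lit 5543721464) (nat_lit 0) (nat_lit 3294329669) (nat_lit 7) (nat_lit 5) (nat_lit 9) (nat_lit 4) (nat_lit 7) (nat_lit 4) (nat_lit 286) (nat_lit 252) (nat_lit 182)) (XT.nd (nat_lit 78) (nat_lit 76) (nat_lit 0) (XT.lf (nat_lit 0) (nat_lit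 9447638286) (nat_lit 76) (nat_lit 52890879064) (nat_lit 76) (nat_lit 3404485650) (nat_lit 6) (nat_lit 4) (nat_lit 7) (nat_lit 5) (nat_lit 7) (nat_lit 4) (nat_lit 287) (nat_lit 252) (nat_lit 181)) (XT.lf (nat_lit 0) (nat_lit 2489712300) (nat_lit 152) (nat_lit 44323384079) (nat_lit 76) (nat_lit 23385609046) (nat_lit 5) (nat_lit 5) (nat_lit 7) (nat_lit 5) (nat_lit 6) (nat_lit 4) (nat_lit 288) (nat_lit 252) (nat_lit 180)))))) (XT.nd (nat_lit 468) (nat_lit 76) (nat_lit 0) (XT.nd (nat_lit 234) (nat_lit 76) (nat_lit 0) (XT.nd (nat_lit 78) (nat_lit 0) (nat_lit 0) (XT.lf (nat_lit 0) (nat_lit 8665665941) (nat_lit 152) (nat_lit 31491837773) (nat_lit 76) (nat_lit 34846776630) (nat_lit 5) (nat_lit 5) (nat_lit 7) (nat_lit 5) (nat_lit 6) (nat_lit 4) (nat_lit 289) (nat_lit 252) (nat_lit 179)) (XT.nd (nat_lit 78) (nat_lit 0) (nat_lit 0) (XT.lf (nat_lit 0) (nat_lit 15330279678) (nat_lit 152) (nat_lit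 17642809041) (nat_lit 76) (nat_lit 47221666757) (nat_lit 5) (nat_lit 5) (nat_lit 7) (nat_lit 5) (nat_lit 6) (nat_lit 4) (nat_lit 290) (nat_lit 252) (nat_lit 178)) (XT.lf (nat_lit 0) (nat_lit 22523047518) (nat_lit 152) (nat_lit 2694229565) (nat_lit 76) (nat_lit 60583612109) (nat_lit 5) (nat_lit 5) (nat_lit 7) (nat_lit 5) (nat_lit 6) (nat_lit 4) (nat_lit 291) (nat_lit 252) (nat_lit 177)))) (XT.nd (nat_lit 78) (nat_lit 0) (nat_lit 0) (XT.lf (nat_lit 0) (nat_lit 14150342258) (nat_lit 76) (nat_lit 16476567084) (nat_lit 152) (nat_lit 61201768397) (nat_lit 4) (nat_lit 5) (nat_lit 5) (nat_lit 5) (nat_lit 6) (nat_lit 4) (nat_lit 292) (nat_lit 252) (nat_lit 176)) (XT.nd (nat_lit 78) (nat_lit 0) (nat_lit 0) (XT.lf (nat_lit 0) (nat_lit 32488147850) (nat_lit 76) (nat_lit 6960116018) (nat_lit 152) (nat_lit 58884907410) (nat_lit 4) (nat_lit 5) (nat_lit 5) (nat_lit 5) (nat_lit 6) (nat_lit 4) (nat_lit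 293) (nat_lit 252) (nat_lit 175)) (XT.lf (nat_lit 0) (nat_lit 49050898586) (nat_lit 152) (nat_lit 53152110429) (nat_lit 0) (nat_lit 3148984919) (nat_lit 4) (nat_lit 5) (nat_lit 6) (nat_lit 4) (nat_lit 4) (nat_lit 4) (nat_lit 294) (nat_lit 252) (nat_lit 174))))) (XT.nd (nat_lit 234) (nat_lit 76) (nat_lit 0) (XT.nd (nat_lit 78) (nat_lit 0) (nat_lit 0) (XT.lf (nat_lit 0) (nat_lit 59598620980) (nat_lit 152) (nat_lit 39631282205) (nat_lit 0) (nat_lit 13688283305) (nat_lit 4) (nat_lit 5) (nat_lit 6) (nat_lit 4) (nat_lit 4) (nat_lit 4) (nat_lit 295) (nat_lit 252) (nat_lit 173)) (XT.nd (nat_lit 78) (nat_lit 0) (nat_lit 0) (XT.lf (nat_lit 0) (nat_lit 70986545115) (nat_lit 152) (nat_lit 25035024372) (nat_lit 0) (nat_lit 25068407433) (nat_lit 4) (nat_lit 5) (nat_lit 6) (nat_lit 4) (nat_lit 4) (nat_lit 4) (nat_lit 296) (nat_lit 252) (nat_lit 172)) (XT.lf (nat_lit 0) (nat_lit 83282154986) (nat_lit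 152) (nat_lit 9276840587) (nat_lit 0) (nat_lit 37356795076) (nat_lit 4) (nat_lit 5) (nat_lit 6) (nat_lit 4) (nat_lit 4) (nat_lit 4) (nat_lit 297) (nat_lit 252) (nat_lit 171)))) (XT.nd (nat_lit 78) (nat_lit 0) (nat_lit 0) (XT.lf (nat_lit 0) (nat_lit 8144049308) (nat_lit 76) (nat_lit 88610128739) (nat_lit 76) (nat_lit 42678081580) (nat_lit 3) (nat_lit 4) (nat_lit 4) (nat_lit 5) (nat_lit 4) (nat_lit 4) (nat_lit 298) (nat_lit 252) (nat_lit 170)) (XT.nd (nat_lit 78) (nat_lit 0) (nat_lit 0) (XT.lf (nat_lit 0) (nat_lit 27480980984) (nat_lit 76) (nat_lit 84073631356) (nat_lit 76) (nat_lit 38135392300) (nat_lit 3) (nat_lit 4) (nat_lit 4) (nat_lit 5) (nat_lit 4) (nat_lit 4) (nat_lit 299) (nat_lit 252) (nat_lit 169)) (XT.lf (nat_lit 0) (nat_lit 48360041679) (nat_lit 76) (nat_lit 79176265739) (nat_lit 76) (nat_lit 33232293445) (nat_lit 3) (nat_lit 4) (nat_lit 4) (nat_lit 5) (nat_lit 4) (nat_lit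 4) (nat_lit 300) (nat_lit 252) (nat_lit 168))))))) (XT.nd (nat_lit 858) (nat_lit 0) (nat_lit 0) (XT.nd (nat_lit 390) (nat_lit 152) (nat_lit 0) (XT.nd (nat_lit 156) (nat_lit 0) (nat_lit 0) (XT.nd (nat_lit 78) (nat_lit 0) (nat_lit 0) (XT.lf (nat_lit 0) (nat_lit 70904959160) (nat_lit 76) (nat_lit 73889010461) (nat_lit 76) (nat_lit 27939729614) (nat_lit 3) (nat_lit 4) (nat_lit 4) (nat_lit 5) (nat_lit 4) (nat_lit 4) (nat_lit 301) (nat_lit 252) (nat_lit 167)) (XT.lf (nat_lit 0) (nat_lit 95249332937) (nat_lit 76) (nat_lit 68180533640) (nat_lit 76) (nat_lit 22226337465) (nat_lit 3) (nat_lit 4) (nat_lit 4) (nat_lit 5) (nat_lit 4) (nat_lit 4) (nat_lit 302) (nat_lit 252) (nat_lit 166))) (XT.nd (nat_lit 78) (nat_lit 0) (nat_lit 0) (XT.lf (nat_lit 0) (nat_lit 121537425968) (nat_lit 76) (nat_lit 62017007266) (nat_lit 76) (nat_lit 16058259861) (nat_lit 3) (nat_lit 4) (nat_lit 4) (nat_lit 5) (nat_lit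 4) (nat_lit 4) (nat_lit 303) (nat_lit 252) (nat_lit 165)) (XT.nd (nat_lit 78) (nat_lit 0) (nat_lit 0) (XT.lf (nat_lit 0) (nat_lit 149925019543) (nat_lit 76) (nat_lit 55361906736) (nat_lit 76) (nat_lit 9398945230) (nat_lit 3) (nat_lit 4) (nat_lit 4) (nat_lit 5) (nat_lit 4) (nat_lit 4) (nat_lit 304) (nat_lit 252) (nat_lit 164)) (XT.lf (nat_lit 0) (nat_lit 180580336440) (nat_lit 76) (nat_lit 48175794418) (nat_lit 76) (nat_lit 2208930967) (nat_lit 3) (nat_lit 4) (nat_lit 4) (nat_lit 5) (nat_lit 4) (nat_lit 4) (nat_lit 305) (nat_lit 252) (nat_lit 163))))) (XT.nd (nat_lit 234) (nat_lit 76) (nat_lit 0) (XT.nd (nat_lit 78) (nat_lit 0) (nat_lit 0) (XT.lf (nat_lit 0) (nat_lit 5276537314) (nat_lit 152) (nat_lit 34995278748) (nat_lit 76) (nat_lit 208264230600) (nat_lit 2) (nat_lit 5) (nat_lit 4) (nat_lit 5) (nat_lit 3) (nat_lit 4) (nat_lit 306) (nat_lit 252) (nat_lit 162)) (XT.nd (nat_lit 78)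 (nat_lit 0) (nat_lit 0) (XT.lf (nat_lit 0) (nat_lit 13239837421) (nat_lit 152) (nat_lit 18434959815) (nat_lit 76) (nat_lit 235833461579) (nat_lit 2) (nat_lit 5) (nat_lit 4) (nat_lit 5) (nat_lit 3) (nat_lit 4) (nat_lit 307) (nat_lit 252) (nat_lit 161)) (XT.lf (nat_lit 0) (nat_lit 21838658952) (nat_lit 152) (nat_lit 552508521) (nat_lit 76) (nat_lit 265607208721) (nat_lit 2) (nat_lit 5) (nat_lit 4) (nat_lit 5) (nat_lit 3) (nat_lit 4) (nat_lit 308) (nat_lit 252) (nat_lit 160)))) (XT.nd (nat_lit 78) (nat_lit 0) (nat_lit 0) (XT.lf (nat_lit 0) (nat_lit 19745810634) (nat_lit 76) (nat_lit 11853034473) (nat_lit 152) (nat_lit 278490985635) (nat_lit 1) (nat_lit 5) (nat_lit 2) (nat_lit 5) (nat_lit 3) (nat_lit 4) (nat_lit 309) (nat_lit 252) (nat_lit 159)) (XT.nd (nat_lit 78) (nat_lit 0) (nat_lit 0) (XT.lf (nat_lit 0) (nat_lit 41696986441) (nat_lit 76) (nat_lit 456585303) (nat_lit 152) (nat_lit 291793936017)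 (nat_lit 1) (nat_lit 5) (nat_lit 2) (nat_lit 5) (nat_lit 3) (nat_lit 4) (nat_lit 310) (nat_lit 252) (nat_lit 158)) (XT.lf (nat_lit 0) (nat_lit 53836405242) (nat_lit 152) (nat_lit 294596906671) (nat_lit 0) (nat_lit 11257792580) (nat_lit 1) (nat_lit 5) (nat_lit 3) (nat_lit 4) (nat_lit 1) (nat_lit 4) (nat_lit 311) (nat_lit 252) (nat_lit 157)))))) (XT.nd (nat_lit 468) (nat_lit 0) (nat_lit 0) (XT.nd (nat_lit 234) (nat_lit 0) (nat_lit 0) (XT.nd (nat_lit 78) (nat_lit 0) (nat_lit 0) (XT.lf (nat_lit 0) (nat_lit 66464519176) (nat_lit 152) (nat_lit 297145022635) (nat_lit 0) (nat_lit 23883798414) (nat_lit 1) (nat_lit 5) (nat_lit 3) (nat_lit 4) (nat_lit 1) (nat_lit 4) (nat_lit 312) (nat_lit 252) (nat_lit 156)) (XT.nd (nat_lit 78) (nat_lit 0) (nat_lit 0) (XT.lf (nat_lit 0) (nat_lit 80101765927) (nat_lit 152) (nat_lit 299898988272) (nat_lit 0) (nat_lit 37519093221) (nat_lit 1) (nat_lit 5) (nat_lit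 3) (nat_lit 4) (nat_lit 1) (nat_lit 4) (nat_lit 313) (nat_lit 252) (nat_lit 155)) (XT.lf (nat_lit 0) (nat_lit 94828958809) (nat_lit 152) (nat_lit 302875123378) (nat_lit 0) (nat_lit 52244478748) (nat_lit 1) (nat_lit 5) (nat_lit 3) (nat_lit 4) (nat_lit 1) (nat_lit 4) (nat_lit 314) (nat_lit 252) (nat_lit 154)))) (XT.nd (nat_lit 78) (nat_lit 0) (nat_lit 0) (XT.lf (nat_lit 0) (nat_lit 110733370077) (nat_lit 152) (nat_lit 306091064310) (nat_lit 0) (nat_lit 68147216537) (nat_lit 1) (nat_lit 5) (nat_lit 3) (nat_lit 4) (nat_lit 1) (nat_lit 4) (nat_lit 315) (nat_lit 252) (nat_lit 153)) (XT.nd (nat_lit 78) (nat_lit 0) (nat_lit 0) (XT.lf (nat_lit 0) (nat_lit 127909248092) (nat_lit 152) (nat_lit 309565868495) (nat_lit 0) (nat_lit 85321545036) (nat_lit 1) (nat_lit 5) (nat_lit 3) (nat_lit 4) (nat_lit 1) (nat_lit 4) (nat_lit 316) (nat_lit 252) (nat_lit 152)) (XT.lf (nat_lit 0) (nat_lit 146458375836)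 (nat_lit 152) (nat_lit 313320127365) (nat_lit 0) (nat_lit 103869238043) (nat_lit 1) (nat_lit 5) (nat_lit 3) (nat_lit 4) (nat_lit 1) (nat_lit 4) (nat_lit 317) (nat_lit 252) (nat_lit 151))))) (XT.nd (nat_lit 234) (nat_lit 0) (nat_lit 0) (XT.nd (nat_lit 78) (nat_lit 0) (nat_lit 0) (XT.lf (nat_lit 0) (nat_lit 166490674066) (nat_lit 152) (nat_lit 317376088381) (nat_lit 0) (nat_lit 123900207813) (nat_lit 1) (nat_lit 5) (nat_lit 3) (nat_lit 4) (nat_lit 1) (nat_lit 4) (nat_lit 318) (nat_lit 252) (nat_lit 150)) (XT.nd (nat_lit 78) (nat_lit 0) (nat_lit 0) (XT.lf (nat_lit 0) (nat_lit 188124852698) (nat_lit 152) (nat_lit 321757786866) (nat_lit 0) (nat_lit 145533156389) (nat_lit 1) (nat_lit 5) (nat_lit 3) (nat_lit 4) (nat_lit 1) (nat_lit 4) (nat_lit 319) (nat_lit 252) (nat_lit 149)) (XT.lf (nat_lit 0) (nat_lit 211489114271) (nat_lit 152) (nat_lit 326491188442) (nat_lit 0) (nat_lit 168896279021)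 (nat_lit 1) (nat_lit 5) (nat_lit 3) (nat_lit 4) (nat_lit 1) (nat_lit 4) (nat_lit 320) (nat_lit 252) (nat_lit 148)))) (XT.nd (nat_lit 78) (nat_lit 0) (nat_lit 0) (XT.lf (nat_lit 0) (nat_lit 236721913668) (nat_lit 152) (nat_lit 331604342896) (nat_lit 0) (nat_lit 194128023844) (nat_lit 1) (nat_lit 5) (nat_lit 3) (nat_lit 4) (nat_lit 1) (nat_lit 4) (nat_lit 321) (nat_lit 252) (nat_lit 147)) (XT.nd (nat_lit 78) (nat_lit 0) (nat_lit 0) (XT.lf (nat_lit 0) (nat_lit 263972778591) (nat_lit 152) (nat_lit 337127550402) (nat_lit 0) (nat_lit 221377912308) (nat_lit 1) (nat_lit 5) (nat_lit 3) (nat_lit 4) (nat_lit 1) (nat_lit 4) (nat_lit 322) (nat_lit 252) (nat_lit 146)) (XT.lf (nat_lit 0) (nat_lit 293403195645) (nat_lit 152) (nat_lit 343093541078) (nat_lit 0) (nat_lit 250807425235) (nat_lit 1) (nat_lit 5) (nat_lit 3) (nat_lit 4) (nat_lit 1) (nat_lit 4) (nat_lit 323) (nat_lit 252) (nat_lit 145))))))))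
noncomputable def xc74 : XT := (XT.nd (nat_lit 33072) (nat_lit 0) (nat_lit 304) (XT.nd (nat_lit 32136) (nat_lit 0) (nat_lit 1520) (XT.nd (nat_lit 390) (nat_lit 0) (nat_lit 0) (XT.nd (nat_lit 156) (nat_lit 0) (nat_lit 0) (XT.nd (nat_lit 78) (nat_lit 0) (nat_lit 0) (XT.lf (nat_lit 0) (nat_lit 325187567303) (nat_lit 152) (nat_lit 349537668944) (nat_lit 0) (nat_lit 282590959738) (nat_lit 1) (nat_lit 5) (nat_lit 3) (nat_lit 4) (nat_lit 1) (nat_lit 4) (nat_lit 324) (nat_lit 252) (nat_lit 144)) (XT.lf (nat_lit 0) (nat_lit 359514245397) (nat_lit 152) (nat_lit 356498121424) (nat_lit 0) (nat_lit 316916862687) (nat_lit 1) (nat_lit 5) (nat_lit 3) (nat_lit 4) (nat_lit 1) (nat_lit 4) (nat_lit 325) (nat_lit 252) (nat_lit 143))) (XT.nd (nat_lit 78) (nat_lit 0) (nat_lit 0) (XT.lf (nat_lit 0) (nat_lit 396586647277) (nat_lit 152) (nat_lit 364016145644) (nat_lit 0) (nat_lit 353988546841) (nat_lit 1) (nat_lit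 5) (nat_lit 3) (nat_lit 4) (nat_lit 1) (nat_lit 4) (nat_lit 326) (nat_lit 252) (nat_lit 142)) (XT.nd (nat_lit 78) (nat_lit 0) (nat_lit 0) (XT.lf (nat_lit 0) (nat_lit 436624461252) (nat_lit 152) (nat_lit 372136292858) (nat_lit 0) (nat_lit 394025696255) (nat_lit 1) (nat_lit 5) (nat_lit 3) (nat_lit 4) (nat_lit 1) (nat_lit 4) (nat_lit 327) (nat_lit 252) (nat_lit 141)) (XT.lf (nat_lit 0) (nat_lit 479864948441) (nat_lit 152) (nat_lit 380906682458) (nat_lit 0) (nat_lit 437265568110) (nat_lit 1) (nat_lit 5) (nat_lit 3) (nat_lit 4) (nat_lit 1) (nat_lit 4) (nat_lit 328) (nat_lit 252) (nat_lit 140))))) (XT.nd (nat_lit 234) (nat_lit 0) (nat_lit 0) (XT.nd (nat_lit 78) (nat_lit 0) (nat_lit 0) (XT.lf (nat_lit 0) (nat_lit 526564348768) (nat_lit 152) (nat_lit 390379287122) (nat_lit 0) (nat_lit 483964398684) (nat_lit 1) (nat_lit 5) (nat_lit 3) (nat_lit 4) (nat_lit 1) (nat_lit 4) (nat_lit 329) (nat_lit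 252) (nat_lit 139)) (XT.nd (nat_lit 78) (nat_lit 0) (nat_lit 0) (XT.lf (nat_lit 0) (nat_lit 576999399421) (nat_lit 152) (nat_lit 400610240804) (nat_lit 0) (nat_lit 534398921787) (nat_lit 1) (nat_lit 5) (nat_lit 3) (nat_lit 4) (nat_lit 1) (nat_lit 4) (nat_lit 330) (nat_lit 252) (nat_lit 138)) (XT.lf (nat_lit 0) (nat_lit 631468974774) (nat_lit 152) (nat_lit 411660171377) (nat_lit 0) (nat_lit 588868008668) (nat_lit 1) (nat_lit 5) (nat_lit 3) (nat_lit 4) (nat_lit 1) (nat_lit 4) (nat_lit 331) (nat_lit 252) (nat_lit 137)))) (XT.nd (nat_lit 31356) (nat_lit 0) (nat_lit 2508) (XT.lf (nat_lit 0) (nat_lit 690295857495) (nat_lit 152) (nat_lit 423594559912) (nat_lit 0) (nat_lit 647694439100) (nat_lit 1) (nat_lit 5) (nat_lit 3) (nat_lit 4) (nat_lit 1) (nat_lit 4) (nat_lit 332) (nat_lit 252) (nat_lit 136)) (XT.nd (nat_lit 78) (nat_lit 0) (nat_lit 0) (XT.lf (nat_lit 0) (nat_lit 2096864515) (nat_lit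 0) (nat_lit 2096864515) (nat_lit 380) (nat_lit 1583663785) (nat_lit 34) (nat_lit 5) (nat_lit 34) (nat_lit 3) (nat_lit 39) (nat_lit 3) (nat_lit 253) (nat_lit 253) (nat_lit 214)) (XT.lf (nat_lit 0) (nat_lit 9159735400) (nat_lit 380) (nat_lit 2765384516) (nat_lit 456) (nat_lit 53019670) (nat_lit 34) (nat_lit 5) (nat_lit 39) (nat_lit 3) (nat_lit 40) (nat_lit 5) (nat_lit 254) (nat_lit 253) (nat_lit 213)))))) (XT.nd (nat_lit 468) (nat_lit 608) (nat_lit 0) (XT.nd (nat_lit 234) (nat_lit 380) (nat_lit 0) (XT.nd (nat_lit 78) (nat_lit 0) (nat_lit 0) (XT.lf (nat_lit 76) (nat_lit 2171457353) (nat_lit 0) (nat_lit 7940448447) (nat_lit 456) (nat_lit 2314396890) (nat_lit 35) (nat_lit 5) (nat_lit 34) (nat_lit 5) (nat_lit 40) (nat_lit 5) (nat_lit 255) (nat_lit 253) (nat_lit 212)) (XT.nd (nat_lit 78) (nat_lit 0) (nat_lit 76) (XT.lf (nat_lit 76) (nat_lit 7634998205) (nat_lit 0) (nat_lit 3540395875) (nat_lit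 456) (nat_lit 1732474057) (nat_lit 35) (nat_lit 5) (nat_lit 34) (nat_lit 5) (nat_lit 40) (nat_lit 5) (nat_lit 256) (nat_lit 253) (nat_lit 211)) (XT.lf (nat_lit 76) (nat_lit 53928266) (nat_lit 0) (nat_lit 12263334714) (nat_lit 456) (nat_lit 1111565821) (nat_lit 36) (nat_lit 5) (nat_lit 35) (nat_lit 5) (nat_lit 41) (nat_lit 5) (nat_lit 257) (nat_lit 253) (nat_lit 210)))) (XT.nd (nat_lit 78) (nat_lit 456) (nat_lit 0) (XT.lf (nat_lit 76) (nat_lit 5983340885) (nat_lit 0) (nat_lit 7765915540) (nat_lit 456) (nat_lit 226617251) (nat_lit 36) (nat_lit 5) (nat_lit 35) (nat_lit 5) (nat_lit 41) (nat_lit 5) (nat_lit 258) (nat_lit 253) (nat_lit 209)) (XT.nd (nat_lit 78) (nat_lit 0) (nat_lit 76) (XT.lf (nat_lit 0) (nat_lit 659108425) (nat_lit 456) (nat_lit 2223773836) (nat_lit 532) (nat_lit 11685345852) (nat_lit 29) (nat_lit 5) (nat_lit 35) (nat_lit 5) (nat_lit 36) (nat_lit 5) (nat_lit 259) (nat_lit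 253) (nat_lit 208)) (XT.lf (nat_lit 0) (nat_lit 1733464095) (nat_lit 456) (nat_lit 11077320663) (nat_lit 76) (nat_lit 2386559621) (nat_lit 30) (nat_lit 5) (nat_lit 36) (nat_lit 5) (nat_lit 31) (nat_lit 5) (nat_lit 260) (nat_lit 253) (nat_lit 207))))) (XT.nd (nat_lit 234) (nat_lit 228) (nat_lit 0) (XT.nd (nat_lit 78) (nat_lit 456) (nat_lit 0) (XT.lf (nat_lit 0) (nat_lit 3001818301) (nat_lit 456) (nat_lit 4877356027) (nat_lit 76) (nat_lit 7989198999) (nat_lit 30) (nat_lit 5) (nat_lit 36) (nat_lit 5) (nat_lit 31) (nat_lit 5) (nat_lit 261) (nat_lit 253) (nat_lit 206)) (XT.nd (nat_lit 78) (nat_lit 0) (nat_lit 0) (XT.lf (nat_lit 0) (nat_lit 1888283939) (nat_lit 456) (nat_lit 2501722804) (nat_lit 532) (nat_lit 12201819118) (nat_lit 24) (nat_lit 5) (nat_lit 30) (nat_lit 5) (nat_lit 31) (nat_lit 5) (nat_lit 262) (nat_lit 253) (nat_lit 205)) (XT.lf (nat_lit 0) (nat_lit 6079987771) (nat_lit 532)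 (nat_lit 7999337218) (nat_lit 76) (nat_lit 3278765558) (nat_lit 24) (nat_lit 5) (nat_lit 31) (nat_lit 5) (nat_lit 25) (nat_lit 5) (nat_lit 263) (nat_lit 253) (nat_lit 204)))) (XT.nd (nat_lit 78) (nat_lit 228) (nat_lit 0) (XT.lf (nat_lit 0) (nat_lit 7946453205) (nat_lit 532) (nat_lit 848252221) (nat_lit 76) (nat_lit 9387828616) (nat_lit 24) (nat_lit 5) (nat_lit 31) (nat_lit 5) (nat_lit 25) (nat_lit 5) (nat_lit 264) (nat_lit 253) (nat_lit 203)) (XT.nd (nat_lit 78) (nat_lit 0) (nat_lit 0) (XT.lf (nat_lit 0) (nat_lit 7213084038) (nat_lit 228) (nat_lit 2900687892) (nat_lit 304) (nat_lit 8947205337) (nat_lit 21) (nat_lit 5) (nat_lit 24) (nat_lit 5) (nat_lit 25) (nat_lit 5) (nat_lit 265) (nat_lit 253) (nat_lit 202)) (XT.lf (nat_lit 0) (nat_lit 12540726159) (nat_lit 304) (nat_lit 4148086522) (nat_lit 76) (nat_lit 3314138027) (nat_lit 21) (nat_lit 5) (nat_lit 25) (nat_lit 5) (nat_lit 22) (nat_lit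 5) (nat_lit 266) (nat_lit 253) (nat_lit 201))))))) (XT.nd (nat_lit 858) (nat_lit 456) (nat_lit 0) (XT.nd (nat_lit 390) (nat_lit 380) (nat_lit 0) (XT.nd (nat_lit 156) (nat_lit 228) (nat_lit 0) (XT.nd (nat_lit 78) (nat_lit 0) (nat_lit 0) (XT.lf (nat_lit 0) (nat_lit 4284581442) (nat_lit 152) (nat_lit 11036313525) (nat_lit 228) (nat_lit 5686805688) (nat_lit 19) (nat_lit 5) (nat_lit 21) (nat_lit 5) (nat_lit 22) (nat_lit 5) (nat_lit 267) (nat_lit 253) (nat_lit 200)) (XT.lf (nat_lit 0) (nat_lit 13606215165) (nat_lit 152) (nat_lit 4812262961) (nat_lit 228) (nat_lit 3666885083) (nat_lit 19) (nat_lit 5) (nat_lit 21) (nat_lit 5) (nat_lit 22) (nat_lit 5) (nat_lit 268) (nat_lit 253) (nat_lit 199))) (XT.nd (nat_lit 78) (nat_lit 76) (nat_lit 0) (XT.lf (nat_lit 0) (nat_lit 375839649) (nat_lit 152) (nat_lit 21425874876) (nat_lit 228) (nat_lit 1444619368) (nat_lit 17) (nat_lit 5) (nat_lit 19) (nat_lit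 5) (nat_lit 20) (nat_lit 5) (nat_lit 269) (nat_lit 253) (nat_lit 198)) (XT.nd (nat_lit 78) (nat_lit 0) (nat_lit 0) (XT.lf (nat_lit 0) (nat_lit 1253597096) (nat_lit 228) (nat_lit 14236013018) (nat_lit 76) (nat_lit 8981162088) (nat_lit 16) (nat_lit 5) (nat_lit 19) (nat_lit 5) (nat_lit 17) (nat_lit 5) (nat_lit 270) (nat_lit 253) (nat_lit 197)) (XT.lf (nat_lit 0) (nat_lit 4073988158) (nat_lit 228) (nat_lit 4968506076) (nat_lit 76) (nat_lit 16749017918) (nat_lit 16) (nat_lit 5) (nat_lit 19) (nat_lit 5) (nat_lit 17) (nat_lit 5) (nat_lit 271) (nat_lit 253) (nat_lit 196))))) (XT.nd (nat_lit 234) (nat_lit 228) (nat_lit 0) (XT.nd (nat_lit 78) (nat_lit 0) (nat_lit 0) (XT.lf (nat_lit 0) (nat_lit 5286121476) (nat_lit 152) (nat_lit 1946542829) (nat_lit 228) (nat_lit 19976324988) (nat_lit 14) (nat_lit 5) (nat_lit 16) (nat_lit 5) (nat_lit 17) (nat_lit 5) (nat_lit 272) (nat_lit 253) (nat_lit 195))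 (XT.nd (nat_lit 78) (nat_lit 0) (nat_lit 0) (XT.lf (nat_lit 0) (nat_lit 10906957334) (nat_lit 228) (nat_lit 12245663544) (nat_lit 76) (nat_lit 5566293514) (nat_lit 14) (nat_lit 5) (nat_lit 17) (nat_lit 5) (nat_lit 15) (nat_lit 5) (nat_lit 273) (nat_lit 253) (nat_lit 194)) (XT.lf (nat_lit 0) (nat_lit 14912837145) (nat_lit 228) (nat_lit 1862735814) (nat_lit 76) (nat_lit 13571126489) (nat_lit 14) (nat_lit 5) (nat_lit 17) (nat_lit 5) (nat_lit 15) (nat_lit 5) (nat_lit 274) (nat_lit 253) (nat_lit 193)))) (XT.nd (nat_lit 78) (nat_lit 76) (nat_lit 0) (XT.lf (nat_lit 0) (nat_lit 9825783731) (nat_lit 152) (nat_lit 9637754489) (nat_lit 228) (nat_lit 12623292700) (nat_lit 12) (nat_lit 5) (nat_lit 14) (nat_lit 5) (nat_lit 15) (nat_lit 5) (nat_lit 275) (nat_lit 253) (nat_lit 192)) (XT.nd (nat_lit 78) (nat_lit 76) (nat_lit 0) (XT.lf (nat_lit 0) (nat_lit 22539171818) (nat_lit 152) (nat_lit 1878592121)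 (nat_lit 228) (nat_lit 9545317860) (nat_lit 12) (nat_lit 5) (nat_lit 14) (nat_lit 5) (nat_lit 15) (nat_lit 5) (nat_lit 276) (nat_lit 253) (nat_lit 191)) (XT.lf (nat_lit 0) (nat_lit 113774775) (nat_lit 76) (nat_lit 29802928454) (nat_lit 152) (nat_lit 6060920932) (nat_lit 11) (nat_lit 5) (nat_lit 12) (nat_lit 5) (nat_lit 13) (nat_lit 4) (nat_lit 277) (nat_lit 253) (nat_lit 190)))))) (XT.nd (nat_lit 468) (nat_lit 228) (nat_lit 0) (XT.nd (nat_lit 234) (nat_lit 152) (nat_lit 0) (XT.nd (nat_lit 78) (nat_lit 76) (nat_lit 0) (XT.lf (nat_lit 0) (nat_lit 13157438702) (nat_lit 76) (nat_lit 23047735404) (nat_lit 152) (nat_lit 1920243395) (nat_lit 11) (nat_lit 5) (nat_lit 12) (nat_lit 5) (nat_lit 13) (nat_lit 4) (nat_lit 278) (nat_lit 253) (nat_lit 189)) (XT.nd (nat_lit 78) (nat_lit 0) (nat_lit 0) (XT.lf (nat_lit 0) (nat_lit 2414214600) (nat_lit 152) (nat_lit 13276594759) (nat_lit 76) (nat_lit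 24750150518) (nat_lit 10) (nat_lit 5) (nat_lit 12) (nat_lit 5) (nat_lit 11) (nat_lit 5) (nat_lit 279) (nat_lit 253) (nat_lit 188)) (XT.lf (nat_lit 0) (nat_lit 6982586254) (nat_lit 152) (nat_lit 713469065) (nat_lit 76) (nat_lit 35242473378) (nat_lit 10) (nat_lit 5) (nat_lit 12) (nat_lit 5) (nat_lit 11) (nat_lit 5) (nat_lit 280) (nat_lit 253) (nat_lit 187)))) (XT.nd (nat_lit 78) (nat_lit 0) (nat_lit 0) (XT.lf (nat_lit 0) (nat_lit 12264024288) (nat_lit 228) (nat_lit 32123250857) (nat_lit 76) (nat_lit 1220861970) (nat_lit 8) (nat_lit 5) (nat_lit 11) (nat_lit 5) (nat_lit 9) (nat_lit 4) (nat_lit 281) (nat_lit 253) (nat_lit 186)) (XT.nd (nat_lit 78) (nat_lit 0) (nat_lit 0) (XT.lf (nat_lit 0) (nat_lit 18179687740) (nat_lit 228) (nat_lit 19843413817) (nat_lit 76) (nat_lit 10451314547) (nat_lit 8) (nat_lit 5) (nat_lit 11) (nat_lit 5) (nat_lit 9) (nat_lit 4) (nat_lit 282) (nat_lit 253) (nat_lit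 185)) (XT.lf (nat_lit 0) (nat_lit 24561010416) (nat_lit 228) (nat_lit 6593172783) (nat_lit 76) (nat_lit 20416457581) (nat_lit 8) (nat_lit 5) (nat_lit 11) (nat_lit 5) (nat_lit 9) (nat_lit 4) (nat_lit 283) (nat_lit 253) (nat_lit 184))))) (XT.nd (nat_lit 234) (nat_lit 152) (nat_lit 0) (XT.nd (nat_lit 78) (nat_lit 0) (nat_lit 0) (XT.lf (nat_lit 0) (nat_lit 8111776083) (nat_lit 76) (nat_lit 23529119885) (nat_lit 152) (nat_lit 23258656098) (nat_lit 7) (nat_lit 5) (nat_lit 8) (nat_lit 5) (nat_lit 9) (nat_lit 4) (nat_lit 284) (nat_lit 253) (nat_lit 183)) (XT.nd (nat_lit 78) (nat_lit 0) (nat_lit 0) (XT.lf (nat_lit 0) (nat_lit 24357265990) (nat_lit 76) (nat_lit 15103404811) (nat_lit 152) (nat_lit 19020256324) (nat_lit 7) (nat_lit 5) (nat_lit 8) (nat_lit 5) (nat_lit 9) (nat_lit 4) (nat_lit 285) (nat_lit 253) (nat_lit 182)) (XT.lf (nat_lit 0) (nat_lit 41892381713) (nat_lit 76) (nat_lit 6007376840)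 (nat_lit 152) (nat_lit 14449583627) (nat_lit 7) (nat_lit 5) (nat_lit 8) (nat_lit 5) (nat_lit 9) (nat_lit 4) (nat_lit 286) (nat_lit 253) (nat_lit 181)))) (XT.nd (nat_lit 78) (nat_lit 152) (nat_lit 0) (XT.lf (nat_lit 0) (nat_lit 57099868161) (nat_lit 152) (nat_lit 5798385653) (nat_lit 0) (nat_lit 3622131394) (nat_lit 7) (nat_lit 5) (nat_lit 9) (nat_lit 4) (nat_lit 7) (nat_lit 4) (nat_lit 287) (nat_lit 253) (nat_lit 180)) (XT.nd (nat_lit 78) (nat_lit 76) (nat_lit 0) (XT.lf (nat_lit 0) (nat_lit 10387502282) (nat_lit 76) (nat_lit 57048887779) (nat_lit 76) (nat_lit 3556713743) (nat_lit 6) (nat_lit 4) (nat_lit 7) (nat_lit 5) (nat_lit 7) (nat_lit 4) (nat_lit 288) (nat_lit 253) (nat_lit 179)) (XT.lf (nat_lit 0) (nat_lit 2794557184) (nat_lit 152) (nat_lit 47692862933) (nat_lit 76) (nat_lit 25318320104) (nat_lit 5) (nat_lit 5) (nat_lit 7) (nat_lit 5) (nat_lit 6) (nat_lit 4) (nat_lit 289) (nat_lit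 253) (nat_lit 178))))))))
noncomputable def xc75 : XT := (XT.nd (nat_lit 1794) (nat_lit 0) (nat_lit 0) (XT.nd (nat_lit 858) (nat_lit 152) (nat_lit 0) (XT.nd (nat_lit 390) (nat_lit 76) (nat_lit 0) (XT.nd (nat_lit 156) (nat_lit 76) (nat_lit 0) (XT.nd (nat_lit 78) (nat_lit 0) (nat_lit 0) (XT.lf (nat_lit 0) (nat_lit 9456759865) (nat_lit 152) (nat_lit 33847858987) (nat_lit 76) (nat_lit 37691798700) (nat_lit 5) (nat_lit 5) (nat_lit 7) (nat_lit 5) (nat_lit 6) (nat_lit 4) (nat_lit 290) (nat_lit 253) (nat_lit 177)) (XT.lf (nat_lit 0) (nat_lit 16647295246) (nat_lit 152) (nat_lit 18903006165) (nat_lit 76) (nat_lit 51052437078) (nat_lit 5) (nat_lit 5) (nat_lit 7) (nat_lit 5) (nat_lit 6) (nat_lit 4) (nat_lit 291) (nat_lit 253) (nat_lit 176))) (XT.nd (nat_lit 78) (nat_lit 76) (nat_lit 0) (XT.lf (nat_lit 0) (nat_lit 24408773906) (nat_lit 152) (nat_lit 2769742375) (nat_lit 76) (nat_lit 65479409393)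 (nat_lit 5) (nat_lit 5) (nat_lit 7) (nat_lit 5) (nat_lit 6) (nat_lit 4) (nat_lit 292) (nat_lit 253) (nat_lit 175)) (XT.nd (nat_lit 78) (nat_lit 0) (nat_lit 0) (XT.lf (nat_lit 0) (nat_lit 15418850243) (nat_lit 76) (nat_lit 17739163269) (nat_lit 152) (nat_lit 66010182289) (nat_lit 4) (nat_lit 5) (nat_lit 5) (nat_lit 5) (nat_lit 6) (nat_lit 4) (nat_lit 293) (nat_lit 253) (nat_lit 174)) (XT.lf (nat_lit 0) (nat_lit 35213570608) (nat_lit 76) (nat_lit 7465509391) (nat_lit 152) (nat_lit 63514470762) (nat_lit 4) (nat_lit 5) (nat_lit 5) (nat_lit 5) (nat_lit 6) (nat_lit 4) (nat_lit 294) (nat_lit 253) (nat_lit 173))))) (XT.nd (nat_lit 234) (nat_lit 76) (nat_lit 0) (XT.nd (nat_lit 78) (nat_lit 0) (nat_lit 0) (XT.lf (nat_lit 0) (nat_lit 53045518227) (nat_lit 152) (nat_lit 57282604638) (nat_lit 0) (nat_lit 3446129524) (nat_lit 4) (nat_lit 5) (nat_lit 6) (nat_lit 4) (nat_lit 4) (nat_lit 4) (nat_lit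 295) (nat_lit 253) (nat_lit 172)) (XT.nd (nat_lit 78) (nat_lit 0) (nat_lit 0) (XT.lf (nat_lit 0) (nat_lit 64431832653) (nat_lit 152) (nat_lit 42689123091) (nat_lit 0) (nat_lit 14825221722) (nat_lit 4) (nat_lit 5) (nat_lit 6) (nat_lit 4) (nat_lit 4) (nat_lit 4) (nat_lit 296) (nat_lit 253) (nat_lit 171)) (XT.lf (nat_lit 0) (nat_lit 76725952053) (nat_lit 152) (nat_lit 26933509941) (nat_lit 0) (nat_lit 27112653872) (nat_lit 4) (nat_lit 5) (nat_lit 6) (nat_lit 4) (nat_lit 4) (nat_lit 4) (nat_lit 297) (nat_lit 253) (nat_lit 170)))) (XT.nd (nat_lit 78) (nat_lit 76) (nat_lit 0) (XT.lf (nat_lit 0) (nat_lit 90000730467) (nat_lit 152) (nat_lit 9922398593) (nat_lit 0) (nat_lit 40381240389) (nat_lit 4) (nat_lit 5) (nat_lit 6) (nat_lit 4) (nat_lit 4) (nat_lit 4) (nat_lit 298) (nat_lit 253) (nat_lit 169)) (XT.nd (nat_lit 78) (nat_lit 0) (nat_lit 0) (XT.lf (nat_lit 0) (nat_lit 8889717197) (nat_lit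 76) (nat_lit 95658913964) (nat_lit 76) (nat_lit 46033690649) (nat_lit 3) (nat_lit 4) (nat_lit 4) (nat_lit 5) (nat_lit 4) (nat_lit 4) (nat_lit 299) (nat_lit 253) (nat_lit 168)) (XT.lf (nat_lit 0) (nat_lit 29766629781) (nat_lit 76) (nat_lit 90762461611) (nat_lit 76) (nat_lit 41131929742) (nat_lit 3) (nat_lit 4) (nat_lit 4) (nat_lit 5) (nat_lit 4) (nat_lit 4) (nat_lit 300) (nat_lit 253) (nat_lit 167)))))) (XT.nd (nat_lit 468) (nat_lit 152) (nat_lit 0) (XT.nd (nat_lit 234) (nat_lit 0) (nat_lit 0) (XT.nd (nat_lit 78) (nat_lit 0) (nat_lit 0) (XT.lf (nat_lit 0) (nat_lit 52309558271) (nat_lit 76) (nat_lit 85476051948) (nat_lit 76) (nat_lit 35840604752) (nat_lit 3) (nat_lit 4) (nat_lit 4) (nat_lit 5) (nat_lit 4) (nat_lit 4) (nat_lit 301) (nat_lit 253) (nat_lit 166)) (XT.nd (nat_lit 78) (nat_lit 0) (nat_lit 0) (XT.lf (nat_lit 0) (nat_lit 76652090390) (nat_lit 76) (nat_lit 79768358104) (nat_lit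 76) (nat_lit 30128359678) (nat_lit 3) (nat_lit 4) (nat_lit 4) (nat_lit 5) (nat_lit 4) (nat_lit 4) (nat_lit 302) (nat_lit 253) (nat_lit 165)) (XT.lf (nat_lit 0) (nat_lit 102938478181) (nat_lit 76) (nat_lit 73605556708) (nat_lit 76) (nat_lit 23961344181) (nat_lit 3) (nat_lit 4) (nat_lit 4) (nat_lit 5) (nat_lit 4) (nat_lit 4) (nat_lit 303) (nat_lit 253) (nat_lit 164)))) (XT.nd (nat_lit 78) (nat_lit 0) (nat_lit 0) (XT.lf (nat_lit 0) (nat_lit 131324492832) (nat_lit 76) (nat_lit 66951127454) (nat_lit 76) (nat_lit 17303012982) (nat_lit 3) (nat_lit 4) (nat_lit 4) (nat_lit 5) (nat_lit 4) (nat_lit 4) (nat_lit 304) (nat_lit 253) (nat_lit 163)) (XT.nd (nat_lit 78) (nat_lit 0) (nat_lit 0) (XT.lf (nat_lit 0) (nat_lit 161978347761) (nat_lit 76) (nat_lit 59765636689) (nat_lit 76) (nat_lit 10113909304) (nat_lit 3) (nat_lit 4) (nat_lit 4) (nat_lit 5) (nat_lit 4) (nat_lit 4) (nat_lit 305) (nat_lit 253)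 (nat_lit 162)) (XT.lf (nat_lit 0) (nat_lit 195081695442) (nat_lit 76) (nat_lit 52006503726) (nat_lit 76) (nat_lit 2351431052) (nat_lit 3) (nat_lit 4) (nat_lit 4) (nat_lit 5) (nat_lit 4) (nat_lit 4) (nat_lit 306) (nat_lit 253) (nat_lit 161))))) (XT.nd (nat_lit 234) (nat_lit 76) (nat_lit 0) (XT.nd (nat_lit 78) (nat_lit 0) (nat_lit 0) (XT.lf (nat_lit 0) (nat_lit 5728755532) (nat_lit 152) (nat_lit 37742358657) (nat_lit 76) (nat_lit 224945314002) (nat_lit 2) (nat_lit 5) (nat_lit 4) (nat_lit 5) (nat_lit 3) (nat_lit 4) (nat_lit 307) (nat_lit 253) (nat_lit 160)) (XT.nd (nat_lit 78) (nat_lit 0) (nat_lit 0) (XT.lf (nat_lit 0) (nat_lit 14326890371) (nat_lit 152) (nat_lit 19861106238) (nat_lit 76) (nat_lit 254718606055) (nat_lit 2) (nat_lit 5) (nat_lit 4) (nat_lit 5) (nat_lit 3) (nat_lit 4) (nat_lit 308) (nat_lit 253) (nat_lit 159)) (XT.lf (nat_lit 0) (nat_lit 23611553479) (nat_lit 152) (nat_lit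 551662571) (nat_lit 76) (nat_lit 286872885002) (nat_lit 2) (nat_lit 5) (nat_lit 4) (nat_lit 5) (nat_lit 3) (nat_lit 4) (nat_lit 309) (nat_lit 253) (nat_lit 158)))) (XT.nd (nat_lit 78) (nat_lit 0) (nat_lit 0) (XT.lf (nat_lit 0) (nat_lit 21369381695) (nat_lit 76) (nat_lit 12782317531) (nat_lit 152) (nat_lit 300743247168) (nat_lit 1) (nat_lit 5) (nat_lit 2) (nat_lit 5) (nat_lit 3) (nat_lit 4) (nat_lit 310) (nat_lit 253) (nat_lit 157)) (XT.nd (nat_lit 78) (nat_lit 0) (nat_lit 0) (XT.lf (nat_lit 0) (nat_lit 45073399255) (nat_lit 76) (nat_lit 475556850) (nat_lit 152) (nat_lit 315112434864) (nat_lit 1) (nat_lit 5) (nat_lit 2) (nat_lit 5) (nat_lit 3) (nat_lit 4) (nat_lit 311) (nat_lit 253) (nat_lit 156)) (XT.lf (nat_lit 0) (nat_lit 58165096204) (nat_lit 152) (nat_lit 318125632253) (nat_lit 0) (nat_lit 12173857737) (nat_lit 1) (nat_lit 5) (nat_lit 3) (nat_lit 4) (nat_lit 1) (nat_lit 4) (nat_lit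 312) (nat_lit 253) (nat_lit 155))))))) (XT.nd (nat_lit 858) (nat_lit 0) (nat_lit 0) (XT.nd (nat_lit 390) (nat_lit 0) (nat_lit 0) (XT.nd (nat_lit 156) (nat_lit 0) (nat_lit 0) (XT.nd (nat_lit 78) (nat_lit 0) (nat_lit 0) (XT.lf (nat_lit 0) (nat_lit 71801846028) (nat_lit 152) (nat_lit 320880488380) (nat_lit 0) (nat_lit 25808800205) (nat_lit 1) (nat_lit 5) (nat_lit 3) (nat_lit 4) (nat_lit 1) (nat_lit 4) (nat_lit 313) (nat_lit 253) (nat_lit 154)) (XT.lf (nat_lit 0) (nat_lit 86528578792) (nat_lit 152) (nat_lit 323857448014) (nat_lit 0) (nat_lit 40533859492) (nat_lit 1) (nat_lit 5) (nat_lit 3) (nat_lit 4) (nat_lit 1) (nat_lit 4) (nat_lit 314) (nat_lit 253) (nat_lit 153))) (XT.nd (nat_lit 78) (nat_lit 0) (nat_lit 0) (XT.lf (nat_lit 0) (nat_lit 102432564024) (nat_lit 152) (nat_lit 327074152397) (nat_lit 0) (nat_lit 56436295208) (nat_lit 1) (nat_lit 5) (nat_lit 3) (nat_lit 4) (nat_lit 1) (nat_lit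 4) (nat_lit 315) (nat_lit 253) (nat_lit 152)) (XT.nd (nat_lit 78) (nat_lit 0) (nat_lit 0) (XT.lf (nat_lit 0) (nat_lit 119608047562) (nat_lit 152) (nat_lit 330549663481) (nat_lit 0) (nat_lit 73610344008) (nat_lit 1) (nat_lit 5) (nat_lit 3) (nat_lit 4) (nat_lit 1) (nat_lit 4) (nat_lit 316) (nat_lit 253) (nat_lit 151)) (XT.lf (nat_lit 0) (nat_lit 138156810050) (nat_lit 152) (nat_lit 334304576887) (nat_lit 0) (nat_lit 92157778036) (nat_lit 1) (nat_lit 5) (nat_lit 3) (nat_lit 4) (nat_lit 1) (nat_lit 4) (nat_lit 317) (nat_lit 253) (nat_lit 150))))) (XT.nd (nat_lit 234) (nat_lit 0) (nat_lit 0) (XT.nd (nat_lit 78) (nat_lit 0) (nat_lit 0) (XT.lf (nat_lit 0) (nat_lit 158188770079) (nat_lit 152) (nat_lit 338361143955) (nat_lit 0) (nat_lit 112188508009) (nat_lit 1) (nat_lit 5) (nat_lit 3) (nat_lit 4) (nat_lit 1) (nat_lit 4) (nat_lit 318) (nat_lit 253) (nat_lit 149)) (XT.nd (nat_lit 78) (nat_lit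 0) (nat_lit 0) (XT.lf (nat_lit 0) (nat_lit 179822635562) (nat_lit 152) (nat_lit 342743403600) (nat_lit 0) (nat_lit 133821234552) (nat_lit 1) (nat_lit 5) (nat_lit 3) (nat_lit 4) (nat_lit 1) (nat_lit 4) (nat_lit 319) (nat_lit 253) (nat_lit 148)) (XT.lf (nat_lit 0) (nat_lit 203186607183) (nat_lit 152) (nat_lit 347477324768) (nat_lit 0) (nat_lit 157184151597) (nat_lit 1) (nat_lit 5) (nat_lit 3) (nat_lit 4) (nat_lit 1) (nat_lit 4) (nat_lit 320) (nat_lit 253) (nat_lit 147)))) (XT.nd (nat_lit 78) (nat_lit 0) (nat_lit 0) (XT.lf (nat_lit 0) (nat_lit 228419138106) (nat_lit 152) (nat_lit 352590960326) (nat_lit 0) (nat_lit 182415706063) (nat_lit 1) (nat_lit 5) (nat_lit 3) (nat_lit 4) (nat_lit 1) (nat_lit 4) (nat_lit 321) (nat_lit 253) (nat_lit 146)) (XT.nd (nat_lit 78) (nat_lit 0) (nat_lit 0) (XT.lf (nat_lit 0) (nat_lit 255669754441) (nat_lit 152) (nat_lit 358114613298) (nat_lit 0) (nat_lit 209665418270)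 (nat_lit 1) (nat_lit 5) (nat_lit 3) (nat_lit 4) (nat_lit 1) (nat_lit 4) (nat_lit 322) (nat_lit 253) (nat_lit 145)) (XT.lf (nat_lit 0) (nat_lit 285099941322) (nat_lit 152) (nat_lit 364081016443) (nat_lit 0) (nat_lit 239094767996) (nat_lit 1) (nat_lit 5) (nat_lit 3) (nat_lit 4) (nat_lit 1) (nat_lit 4) (nat_lit 323) (nat_lit 253) (nat_lit 144)))))) (XT.nd (nat_lit 468) (nat_lit 0) (nat_lit 0) (XT.nd (nat_lit 234) (nat_lit 0) (nat_lit 0) (XT.nd (nat_lit 78) (nat_lit 0) (nat_lit 0) (XT.lf (nat_lit 0) (nat_lit 316884099856) (nat_lit 152) (nat_lit 370525526225) (nat_lit 0) (nat_lit 270878151386) (nat_lit 1) (nat_lit 5) (nat_lit 3) (nat_lit 4) (nat_lit 1) (nat_lit 4) (nat_lit 324) (nat_lit 253) (nat_lit 143)) (XT.nd (nat_lit 78) (nat_lit 0) (nat_lit 0) (XT.lf (nat_lit 0) (nat_lit 351210580613) (nat_lit 152) (nat_lit 377486332331) (nat_lit 0) (nat_lit 305203914416) (nat_lit 1) (nat_lit 5) (nat_lit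 3) (nat_lit 4) (nat_lit 1) (nat_lit 4) (nat_lit 325) (nat_lit 253) (nat_lit 142)) (XT.lf (nat_lit 0) (nat_lit 388282799774) (nat_lit 152) (nat_lit 385004683982) (nat_lit 0) (nat_lit 342275469017) (nat_lit 1) (nat_lit 5) (nat_lit 3) (nat_lit 4) (nat_lit 1) (nat_lit 4) (nat_lit 326) (nat_lit 253) (nat_lit 141)))) (XT.nd (nat_lit 78) (nat_lit 0) (nat_lit 0) (XT.lf (nat_lit 0) (nat_lit 428320444564) (nat_lit 152) (nat_lit 393125134373) (nat_lit 0) (nat_lit 382312498473) (nat_lit 1) (nat_lit 5) (nat_lit 3) (nat_lit 4) (nat_lit 1) (nat_lit 4) (nat_lit 327) (nat_lit 253) (nat_lit 140)) (XT.nd (nat_lit 78) (nat_lit 0) (nat_lit 0) (XT.lf (nat_lit 0) (nat_lit 471560775101) (nat_lit 152) (nat_lit 401895804692) (nat_lit 0) (nat_lit 425552259256) (nat_lit 1) (nat_lit 5) (nat_lit 3) (nat_lit 4) (nat_lit 1) (nat_lit 4) (nat_lit 328) (nat_lit 253) (nat_lit 139)) (XT.lf (nat_lit 0) (nat_lit 518260030380)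 (nat_lit 152) (nat_lit 411368669281) (nat_lit 0) (nat_lit 472250986985) (nat_lit 1) (nat_lit 5) (nat_lit 3) (nat_lit 4) (nat_lit 1) (nat_lit 4) (nat_lit 329) (nat_lit 253) (nat_lit 138))))) (XT.nd (nat_lit 31590) (nat_lit 0) (nat_lit 2508) (XT.nd (nat_lit 78) (nat_lit 0) (nat_lit 0) (XT.lf (nat_lit 0) (nat_lit 568694946729) (nat_lit 152) (nat_lit 421599863635) (nat_lit 0) (nat_lit 522685414862) (nat_lit 1) (nat_lit 5) (nat_lit 3) (nat_lit 4) (nat_lit 1) (nat_lit 4) (nat_lit 330) (nat_lit 253) (nat_lit 137)) (XT.nd (nat_lit 78) (nat_lit 0) (nat_lit 0) (XT.lf (nat_lit 0) (nat_lit 623164397726) (nat_lit 152) (nat_lit 432650017053) (nat_lit 0) (nat_lit 577154413570) (nat_lit 1) (nat_lit 5) (nat_lit 3) (nat_lit 4) (nat_lit 1) (nat_lit 4) (nat_lit 331) (nat_lit 253) (nat_lit 136)) (XT.lf (nat_lit 0) (nat_lit 681991165303) (nat_lit 152) (nat_lit 444584611925) (nat_lit 0) (nat_lit 635980762361)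 (nat_lit 1) (nat_lit 5) (nat_lit 3) (nat_lit 4) (nat_lit 1) (nat_lit 4) (nat_lit 332) (nat_lit 253) (nat_lit 135)))) (XT.nd (nat_lit 78) (nat_lit 0) (nat_lit 0) (XT.lf (nat_lit 0) (nat_lit 2477095917) (nat_lit 0) (nat_lit 2477095917) (nat_lit 380) (nat_lit 1247593777) (nat_lit 34) (nat_lit 5) (nat_lit 34) (nat_lit 3) (nat_lit 39) (nat_lit 3) (nat_lit 254) (nat_lit 254) (nat_lit 212)) (XT.nd (nat_lit 78) (nat_lit 0) (nat_lit 0) (XT.lf (nat_lit 0) (nat_lit 10344826731) (nat_lit 0) (nat_lit 333209111) (nat_lit 380) (nat_lit 2188473422) (nat_lit 34) (nat_lit 5) (nat_lit 34) (nat_lit 3) (nat_lit 39) (nat_lit 3) (nat_lit 255) (nat_lit 254) (nat_lit 211)) (XT.lf (nat_lit 76) (nat_lit 2806147045) (nat_lit 0) (nat_lit 8845712376) (nat_lit 456) (nat_lit 1703549094) (nat_lit 35) (nat_lit 5) (nat_lit 34) (nat_lit 5) (nat_lit 40) (nat_lit 5) (nat_lit 256) (nat_lit 254) (nat_lit 210))))))))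
noncomputable def xc76 : XT := (XT.nd (nat_lit 1794) (nat_lit 608) (nat_lit 0) (XT.nd (nat_lit 858) (nat_lit 760) (nat_lit 0) (XT.nd (nat_lit 390) (nat_lit 608) (nat_lit 0) (XT.nd (nat_lit 156) (nat_lit 380) (nat_lit 0) (XT.nd (nat_lit 78) (nat_lit 0) (nat_lit 76) (XT.lf (nat_lit 76) (nat_lit 8672625010) (nat_lit 0) (nat_lit 4073653520) (nat_lit 456) (nat_lit 1134035363) (nat_lit 35) (nat_lit 5) (nat_lit 34) (nat_lit 5) (nat_lit 40) (nat_lit 5) (nat_lit 257) (nat_lit 254) (nat_lit 209)) (XT.lf (nat_lit 76) (nat_lit 538784687) (nat_lit 0) (nat_lit 13396564339) (nat_lit 456) (nat_lit 511581290) (nat_lit 36) (nat_lit 5) (nat_lit 35) (nat_lit 5) (nat_lit 41) (nat_lit 5) (nat_lit 258) (nat_lit 254) (nat_lit 208))) (XT.nd (nat_lit 78) (nat_lit 0) (nat_lit 0) (XT.lf (nat_lit 0) (nat_lit 373466714) (nat_lit 456) (nat_lit 8144402353) (nat_lit 532) (nat_lit 6523276643) (nat_lit 29) (nat_lit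 5) (nat_lit 35) (nat_lit 5) (nat_lit 36) (nat_lit 5) (nat_lit 259) (nat_lit 254) (nat_lit 207)) (XT.nd (nat_lit 78) (nat_lit 0) (nat_lit 76) (XT.lf (nat_lit 0) (nat_lit 1272920552) (nat_lit 456) (nat_lit 1955706391) (nat_lit 532) (nat_lit 12455736500) (nat_lit 29) (nat_lit 5) (nat_lit 35) (nat_lit 5) (nat_lit 36) (nat_lit 5) (nat_lit 260) (nat_lit 254) (nat_lit 206)) (XT.lf (nat_lit 0) (nat_lit 2399825089) (nat_lit 456) (nat_lit 11480029744) (nat_lit 76) (nat_lit 2486954754) (nat_lit 30) (nat_lit 5) (nat_lit 36) (nat_lit 5) (nat_lit 31) (nat_lit 5) (nat_lit 261) (nat_lit 254) (nat_lit 205))))) (XT.nd (nat_lit 234) (nat_lit 228) (nat_lit 0) (XT.nd (nat_lit 78) (nat_lit 456) (nat_lit 0) (XT.lf (nat_lit 0) (nat_lit 3730559937) (nat_lit 456) (nat_lit 4819881016) (nat_lit 76) (nat_lit 8544511181) (nat_lit 30) (nat_lit 5) (nat_lit 36) (nat_lit 5) (nat_lit 31) (nat_lit 5) (nat_lit 262) (nat_lit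 254) (nat_lit 204)) (XT.nd (nat_lit 78) (nat_lit 0) (nat_lit 0) (XT.lf (nat_lit 0) (nat_lit 2475676894) (nat_lit 456) (nat_lit 2728428005) (nat_lit 532) (nat_lit 12674513590) (nat_lit 24) (nat_lit 5) (nat_lit 30) (nat_lit 5) (nat_lit 31) (nat_lit 5) (nat_lit 263) (nat_lit 254) (nat_lit 203)) (XT.lf (nat_lit 0) (nat_lit 6994404080) (nat_lit 532) (nat_lit 8197133614) (nat_lit 76) (nat_lit 3517697943) (nat_lit 24) (nat_lit 5) (nat_lit 31) (nat_lit 5) (nat_lit 25) (nat_lit 5) (nat_lit 264) (nat_lit 254) (nat_lit 202)))) (XT.nd (nat_lit 78) (nat_lit 228) (nat_lit 0) (XT.lf (nat_lit 0) (nat_lit 8978481764) (nat_lit 532) (nat_lit 506713712) (nat_lit 76) (nat_lit 10117217072) (nat_lit 24) (nat_lit 5) (nat_lit 31) (nat_lit 5) (nat_lit 25) (nat_lit 5) (nat_lit 265) (nat_lit 254) (nat_lit 201)) (XT.nd (nat_lit 78) (nat_lit 0) (nat_lit 0) (XT.lf (nat_lit 0) (nat_lit 8189164924) (nat_lit 228) (nat_lit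 3110261378) (nat_lit 304) (nat_lit 9253509352) (nat_lit 21) (nat_lit 5) (nat_lit 24) (nat_lit 5) (nat_lit 25) (nat_lit 5) (nat_lit 266) (nat_lit 254) (nat_lit 200)) (XT.lf (nat_lit 0) (nat_lit 13893144713) (nat_lit 304) (nat_lit 4080476706) (nat_lit 76) (nat_lit 3599044002) (nat_lit 21) (nat_lit 5) (nat_lit 25) (nat_lit 5) (nat_lit 22) (nat_lit 5) (nat_lit 267) (nat_lit 254) (nat_lit 199)))))) (XT.nd (nat_lit 468) (nat_lit 228) (nat_lit 0) (XT.nd (nat_lit 234) (nat_lit 228) (nat_lit 0) (XT.nd (nat_lit 78) (nat_lit 152) (nat_lit 0) (XT.lf (nat_lit 0) (nat_lit 5016691866) (nat_lit 152) (nat_lit 11862535153) (nat_lit 228) (nat_lit 5780080088) (nat_lit 19) (nat_lit 5) (nat_lit 21) (nat_lit 5) (nat_lit 22) (nat_lit 5) (nat_lit 268) (nat_lit 254) (nat_lit 198)) (XT.nd (nat_lit 78) (nat_lit 152) (nat_lit 0) (XT.lf (nat_lit 0) (nat_lit 15055215998) (nat_lit 152) (nat_lit 5144759318) (nat_lit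 228) (nat_lit 3625356210) (nat_lit 19) (nat_lit 5) (nat_lit 21) (nat_lit 5) (nat_lit 22) (nat_lit 5) (nat_lit 269) (nat_lit 254) (nat_lit 197)) (XT.lf (nat_lit 0) (nat_lit 782234187) (nat_lit 152) (nat_lit 23059039661) (nat_lit 228) (nat_lit 1239078145) (nat_lit 17) (nat_lit 5) (nat_lit 19) (nat_lit 5) (nat_lit 20) (nat_lit 5) (nat_lit 270) (nat_lit 254) (nat_lit 196)))) (XT.nd (nat_lit 78) (nat_lit 152) (nat_lit 0) (XT.lf (nat_lit 0) (nat_lit 1636336264) (nat_lit 228) (nat_lit 15009807711) (nat_lit 76) (nat_lit 9757932198) (nat_lit 16) (nat_lit 5) (nat_lit 19) (nat_lit 5) (nat_lit 17) (nat_lit 5) (nat_lit 271) (nat_lit 254) (nat_lit 195)) (XT.nd (nat_lit 78) (nat_lit 152) (nat_lit 0) (XT.lf (nat_lit 0) (nat_lit 4661436285) (nat_lit 228) (nat_lit 5027943647) (nat_lit 76) (nat_lit 18142899669) (nat_lit 16) (nat_lit 5) (nat_lit 19) (nat_lit 5) (nat_lit 17) (nat_lit 5) (nat_lit 272) (nat_lit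 254) (nat_lit 194)) (XT.lf (nat_lit 0) (nat_lit 6038496061) (nat_lit 152) (nat_lit 2022862057) (nat_lit 228) (nat_lit 21302833497) (nat_lit 14) (nat_lit 5) (nat_lit 16) (nat_lit 5) (nat_lit 17) (nat_lit 5) (nat_lit 273) (nat_lit 254) (nat_lit 193))))) (XT.nd (nat_lit 234) (nat_lit 76) (nat_lit 0) (XT.nd (nat_lit 78) (nat_lit 152) (nat_lit 0) (XT.lf (nat_lit 0) (nat_lit 12012838311) (nat_lit 228) (nat_lit 12902083280) (nat_lit 76) (nat_lit 6081441513) (nat_lit 14) (nat_lit 5) (nat_lit 17) (nat_lit 5) (nat_lit 15) (nat_lit 5) (nat_lit 274) (nat_lit 254) (nat_lit 192)) (XT.nd (nat_lit 78) (nat_lit 152) (nat_lit 0) (XT.lf (nat_lit 0) (nat_lit 16321905219) (nat_lit 228) (nat_lit 1712464542) (nat_lit 76) (nat_lit 14721487457) (nat_lit 14) (nat_lit 5) (nat_lit 17) (nat_lit 5) (nat_lit 15) (nat_lit 5) (nat_lit 275) (nat_lit 254) (nat_lit 191)) (XT.lf (nat_lit 0) (nat_lit 10903559601) (nat_lit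 152) (nat_lit 10324115444) (nat_lit 228) (nat_lit 13408339070) (nat_lit 12) (nat_lit 5) (nat_lit 14) (nat_lit 5) (nat_lit 15) (nat_lit 5) (nat_lit 276) (nat_lit 254) (nat_lit 190)))) (XT.nd (nat_lit 78) (nat_lit 76) (nat_lit 0) (XT.lf (nat_lit 0) (nat_lit 24612410351) (nat_lit 152) (nat_lit 1950491153) (nat_lit 228) (nat_lit 10100779357) (nat_lit 12) (nat_lit 5) (nat_lit 14) (nat_lit 5) (nat_lit 15) (nat_lit 5) (nat_lit 277) (nat_lit 254) (nat_lit 189)) (XT.nd (nat_lit 78) (nat_lit 0) (nat_lit 0) (XT.lf (nat_lit 0) (nat_lit 400337026) (nat_lit 76) (nat_lit 32095636214) (nat_lit 152) (nat_lit 6343958224) (nat_lit 11) (nat_lit 5) (nat_lit 12) (nat_lit 5) (nat_lit 13) (nat_lit 4) (nat_lit 278) (nat_lit 254) (nat_lit 188)) (XT.lf (nat_lit 0) (nat_lit 14466941455) (nat_lit 76) (nat_lit 24806807462) (nat_lit 152) (nat_lit 1886977326) (nat_lit 11) (nat_lit 5) (nat_lit 12) (nat_lit 5) (nat_lit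 13) (nat_lit 4) (nat_lit 279) (nat_lit 254) (nat_lit 187))))))) (XT.nd (nat_lit 858) (nat_lit 152) (nat_lit 0) (XT.nd (nat_lit 390) (nat_lit 228) (nat_lit 0) (XT.nd (nat_lit 156) (nat_lit 152) (nat_lit 0) (XT.nd (nat_lit 78) (nat_lit 0) (nat_lit 0) (XT.lf (nat_lit 0) (nat_lit 2771737665) (nat_lit 152) (nat_lit 14091372605) (nat_lit 76) (nat_lit 26799159521) (nat_lit 10) (nat_lit 5) (nat_lit 12) (nat_lit 5) (nat_lit 11) (nat_lit 5) (nat_lit 280) (nat_lit 254) (nat_lit 186)) (XT.lf (nat_lit 0) (nat_lit 7693402318) (nat_lit 152) (nat_lit 541519058) (nat_lit 76) (nat_lit 38125757323) (nat_lit 10) (nat_lit 5) (nat_lit 12) (nat_lit 5) (nat_lit 11) (nat_lit 5) (nat_lit 281) (nat_lit 254) (nat_lit 185))) (XT.nd (nat_lit 78) (nat_lit 0) (nat_lit 0) (XT.lf (nat_lit 0) (nat_lit 13393299392) (nat_lit 228) (nat_lit 34459327799) (nat_lit 76) (nat_lit 1391609047) (nat_lit 8) (nat_lit 5) (nat_lit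 11) (nat_lit 5) (nat_lit 9) (nat_lit 4) (nat_lit 282) (nat_lit 254) (nat_lit 184)) (XT.nd (nat_lit 78) (nat_lit 0) (nat_lit 0) (XT.lf (nat_lit 0) (nat_lit 19771241613) (nat_lit 228) (nat_lit 21214421064) (nat_lit 76) (nat_lit 11355084636) (nat_lit 8) (nat_lit 5) (nat_lit 11) (nat_lit 5) (nat_lit 9) (nat_lit 4) (nat_lit 283) (nat_lit 254) (nat_lit 183)) (XT.lf (nat_lit 0) (nat_lit 26652908706) (nat_lit 228) (nat_lit 6920195256) (nat_lit 76) (nat_lit 22112426896) (nat_lit 8) (nat_lit 5) (nat_lit 11) (nat_lit 5) (nat_lit 9) (nat_lit 4) (nat_lit 284) (nat_lit 254) (nat_lit 182))))) (XT.nd (nat_lit 234) (nat_lit 152) (nat_lit 0) (XT.nd (nat_lit 78) (nat_lit 0) (nat_lit 0) (XT.lf (nat_lit 0) (nat_lit 8956075308) (nat_lit 76) (nat_lit 25338399438) (nat_lit 152) (nat_lit 24986701559) (nat_lit 7) (nat_lit 5) (nat_lit 8) (nat_lit 5) (nat_lit 9) (nat_lit 4) (nat_lit 285) (nat_lit 254) (nat_lit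 181)) (XT.nd (nat_lit 78) (nat_lit 0) (nat_lit 0) (XT.lf (nat_lit 0) (nat_lit 26486733509) (nat_lit 76) (nat_lit 16244038271) (nat_lit 152) (nat_lit 20419055508) (nat_lit 7) (nat_lit 5) (nat_lit 8) (nat_lit 5) (nat_lit 9) (nat_lit 4) (nat_lit 286) (nat_lit 254) (nat_lit 180)) (XT.lf (nat_lit 0) (nat_lit 45411259509) (nat_lit 76) (nat_lit 6425338353) (nat_lit 152) (nat_lit 15491826871) (nat_lit 7) (nat_lit 5) (nat_lit 8) (nat_lit 5) (nat_lit 9) (nat_lit 4) (nat_lit 287) (nat_lit 254) (nat_lit 179)))) (XT.nd (nat_lit 78) (nat_lit 152) (nat_lit 0) (XT.lf (nat_lit 0) (nat_lit 61766343582) (nat_lit 152) (nat_lit 6100362191) (nat_lit 0) (nat_lit 3966990513) (nat_lit 7) (nat_lit 5) (nat_lit 9) (nat_lit 4) (nat_lit 7) (nat_lit 4) (nat_lit 288) (nat_lit 254) (nat_lit 178)) (XT.nd (nat_lit 78) (nat_lit 76) (nat_lit 0) (XT.lf (nat_lit 0) (nat_lit 11376298189) (nat_lit 76) (nat_lit 61549988778)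 (nat_lit 76) (nat_lit 3738258079) (nat_lit 6) (nat_lit 4) (nat_lit 7) (nat_lit 5) (nat_lit 7) (nat_lit 4) (nat_lit 289) (nat_lit 254) (nat_lit 177)) (XT.lf (nat_lit 0) (nat_lit 3108714951) (nat_lit 152) (nat_lit 51357064369) (nat_lit 76) (nat_lit 27396822693) (nat_lit 5) (nat_lit 5) (nat_lit 7) (nat_lit 5) (nat_lit 6) (nat_lit 4) (nat_lit 290) (nat_lit 254) (nat_lit 176)))))) (XT.nd (nat_lit 468) (nat_lit 76) (nat_lit 0) (XT.nd (nat_lit 234) (nat_lit 76) (nat_lit 0) (XT.nd (nat_lit 78) (nat_lit 0) (nat_lit 0) (XT.lf (nat_lit 0) (nat_lit 10297183240) (nat_lit 152) (nat_lit 36415662151) (nat_lit 76) (nat_lit 40756250911) (nat_lit 5) (nat_lit 5) (nat_lit 7) (nat_lit 5) (nat_lit 6) (nat_lit 4) (nat_lit 291) (nat_lit 254) (nat_lit 175)) (XT.nd (nat_lit 78) (nat_lit 0) (nat_lit 0) (XT.lf (nat_lit 0) (nat_lit 18056747926) (nat_lit 152) (nat_lit 20285593366) (nat_lit 76) (nat_lit 55182102707)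 (nat_lit 5) (nat_lit 5) (nat_lit 7) (nat_lit 5) (nat_lit 6) (nat_lit 4) (nat_lit 292) (nat_lit 254) (nat_lit 174)) (XT.lf (nat_lit 0) (nat_lit 26433391616) (nat_lit 152) (nat_lit 2871272421) (nat_lit 76) (nat_lit 70759864610) (nat_lit 5) (nat_lit 5) (nat_lit 7) (nat_lit 5) (nat_lit 6) (nat_lit 4) (nat_lit 293) (nat_lit 254) (nat_lit 173)))) (XT.nd (nat_lit 78) (nat_lit 0) (nat_lit 0) (XT.lf (nat_lit 0) (nat_lit 16769368382) (nat_lit 76) (nat_lit 19110689008) (nat_lit 152) (nat_lit 71215784612) (nat_lit 4) (nat_lit 5) (nat_lit 5) (nat_lit 5) (nat_lit 6) (nat_lit 4) (nat_lit 294) (nat_lit 254) (nat_lit 172)) (XT.nd (nat_lit 78) (nat_lit 0) (nat_lit 0) (XT.lf (nat_lit 0) (nat_lit 38138998960) (nat_lit 76) (nat_lit 8018669288) (nat_lit 152) (nat_lit 68525987442) (nat_lit 4) (nat_lit 5) (nat_lit 5) (nat_lit 5) (nat_lit 6) (nat_lit 4) (nat_lit 295) (nat_lit 254) (nat_lit 171)) (XT.lf (nat_lit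 0) (nat_lit 57349643014) (nat_lit 152) (nat_lit 61760896629) (nat_lit 0) (nat_lit 3760593731) (nat_lit 4) (nat_lit 5) (nat_lit 6) (nat_lit 4) (nat_lit 4) (nat_lit 4) (nat_lit 296) (nat_lit 254) (nat_lit 170))))) (XT.nd (nat_lit 234) (nat_lit 76) (nat_lit 0) (XT.nd (nat_lit 78) (nat_lit 0) (nat_lit 0) (XT.lf (nat_lit 0) (nat_lit 69642382348) (nat_lit 152) (nat_lit 46007663697) (nat_lit 0) (nat_lit 16047141167) (nat_lit 4) (nat_lit 5) (nat_lit 6) (nat_lit 4) (nat_lit 4) (nat_lit 4) (nat_lit 297) (nat_lit 254) (nat_lit 169)) (XT.nd (nat_lit 78) (nat_lit 0) (nat_lit 0) (XT.lf (nat_lit 0) (nat_lit 82915882923) (nat_lit 152) (nat_lit 28998756254) (nat_lit 0) (nat_lit 29314908504) (nat_lit 4) (nat_lit 5) (nat_lit 6) (nat_lit 4) (nat_lit 4) (nat_lit 4) (nat_lit 298) (nat_lit 254) (nat_lit 168)) (XT.lf (nat_lit 0) (nat_lit 97248802520) (nat_lit 152) (nat_lit 10633380775) (nat_lit 0) (nat_lit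 43642519548) (nat_lit 4) (nat_lit 5) (nat_lit 6) (nat_lit 4) (nat_lit 4) (nat_lit 4) (nat_lit 299) (nat_lit 254) (nat_lit 167)))) (XT.nd (nat_lit 78) (nat_lit 0) (nat_lit 0) (XT.lf (nat_lit 0) (nat_lit 9681607830) (nat_lit 76) (nat_lit 103277312032) (nat_lit 76) (nat_lit 49666113732) (nat_lit 3) (nat_lit 4) (nat_lit 4) (nat_lit 5) (nat_lit 4) (nat_lit 4) (nat_lit 300) (nat_lit 254) (nat_lit 166)) (XT.nd (nat_lit 78) (nat_lit 0) (nat_lit 0) (XT.lf (nat_lit 0) (nat_lit 32222694661) (nat_lit 76) (nat_lit 97991685346) (nat_lit 76) (nat_lit 44375935817) (nat_lit 3) (nat_lit 4) (nat_lit 4) (nat_lit 5) (nat_lit 4) (nat_lit 4) (nat_lit 301) (nat_lit 254) (nat_lit 165)) (XT.lf (nat_lit 0) (nat_lit 56563521541) (nat_lit 76) (nat_lit 92284716480) (nat_lit 76) (nat_lit 38664752850) (nat_lit 3) (nat_lit 4) (nat_lit 4) (nat_lit 5) (nat_lit 4) (nat_lit 4) (nat_lit 302) (nat_lit 254) (nat_lit 164))))))))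
noncomputable def xc77 : XT := (XT.nd (nat_lit 1794) (nat_lit 0) (nat_lit 0) (XT.nd (nat_lit 858) (nat_lit 0) (nat_lit 0) (XT.nd (nat_lit 390) (nat_lit 152) (nat_lit 0) (XT.nd (nat_lit 156) (nat_lit 0) (nat_lit 0) (XT.nd (nat_lit 78) (nat_lit 0) (nat_lit 0) (XT.lf (nat_lit 0) (nat_lit 82848330407) (nat_lit 76) (nat_lit 86122586360) (nat_lit 76) (nat_lit 32498720784) (nat_lit 3) (nat_lit 4) (nat_lit 4) (nat_lit 5) (nat_lit 4) (nat_lit 4) (nat_lit 303) (nat_lit 254) (nat_lit 163)) (XT.lf (nat_lit 0) (nat_lit 111232883090) (nat_lit 76) (nat_lit 79468778659) (nat_lit 76) (nat_lit 25841300171) (nat_lit 3) (nat_lit 4) (nat_lit 4) (nat_lit 5) (nat_lit 4) (nat_lit 4) (nat_lit 304) (nat_lit 254) (nat_lit 162))) (XT.nd (nat_lit 78) (nat_lit 0) (nat_lit 0) (XT.lf (nat_lit 0) (nat_lit 141885384345) (nat_lit 76) (nat_lit 72283863405) (nat_lit 76) (nat_lit 18653039627) (nat_lit 3) (nat_lit 4) (nat_lit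 4) (nat_lit 5) (nat_lit 4) (nat_lit 4) (nat_lit 305) (nat_lit 254) (nat_lit 161)) (XT.nd (nat_lit 78) (nat_lit 0) (nat_lit 0) (XT.lf (nat_lit 0) (nat_lit 174987478625) (nat_lit 76) (nat_lit 64525263322) (nat_lit 76) (nat_lit 10891342055) (nat_lit 3) (nat_lit 4) (nat_lit 4) (nat_lit 5) (nat_lit 4) (nat_lit 4) (nat_lit 306) (nat_lit 254) (nat_lit 160)) (XT.lf (nat_lit 0) (nat_lit 210735326488) (nat_lit 76) (nat_lit 56147001522) (nat_lit 76) (nat_lit 2510212208) (nat_lit 3) (nat_lit 4) (nat_lit 4) (nat_lit 5) (nat_lit 4) (nat_lit 4) (nat_lit 307) (nat_lit 254) (nat_lit 159))))) (XT.nd (nat_lit 234) (nat_lit 76) (nat_lit 0) (XT.nd (nat_lit 78) (nat_lit 0) (nat_lit 0) (XT.lf (nat_lit 0) (nat_lit 6212857785) (nat_lit 152) (nat_lit 40716700718) (nat_lit 76) (nat_lit 242958038706) (nat_lit 2) (nat_lit 5) (nat_lit 4) (nat_lit 5) (nat_lit 3) (nat_lit 4) (nat_lit 308) (nat_lit 254) (nat_lit 158))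 (XT.nd (nat_lit 78) (nat_lit 0) (nat_lit 0) (XT.lf (nat_lit 0) (nat_lit 15496932166) (nat_lit 152) (nat_lit 21408284893) (nat_lit 76) (nat_lit 275111927487) (nat_lit 2) (nat_lit 5) (nat_lit 4) (nat_lit 5) (nat_lit 3) (nat_lit 4) (nat_lit 309) (nat_lit 254) (nat_lit 157)) (XT.lf (nat_lit 0) (nat_lit 25522598651) (nat_lit 152) (nat_lit 557175351) (nat_lit 76) (nat_lit 309837375939) (nat_lit 2) (nat_lit 5) (nat_lit 4) (nat_lit 5) (nat_lit 3) (nat_lit 4) (nat_lit 310) (nat_lit 254) (nat_lit 156)))) (XT.nd (nat_lit 78) (nat_lit 0) (nat_lit 0) (XT.lf (nat_lit 0) (nat_lit 23116574729) (nat_lit 76) (nat_lit 13788648047) (nat_lit 152) (nat_lit 324779543946) (nat_lit 1) (nat_lit 5) (nat_lit 2) (nat_lit 5) (nat_lit 3) (nat_lit 4) (nat_lit 311) (nat_lit 254) (nat_lit 155)) (XT.nd (nat_lit 78) (nat_lit 0) (nat_lit 0) (XT.lf (nat_lit 0) (nat_lit 48714125361) (nat_lit 76) (nat_lit 498550577) (nat_lit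 152) (nat_lit 340299982435) (nat_lit 1) (nat_lit 5) (nat_lit 2) (nat_lit 5) (nat_lit 3) (nat_lit 4) (nat_lit 312) (nat_lit 254) (nat_lit 154)) (XT.lf (nat_lit 0) (nat_lit 62836975491) (nat_lit 152) (nat_lit 343542223513) (nat_lit 0) (nat_lit 13161005169) (nat_lit 1) (nat_lit 5) (nat_lit 3) (nat_lit 4) (nat_lit 1) (nat_lit 4) (nat_lit 313) (nat_lit 254) (nat_lit 153)))))) (XT.nd (nat_lit 468) (nat_lit 0) (nat_lit 0) (XT.nd (nat_lit 234) (nat_lit 0) (nat_lit 0) (XT.nd (nat_lit 78) (nat_lit 0) (nat_lit 0) (XT.lf (nat_lit 0) (nat_lit 77563282219) (nat_lit 152) (nat_lit 346519946598) (nat_lit 0) (nat_lit 27885762382) (nat_lit 1) (nat_lit 5) (nat_lit 3) (nat_lit 4) (nat_lit 1) (nat_lit 4) (nat_lit 314) (nat_lit 254) (nat_lit 152)) (XT.nd (nat_lit 78) (nat_lit 0) (nat_lit 0) (XT.lf (nat_lit 0) (nat_lit 93466872974) (nat_lit 152) (nat_lit 349737357881) (nat_lit 0) (nat_lit 43787918399) (nat_lit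 1) (nat_lit 5) (nat_lit 3) (nat_lit 4) (nat_lit 1) (nat_lit 4) (nat_lit 315) (nat_lit 254) (nat_lit 151)) (XT.lf (nat_lit 0) (nat_lit 110641991256) (nat_lit 152) (nat_lit 353213523501) (nat_lit 0) (nat_lit 60961708221) (nat_lit 1) (nat_lit 5) (nat_lit 3) (nat_lit 4) (nat_lit 1) (nat_lit 4) (nat_lit 316) (nat_lit 254) (nat_lit 150)))) (XT.nd (nat_lit 78) (nat_lit 0) (nat_lit 0) (XT.lf (nat_lit 0) (nat_lit 129190415543) (nat_lit 152) (nat_lit 356969042960) (nat_lit 0) (nat_lit 79508902452) (nat_lit 1) (nat_lit 5) (nat_lit 3) (nat_lit 4) (nat_lit 1) (nat_lit 4) (nat_lit 317) (nat_lit 254) (nat_lit 149)) (XT.nd (nat_lit 78) (nat_lit 0) (nat_lit 0) (XT.lf (nat_lit 0) (nat_lit 149222062424) (nat_lit 152) (nat_lit 361026171187) (nat_lit 0) (nat_lit 99539410392) (nat_lit 1) (nat_lit 5) (nat_lit 3) (nat_lit 4) (nat_lit 1) (nat_lit 4) (nat_lit 318) (nat_lit 254) (nat_lit 148)) (XT.lf (nat_lit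 0) (nat_lit 170855637955) (nat_lit 152) (nat_lit 365408950424) (nat_lit 0) (nat_lit 121171931348) (nat_lit 1) (nat_lit 5) (nat_lit 3) (nat_lit 4) (nat_lit 1) (nat_lit 4) (nat_lit 319) (nat_lit 254) (nat_lit 147))))) (XT.nd (nat_lit 234) (nat_lit 0) (nat_lit 0) (XT.nd (nat_lit 78) (nat_lit 0) (nat_lit 0) (XT.lf (nat_lit 0) (nat_lit 194219341101) (nat_lit 152) (nat_lit 370143352696) (nat_lit 0) (nat_lit 144534658036) (nat_lit 1) (nat_lit 5) (nat_lit 3) (nat_lit 4) (nat_lit 1) (nat_lit 4) (nat_lit 320) (nat_lit 254) (nat_lit 146)) (XT.nd (nat_lit 78) (nat_lit 0) (nat_lit 0) (XT.lf (nat_lit 0) (nat_lit 219451623436) (nat_lit 152) (nat_lit 375257433720) (nat_lit 0) (nat_lit 169766036244) (nat_lit 1) (nat_lit 5) (nat_lit 3) (nat_lit 4) (nat_lit 1) (nat_lit 4) (nat_lit 321) (nat_lit 254) (nat_lit 145)) (XT.lf (nat_lit 0) (nat_lit 246702009598) (nat_lit 152) (nat_lit 380781499161) (nat_lit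 0) (nat_lit 197015585250) (nat_lit 1) (nat_lit 5) (nat_lit 3) (nat_lit 4) (nat_lit 1) (nat_lit 4) (nat_lit 322) (nat_lit 254) (nat_lit 144)))) (XT.nd (nat_lit 78) (nat_lit 0) (nat_lit 0) (XT.lf (nat_lit 0) (nat_lit 276131983355) (nat_lit 152) (nat_lit 386748284223) (nat_lit 0) (nat_lit 226444783863) (nat_lit 1) (nat_lit 5) (nat_lit 3) (nat_lit 4) (nat_lit 1) (nat_lit 4) (nat_lit 323) (nat_lit 254) (nat_lit 143)) (XT.nd (nat_lit 78) (nat_lit 0) (nat_lit 0) (XT.lf (nat_lit 0) (nat_lit 307915944553) (nat_lit 152) (nat_lit 393193147630) (nat_lit 0) (nat_lit 258228027335) (nat_lit 1) (nat_lit 5) (nat_lit 3) (nat_lit 4) (nat_lit 1) (nat_lit 4) (nat_lit 324) (nat_lit 254) (nat_lit 142)) (XT.lf (nat_lit 0) (nat_lit 342242242590) (nat_lit 152) (nat_lit 400154281167) (nat_lit 0) (nat_lit 292553660811) (nat_lit 1) (nat_lit 5) (nat_lit 3) (nat_lit 4) (nat_lit 1) (nat_lit 4) (nat_lit 325) (nat_lit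 254) (nat_lit 141))))))) (XT.nd (nat_lit 32292) (nat_lit 0) (nat_lit 1368) (XT.nd (nat_lit 390) (nat_lit 0) (nat_lit 0) (XT.nd (nat_lit 156) (nat_lit 0) (nat_lit 0) (XT.nd (nat_lit 78) (nat_lit 0) (nat_lit 0) (XT.lf (nat_lit 0) (nat_lit 379314292567) (nat_lit 152) (nat_lit 407672935995) (nat_lit 0) (nat_lit 329625095454) (nat_lit 1) (nat_lit 5) (nat_lit 3) (nat_lit 4) (nat_lit 1) (nat_lit 4) (nat_lit 326) (nat_lit 254) (nat_lit 140)) (XT.lf (nat_lit 0) (nat_lit 419351780705) (nat_lit 152) (nat_lit 415793667106) (nat_lit 0) (nat_lit 369662013838) (nat_lit 1) (nat_lit 5) (nat_lit 3) (nat_lit 4) (nat_lit 1) (nat_lit 4) (nat_lit 327) (nat_lit 254) (nat_lit 139))) (XT.nd (nat_lit 78) (nat_lit 0) (nat_lit 0) (XT.lf (nat_lit 0) (nat_lit 462591966193) (nat_lit 152) (nat_lit 424564597350) (nat_lit 0) (nat_lit 412901671776) (nat_lit 1) (nat_lit 5) (nat_lit 3) (nat_lit 4) (nat_lit 1) (nat_lit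 4) (nat_lit 328) (nat_lit 254) (nat_lit 138)) (XT.nd (nat_lit 78) (nat_lit 0) (nat_lit 0) (XT.lf (nat_lit 0) (nat_lit 509291087168) (nat_lit 152) (nat_lit 434037702611) (nat_lit 0) (nat_lit 459600304279) (nat_lit 1) (nat_lit 5) (nat_lit 3) (nat_lit 4) (nat_lit 1) (nat_lit 4) (nat_lit 329) (nat_lit 254) (nat_lit 137)) (XT.lf (nat_lit 0) (nat_lit 559725879162) (nat_lit 152) (nat_lit 444269119809) (nat_lit 0) (nat_lit 510034643984) (nat_lit 1) (nat_lit 5) (nat_lit 3) (nat_lit 4) (nat_lit 1) (nat_lit 4) (nat_lit 330) (nat_lit 254) (nat_lit 136))))) (XT.nd (nat_lit 31668) (nat_lit 0) (nat_lit 2508) (XT.nd (nat_lit 78) (nat_lit 0) (nat_lit 0) (XT.lf (nat_lit 0) (nat_lit 614195215015) (nat_lit 152) (nat_lit 455319479563) (nat_lit 0) (nat_lit 564503561051) (nat_lit 1) (nat_lit 5) (nat_lit 3) (nat_lit 4) (nat_lit 1) (nat_lit 4) (nat_lit 331) (nat_lit 254) (nat_lit 135)) (XT.nd (nat_lit 31512)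 (nat_lit 0) (nat_lit 2508) (XT.lf (nat_lit 0) (nat_lit 673021875977) (nat_lit 152) (nat_lit 467254265489) (nat_lit 0) (nat_lit 623329834248) (nat_lit 1) (nat_lit 5) (nat_lit 3) (nat_lit 4) (nat_lit 1) (nat_lit 4) (nat_lit 332) (nat_lit 254) (nat_lit 134)) (XT.lf (nat_lit 0) (nat_lit 2857432864) (nat_lit 0) (nat_lit 2857432864) (nat_lit 380) (nat_lit 950656499) (nat_lit 34) (nat_lit 5) (nat_lit 34) (nat_lit 3) (nat_lit 39) (nat_lit 3) (nat_lit 255) (nat_lit 255) (nat_lit 210)))) (XT.nd (nat_lit 78) (nat_lit 0) (nat_lit 0) (XT.lf (nat_lit 0) (nat_lit 11509763376) (nat_lit 0) (nat_lit 697216346) (nat_lit 380) (nat_lit 1628838740) (nat_lit 34) (nat_lit 5) (nat_lit 34) (nat_lit 3) (nat_lit 39) (nat_lit 3) (nat_lit 256) (nat_lit 255) (nat_lit 209)) (XT.nd (nat_lit 78) (nat_lit 0) (nat_lit 0) (XT.lf (nat_lit 76) (nat_lit 3425848947) (nat_lit 0) (nat_lit 9784874898) (nat_lit 456) (nat_lit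 1157391708) (nat_lit 35) (nat_lit 5) (nat_lit 34) (nat_lit 5) (nat_lit 40) (nat_lit 5) (nat_lit 257) (nat_lit 255) (nat_lit 208)) (XT.lf (nat_lit 76) (nat_lit 9732370324) (nat_lit 0) (nat_lit 4613902776) (nat_lit 456) (nat_lit 592868087) (nat_lit 35) (nat_lit 5) (nat_lit 34) (nat_lit 5) (nat_lit 40) (nat_lit 5) (nat_lit 258) (nat_lit 255) (nat_lit 207)))))) (XT.nd (nat_lit 468) (nat_lit 380) (nat_lit 0) (XT.nd (nat_lit 234) (nat_lit 380) (nat_lit 0) (XT.nd (nat_lit 78) (nat_lit 0) (nat_lit 0) (XT.lf (nat_lit 0) (nat_lit 36214336) (nat_lit 456) (nat_lit 14561540102) (nat_lit 532) (nat_lit 956670410) (nat_lit 29) (nat_lit 5) (nat_lit 35) (nat_lit 5) (nat_lit 36) (nat_lit 5) (nat_lit 259) (nat_lit 255) (nat_lit 206)) (XT.nd (nat_lit 78) (nat_lit 0) (nat_lit 0) (XT.lf (nat_lit 0) (nat_lit 922865766) (nat_lit 456) (nat_lit 8383019955) (nat_lit 532) (nat_lit 6892882275) (nat_lit 29) (nat_lit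 5) (nat_lit 35) (nat_lit 5) (nat_lit 36) (nat_lit 5) (nat_lit 260) (nat_lit 255) (nat_lit 205)) (XT.lf (nat_lit 0) (nat_lit 1855792821) (nat_lit 456) (nat_lit 1729816064) (nat_lit 532) (nat_lit 13311217179) (nat_lit 29) (nat_lit 5) (nat_lit 35) (nat_lit 5) (nat_lit 36) (nat_lit 5) (nat_lit 261) (nat_lit 255) (nat_lit 204)))) (XT.nd (nat_lit 78) (nat_lit 456) (nat_lit 0) (XT.lf (nat_lit 0) (nat_lit 3044214959) (nat_lit 456) (nat_lit 11983928890) (nat_lit 76) (nat_lit 2608296563) (nat_lit 30) (nat_lit 5) (nat_lit 36) (nat_lit 5) (nat_lit 31) (nat_lit 5) (nat_lit 262) (nat_lit 255) (nat_lit 203)) (XT.nd (nat_lit 78) (nat_lit 456) (nat_lit 0) (XT.lf (nat_lit 0) (nat_lit 4447897198) (nat_lit 456) (nat_lit 4821672207) (nat_lit 76) (nat_lit 9156206732) (nat_lit 30) (nat_lit 5) (nat_lit 36) (nat_lit 5) (nat_lit 31) (nat_lit 5) (nat_lit 263) (nat_lit 255) (nat_lit 202)) (XT.lf (nat_lit 0) (nat_lit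 3047813898) (nat_lit 456) (nat_lit 2969479488) (nat_lit 532) (nat_lit 13256846540) (nat_lit 24) (nat_lit 5) (nat_lit 30) (nat_lit 5) (nat_lit 31) (nat_lit 5) (nat_lit 264) (nat_lit 255) (nat_lit 201))))) (XT.nd (nat_lit 234) (nat_lit 152) (nat_lit 0) (XT.nd (nat_lit 78) (nat_lit 228) (nat_lit 0) (XT.lf (nat_lit 0) (nat_lit 7920912242) (nat_lit 532) (nat_lit 8473831445) (nat_lit 76) (nat_lit 3779078748) (nat_lit 24) (nat_lit 5) (nat_lit 31) (nat_lit 5) (nat_lit 25) (nat_lit 5) (nat_lit 265) (nat_lit 255) (nat_lit 200)) (XT.nd (nat_lit 78) (nat_lit 228) (nat_lit 0) (XT.lf (nat_lit 0) (nat_lit 10036534227) (nat_lit 532) (nat_lit 196257422) (nat_lit 76) (nat_lit 10908043484) (nat_lit 24) (nat_lit 5) (nat_lit 31) (nat_lit 5) (nat_lit 25) (nat_lit 5) (nat_lit 266) (nat_lit 255) (nat_lit 199)) (XT.lf (nat_lit 0) (nat_lit 9186405596) (nat_lit 228) (nat_lit 3339807986) (nat_lit 304) (nat_lit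 9642733505) (nat_lit 21) (nat_lit 5) (nat_lit 24) (nat_lit 5) (nat_lit 25) (nat_lit 5) (nat_lit 267) (nat_lit 255) (nat_lit 198)))) (XT.nd (nat_lit 78) (nat_lit 152) (nat_lit 0) (XT.lf (nat_lit 0) (nat_lit 15303945109) (nat_lit 304) (nat_lit 4064445074) (nat_lit 76) (nat_lit 3903921340) (nat_lit 21) (nat_lit 5) (nat_lit 25) (nat_lit 5) (nat_lit 22) (nat_lit 5) (nat_lit 268) (nat_lit 255) (nat_lit 197)) (XT.nd (nat_lit 78) (nat_lit 0) (nat_lit 0) (XT.lf (nat_lit 0) (nat_lit 5751826863) (nat_lit 152) (nat_lit 12762941039) (nat_lit 228) (nat_lit 5932412717) (nat_lit 19) (nat_lit 5) (nat_lit 21) (nat_lit 5) (nat_lit 22) (nat_lit 5) (nat_lit 269) (nat_lit 255) (nat_lit 196)) (XT.lf (nat_lit 0) (nat_lit 16568707026) (nat_lit 152) (nat_lit 5511342910) (nat_lit 228) (nat_lit 3628279356) (nat_lit 19) (nat_lit 5) (nat_lit 21) (nat_lit 5) (nat_lit 22) (nat_lit 5) (nat_lit 270) (nat_lit 255) (nat_lit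 195))))))))
noncomputable def xc78 : XT := (XT.nd (nat_lit 1794) (nat_lit 304) (nat_lit 0) (XT.nd (nat_lit 858) (nat_lit 380) (nat_lit 0) (XT.nd (nat_lit 390) (nat_lit 304) (nat_lit 0) (XT.nd (nat_lit 156) (nat_lit 152) (nat_lit 0) (XT.nd (nat_lit 78) (nat_lit 76) (nat_lit 0) (XT.lf (nat_lit 0) (nat_lit 1167452982) (nat_lit 152) (nat_lit 24834399660) (nat_lit 228) (nat_lit 1062903665) (nat_lit 17) (nat_lit 5) (nat_lit 19) (nat_lit 5) (nat_lit 20) (nat_lit 5) (nat_lit 271) (nat_lit 255) (nat_lit 194)) (XT.lf (nat_lit 0) (nat_lit 2009399715) (nat_lit 228) (nat_lit 15897589629) (nat_lit 76) (nat_lit 10588530032) (nat_lit 16) (nat_lit 5) (nat_lit 19) (nat_lit 5) (nat_lit 17) (nat_lit 5) (nat_lit 272) (nat_lit 255) (nat_lit 193))) (XT.nd (nat_lit 78) (nat_lit 152) (nat_lit 0) (XT.lf (nat_lit 0) (nat_lit 5258570215) (nat_lit 228) (nat_lit 5140361824) (nat_lit 76) (nat_lit 19640593918) (nat_lit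 16) (nat_lit 5) (nat_lit 19) (nat_lit 5) (nat_lit 17) (nat_lit 5) (nat_lit 273) (nat_lit 255) (nat_lit 192)) (XT.nd (nat_lit 78) (nat_lit 0) (nat_lit 0) (XT.lf (nat_lit 0) (nat_lit 6804055913) (nat_lit 152) (nat_lit 2116614720) (nat_lit 228) (nat_lit 22774209104) (nat_lit 14) (nat_lit 5) (nat_lit 16) (nat_lit 5) (nat_lit 17) (nat_lit 5) (nat_lit 274) (nat_lit 255) (nat_lit 191)) (XT.lf (nat_lit 0) (nat_lit 13173903433) (nat_lit 228) (nat_lit 13657129445) (nat_lit 76) (nat_lit 6627837250) (nat_lit 14) (nat_lit 5) (nat_lit 17) (nat_lit 5) (nat_lit 15) (nat_lit 5) (nat_lit 275) (nat_lit 255) (nat_lit 190))))) (XT.nd (nat_lit 234) (nat_lit 152) (nat_lit 0) (XT.nd (nat_lit 78) (nat_lit 152) (nat_lit 0) (XT.lf (nat_lit 0) (nat_lit 17812878060) (nat_lit 228) (nat_lit 1592868653) (nat_lit 76) (nat_lit 15954651284) (nat_lit 14) (nat_lit 5) (nat_lit 17) (nat_lit 5) (nat_lit 15) (nat_lit 5) (nat_lit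 276) (nat_lit 255) (nat_lit 189)) (XT.nd (nat_lit 78) (nat_lit 0) (nat_lit 0) (XT.lf (nat_lit 0) (nat_lit 12025941395) (nat_lit 152) (nat_lit 11077462885) (nat_lit 228) (nat_lit 14288261814) (nat_lit 12) (nat_lit 5) (nat_lit 14) (nat_lit 5) (nat_lit 15) (nat_lit 5) (nat_lit 277) (nat_lit 255) (nat_lit 188)) (XT.lf (nat_lit 0) (nat_lit 26812974500) (nat_lit 152) (nat_lit 2039325080) (nat_lit 228) (nat_lit 10730374686) (nat_lit 12) (nat_lit 5) (nat_lit 14) (nat_lit 5) (nat_lit 15) (nat_lit 5) (nat_lit 278) (nat_lit 255) (nat_lit 187)))) (XT.nd (nat_lit 78) (nat_lit 76) (nat_lit 0) (XT.lf (nat_lit 0) (nat_lit 670241447) (nat_lit 76) (nat_lit 34584817875) (nat_lit 152) (nat_lit 6678432715) (nat_lit 11) (nat_lit 5) (nat_lit 12) (nat_lit 5) (nat_lit 13) (nat_lit 4) (nat_lit 279) (nat_lit 255) (nat_lit 186)) (XT.nd (nat_lit 78) (nat_lit 76) (nat_lit 0) (XT.lf (nat_lit 0) (nat_lit 15844553678)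 (nat_lit 76) (nat_lit 26718695359) (nat_lit 152) (nat_lit 1877711284) (nat_lit 11) (nat_lit 5) (nat_lit 12) (nat_lit 5) (nat_lit 13) (nat_lit 4) (nat_lit 280) (nat_lit 255) (nat_lit 185)) (XT.lf (nat_lit 0) (nat_lit 3134411089) (nat_lit 152) (nat_lit 15006619885) (nat_lit 76) (nat_lit 29002246055) (nat_lit 10) (nat_lit 5) (nat_lit 12) (nat_lit 5) (nat_lit 11) (nat_lit 5) (nat_lit 281) (nat_lit 255) (nat_lit 184)))))) (XT.nd (nat_lit 468) (nat_lit 152) (nat_lit 0) (XT.nd (nat_lit 234) (nat_lit 76) (nat_lit 0) (XT.nd (nat_lit 78) (nat_lit 152) (nat_lit 0) (XT.lf (nat_lit 0) (nat_lit 8439369328) (nat_lit 152) (nat_lit 388486389) (nat_lit 76) (nat_lit 41230589921) (nat_lit 10) (nat_lit 5) (nat_lit 12) (nat_lit 5) (nat_lit 11) (nat_lit 5) (nat_lit 282) (nat_lit 255) (nat_lit 183)) (XT.nd (nat_lit 78) (nat_lit 0) (nat_lit 0) (XT.lf (nat_lit 0) (nat_lit 14591780800) (nat_lit 228) (nat_lit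 37015642673) (nat_lit 76) (nat_lit 1565590480) (nat_lit 8) (nat_lit 5) (nat_lit 11) (nat_lit 5) (nat_lit 9) (nat_lit 4) (nat_lit 283) (nat_lit 255) (nat_lit 182)) (XT.lf (nat_lit 0) (nat_lit 21470549698) (nat_lit 228) (nat_lit 22725990166) (nat_lit 76) (nat_lit 12321503175) (nat_lit 8) (nat_lit 5) (nat_lit 11) (nat_lit 5) (nat_lit 9) (nat_lit 4) (nat_lit 284) (nat_lit 255) (nat_lit 181)))) (XT.nd (nat_lit 78) (nat_lit 76) (nat_lit 0) (XT.lf (nat_lit 0) (nat_lit 28894038398) (nat_lit 228) (nat_lit 7301973299) (nat_lit 76) (nat_lit 23935135647) (nat_lit 8) (nat_lit 5) (nat_lit 11) (nat_lit 5) (nat_lit 9) (nat_lit 4) (nat_lit 285) (nat_lit 255) (nat_lit 180)) (XT.nd (nat_lit 78) (nat_lit 0) (nat_lit 0) (XT.lf (nat_lit 0) (nat_lit 9840048592) (nat_lit 76) (nat_lit 27302842759) (nat_lit 152) (nat_lit 26871914237) (nat_lit 7) (nat_lit 5) (nat_lit 8) (nat_lit 5) (nat_lit 9) (nat_lit 4) (nat_lit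 286) (nat_lit 255) (nat_lit 179)) (XT.lf (nat_lit 0) (nat_lit 28760752985) (nat_lit 76) (nat_lit 17485571857) (nat_lit 152) (nat_lit 21947280462) (nat_lit 7) (nat_lit 5) (nat_lit 8) (nat_lit 5) (nat_lit 9) (nat_lit 4) (nat_lit 287) (nat_lit 255) (nat_lit 178))))) (XT.nd (nat_lit 234) (nat_lit 76) (nat_lit 0) (XT.nd (nat_lit 78) (nat_lit 76) (nat_lit 0) (XT.lf (nat_lit 0) (nat_lit 49187753598) (nat_lit 76) (nat_lit 6885671462) (nat_lit 152) (nat_lit 16633673496) (nat_lit 7) (nat_lit 5) (nat_lit 8) (nat_lit 5) (nat_lit 9) (nat_lit 4) (nat_lit 288) (nat_lit 255) (nat_lit 177)) (XT.nd (nat_lit 78) (nat_lit 76) (nat_lit 0) (XT.lf (nat_lit 0) (nat_lit 66792086912) (nat_lit 152) (nat_lit 6449592886) (nat_lit 0) (nat_lit 4331579356) (nat_lit 7) (nat_lit 5) (nat_lit 9) (nat_lit 4) (nat_lit 7) (nat_lit 4) (nat_lit 289) (nat_lit 255) (nat_lit 176)) (XT.lf (nat_lit 0) (nat_lit 12421686444) (nat_lit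 76) (nat_lit 66420138410) (nat_lit 76) (nat_lit 3949019031) (nat_lit 6) (nat_lit 4) (nat_lit 7) (nat_lit 5) (nat_lit 7) (nat_lit 4) (nat_lit 290) (nat_lit 255) (nat_lit 175)))) (XT.nd (nat_lit 78) (nat_lit 0) (nat_lit 0) (XT.lf (nat_lit 0) (nat_lit 3435081208) (nat_lit 152) (nat_lit 55335976226) (nat_lit 76) (nat_lit 29634039172) (nat_lit 5) (nat_lit 5) (nat_lit 7) (nat_lit 5) (nat_lit 6) (nat_lit 4) (nat_lit 291) (nat_lit 255) (nat_lit 174)) (XT.nd (nat_lit 78) (nat_lit 0) (nat_lit 0) (XT.lf (nat_lit 0) (nat_lit 11192873697) (nat_lit 152) (nat_lit 39208865779) (nat_lit 76) (nat_lit 44058853450) (nat_lit 5) (nat_lit 5) (nat_lit 7) (nat_lit 5) (nat_lit 6) (nat_lit 4) (nat_lit 292) (nat_lit 255) (nat_lit 173)) (XT.lf (nat_lit 0) (nat_lit 19567876462) (nat_lit 152) (nat_lit 21797284035) (nat_lit 76) (nat_lit 59635654688) (nat_lit 5) (nat_lit 5) (nat_lit 7) (nat_lit 5) (nat_lit 6) (nat_lit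 4) (nat_lit 293) (nat_lit 255) (nat_lit 172))))))) (XT.nd (nat_lit 858) (nat_lit 152) (nat_lit 0) (XT.nd (nat_lit 390) (nat_lit 76) (nat_lit 0) (XT.nd (nat_lit 156) (nat_lit 0) (nat_lit 0) (XT.nd (nat_lit 78) (nat_lit 76) (nat_lit 0) (XT.lf (nat_lit 0) (nat_lit 28609719150) (nat_lit 152) (nat_lit 2998051252) (nat_lit 76) (nat_lit 76456749856) (nat_lit 5) (nat_lit 5) (nat_lit 7) (nat_lit 5) (nat_lit 6) (nat_lit 4) (nat_lit 294) (nat_lit 255) (nat_lit 171)) (XT.lf (nat_lit 0) (nat_lit 18211235172) (nat_lit 76) (nat_lit 20598728522) (nat_lit 152) (nat_lit 76848564991) (nat_lit 4) (nat_lit 5) (nat_lit 5) (nat_lit 5) (nat_lit 6) (nat_lit 4) (nat_lit 295) (nat_lit 255) (nat_lit 170))) (XT.nd (nat_lit 78) (nat_lit 0) (nat_lit 0) (XT.lf (nat_lit 0) (nat_lit 41283005283) (nat_lit 76) (nat_lit 8622370603) (nat_lit 152) (nat_lit 73948360520) (nat_lit 4) (nat_lit 5) (nat_lit 5) (nat_lit 5) (nat_lit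 6) (nat_lit 4) (nat_lit 296) (nat_lit 255) (nat_lit 169)) (XT.nd (nat_lit 78) (nat_lit 0) (nat_lit 0) (XT.lf (nat_lit 0) (nat_lit 61989469161) (nat_lit 152) (nat_lit 66612333877) (nat_lit 0) (nat_lit 4094683551) (nat_lit 4) (nat_lit 5) (nat_lit 6) (nat_lit 4) (nat_lit 4) (nat_lit 4) (nat_lit 297) (nat_lit 255) (nat_lit 168)) (XT.lf (nat_lit 0) (nat_lit 75261786552) (nat_lit 152) (nat_lit 49605467087) (nat_lit 0) (nat_lit 17361692388) (nat_lit 4) (nat_lit 5) (nat_lit 6) (nat_lit 4) (nat_lit 4) (nat_lit 4) (nat_lit 298) (nat_lit 255) (nat_lit 167))))) (XT.nd (nat_lit 234) (nat_lit 0) (nat_lit 0) (XT.nd (nat_lit 78) (nat_lit 76) (nat_lit 0) (XT.lf (nat_lit 0) (nat_lit 89593610609) (nat_lit 152) (nat_lit 31241981101) (nat_lit 0) (nat_lit 31688601117) (nat_lit 4) (nat_lit 5) (nat_lit 6) (nat_lit 4) (nat_lit 4) (nat_lit 4) (nat_lit 299) (nat_lit 255) (nat_lit 166)) (XT.nd (nat_lit 78) (nat_lit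 76) (nat_lit 0) (XT.lf (nat_lit 0) (nat_lit 105069870659) (nat_lit 152) (nat_lit 11413055261) (nat_lit 0) (nat_lit 47160309939) (nat_lit 4) (nat_lit 5) (nat_lit 6) (nat_lit 4) (nat_lit 4) (nat_lit 4) (nat_lit 300) (nat_lit 255) (nat_lit 165)) (XT.lf (nat_lit 0) (nat_lit 10525335065) (nat_lit 76) (nat_lit 111510077370) (nat_lit 76) (nat_lit 53596302549) (nat_lit 3) (nat_lit 4) (nat_lit 4) (nat_lit 5) (nat_lit 4) (nat_lit 4) (nat_lit 301) (nat_lit 255) (nat_lit 164)))) (XT.nd (nat_lit 78) (nat_lit 0) (nat_lit 0) (XT.lf (nat_lit 0) (nat_lit 34864583020) (nat_lit 76) (nat_lit 105803779781) (nat_lit 76) (nat_lit 47886103014) (nat_lit 3) (nat_lit 4) (nat_lit 4) (nat_lit 5) (nat_lit 4) (nat_lit 4) (nat_lit 302) (nat_lit 255) (nat_lit 163)) (XT.nd (nat_lit 78) (nat_lit 0) (nat_lit 0) (XT.lf (nat_lit 0) (nat_lit 61147929918) (nat_lit 76) (nat_lit 99642271213) (nat_lit 76) (nat_lit 41720981533)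 (nat_lit 3) (nat_lit 4) (nat_lit 4) (nat_lit 5) (nat_lit 4) (nat_lit 4) (nat_lit 303) (nat_lit 255) (nat_lit 162)) (XT.lf (nat_lit 0) (nat_lit 89531128927) (nat_lit 76) (nat_lit 92989039023) (nat_lit 76) (nat_lit 35064404054) (nat_lit 3) (nat_lit 4) (nat_lit 4) (nat_lit 5) (nat_lit 4) (nat_lit 4) (nat_lit 304) (nat_lit 255) (nat_lit 161)))))) (XT.nd (nat_lit 468) (nat_lit 76) (nat_lit 0) (XT.nd (nat_lit 234) (nat_lit 76) (nat_lit 0) (XT.nd (nat_lit 78) (nat_lit 0) (nat_lit 0) (XT.lf (nat_lit 0) (nat_lit 120182376780) (nat_lit 76) (nat_lit 85804656649) (nat_lit 76) (nat_lit 27876924191) (nat_lit 3) (nat_lit 4) (nat_lit 4) (nat_lit 5) (nat_lit 4) (nat_lit 4) (nat_lit 305) (nat_lit 255) (nat_lit 160)) (XT.nd (nat_lit 78) (nat_lit 0) (nat_lit 0) (XT.lf (nat_lit 0) (nat_lit 153283310503) (nat_lit 76) (nat_lit 78046549975) (nat_lit 76) (nat_lit 20115949470) (nat_lit 3) (nat_lit 4) (nat_lit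 4) (nat_lit 5) (nat_lit 4) (nat_lit 4) (nat_lit 306) (nat_lit 255) (nat_lit 159)) (XT.lf (nat_lit 0) (nat_lit 189030083777) (nat_lit 76) (nat_lit 69668745034) (nat_lit 76) (nat_lit 11735488931) (nat_lit 3) (nat_lit 4) (nat_lit 4) (nat_lit 5) (nat_lit 4) (nat_lit 4) (nat_lit 307) (nat_lit 255) (nat_lit 158)))) (XT.nd (nat_lit 78) (nat_lit 76) (nat_lit 0) (XT.lf (nat_lit 0) (nat_lit 227634529331) (nat_lit 76) (nat_lit 60621595576) (nat_lit 76) (nat_lit 2685880584) (nat_lit 3) (nat_lit 4) (nat_lit 4) (nat_lit 5) (nat_lit 4) (nat_lit 4) (nat_lit 308) (nat_lit 255) (nat_lit 157)) (XT.nd (nat_lit 78) (nat_lit 0) (nat_lit 0) (XT.lf (nat_lit 0) (nat_lit 6732007302) (nat_lit 152) (nat_lit 43935416549) (nat_lit 76) (nat_lit 262409341939) (nat_lit 2) (nat_lit 5) (nat_lit 4) (nat_lit 5) (nat_lit 3) (nat_lit 4) (nat_lit 309) (nat_lit 255) (nat_lit 156)) (XT.lf (nat_lit 0) (nat_lit 16757169049)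 (nat_lit 152) (nat_lit 23085188216) (nat_lit 76) (nat_lit 297134455887) (nat_lit 2) (nat_lit 5) (nat_lit 4) (nat_lit 5) (nat_lit 3) (nat_lit 4) (nat_lit 310) (nat_lit 255) (nat_lit 155))))) (XT.nd (nat_lit 234) (nat_lit 0) (nat_lit 0) (XT.nd (nat_lit 78) (nat_lit 76) (nat_lit 0) (XT.lf (nat_lit 0) (nat_lit 27583371645) (nat_lit 152) (nat_lit 568638760) (nat_lit 76) (nat_lit 334636934719) (nat_lit 2) (nat_lit 5) (nat_lit 4) (nat_lit 5) (nat_lit 3) (nat_lit 4) (nat_lit 311) (nat_lit 255) (nat_lit 154)) (XT.nd (nat_lit 78) (nat_lit 0) (nat_lit 0) (XT.lf (nat_lit 0) (nat_lit 24998173083) (nat_lit 76) (nat_lit 14877803946) (nat_lit 152) (nat_lit 350742048927) (nat_lit 1) (nat_lit 5) (nat_lit 2) (nat_lit 5) (nat_lit 3) (nat_lit 4) (nat_lit 312) (nat_lit 255) (nat_lit 153)) (XT.lf (nat_lit 0) (nat_lit 52641137219) (nat_lit 76) (nat_lit 525530970) (nat_lit 152) (nat_lit 367505593498) (nat_lit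 1) (nat_lit 5) (nat_lit 2) (nat_lit 5) (nat_lit 3) (nat_lit 4) (nat_lit 313) (nat_lit 255) (nat_lit 152)))) (XT.nd (nat_lit 78) (nat_lit 0) (nat_lit 0) (XT.lf (nat_lit 0) (nat_lit 67879941409) (nat_lit 152) (nat_lit 370996915420) (nat_lit 0) (nat_lit 14225235731) (nat_lit 1) (nat_lit 5) (nat_lit 3) (nat_lit 4) (nat_lit 1) (nat_lit 4) (nat_lit 314) (nat_lit 255) (nat_lit 151)) (XT.nd (nat_lit 78) (nat_lit 0) (nat_lit 0) (XT.lf (nat_lit 0) (nat_lit 83783166907) (nat_lit 152) (nat_lit 374214981239) (nat_lit 0) (nat_lit 30127132769) (nat_lit 1) (nat_lit 5) (nat_lit 3) (nat_lit 4) (nat_lit 1) (nat_lit 4) (nat_lit 315) (nat_lit 255) (nat_lit 150)) (XT.lf (nat_lit 0) (nat_lit 100957946988) (nat_lit 152) (nat_lit 377691752912) (nat_lit 0) (nat_lit 47300682794) (nat_lit 1) (nat_lit 5) (nat_lit 3) (nat_lit 4) (nat_lit 1) (nat_lit 4) (nat_lit 316) (nat_lit 255) (nat_lit 149))))))))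
noncomputable def xc79 : XT := (XT.nd (nat_lit 33384) (nat_lit 0) (nat_lit 532) (XT.nd (nat_lit 858) (nat_lit 0) (nat_lit 0) (XT.nd (nat_lit 390) (nat_lit 0) (nat_lit 0) (XT.nd (nat_lit 156) (nat_lit 0) (nat_lit 0) (XT.nd (nat_lit 78) (nat_lit 0) (nat_lit 0) (XT.lf (nat_lit 0) (nat_lit 119506058127) (nat_lit 152) (nat_lit 381447833530) (nat_lit 0) (nat_lit 65847654992) (nat_lit 1) (nat_lit 5) (nat_lit 3) (nat_lit 4) (nat_lit 1) (nat_lit 4) (nat_lit 317) (nat_lit 255) (nat_lit 148)) (XT.lf (nat_lit 0) (nat_lit 139537415056) (nat_lit 152) (nat_lit 385505481350) (nat_lit 0) (nat_lit 85877957346) (nat_lit 1) (nat_lit 5) (nat_lit 3) (nat_lit 4) (nat_lit 1) (nat_lit 4) (nat_lit 318) (nat_lit 255) (nat_lit 147))) (XT.nd (nat_lit 78) (nat_lit 0) (nat_lit 0) (XT.lf (nat_lit 0) (nat_lit 161170722112) (nat_lit 152) (nat_lit 389888741690) (nat_lit 0) (nat_lit 107510287944) (nat_lit 1) (nat_lit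 5) (nat_lit 3) (nat_lit 4) (nat_lit 1) (nat_lit 4) (nat_lit 319) (nat_lit 255) (nat_lit 146)) (XT.nd (nat_lit 78) (nat_lit 0) (nat_lit 0) (XT.lf (nat_lit 0) (nat_lit 184534176670) (nat_lit 152) (nat_lit 394623589429) (nat_lit 0) (nat_lit 130872838374) (nat_lit 1) (nat_lit 5) (nat_lit 3) (nat_lit 4) (nat_lit 1) (nat_lit 4) (nat_lit 320) (nat_lit 255) (nat_lit 145)) (XT.lf (nat_lit 0) (nat_lit 209766228832) (nat_lit 152) (nat_lit 399738082922) (nat_lit 0) (nat_lit 156104053381) (nat_lit 1) (nat_lit 5) (nat_lit 3) (nat_lit 4) (nat_lit 1) (nat_lit 4) (nat_lit 321) (nat_lit 255) (nat_lit 144))))) (XT.nd (nat_lit 234) (nat_lit 0) (nat_lit 0) (XT.nd (nat_lit 78) (nat_lit 0) (nat_lit 0) (XT.lf (nat_lit 0) (nat_lit 237016401870) (nat_lit 152) (nat_lit 405262530279) (nat_lit 0) (nat_lit 183353451275) (nat_lit 1) (nat_lit 5) (nat_lit 3) (nat_lit 4) (nat_lit 1) (nat_lit 4) (nat_lit 322) (nat_lit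 255) (nat_lit 143)) (XT.nd (nat_lit 78) (nat_lit 0) (nat_lit 0) (XT.lf (nat_lit 0) (nat_lit 266446178291) (nat_lit 152) (nat_lit 411229668965) (nat_lit 0) (nat_lit 212782509970) (nat_lit 1) (nat_lit 5) (nat_lit 3) (nat_lit 4) (nat_lit 1) (nat_lit 4) (nat_lit 323) (nat_lit 255) (nat_lit 142)) (XT.lf (nat_lit 0) (nat_lit 298229956769) (nat_lit 152) (nat_lit 417674859804) (nat_lit 0) (nat_lit 244565623887) (nat_lit 1) (nat_lit 5) (nat_lit 3) (nat_lit 4) (nat_lit 1) (nat_lit 4) (nat_lit 324) (nat_lit 255) (nat_lit 141)))) (XT.nd (nat_lit 78) (nat_lit 0) (nat_lit 0) (XT.lf (nat_lit 0) (nat_lit 332556085622) (nat_lit 152) (nat_lit 424636296518) (nat_lit 0) (nat_lit 278891137406) (nat_lit 1) (nat_lit 5) (nat_lit 3) (nat_lit 4) (nat_lit 1) (nat_lit 4) (nat_lit 325) (nat_lit 255) (nat_lit 140)) (XT.nd (nat_lit 78) (nat_lit 0) (nat_lit 0) (XT.lf (nat_lit 0) (nat_lit 369627978946) (nat_lit 152)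 (nat_lit 432155232065) (nat_lit 0) (nat_lit 315962460976) (nat_lit 1) (nat_lit 5) (nat_lit 3) (nat_lit 4) (nat_lit 1) (nat_lit 4) (nat_lit 326) (nat_lit 255) (nat_lit 139)) (XT.lf (nat_lit 0) (nat_lit 409665322036) (nat_lit 152) (nat_lit 440276223101) (nat_lit 0) (nat_lit 355999276516) (nat_lit 1) (nat_lit 5) (nat_lit 3) (nat_lit 4) (nat_lit 1) (nat_lit 4) (nat_lit 327) (nat_lit 255) (nat_lit 138)))))) (XT.nd (nat_lit 32058) (nat_lit 0) (nat_lit 2128) (XT.nd (nat_lit 234) (nat_lit 0) (nat_lit 0) (XT.nd (nat_lit 78) (nat_lit 0) (nat_lit 0) (XT.lf (nat_lit 0) (nat_lit 452905373220) (nat_lit 152) (nat_lit 449047394017) (nat_lit 0) (nat_lit 399238839228) (nat_lit 1) (nat_lit 5) (nat_lit 3) (nat_lit 4) (nat_lit 1) (nat_lit 4) (nat_lit 328) (nat_lit 255) (nat_lit 137)) (XT.nd (nat_lit 78) (nat_lit 0) (nat_lit 0) (XT.lf (nat_lit 0) (nat_lit 499604369840) (nat_lit 152) (nat_lit 458520722123)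 (nat_lit 0) (nat_lit 445937383559) (nat_lit 1) (nat_lit 5) (nat_lit 3) (nat_lit 4) (nat_lit 1) (nat_lit 4) (nat_lit 329) (nat_lit 255) (nat_lit 136)) (XT.lf (nat_lit 0) (nat_lit 550039046689) (nat_lit 152) (nat_lit 468752345657) (nat_lit 0) (nat_lit 496371641622) (nat_lit 1) (nat_lit 5) (nat_lit 3) (nat_lit 4) (nat_lit 1) (nat_lit 4) (nat_lit 330) (nat_lit 255) (nat_lit 135)))) (XT.nd (nat_lit 31668) (nat_lit 0) (nat_lit 2508) (XT.lf (nat_lit 0) (nat_lit 604508275927) (nat_lit 152) (nat_lit 479802896465) (nat_lit 0) (nat_lit 550840483095) (nat_lit 1) (nat_lit 5) (nat_lit 3) (nat_lit 4) (nat_lit 1) (nat_lit 4) (nat_lit 331) (nat_lit 255) (nat_lit 134)) (XT.nd (nat_lit 78) (nat_lit 0) (nat_lit 0) (XT.lf (nat_lit 0) (nat_lit 3242208283) (nat_lit 0) (nat_lit 3242208283) (nat_lit 380) (nat_lit 686564318) (nat_lit 34) (nat_lit 5) (nat_lit 34) (nat_lit 3) (nat_lit 39) (nat_lit 3) (nat_lit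 256) (nat_lit 256) (nat_lit 208)) (XT.lf (nat_lit 0) (nat_lit 12719768132) (nat_lit 0) (nat_lit 1042217340) (nat_lit 380) (nat_lit 1129248245) (nat_lit 34) (nat_lit 5) (nat_lit 34) (nat_lit 3) (nat_lit 39) (nat_lit 3) (nat_lit 257) (nat_lit 256) (nat_lit 207))))) (XT.nd (nat_lit 234) (nat_lit 0) (nat_lit 0) (XT.nd (nat_lit 78) (nat_lit 380) (nat_lit 0) (XT.lf (nat_lit 76) (nat_lit 4038745856) (nat_lit 0) (nat_lit 10766143570) (nat_lit 456) (nat_lit 664899614) (nat_lit 35) (nat_lit 5) (nat_lit 34) (nat_lit 5) (nat_lit 40) (nat_lit 5) (nat_lit 258) (nat_lit 256) (nat_lit 206)) (XT.nd (nat_lit 78) (nat_lit 380) (nat_lit 0) (XT.lf (nat_lit 76) (nat_lit 10824690499) (nat_lit 0) (nat_lit 5166791554) (nat_lit 456) (nat_lit 98553617) (nat_lit 35) (nat_lit 5) (nat_lit 34) (nat_lit 5) (nat_lit 40) (nat_lit 5) (nat_lit 259) (nat_lit 256) (nat_lit 205)) (XT.lf (nat_lit 0) (nat_lit 520150108) (nat_lit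 456) (nat_lit 15344116472) (nat_lit 532) (nat_lit 892225802) (nat_lit 29) (nat_lit 5) (nat_lit 35) (nat_lit 5) (nat_lit 36) (nat_lit 5) (nat_lit 260) (nat_lit 256) (nat_lit 204)))) (XT.nd (nat_lit 78) (nat_lit 0) (nat_lit 0) (XT.lf (nat_lit 0) (nat_lit 1442101162) (nat_lit 456) (nat_lit 8699636702) (nat_lit 532) (nat_lit 7313777448) (nat_lit 29) (nat_lit 5) (nat_lit 35) (nat_lit 5) (nat_lit 36) (nat_lit 5) (nat_lit 261) (nat_lit 256) (nat_lit 203)) (XT.nd (nat_lit 78) (nat_lit 0) (nat_lit 76) (XT.lf (nat_lit 0) (nat_lit 2416669335) (nat_lit 456) (nat_lit 1540400562) (nat_lit 532) (nat_lit 14255248435) (nat_lit 29) (nat_lit 5) (nat_lit 35) (nat_lit 5) (nat_lit 36) (nat_lit 5) (nat_lit 262) (nat_lit 256) (nat_lit 202)) (XT.lf (nat_lit 0) (nat_lit 3675615550) (nat_lit 456) (nat_lit 12587273488) (nat_lit 76) (nat_lit 2750418302) (nat_lit 30) (nat_lit 5) (nat_lit 36) (nat_lit 5) (nat_lit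 31) (nat_lit 5) (nat_lit 263) (nat_lit 256) (nat_lit 201))))))) (XT.nd (nat_lit 858) (nat_lit 608) (nat_lit 0) (XT.nd (nat_lit 390) (nat_lit 380) (nat_lit 0) (XT.nd (nat_lit 156) (nat_lit 228) (nat_lit 0) (XT.nd (nat_lit 78) (nat_lit 456) (nat_lit 0) (XT.lf (nat_lit 0) (nat_lit 5162861747) (nat_lit 456) (nat_lit 4878359953) (nat_lit 76) (nat_lit 9827090321) (nat_lit 30) (nat_lit 5) (nat_lit 36) (nat_lit 5) (nat_lit 31) (nat_lit 5) (nat_lit 264) (nat_lit 256) (nat_lit 200)) (XT.lf (nat_lit 0) (nat_lit 3612354762) (nat_lit 456) (nat_lit 3226565662) (nat_lit 532) (nat_lit 13947342706) (nat_lit 24) (nat_lit 5) (nat_lit 30) (nat_lit 5) (nat_lit 31) (nat_lit 5) (nat_lit 265) (nat_lit 256) (nat_lit 199))) (XT.nd (nat_lit 78) (nat_lit 228) (nat_lit 0) (XT.lf (nat_lit 0) (nat_lit 8869190705) (nat_lit 532) (nat_lit 8826744084) (nat_lit 76) (nat_lit 4064228238) (nat_lit 24) (nat_lit 5) (nat_lit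 31) (nat_lit 5) (nat_lit 25) (nat_lit 5) (nat_lit 266) (nat_lit 256) (nat_lit 198)) (XT.nd (nat_lit 78) (nat_lit 0) (nat_lit 0) (XT.lf (nat_lit 0) (nat_lit 93646833) (nat_lit 228) (nat_lit 11039363713) (nat_lit 304) (nat_lit 11673387884) (nat_lit 21) (nat_lit 5) (nat_lit 24) (nat_lit 5) (nat_lit 25) (nat_lit 5) (nat_lit 267) (nat_lit 256) (nat_lit 197)) (XT.lf (nat_lit 0) (nat_lit 10214620066) (nat_lit 228) (nat_lit 3590468017) (nat_lit 304) (nat_lit 10113177739) (nat_lit 21) (nat_lit 5) (nat_lit 24) (nat_lit 5) (nat_lit 25) (nat_lit 5) (nat_lit 268) (nat_lit 256) (nat_lit 196))))) (XT.nd (nat_lit 234) (nat_lit 228) (nat_lit 0) (XT.nd (nat_lit 78) (nat_lit 152) (nat_lit 0) (XT.lf (nat_lit 0) (nat_lit 16784904080) (nat_lit 304) (nat_lit 4095988053) (nat_lit 76) (nat_lit 4230770214) (nat_lit 21) (nat_lit 5) (nat_lit 25) (nat_lit 5) (nat_lit 22) (nat_lit 5) (nat_lit 269) (nat_lit 256)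 (nat_lit 195)) (XT.nd (nat_lit 78) (nat_lit 0) (nat_lit 0) (XT.lf (nat_lit 0) (nat_lit 6498152408) (nat_lit 152) (nat_lit 13742312291) (nat_lit 228) (nat_lit 6141167447) (nat_lit 19) (nat_lit 5) (nat_lit 21) (nat_lit 5) (nat_lit 22) (nat_lit 5) (nat_lit 270) (nat_lit 256) (nat_lit 194)) (XT.lf (nat_lit 0) (nat_lit 18159184510) (nat_lit 152) (nat_lit 5913672536) (nat_lit 228) (nat_lit 3672395142) (nat_lit 19) (nat_lit 5) (nat_lit 21) (nat_lit 5) (nat_lit 22) (nat_lit 5) (nat_lit 271) (nat_lit 256) (nat_lit 193)))) (XT.nd (nat_lit 78) (nat_lit 76) (nat_lit 0) (XT.lf (nat_lit 0) (nat_lit 1537461069) (nat_lit 152) (nat_lit 26761683892) (nat_lit 228) (nat_lit 911909954) (nat_lit 17) (nat_lit 5) (nat_lit 19) (nat_lit 5) (nat_lit 20) (nat_lit 5) (nat_lit 272) (nat_lit 256) (nat_lit 192)) (XT.nd (nat_lit 78) (nat_lit 0) (nat_lit 0) (XT.lf (nat_lit 0) (nat_lit 2377761902) (nat_lit 228) (nat_lit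 16901047434) (nat_lit 76) (nat_lit 11478447874) (nat_lit 16) (nat_lit 5) (nat_lit 19) (nat_lit 5) (nat_lit 17) (nat_lit 5) (nat_lit 273) (nat_lit 256) (nat_lit 191)) (XT.lf (nat_lit 0) (nat_lit 5871487509) (nat_lit 228) (nat_lit 5303119136) (nat_lit 76) (nat_lit 21251503877) (nat_lit 16) (nat_lit 5) (nat_lit 19) (nat_lit 5) (nat_lit 17) (nat_lit 5) (nat_lit 274) (nat_lit 256) (nat_lit 190)))))) (XT.nd (nat_lit 468) (nat_lit 228) (nat_lit 0) (XT.nd (nat_lit 234) (nat_lit 228) (nat_lit 0) (XT.nd (nat_lit 78) (nat_lit 0) (nat_lit 0) (XT.lf (nat_lit 0) (nat_lit 7590561599) (nat_lit 152) (nat_lit 2227579442) (nat_lit 228) (nat_lit 24396513569) (nat_lit 14) (nat_lit 5) (nat_lit 16) (nat_lit 5) (nat_lit 17) (nat_lit 5) (nat_lit 275) (nat_lit 256) (nat_lit 189)) (XT.nd (nat_lit 78) (nat_lit 0) (nat_lit 0) (XT.lf (nat_lit 0) (nat_lit 14399316100) (nat_lit 228) (nat_lit 14512113640) (nat_lit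 76) (nat_lit 7209402035) (nat_lit 14) (nat_lit 5) (nat_lit 17) (nat_lit 5) (nat_lit 15) (nat_lit 5) (nat_lit 276) (nat_lit 256) (nat_lit 188)) (XT.lf (nat_lit 0) (nat_lit 19396704965) (nat_lit 228) (nat_lit 1500310960) (nat_lit 76) (nat_lit 17278558391) (nat_lit 14) (nat_lit 5) (nat_lit 17) (nat_lit 5) (nat_lit 15) (nat_lit 5) (nat_lit 277) (nat_lit 256) (nat_lit 187)))) (XT.nd (nat_lit 78) (nat_lit 76) (nat_lit 0) (XT.lf (nat_lit 0) (nat_lit 13202434596) (nat_lit 152) (nat_lit 11901432725) (nat_lit 228) (nat_lit 15266075519) (nat_lit 12) (nat_lit 5) (nat_lit 14) (nat_lit 5) (nat_lit 15) (nat_lit 5) (nat_lit 278) (nat_lit 256) (nat_lit 186)) (XT.nd (nat_lit 78) (nat_lit 76) (nat_lit 0) (XT.lf (nat_lit 0) (nat_lit 29156547543) (nat_lit 152) (nat_lit 2144853318) (nat_lit 228) (nat_lit 11435797956) (nat_lit 12) (nat_lit 5) (nat_lit 14) (nat_lit 5) (nat_lit 15) (nat_lit 5) (nat_lit 279)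 (nat_lit 256) (nat_lit 185)) (XT.lf (nat_lit 0) (nat_lit 927802343) (nat_lit 76) (nat_lit 37284328583) (nat_lit 152) (nat_lit 7064351566) (nat_lit 11) (nat_lit 5) (nat_lit 12) (nat_lit 5) (nat_lit 13) (nat_lit 4) (nat_lit 280) (nat_lit 256) (nat_lit 184))))) (XT.nd (nat_lit 234) (nat_lit 152) (nat_lit 0) (XT.nd (nat_lit 78) (nat_lit 76) (nat_lit 0) (XT.lf (nat_lit 0) (nat_lit 17300952768) (nat_lit 76) (nat_lit 28793899579) (nat_lit 152) (nat_lit 1890561736) (nat_lit 11) (nat_lit 5) (nat_lit 12) (nat_lit 5) (nat_lit 13) (nat_lit 4) (nat_lit 281) (nat_lit 256) (nat_lit 183)) (XT.nd (nat_lit 78) (nat_lit 0) (nat_lit 0) (XT.lf (nat_lit 0) (nat_lit 3505992518) (nat_lit 152) (nat_lit 16025340037) (nat_lit 76) (nat_lit 31373140566) (nat_lit 10) (nat_lit 5) (nat_lit 12) (nat_lit 5) (nat_lit 11) (nat_lit 5) (nat_lit 282) (nat_lit 256) (nat_lit 182)) (XT.lf (nat_lit 0) (nat_lit 9226397153) (nat_lit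 152) (nat_lit 251223227) (nat_lit 76) (nat_lit 44575995287) (nat_lit 10) (nat_lit 5) (nat_lit 12) (nat_lit 5) (nat_lit 11) (nat_lit 5) (nat_lit 283) (nat_lit 256) (nat_lit 181)))) (XT.nd (nat_lit 78) (nat_lit 0) (nat_lit 0) (XT.lf (nat_lit 0) (nat_lit 15868020260) (nat_lit 228) (nat_lit 39805056510) (nat_lit 76) (nat_lit 1744552318) (nat_lit 8) (nat_lit 5) (nat_lit 11) (nat_lit 5) (nat_lit 9) (nat_lit 4) (nat_lit 284) (nat_lit 256) (nat_lit 180)) (XT.nd (nat_lit 78) (nat_lit 0) (nat_lit 0) (XT.lf (nat_lit 0) (nat_lit 23289024226) (nat_lit 228) (nat_lit 24384960512) (nat_lit 76) (nat_lit 13356959169) (nat_lit 8) (nat_lit 5) (nat_lit 11) (nat_lit 5) (nat_lit 9) (nat_lit 4) (nat_lit 285) (nat_lit 256) (nat_lit 179)) (XT.lf (nat_lit 0) (nat_lit 31298923093) (nat_lit 228) (nat_lit 7738808137) (nat_lit 76) (nat_lit 25895998111) (nat_lit 8) (nat_lit 5) (nat_lit 11) (nat_lit 5) (nat_lit 9)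 (nat_lit 4) (nat_lit 286) (nat_lit 256) (nat_lit 178))))))))
noncomputable def xc80 : XT := (XT.nd (nat_lit 1794) (nat_lit 152) (nat_lit 0) (XT.nd (nat_lit 858) (nat_lit 76) (nat_lit 0) (XT.nd (nat_lit 390) (nat_lit 152) (nat_lit 0) (XT.nd (nat_lit 156) (nat_lit 76) (nat_lit 0) (XT.nd (nat_lit 78) (nat_lit 0) (nat_lit 0) (XT.lf (nat_lit 0) (nat_lit 10770845808) (nat_lit 76) (nat_lit 29433376221) (nat_lit 152) (nat_lit 28924167852) (nat_lit 7) (nat_lit 5) (nat_lit 8) (nat_lit 5) (nat_lit 9) (nat_lit 4) (nat_lit 287) (nat_lit 256) (nat_lit 177)) (XT.lf (nat_lit 0) (nat_lit 31194570010) (nat_lit 76) (nat_lit 18834700977) (nat_lit 152) (nat_lit 23612785561) (nat_lit 7) (nat_lit 5) (nat_lit 8) (nat_lit 5) (nat_lit 9) (nat_lit 4) (nat_lit 288) (nat_lit 256) (nat_lit 176))) (XT.nd (nat_lit 78) (nat_lit 76) (nat_lit 0) (XT.lf (nat_lit 0) (nat_lit 53245882021) (nat_lit 76) (nat_lit 7390491264)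 (nat_lit 152) (nat_lit 17880777248) (nat_lit 7) (nat_lit 5) (nat_lit 8) (nat_lit 5) (nat_lit 9) (nat_lit 4) (nat_lit 289) (nat_lit 256) (nat_lit 175)) (XT.nd (nat_lit 78) (nat_lit 76) (nat_lit 0) (XT.lf (nat_lit 0) (nat_lit 72207843991) (nat_lit 152) (nat_lit 6846563162) (nat_lit 0) (nat_lit 4718597476) (nat_lit 7) (nat_lit 5) (nat_lit 9) (nat_lit 4) (nat_lit 7) (nat_lit 4) (nat_lit 290) (nat_lit 256) (nat_lit 174)) (XT.lf (nat_lit 0) (nat_lit 13531405927) (nat_lit 76) (nat_lit 71687582241) (nat_lit 76) (nat_lit 4189237798) (nat_lit 6) (nat_lit 4) (nat_lit 7) (nat_lit 5) (nat_lit 7) (nat_lit 4) (nat_lit 291) (nat_lit 256) (nat_lit 173))))) (XT.nd (nat_lit 234) (nat_lit 76) (nat_lit 0) (XT.nd (nat_lit 78) (nat_lit 0) (nat_lit 0) (XT.lf (nat_lit 0) (nat_lit 3776476406) (nat_lit 152) (nat_lit 59651697524) (nat_lit 76) (nat_lit 32043746069) (nat_lit 5) (nat_lit 5) (nat_lit 7) (nat_lit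 5) (nat_lit 6) (nat_lit 4) (nat_lit 292) (nat_lit 256) (nat_lit 172)) (XT.nd (nat_lit 78) (nat_lit 0) (nat_lit 0) (XT.lf (nat_lit 0) (nat_lit 12149959797) (nat_lit 152) (nat_lit 42242652078) (nat_lit 76) (nat_lit 47619657803) (nat_lit 5) (nat_lit 5) (nat_lit 7) (nat_lit 5) (nat_lit 6) (nat_lit 4) (nat_lit 293) (nat_lit 256) (nat_lit 171)) (XT.lf (nat_lit 0) (nat_lit 21190395657) (nat_lit 152) (nat_lit 23445767718) (nat_lit 76) (nat_lit 64439929357) (nat_lit 5) (nat_lit 5) (nat_lit 7) (nat_lit 5) (nat_lit 6) (nat_lit 4) (nat_lit 294) (nat_lit 256) (nat_lit 170)))) (XT.nd (nat_lit 78) (nat_lit 76) (nat_lit 0) (XT.lf (nat_lit 0) (nat_lit 30951356939) (nat_lit 152) (nat_lit 3149655500) (nat_lit 76) (nat_lit 82604236414) (nat_lit 5) (nat_lit 5) (nat_lit 7) (nat_lit 5) (nat_lit 6) (nat_lit 4) (nat_lit 295) (nat_lit 256) (nat_lit 169)) (XT.nd (nat_lit 78) (nat_lit 0) (nat_lit 0) (XT.lf (nat_lit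 0) (nat_lit 19754139917) (nat_lit 76) (nat_lit 22211634000) (nat_lit 152) (nat_lit 82941166934) (nat_lit 4) (nat_lit 5) (nat_lit 5) (nat_lit 5) (nat_lit 6) (nat_lit 4) (nat_lit 296) (nat_lit 256) (nat_lit 168)) (XT.lf (nat_lit 0) (nat_lit 44665280828) (nat_lit 76) (nat_lit 9279759507) (nat_lit 152) (nat_lit 79813041161) (nat_lit 4) (nat_lit 5) (nat_lit 5) (nat_lit 5) (nat_lit 6) (nat_lit 4) (nat_lit 297) (nat_lit 256) (nat_lit 167)))))) (XT.nd (nat_lit 468) (nat_lit 0) (nat_lit 0) (XT.nd (nat_lit 234) (nat_lit 76) (nat_lit 0) (XT.nd (nat_lit 78) (nat_lit 0) (nat_lit 0) (XT.lf (nat_lit 0) (nat_lit 66993083746) (nat_lit 152) (nat_lit 71864644934) (nat_lit 0) (nat_lit 4450758168) (nat_lit 4) (nat_lit 5) (nat_lit 6) (nat_lit 4) (nat_lit 4) (nat_lit 4) (nat_lit 298) (nat_lit 256) (nat_lit 166)) (XT.nd (nat_lit 78) (nat_lit 0) (nat_lit 0) (XT.lf (nat_lit 0) (nat_lit 81323893413) (nat_lit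 152) (nat_lit 53502908479) (nat_lit 0) (nat_lit 18777016606) (nat_lit 4) (nat_lit 5) (nat_lit 6) (nat_lit 4) (nat_lit 4) (nat_lit 4) (nat_lit 299) (nat_lit 256) (nat_lit 165)) (XT.lf (nat_lit 0) (nat_lit 96799214214) (nat_lit 152) (nat_lit 33675602575) (nat_lit 0) (nat_lit 34248123306) (nat_lit 4) (nat_lit 5) (nat_lit 6) (nat_lit 4) (nat_lit 4) (nat_lit 4) (nat_lit 300) (nat_lit 256) (nat_lit 164)))) (XT.nd (nat_lit 78) (nat_lit 76) (nat_lit 0) (XT.lf (nat_lit 0) (nat_lit 113510751754) (nat_lit 152) (nat_lit 12265232077) (nat_lit 0) (nat_lit 50955758900) (nat_lit 4) (nat_lit 5) (nat_lit 6) (nat_lit 4) (nat_lit 4) (nat_lit 4) (nat_lit 301) (nat_lit 256) (nat_lit 163)) (XT.nd (nat_lit 78) (nat_lit 0) (nat_lit 0) (XT.lf (nat_lit 0) (nat_lit 11426688524) (nat_lit 76) (nat_lit 120405660974) (nat_lit 76) (nat_lit 57847055208) (nat_lit 3) (nat_lit 4) (nat_lit 4) (nat_lit 5) (nat_lit 4) (nat_lit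 4) (nat_lit 302) (nat_lit 256) (nat_lit 162)) (XT.lf (nat_lit 0) (nat_lit 37708681749) (nat_lit 76) (nat_lit 114244727917) (nat_lit 76) (nat_lit 51682776862) (nat_lit 3) (nat_lit 4) (nat_lit 4) (nat_lit 5) (nat_lit 4) (nat_lit 4) (nat_lit 303) (nat_lit 256) (nat_lit 161))))) (XT.nd (nat_lit 234) (nat_lit 0) (nat_lit 0) (XT.nd (nat_lit 78) (nat_lit 0) (nat_lit 0) (XT.lf (nat_lit 0) (nat_lit 66090627355) (nat_lit 76) (nat_lit 107592028608) (nat_lit 76) (nat_lit 45026980062) (nat_lit 3) (nat_lit 4) (nat_lit 4) (nat_lit 5) (nat_lit 4) (nat_lit 4) (nat_lit 304) (nat_lit 256) (nat_lit 160)) (XT.nd (nat_lit 78) (nat_lit 0) (nat_lit 0) (XT.lf (nat_lit 0) (nat_lit 96740714652) (nat_lit 76) (nat_lit 100408139643) (nat_lit 76) (nat_lit 37840223051) (nat_lit 3) (nat_lit 4) (nat_lit 4) (nat_lit 5) (nat_lit 4) (nat_lit 4) (nat_lit 305) (nat_lit 256) (nat_lit 159)) (XT.lf (nat_lit 0) (nat_lit 129840573784)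 (nat_lit 76) (nat_lit 92650489828) (nat_lit 76) (nat_lit 30079917637) (nat_lit 3) (nat_lit 4) (nat_lit 4) (nat_lit 5) (nat_lit 4) (nat_lit 4) (nat_lit 306) (nat_lit 256) (nat_lit 158)))) (XT.nd (nat_lit 78) (nat_lit 0) (nat_lit 0) (XT.lf (nat_lit 0) (nat_lit 165586352067) (nat_lit 76) (nat_lit 84273107905) (nat_lit 76) (nat_lit 21700076827) (nat_lit 3) (nat_lit 4) (nat_lit 4) (nat_lit 5) (nat_lit 4) (nat_lit 4) (nat_lit 307) (nat_lit 256) (nat_lit 157)) (XT.nd (nat_lit 78) (nat_lit 0) (nat_lit 0) (XT.lf (nat_lit 0) (nat_lit 204189876334) (nat_lit 76) (nat_lit 75226350130) (nat_lit 76) (nat_lit 12651042304) (nat_lit 3) (nat_lit 4) (nat_lit 4) (nat_lit 5) (nat_lit 4) (nat_lit 4) (nat_lit 308) (nat_lit 256) (nat_lit 156)) (XT.lf (nat_lit 0) (nat_lit 245879908210) (nat_lit 76) (nat_lit 65456606085) (nat_lit 76) (nat_lit 2879190160) (nat_lit 3) (nat_lit 4) (nat_lit 4) (nat_lit 5) (nat_lit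 4) (nat_lit 4) (nat_lit 309) (nat_lit 256) (nat_lit 155))))))) (XT.nd (nat_lit 858) (nat_lit 0) (nat_lit 0) (XT.nd (nat_lit 390) (nat_lit 0) (nat_lit 0) (XT.nd (nat_lit 156) (nat_lit 76) (nat_lit 0) (XT.nd (nat_lit 78) (nat_lit 0) (nat_lit 0) (XT.lf (nat_lit 0) (nat_lit 7289532987) (nat_lit 152) (nat_lit 47417139254) (nat_lit 76) (nat_lit 283414657999) (nat_lit 2) (nat_lit 5) (nat_lit 4) (nat_lit 5) (nat_lit 3) (nat_lit 4) (nat_lit 310) (nat_lit 256) (nat_lit 154)) (XT.lf (nat_lit 0) (nat_lit 18115302851) (nat_lit 152) (nat_lit 24901345293) (nat_lit 76) (nat_lit 320916850047) (nat_lit 2) (nat_lit 5) (nat_lit 4) (nat_lit 5) (nat_lit 3) (nat_lit 4) (nat_lit 311) (nat_lit 256) (nat_lit 153))) (XT.nd (nat_lit 78) (nat_lit 76) (nat_lit 0) (XT.lf (nat_lit 0) (nat_lit 29806300894) (nat_lit 152) (nat_lit 585742842) (nat_lit 76) (nat_lit 361418665135) (nat_lit 2) (nat_lit 5) (nat_lit 4) (nat_lit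 5) (nat_lit 3) (nat_lit 4) (nat_lit 312) (nat_lit 256) (nat_lit 152)) (XT.nd (nat_lit 78) (nat_lit 0) (nat_lit 0) (XT.lf (nat_lit 0) (nat_lit 27025695290) (nat_lit 76) (nat_lit 16056080435) (nat_lit 152) (nat_lit 378784387349) (nat_lit 1) (nat_lit 5) (nat_lit 2) (nat_lit 5) (nat_lit 3) (nat_lit 4) (nat_lit 313) (nat_lit 256) (nat_lit 151)) (XT.lf (nat_lit 0) (nat_lit 56878047048) (nat_lit 76) (nat_lit 556510645) (nat_lit 152) (nat_lit 396890276632) (nat_lit 1) (nat_lit 5) (nat_lit 2) (nat_lit 5) (nat_lit 3) (nat_lit 4) (nat_lit 314) (nat_lit 256) (nat_lit 150))))) (XT.nd (nat_lit 234) (nat_lit 0) (nat_lit 0) (XT.nd (nat_lit 78) (nat_lit 0) (nat_lit 0) (XT.lf (nat_lit 0) (nat_lit 73324060898) (nat_lit 152) (nat_lit 400652075055) (nat_lit 0) (nat_lit 15372985512) (nat_lit 1) (nat_lit 5) (nat_lit 3) (nat_lit 4) (nat_lit 1) (nat_lit 4) (nat_lit 315) (nat_lit 256) (nat_lit 149)) (XT.nd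 (nat_lit 78) (nat_lit 0) (nat_lit 0) (XT.lf (nat_lit 0) (nat_lit 90498527830) (nat_lit 152) (nat_lit 404129407887) (nat_lit 0) (nat_lit 32546313504) (nat_lit 1) (nat_lit 5) (nat_lit 3) (nat_lit 4) (nat_lit 1) (nat_lit 4) (nat_lit 316) (nat_lit 256) (nat_lit 148)) (XT.lf (nat_lit 0) (nat_lit 109046349016) (nat_lit 152) (nat_lit 407886008098) (nat_lit 0) (nat_lit 51093080115) (nat_lit 1) (nat_lit 5) (nat_lit 3) (nat_lit 4) (nat_lit 1) (nat_lit 4) (nat_lit 317) (nat_lit 256) (nat_lit 147)))) (XT.nd (nat_lit 78) (nat_lit 0) (nat_lit 0) (XT.lf (nat_lit 0) (nat_lit 129077437471) (nat_lit 152) (nat_lit 411944137021) (nat_lit 0) (nat_lit 71123192111) (nat_lit 1) (nat_lit 5) (nat_lit 3) (nat_lit 4) (nat_lit 1) (nat_lit 4) (nat_lit 318) (nat_lit 256) (nat_lit 146)) (XT.nd (nat_lit 78) (nat_lit 0) (nat_lit 0) (XT.lf (nat_lit 0) (nat_lit 150710495939) (nat_lit 152) (nat_lit 416327842828) (nat_lit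 0) (nat_lit 92755346452) (nat_lit 1) (nat_lit 5) (nat_lit 3) (nat_lit 4) (nat_lit 1) (nat_lit 4) (nat_lit 319) (nat_lit 256) (nat_lit 145)) (XT.lf (nat_lit 0) (nat_lit 174073720324) (nat_lit 152) (nat_lit 421063103035) (nat_lit 0) (nat_lit 116117733681) (nat_lit 1) (nat_lit 5) (nat_lit 3) (nat_lit 4) (nat_lit 1) (nat_lit 4) (nat_lit 320) (nat_lit 256) (nat_lit 144)))))) (XT.nd (nat_lit 468) (nat_lit 0) (nat_lit 0) (XT.nd (nat_lit 234) (nat_lit 0) (nat_lit 0) (XT.nd (nat_lit 78) (nat_lit 0) (nat_lit 0) (XT.lf (nat_lit 0) (nat_lit 199305559363) (nat_lit 152) (nat_lit 426177978444) (nat_lit 0) (nat_lit 141348797576) (nat_lit 1) (nat_lit 5) (nat_lit 3) (nat_lit 4) (nat_lit 1) (nat_lit 4) (nat_lit 321) (nat_lit 256) (nat_lit 143)) (XT.nd (nat_lit 78) (nat_lit 0) (nat_lit 0) (XT.lf (nat_lit 0) (nat_lit 226555535064) (nat_lit 152) (nat_lit 431702779426) (nat_lit 0) (nat_lit 168598055552)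 (nat_lit 1) (nat_lit 5) (nat_lit 3) (nat_lit 4) (nat_lit 1) (nat_lit 4) (nat_lit 322) (nat_lit 256) (nat_lit 142)) (XT.lf (nat_lit 0) (nat_lit 255985128765) (nat_lit 152) (nat_lit 437670245544) (nat_lit 0) (nat_lit 198026984692) (nat_lit 1) (nat_lit 5) (nat_lit 3) (nat_lit 4) (nat_lit 1) (nat_lit 4) (nat_lit 323) (nat_lit 256) (nat_lit 141)))) (XT.nd (nat_lit 78) (nat_lit 0) (nat_lit 0) (XT.lf (nat_lit 0) (nat_lit 287768738059) (nat_lit 152) (nat_lit 444115739560) (nat_lit 0) (nat_lit 229809978651) (nat_lit 1) (nat_lit 5) (nat_lit 3) (nat_lit 4) (nat_lit 1) (nat_lit 4) (nat_lit 324) (nat_lit 256) (nat_lit 140)) (XT.nd (nat_lit 78) (nat_lit 0) (nat_lit 0) (XT.lf (nat_lit 0) (nat_lit 322094710260) (nat_lit 152) (nat_lit 451077456993) (nat_lit 0) (nat_lit 264135381098) (nat_lit 1) (nat_lit 5) (nat_lit 3) (nat_lit 4) (nat_lit 1) (nat_lit 4) (nat_lit 325) (nat_lit 256) (nat_lit 139)) (XT.lf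 (nat_lit 0) (nat_lit 359166458536) (nat_lit 152) (nat_lit 458596652466) (nat_lit 0) (nat_lit 301206601824) (nat_lit 1) (nat_lit 5) (nat_lit 3) (nat_lit 4) (nat_lit 1) (nat_lit 4) (nat_lit 326) (nat_lit 256) (nat_lit 138))))) (XT.nd (nat_lit 234) (nat_lit 0) (nat_lit 0) (XT.nd (nat_lit 78) (nat_lit 0) (nat_lit 0) (XT.lf (nat_lit 0) (nat_lit 399203667321) (nat_lit 152) (nat_lit 466717884174) (nat_lit 0) (nat_lit 341243322138) (nat_lit 1) (nat_lit 5) (nat_lit 3) (nat_lit 4) (nat_lit 1) (nat_lit 4) (nat_lit 327) (nat_lit 256) (nat_lit 137)) (XT.nd (nat_lit 78) (nat_lit 0) (nat_lit 0) (XT.lf (nat_lit 0) (nat_lit 442443594150) (nat_lit 152) (nat_lit 475489277934) (nat_lit 0) (nat_lit 384482796677) (nat_lit 1) (nat_lit 5) (nat_lit 3) (nat_lit 4) (nat_lit 1) (nat_lit 4) (nat_lit 328) (nat_lit 256) (nat_lit 136)) (XT.lf (nat_lit 0) (nat_lit 489142475625) (nat_lit 152) (nat_lit 484962812376)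 (nat_lit 0) (nat_lit 431181259367) (nat_lit 1) (nat_lit 5) (nat_lit 3) (nat_lit 4) (nat_lit 1) (nat_lit 4) (nat_lit 329) (nat_lit 256) (nat_lit 135)))) (XT.nd (nat_lit 78) (nat_lit 0) (nat_lit 0) (XT.lf (nat_lit 0) (nat_lit 539577045860) (nat_lit 152) (nat_lit 495194626964) (nat_lit 0) (nat_lit 481615441836) (nat_lit 1) (nat_lit 5) (nat_lit 3) (nat_lit 4) (nat_lit 1) (nat_lit 4) (nat_lit 330) (nat_lit 256) (nat_lit 134)) (XT.nd (nat_lit 31746) (nat_lit 0) (nat_lit 2508) (XT.lf (nat_lit 0) (nat_lit 594046176380) (nat_lit 152) (nat_lit 506245354673) (nat_lit 0) (nat_lit 536084213315) (nat_lit 1) (nat_lit 5) (nat_lit 3) (nat_lit 4) (nat_lit 1) (nat_lit 4) (nat_lit 331) (nat_lit 256) (nat_lit 133)) (XT.lf (nat_lit 0) (nat_lit 3635484800) (nat_lit 0) (nat_lit 3635484800) (nat_lit 380) (nat_lit 449870206) (nat_lit 34) (nat_lit 5) (nat_lit 34) (nat_lit 3) (nat_lit 39) (nat_lit 3) (nat_lit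 257) (nat_lit 257) (nat_lit 206))))))))
noncomputable def xc81 : XT := (XT.nd (nat_lit 1794) (nat_lit 684) (nat_lit 0) (XT.nd (nat_lit 858) (nat_lit 684) (nat_lit 0) (XT.nd (nat_lit 390) (nat_lit 532) (nat_lit 0) (XT.nd (nat_lit 156) (nat_lit 456) (nat_lit 0) (XT.nd (nat_lit 78) (nat_lit 0) (nat_lit 0) (XT.lf (nat_lit 0) (nat_lit 13985312275) (nat_lit 0) (nat_lit 1373557420) (nat_lit 380) (nat_lit 679552443) (nat_lit 34) (nat_lit 5) (nat_lit 34) (nat_lit 3) (nat_lit 39) (nat_lit 3) (nat_lit 258) (nat_lit 257) (nat_lit 205)) (XT.lf (nat_lit 76) (nat_lit 4652336774) (nat_lit 0) (nat_lit 11797598533) (nat_lit 456) (nat_lit 216476845) (nat_lit 35) (nat_lit 5) (nat_lit 34) (nat_lit 5) (nat_lit 40) (nat_lit 5) (nat_lit 259) (nat_lit 257) (nat_lit 204))) (XT.nd (nat_lit 78) (nat_lit 0) (nat_lit 76) (XT.lf (nat_lit 0) (nat_lit 340110564) (nat_lit 456) (nat_lit 5388283864) (nat_lit 532) (nat_lit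 11610229328) (nat_lit 28) (nat_lit 5) (nat_lit 34) (nat_lit 5) (nat_lit 35) (nat_lit 5) (nat_lit 260) (nat_lit 257) (nat_lit 203)) (XT.nd (nat_lit 78) (nat_lit 0) (nat_lit 0) (XT.lf (nat_lit 0) (nat_lit 974175204) (nat_lit 456) (nat_lit 16243845002) (nat_lit 532) (nat_lit 842737747) (nat_lit 29) (nat_lit 5) (nat_lit 35) (nat_lit 5) (nat_lit 36) (nat_lit 5) (nat_lit 261) (nat_lit 257) (nat_lit 202)) (XT.lf (nat_lit 0) (nat_lit 1939333225) (nat_lit 456) (nat_lit 9092088390) (nat_lit 532) (nat_lit 7786966571) (nat_lit 29) (nat_lit 5) (nat_lit 35) (nat_lit 5) (nat_lit 36) (nat_lit 5) (nat_lit 262) (nat_lit 257) (nat_lit 201))))) (XT.nd (nat_lit 234) (nat_lit 608) (nat_lit 0) (XT.nd (nat_lit 78) (nat_lit 0) (nat_lit 76) (XT.lf (nat_lit 0) (nat_lit 2963580631) (nat_lit 456) (nat_lit 1382596266) (nat_lit 532) (nat_lit 15292045094) (nat_lit 29) (nat_lit 5) (nat_lit 35) (nat_lit 5) (nat_lit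 36) (nat_lit 5) (nat_lit 263) (nat_lit 257) (nat_lit 200)) (XT.nd (nat_lit 78) (nat_lit 0) (nat_lit 0) (XT.lf (nat_lit 0) (nat_lit 4302195139) (nat_lit 456) (nat_lit 13289583116) (nat_lit 76) (nat_lit 2913402739) (nat_lit 30) (nat_lit 5) (nat_lit 36) (nat_lit 5) (nat_lit 31) (nat_lit 5) (nat_lit 264) (nat_lit 257) (nat_lit 199)) (XT.lf (nat_lit 0) (nat_lit 5883789154) (nat_lit 456) (nat_lit 4986524813) (nat_lit 76) (nat_lit 10560434373) (nat_lit 30) (nat_lit 5) (nat_lit 36) (nat_lit 5) (nat_lit 31) (nat_lit 5) (nat_lit 265) (nat_lit 257) (nat_lit 198)))) (XT.nd (nat_lit 78) (nat_lit 228) (nat_lit 0) (XT.lf (nat_lit 0) (nat_lit 4176305207) (nat_lit 456) (nat_lit 3501432869) (nat_lit 532) (nat_lit 14745870557) (nat_lit 24) (nat_lit 5) (nat_lit 30) (nat_lit 5) (nat_lit 31) (nat_lit 5) (nat_lit 266) (nat_lit 257) (nat_lit 197)) (XT.nd (nat_lit 78) (nat_lit 228) (nat_lit 0) (XT.lf (nat_lit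 0) (nat_lit 9848449455) (nat_lit 532) (nat_lit 9254253744) (nat_lit 76) (nat_lit 4374640151) (nat_lit 24) (nat_lit 5) (nat_lit 31) (nat_lit 5) (nat_lit 25) (nat_lit 5) (nat_lit 267) (nat_lit 257) (nat_lit 196)) (XT.lf (nat_lit 0) (nat_lit 372714526) (nat_lit 228) (nat_lit 11907212248) (nat_lit 304) (nat_lit 12328578871) (nat_lit 21) (nat_lit 5) (nat_lit 24) (nat_lit 5) (nat_lit 25) (nat_lit 5) (nat_lit 268) (nat_lit 257) (nat_lit 195)))))) (XT.nd (nat_lit 468) (nat_lit 304) (nat_lit 0) (XT.nd (nat_lit 234) (nat_lit 228) (nat_lit 0) (XT.nd (nat_lit 78) (nat_lit 152) (nat_lit 0) (XT.lf (nat_lit 0) (nat_lit 11283248881) (nat_lit 228) (nat_lit 3863538271) (nat_lit 304) (nat_lit 10664194881) (nat_lit 21) (nat_lit 5) (nat_lit 24) (nat_lit 5) (nat_lit 25) (nat_lit 5) (nat_lit 269) (nat_lit 257) (nat_lit 194)) (XT.nd (nat_lit 78) (nat_lit 152) (nat_lit 0) (XT.lf (nat_lit 0) (nat_lit 18347726725)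 (nat_lit 304) (nat_lit 4171941594) (nat_lit 76) (nat_lit 4581693393) (nat_lit 21) (nat_lit 5) (nat_lit 25) (nat_lit 5) (nat_lit 22) (nat_lit 5) (nat_lit 270) (nat_lit 257) (nat_lit 193)) (XT.lf (nat_lit 0) (nat_lit 7263357307) (nat_lit 152) (nat_lit 14805977082) (nat_lit 228) (nat_lit 6404547359) (nat_lit 19) (nat_lit 5) (nat_lit 21) (nat_lit 5) (nat_lit 22) (nat_lit 5) (nat_lit 271) (nat_lit 257) (nat_lit 192)))) (XT.nd (nat_lit 78) (nat_lit 228) (nat_lit 0) (XT.lf (nat_lit 0) (nat_lit 19839097702) (nat_lit 152) (nat_lit 6353692087) (nat_lit 228) (nat_lit 3755155750) (nat_lit 19) (nat_lit 5) (nat_lit 21) (nat_lit 5) (nat_lit 22) (nat_lit 5) (nat_lit 272) (nat_lit 257) (nat_lit 191)) (XT.nd (nat_lit 78) (nat_lit 76) (nat_lit 0) (XT.lf (nat_lit 0) (nat_lit 1897608031) (nat_lit 152) (nat_lit 28851634600) (nat_lit 228) (nat_lit 782508495) (nat_lit 17) (nat_lit 5) (nat_lit 19) (nat_lit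 5) (nat_lit 20) (nat_lit 5) (nat_lit 273) (nat_lit 257) (nat_lit 190)) (XT.lf (nat_lit 0) (nat_lit 2745975148) (nat_lit 228) (nat_lit 18023064901) (nat_lit 76) (nat_lit 12433448190) (nat_lit 16) (nat_lit 5) (nat_lit 19) (nat_lit 5) (nat_lit 17) (nat_lit 5) (nat_lit 274) (nat_lit 257) (nat_lit 189))))) (XT.nd (nat_lit 234) (nat_lit 152) (nat_lit 0) (XT.nd (nat_lit 78) (nat_lit 152) (nat_lit 0) (XT.lf (nat_lit 0) (nat_lit 6506014188) (nat_lit 228) (nat_lit 5514344289) (nat_lit 76) (nat_lit 22985628340) (nat_lit 16) (nat_lit 5) (nat_lit 19) (nat_lit 5) (nat_lit 17) (nat_lit 5) (nat_lit 275) (nat_lit 257) (nat_lit 188)) (XT.nd (nat_lit 78) (nat_lit 0) (nat_lit 0) (XT.lf (nat_lit 0) (nat_lit 8405437883) (nat_lit 152) (nat_lit 2355747683) (nat_lit 228) (nat_lit 26177082166) (nat_lit 14) (nat_lit 5) (nat_lit 16) (nat_lit 5) (nat_lit 17) (nat_lit 5) (nat_lit 276) (nat_lit 257) (nat_lit 187))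 (XT.lf (nat_lit 0) (nat_lit 15698295332) (nat_lit 228) (nat_lit 15469390894) (nat_lit 76) (nat_lit 7830168091) (nat_lit 14) (nat_lit 5) (nat_lit 17) (nat_lit 5) (nat_lit 15) (nat_lit 5) (nat_lit 277) (nat_lit 257) (nat_lit 186)))) (XT.nd (nat_lit 78) (nat_lit 152) (nat_lit 0) (XT.lf (nat_lit 0) (nat_lit 21084583903) (nat_lit 228) (nat_lit 1431732283) (nat_lit 76) (nat_lit 18701596668) (nat_lit 14) (nat_lit 5) (nat_lit 17) (nat_lit 5) (nat_lit 15) (nat_lit 5) (nat_lit 278) (nat_lit 257) (nat_lit 185)) (XT.nd (nat_lit 78) (nat_lit 0) (nat_lit 0) (XT.lf (nat_lit 0) (nat_lit 14442458144) (nat_lit 152) (nat_lit 12800197558) (nat_lit 228) (nat_lit 16345688686) (nat_lit 12) (nat_lit 5) (nat_lit 14) (nat_lit 5) (nat_lit 15) (nat_lit 5) (nat_lit 279) (nat_lit 257) (nat_lit 184)) (XT.lf (nat_lit 0) (nat_lit 31659283180) (nat_lit 152) (nat_lit 2267043633) (nat_lit 228) (nat_lit 12219483205) (nat_lit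 12) (nat_lit 5) (nat_lit 14) (nat_lit 5) (nat_lit 15) (nat_lit 5) (nat_lit 280) (nat_lit 257) (nat_lit 183))))))) (XT.nd (nat_lit 858) (nat_lit 304) (nat_lit 0) (XT.nd (nat_lit 390) (nat_lit 76) (nat_lit 0) (XT.nd (nat_lit 156) (nat_lit 228) (nat_lit 0) (XT.nd (nat_lit 78) (nat_lit 0) (nat_lit 0) (XT.lf (nat_lit 0) (nat_lit 1176873564) (nat_lit 76) (nat_lit 40209397639) (nat_lit 152) (nat_lit 7502308533) (nat_lit 11) (nat_lit 5) (nat_lit 12) (nat_lit 5) (nat_lit 13) (nat_lit 4) (nat_lit 281) (nat_lit 257) (nat_lit 182)) (XT.lf (nat_lit 0) (nat_lit 18846924392) (nat_lit 76) (nat_lit 31044006702) (nat_lit 152) (nat_lit 1924037084) (nat_lit 11) (nat_lit 5) (nat_lit 12) (nat_lit 5) (nat_lit 13) (nat_lit 4) (nat_lit 282) (nat_lit 257) (nat_lit 181))) (XT.nd (nat_lit 78) (nat_lit 152) (nat_lit 0) (XT.lf (nat_lit 0) (nat_lit 3890062918) (nat_lit 152) (nat_lit 17151494950) (nat_lit 76) (nat_lit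 33926471600) (nat_lit 10) (nat_lit 5) (nat_lit 12) (nat_lit 5) (nat_lit 11) (nat_lit 5) (nat_lit 283) (nat_lit 257) (nat_lit 180)) (XT.nd (nat_lit 78) (nat_lit 152) (nat_lit 0) (XT.lf (nat_lit 0) (nat_lit 10060426517) (nat_lit 152) (nat_lit 126994892) (nat_lit 76) (nat_lit 48182333974) (nat_lit 10) (nat_lit 5) (nat_lit 12) (nat_lit 5) (nat_lit 11) (nat_lit 5) (nat_lit 284) (nat_lit 257) (nat_lit 179)) (XT.lf (nat_lit 0) (nat_lit 17230823504) (nat_lit 228) (nat_lit 42842138005) (nat_lit 76) (nat_lit 1930168115) (nat_lit 8) (nat_lit 5) (nat_lit 11) (nat_lit 5) (nat_lit 9) (nat_lit 4) (nat_lit 285) (nat_lit 257) (nat_lit 178))))) (XT.nd (nat_lit 234) (nat_lit 0) (nat_lit 0) (XT.nd (nat_lit 78) (nat_lit 76) (nat_lit 0) (XT.lf (nat_lit 0) (nat_lit 25238592110) (nat_lit 228) (nat_lit 26199347144) (nat_lit 76) (nat_lit 14468156283) (nat_lit 8) (nat_lit 5) (nat_lit 11) (nat_lit 5) (nat_lit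 9) (nat_lit 4) (nat_lit 286) (nat_lit 257) (nat_lit 177)) (XT.nd (nat_lit 78) (nat_lit 76) (nat_lit 0) (XT.lf (nat_lit 0) (nat_lit 33882879483) (nat_lit 228) (nat_lit 8231607039) (nat_lit 76) (nat_lit 28007159794) (nat_lit 8) (nat_lit 5) (nat_lit 11) (nat_lit 5) (nat_lit 9) (nat_lit 4) (nat_lit 287) (nat_lit 257) (nat_lit 176)) (XT.lf (nat_lit 0) (nat_lit 11755621608) (nat_lit 76) (nat_lit 31742012403) (nat_lit 152) (nat_lit 31154511152) (nat_lit 7) (nat_lit 5) (nat_lit 8) (nat_lit 5) (nat_lit 9) (nat_lit 4) (nat_lit 288) (nat_lit 257) (nat_lit 175)))) (XT.nd (nat_lit 78) (nat_lit 0) (nat_lit 0) (XT.lf (nat_lit 0) (nat_lit 33804124624) (nat_lit 76) (nat_lit 20298853059) (nat_lit 152) (nat_lit 25424410140) (nat_lit 7) (nat_lit 5) (nat_lit 8) (nat_lit 5) (nat_lit 9) (nat_lit 4) (nat_lit 289) (nat_lit 257) (nat_lit 174)) (XT.nd (nat_lit 78) (nat_lit 0) (nat_lit 0) (XT.lf (nat_lit 0) (nat_lit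 57611097966) (nat_lit 76) (nat_lit 7942263902) (nat_lit 152) (nat_lit 19239574367) (nat_lit 7) (nat_lit 5) (nat_lit 8) (nat_lit 5) (nat_lit 9) (nat_lit 4) (nat_lit 290) (nat_lit 257) (nat_lit 173)) (XT.lf (nat_lit 0) (nat_lit 78046534376) (nat_lit 152) (nat_lit 7292267336) (nat_lit 0) (nat_lit 5130800441) (nat_lit 7) (nat_lit 5) (nat_lit 9) (nat_lit 4) (nat_lit 7) (nat_lit 4) (nat_lit 291) (nat_lit 257) (nat_lit 172)))))) (XT.nd (nat_lit 468) (nat_lit 76) (nat_lit 0) (XT.nd (nat_lit 234) (nat_lit 76) (nat_lit 0) (XT.nd (nat_lit 78) (nat_lit 76) (nat_lit 0) (XT.lf (nat_lit 0) (nat_lit 14713356474) (nat_lit 76) (nat_lit 77383007852) (nat_lit 76) (nat_lit 4459473911) (nat_lit 6) (nat_lit 4) (nat_lit 7) (nat_lit 5) (nat_lit 7) (nat_lit 4) (nat_lit 292) (nat_lit 257) (nat_lit 171)) (XT.nd (nat_lit 78) (nat_lit 0) (nat_lit 0) (XT.lf (nat_lit 0) (nat_lit 4135683597) (nat_lit 152) (nat_lit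 64328534286) (nat_lit 76) (nat_lit 34640668049) (nat_lit 5) (nat_lit 5) (nat_lit 7) (nat_lit 5) (nat_lit 6) (nat_lit 4) (nat_lit 293) (nat_lit 257) (nat_lit 170)) (XT.lf (nat_lit 0) (nat_lit 13174816839) (nat_lit 152) (nat_lit 45533824393) (nat_lit 76) (nat_lit 51460176997) (nat_lit 5) (nat_lit 5) (nat_lit 7) (nat_lit 5) (nat_lit 6) (nat_lit 4) (nat_lit 294) (nat_lit 257) (nat_lit 169)))) (XT.nd (nat_lit 78) (nat_lit 76) (nat_lit 0) (XT.lf (nat_lit 0) (nat_lit 22934571993) (nat_lit 152) (nat_lit 25239725569) (nat_lit 76) (nat_lit 69623777936) (nat_lit 5) (nat_lit 5) (nat_lit 7) (nat_lit 5) (nat_lit 6) (nat_lit 4) (nat_lit 295) (nat_lit 257) (nat_lit 168)) (XT.nd (nat_lit 78) (nat_lit 76) (nat_lit 0) (XT.lf (nat_lit 0) (nat_lit 33472784646) (nat_lit 152) (nat_lit 3325976490) (nat_lit 76) (nat_lit 89239107022) (nat_lit 5) (nat_lit 5) (nat_lit 7) (nat_lit 5) (nat_lit 6) (nat_lit 4) (nat_lit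 296) (nat_lit 257) (nat_lit 167)) (XT.lf (nat_lit 0) (nat_lit 21408207334) (nat_lit 76) (nat_lit 23958564032) (nat_lit 152) (nat_lit 89529063807) (nat_lit 4) (nat_lit 5) (nat_lit 5) (nat_lit 5) (nat_lit 6) (nat_lit 4) (nat_lit 297) (nat_lit 257) (nat_lit 166))))) (XT.nd (nat_lit 234) (nat_lit 76) (nat_lit 0) (XT.nd (nat_lit 78) (nat_lit 0) (nat_lit 0) (XT.lf (nat_lit 0) (nat_lit 48306777575) (nat_lit 76) (nat_lit 9994361852) (nat_lit 152) (nat_lit 86154198823) (nat_lit 4) (nat_lit 5) (nat_lit 5) (nat_lit 5) (nat_lit 6) (nat_lit 4) (nat_lit 298) (nat_lit 257) (nat_lit 165)) (XT.nd (nat_lit 78) (nat_lit 0) (nat_lit 0) (XT.lf (nat_lit 0) (nat_lit 72390645202) (nat_lit 152) (nat_lit 77548079514) (nat_lit 0) (nat_lit 4831252920) (nat_lit 4) (nat_lit 5) (nat_lit 6) (nat_lit 4) (nat_lit 4) (nat_lit 4) (nat_lit 299) (nat_lit 257) (nat_lit 164)) (XT.lf (nat_lit 0) (nat_lit 87865096328) (nat_lit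 152) (nat_lit 57722273552) (nat_lit 0) (nat_lit 20301802100) (nat_lit 4) (nat_lit 5) (nat_lit 6) (nat_lit 4) (nat_lit 4) (nat_lit 4) (nat_lit 300) (nat_lit 257) (nat_lit 163)))) (XT.nd (nat_lit 78) (nat_lit 76) (nat_lit 0) (XT.lf (nat_lit 0) (nat_lit 104575828612) (nat_lit 152) (nat_lit 36313291887) (nat_lit 0) (nat_lit 37008921472) (nat_lit 4) (nat_lit 5) (nat_lit 6) (nat_lit 4) (nat_lit 4) (nat_lit 4) (nat_lit 301) (nat_lit 257) (nat_lit 162)) (XT.nd (nat_lit 78) (nat_lit 76) (nat_lit 0) (XT.lf (nat_lit 0) (nat_lit 122621868617) (nat_lit 152) (nat_lit 13194266481) (nat_lit 0) (nat_lit 55051616187) (nat_lit 4) (nat_lit 5) (nat_lit 6) (nat_lit 4) (nat_lit 4) (nat_lit 4) (nat_lit 302) (nat_lit 257) (nat_lit 161)) (XT.lf (nat_lit 0) (nat_lit 12391686650) (nat_lit 76) (nat_lit 130016489550) (nat_lit 76) (nat_lit 62443139631) (nat_lit 3) (nat_lit 4) (nat_lit 4) (nat_lit 5) (nat_lit 4)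 (nat_lit 4) (nat_lit 303) (nat_lit 257) (nat_lit 160))))))))
noncomputable def xc82 : XT := (XT.nd (nat_lit 1794) (nat_lit 0) (nat_lit 0) (XT.nd (nat_lit 858) (nat_lit 0) (nat_lit 0) (XT.nd (nat_lit 390) (nat_lit 152) (nat_lit 0) (XT.nd (nat_lit 156) (nat_lit 0) (nat_lit 0) (XT.nd (nat_lit 78) (nat_lit 0) (nat_lit 0) (XT.lf (nat_lit 0) (nat_lit 40772471699) (nat_lit 76) (nat_lit 123364283649) (nat_lit 76) (nat_lit 55788065683) (nat_lit 3) (nat_lit 4) (nat_lit 4) (nat_lit 5) (nat_lit 4) (nat_lit 4) (nat_lit 304) (nat_lit 257) (nat_lit 159)) (XT.lf (nat_lit 0) (nat_lit 71421484405) (nat_lit 76) (nat_lit 116180851543) (nat_lit 76) (nat_lit 48601977979) (nat_lit 3) (nat_lit 4) (nat_lit 4) (nat_lit 5) (nat_lit 4) (nat_lit 4) (nat_lit 305) (nat_lit 257) (nat_lit 158))) (XT.nd (nat_lit 78) (nat_lit 0) (nat_lit 0) (XT.lf (nat_lit 0) (nat_lit 104520348547) (nat_lit 76) (nat_lit 108423624746)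 (nat_lit 76) (nat_lit 40842292294) (nat_lit 3) (nat_lit 4) (nat_lit 4) (nat_lit 5) (nat_lit 4) (nat_lit 4) (nat_lit 306) (nat_lit 257) (nat_lit 157)) (XT.nd (nat_lit 78) (nat_lit 0) (nat_lit 0) (XT.lf (nat_lit 0) (nat_lit 140265205542) (nat_lit 76) (nat_lit 100046634507) (nat_lit 76) (nat_lit 32463025307) (nat_lit 3) (nat_lit 4) (nat_lit 4) (nat_lit 5) (nat_lit 4) (nat_lit 4) (nat_lit 307) (nat_lit 257) (nat_lit 156)) (XT.lf (nat_lit 0) (nat_lit 178867876765) (nat_lit 76) (nat_lit 91000239401) (nat_lit 76) (nat_lit 23414522102) (nat_lit 3) (nat_lit 4) (nat_lit 4) (nat_lit 5) (nat_lit 4) (nat_lit 4) (nat_lit 308) (nat_lit 257) (nat_lit 155))))) (XT.nd (nat_lit 234) (nat_lit 76) (nat_lit 0) (XT.nd (nat_lit 78) (nat_lit 76) (nat_lit 0) (XT.lf (nat_lit 0) (nat_lit 220557118786) (nat_lit 76) (nat_lit 81230831162) (nat_lit 76) (nat_lit 13643161918) (nat_lit 3) (nat_lit 4) (nat_lit 4) (nat_lit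 5) (nat_lit 4) (nat_lit 4) (nat_lit 309) (nat_lit 257) (nat_lit 154)) (XT.nd (nat_lit 78) (nat_lit 76) (nat_lit 0) (XT.lf (nat_lit 0) (nat_lit 265579978964) (nat_lit 76) (nat_lit 70680517000) (nat_lit 76) (nat_lit 3091040400) (nat_lit 3) (nat_lit 4) (nat_lit 4) (nat_lit 5) (nat_lit 4) (nat_lit 4) (nat_lit 310) (nat_lit 257) (nat_lit 153)) (XT.lf (nat_lit 0) (nat_lit 7888955144) (nat_lit 152) (nat_lit 51182123376) (nat_lit 76) (nat_lit 306098606277) (nat_lit 2) (nat_lit 5) (nat_lit 4) (nat_lit 5) (nat_lit 3) (nat_lit 4) (nat_lit 311) (nat_lit 257) (nat_lit 152)))) (XT.nd (nat_lit 78) (nat_lit 76) (nat_lit 0) (XT.lf (nat_lit 0) (nat_lit 19579582188) (nat_lit 152) (nat_lit 26867168640) (nat_lit 76) (nat_lit 346600175494) (nat_lit 2) (nat_lit 5) (nat_lit 4) (nat_lit 5) (nat_lit 3) (nat_lit 4) (nat_lit 312) (nat_lit 257) (nat_lit 151)) (XT.nd (nat_lit 78) (nat_lit 76) (nat_lit 0) (XT.lf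 (nat_lit 0) (nat_lit 32204744881) (nat_lit 152) (nat_lit 608264976) (nat_lit 76) (nat_lit 390341396718) (nat_lit 2) (nat_lit 5) (nat_lit 4) (nat_lit 5) (nat_lit 3) (nat_lit 4) (nat_lit 313) (nat_lit 257) (nat_lit 150)) (XT.lf (nat_lit 0) (nat_lit 29211472073) (nat_lit 76) (nat_lit 17330323534) (nat_lit 152) (nat_lit 409072541721) (nat_lit 1) (nat_lit 5) (nat_lit 2) (nat_lit 5) (nat_lit 3) (nat_lit 4) (nat_lit 314) (nat_lit 257) (nat_lit 149)))))) (XT.nd (nat_lit 468) (nat_lit 0) (nat_lit 0) (XT.nd (nat_lit 234) (nat_lit 0) (nat_lit 0) (XT.nd (nat_lit 78) (nat_lit 0) (nat_lit 0) (XT.lf (nat_lit 0) (nat_lit 61450254849) (nat_lit 76) (nat_lit 591546927) (nat_lit 152) (nat_lit 428627983378) (nat_lit 1) (nat_lit 5) (nat_lit 2) (nat_lit 5) (nat_lit 3) (nat_lit 4) (nat_lit 315) (nat_lit 257) (nat_lit 148)) (XT.nd (nat_lit 78) (nat_lit 0) (nat_lit 0) (XT.lf (nat_lit 0) (nat_lit 79201752039)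 (nat_lit 152) (nat_lit 432683156012) (nat_lit 0) (nat_lit 16611167050) (nat_lit 1) (nat_lit 5) (nat_lit 3) (nat_lit 4) (nat_lit 1) (nat_lit 4) (nat_lit 316) (nat_lit 257) (nat_lit 147)) (XT.lf (nat_lit 0) (nat_lit 97749304750) (nat_lit 152) (nat_lit 436440237326) (nat_lit 0) (nat_lit 35157743304) (nat_lit 1) (nat_lit 5) (nat_lit 3) (nat_lit 4) (nat_lit 1) (nat_lit 4) (nat_lit 317) (nat_lit 257) (nat_lit 146)))) (XT.nd (nat_lit 78) (nat_lit 0) (nat_lit 0) (XT.lf (nat_lit 0) (nat_lit 117780144617) (nat_lit 152) (nat_lit 440498811716) (nat_lit 0) (nat_lit 55187679043) (nat_lit 1) (nat_lit 5) (nat_lit 3) (nat_lit 4) (nat_lit 1) (nat_lit 4) (nat_lit 318) (nat_lit 257) (nat_lit 145)) (XT.nd (nat_lit 78) (nat_lit 0) (nat_lit 0) (XT.lf (nat_lit 0) (nat_lit 139412972912) (nat_lit 152) (nat_lit 444882929992) (nat_lit 0) (nat_lit 76819670182) (nat_lit 1) (nat_lit 5) (nat_lit 3) (nat_lit 4) (nat_lit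 1) (nat_lit 4) (nat_lit 319) (nat_lit 257) (nat_lit 144)) (XT.lf (nat_lit 0) (nat_lit 162775984173) (nat_lit 152) (nat_lit 449618572115) (nat_lit 0) (nat_lit 100181906300) (nat_lit 1) (nat_lit 5) (nat_lit 3) (nat_lit 4) (nat_lit 1) (nat_lit 4) (nat_lit 320) (nat_lit 257) (nat_lit 143))))) (XT.nd (nat_lit 234) (nat_lit 0) (nat_lit 0) (XT.nd (nat_lit 78) (nat_lit 0) (nat_lit 0) (XT.lf (nat_lit 0) (nat_lit 188007625875) (nat_lit 152) (nat_lit 454733801149) (nat_lit 0) (nat_lit 125412830276) (nat_lit 1) (nat_lit 5) (nat_lit 3) (nat_lit 4) (nat_lit 1) (nat_lit 4) (nat_lit 321) (nat_lit 257) (nat_lit 142)) (XT.nd (nat_lit 78) (nat_lit 0) (nat_lit 0) (XT.lf (nat_lit 0) (nat_lit 215257418857) (nat_lit 152) (nat_lit 460258929563) (nat_lit 0) (nat_lit 152661958697) (nat_lit 1) (nat_lit 5) (nat_lit 3) (nat_lit 4) (nat_lit 1) (nat_lit 4) (nat_lit 322) (nat_lit 257) (nat_lit 141)) (XT.lf (nat_lit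 0) (nat_lit 244686843374) (nat_lit 152) (nat_lit 466226698858) (nat_lit 0) (nat_lit 182090767880) (nat_lit 1) (nat_lit 5) (nat_lit 3) (nat_lit 4) (nat_lit 1) (nat_lit 4) (nat_lit 323) (nat_lit 257) (nat_lit 140)))) (XT.nd (nat_lit 78) (nat_lit 0) (nat_lit 0) (XT.lf (nat_lit 0) (nat_lit 276470296016) (nat_lit 152) (nat_lit 472672473593) (nat_lit 0) (nat_lit 213873650767) (nat_lit 1) (nat_lit 5) (nat_lit 3) (nat_lit 4) (nat_lit 1) (nat_lit 4) (nat_lit 324) (nat_lit 257) (nat_lit 139)) (XT.nd (nat_lit 78) (nat_lit 0) (nat_lit 0) (XT.lf (nat_lit 0) (nat_lit 310796123168) (nat_lit 152) (nat_lit 479634450952) (nat_lit 0) (nat_lit 248198950370) (nat_lit 1) (nat_lit 5) (nat_lit 3) (nat_lit 4) (nat_lit 1) (nat_lit 4) (nat_lit 325) (nat_lit 257) (nat_lit 138)) (XT.lf (nat_lit 0) (nat_lit 347867737140) (nat_lit 152) (nat_lit 487153887096) (nat_lit 0) (nat_lit 285270075869) (nat_lit 1) (nat_lit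 5) (nat_lit 3) (nat_lit 4) (nat_lit 1) (nat_lit 4) (nat_lit 326) (nat_lit 257) (nat_lit 137))))))) (XT.nd (nat_lit 32604) (nat_lit 0) (nat_lit 1140) (XT.nd (nat_lit 32136) (nat_lit 0) (nat_lit 2052) (XT.nd (nat_lit 156) (nat_lit 0) (nat_lit 0) (XT.nd (nat_lit 78) (nat_lit 0) (nat_lit 0) (XT.lf (nat_lit 0) (nat_lit 387904821570) (nat_lit 152) (nat_lit 495275341648) (nat_lit 0) (nat_lit 325306708010) (nat_lit 1) (nat_lit 5) (nat_lit 3) (nat_lit 4) (nat_lit 1) (nat_lit 4) (nat_lit 327) (nat_lit 257) (nat_lit 136)) (XT.lf (nat_lit 0) (nat_lit 431144633254) (nat_lit 152) (nat_lit 504046941746) (nat_lit 0) (nat_lit 368546100909) (nat_lit 1) (nat_lit 5) (nat_lit 3) (nat_lit 4) (nat_lit 1) (nat_lit 4) (nat_lit 328) (nat_lit 257) (nat_lit 135))) (XT.nd (nat_lit 78) (nat_lit 0) (nat_lit 0) (XT.lf (nat_lit 0) (nat_lit 477843408115) (nat_lit 152) (nat_lit 513520667241) (nat_lit 0) (nat_lit 415244488004)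 (nat_lit 1) (nat_lit 5) (nat_lit 3) (nat_lit 4) (nat_lit 1) (nat_lit 4) (nat_lit 329) (nat_lit 257) (nat_lit 134)) (XT.nd (nat_lit 78) (nat_lit 0) (nat_lit 0) (XT.lf (nat_lit 0) (nat_lit 528277879632) (nat_lit 152) (nat_lit 523752658729) (nat_lit 0) (nat_lit 465678600480) (nat_lit 1) (nat_lit 5) (nat_lit 3) (nat_lit 4) (nat_lit 1) (nat_lit 4) (nat_lit 330) (nat_lit 257) (nat_lit 133)) (XT.lf (nat_lit 0) (nat_lit 582746918747) (nat_lit 152) (nat_lit 534803550235) (nat_lit 0) (nat_lit 520147307149) (nat_lit 1) (nat_lit 5) (nat_lit 3) (nat_lit 4) (nat_lit 1) (nat_lit 4) (nat_lit 331) (nat_lit 257) (nat_lit 132))))) (XT.nd (nat_lit 234) (nat_lit 0) (nat_lit 0) (XT.nd (nat_lit 78) (nat_lit 456) (nat_lit 0) (XT.lf (nat_lit 0) (nat_lit 4041121128) (nat_lit 0) (nat_lit 4041121128) (nat_lit 380) (nat_lit 235843313) (nat_lit 34) (nat_lit 5) (nat_lit 34) (nat_lit 3) (nat_lit 39) (nat_lit 3) (nat_lit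 258) (nat_lit 258) (nat_lit 204)) (XT.nd (nat_lit 78) (nat_lit 456) (nat_lit 0) (XT.lf (nat_lit 0) (nat_lit 15316725300) (nat_lit 0) (nat_lit 1696030056) (nat_lit 380) (nat_lit 270923102) (nat_lit 34) (nat_lit 5) (nat_lit 34) (nat_lit 3) (nat_lit 39) (nat_lit 3) (nat_lit 259) (nat_lit 258) (nat_lit 203)) (XT.lf (nat_lit 0) (nat_lit 186441134) (nat_lit 456) (nat_lit 12695755406) (nat_lit 532) (nat_lit 5082034375) (nat_lit 28) (nat_lit 5) (nat_lit 34) (nat_lit 5) (nat_lit 35) (nat_lit 5) (nat_lit 260) (nat_lit 258) (nat_lit 202)))) (XT.nd (nat_lit 78) (nat_lit 0) (nat_lit 76) (XT.lf (nat_lit 0) (nat_lit 745597886) (nat_lit 456) (nat_lit 5565806547) (nat_lit 532) (nat_lit 12381027712) (nat_lit 28) (nat_lit 5) (nat_lit 34) (nat_lit 5) (nat_lit 35) (nat_lit 5) (nat_lit 261) (nat_lit 258) (nat_lit 201)) (XT.nd (nat_lit 78) (nat_lit 0) (nat_lit 0) (XT.lf (nat_lit 0) (nat_lit 1405686971) (nat_lit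 456) (nat_lit 17262316262) (nat_lit 532) (nat_lit 806533551) (nat_lit 29) (nat_lit 5) (nat_lit 35) (nat_lit 5) (nat_lit 36) (nat_lit 5) (nat_lit 262) (nat_lit 258) (nat_lit 200)) (XT.lf (nat_lit 0) (nat_lit 2421866688) (nat_lit 456) (nat_lit 9559236628) (nat_lit 532) (nat_lit 8313976475) (nat_lit 29) (nat_lit 5) (nat_lit 35) (nat_lit 5) (nat_lit 36) (nat_lit 5) (nat_lit 263) (nat_lit 258) (nat_lit 199)))))) (XT.nd (nat_lit 468) (nat_lit 380) (nat_lit 0) (XT.nd (nat_lit 234) (nat_lit 608) (nat_lit 0) (XT.nd (nat_lit 78) (nat_lit 0) (nat_lit 76) (XT.lf (nat_lit 0) (nat_lit 3503803013) (nat_lit 456) (nat_lit 1252260603) (nat_lit 532) (nat_lit 16426568496) (nat_lit 29) (nat_lit 5) (nat_lit 35) (nat_lit 5) (nat_lit 36) (nat_lit 5) (nat_lit 264) (nat_lit 258) (nat_lit 198)) (XT.nd (nat_lit 78) (nat_lit 0) (nat_lit 0) (XT.lf (nat_lit 0) (nat_lit 4931461923) (nat_lit 456) (nat_lit 14091542417)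 (nat_lit 76) (nat_lit 3097564613) (nat_lit 30) (nat_lit 5) (nat_lit 36) (nat_lit 5) (nat_lit 31) (nat_lit 5) (nat_lit 265) (nat_lit 258) (nat_lit 197)) (XT.lf (nat_lit 0) (nat_lit 6618465595) (nat_lit 456) (nat_lit 5143588142) (nat_lit 76) (nat_lit 11359981766) (nat_lit 30) (nat_lit 5) (nat_lit 36) (nat_lit 5) (nat_lit 31) (nat_lit 5) (nat_lit 266) (nat_lit 258) (nat_lit 196)))) (XT.nd (nat_lit 78) (nat_lit 228) (nat_lit 0) (XT.lf (nat_lit 0) (nat_lit 4746145276) (nat_lit 456) (nat_lit 3795901025) (nat_lit 532) (nat_lit 15653541260) (nat_lit 24) (nat_lit 5) (nat_lit 30) (nat_lit 5) (nat_lit 31) (nat_lit 5) (nat_lit 267) (nat_lit 258) (nat_lit 195)) (XT.nd (nat_lit 78) (nat_lit 228) (nat_lit 0) (XT.lf (nat_lit 0) (nat_lit 10867569834) (nat_lit 532) (nat_lit 9755713842) (nat_lit 76) (nat_lit 4711985896) (nat_lit 24) (nat_lit 5) (nat_lit 31) (nat_lit 5) (nat_lit 25) (nat_lit 5) (nat_lit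 268) (nat_lit 258) (nat_lit 194)) (XT.lf (nat_lit 0) (nat_lit 635364290) (nat_lit 228) (nat_lit 12846671462) (nat_lit 304) (nat_lit 13075941961) (nat_lit 21) (nat_lit 5) (nat_lit 24) (nat_lit 5) (nat_lit 25) (nat_lit 5) (nat_lit 269) (nat_lit 258) (nat_lit 193))))) (XT.nd (nat_lit 234) (nat_lit 228) (nat_lit 0) (XT.nd (nat_lit 78) (nat_lit 152) (nat_lit 0) (XT.lf (nat_lit 0) (nat_lit 12401494534) (nat_lit 228) (nat_lit 4160475253) (nat_lit 304) (nat_lit 11296105268) (nat_lit 21) (nat_lit 5) (nat_lit 24) (nat_lit 5) (nat_lit 25) (nat_lit 5) (nat_lit 270) (nat_lit 258) (nat_lit 192)) (XT.nd (nat_lit 78) (nat_lit 152) (nat_lit 0) (XT.lf (nat_lit 0) (nat_lit 20004185396) (nat_lit 304) (nat_lit 4289882875) (nat_lit 76) (nat_lit 4958912646) (nat_lit 21) (nat_lit 5) (nat_lit 25) (nat_lit 5) (nat_lit 22) (nat_lit 5) (nat_lit 271) (nat_lit 258) (nat_lit 191)) (XT.lf (nat_lit 0) (nat_lit 8054776291)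 (nat_lit 152) (nat_lit 15959830942) (nat_lit 228) (nat_lit 6721512071) (nat_lit 19) (nat_lit 5) (nat_lit 21) (nat_lit 5) (nat_lit 22) (nat_lit 5) (nat_lit 272) (nat_lit 258) (nat_lit 190)))) (XT.nd (nat_lit 78) (nat_lit 228) (nat_lit 0) (XT.lf (nat_lit 0) (nat_lit 21620994406) (nat_lit 152) (nat_lit 6833631615) (nat_lit 228) (nat_lit 3874643139) (nat_lit 19) (nat_lit 5) (nat_lit 21) (nat_lit 5) (nat_lit 22) (nat_lit 5) (nat_lit 273) (nat_lit 258) (nat_lit 189)) (XT.nd (nat_lit 78) (nat_lit 76) (nat_lit 0) (XT.lf (nat_lit 0) (nat_lit 2252734640) (nat_lit 152) (nat_lit 31116054803) (nat_lit 228) (nat_lit 671623015) (nat_lit 17) (nat_lit 5) (nat_lit 19) (nat_lit 5) (nat_lit 20) (nat_lit 5) (nat_lit 274) (nat_lit 258) (nat_lit 188)) (XT.lf (nat_lit 0) (nat_lit 3118252862) (nat_lit 228) (nat_lit 19267665298) (nat_lit 76) (nat_lit 13459609373) (nat_lit 16) (nat_lit 5) (nat_lit 19) (nat_lit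 5) (nat_lit 17) (nat_lit 5) (nat_lit 275) (nat_lit 258) (nat_lit 187))))))))
noncomputable def xc83 : XT := (XT.nd (nat_lit 1794) (nat_lit 228) (nat_lit 0) (XT.nd (nat_lit 858) (nat_lit 304) (nat_lit 0) (XT.nd (nat_lit 390) (nat_lit 304) (nat_lit 0) (XT.nd (nat_lit 156) (nat_lit 152) (nat_lit 0) (XT.nd (nat_lit 78) (nat_lit 152) (nat_lit 0) (XT.lf (nat_lit 0) (nat_lit 7167791344) (nat_lit 228) (nat_lit 5772857764) (nat_lit 76) (nat_lit 24853631689) (nat_lit 16) (nat_lit 5) (nat_lit 19) (nat_lit 5) (nat_lit 17) (nat_lit 5) (nat_lit 276) (nat_lit 258) (nat_lit 186)) (XT.lf (nat_lit 0) (nat_lit 9255883335) (nat_lit 152) (nat_lit 2501307880) (nat_lit 228) (nat_lit 28124513066) (nat_lit 14) (nat_lit 5) (nat_lit 16) (nat_lit 5) (nat_lit 17) (nat_lit 5) (nat_lit 277) (nat_lit 258) (nat_lit 185))) (XT.nd (nat_lit 78) (nat_lit 152) (nat_lit 0) (XT.lf (nat_lit 0) (nat_lit 17080216867) (nat_lit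 228) (nat_lit 16532309245) (nat_lit 76) (nat_lit 8494316358) (nat_lit 14) (nat_lit 5) (nat_lit 17) (nat_lit 5) (nat_lit 15) (nat_lit 5) (nat_lit 278) (nat_lit 258) (nat_lit 184)) (XT.nd (nat_lit 78) (nat_lit 152) (nat_lit 0) (XT.lf (nat_lit 0) (nat_lit 22888070900) (nat_lit 228) (nat_lit 1384573717) (nat_lit 76) (nat_lit 20232664049) (nat_lit 14) (nat_lit 5) (nat_lit 17) (nat_lit 5) (nat_lit 15) (nat_lit 5) (nat_lit 279) (nat_lit 258) (nat_lit 183)) (XT.lf (nat_lit 0) (nat_lit 15755458346) (nat_lit 152) (nat_lit 13778474520) (nat_lit 228) (nat_lit 17531882126) (nat_lit 12) (nat_lit 5) (nat_lit 14) (nat_lit 5) (nat_lit 15) (nat_lit 5) (nat_lit 280) (nat_lit 258) (nat_lit 182))))) (XT.nd (nat_lit 234) (nat_lit 228) (nat_lit 0) (XT.nd (nat_lit 78) (nat_lit 76) (nat_lit 0) (XT.lf (nat_lit 0) (nat_lit 34337955047) (nat_lit 152) (nat_lit 2406056344) (nat_lit 228) (nat_lit 13084577366) (nat_lit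 12) (nat_lit 5) (nat_lit 14) (nat_lit 5) (nat_lit 15) (nat_lit 5) (nat_lit 281) (nat_lit 258) (nat_lit 181)) (XT.nd (nat_lit 78) (nat_lit 0) (nat_lit 0) (XT.lf (nat_lit 0) (nat_lit 1420926599) (nat_lit 76) (nat_lit 43376700521) (nat_lit 152) (nat_lit 7993447298) (nat_lit 11) (nat_lit 5) (nat_lit 12) (nat_lit 5) (nat_lit 13) (nat_lit 4) (nat_lit 282) (nat_lit 258) (nat_lit 180)) (XT.lf (nat_lit 0) (nat_lit 20493477556) (nat_lit 76) (nat_lit 33481741193) (nat_lit 152) (nat_lit 1976991608) (nat_lit 11) (nat_lit 5) (nat_lit 12) (nat_lit 5) (nat_lit 13) (nat_lit 4) (nat_lit 283) (nat_lit 258) (nat_lit 179)))) (XT.nd (nat_lit 78) (nat_lit 152) (nat_lit 0) (XT.lf (nat_lit 0) (nat_lit 4290080537) (nat_lit 152) (nat_lit 18389979181) (nat_lit 76) (nat_lit 36677866239) (nat_lit 10) (nat_lit 5) (nat_lit 12) (nat_lit 5) (nat_lit 11) (nat_lit 5) (nat_lit 284) (nat_lit 258) (nat_lit 178)) (XT.nd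 (nat_lit 78) (nat_lit 152) (nat_lit 0) (XT.lf (nat_lit 0) (nat_lit 10947494514) (nat_lit 152) (nat_lit 13418034) (nat_lit 76) (nat_lit 52071436350) (nat_lit 10) (nat_lit 5) (nat_lit 12) (nat_lit 5) (nat_lit 11) (nat_lit 5) (nat_lit 285) (nat_lit 258) (nat_lit 177)) (XT.lf (nat_lit 0) (nat_lit 18689331927) (nat_lit 228) (nat_lit 46143203296) (nat_lit 76) (nat_lit 2124063398) (nat_lit 8) (nat_lit 5) (nat_lit 11) (nat_lit 5) (nat_lit 9) (nat_lit 4) (nat_lit 286) (nat_lit 258) (nat_lit 176)))))) (XT.nd (nat_lit 468) (nat_lit 228) (nat_lit 0) (XT.nd (nat_lit 234) (nat_lit 0) (nat_lit 0) (XT.nd (nat_lit 78) (nat_lit 76) (nat_lit 0) (XT.lf (nat_lit 0) (nat_lit 27331792945) (nat_lit 228) (nat_lit 28178345148) (nat_lit 76) (nat_lit 15662166040) (nat_lit 8) (nat_lit 5) (nat_lit 11) (nat_lit 5) (nat_lit 9) (nat_lit 4) (nat_lit 287) (nat_lit 258) (nat_lit 175)) (XT.nd (nat_lit 78) (nat_lit 76)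 (nat_lit 0) (XT.lf (nat_lit 0) (nat_lit 36662133421) (nat_lit 228) (nat_lit 8781848781) (nat_lit 76) (nat_lit 30281581886) (nat_lit 8) (nat_lit 5) (nat_lit 11) (nat_lit 5) (nat_lit 9) (nat_lit 4) (nat_lit 288) (nat_lit 258) (nat_lit 174)) (XT.lf (nat_lit 0) (nat_lit 12801616720) (nat_lit 76) (nat_lit 34241906732) (nat_lit 152) (nat_lit 33575206983) (nat_lit 7) (nat_lit 5) (nat_lit 8) (nat_lit 5) (nat_lit 9) (nat_lit 4) (nat_lit 289) (nat_lit 258) (nat_lit 173)))) (XT.nd (nat_lit 78) (nat_lit 0) (nat_lit 0) (XT.lf (nat_lit 0) (nat_lit 36606181801) (nat_lit 76) (nat_lit 21886218098) (nat_lit 152) (nat_lit 27392006413) (nat_lit 7) (nat_lit 5) (nat_lit 8) (nat_lit 5) (nat_lit 9) (nat_lit 4) (nat_lit 290) (nat_lit 258) (nat_lit 172)) (XT.nd (nat_lit 78) (nat_lit 0) (nat_lit 0) (XT.lf (nat_lit 0) (nat_lit 62310473958) (nat_lit 76) (nat_lit 8543808712) (nat_lit 152) (nat_lit 20717299077)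 (nat_lit 7) (nat_lit 5) (nat_lit 8) (nat_lit 5) (nat_lit 9) (nat_lit 4) (nat_lit 291) (nat_lit 258) (nat_lit 171)) (XT.lf (nat_lit 0) (nat_lit 84343466030) (nat_lit 152) (nat_lit 7788182262) (nat_lit 0) (nat_lit 5571027137) (nat_lit 7) (nat_lit 5) (nat_lit 9) (nat_lit 4) (nat_lit 7) (nat_lit 4) (nat_lit 292) (nat_lit 258) (nat_lit 170))))) (XT.nd (nat_lit 234) (nat_lit 76) (nat_lit 0) (XT.nd (nat_lit 78) (nat_lit 76) (nat_lit 0) (XT.lf (nat_lit 0) (nat_lit 15975677112) (nat_lit 76) (nat_lit 83539714180) (nat_lit 76) (nat_lit 4760588038) (nat_lit 6) (nat_lit 4) (nat_lit 7) (nat_lit 5) (nat_lit 7) (nat_lit 4) (nat_lit 293) (nat_lit 258) (nat_lit 169)) (XT.nd (nat_lit 78) (nat_lit 0) (nat_lit 0) (XT.lf (nat_lit 0) (nat_lit 4515482968) (nat_lit 152) (nat_lit 69393113463) (nat_lit 76) (nat_lit 37440575724) (nat_lit 5) (nat_lit 5) (nat_lit 7) (nat_lit 5) (nat_lit 6) (nat_lit 4) (nat_lit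 294) (nat_lit 258) (nat_lit 168)) (XT.lf (nat_lit 0) (nat_lit 14274121337) (nat_lit 152) (nat_lit 49100878894) (nat_lit 76) (nat_lit 55603522851) (nat_lit 5) (nat_lit 5) (nat_lit 7) (nat_lit 5) (nat_lit 6) (nat_lit 4) (nat_lit 295) (nat_lit 258) (nat_lit 167)))) (XT.nd (nat_lit 78) (nat_lit 76) (nat_lit 0) (XT.lf (nat_lit 0) (nat_lit 24811299929) (nat_lit 152) (nat_lit 27188855976) (nat_lit 76) (nat_lit 75218246555) (nat_lit 5) (nat_lit 5) (nat_lit 7) (nat_lit 5) (nat_lit 6) (nat_lit 4) (nat_lit 296) (nat_lit 258) (nat_lit 166)) (XT.nd (nat_lit 78) (nat_lit 76) (nat_lit 0) (XT.lf (nat_lit 0) (nat_lit 36189461285) (nat_lit 152) (nat_lit 3527195683) (nat_lit 76) (nat_lit 96400982235) (nat_lit 5) (nat_lit 5) (nat_lit 7) (nat_lit 5) (nat_lit 6) (nat_lit 4) (nat_lit 297) (nat_lit 258) (nat_lit 165)) (XT.lf (nat_lit 0) (nat_lit 23184080848) (nat_lit 76) (nat_lit 25849528399) (nat_lit 152)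 (nat_lit 96650754068) (nat_lit 4) (nat_lit 5) (nat_lit 5) (nat_lit 5) (nat_lit 6) (nat_lit 4) (nat_lit 298) (nat_lit 258) (nat_lit 164))))))) (XT.nd (nat_lit 858) (nat_lit 152) (nat_lit 0) (XT.nd (nat_lit 390) (nat_lit 76) (nat_lit 0) (XT.nd (nat_lit 156) (nat_lit 0) (nat_lit 0) (XT.nd (nat_lit 78) (nat_lit 0) (nat_lit 0) (XT.lf (nat_lit 0) (nat_lit 52229853973) (nat_lit 76) (nat_lit 10770095286) (nat_lit 152) (nat_lit 93008909874) (nat_lit 4) (nat_lit 5) (nat_lit 5) (nat_lit 5) (nat_lit 6) (nat_lit 4) (nat_lit 299) (nat_lit 258) (nat_lit 163)) (XT.lf (nat_lit 0) (nat_lit 78214574079) (nat_lit 152) (nat_lit 83695566981) (nat_lit 0) (nat_lit 5238701456) (nat_lit 4) (nat_lit 5) (nat_lit 6) (nat_lit 4) (nat_lit 4) (nat_lit 4) (nat_lit 300) (nat_lit 258) (nat_lit 162))) (XT.nd (nat_lit 78) (nat_lit 0) (nat_lit 0) (XT.lf (nat_lit 0) (nat_lit 94924560757) (nat_lit 152) (nat_lit 62287871274)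 (nat_lit 0) (nat_lit 21945342844) (nat_lit 4) (nat_lit 5) (nat_lit 6) (nat_lit 4) (nat_lit 4) (nat_lit 4) (nat_lit 301) (nat_lit 258) (nat_lit 161)) (XT.nd (nat_lit 78) (nat_lit 0) (nat_lit 0) (XT.lf (nat_lit 0) (nat_lit 112969910385) (nat_lit 152) (nat_lit 39170036570) (nat_lit 0) (nat_lit 39987594982) (nat_lit 4) (nat_lit 5) (nat_lit 6) (nat_lit 4) (nat_lit 4) (nat_lit 4) (nat_lit 302) (nat_lit 258) (nat_lit 160)) (XT.lf (nat_lit 0) (nat_lit 132457558369) (nat_lit 152) (nat_lit 14205068293) (nat_lit 0) (nat_lit 59472374919) (nat_lit 4) (nat_lit 5) (nat_lit 6) (nat_lit 4) (nat_lit 4) (nat_lit 4) (nat_lit 303) (nat_lit 258) (nat_lit 159))))) (XT.nd (nat_lit 234) (nat_lit 0) (nat_lit 0) (XT.nd (nat_lit 78) (nat_lit 0) (nat_lit 0) (XT.lf (nat_lit 0) (nat_lit 13426628443) (nat_lit 76) (nat_lit 140399269361) (nat_lit 76) (nat_lit 67411430313) (nat_lit 3) (nat_lit 4) (nat_lit 4) (nat_lit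 5) (nat_lit 4) (nat_lit 4) (nat_lit 304) (nat_lit 258) (nat_lit 158)) (XT.nd (nat_lit 78) (nat_lit 0) (nat_lit 0) (XT.lf (nat_lit 0) (nat_lit 44074646159) (nat_lit 76) (nat_lit 133216260273) (nat_lit 76) (nat_lit 60225962337) (nat_lit 3) (nat_lit 4) (nat_lit 4) (nat_lit 5) (nat_lit 4) (nat_lit 4) (nat_lit 305) (nat_lit 258) (nat_lit 157)) (XT.lf (nat_lit 0) (nat_lit 77172589013) (nat_lit 76) (nat_lit 125459425159) (nat_lit 76) (nat_lit 52466850476) (nat_lit 3) (nat_lit 4) (nat_lit 4) (nat_lit 5) (nat_lit 4) (nat_lit 4) (nat_lit 306) (nat_lit 258) (nat_lit 156)))) (XT.nd (nat_lit 78) (nat_lit 0) (nat_lit 0) (XT.lf (nat_lit 0) (nat_lit 112916592964) (nat_lit 76) (nat_lit 117082797589) (nat_lit 76) (nat_lit 44088114806) (nat_lit 3) (nat_lit 4) (nat_lit 4) (nat_lit 5) (nat_lit 4) (nat_lit 4) (nat_lit 307) (nat_lit 258) (nat_lit 155)) (XT.nd (nat_lit 78) (nat_lit 0) (nat_lit 0) (XT.lf (nat_lit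 0) (nat_lit 151518474331) (nat_lit 76) (nat_lit 108036738289) (nat_lit 76) (nat_lit 35040103562) (nat_lit 3) (nat_lit 4) (nat_lit 4) (nat_lit 5) (nat_lit 4) (nat_lit 4) (nat_lit 308) (nat_lit 258) (nat_lit 154)) (XT.lf (nat_lit 0) (nat_lit 193206985004) (nat_lit 76) (nat_lit 98267640981) (nat_lit 76) (nat_lit 25269198898) (nat_lit 3) (nat_lit 4) (nat_lit 4) (nat_lit 5) (nat_lit 4) (nat_lit 4) (nat_lit 309) (nat_lit 258) (nat_lit 153)))))) (XT.nd (nat_lit 468) (nat_lit 0) (nat_lit 0) (XT.nd (nat_lit 234) (nat_lit 76) (nat_lit 0) (XT.nd (nat_lit 78) (nat_lit 76) (nat_lit 0) (XT.lf (nat_lit 0) (nat_lit 238229168008) (nat_lit 76) (nat_lit 87717614717) (nat_lit 76) (nat_lit 14717499157) (nat_lit 3) (nat_lit 4) (nat_lit 4) (nat_lit 5) (nat_lit 4) (nat_lit 4) (nat_lit 310) (nat_lit 258) (nat_lit 152)) (XT.nd (nat_lit 78) (nat_lit 76) (nat_lit 0) (XT.lf (nat_lit 0) (nat_lit 286851821467) (nat_lit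 76) (nat_lit 76324140825) (nat_lit 76) (nat_lit 3322475748) (nat_lit 3) (nat_lit 4) (nat_lit 4) (nat_lit 5) (nat_lit 4) (nat_lit 4) (nat_lit 311) (nat_lit 258) (nat_lit 151)) (XT.lf (nat_lit 0) (nat_lit 8534011471) (nat_lit 152) (nat_lit 55252355952) (nat_lit 76) (nat_lit 330595733152) (nat_lit 2) (nat_lit 5) (nat_lit 4) (nat_lit 5) (nat_lit 3) (nat_lit 4) (nat_lit 312) (nat_lit 258) (nat_lit 150)))) (XT.nd (nat_lit 78) (nat_lit 76) (nat_lit 0) (XT.lf (nat_lit 0) (nat_lit 21158856093) (nat_lit 152) (nat_lit 28994007600) (nat_lit 76) (nat_lit 374336743582) (nat_lit 2) (nat_lit 5) (nat_lit 4) (nat_lit 5) (nat_lit 3) (nat_lit 4) (nat_lit 313) (nat_lit 258) (nat_lit 149)) (XT.nd (nat_lit 78) (nat_lit 76) (nat_lit 0) (XT.lf (nat_lit 0) (nat_lit 34793075702) (nat_lit 152) (nat_lit 636060868) (nat_lit 76) (nat_lit 421576628871) (nat_lit 2) (nat_lit 5) (nat_lit 4) (nat_lit 5) (nat_lit 3) (nat_lit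 4) (nat_lit 314) (nat_lit 258) (nat_lit 148)) (XT.lf (nat_lit 0) (nat_lit 31568726909) (nat_lit 76) (nat_lit 18707967407) (nat_lit 152) (nat_lit 441785830813) (nat_lit 1) (nat_lit 5) (nat_lit 2) (nat_lit 5) (nat_lit 3) (nat_lit 4) (nat_lit 315) (nat_lit 258) (nat_lit 147))))) (XT.nd (nat_lit 234) (nat_lit 0) (nat_lit 0) (XT.nd (nat_lit 78) (nat_lit 0) (nat_lit 0) (XT.lf (nat_lit 0) (nat_lit 66385105858) (nat_lit 76) (nat_lit 630739191) (nat_lit 152) (nat_lit 462906634784) (nat_lit 1) (nat_lit 5) (nat_lit 2) (nat_lit 5) (nat_lit 3) (nat_lit 4) (nat_lit 316) (nat_lit 258) (nat_lit 146)) (XT.nd (nat_lit 78) (nat_lit 0) (nat_lit 0) (XT.lf (nat_lit 0) (nat_lit 85547979881) (nat_lit 152) (nat_lit 467279731463) (nat_lit 0) (nat_lit 17947212933) (nat_lit 1) (nat_lit 5) (nat_lit 3) (nat_lit 4) (nat_lit 1) (nat_lit 4) (nat_lit 317) (nat_lit 258) (nat_lit 145)) (XT.lf (nat_lit 0) (nat_lit 105578589574)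 (nat_lit 152) (nat_lit 471338718322) (nat_lit 0) (nat_lit 37976985471) (nat_lit 1) (nat_lit 5) (nat_lit 3) (nat_lit 4) (nat_lit 1) (nat_lit 4) (nat_lit 318) (nat_lit 258) (nat_lit 144)))) (XT.nd (nat_lit 78) (nat_lit 0) (nat_lit 0) (XT.lf (nat_lit 0) (nat_lit 127211204745) (nat_lit 152) (nat_lit 475723218514) (nat_lit 0) (nat_lit 59608825498) (nat_lit 1) (nat_lit 5) (nat_lit 3) (nat_lit 4) (nat_lit 1) (nat_lit 4) (nat_lit 319) (nat_lit 258) (nat_lit 143)) (XT.nd (nat_lit 78) (nat_lit 0) (nat_lit 0) (XT.lf (nat_lit 0) (nat_lit 150574018670) (nat_lit 152) (nat_lit 480459214263) (nat_lit 0) (nat_lit 82970921697) (nat_lit 1) (nat_lit 5) (nat_lit 3) (nat_lit 4) (nat_lit 1) (nat_lit 4) (nat_lit 320) (nat_lit 258) (nat_lit 142)) (XT.lf (nat_lit 0) (nat_lit 175805477653) (nat_lit 152) (nat_lit 485574770728) (nat_lit 0) (nat_lit 108201716119) (nat_lit 1) (nat_lit 5) (nat_lit 3) (nat_lit 4)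 (nat_lit 1) (nat_lit 4) (nat_lit 321) (nat_lit 258) (nat_lit 141))))))))
noncomputable def xc84 : XT := (XT.nd (nat_lit 33618) (nat_lit 0) (nat_lit 380) (XT.nd (nat_lit 32682) (nat_lit 0) (nat_lit 1520) (XT.nd (nat_lit 390) (nat_lit 0) (nat_lit 0) (XT.nd (nat_lit 156) (nat_lit 0) (nat_lit 0) (XT.nd (nat_lit 78) (nat_lit 0) (nat_lit 0) (XT.lf (nat_lit 0) (nat_lit 203055101450) (nat_lit 152) (nat_lit 491100202319) (nat_lit 0) (nat_lit 135450724582) (nat_lit 1) (nat_lit 5) (nat_lit 3) (nat_lit 4) (nat_lit 1) (nat_lit 4) (nat_lit 322) (nat_lit 258) (nat_lit 140)) (XT.lf (nat_lit 0) (nat_lit 232484369315) (nat_lit 152) (nat_lit 497068252333) (nat_lit 0) (nat_lit 164879422693) (nat_lit 1) (nat_lit 5) (nat_lit 3) (nat_lit 4) (nat_lit 1) (nat_lit 4) (nat_lit 323) (nat_lit 258) (nat_lit 139))) (XT.nd (nat_lit 78) (nat_lit 0) (nat_lit 0) (XT.lf (nat_lit 0) (nat_lit 264267676908) (nat_lit 152)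 (nat_lit 503514286994) (nat_lit 0) (nat_lit 196662202736) (nat_lit 1) (nat_lit 5) (nat_lit 3) (nat_lit 4) (nat_lit 1) (nat_lit 4) (nat_lit 324) (nat_lit 258) (nat_lit 138)) (XT.nd (nat_lit 78) (nat_lit 0) (nat_lit 0) (XT.lf (nat_lit 0) (nat_lit 298593369756) (nat_lit 152) (nat_lit 510476505024) (nat_lit 0) (nat_lit 230987407112) (nat_lit 1) (nat_lit 5) (nat_lit 3) (nat_lit 4) (nat_lit 1) (nat_lit 4) (nat_lit 325) (nat_lit 258) (nat_lit 137)) (XT.lf (nat_lit 0) (nat_lit 335664859372) (nat_lit 152) (nat_lit 517996164013) (nat_lit 0) (nat_lit 268058444439) (nat_lit 1) (nat_lit 5) (nat_lit 3) (nat_lit 4) (nat_lit 1) (nat_lit 4) (nat_lit 326) (nat_lit 258) (nat_lit 136))))) (XT.nd (nat_lit 234) (nat_lit 0) (nat_lit 0) (XT.nd (nat_lit 78) (nat_lit 0) (nat_lit 0) (XT.lf (nat_lit 0) (nat_lit 375701828658) (nat_lit 152) (nat_lit 526117824902) (nat_lit 0) (nat_lit 308094994939) (nat_lit 1) (nat_lit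 5) (nat_lit 3) (nat_lit 4) (nat_lit 1) (nat_lit 4) (nat_lit 327) (nat_lit 258) (nat_lit 135)) (XT.nd (nat_lit 78) (nat_lit 0) (nat_lit 0) (XT.lf (nat_lit 0) (nat_lit 418941533728) (nat_lit 152) (nat_lit 534889616052) (nat_lit 0) (nat_lit 351334312244) (nat_lit 1) (nat_lit 5) (nat_lit 3) (nat_lit 4) (nat_lit 1) (nat_lit 4) (nat_lit 328) (nat_lit 258) (nat_lit 134)) (XT.lf (nat_lit 0) (nat_lit 465640209871) (nat_lit 152) (nat_lit 544363518448) (nat_lit 0) (nat_lit 398032629345) (nat_lit 1) (nat_lit 5) (nat_lit 3) (nat_lit 4) (nat_lit 1) (nat_lit 4) (nat_lit 329) (nat_lit 258) (nat_lit 133)))) (XT.nd (nat_lit 78) (nat_lit 0) (nat_lit 0) (XT.lf (nat_lit 0) (nat_lit 516074589983) (nat_lit 152) (nat_lit 554595673734) (nat_lit 0) (nat_lit 448466677011) (nat_lit 1) (nat_lit 5) (nat_lit 3) (nat_lit 4) (nat_lit 1) (nat_lit 4) (nat_lit 330) (nat_lit 258) (nat_lit 132)) (XT.nd (nat_lit 31902)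 (nat_lit 0) (nat_lit 2508) (XT.lf (nat_lit 0) (nat_lit 570543544464) (nat_lit 152) (nat_lit 565646716903) (nat_lit 0) (nat_lit 502935323672) (nat_lit 1) (nat_lit 5) (nat_lit 3) (nat_lit 4) (nat_lit 1) (nat_lit 4) (nat_lit 331) (nat_lit 258) (nat_lit 131)) (XT.lf (nat_lit 0) (nat_lit 4462831208) (nat_lit 0) (nat_lit 4462831208) (nat_lit 380) (nat_lit 40361919) (nat_lit 34) (nat_lit 5) (nat_lit 34) (nat_lit 3) (nat_lit 39) (nat_lit 3) (nat_lit 259) (nat_lit 259) (nat_lit 202)))))) (XT.nd (nat_lit 468) (nat_lit 456) (nat_lit 0) (XT.nd (nat_lit 234) (nat_lit 0) (nat_lit 152) (XT.nd (nat_lit 78) (nat_lit 0) (nat_lit 76) (XT.lf (nat_lit 0) (nat_lit 99125603) (nat_lit 532) (nat_lit 1912136570) (nat_lit 532) (nat_lit 16622487433) (nat_lit 27) (nat_lit 3) (nat_lit 34) (nat_lit 3) (nat_lit 34) (nat_lit 5) (nat_lit 260) (nat_lit 259) (nat_lit 201)) (XT.nd (nat_lit 78) (nat_lit 0) (nat_lit 0)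 (XT.lf (nat_lit 0) (nat_lit 551614274) (nat_lit 456) (nat_lit 13476656554) (nat_lit 532) (nat_lit 5342282346) (nat_lit 28) (nat_lit 5) (nat_lit 34) (nat_lit 5) (nat_lit 35) (nat_lit 5) (nat_lit 261) (nat_lit 259) (nat_lit 200)) (XT.lf (nat_lit 0) (nat_lit 1129558541) (nat_lit 456) (nat_lit 5793701363) (nat_lit 532) (nat_lit 13236033282) (nat_lit 28) (nat_lit 5) (nat_lit 34) (nat_lit 5) (nat_lit 35) (nat_lit 5) (nat_lit 262) (nat_lit 259) (nat_lit 199)))) (XT.nd (nat_lit 78) (nat_lit 0) (nat_lit 0) (XT.lf (nat_lit 0) (nat_lit 1821277859) (nat_lit 456) (nat_lit 18402358199) (nat_lit 532) (nat_lit 782216030) (nat_lit 29) (nat_lit 5) (nat_lit 35) (nat_lit 5) (nat_lit 36) (nat_lit 5) (nat_lit 263) (nat_lit 259) (nat_lit 198)) (XT.nd (nat_lit 78) (nat_lit 0) (nat_lit 0) (XT.lf (nat_lit 0) (nat_lit 2896297441) (nat_lit 456) (nat_lit 10100879851) (nat_lit 532) (nat_lit 8896835144) (nat_lit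 29) (nat_lit 5) (nat_lit 35) (nat_lit 5) (nat_lit 36) (nat_lit 5) (nat_lit 264) (nat_lit 259) (nat_lit 197)) (XT.lf (nat_lit 0) (nat_lit 4043997455) (nat_lit 456) (nat_lit 1145871352) (nat_lit 532) (nat_lit 17664527818) (nat_lit 29) (nat_lit 5) (nat_lit 35) (nat_lit 5) (nat_lit 36) (nat_lit 5) (nat_lit 265) (nat_lit 259) (nat_lit 196))))) (XT.nd (nat_lit 234) (nat_lit 228) (nat_lit 0) (XT.nd (nat_lit 78) (nat_lit 456) (nat_lit 0) (XT.lf (nat_lit 0) (nat_lit 5570398608) (nat_lit 456) (nat_lit 14994922611) (nat_lit 76) (nat_lit 3303437044) (nat_lit 30) (nat_lit 5) (nat_lit 36) (nat_lit 5) (nat_lit 31) (nat_lit 5) (nat_lit 266) (nat_lit 259) (nat_lit 195)) (XT.nd (nat_lit 78) (nat_lit 456) (nat_lit 0) (XT.lf (nat_lit 0) (nat_lit 7374257408) (nat_lit 456) (nat_lit 5347720379) (nat_lit 76) (nat_lit 12229953698) (nat_lit 30) (nat_lit 5) (nat_lit 36) (nat_lit 5) (nat_lit 31) (nat_lit 5) (nat_lit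 267) (nat_lit 259) (nat_lit 194)) (XT.lf (nat_lit 0) (nat_lit 5327942223) (nat_lit 456) (nat_lit 4111878943) (nat_lit 532) (nat_lit 16672629309) (nat_lit 24) (nat_lit 5) (nat_lit 30) (nat_lit 5) (nat_lit 31) (nat_lit 5) (nat_lit 268) (nat_lit 259) (nat_lit 193)))) (XT.nd (nat_lit 78) (nat_lit 228) (nat_lit 0) (XT.lf (nat_lit 0) (nat_lit 11935230240) (nat_lit 532) (nat_lit 10331369679) (nat_lit 76) (nat_lit 5078120464) (nat_lit 24) (nat_lit 5) (nat_lit 31) (nat_lit 5) (nat_lit 25) (nat_lit 5) (nat_lit 269) (nat_lit 259) (nat_lit 192)) (XT.nd (nat_lit 78) (nat_lit 0) (nat_lit 0) (XT.lf (nat_lit 0) (nat_lit 885809861) (nat_lit 228) (nat_lit 13863158808) (nat_lit 304) (nat_lit 13917179167) (nat_lit 21) (nat_lit 5) (nat_lit 24) (nat_lit 5) (nat_lit 25) (nat_lit 5) (nat_lit 270) (nat_lit 259) (nat_lit 191)) (XT.lf (nat_lit 0) (nat_lit 13578444122) (nat_lit 228) (nat_lit 4482899968) (nat_lit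 304) (nat_lit 12010128734) (nat_lit 21) (nat_lit 5) (nat_lit 24) (nat_lit 5) (nat_lit 25) (nat_lit 5) (nat_lit 271) (nat_lit 259) (nat_lit 190))))))) (XT.nd (nat_lit 858) (nat_lit 456) (nat_lit 0) (XT.nd (nat_lit 390) (nat_lit 304) (nat_lit 0) (XT.nd (nat_lit 156) (nat_lit 228) (nat_lit 0) (XT.nd (nat_lit 78) (nat_lit 152) (nat_lit 0) (XT.lf (nat_lit 0) (nat_lit 21766249080) (nat_lit 304) (nat_lit 4448047746) (nat_lit 76) (nat_lit 5364785278) (nat_lit 21) (nat_lit 5) (nat_lit 25) (nat_lit 5) (nat_lit 22) (nat_lit 5) (nat_lit 272) (nat_lit 259) (nat_lit 189)) (XT.lf (nat_lit 0) (nat_lit 8879499957) (nat_lit 152) (nat_lit 17210362011) (nat_lit 228) (nat_lit 7091709822) (nat_lit 19) (nat_lit 5) (nat_lit 21) (nat_lit 5) (nat_lit 22) (nat_lit 5) (nat_lit 273) (nat_lit 259) (nat_lit 188))) (XT.nd (nat_lit 78) (nat_lit 228) (nat_lit 0) (XT.lf (nat_lit 0) (nat_lit 23517656888) (nat_lit 152)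 (nat_lit 7356011582) (nat_lit 228) (nat_lit 4029500503) (nat_lit 19) (nat_lit 5) (nat_lit 21) (nat_lit 5) (nat_lit 22) (nat_lit 5) (nat_lit 274) (nat_lit 259) (nat_lit 187)) (XT.nd (nat_lit 78) (nat_lit 76) (nat_lit 0) (XT.lf (nat_lit 0) (nat_lit 2607265796) (nat_lit 152) (nat_lit 33567864423) (nat_lit 228) (nat_lit 576616437) (nat_lit 17) (nat_lit 5) (nat_lit 19) (nat_lit 5) (nat_lit 20) (nat_lit 5) (nat_lit 275) (nat_lit 259) (nat_lit 186)) (XT.lf (nat_lit 0) (nat_lit 3498542740) (nat_lit 228) (nat_lit 20639972903) (nat_lit 76) (nat_lit 14563371716) (nat_lit 16) (nat_lit 5) (nat_lit 19) (nat_lit 5) (nat_lit 17) (nat_lit 5) (nat_lit 276) (nat_lit 259) (nat_lit 185))))) (XT.nd (nat_lit 234) (nat_lit 152) (nat_lit 0) (XT.nd (nat_lit 78) (nat_lit 152) (nat_lit 0) (XT.lf (nat_lit 0) (nat_lit 7862353216) (nat_lit 228) (nat_lit 6078107108) (nat_lit 76) (nat_lit 26866916292) (nat_lit 16)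 (nat_lit 5) (nat_lit 19) (nat_lit 5) (nat_lit 17) (nat_lit 5) (nat_lit 277) (nat_lit 259) (nat_lit 184)) (XT.nd (nat_lit 78) (nat_lit 0) (nat_lit 0) (XT.lf (nat_lit 0) (nat_lit 10148969247) (nat_lit 152) (nat_lit 2664633003) (nat_lit 228) (nat_lit 30248671923) (nat_lit 14) (nat_lit 5) (nat_lit 16) (nat_lit 5) (nat_lit 17) (nat_lit 5) (nat_lit 278) (nat_lit 259) (nat_lit 183)) (XT.lf (nat_lit 0) (nat_lit 18554708555) (nat_lit 228) (nat_lit 17705174403) (nat_lit 76) (nat_lit 9206213192) (nat_lit 14) (nat_lit 5) (nat_lit 17) (nat_lit 5) (nat_lit 15) (nat_lit 5) (nat_lit 279) (nat_lit 259) (nat_lit 182)))) (XT.nd (nat_lit 78) (nat_lit 152) (nat_lit 0) (XT.lf (nat_lit 0) (nat_lit 24819185404) (nat_lit 228) (nat_lit 1356710372) (nat_lit 76) (nat_lit 21881232289) (nat_lit 14) (nat_lit 5) (nat_lit 17) (nat_lit 5) (nat_lit 15) (nat_lit 5) (nat_lit 280) (nat_lit 259) (nat_lit 181)) (XT.nd (nat_lit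 78) (nat_lit 0) (nat_lit 0) (XT.lf (nat_lit 0) (nat_lit 17151014655) (nat_lit 152) (nat_lit 14841538797) (nat_lit 228) (nat_lit 18830298904) (nat_lit 12) (nat_lit 5) (nat_lit 14) (nat_lit 5) (nat_lit 15) (nat_lit 5) (nat_lit 281) (nat_lit 259) (nat_lit 180)) (XT.lf (nat_lit 0) (nat_lit 37210102230) (nat_lit 152) (nat_lit 2562231884) (nat_lit 228) (nat_lit 14034923378) (nat_lit 12) (nat_lit 5) (nat_lit 14) (nat_lit 5) (nat_lit 15) (nat_lit 5) (nat_lit 282) (nat_lit 259) (nat_lit 179)))))) (XT.nd (nat_lit 468) (nat_lit 152) (nat_lit 0) (XT.nd (nat_lit 234) (nat_lit 152) (nat_lit 0) (XT.nd (nat_lit 78) (nat_lit 76) (nat_lit 0) (XT.lf (nat_lit 0) (nat_lit 1663118516) (nat_lit 76) (nat_lit 46804442076) (nat_lit 152) (nat_lit 8539433783) (nat_lit 11) (nat_lit 5) (nat_lit 12) (nat_lit 5) (nat_lit 13) (nat_lit 4) (nat_lit 283) (nat_lit 259) (nat_lit 178)) (XT.nd (nat_lit 78) (nat_lit 76) (nat_lit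 0) (XT.lf (nat_lit 0) (nat_lit 22251953713) (nat_lit 76) (nat_lit 36121026334) (nat_lit 152) (nat_lit 2048586772) (nat_lit 11) (nat_lit 5) (nat_lit 12) (nat_lit 5) (nat_lit 13) (nat_lit 4) (nat_lit 284) (nat_lit 259) (nat_lit 177)) (XT.lf (nat_lit 0) (nat_lit 4709429457) (nat_lit 152) (nat_lit 19746606730) (nat_lit 76) (nat_lit 39644054481) (nat_lit 10) (nat_lit 5) (nat_lit 12) (nat_lit 5) (nat_lit 11) (nat_lit 5) (nat_lit 285) (nat_lit 259) (nat_lit 176)))) (XT.nd (nat_lit 78) (nat_lit 0) (nat_lit 0) (XT.lf (nat_lit 0) (nat_lit 96415687) (nat_lit 152) (nat_lit 11799699481) (nat_lit 228) (nat_lit 56172645984) (nat_lit 8) (nat_lit 5) (nat_lit 10) (nat_lit 5) (nat_lit 11) (nat_lit 5) (nat_lit 286) (nat_lit 259) (nat_lit 175)) (XT.nd (nat_lit 78) (nat_lit 0) (nat_lit 0) (XT.lf (nat_lit 0) (nat_lit 20253102061) (nat_lit 228) (nat_lit 49726372738) (nat_lit 76) (nat_lit 2327837779) (nat_lit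 8) (nat_lit 5) (nat_lit 11) (nat_lit 5) (nat_lit 9) (nat_lit 4) (nat_lit 287) (nat_lit 259) (nat_lit 174)) (XT.lf (nat_lit 0) (nat_lit 29581876732) (nat_lit 228) (nat_lit 30332347184) (nat_lit 76) (nat_lit 16946481276) (nat_lit 8) (nat_lit 5) (nat_lit 11) (nat_lit 5) (nat_lit 9) (nat_lit 4) (nat_lit 288) (nat_lit 259) (nat_lit 173))))) (XT.nd (nat_lit 234) (nat_lit 76) (nat_lit 0) (XT.nd (nat_lit 78) (nat_lit 76) (nat_lit 0) (XT.lf (nat_lit 0) (nat_lit 39653937754) (nat_lit 228) (nat_lit 9391558187) (nat_lit 76) (nat_lit 32733128764) (nat_lit 8) (nat_lit 5) (nat_lit 11) (nat_lit 5) (nat_lit 9) (nat_lit 4) (nat_lit 289) (nat_lit 259) (nat_lit 172)) (XT.nd (nat_lit 78) (nat_lit 0) (nat_lit 0) (XT.lf (nat_lit 0) (nat_lit 13916234212) (nat_lit 76) (nat_lit 36947422968) (nat_lit 152) (nat_lit 36199782303) (nat_lit 7) (nat_lit 5) (nat_lit 8) (nat_lit 5) (nat_lit 9) (nat_lit 4) (nat_lit 290)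 (nat_lit 259) (nat_lit 171)) (XT.lf (nat_lit 0) (nat_lit 39618461673) (nat_lit 76) (nat_lit 23605785636) (nat_lit 152) (nat_lit 29526476890) (nat_lit 7) (nat_lit 5) (nat_lit 8) (nat_lit 5) (nat_lit 9) (nat_lit 4) (nat_lit 291) (nat_lit 259) (nat_lit 170)))) (XT.nd (nat_lit 78) (nat_lit 76) (nat_lit 0) (XT.lf (nat_lit 0) (nat_lit 67372890882) (nat_lit 76) (nat_lit 9198304234) (nat_lit 152) (nat_lit 22322007044) (nat_lit 7) (nat_lit 5) (nat_lit 8) (nat_lit 5) (nat_lit 9) (nat_lit 4) (nat_lit 292) (nat_lit 259) (nat_lit 169)) (XT.nd (nat_lit 78) (nat_lit 76) (nat_lit 0) (XT.lf (nat_lit 0) (nat_lit 91136561371) (nat_lit 152) (nat_lit 8336248451) (nat_lit 0) (nat_lit 6042225992) (nat_lit 7) (nat_lit 5) (nat_lit 9) (nat_lit 4) (nat_lit 7) (nat_lit 4) (nat_lit 293) (nat_lit 259) (nat_lit 168)) (XT.lf (nat_lit 0) (nat_lit 17326821233) (nat_lit 76) (nat_lit 90193798121) (nat_lit 76) (nat_lit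 5093729504) (nat_lit 6) (nat_lit 4) (nat_lit 7) (nat_lit 5) (nat_lit 7) (nat_lit 4) (nat_lit 294) (nat_lit 259) (nat_lit 167))))))))
noncomputable def xc85 : XT := (XT.nd (nat_lit 1794) (nat_lit 0) (nat_lit 0) (XT.nd (nat_lit 858) (nat_lit 152) (nat_lit 0) (XT.nd (nat_lit 390) (nat_lit 76) (nat_lit 0) (XT.nd (nat_lit 156) (nat_lit 76) (nat_lit 0) (XT.nd (nat_lit 78) (nat_lit 0) (nat_lit 0) (XT.lf (nat_lit 0) (nat_lit 4918683783) (nat_lit 152) (nat_lit 74874514901) (nat_lit 76) (nat_lit 40460388166) (nat_lit 5) (nat_lit 5) (nat_lit 7) (nat_lit 5) (nat_lit 6) (nat_lit 4) (nat_lit 295) (nat_lit 259) (nat_lit 166)) (XT.lf (nat_lit 0) (nat_lit 15454904912) (nat_lit 152) (nat_lit 52964090280) (nat_lit 76) (nat_lit 60074551331) (nat_lit 5) (nat_lit 5) (nat_lit 7) (nat_lit 5) (nat_lit 6) (nat_lit 4) (nat_lit 296) (nat_lit 259) (nat_lit 165))) (XT.nd (nat_lit 78) (nat_lit 76) (nat_lit 0) (XT.lf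 (nat_lit 0) (nat_lit 26832179727) (nat_lit 152) (nat_lit 29303909893) (nat_lit 76) (nat_lit 81256767994) (nat_lit 5) (nat_lit 5) (nat_lit 7) (nat_lit 5) (nat_lit 6) (nat_lit 4) (nat_lit 297) (nat_lit 259) (nat_lit 164)) (XT.nd (nat_lit 78) (nat_lit 76) (nat_lit 0) (XT.lf (nat_lit 0) (nat_lit 39117929117) (nat_lit 152) (nat_lit 3753765264) (nat_lit 76) (nat_lit 104132562402) (nat_lit 5) (nat_lit 5) (nat_lit 7) (nat_lit 5) (nat_lit 6) (nat_lit 4) (nat_lit 298) (nat_lit 259) (nat_lit 163)) (XT.lf (nat_lit 0) (nat_lit 25093005642) (nat_lit 76) (nat_lit 27895439269) (nat_lit 152) (nat_lit 104347976564) (nat_lit 4) (nat_lit 5) (nat_lit 5) (nat_lit 5) (nat_lit 6) (nat_lit 4) (nat_lit 299) (nat_lit 259) (nat_lit 162))))) (XT.nd (nat_lit 234) (nat_lit 76) (nat_lit 0) (XT.nd (nat_lit 78) (nat_lit 0) (nat_lit 0) (XT.lf (nat_lit 0) (nat_lit 56458425926) (nat_lit 76) (nat_lit 11611284944) (nat_lit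 152) (nat_lit 100417365415) (nat_lit 4) (nat_lit 5) (nat_lit 5) (nat_lit 5) (nat_lit 6) (nat_lit 4) (nat_lit 300) (nat_lit 259) (nat_lit 161)) (XT.nd (nat_lit 78) (nat_lit 0) (nat_lit 0) (XT.lf (nat_lit 0) (nat_lit 84499755490) (nat_lit 152) (nat_lit 90342893672) (nat_lit 0) (nat_lit 5675757364) (nat_lit 4) (nat_lit 5) (nat_lit 6) (nat_lit 4) (nat_lit 4) (nat_lit 4) (nat_lit 301) (nat_lit 259) (nat_lit 160)) (XT.lf (nat_lit 0) (nat_lit 102544465880) (nat_lit 152) (nat_lit 67226161469) (nat_lit 0) (nat_lit 23717599708) (nat_lit 4) (nat_lit 5) (nat_lit 6) (nat_lit 4) (nat_lit 4) (nat_lit 4) (nat_lit 302) (nat_lit 259) (nat_lit 159)))) (XT.nd (nat_lit 78) (nat_lit 76) (nat_lit 0) (XT.lf (nat_lit 0) (nat_lit 122031521978) (nat_lit 152) (nat_lit 42262214026) (nat_lit 0) (nat_lit 43202000207) (nat_lit 4) (nat_lit 5) (nat_lit 6) (nat_lit 4) (nat_lit 4) (nat_lit 4) (nat_lit 303) (nat_lit 259)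 (nat_lit 158)) (XT.nd (nat_lit 78) (nat_lit 76) (nat_lit 0) (XT.lf (nat_lit 0) (nat_lit 143076402633) (nat_lit 152) (nat_lit 15303116840) (nat_lit 0) (nat_lit 64244421975) (nat_lit 4) (nat_lit 5) (nat_lit 6) (nat_lit 4) (nat_lit 4) (nat_lit 4) (nat_lit 304) (nat_lit 259) (nat_lit 157)) (XT.lf (nat_lit 0) (nat_lit 14538144574) (nat_lit 76) (nat_lit 151615316402) (nat_lit 76) (nat_lit 72781058997) (nat_lit 3) (nat_lit 4) (nat_lit 4) (nat_lit 5) (nat_lit 4) (nat_lit 4) (nat_lit 305) (nat_lit 259) (nat_lit 156)))))) (XT.nd (nat_lit 468) (nat_lit 152) (nat_lit 0) (XT.nd (nat_lit 234) (nat_lit 0) (nat_lit 0) (XT.nd (nat_lit 78) (nat_lit 0) (nat_lit 0) (XT.lf (nat_lit 0) (nat_lit 47635234384) (nat_lit 76) (nat_lit 143858843958) (nat_lit 76) (nat_lit 65022478453) (nat_lit 3) (nat_lit 4) (nat_lit 4) (nat_lit 5) (nat_lit 4) (nat_lit 4) (nat_lit 306) (nat_lit 259) (nat_lit 155)) (XT.nd (nat_lit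 78) (nat_lit 0) (nat_lit 0) (XT.lf (nat_lit 0) (nat_lit 83378448479) (nat_lit 76) (nat_lit 135482552194) (nat_lit 76) (nat_lit 56644234744) (nat_lit 3) (nat_lit 4) (nat_lit 4) (nat_lit 5) (nat_lit 4) (nat_lit 4) (nat_lit 307) (nat_lit 259) (nat_lit 154)) (XT.lf (nat_lit 0) (nat_lit 121979598498) (nat_lit 76) (nat_lit 126436803824) (nat_lit 76) (nat_lit 47596679019) (nat_lit 3) (nat_lit 4) (nat_lit 4) (nat_lit 5) (nat_lit 4) (nat_lit 4) (nat_lit 308) (nat_lit 259) (nat_lit 153)))) (XT.nd (nat_lit 78) (nat_lit 0) (nat_lit 0) (XT.lf (nat_lit 0) (nat_lit 163667431997) (nat_lit 76) (nat_lit 116667994415) (nat_lit 76) (nat_lit 37826196132) (nat_lit 3) (nat_lit 4) (nat_lit 4) (nat_lit 5) (nat_lit 4) (nat_lit 4) (nat_lit 309) (nat_lit 259) (nat_lit 152)) (XT.nd (nat_lit 78) (nat_lit 0) (nat_lit 0) (XT.lf (nat_lit 0) (nat_lit 208688987989) (nat_lit 76) (nat_lit 106118234725) (nat_lit 76) (nat_lit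 27274886926) (nat_lit 3) (nat_lit 4) (nat_lit 4) (nat_lit 5) (nat_lit 4) (nat_lit 4) (nat_lit 310) (nat_lit 259) (nat_lit 151)) (XT.lf (nat_lit 0) (nat_lit 257311060880) (nat_lit 76) (nat_lit 94725007659) (nat_lit 76) (nat_lit 15880225123) (nat_lit 3) (nat_lit 4) (nat_lit 4) (nat_lit 5) (nat_lit 4) (nat_lit 4) (nat_lit 311) (nat_lit 259) (nat_lit 150))))) (XT.nd (nat_lit 234) (nat_lit 76) (nat_lit 0) (XT.nd (nat_lit 78) (nat_lit 76) (nat_lit 0) (XT.lf (nat_lit 0) (nat_lit 309821781471) (nat_lit 76) (nat_lit 82420797799) (nat_lit 76) (nat_lit 3574686802) (nat_lit 3) (nat_lit 4) (nat_lit 4) (nat_lit 5) (nat_lit 4) (nat_lit 4) (nat_lit 312) (nat_lit 259) (nat_lit 149)) (XT.nd (nat_lit 78) (nat_lit 0) (nat_lit 0) (XT.lf (nat_lit 0) (nat_lit 9228683620) (nat_lit 152) (nat_lit 59651679122) (nat_lit 76) (nat_lit 357051312220) (nat_lit 2) (nat_lit 5) (nat_lit 4) (nat_lit 5) (nat_lit 3) (nat_lit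 4) (nat_lit 313) (nat_lit 259) (nat_lit 148)) (XT.lf (nat_lit 0) (nat_lit 22862630535) (nat_lit 152) (nat_lit 31294208480) (nat_lit 76) (nat_lit 404291016787) (nat_lit 2) (nat_lit 5) (nat_lit 4) (nat_lit 5) (nat_lit 3) (nat_lit 4) (nat_lit 314) (nat_lit 259) (nat_lit 147)))) (XT.nd (nat_lit 78) (nat_lit 76) (nat_lit 0) (XT.lf (nat_lit 0) (nat_lit 37586768013) (nat_lit 152) (nat_lit 669057100) (nat_lit 76) (nat_lit 455309549661) (nat_lit 2) (nat_lit 5) (nat_lit 4) (nat_lit 5) (nat_lit 3) (nat_lit 4) (nat_lit 315) (nat_lit 259) (nat_lit 146)) (XT.nd (nat_lit 78) (nat_lit 0) (nat_lit 0) (XT.lf (nat_lit 0) (nat_lit 34111660823) (nat_lit 76) (nat_lit 20197075642) (nat_lit 152) (nat_lit 477117968329) (nat_lit 1) (nat_lit 5) (nat_lit 2) (nat_lit 5) (nat_lit 3) (nat_lit 4) (nat_lit 316) (nat_lit 259) (nat_lit 145)) (XT.lf (nat_lit 0) (nat_lit 71712058549) (nat_lit 76) (nat_lit 674226884) (nat_lit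 152) (nat_lit 499929231355) (nat_lit 1) (nat_lit 5) (nat_lit 2) (nat_lit 5) (nat_lit 3) (nat_lit 4) (nat_lit 317) (nat_lit 259) (nat_lit 144))))))) (XT.nd (nat_lit 858) (nat_lit 0) (nat_lit 0) (XT.nd (nat_lit 390) (nat_lit 0) (nat_lit 0) (XT.nd (nat_lit 156) (nat_lit 0) (nat_lit 0) (XT.nd (nat_lit 78) (nat_lit 0) (nat_lit 0) (XT.lf (nat_lit 0) (nat_lit 92400466831) (nat_lit 152) (nat_lit 504646611841) (nat_lit 0) (nat_lit 19389122100) (nat_lit 1) (nat_lit 5) (nat_lit 3) (nat_lit 4) (nat_lit 1) (nat_lit 4) (nat_lit 318) (nat_lit 259) (nat_lit 143)) (XT.lf (nat_lit 0) (nat_lit 114032884665) (nat_lit 152) (nat_lit 509031465659) (nat_lit 0) (nat_lit 41020822208) (nat_lit 1) (nat_lit 5) (nat_lit 3) (nat_lit 4) (nat_lit 1) (nat_lit 4) (nat_lit 319) (nat_lit 259) (nat_lit 142))) (XT.nd (nat_lit 78) (nat_lit 0) (nat_lit 0) (XT.lf (nat_lit 0) (nat_lit 137395515870) (nat_lit 152) (nat_lit 513767788839)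 (nat_lit 0) (nat_lit 64382788853) (nat_lit 1) (nat_lit 5) (nat_lit 3) (nat_lit 4) (nat_lit 1) (nat_lit 4) (nat_lit 320) (nat_lit 259) (nat_lit 141)) (XT.nd (nat_lit 78) (nat_lit 0) (nat_lit 0) (XT.lf (nat_lit 0) (nat_lit 162626805669) (nat_lit 152) (nat_lit 518883648481) (nat_lit 0) (nat_lit 89613463317) (nat_lit 1) (nat_lit 5) (nat_lit 3) (nat_lit 4) (nat_lit 1) (nat_lit 4) (nat_lit 321) (nat_lit 259) (nat_lit 140)) (XT.lf (nat_lit 0) (nat_lit 189876272814) (nat_lit 152) (nat_lit 524409360791) (nat_lit 0) (nat_lit 116862360708) (nat_lit 1) (nat_lit 5) (nat_lit 3) (nat_lit 4) (nat_lit 1) (nat_lit 4) (nat_lit 322) (nat_lit 259) (nat_lit 139))))) (XT.nd (nat_lit 234) (nat_lit 0) (nat_lit 0) (XT.nd (nat_lit 78) (nat_lit 0) (nat_lit 0) (XT.lf (nat_lit 0) (nat_lit 219305395630) (nat_lit 152) (nat_lit 530377670731) (nat_lit 0) (nat_lit 146290955974) (nat_lit 1) (nat_lit 5) (nat_lit 3) (nat_lit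 4) (nat_lit 1) (nat_lit 4) (nat_lit 323) (nat_lit 259) (nat_lit 138)) (XT.nd (nat_lit 78) (nat_lit 0) (nat_lit 0) (XT.lf (nat_lit 0) (nat_lit 251088568919) (nat_lit 152) (nat_lit 536823946063) (nat_lit 0) (nat_lit 178073640791) (nat_lit 1) (nat_lit 5) (nat_lit 3) (nat_lit 4) (nat_lit 1) (nat_lit 4) (nat_lit 324) (nat_lit 259) (nat_lit 137)) (XT.lf (nat_lit 0) (nat_lit 285414137412) (nat_lit 152) (nat_lit 543786386938) (nat_lit 0) (nat_lit 212398756995) (nat_lit 1) (nat_lit 5) (nat_lit 3) (nat_lit 4) (nat_lit 1) (nat_lit 4) (nat_lit 325) (nat_lit 259) (nat_lit 136)))) (XT.nd (nat_lit 78) (nat_lit 0) (nat_lit 0) (XT.lf (nat_lit 0) (nat_lit 322485511884) (nat_lit 152) (nat_lit 551306252264) (nat_lit 0) (nat_lit 249469712681) (nat_lit 1) (nat_lit 5) (nat_lit 3) (nat_lit 4) (nat_lit 1) (nat_lit 4) (nat_lit 326) (nat_lit 259) (nat_lit 135)) (XT.nd (nat_lit 78) (nat_lit 0) (nat_lit 0) (XT.lf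 (nat_lit 0) (nat_lit 362522374555) (nat_lit 152) (nat_lit 559428104205) (nat_lit 0) (nat_lit 289506187587) (nat_lit 1) (nat_lit 5) (nat_lit 3) (nat_lit 4) (nat_lit 1) (nat_lit 4) (nat_lit 327) (nat_lit 259) (nat_lit 134)) (XT.lf (nat_lit 0) (nat_lit 405761980907) (nat_lit 152) (nat_lit 568200072257) (nat_lit 0) (nat_lit 332745434898) (nat_lit 1) (nat_lit 5) (nat_lit 3) (nat_lit 4) (nat_lit 1) (nat_lit 4) (nat_lit 328) (nat_lit 259) (nat_lit 133)))))) (XT.nd (nat_lit 32370) (nat_lit 0) (nat_lit 2052) (XT.nd (nat_lit 32136) (nat_lit 0) (nat_lit 1976) (XT.nd (nat_lit 78) (nat_lit 0) (nat_lit 0) (XT.lf (nat_lit 0) (nat_lit 452460565645) (nat_lit 152) (nat_lit 577674138450) (nat_lit 0) (nat_lit 379443687190) (nat_lit 1) (nat_lit 5) (nat_lit 3) (nat_lit 4) (nat_lit 1) (nat_lit 4) (nat_lit 329) (nat_lit 259) (nat_lit 132)) (XT.nd (nat_lit 78) (nat_lit 0) (nat_lit 0) (XT.lf (nat_lit 0) (nat_lit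 502894861122) (nat_lit 152) (nat_lit 587906445400) (nat_lit 0) (nat_lit 429877674847) (nat_lit 1) (nat_lit 5) (nat_lit 3) (nat_lit 4) (nat_lit 1) (nat_lit 4) (nat_lit 330) (nat_lit 259) (nat_lit 131)) (XT.lf (nat_lit 0) (nat_lit 557363737238) (nat_lit 152) (nat_lit 598957628999) (nat_lit 0) (nat_lit 484346265944) (nat_lit 1) (nat_lit 5) (nat_lit 3) (nat_lit 4) (nat_lit 1) (nat_lit 4) (nat_lit 331) (nat_lit 259) (nat_lit 130)))) (XT.nd (nat_lit 78) (nat_lit 0) (nat_lit 0) (XT.lf (nat_lit 0) (nat_lit 133166417) (nat_lit 532) (nat_lit 4767429902) (nat_lit 532) (nat_lit 4767429902) (nat_lit 27) (nat_lit 3) (nat_lit 34) (nat_lit 3) (nat_lit 34) (nat_lit 5) (nat_lit 260) (nat_lit 260) (nat_lit 200)) (XT.nd (nat_lit 78) (nat_lit 0) (nat_lit 76) (XT.lf (nat_lit 0) (nat_lit 430345834) (nat_lit 532) (nat_lit 1889236544) (nat_lit 532) (nat_lit 17776415476) (nat_lit 27) (nat_lit 3) (nat_lit 34)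 (nat_lit 3) (nat_lit 34) (nat_lit 5) (nat_lit 261) (nat_lit 260) (nat_lit 199)) (XT.lf (nat_lit 0) (nat_lit 896033068) (nat_lit 456) (nat_lit 14353520831) (nat_lit 532) (nat_lit 5644223593) (nat_lit 28) (nat_lit 5) (nat_lit 34) (nat_lit 5) (nat_lit 35) (nat_lit 5) (nat_lit 262) (nat_lit 260) (nat_lit 198))))) (XT.nd (nat_lit 234) (nat_lit 0) (nat_lit 76) (XT.nd (nat_lit 78) (nat_lit 0) (nat_lit 76) (XT.lf (nat_lit 0) (nat_lit 1497969198) (nat_lit 456) (nat_lit 6070837984) (nat_lit 532) (nat_lit 14178766555) (nat_lit 28) (nat_lit 5) (nat_lit 34) (nat_lit 5) (nat_lit 35) (nat_lit 5) (nat_lit 263) (nat_lit 260) (nat_lit 197)) (XT.nd (nat_lit 78) (nat_lit 0) (nat_lit 0) (XT.lf (nat_lit 0) (nat_lit 2226870290) (nat_lit 456) (nat_lit 19667976755) (nat_lit 532) (nat_lit 768627155) (nat_lit 29) (nat_lit 5) (nat_lit 35) (nat_lit 5) (nat_lit 36) (nat_lit 5) (nat_lit 264) (nat_lit 260) (nat_lit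 196)) (XT.lf (nat_lit 0) (nat_lit 3368640312) (nat_lit 456) (nat_lit 10717681628) (nat_lit 532) (nat_lit 9538057736) (nat_lit 29) (nat_lit 5) (nat_lit 35) (nat_lit 5) (nat_lit 36) (nat_lit 5) (nat_lit 265) (nat_lit 260) (nat_lit 195)))) (XT.nd (nat_lit 78) (nat_lit 0) (nat_lit 76) (XT.lf (nat_lit 0) (nat_lit 4590331210) (nat_lit 456) (nat_lit 1060440494) (nat_lit 532) (nat_lit 19012389841) (nat_lit 29) (nat_lit 5) (nat_lit 35) (nat_lit 5) (nat_lit 36) (nat_lit 5) (nat_lit 266) (nat_lit 260) (nat_lit 194)) (XT.nd (nat_lit 78) (nat_lit 0) (nat_lit 0) (XT.lf (nat_lit 0) (nat_lit 6225581020) (nat_lit 456) (nat_lit 16002521221) (nat_lit 76) (nat_lit 3531761443) (nat_lit 30) (nat_lit 5) (nat_lit 36) (nat_lit 5) (nat_lit 31) (nat_lit 5) (nat_lit 267) (nat_lit 260) (nat_lit 193)) (XT.lf (nat_lit 0) (nat_lit 8158226263) (nat_lit 456) (nat_lit 5597764678) (nat_lit 76) (nat_lit 13175062434) (nat_lit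 30) (nat_lit 5) (nat_lit 36) (nat_lit 5) (nat_lit 31) (nat_lit 5) (nat_lit 268) (nat_lit 260) (nat_lit 192))))))))
noncomputable def xc86 : XT := (XT.nd (nat_lit 1794) (nat_lit 380) (nat_lit 0) (XT.nd (nat_lit 858) (nat_lit 532) (nat_lit 0) (XT.nd (nat_lit 390) (nat_lit 532) (nat_lit 0) (XT.nd (nat_lit 156) (nat_lit 228) (nat_lit 0) (XT.nd (nat_lit 78) (nat_lit 0) (nat_lit 0) (XT.lf (nat_lit 0) (nat_lit 5927450343) (nat_lit 456) (nat_lit 4451379529) (nat_lit 532) (nat_lit 17806512312) (nat_lit 24) (nat_lit 5) (nat_lit 30) (nat_lit 5) (nat_lit 31) (nat_lit 5) (nat_lit 269) (nat_lit 260) (nat_lit 191)) (XT.lf (nat_lit 0) (nat_lit 13060020213) (nat_lit 532) (nat_lit 10982295174) (nat_lit 76) (nat_lit 5475090005) (nat_lit 24) (nat_lit 5) (nat_lit 31) (nat_lit 5) (nat_lit 25) (nat_lit 5) (nat_lit 270) (nat_lit 260) (nat_lit 190))) (XT.nd (nat_lit 78) (nat_lit 0) (nat_lit 0) (XT.lf (nat_lit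 0) (nat_lit 1127813563) (nat_lit 228) (nat_lit 14962569563) (nat_lit 304) (nat_lit 14854937801) (nat_lit 21) (nat_lit 5) (nat_lit 24) (nat_lit 5) (nat_lit 25) (nat_lit 5) (nat_lit 271) (nat_lit 260) (nat_lit 189)) (XT.nd (nat_lit 78) (nat_lit 0) (nat_lit 0) (XT.lf (nat_lit 0) (nat_lit 14823181608) (nat_lit 228) (nat_lit 4832604234) (nat_lit 304) (nat_lit 12808331904) (nat_lit 21) (nat_lit 5) (nat_lit 24) (nat_lit 5) (nat_lit 25) (nat_lit 5) (nat_lit 272) (nat_lit 260) (nat_lit 188)) (XT.lf (nat_lit 0) (nat_lit 23646205430) (nat_lit 304) (nat_lit 4645261799) (nat_lit 76) (nat_lit 5801820999) (nat_lit 21) (nat_lit 5) (nat_lit 25) (nat_lit 5) (nat_lit 22) (nat_lit 5) (nat_lit 273) (nat_lit 260) (nat_lit 187))))) (XT.nd (nat_lit 234) (nat_lit 228) (nat_lit 0) (XT.nd (nat_lit 78) (nat_lit 152) (nat_lit 0) (XT.lf (nat_lit 0) (nat_lit 9744473777) (nat_lit 152) (nat_lit 18564681192) (nat_lit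 228) (nat_lit 7515422453) (nat_lit 19) (nat_lit 5) (nat_lit 21) (nat_lit 5) (nat_lit 22) (nat_lit 5) (nat_lit 274) (nat_lit 260) (nat_lit 186)) (XT.nd (nat_lit 78) (nat_lit 152) (nat_lit 0) (XT.lf (nat_lit 0) (nat_lit 25542230386) (nat_lit 152) (nat_lit 7923650120) (nat_lit 228) (nat_lit 4218875214) (nat_lit 19) (nat_lit 5) (nat_lit 21) (nat_lit 5) (nat_lit 22) (nat_lit 5) (nat_lit 275) (nat_lit 260) (nat_lit 185)) (XT.lf (nat_lit 0) (nat_lit 2965291835) (nat_lit 152) (nat_lit 36221165007) (nat_lit 228) (nat_lit 495228247) (nat_lit 17) (nat_lit 5) (nat_lit 19) (nat_lit 5) (nat_lit 20) (nat_lit 5) (nat_lit 276) (nat_lit 260) (nat_lit 184)))) (XT.nd (nat_lit 78) (nat_lit 152) (nat_lit 0) (XT.lf (nat_lit 0) (nat_lit 3890591496) (nat_lit 228) (nat_lit 22146189923) (nat_lit 76) (nat_lit 15751584109) (nat_lit 16) (nat_lit 5) (nat_lit 19) (nat_lit 5) (nat_lit 17) (nat_lit 5) (nat_lit 277)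 (nat_lit 260) (nat_lit 183)) (XT.nd (nat_lit 78) (nat_lit 152) (nat_lit 0) (XT.lf (nat_lit 0) (nat_lit 8595198267) (nat_lit 228) (nat_lit 6430114184) (nat_lit 76) (nat_lit 29037697980) (nat_lit 16) (nat_lit 5) (nat_lit 19) (nat_lit 5) (nat_lit 17) (nat_lit 5) (nat_lit 278) (nat_lit 260) (nat_lit 182)) (XT.lf (nat_lit 0) (nat_lit 11091729760) (nat_lit 152) (nat_lit 2846271144) (nat_lit 228) (nat_lit 32560710576) (nat_lit 14) (nat_lit 5) (nat_lit 16) (nat_lit 5) (nat_lit 17) (nat_lit 5) (nat_lit 279) (nat_lit 260) (nat_lit 181)))))) (XT.nd (nat_lit 468) (nat_lit 304) (nat_lit 0) (XT.nd (nat_lit 234) (nat_lit 76) (nat_lit 0) (XT.nd (nat_lit 78) (nat_lit 152) (nat_lit 0) (XT.lf (nat_lit 0) (nat_lit 20131741565) (nat_lit 228) (nat_lit 18993227945) (nat_lit 76) (nat_lit 9970446467) (nat_lit 14) (nat_lit 5) (nat_lit 17) (nat_lit 5) (nat_lit 15) (nat_lit 5) (nat_lit 280) (nat_lit 260) (nat_lit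 180)) (XT.nd (nat_lit 78) (nat_lit 152) (nat_lit 0) (XT.lf (nat_lit 0) (nat_lit 26890513131) (nat_lit 228) (nat_lit 1346394970) (nat_lit 76) (nat_lit 23657412556) (nat_lit 14) (nat_lit 5) (nat_lit 17) (nat_lit 5) (nat_lit 15) (nat_lit 5) (nat_lit 281) (nat_lit 260) (nat_lit 179)) (XT.lf (nat_lit 0) (nat_lit 18638939141) (nat_lit 152) (nat_lit 15995242486) (nat_lit 228) (nat_lit 20247444874) (nat_lit 12) (nat_lit 5) (nat_lit 14) (nat_lit 5) (nat_lit 15) (nat_lit 5) (nat_lit 282) (nat_lit 260) (nat_lit 178)))) (XT.nd (nat_lit 78) (nat_lit 76) (nat_lit 0) (XT.lf (nat_lit 0) (nat_lit 40294172736) (nat_lit 152) (nat_lit 2736081347) (nat_lit 228) (nat_lit 15075052487) (nat_lit 12) (nat_lit 5) (nat_lit 14) (nat_lit 5) (nat_lit 15) (nat_lit 5) (nat_lit 283) (nat_lit 260) (nat_lit 177)) (XT.nd (nat_lit 78) (nat_lit 0) (nat_lit 0) (XT.lf (nat_lit 0) (nat_lit 1906351288) (nat_lit 76) (nat_lit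 50512451004) (nat_lit 152) (nat_lit 9142436481) (nat_lit 11) (nat_lit 5) (nat_lit 12) (nat_lit 5) (nat_lit 13) (nat_lit 4) (nat_lit 284) (nat_lit 260) (nat_lit 176)) (XT.lf (nat_lit 0) (nat_lit 24134131575) (nat_lit 76) (nat_lit 38977054331) (nat_lit 152) (nat_lit 2138258894) (nat_lit 11) (nat_lit 5) (nat_lit 12) (nat_lit 5) (nat_lit 13) (nat_lit 4) (nat_lit 285) (nat_lit 260) (nat_lit 175))))) (XT.nd (nat_lit 234) (nat_lit 76) (nat_lit 0) (XT.nd (nat_lit 78) (nat_lit 152) (nat_lit 0) (XT.lf (nat_lit 0) (nat_lit 5151463714) (nat_lit 152) (nat_lit 21228109285) (nat_lit 76) (nat_lit 42842978482) (nat_lit 10) (nat_lit 5) (nat_lit 12) (nat_lit 5) (nat_lit 11) (nat_lit 5) (nat_lit 286) (nat_lit 260) (nat_lit 174)) (XT.nd (nat_lit 78) (nat_lit 0) (nat_lit 0) (XT.lf (nat_lit 0) (nat_lit 199868191) (nat_lit 152) (nat_lit 12710683075) (nat_lit 228) (nat_lit 60598390985) (nat_lit 8) (nat_lit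 5) (nat_lit 10) (nat_lit 5) (nat_lit 11) (nat_lit 5) (nat_lit 287) (nat_lit 260) (nat_lit 173)) (XT.lf (nat_lit 0) (nat_lit 21932183884) (nat_lit 228) (nat_lit 53611644061) (nat_lit 76) (nat_lit 2543085129) (nat_lit 8) (nat_lit 5) (nat_lit 11) (nat_lit 5) (nat_lit 9) (nat_lit 4) (nat_lit 288) (nat_lit 260) (nat_lit 172)))) (XT.nd (nat_lit 78) (nat_lit 76) (nat_lit 0) (XT.lf (nat_lit 0) (nat_lit 32002902481) (nat_lit 228) (nat_lit 32672973388) (nat_lit 76) (nat_lit 18329070451) (nat_lit 8) (nat_lit 5) (nat_lit 11) (nat_lit 5) (nat_lit 9) (nat_lit 4) (nat_lit 289) (nat_lit 260) (nat_lit 171)) (XT.nd (nat_lit 78) (nat_lit 76) (nat_lit 0) (XT.lf (nat_lit 0) (nat_lit 42876693154) (nat_lit 228) (nat_lit 10063288795) (nat_lit 76) (nat_lit 35376659318) (nat_lit 8) (nat_lit 5) (nat_lit 11) (nat_lit 5) (nat_lit 9) (nat_lit 4) (nat_lit 290) (nat_lit 260) (nat_lit 170)) (XT.lf (nat_lit 0) (nat_lit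 15107111956) (nat_lit 76) (nat_lit 39874207631) (nat_lit 152) (nat_lit 39043088927) (nat_lit 7) (nat_lit 5) (nat_lit 8) (nat_lit 5) (nat_lit 9) (nat_lit 4) (nat_lit 291) (nat_lit 260) (nat_lit 169))))))) (XT.nd (nat_lit 858) (nat_lit 152) (nat_lit 0) (XT.nd (nat_lit 390) (nat_lit 76) (nat_lit 0) (XT.nd (nat_lit 156) (nat_lit 152) (nat_lit 0) (XT.nd (nat_lit 78) (nat_lit 0) (nat_lit 0) (XT.lf (nat_lit 0) (nat_lit 42859771022) (nat_lit 76) (nat_lit 25467388139) (nat_lit 152) (nat_lit 31839821004) (nat_lit 7) (nat_lit 5) (nat_lit 8) (nat_lit 5) (nat_lit 9) (nat_lit 4) (nat_lit 292) (nat_lit 260) (nat_lit 168)) (XT.lf (nat_lit 0) (nat_lit 72829233648) (nat_lit 76) (nat_lit 9909297880) (nat_lit 152) (nat_lit 24062606462) (nat_lit 7) (nat_lit 5) (nat_lit 8) (nat_lit 5) (nat_lit 9) (nat_lit 4) (nat_lit 293) (nat_lit 260) (nat_lit 167))) (XT.nd (nat_lit 78) (nat_lit 152) (nat_lit 0) (XT.lf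 (nat_lit 0) (nat_lit 98466596413) (nat_lit 152) (nat_lit 8938857867) (nat_lit 0) (nat_lit 6547480515) (nat_lit 7) (nat_lit 5) (nat_lit 9) (nat_lit 4) (nat_lit 7) (nat_lit 4) (nat_lit 294) (nat_lit 260) (nat_lit 166)) (XT.nd (nat_lit 78) (nat_lit 76) (nat_lit 0) (XT.lf (nat_lit 0) (nat_lit 18775629785) (nat_lit 76) (nat_lit 97384359246) (nat_lit 76) (nat_lit 5460328021) (nat_lit 6) (nat_lit 4) (nat_lit 7) (nat_lit 5) (nat_lit 7) (nat_lit 4) (nat_lit 295) (nat_lit 260) (nat_lit 165)) (XT.lf (nat_lit 0) (nat_lit 5348154289) (nat_lit 152) (nat_lit 80804421532) (nat_lit 76) (nat_lit 43718280934) (nat_lit 5) (nat_lit 5) (nat_lit 7) (nat_lit 5) (nat_lit 6) (nat_lit 4) (nat_lit 296) (nat_lit 260) (nat_lit 164))))) (XT.nd (nat_lit 234) (nat_lit 76) (nat_lit 0) (XT.nd (nat_lit 78) (nat_lit 0) (nat_lit 0) (XT.lf (nat_lit 0) (nat_lit 16724608234) (nat_lit 152) (nat_lit 57145611428) (nat_lit 76)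 (nat_lit 64900017026) (nat_lit 5) (nat_lit 5) (nat_lit 7) (nat_lit 5) (nat_lit 6) (nat_lit 4) (nat_lit 297) (nat_lit 260) (nat_lit 163)) (XT.nd (nat_lit 78) (nat_lit 0) (nat_lit 0) (XT.lf (nat_lit 0) (nat_lit 29009597558) (nat_lit 152) (nat_lit 31596735579) (nat_lit 76) (nat_lit 87775366460) (nat_lit 5) (nat_lit 5) (nat_lit 7) (nat_lit 5) (nat_lit 6) (nat_lit 4) (nat_lit 298) (nat_lit 260) (nat_lit 162)) (XT.lf (nat_lit 0) (nat_lit 42275922199) (nat_lit 152) (nat_lit 4006393238) (nat_lit 76) (nat_lit 112479886862) (nat_lit 5) (nat_lit 5) (nat_lit 7) (nat_lit 5) (nat_lit 6) (nat_lit 4) (nat_lit 299) (nat_lit 260) (nat_lit 161)))) (XT.nd (nat_lit 78) (nat_lit 0) (nat_lit 0) (XT.lf (nat_lit 0) (nat_lit 27146912422) (nat_lit 76) (nat_lit 30108168887) (nat_lit 152) (nat_lit 112665946866) (nat_lit 4) (nat_lit 5) (nat_lit 5) (nat_lit 5) (nat_lit 6) (nat_lit 4) (nat_lit 300) (nat_lit 260)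 (nat_lit 160)) (XT.nd (nat_lit 78) (nat_lit 0) (nat_lit 0) (XT.lf (nat_lit 0) (nat_lit 61018124379) (nat_lit 76) (nat_lit 12522682626) (nat_lit 152) (nat_lit 108423099256) (nat_lit 4) (nat_lit 5) (nat_lit 5) (nat_lit 5) (nat_lit 6) (nat_lit 4) (nat_lit 301) (nat_lit 260) (nat_lit 159)) (XT.lf (nat_lit 0) (nat_lit 91283754691) (nat_lit 152) (nat_lit 97528899696) (nat_lit 0) (nat_lit 6145215580) (nat_lit 4) (nat_lit 5) (nat_lit 6) (nat_lit 4) (nat_lit 4) (nat_lit 4) (nat_lit 302) (nat_lit 260) (nat_lit 158)))))) (XT.nd (nat_lit 468) (nat_lit 76) (nat_lit 0) (XT.nd (nat_lit 234) (nat_lit 76) (nat_lit 0) (XT.nd (nat_lit 78) (nat_lit 0) (nat_lit 0) (XT.lf (nat_lit 0) (nat_lit 110770262745) (nat_lit 152) (nat_lit 72565897470) (nat_lit 0) (nat_lit 25629264747) (nat_lit 4) (nat_lit 5) (nat_lit 6) (nat_lit 4) (nat_lit 4) (nat_lit 4) (nat_lit 303) (nat_lit 260) (nat_lit 157)) (XT.nd (nat_lit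 78) (nat_lit 0) (nat_lit 0) (XT.lf (nat_lit 0) (nat_lit 131814635953) (nat_lit 152) (nat_lit 45607675485) (nat_lit 0) (nat_lit 46671361207) (nat_lit 4) (nat_lit 5) (nat_lit 6) (nat_lit 4) (nat_lit 4) (nat_lit 4) (nat_lit 304) (nat_lit 260) (nat_lit 156)) (XT.lf (nat_lit 0) (nat_lit 154541581711) (nat_lit 152) (nat_lit 16494481313) (nat_lit 0) (nat_lit 69396198866) (nat_lit 4) (nat_lit 5) (nat_lit 6) (nat_lit 4) (nat_lit 4) (nat_lit 4) (nat_lit 305) (nat_lit 260) (nat_lit 155)))) (XT.nd (nat_lit 78) (nat_lit 0) (nat_lit 0) (XT.lf (nat_lit 0) (nat_lit 15733248485) (nat_lit 76) (nat_lit 163730914736) (nat_lit 76) (nat_lit 78583579947) (nat_lit 3) (nat_lit 4) (nat_lit 4) (nat_lit 5) (nat_lit 4) (nat_lit 4) (nat_lit 306) (nat_lit 260) (nat_lit 154)) (XT.nd (nat_lit 78) (nat_lit 0) (nat_lit 0) (XT.lf (nat_lit 0) (nat_lit 51475731232) (nat_lit 76) (nat_lit 155354933903) (nat_lit 76) (nat_lit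 70205791757) (nat_lit 3) (nat_lit 4) (nat_lit 4) (nat_lit 5) (nat_lit 4) (nat_lit 4) (nat_lit 307) (nat_lit 260) (nat_lit 153)) (XT.lf (nat_lit 0) (nat_lit 90076204077) (nat_lit 76) (nat_lit 146309473432) (nat_lit 76) (nat_lit 61158657809) (nat_lit 3) (nat_lit 4) (nat_lit 4) (nat_lit 5) (nat_lit 4) (nat_lit 4) (nat_lit 308) (nat_lit 260) (nat_lit 152))))) (XT.nd (nat_lit 234) (nat_lit 76) (nat_lit 0) (XT.nd (nat_lit 78) (nat_lit 0) (nat_lit 0) (XT.lf (nat_lit 0) (nat_lit 131763410563) (nat_lit 76) (nat_lit 136540930595) (nat_lit 76) (nat_lit 51388565456) (nat_lit 3) (nat_lit 4) (nat_lit 4) (nat_lit 5) (nat_lit 4) (nat_lit 4) (nat_lit 309) (nat_lit 260) (nat_lit 151)) (XT.nd (nat_lit 78) (nat_lit 0) (nat_lit 0) (XT.lf (nat_lit 0) (nat_lit 176784385987) (nat_lit 76) (nat_lit 125991417732) (nat_lit 76) (nat_lit 40837617856) (nat_lit 3) (nat_lit 4) (nat_lit 4) (nat_lit 5) (nat_lit 4) (nat_lit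 4) (nat_lit 310) (nat_lit 260) (nat_lit 150)) (XT.lf (nat_lit 0) (nat_lit 225405921315) (nat_lit 76) (nat_lit 114598419210) (nat_lit 76) (nat_lit 29443290873) (nat_lit 3) (nat_lit 4) (nat_lit 4) (nat_lit 5) (nat_lit 4) (nat_lit 4) (nat_lit 311) (nat_lit 260) (nat_lit 149)))) (XT.nd (nat_lit 78) (nat_lit 76) (nat_lit 0) (XT.lf (nat_lit 0) (nat_lit 277916144164) (nat_lit 76) (nat_lit 102294420964) (nat_lit 76) (nat_lit 17138062571) (nat_lit 3) (nat_lit 4) (nat_lit 4) (nat_lit 5) (nat_lit 4) (nat_lit 4) (nat_lit 312) (nat_lit 260) (nat_lit 148)) (XT.nd (nat_lit 78) (nat_lit 76) (nat_lit 0) (XT.lf (nat_lit 0) (nat_lit 334626226225) (nat_lit 76) (nat_lit 89006510412) (nat_lit 76) (nat_lit 3849013078) (nat_lit 3) (nat_lit 4) (nat_lit 4) (nat_lit 5) (nat_lit 4) (nat_lit 4) (nat_lit 313) (nat_lit 260) (nat_lit 147)) (XT.lf (nat_lit 0) (nat_lit 9977224563) (nat_lit 152) (nat_lit 64405924815)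 (nat_lit 76) (nat_lit 385622207677) (nat_lit 2) (nat_lit 5) (nat_lit 4) (nat_lit 5) (nat_lit 3) (nat_lit 4) (nat_lit 314) (nat_lit 260) (nat_lit 146))))))))
noncomputable def xc87 : XT := (XT.nd (nat_lit 33774) (nat_lit 0) (nat_lit 532) (XT.nd (nat_lit 858) (nat_lit 0) (nat_lit 0) (XT.nd (nat_lit 390) (nat_lit 0) (nat_lit 0) (XT.nd (nat_lit 156) (nat_lit 76) (nat_lit 0) (XT.nd (nat_lit 78) (nat_lit 0) (nat_lit 0) (XT.lf (nat_lit 0) (nat_lit 24701128250) (nat_lit 152) (nat_lit 33781181605) (nat_lit 76) (nat_lit 436640585611) (nat_lit 2) (nat_lit 5) (nat_lit 4) (nat_lit 5) (nat_lit 3) (nat_lit 4) (nat_lit 315) (nat_lit 260) (nat_lit 145)) (XT.lf (nat_lit 0) (nat_lit 40602493965) (nat_lit 152) (nat_lit 707245045) (nat_lit 76) (nat_lit 491740135376) (nat_lit 2) (nat_lit 5) (nat_lit 4) (nat_lit 5) (nat_lit 3) (nat_lit 4) (nat_lit 316) (nat_lit 260) (nat_lit 144))) (XT.nd (nat_lit 78) (nat_lit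 0) (nat_lit 0) (XT.lf (nat_lit 0) (nat_lit 36855542043) (nat_lit 76) (nat_lit 21806386655) (nat_lit 152) (nat_lit 515278207452) (nat_lit 1) (nat_lit 5) (nat_lit 2) (nat_lit 5) (nat_lit 3) (nat_lit 4) (nat_lit 317) (nat_lit 260) (nat_lit 143)) (XT.nd (nat_lit 78) (nat_lit 0) (nat_lit 0) (XT.lf (nat_lit 0) (nat_lit 77462864302) (nat_lit 76) (nat_lit 722188147) (nat_lit 152) (nat_lit 539915052878) (nat_lit 1) (nat_lit 5) (nat_lit 2) (nat_lit 5) (nat_lit 3) (nat_lit 4) (nat_lit 318) (nat_lit 260) (nat_lit 142)) (XT.lf (nat_lit 0) (nat_lit 99799918922) (nat_lit 152) (nat_lit 545005053632) (nat_lit 0) (nat_lit 20945509182) (nat_lit 1) (nat_lit 5) (nat_lit 3) (nat_lit 4) (nat_lit 1) (nat_lit 4) (nat_lit 319) (nat_lit 260) (nat_lit 141))))) (XT.nd (nat_lit 234) (nat_lit 0) (nat_lit 0) (XT.nd (nat_lit 78) (nat_lit 0) (nat_lit 0) (XT.lf (nat_lit 0) (nat_lit 123162380943) (nat_lit 152) (nat_lit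 549741679989) (nat_lit 0) (nat_lit 44307355869) (nat_lit 1) (nat_lit 5) (nat_lit 3) (nat_lit 4) (nat_lit 1) (nat_lit 4) (nat_lit 320) (nat_lit 260) (nat_lit 140)) (XT.nd (nat_lit 78) (nat_lit 0) (nat_lit 0) (XT.lf (nat_lit 0) (nat_lit 148393514089) (nat_lit 152) (nat_lit 554857820351) (nat_lit 0) (nat_lit 69537919261) (nat_lit 1) (nat_lit 5) (nat_lit 3) (nat_lit 4) (nat_lit 1) (nat_lit 4) (nat_lit 321) (nat_lit 260) (nat_lit 139)) (XT.lf (nat_lit 0) (nat_lit 175642836186) (nat_lit 152) (nat_lit 560383792586) (nat_lit 0) (nat_lit 96786713808) (nat_lit 1) (nat_lit 5) (nat_lit 3) (nat_lit 4) (nat_lit 1) (nat_lit 4) (nat_lit 322) (nat_lit 260) (nat_lit 138)))) (XT.nd (nat_lit 78) (nat_lit 0) (nat_lit 0) (XT.lf (nat_lit 0) (nat_lit 205071824698) (nat_lit 152) (nat_lit 566352343198) (nat_lit 0) (nat_lit 126215213848) (nat_lit 1) (nat_lit 5) (nat_lit 3) (nat_lit 4) (nat_lit 1) (nat_lit 4)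 (nat_lit 323) (nat_lit 260) (nat_lit 137)) (XT.nd (nat_lit 78) (nat_lit 0) (nat_lit 0) (XT.lf (nat_lit 0) (nat_lit 236854873632) (nat_lit 152) (nat_lit 572798841374) (nat_lit 0) (nat_lit 157997810492) (nat_lit 1) (nat_lit 5) (nat_lit 3) (nat_lit 4) (nat_lit 1) (nat_lit 4) (nat_lit 324) (nat_lit 260) (nat_lit 136)) (XT.lf (nat_lit 0) (nat_lit 271180326980) (nat_lit 152) (nat_lit 579761488586) (nat_lit 0) (nat_lit 192322845055) (nat_lit 1) (nat_lit 5) (nat_lit 3) (nat_lit 4) (nat_lit 1) (nat_lit 4) (nat_lit 325) (nat_lit 260) (nat_lit 135)))))) (XT.nd (nat_lit 32448) (nat_lit 0) (nat_lit 1976) (XT.nd (nat_lit 234) (nat_lit 0) (nat_lit 0) (XT.nd (nat_lit 78) (nat_lit 0) (nat_lit 0) (XT.lf (nat_lit 0) (nat_lit 308251594837) (nat_lit 152) (nat_lit 587281544965) (nat_lit 0) (nat_lit 229393725147) (nat_lit 1) (nat_lit 5) (nat_lit 3) (nat_lit 4) (nat_lit 1) (nat_lit 4) (nat_lit 326) (nat_lit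 260) (nat_lit 134)) (XT.nd (nat_lit 78) (nat_lit 0) (nat_lit 0) (XT.lf (nat_lit 0) (nat_lit 348288358791) (nat_lit 152) (nat_lit 595403573807) (nat_lit 0) (nat_lit 269430130059) (nat_lit 1) (nat_lit 5) (nat_lit 3) (nat_lit 4) (nat_lit 1) (nat_lit 4) (nat_lit 327) (nat_lit 260) (nat_lit 133)) (XT.lf (nat_lit 0) (nat_lit 391527873738) (nat_lit 152) (nat_lit 604175705656) (nat_lit 0) (nat_lit 312669312560) (nat_lit 1) (nat_lit 5) (nat_lit 3) (nat_lit 4) (nat_lit 1) (nat_lit 4) (nat_lit 328) (nat_lit 260) (nat_lit 132)))) (XT.nd (nat_lit 78) (nat_lit 0) (nat_lit 0) (XT.lf (nat_lit 0) (nat_lit 438226373841) (nat_lit 152) (nat_lit 613649923513) (nat_lit 0) (nat_lit 359367504843) (nat_lit 1) (nat_lit 5) (nat_lit 3) (nat_lit 4) (nat_lit 1) (nat_lit 4) (nat_lit 329) (nat_lit 260) (nat_lit 131)) (XT.nd (nat_lit 78) (nat_lit 0) (nat_lit 0) (XT.lf (nat_lit 0) (nat_lit 488660590954) (nat_lit 152)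 (nat_lit 623882370892) (nat_lit 0) (nat_lit 409801436937) (nat_lit 1) (nat_lit 5) (nat_lit 3) (nat_lit 4) (nat_lit 1) (nat_lit 4) (nat_lit 330) (nat_lit 260) (nat_lit 130)) (XT.lf (nat_lit 0) (nat_lit 543129394510) (nat_lit 152) (nat_lit 634933684519) (nat_lit 0) (nat_lit 464269976586) (nat_lit 1) (nat_lit 5) (nat_lit 3) (nat_lit 4) (nat_lit 1) (nat_lit 4) (nat_lit 331) (nat_lit 260) (nat_lit 129))))) (XT.nd (nat_lit 234) (nat_lit 0) (nat_lit 76) (XT.nd (nat_lit 78) (nat_lit 0) (nat_lit 0) (XT.lf (nat_lit 0) (nat_lit 293491112) (nat_lit 532) (nat_lit 5067402558) (nat_lit 532) (nat_lit 5067402558) (nat_lit 27) (nat_lit 3) (nat_lit 34) (nat_lit 3) (nat_lit 34) (nat_lit 5) (nat_lit 261) (nat_lit 261) (nat_lit 198)) (XT.nd (nat_lit 78) (nat_lit 0) (nat_lit 76) (XT.lf (nat_lit 0) (nat_lit 741942725) (nat_lit 532) (nat_lit 1889594473) (nat_lit 532) (nat_lit 19047747720) (nat_lit 27) (nat_lit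 3) (nat_lit 34) (nat_lit 3) (nat_lit 34) (nat_lit 5) (nat_lit 262) (nat_lit 261) (nat_lit 197)) (XT.lf (nat_lit 0) (nat_lit 1225165688) (nat_lit 456) (nat_lit 15329247415) (nat_lit 532) (nat_lit 5988215750) (nat_lit 28) (nat_lit 5) (nat_lit 34) (nat_lit 5) (nat_lit 35) (nat_lit 5) (nat_lit 263) (nat_lit 261) (nat_lit 196)))) (XT.nd (nat_lit 78) (nat_lit 0) (nat_lit 76) (XT.lf (nat_lit 0) (nat_lit 1856186341) (nat_lit 456) (nat_lit 6396731798) (nat_lit 532) (nat_lit 15213488499) (nat_lit 28) (nat_lit 5) (nat_lit 34) (nat_lit 5) (nat_lit 35) (nat_lit 5) (nat_lit 264) (nat_lit 261) (nat_lit 195)) (XT.nd (nat_lit 78) (nat_lit 0) (nat_lit 0) (XT.lf (nat_lit 0) (nat_lit 2627833872) (nat_lit 456) (nat_lit 21064314330) (nat_lit 532) (nat_lit 764817124) (nat_lit 29) (nat_lit 5) (nat_lit 35) (nat_lit 5) (nat_lit 36) (nat_lit 5) (nat_lit 265) (nat_lit 261) (nat_lit 194)) (XT.lf (nat_lit 0) (nat_lit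 3844440758) (nat_lit 456) (nat_lit 11411114153) (nat_lit 532) (nat_lit 10240639203) (nat_lit 29) (nat_lit 5) (nat_lit 35) (nat_lit 5) (nat_lit 36) (nat_lit 5) (nat_lit 266) (nat_lit 261) (nat_lit 193))))))) (XT.nd (nat_lit 858) (nat_lit 684) (nat_lit 0) (XT.nd (nat_lit 390) (nat_lit 532) (nat_lit 0) (XT.nd (nat_lit 156) (nat_lit 380) (nat_lit 0) (XT.nd (nat_lit 78) (nat_lit 0) (nat_lit 76) (XT.lf (nat_lit 0) (nat_lit 5148584764) (nat_lit 456) (nat_lit 993440544) (nat_lit 532) (nat_lit 20477396629) (nat_lit 29) (nat_lit 5) (nat_lit 35) (nat_lit 5) (nat_lit 36) (nat_lit 5) (nat_lit 267) (nat_lit 261) (nat_lit 192)) (XT.lf (nat_lit 0) (nat_lit 6903283300) (nat_lit 456) (nat_lit 17118117982) (nat_lit 76) (nat_lit 3783480545) (nat_lit 30) (nat_lit 5) (nat_lit 36) (nat_lit 5) (nat_lit 31) (nat_lit 5) (nat_lit 268) (nat_lit 261) (nat_lit 191))) (XT.nd (nat_lit 78) (nat_lit 456) (nat_lit 0)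 (XT.lf (nat_lit 0) (nat_lit 8977232326) (nat_lit 456) (nat_lit 5893173873) (nat_lit 76) (nat_lit 14200528712) (nat_lit 30) (nat_lit 5) (nat_lit 36) (nat_lit 5) (nat_lit 31) (nat_lit 5) (nat_lit 269) (nat_lit 261) (nat_lit 190)) (XT.nd (nat_lit 78) (nat_lit 0) (nat_lit 0) (XT.lf (nat_lit 0) (nat_lit 6550199818) (nat_lit 456) (nat_lit 4816535048) (nat_lit 532) (nat_lit 19059627825) (nat_lit 24) (nat_lit 5) (nat_lit 30) (nat_lit 5) (nat_lit 31) (nat_lit 5) (nat_lit 270) (nat_lit 261) (nat_lit 189)) (XT.lf (nat_lit 0) (nat_lit 14250545042) (nat_lit 532) (nat_lit 11710343741) (nat_lit 76) (nat_lit 5905141019) (nat_lit 24) (nat_lit 5) (nat_lit 31) (nat_lit 5) (nat_lit 25) (nat_lit 5) (nat_lit 271) (nat_lit 261) (nat_lit 188))))) (XT.nd (nat_lit 234) (nat_lit 304) (nat_lit 0) (XT.nd (nat_lit 78) (nat_lit 0) (nat_lit 0) (XT.lf (nat_lit 0) (nat_lit 1364762681) (nat_lit 228) (nat_lit 16151308711)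 (nat_lit 304) (nat_lit 15892770669) (nat_lit 21) (nat_lit 5) (nat_lit 24) (nat_lit 5) (nat_lit 25) (nat_lit 5) (nat_lit 272) (nat_lit 261) (nat_lit 187)) (XT.nd (nat_lit 78) (nat_lit 0) (nat_lit 0) (XT.lf (nat_lit 0) (nat_lit 16144891724) (nat_lit 228) (nat_lit 5211558482) (nat_lit 304) (nat_lit 13693589053) (nat_lit 21) (nat_lit 5) (nat_lit 24) (nat_lit 5) (nat_lit 25) (nat_lit 5) (nat_lit 273) (nat_lit 261) (nat_lit 186)) (XT.lf (nat_lit 0) (nat_lit 25656777398) (nat_lit 304) (nat_lit 4880883286) (nat_lit 76) (nat_lit 6272699273) (nat_lit 21) (nat_lit 5) (nat_lit 25) (nat_lit 5) (nat_lit 22) (nat_lit 5) (nat_lit 274) (nat_lit 261) (nat_lit 185)))) (XT.nd (nat_lit 78) (nat_lit 152) (nat_lit 0) (XT.lf (nat_lit 0) (nat_lit 10656588112) (nat_lit 152) (nat_lit 20030557179) (nat_lit 228) (nat_lit 7993521686) (nat_lit 19) (nat_lit 5) (nat_lit 21) (nat_lit 5) (nat_lit 22) (nat_lit 5) (nat_lit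 275) (nat_lit 261) (nat_lit 184)) (XT.nd (nat_lit 78) (nat_lit 152) (nat_lit 0) (XT.lf (nat_lit 0) (nat_lit 27708346255) (nat_lit 152) (nat_lit 8539673141) (nat_lit 228) (nat_lit 4442371747) (nat_lit 19) (nat_lit 5) (nat_lit 21) (nat_lit 5) (nat_lit 22) (nat_lit 5) (nat_lit 276) (nat_lit 261) (nat_lit 183)) (XT.lf (nat_lit 0) (nat_lit 3330639989) (nat_lit 152) (nat_lit 39091313137) (nat_lit 228) (nat_lit 425520798) (nat_lit 17) (nat_lit 5) (nat_lit 19) (nat_lit 5) (nat_lit 20) (nat_lit 5) (nat_lit 277) (nat_lit 261) (nat_lit 182)))))) (XT.nd (nat_lit 468) (nat_lit 304) (nat_lit 0) (XT.nd (nat_lit 234) (nat_lit 152) (nat_lit 0) (XT.nd (nat_lit 78) (nat_lit 152) (nat_lit 0) (XT.lf (nat_lit 0) (nat_lit 4298002514) (nat_lit 228) (nat_lit 23793587439) (nat_lit 76) (nat_lit 17031551935) (nat_lit 16) (nat_lit 5) (nat_lit 19) (nat_lit 5) (nat_lit 17) (nat_lit 5) (nat_lit 278) (nat_lit 261)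 (nat_lit 181)) (XT.nd (nat_lit 78) (nat_lit 152) (nat_lit 0) (XT.lf (nat_lit 0) (nat_lit 9371854589) (nat_lit 228) (nat_lit 6829432875) (nat_lit 76) (nat_lit 31379085204) (nat_lit 16) (nat_lit 5) (nat_lit 19) (nat_lit 5) (nat_lit 17) (nat_lit 5) (nat_lit 279) (nat_lit 261) (nat_lit 180)) (XT.lf (nat_lit 0) (nat_lit 12091244902) (nat_lit 152) (nat_lit 3046938800) (nat_lit 228) (nat_lit 35073099058) (nat_lit 14) (nat_lit 5) (nat_lit 16) (nat_lit 5) (nat_lit 17) (nat_lit 5) (nat_lit 280) (nat_lit 261) (nat_lit 179)))) (XT.nd (nat_lit 78) (nat_lit 152) (nat_lit 0) (XT.lf (nat_lit 0) (nat_lit 21821718755) (nat_lit 228) (nat_lit 20402637819) (nat_lit 76) (nat_lit 10791861521) (nat_lit 14) (nat_lit 5) (nat_lit 17) (nat_lit 5) (nat_lit 15) (nat_lit 5) (nat_lit 281) (nat_lit 261) (nat_lit 178)) (XT.nd (nat_lit 78) (nat_lit 152) (nat_lit 0) (XT.lf (nat_lit 0) (nat_lit 29115307760) (nat_lit 228)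 (nat_lit 1352209936) (nat_lit 76) (nat_lit 25572023465) (nat_lit 14) (nat_lit 5) (nat_lit 17) (nat_lit 5) (nat_lit 15) (nat_lit 5) (nat_lit 282) (nat_lit 261) (nat_lit 177)) (XT.lf (nat_lit 0) (nat_lit 20229371242) (nat_lit 152) (nat_lit 17246038656) (nat_lit 228) (nat_lit 21790699018) (nat_lit 12) (nat_lit 5) (nat_lit 14) (nat_lit 5) (nat_lit 15) (nat_lit 5) (nat_lit 283) (nat_lit 261) (nat_lit 176))))) (XT.nd (nat_lit 234) (nat_lit 228) (nat_lit 0) (XT.nd (nat_lit 78) (nat_lit 76) (nat_lit 0) (XT.lf (nat_lit 0) (nat_lit 43609666713) (nat_lit 152) (nat_lit 2928279680) (nat_lit 228) (nat_lit 16210184977) (nat_lit 12) (nat_lit 5) (nat_lit 14) (nat_lit 5) (nat_lit 15) (nat_lit 5) (nat_lit 284) (nat_lit 261) (nat_lit 175)) (XT.nd (nat_lit 78) (nat_lit 0) (nat_lit 0) (XT.lf (nat_lit 0) (nat_lit 2153323803) (nat_lit 76) (nat_lit 54522285871) (nat_lit 152) (nat_lit 9805113974) (nat_lit 11)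 (nat_lit 5) (nat_lit 12) (nat_lit 5) (nat_lit 13) (nat_lit 4) (nat_lit 285) (nat_lit 261) (nat_lit 174)) (XT.lf (nat_lit 0) (nat_lit 26152329149) (nat_lit 76) (nat_lit 42066365702) (nat_lit 152) (nat_lit 2245692360) (nat_lit 11) (nat_lit 5) (nat_lit 12) (nat_lit 5) (nat_lit 13) (nat_lit 4) (nat_lit 286) (nat_lit 261) (nat_lit 173)))) (XT.nd (nat_lit 78) (nat_lit 152) (nat_lit 0) (XT.lf (nat_lit 0) (nat_lit 5619547805) (nat_lit 152) (nat_lit 22842145080) (nat_lit 76) (nat_lit 46293907538) (nat_lit 10) (nat_lit 5) (nat_lit 12) (nat_lit 5) (nat_lit 11) (nat_lit 5) (nat_lit 287) (nat_lit 261) (nat_lit 172)) (XT.nd (nat_lit 78) (nat_lit 0) (nat_lit 0) (XT.lf (nat_lit 0) (nat_lit 297938620) (nat_lit 152) (nat_lit 13699252086) (nat_lit 228) (nat_lit 65387906058) (nat_lit 8) (nat_lit 5) (nat_lit 10) (nat_lit 5) (nat_lit 11) (nat_lit 5) (nat_lit 288) (nat_lit 261) (nat_lit 171)) (XT.lf (nat_lit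 0) (nat_lit 23737198975) (nat_lit 228) (nat_lit 57820981540) (nat_lit 76) (nat_lit 2771412192) (nat_lit 8) (nat_lit 5) (nat_lit 11) (nat_lit 5) (nat_lit 9) (nat_lit 4) (nat_lit 289) (nat_lit 261) (nat_lit 170))))))))
noncomputable def xc88 : XT := (XT.nd (nat_lit 1794) (nat_lit 152) (nat_lit 0) (XT.nd (nat_lit 858) (nat_lit 152) (nat_lit 0) (XT.nd (nat_lit 390) (nat_lit 152) (nat_lit 0) (XT.nd (nat_lit 156) (nat_lit 76) (nat_lit 0) (XT.nd (nat_lit 78) (nat_lit 0) (nat_lit 0) (XT.lf (nat_lit 0) (nat_lit 34609838735) (nat_lit 228) (nat_lit 35213113068) (nat_lit 76) (nat_lit 19818433358) (nat_lit 8) (nat_lit 5) (nat_lit 11) (nat_lit 5) (nat_lit 9) (nat_lit 4) (nat_lit 290) (nat_lit 261) (nat_lit 169)) (XT.lf (nat_lit 0) (nat_lit 46350073102) (nat_lit 228) (nat_lit 10800112833) (nat_lit 76) (nat_lit 38228122870) (nat_lit 8) (nat_lit 5) (nat_lit 11) (nat_lit 5) (nat_lit 9) (nat_lit 4) (nat_lit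 291) (nat_lit 261) (nat_lit 168))) (XT.nd (nat_lit 78) (nat_lit 0) (nat_lit 0) (XT.lf (nat_lit 0) (nat_lit 16382192408) (nat_lit 76) (nat_lit 43039273549) (nat_lit 152) (nat_lit 42121374897) (nat_lit 7) (nat_lit 5) (nat_lit 8) (nat_lit 5) (nat_lit 9) (nat_lit 4) (nat_lit 292) (nat_lit 261) (nat_lit 167)) (XT.nd (nat_lit 78) (nat_lit 0) (nat_lit 0) (XT.lf (nat_lit 0) (nat_lit 46350137421) (nat_lit 76) (nat_lit 27481750772) (nat_lit 152) (nat_lit 34345190810) (nat_lit 7) (nat_lit 5) (nat_lit 8) (nat_lit 5) (nat_lit 9) (nat_lit 4) (nat_lit 293) (nat_lit 261) (nat_lit 166)) (XT.lf (nat_lit 0) (nat_lit 78712595226) (nat_lit 76) (nat_lit 10680719101) (nat_lit 152) (nat_lit 25948896576) (nat_lit 7) (nat_lit 5) (nat_lit 8) (nat_lit 5) (nat_lit 9) (nat_lit 4) (nat_lit 294) (nat_lit 261) (nat_lit 165))))) (XT.nd (nat_lit 234) (nat_lit 0) (nat_lit 0) (XT.nd (nat_lit 78) (nat_lit 152) (nat_lit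 0) (XT.lf (nat_lit 0) (nat_lit 106377454761) (nat_lit 152) (nat_lit 9598847790) (nat_lit 0) (nat_lit 7090034481) (nat_lit 7) (nat_lit 5) (nat_lit 9) (nat_lit 4) (nat_lit 7) (nat_lit 4) (nat_lit 295) (nat_lit 261) (nat_lit 164)) (XT.nd (nat_lit 78) (nat_lit 76) (nat_lit 0) (XT.lf (nat_lit 0) (nat_lit 20331403464) (nat_lit 76) (nat_lit 105153723620) (nat_lit 76) (nat_lit 5862089239) (nat_lit 6) (nat_lit 4) (nat_lit 7) (nat_lit 5) (nat_lit 7) (nat_lit 4) (nat_lit 296) (nat_lit 261) (nat_lit 163)) (XT.lf (nat_lit 0) (nat_lit 5806850085) (nat_lit 152) (nat_lit 87217288149) (nat_lit 76) (nat_lit 47233800434) (nat_lit 5) (nat_lit 5) (nat_lit 7) (nat_lit 5) (nat_lit 6) (nat_lit 4) (nat_lit 297) (nat_lit 261) (nat_lit 162)))) (XT.nd (nat_lit 78) (nat_lit 0) (nat_lit 0) (XT.lf (nat_lit 0) (nat_lit 18091135645) (nat_lit 152) (nat_lit 61669587096) (nat_lit 76) (nat_lit 70108737856) (nat_lit 5)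 (nat_lit 5) (nat_lit 7) (nat_lit 5) (nat_lit 6) (nat_lit 4) (nat_lit 298) (nat_lit 261) (nat_lit 161)) (XT.nd (nat_lit 78) (nat_lit 0) (nat_lit 0) (XT.lf (nat_lit 0) (nat_lit 31356808652) (nat_lit 152) (nat_lit 34080332530) (nat_lit 76) (nat_lit 94812876766) (nat_lit 5) (nat_lit 5) (nat_lit 7) (nat_lit 5) (nat_lit 6) (nat_lit 4) (nat_lit 299) (nat_lit 261) (nat_lit 160)) (XT.lf (nat_lit 0) (nat_lit 45682480502) (nat_lit 152) (nat_lit 4286032573) (nat_lit 76) (nat_lit 121492612061) (nat_lit 5) (nat_lit 5) (nat_lit 7) (nat_lit 5) (nat_lit 6) (nat_lit 4) (nat_lit 300) (nat_lit 261) (nat_lit 159)))))) (XT.nd (nat_lit 468) (nat_lit 76) (nat_lit 0) (XT.nd (nat_lit 234) (nat_lit 0) (nat_lit 0) (XT.nd (nat_lit 78) (nat_lit 0) (nat_lit 0) (XT.lf (nat_lit 0) (nat_lit 29358502803) (nat_lit 76) (nat_lit 32500613960) (nat_lit 152) (nat_lit 121653615771) (nat_lit 4) (nat_lit 5) (nat_lit 5) (nat_lit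 5) (nat_lit 6) (nat_lit 4) (nat_lit 301) (nat_lit 261) (nat_lit 158)) (XT.nd (nat_lit 78) (nat_lit 0) (nat_lit 0) (XT.lf (nat_lit 0) (nat_lit 65936460799) (nat_lit 76) (nat_lit 13509489423) (nat_lit 152) (nat_lit 117073237155) (nat_lit 4) (nat_lit 5) (nat_lit 5) (nat_lit 5) (nat_lit 6) (nat_lit 4) (nat_lit 302) (nat_lit 261) (nat_lit 157)) (XT.lf (nat_lit 0) (nat_lit 98607047283) (nat_lit 152) (nat_lit 105295696008) (nat_lit 0) (nat_lit 6650033810) (nat_lit 4) (nat_lit 5) (nat_lit 6) (nat_lit 4) (nat_lit 4) (nat_lit 4) (nat_lit 303) (nat_lit 261) (nat_lit 156)))) (XT.nd (nat_lit 78) (nat_lit 0) (nat_lit 0) (XT.lf (nat_lit 0) (nat_lit 119650950632) (nat_lit 152) (nat_lit 78338284394) (nat_lit 0) (nat_lit 27691829060) (nat_lit 4) (nat_lit 5) (nat_lit 6) (nat_lit 4) (nat_lit 4) (nat_lit 4) (nat_lit 304) (nat_lit 261) (nat_lit 155)) (XT.nd (nat_lit 78) (nat_lit 0) (nat_lit 0) (XT.lf (nat_lit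 0) (nat_lit 142377461336) (nat_lit 152) (nat_lit 49225840567) (nat_lit 0) (nat_lit 50416387819) (nat_lit 4) (nat_lit 5) (nat_lit 6) (nat_lit 4) (nat_lit 4) (nat_lit 4) (nat_lit 305) (nat_lit 261) (nat_lit 154)) (XT.lf (nat_lit 0) (nat_lit 166921255014) (nat_lit 152) (nat_lit 17785846340) (nat_lit 0) (nat_lit 74958374141) (nat_lit 4) (nat_lit 5) (nat_lit 6) (nat_lit 4) (nat_lit 4) (nat_lit 4) (nat_lit 306) (nat_lit 261) (nat_lit 153))))) (XT.nd (nat_lit 234) (nat_lit 0) (nat_lit 0) (XT.nd (nat_lit 78) (nat_lit 0) (nat_lit 0) (XT.lf (nat_lit 0) (nat_lit 17019388083) (nat_lit 76) (nat_lit 176817704978) (nat_lit 76) (nat_lit 84853150627) (nat_lit 3) (nat_lit 4) (nat_lit 4) (nat_lit 5) (nat_lit 4) (nat_lit 4) (nat_lit 307) (nat_lit 261) (nat_lit 152)) (XT.nd (nat_lit 78) (nat_lit 0) (nat_lit 0) (XT.lf (nat_lit 0) (nat_lit 55619233916) (nat_lit 76) (nat_lit 167772511080) (nat_lit 76) (nat_lit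 75806407214) (nat_lit 3) (nat_lit 4) (nat_lit 4) (nat_lit 5) (nat_lit 4) (nat_lit 4) (nat_lit 308) (nat_lit 261) (nat_lit 151)) (XT.lf (nat_lit 0) (nat_lit 97305859834) (nat_lit 76) (nat_lit 158004215071) (nat_lit 76) (nat_lit 66036676467) (nat_lit 3) (nat_lit 4) (nat_lit 4) (nat_lit 5) (nat_lit 4) (nat_lit 4) (nat_lit 309) (nat_lit 261) (nat_lit 150)))) (XT.nd (nat_lit 78) (nat_lit 0) (nat_lit 0) (XT.lf (nat_lit 0) (nat_lit 142326297696) (nat_lit 76) (nat_lit 147454930751) (nat_lit 76) (nat_lit 55486063687) (nat_lit 3) (nat_lit 4) (nat_lit 4) (nat_lit 5) (nat_lit 4) (nat_lit 4) (nat_lit 310) (nat_lit 261) (nat_lit 149)) (XT.nd (nat_lit 78) (nat_lit 0) (nat_lit 0) (XT.lf (nat_lit 0) (nat_lit 190947335281) (nat_lit 76) (nat_lit 136062143843) (nat_lit 76) (nat_lit 44092046723) (nat_lit 3) (nat_lit 4) (nat_lit 4) (nat_lit 5) (nat_lit 4) (nat_lit 4) (nat_lit 311) (nat_lit 261) (nat_lit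 148)) (XT.lf (nat_lit 0) (nat_lit 243457097256) (nat_lit 76) (nat_lit 123758341536) (nat_lit 76) (nat_lit 31787105475) (nat_lit 3) (nat_lit 4) (nat_lit 4) (nat_lit 5) (nat_lit 4) (nat_lit 4) (nat_lit 312) (nat_lit 261) (nat_lit 147))))))) (XT.nd (nat_lit 858) (nat_lit 0) (nat_lit 0) (XT.nd (nat_lit 390) (nat_lit 76) (nat_lit 0) (XT.nd (nat_lit 156) (nat_lit 76) (nat_lit 0) (XT.nd (nat_lit 78) (nat_lit 0) (nat_lit 0) (XT.lf (nat_lit 0) (nat_lit 300166752582) (nat_lit 76) (nat_lit 110470612409) (nat_lit 76) (nat_lit 18498321773) (nat_lit 3) (nat_lit 4) (nat_lit 4) (nat_lit 5) (nat_lit 4) (nat_lit 4) (nat_lit 313) (nat_lit 261) (nat_lit 146)) (XT.lf (nat_lit 0) (nat_lit 361412358475) (nat_lit 76) (nat_lit 96120214363) (nat_lit 76) (nat_lit 4146947269) (nat_lit 3) (nat_lit 4) (nat_lit 4) (nat_lit 5) (nat_lit 4) (nat_lit 4) (nat_lit 314) (nat_lit 261) (nat_lit 145))) (XT.nd (nat_lit 78)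 (nat_lit 0) (nat_lit 0) (XT.lf (nat_lit 0) (nat_lit 10784187040) (nat_lit 152) (nat_lit 69543062177) (nat_lit 76) (nat_lit 416477806034) (nat_lit 2) (nat_lit 5) (nat_lit 4) (nat_lit 5) (nat_lit 3) (nat_lit 4) (nat_lit 315) (nat_lit 261) (nat_lit 144)) (XT.nd (nat_lit 78) (nat_lit 0) (nat_lit 0) (XT.lf (nat_lit 0) (nat_lit 26685352317) (nat_lit 152) (nat_lit 36469475557) (nat_lit 76) (nat_lit 471577222962) (nat_lit 2) (nat_lit 5) (nat_lit 4) (nat_lit 5) (nat_lit 3) (nat_lit 4) (nat_lit 316) (nat_lit 261) (nat_lit 143)) (XT.lf (nat_lit 0) (nat_lit 43858224785) (nat_lit 152) (nat_lit 750675966) (nat_lit 76) (nat_lit 531084337411) (nat_lit 2) (nat_lit 5) (nat_lit 4) (nat_lit 5) (nat_lit 3) (nat_lit 4) (nat_lit 317) (nat_lit 261) (nat_lit 142))))) (XT.nd (nat_lit 234) (nat_lit 0) (nat_lit 0) (XT.nd (nat_lit 78) (nat_lit 0) (nat_lit 0) (XT.lf (nat_lit 0) (nat_lit 39816801210) (nat_lit 76)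 (nat_lit 23545363432) (nat_lit 152) (nat_lit 556492577950) (nat_lit 1) (nat_lit 5) (nat_lit 2) (nat_lit 5) (nat_lit 3) (nat_lit 4) (nat_lit 318) (nat_lit 261) (nat_lit 141)) (XT.nd (nat_lit 78) (nat_lit 0) (nat_lit 0) (XT.lf (nat_lit 0) (nat_lit 83671759931) (nat_lit 76) (nat_lit 774838981) (nat_lit 152) (nat_lit 583100955166) (nat_lit 1) (nat_lit 5) (nat_lit 2) (nat_lit 5) (nat_lit 3) (nat_lit 4) (nat_lit 319) (nat_lit 261) (nat_lit 140)) (XT.lf (nat_lit 0) (nat_lit 107790269385) (nat_lit 152) (nat_lit 588594066328) (nat_lit 0) (nat_lit 22625657217) (nat_lit 1) (nat_lit 5) (nat_lit 3) (nat_lit 4) (nat_lit 1) (nat_lit 4) (nat_lit 320) (nat_lit 261) (nat_lit 139)))) (XT.nd (nat_lit 78) (nat_lit 0) (nat_lit 0) (XT.lf (nat_lit 0) (nat_lit 133021257483) (nat_lit 152) (nat_lit 593710466615) (nat_lit 0) (nat_lit 47856117765) (nat_lit 1) (nat_lit 5) (nat_lit 3) (nat_lit 4) (nat_lit 1) (nat_lit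 4) (nat_lit 321) (nat_lit 261) (nat_lit 138)) (XT.nd (nat_lit 78) (nat_lit 0) (nat_lit 0) (XT.lf (nat_lit 0) (nat_lit 160270445275) (nat_lit 152) (nat_lit 599236679522) (nat_lit 0) (nat_lit 75104817085) (nat_lit 1) (nat_lit 5) (nat_lit 3) (nat_lit 4) (nat_lit 1) (nat_lit 4) (nat_lit 322) (nat_lit 261) (nat_lit 137)) (XT.lf (nat_lit 0) (nat_lit 189699309432) (nat_lit 152) (nat_lit 605205452978) (nat_lit 0) (nat_lit 104533228953) (nat_lit 1) (nat_lit 5) (nat_lit 3) (nat_lit 4) (nat_lit 1) (nat_lit 4) (nat_lit 323) (nat_lit 261) (nat_lit 136)))))) (XT.nd (nat_lit 468) (nat_lit 0) (nat_lit 0) (XT.nd (nat_lit 234) (nat_lit 0) (nat_lit 0) (XT.nd (nat_lit 78) (nat_lit 0) (nat_lit 0) (XT.lf (nat_lit 0) (nat_lit 221482243221) (nat_lit 152) (nat_lit 611652157491) (nat_lit 0) (nat_lit 136315743956) (nat_lit 1) (nat_lit 5) (nat_lit 3) (nat_lit 4) (nat_lit 1) (nat_lit 4) (nat_lit 324) (nat_lit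 261) (nat_lit 135)) (XT.nd (nat_lit 78) (nat_lit 0) (nat_lit 0) (XT.lf (nat_lit 0) (nat_lit 255807589955) (nat_lit 152) (nat_lit 618614995756) (nat_lit 0) (nat_lit 170640702925) (nat_lit 1) (nat_lit 5) (nat_lit 3) (nat_lit 4) (nat_lit 1) (nat_lit 4) (nat_lit 325) (nat_lit 261) (nat_lit 134)) (XT.lf (nat_lit 0) (nat_lit 292878759095) (nat_lit 152) (nat_lit 626135229036) (nat_lit 0) (nat_lit 207711513023) (nat_lit 1) (nat_lit 5) (nat_lit 3) (nat_lit 4) (nat_lit 1) (nat_lit 4) (nat_lit 326) (nat_lit 261) (nat_lit 133)))) (XT.nd (nat_lit 78) (nat_lit 0) (nat_lit 0) (XT.lf (nat_lit 0) (nat_lit 332915431643) (nat_lit 152) (nat_lit 634257421676) (nat_lit 0) (nat_lit 247747853125) (nat_lit 1) (nat_lit 5) (nat_lit 3) (nat_lit 4) (nat_lit 1) (nat_lit 4) (nat_lit 327) (nat_lit 261) (nat_lit 132)) (XT.nd (nat_lit 78) (nat_lit 0) (nat_lit 0) (XT.lf (nat_lit 0) (nat_lit 376154861956) (nat_lit 152)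 (nat_lit 643029705188) (nat_lit 0) (nat_lit 290986975618) (nat_lit 1) (nat_lit 5) (nat_lit 3) (nat_lit 4) (nat_lit 1) (nat_lit 4) (nat_lit 328) (nat_lit 261) (nat_lit 131)) (XT.lf (nat_lit 0) (nat_lit 422853283694) (nat_lit 152) (nat_lit 652504063475) (nat_lit 0) (nat_lit 337685112337) (nat_lit 1) (nat_lit 5) (nat_lit 3) (nat_lit 4) (nat_lit 1) (nat_lit 4) (nat_lit 329) (nat_lit 261) (nat_lit 130))))) (XT.nd (nat_lit 32370) (nat_lit 0) (nat_lit 2052) (XT.nd (nat_lit 32214) (nat_lit 0) (nat_lit 1976) (XT.lf (nat_lit 0) (nat_lit 473287428246) (nat_lit 152) (nat_lit 662736640881) (nat_lit 0) (nat_lit 388118992983) (nat_lit 1) (nat_lit 5) (nat_lit 3) (nat_lit 4) (nat_lit 1) (nat_lit 4) (nat_lit 330) (nat_lit 261) (nat_lit 129)) (XT.nd (nat_lit 78) (nat_lit 0) (nat_lit 0) (XT.lf (nat_lit 0) (nat_lit 445289486) (nat_lit 532) (nat_lit 5402988746) (nat_lit 532) (nat_lit 5402988746) (nat_lit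 27) (nat_lit 3) (nat_lit 34) (nat_lit 3) (nat_lit 34) (nat_lit 5) (nat_lit 262) (nat_lit 262) (nat_lit 196)) (XT.lf (nat_lit 0) (nat_lit 1038926078) (nat_lit 532) (nat_lit 1911491632) (nat_lit 532) (nat_lit 20442297138) (nat_lit 27) (nat_lit 3) (nat_lit 34) (nat_lit 3) (nat_lit 34) (nat_lit 5) (nat_lit 263) (nat_lit 262) (nat_lit 195)))) (XT.nd (nat_lit 78) (nat_lit 0) (nat_lit 0) (XT.lf (nat_lit 0) (nat_lit 1543900802) (nat_lit 456) (nat_lit 16407649038) (nat_lit 532) (nat_lit 6375069880) (nat_lit 28) (nat_lit 5) (nat_lit 34) (nat_lit 5) (nat_lit 35) (nat_lit 5) (nat_lit 264) (nat_lit 262) (nat_lit 194)) (XT.nd (nat_lit 78) (nat_lit 0) (nat_lit 76) (XT.lf (nat_lit 0) (nat_lit 2209053339) (nat_lit 456) (nat_lit 6771490555) (nat_lit 532) (nat_lit 16345194311) (nat_lit 28) (nat_lit 5) (nat_lit 34) (nat_lit 5) (nat_lit 35) (nat_lit 5) (nat_lit 265) (nat_lit 262) (nat_lit 193)) (XT.lf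 (nat_lit 0) (nat_lit 3029087638) (nat_lit 456) (nat_lit 22597624286) (nat_lit 532) (nat_lit 770018095) (nat_lit 29) (nat_lit 5) (nat_lit 35) (nat_lit 5) (nat_lit 36) (nat_lit 5) (nat_lit 266) (nat_lit 262) (nat_lit 192))))))))
noncomputable def xc89 : XT := (XT.nd (nat_lit 1794) (nat_lit 380) (nat_lit 0) (XT.nd (nat_lit 858) (nat_lit 836) (nat_lit 0) (XT.nd (nat_lit 390) (nat_lit 380) (nat_lit 0) (XT.nd (nat_lit 156) (nat_lit 380) (nat_lit 0) (XT.nd (nat_lit 78) (nat_lit 0) (nat_lit 0) (XT.lf (nat_lit 0) (nat_lit 4328872923) (nat_lit 456) (nat_lit 12183415146) (nat_lit 532) (nat_lit 11008052933) (nat_lit 29) (nat_lit 5) (nat_lit 35) (nat_lit 5) (nat_lit 36) (nat_lit 5) (nat_lit 267) (nat_lit 262) (nat_lit 191)) (XT.lf (nat_lit 0) (nat_lit 5724246456) (nat_lit 456) (nat_lit 942741585) (nat_lit 532) (nat_lit 22067590761) (nat_lit 29) (nat_lit 5) (nat_lit 35) (nat_lit 5) (nat_lit 36)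 (nat_lit 5) (nat_lit 268) (nat_lit 262) (nat_lit 190))) (XT.nd (nat_lit 78) (nat_lit 456) (nat_lit 0) (XT.lf (nat_lit 0) (nat_lit 7609571854) (nat_lit 456) (nat_lit 18346445218) (nat_lit 76) (nat_lit 4059734250) (nat_lit 30) (nat_lit 5) (nat_lit 36) (nat_lit 5) (nat_lit 31) (nat_lit 5) (nat_lit 269) (nat_lit 262) (nat_lit 189)) (XT.nd (nat_lit 78) (nat_lit 456) (nat_lit 0) (XT.lf (nat_lit 0) (nat_lit 9838027477) (nat_lit 456) (nat_lit 6233959077) (nat_lit 76) (nat_lit 15312103659) (nat_lit 30) (nat_lit 5) (nat_lit 36) (nat_lit 5) (nat_lit 31) (nat_lit 5) (nat_lit 270) (nat_lit 262) (nat_lit 188)) (XT.lf (nat_lit 0) (nat_lit 7201576441) (nat_lit 456) (nat_lit 5209612615) (nat_lit 532) (nat_lit 20437445486) (nat_lit 24) (nat_lit 5) (nat_lit 30) (nat_lit 5) (nat_lit 31) (nat_lit 5) (nat_lit 271) (nat_lit 262) (nat_lit 187))))) (XT.nd (nat_lit 234) (nat_lit 152) (nat_lit 0) (XT.nd (nat_lit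 78) (nat_lit 228) (nat_lit 0) (XT.lf (nat_lit 0) (nat_lit 15515522811) (nat_lit 532) (nat_lit 12518111700) (nat_lit 76) (nat_lit 6370731153) (nat_lit 24) (nat_lit 5) (nat_lit 31) (nat_lit 5) (nat_lit 25) (nat_lit 5) (nat_lit 272) (nat_lit 262) (nat_lit 186)) (XT.nd (nat_lit 78) (nat_lit 0) (nat_lit 0) (XT.lf (nat_lit 0) (nat_lit 1599735906) (nat_lit 228) (nat_lit 17436326287) (nat_lit 304) (nat_lit 17035109541) (nat_lit 21) (nat_lit 5) (nat_lit 24) (nat_lit 5) (nat_lit 25) (nat_lit 5) (nat_lit 273) (nat_lit 262) (nat_lit 185)) (XT.lf (nat_lit 0) (nat_lit 17552957330) (nat_lit 228) (nat_lit 5621921012) (nat_lit 304) (nat_lit 14669555083) (nat_lit 21) (nat_lit 5) (nat_lit 24) (nat_lit 5) (nat_lit 25) (nat_lit 5) (nat_lit 274) (nat_lit 262) (nat_lit 184)))) (XT.nd (nat_lit 78) (nat_lit 152) (nat_lit 0) (XT.lf (nat_lit 0) (nat_lit 27811236201) (nat_lit 304) (nat_lit 5154756335) (nat_lit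 76) (nat_lit 6780287329) (nat_lit 21) (nat_lit 5) (nat_lit 25) (nat_lit 5) (nat_lit 22) (nat_lit 5) (nat_lit 275) (nat_lit 262) (nat_lit 183)) (XT.nd (nat_lit 78) (nat_lit 0) (nat_lit 0) (XT.lf (nat_lit 0) (nat_lit 11622760936) (nat_lit 152) (nat_lit 21616456393) (nat_lit 228) (nat_lit 8527435379) (nat_lit 19) (nat_lit 5) (nat_lit 21) (nat_lit 5) (nat_lit 22) (nat_lit 5) (nat_lit 276) (nat_lit 262) (nat_lit 182)) (XT.lf (nat_lit 0) (nat_lit 30030241525) (nat_lit 152) (nat_lit 9207527214) (nat_lit 228) (nat_lit 4700013300) (nat_lit 19) (nat_lit 5) (nat_lit 21) (nat_lit 5) (nat_lit 22) (nat_lit 5) (nat_lit 277) (nat_lit 262) (nat_lit 181)))))) (XT.nd (nat_lit 468) (nat_lit 456) (nat_lit 0) (XT.nd (nat_lit 234) (nat_lit 152) (nat_lit 0) (XT.nd (nat_lit 78) (nat_lit 76) (nat_lit 0) (XT.lf (nat_lit 0) (nat_lit 3706937559) (nat_lit 152) (nat_lit 42195002730) (nat_lit 228) (nat_lit 365833288)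 (nat_lit 17) (nat_lit 5) (nat_lit 19) (nat_lit 5) (nat_lit 20) (nat_lit 5) (nat_lit 278) (nat_lit 262) (nat_lit 180)) (XT.nd (nat_lit 78) (nat_lit 0) (nat_lit 0) (XT.lf (nat_lit 0) (nat_lit 4724287586) (nat_lit 228) (nat_lit 25590509209) (nat_lit 76) (nat_lit 18411086632) (nat_lit 16) (nat_lit 5) (nat_lit 19) (nat_lit 5) (nat_lit 17) (nat_lit 5) (nat_lit 279) (nat_lit 262) (nat_lit 179)) (XT.lf (nat_lit 0) (nat_lit 10197940800) (nat_lit 228) (nat_lit 7277116001) (nat_lit 76) (nat_lit 33905162523) (nat_lit 16) (nat_lit 5) (nat_lit 19) (nat_lit 5) (nat_lit 17) (nat_lit 5) (nat_lit 280) (nat_lit 262) (nat_lit 178)))) (XT.nd (nat_lit 78) (nat_lit 0) (nat_lit 0) (XT.lf (nat_lit 0) (nat_lit 13154717986) (nat_lit 152) (nat_lit 3267516575) (nat_lit 228) (nat_lit 37799670264) (nat_lit 14) (nat_lit 5) (nat_lit 16) (nat_lit 5) (nat_lit 17) (nat_lit 5) (nat_lit 281) (nat_lit 262) (nat_lit 177))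 (XT.nd (nat_lit 78) (nat_lit 0) (nat_lit 0) (XT.lf (nat_lit 0) (nat_lit 23635561421) (nat_lit 228) (nat_lit 21940500111) (nat_lit 76) (nat_lit 11675597392) (nat_lit 14) (nat_lit 5) (nat_lit 17) (nat_lit 5) (nat_lit 15) (nat_lit 5) (nat_lit 282) (nat_lit 262) (nat_lit 176)) (XT.lf (nat_lit 0) (nat_lit 31507592719) (nat_lit 228) (nat_lit 1373026793) (nat_lit 76) (nat_lit 27636662147) (nat_lit 14) (nat_lit 5) (nat_lit 17) (nat_lit 5) (nat_lit 15) (nat_lit 5) (nat_lit 283) (nat_lit 262) (nat_lit 175))))) (XT.nd (nat_lit 234) (nat_lit 228) (nat_lit 0) (XT.nd (nat_lit 78) (nat_lit 76) (nat_lit 0) (XT.lf (nat_lit 0) (nat_lit 21932869236) (nat_lit 152) (nat_lit 18601010475) (nat_lit 228) (nat_lit 23468332986) (nat_lit 12) (nat_lit 5) (nat_lit 14) (nat_lit 5) (nat_lit 15) (nat_lit 5) (nat_lit 284) (nat_lit 262) (nat_lit 174)) (XT.nd (nat_lit 78) (nat_lit 76) (nat_lit 0) (XT.lf (nat_lit 0) (nat_lit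 47177281063) (nat_lit 152) (nat_lit 3139661246) (nat_lit 228) (nat_lit 17446238707) (nat_lit 12) (nat_lit 5) (nat_lit 14) (nat_lit 5) (nat_lit 15) (nat_lit 5) (nat_lit 285) (nat_lit 262) (nat_lit 173)) (XT.lf (nat_lit 0) (nat_lit 2406577715) (nat_lit 76) (nat_lit 58857353023) (nat_lit 152) (nat_lit 10530608976) (nat_lit 11) (nat_lit 5) (nat_lit 12) (nat_lit 5) (nat_lit 13) (nat_lit 4) (nat_lit 286) (nat_lit 262) (nat_lit 172)))) (XT.nd (nat_lit 78) (nat_lit 228) (nat_lit 0) (XT.lf (nat_lit 0) (nat_lit 28319504377) (nat_lit 76) (nat_lit 45406938183) (nat_lit 152) (nat_lit 2370797642) (nat_lit 11) (nat_lit 5) (nat_lit 12) (nat_lit 5) (nat_lit 13) (nat_lit 4) (nat_lit 287) (nat_lit 262) (nat_lit 171)) (XT.nd (nat_lit 78) (nat_lit 152) (nat_lit 0) (XT.lf (nat_lit 0) (nat_lit 6117094306) (nat_lit 152) (nat_lit 24597317657) (nat_lit 76) (nat_lit 50017559696) (nat_lit 10) (nat_lit 5) (nat_lit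 12) (nat_lit 5) (nat_lit 11) (nat_lit 5) (nat_lit 288) (nat_lit 262) (nat_lit 170)) (XT.lf (nat_lit 0) (nat_lit 392144916) (nat_lit 152) (nat_lit 14770941880) (nat_lit 228) (nat_lit 70568907502) (nat_lit 8) (nat_lit 5) (nat_lit 10) (nat_lit 5) (nat_lit 11) (nat_lit 5) (nat_lit 289) (nat_lit 262) (nat_lit 169))))))) (XT.nd (nat_lit 858) (nat_lit 152) (nat_lit 0) (XT.nd (nat_lit 390) (nat_lit 152) (nat_lit 0) (XT.nd (nat_lit 156) (nat_lit 76) (nat_lit 0) (XT.nd (nat_lit 78) (nat_lit 0) (nat_lit 0) (XT.lf (nat_lit 0) (nat_lit 25679419388) (nat_lit 228) (nat_lit 62378420997) (nat_lit 76) (nat_lit 3014455973) (nat_lit 8) (nat_lit 5) (nat_lit 11) (nat_lit 5) (nat_lit 9) (nat_lit 4) (nat_lit 290) (nat_lit 262) (nat_lit 168)) (XT.lf (nat_lit 0) (nat_lit 37418667033) (nat_lit 228) (nat_lit 37966977793) (nat_lit 76) (nat_lit 21423658774) (nat_lit 8) (nat_lit 5) (nat_lit 11) (nat_lit 5) (nat_lit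 9) (nat_lit 4) (nat_lit 291) (nat_lit 262) (nat_lit 167))) (XT.nd (nat_lit 78) (nat_lit 76) (nat_lit 0) (XT.lf (nat_lit 0) (nat_lit 50095154135) (nat_lit 228) (nat_lit 11605617859) (nat_lit 76) (nat_lit 41304660428) (nat_lit 8) (nat_lit 5) (nat_lit 11) (nat_lit 5) (nat_lit 9) (nat_lit 4) (nat_lit 292) (nat_lit 262) (nat_lit 166)) (XT.nd (nat_lit 78) (nat_lit 0) (nat_lit 0) (XT.lf (nat_lit 0) (nat_lit 17749790687) (nat_lit 76) (nat_lit 46461092823) (nat_lit 152) (nat_lit 45452366486) (nat_lit 7) (nat_lit 5) (nat_lit 8) (nat_lit 5) (nat_lit 9) (nat_lit 4) (nat_lit 293) (nat_lit 262) (nat_lit 165)) (XT.lf (nat_lit 0) (nat_lit 50110947384) (nat_lit 76) (nat_lit 29660547676) (nat_lit 152) (nat_lit 37056955701) (nat_lit 7) (nat_lit 5) (nat_lit 8) (nat_lit 5) (nat_lit 9) (nat_lit 4) (nat_lit 294) (nat_lit 262) (nat_lit 164))))) (XT.nd (nat_lit 234) (nat_lit 76) (nat_lit 0) (XT.nd (nat_lit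 78) (nat_lit 76) (nat_lit 0) (XT.lf (nat_lit 0) (nat_lit 85058490778) (nat_lit 76) (nat_lit 11516895928) (nat_lit 152) (nat_lit 27991613513) (nat_lit 7) (nat_lit 5) (nat_lit 8) (nat_lit 5) (nat_lit 9) (nat_lit 4) (nat_lit 295) (nat_lit 262) (nat_lit 163)) (XT.nd (nat_lit 78) (nat_lit 76) (nat_lit 0) (XT.lf (nat_lit 0) (nat_lit 114916398257) (nat_lit 152) (nat_lit 10319500206) (nat_lit 0) (nat_lit 7673317079) (nat_lit 7) (nat_lit 5) (nat_lit 9) (nat_lit 4) (nat_lit 7) (nat_lit 4) (nat_lit 296) (nat_lit 262) (nat_lit 162)) (XT.lf (nat_lit 0) (nat_lit 22003974809) (nat_lit 76) (nat_lit 113547687863) (nat_lit 76) (nat_lit 6300993772) (nat_lit 6) (nat_lit 4) (nat_lit 7) (nat_lit 5) (nat_lit 7) (nat_lit 4) (nat_lit 297) (nat_lit 262) (nat_lit 161)))) (XT.nd (nat_lit 78) (nat_lit 0) (nat_lit 0) (XT.lf (nat_lit 0) (nat_lit 6297841381) (nat_lit 152) (nat_lit 94150529306) (nat_lit 76) (nat_lit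 51027985458) (nat_lit 5) (nat_lit 5) (nat_lit 7) (nat_lit 5) (nat_lit 6) (nat_lit 4) (nat_lit 298) (nat_lit 262) (nat_lit 160)) (XT.nd (nat_lit 78) (nat_lit 0) (nat_lit 0) (XT.lf (nat_lit 0) (nat_lit 19562911024) (nat_lit 152) (nat_lit 66562281939) (nat_lit 76) (nat_lit 75731771134) (nat_lit 5) (nat_lit 5) (nat_lit 7) (nat_lit 5) (nat_lit 6) (nat_lit 4) (nat_lit 299) (nat_lit 262) (nat_lit 159)) (XT.lf (nat_lit 0) (nat_lit 33888024203) (nat_lit 152) (nat_lit 36768914573) (nat_lit 76) (nat_lit 102411179360) (nat_lit 5) (nat_lit 5) (nat_lit 7) (nat_lit 5) (nat_lit 6) (nat_lit 4) (nat_lit 300) (nat_lit 262) (nat_lit 158)))))) (XT.nd (nat_lit 468) (nat_lit 76) (nat_lit 0) (XT.nd (nat_lit 234) (nat_lit 0) (nat_lit 0) (XT.nd (nat_lit 78) (nat_lit 76) (nat_lit 0) (XT.lf (nat_lit 0) (nat_lit 49358070478) (nat_lit 152) (nat_lit 4593873920) (nat_lit 76) (nat_lit 131224310334) (nat_lit 5) (nat_lit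 5) (nat_lit 7) (nat_lit 5) (nat_lit 6) (nat_lit 4) (nat_lit 301) (nat_lit 262) (nat_lit 157)) (XT.nd (nat_lit 78) (nat_lit 0) (nat_lit 0) (XT.lf (nat_lit 0) (nat_lit 31741337166) (nat_lit 76) (nat_lit 35086766953) (nat_lit 152) (nat_lit 131363951291) (nat_lit 4) (nat_lit 5) (nat_lit 5) (nat_lit 5) (nat_lit 6) (nat_lit 4) (nat_lit 302) (nat_lit 262) (nat_lit 156)) (XT.lf (nat_lit 0) (nat_lit 71243001865) (nat_lit 76) (nat_lit 14577381795) (nat_lit 152) (nat_lit 126418768589) (nat_lit 4) (nat_lit 5) (nat_lit 5) (nat_lit 5) (nat_lit 6) (nat_lit 4) (nat_lit 303) (nat_lit 262) (nat_lit 155)))) (XT.nd (nat_lit 78) (nat_lit 0) (nat_lit 0) (XT.lf (nat_lit 0) (nat_lit 106513265573) (nat_lit 152) (nat_lit 113688902732) (nat_lit 0) (nat_lit 7193354230) (nat_lit 4) (nat_lit 5) (nat_lit 6) (nat_lit 4) (nat_lit 4) (nat_lit 4) (nat_lit 304) (nat_lit 262) (nat_lit 154)) (XT.nd (nat_lit 78) (nat_lit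 0) (nat_lit 0) (XT.lf (nat_lit 0) (nat_lit 129239373449) (nat_lit 152) (nat_lit 84577153667) (nat_lit 0) (nat_lit 29917654751) (nat_lit 4) (nat_lit 5) (nat_lit 6) (nat_lit 4) (nat_lit 4) (nat_lit 4) (nat_lit 305) (nat_lit 262) (nat_lit 153)) (XT.lf (nat_lit 0) (nat_lit 153782794138) (nat_lit 152) (nat_lit 53137802739) (nat_lit 0) (nat_lit 54459401962) (nat_lit 4) (nat_lit 5) (nat_lit 6) (nat_lit 4) (nat_lit 4) (nat_lit 4) (nat_lit 306) (nat_lit 262) (nat_lit 152))))) (XT.nd (nat_lit 234) (nat_lit 0) (nat_lit 0) (XT.nd (nat_lit 78) (nat_lit 76) (nat_lit 0) (XT.lf (nat_lit 0) (nat_lit 180288970132) (nat_lit 152) (nat_lit 19184542683) (nat_lit 0) (nat_lit 80964028440) (nat_lit 4) (nat_lit 5) (nat_lit 6) (nat_lit 4) (nat_lit 4) (nat_lit 4) (nat_lit 307) (nat_lit 262) (nat_lit 151)) (XT.nd (nat_lit 78) (nat_lit 0) (nat_lit 0) (XT.lf (nat_lit 0) (nat_lit 18404498561) (nat_lit 76) (nat_lit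 190953105140) (nat_lit 76) (nat_lit 91626728711) (nat_lit 3) (nat_lit 4) (nat_lit 4) (nat_lit 5) (nat_lit 4) (nat_lit 4) (nat_lit 308) (nat_lit 262) (nat_lit 150)) (XT.lf (nat_lit 0) (nat_lit 60090586916) (nat_lit 76) (nat_lit 181185037674) (nat_lit 76) (nat_lit 81857332784) (nat_lit 3) (nat_lit 4) (nat_lit 4) (nat_lit 5) (nat_lit 4) (nat_lit 4) (nat_lit 309) (nat_lit 262) (nat_lit 149)))) (XT.nd (nat_lit 78) (nat_lit 0) (nat_lit 0) (XT.lf (nat_lit 0) (nat_lit 105110527035) (nat_lit 76) (nat_lit 170635964968) (nat_lit 76) (nat_lit 71307030023) (nat_lit 3) (nat_lit 4) (nat_lit 4) (nat_lit 5) (nat_lit 4) (nat_lit 4) (nat_lit 310) (nat_lit 262) (nat_lit 148)) (XT.nd (nat_lit 78) (nat_lit 0) (nat_lit 0) (XT.lf (nat_lit 0) (nat_lit 153731103747) (nat_lit 76) (nat_lit 159243374000) (nat_lit 76) (nat_lit 59913300114) (nat_lit 3) (nat_lit 4) (nat_lit 4) (nat_lit 5) (nat_lit 4) (nat_lit 4)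 (nat_lit 311) (nat_lit 262) (nat_lit 147)) (XT.lf (nat_lit 0) (nat_lit 206240438988) (nat_lit 76) (nat_lit 146939753118) (nat_lit 76) (nat_lit 47608624657) (nat_lit 3) (nat_lit 4) (nat_lit 4) (nat_lit 5) (nat_lit 4) (nat_lit 4) (nat_lit 312) (nat_lit 262) (nat_lit 146))))))))
noncomputable def xc90 : XT := (XT.nd (nat_lit 34008) (nat_lit 0) (nat_lit 532) (XT.nd (nat_lit 858) (nat_lit 0) (nat_lit 0) (XT.nd (nat_lit 390) (nat_lit 76) (nat_lit 0) (XT.nd (nat_lit 156) (nat_lit 76) (nat_lit 0) (XT.nd (nat_lit 78) (nat_lit 0) (nat_lit 0) (XT.lf (nat_lit 0) (nat_lit 262949699189) (nat_lit 76) (nat_lit 133652191977) (nat_lit 76) (nat_lit 34320087058) (nat_lit 3) (nat_lit 4) (nat_lit 4) (nat_lit 5) (nat_lit 4) (nat_lit 4) (nat_lit 313) (nat_lit 262) (nat_lit 145)) (XT.lf (nat_lit 0) (nat_lit 324194939226) (nat_lit 76) (nat_lit 119301949474) (nat_lit 76) (nat_lit 19968940427) (nat_lit 3) (nat_lit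 4) (nat_lit 4) (nat_lit 5) (nat_lit 4) (nat_lit 4) (nat_lit 314) (nat_lit 262) (nat_lit 144))) (XT.nd (nat_lit 78) (nat_lit 76) (nat_lit 0) (XT.lf (nat_lit 0) (nat_lit 390339093855) (nat_lit 76) (nat_lit 103803987134) (nat_lit 76) (nat_lit 4470140932) (nat_lit 3) (nat_lit 4) (nat_lit 4) (nat_lit 5) (nat_lit 4) (nat_lit 4) (nat_lit 315) (nat_lit 262) (nat_lit 143)) (XT.nd (nat_lit 78) (nat_lit 0) (nat_lit 0) (XT.lf (nat_lit 0) (nat_lit 11654453306) (nat_lit 152) (nat_lit 75093358469) (nat_lit 76) (nat_lit 449801021722) (nat_lit 2) (nat_lit 5) (nat_lit 4) (nat_lit 5) (nat_lit 3) (nat_lit 4) (nat_lit 316) (nat_lit 262) (nat_lit 142)) (XT.lf (nat_lit 0) (nat_lit 28827153930) (nat_lit 152) (nat_lit 39374858895) (nat_lit 76) (nat_lit 509308022285) (nat_lit 2) (nat_lit 5) (nat_lit 4) (nat_lit 5) (nat_lit 3) (nat_lit 4) (nat_lit 317) (nat_lit 262) (nat_lit 141))))) (XT.nd (nat_lit 234) (nat_lit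 0) (nat_lit 0) (XT.nd (nat_lit 78) (nat_lit 76) (nat_lit 0) (XT.lf (nat_lit 0) (nat_lit 47373339646) (nat_lit 152) (nat_lit 799457168) (nat_lit 76) (nat_lit 573575363559) (nat_lit 2) (nat_lit 5) (nat_lit 4) (nat_lit 5) (nat_lit 3) (nat_lit 4) (nat_lit 318) (nat_lit 262) (nat_lit 140)) (XT.nd (nat_lit 78) (nat_lit 0) (nat_lit 0) (XT.lf (nat_lit 0) (nat_lit 43013132794) (nat_lit 76) (nat_lit 25424247860) (nat_lit 152) (nat_lit 601005223129) (nat_lit 1) (nat_lit 5) (nat_lit 2) (nat_lit 5) (nat_lit 3) (nat_lit 4) (nat_lit 319) (nat_lit 262) (nat_lit 139)) (XT.lf (nat_lit 0) (nat_lit 90375674325) (nat_lit 76) (nat_lit 832432908) (nat_lit 152) (nat_lit 629742771341) (nat_lit 1) (nat_lit 5) (nat_lit 2) (nat_lit 5) (nat_lit 3) (nat_lit 4) (nat_lit 320) (nat_lit 262) (nat_lit 138)))) (XT.nd (nat_lit 78) (nat_lit 0) (nat_lit 0) (XT.lf (nat_lit 0) (nat_lit 116418940995) (nat_lit 152) (nat_lit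 635671825177) (nat_lit 0) (nat_lit 24439574078) (nat_lit 1) (nat_lit 5) (nat_lit 3) (nat_lit 4) (nat_lit 1) (nat_lit 4) (nat_lit 321) (nat_lit 262) (nat_lit 137)) (XT.nd (nat_lit 78) (nat_lit 0) (nat_lit 0) (XT.lf (nat_lit 0) (nat_lit 143668004432) (nat_lit 152) (nat_lit 641198260929) (nat_lit 0) (nat_lit 51688185226) (nat_lit 1) (nat_lit 5) (nat_lit 3) (nat_lit 4) (nat_lit 1) (nat_lit 4) (nat_lit 322) (nat_lit 262) (nat_lit 136)) (XT.lf (nat_lit 0) (nat_lit 173096753445) (nat_lit 152) (nat_lit 647167240722) (nat_lit 0) (nat_lit 81116515452) (nat_lit 1) (nat_lit 5) (nat_lit 3) (nat_lit 4) (nat_lit 1) (nat_lit 4) (nat_lit 323) (nat_lit 262) (nat_lit 135)))))) (XT.nd (nat_lit 468) (nat_lit 0) (nat_lit 0) (XT.nd (nat_lit 234) (nat_lit 0) (nat_lit 0) (XT.nd (nat_lit 78) (nat_lit 0) (nat_lit 0) (XT.lf (nat_lit 0) (nat_lit 204879580619) (nat_lit 152) (nat_lit 653614136288) (nat_lit 0) (nat_lit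 112898954862) (nat_lit 1) (nat_lit 5) (nat_lit 3) (nat_lit 4) (nat_lit 1) (nat_lit 4) (nat_lit 324) (nat_lit 262) (nat_lit 134)) (XT.nd (nat_lit 78) (nat_lit 0) (nat_lit 0) (XT.lf (nat_lit 0) (nat_lit 239204828635) (nat_lit 152) (nat_lit 660577151454) (nat_lit 0) (nat_lit 147223843836) (nat_lit 1) (nat_lit 5) (nat_lit 3) (nat_lit 4) (nat_lit 1) (nat_lit 4) (nat_lit 325) (nat_lit 262) (nat_lit 133)) (XT.lf (nat_lit 0) (nat_lit 276275906370) (nat_lit 152) (nat_lit 668097548530) (nat_lit 0) (nat_lit 184294589125) (nat_lit 1) (nat_lit 5) (nat_lit 3) (nat_lit 4) (nat_lit 1) (nat_lit 4) (nat_lit 326) (nat_lit 262) (nat_lit 132)))) (XT.nd (nat_lit 78) (nat_lit 0) (nat_lit 0) (XT.lf (nat_lit 0) (nat_lit 316312494284) (nat_lit 152) (nat_lit 676219892834) (nat_lit 0) (nat_lit 224330869219) (nat_lit 1) (nat_lit 5) (nat_lit 3) (nat_lit 4) (nat_lit 1) (nat_lit 4) (nat_lit 327) (nat_lit 262) (nat_lit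 131)) (XT.nd (nat_lit 78) (nat_lit 0) (nat_lit 0) (XT.lf (nat_lit 0) (nat_lit 359551846232) (nat_lit 152) (nat_lit 684992316776) (nat_lit 0) (nat_lit 267569936147) (nat_lit 1) (nat_lit 5) (nat_lit 3) (nat_lit 4) (nat_lit 1) (nat_lit 4) (nat_lit 328) (nat_lit 262) (nat_lit 130)) (XT.lf (nat_lit 0) (nat_lit 406250195410) (nat_lit 152) (nat_lit 694466805090) (nat_lit 0) (nat_lit 314268021419) (nat_lit 1) (nat_lit 5) (nat_lit 3) (nat_lit 4) (nat_lit 1) (nat_lit 4) (nat_lit 329) (nat_lit 262) (nat_lit 129))))) (XT.nd (nat_lit 32448) (nat_lit 0) (nat_lit 2052) (XT.nd (nat_lit 32292) (nat_lit 0) (nat_lit 1976) (XT.lf (nat_lit 0) (nat_lit 456684272776) (nat_lit 152) (nat_lit 704699502893) (nat_lit 0) (nat_lit 364701854428) (nat_lit 1) (nat_lit 5) (nat_lit 3) (nat_lit 4) (nat_lit 1) (nat_lit 4) (nat_lit 330) (nat_lit 262) (nat_lit 128)) (XT.nd (nat_lit 78) (nat_lit 0) (nat_lit 0) (XT.lf (nat_lit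 0) (nat_lit 590925578) (nat_lit 532) (nat_lit 5775380439) (nat_lit 532) (nat_lit 5775380439) (nat_lit 27) (nat_lit 3) (nat_lit 34) (nat_lit 3) (nat_lit 34) (nat_lit 5) (nat_lit 263) (nat_lit 263) (nat_lit 194)) (XT.lf (nat_lit 0) (nat_lit 1325767819) (nat_lit 532) (nat_lit 1953582430) (nat_lit 532) (nat_lit 21966852378) (nat_lit 27) (nat_lit 3) (nat_lit 34) (nat_lit 3) (nat_lit 34) (nat_lit 5) (nat_lit 264) (nat_lit 263) (nat_lit 193)))) (XT.nd (nat_lit 78) (nat_lit 0) (nat_lit 0) (XT.lf (nat_lit 0) (nat_lit 1856646284) (nat_lit 456) (nat_lit 17593427825) (nat_lit 532) (nat_lit 6806026148) (nat_lit 28) (nat_lit 5) (nat_lit 34) (nat_lit 5) (nat_lit 35) (nat_lit 5) (nat_lit 265) (nat_lit 263) (nat_lit 192)) (XT.nd (nat_lit 78) (nat_lit 0) (nat_lit 76) (XT.lf (nat_lit 0) (nat_lit 2560993733) (nat_lit 456) (nat_lit 7195771710) (nat_lit 532) (nat_lit 17579616038) (nat_lit 28) (nat_lit 5)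 (nat_lit 34) (nat_lit 5) (nat_lit 35) (nat_lit 5) (nat_lit 266) (nat_lit 263) (nat_lit 191)) (XT.lf (nat_lit 0) (nat_lit 3435189560) (nat_lit 456) (nat_lit 24275260026) (nat_lit 532) (nat_lit 783621944) (nat_lit 29) (nat_lit 5) (nat_lit 35) (nat_lit 5) (nat_lit 36) (nat_lit 5) (nat_lit 267) (nat_lit 263) (nat_lit 190))))))) (XT.nd (nat_lit 858) (nat_lit 836) (nat_lit 0) (XT.nd (nat_lit 390) (nat_lit 380) (nat_lit 0) (XT.nd (nat_lit 156) (nat_lit 380) (nat_lit 0) (XT.nd (nat_lit 78) (nat_lit 0) (nat_lit 0) (XT.lf (nat_lit 0) (nat_lit 4826826193) (nat_lit 456) (nat_lit 13037556689) (nat_lit 532) (nat_lit 11844254947) (nat_lit 29) (nat_lit 5) (nat_lit 35) (nat_lit 5) (nat_lit 36) (nat_lit 5) (nat_lit 268) (nat_lit 263) (nat_lit 189)) (XT.lf (nat_lit 0) (nat_lit 6322596762) (nat_lit 456) (nat_lit 906557514) (nat_lit 532) (nat_lit 23791847817) (nat_lit 29) (nat_lit 5) (nat_lit 35) (nat_lit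 5) (nat_lit 36) (nat_lit 5) (nat_lit 269) (nat_lit 263) (nat_lit 188))) (XT.nd (nat_lit 78) (nat_lit 456) (nat_lit 0) (XT.lf (nat_lit 0) (nat_lit 8350389977) (nat_lit 456) (nat_lit 19693171293) (nat_lit 76) (nat_lit 4361858037) (nat_lit 30) (nat_lit 5) (nat_lit 36) (nat_lit 5) (nat_lit 31) (nat_lit 5) (nat_lit 270) (nat_lit 263) (nat_lit 187)) (XT.nd (nat_lit 78) (nat_lit 456) (nat_lit 0) (XT.lf (nat_lit 0) (nat_lit 10747340393) (nat_lit 456) (nat_lit 6620648449) (nat_lit 76) (nat_lit 16516095143) (nat_lit 30) (nat_lit 5) (nat_lit 36) (nat_lit 5) (nat_lit 31) (nat_lit 5) (nat_lit 271) (nat_lit 263) (nat_lit 186)) (XT.lf (nat_lit 0) (nat_lit 7886893775) (nat_lit 456) (nat_lit 5633030085) (nat_lit 532) (nat_lit 21946452987) (nat_lit 24) (nat_lit 5) (nat_lit 30) (nat_lit 5) (nat_lit 31) (nat_lit 5) (nat_lit 272) (nat_lit 263) (nat_lit 185))))) (XT.nd (nat_lit 234) (nat_lit 152) (nat_lit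 0) (XT.nd (nat_lit 78) (nat_lit 228) (nat_lit 0) (XT.lf (nat_lit 0) (nat_lit 16863875546) (nat_lit 532) (nat_lit 13408912882) (nat_lit 76) (nat_lit 6874541611) (nat_lit 24) (nat_lit 5) (nat_lit 31) (nat_lit 5) (nat_lit 25) (nat_lit 5) (nat_lit 273) (nat_lit 263) (nat_lit 184)) (XT.nd (nat_lit 78) (nat_lit 0) (nat_lit 0) (XT.lf (nat_lit 0) (nat_lit 1835561323) (nat_lit 228) (nat_lit 18825156326) (nat_lit 304) (nat_lit 18287250625) (nat_lit 21) (nat_lit 5) (nat_lit 24) (nat_lit 5) (nat_lit 25) (nat_lit 5) (nat_lit 274) (nat_lit 263) (nat_lit 183)) (XT.lf (nat_lit 0) (nat_lit 19057051828) (nat_lit 228) (nat_lit 6066048708) (nat_lit 304) (nat_lit 15740649416) (nat_lit 21) (nat_lit 5) (nat_lit 24) (nat_lit 5) (nat_lit 25) (nat_lit 5) (nat_lit 275) (nat_lit 263) (nat_lit 182)))) (XT.nd (nat_lit 78) (nat_lit 152) (nat_lit 0) (XT.lf (nat_lit 0) (nat_lit 30123512163) (nat_lit 304) (nat_lit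 5467173181) (nat_lit 76) (nat_lit 7327658974) (nat_lit 21) (nat_lit 5) (nat_lit 25) (nat_lit 5) (nat_lit 22) (nat_lit 5) (nat_lit 276) (nat_lit 263) (nat_lit 181)) (XT.nd (nat_lit 78) (nat_lit 0) (nat_lit 0) (XT.lf (nat_lit 0) (nat_lit 12650014747) (nat_lit 152) (nat_lit 23331587925) (nat_lit 228) (nat_lit 9119122629) (nat_lit 19) (nat_lit 5) (nat_lit 21) (nat_lit 5) (nat_lit 22) (nat_lit 5) (nat_lit 277) (nat_lit 263) (nat_lit 180)) (XT.lf (nat_lit 0) (nat_lit 32522876528) (nat_lit 152) (nat_lit 9930995151) (nat_lit 228) (nat_lit 4992211049) (nat_lit 19) (nat_lit 5) (nat_lit 21) (nat_lit 5) (nat_lit 22) (nat_lit 5) (nat_lit 278) (nat_lit 263) (nat_lit 179)))))) (XT.nd (nat_lit 468) (nat_lit 456) (nat_lit 0) (XT.nd (nat_lit 234) (nat_lit 152) (nat_lit 0) (XT.nd (nat_lit 78) (nat_lit 76) (nat_lit 0) (XT.lf (nat_lit 0) (nat_lit 4097668121) (nat_lit 152) (nat_lit 45550356499) (nat_lit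 228) (nat_lit 314742292) (nat_lit 17) (nat_lit 5) (nat_lit 19) (nat_lit 5) (nat_lit 20) (nat_lit 5) (nat_lit 279) (nat_lit 263) (nat_lit 178)) (XT.nd (nat_lit 78) (nat_lit 0) (nat_lit 0) (XT.lf (nat_lit 0) (nat_lit 5172913781) (nat_lit 228) (nat_lit 27546387441) (nat_lit 76) (nat_lit 19898557362) (nat_lit 16) (nat_lit 5) (nat_lit 19) (nat_lit 5) (nat_lit 17) (nat_lit 5) (nat_lit 280) (nat_lit 263) (nat_lit 177)) (XT.lf (nat_lit 0) (nat_lit 11079223460) (nat_lit 228) (nat_lit 7774690369) (nat_lit 76) (nat_lit 36631079042) (nat_lit 16) (nat_lit 5) (nat_lit 19) (nat_lit 5) (nat_lit 17) (nat_lit 5) (nat_lit 281) (nat_lit 263) (nat_lit 176)))) (XT.nd (nat_lit 78) (nat_lit 0) (nat_lit 0) (XT.lf (nat_lit 0) (nat_lit 14289548693) (nat_lit 152) (nat_lit 3509047078) (nat_lit 228) (nat_lit 40755676877) (nat_lit 14) (nat_lit 5) (nat_lit 16) (nat_lit 5) (nat_lit 17) (nat_lit 5) (nat_lit 282) (nat_lit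 263) (nat_lit 175)) (XT.nd (nat_lit 78) (nat_lit 0) (nat_lit 0) (XT.lf (nat_lit 0) (nat_lit 25584795536) (nat_lit 228) (nat_lit 23614851289) (nat_lit 76) (nat_lit 12627123706) (nat_lit 14) (nat_lit 5) (nat_lit 17) (nat_lit 5) (nat_lit 15) (nat_lit 5) (nat_lit 283) (nat_lit 263) (nat_lit 174)) (XT.lf (nat_lit 0) (nat_lit 34082264212) (nat_lit 228) (nat_lit 1407971871) (nat_lit 76) (nat_lit 29863778936) (nat_lit 14) (nat_lit 5) (nat_lit 17) (nat_lit 5) (nat_lit 15) (nat_lit 5) (nat_lit 284) (nat_lit 263) (nat_lit 173))))) (XT.nd (nat_lit 234) (nat_lit 228) (nat_lit 0) (XT.nd (nat_lit 78) (nat_lit 76) (nat_lit 0) (XT.lf (nat_lit 0) (nat_lit 23760499713) (nat_lit 152) (nat_lit 20067905379) (nat_lit 228) (nat_lit 25289539378) (nat_lit 12) (nat_lit 5) (nat_lit 14) (nat_lit 5) (nat_lit 15) (nat_lit 5) (nat_lit 285) (nat_lit 263) (nat_lit 172)) (XT.nd (nat_lit 78) (nat_lit 76) (nat_lit 0)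 (XT.lf (nat_lit 0) (nat_lit 51019057009) (nat_lit 152) (nat_lit 3371217540) (nat_lit 228) (nat_lit 18789844982) (nat_lit 12) (nat_lit 5) (nat_lit 14) (nat_lit 5) (nat_lit 15) (nat_lit 5) (nat_lit 286) (nat_lit 263) (nat_lit 171)) (XT.lf (nat_lit 0) (nat_lit 2668538095) (nat_lit 76) (nat_lit 63543036843) (nat_lit 152) (nat_lit 11322548335) (nat_lit 11) (nat_lit 5) (nat_lit 12) (nat_lit 5) (nat_lit 13) (nat_lit 4) (nat_lit 287) (nat_lit 263) (nat_lit 170)))) (XT.nd (nat_lit 78) (nat_lit 228) (nat_lit 0) (XT.lf (nat_lit 0) (nat_lit 30649355619) (nat_lit 76) (nat_lit 49018285439) (nat_lit 152) (nat_lit 2513693528) (nat_lit 11) (nat_lit 5) (nat_lit 12) (nat_lit 5) (nat_lit 13) (nat_lit 4) (nat_lit 288) (nat_lit 263) (nat_lit 169)) (XT.nd (nat_lit 78) (nat_lit 152) (nat_lit 0) (XT.lf (nat_lit 0) (nat_lit 6647599261) (nat_lit 152) (nat_lit 26503204039) (nat_lit 76) (nat_lit 54036230895) (nat_lit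 10) (nat_lit 5) (nat_lit 12) (nat_lit 5) (nat_lit 11) (nat_lit 5) (nat_lit 289) (nat_lit 263) (nat_lit 168)) (XT.lf (nat_lit 0) (nat_lit 483848476) (nat_lit 152) (nat_lit 15931826444) (nat_lit 228) (nat_lit 76171526549) (nat_lit 8) (nat_lit 5) (nat_lit 10) (nat_lit 5) (nat_lit 11) (nat_lit 5) (nat_lit 290) (nat_lit 263) (nat_lit 167))))))))
noncomputable def xc91 : XT := (XT.nd (nat_lit 1794) (nat_lit 152) (nat_lit 0) (XT.nd (nat_lit 858) (nat_lit 152) (nat_lit 0) (XT.nd (nat_lit 390) (nat_lit 152) (nat_lit 0) (XT.nd (nat_lit 156) (nat_lit 76) (nat_lit 0) (XT.nd (nat_lit 78) (nat_lit 0) (nat_lit 0) (XT.lf (nat_lit 0) (nat_lit 27770848124) (nat_lit 228) (nat_lit 67310190676) (nat_lit 76) (nat_lit 3273900180) (nat_lit 8) (nat_lit 5) (nat_lit 11) (nat_lit 5) (nat_lit 9) (nat_lit 4) (nat_lit 291) (nat_lit 263) (nat_lit 166)) (XT.lf (nat_lit 0) (nat_lit 40446489270) (nat_lit 228) (nat_lit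 40950165646) (nat_lit 76) (nat_lit 23154484558) (nat_lit 8) (nat_lit 5) (nat_lit 11) (nat_lit 5) (nat_lit 9) (nat_lit 4) (nat_lit 292) (nat_lit 263) (nat_lit 165))) (XT.nd (nat_lit 78) (nat_lit 76) (nat_lit 0) (XT.lf (nat_lit 0) (nat_lit 54134552461) (nat_lit 228) (nat_lit 12483909537) (nat_lit 76) (nat_lit 44624712042) (nat_lit 8) (nat_lit 5) (nat_lit 11) (nat_lit 5) (nat_lit 9) (nat_lit 4) (nat_lit 293) (nat_lit 263) (nat_lit 164)) (XT.nd (nat_lit 78) (nat_lit 0) (nat_lit 0) (XT.lf (nat_lit 0) (nat_lit 19218661876) (nat_lit 76) (nat_lit 50159699547) (nat_lit 152) (nat_lit 49055361015) (nat_lit 7) (nat_lit 5) (nat_lit 8) (nat_lit 5) (nat_lit 9) (nat_lit 4) (nat_lit 294) (nat_lit 263) (nat_lit 163)) (XT.lf (nat_lit 0) (nat_lit 54165089780) (nat_lit 76) (nat_lit 32016464915) (nat_lit 152) (nat_lit 39990776241) (nat_lit 7) (nat_lit 5) (nat_lit 8) (nat_lit 5) (nat_lit 9) (nat_lit 4) (nat_lit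 295) (nat_lit 263) (nat_lit 162))))) (XT.nd (nat_lit 234) (nat_lit 76) (nat_lit 0) (XT.nd (nat_lit 78) (nat_lit 76) (nat_lit 0) (XT.lf (nat_lit 0) (nat_lit 91905083564) (nat_lit 76) (nat_lit 12422574847) (nat_lit 152) (nat_lit 30202483412) (nat_lit 7) (nat_lit 5) (nat_lit 8) (nat_lit 5) (nat_lit 9) (nat_lit 4) (nat_lit 296) (nat_lit 263) (nat_lit 161)) (XT.nd (nat_lit 78) (nat_lit 76) (nat_lit 0) (XT.lf (nat_lit 0) (nat_lit 124134356136) (nat_lit 152) (nat_lit 11104546327) (nat_lit 0) (nat_lit 8300968316) (nat_lit 7) (nat_lit 5) (nat_lit 9) (nat_lit 4) (nat_lit 7) (nat_lit 4) (nat_lit 297) (nat_lit 263) (nat_lit 160)) (XT.lf (nat_lit 0) (nat_lit 23803781020) (nat_lit 76) (nat_lit 122615784745) (nat_lit 76) (nat_lit 6779299435) (nat_lit 6) (nat_lit 4) (nat_lit 7) (nat_lit 5) (nat_lit 7) (nat_lit 4) (nat_lit 298) (nat_lit 263) (nat_lit 159)))) (XT.nd (nat_lit 78) (nat_lit 0) (nat_lit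 0) (XT.lf (nat_lit 0) (nat_lit 6824339550) (nat_lit 152) (nat_lit 101644727091) (nat_lit 76) (nat_lit 55123496748) (nat_lit 5) (nat_lit 5) (nat_lit 7) (nat_lit 5) (nat_lit 6) (nat_lit 4) (nat_lit 299) (nat_lit 263) (nat_lit 158)) (XT.nd (nat_lit 78) (nat_lit 0) (nat_lit 0) (XT.lf (nat_lit 0) (nat_lit 21148935441) (nat_lit 152) (nat_lit 71852223235) (nat_lit 76) (nat_lit 81802602133) (nat_lit 5) (nat_lit 5) (nat_lit 7) (nat_lit 5) (nat_lit 6) (nat_lit 4) (nat_lit 300) (nat_lit 263) (nat_lit 157)) (XT.lf (nat_lit 0) (nat_lit 36618502746) (nat_lit 152) (nat_lit 39677982128) (nat_lit 76) (nat_lit 110615452698) (nat_lit 5) (nat_lit 5) (nat_lit 7) (nat_lit 5) (nat_lit 6) (nat_lit 4) (nat_lit 301) (nat_lit 263) (nat_lit 156)))))) (XT.nd (nat_lit 468) (nat_lit 76) (nat_lit 0) (XT.nd (nat_lit 234) (nat_lit 0) (nat_lit 0) (XT.nd (nat_lit 78) (nat_lit 76) (nat_lit 0) (XT.lf (nat_lit 0) (nat_lit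 53324712975) (nat_lit 152) (nat_lit 4931341601) (nat_lit 76) (nat_lit 141732791262) (nat_lit 5) (nat_lit 5) (nat_lit 7) (nat_lit 5) (nat_lit 6) (nat_lit 4) (nat_lit 302) (nat_lit 263) (nat_lit 155)) (XT.nd (nat_lit 78) (nat_lit 0) (nat_lit 0) (XT.lf (nat_lit 0) (nat_lit 34309925808) (nat_lit 76) (nat_lit 37881794623) (nat_lit 152) (nat_lit 141854245599) (nat_lit 4) (nat_lit 5) (nat_lit 5) (nat_lit 5) (nat_lit 6) (nat_lit 4) (nat_lit 303) (nat_lit 263) (nat_lit 154)) (XT.lf (nat_lit 0) (nat_lit 76969554671) (nat_lit 76) (nat_lit 15732541148) (nat_lit 152) (nat_lit 136514842488) (nat_lit 4) (nat_lit 5) (nat_lit 5) (nat_lit 5) (nat_lit 6) (nat_lit 4) (nat_lit 304) (nat_lit 263) (nat_lit 153)))) (XT.nd (nat_lit 78) (nat_lit 0) (nat_lit 0) (XT.lf (nat_lit 0) (nat_lit 115049462713) (nat_lit 152) (nat_lit 122757909878) (nat_lit 0) (nat_lit 7778525686) (nat_lit 4) (nat_lit 5) (nat_lit 6) (nat_lit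 4) (nat_lit 4) (nat_lit 4) (nat_lit 305) (nat_lit 263) (nat_lit 152)) (XT.nd (nat_lit 78) (nat_lit 0) (nat_lit 0) (XT.lf (nat_lit 0) (nat_lit 139592538042) (nat_lit 152) (nat_lit 91319154597) (nat_lit 0) (nat_lit 32320051498) (nat_lit 4) (nat_lit 5) (nat_lit 6) (nat_lit 4) (nat_lit 4) (nat_lit 4) (nat_lit 306) (nat_lit 263) (nat_lit 151)) (XT.lf (nat_lit 0) (nat_lit 166098394258) (nat_lit 152) (nat_lit 57366446066) (nat_lit 0) (nat_lit 58824472977) (nat_lit 4) (nat_lit 5) (nat_lit 6) (nat_lit 4) (nat_lit 4) (nat_lit 4) (nat_lit 307) (nat_lit 263) (nat_lit 150))))) (XT.nd (nat_lit 234) (nat_lit 0) (nat_lit 0) (XT.nd (nat_lit 78) (nat_lit 76) (nat_lit 0) (XT.lf (nat_lit 0) (nat_lit 194724103104) (nat_lit 152) (nat_lit 20698583049) (nat_lit 0) (nat_lit 87448853362) (nat_lit 4) (nat_lit 5) (nat_lit 6) (nat_lit 4) (nat_lit 4) (nat_lit 4) (nat_lit 308) (nat_lit 263) (nat_lit 149)) (XT.nd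 (nat_lit 78) (nat_lit 0) (nat_lit 0) (XT.lf (nat_lit 0) (nat_lit 19897056860) (nat_lit 76) (nat_lit 206220766244) (nat_lit 76) (nat_lit 98944286446) (nat_lit 3) (nat_lit 4) (nat_lit 4) (nat_lit 5) (nat_lit 4) (nat_lit 4) (nat_lit 309) (nat_lit 263) (nat_lit 148)) (XT.lf (nat_lit 0) (nat_lit 64916536105) (nat_lit 76) (nat_lit 195671889477) (nat_lit 76) (nat_lit 88394270739) (nat_lit 3) (nat_lit 4) (nat_lit 4) (nat_lit 5) (nat_lit 4) (nat_lit 4) (nat_lit 310) (nat_lit 263) (nat_lit 147)))) (XT.nd (nat_lit 78) (nat_lit 0) (nat_lit 0) (XT.lf (nat_lit 0) (nat_lit 113536686083) (nat_lit 76) (nat_lit 184279479934) (nat_lit 76) (nat_lit 77000806621) (nat_lit 3) (nat_lit 4) (nat_lit 4) (nat_lit 5) (nat_lit 4) (nat_lit 4) (nat_lit 311) (nat_lit 263) (nat_lit 146)) (XT.nd (nat_lit 78) (nat_lit 0) (nat_lit 0) (XT.lf (nat_lit 0) (nat_lit 166045626199) (nat_lit 76) (nat_lit 171976027038) (nat_lit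 76) (nat_lit 64696377267) (nat_lit 3) (nat_lit 4) (nat_lit 4) (nat_lit 5) (nat_lit 4) (nat_lit 4) (nat_lit 312) (nat_lit 263) (nat_lit 145)) (XT.lf (nat_lit 0) (nat_lit 222754520544) (nat_lit 76) (nat_lit 158688621440) (nat_lit 76) (nat_lit 51408067541) (nat_lit 3) (nat_lit 4) (nat_lit 4) (nat_lit 5) (nat_lit 4) (nat_lit 4) (nat_lit 313) (nat_lit 263) (nat_lit 144))))))) (XT.nd (nat_lit 858) (nat_lit 0) (nat_lit 0) (XT.nd (nat_lit 390) (nat_lit 76) (nat_lit 0) (XT.nd (nat_lit 156) (nat_lit 76) (nat_lit 0) (XT.nd (nat_lit 78) (nat_lit 0) (nat_lit 0) (XT.lf (nat_lit 0) (nat_lit 283999421826) (nat_lit 76) (nat_lit 144338522958) (nat_lit 76) (nat_lit 37057131904) (nat_lit 3) (nat_lit 4) (nat_lit 4) (nat_lit 5) (nat_lit 4) (nat_lit 4) (nat_lit 314) (nat_lit 263) (nat_lit 143)) (XT.lf (nat_lit 0) (nat_lit 350143262792) (nat_lit 76) (nat_lit 128840693971) (nat_lit 76) (nat_lit 21558527773)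 (nat_lit 3) (nat_lit 4) (nat_lit 4) (nat_lit 5) (nat_lit 4) (nat_lit 4) (nat_lit 315) (nat_lit 263) (nat_lit 142))) (XT.nd (nat_lit 78) (nat_lit 76) (nat_lit 0) (XT.lf (nat_lit 0) (nat_lit 421578006944) (nat_lit 76) (nat_lit 112103295494) (nat_lit 76) (nat_lit 4820411570) (nat_lit 3) (nat_lit 4) (nat_lit 4) (nat_lit 5) (nat_lit 4) (nat_lit 4) (nat_lit 316) (nat_lit 263) (nat_lit 141)) (XT.nd (nat_lit 78) (nat_lit 0) (nat_lit 0) (XT.lf (nat_lit 0) (nat_lit 12593266448) (nat_lit 152) (nat_lit 81089554270) (nat_lit 76) (nat_lit 485789382614) (nat_lit 2) (nat_lit 5) (nat_lit 4) (nat_lit 5) (nat_lit 3) (nat_lit 4) (nat_lit 317) (nat_lit 263) (nat_lit 140)) (XT.lf (nat_lit 0) (nat_lit 31139304836) (nat_lit 152) (nat_lit 42514409759) (nat_lit 76) (nat_lit 550056626248) (nat_lit 2) (nat_lit 5) (nat_lit 4) (nat_lit 5) (nat_lit 3) (nat_lit 4) (nat_lit 318) (nat_lit 263) (nat_lit 139))))) (XT.nd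 (nat_lit 234) (nat_lit 0) (nat_lit 0) (XT.nd (nat_lit 78) (nat_lit 76) (nat_lit 0) (XT.lf (nat_lit 0) (nat_lit 51168742550) (nat_lit 152) (nat_lit 853749067) (nat_lit 76) (nat_lit 619465061328) (nat_lit 2) (nat_lit 5) (nat_lit 4) (nat_lit 5) (nat_lit 3) (nat_lit 4) (nat_lit 319) (nat_lit 263) (nat_lit 138)) (XT.nd (nat_lit 78) (nat_lit 0) (nat_lit 0) (XT.lf (nat_lit 0) (nat_lit 46463603416) (nat_lit 76) (nat_lit 27454119919) (nat_lit 152) (nat_lit 649079844462) (nat_lit 1) (nat_lit 5) (nat_lit 2) (nat_lit 5) (nat_lit 3) (nat_lit 4) (nat_lit 320) (nat_lit 263) (nat_lit 137)) (XT.lf (nat_lit 0) (nat_lit 97614450492) (nat_lit 76) (nat_lit 895261088) (nat_lit 152) (nat_lit 680116825903) (nat_lit 1) (nat_lit 5) (nat_lit 2) (nat_lit 5) (nat_lit 3) (nat_lit 4) (nat_lit 321) (nat_lit 263) (nat_lit 136)))) (XT.nd (nat_lit 78) (nat_lit 0) (nat_lit 0) (XT.lf (nat_lit 0) (nat_lit 125737128822)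 (nat_lit 152) (nat_lit 686517198029) (nat_lit 0) (nat_lit 26398053004) (nat_lit 1) (nat_lit 5) (nat_lit 3) (nat_lit 4) (nat_lit 1) (nat_lit 4) (nat_lit 322) (nat_lit 263) (nat_lit 135)) (XT.nd (nat_lit 78) (nat_lit 0) (nat_lit 0) (XT.lf (nat_lit 0) (nat_lit 155165771220) (nat_lit 152) (nat_lit 692486368875) (nat_lit 0) (nat_lit 55826307636) (nat_lit 1) (nat_lit 5) (nat_lit 3) (nat_lit 4) (nat_lit 1) (nat_lit 4) (nat_lit 323) (nat_lit 263) (nat_lit 134)) (XT.lf (nat_lit 0) (nat_lit 186948499677) (nat_lit 152) (nat_lit 698933441342) (nat_lit 0) (nat_lit 87608677052) (nat_lit 1) (nat_lit 5) (nat_lit 3) (nat_lit 4) (nat_lit 1) (nat_lit 4) (nat_lit 324) (nat_lit 263) (nat_lit 133)))))) (XT.nd (nat_lit 32760) (nat_lit 0) (nat_lit 1976) (XT.nd (nat_lit 234) (nat_lit 0) (nat_lit 0) (XT.nd (nat_lit 78) (nat_lit 0) (nat_lit 0) (XT.lf (nat_lit 0) (nat_lit 221273656288) (nat_lit 152) (nat_lit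 705896620305) (nat_lit 0) (nat_lit 121933501217) (nat_lit 1) (nat_lit 5) (nat_lit 3) (nat_lit 4) (nat_lit 1) (nat_lit 4) (nat_lit 325) (nat_lit 263) (nat_lit 132)) (XT.nd (nat_lit 78) (nat_lit 0) (nat_lit 0) (XT.lf (nat_lit 0) (nat_lit 258344649388) (nat_lit 152) (nat_lit 713417169045) (nat_lit 0) (nat_lit 159004186497) (nat_lit 1) (nat_lit 5) (nat_lit 3) (nat_lit 4) (nat_lit 1) (nat_lit 4) (nat_lit 326) (nat_lit 263) (nat_lit 131)) (XT.lf (nat_lit 0) (nat_lit 298381158937) (nat_lit 152) (nat_lit 721539653779) (nat_lit 0) (nat_lit 199040411027) (nat_lit 1) (nat_lit 5) (nat_lit 3) (nat_lit 4) (nat_lit 1) (nat_lit 4) (nat_lit 327) (nat_lit 263) (nat_lit 130)))) (XT.nd (nat_lit 78) (nat_lit 0) (nat_lit 0) (XT.lf (nat_lit 0) (nat_lit 341620438324) (nat_lit 152) (nat_lit 730312207748) (nat_lit 0) (nat_lit 242279426508) (nat_lit 1) (nat_lit 5) (nat_lit 3) (nat_lit 4) (nat_lit 1) (nat_lit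 4) (nat_lit 328) (nat_lit 263) (nat_lit 129)) (XT.nd (nat_lit 78) (nat_lit 0) (nat_lit 0) (XT.lf (nat_lit 0) (nat_lit 388318720317) (nat_lit 152) (nat_lit 739786816458) (nat_lit 0) (nat_lit 288977464143) (nat_lit 1) (nat_lit 5) (nat_lit 3) (nat_lit 4) (nat_lit 1) (nat_lit 4) (nat_lit 329) (nat_lit 263) (nat_lit 128)) (XT.lf (nat_lit 0) (nat_lit 438752735474) (nat_lit 152) (nat_lit 750019625738) (nat_lit 0) (nat_lit 339411253044) (nat_lit 1) (nat_lit 5) (nat_lit 3) (nat_lit 4) (nat_lit 1) (nat_lit 4) (nat_lit 330) (nat_lit 263) (nat_lit 127))))) (XT.nd (nat_lit 234) (nat_lit 0) (nat_lit 76) (XT.nd (nat_lit 78) (nat_lit 0) (nat_lit 0) (XT.lf (nat_lit 0) (nat_lit 732517983) (nat_lit 532) (nat_lit 6186101368) (nat_lit 532) (nat_lit 6186101368) (nat_lit 27) (nat_lit 3) (nat_lit 34) (nat_lit 3) (nat_lit 34) (nat_lit 5) (nat_lit 264) (nat_lit 264) (nat_lit 192)) (XT.nd (nat_lit 78) (nat_lit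 0) (nat_lit 76) (XT.lf (nat_lit 0) (nat_lit 1606492871) (nat_lit 532) (nat_lit 2014851422) (nat_lit 532) (nat_lit 23629182965) (nat_lit 27) (nat_lit 3) (nat_lit 34) (nat_lit 3) (nat_lit 34) (nat_lit 5) (nat_lit 265) (nat_lit 264) (nat_lit 191)) (XT.lf (nat_lit 0) (nat_lit 2167415141) (nat_lit 456) (nat_lit 18892163079) (nat_lit 532) (nat_lit 7282736186) (nat_lit 28) (nat_lit 5) (nat_lit 34) (nat_lit 5) (nat_lit 35) (nat_lit 5) (nat_lit 266) (nat_lit 264) (nat_lit 190)))) (XT.nd (nat_lit 78) (nat_lit 0) (nat_lit 76) (XT.lf (nat_lit 0) (nat_lit 2916092820) (nat_lit 456) (nat_lit 7670749214) (nat_lit 532) (nat_lit 18923233420) (nat_lit 28) (nat_lit 5) (nat_lit 34) (nat_lit 5) (nat_lit 35) (nat_lit 5) (nat_lit 267) (nat_lit 264) (nat_lit 189)) (XT.nd (nat_lit 78) (nat_lit 0) (nat_lit 0) (XT.lf (nat_lit 0) (nat_lit 3850415314) (nat_lit 456) (nat_lit 26105677431) (nat_lit 532) (nat_lit 805161495)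 (nat_lit 29) (nat_lit 5) (nat_lit 35) (nat_lit 5) (nat_lit 36) (nat_lit 5) (nat_lit 268) (nat_lit 264) (nat_lit 188)) (XT.lf (nat_lit 0) (nat_lit 5342982093) (nat_lit 456) (nat_lit 13977224745) (nat_lit 532) (nat_lit 12753693301) (nat_lit 29) (nat_lit 5) (nat_lit 35) (nat_lit 5) (nat_lit 36) (nat_lit 5) (nat_lit 269) (nat_lit 264) (nat_lit 187))))))))
noncomputable def xc92 : XT := (XT.nd (nat_lit 1794) (nat_lit 380) (nat_lit 0) (XT.nd (nat_lit 858) (nat_lit 684) (nat_lit 0) (XT.nd (nat_lit 390) (nat_lit 532) (nat_lit 0) (XT.nd (nat_lit 156) (nat_lit 380) (nat_lit 0) (XT.nd (nat_lit 78) (nat_lit 0) (nat_lit 76) (XT.lf (nat_lit 0) (nat_lit 6948783952) (nat_lit 456) (nat_lit 883400190) (nat_lit 532) (nat_lit 25659915974) (nat_lit 29) (nat_lit 5) (nat_lit 35) (nat_lit 5) (nat_lit 36) (nat_lit 5) (nat_lit 270) (nat_lit 264) (nat_lit 186)) (XT.lf (nat_lit 0) (nat_lit 9131634803) (nat_lit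 456) (nat_lit 21164895964) (nat_lit 76) (nat_lit 4691383709) (nat_lit 30) (nat_lit 5) (nat_lit 36) (nat_lit 5) (nat_lit 31) (nat_lit 5) (nat_lit 271) (nat_lit 264) (nat_lit 185))) (XT.nd (nat_lit 78) (nat_lit 456) (nat_lit 0) (XT.lf (nat_lit 0) (nat_lit 11711955057) (nat_lit 456) (nat_lit 7054254925) (nat_lit 76) (nat_lit 17819398522) (nat_lit 30) (nat_lit 5) (nat_lit 36) (nat_lit 5) (nat_lit 31) (nat_lit 5) (nat_lit 272) (nat_lit 264) (nat_lit 184)) (XT.nd (nat_lit 78) (nat_lit 0) (nat_lit 0) (XT.lf (nat_lit 0) (nat_lit 8611459148) (nat_lit 456) (nat_lit 6089372475) (nat_lit 532) (nat_lit 23594154704) (nat_lit 24) (nat_lit 5) (nat_lit 30) (nat_lit 5) (nat_lit 31) (nat_lit 5) (nat_lit 273) (nat_lit 264) (nat_lit 183)) (XT.lf (nat_lit 0) (nat_lit 18304815932) (nat_lit 532) (nat_lit 14386763298) (nat_lit 76) (nat_lit 7419491193) (nat_lit 24) (nat_lit 5) (nat_lit 31) (nat_lit 5) (nat_lit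 25) (nat_lit 5) (nat_lit 274) (nat_lit 264) (nat_lit 182))))) (XT.nd (nat_lit 234) (nat_lit 304) (nat_lit 0) (XT.nd (nat_lit 78) (nat_lit 0) (nat_lit 0) (XT.lf (nat_lit 0) (nat_lit 2074867258) (nat_lit 228) (nat_lit 20325959586) (nat_lit 304) (nat_lit 19655350977) (nat_lit 21) (nat_lit 5) (nat_lit 24) (nat_lit 5) (nat_lit 25) (nat_lit 5) (nat_lit 275) (nat_lit 264) (nat_lit 181)) (XT.nd (nat_lit 78) (nat_lit 0) (nat_lit 0) (XT.lf (nat_lit 0) (nat_lit 20667228039) (nat_lit 228) (nat_lit 6546509229) (nat_lit 304) (nat_lit 16912049797) (nat_lit 21) (nat_lit 5) (nat_lit 24) (nat_lit 5) (nat_lit 25) (nat_lit 5) (nat_lit 276) (nat_lit 264) (nat_lit 180)) (XT.lf (nat_lit 0) (nat_lit 32608304888) (nat_lit 304) (nat_lit 5818844309) (nat_lit 76) (nat_lit 7918114368) (nat_lit 21) (nat_lit 5) (nat_lit 25) (nat_lit 5) (nat_lit 22) (nat_lit 5) (nat_lit 277) (nat_lit 264) (nat_lit 179)))) (XT.nd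 (nat_lit 78) (nat_lit 152) (nat_lit 0) (XT.lf (nat_lit 0) (nat_lit 13745548964) (nat_lit 152) (nat_lit 25185953626) (nat_lit 228) (nat_lit 9771056778) (nat_lit 19) (nat_lit 5) (nat_lit 21) (nat_lit 5) (nat_lit 22) (nat_lit 5) (nat_lit 278) (nat_lit 264) (nat_lit 178)) (XT.nd (nat_lit 78) (nat_lit 152) (nat_lit 0) (XT.lf (nat_lit 0) (nat_lit 35202052056) (nat_lit 152) (nat_lit 10714214269) (nat_lit 228) (nat_lit 5319740098) (nat_lit 19) (nat_lit 5) (nat_lit 21) (nat_lit 5) (nat_lit 22) (nat_lit 5) (nat_lit 279) (nat_lit 264) (nat_lit 177)) (XT.lf (nat_lit 0) (nat_lit 4506221933) (nat_lit 152) (nat_lit 49177026952) (nat_lit 228) (nat_lit 271027935) (nat_lit 17) (nat_lit 5) (nat_lit 19) (nat_lit 5) (nat_lit 20) (nat_lit 5) (nat_lit 280) (nat_lit 264) (nat_lit 176)))))) (XT.nd (nat_lit 468) (nat_lit 304) (nat_lit 0) (XT.nd (nat_lit 234) (nat_lit 152) (nat_lit 0) (XT.nd (nat_lit 78) (nat_lit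 152) (nat_lit 0) (XT.lf (nat_lit 0) (nat_lit 5647346325) (nat_lit 228) (nat_lit 29671769815) (nat_lit 76) (nat_lit 21502945207) (nat_lit 16) (nat_lit 5) (nat_lit 19) (nat_lit 5) (nat_lit 17) (nat_lit 5) (nat_lit 281) (nat_lit 264) (nat_lit 175)) (XT.nd (nat_lit 78) (nat_lit 152) (nat_lit 0) (XT.lf (nat_lit 0) (nat_lit 12021671931) (nat_lit 228) (nat_lit 8324139098) (nat_lit 76) (nat_lit 39573142455) (nat_lit 16) (nat_lit 5) (nat_lit 19) (nat_lit 5) (nat_lit 17) (nat_lit 5) (nat_lit 282) (nat_lit 264) (nat_lit 174)) (XT.lf (nat_lit 0) (nat_lit 15503402976) (nat_lit 152) (nat_lit 3772734816) (nat_lit 228) (nat_lit 43957860272) (nat_lit 14) (nat_lit 5) (nat_lit 16) (nat_lit 5) (nat_lit 17) (nat_lit 5) (nat_lit 283) (nat_lit 264) (nat_lit 173)))) (XT.nd (nat_lit 78) (nat_lit 152) (nat_lit 0) (XT.lf (nat_lit 0) (nat_lit 27681638509) (nat_lit 228) (nat_lit 25434690256) (nat_lit 76) (nat_lit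 13652278618) (nat_lit 14) (nat_lit 5) (nat_lit 17) (nat_lit 5) (nat_lit 15) (nat_lit 5) (nat_lit 284) (nat_lit 264) (nat_lit 172)) (XT.nd (nat_lit 78) (nat_lit 152) (nat_lit 0) (XT.lf (nat_lit 0) (nat_lit 36855196581) (nat_lit 228) (nat_lit 1456397458) (nat_lit 76) (nat_lit 32266756266) (nat_lit 14) (nat_lit 5) (nat_lit 17) (nat_lit 5) (nat_lit 15) (nat_lit 5) (nat_lit 285) (nat_lit 264) (nat_lit 171)) (XT.lf (nat_lit 0) (nat_lit 25723926228) (nat_lit 152) (nat_lit 21655174286) (nat_lit 228) (nat_lit 27264468434) (nat_lit 12) (nat_lit 5) (nat_lit 14) (nat_lit 5) (nat_lit 15) (nat_lit 5) (nat_lit 286) (nat_lit 264) (nat_lit 170))))) (XT.nd (nat_lit 234) (nat_lit 228) (nat_lit 0) (XT.nd (nat_lit 78) (nat_lit 76) (nat_lit 0) (XT.lf (nat_lit 0) (nat_lit 55158532067) (nat_lit 152) (nat_lit 3624096866) (nat_lit 228) (nat_lit 20248371382) (nat_lit 12) (nat_lit 5) (nat_lit 14) (nat_lit 5)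 (nat_lit 15) (nat_lit 5) (nat_lit 287) (nat_lit 264) (nat_lit 169)) (XT.nd (nat_lit 78) (nat_lit 0) (nat_lit 0) (XT.lf (nat_lit 0) (nat_lit 2941549745) (nat_lit 76) (nat_lit 68606842940) (nat_lit 152) (nat_lit 12185048568) (nat_lit 11) (nat_lit 5) (nat_lit 12) (nat_lit 5) (nat_lit 13) (nat_lit 4) (nat_lit 288) (nat_lit 264) (nat_lit 168)) (XT.lf (nat_lit 0) (nat_lit 33156423146) (nat_lit 76) (nat_lit 52921566006) (nat_lit 152) (nat_lit 2674693053) (nat_lit 11) (nat_lit 5) (nat_lit 12) (nat_lit 5) (nat_lit 13) (nat_lit 4) (nat_lit 289) (nat_lit 264) (nat_lit 167)))) (XT.nd (nat_lit 78) (nat_lit 152) (nat_lit 0) (XT.lf (nat_lit 0) (nat_lit 7214675902) (nat_lit 152) (nat_lit 28570391920) (nat_lit 76) (nat_lit 58373932540) (nat_lit 10) (nat_lit 5) (nat_lit 12) (nat_lit 5) (nat_lit 11) (nat_lit 5) (nat_lit 290) (nat_lit 264) (nat_lit 166)) (XT.nd (nat_lit 78) (nat_lit 0) (nat_lit 0) (XT.lf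 (nat_lit 0) (nat_lit 574281292) (nat_lit 152) (nat_lit 17188547811) (nat_lit 228) (nat_lit 82228474365) (nat_lit 8) (nat_lit 5) (nat_lit 10) (nat_lit 5) (nat_lit 11) (nat_lit 5) (nat_lit 291) (nat_lit 264) (nat_lit 165)) (XT.lf (nat_lit 0) (nat_lit 30024301969) (nat_lit 228) (nat_lit 72644848179) (nat_lit 76) (nat_lit 3551490974) (nat_lit 8) (nat_lit 5) (nat_lit 11) (nat_lit 5) (nat_lit 9) (nat_lit 4) (nat_lit 292) (nat_lit 264) (nat_lit 164))))))) (XT.nd (nat_lit 858) (nat_lit 152) (nat_lit 0) (XT.nd (nat_lit 390) (nat_lit 152) (nat_lit 0) (XT.nd (nat_lit 156) (nat_lit 76) (nat_lit 0) (XT.nd (nat_lit 78) (nat_lit 0) (nat_lit 0) (XT.lf (nat_lit 0) (nat_lit 43711639889) (nat_lit 228) (nat_lit 44179736535) (nat_lit 76) (nat_lit 25021360711) (nat_lit 8) (nat_lit 5) (nat_lit 11) (nat_lit 5) (nat_lit 9) (nat_lit 4) (nat_lit 293) (nat_lit 264) (nat_lit 163)) (XT.lf (nat_lit 0) (nat_lit 58492568025)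 (nat_lit 228) (nat_lit 13439620114) (nat_lit 76) (nat_lit 48208131032) (nat_lit 8) (nat_lit 5) (nat_lit 11) (nat_lit 5) (nat_lit 9) (nat_lit 4) (nat_lit 294) (nat_lit 264) (nat_lit 162))) (XT.nd (nat_lit 78) (nat_lit 0) (nat_lit 0) (XT.lf (nat_lit 0) (nat_lit 20798068350) (nat_lit 76) (nat_lit 54156802756) (nat_lit 152) (nat_lit 52951330714) (nat_lit 7) (nat_lit 5) (nat_lit 8) (nat_lit 5) (nat_lit 9) (nat_lit 4) (nat_lit 295) (nat_lit 264) (nat_lit 161)) (XT.nd (nat_lit 78) (nat_lit 0) (nat_lit 0) (XT.lf (nat_lit 0) (nat_lit 58537105781) (nat_lit 76) (nat_lit 34563270298) (nat_lit 152) (nat_lit 43163687246) (nat_lit 7) (nat_lit 5) (nat_lit 8) (nat_lit 5) (nat_lit 9) (nat_lit 4) (nat_lit 296) (nat_lit 264) (nat_lit 160)) (XT.lf (nat_lit 0) (nat_lit 99293424341) (nat_lit 76) (nat_lit 13402943974) (nat_lit 152) (nat_lit 32594282923) (nat_lit 7) (nat_lit 5) (nat_lit 8) (nat_lit 5) (nat_lit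 9) (nat_lit 4) (nat_lit 297) (nat_lit 264) (nat_lit 159))))) (XT.nd (nat_lit 234) (nat_lit 0) (nat_lit 0) (XT.nd (nat_lit 78) (nat_lit 152) (nat_lit 0) (XT.lf (nat_lit 0) (nat_lit 134086234614) (nat_lit 152) (nat_lit 11958175899) (nat_lit 0) (nat_lit 8976864943) (nat_lit 7) (nat_lit 5) (nat_lit 9) (nat_lit 4) (nat_lit 7) (nat_lit 4) (nat_lit 298) (nat_lit 264) (nat_lit 158)) (XT.nd (nat_lit 78) (nat_lit 76) (nat_lit 0) (XT.lf (nat_lit 0) (nat_lit 25741938292) (nat_lit 76) (nat_lit 132411571747) (nat_lit 76) (nat_lit 7299546477) (nat_lit 6) (nat_lit 4) (nat_lit 7) (nat_lit 5) (nat_lit 7) (nat_lit 4) (nat_lit 299) (nat_lit 264) (nat_lit 157)) (XT.lf (nat_lit 0) (nat_lit 7389723321) (nat_lit 152) (nat_lit 109743859648) (nat_lit 76) (nat_lit 59544755477) (nat_lit 5) (nat_lit 5) (nat_lit 7) (nat_lit 5) (nat_lit 6) (nat_lit 4) (nat_lit 300) (nat_lit 264) (nat_lit 156)))) (XT.nd (nat_lit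 78) (nat_lit 0) (nat_lit 0) (XT.lf (nat_lit 0) (nat_lit 22858847135) (nat_lit 152) (nat_lit 77570358862) (nat_lit 76) (nat_lit 88357346404) (nat_lit 5) (nat_lit 5) (nat_lit 7) (nat_lit 5) (nat_lit 6) (nat_lit 4) (nat_lit 301) (nat_lit 264) (nat_lit 155)) (XT.nd (nat_lit 78) (nat_lit 0) (nat_lit 0) (XT.lf (nat_lit 0) (nat_lit 39564646724) (nat_lit 152) (nat_lit 42824403817) (nat_lit 76) (nat_lit 119474444563) (nat_lit 5) (nat_lit 5) (nat_lit 7) (nat_lit 5) (nat_lit 6) (nat_lit 4) (nat_lit 302) (nat_lit 264) (nat_lit 154)) (XT.lf (nat_lit 0) (nat_lit 57606119418) (nat_lit 152) (nat_lit 5300092558) (nat_lit 76) (nat_lit 153080447571) (nat_lit 5) (nat_lit 5) (nat_lit 7) (nat_lit 5) (nat_lit 6) (nat_lit 4) (nat_lit 303) (nat_lit 264) (nat_lit 153)))))) (XT.nd (nat_lit 468) (nat_lit 76) (nat_lit 0) (XT.nd (nat_lit 234) (nat_lit 0) (nat_lit 0) (XT.nd (nat_lit 78) (nat_lit 0) (nat_lit 0) (XT.lf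 (nat_lit 0) (nat_lit 37079824185) (nat_lit 76) (nat_lit 40902124127) (nat_lit 152) (nat_lit 153186448592) (nat_lit 4) (nat_lit 5) (nat_lit 5) (nat_lit 5) (nat_lit 6) (nat_lit 4) (nat_lit 304) (nat_lit 264) (nat_lit 152)) (XT.nd (nat_lit 78) (nat_lit 0) (nat_lit 0) (XT.lf (nat_lit 0) (nat_lit 83150363778) (nat_lit 76) (nat_lit 16981686971) (nat_lit 152) (nat_lit 147421088540) (nat_lit 4) (nat_lit 5) (nat_lit 5) (nat_lit 5) (nat_lit 6) (nat_lit 4) (nat_lit 305) (nat_lit 264) (nat_lit 151)) (XT.lf (nat_lit 0) (nat_lit 124266396320) (nat_lit 152) (nat_lit 132556161776) (nat_lit 0) (nat_lit 8409126599) (nat_lit 4) (nat_lit 5) (nat_lit 6) (nat_lit 4) (nat_lit 4) (nat_lit 4) (nat_lit 306) (nat_lit 264) (nat_lit 150)))) (XT.nd (nat_lit 78) (nat_lit 0) (nat_lit 0) (XT.lf (nat_lit 0) (nat_lit 150771956446) (nat_lit 152) (nat_lit 98603963916) (nat_lit 0) (nat_lit 34913358265) (nat_lit 4) (nat_lit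 5) (nat_lit 6) (nat_lit 4) (nat_lit 4) (nat_lit 4) (nat_lit 307) (nat_lit 264) (nat_lit 149)) (XT.nd (nat_lit 78) (nat_lit 0) (nat_lit 0) (XT.lf (nat_lit 0) (nat_lit 179397391133) (nat_lit 152) (nat_lit 61936573744) (nat_lit 0) (nat_lit 63537562896) (nat_lit 4) (nat_lit 5) (nat_lit 6) (nat_lit 4) (nat_lit 4) (nat_lit 4) (nat_lit 308) (nat_lit 264) (nat_lit 148)) (XT.lf (nat_lit 0) (nat_lit 210312332587) (nat_lit 152) (nat_lit 22336703020) (nat_lit 0) (nat_lit 94451365410) (nat_lit 4) (nat_lit 5) (nat_lit 6) (nat_lit 4) (nat_lit 4) (nat_lit 4) (nat_lit 309) (nat_lit 264) (nat_lit 147))))) (XT.nd (nat_lit 234) (nat_lit 0) (nat_lit 0) (XT.nd (nat_lit 78) (nat_lit 0) (nat_lit 0) (XT.lf (nat_lit 0) (nat_lit 21506138293) (nat_lit 76) (nat_lit 222711065311) (nat_lit 76) (nat_lit 106849043558) (nat_lit 3) (nat_lit 4) (nat_lit 4) (nat_lit 5) (nat_lit 4) (nat_lit 4) (nat_lit 310) (nat_lit 264)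 (nat_lit 146)) (XT.nd (nat_lit 78) (nat_lit 0) (nat_lit 0) (XT.lf (nat_lit 0) (nat_lit 70125893146) (nat_lit 76) (nat_lit 211318823754) (nat_lit 76) (nat_lit 95455825543) (nat_lit 3) (nat_lit 4) (nat_lit 4) (nat_lit 5) (nat_lit 4) (nat_lit 4) (nat_lit 311) (nat_lit 264) (nat_lit 145)) (XT.lf (nat_lit 0) (nat_lit 122634467407) (nat_lit 76) (nat_lit 199015526401) (nat_lit 76) (nat_lit 83151624063) (nat_lit 3) (nat_lit 4) (nat_lit 4) (nat_lit 5) (nat_lit 4) (nat_lit 4) (nat_lit 312) (nat_lit 264) (nat_lit 144)))) (XT.nd (nat_lit 78) (nat_lit 0) (nat_lit 0) (XT.lf (nat_lit 0) (nat_lit 179343022996) (nat_lit 76) (nat_lit 185728264824) (nat_lit 76) (nat_lit 69863525330) (nat_lit 3) (nat_lit 4) (nat_lit 4) (nat_lit 5) (nat_lit 4) (nat_lit 4) (nat_lit 313) (nat_lit 264) (nat_lit 143)) (XT.nd (nat_lit 78) (nat_lit 0) (nat_lit 0) (XT.lf (nat_lit 0) (nat_lit 240587610615) (nat_lit 76) (nat_lit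 171378299695) (nat_lit 76) (nat_lit 55512785057) (nat_lit 3) (nat_lit 4) (nat_lit 4) (nat_lit 5) (nat_lit 4) (nat_lit 4) (nat_lit 314) (nat_lit 264) (nat_lit 142)) (XT.lf (nat_lit 0) (nat_lit 306731161153) (nat_lit 76) (nat_lit 155880594183) (nat_lit 76) (nat_lit 40014361820) (nat_lit 3) (nat_lit 4) (nat_lit 4) (nat_lit 5) (nat_lit 4) (nat_lit 4) (nat_lit 315) (nat_lit 264) (nat_lit 141))))))))
noncomputable def xc93 : XT := (XT.nd (nat_lit 34164) (nat_lit 0) (nat_lit 532) (XT.nd (nat_lit 858) (nat_lit 0) (nat_lit 0) (XT.nd (nat_lit 390) (nat_lit 76) (nat_lit 0) (XT.nd (nat_lit 156) (nat_lit 76) (nat_lit 0) (XT.nd (nat_lit 78) (nat_lit 0) (nat_lit 0) (XT.lf (nat_lit 0) (nat_lit 378165636390) (nat_lit 76) (nat_lit 139143310034) (nat_lit 76) (nat_lit 23276413110) (nat_lit 3) (nat_lit 4) (nat_lit 4) (nat_lit 5) (nat_lit 4) (nat_lit 4) (nat_lit 316) (nat_lit 264) (nat_lit 140)) (XT.lf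 (nat_lit 0) (nat_lit 455314351735) (nat_lit 76) (nat_lit 121067263341) (nat_lit 76) (nat_lit 5199751083) (nat_lit 3) (nat_lit 4) (nat_lit 4) (nat_lit 5) (nat_lit 4) (nat_lit 4) (nat_lit 317) (nat_lit 264) (nat_lit 139))) (XT.nd (nat_lit 78) (nat_lit 0) (nat_lit 0) (XT.lf (nat_lit 0) (nat_lit 13606263497) (nat_lit 152) (nat_lit 87567053938) (nat_lit 76) (nat_lit 524656201908) (nat_lit 2) (nat_lit 5) (nat_lit 4) (nat_lit 5) (nat_lit 3) (nat_lit 4) (nat_lit 318) (nat_lit 264) (nat_lit 138)) (XT.nd (nat_lit 78) (nat_lit 0) (nat_lit 0) (XT.lf (nat_lit 0) (nat_lit 33635574901) (nat_lit 152) (nat_lit 45906613768) (nat_lit 76) (nat_lit 594064553279) (nat_lit 2) (nat_lit 5) (nat_lit 4) (nat_lit 5) (nat_lit 3) (nat_lit 4) (nat_lit 319) (nat_lit 264) (nat_lit 137)) (XT.lf (nat_lit 0) (nat_lit 55266987952) (nat_lit 152) (nat_lit 913763092) (nat_lit 76) (nat_lit 669025411541) (nat_lit 2) (nat_lit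 5) (nat_lit 4) (nat_lit 5) (nat_lit 3) (nat_lit 4) (nat_lit 320) (nat_lit 264) (nat_lit 136))))) (XT.nd (nat_lit 234) (nat_lit 0) (nat_lit 0) (XT.nd (nat_lit 78) (nat_lit 0) (nat_lit 0) (XT.lf (nat_lit 0) (nat_lit 50188767820) (nat_lit 76) (nat_lit 29646962056) (nat_lit 152) (nat_lit 701001262440) (nat_lit 1) (nat_lit 5) (nat_lit 2) (nat_lit 5) (nat_lit 3) (nat_lit 4) (nat_lit 321) (nat_lit 264) (nat_lit 135)) (XT.nd (nat_lit 78) (nat_lit 0) (nat_lit 0) (XT.lf (nat_lit 0) (nat_lit 105431084430) (nat_lit 76) (nat_lit 963652848) (nat_lit 152) (nat_lit 734521570513) (nat_lit 1) (nat_lit 5) (nat_lit 2) (nat_lit 5) (nat_lit 3) (nat_lit 4) (nat_lit 322) (nat_lit 264) (nat_lit 134)) (XT.lf (nat_lit 0) (nat_lit 135800105084) (nat_lit 152) (nat_lit 741431395234) (nat_lit 0) (nat_lit 28512737608) (nat_lit 1) (nat_lit 5) (nat_lit 3) (nat_lit 4) (nat_lit 1) (nat_lit 4) (nat_lit 323) (nat_lit 264)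 (nat_lit 133)))) (XT.nd (nat_lit 78) (nat_lit 0) (nat_lit 0) (XT.lf (nat_lit 0) (nat_lit 167582742136) (nat_lit 152) (nat_lit 747878631499) (nat_lit 0) (nat_lit 60295042214) (nat_lit 1) (nat_lit 5) (nat_lit 3) (nat_lit 4) (nat_lit 1) (nat_lit 4) (nat_lit 324) (nat_lit 264) (nat_lit 132)) (XT.nd (nat_lit 78) (nat_lit 0) (nat_lit 0) (XT.lf (nat_lit 0) (nat_lit 201907814113) (nat_lit 152) (nat_lit 754841962125) (nat_lit 0) (nat_lit 94619806370) (nat_lit 1) (nat_lit 5) (nat_lit 3) (nat_lit 4) (nat_lit 1) (nat_lit 4) (nat_lit 325) (nat_lit 264) (nat_lit 131)) (XT.lf (nat_lit 0) (nat_lit 238978728848) (nat_lit 152) (nat_lit 762362651296) (nat_lit 0) (nat_lit 131690436086) (nat_lit 1) (nat_lit 5) (nat_lit 3) (nat_lit 4) (nat_lit 1) (nat_lit 4) (nat_lit 326) (nat_lit 264) (nat_lit 130)))))) (XT.nd (nat_lit 32838) (nat_lit 0) (nat_lit 2052) (XT.nd (nat_lit 234) (nat_lit 0) (nat_lit 0) (XT.nd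 (nat_lit 78) (nat_lit 0) (nat_lit 0) (XT.lf (nat_lit 0) (nat_lit 279015165836) (nat_lit 152) (nat_lit 770485266057) (nat_lit 0) (nat_lit 171726609169) (nat_lit 1) (nat_lit 5) (nat_lit 3) (nat_lit 4) (nat_lit 1) (nat_lit 4) (nat_lit 327) (nat_lit 264) (nat_lit 129)) (XT.nd (nat_lit 78) (nat_lit 0) (nat_lit 0) (XT.lf (nat_lit 0) (nat_lit 322254378038) (nat_lit 152) (nat_lit 779257940422) (nat_lit 0) (nat_lit 214965577013) (nat_lit 1) (nat_lit 5) (nat_lit 3) (nat_lit 4) (nat_lit 1) (nat_lit 4) (nat_lit 328) (nat_lit 264) (nat_lit 128)) (XT.lf (nat_lit 0) (nat_lit 368952597822) (nat_lit 152) (nat_lit 788732660609) (nat_lit 0) (nat_lit 261663570540) (nat_lit 1) (nat_lit 5) (nat_lit 3) (nat_lit 4) (nat_lit 1) (nat_lit 4) (nat_lit 329) (nat_lit 264) (nat_lit 127)))) (XT.nd (nat_lit 32448) (nat_lit 0) (nat_lit 1976) (XT.lf (nat_lit 0) (nat_lit 419386555379) (nat_lit 152) (nat_lit 798965573109)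 (nat_lit 0) (nat_lit 312097318599) (nat_lit 1) (nat_lit 5) (nat_lit 3) (nat_lit 4) (nat_lit 1) (nat_lit 4) (nat_lit 330) (nat_lit 264) (nat_lit 126)) (XT.nd (nat_lit 78) (nat_lit 0) (nat_lit 0) (XT.lf (nat_lit 0) (nat_lit 871982211) (nat_lit 532) (nat_lit 6636999847) (nat_lit 532) (nat_lit 6636999847) (nat_lit 27) (nat_lit 3) (nat_lit 34) (nat_lit 3) (nat_lit 34) (nat_lit 5) (nat_lit 265) (nat_lit 265) (nat_lit 190)) (XT.lf (nat_lit 0) (nat_lit 1884758208) (nat_lit 532) (nat_lit 2094577256) (nat_lit 532) (nat_lit 25438055323) (nat_lit 27) (nat_lit 3) (nat_lit 34) (nat_lit 3) (nat_lit 34) (nat_lit 5) (nat_lit 266) (nat_lit 265) (nat_lit 189))))) (XT.nd (nat_lit 234) (nat_lit 0) (nat_lit 76) (XT.nd (nat_lit 78) (nat_lit 0) (nat_lit 0) (XT.lf (nat_lit 0) (nat_lit 2479900564) (nat_lit 456) (nat_lit 20310309984) (nat_lit 532) (nat_lit 7807251469) (nat_lit 28) (nat_lit 5) (nat_lit 34) (nat_lit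 5) (nat_lit 35) (nat_lit 5) (nat_lit 267) (nat_lit 265) (nat_lit 188)) (XT.nd (nat_lit 78) (nat_lit 0) (nat_lit 76) (XT.lf (nat_lit 0) (nat_lit 3278169330) (nat_lit 456) (nat_lit 8198088650) (nat_lit 532) (nat_lit 20383292453) (nat_lit 28) (nat_lit 5) (nat_lit 34) (nat_lit 5) (nat_lit 35) (nat_lit 5) (nat_lit 268) (nat_lit 265) (nat_lit 187)) (XT.lf (nat_lit 0) (nat_lit 4278827989) (nat_lit 456) (nat_lit 28098449701) (nat_lit 532) (nat_lit 834294747) (nat_lit 29) (nat_lit 5) (nat_lit 35) (nat_lit 5) (nat_lit 36) (nat_lit 5) (nat_lit 269) (nat_lit 265) (nat_lit 186)))) (XT.nd (nat_lit 78) (nat_lit 0) (nat_lit 0) (XT.lf (nat_lit 0) (nat_lit 5881883114) (nat_lit 456) (nat_lit 15006808349) (nat_lit 532) (nat_lit 13741322406) (nat_lit 29) (nat_lit 5) (nat_lit 35) (nat_lit 5) (nat_lit 36) (nat_lit 5) (nat_lit 270) (nat_lit 265) (nat_lit 185)) (XT.nd (nat_lit 78) (nat_lit 0) (nat_lit 76)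 (XT.lf (nat_lit 0) (nat_lit 7607892643) (nat_lit 456) (nat_lit 872040377) (nat_lit 532) (nat_lit 27682462623) (nat_lit 29) (nat_lit 5) (nat_lit 35) (nat_lit 5) (nat_lit 36) (nat_lit 5) (nat_lit 271) (nat_lit 265) (nat_lit 184)) (XT.lf (nat_lit 0) (nat_lit 9959228025) (nat_lit 456) (nat_lit 22769156716) (nat_lit 76) (nat_lit 5050042338) (nat_lit 30) (nat_lit 5) (nat_lit 36) (nat_lit 5) (nat_lit 31) (nat_lit 5) (nat_lit 272) (nat_lit 265) (nat_lit 183))))))) (XT.nd (nat_lit 858) (nat_lit 608) (nat_lit 0) (XT.nd (nat_lit 390) (nat_lit 380) (nat_lit 0) (XT.nd (nat_lit 156) (nat_lit 228) (nat_lit 0) (XT.nd (nat_lit 78) (nat_lit 456) (nat_lit 0) (XT.lf (nat_lit 0) (nat_lit 12738784089) (nat_lit 456) (nat_lit 7536251869) (nat_lit 76) (nat_lit 19229531823) (nat_lit 30) (nat_lit 5) (nat_lit 36) (nat_lit 5) (nat_lit 31) (nat_lit 5) (nat_lit 273) (nat_lit 265) (nat_lit 182)) (XT.lf (nat_lit 0)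 (nat_lit 9380634685) (nat_lit 456) (nat_lit 6581409089) (nat_lit 532) (nat_lit 25389082037) (nat_lit 24) (nat_lit 5) (nat_lit 30) (nat_lit 5) (nat_lit 31) (nat_lit 5) (nat_lit 274) (nat_lit 265) (nat_lit 181))) (XT.nd (nat_lit 78) (nat_lit 228) (nat_lit 0) (XT.lf (nat_lit 0) (nat_lit 19847930923) (nat_lit 532) (nat_lit 15456374960) (nat_lit 76) (nat_lit 8008752009) (nat_lit 24) (nat_lit 5) (nat_lit 31) (nat_lit 5) (nat_lit 25) (nat_lit 5) (nat_lit 275) (nat_lit 265) (nat_lit 180)) (XT.nd (nat_lit 78) (nat_lit 0) (nat_lit 0) (XT.lf (nat_lit 0) (nat_lit 2320127069) (nat_lit 228) (nat_lit 21947570265) (nat_lit 304) (nat_lit 21146435007) (nat_lit 21) (nat_lit 5) (nat_lit 24) (nat_lit 5) (nat_lit 25) (nat_lit 5) (nat_lit 276) (nat_lit 265) (nat_lit 179)) (XT.lf (nat_lit 0) (nat_lit 22394004828) (nat_lit 228) (nat_lit 7066094700) (nat_lit 304) (nat_lit 18189695218) (nat_lit 21) (nat_lit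 5) (nat_lit 24) (nat_lit 5) (nat_lit 25) (nat_lit 5) (nat_lit 277) (nat_lit 265) (nat_lit 178))))) (XT.nd (nat_lit 234) (nat_lit 228) (nat_lit 0) (XT.nd (nat_lit 78) (nat_lit 152) (nat_lit 0) (XT.lf (nat_lit 0) (nat_lit 35281194031) (nat_lit 304) (nat_lit 6210875579) (nat_lit 76) (nat_lit 8555200929) (nat_lit 21) (nat_lit 5) (nat_lit 25) (nat_lit 5) (nat_lit 22) (nat_lit 5) (nat_lit 278) (nat_lit 265) (nat_lit 177)) (XT.nd (nat_lit 78) (nat_lit 0) (nat_lit 0) (XT.lf (nat_lit 0) (nat_lit 14916808997) (nat_lit 152) (nat_lit 27190403533) (nat_lit 228) (nat_lit 10486215547) (nat_lit 19) (nat_lit 5) (nat_lit 21) (nat_lit 5) (nat_lit 22) (nat_lit 5) (nat_lit 279) (nat_lit 265) (nat_lit 176)) (XT.lf (nat_lit 0) (nat_lit 38084527439) (nat_lit 152) (nat_lit 11561697352) (nat_lit 228) (nat_lit 5683721368) (nat_lit 19) (nat_lit 5) (nat_lit 21) (nat_lit 5) (nat_lit 22) (nat_lit 5) (nat_lit 280)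 (nat_lit 265) (nat_lit 175)))) (XT.nd (nat_lit 78) (nat_lit 76) (nat_lit 0) (XT.lf (nat_lit 0) (nat_lit 4935941534) (nat_lit 152) (nat_lit 53096307364) (nat_lit 228) (nat_lit 233644892) (nat_lit 17) (nat_lit 5) (nat_lit 19) (nat_lit 5) (nat_lit 20) (nat_lit 5) (nat_lit 281) (nat_lit 265) (nat_lit 174)) (XT.nd (nat_lit 78) (nat_lit 0) (nat_lit 0) (XT.lf (nat_lit 0) (nat_lit 6151088285) (nat_lit 228) (nat_lit 31978357232) (nat_lit 76) (nat_lit 23233900351) (nat_lit 16) (nat_lit 5) (nat_lit 19) (nat_lit 5) (nat_lit 17) (nat_lit 5) (nat_lit 282) (nat_lit 265) (nat_lit 173)) (XT.lf (nat_lit 0) (nat_lit 13031511476) (nat_lit 228) (nat_lit 8927890440) (nat_lit 76) (nat_lit 42748919340) (nat_lit 16) (nat_lit 5) (nat_lit 19) (nat_lit 5) (nat_lit 17) (nat_lit 5) (nat_lit 283) (nat_lit 265) (nat_lit 172)))))) (XT.nd (nat_lit 468) (nat_lit 228) (nat_lit 0) (XT.nd (nat_lit 234) (nat_lit 228) (nat_lit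 0) (XT.nd (nat_lit 78) (nat_lit 0) (nat_lit 0) (XT.lf (nat_lit 0) (nat_lit 16804280828) (nat_lit 152) (nat_lit 4059947952) (nat_lit 228) (nat_lit 47424531314) (nat_lit 14) (nat_lit 5) (nat_lit 16) (nat_lit 5) (nat_lit 17) (nat_lit 5) (nat_lit 284) (nat_lit 265) (nat_lit 171)) (XT.nd (nat_lit 78) (nat_lit 0) (nat_lit 0) (XT.lf (nat_lit 0) (nat_lit 29939087397) (nat_lit 228) (nat_lit 27410009771) (nat_lit 76) (nat_lit 14757308143) (nat_lit 14) (nat_lit 5) (nat_lit 17) (nat_lit 5) (nat_lit 15) (nat_lit 5) (nat_lit 285) (nat_lit 265) (nat_lit 170)) (XT.lf (nat_lit 0) (nat_lit 39843351017) (nat_lit 228) (nat_lit 1517857675) (nat_lit 76) (nat_lit 34859992356) (nat_lit 14) (nat_lit 5) (nat_lit 17) (nat_lit 5) (nat_lit 15) (nat_lit 5) (nat_lit 286) (nat_lit 265) (nat_lit 169)))) (XT.nd (nat_lit 78) (nat_lit 76) (nat_lit 0) (XT.lf (nat_lit 0) (nat_lit 27835498194) (nat_lit 152) (nat_lit 23372015935)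 (nat_lit 228) (nat_lit 29404272947) (nat_lit 12) (nat_lit 5) (nat_lit 14) (nat_lit 5) (nat_lit 15) (nat_lit 5) (nat_lit 287) (nat_lit 265) (nat_lit 168)) (XT.nd (nat_lit 78) (nat_lit 76) (nat_lit 0) (XT.lf (nat_lit 0) (nat_lit 59620897845) (nat_lit 152) (nat_lit 3899605825) (nat_lit 228) (nat_lit 21829951314) (nat_lit 12) (nat_lit 5) (nat_lit 14) (nat_lit 5) (nat_lit 15) (nat_lit 5) (nat_lit 288) (nat_lit 265) (nat_lit 167)) (XT.lf (nat_lit 0) (nat_lit 3227909908) (nat_lit 76) (nat_lit 74078554941) (nat_lit 152) (nat_lit 13122726567) (nat_lit 11) (nat_lit 5) (nat_lit 12) (nat_lit 5) (nat_lit 13) (nat_lit 4) (nat_lit 289) (nat_lit 265) (nat_lit 166))))) (XT.nd (nat_lit 234) (nat_lit 0) (nat_lit 0) (XT.nd (nat_lit 78) (nat_lit 228) (nat_lit 0) (XT.lf (nat_lit 0) (nat_lit 35856192722) (nat_lit 76) (nat_lit 57139702922) (nat_lit 152) (nat_lit 2854292676) (nat_lit 11) (nat_lit 5) (nat_lit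 12) (nat_lit 5) (nat_lit 13) (nat_lit 4) (nat_lit 290) (nat_lit 265) (nat_lit 165)) (XT.nd (nat_lit 78) (nat_lit 152) (nat_lit 0) (XT.lf (nat_lit 0) (nat_lit 7822087199) (nat_lit 152) (nat_lit 30810525638) (nat_lit 76) (nat_lit 63056538480) (nat_lit 10) (nat_lit 5) (nat_lit 12) (nat_lit 5) (nat_lit 11) (nat_lit 5) (nat_lit 291) (nat_lit 265) (nat_lit 164)) (XT.lf (nat_lit 0) (nat_lit 664569592) (nat_lit 152) (nat_lit 18548349788) (nat_lit 228) (nat_lit 88775224272) (nat_lit 8) (nat_lit 5) (nat_lit 10) (nat_lit 5) (nat_lit 11) (nat_lit 5) (nat_lit 292) (nat_lit 265) (nat_lit 163)))) (XT.nd (nat_lit 78) (nat_lit 0) (nat_lit 0) (XT.lf (nat_lit 0) (nat_lit 32453497495) (nat_lit 228) (nat_lit 78413433847) (nat_lit 76) (nat_lit 3849052278) (nat_lit 8) (nat_lit 5) (nat_lit 11) (nat_lit 5) (nat_lit 9) (nat_lit 4) (nat_lit 293) (nat_lit 265) (nat_lit 162)) (XT.nd (nat_lit 78) (nat_lit 0) (nat_lit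 0) (XT.lf (nat_lit 0) (nat_lit 47233803828) (nat_lit 228) (nat_lit 47674298619) (nat_lit 76) (nat_lit 27035515888) (nat_lit 8) (nat_lit 5) (nat_lit 11) (nat_lit 5) (nat_lit 9) (nat_lit 4) (nat_lit 294) (nat_lit 265) (nat_lit 161)) (XT.lf (nat_lit 0) (nat_lit 63195337123) (nat_lit 228) (nat_lit 14477922279) (nat_lit 76) (nat_lit 52076305886) (nat_lit 8) (nat_lit 5) (nat_lit 11) (nat_lit 5) (nat_lit 9) (nat_lit 4) (nat_lit 295) (nat_lit 265) (nat_lit 160))))))))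
noncomputable def xc94 : XT := (XT.nd (nat_lit 1794) (nat_lit 152) (nat_lit 0) (XT.nd (nat_lit 858) (nat_lit 76) (nat_lit 0) (XT.nd (nat_lit 390) (nat_lit 152) (nat_lit 0) (XT.nd (nat_lit 156) (nat_lit 76) (nat_lit 0) (XT.nd (nat_lit 78) (nat_lit 0) (nat_lit 0) (XT.lf (nat_lit 0) (nat_lit 22497847909) (nat_lit 76) (nat_lit 58475910116) (nat_lit 152) (nat_lit 57163038010) (nat_lit 7) (nat_lit 5) (nat_lit 8) (nat_lit 5) (nat_lit 9) (nat_lit 4) (nat_lit 296) (nat_lit 265) (nat_lit 159)) (XT.lf (nat_lit 0) (nat_lit 63253346550) (nat_lit 76) (nat_lit 37315890384) (nat_lit 152) (nat_lit 46594190410) (nat_lit 7) (nat_lit 5) (nat_lit 8) (nat_lit 5) (nat_lit 9) (nat_lit 4) (nat_lit 297) (nat_lit 265) (nat_lit 158))) (XT.nd (nat_lit 78) (nat_lit 76) (nat_lit 0) (XT.lf (nat_lit 0) (nat_lit 107267705979) (nat_lit 76) (nat_lit 14463659549) (nat_lit 152) (nat_lit 35180907209) (nat_lit 7) (nat_lit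 5) (nat_lit 8) (nat_lit 5) (nat_lit 9) (nat_lit 4) (nat_lit 298) (nat_lit 265) (nat_lit 157)) (XT.nd (nat_lit 78) (nat_lit 76) (nat_lit 0) (XT.lf (nat_lit 0) (nat_lit 144831248942) (nat_lit 152) (nat_lit 12885051048) (nat_lit 0) (nat_lit 9705147165) (nat_lit 7) (nat_lit 5) (nat_lit 9) (nat_lit 4) (nat_lit 7) (nat_lit 4) (nat_lit 299) (nat_lit 265) (nat_lit 156)) (XT.lf (nat_lit 0) (nat_lit 27830318381) (nat_lit 76) (nat_lit 142992944179) (nat_lit 76) (nat_lit 7864565654) (nat_lit 6) (nat_lit 4) (nat_lit 7) (nat_lit 5) (nat_lit 7) (nat_lit 4) (nat_lit 300) (nat_lit 265) (nat_lit 155))))) (XT.nd (nat_lit 234) (nat_lit 76) (nat_lit 0) (XT.nd (nat_lit 78) (nat_lit 0) (nat_lit 0) (XT.lf (nat_lit 0) (nat_lit 7997564945) (nat_lit 152) (nat_lit 118495551538) (nat_lit 76) (nat_lit 64318091564) (nat_lit 5) (nat_lit 5) (nat_lit 7) (nat_lit 5) (nat_lit 6) (nat_lit 4) (nat_lit 301) (nat_lit 265)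 (nat_lit 154)) (XT.nd (nat_lit 78) (nat_lit 0) (nat_lit 0) (XT.lf (nat_lit 0) (nat_lit 24702984311) (nat_lit 152) (nat_lit 83750231200) (nat_lit 76) (nat_lit 95434967125) (nat_lit 5) (nat_lit 5) (nat_lit 7) (nat_lit 5) (nat_lit 6) (nat_lit 4) (nat_lit 302) (nat_lit 265) (nat_lit 153)) (XT.lf (nat_lit 0) (nat_lit 42744104948) (nat_lit 152) (nat_lit 46226507631) (nat_lit 76) (nat_lit 129040764025) (nat_lit 5) (nat_lit 5) (nat_lit 7) (nat_lit 5) (nat_lit 6) (nat_lit 4) (nat_lit 303) (nat_lit 265) (nat_lit 152)))) (XT.nd (nat_lit 78) (nat_lit 76) (nat_lit 0) (XT.lf (nat_lit 0) (nat_lit 62227837200) (nat_lit 152) (nat_lit 5702018025) (nat_lit 76) (nat_lit 165334627726) (nat_lit 5) (nat_lit 5) (nat_lit 7) (nat_lit 5) (nat_lit 6) (nat_lit 4) (nat_lit 304) (nat_lit 265) (nat_lit 151)) (XT.nd (nat_lit 78) (nat_lit 0) (nat_lit 0) (XT.lf (nat_lit 0) (nat_lit 40067733020) (nat_lit 76) (nat_lit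 44165537142) (nat_lit 152) (nat_lit 165427529898) (nat_lit 4) (nat_lit 5) (nat_lit 5) (nat_lit 5) (nat_lit 6) (nat_lit 4) (nat_lit 305) (nat_lit 265) (nat_lit 150)) (XT.lf (nat_lit 0) (nat_lit 89822321492) (nat_lit 76) (nat_lit 18332113674) (nat_lit 152) (nat_lit 159201965825) (nat_lit 4) (nat_lit 5) (nat_lit 5) (nat_lit 5) (nat_lit 6) (nat_lit 4) (nat_lit 306) (nat_lit 265) (nat_lit 149)))))) (XT.nd (nat_lit 468) (nat_lit 0) (nat_lit 0) (XT.nd (nat_lit 234) (nat_lit 76) (nat_lit 0) (XT.nd (nat_lit 78) (nat_lit 0) (nat_lit 0) (XT.lf (nat_lit 0) (nat_lit 134218833360) (nat_lit 152) (nat_lit 143141466710) (nat_lit 0) (nat_lit 9088988808) (nat_lit 4) (nat_lit 5) (nat_lit 6) (nat_lit 4) (nat_lit 4) (nat_lit 4) (nat_lit 307) (nat_lit 265) (nat_lit 148)) (XT.nd (nat_lit 78) (nat_lit 0) (nat_lit 0) (XT.lf (nat_lit 0) (nat_lit 162844014197) (nat_lit 152) (nat_lit 106474514356) (nat_lit 0)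 (nat_lit 37713030705) (nat_lit 4) (nat_lit 5) (nat_lit 6) (nat_lit 4) (nat_lit 4) (nat_lit 4) (nat_lit 308) (nat_lit 265) (nat_lit 147)) (XT.lf (nat_lit 0) (nat_lit 193758720605) (nat_lit 152) (nat_lit 66875049019) (nat_lit 0) (nat_lit 68626682538) (nat_lit 4) (nat_lit 5) (nat_lit 6) (nat_lit 4) (nat_lit 4) (nat_lit 4) (nat_lit 309) (nat_lit 265) (nat_lit 146)))) (XT.nd (nat_lit 78) (nat_lit 76) (nat_lit 0) (XT.lf (nat_lit 0) (nat_lit 227146150843) (nat_lit 152) (nat_lit 24108407202) (nat_lit 0) (nat_lit 102013136318) (nat_lit 4) (nat_lit 5) (nat_lit 6) (nat_lit 4) (nat_lit 4) (nat_lit 4) (nat_lit 310) (nat_lit 265) (nat_lit 145)) (XT.nd (nat_lit 78) (nat_lit 0) (nat_lit 0) (XT.lf (nat_lit 0) (nat_lit 23241475794) (nat_lit 76) (nat_lit 240521638608) (nat_lit 76) (nat_lit 115387719955) (nat_lit 3) (nat_lit 4) (nat_lit 4) (nat_lit 5) (nat_lit 4) (nat_lit 4) (nat_lit 311) (nat_lit 265)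 (nat_lit 144)) (XT.lf (nat_lit 0) (nat_lit 75749711299) (nat_lit 76) (nat_lit 228218485276) (nat_lit 76) (nat_lit 103083729468) (nat_lit 3) (nat_lit 4) (nat_lit 4) (nat_lit 5) (nat_lit 4) (nat_lit 4) (nat_lit 312) (nat_lit 265) (nat_lit 143))))) (XT.nd (nat_lit 234) (nat_lit 0) (nat_lit 0) (XT.nd (nat_lit 78) (nat_lit 0) (nat_lit 0) (XT.lf (nat_lit 0) (nat_lit 132457953227) (nat_lit 76) (nat_lit 214931357052) (nat_lit 76) (nat_lit 89795826100) (nat_lit 3) (nat_lit 4) (nat_lit 4) (nat_lit 5) (nat_lit 4) (nat_lit 4) (nat_lit 313) (nat_lit 265) (nat_lit 142)) (XT.nd (nat_lit 78) (nat_lit 0) (nat_lit 0) (XT.lf (nat_lit 0) (nat_lit 193702250417) (nat_lit 76) (nat_lit 200581515398) (nat_lit 76) (nat_lit 75445266720) (nat_lit 3) (nat_lit 4) (nat_lit 4) (nat_lit 5) (nat_lit 4) (nat_lit 4) (nat_lit 314) (nat_lit 265) (nat_lit 141)) (XT.lf (nat_lit 0) (nat_lit 259845532039) (nat_lit 76) (nat_lit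 185083924215) (nat_lit 76) (nat_lit 59947010976) (nat_lit 3) (nat_lit 4) (nat_lit 4) (nat_lit 5) (nat_lit 4) (nat_lit 4) (nat_lit 315) (nat_lit 265) (nat_lit 140)))) (XT.nd (nat_lit 78) (nat_lit 0) (nat_lit 0) (XT.lf (nat_lit 0) (nat_lit 331279758281) (nat_lit 76) (nat_lit 168346745926) (nat_lit 76) (nat_lit 43209217352) (nat_lit 3) (nat_lit 4) (nat_lit 4) (nat_lit 5) (nat_lit 4) (nat_lit 4) (nat_lit 316) (nat_lit 265) (nat_lit 139)) (XT.nd (nat_lit 78) (nat_lit 0) (nat_lit 0) (XT.lf (nat_lit 0) (nat_lit 408428243075) (nat_lit 76) (nat_lit 150270797252) (nat_lit 76) (nat_lit 25132698924) (nat_lit 3) (nat_lit 4) (nat_lit 4) (nat_lit 5) (nat_lit 4) (nat_lit 4) (nat_lit 317) (nat_lit 265) (nat_lit 138)) (XT.lf (nat_lit 0) (nat_lit 491748162628) (nat_lit 76) (nat_lit 130748961459) (nat_lit 76) (nat_lit 5610335582) (nat_lit 3) (nat_lit 4) (nat_lit 4) (nat_lit 5) (nat_lit 4) (nat_lit 4)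 (nat_lit 318) (nat_lit 265) (nat_lit 137))))))) (XT.nd (nat_lit 858) (nat_lit 0) (nat_lit 0) (XT.nd (nat_lit 390) (nat_lit 0) (nat_lit 0) (XT.nd (nat_lit 156) (nat_lit 76) (nat_lit 0) (XT.nd (nat_lit 78) (nat_lit 0) (nat_lit 0) (XT.lf (nat_lit 0) (nat_lit 14699510574) (nat_lit 152) (nat_lit 94564132353) (nat_lit 76) (nat_lit 566631843367) (nat_lit 2) (nat_lit 5) (nat_lit 4) (nat_lit 5) (nat_lit 3) (nat_lit 4) (nat_lit 319) (nat_lit 265) (nat_lit 136)) (XT.lf (nat_lit 0) (nat_lit 36330815335) (nat_lit 152) (nat_lit 49571470739) (nat_lit 76) (nat_lit 641592629861) (nat_lit 2) (nat_lit 5) (nat_lit 4) (nat_lit 5) (nat_lit 3) (nat_lit 4) (nat_lit 320) (nat_lit 265) (nat_lit 135))) (XT.nd (nat_lit 78) (nat_lit 76) (nat_lit 0) (XT.lf (nat_lit 0) (nat_lit 59692415917) (nat_lit 152) (nat_lit 979760316) (nat_lit 76) (nat_lit 722550141057) (nat_lit 2) (nat_lit 5) (nat_lit 4) (nat_lit 5) (nat_lit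 3) (nat_lit 4) (nat_lit 321) (nat_lit 265) (nat_lit 134)) (XT.nd (nat_lit 78) (nat_lit 0) (nat_lit 0) (XT.lf (nat_lit 0) (nat_lit 54210793226) (nat_lit 76) (nat_lit 32015729088) (nat_lit 152) (nat_lit 757077102822) (nat_lit 1) (nat_lit 5) (nat_lit 2) (nat_lit 5) (nat_lit 3) (nat_lit 4) (nat_lit 322) (nat_lit 265) (nat_lit 133)) (XT.lf (nat_lit 0) (nat_lit 113871982277) (nat_lit 76) (nat_lit 1037976620) (nat_lit 152) (nat_lit 793279351142) (nat_lit 1) (nat_lit 5) (nat_lit 2) (nat_lit 5) (nat_lit 3) (nat_lit 4) (nat_lit 323) (nat_lit 265) (nat_lit 132))))) (XT.nd (nat_lit 234) (nat_lit 0) (nat_lit 0) (XT.nd (nat_lit 78) (nat_lit 0) (nat_lit 0) (XT.lf (nat_lit 0) (nat_lit 146667547953) (nat_lit 152) (nat_lit 800739752329) (nat_lit 0) (nat_lit 30796191770) (nat_lit 1) (nat_lit 5) (nat_lit 3) (nat_lit 4) (nat_lit 1) (nat_lit 4) (nat_lit 324) (nat_lit 265) (nat_lit 131)) (XT.nd (nat_lit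 78) (nat_lit 0) (nat_lit 0) (XT.lf (nat_lit 0) (nat_lit 180992541564) (nat_lit 152) (nat_lit 807703223385) (nat_lit 0) (nat_lit 65120900363) (nat_lit 1) (nat_lit 5) (nat_lit 3) (nat_lit 4) (nat_lit 1) (nat_lit 4) (nat_lit 325) (nat_lit 265) (nat_lit 130)) (XT.lf (nat_lit 0) (nat_lit 218063383739) (nat_lit 152) (nat_lit 815224042583) (nat_lit 0) (nat_lit 102191478632) (nat_lit 1) (nat_lit 5) (nat_lit 3) (nat_lit 4) (nat_lit 1) (nat_lit 4) (nat_lit 326) (nat_lit 265) (nat_lit 129)))) (XT.nd (nat_lit 78) (nat_lit 0) (nat_lit 0) (XT.lf (nat_lit 0) (nat_lit 258099753542) (nat_lit 152) (nat_lit 823346777739) (nat_lit 0) (nat_lit 142227604077) (nat_lit 1) (nat_lit 5) (nat_lit 3) (nat_lit 4) (nat_lit 1) (nat_lit 4) (nat_lit 327) (nat_lit 265) (nat_lit 128)) (XT.nd (nat_lit 78) (nat_lit 0) (nat_lit 0) (XT.lf (nat_lit 0) (nat_lit 301338903535) (nat_lit 152) (nat_lit 832119563582) (nat_lit 0)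 (nat_lit 185466527813) (nat_lit 1) (nat_lit 5) (nat_lit 3) (nat_lit 4) (nat_lit 1) (nat_lit 4) (nat_lit 328) (nat_lit 265) (nat_lit 127)) (XT.lf (nat_lit 0) (nat_lit 348037065718) (nat_lit 152) (nat_lit 841594386989) (nat_lit 0) (nat_lit 232164480499) (nat_lit 1) (nat_lit 5) (nat_lit 3) (nat_lit 4) (nat_lit 1) (nat_lit 4) (nat_lit 329) (nat_lit 265) (nat_lit 126)))))) (XT.nd (nat_lit 32916) (nat_lit 0) (nat_lit 1748) (XT.nd (nat_lit 32682) (nat_lit 0) (nat_lit 2052) (XT.nd (nat_lit 32526) (nat_lit 0) (nat_lit 1976) (XT.lf (nat_lit 0) (nat_lit 398470969941) (nat_lit 152) (nat_lit 851827395064) (nat_lit 0) (nat_lit 282598190743) (nat_lit 1) (nat_lit 5) (nat_lit 3) (nat_lit 4) (nat_lit 1) (nat_lit 4) (nat_lit 330) (nat_lit 265) (nat_lit 125)) (XT.nd (nat_lit 78) (nat_lit 0) (nat_lit 0) (XT.lf (nat_lit 0) (nat_lit 1011067597) (nat_lit 532) (nat_lit 7130245817) (nat_lit 532) (nat_lit 7130245817)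 (nat_lit 27) (nat_lit 3) (nat_lit 34) (nat_lit 3) (nat_lit 34) (nat_lit 5) (nat_lit 266) (nat_lit 266) (nat_lit 188)) (XT.lf (nat_lit 0) (nat_lit 2163921844) (nat_lit 532) (nat_lit 2192302662) (nat_lit 532) (nat_lit 27403258974) (nat_lit 27) (nat_lit 3) (nat_lit 34) (nat_lit 3) (nat_lit 34) (nat_lit 5) (nat_lit 267) (nat_lit 266) (nat_lit 187)))) (XT.nd (nat_lit 78) (nat_lit 0) (nat_lit 0) (XT.lf (nat_lit 0) (nat_lit 2797541761) (nat_lit 456) (nat_lit 21855208393) (nat_lit 532) (nat_lit 8382017105) (nat_lit 28) (nat_lit 5) (nat_lit 34) (nat_lit 5) (nat_lit 35) (nat_lit 5) (nat_lit 268) (nat_lit 266) (nat_lit 186)) (XT.nd (nat_lit 78) (nat_lit 0) (nat_lit 76) (XT.lf (nat_lit 0) (nat_lit 3650838758) (nat_lit 456) (nat_lit 8779929825) (nat_lit 532) (nat_lit 21967831329) (nat_lit 28) (nat_lit 5) (nat_lit 34) (nat_lit 5) (nat_lit 35) (nat_lit 5) (nat_lit 269) (nat_lit 266) (nat_lit 185))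 (XT.lf (nat_lit 0) (nat_lit 4724340202) (nat_lit 456) (nat_lit 30264293848) (nat_lit 532) (nat_lit 870791698) (nat_lit 29) (nat_lit 5) (nat_lit 35) (nat_lit 5) (nat_lit 36) (nat_lit 5) (nat_lit 270) (nat_lit 266) (nat_lit 184))))) (XT.nd (nat_lit 234) (nat_lit 380) (nat_lit 0) (XT.nd (nat_lit 78) (nat_lit 0) (nat_lit 0) (XT.lf (nat_lit 0) (nat_lit 6447994850) (nat_lit 456) (nat_lit 16131397620) (nat_lit 532) (nat_lit 14812622061) (nat_lit 29) (nat_lit 5) (nat_lit 35) (nat_lit 5) (nat_lit 36) (nat_lit 5) (nat_lit 271) (nat_lit 266) (nat_lit 183)) (XT.nd (nat_lit 78) (nat_lit 0) (nat_lit 76) (XT.lf (nat_lit 0) (nat_lit 8305006543) (nat_lit 456) (nat_lit 871474536) (nat_lit 532) (nat_lit 29871128024) (nat_lit 29) (nat_lit 5) (nat_lit 35) (nat_lit 5) (nat_lit 36) (nat_lit 5) (nat_lit 272) (nat_lit 266) (nat_lit 182)) (XT.lf (nat_lit 0) (nat_lit 10839181663) (nat_lit 456) (nat_lit 24514445318)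 (nat_lit 76) (nat_lit 5439769262) (nat_lit 30) (nat_lit 5) (nat_lit 36) (nat_lit 5) (nat_lit 31) (nat_lit 5) (nat_lit 273) (nat_lit 266) (nat_lit 181)))) (XT.nd (nat_lit 78) (nat_lit 456) (nat_lit 0) (XT.lf (nat_lit 0) (nat_lit 13834938109) (nat_lit 456) (nat_lit 8068555782) (nat_lit 76) (nat_lit 20754675421) (nat_lit 30) (nat_lit 5) (nat_lit 36) (nat_lit 5) (nat_lit 31) (nat_lit 5) (nat_lit 274) (nat_lit 266) (nat_lit 180)) (XT.nd (nat_lit 78) (nat_lit 0) (nat_lit 0) (XT.lf (nat_lit 0) (nat_lit 10199894450) (nat_lit 456) (nat_lit 7112111474) (nat_lit 532) (nat_lit 27340814702) (nat_lit 24) (nat_lit 5) (nat_lit 30) (nat_lit 5) (nat_lit 31) (nat_lit 5) (nat_lit 275) (nat_lit 266) (nat_lit 179)) (XT.lf (nat_lit 0) (nat_lit 21503263439) (nat_lit 532) (nat_lit 16623158103) (nat_lit 76) (nat_lit 8645766916) (nat_lit 24) (nat_lit 5) (nat_lit 31) (nat_lit 5) (nat_lit 25) (nat_lit 5) (nat_lit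 276) (nat_lit 266) (nat_lit 178))))))))
noncomputable def xc95 : XT := (XT.nd (nat_lit 1794) (nat_lit 380) (nat_lit 0) (XT.nd (nat_lit 858) (nat_lit 532) (nat_lit 0) (XT.nd (nat_lit 390) (nat_lit 380) (nat_lit 0) (XT.nd (nat_lit 156) (nat_lit 152) (nat_lit 0) (XT.nd (nat_lit 78) (nat_lit 0) (nat_lit 0) (XT.lf (nat_lit 0) (nat_lit 2573698852) (nat_lit 228) (nat_lit 23699546935) (nat_lit 304) (nat_lit 22768410398) (nat_lit 21) (nat_lit 5) (nat_lit 24) (nat_lit 5) (nat_lit 25) (nat_lit 5) (nat_lit 277) (nat_lit 266) (nat_lit 177)) (XT.lf (nat_lit 0) (nat_lit 24248452638) (nat_lit 228) (nat_lit 7627836952) (nat_lit 304) (nat_lit 19580297307) (nat_lit 21) (nat_lit 5) (nat_lit 24) (nat_lit 5) (nat_lit 25) (nat_lit 5) (nat_lit 278) (nat_lit 266) (nat_lit 176))) (XT.nd (nat_lit 78) (nat_lit 152) (nat_lit 0) (XT.lf (nat_lit 0) (nat_lit 38158751927) (nat_lit 304) (nat_lit 6644751562) (nat_lit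 76) (nat_lit 9242735497) (nat_lit 21) (nat_lit 5) (nat_lit 25) (nat_lit 5) (nat_lit 22) (nat_lit 5) (nat_lit 279) (nat_lit 266) (nat_lit 175)) (XT.nd (nat_lit 78) (nat_lit 0) (nat_lit 0) (XT.lf (nat_lit 0) (nat_lit 16171552993) (nat_lit 152) (nat_lit 29356696872) (nat_lit 228) (nat_lit 11268077662) (nat_lit 19) (nat_lit 5) (nat_lit 21) (nat_lit 5) (nat_lit 22) (nat_lit 5) (nat_lit 280) (nat_lit 266) (nat_lit 174)) (XT.lf (nat_lit 0) (nat_lit 41188140816) (nat_lit 152) (nat_lit 12478356341) (nat_lit 228) (nat_lit 6085608773) (nat_lit 19) (nat_lit 5) (nat_lit 21) (nat_lit 5) (nat_lit 22) (nat_lit 5) (nat_lit 281) (nat_lit 266) (nat_lit 173))))) (XT.nd (nat_lit 234) (nat_lit 152) (nat_lit 0) (XT.nd (nat_lit 78) (nat_lit 76) (nat_lit 0) (XT.lf (nat_lit 0) (nat_lit 5390163433) (nat_lit 152) (nat_lit 57331253256) (nat_lit 228) (nat_lit 201697527) (nat_lit 17) (nat_lit 5) (nat_lit 19) (nat_lit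 5) (nat_lit 20) (nat_lit 5) (nat_lit 282) (nat_lit 266) (nat_lit 172)) (XT.nd (nat_lit 78) (nat_lit 0) (nat_lit 0) (XT.lf (nat_lit 0) (nat_lit 6687717746) (nat_lit 228) (nat_lit 34479051936) (nat_lit 76) (nat_lit 25101802646) (nat_lit 16) (nat_lit 5) (nat_lit 19) (nat_lit 5) (nat_lit 17) (nat_lit 5) (nat_lit 283) (nat_lit 266) (nat_lit 171)) (XT.lf (nat_lit 0) (nat_lit 14115275356) (nat_lit 228) (nat_lit 9588812532) (nat_lit 76) (nat_lit 46177342394) (nat_lit 16) (nat_lit 5) (nat_lit 19) (nat_lit 5) (nat_lit 17) (nat_lit 5) (nat_lit 284) (nat_lit 266) (nat_lit 170)))) (XT.nd (nat_lit 78) (nat_lit 0) (nat_lit 0) (XT.lf (nat_lit 0) (nat_lit 18200582839) (nat_lit 152) (nat_lit 4372221799) (nat_lit 228) (nat_lit 51175663075) (nat_lit 14) (nat_lit 5) (nat_lit 16) (nat_lit 5) (nat_lit 17) (nat_lit 5) (nat_lit 285) (nat_lit 266) (nat_lit 169)) (XT.nd (nat_lit 78) (nat_lit 0) (nat_lit 0) (XT.lf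 (nat_lit 0) (nat_lit 32371009490) (nat_lit 228) (nat_lit 29551836868) (nat_lit 76) (nat_lit 15948907229) (nat_lit 14) (nat_lit 5) (nat_lit 17) (nat_lit 5) (nat_lit 15) (nat_lit 5) (nat_lit 286) (nat_lit 266) (nat_lit 168)) (XT.lf (nat_lit 0) (nat_lit 43064888637) (nat_lit 228) (nat_lit 1592088433) (nat_lit 76) (nat_lit 37658990294) (nat_lit 14) (nat_lit 5) (nat_lit 17) (nat_lit 5) (nat_lit 15) (nat_lit 5) (nat_lit 287) (nat_lit 266) (nat_lit 167)))))) (XT.nd (nat_lit 468) (nat_lit 76) (nat_lit 0) (XT.nd (nat_lit 234) (nat_lit 228) (nat_lit 0) (XT.nd (nat_lit 78) (nat_lit 76) (nat_lit 0) (XT.lf (nat_lit 0) (nat_lit 30108341024) (nat_lit 152) (nat_lit 25228426478) (nat_lit 228) (nat_lit 31721161283) (nat_lit 12) (nat_lit 5) (nat_lit 14) (nat_lit 5) (nat_lit 15) (nat_lit 5) (nat_lit 288) (nat_lit 266) (nat_lit 166)) (XT.nd (nat_lit 78) (nat_lit 76) (nat_lit 0) (XT.lf (nat_lit 0) (nat_lit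 64433165018) (nat_lit 152) (nat_lit 4199212502) (nat_lit 228) (nat_lit 23543520105) (nat_lit 12) (nat_lit 5) (nat_lit 14) (nat_lit 5) (nat_lit 15) (nat_lit 5) (nat_lit 289) (nat_lit 266) (nat_lit 165)) (XT.lf (nat_lit 0) (nat_lit 3529898001) (nat_lit 76) (nat_lit 79990405666) (nat_lit 152) (nat_lit 14140715228) (nat_lit 11) (nat_lit 5) (nat_lit 12) (nat_lit 5) (nat_lit 13) (nat_lit 4) (nat_lit 290) (nat_lit 266) (nat_lit 164)))) (XT.nd (nat_lit 78) (nat_lit 228) (nat_lit 0) (XT.lf (nat_lit 0) (nat_lit 38765202307) (nat_lit 76) (nat_lit 61697514645) (nat_lit 152) (nat_lit 3053164365) (nat_lit 11) (nat_lit 5) (nat_lit 12) (nat_lit 5) (nat_lit 13) (nat_lit 4) (nat_lit 291) (nat_lit 266) (nat_lit 163)) (XT.nd (nat_lit 78) (nat_lit 152) (nat_lit 0) (XT.lf (nat_lit 0) (nat_lit 8473777722) (nat_lit 152) (nat_lit 33236360800) (nat_lit 76) (nat_lit 68111942333) (nat_lit 10) (nat_lit 5) (nat_lit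 12) (nat_lit 5) (nat_lit 11) (nat_lit 5) (nat_lit 292) (nat_lit 266) (nat_lit 162)) (XT.lf (nat_lit 0) (nat_lit 755754532) (nat_lit 152) (nat_lit 20019116049) (nat_lit 228) (nat_lit 95850211999) (nat_lit 8) (nat_lit 5) (nat_lit 10) (nat_lit 5) (nat_lit 11) (nat_lit 5) (nat_lit 293) (nat_lit 266) (nat_lit 161))))) (XT.nd (nat_lit 234) (nat_lit 76) (nat_lit 0) (XT.nd (nat_lit 78) (nat_lit 0) (nat_lit 0) (XT.lf (nat_lit 0) (nat_lit 35073140950) (nat_lit 228) (nat_lit 84649641111) (nat_lit 76) (nat_lit 4168500831) (nat_lit 8) (nat_lit 5) (nat_lit 11) (nat_lit 5) (nat_lit 9) (nat_lit 4) (nat_lit 294) (nat_lit 266) (nat_lit 160)) (XT.nd (nat_lit 78) (nat_lit 0) (nat_lit 0) (XT.lf (nat_lit 0) (nat_lit 51034141149) (nat_lit 228) (nat_lit 51454105986) (nat_lit 76) (nat_lit 29209027874) (nat_lit 8) (nat_lit 5) (nat_lit 11) (nat_lit 5) (nat_lit 9) (nat_lit 4) (nat_lit 295) (nat_lit 266) (nat_lit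 159)) (XT.lf (nat_lit 0) (nat_lit 68270994661) (nat_lit 228) (nat_lit 15604548170) (nat_lit 76) (nat_lit 56252290647) (nat_lit 8) (nat_lit 5) (nat_lit 11) (nat_lit 5) (nat_lit 9) (nat_lit 4) (nat_lit 296) (nat_lit 266) (nat_lit 158)))) (XT.nd (nat_lit 78) (nat_lit 0) (nat_lit 0) (XT.lf (nat_lit 0) (nat_lit 24328483433) (nat_lit 76) (nat_lit 63142462983) (nat_lit 152) (nat_lit 61715162702) (nat_lit 7) (nat_lit 5) (nat_lit 8) (nat_lit 5) (nat_lit 9) (nat_lit 4) (nat_lit 297) (nat_lit 266) (nat_lit 157)) (XT.nd (nat_lit 78) (nat_lit 0) (nat_lit 0) (XT.lf (nat_lit 0) (nat_lit 68342139914) (nat_lit 76) (nat_lit 40290495001) (nat_lit 152) (nat_lit 50302356802) (nat_lit 7) (nat_lit 5) (nat_lit 8) (nat_lit 5) (nat_lit 9) (nat_lit 4) (nat_lit 298) (nat_lit 266) (nat_lit 156)) (XT.lf (nat_lit 0) (nat_lit 115875535087) (nat_lit 76) (nat_lit 15610875819) (nat_lit 152) (nat_lit 37977445674) (nat_lit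 7) (nat_lit 5) (nat_lit 8) (nat_lit 5) (nat_lit 9) (nat_lit 4) (nat_lit 299) (nat_lit 266) (nat_lit 155))))))) (XT.nd (nat_lit 858) (nat_lit 152) (nat_lit 0) (XT.nd (nat_lit 390) (nat_lit 76) (nat_lit 0) (XT.nd (nat_lit 156) (nat_lit 76) (nat_lit 0) (XT.nd (nat_lit 78) (nat_lit 76) (nat_lit 0) (XT.lf (nat_lit 0) (nat_lit 156433280030) (nat_lit 152) (nat_lit 13890324506) (nat_lit 0) (nat_lit 10490246375) (nat_lit 7) (nat_lit 5) (nat_lit 9) (nat_lit 4) (nat_lit 7) (nat_lit 4) (nat_lit 300) (nat_lit 266) (nat_lit 154)) (XT.lf (nat_lit 0) (nat_lit 30081628132) (nat_lit 76) (nat_lit 154422474615) (nat_lit 76) (nat_lit 8477489016) (nat_lit 6) (nat_lit 4) (nat_lit 7) (nat_lit 5) (nat_lit 7) (nat_lit 4) (nat_lit 301) (nat_lit 266) (nat_lit 153))) (XT.nd (nat_lit 78) (nat_lit 0) (nat_lit 0) (XT.lf (nat_lit 0) (nat_lit 8651656627) (nat_lit 152) (nat_lit 127951347169) (nat_lit 76) (nat_lit 69471902786)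 (nat_lit 5) (nat_lit 5) (nat_lit 7) (nat_lit 5) (nat_lit 6) (nat_lit 4) (nat_lit 302) (nat_lit 266) (nat_lit 152)) (XT.nd (nat_lit 78) (nat_lit 0) (nat_lit 0) (XT.lf (nat_lit 0) (nat_lit 26692451285) (nat_lit 152) (nat_lit 90428167758) (nat_lit 76) (nat_lit 103077508844) (nat_lit 5) (nat_lit 5) (nat_lit 7) (nat_lit 5) (nat_lit 6) (nat_lit 4) (nat_lit 303) (nat_lit 266) (nat_lit 151)) (XT.lf (nat_lit 0) (nat_lit 46175881704) (nat_lit 152) (nat_lit 49904182003) (nat_lit 76) (nat_lit 139371195840) (nat_lit 5) (nat_lit 5) (nat_lit 7) (nat_lit 5) (nat_lit 6) (nat_lit 4) (nat_lit 304) (nat_lit 266) (nat_lit 150))))) (XT.nd (nat_lit 234) (nat_lit 0) (nat_lit 0) (XT.nd (nat_lit 78) (nat_lit 76) (nat_lit 0) (XT.lf (nat_lit 0) (nat_lit 67217405249) (nat_lit 152) (nat_lit 6139247765) (nat_lit 76) (nat_lit 178568037475) (nat_lit 5) (nat_lit 5) (nat_lit 7) (nat_lit 5) (nat_lit 6) (nat_lit 4) (nat_lit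 305) (nat_lit 266) (nat_lit 149)) (XT.nd (nat_lit 78) (nat_lit 0) (nat_lit 0) (XT.lf (nat_lit 0) (nat_lit 43291604080) (nat_lit 76) (nat_lit 47691272470) (nat_lit 152) (nat_lit 178649871366) (nat_lit 4) (nat_lit 5) (nat_lit 5) (nat_lit 5) (nat_lit 6) (nat_lit 4) (nat_lit 306) (nat_lit 266) (nat_lit 148)) (XT.lf (nat_lit 0) (nat_lit 97025192784) (nat_lit 76) (nat_lit 19791731247) (nat_lit 152) (nat_lit 171927140755) (nat_lit 4) (nat_lit 5) (nat_lit 5) (nat_lit 5) (nat_lit 6) (nat_lit 4) (nat_lit 307) (nat_lit 266) (nat_lit 147)))) (XT.nd (nat_lit 78) (nat_lit 0) (nat_lit 0) (XT.lf (nat_lit 0) (nat_lit 144965878210) (nat_lit 152) (nat_lit 154576333423) (nat_lit 0) (nat_lit 9822222522) (nat_lit 4) (nat_lit 5) (nat_lit 6) (nat_lit 4) (nat_lit 4) (nat_lit 4) (nat_lit 308) (nat_lit 266) (nat_lit 146)) (XT.nd (nat_lit 78) (nat_lit 0) (nat_lit 0) (XT.lf (nat_lit 0) (nat_lit 175880366982) (nat_lit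 152) (nat_lit 114977243445) (nat_lit 0) (nat_lit 40735734836) (nat_lit 4) (nat_lit 5) (nat_lit 6) (nat_lit 4) (nat_lit 4) (nat_lit 4) (nat_lit 309) (nat_lit 266) (nat_lit 145)) (XT.lf (nat_lit 0) (nat_lit 209267595706) (nat_lit 152) (nat_lit 72210949182) (nat_lit 0) (nat_lit 74122059433) (nat_lit 4) (nat_lit 5) (nat_lit 6) (nat_lit 4) (nat_lit 4) (nat_lit 4) (nat_lit 310) (nat_lit 266) (nat_lit 144)))))) (XT.nd (nat_lit 468) (nat_lit 76) (nat_lit 0) (XT.nd (nat_lit 234) (nat_lit 0) (nat_lit 0) (XT.nd (nat_lit 78) (nat_lit 76) (nat_lit 0) (XT.lf (nat_lit 0) (nat_lit 245325414626) (nat_lit 152) (nat_lit 26024020742) (nat_lit 0) (nat_lit 110179041198) (nat_lit 4) (nat_lit 5) (nat_lit 6) (nat_lit 4) (nat_lit 4) (nat_lit 4) (nat_lit 311) (nat_lit 266) (nat_lit 143)) (XT.nd (nat_lit 78) (nat_lit 0) (nat_lit 0) (XT.lf (nat_lit 0) (nat_lit 25113522285) (nat_lit 76) (nat_lit 259757958236) (nat_lit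 76) (nat_lit 124610809664) (nat_lit 3) (nat_lit 4) (nat_lit 4) (nat_lit 5) (nat_lit 4) (nat_lit 4) (nat_lit 312) (nat_lit 266) (nat_lit 142)) (XT.lf (nat_lit 0) (nat_lit 81821473784) (nat_lit 76) (nat_lit 246470953487) (nat_lit 76) (nat_lit 111323087189) (nat_lit 3) (nat_lit 4) (nat_lit 4) (nat_lit 5) (nat_lit 4) (nat_lit 4) (nat_lit 313) (nat_lit 266) (nat_lit 141)))) (XT.nd (nat_lit 78) (nat_lit 0) (nat_lit 0) (XT.lf (nat_lit 0) (nat_lit 143065502059) (nat_lit 76) (nat_lit 232121226161) (nat_lit 76) (nat_lit 96972695302) (nat_lit 3) (nat_lit 4) (nat_lit 4) (nat_lit 5) (nat_lit 4) (nat_lit 4) (nat_lit 314) (nat_lit 266) (nat_lit 140)) (XT.nd (nat_lit 78) (nat_lit 0) (nat_lit 0) (XT.lf (nat_lit 0) (nat_lit 209208534686) (nat_lit 76) (nat_lit 216623740838) (nat_lit 76) (nat_lit 81474594645) (nat_lit 3) (nat_lit 4) (nat_lit 4) (nat_lit 5) (nat_lit 4) (nat_lit 4) (nat_lit 315) (nat_lit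 266) (nat_lit 139)) (XT.lf (nat_lit 0) (nat_lit 280642530376) (nat_lit 76) (nat_lit 199886660567) (nat_lit 76) (nat_lit 64736944620) (nat_lit 3) (nat_lit 4) (nat_lit 4) (nat_lit 5) (nat_lit 4) (nat_lit 4) (nat_lit 316) (nat_lit 266) (nat_lit 138))))) (XT.nd (nat_lit 234) (nat_lit 76) (nat_lit 0) (XT.nd (nat_lit 78) (nat_lit 0) (nat_lit 0) (XT.lf (nat_lit 0) (nat_lit 357790801697) (nat_lit 76) (nat_lit 181810802651) (nat_lit 76) (nat_lit 46660559153) (nat_lit 3) (nat_lit 4) (nat_lit 4) (nat_lit 5) (nat_lit 4) (nat_lit 4) (nat_lit 317) (nat_lit 266) (nat_lit 137)) (XT.nd (nat_lit 78) (nat_lit 0) (nat_lit 0) (XT.lf (nat_lit 0) (nat_lit 441110523589) (nat_lit 76) (nat_lit 162289050894) (nat_lit 76) (nat_lit 27138318924) (nat_lit 3) (nat_lit 4) (nat_lit 4) (nat_lit 5) (nat_lit 4) (nat_lit 4) (nat_lit 318) (nat_lit 266) (nat_lit 136)) (XT.lf (nat_lit 0) (nat_lit 531095442553) (nat_lit 76)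 (nat_lit 141205720841) (nat_lit 76) (nat_lit 6054536583) (nat_lit 3) (nat_lit 4) (nat_lit 4) (nat_lit 5) (nat_lit 4) (nat_lit 4) (nat_lit 319) (nat_lit 266) (nat_lit 135)))) (XT.nd (nat_lit 78) (nat_lit 0) (nat_lit 0) (XT.lf (nat_lit 0) (nat_lit 15879540349) (nat_lit 152) (nat_lit 102122159117) (nat_lit 76) (nat_lit 611965087429) (nat_lit 2) (nat_lit 5) (nat_lit 4) (nat_lit 5) (nat_lit 3) (nat_lit 4) (nat_lit 320) (nat_lit 266) (nat_lit 134)) (XT.nd (nat_lit 78) (nat_lit 0) (nat_lit 0) (XT.lf (nat_lit 0) (nat_lit 39241048089) (nat_lit 152) (nat_lit 53530610784) (nat_lit 76) (nat_lit 692922537096) (nat_lit 2) (nat_lit 5) (nat_lit 4) (nat_lit 5) (nat_lit 3) (nat_lit 4) (nat_lit 321) (nat_lit 266) (nat_lit 133)) (XT.lf (nat_lit 0) (nat_lit 64471297641) (nat_lit 152) (nat_lit 1052050757) (nat_lit 76) (nat_lit 780356464235) (nat_lit 2) (nat_lit 5) (nat_lit 4) (nat_lit 5) (nat_lit 3) (nat_lit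 4) (nat_lit 322) (nat_lit 266) (nat_lit 132))))))))
noncomputable def xc96 : XT := (XT.nd (nat_lit 34320) (nat_lit 0) (nat_lit 304) (XT.nd (nat_lit 33462) (nat_lit 0) (nat_lit 1368) (XT.nd (nat_lit 390) (nat_lit 0) (nat_lit 0) (XT.nd (nat_lit 156) (nat_lit 0) (nat_lit 0) (XT.nd (nat_lit 78) (nat_lit 0) (nat_lit 0) (XT.lf (nat_lit 0) (nat_lit 58553592881) (nat_lit 76) (nat_lit 34574424031) (nat_lit 152) (nat_lit 817639618259) (nat_lit 1) (nat_lit 5) (nat_lit 2) (nat_lit 5) (nat_lit 3) (nat_lit 4) (nat_lit 323) (nat_lit 266) (nat_lit 131)) (XT.lf (nat_lit 0) (nat_lit 122987237338) (nat_lit 76) (nat_lit 1118641245) (nat_lit 152) (nat_lit 856738317022) (nat_lit 1) (nat_lit 5) (nat_lit 2) (nat_lit 5) (nat_lit 3) (nat_lit 4) (nat_lit 324) (nat_lit 266) (nat_lit 130))) (XT.nd (nat_lit 78) (nat_lit 0) (nat_lit 0) (XT.lf (nat_lit 0) (nat_lit 158403896286) (nat_lit 152) (nat_lit 864793656003)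 (nat_lit 0) (nat_lit 33261974864) (nat_lit 1) (nat_lit 5) (nat_lit 3) (nat_lit 4) (nat_lit 1) (nat_lit 4) (nat_lit 325) (nat_lit 266) (nat_lit 129)) (XT.nd (nat_lit 78) (nat_lit 0) (nat_lit 0) (XT.lf (nat_lit 0) (nat_lit 195474671276) (nat_lit 152) (nat_lit 872314595596) (nat_lit 0) (nat_lit 70332505496) (nat_lit 1) (nat_lit 5) (nat_lit 3) (nat_lit 4) (nat_lit 1) (nat_lit 4) (nat_lit 326) (nat_lit 266) (nat_lit 128)) (XT.lf (nat_lit 0) (nat_lit 235510978870) (nat_lit 152) (nat_lit 880437442230) (nat_lit 0) (nat_lit 110368586833) (nat_lit 1) (nat_lit 5) (nat_lit 3) (nat_lit 4) (nat_lit 1) (nat_lit 4) (nat_lit 327) (nat_lit 266) (nat_lit 127))))) (XT.nd (nat_lit 32838) (nat_lit 0) (nat_lit 1976) (XT.nd (nat_lit 78) (nat_lit 0) (nat_lit 0) (XT.lf (nat_lit 0) (nat_lit 278750071263) (nat_lit 152) (nat_lit 889210331293) (nat_lit 0) (nat_lit 153607469728) (nat_lit 1) (nat_lit 5) (nat_lit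 3) (nat_lit 4) (nat_lit 1) (nat_lit 4) (nat_lit 328) (nat_lit 266) (nat_lit 126)) (XT.nd (nat_lit 32682) (nat_lit 0) (nat_lit 1976) (XT.lf (nat_lit 0) (nat_lit 325448180112) (nat_lit 152) (nat_lit 898685250274) (nat_lit 0) (nat_lit 200305384598) (nat_lit 1) (nat_lit 5) (nat_lit 3) (nat_lit 4) (nat_lit 1) (nat_lit 4) (nat_lit 329) (nat_lit 266) (nat_lit 125)) (XT.lf (nat_lit 0) (nat_lit 1151389570) (nat_lit 532) (nat_lit 7668331790) (nat_lit 532) (nat_lit 7668331790) (nat_lit 27) (nat_lit 3) (nat_lit 34) (nat_lit 3) (nat_lit 34) (nat_lit 5) (nat_lit 267) (nat_lit 267) (nat_lit 186)))) (XT.nd (nat_lit 78) (nat_lit 0) (nat_lit 76) (XT.lf (nat_lit 0) (nat_lit 2447103304) (nat_lit 532) (nat_lit 2307809668) (nat_lit 532) (nat_lit 29535642485) (nat_lit 27) (nat_lit 3) (nat_lit 34) (nat_lit 3) (nat_lit 34) (nat_lit 5) (nat_lit 268) (nat_lit 267) (nat_lit 185)) (XT.nd (nat_lit 78) (nat_lit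 0) (nat_lit 0) (XT.lf (nat_lit 0) (nat_lit 3123582030) (nat_lit 456) (nat_lit 23535101067) (nat_lit 532) (nat_lit 9009870584) (nat_lit 28) (nat_lit 5) (nat_lit 34) (nat_lit 5) (nat_lit 35) (nat_lit 5) (nat_lit 269) (nat_lit 267) (nat_lit 184)) (XT.lf (nat_lit 0) (nat_lit 4037569680) (nat_lit 456) (nat_lit 9418876065) (nat_lit 532) (nat_lit 23685713493) (nat_lit 28) (nat_lit 5) (nat_lit 34) (nat_lit 5) (nat_lit 35) (nat_lit 5) (nat_lit 270) (nat_lit 267) (nat_lit 183)))))) (XT.nd (nat_lit 390) (nat_lit 760) (nat_lit 0) (XT.nd (nat_lit 156) (nat_lit 0) (nat_lit 0) (XT.nd (nat_lit 78) (nat_lit 0) (nat_lit 0) (XT.lf (nat_lit 0) (nat_lit 5190769907) (nat_lit 456) (nat_lit 32615108284) (nat_lit 532) (nat_lit 914523424) (nat_lit 29) (nat_lit 5) (nat_lit 35) (nat_lit 5) (nat_lit 36) (nat_lit 5) (nat_lit 271) (nat_lit 267) (nat_lit 182)) (XT.lf (nat_lit 0) (nat_lit 7045762669) (nat_lit 456)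 (nat_lit 17356789919) (nat_lit 532) (nat_lit 15973621077) (nat_lit 29) (nat_lit 5) (nat_lit 35) (nat_lit 5) (nat_lit 36) (nat_lit 5) (nat_lit 272) (nat_lit 267) (nat_lit 181))) (XT.nd (nat_lit 78) (nat_lit 0) (nat_lit 76) (XT.lf (nat_lit 0) (nat_lit 9045266539) (nat_lit 456) (nat_lit 880896656) (nat_lit 532) (nat_lit 32238586091) (nat_lit 29) (nat_lit 5) (nat_lit 35) (nat_lit 5) (nat_lit 36) (nat_lit 5) (nat_lit 273) (nat_lit 267) (nat_lit 180)) (XT.nd (nat_lit 78) (nat_lit 0) (nat_lit 0) (XT.lf (nat_lit 0) (nat_lit 11777659986) (nat_lit 456) (nat_lit 26410234058) (nat_lit 76) (nat_lit 5862711036) (nat_lit 30) (nat_lit 5) (nat_lit 36) (nat_lit 5) (nat_lit 31) (nat_lit 5) (nat_lit 274) (nat_lit 267) (nat_lit 179)) (XT.lf (nat_lit 0) (nat_lit 15007792222) (nat_lit 456) (nat_lit 8653515351) (nat_lit 76) (nat_lit 22403716338) (nat_lit 30) (nat_lit 5) (nat_lit 36) (nat_lit 5) (nat_lit 31)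 (nat_lit 5) (nat_lit 275) (nat_lit 267) (nat_lit 178))))) (XT.nd (nat_lit 234) (nat_lit 152) (nat_lit 0) (XT.nd (nat_lit 78) (nat_lit 228) (nat_lit 0) (XT.lf (nat_lit 0) (nat_lit 11074878624) (nat_lit 456) (nat_lit 7684672348) (nat_lit 532) (nat_lit 29460012407) (nat_lit 24) (nat_lit 5) (nat_lit 30) (nat_lit 5) (nat_lit 31) (nat_lit 5) (nat_lit 276) (nat_lit 267) (nat_lit 177)) (XT.nd (nat_lit 78) (nat_lit 228) (nat_lit 0) (XT.lf (nat_lit 0) (nat_lit 23281393207) (nat_lit 532) (nat_lit 17893231213) (nat_lit 76) (nat_lit 9334268758) (nat_lit 24) (nat_lit 5) (nat_lit 31) (nat_lit 5) (nat_lit 25) (nat_lit 5) (nat_lit 277) (nat_lit 267) (nat_lit 176)) (XT.lf (nat_lit 0) (nat_lit 2837860892) (nat_lit 228) (nat_lit 25592227982) (nat_lit 304) (nat_lit 24530092926) (nat_lit 21) (nat_lit 5) (nat_lit 24) (nat_lit 5) (nat_lit 25) (nat_lit 5) (nat_lit 278) (nat_lit 267) (nat_lit 175)))) (XT.nd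 (nat_lit 78) (nat_lit 152) (nat_lit 0) (XT.lf (nat_lit 0) (nat_lit 26242278972) (nat_lit 228) (nat_lit 8235024363) (nat_lit 304) (nat_lit 21091359699) (nat_lit 21) (nat_lit 5) (nat_lit 24) (nat_lit 5) (nat_lit 25) (nat_lit 5) (nat_lit 279) (nat_lit 267) (nat_lit 174)) (XT.nd (nat_lit 78) (nat_lit 152) (nat_lit 0) (XT.lf (nat_lit 0) (nat_lit 41258659192) (nat_lit 304) (nat_lit 7122324432) (nat_lit 76) (nat_lit 9984827943) (nat_lit 21) (nat_lit 5) (nat_lit 25) (nat_lit 5) (nat_lit 22) (nat_lit 5) (nat_lit 280) (nat_lit 267) (nat_lit 173)) (XT.lf (nat_lit 0) (nat_lit 17517917216) (nat_lit 152) (nat_lit 31697568919) (nat_lit 228) (nat_lit 12120625446) (nat_lit 19) (nat_lit 5) (nat_lit 21) (nat_lit 5) (nat_lit 22) (nat_lit 5) (nat_lit 281) (nat_lit 267) (nat_lit 172))))))) (XT.nd (nat_lit 858) (nat_lit 456) (nat_lit 0) (XT.nd (nat_lit 390) (nat_lit 228) (nat_lit 0) (XT.nd (nat_lit 156)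 (nat_lit 228) (nat_lit 0) (XT.nd (nat_lit 78) (nat_lit 152) (nat_lit 0) (XT.lf (nat_lit 0) (nat_lit 44531932806) (nat_lit 152) (nat_lit 13469528827) (nat_lit 228) (nat_lit 6527181152) (nat_lit 19) (nat_lit 5) (nat_lit 21) (nat_lit 5) (nat_lit 22) (nat_lit 5) (nat_lit 282) (nat_lit 267) (nat_lit 171)) (XT.lf (nat_lit 0) (nat_lit 5872256632) (nat_lit 152) (nat_lit 61906814990) (nat_lit 228) (nat_lit 174418586) (nat_lit 17) (nat_lit 5) (nat_lit 19) (nat_lit 5) (nat_lit 20) (nat_lit 5) (nat_lit 283) (nat_lit 267) (nat_lit 170))) (XT.nd (nat_lit 78) (nat_lit 152) (nat_lit 0) (XT.lf (nat_lit 0) (nat_lit 7260923094) (nat_lit 228) (nat_lit 37188015772) (nat_lit 76) (nat_lit 27117826031) (nat_lit 16) (nat_lit 5) (nat_lit 19) (nat_lit 5) (nat_lit 17) (nat_lit 5) (nat_lit 284) (nat_lit 267) (nat_lit 169)) (XT.nd (nat_lit 78) (nat_lit 152) (nat_lit 0) (XT.lf (nat_lit 0) (nat_lit 15279856576) (nat_lit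 228) (nat_lit 10310213536) (nat_lit 76) (nat_lit 49878825315) (nat_lit 16) (nat_lit 5) (nat_lit 19) (nat_lit 5) (nat_lit 17) (nat_lit 5) (nat_lit 285) (nat_lit 267) (nat_lit 168)) (XT.lf (nat_lit 0) (nat_lit 19701176402) (nat_lit 152) (nat_lit 4711263956) (nat_lit 228) (nat_lit 55232995661) (nat_lit 14) (nat_lit 5) (nat_lit 16) (nat_lit 5) (nat_lit 17) (nat_lit 5) (nat_lit 286) (nat_lit 267) (nat_lit 167))))) (XT.nd (nat_lit 234) (nat_lit 76) (nat_lit 0) (XT.nd (nat_lit 78) (nat_lit 152) (nat_lit 0) (XT.lf (nat_lit 0) (nat_lit 34992236118) (nat_lit 228) (nat_lit 31872282099) (nat_lit 76) (nat_lit 17234262909) (nat_lit 14) (nat_lit 5) (nat_lit 17) (nat_lit 5) (nat_lit 15) (nat_lit 5) (nat_lit 287) (nat_lit 267) (nat_lit 166)) (XT.nd (nat_lit 78) (nat_lit 152) (nat_lit 0) (XT.lf (nat_lit 0) (nat_lit 46539288866) (nat_lit 228) (nat_lit 1678990953) (nat_lit 76) (nat_lit 40680453131) (nat_lit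 14) (nat_lit 5) (nat_lit 17) (nat_lit 5) (nat_lit 15) (nat_lit 5) (nat_lit 288) (nat_lit 267) (nat_lit 165)) (XT.lf (nat_lit 0) (nat_lit 32556448441) (nat_lit 152) (nat_lit 27235254495) (nat_lit 228) (nat_lit 34228458525) (nat_lit 12) (nat_lit 5) (nat_lit 14) (nat_lit 5) (nat_lit 15) (nat_lit 5) (nat_lit 289) (nat_lit 267) (nat_lit 164)))) (XT.nd (nat_lit 78) (nat_lit 76) (nat_lit 0) (XT.lf (nat_lit 0) (nat_lit 69624336864) (nat_lit 152) (nat_lit 4524551260) (nat_lit 228) (nat_lit 25398857582) (nat_lit 12) (nat_lit 5) (nat_lit 14) (nat_lit 5) (nat_lit 15) (nat_lit 5) (nat_lit 290) (nat_lit 267) (nat_lit 163)) (XT.nd (nat_lit 78) (nat_lit 0) (nat_lit 0) (XT.lf (nat_lit 0) (nat_lit 3849802958) (nat_lit 76) (nat_lit 86377263572) (nat_lit 152) (nat_lit 15244683812) (nat_lit 11) (nat_lit 5) (nat_lit 12) (nat_lit 5) (nat_lit 13) (nat_lit 4) (nat_lit 291) (nat_lit 267) (nat_lit 162)) (XT.lf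 (nat_lit 0) (nat_lit 41901152859) (nat_lit 76) (nat_lit 66621857903) (nat_lit 152) (nat_lit 3272150259) (nat_lit 11) (nat_lit 5) (nat_lit 12) (nat_lit 5) (nat_lit 13) (nat_lit 4) (nat_lit 292) (nat_lit 267) (nat_lit 161)))))) (XT.nd (nat_lit 468) (nat_lit 152) (nat_lit 0) (XT.nd (nat_lit 234) (nat_lit 76) (nat_lit 0) (XT.nd (nat_lit 78) (nat_lit 152) (nat_lit 0) (XT.lf (nat_lit 0) (nat_lit 9173905203) (nat_lit 152) (nat_lit 35861827544) (nat_lit 76) (nat_lit 73570226231) (nat_lit 10) (nat_lit 5) (nat_lit 12) (nat_lit 5) (nat_lit 11) (nat_lit 5) (nat_lit 293) (nat_lit 267) (nat_lit 160)) (XT.nd (nat_lit 78) (nat_lit 0) (nat_lit 0) (XT.lf (nat_lit 0) (nat_lit 848810379) (nat_lit 152) (nat_lit 21609412718) (nat_lit 228) (nat_lit 103495054907) (nat_lit 8) (nat_lit 5) (nat_lit 10) (nat_lit 5) (nat_lit 11) (nat_lit 5) (nat_lit 294) (nat_lit 267) (nat_lit 159)) (XT.lf (nat_lit 0) (nat_lit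 37899022794) (nat_lit 228) (nat_lit 91390004508) (nat_lit 76) (nat_lit 4511861189) (nat_lit 8) (nat_lit 5) (nat_lit 11) (nat_lit 5) (nat_lit 9) (nat_lit 4) (nat_lit 295) (nat_lit 267) (nat_lit 158)))) (XT.nd (nat_lit 78) (nat_lit 76) (nat_lit 0) (XT.lf (nat_lit 0) (nat_lit 55135419263) (nat_lit 228) (nat_lit 55541167899) (nat_lit 76) (nat_lit 31554898521) (nat_lit 8) (nat_lit 5) (nat_lit 11) (nat_lit 5) (nat_lit 9) (nat_lit 4) (nat_lit 296) (nat_lit 267) (nat_lit 157)) (XT.nd (nat_lit 78) (nat_lit 76) (nat_lit 0) (XT.lf (nat_lit 0) (nat_lit 73749847218) (nat_lit 228) (nat_lit 16825813351) (nat_lit 76) (nat_lit 60760944656) (nat_lit 8) (nat_lit 5) (nat_lit 11) (nat_lit 5) (nat_lit 9) (nat_lit 4) (nat_lit 297) (nat_lit 267) (nat_lit 156)) (XT.lf (nat_lit 0) (nat_lit 26301174737) (nat_lit 76) (nat_lit 68183983527) (nat_lit 152) (nat_lit 66634441606) (nat_lit 7) (nat_lit 5) (nat_lit 8)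 (nat_lit 5) (nat_lit 9) (nat_lit 4) (nat_lit 298) (nat_lit 267) (nat_lit 155))))) (XT.nd (nat_lit 234) (nat_lit 152) (nat_lit 0) (XT.nd (nat_lit 78) (nat_lit 0) (nat_lit 0) (XT.lf (nat_lit 0) (nat_lit 73833967246) (nat_lit 76) (nat_lit 43504589700) (nat_lit 152) (nat_lit 54309939686) (nat_lit 7) (nat_lit 5) (nat_lit 8) (nat_lit 5) (nat_lit 9) (nat_lit 4) (nat_lit 299) (nat_lit 267) (nat_lit 154)) (XT.nd (nat_lit 78) (nat_lit 0) (nat_lit 0) (XT.lf (nat_lit 0) (nat_lit 125168222467) (nat_lit 76) (nat_lit 16851278383) (nat_lit 152) (nat_lit 41000265717) (nat_lit 7) (nat_lit 5) (nat_lit 8) (nat_lit 5) (nat_lit 9) (nat_lit 4) (nat_lit 300) (nat_lit 267) (nat_lit 153)) (XT.lf (nat_lit 0) (nat_lit 168961257909) (nat_lit 152) (nat_lit 14979662070) (nat_lit 0) (nat_lit 11336914162) (nat_lit 7) (nat_lit 5) (nat_lit 9) (nat_lit 4) (nat_lit 7) (nat_lit 4) (nat_lit 301) (nat_lit 267) (nat_lit 152))))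 (XT.nd (nat_lit 78) (nat_lit 76) (nat_lit 0) (XT.lf (nat_lit 0) (nat_lit 32509492643) (nat_lit 76) (nat_lit 166767780558) (nat_lit 76) (nat_lit 9141763334) (nat_lit 6) (nat_lit 4) (nat_lit 7) (nat_lit 5) (nat_lit 7) (nat_lit 4) (nat_lit 302) (nat_lit 267) (nat_lit 151)) (XT.nd (nat_lit 78) (nat_lit 0) (nat_lit 0) (XT.lf (nat_lit 0) (nat_lit 9356037516) (nat_lit 152) (nat_lit 138167008704) (nat_lit 76) (nat_lit 75036825703) (nat_lit 5) (nat_lit 5) (nat_lit 7) (nat_lit 5) (nat_lit 6) (nat_lit 4) (nat_lit 303) (nat_lit 267) (nat_lit 150)) (XT.lf (nat_lit 0) (nat_lit 28839188461) (nat_lit 152) (nat_lit 97643489477) (nat_lit 76) (nat_lit 111330349083) (nat_lit 5) (nat_lit 5) (nat_lit 7) (nat_lit 5) (nat_lit 6) (nat_lit 4) (nat_lit 304) (nat_lit 267) (nat_lit 149))))))))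
noncomputable def xc97 : XT := (XT.nd (nat_lit 1794) (nat_lit 0) (nat_lit 0) (XT.nd (nat_lit 858) (nat_lit 152) (nat_lit 0) (XT.nd (nat_lit 390) (nat_lit 76) (nat_lit 0) (XT.nd (nat_lit 156) (nat_lit 76) (nat_lit 0) (XT.nd (nat_lit 78) (nat_lit 0) (nat_lit 0) (XT.lf (nat_lit 0) (nat_lit 49880453234) (nat_lit 152) (nat_lit 53878987210) (nat_lit 76) (nat_lit 150527039221) (nat_lit 5) (nat_lit 5) (nat_lit 7) (nat_lit 5) (nat_lit 6) (nat_lit 4) (nat_lit 305) (nat_lit 267) (nat_lit 148)) (XT.lf (nat_lit 0) (nat_lit 72604520812) (nat_lit 152) (nat_lit 6614156703) (nat_lit 76) (nat_lit 192859172800) (nat_lit 5) (nat_lit 5) (nat_lit 7) (nat_lit 5) (nat_lit 6) (nat_lit 4) (nat_lit 306) (nat_lit 267) (nat_lit 147))) (XT.nd (nat_lit 78) (nat_lit 0) (nat_lit 0) (XT.lf (nat_lit 0) (nat_lit 46770752382) (nat_lit 76) (nat_lit 51500137673) (nat_lit 152) (nat_lit 192931692245) (nat_lit 4) (nat_lit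 5) (nat_lit 5) (nat_lit 5) (nat_lit 6) (nat_lit 4) (nat_lit 307) (nat_lit 267) (nat_lit 146)) (XT.nd (nat_lit 78) (nat_lit 0) (nat_lit 0) (XT.lf (nat_lit 0) (nat_lit 104801856331) (nat_lit 76) (nat_lit 21369109937) (nat_lit 152) (nat_lit 185671896432) (nat_lit 4) (nat_lit 5) (nat_lit 5) (nat_lit 5) (nat_lit 6) (nat_lit 4) (nat_lit 308) (nat_lit 267) (nat_lit 145)) (XT.lf (nat_lit 0) (nat_lit 156571325919) (nat_lit 152) (nat_lit 166928336338) (nat_lit 0) (nat_lit 10613242616) (nat_lit 4) (nat_lit 5) (nat_lit 6) (nat_lit 4) (nat_lit 4) (nat_lit 4) (nat_lit 309) (nat_lit 267) (nat_lit 144))))) (XT.nd (nat_lit 234) (nat_lit 76) (nat_lit 0) (XT.nd (nat_lit 78) (nat_lit 0) (nat_lit 0) (XT.lf (nat_lit 0) (nat_lit 189958368056) (nat_lit 152) (nat_lit 124162363885) (nat_lit 0) (nat_lit 43999447598) (nat_lit 4) (nat_lit 5) (nat_lit 6) (nat_lit 4) (nat_lit 4) (nat_lit 4) (nat_lit 310) (nat_lit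 267) (nat_lit 143)) (XT.nd (nat_lit 78) (nat_lit 0) (nat_lit 0) (XT.lf (nat_lit 0) (nat_lit 226016014210) (nat_lit 152) (nat_lit 77975733417) (nat_lit 0) (nat_lit 80056318608) (nat_lit 4) (nat_lit 5) (nat_lit 6) (nat_lit 4) (nat_lit 4) (nat_lit 4) (nat_lit 311) (nat_lit 267) (nat_lit 142)) (XT.lf (nat_lit 0) (nat_lit 264957939322) (nat_lit 152) (nat_lit 28094746384) (nat_lit 0) (nat_lit 118997525994) (nat_lit 4) (nat_lit 5) (nat_lit 6) (nat_lit 4) (nat_lit 4) (nat_lit 4) (nat_lit 312) (nat_lit 267) (nat_lit 141)))) (XT.nd (nat_lit 78) (nat_lit 0) (nat_lit 0) (XT.lf (nat_lit 0) (nat_lit 27133516643) (nat_lit 76) (nat_lit 280533955440) (nat_lit 76) (nat_lit 134572877551) (nat_lit 3) (nat_lit 4) (nat_lit 4) (nat_lit 5) (nat_lit 4) (nat_lit 4) (nat_lit 313) (nat_lit 267) (nat_lit 140)) (XT.nd (nat_lit 78) (nat_lit 0) (nat_lit 0) (XT.lf (nat_lit 0) (nat_lit 88377295923) (nat_lit 76) (nat_lit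 266184333974) (nat_lit 76) (nat_lit 120222640751) (nat_lit 3) (nat_lit 4) (nat_lit 4) (nat_lit 5) (nat_lit 4) (nat_lit 4) (nat_lit 314) (nat_lit 267) (nat_lit 139)) (XT.lf (nat_lit 0) (nat_lit 154520097998) (nat_lit 76) (nat_lit 250686946669) (nat_lit 76) (nat_lit 104724683692) (nat_lit 3) (nat_lit 4) (nat_lit 4) (nat_lit 5) (nat_lit 4) (nat_lit 4) (nat_lit 315) (nat_lit 267) (nat_lit 138)))))) (XT.nd (nat_lit 468) (nat_lit 76) (nat_lit 0) (XT.nd (nat_lit 234) (nat_lit 76) (nat_lit 0) (XT.nd (nat_lit 78) (nat_lit 0) (nat_lit 0) (XT.lf (nat_lit 0) (nat_lit 225953880215) (nat_lit 76) (nat_lit 233949957156) (nat_lit 76) (nat_lit 87987166629) (nat_lit 3) (nat_lit 4) (nat_lit 4) (nat_lit 5) (nat_lit 4) (nat_lit 4) (nat_lit 316) (nat_lit 267) (nat_lit 137)) (XT.nd (nat_lit 78) (nat_lit 0) (nat_lit 0) (XT.lf (nat_lit 0) (nat_lit 303101953875) (nat_lit 76) (nat_lit 215874183275) (nat_lit 76)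 (nat_lit 69910904275) (nat_lit 3) (nat_lit 4) (nat_lit 4) (nat_lit 5) (nat_lit 4) (nat_lit 4) (nat_lit 317) (nat_lit 267) (nat_lit 136)) (XT.lf (nat_lit 0) (nat_lit 386421492748) (nat_lit 76) (nat_lit 196352509328) (nat_lit 76) (nat_lit 50388778039) (nat_lit 3) (nat_lit 4) (nat_lit 4) (nat_lit 5) (nat_lit 4) (nat_lit 4) (nat_lit 318) (nat_lit 267) (nat_lit 135)))) (XT.nd (nat_lit 78) (nat_lit 76) (nat_lit 0) (XT.lf (nat_lit 0) (nat_lit 476406242249) (nat_lit 76) (nat_lit 175269251321) (nat_lit 76) (nat_lit 29305101247) (nat_lit 3) (nat_lit 4) (nat_lit 4) (nat_lit 5) (nat_lit 4) (nat_lit 4) (nat_lit 319) (nat_lit 267) (nat_lit 134)) (XT.nd (nat_lit 78) (nat_lit 76) (nat_lit 0) (XT.lf (nat_lit 0) (nat_lit 573589445340) (nat_lit 76) (nat_lit 152499471431) (nat_lit 76) (nat_lit 6534933592) (nat_lit 3) (nat_lit 4) (nat_lit 4) (nat_lit 5) (nat_lit 4) (nat_lit 4) (nat_lit 320) (nat_lit 267)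 (nat_lit 133)) (XT.lf (nat_lit 0) (nat_lit 17153392027) (nat_lit 152) (nat_lit 110285841463) (nat_lit 76) (nat_lit 660924606317) (nat_lit 2) (nat_lit 5) (nat_lit 4) (nat_lit 5) (nat_lit 3) (nat_lit 4) (nat_lit 321) (nat_lit 267) (nat_lit 132))))) (XT.nd (nat_lit 234) (nat_lit 0) (nat_lit 0) (XT.nd (nat_lit 78) (nat_lit 76) (nat_lit 0) (XT.lf (nat_lit 0) (nat_lit 42383561982) (nat_lit 152) (nat_lit 57807420402) (nat_lit 76) (nat_lit 748358480706) (nat_lit 2) (nat_lit 5) (nat_lit 4) (nat_lit 5) (nat_lit 3) (nat_lit 4) (nat_lit 322) (nat_lit 267) (nat_lit 131)) (XT.nd (nat_lit 78) (nat_lit 76) (nat_lit 0) (XT.lf (nat_lit 0) (nat_lit 69631992236) (nat_lit 152) (nat_lit 1130993295) (nat_lit 76) (nat_lit 842786963451) (nat_lit 2) (nat_lit 5) (nat_lit 4) (nat_lit 5) (nat_lit 3) (nat_lit 4) (nat_lit 323) (nat_lit 267) (nat_lit 130)) (XT.lf (nat_lit 0) (nat_lit 63242969644) (nat_lit 76) (nat_lit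 37338180264) (nat_lit 152) (nat_lit 883047656042) (nat_lit 1) (nat_lit 5) (nat_lit 2) (nat_lit 5) (nat_lit 3) (nat_lit 4) (nat_lit 324) (nat_lit 267) (nat_lit 129)))) (XT.nd (nat_lit 78) (nat_lit 0) (nat_lit 0) (XT.lf (nat_lit 0) (nat_lit 132830928670) (nat_lit 76) (nat_lit 1206097648) (nat_lit 152) (nat_lit 925274482682) (nat_lit 1) (nat_lit 5) (nat_lit 2) (nat_lit 5) (nat_lit 3) (nat_lit 4) (nat_lit 325) (nat_lit 267) (nat_lit 128)) (XT.nd (nat_lit 78) (nat_lit 0) (nat_lit 0) (XT.lf (nat_lit 0) (nat_lit 171078732421) (nat_lit 152) (nat_lit 933972624724) (nat_lit 0) (nat_lit 35924722764) (nat_lit 1) (nat_lit 5) (nat_lit 3) (nat_lit 4) (nat_lit 1) (nat_lit 4) (nat_lit 326) (nat_lit 267) (nat_lit 127)) (XT.lf (nat_lit 0) (nat_lit 211114982415) (nat_lit 152) (nat_lit 942095574578) (nat_lit 0) (nat_lit 75960763260) (nat_lit 1) (nat_lit 5) (nat_lit 3) (nat_lit 4) (nat_lit 1) (nat_lit 4)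 (nat_lit 327) (nat_lit 267) (nat_lit 126))))))) (XT.nd (nat_lit 33540) (nat_lit 0) (nat_lit 988) (XT.nd (nat_lit 33072) (nat_lit 0) (nat_lit 2052) (XT.nd (nat_lit 32838) (nat_lit 0) (nat_lit 1976) (XT.nd (nat_lit 78) (nat_lit 0) (nat_lit 0) (XT.lf (nat_lit 0) (nat_lit 254354021473) (nat_lit 152) (nat_lit 950868559214) (nat_lit 0) (nat_lit 119199608340) (nat_lit 1) (nat_lit 5) (nat_lit 3) (nat_lit 4) (nat_lit 1) (nat_lit 4) (nat_lit 328) (nat_lit 267) (nat_lit 125)) (XT.lf (nat_lit 0) (nat_lit 301052080939) (nat_lit 152) (nat_lit 960343566690) (nat_lit 0) (nat_lit 165897488195) (nat_lit 1) (nat_lit 5) (nat_lit 3) (nat_lit 4) (nat_lit 1) (nat_lit 4) (nat_lit 329) (nat_lit 267) (nat_lit 124))) (XT.nd (nat_lit 78) (nat_lit 0) (nat_lit 0) (XT.lf (nat_lit 0) (nat_lit 1294458010) (nat_lit 532) (nat_lit 8254077404) (nat_lit 532) (nat_lit 8254077404) (nat_lit 27) (nat_lit 3) (nat_lit 34) (nat_lit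 3) (nat_lit 34) (nat_lit 5) (nat_lit 268) (nat_lit 268) (nat_lit 184)) (XT.nd (nat_lit 78) (nat_lit 0) (nat_lit 76) (XT.lf (nat_lit 0) (nat_lit 2737236891) (nat_lit 532) (nat_lit 2441099387) (nat_lit 532) (nat_lit 31847158829) (nat_lit 27) (nat_lit 3) (nat_lit 34) (nat_lit 3) (nat_lit 34) (nat_lit 5) (nat_lit 269) (nat_lit 268) (nat_lit 183)) (XT.lf (nat_lit 0) (nat_lit 3461120279) (nat_lit 456) (nat_lit 25359160869) (nat_lit 532) (nat_lit 9694045099) (nat_lit 28) (nat_lit 5) (nat_lit 34) (nat_lit 5) (nat_lit 35) (nat_lit 5) (nat_lit 270) (nat_lit 268) (nat_lit 182))))) (XT.nd (nat_lit 234) (nat_lit 0) (nat_lit 76) (XT.nd (nat_lit 78) (nat_lit 0) (nat_lit 76) (XT.lf (nat_lit 0) (nat_lit 4441734224) (nat_lit 456) (nat_lit 10117989592) (nat_lit 532) (nat_lit 25546667673) (nat_lit 28) (nat_lit 5) (nat_lit 34) (nat_lit 5) (nat_lit 35) (nat_lit 5) (nat_lit 271) (nat_lit 268) (nat_lit 181))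 (XT.nd (nat_lit 78) (nat_lit 0) (nat_lit 0) (XT.lf (nat_lit 0) (nat_lit 5681890972) (nat_lit 456) (nat_lit 35164021104) (nat_lit 532) (nat_lit 965453123) (nat_lit 29) (nat_lit 5) (nat_lit 35) (nat_lit 5) (nat_lit 36) (nat_lit 5) (nat_lit 272) (nat_lit 268) (nat_lit 180)) (XT.lf (nat_lit 0) (nat_lit 7679663934) (nat_lit 456) (nat_lit 18689503629) (nat_lit 532) (nat_lit 17230925415) (nat_lit 29) (nat_lit 5) (nat_lit 35) (nat_lit 5) (nat_lit 36) (nat_lit 5) (nat_lit 273) (nat_lit 268) (nat_lit 179)))) (XT.nd (nat_lit 78) (nat_lit 0) (nat_lit 76) (XT.lf (nat_lit 0) (nat_lit 9833925133) (nat_lit 456) (nat_lit 899674421) (nat_lit 532) (nat_lit 34798612471) (nat_lit 29) (nat_lit 5) (nat_lit 35) (nat_lit 5) (nat_lit 36) (nat_lit 5) (nat_lit 274) (nat_lit 268) (nat_lit 178)) (XT.nd (nat_lit 78) (nat_lit 0) (nat_lit 0) (XT.lf (nat_lit 0) (nat_lit 12781038585) (nat_lit 456) (nat_lit 28467011215)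 (nat_lit 76) (nat_lit 6321234292) (nat_lit 30) (nat_lit 5) (nat_lit 36) (nat_lit 5) (nat_lit 31) (nat_lit 5) (nat_lit 275) (nat_lit 268) (nat_lit 177)) (XT.lf (nat_lit 0) (nat_lit 16265050600) (nat_lit 456) (nat_lit 9293906238) (nat_lit 76) (nat_lit 24186297324) (nat_lit 30) (nat_lit 5) (nat_lit 36) (nat_lit 5) (nat_lit 31) (nat_lit 5) (nat_lit 276) (nat_lit 268) (nat_lit 176)))))) (XT.nd (nat_lit 468) (nat_lit 380) (nat_lit 0) (XT.nd (nat_lit 234) (nat_lit 152) (nat_lit 0) (XT.nd (nat_lit 78) (nat_lit 228) (nat_lit 0) (XT.lf (nat_lit 0) (nat_lit 12011445575) (nat_lit 456) (nat_lit 8302525659) (nat_lit 532) (nat_lit 31758456514) (nat_lit 24) (nat_lit 5) (nat_lit 30) (nat_lit 5) (nat_lit 31) (nat_lit 5) (nat_lit 277) (nat_lit 268) (nat_lit 175)) (XT.nd (nat_lit 78) (nat_lit 228) (nat_lit 0) (XT.lf (nat_lit 0) (nat_lit 25193517739) (nat_lit 532) (nat_lit 19273438391) (nat_lit 76) (nat_lit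 10078301487) (nat_lit 24) (nat_lit 5) (nat_lit 31) (nat_lit 5) (nat_lit 25) (nat_lit 5) (nat_lit 278) (nat_lit 268) (nat_lit 174)) (XT.lf (nat_lit 0) (nat_lit 3114843581) (nat_lit 228) (nat_lit 27636791827) (nat_lit 304) (nat_lit 26441239811) (nat_lit 21) (nat_lit 5) (nat_lit 24) (nat_lit 5) (nat_lit 25) (nat_lit 5) (nat_lit 279) (nat_lit 268) (nat_lit 173)))) (XT.nd (nat_lit 78) (nat_lit 152) (nat_lit 0) (XT.lf (nat_lit 0) (nat_lit 28387914824) (nat_lit 228) (nat_lit 8891220393) (nat_lit 304) (nat_lit 22731205005) (nat_lit 21) (nat_lit 5) (nat_lit 24) (nat_lit 5) (nat_lit 25) (nat_lit 5) (nat_lit 280) (nat_lit 268) (nat_lit 172)) (XT.nd (nat_lit 78) (nat_lit 152) (nat_lit 0) (XT.lf (nat_lit 0) (nat_lit 44599824415) (nat_lit 304) (nat_lit 7645807870) (nat_lit 76) (nat_lit 10785906364) (nat_lit 21) (nat_lit 5) (nat_lit 25) (nat_lit 5) (nat_lit 22) (nat_lit 5) (nat_lit 281) (nat_lit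 268) (nat_lit 171)) (XT.lf (nat_lit 0) (nat_lit 18964480895) (nat_lit 152) (nat_lit 34226804042) (nat_lit 228) (nat_lit 13048352960) (nat_lit 19) (nat_lit 5) (nat_lit 21) (nat_lit 5) (nat_lit 22) (nat_lit 5) (nat_lit 282) (nat_lit 268) (nat_lit 170))))) (XT.nd (nat_lit 234) (nat_lit 152) (nat_lit 0) (XT.nd (nat_lit 78) (nat_lit 228) (nat_lit 0) (XT.lf (nat_lit 0) (nat_lit 48136274746) (nat_lit 152) (nat_lit 14541007438) (nat_lit 228) (nat_lit 7010538494) (nat_lit 19) (nat_lit 5) (nat_lit 21) (nat_lit 5) (nat_lit 22) (nat_lit 5) (nat_lit 283) (nat_lit 268) (nat_lit 169)) (XT.nd (nat_lit 78) (nat_lit 76) (nat_lit 0) (XT.lf (nat_lit 0) (nat_lit 6385658667) (nat_lit 152) (nat_lit 66849982166) (nat_lit 228) (nat_lit 151150929) (nat_lit 17) (nat_lit 5) (nat_lit 19) (nat_lit 5) (nat_lit 20) (nat_lit 5) (nat_lit 284) (nat_lit 268) (nat_lit 168)) (XT.lf (nat_lit 0) (nat_lit 7874536934) (nat_lit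 228) (nat_lit 40120738517) (nat_lit 76) (nat_lit 29294007234) (nat_lit 16) (nat_lit 5) (nat_lit 19) (nat_lit 5) (nat_lit 17) (nat_lit 5) (nat_lit 285) (nat_lit 268) (nat_lit 167)))) (XT.nd (nat_lit 78) (nat_lit 152) (nat_lit 0) (XT.lf (nat_lit 0) (nat_lit 16532559911) (nat_lit 228) (nat_lit 11095846807) (nat_lit 76) (nat_lit 53875386082) (nat_lit 16) (nat_lit 5) (nat_lit 19) (nat_lit 5) (nat_lit 17) (nat_lit 5) (nat_lit 286) (nat_lit 268) (nat_lit 166)) (XT.nd (nat_lit 78) (nat_lit 0) (nat_lit 0) (XT.lf (nat_lit 0) (nat_lit 21315462331) (nat_lit 152) (nat_lit 5078961036) (nat_lit 228) (nat_lit 59620153439) (nat_lit 14) (nat_lit 5) (nat_lit 16) (nat_lit 5) (nat_lit 17) (nat_lit 5) (nat_lit 287) (nat_lit 268) (nat_lit 165)) (XT.lf (nat_lit 0) (nat_lit 37818660506) (nat_lit 228) (nat_lit 34384597487) (nat_lit 76) (nat_lit 18621099880) (nat_lit 14) (nat_lit 5) (nat_lit 17) (nat_lit 5)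 (nat_lit 15) (nat_lit 5) (nat_lit 288) (nat_lit 268) (nat_lit 164))))))))
noncomputable def xc98 : XT := (XT.nd (nat_lit 1794) (nat_lit 228) (nat_lit 0) (XT.nd (nat_lit 858) (nat_lit 228) (nat_lit 0) (XT.nd (nat_lit 390) (nat_lit 304) (nat_lit 0) (XT.nd (nat_lit 156) (nat_lit 76) (nat_lit 0) (XT.nd (nat_lit 78) (nat_lit 152) (nat_lit 0) (XT.lf (nat_lit 0) (nat_lit 50287474103) (nat_lit 228) (nat_lit 1778618396) (nat_lit 76) (nat_lit 43942385620) (nat_lit 14) (nat_lit 5) (nat_lit 17) (nat_lit 5) (nat_lit 15) (nat_lit 5) (nat_lit 289) (nat_lit 268) (nat_lit 163)) (XT.lf (nat_lit 0) (nat_lit 35194777876) (nat_lit 152) (nat_lit 29404261668) (nat_lit 228) (nat_lit 36940675827) (nat_lit 12) (nat_lit 5) (nat_lit 14) (nat_lit 5) (nat_lit 15) (nat_lit 5) (nat_lit 290) (nat_lit 268) (nat_lit 162))) (XT.nd (nat_lit 78) (nat_lit 76) (nat_lit 0) (XT.lf (nat_lit 0) (nat_lit 75225592664) (nat_lit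 152) (nat_lit 4877429077) (nat_lit 228) (nat_lit 27406637133) (nat_lit 12) (nat_lit 5) (nat_lit 14) (nat_lit 5) (nat_lit 15) (nat_lit 5) (nat_lit 291) (nat_lit 268) (nat_lit 161)) (XT.nd (nat_lit 78) (nat_lit 0) (nat_lit 0) (XT.lf (nat_lit 0) (nat_lit 4189948647) (nat_lit 76) (nat_lit 93276835479) (nat_lit 152) (nat_lit 16440862911) (nat_lit 11) (nat_lit 5) (nat_lit 12) (nat_lit 5) (nat_lit 13) (nat_lit 4) (nat_lit 292) (nat_lit 268) (nat_lit 160)) (XT.lf (nat_lit 0) (nat_lit 45283024210) (nat_lit 76) (nat_lit 71941783222) (nat_lit 152) (nat_lit 3512259682) (nat_lit 11) (nat_lit 5) (nat_lit 12) (nat_lit 5) (nat_lit 13) (nat_lit 4) (nat_lit 293) (nat_lit 268) (nat_lit 159))))) (XT.nd (nat_lit 234) (nat_lit 76) (nat_lit 0) (XT.nd (nat_lit 78) (nat_lit 152) (nat_lit 0) (XT.lf (nat_lit 0) (nat_lit 9926872200) (nat_lit 152) (nat_lit 38702102519) (nat_lit 76) (nat_lit 79463842024) (nat_lit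 10) (nat_lit 5) (nat_lit 12) (nat_lit 5) (nat_lit 11) (nat_lit 5) (nat_lit 294) (nat_lit 268) (nat_lit 158)) (XT.nd (nat_lit 78) (nat_lit 0) (nat_lit 0) (XT.lf (nat_lit 0) (nat_lit 944660583) (nat_lit 152) (nat_lit 23328535579) (nat_lit 228) (nat_lit 111754791285) (nat_lit 8) (nat_lit 5) (nat_lit 10) (nat_lit 5) (nat_lit 11) (nat_lit 5) (nat_lit 295) (nat_lit 268) (nat_lit 157)) (XT.lf (nat_lit 0) (nat_lit 40948117602) (nat_lit 228) (nat_lit 98674106197) (nat_lit 76) (nat_lit 4881280841) (nat_lit 8) (nat_lit 5) (nat_lit 11) (nat_lit 5) (nat_lit 9) (nat_lit 4) (nat_lit 296) (nat_lit 268) (nat_lit 156)))) (XT.nd (nat_lit 78) (nat_lit 76) (nat_lit 0) (XT.lf (nat_lit 0) (nat_lit 59562153716) (nat_lit 228) (nat_lit 59959369968) (nat_lit 76) (nat_lit 34087133696) (nat_lit 8) (nat_lit 5) (nat_lit 11) (nat_lit 5) (nat_lit 9) (nat_lit 4) (nat_lit 297) (nat_lit 268) (nat_lit 155)) (XT.nd (nat_lit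 78) (nat_lit 76) (nat_lit 0) (XT.lf (nat_lit 0) (nat_lit 79664558062) (nat_lit 228) (nat_lit 18148645676) (nat_lit 76) (nat_lit 65629082537) (nat_lit 8) (nat_lit 5) (nat_lit 11) (nat_lit 5) (nat_lit 9) (nat_lit 4) (nat_lit 298) (nat_lit 268) (nat_lit 154)) (XT.lf (nat_lit 0) (nat_lit 28427913289) (nat_lit 76) (nat_lit 73630234708) (nat_lit 152) (nat_lit 71949821325) (nat_lit 7) (nat_lit 5) (nat_lit 8) (nat_lit 5) (nat_lit 9) (nat_lit 4) (nat_lit 299) (nat_lit 268) (nat_lit 153)))))) (XT.nd (nat_lit 468) (nat_lit 76) (nat_lit 0) (XT.nd (nat_lit 234) (nat_lit 152) (nat_lit 0) (XT.nd (nat_lit 78) (nat_lit 0) (nat_lit 0) (XT.lf (nat_lit 0) (nat_lit 79761651823) (nat_lit 76) (nat_lit 46977116596) (nat_lit 152) (nat_lit 58640498185) (nat_lit 7) (nat_lit 5) (nat_lit 8) (nat_lit 5) (nat_lit 9) (nat_lit 4) (nat_lit 300) (nat_lit 268) (nat_lit 152)) (XT.nd (nat_lit 78) (nat_lit 0) (nat_lit 0)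 (XT.lf (nat_lit 0) (nat_lit 135201094336) (nat_lit 76) (nat_lit 18192121135) (nat_lit 152) (nat_lit 44267104867) (nat_lit 7) (nat_lit 5) (nat_lit 8) (nat_lit 5) (nat_lit 9) (nat_lit 4) (nat_lit 301) (nat_lit 268) (nat_lit 151)) (XT.lf (nat_lit 0) (nat_lit 182489574416) (nat_lit 152) (nat_lit 16159269263) (nat_lit 0) (nat_lit 12250252821) (nat_lit 7) (nat_lit 5) (nat_lit 9) (nat_lit 4) (nat_lit 7) (nat_lit 4) (nat_lit 302) (nat_lit 268) (nat_lit 150)))) (XT.nd (nat_lit 78) (nat_lit 76) (nat_lit 0) (XT.lf (nat_lit 0) (nat_lit 35128542744) (nat_lit 76) (nat_lit 180101922459) (nat_lit 76) (nat_lit 9861166127) (nat_lit 6) (nat_lit 4) (nat_lit 7) (nat_lit 5) (nat_lit 7) (nat_lit 4) (nat_lit 303) (nat_lit 268) (nat_lit 149)) (XT.nd (nat_lit 78) (nat_lit 0) (nat_lit 0) (XT.lf (nat_lit 0) (nat_lit 10115021512) (nat_lit 152) (nat_lit 149202840047) (nat_lit 76) (nat_lit 81045919473) (nat_lit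 5) (nat_lit 5) (nat_lit 7) (nat_lit 5) (nat_lit 6) (nat_lit 4) (nat_lit 304) (nat_lit 268) (nat_lit 148)) (XT.lf (nat_lit 0) (nat_lit 31156046681) (nat_lit 152) (nat_lit 105438737752) (nat_lit 76) (nat_lit 120242469337) (nat_lit 5) (nat_lit 5) (nat_lit 7) (nat_lit 5) (nat_lit 6) (nat_lit 4) (nat_lit 305) (nat_lit 268) (nat_lit 147))))) (XT.nd (nat_lit 234) (nat_lit 0) (nat_lit 0) (XT.nd (nat_lit 78) (nat_lit 76) (nat_lit 0) (XT.lf (nat_lit 0) (nat_lit 53879892403) (nat_lit 152) (nat_lit 58174277591) (nat_lit 76) (nat_lit 162574473032) (nat_lit 5) (nat_lit 5) (nat_lit 7) (nat_lit 5) (nat_lit 6) (nat_lit 4) (nat_lit 306) (nat_lit 268) (nat_lit 146)) (XT.nd (nat_lit 78) (nat_lit 76) (nat_lit 0) (XT.lf (nat_lit 0) (nat_lit 78421218505) (nat_lit 152) (nat_lit 7129373874) (nat_lit 76) (nat_lit 208292786878) (nat_lit 5) (nat_lit 5) (nat_lit 7) (nat_lit 5) (nat_lit 6) (nat_lit 4) (nat_lit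 307) (nat_lit 268) (nat_lit 145)) (XT.lf (nat_lit 0) (nat_lit 50525975651) (nat_lit 76) (nat_lit 55614630345) (nat_lit 152) (nat_lit 208357509492) (nat_lit 4) (nat_lit 5) (nat_lit 5) (nat_lit 5) (nat_lit 6) (nat_lit 4) (nat_lit 308) (nat_lit 268) (nat_lit 144)))) (XT.nd (nat_lit 78) (nat_lit 0) (nat_lit 0) (XT.lf (nat_lit 0) (nat_lit 113198563244) (nat_lit 76) (nat_lit 23073529157) (nat_lit 152) (nat_lit 200517575801) (nat_lit 4) (nat_lit 5) (nat_lit 5) (nat_lit 5) (nat_lit 6) (nat_lit 4) (nat_lit 309) (nat_lit 268) (nat_lit 143)) (XT.nd (nat_lit 78) (nat_lit 0) (nat_lit 0) (XT.lf (nat_lit 0) (nat_lit 169104042840) (nat_lit 152) (nat_lit 180270511546) (nat_lit 0) (nat_lit 11466796446) (nat_lit 4) (nat_lit 5) (nat_lit 6) (nat_lit 4) (nat_lit 4) (nat_lit 4) (nat_lit 310) (nat_lit 268) (nat_lit 142)) (XT.lf (nat_lit 0) (nat_lit 205161529026) (nat_lit 152) (nat_lit 134084156978) (nat_lit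 0) (nat_lit 47523564906) (nat_lit 4) (nat_lit 5) (nat_lit 6) (nat_lit 4) (nat_lit 4) (nat_lit 4) (nat_lit 311) (nat_lit 268) (nat_lit 141))))))) (XT.nd (nat_lit 858) (nat_lit 76) (nat_lit 0) (XT.nd (nat_lit 390) (nat_lit 76) (nat_lit 0) (XT.nd (nat_lit 156) (nat_lit 76) (nat_lit 0) (XT.nd (nat_lit 78) (nat_lit 0) (nat_lit 0) (XT.lf (nat_lit 0) (nat_lit 244103306019) (nat_lit 152) (nat_lit 84203425407) (nat_lit 0) (nat_lit 86464677338) (nat_lit 4) (nat_lit 5) (nat_lit 6) (nat_lit 4) (nat_lit 4) (nat_lit 4) (nat_lit 312) (nat_lit 268) (nat_lit 140)) (XT.lf (nat_lit 0) (nat_lit 286160139905) (nat_lit 152) (nat_lit 30332727313) (nat_lit 0) (nat_lit 128520895890) (nat_lit 4) (nat_lit 5) (nat_lit 6) (nat_lit 4) (nat_lit 4) (nat_lit 4) (nat_lit 313) (nat_lit 268) (nat_lit 139))) (XT.nd (nat_lit 78) (nat_lit 0) (nat_lit 0) (XT.lf (nat_lit 0) (nat_lit 29313553748) (nat_lit 76) (nat_lit 302972694290)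 (nat_lit 76) (nat_lit 145332880521) (nat_lit 3) (nat_lit 4) (nat_lit 4) (nat_lit 5) (nat_lit 4) (nat_lit 4) (nat_lit 314) (nat_lit 268) (nat_lit 138)) (XT.nd (nat_lit 78) (nat_lit 0) (nat_lit 0) (XT.lf (nat_lit 0) (nat_lit 95456142350) (nat_lit 76) (nat_lit 287475397743) (nat_lit 76) (nat_lit 129835056424) (nat_lit 3) (nat_lit 4) (nat_lit 4) (nat_lit 5) (nat_lit 4) (nat_lit 4) (nat_lit 315) (nat_lit 268) (nat_lit 137)) (XT.lf (nat_lit 0) (nat_lit 166889726906) (nat_lit 76) (nat_lit 270738492265) (nat_lit 76) (nat_lit 113097662473) (nat_lit 3) (nat_lit 4) (nat_lit 4) (nat_lit 5) (nat_lit 4) (nat_lit 4) (nat_lit 316) (nat_lit 268) (nat_lit 136))))) (XT.nd (nat_lit 234) (nat_lit 76) (nat_lit 0) (XT.nd (nat_lit 78) (nat_lit 0) (nat_lit 0) (XT.lf (nat_lit 0) (nat_lit 244037617547) (nat_lit 76) (nat_lit 252662796193) (nat_lit 76) (nat_lit 95021514113) (nat_lit 3) (nat_lit 4) (nat_lit 4)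 (nat_lit 5) (nat_lit 4) (nat_lit 4) (nat_lit 317) (nat_lit 268) (nat_lit 135)) (XT.nd (nat_lit 78) (nat_lit 0) (nat_lit 0) (XT.lf (nat_lit 0) (nat_lit 327356986958) (nat_lit 76) (nat_lit 233141194293) (nat_lit 76) (nat_lit 75499493426) (nat_lit 3) (nat_lit 4) (nat_lit 4) (nat_lit 5) (nat_lit 4) (nat_lit 4) (nat_lit 318) (nat_lit 268) (nat_lit 134)) (XT.lf (nat_lit 0) (nat_lit 417341579550) (nat_lit 76) (nat_lit 212058002996) (nat_lit 76) (nat_lit 54415914365) (nat_lit 3) (nat_lit 4) (nat_lit 4) (nat_lit 5) (nat_lit 4) (nat_lit 4) (nat_lit 319) (nat_lit 268) (nat_lit 133)))) (XT.nd (nat_lit 78) (nat_lit 76) (nat_lit 0) (XT.lf (nat_lit 0) (nat_lit 514524637354) (nat_lit 76) (nat_lit 189288284874) (nat_lit 76) (nat_lit 31645837201) (nat_lit 3) (nat_lit 4) (nat_lit 4) (nat_lit 5) (nat_lit 4) (nat_lit 4) (nat_lit 320) (nat_lit 268) (nat_lit 132)) (XT.nd (nat_lit 78) (nat_lit 76) (nat_lit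 0) (XT.lf (nat_lit 0) (nat_lit 619482059971) (nat_lit 76) (nat_lit 164697108263) (nat_lit 76) (nat_lit 7054328144) (nat_lit 3) (nat_lit 4) (nat_lit 4) (nat_lit 5) (nat_lit 4) (nat_lit 4) (nat_lit 321) (nat_lit 268) (nat_lit 131)) (XT.lf (nat_lit 0) (nat_lit 18528654173) (nat_lit 152) (nat_lit 119103487257) (nat_lit 76) (nat_lit 713800556899) (nat_lit 2) (nat_lit 5) (nat_lit 4) (nat_lit 5) (nat_lit 3) (nat_lit 4) (nat_lit 322) (nat_lit 268) (nat_lit 130)))))) (XT.nd (nat_lit 468) (nat_lit 0) (nat_lit 0) (XT.nd (nat_lit 234) (nat_lit 0) (nat_lit 0) (XT.nd (nat_lit 78) (nat_lit 76) (nat_lit 0) (XT.lf (nat_lit 0) (nat_lit 45777016185) (nat_lit 152) (nat_lit 62427179291) (nat_lit 76) (nat_lit 808228994418) (nat_lit 2) (nat_lit 5) (nat_lit 4) (nat_lit 5) (nat_lit 3) (nat_lit 4) (nat_lit 323) (nat_lit 268) (nat_lit 129)) (XT.nd (nat_lit 78) (nat_lit 76) (nat_lit 0) (XT.lf (nat_lit 0) (nat_lit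 75205115730) (nat_lit 152) (nat_lit 1216996144) (nat_lit 76) (nat_lit 910211619838) (nat_lit 2) (nat_lit 5) (nat_lit 4) (nat_lit 5) (nat_lit 3) (nat_lit 4) (nat_lit 324) (nat_lit 268) (nat_lit 128)) (XT.lf (nat_lit 0) (nat_lit 68306770498) (nat_lit 76) (nat_lit 40323350521) (nat_lit 152) (nat_lit 953688783617) (nat_lit 1) (nat_lit 5) (nat_lit 2) (nat_lit 5) (nat_lit 3) (nat_lit 4) (nat_lit 325) (nat_lit 268) (nat_lit 127)))) (XT.nd (nat_lit 78) (nat_lit 0) (nat_lit 0) (XT.lf (nat_lit 0) (nat_lit 143461443040) (nat_lit 76) (nat_lit 1300840863) (nat_lit 152) (nat_lit 999293955270) (nat_lit 1) (nat_lit 5) (nat_lit 2) (nat_lit 5) (nat_lit 3) (nat_lit 4) (nat_lit 326) (nat_lit 268) (nat_lit 126)) (XT.nd (nat_lit 78) (nat_lit 0) (nat_lit 0) (XT.lf (nat_lit 0) (nat_lit 184767195308) (nat_lit 152) (nat_lit 1008686556307) (nat_lit 0) (nat_lit 38800235145) (nat_lit 1) (nat_lit 5) (nat_lit 3)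 (nat_lit 4) (nat_lit 1) (nat_lit 4) (nat_lit 327) (nat_lit 268) (nat_lit 125)) (XT.lf (nat_lit 0) (nat_lit 228006184984) (nat_lit 152) (nat_lit 1017459629438) (nat_lit 0) (nat_lit 82039045210) (nat_lit 1) (nat_lit 5) (nat_lit 3) (nat_lit 4) (nat_lit 1) (nat_lit 4) (nat_lit 328) (nat_lit 268) (nat_lit 124))))) (XT.nd (nat_lit 32994) (nat_lit 0) (nat_lit 2052) (XT.nd (nat_lit 32838) (nat_lit 0) (nat_lit 1976) (XT.lf (nat_lit 0) (nat_lit 274704198724) (nat_lit 152) (nat_lit 1026934718854) (nat_lit 0) (nat_lit 128736892645) (nat_lit 1) (nat_lit 5) (nat_lit 3) (nat_lit 4) (nat_lit 1) (nat_lit 4) (nat_lit 329) (nat_lit 268) (nat_lit 123)) (XT.nd (nat_lit 78) (nat_lit 0) (nat_lit 0) (XT.lf (nat_lit 0) (nat_lit 1441702300) (nat_lit 532) (nat_lit 8890637367) (nat_lit 532) (nat_lit 8890637367) (nat_lit 27) (nat_lit 3) (nat_lit 34) (nat_lit 3) (nat_lit 34) (nat_lit 5) (nat_lit 269) (nat_lit 269)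 (nat_lit 182)) (XT.lf (nat_lit 0) (nat_lit 3037118897) (nat_lit 532) (nat_lit 2592375803) (nat_lit 532) (nat_lit 34350920001) (nat_lit 27) (nat_lit 3) (nat_lit 34) (nat_lit 3) (nat_lit 34) (nat_lit 5) (nat_lit 270) (nat_lit 269) (nat_lit 181)))) (XT.nd (nat_lit 78) (nat_lit 0) (nat_lit 0) (XT.lf (nat_lit 0) (nat_lit 3813157095) (nat_lit 456) (nat_lit 27337526555) (nat_lit 532) (nat_lit 10438177133) (nat_lit 28) (nat_lit 5) (nat_lit 34) (nat_lit 5) (nat_lit 35) (nat_lit 5) (nat_lit 271) (nat_lit 269) (nat_lit 180)) (XT.nd (nat_lit 78) (nat_lit 0) (nat_lit 76) (XT.lf (nat_lit 0) (nat_lit 4866653697) (nat_lit 456) (nat_lit 10880792478) (nat_lit 532) (nat_lit 27561334815) (nat_lit 28) (nat_lit 5) (nat_lit 34) (nat_lit 5) (nat_lit 35) (nat_lit 5) (nat_lit 272) (nat_lit 269) (nat_lit 179)) (XT.lf (nat_lit 0) (nat_lit 6201479521) (nat_lit 456) (nat_lit 37925448826) (nat_lit 532) (nat_lit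 1023628866) (nat_lit 29) (nat_lit 5) (nat_lit 35) (nat_lit 5) (nat_lit 36) (nat_lit 5) (nat_lit 273) (nat_lit 269) (nat_lit 178))))))))
noncomputable def xc99 : XT := (XT.nd (nat_lit 1794) (nat_lit 380) (nat_lit 0) (XT.nd (nat_lit 858) (nat_lit 836) (nat_lit 0) (XT.nd (nat_lit 390) (nat_lit 380) (nat_lit 0) (XT.nd (nat_lit 156) (nat_lit 380) (nat_lit 0) (XT.nd (nat_lit 78) (nat_lit 0) (nat_lit 0) (XT.lf (nat_lit 0) (nat_lit 8354256744) (nat_lit 456) (nat_lit 20136799135) (nat_lit 532) (nat_lit 18591750831) (nat_lit 29) (nat_lit 5) (nat_lit 35) (nat_lit 5) (nat_lit 36) (nat_lit 5) (nat_lit 274) (nat_lit 269) (nat_lit 177)) (XT.lf (nat_lit 0) (nat_lit 10676398120) (nat_lit 456) (nat_lit 927329130) (nat_lit 532) (nat_lit 37566160157) (nat_lit 29) (nat_lit 5) (nat_lit 35) (nat_lit 5) (nat_lit 36) (nat_lit 5) (nat_lit 275) (nat_lit 269) (nat_lit 176))) (XT.nd (nat_lit 78) (nat_lit 456)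 (nat_lit 0) (XT.lf (nat_lit 0) (nat_lit 13855961487) (nat_lit 456) (nat_lit 30696325500) (nat_lit 76) (nat_lit 6817936442) (nat_lit 30) (nat_lit 5) (nat_lit 36) (nat_lit 5) (nat_lit 31) (nat_lit 5) (nat_lit 276) (nat_lit 269) (nat_lit 175)) (XT.nd (nat_lit 78) (nat_lit 456) (nat_lit 0) (XT.lf (nat_lit 0) (nat_lit 17614810032) (nat_lit 456) (nat_lit 9992931134) (nat_lit 76) (nat_lit 26112870930) (nat_lit 30) (nat_lit 5) (nat_lit 36) (nat_lit 5) (nat_lit 31) (nat_lit 5) (nat_lit 277) (nat_lit 269) (nat_lit 174)) (XT.lf (nat_lit 0) (nat_lit 13015722556) (nat_lit 456) (nat_lit 8969367907) (nat_lit 532) (nat_lit 34249101412) (nat_lit 24) (nat_lit 5) (nat_lit 30) (nat_lit 5) (nat_lit 31) (nat_lit 5) (nat_lit 278) (nat_lit 269) (nat_lit 173))))) (XT.nd (nat_lit 234) (nat_lit 152) (nat_lit 0) (XT.nd (nat_lit 78) (nat_lit 228) (nat_lit 0) (XT.lf (nat_lit 0) (nat_lit 27251534375) (nat_lit 532)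 (nat_lit 20771373717) (nat_lit 76) (nat_lit 10882243271) (nat_lit 24) (nat_lit 5) (nat_lit 31) (nat_lit 5) (nat_lit 25) (nat_lit 5) (nat_lit 279) (nat_lit 269) (nat_lit 172)) (XT.nd (nat_lit 78) (nat_lit 0) (nat_lit 0) (XT.lf (nat_lit 0) (nat_lit 3406858414) (nat_lit 228) (nat_lit 29845322285) (nat_lit 304) (nat_lit 28512591338) (nat_lit 21) (nat_lit 5) (nat_lit 24) (nat_lit 5) (nat_lit 25) (nat_lit 5) (nat_lit 280) (nat_lit 269) (nat_lit 171)) (XT.lf (nat_lit 0) (nat_lit 30698602960) (nat_lit 228) (nat_lit 9600283868) (nat_lit 304) (nat_lit 24509009129) (nat_lit 21) (nat_lit 5) (nat_lit 24) (nat_lit 5) (nat_lit 25) (nat_lit 5) (nat_lit 281) (nat_lit 269) (nat_lit 170)))) (XT.nd (nat_lit 78) (nat_lit 152) (nat_lit 0) (XT.lf (nat_lit 0) (nat_lit 48202509004) (nat_lit 304) (nat_lit 8217775554) (nat_lit 76) (nat_lit 11650744054) (nat_lit 21) (nat_lit 5) (nat_lit 25) (nat_lit 5) (nat_lit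 22) (nat_lit 5) (nat_lit 282) (nat_lit 269) (nat_lit 169)) (XT.nd (nat_lit 78) (nat_lit 0) (nat_lit 0) (XT.lf (nat_lit 0) (nat_lit 20520331325) (nat_lit 152) (nat_lit 36959315315) (nat_lit 228) (nat_lit 14056279392) (nat_lit 19) (nat_lit 5) (nat_lit 21) (nat_lit 5) (nat_lit 22) (nat_lit 5) (nat_lit 283) (nat_lit 269) (nat_lit 168)) (XT.lf (nat_lit 0) (nat_lit 52023002614) (nat_lit 152) (nat_lit 15699072246) (nat_lit 228) (nat_lit 7538102124) (nat_lit 19) (nat_lit 5) (nat_lit 21) (nat_lit 5) (nat_lit 22) (nat_lit 5) (nat_lit 284) (nat_lit 269) (nat_lit 167)))))) (XT.nd (nat_lit 468) (nat_lit 456) (nat_lit 0) (XT.nd (nat_lit 234) (nat_lit 152) (nat_lit 0) (XT.nd (nat_lit 78) (nat_lit 76) (nat_lit 0) (XT.lf (nat_lit 0) (nat_lit 6933909771) (nat_lit 152) (nat_lit 72189940596) (nat_lit 228) (nat_lit 131331871) (nat_lit 17) (nat_lit 5) (nat_lit 19) (nat_lit 5) (nat_lit 20) (nat_lit 5) (nat_lit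 285) (nat_lit 269) (nat_lit 166)) (XT.nd (nat_lit 78) (nat_lit 0) (nat_lit 0) (XT.lf (nat_lit 0) (nat_lit 8532569155) (nat_lit 228) (nat_lit 43294116291) (nat_lit 76) (nat_lit 31643319239) (nat_lit 16) (nat_lit 5) (nat_lit 19) (nat_lit 5) (nat_lit 17) (nat_lit 5) (nat_lit 286) (nat_lit 269) (nat_lit 165)) (XT.lf (nat_lit 0) (nat_lit 17881154765) (nat_lit 228) (nat_lit 11949920748) (nat_lit 76) (nat_lit 58190779401) (nat_lit 16) (nat_lit 5) (nat_lit 19) (nat_lit 5) (nat_lit 17) (nat_lit 5) (nat_lit 287) (nat_lit 269) (nat_lit 164)))) (XT.nd (nat_lit 78) (nat_lit 0) (nat_lit 0) (XT.lf (nat_lit 0) (nat_lit 23053442644) (nat_lit 152) (nat_lit 5477386942) (nat_lit 228) (nat_lit 64362775080) (nat_lit 14) (nat_lit 5) (nat_lit 16) (nat_lit 5) (nat_lit 17) (nat_lit 5) (nat_lit 288) (nat_lit 269) (nat_lit 163)) (XT.nd (nat_lit 78) (nat_lit 0) (nat_lit 0) (XT.lf (nat_lit 0) (nat_lit 40867340502)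 (nat_lit 228) (nat_lit 37103243218) (nat_lit 76) (nat_lit 20117728832) (nat_lit 14) (nat_lit 5) (nat_lit 17) (nat_lit 5) (nat_lit 15) (nat_lit 5) (nat_lit 289) (nat_lit 269) (nat_lit 162)) (XT.lf (nat_lit 0) (nat_lit 54331941620) (nat_lit 228) (nat_lit 1891165213) (nat_lit 76) (nat_lit 47464203286) (nat_lit 14) (nat_lit 5) (nat_lit 17) (nat_lit 5) (nat_lit 15) (nat_lit 5) (nat_lit 290) (nat_lit 269) (nat_lit 161))))) (XT.nd (nat_lit 234) (nat_lit 228) (nat_lit 0) (XT.nd (nat_lit 78) (nat_lit 76) (nat_lit 0) (XT.lf (nat_lit 0) (nat_lit 38039349782) (nat_lit 152) (nat_lit 31748189375) (nat_lit 228) (nat_lit 39873588174) (nat_lit 12) (nat_lit 5) (nat_lit 14) (nat_lit 5) (nat_lit 15) (nat_lit 5) (nat_lit 291) (nat_lit 269) (nat_lit 160)) (XT.nd (nat_lit 78) (nat_lit 76) (nat_lit 0) (XT.lf (nat_lit 0) (nat_lit 81270482370) (nat_lit 152) (nat_lit 5259833380) (nat_lit 228) (nat_lit 29578481328)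 (nat_lit 12) (nat_lit 5) (nat_lit 14) (nat_lit 5) (nat_lit 15) (nat_lit 5) (nat_lit 292) (nat_lit 269) (nat_lit 159)) (XT.lf (nat_lit 0) (nat_lit 4552717800) (nat_lit 76) (nat_lit 100729886657) (nat_lit 152) (nat_lit 17736073982) (nat_lit 11) (nat_lit 5) (nat_lit 12) (nat_lit 5) (nat_lit 13) (nat_lit 4) (nat_lit 293) (nat_lit 269) (nat_lit 158)))) (XT.nd (nat_lit 78) (nat_lit 228) (nat_lit 0) (XT.lf (nat_lit 0) (nat_lit 48931196945) (nat_lit 76) (nat_lit 77688703971) (nat_lit 152) (nat_lit 3774668270) (nat_lit 11) (nat_lit 5) (nat_lit 12) (nat_lit 5) (nat_lit 13) (nat_lit 4) (nat_lit 294) (nat_lit 269) (nat_lit 157)) (XT.nd (nat_lit 78) (nat_lit 152) (nat_lit 0) (XT.lf (nat_lit 0) (nat_lit 10737358208) (nat_lit 152) (nat_lit 41773689764) (nat_lit 76) (nat_lit 85827806119) (nat_lit 10) (nat_lit 5) (nat_lit 12) (nat_lit 5) (nat_lit 11) (nat_lit 5) (nat_lit 295) (nat_lit 269) (nat_lit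 156)) (XT.lf (nat_lit 0) (nat_lit 1044192084) (nat_lit 152) (nat_lit 25186562118) (nat_lit 228) (nat_lit 120678140967) (nat_lit 8) (nat_lit 5) (nat_lit 10) (nat_lit 5) (nat_lit 11) (nat_lit 5) (nat_lit 296) (nat_lit 269) (nat_lit 155))))))) (XT.nd (nat_lit 858) (nat_lit 152) (nat_lit 0) (XT.nd (nat_lit 390) (nat_lit 152) (nat_lit 0) (XT.nd (nat_lit 156) (nat_lit 76) (nat_lit 0) (XT.nd (nat_lit 78) (nat_lit 0) (nat_lit 0) (XT.lf (nat_lit 0) (nat_lit 44238690076) (nat_lit 228) (nat_lit 106544801949) (nat_lit 76) (nat_lit 5279045616) (nat_lit 8) (nat_lit 5) (nat_lit 11) (nat_lit 5) (nat_lit 9) (nat_lit 4) (nat_lit 297) (nat_lit 269) (nat_lit 154)) (XT.lf (nat_lit 0) (nat_lit 64340758482) (nat_lit 228) (nat_lit 64734607766) (nat_lit 76) (nat_lit 36820828751) (nat_lit 8) (nat_lit 5) (nat_lit 11) (nat_lit 5) (nat_lit 9) (nat_lit 4) (nat_lit 298) (nat_lit 269) (nat_lit 153))) (XT.nd (nat_lit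 78) (nat_lit 76) (nat_lit 0) (XT.lf (nat_lit 0) (nat_lit 86050345363) (nat_lit 228) (nat_lit 19580618997) (nat_lit 76) (nat_lit 70885635399) (nat_lit 8) (nat_lit 5) (nat_lit 11) (nat_lit 5) (nat_lit 9) (nat_lit 4) (nat_lit 299) (nat_lit 269) (nat_lit 152)) (XT.nd (nat_lit 78) (nat_lit 0) (nat_lit 0) (XT.lf (nat_lit 0) (nat_lit 30721560424) (nat_lit 76) (nat_lit 79513393966) (nat_lit 152) (nat_lit 77692624923) (nat_lit 7) (nat_lit 5) (nat_lit 8) (nat_lit 5) (nat_lit 9) (nat_lit 4) (nat_lit 300) (nat_lit 269) (nat_lit 151)) (XT.lf (nat_lit 0) (nat_lit 86160559960) (nat_lit 76) (nat_lit 50728564148) (nat_lit 152) (nat_lit 63319532385) (nat_lit 7) (nat_lit 5) (nat_lit 8) (nat_lit 5) (nat_lit 9) (nat_lit 4) (nat_lit 301) (nat_lit 269) (nat_lit 150))))) (XT.nd (nat_lit 234) (nat_lit 76) (nat_lit 0) (XT.nd (nat_lit 78) (nat_lit 76) (nat_lit 0) (XT.lf (nat_lit 0) (nat_lit 146033826320) (nat_lit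 76) (nat_lit 19641266959) (nat_lit 152) (nat_lit 47797171724) (nat_lit 7) (nat_lit 5) (nat_lit 8) (nat_lit 5) (nat_lit 9) (nat_lit 4) (nat_lit 302) (nat_lit 269) (nat_lit 149)) (XT.nd (nat_lit 78) (nat_lit 76) (nat_lit 0) (XT.lf (nat_lit 0) (nat_lit 197098527642) (nat_lit 152) (nat_lit 17435922179) (nat_lit 0) (nat_lit 13235747605) (nat_lit 7) (nat_lit 5) (nat_lit 9) (nat_lit 4) (nat_lit 7) (nat_lit 4) (nat_lit 303) (nat_lit 269) (nat_lit 148)) (XT.lf (nat_lit 0) (nat_lit 37954507482) (nat_lit 76) (nat_lit 194503834364) (nat_lit 76) (nat_lit 10639824271) (nat_lit 6) (nat_lit 4) (nat_lit 7) (nat_lit 5) (nat_lit 7) (nat_lit 4) (nat_lit 304) (nat_lit 269) (nat_lit 147)))) (XT.nd (nat_lit 78) (nat_lit 0) (nat_lit 0) (XT.lf (nat_lit 0) (nat_lit 10933226143) (nat_lit 152) (nat_lit 161124038655) (nat_lit 76) (nat_lit 87534863704) (nat_lit 5) (nat_lit 5) (nat_lit 7) (nat_lit 5) (nat_lit 6)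 (nat_lit 4) (nat_lit 305) (nat_lit 269) (nat_lit 146)) (XT.nd (nat_lit 78) (nat_lit 0) (nat_lit 0) (XT.lf (nat_lit 0) (nat_lit 33656866443) (nat_lit 152) (nat_lit 113859921406) (nat_lit 76) (nat_lit 129866747137) (nat_lit 5) (nat_lit 5) (nat_lit 7) (nat_lit 5) (nat_lit 6) (nat_lit 4) (nat_lit 306) (nat_lit 269) (nat_lit 145)) (XT.lf (nat_lit 0) (nat_lit 58198002339) (nat_lit 152) (nat_lit 62815335200) (nat_lit 76) (nat_lit 175584949628) (nat_lit 5) (nat_lit 5) (nat_lit 7) (nat_lit 5) (nat_lit 6) (nat_lit 4) (nat_lit 307) (nat_lit 269) (nat_lit 144)))))) (XT.nd (nat_lit 468) (nat_lit 76) (nat_lit 0) (XT.nd (nat_lit 234) (nat_lit 0) (nat_lit 0) (XT.nd (nat_lit 78) (nat_lit 76) (nat_lit 0) (XT.lf (nat_lit 0) (nat_lit 84702062785) (nat_lit 152) (nat_lit 7687793600) (nat_lit 76) (nat_lit 224960393859) (nat_lit 5) (nat_lit 5) (nat_lit 7) (nat_lit 5) (nat_lit 6) (nat_lit 4) (nat_lit 308)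 (nat_lit 269) (nat_lit 143)) (XT.nd (nat_lit 78) (nat_lit 0) (nat_lit 0) (XT.lf (nat_lit 0) (nat_lit 54579681856) (nat_lit 76) (nat_lit 60059069684) (nat_lit 152) (nat_lit 225018635858) (nat_lit 4) (nat_lit 5) (nat_lit 5) (nat_lit 5) (nat_lit 6) (nat_lit 4) (nat_lit 309) (nat_lit 269) (nat_lit 142)) (XT.lf (nat_lit 0) (nat_lit 122265215112) (nat_lit 76) (nat_lit 24915030851) (nat_lit 152) (nat_lit 216552061130) (nat_lit 4) (nat_lit 5) (nat_lit 5) (nat_lit 5) (nat_lit 6) (nat_lit 4) (nat_lit 310) (nat_lit 269) (nat_lit 141)))) (XT.nd (nat_lit 78) (nat_lit 0) (nat_lit 0) (XT.lf (nat_lit 0) (nat_lit 182638376939) (nat_lit 152) (nat_lit 194681785786) (nat_lit 0) (nat_lit 12387993403) (nat_lit 4) (nat_lit 5) (nat_lit 6) (nat_lit 4) (nat_lit 4) (nat_lit 4) (nat_lit 311) (nat_lit 269) (nat_lit 140)) (XT.nd (nat_lit 78) (nat_lit 0) (nat_lit 0) (XT.lf (nat_lit 0) (nat_lit 221580016785) (nat_lit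 152) (nat_lit 144801290755) (nat_lit 0) (nat_lit 51329017914) (nat_lit 4) (nat_lit 5) (nat_lit 6) (nat_lit 4) (nat_lit 4) (nat_lit 4) (nat_lit 312) (nat_lit 269) (nat_lit 139)) (XT.lf (nat_lit 0) (nat_lit 263636723683) (nat_lit 152) (nat_lit 90930811679) (nat_lit 0) (nat_lit 93385155058) (nat_lit 4) (nat_lit 5) (nat_lit 6) (nat_lit 4) (nat_lit 4) (nat_lit 4) (nat_lit 313) (nat_lit 269) (nat_lit 138))))) (XT.nd (nat_lit 234) (nat_lit 0) (nat_lit 0) (XT.nd (nat_lit 78) (nat_lit 76) (nat_lit 0) (XT.lf (nat_lit 0) (nat_lit 309057722562) (nat_lit 152) (nat_lit 32751116091) (nat_lit 0) (nat_lit 138805626388) (nat_lit 4) (nat_lit 5) (nat_lit 6) (nat_lit 4) (nat_lit 4) (nat_lit 4) (nat_lit 314) (nat_lit 269) (nat_lit 137)) (XT.nd (nat_lit 78) (nat_lit 0) (nat_lit 0) (XT.lf (nat_lit 0) (nat_lit 31666659116) (nat_lit 76) (nat_lit 327207099695) (nat_lit 76) (nat_lit 156954515049) (nat_lit 3)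 (nat_lit 4) (nat_lit 4) (nat_lit 5) (nat_lit 4) (nat_lit 4) (nat_lit 315) (nat_lit 269) (nat_lit 136)) (XT.lf (nat_lit 0) (nat_lit 103100060653) (nat_lit 76) (nat_lit 310470272027) (nat_lit 76) (nat_lit 140217235091) (nat_lit 3) (nat_lit 4) (nat_lit 4) (nat_lit 5) (nat_lit 4) (nat_lit 4) (nat_lit 316) (nat_lit 269) (nat_lit 135)))) (XT.nd (nat_lit 78) (nat_lit 0) (nat_lit 0) (XT.lf (nat_lit 0) (nat_lit 180247781832) (nat_lit 76) (nat_lit 292394648002) (nat_lit 76) (nat_lit 122141192280) (nat_lit 3) (nat_lit 4) (nat_lit 4) (nat_lit 5) (nat_lit 4) (nat_lit 4) (nat_lit 317) (nat_lit 269) (nat_lit 134)) (XT.nd (nat_lit 78) (nat_lit 0) (nat_lit 0) (XT.lf (nat_lit 0) (nat_lit 263566994334) (nat_lit 76) (nat_lit 272873112811) (nat_lit 76) (nat_lit 102619269325) (nat_lit 3) (nat_lit 4) (nat_lit 4) (nat_lit 5) (nat_lit 4) (nat_lit 4) (nat_lit 318) (nat_lit 269) (nat_lit 133)) (XT.lf (nat_lit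 0) (nat_lit 353551441639) (nat_lit 76) (nat_lit 251789983283) (nat_lit 76) (nat_lit 81535780755) (nat_lit 3) (nat_lit 4) (nat_lit 4) (nat_lit 5) (nat_lit 4) (nat_lit 4) (nat_lit 319) (nat_lit 269) (nat_lit 132))))))))
noncomputable def xc100 : XT := (XT.nd (nat_lit 34632) (nat_lit 0) (nat_lit 380) (XT.nd (nat_lit 33696) (nat_lit 0) (nat_lit 1520) (XT.nd (nat_lit 390) (nat_lit 76) (nat_lit 0) (XT.nd (nat_lit 156) (nat_lit 76) (nat_lit 0) (XT.nd (nat_lit 78) (nat_lit 0) (nat_lit 0) (XT.lf (nat_lit 0) (nat_lit 450734364919) (nat_lit 76) (nat_lit 229020322353) (nat_lit 76) (nat_lit 58765787379) (nat_lit 3) (nat_lit 4) (nat_lit 4) (nat_lit 5) (nat_lit 4) (nat_lit 4) (nat_lit 320) (nat_lit 269) (nat_lit 131)) (XT.lf (nat_lit 0) (nat_lit 555691662976) (nat_lit 76) (nat_lit 204429198698) (nat_lit 76) (nat_lit 34174355904) (nat_lit 3) (nat_lit 4) (nat_lit 4) (nat_lit 5) (nat_lit 4) (nat_lit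 4) (nat_lit 321) (nat_lit 269) (nat_lit 130))) (XT.nd (nat_lit 78) (nat_lit 76) (nat_lit 0) (XT.lf (nat_lit 0) (nat_lit 669045304985) (nat_lit 76) (nat_lit 177870887141) (nat_lit 76) (nat_lit 7615759327) (nat_lit 3) (nat_lit 4) (nat_lit 4) (nat_lit 5) (nat_lit 4) (nat_lit 4) (nat_lit 322) (nat_lit 269) (nat_lit 129)) (XT.nd (nat_lit 78) (nat_lit 0) (nat_lit 0) (XT.lf (nat_lit 0) (nat_lit 20013510622) (nat_lit 152) (nat_lit 128627289623) (nat_lit 76) (nat_lit 770906300762) (nat_lit 2) (nat_lit 5) (nat_lit 4) (nat_lit 5) (nat_lit 3) (nat_lit 4) (nat_lit 323) (nat_lit 269) (nat_lit 128)) (XT.lf (nat_lit 0) (nat_lit 49441551661) (nat_lit 152) (nat_lit 67417208621) (nat_lit 76) (nat_lit 872888887408) (nat_lit 2) (nat_lit 5) (nat_lit 4) (nat_lit 5) (nat_lit 3) (nat_lit 4) (nat_lit 324) (nat_lit 269) (nat_lit 127))))) (XT.nd (nat_lit 234) (nat_lit 0) (nat_lit 0) (XT.nd (nat_lit 78) (nat_lit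 76) (nat_lit 0) (XT.lf (nat_lit 0) (nat_lit 81223723304) (nat_lit 152) (nat_lit 1310517861) (nat_lit 76) (nat_lit 983030006310) (nat_lit 2) (nat_lit 5) (nat_lit 4) (nat_lit 5) (nat_lit 3) (nat_lit 4) (nat_lit 325) (nat_lit 269) (nat_lit 126)) (XT.nd (nat_lit 78) (nat_lit 0) (nat_lit 0) (XT.lf (nat_lit 0) (nat_lit 73775052949) (nat_lit 76) (nat_lit 43547603195) (nat_lit 152) (nat_lit 1029981584429) (nat_lit 1) (nat_lit 5) (nat_lit 2) (nat_lit 5) (nat_lit 3) (nat_lit 4) (nat_lit 326) (nat_lit 269) (nat_lit 125)) (XT.lf (nat_lit 0) (nat_lit 154941822197) (nat_lit 76) (nat_lit 1403412421) (nat_lit 152) (nat_lit 1079235340324) (nat_lit 1) (nat_lit 5) (nat_lit 2) (nat_lit 5) (nat_lit 3) (nat_lit 4) (nat_lit 327) (nat_lit 269) (nat_lit 124)))) (XT.nd (nat_lit 78) (nat_lit 0) (nat_lit 0) (XT.lf (nat_lit 0) (nat_lit 199550426466) (nat_lit 152) (nat_lit 1089378155714) (nat_lit 0) (nat_lit 41905569595)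 (nat_lit 1) (nat_lit 5) (nat_lit 3) (nat_lit 4) (nat_lit 1) (nat_lit 4) (nat_lit 328) (nat_lit 269) (nat_lit 123)) (XT.nd (nat_lit 32916) (nat_lit 0) (nat_lit 1976) (XT.lf (nat_lit 0) (nat_lit 246248397868) (nat_lit 152) (nat_lit 1098853320999) (nat_lit 0) (nat_lit 88603387010) (nat_lit 1) (nat_lit 5) (nat_lit 3) (nat_lit 4) (nat_lit 1) (nat_lit 4) (nat_lit 329) (nat_lit 269) (nat_lit 122)) (XT.lf (nat_lit 0) (nat_lit 1594493602) (nat_lit 532) (nat_lit 9581512646) (nat_lit 532) (nat_lit 9581512646) (nat_lit 27) (nat_lit 3) (nat_lit 34) (nat_lit 3) (nat_lit 34) (nat_lit 5) (nat_lit 270) (nat_lit 270) (nat_lit 180)))))) (XT.nd (nat_lit 468) (nat_lit 456) (nat_lit 0) (XT.nd (nat_lit 234) (nat_lit 0) (nat_lit 152) (XT.nd (nat_lit 78) (nat_lit 0) (nat_lit 76) (XT.lf (nat_lit 0) (nat_lit 3349449738) (nat_lit 532) (nat_lit 2762033070) (nat_lit 532) (nat_lit 37061260803) (nat_lit 27) (nat_lit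 3) (nat_lit 34) (nat_lit 3) (nat_lit 34) (nat_lit 5) (nat_lit 271) (nat_lit 270) (nat_lit 179)) (XT.nd (nat_lit 78) (nat_lit 0) (nat_lit 0) (XT.lf (nat_lit 0) (nat_lit 4182636269) (nat_lit 456) (nat_lit 29481346938) (nat_lit 532) (nat_lit 11246318089) (nat_lit 28) (nat_lit 5) (nat_lit 34) (nat_lit 5) (nat_lit 35) (nat_lit 5) (nat_lit 272) (nat_lit 270) (nat_lit 178)) (XT.lf (nat_lit 0) (nat_lit 5315640258) (nat_lit 456) (nat_lit 11711272783) (nat_lit 532) (nat_lit 29741321957) (nat_lit 28) (nat_lit 5) (nat_lit 34) (nat_lit 5) (nat_lit 35) (nat_lit 5) (nat_lit 273) (nat_lit 270) (nat_lit 177)))) (XT.nd (nat_lit 78) (nat_lit 0) (nat_lit 0) (XT.lf (nat_lit 0) (nat_lit 6753356859) (nat_lit 456) (nat_lit 40915165487) (nat_lit 532) (nat_lit 1089177863) (nat_lit 29) (nat_lit 5) (nat_lit 35) (nat_lit 5) (nat_lit 36) (nat_lit 5) (nat_lit 274) (nat_lit 270) (nat_lit 176)) (XT.nd (nat_lit 78)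 (nat_lit 0) (nat_lit 0) (XT.lf (nat_lit 0) (nat_lit 9074225966) (nat_lit 456) (nat_lit 21706706728) (nat_lit 532) (nat_lit 20063960053) (nat_lit 29) (nat_lit 5) (nat_lit 35) (nat_lit 5) (nat_lit 36) (nat_lit 5) (nat_lit 275) (nat_lit 270) (nat_lit 175)) (XT.lf (nat_lit 0) (nat_lit 11578314305) (nat_lit 456) (nat_lit 963518852) (nat_lit 532) (nat_lit 40557442928) (nat_lit 29) (nat_lit 5) (nat_lit 35) (nat_lit 5) (nat_lit 36) (nat_lit 5) (nat_lit 276) (nat_lit 270) (nat_lit 174))))) (XT.nd (nat_lit 234) (nat_lit 228) (nat_lit 0) (XT.nd (nat_lit 78) (nat_lit 456) (nat_lit 0) (XT.lf (nat_lit 0) (nat_lit 15009397095) (nat_lit 456) (nat_lit 33110839314) (nat_lit 76) (nat_lit 7355658228) (nat_lit 30) (nat_lit 5) (nat_lit 36) (nat_lit 5) (nat_lit 31) (nat_lit 5) (nat_lit 277) (nat_lit 270) (nat_lit 173)) (XT.nd (nat_lit 78) (nat_lit 456) (nat_lit 0) (XT.lf (nat_lit 0) (nat_lit 19065623251)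 (nat_lit 456) (nat_lit 10754224675) (nat_lit 76) (nat_lit 28194758819) (nat_lit 30) (nat_lit 5) (nat_lit 36) (nat_lit 5) (nat_lit 31) (nat_lit 5) (nat_lit 278) (nat_lit 270) (nat_lit 172)) (XT.lf (nat_lit 0) (nat_lit 14094155717) (nat_lit 456) (nat_lit 9689180882) (nat_lit 532) (nat_lit 36946135472) (nat_lit 24) (nat_lit 5) (nat_lit 30) (nat_lit 5) (nat_lit 31) (nat_lit 5) (nat_lit 279) (nat_lit 270) (nat_lit 171)))) (XT.nd (nat_lit 78) (nat_lit 228) (nat_lit 0) (XT.lf (nat_lit 0) (nat_lit 29468124217) (nat_lit 532) (nat_lit 22395412365) (nat_lit 76) (nat_lit 11750831705) (nat_lit 24) (nat_lit 5) (nat_lit 31) (nat_lit 5) (nat_lit 25) (nat_lit 5) (nat_lit 280) (nat_lit 270) (nat_lit 170)) (XT.nd (nat_lit 78) (nat_lit 0) (nat_lit 0) (XT.lf (nat_lit 0) (nat_lit 3716124634) (nat_lit 228) (nat_lit 32230879405) (nat_lit 304) (nat_lit 30755920612) (nat_lit 21) (nat_lit 5) (nat_lit 24) (nat_lit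 5) (nat_lit 25) (nat_lit 5) (nat_lit 281) (nat_lit 270) (nat_lit 169)) (XT.lf (nat_lit 0) (nat_lit 33188488926) (nat_lit 228) (nat_lit 10366391149) (nat_lit 304) (nat_lit 26434842791) (nat_lit 21) (nat_lit 5) (nat_lit 24) (nat_lit 5) (nat_lit 25) (nat_lit 5) (nat_lit 282) (nat_lit 270) (nat_lit 168))))))) (XT.nd (nat_lit 858) (nat_lit 456) (nat_lit 0) (XT.nd (nat_lit 390) (nat_lit 304) (nat_lit 0) (XT.nd (nat_lit 156) (nat_lit 228) (nat_lit 0) (XT.nd (nat_lit 78) (nat_lit 152) (nat_lit 0) (XT.lf (nat_lit 0) (nat_lit 52088458211) (nat_lit 304) (nat_lit 8841163867) (nat_lit 76) (nat_lit 12584488403) (nat_lit 21) (nat_lit 5) (nat_lit 25) (nat_lit 5) (nat_lit 22) (nat_lit 5) (nat_lit 283) (nat_lit 270) (nat_lit 167)) (XT.lf (nat_lit 0) (nat_lit 22195129950) (nat_lit 152) (nat_lit 39911231107) (nat_lit 228) (nat_lit 15149967438) (nat_lit 19) (nat_lit 5) (nat_lit 21) (nat_lit 5) (nat_lit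 22) (nat_lit 5) (nat_lit 284) (nat_lit 270) (nat_lit 166))) (XT.nd (nat_lit 78) (nat_lit 228) (nat_lit 0) (XT.lf (nat_lit 0) (nat_lit 56215557748) (nat_lit 152) (nat_lit 16950526328) (nat_lit 228) (nat_lit 8112618530) (nat_lit 19) (nat_lit 5) (nat_lit 21) (nat_lit 5) (nat_lit 22) (nat_lit 5) (nat_lit 285) (nat_lit 270) (nat_lit 165)) (XT.nd (nat_lit 78) (nat_lit 76) (nat_lit 0) (XT.lf (nat_lit 0) (nat_lit 7520685661) (nat_lit 152) (nat_lit 77958242716) (nat_lit 228) (nat_lit 114479768) (nat_lit 17) (nat_lit 5) (nat_lit 19) (nat_lit 5) (nat_lit 20) (nat_lit 5) (nat_lit 286) (nat_lit 270) (nat_lit 164)) (XT.lf (nat_lit 0) (nat_lit 9239239559) (nat_lit 228) (nat_lit 46726540221) (nat_lit 76) (nat_lit 34179749994) (nat_lit 16) (nat_lit 5) (nat_lit 19) (nat_lit 5) (nat_lit 17) (nat_lit 5) (nat_lit 287) (nat_lit 270) (nat_lit 163))))) (XT.nd (nat_lit 234) (nat_lit 152) (nat_lit 0) (XT.nd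 (nat_lit 78) (nat_lit 152) (nat_lit 0) (XT.lf (nat_lit 0) (nat_lit 19333929435) (nat_lit 228) (nat_lit 12877113136) (nat_lit 76) (nat_lit 62850639175) (nat_lit 16) (nat_lit 5) (nat_lit 19) (nat_lit 5) (nat_lit 17) (nat_lit 5) (nat_lit 288) (nat_lit 270) (nat_lit 162)) (XT.nd (nat_lit 78) (nat_lit 0) (nat_lit 0) (XT.lf (nat_lit 0) (nat_lit 24925790181) (nat_lit 152) (nat_lit 5908812656) (nat_lit 228) (nat_lit 69488656968) (nat_lit 14) (nat_lit 5) (nat_lit 16) (nat_lit 5) (nat_lit 17) (nat_lit 5) (nat_lit 289) (nat_lit 270) (nat_lit 161)) (XT.lf (nat_lit 0) (nat_lit 44156606991) (nat_lit 228) (nat_lit 40043963179) (nat_lit 76) (nat_lit 21733097895) (nat_lit 14) (nat_lit 5) (nat_lit 17) (nat_lit 5) (nat_lit 15) (nat_lit 5) (nat_lit 290) (nat_lit 270) (nat_lit 160)))) (XT.nd (nat_lit 78) (nat_lit 152) (nat_lit 0) (XT.lf (nat_lit 0) (nat_lit 58696903661) (nat_lit 228) (nat_lit 2016958897)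 (nat_lit 76) (nat_lit 51266849508) (nat_lit 14) (nat_lit 5) (nat_lit 17) (nat_lit 5) (nat_lit 15) (nat_lit 5) (nat_lit 291) (nat_lit 270) (nat_lit 159)) (XT.nd (nat_lit 78) (nat_lit 0) (nat_lit 0) (XT.lf (nat_lit 0) (nat_lit 41107351740) (nat_lit 152) (nat_lit 34280831540) (nat_lit 228) (nat_lit 43044320806) (nat_lit 12) (nat_lit 5) (nat_lit 14) (nat_lit 5) (nat_lit 15) (nat_lit 5) (nat_lit 292) (nat_lit 270) (nat_lit 158)) (XT.lf (nat_lit 0) (nat_lit 87795133900) (nat_lit 152) (nat_lit 5673941360) (nat_lit 228) (nat_lit 31927024258) (nat_lit 12) (nat_lit 5) (nat_lit 14) (nat_lit 5) (nat_lit 15) (nat_lit 5) (nat_lit 293) (nat_lit 270) (nat_lit 157)))))) (XT.nd (nat_lit 468) (nat_lit 152) (nat_lit 0) (XT.nd (nat_lit 234) (nat_lit 152) (nat_lit 0) (XT.nd (nat_lit 78) (nat_lit 76) (nat_lit 0) (XT.lf (nat_lit 0) (nat_lit 4940574852) (nat_lit 76) (nat_lit 108780479526) (nat_lit 152) (nat_lit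 19137763432) (nat_lit 11) (nat_lit 5) (nat_lit 12) (nat_lit 5) (nat_lit 13) (nat_lit 4) (nat_lit 294) (nat_lit 270) (nat_lit 156)) (XT.nd (nat_lit 78) (nat_lit 76) (nat_lit 0) (XT.lf (nat_lit 0) (nat_lit 52867581244) (nat_lit 76) (nat_lit 83896579860) (nat_lit 152) (nat_lit 4060719075) (nat_lit 11) (nat_lit 5) (nat_lit 12) (nat_lit 5) (nat_lit 13) (nat_lit 4) (nat_lit 295) (nat_lit 270) (nat_lit 155)) (XT.lf (nat_lit 0) (nat_lit 11610352551) (nat_lit 152) (nat_lit 45094510737) (nat_lit 76) (nat_lit 92699909153) (nat_lit 10) (nat_lit 5) (nat_lit 12) (nat_lit 5) (nat_lit 11) (nat_lit 5) (nat_lit 296) (nat_lit 270) (nat_lit 154)))) (XT.nd (nat_lit 78) (nat_lit 0) (nat_lit 0) (XT.lf (nat_lit 0) (nat_lit 1148268135) (nat_lit 152) (nat_lit 27194408635) (nat_lit 228) (nat_lit 130317788661) (nat_lit 8) (nat_lit 5) (nat_lit 10) (nat_lit 5) (nat_lit 11) (nat_lit 5) (nat_lit 297) (nat_lit 270)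 (nat_lit 153)) (XT.nd (nat_lit 78) (nat_lit 0) (nat_lit 0) (XT.lf (nat_lit 0) (nat_lit 47790407938) (nat_lit 228) (nat_lit 115048467772) (nat_lit 76) (nat_lit 5707595525) (nat_lit 8) (nat_lit 5) (nat_lit 11) (nat_lit 5) (nat_lit 9) (nat_lit 4) (nat_lit 298) (nat_lit 270) (nat_lit 152)) (XT.lf (nat_lit 0) (nat_lit 69499706805) (nat_lit 228) (nat_lit 69894933486) (nat_lit 76) (nat_lit 39772260106) (nat_lit 8) (nat_lit 5) (nat_lit 11) (nat_lit 5) (nat_lit 9) (nat_lit 4) (nat_lit 299) (nat_lit 270) (nat_lit 151))))) (XT.nd (nat_lit 234) (nat_lit 76) (nat_lit 0) (XT.nd (nat_lit 78) (nat_lit 76) (nat_lit 0) (XT.lf (nat_lit 0) (nat_lit 92945194885) (nat_lit 228) (nat_lit 21129991757) (nat_lit 76) (nat_lit 76561824244) (nat_lit 8) (nat_lit 5) (nat_lit 11) (nat_lit 5) (nat_lit 9) (nat_lit 4) (nat_lit 300) (nat_lit 270) (nat_lit 150)) (XT.nd (nat_lit 78) (nat_lit 0) (nat_lit 0) (XT.lf (nat_lit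 0) (nat_lit 33195929695) (nat_lit 76) (nat_lit 85868241617) (nat_lit 152) (nat_lit 83896733384) (nat_lit 7) (nat_lit 5) (nat_lit 8) (nat_lit 5) (nat_lit 9) (nat_lit 4) (nat_lit 301) (nat_lit 270) (nat_lit 149)) (XT.lf (nat_lit 0) (nat_lit 93068816273) (nat_lit 76) (nat_lit 54781086440) (nat_lit 152) (nat_lit 68374630593) (nat_lit 7) (nat_lit 5) (nat_lit 8) (nat_lit 5) (nat_lit 9) (nat_lit 4) (nat_lit 302) (nat_lit 270) (nat_lit 148)))) (XT.nd (nat_lit 78) (nat_lit 76) (nat_lit 0) (XT.lf (nat_lit 0) (nat_lit 157730802347) (nat_lit 76) (nat_lit 21207232354) (nat_lit 152) (nat_lit 51611256219) (nat_lit 7) (nat_lit 5) (nat_lit 8) (nat_lit 5) (nat_lit 9) (nat_lit 4) (nat_lit 303) (nat_lit 270) (nat_lit 147)) (XT.nd (nat_lit 78) (nat_lit 76) (nat_lit 0) (XT.lf (nat_lit 0) (nat_lit 212874800863) (nat_lit 152) (nat_lit 18817002551) (nat_lit 0) (nat_lit 14299300966) (nat_lit 7) (nat_lit 5)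 (nat_lit 9) (nat_lit 4) (nat_lit 7) (nat_lit 4) (nat_lit 304) (nat_lit 270) (nat_lit 146)) (XT.lf (nat_lit 0) (nat_lit 41004312283) (nat_lit 76) (nat_lit 210058789696) (nat_lit 76) (nat_lit 11482235224) (nat_lit 6) (nat_lit 4) (nat_lit 7) (nat_lit 5) (nat_lit 7) (nat_lit 4) (nat_lit 305) (nat_lit 270) (nat_lit 145))))))))
noncomputable def xc101 : XT := (XT.nd (nat_lit 1794) (nat_lit 0) (nat_lit 0) (XT.nd (nat_lit 858) (nat_lit 152) (nat_lit 0) (XT.nd (nat_lit 390) (nat_lit 76) (nat_lit 0) (XT.nd (nat_lit 156) (nat_lit 76) (nat_lit 0) (XT.nd (nat_lit 78) (nat_lit 0) (nat_lit 0) (XT.lf (nat_lit 0) (nat_lit 11815602778) (nat_lit 152) (nat_lit 174001077150) (nat_lit 76) (nat_lit 94542171554) (nat_lit 5) (nat_lit 5) (nat_lit 7) (nat_lit 5) (nat_lit 6) (nat_lit 4) (nat_lit 306) (nat_lit 270) (nat_lit 144)) (XT.lf (nat_lit 0) (nat_lit 36356562558) (nat_lit 152) (nat_lit 122956784935) (nat_lit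 76) (nat_lit 140260270939) (nat_lit 5) (nat_lit 5) (nat_lit 7) (nat_lit 5) (nat_lit 6) (nat_lit 4) (nat_lit 307) (nat_lit 270) (nat_lit 143))) (XT.nd (nat_lit 78) (nat_lit 76) (nat_lit 0) (XT.lf (nat_lit 0) (nat_lit 62860459934) (nat_lit 152) (nat_lit 67829515550) (nat_lit 76) (nat_lit 189635619701) (nat_lit 5) (nat_lit 5) (nat_lit 7) (nat_lit 5) (nat_lit 6) (nat_lit 4) (nat_lit 308) (nat_lit 270) (nat_lit 142)) (XT.nd (nat_lit 78) (nat_lit 76) (nat_lit 0) (XT.lf (nat_lit 0) (nat_lit 91484355037) (nat_lit 152) (nat_lit 8292588878) (nat_lit 76) (nat_lit 242960812499) (nat_lit 5) (nat_lit 5) (nat_lit 7) (nat_lit 5) (nat_lit 6) (nat_lit 4) (nat_lit 309) (nat_lit 270) (nat_lit 141)) (XT.lf (nat_lit 0) (nat_lit 58956025672) (nat_lit 76) (nat_lit 64859739113) (nat_lit 152) (nat_lit 243013718639) (nat_lit 4) (nat_lit 5) (nat_lit 5) (nat_lit 5) (nat_lit 6) (nat_lit 4) (nat_lit 310) (nat_lit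 270) (nat_lit 140))))) (XT.nd (nat_lit 234) (nat_lit 76) (nat_lit 0) (XT.nd (nat_lit 78) (nat_lit 0) (nat_lit 0) (XT.lf (nat_lit 0) (nat_lit 132055663124) (nat_lit 76) (nat_lit 26904477629) (nat_lit 152) (nat_lit 233870292606) (nat_lit 4) (nat_lit 5) (nat_lit 5) (nat_lit 5) (nat_lit 6) (nat_lit 4) (nat_lit 311) (nat_lit 270) (nat_lit 139)) (XT.nd (nat_lit 78) (nat_lit 0) (nat_lit 0) (XT.lf (nat_lit 0) (nat_lit 197254600277) (nat_lit 152) (nat_lit 210247440888) (nat_lit 0) (nat_lit 13382336409) (nat_lit 4) (nat_lit 5) (nat_lit 6) (nat_lit 4) (nat_lit 4) (nat_lit 4) (nat_lit 312) (nat_lit 270) (nat_lit 138)) (XT.lf (nat_lit 0) (nat_lit 239311189593) (nat_lit 152) (nat_lit 156377164608) (nat_lit 0) (nat_lit 55438398175) (nat_lit 4) (nat_lit 5) (nat_lit 6) (nat_lit 4) (nat_lit 4) (nat_lit 4) (nat_lit 313) (nat_lit 270) (nat_lit 137)))) (XT.nd (nat_lit 78) (nat_lit 76) (nat_lit 0) (XT.lf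 (nat_lit 0) (nat_lit 284732079601) (nat_lit 152) (nat_lit 98197656792) (nat_lit 0) (nat_lit 100858799710) (nat_lit 4) (nat_lit 5) (nat_lit 6) (nat_lit 4) (nat_lit 4) (nat_lit 4) (nat_lit 314) (nat_lit 270) (nat_lit 136)) (XT.nd (nat_lit 78) (nat_lit 76) (nat_lit 0) (XT.lf (nat_lit 0) (nat_lit 333786431130) (nat_lit 152) (nat_lit 35364149987) (nat_lit 0) (nat_lit 149912698950) (nat_lit 4) (nat_lit 5) (nat_lit 6) (nat_lit 4) (nat_lit 4) (nat_lit 4) (nat_lit 315) (nat_lit 270) (nat_lit 135)) (XT.lf (nat_lit 0) (nat_lit 34206868619) (nat_lit 76) (nat_lit 353380744027) (nat_lit 76) (nat_lit 169506593061) (nat_lit 3) (nat_lit 4) (nat_lit 4) (nat_lit 5) (nat_lit 4) (nat_lit 4) (nat_lit 316) (nat_lit 270) (nat_lit 134)))))) (XT.nd (nat_lit 468) (nat_lit 152) (nat_lit 0) (XT.nd (nat_lit 234) (nat_lit 0) (nat_lit 0) (XT.nd (nat_lit 78) (nat_lit 0) (nat_lit 0) (XT.lf (nat_lit 0) (nat_lit 111354432888)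 (nat_lit 76) (nat_lit 335305186712) (nat_lit 76) (nat_lit 151430647981) (nat_lit 3) (nat_lit 4) (nat_lit 4) (nat_lit 5) (nat_lit 4) (nat_lit 4) (nat_lit 317) (nat_lit 270) (nat_lit 133)) (XT.nd (nat_lit 78) (nat_lit 0) (nat_lit 0) (XT.lf (nat_lit 0) (nat_lit 194673500103) (nat_lit 76) (nat_lit 315783713289) (nat_lit 76) (nat_lit 131908815517) (nat_lit 3) (nat_lit 4) (nat_lit 4) (nat_lit 5) (nat_lit 4) (nat_lit 4) (nat_lit 318) (nat_lit 270) (nat_lit 132)) (XT.lf (nat_lit 0) (nat_lit 284657812885) (nat_lit 76) (nat_lit 294700640954) (nat_lit 76) (nat_lit 110825410735) (nat_lit 3) (nat_lit 4) (nat_lit 4) (nat_lit 5) (nat_lit 4) (nat_lit 4) (nat_lit 319) (nat_lit 270) (nat_lit 131)))) (XT.nd (nat_lit 78) (nat_lit 0) (nat_lit 0) (XT.lf (nat_lit 0) (nat_lit 381840611604) (nat_lit 76) (nat_lit 271931032980) (nat_lit 76) (nat_lit 88055494942) (nat_lit 3) (nat_lit 4) (nat_lit 4) (nat_lit 5)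 (nat_lit 4) (nat_lit 4) (nat_lit 320) (nat_lit 270) (nat_lit 130)) (XT.nd (nat_lit 78) (nat_lit 0) (nat_lit 0) (XT.lf (nat_lit 0) (nat_lit 486797794328) (nat_lit 76) (nat_lit 247339958359) (nat_lit 76) (nat_lit 63464135302) (nat_lit 3) (nat_lit 4) (nat_lit 4) (nat_lit 5) (nat_lit 4) (nat_lit 4) (nat_lit 321) (nat_lit 270) (nat_lit 129)) (XT.lf (nat_lit 0) (nat_lit 600151329548) (nat_lit 76) (nat_lit 220781692203) (nat_lit 76) (nat_lit 36905605239) (nat_lit 3) (nat_lit 4) (nat_lit 4) (nat_lit 5) (nat_lit 4) (nat_lit 4) (nat_lit 322) (nat_lit 270) (nat_lit 128))))) (XT.nd (nat_lit 234) (nat_lit 76) (nat_lit 0) (XT.nd (nat_lit 78) (nat_lit 76) (nat_lit 0) (XT.lf (nat_lit 0) (nat_lit 722572941915) (nat_lit 76) (nat_lit 192098852194) (nat_lit 76) (nat_lit 8222520873) (nat_lit 3) (nat_lit 4) (nat_lit 4) (nat_lit 5) (nat_lit 4) (nat_lit 4) (nat_lit 323) (nat_lit 270) (nat_lit 127)) (XT.nd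 (nat_lit 78) (nat_lit 0) (nat_lit 0) (XT.lf (nat_lit 0) (nat_lit 21616789788) (nat_lit 152) (nat_lit 138913634818) (nat_lit 76) (nat_lit 832580261708) (nat_lit 2) (nat_lit 5) (nat_lit 4) (nat_lit 5) (nat_lit 3) (nat_lit 4) (nat_lit 324) (nat_lit 270) (nat_lit 126)) (XT.lf (nat_lit 0) (nat_lit 53398911271) (nat_lit 152) (nat_lit 72807031630) (nat_lit 76) (nat_lit 942721347368) (nat_lit 2) (nat_lit 5) (nat_lit 4) (nat_lit 5) (nat_lit 3) (nat_lit 4) (nat_lit 325) (nat_lit 270) (nat_lit 125)))) (XT.nd (nat_lit 78) (nat_lit 76) (nat_lit 0) (XT.lf (nat_lit 0) (nat_lit 87723505869) (nat_lit 152) (nat_lit 1412068845) (nat_lit 76) (nat_lit 1061673655859) (nat_lit 2) (nat_lit 5) (nat_lit 4) (nat_lit 5) (nat_lit 3) (nat_lit 4) (nat_lit 326) (nat_lit 270) (nat_lit 124)) (XT.nd (nat_lit 78) (nat_lit 0) (nat_lit 0) (XT.lf (nat_lit 0) (nat_lit 79680264327) (nat_lit 76) (nat_lit 47030026534) (nat_lit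 152) (nat_lit 1112378137696) (nat_lit 1) (nat_lit 5) (nat_lit 2) (nat_lit 5) (nat_lit 3) (nat_lit 4) (nat_lit 327) (nat_lit 270) (nat_lit 123)) (XT.lf (nat_lit 0) (nat_lit 167340137549) (nat_lit 76) (nat_lit 1514403085) (nat_lit 152) (nat_lit 1165572340246) (nat_lit 1) (nat_lit 5) (nat_lit 2) (nat_lit 5) (nat_lit 3) (nat_lit 4) (nat_lit 328) (nat_lit 270) (nat_lit 122))))))) (XT.nd (nat_lit 33774) (nat_lit 0) (nat_lit 988) (XT.nd (nat_lit 33306) (nat_lit 0) (nat_lit 1748) (XT.nd (nat_lit 33072) (nat_lit 0) (nat_lit 1976) (XT.nd (nat_lit 32994) (nat_lit 0) (nat_lit 1976) (XT.lf (nat_lit 0) (nat_lit 215516051404) (nat_lit 152) (nat_lit 1176525557435) (nat_lit 0) (nat_lit 45259143110) (nat_lit 1) (nat_lit 5) (nat_lit 3) (nat_lit 4) (nat_lit 1) (nat_lit 4) (nat_lit 329) (nat_lit 270) (nat_lit 121)) (XT.lf (nat_lit 0) (nat_lit 1754164817) (nat_lit 532) (nat_lit 10330564770) (nat_lit 532)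 (nat_lit 10330564770) (nat_lit 27) (nat_lit 3) (nat_lit 34) (nat_lit 3) (nat_lit 34) (nat_lit 5) (nat_lit 271) (nat_lit 271) (nat_lit 178))) (XT.nd (nat_lit 78) (nat_lit 0) (nat_lit 76) (XT.lf (nat_lit 0) (nat_lit 3676871877) (nat_lit 532) (nat_lit 2950645924) (nat_lit 532) (nat_lit 39993811876) (nat_lit 27) (nat_lit 3) (nat_lit 34) (nat_lit 3) (nat_lit 34) (nat_lit 5) (nat_lit 272) (nat_lit 271) (nat_lit 177)) (XT.nd (nat_lit 78) (nat_lit 0) (nat_lit 0) (XT.lf (nat_lit 0) (nat_lit 4572482601) (nat_lit 456) (nat_lit 31802833310) (nat_lit 532) (nat_lit 12122949793) (nat_lit 28) (nat_lit 5) (nat_lit 34) (nat_lit 5) (nat_lit 35) (nat_lit 5) (nat_lit 273) (nat_lit 271) (nat_lit 176)) (XT.lf (nat_lit 0) (nat_lit 5792035396) (nat_lit 456) (nat_lit 12613895546) (nat_lit 532) (nat_lit 32099263136) (nat_lit 28) (nat_lit 5) (nat_lit 34) (nat_lit 5) (nat_lit 35) (nat_lit 5) (nat_lit 274) (nat_lit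 271) (nat_lit 175))))) (XT.nd (nat_lit 234) (nat_lit 380) (nat_lit 0) (XT.nd (nat_lit 78) (nat_lit 0) (nat_lit 0) (XT.lf (nat_lit 0) (nat_lit 7341429743) (nat_lit 456) (nat_lit 44150382117) (nat_lit 532) (nat_lit 1162302051) (nat_lit 29) (nat_lit 5) (nat_lit 35) (nat_lit 5) (nat_lit 36) (nat_lit 5) (nat_lit 275) (nat_lit 271) (nat_lit 174)) (XT.nd (nat_lit 78) (nat_lit 0) (nat_lit 0) (XT.lf (nat_lit 0) (nat_lit 9844427317) (nat_lit 456) (nat_lit 23408061221) (nat_lit 532) (nat_lit 21656104597) (nat_lit 29) (nat_lit 5) (nat_lit 35) (nat_lit 5) (nat_lit 36) (nat_lit 5) (nat_lit 276) (nat_lit 271) (nat_lit 173)) (XT.lf (nat_lit 0) (nat_lit 12545563962) (nat_lit 456) (nat_lit 1008024392) (nat_lit 532) (nat_lit 43790027009) (nat_lit 29) (nat_lit 5) (nat_lit 35) (nat_lit 5) (nat_lit 36) (nat_lit 5) (nat_lit 277) (nat_lit 271) (nat_lit 172)))) (XT.nd (nat_lit 78) (nat_lit 456) (nat_lit 0)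 (XT.lf (nat_lit 0) (nat_lit 16248693692) (nat_lit 456) (nat_lit 35724390765) (nat_lit 76) (nat_lit 7937498121) (nat_lit 30) (nat_lit 5) (nat_lit 36) (nat_lit 5) (nat_lit 31) (nat_lit 5) (nat_lit 278) (nat_lit 271) (nat_lit 171)) (XT.nd (nat_lit 78) (nat_lit 456) (nat_lit 0) (XT.lf (nat_lit 0) (nat_lit 20626562768) (nat_lit 456) (nat_lit 11581862932) (nat_lit 76) (nat_lit 30444216594) (nat_lit 30) (nat_lit 5) (nat_lit 36) (nat_lit 5) (nat_lit 31) (nat_lit 5) (nat_lit 279) (nat_lit 271) (nat_lit 170)) (XT.lf (nat_lit 0) (nat_lit 15253560050) (nat_lit 456) (nat_lit 10466255974) (nat_lit 532) (nat_lit 39865051573) (nat_lit 24) (nat_lit 5) (nat_lit 30) (nat_lit 5) (nat_lit 31) (nat_lit 5) (nat_lit 280) (nat_lit 271) (nat_lit 169)))))) (XT.nd (nat_lit 468) (nat_lit 380) (nat_lit 0) (XT.nd (nat_lit 234) (nat_lit 152) (nat_lit 0) (XT.nd (nat_lit 78) (nat_lit 228) (nat_lit 0) (XT.lf (nat_lit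 0) (nat_lit 31856838808) (nat_lit 532) (nat_lit 24154748330) (nat_lit 76) (nat_lit 12689191256) (nat_lit 24) (nat_lit 5) (nat_lit 31) (nat_lit 5) (nat_lit 25) (nat_lit 5) (nat_lit 281) (nat_lit 271) (nat_lit 168)) (XT.nd (nat_lit 78) (nat_lit 0) (nat_lit 0) (XT.lf (nat_lit 0) (nat_lit 4044893984) (nat_lit 228) (nat_lit 34807576212) (nat_lit 304) (nat_lit 33184091420) (nat_lit 21) (nat_lit 5) (nat_lit 24) (nat_lit 5) (nat_lit 25) (nat_lit 5) (nat_lit 282) (nat_lit 271) (nat_lit 167)) (XT.lf (nat_lit 0) (nat_lit 35872715613) (nat_lit 228) (nat_lit 11194060269) (nat_lit 304) (nat_lit 28519720177) (nat_lit 21) (nat_lit 5) (nat_lit 24) (nat_lit 5) (nat_lit 25) (nat_lit 5) (nat_lit 283) (nat_lit 271) (nat_lit 166)))) (XT.nd (nat_lit 78) (nat_lit 152) (nat_lit 0) (XT.lf (nat_lit 0) (nat_lit 56281039401) (nat_lit 304) (nat_lit 9519278536) (nat_lit 76) (nat_lit 13592691941) (nat_lit 21) (nat_lit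 5) (nat_lit 25) (nat_lit 5) (nat_lit 22) (nat_lit 5) (nat_lit 284) (nat_lit 271) (nat_lit 165)) (XT.nd (nat_lit 78) (nat_lit 0) (nat_lit 0) (XT.lf (nat_lit 0) (nat_lit 23999180091) (nat_lit 152) (nat_lit 43099989136) (nat_lit 228) (nat_lit 16335546533) (nat_lit 19) (nat_lit 5) (nat_lit 21) (nat_lit 5) (nat_lit 22) (nat_lit 5) (nat_lit 285) (nat_lit 271) (nat_lit 164)) (XT.lf (nat_lit 0) (nat_lit 60739135465) (nat_lit 152) (nat_lit 18302734675) (nat_lit 228) (nat_lit 8737166624) (nat_lit 19) (nat_lit 5) (nat_lit 21) (nat_lit 5) (nat_lit 22) (nat_lit 5) (nat_lit 286) (nat_lit 271) (nat_lit 163))))) (XT.nd (nat_lit 234) (nat_lit 152) (nat_lit 0) (XT.nd (nat_lit 78) (nat_lit 76) (nat_lit 0) (XT.lf (nat_lit 0) (nat_lit 8149829462) (nat_lit 152) (nat_lit 84188992388) (nat_lit 228) (nat_lit 100182515) (nat_lit 17) (nat_lit 5) (nat_lit 19) (nat_lit 5) (nat_lit 20) (nat_lit 5) (nat_lit 287)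 (nat_lit 271) (nat_lit 162)) (XT.nd (nat_lit 78) (nat_lit 0) (nat_lit 0) (XT.lf (nat_lit 0) (nat_lit 9999010473) (nat_lit 228) (nat_lit 50437995594) (nat_lit 76) (nat_lit 36918386865) (nat_lit 16) (nat_lit 5) (nat_lit 19) (nat_lit 5) (nat_lit 17) (nat_lit 5) (nat_lit 288) (nat_lit 271) (nat_lit 161)) (XT.lf (nat_lit 0) (nat_lit 20899747261) (nat_lit 228) (nat_lit 13882589739) (nat_lit 76) (nat_lit 67882631857) (nat_lit 16) (nat_lit 5) (nat_lit 19) (nat_lit 5) (nat_lit 17) (nat_lit 5) (nat_lit 289) (nat_lit 271) (nat_lit 160)))) (XT.nd (nat_lit 78) (nat_lit 0) (nat_lit 0) (XT.lf (nat_lit 0) (nat_lit 26943920719) (nat_lit 152) (nat_lit 6375717564) (nat_lit 228) (nat_lit 75027910604) (nat_lit 14) (nat_lit 5) (nat_lit 16) (nat_lit 5) (nat_lit 17) (nat_lit 5) (nat_lit 290) (nat_lit 271) (nat_lit 159)) (XT.nd (nat_lit 78) (nat_lit 0) (nat_lit 0) (XT.lf (nat_lit 0) (nat_lit 47706178802) (nat_lit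 228) (nat_lit 43223869555) (nat_lit 76) (nat_lit 23476847541) (nat_lit 14) (nat_lit 5) (nat_lit 17) (nat_lit 5) (nat_lit 15) (nat_lit 5) (nat_lit 291) (nat_lit 271) (nat_lit 158)) (XT.lf (nat_lit 0) (nat_lit 63408436743) (nat_lit 228) (nat_lit 2156453869) (nat_lit 76) (nat_lit 55372921371) (nat_lit 14) (nat_lit 5) (nat_lit 17) (nat_lit 5) (nat_lit 15) (nat_lit 5) (nat_lit 292) (nat_lit 271) (nat_lit 157))))))))
noncomputable def xc102 : XT := (XT.nd (nat_lit 1794) (nat_lit 228) (nat_lit 0) (XT.nd (nat_lit 858) (nat_lit 228) (nat_lit 0) (XT.nd (nat_lit 390) (nat_lit 228) (nat_lit 0) (XT.nd (nat_lit 156) (nat_lit 152) (nat_lit 0) (XT.nd (nat_lit 78) (nat_lit 0) (nat_lit 0) (XT.lf (nat_lit 0) (nat_lit 44417248158) (nat_lit 152) (nat_lit 37017114092) (nat_lit 228) (nat_lit 46471444640) (nat_lit 12) (nat_lit 5) (nat_lit 14) (nat_lit 5) (nat_lit 15) (nat_lit 5) (nat_lit 293) (nat_lit 271)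 (nat_lit 156)) (XT.lf (nat_lit 0) (nat_lit 94838474499) (nat_lit 152) (nat_lit 6122130769) (nat_lit 228) (nat_lit 34465980800) (nat_lit 12) (nat_lit 5) (nat_lit 14) (nat_lit 5) (nat_lit 15) (nat_lit 5) (nat_lit 294) (nat_lit 271) (nat_lit 155))) (XT.nd (nat_lit 78) (nat_lit 76) (nat_lit 0) (XT.lf (nat_lit 0) (nat_lit 5356088010) (nat_lit 76) (nat_lit 117476232305) (nat_lit 152) (nat_lit 20654041306) (nat_lit 11) (nat_lit 5) (nat_lit 12) (nat_lit 5) (nat_lit 13) (nat_lit 4) (nat_lit 295) (nat_lit 271) (nat_lit 154)) (XT.nd (nat_lit 78) (nat_lit 76) (nat_lit 0) (XT.lf (nat_lit 0) (nat_lit 57115753642) (nat_lit 76) (nat_lit 90602115894) (nat_lit 152) (nat_lit 4371925489) (nat_lit 11) (nat_lit 5) (nat_lit 12) (nat_lit 5) (nat_lit 13) (nat_lit 4) (nat_lit 296) (nat_lit 271) (nat_lit 153)) (XT.lf (nat_lit 0) (nat_lit 12551188373) (nat_lit 152) (nat_lit 48684003859) (nat_lit 76) (nat_lit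 100120941790) (nat_lit 10) (nat_lit 5) (nat_lit 12) (nat_lit 5) (nat_lit 11) (nat_lit 5) (nat_lit 297) (nat_lit 271) (nat_lit 152))))) (XT.nd (nat_lit 234) (nat_lit 76) (nat_lit 0) (XT.nd (nat_lit 78) (nat_lit 0) (nat_lit 0) (XT.lf (nat_lit 0) (nat_lit 1257739912) (nat_lit 152) (nat_lit 29363892694) (nat_lit 228) (nat_lit 140730691535) (nat_lit 8) (nat_lit 5) (nat_lit 10) (nat_lit 5) (nat_lit 11) (nat_lit 5) (nat_lit 298) (nat_lit 271) (nat_lit 151)) (XT.nd (nat_lit 78) (nat_lit 0) (nat_lit 0) (XT.lf (nat_lit 0) (nat_lit 51624462466) (nat_lit 228) (nat_lit 124235268434) (nat_lit 76) (nat_lit 6169541181) (nat_lit 8) (nat_lit 5) (nat_lit 11) (nat_lit 5) (nat_lit 9) (nat_lit 4) (nat_lit 299) (nat_lit 271) (nat_lit 150)) (XT.lf (nat_lit 0) (nat_lit 75069703620) (nat_lit 228) (nat_lit 75470716350) (nat_lit 76) (nat_lit 42958983520) (nat_lit 8) (nat_lit 5) (nat_lit 11) (nat_lit 5) (nat_lit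 9) (nat_lit 4) (nat_lit 300) (nat_lit 271) (nat_lit 149)))) (XT.nd (nat_lit 78) (nat_lit 76) (nat_lit 0) (XT.lf (nat_lit 0) (nat_lit 100390088505) (nat_lit 228) (nat_lit 22805750528) (nat_lit 76) (nat_lit 82691346670) (nat_lit 8) (nat_lit 5) (nat_lit 11) (nat_lit 5) (nat_lit 9) (nat_lit 4) (nat_lit 301) (nat_lit 271) (nat_lit 148)) (XT.nd (nat_lit 78) (nat_lit 0) (nat_lit 0) (XT.lf (nat_lit 0) (nat_lit 35865873992) (nat_lit 76) (nat_lit 92732364984) (nat_lit 152) (nat_lit 90598782812) (nat_lit 7) (nat_lit 5) (nat_lit 8) (nat_lit 5) (nat_lit 9) (nat_lit 4) (nat_lit 302) (nat_lit 271) (nat_lit 147)) (XT.lf (nat_lit 0) (nat_lit 100527534466) (nat_lit 76) (nat_lit 59158632650) (nat_lit 152) (nat_lit 73835629520) (nat_lit 7) (nat_lit 5) (nat_lit 8) (nat_lit 5) (nat_lit 9) (nat_lit 4) (nat_lit 303) (nat_lit 271) (nat_lit 146)))))) (XT.nd (nat_lit 468) (nat_lit 76) (nat_lit 0) (XT.nd (nat_lit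 234) (nat_lit 76) (nat_lit 0) (XT.nd (nat_lit 78) (nat_lit 76) (nat_lit 0) (XT.lf (nat_lit 0) (nat_lit 170361500693) (nat_lit 76) (nat_lit 22899236214) (nat_lit 152) (nat_lit 55731849752) (nat_lit 7) (nat_lit 5) (nat_lit 8) (nat_lit 5) (nat_lit 9) (nat_lit 4) (nat_lit 304) (nat_lit 271) (nat_lit 145)) (XT.nd (nat_lit 78) (nat_lit 76) (nat_lit 0) (XT.lf (nat_lit 0) (nat_lit 229911978869) (nat_lit 152) (nat_lit 20310537135) (nat_lit 0) (nat_lit 15447269007) (nat_lit 7) (nat_lit 5) (nat_lit 9) (nat_lit 4) (nat_lit 7) (nat_lit 4) (nat_lit 305) (nat_lit 271) (nat_lit 144)) (XT.lf (nat_lit 0) (nat_lit 44296183503) (nat_lit 76) (nat_lit 226858904895) (nat_lit 76) (nat_lit 12393290904) (nat_lit 6) (nat_lit 4) (nat_lit 7) (nat_lit 5) (nat_lit 7) (nat_lit 4) (nat_lit 306) (nat_lit 271) (nat_lit 143)))) (XT.nd (nat_lit 78) (nat_lit 0) (nat_lit 0) (XT.lf (nat_lit 0) (nat_lit 12767468408) (nat_lit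 152) (nat_lit 187910116855) (nat_lit 76) (nat_lit 102109419380) (nat_lit 5) (nat_lit 5) (nat_lit 7) (nat_lit 5) (nat_lit 6) (nat_lit 4) (nat_lit 307) (nat_lit 271) (nat_lit 142)) (XT.nd (nat_lit 78) (nat_lit 0) (nat_lit 0) (XT.lf (nat_lit 0) (nat_lit 39271214792) (nat_lit 152) (nat_lit 132783099520) (nat_lit 76) (nat_lit 151484679746) (nat_lit 5) (nat_lit 5) (nat_lit 7) (nat_lit 5) (nat_lit 6) (nat_lit 4) (nat_lit 308) (nat_lit 271) (nat_lit 141)) (XT.lf (nat_lit 0) (nat_lit 67894970089) (nat_lit 152) (nat_lit 73246406229) (nat_lit 76) (nat_lit 204809790696) (nat_lit 5) (nat_lit 5) (nat_lit 7) (nat_lit 5) (nat_lit 6) (nat_lit 4) (nat_lit 309) (nat_lit 271) (nat_lit 140))))) (XT.nd (nat_lit 234) (nat_lit 0) (nat_lit 0) (XT.nd (nat_lit 78) (nat_lit 76) (nat_lit 0) (XT.lf (nat_lit 0) (nat_lit 98808356551) (nat_lit 152) (nat_lit 8947226948) (nat_lit 76) (nat_lit 262400752887) (nat_lit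 5) (nat_lit 5) (nat_lit 7) (nat_lit 5) (nat_lit 6) (nat_lit 4) (nat_lit 310) (nat_lit 271) (nat_lit 139)) (XT.nd (nat_lit 78) (nat_lit 0) (nat_lit 0) (XT.lf (nat_lit 0) (nat_lit 63681054766) (nat_lit 76) (nat_lit 70045040751) (nat_lit 152) (nat_lit 262449322227) (nat_lit 4) (nat_lit 5) (nat_lit 5) (nat_lit 5) (nat_lit 6) (nat_lit 4) (nat_lit 311) (nat_lit 271) (nat_lit 138)) (XT.lf (nat_lit 0) (nat_lit 142628030100) (nat_lit 76) (nat_lit 29053615940) (nat_lit 152) (nat_lit 252574829068) (nat_lit 4) (nat_lit 5) (nat_lit 5) (nat_lit 5) (nat_lit 6) (nat_lit 4) (nat_lit 312) (nat_lit 271) (nat_lit 137)))) (XT.nd (nat_lit 78) (nat_lit 0) (nat_lit 0) (XT.lf (nat_lit 0) (nat_lit 213039386322) (nat_lit 152) (nat_lit 227059616338) (nat_lit 0) (nat_lit 14455755569) (nat_lit 4) (nat_lit 5) (nat_lit 6) (nat_lit 4) (nat_lit 4) (nat_lit 4) (nat_lit 313) (nat_lit 271) (nat_lit 136)) (XT.nd (nat_lit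 78) (nat_lit 0) (nat_lit 0) (XT.lf (nat_lit 0) (nat_lit 258460175523) (nat_lit 152) (nat_lit 168880282386) (nat_lit 0) (nat_lit 59876092480) (nat_lit 4) (nat_lit 5) (nat_lit 6) (nat_lit 4) (nat_lit 4) (nat_lit 4) (nat_lit 314) (nat_lit 271) (nat_lit 135)) (XT.lf (nat_lit 0) (nat_lit 307514433712) (nat_lit 152) (nat_lit 106046936566) (nat_lit 0) (nat_lit 108929931883) (nat_lit 4) (nat_lit 5) (nat_lit 6) (nat_lit 4) (nat_lit 4) (nat_lit 4) (nat_lit 315) (nat_lit 271) (nat_lit 134))))))) (XT.nd (nat_lit 858) (nat_lit 76) (nat_lit 0) (XT.nd (nat_lit 390) (nat_lit 76) (nat_lit 0) (XT.nd (nat_lit 156) (nat_lit 0) (nat_lit 0) (XT.nd (nat_lit 78) (nat_lit 76) (nat_lit 0) (XT.lf (nat_lit 0) (nat_lit 360492852789) (nat_lit 152) (nat_lit 38187233126) (nat_lit 0) (nat_lit 161907963195) (nat_lit 4) (nat_lit 5) (nat_lit 6) (nat_lit 4) (nat_lit 4) (nat_lit 4) (nat_lit 316) (nat_lit 271) (nat_lit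 133)) (XT.lf (nat_lit 0) (nat_lit 36949313833) (nat_lit 76) (nat_lit 381648696996) (nat_lit 76) (nat_lit 183063448360) (nat_lit 3) (nat_lit 4) (nat_lit 4) (nat_lit 5) (nat_lit 4) (nat_lit 4) (nat_lit 317) (nat_lit 271) (nat_lit 132))) (XT.nd (nat_lit 78) (nat_lit 0) (nat_lit 0) (XT.lf (nat_lit 0) (nat_lit 120268246524) (nat_lit 76) (nat_lit 362127280766) (nat_lit 76) (nat_lit 163541699685) (nat_lit 3) (nat_lit 4) (nat_lit 4) (nat_lit 5) (nat_lit 4) (nat_lit 4) (nat_lit 318) (nat_lit 271) (nat_lit 131)) (XT.nd (nat_lit 78) (nat_lit 0) (nat_lit 0) (XT.lf (nat_lit 0) (nat_lit 210252434745) (nat_lit 76) (nat_lit 341044261387) (nat_lit 76) (nat_lit 142458372485) (nat_lit 3) (nat_lit 4) (nat_lit 4) (nat_lit 5) (nat_lit 4) (nat_lit 4) (nat_lit 319) (nat_lit 271) (nat_lit 130)) (XT.lf (nat_lit 0) (nat_lit 307435118132) (nat_lit 76) (nat_lit 318274702447) (nat_lit 76) (nat_lit 119688528526)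 (nat_lit 3) (nat_lit 4) (nat_lit 4) (nat_lit 5) (nat_lit 4) (nat_lit 4) (nat_lit 320) (nat_lit 271) (nat_lit 129))))) (XT.nd (nat_lit 234) (nat_lit 76) (nat_lit 0) (XT.nd (nat_lit 78) (nat_lit 0) (nat_lit 0) (XT.lf (nat_lit 0) (nat_lit 412392194066) (nat_lit 76) (nat_lit 293683673227) (nat_lit 76) (nat_lit 95097235400) (nat_lit 3) (nat_lit 4) (nat_lit 4) (nat_lit 5) (nat_lit 4) (nat_lit 4) (nat_lit 321) (nat_lit 271) (nat_lit 128)) (XT.nd (nat_lit 78) (nat_lit 0) (nat_lit 0) (XT.lf (nat_lit 0) (nat_lit 525745630406) (nat_lit 76) (nat_lit 267125449109) (nat_lit 76) (nat_lit 68538766925) (nat_lit 3) (nat_lit 4) (nat_lit 4) (nat_lit 5) (nat_lit 4) (nat_lit 4) (nat_lit 322) (nat_lit 271) (nat_lit 127)) (XT.lf (nat_lit 0) (nat_lit 648167151218) (nat_lit 76) (nat_lit 238442648025) (nat_lit 76) (nat_lit 39855739584) (nat_lit 3) (nat_lit 4) (nat_lit 4) (nat_lit 5) (nat_lit 4) (nat_lit 4) (nat_lit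 323) (nat_lit 271) (nat_lit 126)))) (XT.nd (nat_lit 78) (nat_lit 76) (nat_lit 0) (XT.lf (nat_lit 0) (nat_lit 780382217367) (nat_lit 76) (nat_lit 207465297820) (nat_lit 76) (nat_lit 8878179881) (nat_lit 3) (nat_lit 4) (nat_lit 4) (nat_lit 5) (nat_lit 4) (nat_lit 4) (nat_lit 324) (nat_lit 271) (nat_lit 125)) (XT.nd (nat_lit 78) (nat_lit 0) (nat_lit 0) (XT.lf (nat_lit 0) (nat_lit 23348017672) (nat_lit 152) (nat_lit 150023435159) (nat_lit 76) (nat_lit 899187931689) (nat_lit 2) (nat_lit 5) (nat_lit 4) (nat_lit 5) (nat_lit 3) (nat_lit 4) (nat_lit 325) (nat_lit 271) (nat_lit 124)) (XT.lf (nat_lit 0) (nat_lit 57672569267) (nat_lit 152) (nat_lit 78628547452) (nat_lit 76) (nat_lit 1018140211680) (nat_lit 2) (nat_lit 5) (nat_lit 4) (nat_lit 5) (nat_lit 3) (nat_lit 4) (nat_lit 326) (nat_lit 271) (nat_lit 123)))))) (XT.nd (nat_lit 33540) (nat_lit 0) (nat_lit 1748) (XT.nd (nat_lit 33306) (nat_lit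 0) (nat_lit 1976) (XT.nd (nat_lit 78) (nat_lit 76) (nat_lit 0) (XT.lf (nat_lit 0) (nat_lit 94743002167) (nat_lit 152) (nat_lit 1522213326) (nat_lit 76) (nat_lit 1146608619182) (nat_lit 2) (nat_lit 5) (nat_lit 4) (nat_lit 5) (nat_lit 3) (nat_lit 4) (nat_lit 327) (nat_lit 271) (nat_lit 122)) (XT.nd (nat_lit 33150) (nat_lit 0) (nat_lit 1976) (XT.lf (nat_lit 0) (nat_lit 86057435081) (nat_lit 76) (nat_lit 50791241313) (nat_lit 152) (nat_lit 1201366696763) (nat_lit 1) (nat_lit 5) (nat_lit 2) (nat_lit 5) (nat_lit 3) (nat_lit 4) (nat_lit 328) (nat_lit 271) (nat_lit 121)) (XT.lf (nat_lit 0) (nat_lit 1922028632) (nat_lit 532) (nat_lit 11142033196) (nat_lit 532) (nat_lit 11142033196) (nat_lit 27) (nat_lit 3) (nat_lit 34) (nat_lit 3) (nat_lit 34) (nat_lit 5) (nat_lit 272) (nat_lit 272) (nat_lit 176)))) (XT.nd (nat_lit 78) (nat_lit 0) (nat_lit 76) (XT.lf (nat_lit 0) (nat_lit 4022004275) (nat_lit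 532) (nat_lit 3158962865) (nat_lit 532) (nat_lit 43165582093) (nat_lit 27) (nat_lit 3) (nat_lit 34) (nat_lit 3) (nat_lit 34) (nat_lit 5) (nat_lit 273) (nat_lit 272) (nat_lit 175)) (XT.nd (nat_lit 78) (nat_lit 0) (nat_lit 0) (XT.lf (nat_lit 0) (nat_lit 4985636688) (nat_lit 456) (nat_lit 34315320105) (nat_lit 532) (nat_lit 13073003760) (nat_lit 28) (nat_lit 5) (nat_lit 34) (nat_lit 5) (nat_lit 35) (nat_lit 5) (nat_lit 274) (nat_lit 272) (nat_lit 174)) (XT.lf (nat_lit 0) (nat_lit 6299245894) (nat_lit 456) (nat_lit 13593618422) (nat_lit 532) (nat_lit 34648887505) (nat_lit 28) (nat_lit 5) (nat_lit 34) (nat_lit 5) (nat_lit 35) (nat_lit 5) (nat_lit 275) (nat_lit 272) (nat_lit 173))))) (XT.nd (nat_lit 234) (nat_lit 380) (nat_lit 0) (XT.nd (nat_lit 78) (nat_lit 0) (nat_lit 0) (XT.lf (nat_lit 0) (nat_lit 7969728636) (nat_lit 456) (nat_lit 47649836719) (nat_lit 532) (nat_lit 1243274862) (nat_lit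 29) (nat_lit 5) (nat_lit 35) (nat_lit 5) (nat_lit 36) (nat_lit 5) (nat_lit 276) (nat_lit 272) (nat_lit 172)) (XT.nd (nat_lit 78) (nat_lit 0) (nat_lit 0) (XT.lf (nat_lit 0) (nat_lit 10669930125) (nat_lit 456) (nat_lit 25250543186) (nat_lit 532) (nat_lit 23377471342) (nat_lit 29) (nat_lit 5) (nat_lit 35) (nat_lit 5) (nat_lit 36) (nat_lit 5) (nat_lit 277) (nat_lit 272) (nat_lit 171)) (XT.lf (nat_lit 0) (nat_lit 13584346693) (nat_lit 456) (nat_lit 1060737702) (nat_lit 532) (nat_lit 47282931371) (nat_lit 29) (nat_lit 5) (nat_lit 35) (nat_lit 5) (nat_lit 36) (nat_lit 5) (nat_lit 278) (nat_lit 272) (nat_lit 170)))) (XT.nd (nat_lit 78) (nat_lit 456) (nat_lit 0) (XT.lf (nat_lit 0) (nat_lit 17581635166) (nat_lit 456) (nat_lit 38552064511) (nat_lit 76) (nat_lit 8566828591) (nat_lit 30) (nat_lit 5) (nat_lit 36) (nat_lit 5) (nat_lit 31) (nat_lit 5) (nat_lit 279) (nat_lit 272) (nat_lit 169)) (XT.nd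 (nat_lit 78) (nat_lit 456) (nat_lit 0) (XT.lf (nat_lit 0) (nat_lit 22307285918) (nat_lit 456) (nat_lit 12480377230) (nat_lit 76) (nat_lit 32874504495) (nat_lit 30) (nat_lit 5) (nat_lit 36) (nat_lit 5) (nat_lit 31) (nat_lit 5) (nat_lit 280) (nat_lit 272) (nat_lit 168)) (XT.lf (nat_lit 0) (nat_lit 16501169851) (nat_lit 456) (nat_lit 11305220223) (nat_lit 532) (nat_lit 43022727290) (nat_lit 24) (nat_lit 5) (nat_lit 30) (nat_lit 5) (nat_lit 31) (nat_lit 5) (nat_lit 281) (nat_lit 272) (nat_lit 167))))))))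
noncomputable def xc103 : XT := (XT.nd (nat_lit 1794) (nat_lit 380) (nat_lit 0) (XT.nd (nat_lit 858) (nat_lit 532) (nat_lit 0) (XT.nd (nat_lit 390) (nat_lit 380) (nat_lit 0) (XT.nd (nat_lit 156) (nat_lit 152) (nat_lit 0) (XT.nd (nat_lit 78) (nat_lit 228) (nat_lit 0) (XT.lf (nat_lit 0) (nat_lit 34432190314) (nat_lit 532) (nat_lit 26059438703) (nat_lit 76) (nat_lit 13702863092) (nat_lit 24) (nat_lit 5) (nat_lit 31) (nat_lit 5) (nat_lit 25) (nat_lit 5) (nat_lit 282) (nat_lit 272) (nat_lit 166)) (XT.lf (nat_lit 0) (nat_lit 4395473995) (nat_lit 228) (nat_lit 37590661780) (nat_lit 304) (nat_lit 35811124254) (nat_lit 21) (nat_lit 5) (nat_lit 24) (nat_lit 5) (nat_lit 25) (nat_lit 5) (nat_lit 283) (nat_lit 272) (nat_lit 165))) (XT.nd (nat_lit 78) (nat_lit 152) (nat_lit 0) (XT.lf (nat_lit 0) (nat_lit 38767522207) (nat_lit 228) (nat_lit 12088177194) (nat_lit 304) (nat_lit 30775654755) (nat_lit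 21) (nat_lit 5) (nat_lit 24) (nat_lit 5) (nat_lit 25) (nat_lit 5) (nat_lit 284) (nat_lit 272) (nat_lit 164)) (XT.nd (nat_lit 78) (nat_lit 152) (nat_lit 0) (XT.lf (nat_lit 0) (nat_lit 60805388579) (nat_lit 304) (nat_lit 10255805010) (nat_lit 76) (nat_lit 14681345694) (nat_lit 21) (nat_lit 5) (nat_lit 25) (nat_lit 5) (nat_lit 22) (nat_lit 5) (nat_lit 285) (nat_lit 272) (nat_lit 163)) (XT.lf (nat_lit 0) (nat_lit 25943496996) (nat_lit 152) (nat_lit 46544438489) (nat_lit 228) (nat_lit 17619740822) (nat_lit 19) (nat_lit 5) (nat_lit 21) (nat_lit 5) (nat_lit 22) (nat_lit 5) (nat_lit 286) (nat_lit 272) (nat_lit 162))))) (XT.nd (nat_lit 234) (nat_lit 152) (nat_lit 0) (XT.nd (nat_lit 78) (nat_lit 228) (nat_lit 0) (XT.lf (nat_lit 0) (nat_lit 65620842689) (nat_lit 152) (nat_lit 19763666618) (nat_lit 228) (nat_lit 9415168256) (nat_lit 19) (nat_lit 5) (nat_lit 21) (nat_lit 5) (nat_lit 22) (nat_lit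 5) (nat_lit 287) (nat_lit 272) (nat_lit 161)) (XT.nd (nat_lit 78) (nat_lit 76) (nat_lit 0) (XT.lf (nat_lit 0) (nat_lit 8825383160) (nat_lit 152) (nat_lit 90919045125) (nat_lit 228) (nat_lit 88087690) (nat_lit 17) (nat_lit 5) (nat_lit 19) (nat_lit 5) (nat_lit 20) (nat_lit 5) (nat_lit 288) (nat_lit 272) (nat_lit 160)) (XT.lf (nat_lit 0) (nat_lit 10816619710) (nat_lit 228) (nat_lit 54450171864) (nat_lit 76) (nat_lit 39875507396) (nat_lit 16) (nat_lit 5) (nat_lit 19) (nat_lit 5) (nat_lit 17) (nat_lit 5) (nat_lit 289) (nat_lit 272) (nat_lit 159)))) (XT.nd (nat_lit 78) (nat_lit 152) (nat_lit 0) (XT.lf (nat_lit 0) (nat_lit 22588105190) (nat_lit 228) (nat_lit 14972027124) (nat_lit 76) (nat_lit 73316621647) (nat_lit 16) (nat_lit 5) (nat_lit 19) (nat_lit 5) (nat_lit 17) (nat_lit 5) (nat_lit 290) (nat_lit 272) (nat_lit 158)) (XT.nd (nat_lit 78) (nat_lit 0) (nat_lit 0) (XT.lf (nat_lit 0) (nat_lit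 29120068227) (nat_lit 152) (nat_lit 6880802315) (nat_lit 228) (nat_lit 81013134774) (nat_lit 14) (nat_lit 5) (nat_lit 16) (nat_lit 5) (nat_lit 17) (nat_lit 5) (nat_lit 291) (nat_lit 272) (nat_lit 157)) (XT.lf (nat_lit 0) (nat_lit 51537284947) (nat_lit 228) (nat_lit 46661536768) (nat_lit 76) (nat_lit 25359369327) (nat_lit 14) (nat_lit 5) (nat_lit 17) (nat_lit 5) (nat_lit 15) (nat_lit 5) (nat_lit 292) (nat_lit 272) (nat_lit 156)))))) (XT.nd (nat_lit 468) (nat_lit 228) (nat_lit 0) (XT.nd (nat_lit 234) (nat_lit 152) (nat_lit 0) (XT.nd (nat_lit 78) (nat_lit 152) (nat_lit 0) (XT.lf (nat_lit 0) (nat_lit 68494641165) (nat_lit 228) (nat_lit 2310227260) (nat_lit 76) (nat_lit 59806805065) (nat_lit 14) (nat_lit 5) (nat_lit 17) (nat_lit 5) (nat_lit 15) (nat_lit 5) (nat_lit 293) (nat_lit 272) (nat_lit 155)) (XT.nd (nat_lit 78) (nat_lit 0) (nat_lit 0) (XT.lf (nat_lit 0) (nat_lit 47988896424) (nat_lit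 152) (nat_lit 39973181460) (nat_lit 228) (nat_lit 50175081139) (nat_lit 12) (nat_lit 5) (nat_lit 14) (nat_lit 5) (nat_lit 15) (nat_lit 5) (nat_lit 294) (nat_lit 272) (nat_lit 154)) (XT.lf (nat_lit 0) (nat_lit 102442467657) (nat_lit 152) (nat_lit 6606992194) (nat_lit 228) (nat_lit 37210223086) (nat_lit 12) (nat_lit 5) (nat_lit 14) (nat_lit 5) (nat_lit 15) (nat_lit 5) (nat_lit 295) (nat_lit 272) (nat_lit 153)))) (XT.nd (nat_lit 78) (nat_lit 76) (nat_lit 0) (XT.lf (nat_lit 0) (nat_lit 5801950883) (nat_lit 76) (nat_lit 126868599081) (nat_lit 152) (nat_lit 22293724693) (nat_lit 11) (nat_lit 5) (nat_lit 12) (nat_lit 5) (nat_lit 13) (nat_lit 4) (nat_lit 296) (nat_lit 272) (nat_lit 152)) (XT.nd (nat_lit 78) (nat_lit 76) (nat_lit 0) (XT.lf (nat_lit 0) (nat_lit 61701102667) (nat_lit 76) (nat_lit 97844977935) (nat_lit 152) (nat_lit 4709975901) (nat_lit 11) (nat_lit 5) (nat_lit 12) (nat_lit 5)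 (nat_lit 13) (nat_lit 4) (nat_lit 297) (nat_lit 272) (nat_lit 151)) (XT.lf (nat_lit 0) (nat_lit 13565578040) (nat_lit 152) (nat_lit 52563233995) (nat_lit 76) (nat_lit 108134938038) (nat_lit 10) (nat_lit 5) (nat_lit 12) (nat_lit 5) (nat_lit 11) (nat_lit 5) (nat_lit 298) (nat_lit 272) (nat_lit 150))))) (XT.nd (nat_lit 234) (nat_lit 76) (nat_lit 0) (XT.nd (nat_lit 78) (nat_lit 0) (nat_lit 0) (XT.lf (nat_lit 0) (nat_lit 1373457121) (nat_lit 152) (nat_lit 31707801235) (nat_lit 228) (nat_lit 151978412787) (nat_lit 8) (nat_lit 5) (nat_lit 10) (nat_lit 5) (nat_lit 11) (nat_lit 5) (nat_lit 299) (nat_lit 272) (nat_lit 149)) (XT.nd (nat_lit 78) (nat_lit 0) (nat_lit 0) (XT.lf (nat_lit 0) (nat_lit 55763697493) (nat_lit 228) (nat_lit 134159449340) (nat_lit 76) (nat_lit 6667680961) (nat_lit 8) (nat_lit 5) (nat_lit 11) (nat_lit 5) (nat_lit 9) (nat_lit 4) (nat_lit 300) (nat_lit 272) (nat_lit 148))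 (XT.lf (nat_lit 0) (nat_lit 81083870678) (nat_lit 228) (nat_lit 81494817576) (nat_lit 76) (nat_lit 46399939689) (nat_lit 8) (nat_lit 5) (nat_lit 11) (nat_lit 5) (nat_lit 9) (nat_lit 4) (nat_lit 301) (nat_lit 272) (nat_lit 147)))) (XT.nd (nat_lit 78) (nat_lit 76) (nat_lit 0) (XT.lf (nat_lit 0) (nat_lit 108429250000) (nat_lit 228) (nat_lit 24617658642) (nat_lit 76) (nat_lit 89310578003) (nat_lit 8) (nat_lit 5) (nat_lit 11) (nat_lit 5) (nat_lit 9) (nat_lit 4) (nat_lit 302) (nat_lit 272) (nat_lit 146)) (XT.nd (nat_lit 78) (nat_lit 0) (nat_lit 0) (XT.lf (nat_lit 0) (nat_lit 38747378070) (nat_lit 76) (nat_lit 100146379455) (nat_lit 152) (nat_lit 97838378473) (nat_lit 7) (nat_lit 5) (nat_lit 8) (nat_lit 5) (nat_lit 9) (nat_lit 4) (nat_lit 303) (nat_lit 272) (nat_lit 145)) (XT.lf (nat_lit 0) (nat_lit 108581065147) (nat_lit 76) (nat_lit 63887087403) (nat_lit 152) (nat_lit 79734788248) (nat_lit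 7) (nat_lit 5) (nat_lit 8) (nat_lit 5) (nat_lit 9) (nat_lit 4) (nat_lit 304) (nat_lit 272) (nat_lit 144))))))) (XT.nd (nat_lit 858) (nat_lit 152) (nat_lit 0) (XT.nd (nat_lit 390) (nat_lit 76) (nat_lit 0) (XT.nd (nat_lit 156) (nat_lit 152) (nat_lit 0) (XT.nd (nat_lit 78) (nat_lit 0) (nat_lit 0) (XT.lf (nat_lit 0) (nat_lit 184000909568) (nat_lit 76) (nat_lit 24727253020) (nat_lit 152) (nat_lit 60183275850) (nat_lit 7) (nat_lit 5) (nat_lit 8) (nat_lit 5) (nat_lit 9) (nat_lit 4) (nat_lit 305) (nat_lit 272) (nat_lit 143)) (XT.lf (nat_lit 0) (nat_lit 248311104821) (nat_lit 152) (nat_lit 21925241543) (nat_lit 0) (nat_lit 16686500428) (nat_lit 7) (nat_lit 5) (nat_lit 9) (nat_lit 4) (nat_lit 7) (nat_lit 4) (nat_lit 306) (nat_lit 272) (nat_lit 142))) (XT.nd (nat_lit 78) (nat_lit 76) (nat_lit 0) (XT.lf (nat_lit 0) (nat_lit 47849760073) (nat_lit 76) (nat_lit 245003683835) (nat_lit 76) (nat_lit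 13378304299) (nat_lit 6) (nat_lit 4) (nat_lit 7) (nat_lit 5) (nat_lit 7) (nat_lit 4) (nat_lit 307) (nat_lit 272) (nat_lit 141)) (XT.nd (nat_lit 78) (nat_lit 0) (nat_lit 0) (XT.lf (nat_lit 0) (nat_lit 13794539241) (nat_lit 152) (nat_lit 202933455639) (nat_lit 76) (nat_lit 110281494349) (nat_lit 5) (nat_lit 5) (nat_lit 7) (nat_lit 5) (nat_lit 6) (nat_lit 4) (nat_lit 308) (nat_lit 272) (nat_lit 140)) (XT.lf (nat_lit 0) (nat_lit 42418165087) (nat_lit 152) (nat_lit 143396978441) (nat_lit 76) (nat_lit 163606529513) (nat_lit 5) (nat_lit 5) (nat_lit 7) (nat_lit 5) (nat_lit 6) (nat_lit 4) (nat_lit 309) (nat_lit 272) (nat_lit 139))))) (XT.nd (nat_lit 234) (nat_lit 0) (nat_lit 0) (XT.nd (nat_lit 78) (nat_lit 76) (nat_lit 0) (XT.lf (nat_lit 0) (nat_lit 73331431688) (nat_lit 152) (nat_lit 79097999245) (nat_lit 76) (nat_lit 221197421532) (nat_lit 5) (nat_lit 5) (nat_lit 7) (nat_lit 5) (nat_lit 6)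 (nat_lit 4) (nat_lit 310) (nat_lit 272) (nat_lit 138)) (XT.nd (nat_lit 78) (nat_lit 76) (nat_lit 0) (XT.lf (nat_lit 0) (nat_lit 106717528772) (nat_lit 152) (nat_lit 9655487064) (nat_lit 76) (nat_lit 283395449767) (nat_lit 5) (nat_lit 5) (nat_lit 7) (nat_lit 5) (nat_lit 6) (nat_lit 4) (nat_lit 311) (nat_lit 272) (nat_lit 137)) (XT.lf (nat_lit 0) (nat_lit 68782866857) (nat_lit 76) (nat_lit 75645662622) (nat_lit 152) (nat_lit 283440557870) (nat_lit 4) (nat_lit 5) (nat_lit 5) (nat_lit 5) (nat_lit 6) (nat_lit 4) (nat_lit 312) (nat_lit 272) (nat_lit 136)))) (XT.nd (nat_lit 78) (nat_lit 0) (nat_lit 0) (XT.lf (nat_lit 0) (nat_lit 154045057424) (nat_lit 76) (nat_lit 31375144670) (nat_lit 152) (nat_lit 272776454156) (nat_lit 4) (nat_lit 5) (nat_lit 5) (nat_lit 5) (nat_lit 6) (nat_lit 4) (nat_lit 313) (nat_lit 272) (nat_lit 135)) (XT.nd (nat_lit 78) (nat_lit 0) (nat_lit 0) (XT.lf (nat_lit 0)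 (nat_lit 230086324971) (nat_lit 152) (nat_lit 245217852876) (nat_lit 0) (nat_lit 15614644210) (nat_lit 4) (nat_lit 5) (nat_lit 6) (nat_lit 4) (nat_lit 4) (nat_lit 4) (nat_lit 314) (nat_lit 272) (nat_lit 134)) (XT.lf (nat_lit 0) (nat_lit 279140496734) (nat_lit 152) (nat_lit 182384656116) (nat_lit 0) (nat_lit 64668428208) (nat_lit 4) (nat_lit 5) (nat_lit 6) (nat_lit 4) (nat_lit 4) (nat_lit 4) (nat_lit 315) (nat_lit 272) (nat_lit 133)))))) (XT.nd (nat_lit 468) (nat_lit 76) (nat_lit 0) (XT.nd (nat_lit 234) (nat_lit 0) (nat_lit 0) (XT.nd (nat_lit 78) (nat_lit 76) (nat_lit 0) (XT.lf (nat_lit 0) (nat_lit 332118835788) (nat_lit 152) (nat_lit 114525090695) (nat_lit 0) (nat_lit 117646408220) (nat_lit 4) (nat_lit 5) (nat_lit 6) (nat_lit 4) (nat_lit 4) (nat_lit 4) (nat_lit 316) (nat_lit 272) (nat_lit 132)) (XT.nd (nat_lit 78) (nat_lit 76) (nat_lit 0) (XT.lf (nat_lit 0) (nat_lit 389335287845) (nat_lit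 152) (nat_lit 41237025853) (nat_lit 0) (nat_lit 174862527831) (nat_lit 4) (nat_lit 5) (nat_lit 6) (nat_lit 4) (nat_lit 4) (nat_lit 4) (nat_lit 317) (nat_lit 272) (nat_lit 131)) (XT.lf (nat_lit 0) (nat_lit 39910313573) (nat_lit 76) (nat_lit 412178443790) (nat_lit 76) (nat_lit 197705375956) (nat_lit 3) (nat_lit 4) (nat_lit 4) (nat_lit 5) (nat_lit 4) (nat_lit 4) (nat_lit 318) (nat_lit 272) (nat_lit 130)))) (XT.nd (nat_lit 78) (nat_lit 0) (nat_lit 0) (XT.lf (nat_lit 0) (nat_lit 129894386462) (nat_lit 76) (nat_lit 391095473445) (nat_lit 76) (nat_lit 176622120592) (nat_lit 3) (nat_lit 4) (nat_lit 4) (nat_lit 5) (nat_lit 4) (nat_lit 4) (nat_lit 319) (nat_lit 272) (nat_lit 129)) (XT.nd (nat_lit 78) (nat_lit 0) (nat_lit 0) (XT.lf (nat_lit 0) (nat_lit 227076963058) (nat_lit 76) (nat_lit 368325959906) (nat_lit 76) (nat_lit 153852343147) (nat_lit 3) (nat_lit 4) (nat_lit 4) (nat_lit 5) (nat_lit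 4) (nat_lit 4) (nat_lit 320) (nat_lit 272) (nat_lit 128)) (XT.lf (nat_lit 0) (nat_lit 332033940113) (nat_lit 76) (nat_lit 343734972725) (nat_lit 76) (nat_lit 129261111608) (nat_lit 3) (nat_lit 4) (nat_lit 4) (nat_lit 5) (nat_lit 4) (nat_lit 4) (nat_lit 321) (nat_lit 272) (nat_lit 127))))) (XT.nd (nat_lit 234) (nat_lit 76) (nat_lit 0) (XT.nd (nat_lit 78) (nat_lit 0) (nat_lit 0) (XT.lf (nat_lit 0) (nat_lit 445387284898) (nat_lit 76) (nat_lit 317176787532) (nat_lit 76) (nat_lit 102702700157) (nat_lit 3) (nat_lit 4) (nat_lit 4) (nat_lit 5) (nat_lit 4) (nat_lit 4) (nat_lit 322) (nat_lit 272) (nat_lit 126)) (XT.nd (nat_lit 78) (nat_lit 0) (nat_lit 0) (XT.lf (nat_lit 0) (nat_lit 567808720937) (nat_lit 76) (nat_lit 288494022489) (nat_lit 76) (nat_lit 74019725617) (nat_lit 3) (nat_lit 4) (nat_lit 4) (nat_lit 5) (nat_lit 4) (nat_lit 4) (nat_lit 323) (nat_lit 272) (nat_lit 125)) (XT.lf (nat_lit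 0) (nat_lit 700023708592) (nat_lit 76) (nat_lit 257516705655) (nat_lit 76) (nat_lit 43042214804) (nat_lit 3) (nat_lit 4) (nat_lit 4) (nat_lit 5) (nat_lit 4) (nat_lit 4) (nat_lit 324) (nat_lit 272) (nat_lit 124)))) (XT.nd (nat_lit 78) (nat_lit 76) (nat_lit 0) (XT.lf (nat_lit 0) (nat_lit 842815744087) (nat_lit 76) (nat_lit 224061267745) (nat_lit 76) (nat_lit 9586597284) (nat_lit 3) (nat_lit 4) (nat_lit 4) (nat_lit 5) (nat_lit 4) (nat_lit 4) (nat_lit 325) (nat_lit 272) (nat_lit 123)) (XT.nd (nat_lit 78) (nat_lit 0) (nat_lit 0) (XT.lf (nat_lit 0) (nat_lit 25217474913) (nat_lit 152) (nat_lit 162022488945) (nat_lit 76) (nat_lit 971124037078) (nat_lit 2) (nat_lit 5) (nat_lit 4) (nat_lit 5) (nat_lit 3) (nat_lit 4) (nat_lit 326) (nat_lit 272) (nat_lit 122)) (XT.lf (nat_lit 0) (nat_lit 62287870944) (nat_lit 152) (nat_lit 84916219187) (nat_lit 76) (nat_lit 1099592420146) (nat_lit 2) (nat_lit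 5) (nat_lit 4) (nat_lit 5) (nat_lit 3) (nat_lit 4) (nat_lit 327) (nat_lit 272) (nat_lit 121))))))))
noncomputable def xc104 : XT := (XT.nd (nat_lit 34944) (nat_lit 0) (nat_lit 152) (XT.nd (nat_lit 34008) (nat_lit 0) (nat_lit 912) (XT.nd (nat_lit 33540) (nat_lit 0) (nat_lit 1672) (XT.nd (nat_lit 33306) (nat_lit 0) (nat_lit 1900) (XT.nd (nat_lit 33228) (nat_lit 0) (nat_lit 1900) (XT.lf (nat_lit 0) (nat_lit 102323827652) (nat_lit 152) (nat_lit 1641571817) (nat_lit 76) (nat_lit 1238338226802) (nat_lit 2) (nat_lit 5) (nat_lit 4) (nat_lit 5) (nat_lit 3) (nat_lit 4) (nat_lit 328) (nat_lit 272) (nat_lit 120)) (XT.lf (nat_lit 0) (nat_lit 2099394000) (nat_lit 532) (nat_lit 12020555698) (nat_lit 532) (nat_lit 12020555698) (nat_lit 27) (nat_lit 3) (nat_lit 34) (nat_lit 3) (nat_lit 34) (nat_lit 5) (nat_lit 273) (nat_lit 273) (nat_lit 174))) (XT.nd (nat_lit 78) (nat_lit 0) (nat_lit 76) (XT.lf (nat_lit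 0) (nat_lit 4387474020) (nat_lit 532) (nat_lit 3387901831) (nat_lit 532) (nat_lit 46595050598) (nat_lit 27) (nat_lit 3) (nat_lit 34) (nat_lit 3) (nat_lit 34) (nat_lit 5) (nat_lit 274) (nat_lit 273) (nat_lit 173)) (XT.nd (nat_lit 78) (nat_lit 0) (nat_lit 0) (XT.lf (nat_lit 0) (nat_lit 5425087314) (nat_lit 456) (nat_lit 37033333892) (nat_lit 532) (nat_lit 14101884170) (nat_lit 28) (nat_lit 5) (nat_lit 34) (nat_lit 5) (nat_lit 35) (nat_lit 5) (nat_lit 275) (nat_lit 273) (nat_lit 172)) (XT.lf (nat_lit 0) (nat_lit 6840777871) (nat_lit 456) (nat_lit 14655911765) (nat_lit 532) (nat_lit 37405094904) (nat_lit 28) (nat_lit 5) (nat_lit 34) (nat_lit 5) (nat_lit 35) (nat_lit 5) (nat_lit 276) (nat_lit 273) (nat_lit 171))))) (XT.nd (nat_lit 234) (nat_lit 380) (nat_lit 0) (XT.nd (nat_lit 78) (nat_lit 0) (nat_lit 0) (XT.lf (nat_lit 0) (nat_lit 8642444540) (nat_lit 456) (nat_lit 51433895015) (nat_lit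 532) (nat_lit 1332439052) (nat_lit 29) (nat_lit 5) (nat_lit 35) (nat_lit 5) (nat_lit 36) (nat_lit 5) (nat_lit 277) (nat_lit 273) (nat_lit 170)) (XT.nd (nat_lit 78) (nat_lit 0) (nat_lit 0) (XT.lf (nat_lit 0) (nat_lit 11556059363) (nat_lit 456) (nat_lit 27244726787) (nat_lit 532) (nat_lit 25238134050) (nat_lit 29) (nat_lit 5) (nat_lit 35) (nat_lit 5) (nat_lit 36) (nat_lit 5) (nat_lit 278) (nat_lit 273) (nat_lit 169)) (XT.lf (nat_lit 0) (nat_lit 14701219269) (nat_lit 456) (nat_lit 1121652409) (nat_lit 532) (nat_lit 51056737179) (nat_lit 29) (nat_lit 5) (nat_lit 35) (nat_lit 5) (nat_lit 36) (nat_lit 5) (nat_lit 279) (nat_lit 273) (nat_lit 168)))) (XT.nd (nat_lit 78) (nat_lit 456) (nat_lit 0) (XT.lf (nat_lit 0) (nat_lit 19016497580) (nat_lit 456) (nat_lit 41610271582) (nat_lit 76) (nat_lit 9247314298) (nat_lit 30) (nat_lit 5) (nat_lit 36) (nat_lit 5) (nat_lit 31) (nat_lit 5) (nat_lit 280)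 (nat_lit 273) (nat_lit 167)) (XT.nd (nat_lit 78) (nat_lit 456) (nat_lit 0) (XT.lf (nat_lit 0) (nat_lit 24118101754) (nat_lit 456) (nat_lit 13454772140) (nat_lit 76) (nat_lit 35499964318) (nat_lit 30) (nat_lit 5) (nat_lit 36) (nat_lit 5) (nat_lit 31) (nat_lit 5) (nat_lit 281) (nat_lit 273) (nat_lit 166)) (XT.lf (nat_lit 0) (nat_lit 17844690219) (nat_lit 456) (nat_lit 12211064256) (nat_lit 532) (nat_lit 46437514944) (nat_lit 24) (nat_lit 5) (nat_lit 30) (nat_lit 5) (nat_lit 31) (nat_lit 5) (nat_lit 282) (nat_lit 273) (nat_lit 165)))))) (XT.nd (nat_lit 468) (nat_lit 380) (nat_lit 0) (XT.nd (nat_lit 234) (nat_lit 152) (nat_lit 0) (XT.nd (nat_lit 78) (nat_lit 228) (nat_lit 0) (XT.lf (nat_lit 0) (nat_lit 37209745993) (nat_lit 532) (nat_lit 28120454522) (nat_lit 76) (nat_lit 14797837454) (nat_lit 24) (nat_lit 5) (nat_lit 31) (nat_lit 5) (nat_lit 25) (nat_lit 5) (nat_lit 283) (nat_lit 273)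 (nat_lit 164)) (XT.nd (nat_lit 78) (nat_lit 0) (nat_lit 0) (XT.lf (nat_lit 0) (nat_lit 4770250198) (nat_lit 228) (nat_lit 40596611114) (nat_lit 304) (nat_lit 38652270642) (nat_lit 21) (nat_lit 5) (nat_lit 24) (nat_lit 5) (nat_lit 25) (nat_lit 5) (nat_lit 284) (nat_lit 273) (nat_lit 163)) (XT.lf (nat_lit 0) (nat_lit 41890348320) (nat_lit 228) (nat_lit 13054024324) (nat_lit 304) (nat_lit 33215722364) (nat_lit 21) (nat_lit 5) (nat_lit 24) (nat_lit 5) (nat_lit 25) (nat_lit 5) (nat_lit 285) (nat_lit 273) (nat_lit 162)))) (XT.nd (nat_lit 78) (nat_lit 152) (nat_lit 0) (XT.lf (nat_lit 0) (nat_lit 65688566259) (nat_lit 304) (nat_lit 11054822387) (nat_lit 76) (nat_lit 15856915075) (nat_lit 21) (nat_lit 5) (nat_lit 25) (nat_lit 5) (nat_lit 22) (nat_lit 5) (nat_lit 286) (nat_lit 273) (nat_lit 161)) (XT.nd (nat_lit 78) (nat_lit 0) (nat_lit 0) (XT.lf (nat_lit 0) (nat_lit 28039880817) (nat_lit 152)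 (nat_lit 50264950207) (nat_lit 228) (nat_lit 19009901849) (nat_lit 19) (nat_lit 5) (nat_lit 21) (nat_lit 5) (nat_lit 22) (nat_lit 5) (nat_lit 287) (nat_lit 273) (nat_lit 160)) (XT.lf (nat_lit 0) (nat_lit 70889865717) (nat_lit 152) (nat_lit 21341942020) (nat_lit 228) (nat_lit 10150401865) (nat_lit 19) (nat_lit 5) (nat_lit 21) (nat_lit 5) (nat_lit 22) (nat_lit 5) (nat_lit 288) (nat_lit 273) (nat_lit 159))))) (XT.nd (nat_lit 234) (nat_lit 152) (nat_lit 0) (XT.nd (nat_lit 78) (nat_lit 76) (nat_lit 0) (XT.lf (nat_lit 0) (nat_lit 9551619010) (nat_lit 152) (nat_lit 98188224896) (nat_lit 228) (nat_lit 77894114) (nat_lit 17) (nat_lit 5) (nat_lit 19) (nat_lit 5) (nat_lit 20) (nat_lit 5) (nat_lit 289) (nat_lit 273) (nat_lit 158)) (XT.nd (nat_lit 78) (nat_lit 0) (nat_lit 0) (XT.lf (nat_lit 0) (nat_lit 11697114239) (nat_lit 228) (nat_lit 58786583952) (nat_lit 76) (nat_lit 43068676915) (nat_lit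 16) (nat_lit 5) (nat_lit 19) (nat_lit 5) (nat_lit 17) (nat_lit 5) (nat_lit 290) (nat_lit 273) (nat_lit 157)) (XT.lf (nat_lit 0) (nat_lit 24409195227) (nat_lit 228) (nat_lit 16151639607) (nat_lit 76) (nat_lit 79184848534) (nat_lit 16) (nat_lit 5) (nat_lit 19) (nat_lit 5) (nat_lit 17) (nat_lit 5) (nat_lit 291) (nat_lit 273) (nat_lit 156)))) (XT.nd (nat_lit 78) (nat_lit 0) (nat_lit 0) (XT.lf (nat_lit 0) (nat_lit 31467363886) (nat_lit 152) (nat_lit 7427003251) (nat_lit 228) (nat_lit 87479603356) (nat_lit 14) (nat_lit 5) (nat_lit 16) (nat_lit 5) (nat_lit 17) (nat_lit 5) (nat_lit 292) (nat_lit 273) (nat_lit 155)) (XT.nd (nat_lit 78) (nat_lit 0) (nat_lit 0) (XT.lf (nat_lit 0) (nat_lit 55672795042) (nat_lit 228) (nat_lit 50377105156) (nat_lit 76) (nat_lit 27391868859) (nat_lit 14) (nat_lit 5) (nat_lit 17) (nat_lit 5) (nat_lit 15) (nat_lit 5) (nat_lit 293) (nat_lit 273) (nat_lit 154)) (XT.lf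 (nat_lit 0) (nat_lit 73985811809) (nat_lit 228) (nat_lit 2478976410) (nat_lit 76) (nat_lit 64594821680) (nat_lit 14) (nat_lit 5) (nat_lit 17) (nat_lit 5) (nat_lit 15) (nat_lit 5) (nat_lit 294) (nat_lit 273) (nat_lit 153))))))) (XT.nd (nat_lit 858) (nat_lit 228) (nat_lit 0) (XT.nd (nat_lit 390) (nat_lit 228) (nat_lit 0) (XT.nd (nat_lit 156) (nat_lit 152) (nat_lit 0) (XT.nd (nat_lit 78) (nat_lit 0) (nat_lit 0) (XT.lf (nat_lit 0) (nat_lit 51843670358) (nat_lit 152) (nat_lit 43166490572) (nat_lit 228) (nat_lit 54177017095) (nat_lit 12) (nat_lit 5) (nat_lit 14) (nat_lit 5) (nat_lit 15) (nat_lit 5) (nat_lit 295) (nat_lit 273) (nat_lit 152)) (XT.lf (nat_lit 0) (nat_lit 110652367125) (nat_lit 152) (nat_lit 7131342862) (nat_lit 228) (nat_lit 40175864511) (nat_lit 12) (nat_lit 5) (nat_lit 14) (nat_lit 5) (nat_lit 15) (nat_lit 5) (nat_lit 296) (nat_lit 273) (nat_lit 151))) (XT.nd (nat_lit 78)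 (nat_lit 76) (nat_lit 0) (XT.lf (nat_lit 0) (nat_lit 6281003929) (nat_lit 76) (nat_lit 137013172904) (nat_lit 152) (nat_lit 24066385976) (nat_lit 11) (nat_lit 5) (nat_lit 12) (nat_lit 5) (nat_lit 13) (nat_lit 4) (nat_lit 297) (nat_lit 273) (nat_lit 150)) (XT.nd (nat_lit 78) (nat_lit 76) (nat_lit 0) (XT.lf (nat_lit 0) (nat_lit 66650984376) (nat_lit 76) (nat_lit 105668026075) (nat_lit 152) (nat_lit 5076739999) (nat_lit 11) (nat_lit 5) (nat_lit 12) (nat_lit 5) (nat_lit 13) (nat_lit 4) (nat_lit 298) (nat_lit 273) (nat_lit 149)) (XT.lf (nat_lit 0) (nat_lit 14659650241) (nat_lit 152) (nat_lit 56755012388) (nat_lit 76) (nat_lit 116789437561) (nat_lit 10) (nat_lit 5) (nat_lit 12) (nat_lit 5) (nat_lit 11) (nat_lit 5) (nat_lit 299) (nat_lit 273) (nat_lit 148))))) (XT.nd (nat_lit 234) (nat_lit 76) (nat_lit 0) (XT.nd (nat_lit 78) (nat_lit 0) (nat_lit 0) (XT.lf (nat_lit 0) (nat_lit 1496277806)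 (nat_lit 152) (nat_lit 34239964708) (nat_lit 228) (nat_lit 164127483075) (nat_lit 8) (nat_lit 5) (nat_lit 10) (nat_lit 5) (nat_lit 11) (nat_lit 5) (nat_lit 300) (nat_lit 273) (nat_lit 147)) (XT.nd (nat_lit 78) (nat_lit 0) (nat_lit 0) (XT.lf (nat_lit 0) (nat_lit 60232747707) (nat_lit 228) (nat_lit 144879653359) (nat_lit 76) (nat_lit 7205019038) (nat_lit 8) (nat_lit 5) (nat_lit 11) (nat_lit 5) (nat_lit 9) (nat_lit 4) (nat_lit 301) (nat_lit 273) (nat_lit 146)) (XT.lf (nat_lit 0) (nat_lit 87577945530) (nat_lit 228) (nat_lit 88002780826) (nat_lit 76) (nat_lit 50115567826) (nat_lit 8) (nat_lit 5) (nat_lit 11) (nat_lit 5) (nat_lit 9) (nat_lit 4) (nat_lit 302) (nat_lit 273) (nat_lit 145)))) (XT.nd (nat_lit 78) (nat_lit 76) (nat_lit 0) (XT.lf (nat_lit 0) (nat_lit 117110409628) (nat_lit 228) (nat_lit 26576310078) (nat_lit 76) (nat_lit 96458788098) (nat_lit 8) (nat_lit 5) (nat_lit 11) (nat_lit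 5) (nat_lit 9) (nat_lit 4) (nat_lit 303) (nat_lit 273) (nat_lit 144)) (XT.nd (nat_lit 78) (nat_lit 0) (nat_lit 0) (XT.lf (nat_lit 0) (nat_lit 41857657134) (nat_lit 76) (nat_lit 108154167720) (nat_lit 152) (nat_lit 105658326868) (nat_lit 7) (nat_lit 5) (nat_lit 8) (nat_lit 5) (nat_lit 9) (nat_lit 4) (nat_lit 304) (nat_lit 273) (nat_lit 143)) (XT.lf (nat_lit 0) (nat_lit 117277262228) (nat_lit 76) (nat_lit 68994422829) (nat_lit 152) (nat_lit 86106976972) (nat_lit 7) (nat_lit 5) (nat_lit 8) (nat_lit 5) (nat_lit 9) (nat_lit 4) (nat_lit 305) (nat_lit 273) (nat_lit 142)))))) (XT.nd (nat_lit 468) (nat_lit 76) (nat_lit 0) (XT.nd (nat_lit 234) (nat_lit 76) (nat_lit 0) (XT.nd (nat_lit 78) (nat_lit 76) (nat_lit 0) (XT.lf (nat_lit 0) (nat_lit 198729974804) (nat_lit 76) (nat_lit 26702070700) (nat_lit 152) (nat_lit 64991832052) (nat_lit 7) (nat_lit 5) (nat_lit 8) (nat_lit 5) (nat_lit 9) (nat_lit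 4) (nat_lit 306) (nat_lit 273) (nat_lit 141)) (XT.nd (nat_lit 78) (nat_lit 76) (nat_lit 0) (XT.lf (nat_lit 0) (nat_lit 268181280966) (nat_lit 152) (nat_lit 23670568683) (nat_lit 0) (nat_lit 18024378196) (nat_lit 7) (nat_lit 5) (nat_lit 9) (nat_lit 4) (nat_lit 7) (nat_lit 4) (nat_lit 307) (nat_lit 273) (nat_lit 140)) (XT.lf (nat_lit 0) (nat_lit 51686213008) (nat_lit 76) (nat_lit 264600606242) (nat_lit 76) (nat_lit 14443038912) (nat_lit 6) (nat_lit 4) (nat_lit 7) (nat_lit 5) (nat_lit 7) (nat_lit 4) (nat_lit 308) (nat_lit 273) (nat_lit 139)))) (XT.nd (nat_lit 78) (nat_lit 0) (nat_lit 0) (XT.lf (nat_lit 0) (nat_lit 14902966372) (nat_lit 152) (nat_lit 219160012608) (nat_lit 76) (nat_lit 119106861478) (nat_lit 5) (nat_lit 5) (nat_lit 7) (nat_lit 5) (nat_lit 6) (nat_lit 4) (nat_lit 309) (nat_lit 273) (nat_lit 138)) (XT.nd (nat_lit 78) (nat_lit 0) (nat_lit 0) (XT.lf (nat_lit 0) (nat_lit 45816121990)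 (nat_lit 152) (nat_lit 154861218677) (nat_lit 76) (nat_lit 176697688523) (nat_lit 5) (nat_lit 5) (nat_lit 7) (nat_lit 5) (nat_lit 6) (nat_lit 4) (nat_lit 310) (nat_lit 273) (nat_lit 137)) (XT.lf (nat_lit 0) (nat_lit 79202116312) (nat_lit 152) (nat_lit 85418878037) (nat_lit 76) (nat_lit 238895656597) (nat_lit 5) (nat_lit 5) (nat_lit 7) (nat_lit 5) (nat_lit 6) (nat_lit 4) (nat_lit 311) (nat_lit 273) (nat_lit 136))))) (XT.nd (nat_lit 234) (nat_lit 0) (nat_lit 0) (XT.nd (nat_lit 78) (nat_lit 76) (nat_lit 0) (XT.lf (nat_lit 0) (nat_lit 115258792267) (nat_lit 152) (nat_lit 10421480522) (nat_lit 76) (nat_lit 306069346250) (nat_lit 5) (nat_lit 5) (nat_lit 7) (nat_lit 5) (nat_lit 6) (nat_lit 4) (nat_lit 312) (nat_lit 273) (nat_lit 135)) (XT.nd (nat_lit 78) (nat_lit 0) (nat_lit 0) (XT.lf (nat_lit 0) (nat_lit 74291778535) (nat_lit 76) (nat_lit 81694759572) (nat_lit 152) (nat_lit 306111764317)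 (nat_lit 4) (nat_lit 5) (nat_lit 5) (nat_lit 5) (nat_lit 6) (nat_lit 4) (nat_lit 313) (nat_lit 273) (nat_lit 134)) (XT.lf (nat_lit 0) (nat_lit 166374478990) (nat_lit 76) (nat_lit 33882789521) (nat_lit 152) (nat_lit 294594831431) (nat_lit 4) (nat_lit 5) (nat_lit 5) (nat_lit 5) (nat_lit 6) (nat_lit 4) (nat_lit 314) (nat_lit 273) (nat_lit 133)))) (XT.nd (nat_lit 78) (nat_lit 0) (nat_lit 0) (XT.lf (nat_lit 0) (nat_lit 248496478348) (nat_lit 152) (nat_lit 264829680309) (nat_lit 0) (nat_lit 16865897533) (nat_lit 4) (nat_lit 5) (nat_lit 6) (nat_lit 4) (nat_lit 4) (nat_lit 4) (nat_lit 315) (nat_lit 273) (nat_lit 132)) (XT.nd (nat_lit 78) (nat_lit 0) (nat_lit 0) (XT.lf (nat_lit 0) (nat_lit 301474743305) (nat_lit 152) (nat_lit 196970242683) (nat_lit 0) (nat_lit 69843830044) (nat_lit 4) (nat_lit 5) (nat_lit 6) (nat_lit 4) (nat_lit 4) (nat_lit 4) (nat_lit 316) (nat_lit 273) (nat_lit 131)) (XT.lf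 (nat_lit 0) (nat_lit 358691126755) (nat_lit 152) (nat_lit 123682296170) (nat_lit 0) (nat_lit 127059905673) (nat_lit 4) (nat_lit 5) (nat_lit 6) (nat_lit 4) (nat_lit 4) (nat_lit 4) (nat_lit 317) (nat_lit 273) (nat_lit 130))))))))
noncomputable def xc105 : XT := (XT.nd (nat_lit 35022) (nat_lit 0) (nat_lit 380) (XT.nd (nat_lit 34086) (nat_lit 0) (nat_lit 1444) (XT.nd (nat_lit 390) (nat_lit 76) (nat_lit 0) (XT.nd (nat_lit 156) (nat_lit 0) (nat_lit 0) (XT.nd (nat_lit 78) (nat_lit 76) (nat_lit 0) (XT.lf (nat_lit 0) (nat_lit 420484688747) (nat_lit 152) (nat_lit 44531541829) (nat_lit 0) (nat_lit 188853182647) (nat_lit 4) (nat_lit 5) (nat_lit 6) (nat_lit 4) (nat_lit 4) (nat_lit 4) (nat_lit 318) (nat_lit 273) (nat_lit 129)) (XT.lf (nat_lit 0) (nat_lit 43107472193) (nat_lit 76) (nat_lit 445150876902) (nat_lit 76) (nat_lit 213519106896) (nat_lit 3) (nat_lit 4) (nat_lit 4) (nat_lit 5) (nat_lit 4)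 (nat_lit 4) (nat_lit 319) (nat_lit 273) (nat_lit 128))) (XT.nd (nat_lit 78) (nat_lit 0) (nat_lit 0) (XT.lf (nat_lit 0) (nat_lit 140289949910) (nat_lit 76) (nat_lit 422381405402) (nat_lit 76) (nat_lit 190749391038) (nat_lit 3) (nat_lit 4) (nat_lit 4) (nat_lit 5) (nat_lit 4) (nat_lit 4) (nat_lit 320) (nat_lit 273) (nat_lit 127)) (XT.nd (nat_lit 78) (nat_lit 0) (nat_lit 0) (XT.lf (nat_lit 0) (nat_lit 245246835410) (nat_lit 76) (nat_lit 397790457145) (nat_lit 76) (nat_lit 166158216524) (nat_lit 3) (nat_lit 4) (nat_lit 4) (nat_lit 5) (nat_lit 4) (nat_lit 4) (nat_lit 321) (nat_lit 273) (nat_lit 126)) (XT.lf (nat_lit 0) (nat_lit 358600095421) (nat_lit 76) (nat_lit 371232307993) (nat_lit 76) (nat_lit 139599857874) (nat_lit 3) (nat_lit 4) (nat_lit 4) (nat_lit 5) (nat_lit 4) (nat_lit 4) (nat_lit 322) (nat_lit 273) (nat_lit 125))))) (XT.nd (nat_lit 234) (nat_lit 76) (nat_lit 0) (XT.nd (nat_lit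 78) (nat_lit 0) (nat_lit 0) (XT.lf (nat_lit 0) (nat_lit 481021452966) (nat_lit 76) (nat_lit 342549576321) (nat_lit 76) (nat_lit 110916932224) (nat_lit 3) (nat_lit 4) (nat_lit 4) (nat_lit 5) (nat_lit 4) (nat_lit 4) (nat_lit 323) (nat_lit 273) (nat_lit 124)) (XT.nd (nat_lit 78) (nat_lit 0) (nat_lit 0) (XT.lf (nat_lit 0) (nat_lit 613236367942) (nat_lit 76) (nat_lit 311572290387) (nat_lit 76) (nat_lit 79939466679) (nat_lit 3) (nat_lit 4) (nat_lit 4) (nat_lit 5) (nat_lit 4) (nat_lit 4) (nat_lit 324) (nat_lit 273) (nat_lit 123)) (XT.lf (nat_lit 0) (nat_lit 756028336141) (nat_lit 76) (nat_lit 278116881088) (nat_lit 76) (nat_lit 46483891074) (nat_lit 3) (nat_lit 4) (nat_lit 4) (nat_lit 5) (nat_lit 4) (nat_lit 4) (nat_lit 325) (nat_lit 273) (nat_lit 122)))) (XT.nd (nat_lit 78) (nat_lit 76) (nat_lit 0) (XT.lf (nat_lit 0) (nat_lit 910243532189) (nat_lit 76) (nat_lit 241985094147) (nat_lit 76)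 (nat_lit 10351950146) (nat_lit 3) (nat_lit 4) (nat_lit 4) (nat_lit 5) (nat_lit 4) (nat_lit 4) (nat_lit 326) (nat_lit 273) (nat_lit 121)) (XT.nd (nat_lit 78) (nat_lit 0) (nat_lit 0) (XT.lf (nat_lit 0) (nat_lit 27236258218) (nat_lit 152) (nat_lit 174981869486) (nat_lit 76) (nat_lit 1048814878130) (nat_lit 2) (nat_lit 5) (nat_lit 4) (nat_lit 5) (nat_lit 3) (nat_lit 4) (nat_lit 327) (nat_lit 273) (nat_lit 120)) (XT.lf (nat_lit 0) (nat_lit 67272183316) (nat_lit 152) (nat_lit 91707277301) (nat_lit 76) (nat_lit 1187560663837) (nat_lit 2) (nat_lit 5) (nat_lit 4) (nat_lit 5) (nat_lit 3) (nat_lit 4) (nat_lit 328) (nat_lit 273) (nat_lit 119)))))) (XT.nd (nat_lit 468) (nat_lit 456) (nat_lit 0) (XT.nd (nat_lit 234) (nat_lit 0) (nat_lit 76) (XT.nd (nat_lit 78) (nat_lit 0) (nat_lit 0) (XT.lf (nat_lit 0) (nat_lit 2287581355) (nat_lit 532) (nat_lit 12971191792) (nat_lit 532) (nat_lit 12971191792) (nat_lit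 27) (nat_lit 3) (nat_lit 34) (nat_lit 3) (nat_lit 34) (nat_lit 5) (nat_lit 274) (nat_lit 274) (nat_lit 172)) (XT.nd (nat_lit 78) (nat_lit 0) (nat_lit 76) (XT.lf (nat_lit 0) (nat_lit 4775945710) (nat_lit 532) (nat_lit 3638548122) (nat_lit 532) (nat_lit 50302268789) (nat_lit 27) (nat_lit 3) (nat_lit 34) (nat_lit 3) (nat_lit 34) (nat_lit 5) (nat_lit 275) (nat_lit 274) (nat_lit 171)) (XT.lf (nat_lit 0) (nat_lit 5893901990) (nat_lit 456) (nat_lit 39972670852) (nat_lit 532) (nat_lit 15215494531) (nat_lit 28) (nat_lit 5) (nat_lit 34) (nat_lit 5) (nat_lit 35) (nat_lit 5) (nat_lit 276) (nat_lit 274) (nat_lit 170)))) (XT.nd (nat_lit 78) (nat_lit 0) (nat_lit 76) (XT.lf (nat_lit 0) (nat_lit 7420269444) (nat_lit 456) (nat_lit 15806783084) (nat_lit 532) (nat_lit 40384039188) (nat_lit 28) (nat_lit 5) (nat_lit 34) (nat_lit 5) (nat_lit 35) (nat_lit 5) (nat_lit 277) (nat_lit 274) (nat_lit 169)) (XT.nd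 (nat_lit 78) (nat_lit 0) (nat_lit 0) (XT.lf (nat_lit 0) (nat_lit 9363964944) (nat_lit 456) (nat_lit 55524662307) (nat_lit 532) (nat_lit 1430205474) (nat_lit 29) (nat_lit 5) (nat_lit 35) (nat_lit 5) (nat_lit 36) (nat_lit 5) (nat_lit 278) (nat_lit 274) (nat_lit 168)) (XT.lf (nat_lit 0) (nat_lit 12508437482) (nat_lit 456) (nat_lit 29402134274) (nat_lit 532) (nat_lit 27249010049) (nat_lit 29) (nat_lit 5) (nat_lit 35) (nat_lit 5) (nat_lit 36) (nat_lit 5) (nat_lit 279) (nat_lit 274) (nat_lit 167))))) (XT.nd (nat_lit 234) (nat_lit 608) (nat_lit 0) (XT.nd (nat_lit 78) (nat_lit 0) (nat_lit 76) (XT.lf (nat_lit 0) (nat_lit 15903144005) (nat_lit 456) (nat_lit 1190856217) (nat_lit 532) (nat_lit 55133706963) (nat_lit 29) (nat_lit 5) (nat_lit 35) (nat_lit 5) (nat_lit 36) (nat_lit 5) (nat_lit 280) (nat_lit 274) (nat_lit 166)) (XT.nd (nat_lit 78) (nat_lit 0) (nat_lit 0) (XT.lf (nat_lit 0) (nat_lit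 20562107167) (nat_lit 456) (nat_lit 44916838431) (nat_lit 76) (nat_lit 9982932279) (nat_lit 30) (nat_lit 5) (nat_lit 36) (nat_lit 5) (nat_lit 31) (nat_lit 5) (nat_lit 281) (nat_lit 274) (nat_lit 165)) (XT.lf (nat_lit 0) (nat_lit 26070040433) (nat_lit 456) (nat_lit 14510547543) (nat_lit 76) (nat_lit 38336102979) (nat_lit 30) (nat_lit 5) (nat_lit 36) (nat_lit 5) (nat_lit 31) (nat_lit 5) (nat_lit 282) (nat_lit 274) (nat_lit 164)))) (XT.nd (nat_lit 78) (nat_lit 228) (nat_lit 0) (XT.lf (nat_lit 0) (nat_lit 19292350125) (nat_lit 456) (nat_lit 13189172318) (nat_lit 532) (nat_lit 50129341817) (nat_lit 24) (nat_lit 5) (nat_lit 30) (nat_lit 5) (nat_lit 31) (nat_lit 5) (nat_lit 283) (nat_lit 274) (nat_lit 163)) (XT.nd (nat_lit 78) (nat_lit 228) (nat_lit 0) (XT.lf (nat_lit 0) (nat_lit 40206227708) (nat_lit 532) (nat_lit 30349738280) (nat_lit 76) (nat_lit 15980588760) (nat_lit 24) (nat_lit 5) (nat_lit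 31) (nat_lit 5) (nat_lit 25) (nat_lit 5) (nat_lit 284) (nat_lit 274) (nat_lit 162)) (XT.lf (nat_lit 0) (nat_lit 5171707562) (nat_lit 228) (nat_lit 43843222369) (nat_lit 304) (nat_lit 41724096025) (nat_lit 21) (nat_lit 5) (nat_lit 24) (nat_lit 5) (nat_lit 25) (nat_lit 5) (nat_lit 285) (nat_lit 274) (nat_lit 161))))))) (XT.nd (nat_lit 858) (nat_lit 380) (nat_lit 0) (XT.nd (nat_lit 390) (nat_lit 380) (nat_lit 0) (XT.nd (nat_lit 156) (nat_lit 304) (nat_lit 0) (XT.nd (nat_lit 78) (nat_lit 0) (nat_lit 0) (XT.lf (nat_lit 0) (nat_lit 45259944100) (nat_lit 228) (nat_lit 14097311423) (nat_lit 304) (nat_lit 35854131756) (nat_lit 21) (nat_lit 5) (nat_lit 24) (nat_lit 5) (nat_lit 25) (nat_lit 5) (nat_lit 286) (nat_lit 274) (nat_lit 160)) (XT.lf (nat_lit 0) (nat_lit 70959723741) (nat_lit 304) (nat_lit 11920820811) (nat_lit 76) (nat_lit 17126378539) (nat_lit 21) (nat_lit 5) (nat_lit 25) (nat_lit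 5) (nat_lit 22) (nat_lit 5) (nat_lit 287) (nat_lit 274) (nat_lit 159))) (XT.nd (nat_lit 78) (nat_lit 152) (nat_lit 0) (XT.lf (nat_lit 0) (nat_lit 30300993146) (nat_lit 152) (nat_lit 54283537031) (nat_lit 228) (nat_lit 20514045986) (nat_lit 19) (nat_lit 5) (nat_lit 21) (nat_lit 5) (nat_lit 22) (nat_lit 5) (nat_lit 288) (nat_lit 274) (nat_lit 158)) (XT.nd (nat_lit 78) (nat_lit 152) (nat_lit 0) (XT.lf (nat_lit 0) (nat_lit 76577649292) (nat_lit 152) (nat_lit 23046881463) (nat_lit 228) (nat_lit 10947019190) (nat_lit 19) (nat_lit 5) (nat_lit 21) (nat_lit 5) (nat_lit 22) (nat_lit 5) (nat_lit 289) (nat_lit 274) (nat_lit 157)) (XT.lf (nat_lit 0) (nat_lit 10333071231) (nat_lit 152) (nat_lit 106039558745) (nat_lit 228) (nat_lit 69344614) (nat_lit 17) (nat_lit 5) (nat_lit 19) (nat_lit 5) (nat_lit 20) (nat_lit 5) (nat_lit 290) (nat_lit 274) (nat_lit 156))))) (XT.nd (nat_lit 234) (nat_lit 152) (nat_lit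 0) (XT.nd (nat_lit 78) (nat_lit 152) (nat_lit 0) (XT.lf (nat_lit 0) (nat_lit 12645884879) (nat_lit 228) (nat_lit 63472705403) (nat_lit 76) (nat_lit 46516853620) (nat_lit 16) (nat_lit 5) (nat_lit 19) (nat_lit 5) (nat_lit 17) (nat_lit 5) (nat_lit 291) (nat_lit 274) (nat_lit 155)) (XT.nd (nat_lit 78) (nat_lit 152) (nat_lit 0) (XT.lf (nat_lit 0) (nat_lit 26373969272) (nat_lit 228) (nat_lit 17428210345) (nat_lit 76) (nat_lit 85522120261) (nat_lit 16) (nat_lit 5) (nat_lit 19) (nat_lit 5) (nat_lit 17) (nat_lit 5) (nat_lit 292) (nat_lit 274) (nat_lit 154)) (XT.lf (nat_lit 0) (nat_lit 33999919492) (nat_lit 152) (nat_lit 8017508462) (nat_lit 228) (nat_lit 94465469739) (nat_lit 14) (nat_lit 5) (nat_lit 16) (nat_lit 5) (nat_lit 17) (nat_lit 5) (nat_lit 293) (nat_lit 274) (nat_lit 153)))) (XT.nd (nat_lit 78) (nat_lit 152) (nat_lit 0) (XT.lf (nat_lit 0) (nat_lit 60137358784) (nat_lit 228) (nat_lit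 54392394835) (nat_lit 76) (nat_lit 29586433376) (nat_lit 14) (nat_lit 5) (nat_lit 17) (nat_lit 5) (nat_lit 15) (nat_lit 5) (nat_lit 294) (nat_lit 274) (nat_lit 152)) (XT.nd (nat_lit 78) (nat_lit 152) (nat_lit 0) (XT.lf (nat_lit 0) (nat_lit 79914621327) (nat_lit 228) (nat_lit 2663517918) (nat_lit 76) (nat_lit 69765384274) (nat_lit 14) (nat_lit 5) (nat_lit 17) (nat_lit 5) (nat_lit 15) (nat_lit 5) (nat_lit 295) (nat_lit 274) (nat_lit 151)) (XT.lf (nat_lit 0) (nat_lit 56004591817) (nat_lit 152) (nat_lit 46615912867) (nat_lit 228) (nat_lit 58500829924) (nat_lit 12) (nat_lit 5) (nat_lit 14) (nat_lit 5) (nat_lit 15) (nat_lit 5) (nat_lit 296) (nat_lit 274) (nat_lit 150)))))) (XT.nd (nat_lit 468) (nat_lit 76) (nat_lit 0) (XT.nd (nat_lit 234) (nat_lit 228) (nat_lit 0) (XT.nd (nat_lit 78) (nat_lit 76) (nat_lit 0) (XT.lf (nat_lit 0) (nat_lit 119516989671) (nat_lit 152) (nat_lit 7698242002) (nat_lit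 228) (nat_lit 43380351692) (nat_lit 12) (nat_lit 5) (nat_lit 14) (nat_lit 5) (nat_lit 15) (nat_lit 5) (nat_lit 297) (nat_lit 274) (nat_lit 149)) (XT.nd (nat_lit 78) (nat_lit 0) (nat_lit 0) (XT.lf (nat_lit 0) (nat_lit 6796255998) (nat_lit 76) (nat_lit 147970013686) (nat_lit 152) (nat_lit 25982406137) (nat_lit 11) (nat_lit 5) (nat_lit 12) (nat_lit 5) (nat_lit 13) (nat_lit 4) (nat_lit 298) (nat_lit 274) (nat_lit 148)) (XT.lf (nat_lit 0) (nat_lit 71994888825) (nat_lit 76) (nat_lit 114117567188) (nat_lit 152) (nat_lit 5474276683) (nat_lit 11) (nat_lit 5) (nat_lit 12) (nat_lit 5) (nat_lit 13) (nat_lit 4) (nat_lit 299) (nat_lit 274) (nat_lit 147)))) (XT.nd (nat_lit 78) (nat_lit 152) (nat_lit 0) (XT.lf (nat_lit 0) (nat_lit 15839989096) (nat_lit 152) (nat_lit 61284027640) (nat_lit 76) (nat_lit 126135768561) (nat_lit 10) (nat_lit 5) (nat_lit 12) (nat_lit 5) (nat_lit 11) (nat_lit 5) (nat_lit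 300) (nat_lit 274) (nat_lit 146)) (XT.nd (nat_lit 78) (nat_lit 0) (nat_lit 0) (XT.lf (nat_lit 0) (nat_lit 1627077523) (nat_lit 152) (nat_lit 36975337617) (nat_lit 228) (nat_lit 177249791860) (nat_lit 8) (nat_lit 5) (nat_lit 10) (nat_lit 5) (nat_lit 11) (nat_lit 5) (nat_lit 301) (nat_lit 274) (nat_lit 145)) (XT.lf (nat_lit 0) (nat_lit 65058187152) (nat_lit 228) (nat_lit 156459264372) (nat_lit 76) (nat_lit 7784784415) (nat_lit 8) (nat_lit 5) (nat_lit 11) (nat_lit 5) (nat_lit 9) (nat_lit 4) (nat_lit 302) (nat_lit 274) (nat_lit 144))))) (XT.nd (nat_lit 234) (nat_lit 0) (nat_lit 0) (XT.nd (nat_lit 78) (nat_lit 76) (nat_lit 0) (XT.lf (nat_lit 0) (nat_lit 94590495643) (nat_lit 228) (nat_lit 95033039167) (nat_lit 76) (nat_lit 54127927932) (nat_lit 8) (nat_lit 5) (nat_lit 11) (nat_lit 5) (nat_lit 9) (nat_lit 4) (nat_lit 303) (nat_lit 274) (nat_lit 143)) (XT.nd (nat_lit 78) (nat_lit 76) (nat_lit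 0) (XT.lf (nat_lit 0) (nat_lit 126485089130) (nat_lit 228) (nat_lit 28693188842) (nat_lit 76) (nat_lit 104178375108) (nat_lit 8) (nat_lit 5) (nat_lit 11) (nat_lit 5) (nat_lit 9) (nat_lit 4) (nat_lit 304) (nat_lit 274) (nat_lit 142)) (XT.lf (nat_lit 0) (nat_lit 45215262176) (nat_lit 76) (nat_lit 116803138576) (nat_lit 152) (nat_lit 114104887151) (nat_lit 7) (nat_lit 5) (nat_lit 8) (nat_lit 5) (nat_lit 9) (nat_lit 4) (nat_lit 305) (nat_lit 274) (nat_lit 141)))) (XT.nd (nat_lit 78) (nat_lit 0) (nat_lit 0) (XT.lf (nat_lit 0) (nat_lit 126667769569) (nat_lit 76) (nat_lit 74510863172) (nat_lit 152) (nat_lit 92989881550) (nat_lit 7) (nat_lit 5) (nat_lit 8) (nat_lit 5) (nat_lit 9) (nat_lit 4) (nat_lit 306) (nat_lit 274) (nat_lit 140)) (XT.nd (nat_lit 78) (nat_lit 0) (nat_lit 0) (XT.lf (nat_lit 0) (nat_lit 214636082384) (nat_lit 76) (nat_lit 28835353502) (nat_lit 152) (nat_lit 70185943819) (nat_lit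 7) (nat_lit 5) (nat_lit 8) (nat_lit 5) (nat_lit 9) (nat_lit 4) (nat_lit 307) (nat_lit 274) (nat_lit 139)) (XT.lf (nat_lit 0) (nat_lit 289640316844) (nat_lit 152) (nat_lit 25556762031) (nat_lit 0) (nat_lit 19468864232) (nat_lit 7) (nat_lit 5) (nat_lit 9) (nat_lit 4) (nat_lit 7) (nat_lit 4) (nat_lit 308) (nat_lit 274) (nat_lit 138))))))))
noncomputable def xc106 : XT := (XT.nd (nat_lit 35100) (nat_lit 0) (nat_lit 684) (XT.nd (nat_lit 858) (nat_lit 152) (nat_lit 0) (XT.nd (nat_lit 390) (nat_lit 76) (nat_lit 0) (XT.nd (nat_lit 156) (nat_lit 0) (nat_lit 0) (XT.nd (nat_lit 78) (nat_lit 76) (nat_lit 0) (XT.lf (nat_lit 0) (nat_lit 55828373533) (nat_lit 76) (nat_lit 285765763537) (nat_lit 76) (nat_lit 15593741172) (nat_lit 6) (nat_lit 4) (nat_lit 7) (nat_lit 5) (nat_lit 7) (nat_lit 4) (nat_lit 309) (nat_lit 274) (nat_lit 137)) (XT.lf (nat_lit 0) (nat_lit 16099373772) (nat_lit 152) (nat_lit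 236685852469) (nat_lit 76) (nat_lit 128637851738) (nat_lit 5) (nat_lit 5) (nat_lit 7) (nat_lit 5) (nat_lit 6) (nat_lit 4) (nat_lit 310) (nat_lit 274) (nat_lit 136))) (XT.nd (nat_lit 78) (nat_lit 0) (nat_lit 0) (XT.lf (nat_lit 0) (nat_lit 49485272943) (nat_lit 152) (nat_lit 167243670664) (nat_lit 76) (nat_lit 190835764107) (nat_lit 5) (nat_lit 5) (nat_lit 7) (nat_lit 5) (nat_lit 6) (nat_lit 4) (nat_lit 311) (nat_lit 274) (nat_lit 135)) (XT.nd (nat_lit 78) (nat_lit 0) (nat_lit 0) (XT.lf (nat_lit 0) (nat_lit 85541860797) (nat_lit 152) (nat_lit 92246420218) (nat_lit 76) (nat_lit 258009402181) (nat_lit 5) (nat_lit 5) (nat_lit 7) (nat_lit 5) (nat_lit 6) (nat_lit 4) (nat_lit 312) (nat_lit 274) (nat_lit 134)) (XT.lf (nat_lit 0) (nat_lit 124482806000) (nat_lit 152) (nat_lit 11249672981) (nat_lit 76) (nat_lit 330556831966) (nat_lit 5) (nat_lit 5) (nat_lit 7) (nat_lit 5) (nat_lit 6) (nat_lit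 4) (nat_lit 313) (nat_lit 274) (nat_lit 133))))) (XT.nd (nat_lit 234) (nat_lit 0) (nat_lit 0) (XT.nd (nat_lit 78) (nat_lit 0) (nat_lit 0) (XT.lf (nat_lit 0) (nat_lit 80240506903) (nat_lit 76) (nat_lit 88228148928) (nat_lit 152) (nat_lit 330597243372) (nat_lit 4) (nat_lit 5) (nat_lit 5) (nat_lit 5) (nat_lit 6) (nat_lit 4) (nat_lit 314) (nat_lit 274) (nat_lit 132)) (XT.nd (nat_lit 78) (nat_lit 0) (nat_lit 0) (XT.lf (nat_lit 0) (nat_lit 179689424425) (nat_lit 76) (nat_lit 36591383600) (nat_lit 152) (nat_lit 318159212306) (nat_lit 4) (nat_lit 5) (nat_lit 5) (nat_lit 5) (nat_lit 6) (nat_lit 4) (nat_lit 315) (nat_lit 274) (nat_lit 131)) (XT.lf (nat_lit 0) (nat_lit 268378980720) (nat_lit 152) (nat_lit 286011252953) (nat_lit 0) (nat_lit 18216954132) (nat_lit 4) (nat_lit 5) (nat_lit 6) (nat_lit 4) (nat_lit 4) (nat_lit 4) (nat_lit 316) (nat_lit 274) (nat_lit 130)))) (XT.nd (nat_lit 78) (nat_lit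 0) (nat_lit 0) (XT.lf (nat_lit 0) (nat_lit 325595300644) (nat_lit 152) (nat_lit 212723416004) (nat_lit 0) (nat_lit 75432989037) (nat_lit 4) (nat_lit 5) (nat_lit 6) (nat_lit 4) (nat_lit 4) (nat_lit 4) (nat_lit 317) (nat_lit 274) (nat_lit 129)) (XT.nd (nat_lit 78) (nat_lit 0) (nat_lit 0) (XT.lf (nat_lit 0) (nat_lit 387388803816) (nat_lit 152) (nat_lit 133572763111) (nat_lit 0) (nat_lit 137226228302) (nat_lit 4) (nat_lit 5) (nat_lit 6) (nat_lit 4) (nat_lit 4) (nat_lit 4) (nat_lit 318) (nat_lit 274) (nat_lit 128)) (XT.lf (nat_lit 0) (nat_lit 454125673958) (nat_lit 152) (nat_lit 48090253367) (nat_lit 0) (nat_lit 203962854087) (nat_lit 4) (nat_lit 5) (nat_lit 6) (nat_lit 4) (nat_lit 4) (nat_lit 4) (nat_lit 319) (nat_lit 274) (nat_lit 127)))))) (XT.nd (nat_lit 468) (nat_lit 76) (nat_lit 0) (XT.nd (nat_lit 234) (nat_lit 0) (nat_lit 0) (XT.nd (nat_lit 78) (nat_lit 0) (nat_lit 0) (XT.lf (nat_lit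 0) (nat_lit 46559785275) (nat_lit 76) (nat_lit 480761367501) (nat_lit 76) (nat_lit 230598321373) (nat_lit 3) (nat_lit 4) (nat_lit 4) (nat_lit 5) (nat_lit 4) (nat_lit 4) (nat_lit 320) (nat_lit 274) (nat_lit 126)) (XT.nd (nat_lit 78) (nat_lit 0) (nat_lit 0) (XT.lf (nat_lit 0) (nat_lit 151516586001) (nat_lit 76) (nat_lit 456170455285) (nat_lit 76) (nat_lit 206007199659) (nat_lit 3) (nat_lit 4) (nat_lit 4) (nat_lit 5) (nat_lit 4) (nat_lit 4) (nat_lit 321) (nat_lit 274) (nat_lit 125)) (XT.lf (nat_lit 0) (nat_lit 264869767519) (nat_lit 76) (nat_lit 429612339504) (nat_lit 76) (nat_lit 179448889900) (nat_lit 3) (nat_lit 4) (nat_lit 4) (nat_lit 5) (nat_lit 4) (nat_lit 4) (nat_lit 322) (nat_lit 274) (nat_lit 124)))) (XT.nd (nat_lit 78) (nat_lit 0) (nat_lit 0) (XT.lf (nat_lit 0) (nat_lit 387291052385) (nat_lit 76) (nat_lit 400929638732) (nat_lit 76) (nat_lit 150766009517) (nat_lit 3) (nat_lit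 4) (nat_lit 4) (nat_lit 5) (nat_lit 4) (nat_lit 4) (nat_lit 323) (nat_lit 274) (nat_lit 123)) (XT.nd (nat_lit 78) (nat_lit 0) (nat_lit 0) (XT.lf (nat_lit 0) (nat_lit 519505900065) (nat_lit 76) (nat_lit 369952381408) (nat_lit 76) (nat_lit 119788585888) (nat_lit 3) (nat_lit 4) (nat_lit 4) (nat_lit 5) (nat_lit 4) (nat_lit 4) (nat_lit 324) (nat_lit 274) (nat_lit 122)) (XT.lf (nat_lit 0) (nat_lit 662297805953) (nat_lit 76) (nat_lit 336496998600) (nat_lit 76) (nat_lit 86333049093) (nat_lit 3) (nat_lit 4) (nat_lit 4) (nat_lit 5) (nat_lit 4) (nat_lit 4) (nat_lit 325) (nat_lit 274) (nat_lit 121))))) (XT.nd (nat_lit 33540) (nat_lit 0) (nat_lit 1900) (XT.nd (nat_lit 78) (nat_lit 76) (nat_lit 0) (XT.lf (nat_lit 0) (nat_lit 816512944306) (nat_lit 76) (nat_lit 300365236188) (nat_lit 76) (nat_lit 50201144101) (nat_lit 3) (nat_lit 4) (nat_lit 4) (nat_lit 5) (nat_lit 4) (nat_lit 4) (nat_lit 326) (nat_lit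 274) (nat_lit 120)) (XT.nd (nat_lit 78) (nat_lit 76) (nat_lit 0) (XT.lf (nat_lit 0) (nat_lit 983065182610) (nat_lit 76) (nat_lit 261342980024) (nat_lit 76) (nat_lit 11178755918) (nat_lit 3) (nat_lit 4) (nat_lit 4) (nat_lit 5) (nat_lit 4) (nat_lit 4) (nat_lit 327) (nat_lit 274) (nat_lit 119)) (XT.lf (nat_lit 0) (nat_lit 29416346557) (nat_lit 152) (nat_lit 188978345506) (nat_lit 76) (nat_lit 1132720855490) (nat_lit 2) (nat_lit 5) (nat_lit 4) (nat_lit 5) (nat_lit 3) (nat_lit 4) (nat_lit 328) (nat_lit 274) (nat_lit 118)))) (XT.nd (nat_lit 78) (nat_lit 0) (nat_lit 0) (XT.lf (nat_lit 0) (nat_lit 2487936830) (nat_lit 532) (nat_lit 13999449238) (nat_lit 532) (nat_lit 13999449238) (nat_lit 27) (nat_lit 3) (nat_lit 34) (nat_lit 3) (nat_lit 34) (nat_lit 5) (nat_lit 275) (nat_lit 275) (nat_lit 170)) (XT.nd (nat_lit 78) (nat_lit 0) (nat_lit 76) (XT.lf (nat_lit 0) (nat_lit 5190149082) (nat_lit 532)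 (nat_lit 3912154385) (nat_lit 532) (nat_lit 54308972707) (nat_lit 27) (nat_lit 3) (nat_lit 34) (nat_lit 3) (nat_lit 34) (nat_lit 5) (nat_lit 276) (nat_lit 275) (nat_lit 169)) (XT.lf (nat_lit 0) (nat_lit 6395256134) (nat_lit 456) (nat_lit 43150483018) (nat_lit 532) (nat_lit 16420268068) (nat_lit 28) (nat_lit 5) (nat_lit 34) (nat_lit 5) (nat_lit 35) (nat_lit 5) (nat_lit 277) (nat_lit 275) (nat_lit 168))))))) (XT.nd (nat_lit 858) (nat_lit 760) (nat_lit 0) (XT.nd (nat_lit 390) (nat_lit 532) (nat_lit 0) (XT.nd (nat_lit 156) (nat_lit 0) (nat_lit 76) (XT.nd (nat_lit 78) (nat_lit 0) (nat_lit 76) (XT.lf (nat_lit 0) (nat_lit 8041522467) (nat_lit 456) (nat_lit 17052805822) (nat_lit 532) (nat_lit 43603219707) (nat_lit 28) (nat_lit 5) (nat_lit 34) (nat_lit 5) (nat_lit 35) (nat_lit 5) (nat_lit 278) (nat_lit 275) (nat_lit 167)) (XT.lf (nat_lit 0) (nat_lit 10138909334) (nat_lit 456) (nat_lit 59946106906)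 (nat_lit 532) (nat_lit 1537052722) (nat_lit 29) (nat_lit 5) (nat_lit 35) (nat_lit 5) (nat_lit 36) (nat_lit 5) (nat_lit 279) (nat_lit 275) (nat_lit 166))) (XT.nd (nat_lit 78) (nat_lit 0) (nat_lit 0) (XT.lf (nat_lit 0) (nat_lit 13533026550) (nat_lit 456) (nat_lit 31735297251) (nat_lit 532) (nat_lit 29421922345) (nat_lit 29) (nat_lit 5) (nat_lit 35) (nat_lit 5) (nat_lit 36) (nat_lit 5) (nat_lit 280) (nat_lit 275) (nat_lit 165)) (XT.nd (nat_lit 78) (nat_lit 0) (nat_lit 76) (XT.lf (nat_lit 0) (nat_lit 17197538182) (nat_lit 456) (nat_lit 1268524932) (nat_lit 532) (nat_lit 59537914160) (nat_lit 29) (nat_lit 5) (nat_lit 35) (nat_lit 5) (nat_lit 36) (nat_lit 5) (nat_lit 281) (nat_lit 275) (nat_lit 164)) (XT.lf (nat_lit 0) (nat_lit 22227900313) (nat_lit 456) (nat_lit 48491105535) (nat_lit 76) (nat_lit 10777994190) (nat_lit 30) (nat_lit 5) (nat_lit 36) (nat_lit 5) (nat_lit 31) (nat_lit 5) (nat_lit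 282) (nat_lit 275) (nat_lit 163))))) (XT.nd (nat_lit 234) (nat_lit 228) (nat_lit 0) (XT.nd (nat_lit 78) (nat_lit 456) (nat_lit 0) (XT.lf (nat_lit 0) (nat_lit 28174925678) (nat_lit 456) (nat_lit 15653724707) (nat_lit 76) (nat_lit 41399683188) (nat_lit 30) (nat_lit 5) (nat_lit 36) (nat_lit 5) (nat_lit 31) (nat_lit 5) (nat_lit 283) (nat_lit 275) (nat_lit 162)) (XT.nd (nat_lit 78) (nat_lit 0) (nat_lit 0) (XT.lf (nat_lit 0) (nat_lit 20852957518) (nat_lit 456) (nat_lit 14245354561) (nat_lit 532) (nat_lit 54119820917) (nat_lit 24) (nat_lit 5) (nat_lit 30) (nat_lit 5) (nat_lit 31) (nat_lit 5) (nat_lit 284) (nat_lit 275) (nat_lit 161)) (XT.lf (nat_lit 0) (nat_lit 43439617244) (nat_lit 532) (nat_lit 32760268265) (nat_lit 76) (nat_lit 17258113630) (nat_lit 24) (nat_lit 5) (nat_lit 31) (nat_lit 5) (nat_lit 25) (nat_lit 5) (nat_lit 285) (nat_lit 275) (nat_lit 160)))) (XT.nd (nat_lit 78) (nat_lit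 0) (nat_lit 0) (XT.lf (nat_lit 0) (nat_lit 5602451496) (nat_lit 228) (nat_lit 47349721967) (nat_lit 304) (nat_lit 45044571487) (nat_lit 21) (nat_lit 5) (nat_lit 24) (nat_lit 5) (nat_lit 25) (nat_lit 5) (nat_lit 286) (nat_lit 275) (nat_lit 159)) (XT.nd (nat_lit 78) (nat_lit 0) (nat_lit 0) (XT.lf (nat_lit 0) (nat_lit 48896487155) (nat_lit 228) (nat_lit 15224209123) (nat_lit 304) (nat_lit 38706302834) (nat_lit 21) (nat_lit 5) (nat_lit 24) (nat_lit 5) (nat_lit 25) (nat_lit 5) (nat_lit 287) (nat_lit 275) (nat_lit 158)) (XT.lf (nat_lit 0) (nat_lit 76650280946) (nat_lit 304) (nat_lit 12858722273) (nat_lit 76) (nat_lit 18497269223) (nat_lit 21) (nat_lit 5) (nat_lit 25) (nat_lit 5) (nat_lit 22) (nat_lit 5) (nat_lit 288) (nat_lit 275) (nat_lit 157)))))) (XT.nd (nat_lit 468) (nat_lit 228) (nat_lit 0) (XT.nd (nat_lit 234) (nat_lit 228) (nat_lit 0) (XT.nd (nat_lit 78) (nat_lit 152) (nat_lit 0)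 (XT.lf (nat_lit 0) (nat_lit 32740437707) (nat_lit 152) (nat_lit 58623983031) (nat_lit 228) (nat_lit 22140896680) (nat_lit 19) (nat_lit 5) (nat_lit 21) (nat_lit 5) (nat_lit 22) (nat_lit 5) (nat_lit 289) (nat_lit 275) (nat_lit 156)) (XT.nd (nat_lit 78) (nat_lit 152) (nat_lit 0) (XT.lf (nat_lit 0) (nat_lit 82718088188) (nat_lit 152) (nat_lit 24888560719) (nat_lit 228) (nat_lit 11809564999) (nat_lit 19) (nat_lit 5) (nat_lit 21) (nat_lit 5) (nat_lit 22) (nat_lit 5) (nat_lit 290) (nat_lit 275) (nat_lit 155)) (XT.lf (nat_lit 0) (nat_lit 11174568353) (nat_lit 152) (nat_lit 114519530593) (nat_lit 228) (nat_lit 62219834) (nat_lit 17) (nat_lit 5) (nat_lit 19) (nat_lit 5) (nat_lit 20) (nat_lit 5) (nat_lit 291) (nat_lit 275) (nat_lit 154)))) (XT.nd (nat_lit 78) (nat_lit 152) (nat_lit 0) (XT.lf (nat_lit 0) (nat_lit 13668702362) (nat_lit 228) (nat_lit 68536114028) (nat_lit 76) (nat_lit 50240501765)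 (nat_lit 16) (nat_lit 5) (nat_lit 19) (nat_lit 5) (nat_lit 17) (nat_lit 5) (nat_lit 292) (nat_lit 275) (nat_lit 153)) (XT.nd (nat_lit 78) (nat_lit 152) (nat_lit 0) (XT.lf (nat_lit 0) (nat_lit 28494207825) (nat_lit 228) (nat_lit 18809126611) (nat_lit 76) (nat_lit 92366019378) (nat_lit 16) (nat_lit 5) (nat_lit 19) (nat_lit 5) (nat_lit 17) (nat_lit 5) (nat_lit 293) (nat_lit 275) (nat_lit 152)) (XT.lf (nat_lit 0) (nat_lit 36732915878) (nat_lit 152) (nat_lit 8655775523) (nat_lit 228) (nat_lit 102011988966) (nat_lit 14) (nat_lit 5) (nat_lit 16) (nat_lit 5) (nat_lit 17) (nat_lit 5) (nat_lit 294) (nat_lit 275) (nat_lit 151))))) (XT.nd (nat_lit 234) (nat_lit 76) (nat_lit 0) (XT.nd (nat_lit 78) (nat_lit 152) (nat_lit 0) (XT.lf (nat_lit 0) (nat_lit 64957555426) (nat_lit 228) (nat_lit 58731030307) (nat_lit 76) (nat_lit 31956104398) (nat_lit 14) (nat_lit 5) (nat_lit 17) (nat_lit 5) (nat_lit 15)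 (nat_lit 5) (nat_lit 295) (nat_lit 275) (nat_lit 150)) (XT.nd (nat_lit 78) (nat_lit 152) (nat_lit 0) (XT.lf (nat_lit 0) (nat_lit 86316316902) (nat_lit 228) (nat_lit 2864788134) (nat_lit 76) (nat_lit 75349167193) (nat_lit 14) (nat_lit 5) (nat_lit 17) (nat_lit 5) (nat_lit 15) (nat_lit 5) (nat_lit 296) (nat_lit 275) (nat_lit 149)) (XT.lf (nat_lit 0) (nat_lit 60496471362) (nat_lit 152) (nat_lit 50341844888) (nat_lit 228) (nat_lit 63172024115) (nat_lit 12) (nat_lit 5) (nat_lit 14) (nat_lit 5) (nat_lit 15) (nat_lit 5) (nat_lit 297) (nat_lit 275) (nat_lit 148)))) (XT.nd (nat_lit 78) (nat_lit 76) (nat_lit 0) (XT.lf (nat_lit 0) (nat_lit 129089008289) (nat_lit 152) (nat_lit 8311007837) (nat_lit 228) (nat_lit 46842564824) (nat_lit 12) (nat_lit 5) (nat_lit 14) (nat_lit 5) (nat_lit 15) (nat_lit 5) (nat_lit 298) (nat_lit 275) (nat_lit 147)) (XT.nd (nat_lit 78) (nat_lit 0) (nat_lit 0) (XT.lf (nat_lit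 0) (nat_lit 7350906200) (nat_lit 76) (nat_lit 159804002769) (nat_lit 152) (nat_lit 28053033335) (nat_lit 11) (nat_lit 5) (nat_lit 12) (nat_lit 5) (nat_lit 13) (nat_lit 4) (nat_lit 299) (nat_lit 275) (nat_lit 146)) (XT.lf (nat_lit 0) (nat_lit 77764618562) (nat_lit 76) (nat_lit 123243628107) (nat_lit 152) (nat_lit 5904843546) (nat_lit 11) (nat_lit 5) (nat_lit 12) (nat_lit 5) (nat_lit 13) (nat_lit 4) (nat_lit 300) (nat_lit 275) (nat_lit 145))))))))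
noncomputable def xc107 : XT := (XT.nd (nat_lit 1794) (nat_lit 0) (nat_lit 0) (XT.nd (nat_lit 858) (nat_lit 152) (nat_lit 0) (XT.nd (nat_lit 390) (nat_lit 228) (nat_lit 0) (XT.nd (nat_lit 156) (nat_lit 0) (nat_lit 0) (XT.nd (nat_lit 78) (nat_lit 152) (nat_lit 0) (XT.lf (nat_lit 0) (nat_lit 17113675567) (nat_lit 152) (nat_lit 66176988416) (nat_lit 76) (nat_lit 136229352949) (nat_lit 10) (nat_lit 5) (nat_lit 12) (nat_lit 5) (nat_lit 11) (nat_lit 5) (nat_lit 301) (nat_lit 275) (nat_lit 144)) (XT.lf (nat_lit 0) (nat_lit 1766758036) (nat_lit 152) (nat_lit 39930085933) (nat_lit 228) (nat_lit 191423010923) (nat_lit 8) (nat_lit 5) (nat_lit 10) (nat_lit 5) (nat_lit 11) (nat_lit 5) (nat_lit 302) (nat_lit 275) (nat_lit 143))) (XT.nd (nat_lit 78) (nat_lit 0) (nat_lit 0) (XT.lf (nat_lit 0) (nat_lit 70268688856) (nat_lit 228) (nat_lit 168966779479) (nat_lit 76) (nat_lit 8410451131) (nat_lit 8) (nat_lit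 5) (nat_lit 11) (nat_lit 5) (nat_lit 9) (nat_lit 4) (nat_lit 303) (nat_lit 275) (nat_lit 142)) (XT.nd (nat_lit 78) (nat_lit 0) (nat_lit 0) (XT.lf (nat_lit 0) (nat_lit 102163148936) (nat_lit 228) (nat_lit 102627139668) (nat_lit 76) (nat_lit 58460832502) (nat_lit 8) (nat_lit 5) (nat_lit 11) (nat_lit 5) (nat_lit 9) (nat_lit 4) (nat_lit 304) (nat_lit 275) (nat_lit 141)) (XT.lf (nat_lit 0) (nat_lit 136608908891) (nat_lit 228) (nat_lit 30980734106) (nat_lit 76) (nat_lit 112515117650) (nat_lit 8) (nat_lit 5) (nat_lit 11) (nat_lit 5) (nat_lit 9) (nat_lit 4) (nat_lit 305) (nat_lit 275) (nat_lit 140))))) (XT.nd (nat_lit 234) (nat_lit 152) (nat_lit 0) (XT.nd (nat_lit 78) (nat_lit 0) (nat_lit 0) (XT.lf (nat_lit 0) (nat_lit 48840192745) (nat_lit 76) (nat_lit 126144506808) (nat_lit 152) (nat_lit 123228043327) (nat_lit 7) (nat_lit 5) (nat_lit 8) (nat_lit 5) (nat_lit 9) (nat_lit 4) (nat_lit 306) (nat_lit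 275) (nat_lit 139)) (XT.nd (nat_lit 78) (nat_lit 0) (nat_lit 0) (XT.lf (nat_lit 0) (nat_lit 136808329648) (nat_lit 76) (nat_lit 80469062916) (nat_lit 152) (nat_lit 100424225040) (nat_lit 7) (nat_lit 5) (nat_lit 8) (nat_lit 5) (nat_lit 9) (nat_lit 4) (nat_lit 307) (nat_lit 275) (nat_lit 138)) (XT.lf (nat_lit 0) (nat_lit 231813578709) (nat_lit 76) (nat_lit 31139710199) (nat_lit 152) (nat_lit 75796331331) (nat_lit 7) (nat_lit 5) (nat_lit 8) (nat_lit 5) (nat_lit 9) (nat_lit 4) (nat_lit 308) (nat_lit 275) (nat_lit 137)))) (XT.nd (nat_lit 78) (nat_lit 152) (nat_lit 0) (XT.lf (nat_lit 0) (nat_lit 312815428852) (nat_lit 152) (nat_lit 27594913979) (nat_lit 0) (nat_lit 21028547394) (nat_lit 7) (nat_lit 5) (nat_lit 9) (nat_lit 4) (nat_lit 7) (nat_lit 4) (nat_lit 309) (nat_lit 275) (nat_lit 136)) (XT.nd (nat_lit 78) (nat_lit 76) (nat_lit 0) (XT.lf (nat_lit 0) (nat_lit 60300870683) (nat_lit 76)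 (nat_lit 308624545879) (nat_lit 76) (nat_lit 16837175948) (nat_lit 6) (nat_lit 4) (nat_lit 7) (nat_lit 5) (nat_lit 7) (nat_lit 4) (nat_lit 310) (nat_lit 275) (nat_lit 135)) (XT.lf (nat_lit 0) (nat_lit 17390898853) (nat_lit 152) (nat_lit 255614752605) (nat_lit 76) (nat_lit 138930972935) (nat_lit 5) (nat_lit 5) (nat_lit 7) (nat_lit 5) (nat_lit 6) (nat_lit 4) (nat_lit 311) (nat_lit 275) (nat_lit 134)))))) (XT.nd (nat_lit 468) (nat_lit 76) (nat_lit 0) (XT.nd (nat_lit 234) (nat_lit 76) (nat_lit 0) (XT.nd (nat_lit 78) (nat_lit 0) (nat_lit 0) (XT.lf (nat_lit 0) (nat_lit 53447405130) (nat_lit 152) (nat_lit 180617638334) (nat_lit 76) (nat_lit 206104563251) (nat_lit 5) (nat_lit 5) (nat_lit 7) (nat_lit 5) (nat_lit 6) (nat_lit 4) (nat_lit 312) (nat_lit 275) (nat_lit 133)) (XT.nd (nat_lit 78) (nat_lit 0) (nat_lit 0) (XT.lf (nat_lit 0) (nat_lit 92388274800) (nat_lit 152) (nat_lit 99621017184) (nat_lit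 76) (nat_lit 278651948815) (nat_lit 5) (nat_lit 5) (nat_lit 7) (nat_lit 5) (nat_lit 6) (nat_lit 4) (nat_lit 313) (nat_lit 275) (nat_lit 132)) (XT.lf (nat_lit 0) (nat_lit 134444268573) (nat_lit 152) (nat_lit 12144909179) (nat_lit 76) (nat_lit 357003040059) (nat_lit 5) (nat_lit 5) (nat_lit 7) (nat_lit 5) (nat_lit 6) (nat_lit 4) (nat_lit 314) (nat_lit 275) (nat_lit 131)))) (XT.nd (nat_lit 78) (nat_lit 0) (nat_lit 0) (XT.lf (nat_lit 0) (nat_lit 86664365155) (nat_lit 76) (nat_lit 95284522062) (nat_lit 152) (nat_lit 357042054657) (nat_lit 4) (nat_lit 5) (nat_lit 5) (nat_lit 5) (nat_lit 6) (nat_lit 4) (nat_lit 315) (nat_lit 275) (nat_lit 130)) (XT.nd (nat_lit 78) (nat_lit 0) (nat_lit 0) (XT.lf (nat_lit 0) (nat_lit 194068854027) (nat_lit 76) (nat_lit 39516954677) (nat_lit 152) (nat_lit 343609200972) (nat_lit 4) (nat_lit 5) (nat_lit 5) (nat_lit 5) (nat_lit 6) (nat_lit 4) (nat_lit 316) (nat_lit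 275) (nat_lit 129)) (XT.lf (nat_lit 0) (nat_lit 289851686098) (nat_lit 152) (nat_lit 308888036437) (nat_lit 0) (nat_lit 19675840637) (nat_lit 4) (nat_lit 5) (nat_lit 6) (nat_lit 4) (nat_lit 4) (nat_lit 4) (nat_lit 317) (nat_lit 275) (nat_lit 128))))) (XT.nd (nat_lit 234) (nat_lit 76) (nat_lit 0) (XT.nd (nat_lit 78) (nat_lit 0) (nat_lit 0) (XT.lf (nat_lit 0) (nat_lit 351645134807) (nat_lit 152) (nat_lit 229737477477) (nat_lit 0) (nat_lit 81469044989) (nat_lit 4) (nat_lit 5) (nat_lit 6) (nat_lit 4) (nat_lit 4) (nat_lit 4) (nat_lit 318) (nat_lit 275) (nat_lit 127)) (XT.nd (nat_lit 78) (nat_lit 0) (nat_lit 0) (XT.lf (nat_lit 0) (nat_lit 418381954521) (nat_lit 152) (nat_lit 144255054708) (nat_lit 0) (nat_lit 148205638445) (nat_lit 4) (nat_lit 5) (nat_lit 6) (nat_lit 4) (nat_lit 4) (nat_lit 4) (nat_lit 319) (nat_lit 275) (nat_lit 126)) (XT.lf (nat_lit 0) (nat_lit 490457622689) (nat_lit 152)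 (nat_lit 51934205625) (nat_lit 0) (nat_lit 220281097117) (nat_lit 4) (nat_lit 5) (nat_lit 6) (nat_lit 4) (nat_lit 4) (nat_lit 4) (nat_lit 320) (nat_lit 275) (nat_lit 125)))) (XT.nd (nat_lit 78) (nat_lit 0) (nat_lit 0) (XT.lf (nat_lit 0) (nat_lit 50287753373) (nat_lit 76) (nat_lit 519220922688) (nat_lit 76) (nat_lit 249044203136) (nat_lit 3) (nat_lit 4) (nat_lit 4) (nat_lit 5) (nat_lit 4) (nat_lit 4) (nat_lit 321) (nat_lit 275) (nat_lit 124)) (XT.nd (nat_lit 78) (nat_lit 0) (nat_lit 0) (XT.lf (nat_lit 0) (nat_lit 163640862212) (nat_lit 76) (nat_lit 492662837807) (nat_lit 76) (nat_lit 222485938645) (nat_lit 3) (nat_lit 4) (nat_lit 4) (nat_lit 5) (nat_lit 4) (nat_lit 4) (nat_lit 322) (nat_lit 275) (nat_lit 123)) (XT.lf (nat_lit 0) (nat_lit 286062079782) (nat_lit 76) (nat_lit 463980165645) (nat_lit 76) (nat_lit 193803100178) (nat_lit 3) (nat_lit 4) (nat_lit 4) (nat_lit 5) (nat_lit 4) (nat_lit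 4) (nat_lit 323) (nat_lit 275) (nat_lit 122))))))) (XT.nd (nat_lit 34320) (nat_lit 0) (nat_lit 988) (XT.nd (nat_lit 33852) (nat_lit 0) (nat_lit 1824) (XT.nd (nat_lit 156) (nat_lit 0) (nat_lit 0) (XT.nd (nat_lit 78) (nat_lit 0) (nat_lit 0) (XT.lf (nat_lit 0) (nat_lit 418276865151) (nat_lit 76) (nat_lit 433002934813) (nat_lit 76) (nat_lit 162825715358) (nat_lit 3) (nat_lit 4) (nat_lit 4) (nat_lit 5) (nat_lit 4) (nat_lit 4) (nat_lit 324) (nat_lit 275) (nat_lit 121)) (XT.lf (nat_lit 0) (nat_lit 561068713344) (nat_lit 76) (nat_lit 399547576534) (nat_lit 76) (nat_lit 129370214499) (nat_lit 3) (nat_lit 4) (nat_lit 4) (nat_lit 5) (nat_lit 4) (nat_lit 4) (nat_lit 325) (nat_lit 275) (nat_lit 120))) (XT.nd (nat_lit 78) (nat_lit 0) (nat_lit 0) (XT.lf (nat_lit 0) (nat_lit 715283798275) (nat_lit 76) (nat_lit 363415836834) (nat_lit 76) (nat_lit 93238342780) (nat_lit 3) (nat_lit 4) (nat_lit 4) (nat_lit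 5) (nat_lit 4) (nat_lit 4) (nat_lit 326) (nat_lit 275) (nat_lit 119)) (XT.nd (nat_lit 33540) (nat_lit 0) (nat_lit 1824) (XT.lf (nat_lit 0) (nat_lit 881835987115) (nat_lit 76) (nat_lit 324393601699) (nat_lit 76) (nat_lit 54215985406) (nat_lit 3) (nat_lit 4) (nat_lit 4) (nat_lit 5) (nat_lit 4) (nat_lit 4) (nat_lit 327) (nat_lit 275) (nat_lit 118)) (XT.lf (nat_lit 0) (nat_lit 2701845719) (nat_lit 532) (nat_lit 15111313703) (nat_lit 532) (nat_lit 15111313703) (nat_lit 27) (nat_lit 3) (nat_lit 34) (nat_lit 3) (nat_lit 34) (nat_lit 5) (nat_lit 276) (nat_lit 276) (nat_lit 168))))) (XT.nd (nat_lit 234) (nat_lit 0) (nat_lit 152) (XT.nd (nat_lit 78) (nat_lit 0) (nat_lit 76) (XT.lf (nat_lit 0) (nat_lit 5632905347) (nat_lit 532) (nat_lit 4210142523) (nat_lit 532) (nat_lit 58638706310) (nat_lit 27) (nat_lit 3) (nat_lit 34) (nat_lit 3) (nat_lit 34) (nat_lit 5) (nat_lit 277) (nat_lit 276) (nat_lit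 167)) (XT.nd (nat_lit 78) (nat_lit 0) (nat_lit 0) (XT.lf (nat_lit 0) (nat_lit 6932461316) (nat_lit 456) (nat_lit 46585373596) (nat_lit 532) (nat_lit 17723201906) (nat_lit 28) (nat_lit 5) (nat_lit 34) (nat_lit 5) (nat_lit 35) (nat_lit 5) (nat_lit 278) (nat_lit 276) (nat_lit 166)) (XT.lf (nat_lit 0) (nat_lit 8708533794) (nat_lit 456) (nat_lit 18401152451) (nat_lit 532) (nat_lit 47081581350) (nat_lit 28) (nat_lit 5) (nat_lit 34) (nat_lit 5) (nat_lit 35) (nat_lit 5) (nat_lit 279) (nat_lit 276) (nat_lit 165)))) (XT.nd (nat_lit 78) (nat_lit 0) (nat_lit 0) (XT.lf (nat_lit 0) (nat_lit 10972164738) (nat_lit 456) (nat_lit 64724195677) (nat_lit 532) (nat_lit 1653527580) (nat_lit 29) (nat_lit 5) (nat_lit 35) (nat_lit 5) (nat_lit 36) (nat_lit 5) (nat_lit 280) (nat_lit 276) (nat_lit 164)) (XT.nd (nat_lit 78) (nat_lit 0) (nat_lit 0) (XT.lf (nat_lit 0) (nat_lit 14636171134) (nat_lit 456) (nat_lit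 34257824937) (nat_lit 532) (nat_lit 31769667466) (nat_lit 29) (nat_lit 5) (nat_lit 35) (nat_lit 5) (nat_lit 36) (nat_lit 5) (nat_lit 281) (nat_lit 276) (nat_lit 163)) (XT.lf (nat_lit 0) (nat_lit 18592324996) (nat_lit 456) (nat_lit 1354917951) (nat_lit 532) (nat_lit 64295383713) (nat_lit 29) (nat_lit 5) (nat_lit 35) (nat_lit 5) (nat_lit 36) (nat_lit 5) (nat_lit 282) (nat_lit 276) (nat_lit 162)))))) (XT.nd (nat_lit 468) (nat_lit 380) (nat_lit 0) (XT.nd (nat_lit 234) (nat_lit 228) (nat_lit 0) (XT.nd (nat_lit 78) (nat_lit 456) (nat_lit 0) (XT.lf (nat_lit 0) (nat_lit 24023986052) (nat_lit 456) (nat_lit 52354035978) (nat_lit 76) (nat_lit 11637170735) (nat_lit 30) (nat_lit 5) (nat_lit 36) (nat_lit 5) (nat_lit 31) (nat_lit 5) (nat_lit 283) (nat_lit 276) (nat_lit 161)) (XT.nd (nat_lit 78) (nat_lit 456) (nat_lit 0) (XT.lf (nat_lit 0) (nat_lit 30445450949) (nat_lit 456) (nat_lit 16890876388)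 (nat_lit 76) (nat_lit 44708821742) (nat_lit 30) (nat_lit 5) (nat_lit 36) (nat_lit 5) (nat_lit 31) (nat_lit 5) (nat_lit 284) (nat_lit 276) (nat_lit 160)) (XT.lf (nat_lit 0) (nat_lit 22535956965) (nat_lit 456) (nat_lit 15385881809) (nat_lit 532) (nat_lit 58432372771) (nat_lit 24) (nat_lit 5) (nat_lit 30) (nat_lit 5) (nat_lit 31) (nat_lit 5) (nat_lit 285) (nat_lit 276) (nat_lit 159)))) (XT.nd (nat_lit 78) (nat_lit 228) (nat_lit 0) (XT.lf (nat_lit 0) (nat_lit 46929268208) (nat_lit 532) (nat_lit 35366129955) (nat_lit 76) (nat_lit 18637972055) (nat_lit 24) (nat_lit 5) (nat_lit 31) (nat_lit 5) (nat_lit 25) (nat_lit 5) (nat_lit 286) (nat_lit 276) (nat_lit 158)) (XT.nd (nat_lit 78) (nat_lit 0) (nat_lit 0) (XT.lf (nat_lit 0) (nat_lit 6065228658) (nat_lit 228) (nat_lit 51136878230) (nat_lit 304) (nat_lit 48633174740) (nat_lit 21) (nat_lit 5) (nat_lit 24) (nat_lit 5) (nat_lit 25) (nat_lit 5) (nat_lit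 287) (nat_lit 276) (nat_lit 157)) (XT.lf (nat_lit 0) (nat_lit 52821707093) (nat_lit 228) (nat_lit 16441385210) (nat_lit 304) (nat_lit 41788952926) (nat_lit 21) (nat_lit 5) (nat_lit 24) (nat_lit 5) (nat_lit 25) (nat_lit 5) (nat_lit 288) (nat_lit 276) (nat_lit 156))))) (XT.nd (nat_lit 234) (nat_lit 228) (nat_lit 0) (XT.nd (nat_lit 78) (nat_lit 152) (nat_lit 0) (XT.lf (nat_lit 0) (nat_lit 82794116955) (nat_lit 304) (nat_lit 13873904792) (nat_lit 76) (nat_lit 19977719828) (nat_lit 21) (nat_lit 5) (nat_lit 25) (nat_lit 5) (nat_lit 22) (nat_lit 5) (nat_lit 289) (nat_lit 276) (nat_lit 155)) (XT.nd (nat_lit 78) (nat_lit 0) (nat_lit 0) (XT.lf (nat_lit 0) (nat_lit 35372845828) (nat_lit 152) (nat_lit 63311983840) (nat_lit 228) (nat_lit 23899931630) (nat_lit 19) (nat_lit 5) (nat_lit 21) (nat_lit 5) (nat_lit 22) (nat_lit 5) (nat_lit 290) (nat_lit 276) (nat_lit 154)) (XT.lf (nat_lit 0) (nat_lit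 89347732563) (nat_lit 152) (nat_lit 26877869804) (nat_lit 228) (nat_lit 12742999842) (nat_lit 19) (nat_lit 5) (nat_lit 21) (nat_lit 5) (nat_lit 22) (nat_lit 5) (nat_lit 291) (nat_lit 276) (nat_lit 153)))) (XT.nd (nat_lit 78) (nat_lit 76) (nat_lit 0) (XT.lf (nat_lit 0) (nat_lit 12081266523) (nat_lit 152) (nat_lit 123678355685) (nat_lit 228) (nat_lit 56332923) (nat_lit 17) (nat_lit 5) (nat_lit 19) (nat_lit 5) (nat_lit 20) (nat_lit 5) (nat_lit 292) (nat_lit 276) (nat_lit 152)) (XT.nd (nat_lit 78) (nat_lit 0) (nat_lit 0) (XT.lf (nat_lit 0) (nat_lit 14771755042) (nat_lit 228) (nat_lit 74006650779) (nat_lit 76) (nat_lit 54261713662) (nat_lit 16) (nat_lit 5) (nat_lit 19) (nat_lit 5) (nat_lit 17) (nat_lit 5) (nat_lit 293) (nat_lit 276) (nat_lit 151)) (XT.lf (nat_lit 0) (nat_lit 30782593055) (nat_lit 228) (nat_lit 20302419359) (nat_lit 76) (nat_lit 99757126627) (nat_lit 16) (nat_lit 5) (nat_lit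 19) (nat_lit 5) (nat_lit 17) (nat_lit 5) (nat_lit 294) (nat_lit 276) (nat_lit 150))))))))
noncomputable def xc108 : XT := (XT.nd (nat_lit 1794) (nat_lit 76) (nat_lit 0) (XT.nd (nat_lit 858) (nat_lit 304) (nat_lit 0) (XT.nd (nat_lit 390) (nat_lit 304) (nat_lit 0) (XT.nd (nat_lit 156) (nat_lit 152) (nat_lit 0) (XT.nd (nat_lit 78) (nat_lit 0) (nat_lit 0) (XT.lf (nat_lit 0) (nat_lit 39682696975) (nat_lit 152) (nat_lit 9345550994) (nat_lit 228) (nat_lit 110163758824) (nat_lit 14) (nat_lit 5) (nat_lit 16) (nat_lit 5) (nat_lit 17) (nat_lit 5) (nat_lit 295) (nat_lit 276) (nat_lit 149)) (XT.lf (nat_lit 0) (nat_lit 70162054183) (nat_lit 228) (nat_lit 63418576419) (nat_lit 76) (nat_lit 34514955877) (nat_lit 14) (nat_lit 5) (nat_lit 17) (nat_lit 5) (nat_lit 15) (nat_lit 5) (nat_lit 296) (nat_lit 276) (nat_lit 148))) (XT.nd (nat_lit 78) (nat_lit 152) (nat_lit 0) (XT.lf (nat_lit 0) (nat_lit 93228931813)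 (nat_lit 228) (nat_lit 3083844969) (nat_lit 76) (nat_lit 81379288649) (nat_lit 14) (nat_lit 5) (nat_lit 17) (nat_lit 5) (nat_lit 15) (nat_lit 5) (nat_lit 297) (nat_lit 276) (nat_lit 147)) (XT.nd (nat_lit 78) (nat_lit 0) (nat_lit 0) (XT.lf (nat_lit 0) (nat_lit 65346058926) (nat_lit 152) (nat_lit 54366328104) (nat_lit 228) (nat_lit 68218179559) (nat_lit 12) (nat_lit 5) (nat_lit 14) (nat_lit 5) (nat_lit 15) (nat_lit 5) (nat_lit 298) (nat_lit 276) (nat_lit 146)) (XT.lf (nat_lit 0) (nat_lit 139425267707) (nat_lit 152) (nat_lit 8973236264) (nat_lit 228) (nat_lit 50582926969) (nat_lit 12) (nat_lit 5) (nat_lit 14) (nat_lit 5) (nat_lit 15) (nat_lit 5) (nat_lit 299) (nat_lit 276) (nat_lit 145))))) (XT.nd (nat_lit 234) (nat_lit 152) (nat_lit 0) (XT.nd (nat_lit 78) (nat_lit 76) (nat_lit 0) (XT.lf (nat_lit 0) (nat_lit 7948366317) (nat_lit 76) (nat_lit 172585226272) (nat_lit 152) (nat_lit 30290447048)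 (nat_lit 11) (nat_lit 5) (nat_lit 12) (nat_lit 5) (nat_lit 13) (nat_lit 4) (nat_lit 300) (nat_lit 276) (nat_lit 144)) (XT.nd (nat_lit 78) (nat_lit 76) (nat_lit 0) (XT.lf (nat_lit 0) (nat_lit 83994480289) (nat_lit 76) (nat_lit 133100251024) (nat_lit 152) (nat_lit 6370907924) (nat_lit 11) (nat_lit 5) (nat_lit 12) (nat_lit 5) (nat_lit 13) (nat_lit 4) (nat_lit 301) (nat_lit 276) (nat_lit 143)) (XT.lf (nat_lit 0) (nat_lit 18488331463) (nat_lit 152) (nat_lit 71462778631) (nat_lit 76) (nat_lit 147130035636) (nat_lit 10) (nat_lit 5) (nat_lit 12) (nat_lit 5) (nat_lit 11) (nat_lit 5) (nat_lit 302) (nat_lit 276) (nat_lit 142)))) (XT.nd (nat_lit 78) (nat_lit 0) (nat_lit 0) (XT.lf (nat_lit 0) (nat_lit 1916255668) (nat_lit 152) (nat_lit 43121681857) (nat_lit 228) (nat_lit 206731052513) (nat_lit 8) (nat_lit 5) (nat_lit 10) (nat_lit 5) (nat_lit 11) (nat_lit 5) (nat_lit 303) (nat_lit 276) (nat_lit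 141)) (XT.nd (nat_lit 78) (nat_lit 0) (nat_lit 0) (XT.lf (nat_lit 0) (nat_lit 75895196595) (nat_lit 228) (nat_lit 182476211994) (nat_lit 76) (nat_lit 9085759754) (nat_lit 8) (nat_lit 5) (nat_lit 11) (nat_lit 5) (nat_lit 9) (nat_lit 4) (nat_lit 304) (nat_lit 276) (nat_lit 140)) (XT.lf (nat_lit 0) (nat_lit 110340842175) (nat_lit 228) (nat_lit 110829986912) (nat_lit 76) (nat_lit 63139988485) (nat_lit 8) (nat_lit 5) (nat_lit 11) (nat_lit 5) (nat_lit 9) (nat_lit 4) (nat_lit 305) (nat_lit 276) (nat_lit 139)))))) (XT.nd (nat_lit 468) (nat_lit 152) (nat_lit 0) (XT.nd (nat_lit 234) (nat_lit 76) (nat_lit 0) (XT.nd (nat_lit 78) (nat_lit 76) (nat_lit 0) (XT.lf (nat_lit 0) (nat_lit 147541919125) (nat_lit 228) (nat_lit 33452411418) (nat_lit 76) (nat_lit 121518446861) (nat_lit 8) (nat_lit 5) (nat_lit 11) (nat_lit 5) (nat_lit 9) (nat_lit 4) (nat_lit 306) (nat_lit 276) (nat_lit 138)) (XT.nd (nat_lit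 78) (nat_lit 0) (nat_lit 0) (XT.lf (nat_lit 0) (nat_lit 52754017900) (nat_lit 76) (nat_lit 136233595769) (nat_lit 152) (nat_lit 133081798799) (nat_lit 7) (nat_lit 5) (nat_lit 8) (nat_lit 5) (nat_lit 9) (nat_lit 4) (nat_lit 307) (nat_lit 276) (nat_lit 137)) (XT.lf (nat_lit 0) (nat_lit 147759116145) (nat_lit 76) (nat_lit 86904299447) (nat_lit 152) (nat_lit 108454007494) (nat_lit 7) (nat_lit 5) (nat_lit 8) (nat_lit 5) (nat_lit 9) (nat_lit 4) (nat_lit 308) (nat_lit 276) (nat_lit 136)))) (XT.nd (nat_lit 78) (nat_lit 76) (nat_lit 0) (XT.lf (nat_lit 0) (nat_lit 250364331788) (nat_lit 76) (nat_lit 33628768031) (nat_lit 152) (nat_lit 81856190106) (nat_lit 7) (nat_lit 5) (nat_lit 8) (nat_lit 5) (nat_lit 9) (nat_lit 4) (nat_lit 309) (nat_lit 276) (nat_lit 135)) (XT.nd (nat_lit 78) (nat_lit 76) (nat_lit 0) (XT.lf (nat_lit 0) (nat_lit 337843995345) (nat_lit 152) (nat_lit 29797029547) (nat_lit 0)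 (nat_lit 22712695059) (nat_lit 7) (nat_lit 5) (nat_lit 9) (nat_lit 4) (nat_lit 7) (nat_lit 4) (nat_lit 310) (nat_lit 276) (nat_lit 134)) (XT.lf (nat_lit 0) (nat_lit 65130279215) (nat_lit 76) (nat_lit 333312384428) (nat_lit 76) (nat_lit 18180665355) (nat_lit 6) (nat_lit 4) (nat_lit 7) (nat_lit 5) (nat_lit 7) (nat_lit 4) (nat_lit 311) (nat_lit 276) (nat_lit 133))))) (XT.nd (nat_lit 234) (nat_lit 76) (nat_lit 0) (XT.nd (nat_lit 78) (nat_lit 0) (nat_lit 0) (XT.lf (nat_lit 0) (nat_lit 18785235901) (nat_lit 152) (nat_lit 276058816162) (nat_lit 76) (nat_lit 150047245228) (nat_lit 5) (nat_lit 5) (nat_lit 7) (nat_lit 5) (nat_lit 6) (nat_lit 4) (nat_lit 312) (nat_lit 276) (nat_lit 132)) (XT.nd (nat_lit 78) (nat_lit 0) (nat_lit 0) (XT.lf (nat_lit 0) (nat_lit 57726035633) (nat_lit 152) (nat_lit 195062311761) (nat_lit 76) (nat_lit 222594589847) (nat_lit 5) (nat_lit 5) (nat_lit 7) (nat_lit 5) (nat_lit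 6) (nat_lit 4) (nat_lit 313) (nat_lit 276) (nat_lit 131)) (XT.lf (nat_lit 0) (nat_lit 99781964648) (nat_lit 152) (nat_lit 107586311855) (nat_lit 76) (nat_lit 300945643180) (nat_lit 5) (nat_lit 5) (nat_lit 7) (nat_lit 5) (nat_lit 6) (nat_lit 4) (nat_lit 314) (nat_lit 276) (nat_lit 130)))) (XT.nd (nat_lit 78) (nat_lit 76) (nat_lit 0) (XT.lf (nat_lit 0) (nat_lit 145202243266) (nat_lit 152) (nat_lit 13112440151) (nat_lit 76) (nat_lit 385564707763) (nat_lit 5) (nat_lit 5) (nat_lit 7) (nat_lit 5) (nat_lit 6) (nat_lit 4) (nat_lit 315) (nat_lit 276) (nat_lit 129)) (XT.nd (nat_lit 78) (nat_lit 0) (nat_lit 0) (XT.lf (nat_lit 0) (nat_lit 93601473301) (nat_lit 76) (nat_lit 102905673076) (nat_lit 152) (nat_lit 385602874289) (nat_lit 4) (nat_lit 5) (nat_lit 5) (nat_lit 5) (nat_lit 6) (nat_lit 4) (nat_lit 316) (nat_lit 276) (nat_lit 128)) (XT.lf (nat_lit 0) (nat_lit 209598028029) (nat_lit 76) (nat_lit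 42676819614) (nat_lit 152) (nat_lit 371095580809) (nat_lit 4) (nat_lit 5) (nat_lit 5) (nat_lit 5) (nat_lit 6) (nat_lit 4) (nat_lit 317) (nat_lit 276) (nat_lit 127))))))) (XT.nd (nat_lit 34398) (nat_lit 0) (nat_lit 1368) (XT.nd (nat_lit 390) (nat_lit 0) (nat_lit 0) (XT.nd (nat_lit 156) (nat_lit 76) (nat_lit 0) (XT.nd (nat_lit 78) (nat_lit 0) (nat_lit 0) (XT.lf (nat_lit 0) (nat_lit 313041867385) (nat_lit 152) (nat_lit 333595549900) (nat_lit 0) (nat_lit 21251219767) (nat_lit 4) (nat_lit 5) (nat_lit 6) (nat_lit 4) (nat_lit 4) (nat_lit 4) (nat_lit 318) (nat_lit 276) (nat_lit 126)) (XT.lf (nat_lit 0) (nat_lit 379778640406) (nat_lit 152) (nat_lit 248113207664) (nat_lit 0) (nat_lit 87987783290) (nat_lit 4) (nat_lit 5) (nat_lit 6) (nat_lit 4) (nat_lit 4) (nat_lit 4) (nat_lit 319) (nat_lit 276) (nat_lit 125))) (XT.nd (nat_lit 78) (nat_lit 76) (nat_lit 0) (XT.lf (nat_lit 0) (nat_lit 451854265340)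 (nat_lit 152) (nat_lit 155792433149) (nat_lit 0) (nat_lit 160063214245) (nat_lit 4) (nat_lit 5) (nat_lit 6) (nat_lit 4) (nat_lit 4) (nat_lit 4) (nat_lit 320) (nat_lit 276) (nat_lit 124)) (XT.nd (nat_lit 78) (nat_lit 76) (nat_lit 0) (XT.lf (nat_lit 0) (nat_lit 529695857002) (nat_lit 152) (nat_lit 56086140283) (nat_lit 0) (nat_lit 237904626297) (nat_lit 4) (nat_lit 5) (nat_lit 6) (nat_lit 4) (nat_lit 4) (nat_lit 4) (nat_lit 321) (nat_lit 276) (nat_lit 123)) (XT.lf (nat_lit 0) (nat_lit 54313504505) (nat_lit 76) (nat_lit 560757435484) (nat_lit 76) (nat_lit 268966038473) (nat_lit 3) (nat_lit 4) (nat_lit 4) (nat_lit 5) (nat_lit 4) (nat_lit 4) (nat_lit 322) (nat_lit 276) (nat_lit 122))))) (XT.nd (nat_lit 234) (nat_lit 0) (nat_lit 0) (XT.nd (nat_lit 78) (nat_lit 0) (nat_lit 0) (XT.lf (nat_lit 0) (nat_lit 176734659764) (nat_lit 76) (nat_lit 532074789814) (nat_lit 76) (nat_lit 240283238816)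 (nat_lit 3) (nat_lit 4) (nat_lit 4) (nat_lit 5) (nat_lit 4) (nat_lit 4) (nat_lit 323) (nat_lit 276) (nat_lit 121)) (XT.nd (nat_lit 78) (nat_lit 0) (nat_lit 0) (XT.lf (nat_lit 0) (nat_lit 308949387438) (nat_lit 76) (nat_lit 501097583510) (nat_lit 76) (nat_lit 209305889932) (nat_lit 3) (nat_lit 4) (nat_lit 4) (nat_lit 5) (nat_lit 4) (nat_lit 4) (nat_lit 324) (nat_lit 276) (nat_lit 120)) (XT.lf (nat_lit 0) (nat_lit 451741182209) (nat_lit 76) (nat_lit 467642247943) (nat_lit 76) (nat_lit 175850422346) (nat_lit 3) (nat_lit 4) (nat_lit 4) (nat_lit 5) (nat_lit 4) (nat_lit 4) (nat_lit 325) (nat_lit 276) (nat_lit 119)))) (XT.nd (nat_lit 78) (nat_lit 0) (nat_lit 0) (XT.lf (nat_lit 0) (nat_lit 605956217676) (nat_lit 76) (nat_lit 431510529273) (nat_lit 76) (nat_lit 139718581436) (nat_lit 3) (nat_lit 4) (nat_lit 4) (nat_lit 5) (nat_lit 4) (nat_lit 4) (nat_lit 326) (nat_lit 276) (nat_lit 118)) (XT.nd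 (nat_lit 33618) (nat_lit 0) (nat_lit 1824) (XT.lf (nat_lit 0) (nat_lit 772508360715) (nat_lit 76) (nat_lit 392488313610) (nat_lit 76) (nat_lit 100696252589) (nat_lit 3) (nat_lit 4) (nat_lit 4) (nat_lit 5) (nat_lit 4) (nat_lit 4) (nat_lit 327) (nat_lit 276) (nat_lit 117)) (XT.lf (nat_lit 0) (nat_lit 2930745385) (nat_lit 532) (nat_lit 16313281663) (nat_lit 532) (nat_lit 16313281663) (nat_lit 27) (nat_lit 3) (nat_lit 34) (nat_lit 3) (nat_lit 34) (nat_lit 5) (nat_lit 277) (nat_lit 277) (nat_lit 166)))))) (XT.nd (nat_lit 468) (nat_lit 456) (nat_lit 0) (XT.nd (nat_lit 234) (nat_lit 0) (nat_lit 152) (XT.nd (nat_lit 78) (nat_lit 0) (nat_lit 76) (XT.lf (nat_lit 0) (nat_lit 6107152605) (nat_lit 532) (nat_lit 4534107378) (nat_lit 532) (nat_lit 63316956267) (nat_lit 27) (nat_lit 3) (nat_lit 34) (nat_lit 3) (nat_lit 34) (nat_lit 5) (nat_lit 278) (nat_lit 277) (nat_lit 165)) (XT.nd (nat_lit 78)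 (nat_lit 0) (nat_lit 0) (XT.lf (nat_lit 0) (nat_lit 7508992971) (nat_lit 456) (nat_lit 50297501783) (nat_lit 532) (nat_lit 19131895157) (nat_lit 28) (nat_lit 5) (nat_lit 34) (nat_lit 5) (nat_lit 35) (nat_lit 5) (nat_lit 279) (nat_lit 277) (nat_lit 164)) (XT.lf (nat_lit 0) (nat_lit 9425526451) (nat_lit 456) (nat_lit 19859631961) (nat_lit 532) (nat_lit 50839623690) (nat_lit 28) (nat_lit 5) (nat_lit 34) (nat_lit 5) (nat_lit 35) (nat_lit 5) (nat_lit 280) (nat_lit 277) (nat_lit 163)))) (XT.nd (nat_lit 78) (nat_lit 0) (nat_lit 0) (XT.lf (nat_lit 0) (nat_lit 11868921676) (nat_lit 456) (nat_lit 69887042355) (nat_lit 532) (nat_lit 1780246206) (nat_lit 29) (nat_lit 5) (nat_lit 35) (nat_lit 5) (nat_lit 36) (nat_lit 5) (nat_lit 281) (nat_lit 277) (nat_lit 162)) (XT.nd (nat_lit 78) (nat_lit 0) (nat_lit 0) (XT.lf (nat_lit 0) (nat_lit 15824642380) (nat_lit 456) (nat_lit 36984479658) (nat_lit 532)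 (nat_lit 34306089400) (nat_lit 29) (nat_lit 5) (nat_lit 35) (nat_lit 5) (nat_lit 36) (nat_lit 5) (nat_lit 282) (nat_lit 277) (nat_lit 161)) (XT.lf (nat_lit 0) (nat_lit 20095986510) (nat_lit 456) (nat_lit 1450375022) (nat_lit 532) (nat_lit 69434244537) (nat_lit 29) (nat_lit 5) (nat_lit 35) (nat_lit 5) (nat_lit 36) (nat_lit 5) (nat_lit 283) (nat_lit 277) (nat_lit 160))))) (XT.nd (nat_lit 234) (nat_lit 228) (nat_lit 0) (XT.nd (nat_lit 78) (nat_lit 456) (nat_lit 0) (XT.lf (nat_lit 0) (nat_lit 25961211618) (nat_lit 456) (nat_lit 56528334508) (nat_lit 76) (nat_lit 12565518374) (nat_lit 30) (nat_lit 5) (nat_lit 36) (nat_lit 5) (nat_lit 31) (nat_lit 5) (nat_lit 284) (nat_lit 277) (nat_lit 159)) (XT.nd (nat_lit 78) (nat_lit 456) (nat_lit 0) (XT.lf (nat_lit 0) (nat_lit 32895259879) (nat_lit 456) (nat_lit 18229160991) (nat_lit 76) (nat_lit 48283095981) (nat_lit 30) (nat_lit 5) (nat_lit 36) (nat_lit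 5) (nat_lit 31) (nat_lit 5) (nat_lit 285) (nat_lit 277) (nat_lit 158)) (XT.lf (nat_lit 0) (nat_lit 24351490282) (nat_lit 456) (nat_lit 16617523002) (nat_lit 532) (nat_lit 63092358839) (nat_lit 24) (nat_lit 5) (nat_lit 30) (nat_lit 5) (nat_lit 31) (nat_lit 5) (nat_lit 286) (nat_lit 277) (nat_lit 157)))) (XT.nd (nat_lit 78) (nat_lit 228) (nat_lit 0) (XT.lf (nat_lit 0) (nat_lit 50696025289) (nat_lit 532) (nat_lit 38182594758) (nat_lit 76) (nat_lit 20128331952) (nat_lit 24) (nat_lit 5) (nat_lit 31) (nat_lit 5) (nat_lit 25) (nat_lit 5) (nat_lit 287) (nat_lit 277) (nat_lit 156)) (XT.nd (nat_lit 78) (nat_lit 0) (nat_lit 0) (XT.lf (nat_lit 0) (nat_lit 6562947845) (nat_lit 228) (nat_lit 55227124189) (nat_lit 304) (nat_lit 52511000817) (nat_lit 21) (nat_lit 5) (nat_lit 24) (nat_lit 5) (nat_lit 25) (nat_lit 5) (nat_lit 288) (nat_lit 277) (nat_lit 155)) (XT.lf (nat_lit 0) (nat_lit 57059018563)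 (nat_lit 228) (nat_lit 17756043898) (nat_lit 304) (nat_lit 45120191473) (nat_lit 21) (nat_lit 5) (nat_lit 24) (nat_lit 5) (nat_lit 25) (nat_lit 5) (nat_lit 289) (nat_lit 277) (nat_lit 154))))))))
noncomputable def xc109 : XT := (XT.nd (nat_lit 1794) (nat_lit 228) (nat_lit 0) (XT.nd (nat_lit 858) (nat_lit 456) (nat_lit 0) (XT.nd (nat_lit 390) (nat_lit 304) (nat_lit 0) (XT.nd (nat_lit 156) (nat_lit 228) (nat_lit 0) (XT.nd (nat_lit 78) (nat_lit 152) (nat_lit 0) (XT.lf (nat_lit 0) (nat_lit 89427774513) (nat_lit 304) (nat_lit 14972230015) (nat_lit 76) (nat_lit 21576511031) (nat_lit 21) (nat_lit 5) (nat_lit 25) (nat_lit 5) (nat_lit 22) (nat_lit 5) (nat_lit 290) (nat_lit 277) (nat_lit 153)) (XT.lf (nat_lit 0) (nat_lit 38213967309) (nat_lit 152) (nat_lit 68375298313) (nat_lit 228) (nat_lit 25801435090) (nat_lit 19) (nat_lit 5) (nat_lit 21) (nat_lit 5) (nat_lit 22) (nat_lit 5) (nat_lit 291)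 (nat_lit 277) (nat_lit 152))) (XT.nd (nat_lit 78) (nat_lit 228) (nat_lit 0) (XT.lf (nat_lit 0) (nat_lit 96506008403) (nat_lit 152) (nat_lit 29026576950) (nat_lit 228) (nat_lit 13752725876) (nat_lit 19) (nat_lit 5) (nat_lit 21) (nat_lit 5) (nat_lit 22) (nat_lit 5) (nat_lit 292) (nat_lit 277) (nat_lit 151)) (XT.nd (nat_lit 78) (nat_lit 76) (nat_lit 0) (XT.lf (nat_lit 0) (nat_lit 13058684084) (nat_lit 152) (nat_lit 133570277299) (nat_lit 228) (nat_lit 51525002) (nat_lit 17) (nat_lit 5) (nat_lit 19) (nat_lit 5) (nat_lit 20) (nat_lit 5) (nat_lit 293) (nat_lit 277) (nat_lit 150)) (XT.lf (nat_lit 0) (nat_lit 15961688597) (nat_lit 228) (nat_lit 79916592674) (nat_lit 76) (nat_lit 58604341217) (nat_lit 16) (nat_lit 5) (nat_lit 19) (nat_lit 5) (nat_lit 17) (nat_lit 5) (nat_lit 294) (nat_lit 277) (nat_lit 149))))) (XT.nd (nat_lit 234) (nat_lit 152) (nat_lit 0) (XT.nd (nat_lit 78) (nat_lit 152)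 (nat_lit 0) (XT.lf (nat_lit 0) (nat_lit 33252786750) (nat_lit 228) (nat_lit 21916807196) (nat_lit 76) (nat_lit 107739262000) (nat_lit 16) (nat_lit 5) (nat_lit 19) (nat_lit 5) (nat_lit 17) (nat_lit 5) (nat_lit 295) (nat_lit 277) (nat_lit 148)) (XT.nd (nat_lit 78) (nat_lit 0) (nat_lit 0) (XT.lf (nat_lit 0) (nat_lit 42866870198) (nat_lit 152) (nat_lit 10090891773) (nat_lit 228) (nat_lit 118968981221) (nat_lit 14) (nat_lit 5) (nat_lit 16) (nat_lit 5) (nat_lit 17) (nat_lit 5) (nat_lit 296) (nat_lit 277) (nat_lit 147)) (XT.lf (nat_lit 0) (nat_lit 75781786627) (nat_lit 228) (nat_lit 68482686407) (nat_lit 76) (nat_lit 37278178347) (nat_lit 14) (nat_lit 5) (nat_lit 17) (nat_lit 5) (nat_lit 15) (nat_lit 5) (nat_lit 297) (nat_lit 277) (nat_lit 146)))) (XT.nd (nat_lit 78) (nat_lit 152) (nat_lit 0) (XT.lf (nat_lit 0) (nat_lit 100693513126) (nat_lit 228) (nat_lit 3321870969) (nat_lit 76) (nat_lit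 87891507667) (nat_lit 14) (nat_lit 5) (nat_lit 17) (nat_lit 5) (nat_lit 15) (nat_lit 5) (nat_lit 298) (nat_lit 277) (nat_lit 145)) (XT.nd (nat_lit 78) (nat_lit 0) (nat_lit 0) (XT.lf (nat_lit 0) (nat_lit 70582205451) (nat_lit 152) (nat_lit 58713178612) (nat_lit 228) (nat_lit 73669112589) (nat_lit 12) (nat_lit 5) (nat_lit 14) (nat_lit 5) (nat_lit 15) (nat_lit 5) (nat_lit 299) (nat_lit 277) (nat_lit 144)) (XT.lf (nat_lit 0) (nat_lit 150587124133) (nat_lit 152) (nat_lit 9688821332) (nat_lit 228) (nat_lit 54623522853) (nat_lit 12) (nat_lit 5) (nat_lit 14) (nat_lit 5) (nat_lit 15) (nat_lit 5) (nat_lit 300) (nat_lit 277) (nat_lit 143)))))) (XT.nd (nat_lit 468) (nat_lit 152) (nat_lit 0) (XT.nd (nat_lit 234) (nat_lit 152) (nat_lit 0) (XT.nd (nat_lit 78) (nat_lit 76) (nat_lit 0) (XT.lf (nat_lit 0) (nat_lit 8592283994) (nat_lit 76) (nat_lit 186389389437) (nat_lit 152) (nat_lit 32707828084) (nat_lit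 11) (nat_lit 5) (nat_lit 12) (nat_lit 5) (nat_lit 13) (nat_lit 4) (nat_lit 301) (nat_lit 277) (nat_lit 142)) (XT.nd (nat_lit 78) (nat_lit 76) (nat_lit 0) (XT.lf (nat_lit 0) (nat_lit 90721490909) (nat_lit 76) (nat_lit 143745812831) (nat_lit 152) (nat_lit 6875159514) (nat_lit 11) (nat_lit 5) (nat_lit 12) (nat_lit 5) (nat_lit 13) (nat_lit 4) (nat_lit 302) (nat_lit 277) (nat_lit 141)) (XT.lf (nat_lit 0) (nat_lit 19972166370) (nat_lit 152) (nat_lit 77172625974) (nat_lit 76) (nat_lit 158902439902) (nat_lit 10) (nat_lit 5) (nat_lit 12) (nat_lit 5) (nat_lit 11) (nat_lit 5) (nat_lit 303) (nat_lit 277) (nat_lit 140)))) (XT.nd (nat_lit 78) (nat_lit 0) (nat_lit 0) (XT.lf (nat_lit 0) (nat_lit 2076549424) (nat_lit 152) (nat_lit 46569006468) (nat_lit 228) (nat_lit 223264564763) (nat_lit 8) (nat_lit 5) (nat_lit 10) (nat_lit 5) (nat_lit 11) (nat_lit 5) (nat_lit 304) (nat_lit 277) (nat_lit 139)) (XT.nd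 (nat_lit 78) (nat_lit 0) (nat_lit 0) (XT.lf (nat_lit 0) (nat_lit 81971109845) (nat_lit 228) (nat_lit 197067527537) (nat_lit 76) (nat_lit 9814740333) (nat_lit 8) (nat_lit 5) (nat_lit 11) (nat_lit 5) (nat_lit 9) (nat_lit 4) (nat_lit 305) (nat_lit 277) (nat_lit 138)) (XT.lf (nat_lit 0) (nat_lit 119172088737) (nat_lit 228) (nat_lit 119690106776) (nat_lit 76) (nat_lit 68193150341) (nat_lit 8) (nat_lit 5) (nat_lit 11) (nat_lit 5) (nat_lit 9) (nat_lit 4) (nat_lit 306) (nat_lit 277) (nat_lit 137))))) (XT.nd (nat_lit 234) (nat_lit 76) (nat_lit 0) (XT.nd (nat_lit 78) (nat_lit 76) (nat_lit 0) (XT.lf (nat_lit 0) (nat_lit 159348957088) (nat_lit 228) (nat_lit 36122790360) (nat_lit 76) (nat_lit 131241739995) (nat_lit 8) (nat_lit 5) (nat_lit 11) (nat_lit 5) (nat_lit 9) (nat_lit 4) (nat_lit 307) (nat_lit 277) (nat_lit 136)) (XT.nd (nat_lit 78) (nat_lit 0) (nat_lit 0) (XT.lf (nat_lit 0) (nat_lit 56980006114)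 (nat_lit 76) (nat_lit 147130164447) (nat_lit 152) (nat_lit 143724494972) (nat_lit 7) (nat_lit 5) (nat_lit 8) (nat_lit 5) (nat_lit 9) (nat_lit 4) (nat_lit 308) (nat_lit 277) (nat_lit 135)) (XT.lf (nat_lit 0) (nat_lit 159585092457) (nat_lit 76) (nat_lit 93854681380) (nat_lit 152) (nat_lit 117126765379) (nat_lit 7) (nat_lit 5) (nat_lit 8) (nat_lit 5) (nat_lit 9) (nat_lit 4) (nat_lit 309) (nat_lit 277) (nat_lit 134)))) (XT.nd (nat_lit 78) (nat_lit 76) (nat_lit 0) (XT.lf (nat_lit 0) (nat_lit 270398336684) (nat_lit 76) (nat_lit 36317252786) (nat_lit 152) (nat_lit 88401386505) (nat_lit 7) (nat_lit 5) (nat_lit 8) (nat_lit 5) (nat_lit 9) (nat_lit 4) (nat_lit 310) (nat_lit 277) (nat_lit 133)) (XT.nd (nat_lit 78) (nat_lit 76) (nat_lit 0) (XT.lf (nat_lit 0) (nat_lit 364874371785) (nat_lit 152) (nat_lit 32176095795) (nat_lit 0) (nat_lit 24531308635) (nat_lit 7) (nat_lit 5) (nat_lit 9) (nat_lit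 4) (nat_lit 7) (nat_lit 4) (nat_lit 311) (nat_lit 277) (nat_lit 132)) (XT.lf (nat_lit 0) (nat_lit 70345278780) (nat_lit 76) (nat_lit 359975553233) (nat_lit 76) (nat_lit 19632131042) (nat_lit 6) (nat_lit 4) (nat_lit 7) (nat_lit 5) (nat_lit 7) (nat_lit 4) (nat_lit 312) (nat_lit 277) (nat_lit 131))))))) (XT.nd (nat_lit 858) (nat_lit 0) (nat_lit 0) (XT.nd (nat_lit 390) (nat_lit 76) (nat_lit 0) (XT.nd (nat_lit 156) (nat_lit 76) (nat_lit 0) (XT.nd (nat_lit 78) (nat_lit 0) (nat_lit 0) (XT.lf (nat_lit 0) (nat_lit 20290682637) (nat_lit 152) (nat_lit 298139134751) (nat_lit 76) (nat_lit 162052563306) (nat_lit 5) (nat_lit 5) (nat_lit 7) (nat_lit 5) (nat_lit 6) (nat_lit 4) (nat_lit 313) (nat_lit 277) (nat_lit 130)) (XT.lf (nat_lit 0) (nat_lit 62346551691) (nat_lit 152) (nat_lit 210663234939) (nat_lit 76) (nat_lit 240403581535) (nat_lit 5) (nat_lit 5) (nat_lit 7) (nat_lit 5) (nat_lit 6) (nat_lit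 4) (nat_lit 314) (nat_lit 277) (nat_lit 129))) (XT.nd (nat_lit 78) (nat_lit 76) (nat_lit 0) (XT.lf (nat_lit 0) (nat_lit 107766774789) (nat_lit 152) (nat_lit 116189455913) (nat_lit 76) (nat_lit 325022613615) (nat_lit 5) (nat_lit 5) (nat_lit 7) (nat_lit 5) (nat_lit 6) (nat_lit 4) (nat_lit 315) (nat_lit 277) (nat_lit 128)) (XT.nd (nat_lit 78) (nat_lit 76) (nat_lit 0) (XT.lf (nat_lit 0) (nat_lit 156820508810) (nat_lit 152) (nat_lit 14157953056) (nat_lit 76) (nat_lit 416411105663) (nat_lit 5) (nat_lit 5) (nat_lit 7) (nat_lit 5) (nat_lit 6) (nat_lit 4) (nat_lit 316) (nat_lit 277) (nat_lit 127)) (XT.lf (nat_lit 0) (nat_lit 101092985312) (nat_lit 76) (nat_lit 111136745962) (nat_lit 152) (nat_lit 416448922528) (nat_lit 4) (nat_lit 5) (nat_lit 5) (nat_lit 5) (nat_lit 6) (nat_lit 4) (nat_lit 317) (nat_lit 277) (nat_lit 126))))) (XT.nd (nat_lit 234) (nat_lit 76) (nat_lit 0) (XT.nd (nat_lit 78)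 (nat_lit 0) (nat_lit 0) (XT.lf (nat_lit 0) (nat_lit 226369013000) (nat_lit 76) (nat_lit 46089686517) (nat_lit 152) (nat_lit 400781207177) (nat_lit 4) (nat_lit 5) (nat_lit 5) (nat_lit 5) (nat_lit 6) (nat_lit 4) (nat_lit 318) (nat_lit 277) (nat_lit 125)) (XT.nd (nat_lit 78) (nat_lit 0) (nat_lit 0) (XT.lf (nat_lit 0) (nat_lit 338086971234) (nat_lit 152) (nat_lit 360280167956) (nat_lit 0) (nat_lit 22952442073) (nat_lit 4) (nat_lit 5) (nat_lit 6) (nat_lit 4) (nat_lit 4) (nat_lit 4) (nat_lit 319) (nat_lit 277) (nat_lit 124)) (XT.lf (nat_lit 0) (nat_lit 410162556136) (nat_lit 152) (nat_lit 267959462484) (nat_lit 0) (nat_lit 95027847365) (nat_lit 4) (nat_lit 5) (nat_lit 6) (nat_lit 4) (nat_lit 4) (nat_lit 4) (nat_lit 320) (nat_lit 277) (nat_lit 123)))) (XT.nd (nat_lit 78) (nat_lit 76) (nat_lit 0) (XT.lf (nat_lit 0) (nat_lit 488004110732) (nat_lit 152) (nat_lit 168253233548) (nat_lit 0) (nat_lit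 172869235655) (nat_lit 4) (nat_lit 5) (nat_lit 6) (nat_lit 4) (nat_lit 4) (nat_lit 4) (nat_lit 321) (nat_lit 277) (nat_lit 122)) (XT.nd (nat_lit 78) (nat_lit 76) (nat_lit 0) (XT.lf (nat_lit 0) (nat_lit 572072918308) (nat_lit 152) (nat_lit 60570629420) (nat_lit 0) (nat_lit 256937889244) (nat_lit 4) (nat_lit 5) (nat_lit 6) (nat_lit 4) (nat_lit 4) (nat_lit 4) (nat_lit 322) (nat_lit 277) (nat_lit 121)) (XT.lf (nat_lit 0) (nat_lit 58660926138) (nat_lit 76) (nat_lit 605617034936) (nat_lit 76) (nat_lit 290481863291) (nat_lit 3) (nat_lit 4) (nat_lit 4) (nat_lit 5) (nat_lit 4) (nat_lit 4) (nat_lit 323) (nat_lit 277) (nat_lit 120)))))) (XT.nd (nat_lit 34086) (nat_lit 0) (nat_lit 1900) (XT.nd (nat_lit 234) (nat_lit 0) (nat_lit 0) (XT.nd (nat_lit 78) (nat_lit 0) (nat_lit 0) (XT.lf (nat_lit 0) (nat_lit 190875600391) (nat_lit 76) (nat_lit 574639851344) (nat_lit 76) (nat_lit 259504547681) (nat_lit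 3) (nat_lit 4) (nat_lit 4) (nat_lit 5) (nat_lit 4) (nat_lit 4) (nat_lit 324) (nat_lit 277) (nat_lit 119)) (XT.nd (nat_lit 78) (nat_lit 0) (nat_lit 0) (XT.lf (nat_lit 0) (nat_lit 333667345697) (nat_lit 76) (nat_lit 541184536807) (nat_lit 76) (nat_lit 226049110904) (nat_lit 3) (nat_lit 4) (nat_lit 4) (nat_lit 5) (nat_lit 4) (nat_lit 4) (nat_lit 325) (nat_lit 277) (nat_lit 118)) (XT.lf (nat_lit 0) (nat_lit 487882335364) (nat_lit 76) (nat_lit 505052837609) (nat_lit 76) (nat_lit 189917298521) (nat_lit 3) (nat_lit 4) (nat_lit 4) (nat_lit 5) (nat_lit 4) (nat_lit 4) (nat_lit 326) (nat_lit 277) (nat_lit 117)))) (XT.nd (nat_lit 33696) (nat_lit 0) (nat_lit 1824) (XT.lf (nat_lit 0) (nat_lit 654434435996) (nat_lit 76) (nat_lit 466030639976) (nat_lit 76) (nat_lit 150894996087) (nat_lit 3) (nat_lit 4) (nat_lit 4) (nat_lit 5) (nat_lit 4) (nat_lit 4) (nat_lit 327) (nat_lit 277) (nat_lit 116)) (XT.nd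 (nat_lit 78) (nat_lit 0) (nat_lit 0) (XT.lf (nat_lit 0) (nat_lit 3176137807) (nat_lit 532) (nat_lit 17612396721) (nat_lit 532) (nat_lit 17612396721) (nat_lit 27) (nat_lit 3) (nat_lit 34) (nat_lit 3) (nat_lit 34) (nat_lit 5) (nat_lit 278) (nat_lit 278) (nat_lit 164)) (XT.lf (nat_lit 0) (nat_lit 6615970725) (nat_lit 532) (nat_lit 4885822124) (nat_lit 532) (nat_lit 68371298925) (nat_lit 27) (nat_lit 3) (nat_lit 34) (nat_lit 3) (nat_lit 34) (nat_lit 5) (nat_lit 279) (nat_lit 278) (nat_lit 163))))) (XT.nd (nat_lit 234) (nat_lit 0) (nat_lit 76) (XT.nd (nat_lit 78) (nat_lit 0) (nat_lit 0) (XT.lf (nat_lit 0) (nat_lit 8128517921) (nat_lit 456) (nat_lit 54308697587) (nat_lit 532) (nat_lit 20654591059) (nat_lit 28) (nat_lit 5) (nat_lit 34) (nat_lit 5) (nat_lit 35) (nat_lit 5) (nat_lit 280) (nat_lit 278) (nat_lit 162)) (XT.nd (nat_lit 78) (nat_lit 0) (nat_lit 76) (XT.lf (nat_lit 0) (nat_lit 10196981078)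 (nat_lit 456) (nat_lit 21436731834) (nat_lit 532) (nat_lit 54899519779) (nat_lit 28) (nat_lit 5) (nat_lit 34) (nat_lit 5) (nat_lit 35) (nat_lit 5) (nat_lit 281) (nat_lit 278) (nat_lit 161)) (XT.lf (nat_lit 0) (nat_lit 12834710924) (nat_lit 456) (nat_lit 75465069378) (nat_lit 532) (nat_lit 1917896030) (nat_lit 29) (nat_lit 5) (nat_lit 35) (nat_lit 5) (nat_lit 36) (nat_lit 5) (nat_lit 282) (nat_lit 278) (nat_lit 160)))) (XT.nd (nat_lit 78) (nat_lit 0) (nat_lit 0) (XT.lf (nat_lit 0) (nat_lit 17105683691) (nat_lit 456) (nat_lit 39931259915) (nat_lit 532) (nat_lit 37046160002) (nat_lit 29) (nat_lit 5) (nat_lit 35) (nat_lit 5) (nat_lit 36) (nat_lit 5) (nat_lit 283) (nat_lit 278) (nat_lit 159)) (XT.nd (nat_lit 78) (nat_lit 0) (nat_lit 76) (XT.lf (nat_lit 0) (nat_lit 21717619061) (nat_lit 456) (nat_lit 1555314175) (nat_lit 532) (nat_lit 74984894702) (nat_lit 29) (nat_lit 5) (nat_lit 35) (nat_lit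 5) (nat_lit 36) (nat_lit 5) (nat_lit 284) (nat_lit 278) (nat_lit 158)) (XT.lf (nat_lit 0) (nat_lit 28051231560) (nat_lit 456) (nat_lit 61038577651) (nat_lit 76) (nat_lit 13568508455) (nat_lit 30) (nat_lit 5) (nat_lit 36) (nat_lit 5) (nat_lit 31) (nat_lit 5) (nat_lit 285) (nat_lit 278) (nat_lit 157))))))))
noncomputable def xc110 : XT := (XT.nd (nat_lit 1794) (nat_lit 380) (nat_lit 0) (XT.nd (nat_lit 858) (nat_lit 608) (nat_lit 0) (XT.nd (nat_lit 390) (nat_lit 380) (nat_lit 0) (XT.nd (nat_lit 156) (nat_lit 228) (nat_lit 0) (XT.nd (nat_lit 78) (nat_lit 456) (nat_lit 0) (XT.lf (nat_lit 0) (nat_lit 35539031607) (nat_lit 456) (nat_lit 19676360891) (nat_lit 76) (nat_lit 52143659040) (nat_lit 30) (nat_lit 5) (nat_lit 36) (nat_lit 5) (nat_lit 31) (nat_lit 5) (nat_lit 286) (nat_lit 278) (nat_lit 156)) (XT.lf (nat_lit 0) (nat_lit 26310460637) (nat_lit 456) (nat_lit 17947585548) (nat_lit 532)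 (nat_lit 68127227181) (nat_lit 24) (nat_lit 5) (nat_lit 30) (nat_lit 5) (nat_lit 31) (nat_lit 5) (nat_lit 287) (nat_lit 278) (nat_lit 155))) (XT.nd (nat_lit 78) (nat_lit 228) (nat_lit 0) (XT.lf (nat_lit 0) (nat_lit 54762351708) (nat_lit 532) (nat_lit 41226206461) (nat_lit 76) (nat_lit 21738017347) (nat_lit 24) (nat_lit 5) (nat_lit 31) (nat_lit 5) (nat_lit 25) (nat_lit 5) (nat_lit 288) (nat_lit 278) (nat_lit 154)) (XT.nd (nat_lit 78) (nat_lit 0) (nat_lit 0) (XT.lf (nat_lit 0) (nat_lit 7098701175) (nat_lit 228) (nat_lit 59644690302) (nat_lit 304) (nat_lit 56700883024) (nat_lit 21) (nat_lit 5) (nat_lit 24) (nat_lit 5) (nat_lit 25) (nat_lit 5) (nat_lit 289) (nat_lit 278) (nat_lit 153)) (XT.lf (nat_lit 0) (nat_lit 61633663661) (nat_lit 228) (nat_lit 19175968315) (nat_lit 304) (nat_lit 48719623588) (nat_lit 21) (nat_lit 5) (nat_lit 24) (nat_lit 5) (nat_lit 25) (nat_lit 5) (nat_lit 290) (nat_lit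 278) (nat_lit 152))))) (XT.nd (nat_lit 234) (nat_lit 228) (nat_lit 0) (XT.nd (nat_lit 78) (nat_lit 152) (nat_lit 0) (XT.lf (nat_lit 0) (nat_lit 96590679774) (nat_lit 304) (nat_lit 16160074295) (nat_lit 76) (nat_lit 23303123698) (nat_lit 21) (nat_lit 5) (nat_lit 25) (nat_lit 5) (nat_lit 22) (nat_lit 5) (nat_lit 291) (nat_lit 278) (nat_lit 151)) (XT.nd (nat_lit 78) (nat_lit 0) (nat_lit 0) (XT.lf (nat_lit 0) (nat_lit 41280767319) (nat_lit 152) (nat_lit 73843912513) (nat_lit 228) (nat_lit 27856555495) (nat_lit 19) (nat_lit 5) (nat_lit 21) (nat_lit 5) (nat_lit 22) (nat_lit 5) (nat_lit 292) (nat_lit 278) (nat_lit 150)) (XT.lf (nat_lit 0) (nat_lit 104235454469) (nat_lit 152) (nat_lit 31347397860) (nat_lit 228) (nat_lit 14844615796) (nat_lit 19) (nat_lit 5) (nat_lit 21) (nat_lit 5) (nat_lit 22) (nat_lit 5) (nat_lit 293) (nat_lit 278) (nat_lit 149)))) (XT.nd (nat_lit 78) (nat_lit 76) (nat_lit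 0) (XT.lf (nat_lit 0) (nat_lit 14112737726) (nat_lit 152) (nat_lit 144253887445) (nat_lit 228) (nat_lit 47661272) (nat_lit 17) (nat_lit 5) (nat_lit 19) (nat_lit 5) (nat_lit 20) (nat_lit 5) (nat_lit 294) (nat_lit 278) (nat_lit 148)) (XT.nd (nat_lit 78) (nat_lit 0) (nat_lit 0) (XT.lf (nat_lit 0) (nat_lit 17245647992) (nat_lit 228) (nat_lit 86300840726) (nat_lit 76) (nat_lit 63294137813) (nat_lit 16) (nat_lit 5) (nat_lit 19) (nat_lit 5) (nat_lit 17) (nat_lit 5) (nat_lit 295) (nat_lit 278) (nat_lit 147)) (XT.lf (nat_lit 0) (nat_lit 35919513678) (nat_lit 228) (nat_lit 23661744956) (nat_lit 76) (nat_lit 116359744904) (nat_lit 16) (nat_lit 5) (nat_lit 19) (nat_lit 5) (nat_lit 17) (nat_lit 5) (nat_lit 296) (nat_lit 278) (nat_lit 146)))))) (XT.nd (nat_lit 468) (nat_lit 228) (nat_lit 0) (XT.nd (nat_lit 234) (nat_lit 228) (nat_lit 0) (XT.nd (nat_lit 78) (nat_lit 0) (nat_lit 0) (XT.lf (nat_lit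 0) (nat_lit 46304413800) (nat_lit 152) (nat_lit 10896188405) (nat_lit 228) (nat_lit 128479745338) (nat_lit 14) (nat_lit 5) (nat_lit 16) (nat_lit 5) (nat_lit 17) (nat_lit 5) (nat_lit 297) (nat_lit 278) (nat_lit 145)) (XT.nd (nat_lit 78) (nat_lit 0) (nat_lit 0) (XT.lf (nat_lit 0) (nat_lit 81850132121) (nat_lit 228) (nat_lit 73953262804) (nat_lit 76) (nat_lit 40262169584) (nat_lit 14) (nat_lit 5) (nat_lit 17) (nat_lit 5) (nat_lit 15) (nat_lit 5) (nat_lit 298) (nat_lit 278) (nat_lit 144)) (XT.lf (nat_lit 0) (nat_lit 108754366920) (nat_lit 228) (nat_lit 3580177576) (nat_lit 76) (nat_lit 94924436585) (nat_lit 14) (nat_lit 5) (nat_lit 17) (nat_lit 5) (nat_lit 15) (nat_lit 5) (nat_lit 299) (nat_lit 278) (nat_lit 143)))) (XT.nd (nat_lit 78) (nat_lit 76) (nat_lit 0) (XT.lf (nat_lit 0) (nat_lit 76236036525) (nat_lit 152) (nat_lit 63408127499) (nat_lit 228) (nat_lit 79557050603) (nat_lit 12) (nat_lit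 5) (nat_lit 14) (nat_lit 5) (nat_lit 15) (nat_lit 5) (nat_lit 300) (nat_lit 278) (nat_lit 142)) (XT.nd (nat_lit 78) (nat_lit 76) (nat_lit 0) (XT.lf (nat_lit 0) (nat_lit 162640811322) (nat_lit 152) (nat_lit 10461977592) (nat_lit 228) (nat_lit 58988227836) (nat_lit 12) (nat_lit 5) (nat_lit 14) (nat_lit 5) (nat_lit 15) (nat_lit 5) (nat_lit 301) (nat_lit 278) (nat_lit 141)) (XT.lf (nat_lit 0) (nat_lit 9286566896) (nat_lit 76) (nat_lit 201298264412) (nat_lit 152) (nat_lit 35319434845) (nat_lit 11) (nat_lit 5) (nat_lit 12) (nat_lit 5) (nat_lit 13) (nat_lit 4) (nat_lit 302) (nat_lit 278) (nat_lit 140))))) (XT.nd (nat_lit 234) (nat_lit 0) (nat_lit 0) (XT.nd (nat_lit 78) (nat_lit 228) (nat_lit 0) (XT.lf (nat_lit 0) (nat_lit 97985599239) (nat_lit 76) (nat_lit 155243370284) (nat_lit 152) (nat_lit 7420524604) (nat_lit 11) (nat_lit 5) (nat_lit 12) (nat_lit 5) (nat_lit 13) (nat_lit 4) (nat_lit 303)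 (nat_lit 278) (nat_lit 139)) (XT.nd (nat_lit 78) (nat_lit 152) (nat_lit 0) (XT.lf (nat_lit 0) (nat_lit 21574027806) (nat_lit 152) (nat_lit 83340284692) (nat_lit 76) (nat_lit 171616350985) (nat_lit 10) (nat_lit 5) (nat_lit 12) (nat_lit 5) (nat_lit 11) (nat_lit 5) (nat_lit 304) (nat_lit 278) (nat_lit 138)) (XT.lf (nat_lit 0) (nat_lit 2248669008) (nat_lit 152) (nat_lit 50292460853) (nat_lit 228) (nat_lit 241121467297) (nat_lit 8) (nat_lit 5) (nat_lit 10) (nat_lit 5) (nat_lit 11) (nat_lit 5) (nat_lit 305) (nat_lit 278) (nat_lit 137)))) (XT.nd (nat_lit 78) (nat_lit 0) (nat_lit 0) (XT.lf (nat_lit 0) (nat_lit 88532483066) (nat_lit 228) (nat_lit 212827115768) (nat_lit 76) (nat_lit 10601736946) (nat_lit 8) (nat_lit 5) (nat_lit 11) (nat_lit 5) (nat_lit 9) (nat_lit 4) (nat_lit 306) (nat_lit 278) (nat_lit 136)) (XT.nd (nat_lit 78) (nat_lit 0) (nat_lit 0) (XT.lf (nat_lit 0) (nat_lit 128709267348)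 (nat_lit 228) (nat_lit 129259932011) (nat_lit 76) (nat_lit 73650285132) (nat_lit 8) (nat_lit 5) (nat_lit 11) (nat_lit 5) (nat_lit 9) (nat_lit 4) (nat_lit 307) (nat_lit 278) (nat_lit 135)) (XT.lf (nat_lit 0) (nat_lit 172100032462) (nat_lit 228) (nat_lit 39007629045) (nat_lit 76) (nat_lit 141742637310) (nat_lit 8) (nat_lit 5) (nat_lit 11) (nat_lit 5) (nat_lit 9) (nat_lit 4) (nat_lit 308) (nat_lit 278) (nat_lit 134))))))) (XT.nd (nat_lit 858) (nat_lit 76) (nat_lit 0) (XT.nd (nat_lit 390) (nat_lit 152) (nat_lit 0) (XT.nd (nat_lit 156) (nat_lit 76) (nat_lit 0) (XT.nd (nat_lit 78) (nat_lit 0) (nat_lit 0) (XT.lf (nat_lit 0) (nat_lit 61543264956) (nat_lit 76) (nat_lit 158898760915) (nat_lit 152) (nat_lit 155219155760) (nat_lit 7) (nat_lit 5) (nat_lit 8) (nat_lit 5) (nat_lit 9) (nat_lit 4) (nat_lit 309) (nat_lit 278) (nat_lit 133)) (XT.lf (nat_lit 0) (nat_lit 172356398328) (nat_lit 76) (nat_lit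 101361373773) (nat_lit 152) (nat_lit 126493852156) (nat_lit 7) (nat_lit 5) (nat_lit 8) (nat_lit 5) (nat_lit 9) (nat_lit 4) (nat_lit 310) (nat_lit 278) (nat_lit 132))) (XT.nd (nat_lit 78) (nat_lit 76) (nat_lit 0) (XT.lf (nat_lit 0) (nat_lit 292034368873) (nat_lit 76) (nat_lit 39221075492) (nat_lit 152) (nat_lit 95470669228) (nat_lit 7) (nat_lit 5) (nat_lit 8) (nat_lit 5) (nat_lit 9) (nat_lit 4) (nat_lit 311) (nat_lit 278) (nat_lit 131)) (XT.nd (nat_lit 78) (nat_lit 76) (nat_lit 0) (XT.lf (nat_lit 0) (nat_lit 394066770783) (nat_lit 152) (nat_lit 34746157296) (nat_lit 0) (nat_lit 26495183329) (nat_lit 7) (nat_lit 5) (nat_lit 9) (nat_lit 4) (nat_lit 7) (nat_lit 4) (nat_lit 312) (nat_lit 278) (nat_lit 130)) (XT.lf (nat_lit 0) (nat_lit 75976825317) (nat_lit 76) (nat_lit 388772035464) (nat_lit 76) (nat_lit 21200140190) (nat_lit 6) (nat_lit 4) (nat_lit 7) (nat_lit 5) (nat_lit 7) (nat_lit 4)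 (nat_lit 313) (nat_lit 278) (nat_lit 129))))) (XT.nd (nat_lit 234) (nat_lit 76) (nat_lit 0) (XT.nd (nat_lit 78) (nat_lit 0) (nat_lit 0) (XT.lf (nat_lit 0) (nat_lit 21916190217) (nat_lit 152) (nat_lit 321986504640) (nat_lit 76) (nat_lit 175018087352) (nat_lit 5) (nat_lit 5) (nat_lit 7) (nat_lit 5) (nat_lit 6) (nat_lit 4) (nat_lit 314) (nat_lit 278) (nat_lit 128)) (XT.nd (nat_lit 78) (nat_lit 0) (nat_lit 0) (XT.lf (nat_lit 0) (nat_lit 67336361909) (nat_lit 152) (nat_lit 227512811427) (nat_lit 76) (nat_lit 259637089336) (nat_lit 5) (nat_lit 5) (nat_lit 7) (nat_lit 5) (nat_lit 6) (nat_lit 4) (nat_lit 315) (nat_lit 278) (nat_lit 127)) (XT.lf (nat_lit 0) (nat_lit 116390048331) (nat_lit 152) (nat_lit 125481388027) (nat_lit 76) (nat_lit 351025553518) (nat_lit 5) (nat_lit 5) (nat_lit 7) (nat_lit 5) (nat_lit 6) (nat_lit 4) (nat_lit 316) (nat_lit 278) (nat_lit 126)))) (XT.nd (nat_lit 78) (nat_lit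 76) (nat_lit 0) (XT.lf (nat_lit 0) (nat_lit 169367937995) (nat_lit 152) (nat_lit 15287603784) (nat_lit 76) (nat_lit 449725041166) (nat_lit 5) (nat_lit 5) (nat_lit 7) (nat_lit 5) (nat_lit 6) (nat_lit 4) (nat_lit 317) (nat_lit 278) (nat_lit 125)) (XT.nd (nat_lit 78) (nat_lit 0) (nat_lit 0) (XT.lf (nat_lit 0) (nat_lit 109183334071) (nat_lit 76) (nat_lit 120026501689) (nat_lit 152) (nat_lit 449762965871) (nat_lit 4) (nat_lit 5) (nat_lit 5) (nat_lit 5) (nat_lit 6) (nat_lit 4) (nat_lit 318) (nat_lit 278) (nat_lit 124)) (XT.lf (nat_lit 0) (nat_lit 244481228423) (nat_lit 76) (nat_lit 49775765188) (nat_lit 152) (nat_lit 432841971844) (nat_lit 4) (nat_lit 5) (nat_lit 5) (nat_lit 5) (nat_lit 6) (nat_lit 4) (nat_lit 319) (nat_lit 278) (nat_lit 123)))))) (XT.nd (nat_lit 468) (nat_lit 0) (nat_lit 0) (XT.nd (nat_lit 234) (nat_lit 76) (nat_lit 0) (XT.nd (nat_lit 78) (nat_lit 0) (nat_lit 0) (XT.lf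 (nat_lit 0) (nat_lit 365135433098) (nat_lit 152) (nat_lit 389099987140) (nat_lit 0) (nat_lit 24789601708) (nat_lit 4) (nat_lit 5) (nat_lit 6) (nat_lit 4) (nat_lit 4) (nat_lit 4) (nat_lit 320) (nat_lit 278) (nat_lit 122)) (XT.nd (nat_lit 78) (nat_lit 0) (nat_lit 0) (XT.lf (nat_lit 0) (nat_lit 442976953372) (nat_lit 152) (nat_lit 289393817398) (nat_lit 0) (nat_lit 102630967996) (nat_lit 4) (nat_lit 5) (nat_lit 6) (nat_lit 4) (nat_lit 4) (nat_lit 4) (nat_lit 321) (nat_lit 278) (nat_lit 121)) (XT.lf (nat_lit 0) (nat_lit 527045729170) (nat_lit 152) (nat_lit 181711268079) (nat_lit 0) (nat_lit 186699601213) (nat_lit 4) (nat_lit 5) (nat_lit 6) (nat_lit 4) (nat_lit 4) (nat_lit 4) (nat_lit 322) (nat_lit 278) (nat_lit 120)))) (XT.nd (nat_lit 78) (nat_lit 76) (nat_lit 0) (XT.lf (nat_lit 0) (nat_lit 617839945827) (nat_lit 152) (nat_lit 65414220372) (nat_lit 0) (nat_lit 277493685852) (nat_lit 4)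 (nat_lit 5) (nat_lit 6) (nat_lit 4) (nat_lit 4) (nat_lit 4) (nat_lit 323) (nat_lit 278) (nat_lit 119)) (XT.nd (nat_lit 78) (nat_lit 0) (nat_lit 0) (XT.lf (nat_lit 0) (nat_lit 63355807494) (nat_lit 76) (nat_lit 654065544347) (nat_lit 76) (nat_lit 313719162132) (nat_lit 3) (nat_lit 4) (nat_lit 4) (nat_lit 5) (nat_lit 4) (nat_lit 4) (nat_lit 324) (nat_lit 278) (nat_lit 118)) (XT.lf (nat_lit 0) (nat_lit 206147507000) (nat_lit 76) (nat_lit 620610249282) (nat_lit 76) (nat_lit 280263753882) (nat_lit 3) (nat_lit 4) (nat_lit 4) (nat_lit 5) (nat_lit 4) (nat_lit 4) (nat_lit 325) (nat_lit 278) (nat_lit 117))))) (XT.nd (nat_lit 33930) (nat_lit 0) (nat_lit 1824) (XT.nd (nat_lit 78) (nat_lit 0) (nat_lit 0) (XT.lf (nat_lit 0) (nat_lit 360362454259) (nat_lit 76) (nat_lit 584478568113) (nat_lit 76) (nat_lit 244131967912) (nat_lit 3) (nat_lit 4) (nat_lit 4) (nat_lit 5) (nat_lit 4) (nat_lit 4) (nat_lit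 326) (nat_lit 278) (nat_lit 116)) (XT.nd (nat_lit 33774) (nat_lit 0) (nat_lit 1824) (XT.lf (nat_lit 0) (nat_lit 526914515624) (nat_lit 76) (nat_lit 545456387174) (nat_lit 76) (nat_lit 205109689935) (nat_lit 3) (nat_lit 4) (nat_lit 4) (nat_lit 5) (nat_lit 4) (nat_lit 4) (nat_lit 327) (nat_lit 278) (nat_lit 115)) (XT.lf (nat_lit 0) (nat_lit 3439601939) (nat_lit 532) (nat_lit 19016289456) (nat_lit 532) (nat_lit 19016289456) (nat_lit 27) (nat_lit 3) (nat_lit 34) (nat_lit 3) (nat_lit 34) (nat_lit 5) (nat_lit 279) (nat_lit 279) (nat_lit 162)))) (XT.nd (nat_lit 78) (nat_lit 0) (nat_lit 76) (XT.lf (nat_lit 0) (nat_lit 7162605988) (nat_lit 532) (nat_lit 5267245298) (nat_lit 532) (nat_lit 73831560243) (nat_lit 27) (nat_lit 3) (nat_lit 34) (nat_lit 3) (nat_lit 34) (nat_lit 5) (nat_lit 280) (nat_lit 279) (nat_lit 161)) (XT.nd (nat_lit 78) (nat_lit 0) (nat_lit 0) (XT.lf (nat_lit 0) (nat_lit 8794922050)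 (nat_lit 456) (nat_lit 58642587205) (nat_lit 532) (nat_lit 22300223338) (nat_lit 28) (nat_lit 5) (nat_lit 34) (nat_lit 5) (nat_lit 35) (nat_lit 5) (nat_lit 281) (nat_lit 279) (nat_lit 160)) (XT.lf (nat_lit 0) (nat_lit 11027667986) (nat_lit 456) (nat_lit 23141664650) (nat_lit 532) (nat_lit 59285245245) (nat_lit 28) (nat_lit 5) (nat_lit 34) (nat_lit 5) (nat_lit 35) (nat_lit 5) (nat_lit 282) (nat_lit 279) (nat_lit 159))))))))
noncomputable def xc111 : XT := (XT.nd (nat_lit 1794) (nat_lit 532) (nat_lit 0) (XT.nd (nat_lit 858) (nat_lit 684) (nat_lit 0) (XT.nd (nat_lit 390) (nat_lit 760) (nat_lit 0) (XT.nd (nat_lit 156) (nat_lit 0) (nat_lit 0) (XT.nd (nat_lit 78) (nat_lit 0) (nat_lit 0) (XT.lf (nat_lit 0) (nat_lit 13875441428) (nat_lit 456) (nat_lit 81491184080) (nat_lit 532) (nat_lit 2067238314) (nat_lit 29) (nat_lit 5) (nat_lit 35) (nat_lit 5) (nat_lit 36) (nat_lit 5) (nat_lit 283) (nat_lit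 279) (nat_lit 158)) (XT.lf (nat_lit 0) (nat_lit 18487058414) (nat_lit 456) (nat_lit 43115491404) (nat_lit 532) (nat_lit 40006066323) (nat_lit 29) (nat_lit 5) (nat_lit 35) (nat_lit 5) (nat_lit 36) (nat_lit 5) (nat_lit 284) (nat_lit 279) (nat_lit 157))) (XT.nd (nat_lit 78) (nat_lit 0) (nat_lit 76) (XT.lf (nat_lit 0) (nat_lit 23466991574) (nat_lit 456) (nat_lit 1670230695) (nat_lit 532) (nat_lit 80980180279) (nat_lit 29) (nat_lit 5) (nat_lit 35) (nat_lit 5) (nat_lit 36) (nat_lit 5) (nat_lit 285) (nat_lit 279) (nat_lit 156)) (XT.nd (nat_lit 78) (nat_lit 0) (nat_lit 0) (XT.lf (nat_lit 0) (nat_lit 30306580954) (nat_lit 456) (nat_lit 65911355549) (nat_lit 76) (nat_lit 14652058929) (nat_lit 30) (nat_lit 5) (nat_lit 36) (nat_lit 5) (nat_lit 31) (nat_lit 5) (nat_lit 286) (nat_lit 279) (nat_lit 155)) (XT.lf (nat_lit 0) (nat_lit 38392571607) (nat_lit 456) (nat_lit 21240925027) (nat_lit 76) (nat_lit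 56313364538) (nat_lit 30) (nat_lit 5) (nat_lit 36) (nat_lit 5) (nat_lit 31) (nat_lit 5) (nat_lit 287) (nat_lit 279) (nat_lit 154))))) (XT.nd (nat_lit 234) (nat_lit 152) (nat_lit 0) (XT.nd (nat_lit 78) (nat_lit 228) (nat_lit 0) (XT.lf (nat_lit 0) (nat_lit 28424600585) (nat_lit 456) (nat_lit 19383958841) (nat_lit 532) (nat_lit 73566671161) (nat_lit 24) (nat_lit 5) (nat_lit 30) (nat_lit 5) (nat_lit 31) (nat_lit 5) (nat_lit 288) (nat_lit 279) (nat_lit 153)) (XT.nd (nat_lit 78) (nat_lit 228) (nat_lit 0) (XT.lf (nat_lit 0) (nat_lit 59152465699) (nat_lit 532) (nat_lit 44514875784) (nat_lit 76) (nat_lit 23476560481) (nat_lit 24) (nat_lit 5) (nat_lit 31) (nat_lit 5) (nat_lit 25) (nat_lit 5) (nat_lit 289) (nat_lit 279) (nat_lit 152)) (XT.lf (nat_lit 0) (nat_lit 7675785799) (nat_lit 228) (nat_lit 64415747845) (nat_lit 304) (nat_lit 61227524774) (nat_lit 21) (nat_lit 5) (nat_lit 24) (nat_lit 5)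 (nat_lit 25) (nat_lit 5) (nat_lit 290) (nat_lit 279) (nat_lit 151)))) (XT.nd (nat_lit 78) (nat_lit 152) (nat_lit 0) (XT.lf (nat_lit 0) (nat_lit 66572864652) (nat_lit 228) (nat_lit 20709566446) (nat_lit 304) (nat_lit 52608463020) (nat_lit 21) (nat_lit 5) (nat_lit 24) (nat_lit 5) (nat_lit 25) (nat_lit 5) (nat_lit 291) (nat_lit 279) (nat_lit 150)) (XT.nd (nat_lit 78) (nat_lit 152) (nat_lit 0) (XT.lf (nat_lit 0) (nat_lit 104325378686) (nat_lit 304) (nat_lit 17444363330) (nat_lit 76) (nat_lit 25167795220) (nat_lit 21) (nat_lit 5) (nat_lit 25) (nat_lit 5) (nat_lit 22) (nat_lit 5) (nat_lit 292) (nat_lit 279) (nat_lit 149)) (XT.lf (nat_lit 0) (nat_lit 44591529995) (nat_lit 152) (nat_lit 79750216953) (nat_lit 228) (nat_lit 30077368685) (nat_lit 19) (nat_lit 5) (nat_lit 21) (nat_lit 5) (nat_lit 22) (nat_lit 5) (nat_lit 293) (nat_lit 279) (nat_lit 148)))))) (XT.nd (nat_lit 468) (nat_lit 304)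 (nat_lit 0) (XT.nd (nat_lit 234) (nat_lit 152) (nat_lit 0) (XT.nd (nat_lit 78) (nat_lit 228) (nat_lit 0) (XT.lf (nat_lit 0) (nat_lit 112581977207) (nat_lit 152) (nat_lit 33854070651) (nat_lit 228) (nat_lit 16025045014) (nat_lit 19) (nat_lit 5) (nat_lit 21) (nat_lit 5) (nat_lit 22) (nat_lit 5) (nat_lit 294) (nat_lit 279) (nat_lit 147)) (XT.nd (nat_lit 78) (nat_lit 76) (nat_lit 0) (XT.lf (nat_lit 0) (nat_lit 15249780506) (nat_lit 152) (nat_lit 155792473442) (nat_lit 228) (nat_lit 44627698) (nat_lit 17) (nat_lit 5) (nat_lit 19) (nat_lit 5) (nat_lit 20) (nat_lit 5) (nat_lit 295) (nat_lit 279) (nat_lit 146)) (XT.lf (nat_lit 0) (nat_lit 18631322042) (nat_lit 228) (nat_lit 93197123894) (nat_lit 76) (nat_lit 68358911379) (nat_lit 16) (nat_lit 5) (nat_lit 19) (nat_lit 5) (nat_lit 17) (nat_lit 5) (nat_lit 296) (nat_lit 279) (nat_lit 145)))) (XT.nd (nat_lit 78) (nat_lit 152) (nat_lit 0) (XT.lf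 (nat_lit 0) (nat_lit 38798650894) (nat_lit 228) (nat_lit 25547477062) (nat_lit 76) (nat_lit 125669674997) (nat_lit 16) (nat_lit 5) (nat_lit 19) (nat_lit 5) (nat_lit 17) (nat_lit 5) (nat_lit 297) (nat_lit 279) (nat_lit 144)) (XT.nd (nat_lit 78) (nat_lit 0) (nat_lit 0) (XT.lf (nat_lit 0) (nat_lit 50015791926) (nat_lit 152) (nat_lit 11766190483) (nat_lit 228) (nat_lit 138752334173) (nat_lit 14) (nat_lit 5) (nat_lit 16) (nat_lit 5) (nat_lit 17) (nat_lit 5) (nat_lit 298) (nat_lit 279) (nat_lit 143)) (XT.lf (nat_lit 0) (nat_lit 88403117453) (nat_lit 228) (nat_lit 79862632096) (nat_lit 76) (nat_lit 43484632322) (nat_lit 14) (nat_lit 5) (nat_lit 17) (nat_lit 5) (nat_lit 15) (nat_lit 5) (nat_lit 299) (nat_lit 279) (nat_lit 142))))) (XT.nd (nat_lit 234) (nat_lit 152) (nat_lit 0) (XT.nd (nat_lit 78) (nat_lit 152) (nat_lit 0) (XT.lf (nat_lit 0) (nat_lit 117459322535) (nat_lit 228) (nat_lit 3860210549)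 (nat_lit 76) (nat_lit 102519770374) (nat_lit 14) (nat_lit 5) (nat_lit 17) (nat_lit 5) (nat_lit 15) (nat_lit 5) (nat_lit 300) (nat_lit 279) (nat_lit 141)) (XT.nd (nat_lit 78) (nat_lit 0) (nat_lit 0) (XT.lf (nat_lit 0) (nat_lit 82341139130) (nat_lit 152) (nat_lit 68478972656) (nat_lit 228) (nat_lit 85916821276) (nat_lit 12) (nat_lit 5) (nat_lit 14) (nat_lit 5) (nat_lit 15) (nat_lit 5) (nat_lit 301) (nat_lit 279) (nat_lit 140)) (XT.lf (nat_lit 0) (nat_lit 175657835194) (nat_lit 152) (nat_lit 11297264464) (nat_lit 228) (nat_lit 63702847752) (nat_lit 12) (nat_lit 5) (nat_lit 14) (nat_lit 5) (nat_lit 15) (nat_lit 5) (nat_lit 302) (nat_lit 279) (nat_lit 139)))) (XT.nd (nat_lit 78) (nat_lit 76) (nat_lit 0) (XT.lf (nat_lit 0) (nat_lit 10035408041) (nat_lit 76) (nat_lit 217400174107) (nat_lit 152) (nat_lit 38140686233) (nat_lit 11) (nat_lit 5) (nat_lit 12) (nat_lit 5) (nat_lit 13) (nat_lit 4)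 (nat_lit 303) (nat_lit 279) (nat_lit 138)) (XT.nd (nat_lit 78) (nat_lit 76) (nat_lit 0) (XT.lf (nat_lit 0) (nat_lit 105829924765) (nat_lit 76) (nat_lit 167661033001) (nat_lit 152) (nat_lit 8010181943) (nat_lit 11) (nat_lit 5) (nat_lit 12) (nat_lit 5) (nat_lit 13) (nat_lit 4) (nat_lit 304) (nat_lit 279) (nat_lit 137)) (XT.lf (nat_lit 0) (nat_lit 23303454940) (nat_lit 152) (nat_lit 90002233667) (nat_lit 76) (nat_lit 185347130164) (nat_lit 10) (nat_lit 5) (nat_lit 12) (nat_lit 5) (nat_lit 11) (nat_lit 5) (nat_lit 305) (nat_lit 279) (nat_lit 136))))))) (XT.nd (nat_lit 858) (nat_lit 152) (nat_lit 0) (XT.nd (nat_lit 390) (nat_lit 152) (nat_lit 0) (XT.nd (nat_lit 156) (nat_lit 76) (nat_lit 0) (XT.nd (nat_lit 78) (nat_lit 0) (nat_lit 0) (XT.lf (nat_lit 0) (nat_lit 2433702815) (nat_lit 152) (nat_lit 54314086345) (nat_lit 228) (nat_lit 260407530148) (nat_lit 8) (nat_lit 5) (nat_lit 10) (nat_lit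 5) (nat_lit 11) (nat_lit 5) (nat_lit 306) (nat_lit 279) (nat_lit 135)) (XT.lf (nat_lit 0) (nat_lit 95618240518) (nat_lit 228) (nat_lit 229848300487) (nat_lit 76) (nat_lit 11451434017) (nat_lit 8) (nat_lit 5) (nat_lit 11) (nat_lit 5) (nat_lit 9) (nat_lit 4) (nat_lit 307) (nat_lit 279) (nat_lit 134))) (XT.nd (nat_lit 78) (nat_lit 76) (nat_lit 0) (XT.lf (nat_lit 0) (nat_lit 139008933557) (nat_lit 228) (nat_lit 139596111254) (nat_lit 76) (nat_lit 79543750642) (nat_lit 8) (nat_lit 5) (nat_lit 11) (nat_lit 5) (nat_lit 9) (nat_lit 4) (nat_lit 308) (nat_lit 279) (nat_lit 133)) (XT.nd (nat_lit 78) (nat_lit 76) (nat_lit 0) (XT.lf (nat_lit 0) (nat_lit 185870743228) (nat_lit 228) (nat_lit 42123965926) (nat_lit 76) (nat_lit 153083384128) (nat_lit 8) (nat_lit 5) (nat_lit 11) (nat_lit 5) (nat_lit 9) (nat_lit 4) (nat_lit 309) (nat_lit 279) (nat_lit 132)) (XT.lf (nat_lit 0) (nat_lit 66470891407) (nat_lit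 76) (nat_lit 171609104272) (nat_lit 152) (nat_lit 167633860023) (nat_lit 7) (nat_lit 5) (nat_lit 8) (nat_lit 5) (nat_lit 9) (nat_lit 4) (nat_lit 310) (nat_lit 279) (nat_lit 131))))) (XT.nd (nat_lit 234) (nat_lit 152) (nat_lit 0) (XT.nd (nat_lit 78) (nat_lit 0) (nat_lit 0) (XT.lf (nat_lit 0) (nat_lit 186148766912) (nat_lit 76) (nat_lit 109468841530) (nat_lit 152) (nat_lit 136610741627) (nat_lit 7) (nat_lit 5) (nat_lit 8) (nat_lit 5) (nat_lit 9) (nat_lit 4) (nat_lit 311) (nat_lit 279) (nat_lit 130)) (XT.nd (nat_lit 78) (nat_lit 0) (nat_lit 0) (XT.lf (nat_lit 0) (nat_lit 315400689417) (nat_lit 76) (nat_lit 42357426212) (nat_lit 152) (nat_lit 103105898042) (nat_lit 7) (nat_lit 5) (nat_lit 8) (nat_lit 5) (nat_lit 9) (nat_lit 4) (nat_lit 312) (nat_lit 279) (nat_lit 129)) (XT.lf (nat_lit 0) (nat_lit 425594212287) (nat_lit 152) (nat_lit 37522398094) (nat_lit 0) (nat_lit 28615972552) (nat_lit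 7) (nat_lit 5) (nat_lit 9) (nat_lit 4) (nat_lit 7) (nat_lit 4) (nat_lit 313) (nat_lit 279) (nat_lit 128)))) (XT.nd (nat_lit 78) (nat_lit 76) (nat_lit 0) (XT.lf (nat_lit 0) (nat_lit 82058335741) (nat_lit 76) (nat_lit 419872459115) (nat_lit 76) (nat_lit 22893955473) (nat_lit 6) (nat_lit 4) (nat_lit 7) (nat_lit 5) (nat_lit 7) (nat_lit 4) (nat_lit 314) (nat_lit 279) (nat_lit 127)) (XT.nd (nat_lit 78) (nat_lit 0) (nat_lit 0) (XT.lf (nat_lit 0) (nat_lit 23671416993) (nat_lit 152) (nat_lit 347742200653) (nat_lit 76) (nat_lit 189020665153) (nat_lit 5) (nat_lit 5) (nat_lit 7) (nat_lit 5) (nat_lit 6) (nat_lit 4) (nat_lit 315) (nat_lit 279) (nat_lit 126)) (XT.lf (nat_lit 0) (nat_lit 72725059341) (nat_lit 152) (nat_lit 245710850824) (nat_lit 76) (nat_lit 280409103533) (nat_lit 5) (nat_lit 5) (nat_lit 7) (nat_lit 5) (nat_lit 6) (nat_lit 4) (nat_lit 316) (nat_lit 279) (nat_lit 125)))))) (XT.nd (nat_lit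 468) (nat_lit 76) (nat_lit 0) (XT.nd (nat_lit 234) (nat_lit 0) (nat_lit 0) (XT.nd (nat_lit 78) (nat_lit 76) (nat_lit 0) (XT.lf (nat_lit 0) (nat_lit 125702908197) (nat_lit 152) (nat_lit 135517134702) (nat_lit 76) (nat_lit 379108567290) (nat_lit 5) (nat_lit 5) (nat_lit 7) (nat_lit 5) (nat_lit 6) (nat_lit 4) (nat_lit 317) (nat_lit 279) (nat_lit 124)) (XT.nd (nat_lit 78) (nat_lit 76) (nat_lit 0) (XT.lf (nat_lit 0) (nat_lit 182918906367) (nat_lit 152) (nat_lit 16508052487) (nat_lit 76) (nat_lit 485703942135) (nat_lit 5) (nat_lit 5) (nat_lit 7) (nat_lit 5) (nat_lit 6) (nat_lit 4) (nat_lit 318) (nat_lit 279) (nat_lit 123)) (XT.lf (nat_lit 0) (nat_lit 117920495596) (nat_lit 76) (nat_lit 129627606777) (nat_lit 152) (nat_lit 485742399523) (nat_lit 4) (nat_lit 5) (nat_lit 5) (nat_lit 5) (nat_lit 6) (nat_lit 4) (nat_lit 319) (nat_lit 279) (nat_lit 122)))) (XT.nd (nat_lit 78) (nat_lit 0) (nat_lit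 0) (XT.lf (nat_lit 0) (nat_lit 264042036697) (nat_lit 76) (nat_lit 53756886545) (nat_lit 152) (nat_lit 467467844760) (nat_lit 4) (nat_lit 5) (nat_lit 5) (nat_lit 5) (nat_lit 6) (nat_lit 4) (nat_lit 320) (nat_lit 279) (nat_lit 121)) (XT.nd (nat_lit 78) (nat_lit 0) (nat_lit 0) (XT.lf (nat_lit 0) (nat_lit 394347557324) (nat_lit 152) (nat_lit 420225761958) (nat_lit 0) (nat_lit 26773596551) (nat_lit 4) (nat_lit 5) (nat_lit 6) (nat_lit 4) (nat_lit 4) (nat_lit 4) (nat_lit 321) (nat_lit 279) (nat_lit 120)) (XT.lf (nat_lit 0) (nat_lit 478416303697) (nat_lit 152) (nat_lit 312543263388) (nat_lit 0) (nat_lit 110842210905) (nat_lit 4) (nat_lit 5) (nat_lit 6) (nat_lit 4) (nat_lit 4) (nat_lit 4) (nat_lit 322) (nat_lit 279) (nat_lit 119))))) (XT.nd (nat_lit 234) (nat_lit 0) (nat_lit 0) (XT.nd (nat_lit 78) (nat_lit 76) (nat_lit 0) (XT.lf (nat_lit 0) (nat_lit 569210493109) (nat_lit 152) (nat_lit 196246262672)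 (nat_lit 0) (nat_lit 201636278077) (nat_lit 4) (nat_lit 5) (nat_lit 6) (nat_lit 4) (nat_lit 4) (nat_lit 4) (nat_lit 323) (nat_lit 279) (nat_lit 118)) (XT.nd (nat_lit 78) (nat_lit 76) (nat_lit 0) (XT.lf (nat_lit 0) (nat_lit 667268165203) (nat_lit 152) (nat_lit 70645592397) (nat_lit 0) (nat_lit 299693836986) (nat_lit 4) (nat_lit 5) (nat_lit 6) (nat_lit 4) (nat_lit 4) (nat_lit 4) (nat_lit 324) (nat_lit 279) (nat_lit 117)) (XT.lf (nat_lit 0) (nat_lit 68425992999) (nat_lit 76) (nat_lit 706390056256) (nat_lit 76) (nat_lit 338815623238) (nat_lit 3) (nat_lit 4) (nat_lit 4) (nat_lit 5) (nat_lit 4) (nat_lit 4) (nat_lit 325) (nat_lit 279) (nat_lit 116)))) (XT.nd (nat_lit 33930) (nat_lit 0) (nat_lit 1824) (XT.lf (nat_lit 0) (nat_lit 222640900992) (nat_lit 76) (nat_lit 670258391781) (nat_lit 76) (nat_lit 302683861725) (nat_lit 3) (nat_lit 4) (nat_lit 4) (nat_lit 5) (nat_lit 4) (nat_lit 4) (nat_lit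 326) (nat_lit 279) (nat_lit 115)) (XT.nd (nat_lit 78) (nat_lit 0) (nat_lit 0) (XT.lf (nat_lit 0) (nat_lit 3722806022) (nat_lit 532) (nat_lit 20533221041) (nat_lit 532) (nat_lit 20533221041) (nat_lit 27) (nat_lit 3) (nat_lit 34) (nat_lit 3) (nat_lit 34) (nat_lit 5) (nat_lit 280) (nat_lit 280) (nat_lit 160)) (XT.lf (nat_lit 0) (nat_lit 7750495816) (nat_lit 532) (nat_lit 5680529418) (nat_lit 532) (nat_lit 79729989559) (nat_lit 27) (nat_lit 3) (nat_lit 34) (nat_lit 3) (nat_lit 34) (nat_lit 5) (nat_lit 281) (nat_lit 280) (nat_lit 159))))))))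
noncomputable def xc112 : XT := (XT.nd (nat_lit 1794) (nat_lit 608) (nat_lit 0) (XT.nd (nat_lit 858) (nat_lit 760) (nat_lit 0) (XT.nd (nat_lit 390) (nat_lit 532) (nat_lit 0) (XT.nd (nat_lit 156) (nat_lit 0) (nat_lit 76) (XT.nd (nat_lit 78) (nat_lit 0) (nat_lit 0) (XT.lf (nat_lit 0) (nat_lit 9512338427) (nat_lit 456) (nat_lit 63324729616) (nat_lit 532) (nat_lit 24078467023) (nat_lit 28) (nat_lit 5) (nat_lit 34) (nat_lit 5) (nat_lit 35) (nat_lit 5) (nat_lit 282) (nat_lit 280) (nat_lit 158)) (XT.lf (nat_lit 0) (nat_lit 11922680141) (nat_lit 456) (nat_lit 24984419521) (nat_lit 532) (nat_lit 64022718400) (nat_lit 28) (nat_lit 5) (nat_lit 34) (nat_lit 5) (nat_lit 35) (nat_lit 5) (nat_lit 283) (nat_lit 280) (nat_lit 157))) (XT.nd (nat_lit 78) (nat_lit 0) (nat_lit 0) (XT.lf (nat_lit 0) (nat_lit 14997439731) (nat_lit 456) (nat_lit 88000970192) (nat_lit 532) (nat_lit 2229111380) (nat_lit 29)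 (nat_lit 5) (nat_lit 35) (nat_lit 5) (nat_lit 36) (nat_lit 5) (nat_lit 284) (nat_lit 280) (nat_lit 156)) (XT.nd (nat_lit 78) (nat_lit 0) (nat_lit 0) (XT.lf (nat_lit 0) (nat_lit 19977099928) (nat_lit 456) (nat_lit 46555926444) (nat_lit 532) (nat_lit 43203305334) (nat_lit 29) (nat_lit 5) (nat_lit 35) (nat_lit 5) (nat_lit 36) (nat_lit 5) (nat_lit 285) (nat_lit 280) (nat_lit 155)) (XT.lf (nat_lit 0) (nat_lit 25354607234) (nat_lit 456) (nat_lit 1795697046) (nat_lit 532) (nat_lit 87455588872) (nat_lit 29) (nat_lit 5) (nat_lit 35) (nat_lit 5) (nat_lit 36) (nat_lit 5) (nat_lit 286) (nat_lit 280) (nat_lit 154))))) (XT.nd (nat_lit 234) (nat_lit 228) (nat_lit 0) (XT.nd (nat_lit 78) (nat_lit 456) (nat_lit 0) (XT.lf (nat_lit 0) (nat_lit 32740753236) (nat_lit 456) (nat_lit 71175426275) (nat_lit 76) (nat_lit 15822568805) (nat_lit 30) (nat_lit 5) (nat_lit 36) (nat_lit 5) (nat_lit 31) (nat_lit 5) (nat_lit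 287) (nat_lit 280) (nat_lit 153)) (XT.nd (nat_lit 78) (nat_lit 456) (nat_lit 0) (XT.lf (nat_lit 0) (nat_lit 41472908637) (nat_lit 456) (nat_lit 22932015957) (nat_lit 76) (nat_lit 60816901444) (nat_lit 30) (nat_lit 5) (nat_lit 36) (nat_lit 5) (nat_lit 31) (nat_lit 5) (nat_lit 288) (nat_lit 280) (nat_lit 152)) (XT.lf (nat_lit 0) (nat_lit 30706544538) (nat_lit 456) (nat_lit 20935161187) (nat_lit 532) (nat_lit 79442802012) (nat_lit 24) (nat_lit 5) (nat_lit 30) (nat_lit 5) (nat_lit 31) (nat_lit 5) (nat_lit 289) (nat_lit 280) (nat_lit 151)))) (XT.nd (nat_lit 78) (nat_lit 228) (nat_lit 0) (XT.lf (nat_lit 0) (nat_lit 63892486905) (nat_lit 532) (nat_lit 48067983548) (nat_lit 76) (nat_lit 25354258149) (nat_lit 24) (nat_lit 5) (nat_lit 31) (nat_lit 5) (nat_lit 25) (nat_lit 5) (nat_lit 290) (nat_lit 280) (nat_lit 150)) (XT.nd (nat_lit 78) (nat_lit 0) (nat_lit 0) (XT.lf (nat_lit 0) (nat_lit 8297726347)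 (nat_lit 228) (nat_lit 69568563844) (nat_lit 304) (nat_lit 66117643002) (nat_lit 21) (nat_lit 5) (nat_lit 24) (nat_lit 5) (nat_lit 25) (nat_lit 5) (nat_lit 291) (nat_lit 280) (nat_lit 149)) (XT.lf (nat_lit 0) (nat_lit 71905987976) (nat_lit 228) (nat_lit 22365920809) (nat_lit 304) (nat_lit 56809655104) (nat_lit 21) (nat_lit 5) (nat_lit 24) (nat_lit 5) (nat_lit 25) (nat_lit 5) (nat_lit 292) (nat_lit 280) (nat_lit 148)))))) (XT.nd (nat_lit 468) (nat_lit 380) (nat_lit 0) (XT.nd (nat_lit 234) (nat_lit 228) (nat_lit 0) (XT.nd (nat_lit 78) (nat_lit 152) (nat_lit 0) (XT.lf (nat_lit 0) (nat_lit 112677791465) (nat_lit 304) (nat_lit 18832610520) (nat_lit 76) (nat_lit 27181580314) (nat_lit 21) (nat_lit 5) (nat_lit 25) (nat_lit 5) (nat_lit 22) (nat_lit 5) (nat_lit 293) (nat_lit 280) (nat_lit 147)) (XT.nd (nat_lit 78) (nat_lit 0) (nat_lit 0) (XT.lf (nat_lit 0) (nat_lit 48165969413) (nat_lit 152)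 (nat_lit 86129198163) (nat_lit 228) (nat_lit 32476947026) (nat_lit 19) (nat_lit 5) (nat_lit 21) (nat_lit 5) (nat_lit 22) (nat_lit 5) (nat_lit 294) (nat_lit 280) (nat_lit 146)) (XT.lf (nat_lit 0) (nat_lit 121595125215) (nat_lit 152) (nat_lit 36561436909) (nat_lit 228) (nat_lit 17300927176) (nat_lit 19) (nat_lit 5) (nat_lit 21) (nat_lit 5) (nat_lit 22) (nat_lit 5) (nat_lit 295) (nat_lit 280) (nat_lit 145)))) (XT.nd (nat_lit 78) (nat_lit 76) (nat_lit 0) (XT.lf (nat_lit 0) (nat_lit 16476642029) (nat_lit 152) (nat_lit 168254392409) (nat_lit 228) (nat_lit 42328164) (nat_lit 17) (nat_lit 5) (nat_lit 19) (nat_lit 5) (nat_lit 20) (nat_lit 5) (nat_lit 296) (nat_lit 280) (nat_lit 144)) (XT.nd (nat_lit 78) (nat_lit 0) (nat_lit 0) (XT.lf (nat_lit 0) (nat_lit 20126990881) (nat_lit 228) (nat_lit 100646220204) (nat_lit 76) (nat_lit 73828689567) (nat_lit 16) (nat_lit 5) (nat_lit 19) (nat_lit 5) (nat_lit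 17) (nat_lit 5) (nat_lit 297) (nat_lit 280) (nat_lit 143)) (XT.lf (nat_lit 0) (nat_lit 41907323590) (nat_lit 228) (nat_lit 27585095966) (nat_lit 76) (nat_lit 135724235365) (nat_lit 16) (nat_lit 5) (nat_lit 19) (nat_lit 5) (nat_lit 17) (nat_lit 5) (nat_lit 298) (nat_lit 280) (nat_lit 142))))) (XT.nd (nat_lit 234) (nat_lit 228) (nat_lit 0) (XT.nd (nat_lit 78) (nat_lit 0) (nat_lit 0) (XT.lf (nat_lit 0) (nat_lit 54023078104) (nat_lit 152) (nat_lit 12706034251) (nat_lit 228) (nat_lit 149847556236) (nat_lit 14) (nat_lit 5) (nat_lit 16) (nat_lit 5) (nat_lit 17) (nat_lit 5) (nat_lit 299) (nat_lit 280) (nat_lit 141)) (XT.nd (nat_lit 78) (nat_lit 0) (nat_lit 0) (XT.lf (nat_lit 0) (nat_lit 95479631906) (nat_lit 228) (nat_lit 86245734114) (nat_lit 76) (nat_lit 46964679632) (nat_lit 14) (nat_lit 5) (nat_lit 17) (nat_lit 5) (nat_lit 15) (nat_lit 5) (nat_lit 300) (nat_lit 280) (nat_lit 140)) (XT.lf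 (nat_lit 0) (nat_lit 126860017465) (nat_lit 228) (nat_lit 4163556514) (nat_lit 76) (nat_lit 110722534156) (nat_lit 14) (nat_lit 5) (nat_lit 17) (nat_lit 5) (nat_lit 15) (nat_lit 5) (nat_lit 301) (nat_lit 280) (nat_lit 139)))) (XT.nd (nat_lit 78) (nat_lit 76) (nat_lit 0) (XT.lf (nat_lit 0) (nat_lit 88933762637) (nat_lit 152) (nat_lit 73955742936) (nat_lit 228) (nat_lit 92786057431) (nat_lit 12) (nat_lit 5) (nat_lit 14) (nat_lit 5) (nat_lit 15) (nat_lit 5) (nat_lit 302) (nat_lit 280) (nat_lit 138)) (XT.nd (nat_lit 78) (nat_lit 76) (nat_lit 0) (XT.lf (nat_lit 0) (nat_lit 189715399394) (nat_lit 152) (nat_lit 12199612720) (nat_lit 228) (nat_lit 68795270436) (nat_lit 12) (nat_lit 5) (nat_lit 14) (nat_lit 5) (nat_lit 15) (nat_lit 5) (nat_lit 303) (nat_lit 280) (nat_lit 137)) (XT.lf (nat_lit 0) (nat_lit 10843312524) (nat_lit 76) (nat_lit 234790514975) (nat_lit 152) (nat_lit 41188251660) (nat_lit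 11) (nat_lit 5) (nat_lit 12) (nat_lit 5) (nat_lit 13) (nat_lit 4) (nat_lit 304) (nat_lit 280) (nat_lit 136))))))) (XT.nd (nat_lit 858) (nat_lit 228) (nat_lit 0) (XT.nd (nat_lit 390) (nat_lit 152) (nat_lit 0) (XT.nd (nat_lit 156) (nat_lit 152) (nat_lit 0) (XT.nd (nat_lit 78) (nat_lit 76) (nat_lit 0) (XT.lf (nat_lit 0) (nat_lit 114301014894) (nat_lit 76) (nat_lit 181072366511) (nat_lit 152) (nat_lit 8647580321) (nat_lit 11) (nat_lit 5) (nat_lit 12) (nat_lit 5) (nat_lit 13) (nat_lit 4) (nat_lit 305) (nat_lit 280) (nat_lit 135)) (XT.lf (nat_lit 0) (nat_lit 25170736230) (nat_lit 152) (nat_lit 97197890927) (nat_lit 76) (nat_lit 200176161808) (nat_lit 10) (nat_lit 5) (nat_lit 12) (nat_lit 5) (nat_lit 11) (nat_lit 5) (nat_lit 306) (nat_lit 280) (nat_lit 134))) (XT.nd (nat_lit 78) (nat_lit 0) (nat_lit 0) (XT.lf (nat_lit 0) (nat_lit 2632806007) (nat_lit 152) (nat_lit 58657694584) (nat_lit 228)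 (nat_lit 281236999388) (nat_lit 8) (nat_lit 5) (nat_lit 10) (nat_lit 5) (nat_lit 11) (nat_lit 5) (nat_lit 307) (nat_lit 280) (nat_lit 133)) (XT.nd (nat_lit 78) (nat_lit 0) (nat_lit 0) (XT.lf (nat_lit 0) (nat_lit 103270407928) (nat_lit 228) (nat_lit 248231891083) (nat_lit 76) (nat_lit 12368884571) (nat_lit 8) (nat_lit 5) (nat_lit 11) (nat_lit 5) (nat_lit 9) (nat_lit 4) (nat_lit 308) (nat_lit 280) (nat_lit 132)) (XT.lf (nat_lit 0) (nat_lit 150132155805) (nat_lit 228) (nat_lit 150759843263) (nat_lit 76) (nat_lit 85908487576) (nat_lit 8) (nat_lit 5) (nat_lit 11) (nat_lit 5) (nat_lit 9) (nat_lit 4) (nat_lit 309) (nat_lit 280) (nat_lit 131))))) (XT.nd (nat_lit 234) (nat_lit 76) (nat_lit 0) (XT.nd (nat_lit 78) (nat_lit 76) (nat_lit 0) (XT.lf (nat_lit 0) (nat_lit 200742724504) (nat_lit 228) (nat_lit 45490219412) (nat_lit 76) (nat_lit 165331200119) (nat_lit 8) (nat_lit 5) (nat_lit 11) (nat_lit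 5) (nat_lit 9) (nat_lit 4) (nat_lit 310) (nat_lit 280) (nat_lit 130)) (XT.nd (nat_lit 78) (nat_lit 0) (nat_lit 0) (XT.lf (nat_lit 0) (nat_lit 71792133753) (nat_lit 76) (nat_lit 185336497294) (nat_lit 152) (nat_lit 181042144101) (nat_lit 7) (nat_lit 5) (nat_lit 8) (nat_lit 5) (nat_lit 9) (nat_lit 4) (nat_lit 311) (nat_lit 280) (nat_lit 129)) (XT.lf (nat_lit 0) (nat_lit 201043974778) (nat_lit 76) (nat_lit 118225112445) (nat_lit 152) (nat_lit 147537355842) (nat_lit 7) (nat_lit 5) (nat_lit 8) (nat_lit 5) (nat_lit 9) (nat_lit 4) (nat_lit 312) (nat_lit 280) (nat_lit 128)))) (XT.nd (nat_lit 78) (nat_lit 76) (nat_lit 0) (XT.lf (nat_lit 0) (nat_lit 340635806157) (nat_lit 76) (nat_lit 45744875488) (nat_lit 152) (nat_lit 111352291076) (nat_lit 7) (nat_lit 5) (nat_lit 8) (nat_lit 5) (nat_lit 9) (nat_lit 4) (nat_lit 313) (nat_lit 280) (nat_lit 127)) (XT.nd (nat_lit 78) (nat_lit 76) (nat_lit 0)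 (XT.lf (nat_lit 0) (nat_lit 459643549546) (nat_lit 152) (nat_lit 40521230592) (nat_lit 0) (nat_lit 30906257350) (nat_lit 7) (nat_lit 5) (nat_lit 9) (nat_lit 4) (nat_lit 7) (nat_lit 4) (nat_lit 314) (nat_lit 280) (nat_lit 126)) (XT.lf (nat_lit 0) (nat_lit 88625887030) (nat_lit 76) (nat_lit 453461107707) (nat_lit 76) (nat_lit 24723589253) (nat_lit 6) (nat_lit 4) (nat_lit 7) (nat_lit 5) (nat_lit 7) (nat_lit 4) (nat_lit 315) (nat_lit 280) (nat_lit 125)))))) (XT.nd (nat_lit 468) (nat_lit 76) (nat_lit 0) (XT.nd (nat_lit 234) (nat_lit 76) (nat_lit 0) (XT.nd (nat_lit 78) (nat_lit 0) (nat_lit 0) (XT.lf (nat_lit 0) (nat_lit 25566786352) (nat_lit 152) (nat_lit 375558812338) (nat_lit 76) (nat_lit 204143287856) (nat_lit 5) (nat_lit 5) (nat_lit 7) (nat_lit 5) (nat_lit 6) (nat_lit 4) (nat_lit 316) (nat_lit 280) (nat_lit 124)) (XT.nd (nat_lit 78) (nat_lit 0) (nat_lit 0) (XT.lf (nat_lit 0) (nat_lit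 78544597422) (nat_lit 152) (nat_lit 265365159291) (nat_lit 76) (nat_lit 302842729492) (nat_lit 5) (nat_lit 5) (nat_lit 7) (nat_lit 5) (nat_lit 6) (nat_lit 4) (nat_lit 317) (nat_lit 280) (nat_lit 123)) (XT.lf (nat_lit 0) (nat_lit 135760560606) (nat_lit 152) (nat_lit 146356135479) (nat_lit 76) (nat_lit 409438083855) (nat_lit 5) (nat_lit 5) (nat_lit 7) (nat_lit 5) (nat_lit 6) (nat_lit 4) (nat_lit 318) (nat_lit 280) (nat_lit 122)))) (XT.nd (nat_lit 78) (nat_lit 76) (nat_lit 0) (XT.lf (nat_lit 0) (nat_lit 197553733463) (nat_lit 152) (nat_lit 17826502242) (nat_lit 76) (nat_lit 524561027119) (nat_lit 5) (nat_lit 5) (nat_lit 7) (nat_lit 5) (nat_lit 6) (nat_lit 4) (nat_lit 319) (nat_lit 280) (nat_lit 121)) (XT.nd (nat_lit 78) (nat_lit 0) (nat_lit 0) (XT.lf (nat_lit 0) (nat_lit 127356274133) (nat_lit 76) (nat_lit 139996945081) (nat_lit 152) (nat_lit 524600416641) (nat_lit 4) (nat_lit 5) (nat_lit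 5) (nat_lit 5) (nat_lit 6) (nat_lit 4) (nat_lit 320) (nat_lit 280) (nat_lit 120)) (XT.lf (nat_lit 0) (nat_lit 285167380085) (nat_lit 76) (nat_lit 58056631692) (nat_lit 152) (nat_lit 504863999337) (nat_lit 4) (nat_lit 5) (nat_lit 5) (nat_lit 5) (nat_lit 6) (nat_lit 4) (nat_lit 321) (nat_lit 280) (nat_lit 119))))) (XT.nd (nat_lit 234) (nat_lit 76) (nat_lit 0) (XT.nd (nat_lit 78) (nat_lit 0) (nat_lit 0) (XT.lf (nat_lit 0) (nat_lit 425896467516) (nat_lit 152) (nat_lit 453841916062) (nat_lit 0) (nat_lit 28916193042) (nat_lit 4) (nat_lit 5) (nat_lit 6) (nat_lit 4) (nat_lit 4) (nat_lit 4) (nat_lit 322) (nat_lit 280) (nat_lit 118)) (XT.nd (nat_lit 78) (nat_lit 0) (nat_lit 0) (XT.lf (nat_lit 0) (nat_lit 516690631702) (nat_lit 152) (nat_lit 337544958855) (nat_lit 0) (nat_lit 119710244043) (nat_lit 4) (nat_lit 5) (nat_lit 6) (nat_lit 4) (nat_lit 4) (nat_lit 4) (nat_lit 323) (nat_lit 280) (nat_lit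 117)) (XT.lf (nat_lit 0) (nat_lit 614748280437) (nat_lit 152) (nat_lit 211944328866) (nat_lit 0) (nat_lit 217767787977) (nat_lit 4) (nat_lit 5) (nat_lit 6) (nat_lit 4) (nat_lit 4) (nat_lit 4) (nat_lit 324) (nat_lit 280) (nat_lit 116)))) (XT.nd (nat_lit 78) (nat_lit 76) (nat_lit 0) (XT.lf (nat_lit 0) (nat_lit 720650496084) (nat_lit 152) (nat_lit 76295726068) (nat_lit 0) (nat_lit 323669906587) (nat_lit 4) (nat_lit 5) (nat_lit 6) (nat_lit 4) (nat_lit 4) (nat_lit 4) (nat_lit 325) (nat_lit 280) (nat_lit 115)) (XT.nd (nat_lit 34008) (nat_lit 0) (nat_lit 1824) (XT.lf (nat_lit 0) (nat_lit 73901547839) (nat_lit 76) (nat_lit 762900633494) (nat_lit 76) (nat_lit 365919954146) (nat_lit 3) (nat_lit 4) (nat_lit 4) (nat_lit 5) (nat_lit 4) (nat_lit 4) (nat_lit 326) (nat_lit 280) (nat_lit 114)) (XT.lf (nat_lit 0) (nat_lit 4027520017) (nat_lit 532) (nat_lit 22172130806) (nat_lit 532) (nat_lit 22172130806)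 (nat_lit 27) (nat_lit 3) (nat_lit 34) (nat_lit 3) (nat_lit 34) (nat_lit 5) (nat_lit 281) (nat_lit 281) (nat_lit 158))))))))
noncomputable def xc113 : XT := (XT.nd (nat_lit 1794) (nat_lit 608) (nat_lit 0) (XT.nd (nat_lit 858) (nat_lit 684) (nat_lit 0) (XT.nd (nat_lit 390) (nat_lit 456) (nat_lit 0) (XT.nd (nat_lit 156) (nat_lit 0) (nat_lit 76) (XT.nd (nat_lit 78) (nat_lit 0) (nat_lit 76) (XT.lf (nat_lit 0) (nat_lit 8383293839) (nat_lit 532) (nat_lit 6128031181) (nat_lit 532) (nat_lit 86101448133) (nat_lit 27) (nat_lit 3) (nat_lit 34) (nat_lit 3) (nat_lit 34) (nat_lit 5) (nat_lit 282) (nat_lit 281) (nat_lit 157)) (XT.lf (nat_lit 0) (nat_lit 10285176164) (nat_lit 456) (nat_lit 68382765114) (nat_lit 532) (nat_lit 25999793954) (nat_lit 28) (nat_lit 5) (nat_lit 34) (nat_lit 5) (nat_lit 35) (nat_lit 5) (nat_lit 283) (nat_lit 281) (nat_lit 156))) (XT.nd (nat_lit 78) (nat_lit 0) (nat_lit 76)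 (XT.lf (nat_lit 0) (nat_lit 12887467388) (nat_lit 456) (nat_lit 26975818572) (nat_lit 532) (nat_lit 69139952140) (nat_lit 28) (nat_lit 5) (nat_lit 34) (nat_lit 5) (nat_lit 35) (nat_lit 5) (nat_lit 284) (nat_lit 281) (nat_lit 155)) (XT.nd (nat_lit 78) (nat_lit 0) (nat_lit 0) (XT.lf (nat_lit 0) (nat_lit 16207491244) (nat_lit 456) (nat_lit 95032895704) (nat_lit 532) (nat_lit 2404434462) (nat_lit 29) (nat_lit 5) (nat_lit 35) (nat_lit 5) (nat_lit 36) (nat_lit 5) (nat_lit 285) (nat_lit 281) (nat_lit 154)) (XT.lf (nat_lit 0) (nat_lit 21584764528) (nat_lit 456) (nat_lit 50272852315) (nat_lit 532) (nat_lit 46656786585) (nat_lit 29) (nat_lit 5) (nat_lit 35) (nat_lit 5) (nat_lit 36) (nat_lit 5) (nat_lit 286) (nat_lit 281) (nat_lit 153))))) (XT.nd (nat_lit 234) (nat_lit 608) (nat_lit 0) (XT.nd (nat_lit 78) (nat_lit 0) (nat_lit 76) (XT.lf (nat_lit 0) (nat_lit 27391768967) (nat_lit 456) (nat_lit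 1932363695) (nat_lit 532) (nat_lit 94449458968) (nat_lit 29) (nat_lit 5) (nat_lit 35) (nat_lit 5) (nat_lit 36) (nat_lit 5) (nat_lit 287) (nat_lit 281) (nat_lit 152)) (XT.nd (nat_lit 78) (nat_lit 0) (nat_lit 0) (XT.lf (nat_lit 0) (nat_lit 35368283219) (nat_lit 456) (nat_lit 76861883458) (nat_lit 76) (nat_lit 17086955553) (nat_lit 30) (nat_lit 5) (nat_lit 36) (nat_lit 5) (nat_lit 31) (nat_lit 5) (nat_lit 288) (nat_lit 281) (nat_lit 151)) (XT.lf (nat_lit 0) (nat_lit 44798398480) (nat_lit 456) (nat_lit 24759561567) (nat_lit 76) (nat_lit 65680939896) (nat_lit 30) (nat_lit 5) (nat_lit 36) (nat_lit 5) (nat_lit 31) (nat_lit 5) (nat_lit 289) (nat_lit 281) (nat_lit 150)))) (XT.nd (nat_lit 78) (nat_lit 228) (nat_lit 0) (XT.lf (nat_lit 0) (nat_lit 33169906155) (nat_lit 456) (nat_lit 22610390439) (nat_lit 532) (nat_lit 85790336219) (nat_lit 24) (nat_lit 5) (nat_lit 30) (nat_lit 5) (nat_lit 31)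 (nat_lit 5) (nat_lit 290) (nat_lit 281) (nat_lit 149)) (XT.nd (nat_lit 78) (nat_lit 228) (nat_lit 0) (XT.lf (nat_lit 0) (nat_lit 69010593632) (nat_lit 532) (nat_lit 51906492963) (nat_lit 76) (nat_lit 27382232570) (nat_lit 24) (nat_lit 5) (nat_lit 31) (nat_lit 5) (nat_lit 25) (nat_lit 5) (nat_lit 291) (nat_lit 281) (nat_lit 148)) (XT.lf (nat_lit 0) (nat_lit 8968298299) (nat_lit 228) (nat_lit 75133668441) (nat_lit 304) (nat_lit 71400123926) (nat_lit 21) (nat_lit 5) (nat_lit 24) (nat_lit 5) (nat_lit 25) (nat_lit 5) (nat_lit 292) (nat_lit 281) (nat_lit 147)))))) (XT.nd (nat_lit 468) (nat_lit 304) (nat_lit 0) (XT.nd (nat_lit 234) (nat_lit 228) (nat_lit 0) (XT.nd (nat_lit 78) (nat_lit 152) (nat_lit 0) (XT.lf (nat_lit 0) (nat_lit 77664720574) (nat_lit 228) (nat_lit 24154842149) (nat_lit 304) (nat_lit 61348010368) (nat_lit 21) (nat_lit 5) (nat_lit 24) (nat_lit 5) (nat_lit 25) (nat_lit 5) (nat_lit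 293) (nat_lit 281) (nat_lit 146)) (XT.nd (nat_lit 78) (nat_lit 152) (nat_lit 0) (XT.lf (nat_lit 0) (nat_lit 121697486734) (nat_lit 304) (nat_lit 20332959180) (nat_lit 76) (nat_lit 29356416647) (nat_lit 21) (nat_lit 5) (nat_lit 25) (nat_lit 5) (nat_lit 22) (nat_lit 5) (nat_lit 294) (nat_lit 281) (nat_lit 145)) (XT.lf (nat_lit 0) (nat_lit 52025348662) (nat_lit 152) (nat_lit 93018645688) (nat_lit 228) (nat_lit 35069434789) (nat_lit 19) (nat_lit 5) (nat_lit 21) (nat_lit 5) (nat_lit 22) (nat_lit 5) (nat_lit 295) (nat_lit 281) (nat_lit 144)))) (XT.nd (nat_lit 78) (nat_lit 228) (nat_lit 0) (XT.lf (nat_lit 0) (nat_lit 131328384951) (nat_lit 152) (nat_lit 39485529335) (nat_lit 228) (nat_lit 18679753203) (nat_lit 19) (nat_lit 5) (nat_lit 21) (nat_lit 5) (nat_lit 22) (nat_lit 5) (nat_lit 296) (nat_lit 281) (nat_lit 143)) (XT.nd (nat_lit 78) (nat_lit 76) (nat_lit 0) (XT.lf (nat_lit 0) (nat_lit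 17800671096) (nat_lit 152) (nat_lit 181713475877) (nat_lit 228) (nat_lit 40682053) (nat_lit 17) (nat_lit 5) (nat_lit 19) (nat_lit 5) (nat_lit 20) (nat_lit 5) (nat_lit 297) (nat_lit 281) (nat_lit 142)) (XT.lf (nat_lit 0) (nat_lit 21741576656) (nat_lit 228) (nat_lit 108692196282) (nat_lit 76) (nat_lit 79735898037) (nat_lit 16) (nat_lit 5) (nat_lit 19) (nat_lit 5) (nat_lit 17) (nat_lit 5) (nat_lit 298) (nat_lit 281) (nat_lit 141))))) (XT.nd (nat_lit 234) (nat_lit 152) (nat_lit 0) (XT.nd (nat_lit 78) (nat_lit 152) (nat_lit 0) (XT.lf (nat_lit 0) (nat_lit 45264008093) (nat_lit 228) (nat_lit 29786605922) (nat_lit 76) (nat_lit 146583019846) (nat_lit 16) (nat_lit 5) (nat_lit 19) (nat_lit 5) (nat_lit 17) (nat_lit 5) (nat_lit 299) (nat_lit 281) (nat_lit 140)) (XT.nd (nat_lit 78) (nat_lit 0) (nat_lit 0) (XT.lf (nat_lit 0) (nat_lit 58350087954) (nat_lit 152) (nat_lit 13721272589) (nat_lit 228)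 (nat_lit 161831104330) (nat_lit 14) (nat_lit 5) (nat_lit 16) (nat_lit 5) (nat_lit 17) (nat_lit 5) (nat_lit 300) (nat_lit 281) (nat_lit 139)) (XT.lf (nat_lit 0) (nat_lit 103121659058) (nat_lit 228) (nat_lit 93140327214) (nat_lit 76) (nat_lit 50722948587) (nat_lit 14) (nat_lit 5) (nat_lit 17) (nat_lit 5) (nat_lit 15) (nat_lit 5) (nat_lit 301) (nat_lit 281) (nat_lit 138)))) (XT.nd (nat_lit 78) (nat_lit 152) (nat_lit 0) (XT.lf (nat_lit 0) (nat_lit 137012204602) (nat_lit 228) (nat_lit 4491950638) (nat_lit 76) (nat_lit 119581350393) (nat_lit 14) (nat_lit 5) (nat_lit 17) (nat_lit 5) (nat_lit 15) (nat_lit 5) (nat_lit 302) (nat_lit 281) (nat_lit 137)) (XT.nd (nat_lit 78) (nat_lit 0) (nat_lit 0) (XT.lf (nat_lit 0) (nat_lit 96053035301) (nat_lit 152) (nat_lit 79870875611) (nat_lit 228) (nat_lit 100205418751) (nat_lit 12) (nat_lit 5) (nat_lit 14) (nat_lit 5) (nat_lit 15) (nat_lit 5) (nat_lit 303)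 (nat_lit 281) (nat_lit 136)) (XT.lf (nat_lit 0) (nat_lit 204896864358) (nat_lit 152) (nat_lit 13174353256) (nat_lit 228) (nat_lit 74295629780) (nat_lit 12) (nat_lit 5) (nat_lit 14) (nat_lit 5) (nat_lit 15) (nat_lit 5) (nat_lit 304) (nat_lit 281) (nat_lit 135))))))) (XT.nd (nat_lit 858) (nat_lit 228) (nat_lit 0) (XT.nd (nat_lit 390) (nat_lit 76) (nat_lit 0) (XT.nd (nat_lit 156) (nat_lit 228) (nat_lit 0) (XT.nd (nat_lit 78) (nat_lit 0) (nat_lit 0) (XT.lf (nat_lit 0) (nat_lit 11715125811) (nat_lit 76) (nat_lit 253572321793) (nat_lit 152) (nat_lit 44480148666) (nat_lit 11) (nat_lit 5) (nat_lit 12) (nat_lit 5) (nat_lit 13) (nat_lit 4) (nat_lit 305) (nat_lit 281) (nat_lit 134)) (XT.lf (nat_lit 0) (nat_lit 123449122275) (nat_lit 76) (nat_lit 195556827702) (nat_lit 152) (nat_lit 9336457925) (nat_lit 11) (nat_lit 5) (nat_lit 12) (nat_lit 5) (nat_lit 13) (nat_lit 4) (nat_lit 306) (nat_lit 281)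 (nat_lit 133))) (XT.nd (nat_lit 78) (nat_lit 152) (nat_lit 0) (XT.lf (nat_lit 0) (nat_lit 27186971341) (nat_lit 152) (nat_lit 104969845800) (nat_lit 76) (nat_lit 216191336055) (nat_lit 10) (nat_lit 5) (nat_lit 12) (nat_lit 5) (nat_lit 11) (nat_lit 5) (nat_lit 307) (nat_lit 281) (nat_lit 132)) (XT.nd (nat_lit 78) (nat_lit 0) (nat_lit 0) (XT.lf (nat_lit 0) (nat_lit 2847208751) (nat_lit 152) (nat_lit 63349008136) (nat_lit 228) (nat_lit 303733273148) (nat_lit 8) (nat_lit 5) (nat_lit 10) (nat_lit 5) (nat_lit 11) (nat_lit 5) (nat_lit 308) (nat_lit 281) (nat_lit 131)) (XT.lf (nat_lit 0) (nat_lit 111534362380) (nat_lit 228) (nat_lit 268086778581) (nat_lit 76) (nat_lit 13359540598) (nat_lit 8) (nat_lit 5) (nat_lit 11) (nat_lit 5) (nat_lit 9) (nat_lit 4) (nat_lit 309) (nat_lit 281) (nat_lit 130))))) (XT.nd (nat_lit 234) (nat_lit 0) (nat_lit 0) (XT.nd (nat_lit 78) (nat_lit 76) (nat_lit 0) (XT.lf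 (nat_lit 0) (nat_lit 162144878101) (nat_lit 228) (nat_lit 162817238328) (nat_lit 76) (nat_lit 92782227009) (nat_lit 8) (nat_lit 5) (nat_lit 11) (nat_lit 5) (nat_lit 9) (nat_lit 4) (nat_lit 310) (nat_lit 281) (nat_lit 129)) (XT.nd (nat_lit 78) (nat_lit 76) (nat_lit 0) (XT.lf (nat_lit 0) (nat_lit 216804133048) (nat_lit 228) (nat_lit 49126295857) (nat_lit 76) (nat_lit 178558678006) (nat_lit 8) (nat_lit 5) (nat_lit 11) (nat_lit 5) (nat_lit 9) (nat_lit 4) (nat_lit 311) (nat_lit 281) (nat_lit 128)) (XT.lf (nat_lit 0) (nat_lit 77538566040) (nat_lit 76) (nat_lit 200162272256) (nat_lit 152) (nat_lit 195523436820) (nat_lit 7) (nat_lit 5) (nat_lit 8) (nat_lit 5) (nat_lit 9) (nat_lit 4) (nat_lit 312) (nat_lit 281) (nat_lit 127)))) (XT.nd (nat_lit 78) (nat_lit 0) (nat_lit 0) (XT.lf (nat_lit 0) (nat_lit 217130327562) (nat_lit 76) (nat_lit 127682061421) (nat_lit 152) (nat_lit 159338419486) (nat_lit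 7) (nat_lit 5) (nat_lit 8) (nat_lit 5) (nat_lit 9) (nat_lit 4) (nat_lit 313) (nat_lit 281) (nat_lit 126)) (XT.nd (nat_lit 78) (nat_lit 0) (nat_lit 0) (XT.lf (nat_lit 0) (nat_lit 367889295466) (nat_lit 76) (nat_lit 49403484028) (nat_lit 152) (nat_lit 120258692118) (nat_lit 7) (nat_lit 5) (nat_lit 8) (nat_lit 5) (nat_lit 9) (nat_lit 4) (nat_lit 314) (nat_lit 281) (nat_lit 125)) (XT.lf (nat_lit 0) (nat_lit 496416576957) (nat_lit 152) (nat_lit 43760391873) (nat_lit 0) (nat_lit 33379621272) (nat_lit 7) (nat_lit 5) (nat_lit 9) (nat_lit 4) (nat_lit 7) (nat_lit 4) (nat_lit 315) (nat_lit 281) (nat_lit 124)))))) (XT.nd (nat_lit 468) (nat_lit 0) (nat_lit 0) (XT.nd (nat_lit 234) (nat_lit 76) (nat_lit 0) (XT.nd (nat_lit 78) (nat_lit 76) (nat_lit 0) (XT.lf (nat_lit 0) (nat_lit 95718430926) (nat_lit 76) (nat_lit 489737011981) (nat_lit 76) (nat_lit 26699862318) (nat_lit 6) (nat_lit 4) (nat_lit 7)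 (nat_lit 5) (nat_lit 7) (nat_lit 4) (nat_lit 316) (nat_lit 281) (nat_lit 123)) (XT.nd (nat_lit 78) (nat_lit 0) (nat_lit 0) (XT.lf (nat_lit 0) (nat_lit 27613549013) (nat_lit 152) (nat_lit 405601147325) (nat_lit 76) (nat_lit 220475582066) (nat_lit 5) (nat_lit 5) (nat_lit 7) (nat_lit 5) (nat_lit 6) (nat_lit 4) (nat_lit 317) (nat_lit 281) (nat_lit 122)) (XT.lf (nat_lit 0) (nat_lit 84829479802) (nat_lit 152) (nat_lit 286592177590) (nat_lit 76) (nat_lit 327070917464) (nat_lit 5) (nat_lit 5) (nat_lit 7) (nat_lit 5) (nat_lit 6) (nat_lit 4) (nat_lit 318) (nat_lit 281) (nat_lit 121)))) (XT.nd (nat_lit 78) (nat_lit 76) (nat_lit 0) (XT.lf (nat_lit 0) (nat_lit 146622622664) (nat_lit 152) (nat_lit 158062594425) (nat_lit 76) (nat_lit 442193843167) (nat_lit 5) (nat_lit 5) (nat_lit 7) (nat_lit 5) (nat_lit 6) (nat_lit 4) (nat_lit 319) (nat_lit 281) (nat_lit 120)) (XT.nd (nat_lit 78) (nat_lit 76) (nat_lit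 0) (XT.lf (nat_lit 0) (nat_lit 213359159185) (nat_lit 152) (nat_lit 19250741039) (nat_lit 76) (nat_lit 566526569107) (nat_lit 5) (nat_lit 5) (nat_lit 7) (nat_lit 5) (nat_lit 6) (nat_lit 4) (nat_lit 320) (nat_lit 281) (nat_lit 119)) (XT.lf (nat_lit 0) (nat_lit 137546609815) (nat_lit 76) (nat_lit 151195954598) (nat_lit 152) (nat_lit 566567271265) (nat_lit 4) (nat_lit 5) (nat_lit 5) (nat_lit 5) (nat_lit 6) (nat_lit 4) (nat_lit 321) (nat_lit 281) (nat_lit 118))))) (XT.nd (nat_lit 234) (nat_lit 0) (nat_lit 0) (XT.nd (nat_lit 78) (nat_lit 0) (nat_lit 0) (XT.lf (nat_lit 0) (nat_lit 307982468410) (nat_lit 76) (nat_lit 62700471404) (nat_lit 152) (nat_lit 545252027889) (nat_lit 4) (nat_lit 5) (nat_lit 5) (nat_lit 5) (nat_lit 6) (nat_lit 4) (nat_lit 322) (nat_lit 281) (nat_lit 117)) (XT.nd (nat_lit 78) (nat_lit 0) (nat_lit 0) (XT.lf (nat_lit 0) (nat_lit 459969132797) (nat_lit 152) (nat_lit 490147634528)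 (nat_lit 0) (nat_lit 31230096139) (nat_lit 4) (nat_lit 5) (nat_lit 6) (nat_lit 4) (nat_lit 4) (nat_lit 4) (nat_lit 323) (nat_lit 281) (nat_lit 116)) (XT.lf (nat_lit 0) (nat_lit 558026759904) (nat_lit 152) (nat_lit 364547041842) (nat_lit 0) (nat_lit 129287626209) (nat_lit 4) (nat_lit 5) (nat_lit 6) (nat_lit 4) (nat_lit 4) (nat_lit 4) (nat_lit 324) (nat_lit 281) (nat_lit 115)))) (XT.nd (nat_lit 78) (nat_lit 0) (nat_lit 0) (XT.lf (nat_lit 0) (nat_lit 663928955525) (nat_lit 152) (nat_lit 228898473582) (nat_lit 0) (nat_lit 235189731980) (nat_lit 4) (nat_lit 5) (nat_lit 6) (nat_lit 4) (nat_lit 4) (nat_lit 4) (nat_lit 325) (nat_lit 281) (nat_lit 114)) (XT.nd (nat_lit 34086) (nat_lit 0) (nat_lit 1748) (XT.lf (nat_lit 0) (nat_lit 778303288228) (nat_lit 152) (nat_lit 82398086381) (nat_lit 0) (nat_lit 349563981489) (nat_lit 4) (nat_lit 5) (nat_lit 6) (nat_lit 4) (nat_lit 4) (nat_lit 4) (nat_lit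 326) (nat_lit 281) (nat_lit 113)) (XT.lf (nat_lit 0) (nat_lit 4355628266) (nat_lit 532) (nat_lit 23942688034) (nat_lit 532) (nat_lit 23942688034) (nat_lit 27) (nat_lit 3) (nat_lit 34) (nat_lit 3) (nat_lit 34) (nat_lit 5) (nat_lit 282) (nat_lit 282) (nat_lit 156))))))))
noncomputable def xc114 : XT := (XT.nd (nat_lit 1794) (nat_lit 608) (nat_lit 0) (XT.nd (nat_lit 858) (nat_lit 684) (nat_lit 0) (XT.nd (nat_lit 390) (nat_lit 456) (nat_lit 0) (XT.nd (nat_lit 156) (nat_lit 0) (nat_lit 76) (XT.nd (nat_lit 78) (nat_lit 0) (nat_lit 76) (XT.lf (nat_lit 0) (nat_lit 9064895582) (nat_lit 532) (nat_lit 6612323239) (nat_lit 532) (nat_lit 92983613547) (nat_lit 27) (nat_lit 3) (nat_lit 34) (nat_lit 3) (nat_lit 34) (nat_lit 5) (nat_lit 283) (nat_lit 282) (nat_lit 155)) (XT.lf (nat_lit 0) (nat_lit 11118150290) (nat_lit 456) (nat_lit 73846576591) (nat_lit 532) (nat_lit 28075533275) (nat_lit 28) (nat_lit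 5) (nat_lit 34) (nat_lit 5) (nat_lit 35) (nat_lit 5) (nat_lit 284) (nat_lit 282) (nat_lit 154))) (XT.nd (nat_lit 78) (nat_lit 0) (nat_lit 76) (XT.lf (nat_lit 0) (nat_lit 13927872217) (nat_lit 456) (nat_lit 29127578751) (nat_lit 532) (nat_lit 74667218500) (nat_lit 28) (nat_lit 5) (nat_lit 34) (nat_lit 5) (nat_lit 35) (nat_lit 5) (nat_lit 285) (nat_lit 282) (nat_lit 153)) (XT.nd (nat_lit 78) (nat_lit 0) (nat_lit 0) (XT.lf (nat_lit 0) (nat_lit 17512883697) (nat_lit 456) (nat_lit 102628538244) (nat_lit 532) (nat_lit 2594212204) (nat_lit 29) (nat_lit 5) (nat_lit 35) (nat_lit 5) (nat_lit 36) (nat_lit 5) (nat_lit 286) (nat_lit 282) (nat_lit 152)) (XT.lf (nat_lit 0) (nat_lit 23319687499) (nat_lit 456) (nat_lit 54288209097) (nat_lit 532) (nat_lit 50386943388) (nat_lit 29) (nat_lit 5) (nat_lit 35) (nat_lit 5) (nat_lit 36) (nat_lit 5) (nat_lit 287) (nat_lit 282) (nat_lit 151))))) (XT.nd (nat_lit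 234) (nat_lit 608) (nat_lit 0) (XT.nd (nat_lit 78) (nat_lit 0) (nat_lit 76) (XT.lf (nat_lit 0) (nat_lit 29590649196) (nat_lit 456) (nat_lit 2080960750) (nat_lit 532) (nat_lit 102003206311) (nat_lit 29) (nat_lit 5) (nat_lit 35) (nat_lit 5) (nat_lit 36) (nat_lit 5) (nat_lit 288) (nat_lit 282) (nat_lit 150)) (XT.nd (nat_lit 78) (nat_lit 0) (nat_lit 0) (XT.lf (nat_lit 0) (nat_lit 38204835832) (nat_lit 456) (nat_lit 83004338148) (nat_lit 76) (nat_lit 18452695641) (nat_lit 30) (nat_lit 5) (nat_lit 36) (nat_lit 5) (nat_lit 31) (nat_lit 5) (nat_lit 289) (nat_lit 282) (nat_lit 149)) (XT.lf (nat_lit 0) (nat_lit 48388835132) (nat_lit 456) (nat_lit 26734311690) (nat_lit 76) (nat_lit 70934288833) (nat_lit 30) (nat_lit 5) (nat_lit 36) (nat_lit 5) (nat_lit 31) (nat_lit 5) (nat_lit 290) (nat_lit 282) (nat_lit 148)))) (XT.nd (nat_lit 78) (nat_lit 228) (nat_lit 0) (XT.lf (nat_lit 0) (nat_lit 35829361176)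 (nat_lit 456) (nat_lit 24419578634) (nat_lit 532) (nat_lit 92646798753) (nat_lit 24) (nat_lit 5) (nat_lit 30) (nat_lit 5) (nat_lit 31) (nat_lit 5) (nat_lit 291) (nat_lit 282) (nat_lit 147)) (XT.nd (nat_lit 78) (nat_lit 228) (nat_lit 0) (XT.lf (nat_lit 0) (nat_lit 74537191959) (nat_lit 532) (nat_lit 56053071669) (nat_lit 76) (nat_lit 29572497192) (nat_lit 24) (nat_lit 5) (nat_lit 31) (nat_lit 5) (nat_lit 25) (nat_lit 5) (nat_lit 292) (nat_lit 282) (nat_lit 146)) (XT.lf (nat_lit 0) (nat_lit 9691552496) (nat_lit 228) (nat_lit 81144035690) (nat_lit 304) (nat_lit 77106192039) (nat_lit 21) (nat_lit 5) (nat_lit 24) (nat_lit 5) (nat_lit 25) (nat_lit 5) (nat_lit 293) (nat_lit 282) (nat_lit 145)))))) (XT.nd (nat_lit 468) (nat_lit 304) (nat_lit 0) (XT.nd (nat_lit 234) (nat_lit 228) (nat_lit 0) (XT.nd (nat_lit 78) (nat_lit 152) (nat_lit 0) (XT.lf (nat_lit 0) (nat_lit 83883259639) (nat_lit 228)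 (nat_lit 26086927459) (nat_lit 304) (nat_lit 66250349529) (nat_lit 21) (nat_lit 5) (nat_lit 24) (nat_lit 5) (nat_lit 25) (nat_lit 5) (nat_lit 294) (nat_lit 282) (nat_lit 144)) (XT.nd (nat_lit 78) (nat_lit 152) (nat_lit 0) (XT.lf (nat_lit 0) (nat_lit 131437976989) (nat_lit 304) (nat_lit 21954228817) (nat_lit 76) (nat_lit 31705195675) (nat_lit 21) (nat_lit 5) (nat_lit 25) (nat_lit 5) (nat_lit 22) (nat_lit 5) (nat_lit 295) (nat_lit 282) (nat_lit 143)) (XT.lf (nat_lit 0) (nat_lit 56192607776) (nat_lit 152) (nat_lit 100459375745) (nat_lit 228) (nat_lit 37870130177) (nat_lit 19) (nat_lit 5) (nat_lit 21) (nat_lit 5) (nat_lit 22) (nat_lit 5) (nat_lit 296) (nat_lit 282) (nat_lit 142)))) (XT.nd (nat_lit 78) (nat_lit 228) (nat_lit 0) (XT.lf (nat_lit 0) (nat_lit 141839499471) (nat_lit 152) (nat_lit 42643666498) (nat_lit 228) (nat_lit 20169634019) (nat_lit 19) (nat_lit 5) (nat_lit 21) (nat_lit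 5) (nat_lit 22) (nat_lit 5) (nat_lit 297) (nat_lit 282) (nat_lit 141)) (XT.nd (nat_lit 78) (nat_lit 76) (nat_lit 0) (XT.lf (nat_lit 0) (nat_lit 19229781115) (nat_lit 152) (nat_lit 196249466905) (nat_lit 228) (nat_lit 39622176) (nat_lit 17) (nat_lit 5) (nat_lit 19) (nat_lit 5) (nat_lit 20) (nat_lit 5) (nat_lit 298) (nat_lit 282) (nat_lit 140)) (XT.lf (nat_lit 0) (nat_lit 23484697803) (nat_lit 228) (nat_lit 117382666688) (nat_lit 76) (nat_lit 86115552891) (nat_lit 16) (nat_lit 5) (nat_lit 19) (nat_lit 5) (nat_lit 17) (nat_lit 5) (nat_lit 299) (nat_lit 282) (nat_lit 139))))) (XT.nd (nat_lit 234) (nat_lit 152) (nat_lit 0) (XT.nd (nat_lit 78) (nat_lit 152) (nat_lit 0) (XT.lf (nat_lit 0) (nat_lit 48888642643) (nat_lit 228) (nat_lit 32164992455) (nat_lit 76) (nat_lit 158310386444) (nat_lit 16) (nat_lit 5) (nat_lit 19) (nat_lit 5) (nat_lit 17) (nat_lit 5) (nat_lit 300) (nat_lit 282) (nat_lit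 138)) (XT.nd (nat_lit 78) (nat_lit 0) (nat_lit 0) (XT.lf (nat_lit 0) (nat_lit 63022521946) (nat_lit 152) (nat_lit 14817907522) (nat_lit 228) (nat_lit 174773943495) (nat_lit 14) (nat_lit 5) (nat_lit 16) (nat_lit 5) (nat_lit 17) (nat_lit 5) (nat_lit 301) (nat_lit 282) (nat_lit 137)) (XT.lf (nat_lit 0) (nat_lit 111374526727) (nat_lit 228) (nat_lit 100587210431) (nat_lit 76) (nat_lit 54781722905) (nat_lit 14) (nat_lit 5) (nat_lit 17) (nat_lit 5) (nat_lit 15) (nat_lit 5) (nat_lit 302) (nat_lit 282) (nat_lit 136)))) (XT.nd (nat_lit 78) (nat_lit 152) (nat_lit 0) (XT.lf (nat_lit 0) (nat_lit 147976083697) (nat_lit 228) (nat_lit 4847285429) (nat_lit 76) (nat_lit 129148727342) (nat_lit 14) (nat_lit 5) (nat_lit 17) (nat_lit 5) (nat_lit 15) (nat_lit 5) (nat_lit 303) (nat_lit 282) (nat_lit 135)) (XT.nd (nat_lit 78) (nat_lit 0) (nat_lit 0) (XT.lf (nat_lit 0) (nat_lit 103741197580) (nat_lit 152) (nat_lit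 86259408177) (nat_lit 228) (nat_lit 108218831611) (nat_lit 12) (nat_lit 5) (nat_lit 14) (nat_lit 5) (nat_lit 15) (nat_lit 5) (nat_lit 304) (nat_lit 282) (nat_lit 134)) (XT.lf (nat_lit 0) (nat_lit 221292242632) (nat_lit 152) (nat_lit 14227248292) (nat_lit 228) (nat_lit 80236483274) (nat_lit 12) (nat_lit 5) (nat_lit 14) (nat_lit 5) (nat_lit 15) (nat_lit 5) (nat_lit 305) (nat_lit 282) (nat_lit 133))))))) (XT.nd (nat_lit 858) (nat_lit 228) (nat_lit 0) (XT.nd (nat_lit 390) (nat_lit 76) (nat_lit 0) (XT.nd (nat_lit 156) (nat_lit 228) (nat_lit 0) (XT.nd (nat_lit 78) (nat_lit 0) (nat_lit 0) (XT.lf (nat_lit 0) (nat_lit 12656063830) (nat_lit 76) (nat_lit 273856877787) (nat_lit 152) (nat_lit 48035848687) (nat_lit 11) (nat_lit 5) (nat_lit 12) (nat_lit 5) (nat_lit 13) (nat_lit 4) (nat_lit 306) (nat_lit 282) (nat_lit 132)) (XT.lf (nat_lit 0) (nat_lit 133328503866) (nat_lit 76) (nat_lit 211200235262)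 (nat_lit 152) (nat_lit 10080863567) (nat_lit 11) (nat_lit 5) (nat_lit 12) (nat_lit 5) (nat_lit 13) (nat_lit 4) (nat_lit 307) (nat_lit 282) (nat_lit 131))) (XT.nd (nat_lit 78) (nat_lit 152) (nat_lit 0) (XT.lf (nat_lit 0) (nat_lit 29364137736) (nat_lit 152) (nat_lit 113364110076) (nat_lit 76) (nat_lit 233487569982) (nat_lit 10) (nat_lit 5) (nat_lit 12) (nat_lit 5) (nat_lit 11) (nat_lit 5) (nat_lit 308) (nat_lit 282) (nat_lit 130)) (XT.nd (nat_lit 78) (nat_lit 0) (nat_lit 0) (XT.lf (nat_lit 0) (nat_lit 3078224704) (nat_lit 152) (nat_lit 68415812520) (nat_lit 228) (nat_lit 328029632024) (nat_lit 8) (nat_lit 5) (nat_lit 10) (nat_lit 5) (nat_lit 11) (nat_lit 5) (nat_lit 309) (nat_lit 282) (nat_lit 129)) (XT.lf (nat_lit 0) (nat_lit 120459101955) (nat_lit 228) (nat_lit 289530579760) (nat_lit 76) (nat_lit 14429285723) (nat_lit 8) (nat_lit 5) (nat_lit 11) (nat_lit 5) (nat_lit 9) (nat_lit 4)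 (nat_lit 310) (nat_lit 282) (nat_lit 128))))) (XT.nd (nat_lit 234) (nat_lit 0) (nat_lit 0) (XT.nd (nat_lit 78) (nat_lit 76) (nat_lit 0) (XT.lf (nat_lit 0) (nat_lit 175118311483) (nat_lit 228) (nat_lit 175839708961) (nat_lit 76) (nat_lit 100205714315) (nat_lit 8) (nat_lit 5) (nat_lit 11) (nat_lit 5) (nat_lit 9) (nat_lit 4) (nat_lit 311) (nat_lit 282) (nat_lit 127)) (XT.nd (nat_lit 78) (nat_lit 76) (nat_lit 0) (XT.lf (nat_lit 0) (nat_lit 234150170298) (nat_lit 228) (nat_lit 53053706532) (nat_lit 76) (nat_lit 192844214047) (nat_lit 8) (nat_lit 5) (nat_lit 11) (nat_lit 5) (nat_lit 9) (nat_lit 4) (nat_lit 312) (nat_lit 282) (nat_lit 126)) (XT.lf (nat_lit 0) (nat_lit 83744276140) (nat_lit 76) (nat_lit 216174272537) (nat_lit 152) (nat_lit 211163529521) (nat_lit 7) (nat_lit 5) (nat_lit 8) (nat_lit 5) (nat_lit 9) (nat_lit 4) (nat_lit 313) (nat_lit 282) (nat_lit 125)))) (XT.nd (nat_lit 78) (nat_lit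 0) (nat_lit 0) (XT.lf (nat_lit 0) (nat_lit 234503184153) (nat_lit 76) (nat_lit 137895717539) (nat_lit 152) (nat_lit 172083842819) (nat_lit 7) (nat_lit 5) (nat_lit 8) (nat_lit 5) (nat_lit 9) (nat_lit 4) (nat_lit 314) (nat_lit 282) (nat_lit 124)) (XT.nd (nat_lit 78) (nat_lit 0) (nat_lit 0) (XT.lf (nat_lit 0) (nat_lit 397322689460) (nat_lit 76) (nat_lit 53354921272) (nat_lit 152) (nat_lit 129877859500) (nat_lit 7) (nat_lit 5) (nat_lit 8) (nat_lit 5) (nat_lit 9) (nat_lit 4) (nat_lit 315) (nat_lit 282) (nat_lit 123)) (XT.lf (nat_lit 0) (nat_lit 536131226370) (nat_lit 152) (nat_lit 47259048013) (nat_lit 0) (nat_lit 36050731144) (nat_lit 7) (nat_lit 5) (nat_lit 9) (nat_lit 4) (nat_lit 7) (nat_lit 4) (nat_lit 316) (nat_lit 282) (nat_lit 122)))))) (XT.nd (nat_lit 468) (nat_lit 0) (nat_lit 0) (XT.nd (nat_lit 234) (nat_lit 76) (nat_lit 0) (XT.nd (nat_lit 78) (nat_lit 76) (nat_lit 0) (XT.lf (nat_lit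 0) (nat_lit 103378025542) (nat_lit 76) (nat_lit 528915129025) (nat_lit 76) (nat_lit 28834467493) (nat_lit 6) (nat_lit 4) (nat_lit 7) (nat_lit 5) (nat_lit 7) (nat_lit 4) (nat_lit 317) (nat_lit 282) (nat_lit 121)) (XT.nd (nat_lit 78) (nat_lit 0) (nat_lit 0) (XT.lf (nat_lit 0) (nat_lit 29823850143) (nat_lit 152) (nat_lit 438047207218) (nat_lit 76) (nat_lit 238114341236) (nat_lit 5) (nat_lit 5) (nat_lit 7) (nat_lit 5) (nat_lit 6) (nat_lit 4) (nat_lit 318) (nat_lit 282) (nat_lit 120)) (XT.lf (nat_lit 0) (nat_lit 91616965232) (nat_lit 152) (nat_lit 309517670415) (nat_lit 76) (nat_lit 353237250680) (nat_lit 5) (nat_lit 5) (nat_lit 7) (nat_lit 5) (nat_lit 6) (nat_lit 4) (nat_lit 319) (nat_lit 282) (nat_lit 119)))) (XT.nd (nat_lit 78) (nat_lit 76) (nat_lit 0) (XT.lf (nat_lit 0) (nat_lit 158353476037) (nat_lit 152) (nat_lit 170705859958) (nat_lit 76) (nat_lit 477569961564) (nat_lit 5) (nat_lit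 5) (nat_lit 7) (nat_lit 5) (nat_lit 6) (nat_lit 4) (nat_lit 320) (nat_lit 282) (nat_lit 118)) (XT.nd (nat_lit 78) (nat_lit 76) (nat_lit 0) (XT.lf (nat_lit 0) (nat_lit 230428858180) (nat_lit 152) (nat_lit 20789187341) (nat_lit 76) (nat_lit 611849260324) (nat_lit 5) (nat_lit 5) (nat_lit 7) (nat_lit 5) (nat_lit 6) (nat_lit 4) (nat_lit 321) (nat_lit 282) (nat_lit 117)) (XT.lf (nat_lit 0) (nat_lit 148551910748) (nat_lit 76) (nat_lit 163290991314) (nat_lit 152) (nat_lit 611891642415) (nat_lit 4) (nat_lit 5) (nat_lit 5) (nat_lit 5) (nat_lit 6) (nat_lit 4) (nat_lit 322) (nat_lit 282) (nat_lit 116))))) (XT.nd (nat_lit 234) (nat_lit 0) (nat_lit 0) (XT.nd (nat_lit 78) (nat_lit 0) (nat_lit 0) (XT.lf (nat_lit 0) (nat_lit 332622521575) (nat_lit 76) (nat_lit 67715916846) (nat_lit 152) (nat_lit 588871254425) (nat_lit 4) (nat_lit 5) (nat_lit 5) (nat_lit 5) (nat_lit 6) (nat_lit 4) (nat_lit 323) (nat_lit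 282) (nat_lit 115)) (XT.nd (nat_lit 78) (nat_lit 0) (nat_lit 0) (XT.lf (nat_lit 0) (nat_lit 496767476074) (nat_lit 152) (nat_lit 529358043696) (nat_lit 0) (nat_lit 33729024796) (nat_lit 4) (nat_lit 5) (nat_lit 6) (nat_lit 4) (nat_lit 4) (nat_lit 4) (nat_lit 324) (nat_lit 282) (nat_lit 114)) (XT.lf (nat_lit 0) (nat_lit 602669653153) (nat_lit 152) (nat_lit 393709507417) (nat_lit 0) (nat_lit 139631118680) (nat_lit 4) (nat_lit 5) (nat_lit 6) (nat_lit 4) (nat_lit 4) (nat_lit 4) (nat_lit 325) (nat_lit 282) (nat_lit 113)))) (XT.nd (nat_lit 34164) (nat_lit 0) (nat_lit 1748) (XT.lf (nat_lit 0) (nat_lit 717043968687) (nat_lit 152) (nat_lit 247209149828) (nat_lit 0) (nat_lit 254005357182) (nat_lit 4) (nat_lit 5) (nat_lit 6) (nat_lit 4) (nat_lit 4) (nat_lit 4) (nat_lit 326) (nat_lit 282) (nat_lit 112)) (XT.nd (nat_lit 78) (nat_lit 0) (nat_lit 0) (XT.lf (nat_lit 0) (nat_lit 4709142525) (nat_lit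 532) (nat_lit 25855348245) (nat_lit 532) (nat_lit 25855348245) (nat_lit 27) (nat_lit 3) (nat_lit 34) (nat_lit 3) (nat_lit 34) (nat_lit 5) (nat_lit 283) (nat_lit 283) (nat_lit 154)) (XT.lf (nat_lit 0) (nat_lit 9799465003) (nat_lit 532) (nat_lit 7136207557) (nat_lit 532) (nat_lit 100417201090) (nat_lit 27) (nat_lit 3) (nat_lit 34) (nat_lit 3) (nat_lit 34) (nat_lit 5) (nat_lit 284) (nat_lit 283) (nat_lit 153))))))))
noncomputable def xc115 : XT := (XT.nd (nat_lit 1794) (nat_lit 532) (nat_lit 0) (XT.nd (nat_lit 858) (nat_lit 760) (nat_lit 0) (XT.nd (nat_lit 390) (nat_lit 532) (nat_lit 0) (XT.nd (nat_lit 156) (nat_lit 0) (nat_lit 76) (XT.nd (nat_lit 78) (nat_lit 0) (nat_lit 0) (XT.lf (nat_lit 0) (nat_lit 12016312905) (nat_lit 456) (nat_lit 79748464471) (nat_lit 532) (nat_lit 30317937223) (nat_lit 28) (nat_lit 5) (nat_lit 34) (nat_lit 5) (nat_lit 35) (nat_lit 5) (nat_lit 285) (nat_lit 283)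 (nat_lit 152)) (XT.lf (nat_lit 0) (nat_lit 15050167357) (nat_lit 456) (nat_lit 31452379266) (nat_lit 532) (nat_lit 80637226801) (nat_lit 28) (nat_lit 5) (nat_lit 34) (nat_lit 5) (nat_lit 35) (nat_lit 5) (nat_lit 286) (nat_lit 283) (nat_lit 151))) (XT.nd (nat_lit 78) (nat_lit 0) (nat_lit 0) (XT.lf (nat_lit 0) (nat_lit 18921453105) (nat_lit 456) (nat_lit 110832829264) (nat_lit 532) (nat_lit 2799539806) (nat_lit 29) (nat_lit 5) (nat_lit 35) (nat_lit 5) (nat_lit 36) (nat_lit 5) (nat_lit 287) (nat_lit 283) (nat_lit 150)) (XT.nd (nat_lit 78) (nat_lit 0) (nat_lit 0) (XT.lf (nat_lit 0) (nat_lit 25192242788) (nat_lit 456) (nat_lit 58625717639) (nat_lit 532) (nat_lit 54415853142) (nat_lit 29) (nat_lit 5) (nat_lit 35) (nat_lit 5) (nat_lit 36) (nat_lit 5) (nat_lit 288) (nat_lit 283) (nat_lit 149)) (XT.lf (nat_lit 0) (nat_lit 31964364362) (nat_lit 456) (nat_lit 2242300402) (nat_lit 532) (nat_lit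 110161568634) (nat_lit 29) (nat_lit 5) (nat_lit 35) (nat_lit 5) (nat_lit 36) (nat_lit 5) (nat_lit 289) (nat_lit 283) (nat_lit 148))))) (XT.nd (nat_lit 234) (nat_lit 228) (nat_lit 0) (XT.nd (nat_lit 78) (nat_lit 456) (nat_lit 0) (XT.lf (nat_lit 0) (nat_lit 41267301193) (nat_lit 456) (nat_lit 89639115938) (nat_lit 76) (nat_lit 19927868464) (nat_lit 30) (nat_lit 5) (nat_lit 36) (nat_lit 5) (nat_lit 31) (nat_lit 5) (nat_lit 290) (nat_lit 283) (nat_lit 147)) (XT.nd (nat_lit 78) (nat_lit 456) (nat_lit 0) (XT.lf (nat_lit 0) (nat_lit 52265570178) (nat_lit 456) (nat_lit 28867899902) (nat_lit 76) (nat_lit 76608066357) (nat_lit 30) (nat_lit 5) (nat_lit 36) (nat_lit 5) (nat_lit 31) (nat_lit 5) (nat_lit 291) (nat_lit 283) (nat_lit 146)) (XT.lf (nat_lit 0) (nat_lit 38700736244) (nat_lit 456) (nat_lit 26373450959) (nat_lit 532) (nat_lit 100052743301) (nat_lit 24) (nat_lit 5) (nat_lit 30) (nat_lit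 5) (nat_lit 31) (nat_lit 5) (nat_lit 292) (nat_lit 283) (nat_lit 145)))) (XT.nd (nat_lit 78) (nat_lit 228) (nat_lit 0) (XT.lf (nat_lit 0) (nat_lit 80505097731) (nat_lit 532) (nat_lit 60532224183) (nat_lit 76) (nat_lit 31938027777) (nat_lit 24) (nat_lit 5) (nat_lit 31) (nat_lit 5) (nat_lit 25) (nat_lit 5) (nat_lit 293) (nat_lit 283) (nat_lit 144)) (XT.nd (nat_lit 78) (nat_lit 0) (nat_lit 0) (XT.lf (nat_lit 0) (nat_lit 10471840973) (nat_lit 228) (nat_lit 87635278858) (nat_lit 304) (nat_lit 83269593265) (nat_lit 21) (nat_lit 5) (nat_lit 24) (nat_lit 5) (nat_lit 25) (nat_lit 5) (nat_lit 294) (nat_lit 283) (nat_lit 143)) (XT.lf (nat_lit 0) (nat_lit 90598516963) (nat_lit 228) (nat_lit 28173622687) (nat_lit 304) (nat_lit 71545660699) (nat_lit 21) (nat_lit 5) (nat_lit 24) (nat_lit 5) (nat_lit 25) (nat_lit 5) (nat_lit 295) (nat_lit 283) (nat_lit 142)))))) (XT.nd (nat_lit 468) (nat_lit 380)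 (nat_lit 0) (XT.nd (nat_lit 234) (nat_lit 228) (nat_lit 0) (XT.nd (nat_lit 78) (nat_lit 152) (nat_lit 0) (XT.lf (nat_lit 0) (nat_lit 141957037197) (nat_lit 304) (nat_lit 23705965702) (nat_lit 76) (nat_lit 34241839120) (nat_lit 21) (nat_lit 5) (nat_lit 25) (nat_lit 5) (nat_lit 22) (nat_lit 5) (nat_lit 296) (nat_lit 283) (nat_lit 141)) (XT.nd (nat_lit 78) (nat_lit 0) (nat_lit 0) (XT.lf (nat_lit 0) (nat_lit 60692501327) (nat_lit 152) (nat_lit 108495472856) (nat_lit 228) (nat_lit 40895574443) (nat_lit 19) (nat_lit 5) (nat_lit 21) (nat_lit 5) (nat_lit 22) (nat_lit 5) (nat_lit 297) (nat_lit 283) (nat_lit 140)) (XT.lf (nat_lit 0) (nat_lit 153190812140) (nat_lit 152) (nat_lit 46054555237) (nat_lit 228) (nat_lit 21779347196) (nat_lit 19) (nat_lit 5) (nat_lit 21) (nat_lit 5) (nat_lit 22) (nat_lit 5) (nat_lit 298) (nat_lit 283) (nat_lit 139)))) (XT.nd (nat_lit 78) (nat_lit 76) (nat_lit 0) (XT.lf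 (nat_lit 0) (nat_lit 20772498593) (nat_lit 152) (nat_lit 211948492295) (nat_lit 228) (nat_lit 39093012) (nat_lit 17) (nat_lit 5) (nat_lit 19) (nat_lit 5) (nat_lit 20) (nat_lit 5) (nat_lit 299) (nat_lit 283) (nat_lit 138)) (XT.nd (nat_lit 78) (nat_lit 0) (nat_lit 0) (XT.lf (nat_lit 0) (nat_lit 25366727240) (nat_lit 228) (nat_lit 126769074521) (nat_lit 76) (nat_lit 93005468428) (nat_lit 16) (nat_lit 5) (nat_lit 19) (nat_lit 5) (nat_lit 17) (nat_lit 5) (nat_lit 300) (nat_lit 283) (nat_lit 137)) (XT.lf (nat_lit 0) (nat_lit 52802746659) (nat_lit 228) (nat_lit 34734297868) (nat_lit 76) (nat_lit 170975838939) (nat_lit 16) (nat_lit 5) (nat_lit 19) (nat_lit 5) (nat_lit 17) (nat_lit 5) (nat_lit 301) (nat_lit 283) (nat_lit 136))))) (XT.nd (nat_lit 234) (nat_lit 228) (nat_lit 0) (XT.nd (nat_lit 78) (nat_lit 0) (nat_lit 0) (XT.lf (nat_lit 0) (nat_lit 68068119102) (nat_lit 152) (nat_lit 16002425452)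 (nat_lit 228) (nat_lit 188752730390) (nat_lit 14) (nat_lit 5) (nat_lit 16) (nat_lit 5) (nat_lit 17) (nat_lit 5) (nat_lit 302) (nat_lit 283) (nat_lit 135)) (XT.nd (nat_lit 78) (nat_lit 0) (nat_lit 0) (XT.lf (nat_lit 0) (nat_lit 120287176575) (nat_lit 228) (nat_lit 108630463878) (nat_lit 76) (nat_lit 59165065290) (nat_lit 14) (nat_lit 5) (nat_lit 17) (nat_lit 5) (nat_lit 15) (nat_lit 5) (nat_lit 303) (nat_lit 283) (nat_lit 134)) (XT.lf (nat_lit 0) (nat_lit 159816659012) (nat_lit 228) (nat_lit 5231620682) (nat_lit 76) (nat_lit 139481370485) (nat_lit 14) (nat_lit 5) (nat_lit 17) (nat_lit 5) (nat_lit 15) (nat_lit 5) (nat_lit 304) (nat_lit 283) (nat_lit 133)))) (XT.nd (nat_lit 78) (nat_lit 76) (nat_lit 0) (XT.lf (nat_lit 0) (nat_lit 112043853688) (nat_lit 152) (nat_lit 93159185622) (nat_lit 228) (nat_lit 116873748429) (nat_lit 12) (nat_lit 5) (nat_lit 14) (nat_lit 5) (nat_lit 15) (nat_lit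 5) (nat_lit 305) (nat_lit 283) (nat_lit 132)) (XT.nd (nat_lit 78) (nat_lit 76) (nat_lit 0) (XT.lf (nat_lit 0) (nat_lit 238998733432) (nat_lit 152) (nat_lit 15364525185) (nat_lit 228) (nat_lit 86653004055) (nat_lit 12) (nat_lit 5) (nat_lit 14) (nat_lit 5) (nat_lit 15) (nat_lit 5) (nat_lit 306) (nat_lit 283) (nat_lit 131)) (XT.lf (nat_lit 0) (nat_lit 13671745056) (nat_lit 76) (nat_lit 295764373698) (nat_lit 152) (nat_lit 51876391589) (nat_lit 11) (nat_lit 5) (nat_lit 12) (nat_lit 5) (nat_lit 13) (nat_lit 4) (nat_lit 307) (nat_lit 283) (nat_lit 130))))))) (XT.nd (nat_lit 858) (nat_lit 152) (nat_lit 0) (XT.nd (nat_lit 390) (nat_lit 152) (nat_lit 0) (XT.nd (nat_lit 156) (nat_lit 152) (nat_lit 0) (XT.nd (nat_lit 78) (nat_lit 76) (nat_lit 0) (XT.lf (nat_lit 0) (nat_lit 143997743545) (nat_lit 76) (nat_lit 228095277868) (nat_lit 152) (nat_lit 10885179881) (nat_lit 11) (nat_lit 5) (nat_lit 12)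 (nat_lit 5) (nat_lit 13) (nat_lit 4) (nat_lit 308) (nat_lit 283) (nat_lit 129)) (XT.lf (nat_lit 0) (nat_lit 31715162348) (nat_lit 152) (nat_lit 122430389611) (nat_lit 76) (nat_lit 252167370370) (nat_lit 10) (nat_lit 5) (nat_lit 12) (nat_lit 5) (nat_lit 11) (nat_lit 5) (nat_lit 309) (nat_lit 283) (nat_lit 128))) (XT.nd (nat_lit 78) (nat_lit 0) (nat_lit 0) (XT.lf (nat_lit 0) (nat_lit 3327259817) (nat_lit 152) (nat_lit 73888120502) (nat_lit 228) (nat_lit 354270028156) (nat_lit 8) (nat_lit 5) (nat_lit 10) (nat_lit 5) (nat_lit 11) (nat_lit 5) (nat_lit 310) (nat_lit 283) (nat_lit 127)) (XT.nd (nat_lit 78) (nat_lit 0) (nat_lit 0) (XT.lf (nat_lit 0) (nat_lit 130097536717) (nat_lit 228) (nat_lit 312690333147) (nat_lit 76) (nat_lit 15584470382) (nat_lit 8) (nat_lit 5) (nat_lit 11) (nat_lit 5) (nat_lit 9) (nat_lit 4) (nat_lit 311) (nat_lit 283) (nat_lit 126)) (XT.lf (nat_lit 0) (nat_lit 189129356592)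 (nat_lit 228) (nat_lit 189904392165) (nat_lit 76) (nat_lit 108222950906) (nat_lit 8) (nat_lit 5) (nat_lit 11) (nat_lit 5) (nat_lit 9) (nat_lit 4) (nat_lit 312) (nat_lit 283) (nat_lit 125))))) (XT.nd (nat_lit 234) (nat_lit 76) (nat_lit 0) (XT.nd (nat_lit 78) (nat_lit 76) (nat_lit 0) (XT.lf (nat_lit 0) (nat_lit 252883647061) (nat_lit 228) (nat_lit 57295694246) (nat_lit 76) (nat_lit 208272472880) (nat_lit 8) (nat_lit 5) (nat_lit 11) (nat_lit 5) (nat_lit 9) (nat_lit 4) (nat_lit 313) (nat_lit 283) (nat_lit 124)) (XT.nd (nat_lit 78) (nat_lit 0) (nat_lit 0) (XT.lf (nat_lit 0) (nat_lit 90446068588) (nat_lit 76) (nat_lit 233467372863) (nat_lit 152) (nat_lit 228055083896) (nat_lit 7) (nat_lit 5) (nat_lit 8) (nat_lit 5) (nat_lit 9) (nat_lit 4) (nat_lit 314) (nat_lit 283) (nat_lit 123)) (XT.lf (nat_lit 0) (nat_lit 253265522549) (nat_lit 76) (nat_lit 148926595796) (nat_lit 152) (nat_lit 185849135442)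 (nat_lit 7) (nat_lit 5) (nat_lit 8) (nat_lit 5) (nat_lit 9) (nat_lit 4) (nat_lit 315) (nat_lit 283) (nat_lit 122)))) (XT.nd (nat_lit 78) (nat_lit 76) (nat_lit 0) (XT.lf (nat_lit 0) (nat_lit 429110433936) (nat_lit 76) (nat_lit 57622593542) (nat_lit 152) (nat_lit 140266778257) (nat_lit 7) (nat_lit 5) (nat_lit 8) (nat_lit 5) (nat_lit 9) (nat_lit 4) (nat_lit 316) (nat_lit 283) (nat_lit 121)) (XT.nd (nat_lit 78) (nat_lit 76) (nat_lit 0) (XT.lf (nat_lit 0) (nat_lit 579022858959) (nat_lit 152) (nat_lit 51037906961) (nat_lit 0) (nat_lit 38935424212) (nat_lit 7) (nat_lit 5) (nat_lit 9) (nat_lit 4) (nat_lit 7) (nat_lit 4) (nat_lit 317) (nat_lit 283) (nat_lit 120)) (XT.lf (nat_lit 0) (nat_lit 111650085265) (nat_lit 76) (nat_lit 571227615826) (nat_lit 76) (nat_lit 31140038499) (nat_lit 6) (nat_lit 4) (nat_lit 7) (nat_lit 5) (nat_lit 7) (nat_lit 4) (nat_lit 318) (nat_lit 283) (nat_lit 119))))))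 (XT.nd (nat_lit 468) (nat_lit 0) (nat_lit 0) (XT.nd (nat_lit 234) (nat_lit 76) (nat_lit 0) (XT.nd (nat_lit 78) (nat_lit 0) (nat_lit 0) (XT.lf (nat_lit 0) (nat_lit 32210801716) (nat_lit 152) (nat_lit 473089241776) (nat_lit 76) (nat_lit 257164099478) (nat_lit 5) (nat_lit 5) (nat_lit 7) (nat_lit 5) (nat_lit 6) (nat_lit 4) (nat_lit 319) (nat_lit 283) (nat_lit 118)) (XT.nd (nat_lit 78) (nat_lit 0) (nat_lit 0) (XT.lf (nat_lit 0) (nat_lit 98947288710) (nat_lit 152) (nat_lit 334277471067) (nat_lit 76) (nat_lit 381496796423) (nat_lit 5) (nat_lit 5) (nat_lit 7) (nat_lit 5) (nat_lit 6) (nat_lit 4) (nat_lit 320) (nat_lit 283) (nat_lit 117)) (XT.lf (nat_lit 0) (nat_lit 171022648806) (nat_lit 152) (nat_lit 184360835253) (nat_lit 76) (nat_lit 515776082275) (nat_lit 5) (nat_lit 5) (nat_lit 7) (nat_lit 5) (nat_lit 6) (nat_lit 4) (nat_lit 321) (nat_lit 283) (nat_lit 116)))) (XT.nd (nat_lit 78) (nat_lit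 76) (nat_lit 0) (XT.lf (nat_lit 0) (nat_lit 248863995247) (nat_lit 152) (nat_lit 22450939456) (nat_lit 76) (nat_lit 660797686137) (nat_lit 5) (nat_lit 5) (nat_lit 7) (nat_lit 5) (nat_lit 6) (nat_lit 4) (nat_lit 322) (nat_lit 283) (nat_lit 115)) (XT.nd (nat_lit 78) (nat_lit 0) (nat_lit 0) (XT.lf (nat_lit 0) (nat_lit 160437411470) (nat_lit 76) (nat_lit 176353722221) (nat_lit 152) (nat_lit 660842107424) (nat_lit 4) (nat_lit 5) (nat_lit 5) (nat_lit 5) (nat_lit 6) (nat_lit 4) (nat_lit 323) (nat_lit 283) (nat_lit 114)) (XT.lf (nat_lit 0) (nat_lit 359233571322) (nat_lit 76) (nat_lit 73132682418) (nat_lit 152) (nat_lit 635980152571) (nat_lit 4) (nat_lit 5) (nat_lit 5) (nat_lit 5) (nat_lit 6) (nat_lit 4) (nat_lit 324) (nat_lit 283) (nat_lit 113))))) (XT.nd (nat_lit 34476) (nat_lit 0) (nat_lit 1824) (XT.nd (nat_lit 34320) (nat_lit 0) (nat_lit 1748) (XT.lf (nat_lit 0) (nat_lit 536509570879) (nat_lit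 152) (nat_lit 571705485551) (nat_lit 0) (nat_lit 36427793423) (nat_lit 4) (nat_lit 5) (nat_lit 6) (nat_lit 4) (nat_lit 4) (nat_lit 4) (nat_lit 325) (nat_lit 283) (nat_lit 112)) (XT.nd (nat_lit 78) (nat_lit 0) (nat_lit 0) (XT.lf (nat_lit 0) (nat_lit 5090215489) (nat_lit 532) (nat_lit 27921414280) (nat_lit 532) (nat_lit 27921414280) (nat_lit 27) (nat_lit 3) (nat_lit 34) (nat_lit 3) (nat_lit 34) (nat_lit 5) (nat_lit 284) (nat_lit 284) (nat_lit 152)) (XT.lf (nat_lit 0) (nat_lit 10591462133) (nat_lit 532) (nat_lit 7702730413) (nat_lit 532) (nat_lit 108446203428) (nat_lit 27) (nat_lit 3) (nat_lit 34) (nat_lit 3) (nat_lit 34) (nat_lit 5) (nat_lit 285) (nat_lit 284) (nat_lit 151)))) (XT.nd (nat_lit 78) (nat_lit 0) (nat_lit 0) (XT.lf (nat_lit 0) (nat_lit 12985085865) (nat_lit 456) (nat_lit 86123336272) (nat_lit 532) (nat_lit 32740252590) (nat_lit 28) (nat_lit 5) (nat_lit 34) (nat_lit 5) (nat_lit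 35) (nat_lit 5) (nat_lit 286) (nat_lit 284) (nat_lit 150)) (XT.nd (nat_lit 78) (nat_lit 0) (nat_lit 76) (XT.lf (nat_lit 0) (nat_lit 16261095493) (nat_lit 456) (nat_lit 33963935018) (nat_lit 532) (nat_lit 87085316416) (nat_lit 28) (nat_lit 5) (nat_lit 34) (nat_lit 5) (nat_lit 35) (nat_lit 5) (nat_lit 287) (nat_lit 284) (nat_lit 149)) (XT.lf (nat_lit 0) (nat_lit 20441632583) (nat_lit 456) (nat_lit 119694318397) (nat_lit 532) (nat_lit 3021608809) (nat_lit 29) (nat_lit 5) (nat_lit 35) (nat_lit 5) (nat_lit 36) (nat_lit 5) (nat_lit 288) (nat_lit 284) (nat_lit 148))))))))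
noncomputable def xc116 : XT := (XT.nd (nat_lit 1794) (nat_lit 304) (nat_lit 0) (XT.nd (nat_lit 858) (nat_lit 836) (nat_lit 0) (XT.nd (nat_lit 390) (nat_lit 380) (nat_lit 0) (XT.nd (nat_lit 156) (nat_lit 380) (nat_lit 0) (XT.nd (nat_lit 78) (nat_lit 0) (nat_lit 0) (XT.lf (nat_lit 0) (nat_lit 27213606684) (nat_lit 456) (nat_lit 63311018376) (nat_lit 532) (nat_lit 58767367521) (nat_lit 29) (nat_lit 5) (nat_lit 35) (nat_lit 5) (nat_lit 36) (nat_lit 5) (nat_lit 289) (nat_lit 284) (nat_lit 147)) (XT.lf (nat_lit 0) (nat_lit 34527054690) (nat_lit 456) (nat_lit 2417280105) (nat_lit 532) (nat_lit 118972870168) (nat_lit 29) (nat_lit 5) (nat_lit 35) (nat_lit 5) (nat_lit 36) (nat_lit 5) (nat_lit 290) (nat_lit 284) (nat_lit 146))) (XT.nd (nat_lit 78) (nat_lit 456) (nat_lit 0) (XT.lf (nat_lit 0) (nat_lit 44573896617) (nat_lit 456) (nat_lit 96805470469) (nat_lit 76) (nat_lit 21521203884) (nat_lit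 30) (nat_lit 5) (nat_lit 36) (nat_lit 5) (nat_lit 31) (nat_lit 5) (nat_lit 291) (nat_lit 284) (nat_lit 145)) (XT.nd (nat_lit 78) (nat_lit 456) (nat_lit 0) (XT.lf (nat_lit 0) (nat_lit 56451641097) (nat_lit 456) (nat_lit 31172910835) (nat_lit 76) (nat_lit 82735883835) (nat_lit 30) (nat_lit 5) (nat_lit 36) (nat_lit 5) (nat_lit 31) (nat_lit 5) (nat_lit 292) (nat_lit 284) (nat_lit 144)) (XT.lf (nat_lit 0) (nat_lit 41801104277) (nat_lit 456) (nat_lit 28483589411) (nat_lit 532) (nat_lit 108051990756) (nat_lit 24) (nat_lit 5) (nat_lit 30) (nat_lit 5) (nat_lit 31) (nat_lit 5) (nat_lit 293) (nat_lit 284) (nat_lit 143))))) (XT.nd (nat_lit 234) (nat_lit 152) (nat_lit 0) (XT.nd (nat_lit 78) (nat_lit 228) (nat_lit 0) (XT.lf (nat_lit 0) (nat_lit 86949732586) (nat_lit 532) (nat_lit 65370435503) (nat_lit 76) (nat_lit 34492839211) (nat_lit 24) (nat_lit 5) (nat_lit 31) (nat_lit 5) (nat_lit 25) (nat_lit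 5) (nat_lit 294) (nat_lit 284) (nat_lit 142)) (XT.nd (nat_lit 78) (nat_lit 0) (nat_lit 0) (XT.lf (nat_lit 0) (nat_lit 11313844318) (nat_lit 228) (nat_lit 94645861380) (nat_lit 304) (nat_lit 89926793325) (nat_lit 21) (nat_lit 5) (nat_lit 24) (nat_lit 5) (nat_lit 25) (nat_lit 5) (nat_lit 295) (nat_lit 284) (nat_lit 141)) (XT.lf (nat_lit 0) (nat_lit 97850339123) (nat_lit 228) (nat_lit 30427290477) (nat_lit 304) (nat_lit 77265269665) (nat_lit 21) (nat_lit 5) (nat_lit 24) (nat_lit 5) (nat_lit 25) (nat_lit 5) (nat_lit 296) (nat_lit 284) (nat_lit 140)))) (XT.nd (nat_lit 78) (nat_lit 152) (nat_lit 0) (XT.lf (nat_lit 0) (nat_lit 153317048430) (nat_lit 304) (nat_lit 25598497982) (nat_lit 76) (nat_lit 36981381544) (nat_lit 21) (nat_lit 5) (nat_lit 25) (nat_lit 5) (nat_lit 22) (nat_lit 5) (nat_lit 297) (nat_lit 284) (nat_lit 139)) (XT.nd (nat_lit 78) (nat_lit 0) (nat_lit 0) (XT.lf (nat_lit 0)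 (nat_lit 65551746537) (nat_lit 152) (nat_lit 117174550887) (nat_lit 228) (nat_lit 44163648597) (nat_lit 19) (nat_lit 5) (nat_lit 21) (nat_lit 5) (nat_lit 22) (nat_lit 5) (nat_lit 298) (nat_lit 284) (nat_lit 138)) (XT.lf (nat_lit 0) (nat_lit 165449637393) (nat_lit 152) (nat_lit 49738401325) (nat_lit 228) (nat_lit 23518387748) (nat_lit 19) (nat_lit 5) (nat_lit 21) (nat_lit 5) (nat_lit 22) (nat_lit 5) (nat_lit 299) (nat_lit 284) (nat_lit 137)))))) (XT.nd (nat_lit 468) (nat_lit 456) (nat_lit 0) (XT.nd (nat_lit 234) (nat_lit 152) (nat_lit 0) (XT.nd (nat_lit 78) (nat_lit 76) (nat_lit 0) (XT.lf (nat_lit 0) (nat_lit 22438015035) (nat_lit 152) (nat_lit 228903572671) (nat_lit 228) (nat_lit 39049210) (nat_lit 17) (nat_lit 5) (nat_lit 19) (nat_lit 5) (nat_lit 20) (nat_lit 5) (nat_lit 300) (nat_lit 284) (nat_lit 136)) (XT.nd (nat_lit 78) (nat_lit 0) (nat_lit 0) (XT.lf (nat_lit 0) (nat_lit 27398854868)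 (nat_lit 228) (nat_lit 136906994944) (nat_lit 76) (nat_lit 100446481439) (nat_lit 16) (nat_lit 5) (nat_lit 19) (nat_lit 5) (nat_lit 17) (nat_lit 5) (nat_lit 301) (nat_lit 284) (nat_lit 135)) (XT.lf (nat_lit 0) (nat_lit 57029549215) (nat_lit 228) (nat_lit 37509703235) (nat_lit 76) (nat_lit 184654438959) (nat_lit 16) (nat_lit 5) (nat_lit 19) (nat_lit 5) (nat_lit 17) (nat_lit 5) (nat_lit 302) (nat_lit 284) (nat_lit 134)))) (XT.nd (nat_lit 78) (nat_lit 0) (nat_lit 0) (XT.lf (nat_lit 0) (nat_lit 73516822575) (nat_lit 152) (nat_lit 17281835303) (nat_lit 228) (nat_lit 203850266564) (nat_lit 14) (nat_lit 5) (nat_lit 16) (nat_lit 5) (nat_lit 17) (nat_lit 5) (nat_lit 303) (nat_lit 284) (nat_lit 133)) (XT.nd (nat_lit 78) (nat_lit 0) (nat_lit 0) (XT.lf (nat_lit 0) (nat_lit 129912454978) (nat_lit 228) (nat_lit 117317708782) (nat_lit 76) (nat_lit 63898960287) (nat_lit 14) (nat_lit 5) (nat_lit 17)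 (nat_lit 5) (nat_lit 15) (nat_lit 5) (nat_lit 304) (nat_lit 284) (nat_lit 132)) (XT.lf (nat_lit 0) (nat_lit 172604125324) (nat_lit 228) (nat_lit 5647194591) (nat_lit 76) (nat_lit 150640518804) (nat_lit 14) (nat_lit 5) (nat_lit 17) (nat_lit 5) (nat_lit 15) (nat_lit 5) (nat_lit 305) (nat_lit 284) (nat_lit 131))))) (XT.nd (nat_lit 234) (nat_lit 228) (nat_lit 0) (XT.nd (nat_lit 78) (nat_lit 76) (nat_lit 0) (XT.lf (nat_lit 0) (nat_lit 121010242900) (nat_lit 152) (nat_lit 100611084388) (nat_lit 228) (nat_lit 126221428043) (nat_lit 12) (nat_lit 5) (nat_lit 14) (nat_lit 5) (nat_lit 15) (nat_lit 5) (nat_lit 306) (nat_lit 284) (nat_lit 130)) (XT.nd (nat_lit 78) (nat_lit 76) (nat_lit 0) (XT.lf (nat_lit 0) (nat_lit 258121299622) (nat_lit 152) (nat_lit 16592913048) (nat_lit 228) (nat_lit 93583188583) (nat_lit 12) (nat_lit 5) (nat_lit 14) (nat_lit 5) (nat_lit 15) (nat_lit 5) (nat_lit 307) (nat_lit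 284) (nat_lit 129)) (XT.lf (nat_lit 0) (nat_lit 14768224817) (nat_lit 76) (nat_lit 319424619692) (nat_lit 152) (nat_lit 56024509610) (nat_lit 11) (nat_lit 5) (nat_lit 12) (nat_lit 5) (nat_lit 13) (nat_lit 4) (nat_lit 308) (nat_lit 284) (nat_lit 128)))) (XT.nd (nat_lit 78) (nat_lit 228) (nat_lit 0) (XT.lf (nat_lit 0) (nat_lit 155520100211) (nat_lit 76) (nat_lit 246342063151) (nat_lit 152) (nat_lit 11754148617) (nat_lit 11) (nat_lit 5) (nat_lit 12) (nat_lit 5) (nat_lit 13) (nat_lit 4) (nat_lit 309) (nat_lit 284) (nat_lit 127)) (XT.nd (nat_lit 78) (nat_lit 152) (nat_lit 0) (XT.lf (nat_lit 0) (nat_lit 34253998787) (nat_lit 152) (nat_lit 132222377991) (nat_lit 76) (nat_lit 272341441404) (nat_lit 10) (nat_lit 5) (nat_lit 12) (nat_lit 5) (nat_lit 11) (nat_lit 5) (nat_lit 310) (nat_lit 284) (nat_lit 126)) (XT.lf (nat_lit 0) (nat_lit 3595821549) (nat_lit 152) (nat_lit 79798349652) (nat_lit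 228) (nat_lit 382609937653) (nat_lit 8) (nat_lit 5) (nat_lit 10) (nat_lit 5) (nat_lit 11) (nat_lit 5) (nat_lit 311) (nat_lit 284) (nat_lit 125))))))) (XT.nd (nat_lit 858) (nat_lit 76) (nat_lit 0) (XT.nd (nat_lit 390) (nat_lit 152) (nat_lit 0) (XT.nd (nat_lit 156) (nat_lit 76) (nat_lit 0) (XT.nd (nat_lit 78) (nat_lit 0) (nat_lit 0) (XT.lf (nat_lit 0) (nat_lit 140506802793) (nat_lit 228) (nat_lit 337703250991) (nat_lit 76) (nat_lit 16831949721) (nat_lit 8) (nat_lit 5) (nat_lit 11) (nat_lit 5) (nat_lit 9) (nat_lit 4) (nat_lit 312) (nat_lit 284) (nat_lit 124)) (XT.lf (nat_lit 0) (nat_lit 204261059877) (nat_lit 228) (nat_lit 205094605753) (nat_lit 76) (nat_lit 116881455228) (nat_lit 8) (nat_lit 5) (nat_lit 11) (nat_lit 5) (nat_lit 9) (nat_lit 4) (nat_lit 313) (nat_lit 284) (nat_lit 123))) (XT.nd (nat_lit 78) (nat_lit 76) (nat_lit 0) (XT.lf (nat_lit 0) (nat_lit 273115593231) (nat_lit 228)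 (nat_lit 61877370355) (nat_lit 76) (nat_lit 224934889460) (nat_lit 8) (nat_lit 5) (nat_lit 11) (nat_lit 5) (nat_lit 9) (nat_lit 4) (nat_lit 314) (nat_lit 284) (nat_lit 122)) (XT.nd (nat_lit 78) (nat_lit 0) (nat_lit 0) (XT.lf (nat_lit 0) (nat_lit 97683683394) (nat_lit 76) (nat_lit 252144041260) (nat_lit 152) (nat_lit 246298180605) (nat_lit 7) (nat_lit 5) (nat_lit 8) (nat_lit 5) (nat_lit 9) (nat_lit 4) (nat_lit 315) (nat_lit 284) (nat_lit 121)) (XT.lf (nat_lit 0) (nat_lit 273528550759) (nat_lit 76) (nat_lit 160840055468) (nat_lit 152) (nat_lit 200715853311) (nat_lit 7) (nat_lit 5) (nat_lit 8) (nat_lit 5) (nat_lit 9) (nat_lit 4) (nat_lit 316) (nat_lit 284) (nat_lit 120))))) (XT.nd (nat_lit 234) (nat_lit 76) (nat_lit 0) (XT.nd (nat_lit 78) (nat_lit 76) (nat_lit 0) (XT.lf (nat_lit 0) (nat_lit 463440922731) (nat_lit 76) (nat_lit 62231782515) (nat_lit 152) (nat_lit 151486997402) (nat_lit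 7) (nat_lit 5) (nat_lit 8) (nat_lit 5) (nat_lit 9) (nat_lit 4) (nat_lit 317) (nat_lit 284) (nat_lit 119)) (XT.nd (nat_lit 78) (nat_lit 76) (nat_lit 0) (XT.lf (nat_lit 0) (nat_lit 625345660308) (nat_lit 152) (nat_lit 55119340674) (nat_lit 0) (nat_lit 42050802196) (nat_lit 7) (nat_lit 5) (nat_lit 9) (nat_lit 4) (nat_lit 7) (nat_lit 4) (nat_lit 318) (nat_lit 284) (nat_lit 118)) (XT.lf (nat_lit 0) (nat_lit 120583650454) (nat_lit 76) (nat_lit 616925204789) (nat_lit 76) (nat_lit 33630224438) (nat_lit 6) (nat_lit 4) (nat_lit 7) (nat_lit 5) (nat_lit 7) (nat_lit 4) (nat_lit 319) (nat_lit 284) (nat_lit 117)))) (XT.nd (nat_lit 78) (nat_lit 0) (nat_lit 0) (XT.lf (nat_lit 0) (nat_lit 34788560538) (nat_lit 152) (nat_lit 510934887616) (nat_lit 76) (nat_lit 277737751222) (nat_lit 5) (nat_lit 5) (nat_lit 7) (nat_lit 5) (nat_lit 6) (nat_lit 4) (nat_lit 320) (nat_lit 284) (nat_lit 116)) (XT.nd (nat_lit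 78) (nat_lit 0) (nat_lit 0) (XT.lf (nat_lit 0) (nat_lit 106863900219) (nat_lit 152) (nat_lit 361018285880) (nat_lit 76) (nat_lit 412017025123) (nat_lit 5) (nat_lit 5) (nat_lit 7) (nat_lit 5) (nat_lit 6) (nat_lit 4) (nat_lit 321) (nat_lit 284) (nat_lit 115)) (XT.lf (nat_lit 0) (nat_lit 184705227758) (nat_lit 152) (nat_lit 199108421636) (nat_lit 76) (nat_lit 557038617919) (nat_lit 5) (nat_lit 5) (nat_lit 7) (nat_lit 5) (nat_lit 6) (nat_lit 4) (nat_lit 322) (nat_lit 284) (nat_lit 114)))))) (XT.nd (nat_lit 34788) (nat_lit 0) (nat_lit 1824) (XT.nd (nat_lit 34554) (nat_lit 0) (nat_lit 1748) (XT.nd (nat_lit 78) (nat_lit 76) (nat_lit 0) (XT.lf (nat_lit 0) (nat_lit 268773825097) (nat_lit 152) (nat_lit 24245829023) (nat_lit 76) (nat_lit 713661916825) (nat_lit 5) (nat_lit 5) (nat_lit 7) (nat_lit 5) (nat_lit 6) (nat_lit 4) (nat_lit 323) (nat_lit 284) (nat_lit 113)) (XT.nd (nat_lit 78) (nat_lit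 0) (nat_lit 0) (XT.lf (nat_lit 0) (nat_lit 173273559962) (nat_lit 76) (nat_lit 190461549836) (nat_lit 152) (nat_lit 713708733232) (nat_lit 4) (nat_lit 5) (nat_lit 5) (nat_lit 5) (nat_lit 6) (nat_lit 4) (nat_lit 324) (nat_lit 284) (nat_lit 112)) (XT.lf (nat_lit 0) (nat_lit 387973327004) (nat_lit 76) (nat_lit 78982861676) (nat_lit 152) (nat_lit 686857877012) (nat_lit 4) (nat_lit 5) (nat_lit 5) (nat_lit 5) (nat_lit 6) (nat_lit 4) (nat_lit 325) (nat_lit 284) (nat_lit 111)))) (XT.nd (nat_lit 78) (nat_lit 0) (nat_lit 0) (XT.lf (nat_lit 0) (nat_lit 5501154918) (nat_lit 532) (nat_lit 30153102539) (nat_lit 532) (nat_lit 30153102539) (nat_lit 27) (nat_lit 3) (nat_lit 34) (nat_lit 3) (nat_lit 34) (nat_lit 5) (nat_lit 285) (nat_lit 285) (nat_lit 150)) (XT.nd (nat_lit 78) (nat_lit 0) (nat_lit 76) (XT.lf (nat_lit 0) (nat_lit 11445672047) (nat_lit 532) (nat_lit 8315199061) (nat_lit 532) (nat_lit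 117118149918) (nat_lit 27) (nat_lit 3) (nat_lit 34) (nat_lit 3) (nat_lit 34) (nat_lit 5) (nat_lit 286) (nat_lit 285) (nat_lit 149)) (XT.lf (nat_lit 0) (nat_lit 14030295278) (nat_lit 456) (nat_lit 93008911887) (nat_lit 532) (nat_lit 35356798233) (nat_lit 28) (nat_lit 5) (nat_lit 34) (nat_lit 5) (nat_lit 35) (nat_lit 5) (nat_lit 287) (nat_lit 285) (nat_lit 148))))) (XT.nd (nat_lit 234) (nat_lit 0) (nat_lit 76) (XT.nd (nat_lit 78) (nat_lit 0) (nat_lit 76) (XT.lf (nat_lit 0) (nat_lit 17567911414) (nat_lit 456) (nat_lit 36677076406) (nat_lit 532) (nat_lit 94049665282) (nat_lit 28) (nat_lit 5) (nat_lit 34) (nat_lit 5) (nat_lit 35) (nat_lit 5) (nat_lit 288) (nat_lit 285) (nat_lit 147)) (XT.nd (nat_lit 78) (nat_lit 0) (nat_lit 0) (XT.lf (nat_lit 0) (nat_lit 22082504369) (nat_lit 456) (nat_lit 129265459540) (nat_lit 532) (nat_lit 3261713557) (nat_lit 29) (nat_lit 5) (nat_lit 35) (nat_lit 5)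 (nat_lit 36) (nat_lit 5) (nat_lit 289) (nat_lit 285) (nat_lit 146)) (XT.lf (nat_lit 0) (nat_lit 29395825940) (nat_lit 456) (nat_lit 68371821764) (nat_lit 532) (nat_lit 63467253259) (nat_lit 29) (nat_lit 5) (nat_lit 35) (nat_lit 5) (nat_lit 36) (nat_lit 5) (nat_lit 290) (nat_lit 285) (nat_lit 145)))) (XT.nd (nat_lit 78) (nat_lit 0) (nat_lit 76) (XT.lf (nat_lit 0) (nat_lit 37293969732) (nat_lit 456) (nat_lit 2606886512) (nat_lit 532) (nat_lit 128489307501) (nat_lit 29) (nat_lit 5) (nat_lit 35) (nat_lit 5) (nat_lit 36) (nat_lit 5) (nat_lit 291) (nat_lit 285) (nat_lit 144)) (XT.nd (nat_lit 78) (nat_lit 0) (nat_lit 0) (XT.lf (nat_lit 0) (nat_lit 48144276221) (nat_lit 456) (nat_lit 104545814533) (nat_lit 76) (nat_lit 23242133684) (nat_lit 30) (nat_lit 5) (nat_lit 36) (nat_lit 5) (nat_lit 31) (nat_lit 5) (nat_lit 292) (nat_lit 285) (nat_lit 143)) (XT.lf (nat_lit 0) (nat_lit 60971909306) (nat_lit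 456) (nat_lit 33662953356) (nat_lit 76) (nat_lit 89354044810) (nat_lit 30) (nat_lit 5) (nat_lit 36) (nat_lit 5) (nat_lit 31) (nat_lit 5) (nat_lit 293) (nat_lit 285) (nat_lit 142))))))))
noncomputable def xc117 : XT := (XT.nd (nat_lit 1794) (nat_lit 152) (nat_lit 0) (XT.nd (nat_lit 858) (nat_lit 532) (nat_lit 0) (XT.nd (nat_lit 390) (nat_lit 532) (nat_lit 0) (XT.nd (nat_lit 156) (nat_lit 228) (nat_lit 0) (XT.nd (nat_lit 78) (nat_lit 0) (nat_lit 0) (XT.lf (nat_lit 0) (nat_lit 45148887007) (nat_lit 456) (nat_lit 30762501509) (nat_lit 532) (nat_lit 116691887320) (nat_lit 24) (nat_lit 5) (nat_lit 30) (nat_lit 5) (nat_lit 31) (nat_lit 5) (nat_lit 294) (nat_lit 285) (nat_lit 141)) (XT.lf (nat_lit 0) (nat_lit 93909335195) (nat_lit 532) (nat_lit 70596326675) (nat_lit 76) (nat_lit 37252068485) (nat_lit 24) (nat_lit 5) (nat_lit 31) (nat_lit 5) (nat_lit 25) (nat_lit 5) (nat_lit 295) (nat_lit 285)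 (nat_lit 140))) (XT.nd (nat_lit 78) (nat_lit 0) (nat_lit 0) (XT.lf (nat_lit 0) (nat_lit 12222600756) (nat_lit 228) (nat_lit 102217324712) (nat_lit 304) (nat_lit 97117192449) (nat_lit 21) (nat_lit 5) (nat_lit 24) (nat_lit 5) (nat_lit 25) (nat_lit 5) (nat_lit 296) (nat_lit 285) (nat_lit 139)) (XT.nd (nat_lit 78) (nat_lit 0) (nat_lit 0) (XT.lf (nat_lit 0) (nat_lit 105681744857) (nat_lit 228) (nat_lit 32861283365) (nat_lit 304) (nat_lit 83443024254) (nat_lit 21) (nat_lit 5) (nat_lit 24) (nat_lit 5) (nat_lit 25) (nat_lit 5) (nat_lit 297) (nat_lit 285) (nat_lit 138)) (XT.lf (nat_lit 0) (nat_lit 165585368630) (nat_lit 304) (nat_lit 27642995639) (nat_lit 76) (nat_lit 39940059501) (nat_lit 21) (nat_lit 5) (nat_lit 25) (nat_lit 5) (nat_lit 22) (nat_lit 5) (nat_lit 298) (nat_lit 285) (nat_lit 137))))) (XT.nd (nat_lit 234) (nat_lit 228) (nat_lit 0) (XT.nd (nat_lit 78) (nat_lit 152) (nat_lit 0)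 (XT.lf (nat_lit 0) (nat_lit 70799182817) (nat_lit 152) (nat_lit 126548035022) (nat_lit 228) (nat_lit 47693678242) (nat_lit 19) (nat_lit 5) (nat_lit 21) (nat_lit 5) (nat_lit 22) (nat_lit 5) (nat_lit 299) (nat_lit 285) (nat_lit 136)) (XT.nd (nat_lit 78) (nat_lit 152) (nat_lit 0) (XT.lf (nat_lit 0) (nat_lit 178688660751) (nat_lit 152) (nat_lit 53717029046) (nat_lit 228) (nat_lit 25397023358) (nat_lit 19) (nat_lit 5) (nat_lit 21) (nat_lit 5) (nat_lit 22) (nat_lit 5) (nat_lit 300) (nat_lit 285) (nat_lit 135)) (XT.lf (nat_lit 0) (nat_lit 24236242584) (nat_lit 152) (nat_lit 247215173464) (nat_lit 228) (nat_lit 39454317) (nat_lit 17) (nat_lit 5) (nat_lit 19) (nat_lit 5) (nat_lit 20) (nat_lit 5) (nat_lit 301) (nat_lit 285) (nat_lit 134)))) (XT.nd (nat_lit 78) (nat_lit 152) (nat_lit 0) (XT.lf (nat_lit 0) (nat_lit 29593154761) (nat_lit 228) (nat_lit 147856463370) (nat_lit 76) (nat_lit 108482693384)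 (nat_lit 16) (nat_lit 5) (nat_lit 19) (nat_lit 5) (nat_lit 17) (nat_lit 5) (nat_lit 302) (nat_lit 285) (nat_lit 133)) (XT.nd (nat_lit 78) (nat_lit 152) (nat_lit 0) (XT.lf (nat_lit 0) (nat_lit 61594127506) (nat_lit 228) (nat_lit 40507617301) (nat_lit 76) (nat_lit 199427250955) (nat_lit 16) (nat_lit 5) (nat_lit 19) (nat_lit 5) (nat_lit 17) (nat_lit 5) (nat_lit 303) (nat_lit 285) (nat_lit 132)) (XT.lf (nat_lit 0) (nat_lit 79400958114) (nat_lit 152) (nat_lit 18663709816) (nat_lit 228) (nat_lit 220155988286) (nat_lit 14) (nat_lit 5) (nat_lit 16) (nat_lit 5) (nat_lit 17) (nat_lit 5) (nat_lit 304) (nat_lit 285) (nat_lit 131)))))) (XT.nd (nat_lit 468) (nat_lit 304) (nat_lit 0) (XT.nd (nat_lit 234) (nat_lit 76) (nat_lit 0) (XT.nd (nat_lit 78) (nat_lit 152) (nat_lit 0) (XT.lf (nat_lit 0) (nat_lit 140307426923) (nat_lit 228) (nat_lit 126700388683) (nat_lit 76) (nat_lit 69011468480) (nat_lit 14)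 (nat_lit 5) (nat_lit 17) (nat_lit 5) (nat_lit 15) (nat_lit 5) (nat_lit 305) (nat_lit 285) (nat_lit 130)) (XT.nd (nat_lit 78) (nat_lit 152) (nat_lit 0) (XT.lf (nat_lit 0) (nat_lit 186414284559) (nat_lit 228) (nat_lit 6096436083) (nat_lit 76) (nat_lit 162692307874) (nat_lit 14) (nat_lit 5) (nat_lit 17) (nat_lit 5) (nat_lit 15) (nat_lit 5) (nat_lit 306) (nat_lit 285) (nat_lit 129)) (XT.lf (nat_lit 0) (nat_lit 130693532253) (nat_lit 152) (nat_lit 108659254332) (nat_lit 228) (nat_lit 136317238771) (nat_lit 12) (nat_lit 5) (nat_lit 14) (nat_lit 5) (nat_lit 15) (nat_lit 5) (nat_lit 307) (nat_lit 285) (nat_lit 128)))) (XT.nd (nat_lit 78) (nat_lit 76) (nat_lit 0) (XT.lf (nat_lit 0) (nat_lit 278773290557) (nat_lit 152) (nat_lit 17919682381) (nat_lit 228) (nat_lit 101068081155) (nat_lit 12) (nat_lit 5) (nat_lit 14) (nat_lit 5) (nat_lit 15) (nat_lit 5) (nat_lit 308) (nat_lit 285) (nat_lit 127))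 (XT.nd (nat_lit 78) (nat_lit 0) (nat_lit 0) (XT.lf (nat_lit 0) (nat_lit 15952032046) (nat_lit 76) (nat_lit 344977814316) (nat_lit 152) (nat_lit 60504761439) (nat_lit 11) (nat_lit 5) (nat_lit 12) (nat_lit 5) (nat_lit 13) (nat_lit 4) (nat_lit 309) (nat_lit 285) (nat_lit 126)) (XT.lf (nat_lit 0) (nat_lit 167963883453) (nat_lit 76) (nat_lit 266048710656) (nat_lit 152) (nat_lit 12692898155) (nat_lit 11) (nat_lit 5) (nat_lit 12) (nat_lit 5) (nat_lit 13) (nat_lit 4) (nat_lit 310) (nat_lit 285) (nat_lit 125))))) (XT.nd (nat_lit 234) (nat_lit 76) (nat_lit 0) (XT.nd (nat_lit 78) (nat_lit 152) (nat_lit 0) (XT.lf (nat_lit 0) (nat_lit 36995710538) (nat_lit 152) (nat_lit 142798073931) (nat_lit 76) (nat_lit 294129340911) (nat_lit 10) (nat_lit 5) (nat_lit 12) (nat_lit 5) (nat_lit 11) (nat_lit 5) (nat_lit 311) (nat_lit 285) (nat_lit 124)) (XT.nd (nat_lit 78) (nat_lit 0) (nat_lit 0) (XT.lf (nat_lit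 0) (nat_lit 3885528552) (nat_lit 152) (nat_lit 86181514187) (nat_lit 228) (nat_lit 413217281400) (nat_lit 8) (nat_lit 5) (nat_lit 10) (nat_lit 5) (nat_lit 11) (nat_lit 5) (nat_lit 312) (nat_lit 285) (nat_lit 123)) (XT.lf (nat_lit 0) (nat_lit 151748601422) (nat_lit 228) (nat_lit 364717531639) (nat_lit 76) (nat_lit 18179124448) (nat_lit 8) (nat_lit 5) (nat_lit 11) (nat_lit 5) (nat_lit 9) (nat_lit 4) (nat_lit 313) (nat_lit 285) (nat_lit 122)))) (XT.nd (nat_lit 78) (nat_lit 76) (nat_lit 0) (XT.lf (nat_lit 0) (nat_lit 220603106154) (nat_lit 228) (nat_lit 221500341407) (nat_lit 76) (nat_lit 126232544562) (nat_lit 8) (nat_lit 5) (nat_lit 11) (nat_lit 5) (nat_lit 9) (nat_lit 4) (nat_lit 314) (nat_lit 285) (nat_lit 121)) (XT.nd (nat_lit 78) (nat_lit 76) (nat_lit 0) (XT.lf (nat_lit 0) (nat_lit 294965916141) (nat_lit 228) (nat_lit 66825862941) (nat_lit 76) (nat_lit 242930211094) (nat_lit 8) (nat_lit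 5) (nat_lit 11) (nat_lit 5) (nat_lit 9) (nat_lit 4) (nat_lit 315) (nat_lit 285) (nat_lit 120)) (XT.lf (nat_lit 0) (nat_lit 105500032145) (nat_lit 76) (nat_lit 272314946050) (nat_lit 152) (nat_lit 266000911937) (nat_lit 7) (nat_lit 5) (nat_lit 8) (nat_lit 5) (nat_lit 9) (nat_lit 4) (nat_lit 316) (nat_lit 285) (nat_lit 119))))))) (XT.nd (nat_lit 35334) (nat_lit 0) (nat_lit 1064) (XT.nd (nat_lit 390) (nat_lit 0) (nat_lit 0) (XT.nd (nat_lit 156) (nat_lit 152) (nat_lit 0) (XT.nd (nat_lit 78) (nat_lit 0) (nat_lit 0) (XT.lf (nat_lit 0) (nat_lit 295412366375) (nat_lit 76) (nat_lit 173706687209) (nat_lit 152) (nat_lit 216772081654) (nat_lit 7) (nat_lit 5) (nat_lit 8) (nat_lit 5) (nat_lit 9) (nat_lit 4) (nat_lit 317) (nat_lit 285) (nat_lit 118)) (XT.lf (nat_lit 0) (nat_lit 500517614656) (nat_lit 76) (nat_lit 67209794842) (nat_lit 152) (nat_lit 163604994303) (nat_lit 7) (nat_lit 5) (nat_lit 8)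 (nat_lit 5) (nat_lit 9) (nat_lit 4) (nat_lit 318) (nat_lit 285) (nat_lit 117))) (XT.nd (nat_lit 78) (nat_lit 152) (nat_lit 0) (XT.lf (nat_lit 0) (nat_lit 675374147009) (nat_lit 152) (nat_lit 59527517176) (nat_lit 0) (nat_lit 45415332804) (nat_lit 7) (nat_lit 5) (nat_lit 9) (nat_lit 4) (nat_lit 7) (nat_lit 4) (nat_lit 319) (nat_lit 285) (nat_lit 116)) (XT.nd (nat_lit 78) (nat_lit 76) (nat_lit 0) (XT.lf (nat_lit 0) (nat_lit 130231678539) (nat_lit 76) (nat_lit 666278689363) (nat_lit 76) (nat_lit 36319770358) (nat_lit 6) (nat_lit 4) (nat_lit 7) (nat_lit 5) (nat_lit 7) (nat_lit 4) (nat_lit 320) (nat_lit 285) (nat_lit 115)) (XT.lf (nat_lit 0) (nat_lit 37572412430) (nat_lit 152) (nat_lit 551808398188) (nat_lit 76) (nat_lit 299957220382) (nat_lit 5) (nat_lit 5) (nat_lit 7) (nat_lit 5) (nat_lit 6) (nat_lit 4) (nat_lit 321) (nat_lit 285) (nat_lit 114))))) (XT.nd (nat_lit 34710) (nat_lit 0) (nat_lit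 1672) (XT.nd (nat_lit 78) (nat_lit 0) (nat_lit 0) (XT.lf (nat_lit 0) (nat_lit 115413722467) (nat_lit 152) (nat_lit 389898563161) (nat_lit 76) (nat_lit 444978802931) (nat_lit 5) (nat_lit 5) (nat_lit 7) (nat_lit 5) (nat_lit 6) (nat_lit 4) (nat_lit 322) (nat_lit 285) (nat_lit 113)) (XT.nd (nat_lit 78) (nat_lit 0) (nat_lit 0) (XT.lf (nat_lit 0) (nat_lit 199482303599) (nat_lit 152) (nat_lit 215035997599) (nat_lit 76) (nat_lit 601602092350) (nat_lit 5) (nat_lit 5) (nat_lit 7) (nat_lit 5) (nat_lit 6) (nat_lit 4) (nat_lit 323) (nat_lit 285) (nat_lit 112)) (XT.lf (nat_lit 0) (nat_lit 290276340012) (nat_lit 152) (nat_lit 26184478892) (nat_lit 76) (nat_lit 770755226651) (nat_lit 5) (nat_lit 5) (nat_lit 7) (nat_lit 5) (nat_lit 6) (nat_lit 4) (nat_lit 324) (nat_lit 285) (nat_lit 111)))) (XT.nd (nat_lit 78) (nat_lit 0) (nat_lit 0) (XT.lf (nat_lit 0) (nat_lit 5944438490) (nat_lit 532) (nat_lit 32563614730)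 (nat_lit 532) (nat_lit 32563614730) (nat_lit 27) (nat_lit 3) (nat_lit 34) (nat_lit 3) (nat_lit 34) (nat_lit 5) (nat_lit 286) (nat_lit 286) (nat_lit 148)) (XT.nd (nat_lit 78) (nat_lit 0) (nat_lit 76) (XT.lf (nat_lit 0) (nat_lit 12367235400) (nat_lit 532) (nat_lit 8977200150) (nat_lit 532) (nat_lit 126484387075) (nat_lit 27) (nat_lit 3) (nat_lit 34) (nat_lit 3) (nat_lit 34) (nat_lit 5) (nat_lit 287) (nat_lit 286) (nat_lit 147)) (XT.lf (nat_lit 0) (nat_lit 15158208050) (nat_lit 456) (nat_lit 100445945752) (nat_lit 532) (nat_lit 38183049085) (nat_lit 28) (nat_lit 5) (nat_lit 34) (nat_lit 5) (nat_lit 35) (nat_lit 5) (nat_lit 288) (nat_lit 286) (nat_lit 146)))))) (XT.nd (nat_lit 468) (nat_lit 684) (nat_lit 0) (XT.nd (nat_lit 234) (nat_lit 0) (nat_lit 76) (XT.nd (nat_lit 78) (nat_lit 0) (nat_lit 76) (XT.lf (nat_lit 0) (nat_lit 18978426874) (nat_lit 456) (nat_lit 39607835958) (nat_lit 532)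 (nat_lit 101571515350) (nat_lit 28) (nat_lit 5) (nat_lit 34) (nat_lit 5) (nat_lit 35) (nat_lit 5) (nat_lit 289) (nat_lit 286) (nat_lit 145)) (XT.nd (nat_lit 78) (nat_lit 0) (nat_lit 0) (XT.lf (nat_lit 0) (nat_lit 23853855385) (nat_lit 456) (nat_lit 139602920302) (nat_lit 532) (nat_lit 3521258361) (nat_lit 29) (nat_lit 5) (nat_lit 35) (nat_lit 5) (nat_lit 36) (nat_lit 5) (nat_lit 290) (nat_lit 286) (nat_lit 144)) (XT.lf (nat_lit 0) (nat_lit 31751890781) (nat_lit 456) (nat_lit 73838071208) (nat_lit 532) (nat_lit 68543344372) (nat_lit 29) (nat_lit 5) (nat_lit 35) (nat_lit 5) (nat_lit 36) (nat_lit 5) (nat_lit 291) (nat_lit 286) (nat_lit 143)))) (XT.nd (nat_lit 78) (nat_lit 0) (nat_lit 76) (XT.lf (nat_lit 0) (nat_lit 40281560243) (nat_lit 456) (nat_lit 2812200120) (nat_lit 532) (nat_lit 138767258445) (nat_lit 29) (nat_lit 5) (nat_lit 35) (nat_lit 5) (nat_lit 36) (nat_lit 5) (nat_lit 292)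 (nat_lit 286) (nat_lit 142)) (XT.nd (nat_lit 78) (nat_lit 0) (nat_lit 0) (XT.lf (nat_lit 0) (nat_lit 51999648801) (nat_lit 456) (nat_lit 112905970116) (nat_lit 76) (nat_lit 25100847220) (nat_lit 30) (nat_lit 5) (nat_lit 36) (nat_lit 5) (nat_lit 31) (nat_lit 5) (nat_lit 293) (nat_lit 286) (nat_lit 141)) (XT.lf (nat_lit 0) (nat_lit 65853208793) (nat_lit 456) (nat_lit 36352740014) (nat_lit 76) (nat_lit 96501759914) (nat_lit 30) (nat_lit 5) (nat_lit 36) (nat_lit 5) (nat_lit 31) (nat_lit 5) (nat_lit 294) (nat_lit 286) (nat_lit 140))))) (XT.nd (nat_lit 234) (nat_lit 152) (nat_lit 0) (XT.nd (nat_lit 78) (nat_lit 228) (nat_lit 0) (XT.lf (nat_lit 0) (nat_lit 48763965310) (nat_lit 456) (nat_lit 33223694484) (nat_lit 532) (nat_lit 126023583730) (nat_lit 24) (nat_lit 5) (nat_lit 30) (nat_lit 5) (nat_lit 31) (nat_lit 5) (nat_lit 295) (nat_lit 286) (nat_lit 139)) (XT.nd (nat_lit 78) (nat_lit 228)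 (nat_lit 0) (XT.lf (nat_lit 0) (nat_lit 101425189009) (nat_lit 532) (nat_lit 76240823217) (nat_lit 76) (nat_lit 40232064328) (nat_lit 24) (nat_lit 5) (nat_lit 31) (nat_lit 5) (nat_lit 25) (nat_lit 5) (nat_lit 296) (nat_lit 286) (nat_lit 138)) (XT.lf (nat_lit 0) (nat_lit 13203537153) (nat_lit 228) (nat_lit 110394534439) (nat_lit 304) (nat_lit 104883357675) (nat_lit 21) (nat_lit 5) (nat_lit 24) (nat_lit 5) (nat_lit 25) (nat_lit 5) (nat_lit 297) (nat_lit 286) (nat_lit 137)))) (XT.nd (nat_lit 78) (nat_lit 152) (nat_lit 0) (XT.lf (nat_lit 0) (nat_lit 114139181054) (nat_lit 228) (nat_lit 35490022840) (nat_lit 304) (nat_lit 90115493815) (nat_lit 21) (nat_lit 5) (nat_lit 24) (nat_lit 5) (nat_lit 25) (nat_lit 5) (nat_lit 298) (nat_lit 286) (nat_lit 136)) (XT.nd (nat_lit 78) (nat_lit 152) (nat_lit 0) (XT.lf (nat_lit 0) (nat_lit 178834732693) (nat_lit 304) (nat_lit 29851535615) (nat_lit 76) (nat_lit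 43135407808) (nat_lit 21) (nat_lit 5) (nat_lit 25) (nat_lit 5) (nat_lit 22) (nat_lit 5) (nat_lit 299) (nat_lit 286) (nat_lit 135)) (XT.lf (nat_lit 0) (nat_lit 76465943708) (nat_lit 152) (nat_lit 136671466356) (nat_lit 228) (nat_lit 51506547121) (nat_lit 19) (nat_lit 5) (nat_lit 21) (nat_lit 5) (nat_lit 22) (nat_lit 5) (nat_lit 300) (nat_lit 286) (nat_lit 134))))))))
noncomputable def xc118 : XT := (XT.nd (nat_lit 1794) (nat_lit 0) (nat_lit 0) (XT.nd (nat_lit 858) (nat_lit 456) (nat_lit 0) (XT.nd (nat_lit 390) (nat_lit 228) (nat_lit 0) (XT.nd (nat_lit 156) (nat_lit 228) (nat_lit 0) (XT.nd (nat_lit 78) (nat_lit 152) (nat_lit 0) (XT.lf (nat_lit 0) (nat_lit 192986370525) (nat_lit 152) (nat_lit 58014010380) (nat_lit 228) (nat_lit 27426354319) (nat_lit 19) (nat_lit 5) (nat_lit 21) (nat_lit 5) (nat_lit 22) (nat_lit 5) (nat_lit 301) (nat_lit 286) (nat_lit 133)) (XT.lf (nat_lit 0) (nat_lit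 26177873769) (nat_lit 152) (nat_lit 266991800046) (nat_lit 228) (nat_lit 40279703) (nat_lit 17) (nat_lit 5) (nat_lit 19) (nat_lit 5) (nat_lit 20) (nat_lit 5) (nat_lit 302) (nat_lit 286) (nat_lit 132))) (XT.nd (nat_lit 78) (nat_lit 152) (nat_lit 0) (XT.lf (nat_lit 0) (nat_lit 31962657470) (nat_lit 228) (nat_lit 159682330260) (nat_lit 76) (nat_lit 117161731891) (nat_lit 16) (nat_lit 5) (nat_lit 19) (nat_lit 5) (nat_lit 17) (nat_lit 5) (nat_lit 303) (nat_lit 286) (nat_lit 131)) (XT.nd (nat_lit 78) (nat_lit 152) (nat_lit 0) (XT.lf (nat_lit 0) (nat_lit 66523556159) (nat_lit 228) (nat_lit 43745772815) (nat_lit 76) (nat_lit 215381822732) (nat_lit 16) (nat_lit 5) (nat_lit 19) (nat_lit 5) (nat_lit 17) (nat_lit 5) (nat_lit 304) (nat_lit 286) (nat_lit 130)) (XT.lf (nat_lit 0) (nat_lit 85755426510) (nat_lit 152) (nat_lit 20156230203) (nat_lit 228) (nat_lit 237766495810) (nat_lit 14) (nat_lit 5)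 (nat_lit 16) (nat_lit 5) (nat_lit 17) (nat_lit 5) (nat_lit 305) (nat_lit 286) (nat_lit 129))))) (XT.nd (nat_lit 234) (nat_lit 76) (nat_lit 0) (XT.nd (nat_lit 78) (nat_lit 152) (nat_lit 0) (XT.lf (nat_lit 0) (nat_lit 151533714790) (nat_lit 228) (nat_lit 136834073412) (nat_lit 76) (nat_lit 74532892964) (nat_lit 14) (nat_lit 5) (nat_lit 17) (nat_lit 5) (nat_lit 15) (nat_lit 5) (nat_lit 306) (nat_lit 286) (nat_lit 128)) (XT.nd (nat_lit 78) (nat_lit 152) (nat_lit 0) (XT.lf (nat_lit 0) (nat_lit 201328995577) (nat_lit 228) (nat_lit 6581978408) (nat_lit 76) (nat_lit 175708161952) (nat_lit 14) (nat_lit 5) (nat_lit 17) (nat_lit 5) (nat_lit 15) (nat_lit 5) (nat_lit 307) (nat_lit 286) (nat_lit 127)) (XT.lf (nat_lit 0) (nat_lit 141151132394) (nat_lit 152) (nat_lit 117351380132) (nat_lit 228) (nat_lit 147220985915) (nat_lit 12) (nat_lit 5) (nat_lit 14) (nat_lit 5) (nat_lit 15) (nat_lit 5) (nat_lit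 308) (nat_lit 286) (nat_lit 126)))) (XT.nd (nat_lit 78) (nat_lit 76) (nat_lit 0) (XT.lf (nat_lit 0) (nat_lit 301077114505) (nat_lit 152) (nat_lit 19352687947) (nat_lit 228) (nat_lit 109152016576) (nat_lit 12) (nat_lit 5) (nat_lit 14) (nat_lit 5) (nat_lit 15) (nat_lit 5) (nat_lit 309) (nat_lit 286) (nat_lit 125)) (XT.nd (nat_lit 78) (nat_lit 0) (nat_lit 0) (XT.lf (nat_lit 0) (nat_lit 17230208707) (nat_lit 76) (nat_lit 372575375066) (nat_lit 152) (nat_lit 65343677215) (nat_lit 11) (nat_lit 5) (nat_lit 12) (nat_lit 5) (nat_lit 13) (nat_lit 4) (nat_lit 310) (nat_lit 286) (nat_lit 124)) (XT.lf (nat_lit 0) (nat_lit 181402859034) (nat_lit 76) (nat_lit 287331992327) (nat_lit 152) (nat_lit 13706973397) (nat_lit 11) (nat_lit 5) (nat_lit 12) (nat_lit 5) (nat_lit 13) (nat_lit 4) (nat_lit 311) (nat_lit 286) (nat_lit 123)))))) (XT.nd (nat_lit 468) (nat_lit 152) (nat_lit 0) (XT.nd (nat_lit 234) (nat_lit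 76) (nat_lit 0) (XT.nd (nat_lit 78) (nat_lit 152) (nat_lit 0) (XT.lf (nat_lit 0) (nat_lit 39956560666) (nat_lit 152) (nat_lit 154220124322) (nat_lit 76) (nat_lit 317660189036) (nat_lit 10) (nat_lit 5) (nat_lit 12) (nat_lit 5) (nat_lit 11) (nat_lit 5) (nat_lit 312) (nat_lit 286) (nat_lit 122)) (XT.nd (nat_lit 78) (nat_lit 0) (nat_lit 0) (XT.lf (nat_lit 0) (nat_lit 4198120903) (nat_lit 152) (nat_lit 93075432238) (nat_lit 228) (nat_lit 446273419686) (nat_lit 8) (nat_lit 5) (nat_lit 10) (nat_lit 5) (nat_lit 11) (nat_lit 5) (nat_lit 313) (nat_lit 286) (nat_lit 121)) (XT.lf (nat_lit 0) (nat_lit 163889564987) (nat_lit 228) (nat_lit 393893237128) (nat_lit 76) (nat_lit 19633984881) (nat_lit 8) (nat_lit 5) (nat_lit 11) (nat_lit 5) (nat_lit 9) (nat_lit 4) (nat_lit 314) (nat_lit 286) (nat_lit 120)))) (XT.nd (nat_lit 78) (nat_lit 76) (nat_lit 0) (XT.lf (nat_lit 0) (nat_lit 238252350435) (nat_lit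 228) (nat_lit 239218797384) (nat_lit 76) (nat_lit 136331639310) (nat_lit 8) (nat_lit 5) (nat_lit 11) (nat_lit 5) (nat_lit 9) (nat_lit 4) (nat_lit 315) (nat_lit 286) (nat_lit 119)) (XT.nd (nat_lit 78) (nat_lit 76) (nat_lit 0) (XT.lf (nat_lit 0) (nat_lit 318564111458) (nat_lit 228) (nat_lit 72170477036) (nat_lit 76) (nat_lit 262365082781) (nat_lit 8) (nat_lit 5) (nat_lit 11) (nat_lit 5) (nat_lit 9) (nat_lit 4) (nat_lit 316) (nat_lit 286) (nat_lit 118)) (XT.lf (nat_lit 0) (nat_lit 113941452824) (nat_lit 76) (nat_lit 294099611460) (nat_lit 152) (nat_lit 287280022001) (nat_lit 7) (nat_lit 5) (nat_lit 8) (nat_lit 5) (nat_lit 9) (nat_lit 4) (nat_lit 317) (nat_lit 286) (nat_lit 117))))) (XT.nd (nat_lit 234) (nat_lit 152) (nat_lit 0) (XT.nd (nat_lit 78) (nat_lit 0) (nat_lit 0) (XT.lf (nat_lit 0) (nat_lit 319046668747) (nat_lit 76) (nat_lit 187602731192) (nat_lit 152) (nat_lit 234112956621)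 (nat_lit 7) (nat_lit 5) (nat_lit 8) (nat_lit 5) (nat_lit 9) (nat_lit 4) (nat_lit 318) (nat_lit 286) (nat_lit 116)) (XT.nd (nat_lit 78) (nat_lit 0) (nat_lit 0) (XT.lf (nat_lit 0) (nat_lit 540560239626) (nat_lit 76) (nat_lit 72586123805) (nat_lit 152) (nat_lit 176692568323) (nat_lit 7) (nat_lit 5) (nat_lit 8) (nat_lit 5) (nat_lit 9) (nat_lit 4) (nat_lit 319) (nat_lit 286) (nat_lit 115)) (XT.lf (nat_lit 0) (nat_lit 729404793684) (nat_lit 152) (nat_lit 64288543352) (nat_lit 0) (nat_lit 49048959320) (nat_lit 7) (nat_lit 5) (nat_lit 9) (nat_lit 4) (nat_lit 7) (nat_lit 4) (nat_lit 320) (nat_lit 286) (nat_lit 114)))) (XT.nd (nat_lit 78) (nat_lit 76) (nat_lit 0) (XT.lf (nat_lit 0) (nat_lit 140651358269) (nat_lit 76) (nat_lit 719580528571) (nat_lit 76) (nat_lit 39224604357) (nat_lit 6) (nat_lit 4) (nat_lit 7) (nat_lit 5) (nat_lit 7) (nat_lit 4) (nat_lit 321) (nat_lit 286) (nat_lit 113)) (XT.nd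 (nat_lit 78) (nat_lit 0) (nat_lit 0) (XT.lf (nat_lit 0) (nat_lit 40578863044) (nat_lit 152) (nat_lit 595951972275) (nat_lit 76) (nat_lit 323954183010) (nat_lit 5) (nat_lit 5) (nat_lit 7) (nat_lit 5) (nat_lit 6) (nat_lit 4) (nat_lit 322) (nat_lit 286) (nat_lit 112)) (XT.lf (nat_lit 0) (nat_lit 124647429172) (nat_lit 152) (nat_lit 421089431761) (nat_lit 76) (nat_lit 480577463645) (nat_lit 5) (nat_lit 5) (nat_lit 7) (nat_lit 5) (nat_lit 6) (nat_lit 4) (nat_lit 323) (nat_lit 286) (nat_lit 111))))))) (XT.nd (nat_lit 35412) (nat_lit 0) (nat_lit 684) (XT.nd (nat_lit 34944) (nat_lit 0) (nat_lit 1444) (XT.nd (nat_lit 34710) (nat_lit 0) (nat_lit 1672) (XT.nd (nat_lit 34632) (nat_lit 0) (nat_lit 1672) (XT.lf (nat_lit 0) (nat_lit 215441451691) (nat_lit 152) (nat_lit 232237936247) (nat_lit 76) (nat_lit 649730589812) (nat_lit 5) (nat_lit 5) (nat_lit 7) (nat_lit 5) (nat_lit 6) (nat_lit 4) (nat_lit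 324) (nat_lit 286) (nat_lit 110)) (XT.lf (nat_lit 0) (nat_lit 6422729489) (nat_lit 532) (nat_lit 35167215559) (nat_lit 532) (nat_lit 35167215559) (nat_lit 27) (nat_lit 3) (nat_lit 34) (nat_lit 3) (nat_lit 34) (nat_lit 5) (nat_lit 287) (nat_lit 287) (nat_lit 146))) (XT.nd (nat_lit 78) (nat_lit 0) (nat_lit 76) (XT.lf (nat_lit 0) (nat_lit 13361680751) (nat_lit 532) (nat_lit 9692619958) (nat_lit 532) (nat_lit 136600381838) (nat_lit 27) (nat_lit 3) (nat_lit 34) (nat_lit 3) (nat_lit 34) (nat_lit 5) (nat_lit 288) (nat_lit 287) (nat_lit 145)) (XT.nd (nat_lit 78) (nat_lit 0) (nat_lit 0) (XT.lf (nat_lit 0) (nat_lit 16375570755) (nat_lit 456) (nat_lit 108478467189) (nat_lit 532) (nat_lit 41235727128) (nat_lit 28) (nat_lit 5) (nat_lit 34) (nat_lit 5) (nat_lit 35) (nat_lit 5) (nat_lit 289) (nat_lit 287) (nat_lit 144)) (XT.lf (nat_lit 0) (nat_lit 20501058488) (nat_lit 456) (nat_lit 42773542257)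 (nat_lit 532) (nat_lit 109695416315) (nat_lit 28) (nat_lit 5) (nat_lit 34) (nat_lit 5) (nat_lit 35) (nat_lit 5) (nat_lit 290) (nat_lit 287) (nat_lit 143))))) (XT.nd (nat_lit 234) (nat_lit 380) (nat_lit 0) (XT.nd (nat_lit 78) (nat_lit 0) (nat_lit 0) (XT.lf (nat_lit 0) (nat_lit 25766236748) (nat_lit 456) (nat_lit 150767916613) (nat_lit 532) (nat_lit 3801765374) (nat_lit 29) (nat_lit 5) (nat_lit 35) (nat_lit 5) (nat_lit 36) (nat_lit 5) (nat_lit 291) (nat_lit 287) (nat_lit 142)) (XT.nd (nat_lit 78) (nat_lit 0) (nat_lit 0) (XT.lf (nat_lit 0) (nat_lit 34295813276) (nat_lit 456) (nat_lit 79742119392) (nat_lit 532) (nat_lit 74025706684) (nat_lit 29) (nat_lit 5) (nat_lit 35) (nat_lit 5) (nat_lit 36) (nat_lit 5) (nat_lit 292) (nat_lit 287) (nat_lit 141)) (XT.lf (nat_lit 0) (nat_lit 43507576944) (nat_lit 456) (nat_lit 3034400656) (nat_lit 532) (nat_lit 149867615753) (nat_lit 29) (nat_lit 5) (nat_lit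 35) (nat_lit 5) (nat_lit 36) (nat_lit 5) (nat_lit 293) (nat_lit 287) (nat_lit 140)))) (XT.nd (nat_lit 78) (nat_lit 456) (nat_lit 0) (XT.lf (nat_lit 0) (nat_lit 56162904727) (nat_lit 456) (nat_lit 121935438827) (nat_lit 76) (nat_lit 27108351590) (nat_lit 30) (nat_lit 5) (nat_lit 36) (nat_lit 5) (nat_lit 31) (nat_lit 5) (nat_lit 294) (nat_lit 287) (nat_lit 139)) (XT.nd (nat_lit 78) (nat_lit 456) (nat_lit 0) (XT.lf (nat_lit 0) (nat_lit 71124506257) (nat_lit 456) (nat_lit 39258173197) (nat_lit 76) (nat_lit 104221379033) (nat_lit 30) (nat_lit 5) (nat_lit 36) (nat_lit 5) (nat_lit 31) (nat_lit 5) (nat_lit 295) (nat_lit 287) (nat_lit 138)) (XT.lf (nat_lit 0) (nat_lit 52667798020) (nat_lit 456) (nat_lit 35881755384) (nat_lit 532) (nat_lit 136102337220) (nat_lit 24) (nat_lit 5) (nat_lit 30) (nat_lit 5) (nat_lit 31) (nat_lit 5) (nat_lit 296) (nat_lit 287) (nat_lit 137)))))) (XT.nd (nat_lit 468)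 (nat_lit 380) (nat_lit 0) (XT.nd (nat_lit 234) (nat_lit 152) (nat_lit 0) (XT.nd (nat_lit 78) (nat_lit 228) (nat_lit 0) (XT.lf (nat_lit 0) (nat_lit 109541867880) (nat_lit 532) (nat_lit 82337337366) (nat_lit 76) (nat_lit 43450484039) (nat_lit 24) (nat_lit 5) (nat_lit 31) (nat_lit 5) (nat_lit 25) (nat_lit 5) (nat_lit 297) (nat_lit 287) (nat_lit 136)) (XT.nd (nat_lit 78) (nat_lit 0) (nat_lit 0) (XT.lf (nat_lit 0) (nat_lit 14262502170) (nat_lit 228) (nat_lit 119225946088) (nat_lit 304) (nat_lit 113271274085) (nat_lit 21) (nat_lit 5) (nat_lit 24) (nat_lit 5) (nat_lit 25) (nat_lit 5) (nat_lit 298) (nat_lit 287) (nat_lit 135)) (XT.lf (nat_lit 0) (nat_lit 123272798912) (nat_lit 228) (nat_lit 38329084754) (nat_lit 304) (nat_lit 97322184984) (nat_lit 21) (nat_lit 5) (nat_lit 24) (nat_lit 5) (nat_lit 25) (nat_lit 5) (nat_lit 299) (nat_lit 287) (nat_lit 134)))) (XT.nd (nat_lit 78) (nat_lit 152)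 (nat_lit 0) (XT.lf (nat_lit 0) (nat_lit 193143684296) (nat_lit 304) (nat_lit 32237172459) (nat_lit 76) (nat_lit 46586363501) (nat_lit 21) (nat_lit 5) (nat_lit 25) (nat_lit 5) (nat_lit 22) (nat_lit 5) (nat_lit 300) (nat_lit 287) (nat_lit 133)) (XT.nd (nat_lit 78) (nat_lit 0) (nat_lit 0) (XT.lf (nat_lit 0) (nat_lit 82585642272) (nat_lit 152) (nat_lit 147604830897) (nat_lit 228) (nat_lit 55624820050) (nat_lit 19) (nat_lit 5) (nat_lit 21) (nat_lit 5) (nat_lit 22) (nat_lit 5) (nat_lit 301) (nat_lit 287) (nat_lit 132)) (XT.lf (nat_lit 0) (nat_lit 208427523748) (nat_lit 152) (nat_lit 62654804574) (nat_lit 228) (nat_lit 29618378553) (nat_lit 19) (nat_lit 5) (nat_lit 21) (nat_lit 5) (nat_lit 22) (nat_lit 5) (nat_lit 302) (nat_lit 287) (nat_lit 131))))) (XT.nd (nat_lit 234) (nat_lit 152) (nat_lit 0) (XT.nd (nat_lit 78) (nat_lit 76) (nat_lit 0) (XT.lf (nat_lit 0) (nat_lit 28274445730) (nat_lit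 152) (nat_lit 288350640539) (nat_lit 228) (nat_lit 41503659) (nat_lit 17) (nat_lit 5) (nat_lit 19) (nat_lit 5) (nat_lit 20) (nat_lit 5) (nat_lit 303) (nat_lit 287) (nat_lit 130)) (XT.nd (nat_lit 78) (nat_lit 0) (nat_lit 0) (XT.lf (nat_lit 0) (nat_lit 34521427893) (nat_lit 228) (nat_lit 172454644580) (nat_lit 76) (nat_lit 126535033128) (nat_lit 16) (nat_lit 5) (nat_lit 19) (nat_lit 5) (nat_lit 17) (nat_lit 5) (nat_lit 304) (nat_lit 287) (nat_lit 129)) (XT.lf (nat_lit 0) (nat_lit 71847068268) (nat_lit 228) (nat_lit 47243330843) (nat_lit 76) (nat_lit 232612704371) (nat_lit 16) (nat_lit 5) (nat_lit 19) (nat_lit 5) (nat_lit 17) (nat_lit 5) (nat_lit 305) (nat_lit 287) (nat_lit 128)))) (XT.nd (nat_lit 78) (nat_lit 0) (nat_lit 0) (XT.lf (nat_lit 0) (nat_lit 92617911167) (nat_lit 152) (nat_lit 21768234450) (nat_lit 228) (nat_lit 256786125198) (nat_lit 14) (nat_lit 5) (nat_lit 16) (nat_lit 5)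 (nat_lit 17) (nat_lit 5) (nat_lit 306) (nat_lit 287) (nat_lit 127)) (XT.nd (nat_lit 78) (nat_lit 0) (nat_lit 0) (XT.lf (nat_lit 0) (nat_lit 163657864059) (nat_lit 228) (nat_lit 147778787654) (nat_lit 76) (nat_lit 80495959076) (nat_lit 14) (nat_lit 5) (nat_lit 17) (nat_lit 5) (nat_lit 15) (nat_lit 5) (nat_lit 307) (nat_lit 287) (nat_lit 126)) (XT.lf (nat_lit 0) (nat_lit 217436659747) (nat_lit 228) (nat_lit 7106674059) (nat_lit 76) (nat_lit 189765217385) (nat_lit 14) (nat_lit 5) (nat_lit 17) (nat_lit 5) (nat_lit 15) (nat_lit 5) (nat_lit 308) (nat_lit 287) (nat_lit 125))))))))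
noncomputable def xc119 : XT := (XT.nd (nat_lit 36426) (nat_lit 0) (nat_lit 228) (XT.nd (nat_lit 858) (nat_lit 152) (nat_lit 0) (XT.nd (nat_lit 390) (nat_lit 228) (nat_lit 0) (XT.nd (nat_lit 156) (nat_lit 152) (nat_lit 0) (XT.nd (nat_lit 78) (nat_lit 0) (nat_lit 0) (XT.lf (nat_lit 0) (nat_lit 152445038451) (nat_lit 152) (nat_lit 126738963668) (nat_lit 228) (nat_lit 158997265647) (nat_lit 12) (nat_lit 5) (nat_lit 14) (nat_lit 5) (nat_lit 15) (nat_lit 5) (nat_lit 309) (nat_lit 287) (nat_lit 124)) (XT.lf (nat_lit 0) (nat_lit 325164964653) (nat_lit 152) (nat_lit 20900415136) (nat_lit 228) (nat_lit 117882882401) (nat_lit 12) (nat_lit 5) (nat_lit 14) (nat_lit 5) (nat_lit 15) (nat_lit 5) (nat_lit 310) (nat_lit 287) (nat_lit 123))) (XT.nd (nat_lit 78) (nat_lit 76) (nat_lit 0) (XT.lf (nat_lit 0) (nat_lit 18610352167) (nat_lit 76) (nat_lit 402380835460) (nat_lit 152) (nat_lit 70569915271) (nat_lit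 11) (nat_lit 5) (nat_lit 12) (nat_lit 5) (nat_lit 13) (nat_lit 4) (nat_lit 311) (nat_lit 287) (nat_lit 122)) (XT.nd (nat_lit 78) (nat_lit 76) (nat_lit 0) (XT.lf (nat_lit 0) (nat_lit 195916686613) (nat_lit 76) (nat_lit 310318024295) (nat_lit 152) (nat_lit 14802368193) (nat_lit 11) (nat_lit 5) (nat_lit 12) (nat_lit 5) (nat_lit 13) (nat_lit 4) (nat_lit 312) (nat_lit 287) (nat_lit 121)) (XT.lf (nat_lit 0) (nat_lit 43154108569) (nat_lit 152) (nat_lit 166556194896) (nat_lit 76) (nat_lit 343073433559) (nat_lit 10) (nat_lit 5) (nat_lit 12) (nat_lit 5) (nat_lit 11) (nat_lit 5) (nat_lit 313) (nat_lit 287) (nat_lit 120))))) (XT.nd (nat_lit 234) (nat_lit 76) (nat_lit 0) (XT.nd (nat_lit 78) (nat_lit 0) (nat_lit 0) (XT.lf (nat_lit 0) (nat_lit 4535470976) (nat_lit 152) (nat_lit 100520949769) (nat_lit 228) (nat_lit 481974226538) (nat_lit 8) (nat_lit 5) (nat_lit 10) (nat_lit 5) (nat_lit 11) (nat_lit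 5) (nat_lit 314) (nat_lit 287) (nat_lit 119)) (XT.nd (nat_lit 78) (nat_lit 0) (nat_lit 0) (XT.lf (nat_lit 0) (nat_lit 177001652212) (nat_lit 228) (nat_lit 425403241157) (nat_lit 76) (nat_lit 21205158471) (nat_lit 8) (nat_lit 5) (nat_lit 11) (nat_lit 5) (nat_lit 9) (nat_lit 4) (nat_lit 315) (nat_lit 287) (nat_lit 118)) (XT.lf (nat_lit 0) (nat_lit 257313392197) (nat_lit 228) (nat_lit 258354954007) (nat_lit 76) (nat_lit 147238591565) (nat_lit 8) (nat_lit 5) (nat_lit 11) (nat_lit 5) (nat_lit 9) (nat_lit 4) (nat_lit 316) (nat_lit 287) (nat_lit 117)))) (XT.nd (nat_lit 78) (nat_lit 76) (nat_lit 0) (XT.lf (nat_lit 0) (nat_lit 344050030863) (nat_lit 228) (nat_lit 77942867821) (nat_lit 76) (nat_lit 283354679320) (nat_lit 8) (nat_lit 5) (nat_lit 11) (nat_lit 5) (nat_lit 9) (nat_lit 4) (nat_lit 317) (nat_lit 287) (nat_lit 116)) (XT.nd (nat_lit 78) (nat_lit 0) (nat_lit 0) (XT.lf (nat_lit 0) (nat_lit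 123057984848) (nat_lit 76) (nat_lit 317627125753) (nat_lit 152) (nat_lit 310261598237) (nat_lit 7) (nat_lit 5) (nat_lit 8) (nat_lit 5) (nat_lit 9) (nat_lit 4) (nat_lit 318) (nat_lit 287) (nat_lit 115)) (XT.lf (nat_lit 0) (nat_lit 344571527986) (nat_lit 76) (nat_lit 202610528739) (nat_lit 152) (nat_lit 252841228776) (nat_lit 7) (nat_lit 5) (nat_lit 8) (nat_lit 5) (nat_lit 9) (nat_lit 4) (nat_lit 319) (nat_lit 287) (nat_lit 114)))))) (XT.nd (nat_lit 35100) (nat_lit 0) (nat_lit 1672) (XT.nd (nat_lit 234) (nat_lit 76) (nat_lit 0) (XT.nd (nat_lit 78) (nat_lit 76) (nat_lit 0) (XT.lf (nat_lit 0) (nat_lit 583806101147) (nat_lit 76) (nat_lit 78392623943) (nat_lit 152) (nat_lit 190827266036) (nat_lit 7) (nat_lit 5) (nat_lit 8) (nat_lit 5) (nat_lit 9) (nat_lit 4) (nat_lit 320) (nat_lit 287) (nat_lit 113)) (XT.nd (nat_lit 78) (nat_lit 76) (nat_lit 0) (XT.lf (nat_lit 0) (nat_lit 787757790103) (nat_lit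 152) (nat_lit 69430619277) (nat_lit 0) (nat_lit 52973218907) (nat_lit 7) (nat_lit 5) (nat_lit 9) (nat_lit 4) (nat_lit 7) (nat_lit 4) (nat_lit 321) (nat_lit 287) (nat_lit 112)) (XT.lf (nat_lit 0) (nat_lit 151904448966) (nat_lit 76) (nat_lit 777146579961) (nat_lit 76) (nat_lit 42361931734) (nat_lit 6) (nat_lit 4) (nat_lit 7) (nat_lit 5) (nat_lit 7) (nat_lit 4) (nat_lit 322) (nat_lit 287) (nat_lit 111)))) (XT.nd (nat_lit 78) (nat_lit 0) (nat_lit 0) (XT.lf (nat_lit 0) (nat_lit 43825735891) (nat_lit 152) (nat_lit 643627188898) (nat_lit 76) (nat_lit 349870847725) (nat_lit 5) (nat_lit 5) (nat_lit 7) (nat_lit 5) (nat_lit 6) (nat_lit 4) (nat_lit 323) (nat_lit 287) (nat_lit 110)) (XT.nd (nat_lit 34710) (nat_lit 0) (nat_lit 1672) (XT.lf (nat_lit 0) (nat_lit 134619745546) (nat_lit 152) (nat_lit 454775714858) (nat_lit 76) (nat_lit 519023966360) (nat_lit 5) (nat_lit 5) (nat_lit 7) (nat_lit 5) (nat_lit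 6) (nat_lit 4) (nat_lit 324) (nat_lit 287) (nat_lit 109)) (XT.lf (nat_lit 0) (nat_lit 6938893459) (nat_lit 532) (nat_lit 37979316783) (nat_lit 532) (nat_lit 37979316783) (nat_lit 27) (nat_lit 3) (nat_lit 34) (nat_lit 3) (nat_lit 34) (nat_lit 5) (nat_lit 288) (nat_lit 288) (nat_lit 144))))) (XT.nd (nat_lit 234) (nat_lit 0) (nat_lit 152) (XT.nd (nat_lit 78) (nat_lit 0) (nat_lit 76) (XT.lf (nat_lit 0) (nat_lit 14434958935) (nat_lit 532) (nat_lit 10465666555) (nat_lit 532) (nat_lit 147526049384) (nat_lit 27) (nat_lit 3) (nat_lit 34) (nat_lit 3) (nat_lit 34) (nat_lit 5) (nat_lit 289) (nat_lit 288) (nat_lit 143)) (XT.nd (nat_lit 78) (nat_lit 0) (nat_lit 0) (XT.lf (nat_lit 0) (nat_lit 17689651105) (nat_lit 456) (nat_lit 117154040326) (nat_lit 532) (nat_lit 44532899869) (nat_lit 28) (nat_lit 5) (nat_lit 34) (nat_lit 5) (nat_lit 35) (nat_lit 5) (nat_lit 290) (nat_lit 288) (nat_lit 142)) (XT.lf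 (nat_lit 0) (nat_lit 22144878990) (nat_lit 456) (nat_lit 46192921713) (nat_lit 532) (nat_lit 118469489038) (nat_lit 28) (nat_lit 5) (nat_lit 34) (nat_lit 5) (nat_lit 35) (nat_lit 5) (nat_lit 291) (nat_lit 288) (nat_lit 141)))) (XT.nd (nat_lit 78) (nat_lit 0) (nat_lit 0) (XT.lf (nat_lit 0) (nat_lit 27831027570) (nat_lit 456) (nat_lit 162826574468) (nat_lit 532) (nat_lit 4104883236) (nat_lit 29) (nat_lit 5) (nat_lit 35) (nat_lit 5) (nat_lit 36) (nat_lit 5) (nat_lit 292) (nat_lit 288) (nat_lit 140)) (XT.nd (nat_lit 78) (nat_lit 0) (nat_lit 0) (XT.lf (nat_lit 0) (nat_lit 37042711563) (nat_lit 456) (nat_lit 86118919061) (nat_lit 532) (nat_lit 79946815656) (nat_lit 29) (nat_lit 5) (nat_lit 35) (nat_lit 5) (nat_lit 36) (nat_lit 5) (nat_lit 293) (nat_lit 288) (nat_lit 139)) (XT.lf (nat_lit 0) (nat_lit 46991176826) (nat_lit 456) (nat_lit 3274773187) (nat_lit 532) (nat_lit 161856147641) (nat_lit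 29) (nat_lit 5) (nat_lit 35) (nat_lit 5) (nat_lit 36) (nat_lit 5) (nat_lit 294) (nat_lit 288) (nat_lit 138))))))) (XT.nd (nat_lit 858) (nat_lit 608) (nat_lit 0) (XT.nd (nat_lit 390) (nat_lit 380) (nat_lit 0) (XT.nd (nat_lit 156) (nat_lit 684) (nat_lit 0) (XT.nd (nat_lit 78) (nat_lit 0) (nat_lit 0) (XT.lf (nat_lit 0) (nat_lit 60658752624) (nat_lit 456) (nat_lit 131687694287) (nat_lit 76) (nat_lit 29276536686) (nat_lit 30) (nat_lit 5) (nat_lit 36) (nat_lit 5) (nat_lit 31) (nat_lit 5) (nat_lit 295) (nat_lit 288) (nat_lit 137)) (XT.lf (nat_lit 0) (nat_lit 76817073719) (nat_lit 456) (nat_lit 42396438492) (nat_lit 76) (nat_lit 112558642105) (nat_lit 30) (nat_lit 5) (nat_lit 36) (nat_lit 5) (nat_lit 31) (nat_lit 5) (nat_lit 296) (nat_lit 288) (nat_lit 136))) (XT.nd (nat_lit 78) (nat_lit 228) (nat_lit 0) (XT.lf (nat_lit 0) (nat_lit 56883549952) (nat_lit 456) (nat_lit 38752437568) (nat_lit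 532) (nat_lit 146987837975) (nat_lit 24) (nat_lit 5) (nat_lit 30) (nat_lit 5) (nat_lit 31) (nat_lit 5) (nat_lit 297) (nat_lit 288) (nat_lit 135)) (XT.nd (nat_lit 78) (nat_lit 228) (nat_lit 0) (XT.lf (nat_lit 0) (nat_lit 118307501046) (nat_lit 532) (nat_lit 88921965209) (nat_lit 76) (nat_lit 46926398075) (nat_lit 24) (nat_lit 5) (nat_lit 31) (nat_lit 5) (nat_lit 25) (nat_lit 5) (nat_lit 298) (nat_lit 288) (nat_lit 134)) (XT.lf (nat_lit 0) (nat_lit 15405801764) (nat_lit 228) (nat_lit 128763892226) (nat_lit 304) (nat_lit 122330616441) (nat_lit 21) (nat_lit 5) (nat_lit 24) (nat_lit 5) (nat_lit 25) (nat_lit 5) (nat_lit 299) (nat_lit 288) (nat_lit 133))))) (XT.nd (nat_lit 234) (nat_lit 228) (nat_lit 0) (XT.nd (nat_lit 78) (nat_lit 152) (nat_lit 0) (XT.lf (nat_lit 0) (nat_lit 133136751919) (nat_lit 228) (nat_lit 41395291582) (nat_lit 304) (nat_lit 105105774994) (nat_lit 21) (nat_lit 5) (nat_lit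 24) (nat_lit 5) (nat_lit 25) (nat_lit 5) (nat_lit 300) (nat_lit 288) (nat_lit 132)) (XT.nd (nat_lit 78) (nat_lit 152) (nat_lit 0) (XT.lf (nat_lit 0) (nat_lit 208597042026) (nat_lit 304) (nat_lit 34814014908) (nat_lit 76) (nat_lit 50313378093) (nat_lit 21) (nat_lit 5) (nat_lit 25) (nat_lit 5) (nat_lit 22) (nat_lit 5) (nat_lit 301) (nat_lit 288) (nat_lit 131)) (XT.lf (nat_lit 0) (nat_lit 89194571044) (nat_lit 152) (nat_lit 159412914928) (nat_lit 228) (nat_lit 60072875922) (nat_lit 19) (nat_lit 5) (nat_lit 21) (nat_lit 5) (nat_lit 22) (nat_lit 5) (nat_lit 302) (nat_lit 288) (nat_lit 130)))) (XT.nd (nat_lit 78) (nat_lit 228) (nat_lit 0) (XT.lf (nat_lit 0) (nat_lit 225103649157) (nat_lit 152) (nat_lit 67666908902) (nat_lit 228) (nat_lit 31986062048) (nat_lit 19) (nat_lit 5) (nat_lit 21) (nat_lit 5) (nat_lit 22) (nat_lit 5) (nat_lit 303) (nat_lit 288) (nat_lit 129)) (XT.nd (nat_lit 78) (nat_lit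 76) (nat_lit 0) (XT.lf (nat_lit 0) (nat_lit 30538409327) (nat_lit 152) (nat_lit 311418260103) (nat_lit 228) (nat_lit 43110627) (nat_lit 17) (nat_lit 5) (nat_lit 19) (nat_lit 5) (nat_lit 20) (nat_lit 5) (nat_lit 304) (nat_lit 288) (nat_lit 128)) (XT.lf (nat_lit 0) (nat_lit 37284649177) (nat_lit 228) (nat_lit 186249068185) (nat_lit 76) (nat_lit 136658146723) (nat_lit 16) (nat_lit 5) (nat_lit 19) (nat_lit 5) (nat_lit 17) (nat_lit 5) (nat_lit 305) (nat_lit 288) (nat_lit 127)))))) (XT.nd (nat_lit 468) (nat_lit 304) (nat_lit 0) (XT.nd (nat_lit 234) (nat_lit 152) (nat_lit 0) (XT.nd (nat_lit 78) (nat_lit 152) (nat_lit 0) (XT.lf (nat_lit 0) (nat_lit 77596229149) (nat_lit 228) (nat_lit 51020993643) (nat_lit 76) (nat_lit 251222008632) (nat_lit 16) (nat_lit 5) (nat_lit 19) (nat_lit 5) (nat_lit 17) (nat_lit 5) (nat_lit 306) (nat_lit 288) (nat_lit 126)) (XT.nd (nat_lit 78) (nat_lit 0) (nat_lit 0)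 (XT.lf (nat_lit 0) (nat_lit 100029102066) (nat_lit 152) (nat_lit 23509269535) (nat_lit 228) (nat_lit 277327566074) (nat_lit 14) (nat_lit 5) (nat_lit 16) (nat_lit 5) (nat_lit 17) (nat_lit 5) (nat_lit 307) (nat_lit 288) (nat_lit 125)) (XT.lf (nat_lit 0) (nat_lit 176751738113) (nat_lit 228) (nat_lit 159599366017) (nat_lit 76) (nat_lit 86936008465) (nat_lit 14) (nat_lit 5) (nat_lit 17) (nat_lit 5) (nat_lit 15) (nat_lit 5) (nat_lit 308) (nat_lit 288) (nat_lit 124)))) (XT.nd (nat_lit 78) (nat_lit 152) (nat_lit 0) (XT.lf (nat_lit 0) (nat_lit 234832745239) (nat_lit 228) (nat_lit 7673611087) (nat_lit 76) (nat_lit 204946779835) (nat_lit 14) (nat_lit 5) (nat_lit 17) (nat_lit 5) (nat_lit 15) (nat_lit 5) (nat_lit 309) (nat_lit 288) (nat_lit 123)) (XT.nd (nat_lit 78) (nat_lit 0) (nat_lit 0) (XT.lf (nat_lit 0) (nat_lit 164642197997) (nat_lit 152) (nat_lit 136877629051) (nat_lit 228) (nat_lit 171715847362)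 (nat_lit 12) (nat_lit 5) (nat_lit 14) (nat_lit 5) (nat_lit 15) (nat_lit 5) (nat_lit 310) (nat_lit 288) (nat_lit 122)) (XT.lf (nat_lit 0) (nat_lit 351179603001) (nat_lit 152) (nat_lit 22572030097) (nat_lit 228) (nat_lit 127312402310) (nat_lit 12) (nat_lit 5) (nat_lit 14) (nat_lit 5) (nat_lit 15) (nat_lit 5) (nat_lit 311) (nat_lit 288) (nat_lit 121))))) (XT.nd (nat_lit 234) (nat_lit 152) (nat_lit 0) (XT.nd (nat_lit 78) (nat_lit 76) (nat_lit 0) (XT.lf (nat_lit 0) (nat_lit 20100660763) (nat_lit 76) (nat_lit 434570813946) (nat_lit 152) (nat_lit 76214431571) (nat_lit 11) (nat_lit 5) (nat_lit 12) (nat_lit 5) (nat_lit 13) (nat_lit 4) (nat_lit 312) (nat_lit 288) (nat_lit 120)) (XT.nd (nat_lit 78) (nat_lit 76) (nat_lit 0) (XT.lf (nat_lit 0) (nat_lit 211591392302) (nat_lit 76) (nat_lit 335143014063) (nat_lit 152) (nat_lit 15985560499) (nat_lit 11) (nat_lit 5) (nat_lit 12) (nat_lit 5) (nat_lit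 13) (nat_lit 4) (nat_lit 313) (nat_lit 288) (nat_lit 119)) (XT.lf (nat_lit 0) (nat_lit 46607314354) (nat_lit 152) (nat_lit 179879370724) (nat_lit 76) (nat_lit 370519676385) (nat_lit 10) (nat_lit 5) (nat_lit 12) (nat_lit 5) (nat_lit 11) (nat_lit 5) (nat_lit 314) (nat_lit 288) (nat_lit 118)))) (XT.nd (nat_lit 78) (nat_lit 0) (nat_lit 0) (XT.lf (nat_lit 0) (nat_lit 4899595005) (nat_lit 152) (nat_lit 108562182465) (nat_lit 228) (nat_lit 520531250117) (nat_lit 8) (nat_lit 5) (nat_lit 10) (nat_lit 5) (nat_lit 11) (nat_lit 5) (nat_lit 315) (nat_lit 288) (nat_lit 117)) (XT.nd (nat_lit 78) (nat_lit 0) (nat_lit 0) (XT.lf (nat_lit 0) (nat_lit 191162574877) (nat_lit 228) (nat_lit 459434253073) (nat_lit 76) (nat_lit 22901961065) (nat_lit 8) (nat_lit 5) (nat_lit 11) (nat_lit 5) (nat_lit 9) (nat_lit 4) (nat_lit 316) (nat_lit 288) (nat_lit 116)) (XT.lf (nat_lit 0) (nat_lit 277899195507) (nat_lit 228)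 (nat_lit 279022195349) (nat_lit 76) (nat_lit 159018039924) (nat_lit 8) (nat_lit 5) (nat_lit 11) (nat_lit 5) (nat_lit 9) (nat_lit 4) (nat_lit 317) (nat_lit 288) (nat_lit 115))))))))
noncomputable def xc120 : XT := (XT.nd (nat_lit 36660) (nat_lit 0) (nat_lit 76) (XT.nd (nat_lit 35724) (nat_lit 0) (nat_lit 760) (XT.nd (nat_lit 35256) (nat_lit 0) (nat_lit 1596) (XT.nd (nat_lit 156) (nat_lit 76) (nat_lit 0) (XT.nd (nat_lit 78) (nat_lit 76) (nat_lit 0) (XT.lf (nat_lit 0) (nat_lit 371574711049) (nat_lit 228) (nat_lit 84177227822) (nat_lit 76) (nat_lit 306023387956) (nat_lit 8) (nat_lit 5) (nat_lit 11) (nat_lit 5) (nat_lit 9) (nat_lit 4) (nat_lit 318) (nat_lit 288) (nat_lit 114)) (XT.lf (nat_lit 0) (nat_lit 132903665986) (nat_lit 76) (nat_lit 343036906046) (nat_lit 152) (nat_lit 335081818342) (nat_lit 7) (nat_lit 5) (nat_lit 8) (nat_lit 5) (nat_lit 9) (nat_lit 4) (nat_lit 319) (nat_lit 288)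 (nat_lit 113))) (XT.nd (nat_lit 78) (nat_lit 76) (nat_lit 0) (XT.lf (nat_lit 0) (nat_lit 372138215364) (nat_lit 76) (nat_lit 218819010143) (nat_lit 152) (nat_lit 273067871751) (nat_lit 7) (nat_lit 5) (nat_lit 8) (nat_lit 5) (nat_lit 9) (nat_lit 4) (nat_lit 320) (nat_lit 288) (nat_lit 112)) (XT.nd (nat_lit 156) (nat_lit 76) (nat_lit 0) (XT.lf (nat_lit 0) (nat_lit 630511482887) (nat_lit 76) (nat_lit 84663699696) (nat_lit 152) (nat_lit 206092840534) (nat_lit 7) (nat_lit 5) (nat_lit 8) (nat_lit 5) (nat_lit 9) (nat_lit 4) (nat_lit 321) (nat_lit 288) (nat_lit 111)) (XT.lf (nat_lit 0) (nat_lit 164057646821) (nat_lit 76) (nat_lit 839317971228) (nat_lit 76) (nat_lit 45750336743) (nat_lit 6) (nat_lit 4) (nat_lit 7) (nat_lit 5) (nat_lit 7) (nat_lit 4) (nat_lit 323) (nat_lit 288) (nat_lit 109))))) (XT.nd (nat_lit 234) (nat_lit 0) (nat_lit 76) (XT.nd (nat_lit 78) (nat_lit 0) (nat_lit 0) (XT.lf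 (nat_lit 0) (nat_lit 7496015919) (nat_lit 532) (nat_lit 41016568144) (nat_lit 532) (nat_lit 41016568144) (nat_lit 27) (nat_lit 3) (nat_lit 34) (nat_lit 3) (nat_lit 34) (nat_lit 5) (nat_lit 289) (nat_lit 289) (nat_lit 142)) (XT.nd (nat_lit 78) (nat_lit 0) (nat_lit 76) (XT.lf (nat_lit 0) (nat_lit 15593479693) (nat_lit 532) (nat_lit 11300893987) (nat_lit 532) (nat_lit 159326107443) (nat_lit 27) (nat_lit 3) (nat_lit 34) (nat_lit 3) (nat_lit 34) (nat_lit 5) (nat_lit 290) (nat_lit 289) (nat_lit 141)) (XT.lf (nat_lit 0) (nat_lit 19108282289) (nat_lit 456) (nat_lit 126524045103) (nat_lit 532) (nat_lit 48094086875) (nat_lit 28) (nat_lit 5) (nat_lit 34) (nat_lit 5) (nat_lit 35) (nat_lit 5) (nat_lit 291) (nat_lit 289) (nat_lit 140)))) (XT.nd (nat_lit 78) (nat_lit 0) (nat_lit 76) (XT.lf (nat_lit 0) (nat_lit 23919672175) (nat_lit 456) (nat_lit 49886208739) (nat_lit 532) (nat_lit 127945710213) (nat_lit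 28) (nat_lit 5) (nat_lit 34) (nat_lit 5) (nat_lit 35) (nat_lit 5) (nat_lit 292) (nat_lit 289) (nat_lit 139)) (XT.nd (nat_lit 78) (nat_lit 0) (nat_lit 0) (XT.lf (nat_lit 0) (nat_lit 30060503502) (nat_lit 456) (nat_lit 175850320904) (nat_lit 532) (nat_lit 4432396523) (nat_lit 29) (nat_lit 5) (nat_lit 35) (nat_lit 5) (nat_lit 36) (nat_lit 5) (nat_lit 293) (nat_lit 289) (nat_lit 138)) (XT.lf (nat_lit 0) (nat_lit 40008900457) (nat_lit 456) (nat_lit 93006229325) (nat_lit 532) (nat_lit 86341748526) (nat_lit 29) (nat_lit 5) (nat_lit 35) (nat_lit 5) (nat_lit 36) (nat_lit 5) (nat_lit 294) (nat_lit 289) (nat_lit 137)))))) (XT.nd (nat_lit 468) (nat_lit 380) (nat_lit 0) (XT.nd (nat_lit 234) (nat_lit 608) (nat_lit 0) (XT.nd (nat_lit 78) (nat_lit 0) (nat_lit 76) (XT.lf (nat_lit 0) (nat_lit 50753037610) (nat_lit 456) (nat_lit 3534714986) (nat_lit 532) (nat_lit 174803887246) (nat_lit 29) (nat_lit 5)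 (nat_lit 35) (nat_lit 5) (nat_lit 36) (nat_lit 5) (nat_lit 295) (nat_lit 289) (nat_lit 136)) (XT.nd (nat_lit 78) (nat_lit 0) (nat_lit 0) (XT.lf (nat_lit 0) (nat_lit 65513866687) (nat_lit 456) (nat_lit 142220498200) (nat_lit 76) (nat_lit 31618245499) (nat_lit 30) (nat_lit 5) (nat_lit 36) (nat_lit 5) (nat_lit 31) (nat_lit 5) (nat_lit 296) (nat_lit 289) (nat_lit 135)) (XT.lf (nat_lit 0) (nat_lit 82964674666) (nat_lit 456) (nat_lit 45786105766) (nat_lit 76) (nat_lit 121562950027) (nat_lit 30) (nat_lit 5) (nat_lit 36) (nat_lit 5) (nat_lit 31) (nat_lit 5) (nat_lit 297) (nat_lit 289) (nat_lit 134)))) (XT.nd (nat_lit 78) (nat_lit 228) (nat_lit 0) (XT.lf (nat_lit 0) (nat_lit 61436229911) (nat_lit 456) (nat_lit 41852754104) (nat_lit 532) (nat_lit 158744562011) (nat_lit 24) (nat_lit 5) (nat_lit 30) (nat_lit 5) (nat_lit 31) (nat_lit 5) (nat_lit 298) (nat_lit 289) (nat_lit 133)) (XT.nd (nat_lit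 78) (nat_lit 228) (nat_lit 0) (XT.lf (nat_lit 0) (nat_lit 127774059066) (nat_lit 532) (nat_lit 96033699839) (nat_lit 76) (nat_lit 50680403022) (nat_lit 24) (nat_lit 5) (nat_lit 31) (nat_lit 5) (nat_lit 25) (nat_lit 5) (nat_lit 299) (nat_lit 289) (nat_lit 132)) (XT.lf (nat_lit 0) (nat_lit 16640237288) (nat_lit 228) (nat_lit 139064892537) (nat_lit 304) (nat_lit 132115042805) (nat_lit 21) (nat_lit 5) (nat_lit 24) (nat_lit 5) (nat_lit 25) (nat_lit 5) (nat_lit 300) (nat_lit 289) (nat_lit 131))))) (XT.nd (nat_lit 234) (nat_lit 228) (nat_lit 0) (XT.nd (nat_lit 78) (nat_lit 152) (nat_lit 0) (XT.lf (nat_lit 0) (nat_lit 143789517427) (nat_lit 228) (nat_lit 44706812068) (nat_lit 304) (nat_lit 113512363891) (nat_lit 21) (nat_lit 5) (nat_lit 24) (nat_lit 5) (nat_lit 25) (nat_lit 5) (nat_lit 301) (nat_lit 289) (nat_lit 130)) (XT.nd (nat_lit 78) (nat_lit 152) (nat_lit 0) (XT.lf (nat_lit 0) (nat_lit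 225286402598) (nat_lit 304) (nat_lit 37597308813) (nat_lit 76) (nat_lit 54338538800) (nat_lit 21) (nat_lit 5) (nat_lit 25) (nat_lit 5) (nat_lit 22) (nat_lit 5) (nat_lit 302) (nat_lit 289) (nat_lit 129)) (XT.lf (nat_lit 0) (nat_lit 96331917755) (nat_lit 152) (nat_lit 172165688828) (nat_lit 228) (nat_lit 64877051560) (nat_lit 19) (nat_lit 5) (nat_lit 21) (nat_lit 5) (nat_lit 22) (nat_lit 5) (nat_lit 303) (nat_lit 289) (nat_lit 128)))) (XT.nd (nat_lit 78) (nat_lit 228) (nat_lit 0) (XT.lf (nat_lit 0) (nat_lit 243113590188) (nat_lit 152) (nat_lit 73080021527) (nat_lit 228) (nat_lit 34543415127) (nat_lit 19) (nat_lit 5) (nat_lit 21) (nat_lit 5) (nat_lit 22) (nat_lit 5) (nat_lit 304) (nat_lit 289) (nat_lit 127)) (XT.nd (nat_lit 78) (nat_lit 76) (nat_lit 0) (XT.lf (nat_lit 0) (nat_lit 32983203557) (nat_lit 152) (nat_lit 336331350816) (nat_lit 228) (nat_lit 45090578) (nat_lit 17) (nat_lit 5)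 (nat_lit 19) (nat_lit 5) (nat_lit 20) (nat_lit 5) (nat_lit 305) (nat_lit 289) (nat_lit 126)) (XT.lf (nat_lit 0) (nat_lit 40268713166) (nat_lit 228) (nat_lit 201147323578) (nat_lit 76) (nat_lit 147591065046) (nat_lit 16) (nat_lit 5) (nat_lit 19) (nat_lit 5) (nat_lit 17) (nat_lit 5) (nat_lit 306) (nat_lit 289) (nat_lit 125))))))) (XT.nd (nat_lit 858) (nat_lit 76) (nat_lit 0) (XT.nd (nat_lit 390) (nat_lit 304) (nat_lit 0) (XT.nd (nat_lit 156) (nat_lit 152) (nat_lit 0) (XT.nd (nat_lit 78) (nat_lit 152) (nat_lit 0) (XT.lf (nat_lit 0) (nat_lit 83805123827) (nat_lit 228) (nat_lit 55101126780) (nat_lit 76) (nat_lit 271320016160) (nat_lit 16) (nat_lit 5) (nat_lit 19) (nat_lit 5) (nat_lit 17) (nat_lit 5) (nat_lit 307) (nat_lit 289) (nat_lit 124)) (XT.lf (nat_lit 0) (nat_lit 108032937437) (nat_lit 152) (nat_lit 25389647869) (nat_lit 228) (nat_lit 299512528955) (nat_lit 14) (nat_lit 5) (nat_lit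 16) (nat_lit 5) (nat_lit 17) (nat_lit 5) (nat_lit 308) (nat_lit 289) (nat_lit 123))) (XT.nd (nat_lit 78) (nat_lit 152) (nat_lit 0) (XT.lf (nat_lit 0) (nat_lit 190892944489) (nat_lit 228) (nat_lit 172365836690) (nat_lit 76) (nat_lit 93891208641) (nat_lit 14) (nat_lit 5) (nat_lit 17) (nat_lit 5) (nat_lit 15) (nat_lit 5) (nat_lit 309) (nat_lit 289) (nat_lit 122)) (XT.nd (nat_lit 78) (nat_lit 152) (nat_lit 0) (XT.lf (nat_lit 0) (nat_lit 253620353124) (nat_lit 228) (nat_lit 8286130891) (nat_lit 76) (nat_lit 221342818054) (nat_lit 14) (nat_lit 5) (nat_lit 17) (nat_lit 5) (nat_lit 15) (nat_lit 5) (nat_lit 310) (nat_lit 289) (nat_lit 121)) (XT.lf (nat_lit 0) (nat_lit 177814908259) (nat_lit 152) (nat_lit 147827452107) (nat_lit 228) (nat_lit 185452086740) (nat_lit 12) (nat_lit 5) (nat_lit 14) (nat_lit 5) (nat_lit 15) (nat_lit 5) (nat_lit 311) (nat_lit 289) (nat_lit 120))))) (XT.nd (nat_lit 234)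 (nat_lit 228) (nat_lit 0) (XT.nd (nat_lit 78) (nat_lit 76) (nat_lit 0) (XT.lf (nat_lit 0) (nat_lit 379275206816) (nat_lit 152) (nat_lit 24377433922) (nat_lit 228) (nat_lit 137496442263) (nat_lit 12) (nat_lit 5) (nat_lit 14) (nat_lit 5) (nat_lit 15) (nat_lit 5) (nat_lit 312) (nat_lit 289) (nat_lit 119)) (XT.nd (nat_lit 78) (nat_lit 0) (nat_lit 0) (XT.lf (nat_lit 0) (nat_lit 21709982847) (nat_lit 76) (nat_lit 469336060380) (nat_lit 152) (nat_lit 82310662810) (nat_lit 11) (nat_lit 5) (nat_lit 12) (nat_lit 5) (nat_lit 13) (nat_lit 4) (nat_lit 313) (nat_lit 289) (nat_lit 118)) (XT.lf (nat_lit 0) (nat_lit 228519878893) (nat_lit 76) (nat_lit 361954067519) (nat_lit 152) (nat_lit 17263550444) (nat_lit 11) (nat_lit 5) (nat_lit 12) (nat_lit 5) (nat_lit 13) (nat_lit 4) (nat_lit 314) (nat_lit 289) (nat_lit 117)))) (XT.nd (nat_lit 78) (nat_lit 152) (nat_lit 0) (XT.lf (nat_lit 0) (nat_lit 50336651475)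 (nat_lit 152) (nat_lit 194268588898) (nat_lit 76) (nat_lit 400161566117) (nat_lit 10) (nat_lit 5) (nat_lit 12) (nat_lit 5) (nat_lit 11) (nat_lit 5) (nat_lit 315) (nat_lit 289) (nat_lit 116)) (XT.nd (nat_lit 78) (nat_lit 0) (nat_lit 0) (XT.lf (nat_lit 0) (nat_lit 5292665445) (nat_lit 152) (nat_lit 117246777017) (nat_lit 228) (nat_lit 562172966053) (nat_lit 8) (nat_lit 5) (nat_lit 10) (nat_lit 5) (nat_lit 11) (nat_lit 5) (nat_lit 316) (nat_lit 289) (nat_lit 115)) (XT.lf (nat_lit 0) (nat_lit 206456258584) (nat_lit 228) (nat_lit 496187923894) (nat_lit 76) (nat_lit 24734452241) (nat_lit 8) (nat_lit 5) (nat_lit 11) (nat_lit 5) (nat_lit 9) (nat_lit 4) (nat_lit 317) (nat_lit 289) (nat_lit 114)))))) (XT.nd (nat_lit 35412) (nat_lit 0) (nat_lit 1520) (XT.nd (nat_lit 234) (nat_lit 0) (nat_lit 0) (XT.nd (nat_lit 78) (nat_lit 76) (nat_lit 0) (XT.lf (nat_lit 0) (nat_lit 300131758662) (nat_lit 228)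 (nat_lit 301342980768) (nat_lit 76) (nat_lit 171739792646) (nat_lit 8) (nat_lit 5) (nat_lit 11) (nat_lit 5) (nat_lit 9) (nat_lit 4) (nat_lit 318) (nat_lit 289) (nat_lit 113)) (XT.nd (nat_lit 78) (nat_lit 76) (nat_lit 0) (XT.lf (nat_lit 0) (nat_lit 401301268965) (nat_lit 228) (nat_lit 90910489188) (nat_lit 76) (nat_lit 330505545593) (nat_lit 8) (nat_lit 5) (nat_lit 11) (nat_lit 5) (nat_lit 9) (nat_lit 4) (nat_lit 319) (nat_lit 289) (nat_lit 112)) (XT.lf (nat_lit 0) (nat_lit 143536852913) (nat_lit 76) (nat_lit 370479524367) (nat_lit 152) (nat_lit 361887757025) (nat_lit 7) (nat_lit 5) (nat_lit 8) (nat_lit 5) (nat_lit 9) (nat_lit 4) (nat_lit 320) (nat_lit 289) (nat_lit 111)))) (XT.nd (nat_lit 156) (nat_lit 0) (nat_lit 0) (XT.lf (nat_lit 0) (nat_lit 401910100045) (nat_lit 76) (nat_lit 236324221545) (nat_lit 152) (nat_lit 294912739653) (nat_lit 7) (nat_lit 5) (nat_lit 8) (nat_lit 5) (nat_lit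 9) (nat_lit 4) (nat_lit 321) (nat_lit 289) (nat_lit 110)) (XT.nd (nat_lit 34944) (nat_lit 0) (nat_lit 1520) (XT.lf (nat_lit 0) (nat_lit 918841704415) (nat_lit 152) (nat_lit 80982200839) (nat_lit 0) (nat_lit 61788531979) (nat_lit 7) (nat_lit 5) (nat_lit 9) (nat_lit 4) (nat_lit 7) (nat_lit 4) (nat_lit 323) (nat_lit 289) (nat_lit 108)) (XT.lf (nat_lit 0) (nat_lit 8097421287) (nat_lit 532) (nat_lit 44296955683) (nat_lit 532) (nat_lit 44296955683) (nat_lit 27) (nat_lit 3) (nat_lit 34) (nat_lit 3) (nat_lit 34) (nat_lit 5) (nat_lit 290) (nat_lit 290) (nat_lit 140))))) (XT.nd (nat_lit 234) (nat_lit 0) (nat_lit 152) (XT.nd (nat_lit 78) (nat_lit 0) (nat_lit 76) (XT.lf (nat_lit 0) (nat_lit 16844150835) (nat_lit 532) (nat_lit 12203228630) (nat_lit 532) (nat_lit 172070459163) (nat_lit 27) (nat_lit 3) (nat_lit 34) (nat_lit 3) (nat_lit 34) (nat_lit 5) (nat_lit 291) (nat_lit 290) (nat_lit 139)) (XT.nd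 (nat_lit 78) (nat_lit 0) (nat_lit 0) (XT.lf (nat_lit 0) (nat_lit 20639910489) (nat_lit 456) (nat_lit 136643981016) (nat_lit 532) (nat_lit 51940374985) (nat_lit 28) (nat_lit 5) (nat_lit 34) (nat_lit 5) (nat_lit 35) (nat_lit 5) (nat_lit 292) (nat_lit 290) (nat_lit 138)) (XT.lf (nat_lit 0) (nat_lit 25835991891) (nat_lit 456) (nat_lit 53875264979) (nat_lit 532) (nat_lit 138180219956) (nat_lit 28) (nat_lit 5) (nat_lit 34) (nat_lit 5) (nat_lit 35) (nat_lit 5) (nat_lit 293) (nat_lit 290) (nat_lit 137)))) (XT.nd (nat_lit 78) (nat_lit 0) (nat_lit 0) (XT.lf (nat_lit 0) (nat_lit 32467910420) (nat_lit 456) (nat_lit 189916306520) (nat_lit 532) (nat_lit 4786236039) (nat_lit 29) (nat_lit 5) (nat_lit 35) (nat_lit 5) (nat_lit 36) (nat_lit 5) (nat_lit 294) (nat_lit 290) (nat_lit 136)) (XT.nd (nat_lit 78) (nat_lit 0) (nat_lit 0) (XT.lf (nat_lit 0) (nat_lit 43211989010) (nat_lit 456) (nat_lit 100444838730)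 (nat_lit 532) (nat_lit 93248391922) (nat_lit 29) (nat_lit 5) (nat_lit 35) (nat_lit 5) (nat_lit 36) (nat_lit 5) (nat_lit 295) (nat_lit 290) (nat_lit 135)) (XT.lf (nat_lit 0) (nat_lit 54815481097) (nat_lit 456) (nat_lit 3815743166) (nat_lit 532) (nat_lit 188787553330) (nat_lit 29) (nat_lit 5) (nat_lit 35) (nat_lit 5) (nat_lit 36) (nat_lit 5) (nat_lit 296) (nat_lit 290) (nat_lit 134))))))))
noncomputable def xc121 : XT := (XT.nd (nat_lit 1794) (nat_lit 76) (nat_lit 0) (XT.nd (nat_lit 858) (nat_lit 608) (nat_lit 0) (XT.nd (nat_lit 390) (nat_lit 380) (nat_lit 0) (XT.nd (nat_lit 156) (nat_lit 684) (nat_lit 0) (XT.nd (nat_lit 78) (nat_lit 0) (nat_lit 0) (XT.lf (nat_lit 0) (nat_lit 70757045513) (nat_lit 456) (nat_lit 153596241939) (nat_lit 76) (nat_lit 34147350097) (nat_lit 30) (nat_lit 5) (nat_lit 36) (nat_lit 5) (nat_lit 31) (nat_lit 5) (nat_lit 297) (nat_lit 290) (nat_lit 133)) (XT.lf (nat_lit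 0) (nat_lit 89603764835) (nat_lit 456) (nat_lit 49447238564) (nat_lit 76) (nat_lit 131287657286) (nat_lit 30) (nat_lit 5) (nat_lit 36) (nat_lit 5) (nat_lit 31) (nat_lit 5) (nat_lit 298) (nat_lit 290) (nat_lit 132))) (XT.nd (nat_lit 78) (nat_lit 228) (nat_lit 0) (XT.lf (nat_lit 0) (nat_lit 66352839521) (nat_lit 456) (nat_lit 45201078625) (nat_lit 532) (nat_lit 171442152519) (nat_lit 24) (nat_lit 5) (nat_lit 30) (nat_lit 5) (nat_lit 31) (nat_lit 5) (nat_lit 299) (nat_lit 290) (nat_lit 131)) (XT.nd (nat_lit 78) (nat_lit 228) (nat_lit 0) (XT.lf (nat_lit 0) (nat_lit 137997662405) (nat_lit 532) (nat_lit 103714661783) (nat_lit 76) (nat_lit 54734743615) (nat_lit 24) (nat_lit 5) (nat_lit 31) (nat_lit 5) (nat_lit 25) (nat_lit 5) (nat_lit 300) (nat_lit 290) (nat_lit 130)) (XT.lf (nat_lit 0) (nat_lit 17973146414) (nat_lit 228) (nat_lit 150189988717) (nat_lit 304) (nat_lit 142682511874) (nat_lit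 21) (nat_lit 5) (nat_lit 24) (nat_lit 5) (nat_lit 25) (nat_lit 5) (nat_lit 301) (nat_lit 290) (nat_lit 129))))) (XT.nd (nat_lit 234) (nat_lit 228) (nat_lit 0) (XT.nd (nat_lit 78) (nat_lit 152) (nat_lit 0) (XT.lf (nat_lit 0) (nat_lit 155294243768) (nat_lit 228) (nat_lit 48283268865) (nat_lit 304) (nat_lit 122591747118) (nat_lit 21) (nat_lit 5) (nat_lit 24) (nat_lit 5) (nat_lit 25) (nat_lit 5) (nat_lit 302) (nat_lit 290) (nat_lit 128)) (XT.nd (nat_lit 78) (nat_lit 152) (nat_lit 0) (XT.lf (nat_lit 0) (nat_lit 243310684157) (nat_lit 304) (nat_lit 40603526914) (nat_lit 76) (nat_lit 58685699458) (nat_lit 21) (nat_lit 5) (nat_lit 25) (nat_lit 5) (nat_lit 22) (nat_lit 5) (nat_lit 303) (nat_lit 290) (nat_lit 127)) (XT.lf (nat_lit 0) (nat_lit 104039998119) (nat_lit 152) (nat_lit 185938721630) (nat_lit 228) (nat_lit 70065797274) (nat_lit 19) (nat_lit 5) (nat_lit 21) (nat_lit 5) (nat_lit 22) (nat_lit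 5) (nat_lit 304) (nat_lit 290) (nat_lit 126)))) (XT.nd (nat_lit 78) (nat_lit 228) (nat_lit 0) (XT.lf (nat_lit 0) (nat_lit 262564091240) (nat_lit 152) (nat_lit 78926217413) (nat_lit 228) (nat_lit 37305574994) (nat_lit 19) (nat_lit 5) (nat_lit 21) (nat_lit 5) (nat_lit 22) (nat_lit 5) (nat_lit 305) (nat_lit 290) (nat_lit 125)) (XT.nd (nat_lit 78) (nat_lit 76) (nat_lit 0) (XT.lf (nat_lit 0) (nat_lit 35623335736) (nat_lit 152) (nat_lit 363237541584) (nat_lit 228) (nat_lit 47438480) (nat_lit 17) (nat_lit 5) (nat_lit 19) (nat_lit 5) (nat_lit 20) (nat_lit 5) (nat_lit 306) (nat_lit 290) (nat_lit 124)) (XT.lf (nat_lit 0) (nat_lit 43491317948) (nat_lit 228) (nat_lit 217237677655) (nat_lit 76) (nat_lit 159398578803) (nat_lit 16) (nat_lit 5) (nat_lit 19) (nat_lit 5) (nat_lit 17) (nat_lit 5) (nat_lit 307) (nat_lit 290) (nat_lit 123)))))) (XT.nd (nat_lit 468) (nat_lit 304) (nat_lit 0) (XT.nd (nat_lit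 234) (nat_lit 152) (nat_lit 0) (XT.nd (nat_lit 78) (nat_lit 152) (nat_lit 0) (XT.lf (nat_lit 0) (nat_lit 90510559408) (nat_lit 228) (nat_lit 59507891173) (nat_lit 76) (nat_lit 293025829077) (nat_lit 16) (nat_lit 5) (nat_lit 19) (nat_lit 5) (nat_lit 17) (nat_lit 5) (nat_lit 308) (nat_lit 290) (nat_lit 122)) (XT.nd (nat_lit 78) (nat_lit 0) (nat_lit 0) (XT.lf (nat_lit 0) (nat_lit 116676864618) (nat_lit 152) (nat_lit 27420508288) (nat_lit 228) (nat_lit 323472466111) (nat_lit 14) (nat_lit 5) (nat_lit 16) (nat_lit 5) (nat_lit 17) (nat_lit 5) (nat_lit 309) (nat_lit 290) (nat_lit 121)) (XT.lf (nat_lit 0) (nat_lit 206165295108) (nat_lit 228) (nat_lit 186153835956) (nat_lit 76) (nat_lit 101402779252) (nat_lit 14) (nat_lit 5) (nat_lit 17) (nat_lit 5) (nat_lit 15) (nat_lit 5) (nat_lit 310) (nat_lit 290) (nat_lit 120)))) (XT.nd (nat_lit 78) (nat_lit 152) (nat_lit 0) (XT.lf (nat_lit 0) (nat_lit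 273910828652) (nat_lit 228) (nat_lit 8947847595) (nat_lit 76) (nat_lit 239050497127) (nat_lit 14) (nat_lit 5) (nat_lit 17) (nat_lit 5) (nat_lit 15) (nat_lit 5) (nat_lit 311) (nat_lit 290) (nat_lit 119)) (XT.nd (nat_lit 78) (nat_lit 0) (nat_lit 0) (XT.lf (nat_lit 0) (nat_lit 192041244971) (nat_lit 152) (nat_lit 159653316255) (nat_lit 228) (nat_lit 200287371984) (nat_lit 12) (nat_lit 5) (nat_lit 14) (nat_lit 5) (nat_lit 15) (nat_lit 5) (nat_lit 312) (nat_lit 290) (nat_lit 118)) (XT.lf (nat_lit 0) (nat_lit 409618282669) (nat_lit 152) (nat_lit 26327321210) (nat_lit 228) (nat_lit 148495341259) (nat_lit 12) (nat_lit 5) (nat_lit 14) (nat_lit 5) (nat_lit 15) (nat_lit 5) (nat_lit 313) (nat_lit 290) (nat_lit 117))))) (XT.nd (nat_lit 234) (nat_lit 152) (nat_lit 0) (XT.nd (nat_lit 78) (nat_lit 76) (nat_lit 0) (XT.lf (nat_lit 0) (nat_lit 23447869628) (nat_lit 76) (nat_lit 506882586258) (nat_lit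 152) (nat_lit 88894724265) (nat_lit 11) (nat_lit 5) (nat_lit 12) (nat_lit 5) (nat_lit 13) (nat_lit 4) (nat_lit 314) (nat_lit 290) (nat_lit 116)) (XT.nd (nat_lit 78) (nat_lit 76) (nat_lit 0) (XT.lf (nat_lit 0) (nat_lit 246802476755) (nat_lit 76) (nat_lit 390910060558) (nat_lit 152) (nat_lit 18643901545) (nat_lit 11) (nat_lit 5) (nat_lit 12) (nat_lit 5) (nat_lit 13) (nat_lit 4) (nat_lit 315) (nat_lit 290) (nat_lit 115)) (XT.lf (nat_lit 0) (nat_lit 54364228288) (nat_lit 152) (nat_lit 209809105944) (nat_lit 76) (nat_lit 432174762002) (nat_lit 10) (nat_lit 5) (nat_lit 12) (nat_lit 5) (nat_lit 11) (nat_lit 5) (nat_lit 316) (nat_lit 290) (nat_lit 114)))) (XT.nd (nat_lit 78) (nat_lit 0) (nat_lit 0) (XT.lf (nat_lit 0) (nat_lit 5717024188) (nat_lit 152) (nat_lit 126626193351) (nat_lit 228) (nat_lit 607146131121) (nat_lit 8) (nat_lit 5) (nat_lit 10) (nat_lit 5) (nat_lit 11) (nat_lit 5) (nat_lit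 317) (nat_lit 290) (nat_lit 113)) (XT.nd (nat_lit 78) (nat_lit 0) (nat_lit 0) (XT.lf (nat_lit 0) (nat_lit 222973340303) (nat_lit 228) (nat_lit 535882040946) (nat_lit 76) (nat_lit 26713495021) (nat_lit 8) (nat_lit 5) (nat_lit 11) (nat_lit 5) (nat_lit 9) (nat_lit 4) (nat_lit 318) (nat_lit 290) (nat_lit 112)) (XT.lf (nat_lit 0) (nat_lit 324142837349) (nat_lit 228) (nat_lit 325449570286) (nat_lit 76) (nat_lit 185479241429) (nat_lit 8) (nat_lit 5) (nat_lit 11) (nat_lit 5) (nat_lit 9) (nat_lit 4) (nat_lit 319) (nat_lit 290) (nat_lit 111))))))) (XT.nd (nat_lit 35880) (nat_lit 0) (nat_lit 532) (XT.nd (nat_lit 35412) (nat_lit 0) (nat_lit 1596) (XT.nd (nat_lit 156) (nat_lit 0) (nat_lit 0) (XT.nd (nat_lit 78) (nat_lit 76) (nat_lit 0) (XT.lf (nat_lit 0) (nat_lit 433405868624) (nat_lit 228) (nat_lit 98182542264) (nat_lit 76) (nat_lit 356946234955) (nat_lit 8) (nat_lit 5) (nat_lit 11) (nat_lit 5)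 (nat_lit 9) (nat_lit 4) (nat_lit 320) (nat_lit 290) (nat_lit 110)) (XT.lf (nat_lit 0) (nat_lit 155020567305) (nat_lit 76) (nat_lit 400117599826) (nat_lit 152) (nat_lit 390838257367) (nat_lit 7) (nat_lit 5) (nat_lit 8) (nat_lit 5) (nat_lit 9) (nat_lit 4) (nat_lit 321) (nat_lit 290) (nat_lit 109))) (XT.nd (nat_lit 35100) (nat_lit 0) (nat_lit 1520) (XT.lf (nat_lit 0) (nat_lit 434063617455) (nat_lit 76) (nat_lit 255229894000) (nat_lit 152) (nat_lit 318505277140) (nat_lit 7) (nat_lit 5) (nat_lit 8) (nat_lit 5) (nat_lit 9) (nat_lit 4) (nat_lit 322) (nat_lit 290) (nat_lit 108)) (XT.nd (nat_lit 78) (nat_lit 0) (nat_lit 0) (XT.lf (nat_lit 0) (nat_lit 8746693123) (nat_lit 532) (nat_lit 47839908028) (nat_lit 532) (nat_lit 47839908028) (nat_lit 27) (nat_lit 3) (nat_lit 34) (nat_lit 3) (nat_lit 34) (nat_lit 5) (nat_lit 291) (nat_lit 291) (nat_lit 138)) (XT.lf (nat_lit 0) (nat_lit 18194420185) (nat_lit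 532) (nat_lit 13177997829) (nat_lit 532) (nat_lit 185834606804) (nat_lit 27) (nat_lit 3) (nat_lit 34) (nat_lit 3) (nat_lit 34) (nat_lit 5) (nat_lit 292) (nat_lit 291) (nat_lit 137))))) (XT.nd (nat_lit 234) (nat_lit 0) (nat_lit 76) (XT.nd (nat_lit 78) (nat_lit 0) (nat_lit 0) (XT.lf (nat_lit 0) (nat_lit 22293645866) (nat_lit 456) (nat_lit 147573795368) (nat_lit 532) (nat_lit 56094542878) (nat_lit 28) (nat_lit 5) (nat_lit 34) (nat_lit 5) (nat_lit 35) (nat_lit 5) (nat_lit 293) (nat_lit 291) (nat_lit 136)) (XT.nd (nat_lit 78) (nat_lit 0) (nat_lit 76) (XT.lf (nat_lit 0) (nat_lit 27905225444) (nat_lit 456) (nat_lit 58183708280) (nat_lit 532) (nat_lit 149233654121) (nat_lit 28) (nat_lit 5) (nat_lit 34) (nat_lit 5) (nat_lit 35) (nat_lit 5) (nat_lit 294) (nat_lit 291) (nat_lit 135)) (XT.lf (nat_lit 0) (nat_lit 35067543732) (nat_lit 456) (nat_lit 205107862022) (nat_lit 532) (nat_lit 5168490026)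 (nat_lit 29) (nat_lit 5) (nat_lit 35) (nat_lit 5) (nat_lit 36) (nat_lit 5) (nat_lit 295) (nat_lit 291) (nat_lit 134)))) (XT.nd (nat_lit 78) (nat_lit 0) (nat_lit 0) (XT.lf (nat_lit 0) (nat_lit 46670985610) (nat_lit 456) (nat_lit 108478806366) (nat_lit 532) (nat_lit 100707666150) (nat_lit 29) (nat_lit 5) (nat_lit 35) (nat_lit 5) (nat_lit 36) (nat_lit 5) (nat_lit 296) (nat_lit 291) (nat_lit 133)) (XT.nd (nat_lit 78) (nat_lit 0) (nat_lit 76) (XT.lf (nat_lit 0) (nat_lit 59202606140) (nat_lit 456) (nat_lit 4119503117) (nat_lit 532) (nat_lit 203890004703) (nat_lit 29) (nat_lit 5) (nat_lit 35) (nat_lit 5) (nat_lit 36) (nat_lit 5) (nat_lit 297) (nat_lit 291) (nat_lit 132)) (XT.lf (nat_lit 0) (nat_lit 76419383408) (nat_lit 456) (nat_lit 165882315680) (nat_lit 76) (nat_lit 36878833713) (nat_lit 30) (nat_lit 5) (nat_lit 36) (nat_lit 5) (nat_lit 31) (nat_lit 5) (nat_lit 298) (nat_lit 291) (nat_lit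 131)))))) (XT.nd (nat_lit 468) (nat_lit 532) (nat_lit 0) (XT.nd (nat_lit 234) (nat_lit 228) (nat_lit 0) (XT.nd (nat_lit 78) (nat_lit 456) (nat_lit 0) (XT.lf (nat_lit 0) (nat_lit 96773708850) (nat_lit 456) (nat_lit 53401512450) (nat_lit 76) (nat_lit 141790388025) (nat_lit 30) (nat_lit 5) (nat_lit 36) (nat_lit 5) (nat_lit 31) (nat_lit 5) (nat_lit 299) (nat_lit 291) (nat_lit 130)) (XT.nd (nat_lit 78) (nat_lit 0) (nat_lit 0) (XT.lf (nat_lit 0) (nat_lit 71662533774) (nat_lit 456) (nat_lit 48817254244) (nat_lit 532) (nat_lit 185155831945) (nat_lit 24) (nat_lit 5) (nat_lit 30) (nat_lit 5) (nat_lit 31) (nat_lit 5) (nat_lit 300) (nat_lit 291) (nat_lit 129)) (XT.lf (nat_lit 0) (nat_lit 149038914539) (nat_lit 532) (nat_lit 112010348063) (nat_lit 76) (nat_lit 59113444530) (nat_lit 24) (nat_lit 5) (nat_lit 31) (nat_lit 5) (nat_lit 25) (nat_lit 5) (nat_lit 301) (nat_lit 291) (nat_lit 128)))) (XT.nd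 (nat_lit 78) (nat_lit 0) (nat_lit 0) (XT.lf (nat_lit 0) (nat_lit 19412447152) (nat_lit 228) (nat_lit 162205106177) (nat_lit 304) (nat_lit 154095625895) (nat_lit 21) (nat_lit 5) (nat_lit 24) (nat_lit 5) (nat_lit 25) (nat_lit 5) (nat_lit 302) (nat_lit 291) (nat_lit 127)) (XT.nd (nat_lit 78) (nat_lit 0) (nat_lit 0) (XT.lf (nat_lit 0) (nat_lit 167719124960) (nat_lit 228) (nat_lit 52145854783) (nat_lit 304) (nat_lit 132397710100) (nat_lit 21) (nat_lit 5) (nat_lit 24) (nat_lit 5) (nat_lit 25) (nat_lit 5) (nat_lit 303) (nat_lit 291) (nat_lit 126)) (XT.lf (nat_lit 0) (nat_lit 262776712887) (nat_lit 304) (nat_lit 43850465956) (nat_lit 76) (nat_lit 63380621904) (nat_lit 21) (nat_lit 5) (nat_lit 25) (nat_lit 5) (nat_lit 22) (nat_lit 5) (nat_lit 304) (nat_lit 291) (nat_lit 125))))) (XT.nd (nat_lit 234) (nat_lit 228) (nat_lit 0) (XT.nd (nat_lit 78) (nat_lit 152) (nat_lit 0) (XT.lf (nat_lit 0) (nat_lit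 112364507076) (nat_lit 152) (nat_lit 200813628772) (nat_lit 228) (nat_lit 75669844997) (nat_lit 19) (nat_lit 5) (nat_lit 21) (nat_lit 5) (nat_lit 22) (nat_lit 5) (nat_lit 305) (nat_lit 291) (nat_lit 124)) (XT.nd (nat_lit 78) (nat_lit 152) (nat_lit 0) (XT.lf (nat_lit 0) (nat_lit 283570430676) (nat_lit 152) (nat_lit 85240138334) (nat_lit 228) (nat_lit 40288895013) (nat_lit 19) (nat_lit 5) (nat_lit 21) (nat_lit 5) (nat_lit 22) (nat_lit 5) (nat_lit 306) (nat_lit 291) (nat_lit 123)) (XT.lf (nat_lit 0) (nat_lit 38474467937) (nat_lit 152) (nat_lit 392296272880) (nat_lit 228) (nat_lit 50153874) (nat_lit 17) (nat_lit 5) (nat_lit 19) (nat_lit 5) (nat_lit 20) (nat_lit 5) (nat_lit 307) (nat_lit 291) (nat_lit 122)))) (XT.nd (nat_lit 78) (nat_lit 152) (nat_lit 0) (XT.lf (nat_lit 0) (nat_lit 46971573082) (nat_lit 228) (nat_lit 234615464321) (nat_lit 76) (nat_lit 172150661055) (nat_lit 16) (nat_lit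 5) (nat_lit 19) (nat_lit 5) (nat_lit 17) (nat_lit 5) (nat_lit 308) (nat_lit 291) (nat_lit 121)) (XT.nd (nat_lit 78) (nat_lit 152) (nat_lit 0) (XT.lf (nat_lit 0) (nat_lit 97752283511) (nat_lit 228) (nat_lit 64267385851) (nat_lit 76) (nat_lit 316468076836) (nat_lit 16) (nat_lit 5) (nat_lit 19) (nat_lit 5) (nat_lit 17) (nat_lit 5) (nat_lit 309) (nat_lit 291) (nat_lit 120)) (XT.lf (nat_lit 0) (nat_lit 126012121629) (nat_lit 152) (nat_lit 29613881967) (nat_lit 228) (nat_lit 349349350195) (nat_lit 14) (nat_lit 5) (nat_lit 16) (nat_lit 5) (nat_lit 17) (nat_lit 5) (nat_lit 310) (nat_lit 291) (nat_lit 119))))))))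
noncomputable def xc122 : XT := (XT.nd (nat_lit 36972) (nat_lit 0) (nat_lit 76) (XT.nd (nat_lit 36036) (nat_lit 0) (nat_lit 1064) (XT.nd (nat_lit 390) (nat_lit 304) (nat_lit 0) (XT.nd (nat_lit 156) (nat_lit 228) (nat_lit 0) (XT.nd (nat_lit 78) (nat_lit 0) (nat_lit 0) (XT.lf (nat_lit 0) (nat_lit 222659303234) (nat_lit 228) (nat_lit 201045056011) (nat_lit 76) (nat_lit 109515236433) (nat_lit 14) (nat_lit 5) (nat_lit 17) (nat_lit 5) (nat_lit 15) (nat_lit 5) (nat_lit 311) (nat_lit 291) (nat_lit 118)) (XT.lf (nat_lit 0) (nat_lit 295824421348) (nat_lit 228) (nat_lit 9662669087) (nat_lit 76) (nat_lit 258174754343) (nat_lit 14) (nat_lit 5) (nat_lit 17) (nat_lit 5) (nat_lit 15) (nat_lit 5) (nat_lit 312) (nat_lit 291) (nat_lit 117))) (XT.nd (nat_lit 78) (nat_lit 76) (nat_lit 0) (XT.lf (nat_lit 0) (nat_lit 207405525409) (nat_lit 152) (nat_lit 172425296902) (nat_lit 228) (nat_lit 216309605830)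 (nat_lit 12) (nat_lit 5) (nat_lit 14) (nat_lit 5) (nat_lit 15) (nat_lit 5) (nat_lit 313) (nat_lit 291) (nat_lit 116)) (XT.nd (nat_lit 78) (nat_lit 76) (nat_lit 0) (XT.lf (nat_lit 0) (nat_lit 442388653468) (nat_lit 152) (nat_lit 28433243338) (nat_lit 228) (nat_lit 160374268642) (nat_lit 12) (nat_lit 5) (nat_lit 14) (nat_lit 5) (nat_lit 15) (nat_lit 5) (nat_lit 314) (nat_lit 291) (nat_lit 115)) (XT.lf (nat_lit 0) (nat_lit 25324632115) (nat_lit 76) (nat_lit 547432885415) (nat_lit 152) (nat_lit 96005623563) (nat_lit 11) (nat_lit 5) (nat_lit 12) (nat_lit 5) (nat_lit 13) (nat_lit 4) (nat_lit 315) (nat_lit 291) (nat_lit 114))))) (XT.nd (nat_lit 234) (nat_lit 76) (nat_lit 0) (XT.nd (nat_lit 78) (nat_lit 228) (nat_lit 0) (XT.lf (nat_lit 0) (nat_lit 266547538707) (nat_lit 76) (nat_lit 422182580455) (nat_lit 152) (nat_lit 20134785295) (nat_lit 11) (nat_lit 5) (nat_lit 12) (nat_lit 5) (nat_lit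 13) (nat_lit 4) (nat_lit 316) (nat_lit 291) (nat_lit 113)) (XT.nd (nat_lit 78) (nat_lit 152) (nat_lit 0) (XT.lf (nat_lit 0) (nat_lit 58713919273) (nat_lit 152) (nat_lit 226593002745) (nat_lit 76) (nat_lit 466748974953) (nat_lit 10) (nat_lit 5) (nat_lit 12) (nat_lit 5) (nat_lit 11) (nat_lit 5) (nat_lit 317) (nat_lit 291) (nat_lit 112)) (XT.lf (nat_lit 0) (nat_lit 6175196742) (nat_lit 152) (nat_lit 136756009474) (nat_lit 228) (nat_lit 655717245294) (nat_lit 8) (nat_lit 5) (nat_lit 10) (nat_lit 5) (nat_lit 11) (nat_lit 5) (nat_lit 318) (nat_lit 291) (nat_lit 111)))) (XT.nd (nat_lit 78) (nat_lit 76) (nat_lit 0) (XT.lf (nat_lit 0) (nat_lit 240811705670) (nat_lit 228) (nat_lit 578751818162) (nat_lit 76) (nat_lit 28850820337) (nat_lit 8) (nat_lit 5) (nat_lit 11) (nat_lit 5) (nat_lit 9) (nat_lit 4) (nat_lit 319) (nat_lit 291) (nat_lit 110)) (XT.nd (nat_lit 156) (nat_lit 76) (nat_lit 0) (XT.lf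 (nat_lit 0) (nat_lit 350074725579) (nat_lit 228) (nat_lit 351484808076) (nat_lit 76) (nat_lit 200317808256) (nat_lit 8) (nat_lit 5) (nat_lit 11) (nat_lit 5) (nat_lit 9) (nat_lit 4) (nat_lit 320) (nat_lit 291) (nat_lit 109)) (XT.lf (nat_lit 0) (nat_lit 167422869547) (nat_lit 76) (nat_lit 432126762193) (nat_lit 152) (nat_lit 422104871952) (nat_lit 7) (nat_lit 5) (nat_lit 8) (nat_lit 5) (nat_lit 9) (nat_lit 4) (nat_lit 322) (nat_lit 291) (nat_lit 107)))))) (XT.nd (nat_lit 468) (nat_lit 456) (nat_lit 0) (XT.nd (nat_lit 234) (nat_lit 0) (nat_lit 76) (XT.nd (nat_lit 78) (nat_lit 0) (nat_lit 0) (XT.lf (nat_lit 0) (nat_lit 9447695833) (nat_lit 532) (nat_lit 51666411277) (nat_lit 532) (nat_lit 51666411277) (nat_lit 27) (nat_lit 3) (nat_lit 34) (nat_lit 3) (nat_lit 34) (nat_lit 5) (nat_lit 292) (nat_lit 292) (nat_lit 136)) (XT.nd (nat_lit 78) (nat_lit 0) (nat_lit 76) (XT.lf (nat_lit 0) (nat_lit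 19652320579) (nat_lit 532) (nat_lit 14230961000) (nat_lit 532) (nat_lit 200700098693) (nat_lit 27) (nat_lit 3) (nat_lit 34) (nat_lit 3) (nat_lit 34) (nat_lit 5) (nat_lit 293) (nat_lit 292) (nat_lit 135)) (XT.lf (nat_lit 0) (nat_lit 24079317353) (nat_lit 456) (nat_lit 159378237982) (nat_lit 532) (nat_lit 60581195724) (nat_lit 28) (nat_lit 5) (nat_lit 34) (nat_lit 5) (nat_lit 35) (nat_lit 5) (nat_lit 294) (nat_lit 292) (nat_lit 134)))) (XT.nd (nat_lit 78) (nat_lit 0) (nat_lit 76) (XT.lf (nat_lit 0) (nat_lit 30139661829) (nat_lit 456) (nat_lit 62837052150) (nat_lit 532) (nat_lit 161171503317) (nat_lit 28) (nat_lit 5) (nat_lit 34) (nat_lit 5) (nat_lit 35) (nat_lit 5) (nat_lit 295) (nat_lit 292) (nat_lit 133)) (XT.nd (nat_lit 78) (nat_lit 0) (nat_lit 0) (XT.lf (nat_lit 0) (nat_lit 37874833786) (nat_lit 456) (nat_lit 221514991482) (nat_lit 532) (nat_lit 5581416335) (nat_lit 29) (nat_lit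 5) (nat_lit 35) (nat_lit 5) (nat_lit 36) (nat_lit 5) (nat_lit 296) (nat_lit 292) (nat_lit 132)) (XT.lf (nat_lit 0) (nat_lit 50406411270) (nat_lit 456) (nat_lit 117155722447) (nat_lit 532) (nat_lit 108763767503) (nat_lit 29) (nat_lit 5) (nat_lit 35) (nat_lit 5) (nat_lit 36) (nat_lit 5) (nat_lit 297) (nat_lit 292) (nat_lit 131))))) (XT.nd (nat_lit 234) (nat_lit 608) (nat_lit 0) (XT.nd (nat_lit 78) (nat_lit 0) (nat_lit 76) (XT.lf (nat_lit 0) (nat_lit 63940432049) (nat_lit 456) (nat_lit 4447777785) (nat_lit 532) (nat_lit 220200731062) (nat_lit 29) (nat_lit 5) (nat_lit 35) (nat_lit 5) (nat_lit 36) (nat_lit 5) (nat_lit 298) (nat_lit 292) (nat_lit 130)) (XT.nd (nat_lit 78) (nat_lit 0) (nat_lit 0) (XT.lf (nat_lit 0) (nat_lit 82534455218) (nat_lit 456) (nat_lit 179151507232) (nat_lit 76) (nat_lit 39828879443) (nat_lit 30) (nat_lit 5) (nat_lit 36) (nat_lit 5) (nat_lit 31) (nat_lit 5) (nat_lit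 299) (nat_lit 292) (nat_lit 129)) (XT.lf (nat_lit 0) (nat_lit 104517014018) (nat_lit 456) (nat_lit 57672342981) (nat_lit 76) (nat_lit 153133377431) (nat_lit 30) (nat_lit 5) (nat_lit 36) (nat_lit 5) (nat_lit 31) (nat_lit 5) (nat_lit 300) (nat_lit 292) (nat_lit 128)))) (XT.nd (nat_lit 78) (nat_lit 228) (nat_lit 0) (XT.lf (nat_lit 0) (nat_lit 77396794272) (nat_lit 456) (nat_lit 52722711168) (nat_lit 532) (nat_lit 199966847218) (nat_lit 24) (nat_lit 5) (nat_lit 30) (nat_lit 5) (nat_lit 31) (nat_lit 5) (nat_lit 301) (nat_lit 292) (nat_lit 127)) (XT.nd (nat_lit 78) (nat_lit 228) (nat_lit 0) (XT.lf (nat_lit 0) (nat_lit 160963261534) (nat_lit 532) (nat_lit 120969901335) (nat_lit 76) (nat_lit 63842452728) (nat_lit 24) (nat_lit 5) (nat_lit 31) (nat_lit 5) (nat_lit 25) (nat_lit 5) (nat_lit 302) (nat_lit 292) (nat_lit 126)) (XT.lf (nat_lit 0) (nat_lit 20966685230) (nat_lit 228) (nat_lit 175181444680)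 (nat_lit 304) (nat_lit 166422001163) (nat_lit 21) (nat_lit 5) (nat_lit 24) (nat_lit 5) (nat_lit 25) (nat_lit 5) (nat_lit 303) (nat_lit 292) (nat_lit 125))))))) (XT.nd (nat_lit 858) (nat_lit 304) (nat_lit 0) (XT.nd (nat_lit 390) (nat_lit 380) (nat_lit 0) (XT.nd (nat_lit 156) (nat_lit 304) (nat_lit 0) (XT.nd (nat_lit 78) (nat_lit 0) (nat_lit 0) (XT.lf (nat_lit 0) (nat_lit 181137805239) (nat_lit 228) (nat_lit 56317458359) (nat_lit 304) (nat_lit 142988346535) (nat_lit 21) (nat_lit 5) (nat_lit 24) (nat_lit 5) (nat_lit 25) (nat_lit 5) (nat_lit 304) (nat_lit 292) (nat_lit 124)) (XT.lf (nat_lit 0) (nat_lit 283799856432) (nat_lit 304) (nat_lit 47357351732) (nat_lit 76) (nat_lit 68451128661) (nat_lit 21) (nat_lit 5) (nat_lit 25) (nat_lit 5) (nat_lit 22) (nat_lit 5) (nat_lit 305) (nat_lit 292) (nat_lit 123))) (XT.nd (nat_lit 78) (nat_lit 152) (nat_lit 0) (XT.lf (nat_lit 0) (nat_lit 121354789992)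 (nat_lit 152) (nat_lit 216878555674) (nat_lit 228) (nat_lit 81722390022) (nat_lit 19) (nat_lit 5) (nat_lit 21) (nat_lit 5) (nat_lit 22) (nat_lit 5) (nat_lit 306) (nat_lit 292) (nat_lit 122)) (XT.nd (nat_lit 78) (nat_lit 152) (nat_lit 0) (XT.lf (nat_lit 0) (nat_lit 306257104343) (nat_lit 152) (nat_lit 92059198105) (nat_lit 228) (nat_lit 43511041267) (nat_lit 19) (nat_lit 5) (nat_lit 21) (nat_lit 5) (nat_lit 22) (nat_lit 5) (nat_lit 307) (nat_lit 292) (nat_lit 121)) (XT.lf (nat_lit 0) (nat_lit 41553510199) (nat_lit 152) (nat_lit 423679741488) (nat_lit 228) (nat_lit 53240528) (nat_lit 17) (nat_lit 5) (nat_lit 19) (nat_lit 5) (nat_lit 20) (nat_lit 5) (nat_lit 308) (nat_lit 292) (nat_lit 120))))) (XT.nd (nat_lit 234) (nat_lit 152) (nat_lit 0) (XT.nd (nat_lit 78) (nat_lit 152) (nat_lit 0) (XT.lf (nat_lit 0) (nat_lit 50730113142) (nat_lit 228) (nat_lit 253383649044) (nat_lit 76) (nat_lit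 185922881933) (nat_lit 16) (nat_lit 5) (nat_lit 19) (nat_lit 5) (nat_lit 17) (nat_lit 5) (nat_lit 309) (nat_lit 292) (nat_lit 119)) (XT.nd (nat_lit 78) (nat_lit 152) (nat_lit 0) (XT.lf (nat_lit 0) (nat_lit 105573220094) (nat_lit 228) (nat_lit 69407802253) (nat_lit 76) (nat_lit 341785678533) (nat_lit 16) (nat_lit 5) (nat_lit 19) (nat_lit 5) (nat_lit 17) (nat_lit 5) (nat_lit 310) (nat_lit 292) (nat_lit 118)) (XT.lf (nat_lit 0) (nat_lit 136094041155) (nat_lit 152) (nat_lit 31982763629) (nat_lit 228) (nat_lit 377296515286) (nat_lit 14) (nat_lit 5) (nat_lit 16) (nat_lit 5) (nat_lit 17) (nat_lit 5) (nat_lit 311) (nat_lit 292) (nat_lit 117)))) (XT.nd (nat_lit 78) (nat_lit 152) (nat_lit 0) (XT.lf (nat_lit 0) (nat_lit 240472720089) (nat_lit 228) (nat_lit 217127728718) (nat_lit 76) (nat_lit 118276656686) (nat_lit 14) (nat_lit 5) (nat_lit 17) (nat_lit 5) (nat_lit 15) (nat_lit 5) (nat_lit 312)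 (nat_lit 292) (nat_lit 116)) (XT.nd (nat_lit 78) (nat_lit 152) (nat_lit 0) (XT.lf (nat_lit 0) (nat_lit 319490997831) (nat_lit 228) (nat_lit 10434819860) (nat_lit 76) (nat_lit 278828921115) (nat_lit 14) (nat_lit 5) (nat_lit 17) (nat_lit 5) (nat_lit 15) (nat_lit 5) (nat_lit 313) (nat_lit 292) (nat_lit 115)) (XT.lf (nat_lit 0) (nat_lit 223998808354) (nat_lit 152) (nat_lit 186219076609) (nat_lit 228) (nat_lit 233613726224) (nat_lit 12) (nat_lit 5) (nat_lit 14) (nat_lit 5) (nat_lit 15) (nat_lit 5) (nat_lit 314) (nat_lit 292) (nat_lit 114)))))) (XT.nd (nat_lit 35802) (nat_lit 0) (nat_lit 1444) (XT.nd (nat_lit 234) (nat_lit 228) (nat_lit 0) (XT.nd (nat_lit 78) (nat_lit 76) (nat_lit 0) (XT.lf (nat_lit 0) (nat_lit 477780524367) (nat_lit 152) (nat_lit 30707676838) (nat_lit 228) (nat_lit 173203610066) (nat_lit 12) (nat_lit 5) (nat_lit 14) (nat_lit 5) (nat_lit 15) (nat_lit 5) (nat_lit 315) (nat_lit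 292) (nat_lit 113)) (XT.nd (nat_lit 78) (nat_lit 0) (nat_lit 0) (XT.lf (nat_lit 0) (nat_lit 27351402511) (nat_lit 76) (nat_lit 591227252408) (nat_lit 152) (nat_lit 103685491621) (nat_lit 11) (nat_lit 5) (nat_lit 12) (nat_lit 5) (nat_lit 13) (nat_lit 4) (nat_lit 316) (nat_lit 292) (nat_lit 112)) (XT.lf (nat_lit 0) (nat_lit 287872082383) (nat_lit 76) (nat_lit 455956942594) (nat_lit 152) (nat_lit 21745029389) (nat_lit 11) (nat_lit 5) (nat_lit 12) (nat_lit 5) (nat_lit 13) (nat_lit 4) (nat_lit 317) (nat_lit 292) (nat_lit 111)))) (XT.nd (nat_lit 78) (nat_lit 152) (nat_lit 0) (XT.lf (nat_lit 0) (nat_lit 63411506684) (nat_lit 152) (nat_lit 244719729938) (nat_lit 76) (nat_lit 504089091845) (nat_lit 10) (nat_lit 5) (nat_lit 12) (nat_lit 5) (nat_lit 11) (nat_lit 5) (nat_lit 318) (nat_lit 292) (nat_lit 110)) (XT.nd (nat_lit 78) (nat_lit 0) (nat_lit 0) (XT.lf (nat_lit 0) (nat_lit 6669907458) (nat_lit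 152) (nat_lit 147696250739) (nat_lit 228) (nat_lit 708174130818) (nat_lit 8) (nat_lit 5) (nat_lit 10) (nat_lit 5) (nat_lit 11) (nat_lit 5) (nat_lit 319) (nat_lit 292) (nat_lit 109)) (XT.lf (nat_lit 0) (nat_lit 260077069200) (nat_lit 228) (nat_lit 625051289696) (nat_lit 76) (nat_lit 31159096624) (nat_lit 8) (nat_lit 5) (nat_lit 11) (nat_lit 5) (nat_lit 9) (nat_lit 4) (nat_lit 320) (nat_lit 292) (nat_lit 108))))) (XT.nd (nat_lit 234) (nat_lit 0) (nat_lit 76) (XT.nd (nat_lit 78) (nat_lit 0) (nat_lit 0) (XT.lf (nat_lit 0) (nat_lit 10204597972) (nat_lit 532) (nat_lit 55799133134) (nat_lit 532) (nat_lit 55799133134) (nat_lit 27) (nat_lit 3) (nat_lit 34) (nat_lit 3) (nat_lit 34) (nat_lit 5) (nat_lit 293) (nat_lit 293) (nat_lit 134)) (XT.nd (nat_lit 78) (nat_lit 0) (nat_lit 76) (XT.lf (nat_lit 0) (nat_lit 21226518210) (nat_lit 532) (nat_lit 15368343354) (nat_lit 532) (nat_lit 216755012062)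 (nat_lit 27) (nat_lit 3) (nat_lit 34) (nat_lit 3) (nat_lit 34) (nat_lit 5) (nat_lit 294) (nat_lit 293) (nat_lit 133)) (XT.lf (nat_lit 0) (nat_lit 26007531582) (nat_lit 456) (nat_lit 172127244435) (nat_lit 532) (nat_lit 65426910702) (nat_lit 28) (nat_lit 5) (nat_lit 34) (nat_lit 5) (nat_lit 35) (nat_lit 5) (nat_lit 295) (nat_lit 293) (nat_lit 132)))) (XT.nd (nat_lit 78) (nat_lit 0) (nat_lit 76) (XT.lf (nat_lit 0) (nat_lit 32552565184) (nat_lit 456) (nat_lit 67862856521) (nat_lit 532) (nat_lit 174064500730) (nat_lit 28) (nat_lit 5) (nat_lit 34) (nat_lit 5) (nat_lit 35) (nat_lit 5) (nat_lit 296) (nat_lit 293) (nat_lit 131)) (XT.nd (nat_lit 78) (nat_lit 0) (nat_lit 0) (XT.lf (nat_lit 0) (nat_lit 40906437906) (nat_lit 456) (nat_lit 239234905219) (nat_lit 532) (nat_lit 6027455624) (nat_lit 29) (nat_lit 5) (nat_lit 35) (nat_lit 5) (nat_lit 36) (nat_lit 5) (nat_lit 297) (nat_lit 293) (nat_lit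 130)) (XT.lf (nat_lit 0) (nat_lit 54440421780) (nat_lit 456) (nat_lit 126526989890) (nat_lit 532) (nat_lit 117464429999) (nat_lit 29) (nat_lit 5) (nat_lit 35) (nat_lit 5) (nat_lit 36) (nat_lit 5) (nat_lit 298) (nat_lit 293) (nat_lit 129))))))))
noncomputable def xc123 : XT := (XT.nd (nat_lit 37284) (nat_lit 0) (nat_lit 76) (XT.nd (nat_lit 858) (nat_lit 532) (nat_lit 0) (XT.nd (nat_lit 390) (nat_lit 532) (nat_lit 0) (XT.nd (nat_lit 156) (nat_lit 380) (nat_lit 0) (XT.nd (nat_lit 78) (nat_lit 0) (nat_lit 76) (XT.lf (nat_lit 0) (nat_lit 69057053287) (nat_lit 456) (nat_lit 4802497829) (nat_lit 532) (nat_lit 237816383154) (nat_lit 29) (nat_lit 5) (nat_lit 35) (nat_lit 5) (nat_lit 36) (nat_lit 5) (nat_lit 299) (nat_lit 293) (nat_lit 128)) (XT.lf (nat_lit 0) (nat_lit 89138515766) (nat_lit 456) (nat_lit 193482432936) (nat_lit 76) (nat_lit 43014966061) (nat_lit 30) (nat_lit 5) (nat_lit 36) (nat_lit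 5) (nat_lit 31) (nat_lit 5) (nat_lit 300) (nat_lit 293) (nat_lit 127))) (XT.nd (nat_lit 78) (nat_lit 456) (nat_lit 0) (XT.lf (nat_lit 0) (nat_lit 112879582667) (nat_lit 456) (nat_lit 62285024054) (nat_lit 76) (nat_lit 165383840462) (nat_lit 30) (nat_lit 5) (nat_lit 36) (nat_lit 5) (nat_lit 31) (nat_lit 5) (nat_lit 301) (nat_lit 293) (nat_lit 126)) (XT.nd (nat_lit 78) (nat_lit 0) (nat_lit 0) (XT.lf (nat_lit 0) (nat_lit 83589616170) (nat_lit 456) (nat_lit 56940593721) (nat_lit 532) (nat_lit 215962950756) (nat_lit 24) (nat_lit 5) (nat_lit 30) (nat_lit 5) (nat_lit 31) (nat_lit 5) (nat_lit 302) (nat_lit 293) (nat_lit 125)) (XT.lf (nat_lit 0) (nat_lit 173841380268) (nat_lit 532) (nat_lit 130646400701) (nat_lit 76) (nat_lit 68949791192) (nat_lit 24) (nat_lit 5) (nat_lit 31) (nat_lit 5) (nat_lit 25) (nat_lit 5) (nat_lit 303) (nat_lit 293) (nat_lit 124))))) (XT.nd (nat_lit 234) (nat_lit 304)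 (nat_lit 0) (XT.nd (nat_lit 78) (nat_lit 0) (nat_lit 0) (XT.lf (nat_lit 0) (nat_lit 22645085125) (nat_lit 228) (nat_lit 189195900248) (nat_lit 304) (nat_lit 179734668319) (nat_lit 21) (nat_lit 5) (nat_lit 24) (nat_lit 5) (nat_lit 25) (nat_lit 5) (nat_lit 304) (nat_lit 293) (nat_lit 123)) (XT.nd (nat_lit 78) (nat_lit 0) (nat_lit 0) (XT.lf (nat_lit 0) (nat_lit 195629815841) (nat_lit 228) (nat_lit 60822799466) (nat_lit 304) (nat_lit 154426402279) (nat_lit 21) (nat_lit 5) (nat_lit 24) (nat_lit 5) (nat_lit 25) (nat_lit 5) (nat_lit 305) (nat_lit 293) (nat_lit 122)) (XT.lf (nat_lit 0) (nat_lit 306504707869) (nat_lit 304) (nat_lit 51144952644) (nat_lit 76) (nat_lit 73927267827) (nat_lit 21) (nat_lit 5) (nat_lit 25) (nat_lit 5) (nat_lit 22) (nat_lit 5) (nat_lit 306) (nat_lit 293) (nat_lit 121)))) (XT.nd (nat_lit 78) (nat_lit 152) (nat_lit 0) (XT.lf (nat_lit 0) (nat_lit 131064135424) (nat_lit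 152) (nat_lit 234228700039) (nat_lit 228) (nat_lit 88259287384) (nat_lit 19) (nat_lit 5) (nat_lit 21) (nat_lit 5) (nat_lit 22) (nat_lit 5) (nat_lit 307) (nat_lit 293) (nat_lit 120)) (XT.nd (nat_lit 78) (nat_lit 152) (nat_lit 0) (XT.lf (nat_lit 0) (nat_lit 330758563647) (nat_lit 152) (nat_lit 99423804242) (nat_lit 228) (nat_lit 46991096939) (nat_lit 19) (nat_lit 5) (nat_lit 21) (nat_lit 5) (nat_lit 22) (nat_lit 5) (nat_lit 308) (nat_lit 293) (nat_lit 119)) (XT.lf (nat_lit 0) (nat_lit 44878721079) (nat_lit 152) (nat_lit 457573920856) (nat_lit 228) (nat_lit 56706170) (nat_lit 17) (nat_lit 5) (nat_lit 19) (nat_lit 5) (nat_lit 20) (nat_lit 5) (nat_lit 309) (nat_lit 293) (nat_lit 118)))))) (XT.nd (nat_lit 468) (nat_lit 152) (nat_lit 0) (XT.nd (nat_lit 234) (nat_lit 152) (nat_lit 0) (XT.nd (nat_lit 78) (nat_lit 152) (nat_lit 0) (XT.lf (nat_lit 0) (nat_lit 54789220251) (nat_lit 228) (nat_lit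 273653438685) (nat_lit 76) (nat_lit 200796856515) (nat_lit 16) (nat_lit 5) (nat_lit 19) (nat_lit 5) (nat_lit 17) (nat_lit 5) (nat_lit 310) (nat_lit 293) (nat_lit 117)) (XT.nd (nat_lit 78) (nat_lit 152) (nat_lit 0) (XT.lf (nat_lit 0) (nat_lit 114019724050) (nat_lit 228) (nat_lit 74959590987) (nat_lit 76) (nat_lit 369128666174) (nat_lit 16) (nat_lit 5) (nat_lit 19) (nat_lit 5) (nat_lit 17) (nat_lit 5) (nat_lit 311) (nat_lit 293) (nat_lit 116)) (XT.lf (nat_lit 0) (nat_lit 146982378744) (nat_lit 152) (nat_lit 34541188478) (nat_lit 228) (nat_lit 407479565276) (nat_lit 14) (nat_lit 5) (nat_lit 16) (nat_lit 5) (nat_lit 17) (nat_lit 5) (nat_lit 312) (nat_lit 293) (nat_lit 115)))) (XT.nd (nat_lit 78) (nat_lit 152) (nat_lit 0) (XT.lf (nat_lit 0) (nat_lit 259711114340) (nat_lit 228) (nat_lit 234497148169) (nat_lit 76) (nat_lit 127738961837) (nat_lit 14) (nat_lit 5) (nat_lit 17) (nat_lit 5) (nat_lit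 15) (nat_lit 5) (nat_lit 313) (nat_lit 293) (nat_lit 114)) (XT.nd (nat_lit 78) (nat_lit 152) (nat_lit 0) (XT.lf (nat_lit 0) (nat_lit 345050811586) (nat_lit 228) (nat_lit 11268865776) (nat_lit 76) (nat_lit 301135394633) (nat_lit 14) (nat_lit 5) (nat_lit 17) (nat_lit 5) (nat_lit 15) (nat_lit 5) (nat_lit 314) (nat_lit 293) (nat_lit 113)) (XT.lf (nat_lit 0) (nat_lit 241919433969) (nat_lit 152) (nat_lit 201116393508) (nat_lit 228) (nat_lit 252302268704) (nat_lit 12) (nat_lit 5) (nat_lit 14) (nat_lit 5) (nat_lit 15) (nat_lit 5) (nat_lit 315) (nat_lit 293) (nat_lit 112))))) (XT.nd (nat_lit 234) (nat_lit 76) (nat_lit 0) (XT.nd (nat_lit 78) (nat_lit 76) (nat_lit 0) (XT.lf (nat_lit 0) (nat_lit 516003633860) (nat_lit 152) (nat_lit 33164097254) (nat_lit 228) (nat_lit 187059384410) (nat_lit 12) (nat_lit 5) (nat_lit 14) (nat_lit 5) (nat_lit 15) (nat_lit 5) (nat_lit 316) (nat_lit 293) (nat_lit 111))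 (XT.nd (nat_lit 78) (nat_lit 0) (nat_lit 0) (XT.lf (nat_lit 0) (nat_lit 29540200433) (nat_lit 76) (nat_lit 638525206400) (nat_lit 152) (nat_lit 111979832128) (nat_lit 11) (nat_lit 5) (nat_lit 12) (nat_lit 5) (nat_lit 13) (nat_lit 4) (nat_lit 317) (nat_lit 293) (nat_lit 110)) (XT.lf (nat_lit 0) (nat_lit 310902483901) (nat_lit 76) (nat_lit 492433288557) (nat_lit 152) (nat_lit 23484169867) (nat_lit 11) (nat_lit 5) (nat_lit 12) (nat_lit 5) (nat_lit 13) (nat_lit 4) (nat_lit 318) (nat_lit 293) (nat_lit 109)))) (XT.nd (nat_lit 35568) (nat_lit 0) (nat_lit 1292) (XT.lf (nat_lit 0) (nat_lit 68484833486) (nat_lit 152) (nat_lit 264296697027) (nat_lit 76) (nat_lit 544416389713) (nat_lit 10) (nat_lit 5) (nat_lit 12) (nat_lit 5) (nat_lit 11) (nat_lit 5) (nat_lit 319) (nat_lit 293) (nat_lit 108)) (XT.nd (nat_lit 78) (nat_lit 0) (nat_lit 0) (XT.lf (nat_lit 0) (nat_lit 11021897284) (nat_lit 532) (nat_lit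 60262557060) (nat_lit 532) (nat_lit 60262557060) (nat_lit 27) (nat_lit 3) (nat_lit 34) (nat_lit 3) (nat_lit 34) (nat_lit 5) (nat_lit 294) (nat_lit 294) (nat_lit 132)) (XT.lf (nat_lit 0) (nat_lit 22926364619) (nat_lit 532) (nat_lit 16596872442) (nat_lit 532) (nat_lit 234094474647) (nat_lit 27) (nat_lit 3) (nat_lit 34) (nat_lit 3) (nat_lit 34) (nat_lit 5) (nat_lit 295) (nat_lit 294) (nat_lit 131))))))) (XT.nd (nat_lit 858) (nat_lit 760) (nat_lit 0) (XT.nd (nat_lit 390) (nat_lit 532) (nat_lit 0) (XT.nd (nat_lit 156) (nat_lit 0) (nat_lit 76) (XT.nd (nat_lit 78) (nat_lit 0) (nat_lit 0) (XT.lf (nat_lit 0) (nat_lit 28089736340) (nat_lit 456) (nat_lit 185896350099) (nat_lit 532) (nat_lit 70660394251) (nat_lit 28) (nat_lit 5) (nat_lit 34) (nat_lit 5) (nat_lit 35) (nat_lit 5) (nat_lit 296) (nat_lit 294) (nat_lit 130)) (XT.lf (nat_lit 0) (nat_lit 35158253945) (nat_lit 456) (nat_lit 73290890699)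 (nat_lit 532) (nat_lit 187989041060) (nat_lit 28) (nat_lit 5) (nat_lit 34) (nat_lit 5) (nat_lit 35) (nat_lit 5) (nat_lit 297) (nat_lit 294) (nat_lit 129))) (XT.nd (nat_lit 78) (nat_lit 0) (nat_lit 0) (XT.lf (nat_lit 0) (nat_lit 44180339613) (nat_lit 456) (nat_lit 258372595458) (nat_lit 532) (nat_lit 6509245681) (nat_lit 29) (nat_lit 5) (nat_lit 35) (nat_lit 5) (nat_lit 36) (nat_lit 5) (nat_lit 298) (nat_lit 294) (nat_lit 128)) (XT.nd (nat_lit 78) (nat_lit 0) (nat_lit 0) (XT.lf (nat_lit 0) (nat_lit 58796939480) (nat_lit 456) (nat_lit 136648128545) (nat_lit 532) (nat_lit 126861208109) (nat_lit 29) (nat_lit 5) (nat_lit 35) (nat_lit 5) (nat_lit 36) (nat_lit 5) (nat_lit 299) (nat_lit 294) (nat_lit 127)) (XT.lf (nat_lit 0) (nat_lit 74582806400) (nat_lit 456) (nat_lit 5185752714) (nat_lit 532) (nat_lit 256841345389) (nat_lit 29) (nat_lit 5) (nat_lit 35) (nat_lit 5) (nat_lit 36) (nat_lit 5)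 (nat_lit 300) (nat_lit 294) (nat_lit 126))))) (XT.nd (nat_lit 234) (nat_lit 228) (nat_lit 0) (XT.nd (nat_lit 78) (nat_lit 456) (nat_lit 0) (XT.lf (nat_lit 0) (nat_lit 96270715108) (nat_lit 456) (nat_lit 208960003158) (nat_lit 76) (nat_lit 46455971528) (nat_lit 30) (nat_lit 5) (nat_lit 36) (nat_lit 5) (nat_lit 31) (nat_lit 5) (nat_lit 301) (nat_lit 294) (nat_lit 125)) (XT.nd (nat_lit 78) (nat_lit 456) (nat_lit 0) (XT.lf (nat_lit 0) (nat_lit 121910984541) (nat_lit 456) (nat_lit 67266877448) (nat_lit 76) (nat_lit 178614370089) (nat_lit 30) (nat_lit 5) (nat_lit 36) (nat_lit 5) (nat_lit 31) (nat_lit 5) (nat_lit 302) (nat_lit 294) (nat_lit 124)) (XT.lf (nat_lit 0) (nat_lit 90277709980) (nat_lit 456) (nat_lit 61495897511) (nat_lit 532) (nat_lit 233238920080) (nat_lit 24) (nat_lit 5) (nat_lit 30) (nat_lit 5) (nat_lit 31) (nat_lit 5) (nat_lit 303) (nat_lit 294) (nat_lit 123)))) (XT.nd (nat_lit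 78) (nat_lit 228) (nat_lit 0) (XT.lf (nat_lit 0) (nat_lit 187749597593) (nat_lit 532) (nat_lit 141097175908) (nat_lit 76) (nat_lit 74465724972) (nat_lit 24) (nat_lit 5) (nat_lit 31) (nat_lit 5) (nat_lit 25) (nat_lit 5) (nat_lit 304) (nat_lit 294) (nat_lit 122)) (XT.nd (nat_lit 78) (nat_lit 0) (nat_lit 0) (XT.lf (nat_lit 0) (nat_lit 24457605067) (nat_lit 228) (nat_lit 204331520822) (nat_lit 304) (nat_lit 194112504766) (nat_lit 21) (nat_lit 5) (nat_lit 24) (nat_lit 5) (nat_lit 25) (nat_lit 5) (nat_lit 305) (nat_lit 294) (nat_lit 121)) (XT.lf (nat_lit 0) (nat_lit 211281046600) (nat_lit 228) (nat_lit 65688575789) (nat_lit 304) (nat_lit 166779646852) (nat_lit 21) (nat_lit 5) (nat_lit 24) (nat_lit 5) (nat_lit 25) (nat_lit 5) (nat_lit 306) (nat_lit 294) (nat_lit 120)))))) (XT.nd (nat_lit 468) (nat_lit 380) (nat_lit 0) (XT.nd (nat_lit 234) (nat_lit 228) (nat_lit 0) (XT.nd (nat_lit 78) (nat_lit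 152) (nat_lit 0) (XT.lf (nat_lit 0) (nat_lit 331025824316) (nat_lit 304) (nat_lit 55235702468) (nat_lit 76) (nat_lit 79841491153) (nat_lit 21) (nat_lit 5) (nat_lit 25) (nat_lit 5) (nat_lit 22) (nat_lit 5) (nat_lit 307) (nat_lit 294) (nat_lit 119)) (XT.nd (nat_lit 78) (nat_lit 0) (nat_lit 0) (XT.lf (nat_lit 0) (nat_lit 141550091219) (nat_lit 152) (nat_lit 252966875939) (nat_lit 228) (nat_lit 95319264052) (nat_lit 19) (nat_lit 5) (nat_lit 21) (nat_lit 5) (nat_lit 22) (nat_lit 5) (nat_lit 308) (nat_lit 294) (nat_lit 118)) (XT.lf (nat_lit 0) (nat_lit 357220012591) (nat_lit 152) (nat_lit 107377597374) (nat_lit 228) (nat_lit 50749675136) (nat_lit 19) (nat_lit 5) (nat_lit 21) (nat_lit 5) (nat_lit 22) (nat_lit 5) (nat_lit 309) (nat_lit 294) (nat_lit 117)))) (XT.nd (nat_lit 78) (nat_lit 76) (nat_lit 0) (XT.lf (nat_lit 0) (nat_lit 48469816145) (nat_lit 152) (nat_lit 494179663099) (nat_lit 228)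 (nat_lit 60562279) (nat_lit 17) (nat_lit 5) (nat_lit 19) (nat_lit 5) (nat_lit 20) (nat_lit 5) (nat_lit 310) (nat_lit 294) (nat_lit 116)) (XT.nd (nat_lit 78) (nat_lit 0) (nat_lit 0) (XT.lf (nat_lit 0) (nat_lit 59172956342) (nat_lit 228) (nat_lit 295544940218) (nat_lit 76) (nat_lit 216860728517) (nat_lit 16) (nat_lit 5) (nat_lit 19) (nat_lit 5) (nat_lit 17) (nat_lit 5) (nat_lit 311) (nat_lit 294) (nat_lit 115)) (XT.lf (nat_lit 0) (nat_lit 123141856114) (nat_lit 228) (nat_lit 80955642004) (nat_lit 76) (nat_lit 398659073802) (nat_lit 16) (nat_lit 5) (nat_lit 19) (nat_lit 5) (nat_lit 17) (nat_lit 5) (nat_lit 312) (nat_lit 294) (nat_lit 114))))) (XT.nd (nat_lit 234) (nat_lit 228) (nat_lit 0) (XT.nd (nat_lit 78) (nat_lit 0) (nat_lit 0) (XT.lf (nat_lit 0) (nat_lit 158741667171) (nat_lit 152) (nat_lit 37304315311) (nat_lit 228) (nat_lit 440077355025) (nat_lit 14) (nat_lit 5) (nat_lit 16) (nat_lit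 5) (nat_lit 17) (nat_lit 5) (nat_lit 313) (nat_lit 294) (nat_lit 113)) (XT.nd (nat_lit 78) (nat_lit 0) (nat_lit 0) (XT.lf (nat_lit 0) (nat_lit 280488497866) (nat_lit 228) (nat_lit 253256235140) (nat_lit 76) (nat_lit 137958226773) (nat_lit 14) (nat_lit 5) (nat_lit 17) (nat_lit 5) (nat_lit 15) (nat_lit 5) (nat_lit 314) (nat_lit 294) (nat_lit 112)) (XT.lf (nat_lit 0) (nat_lit 372655334271) (nat_lit 228) (nat_lit 12169740888) (nat_lit 76) (nat_lit 325226363231) (nat_lit 14) (nat_lit 5) (nat_lit 17) (nat_lit 5) (nat_lit 15) (nat_lit 5) (nat_lit 315) (nat_lit 294) (nat_lit 111)))) (XT.nd (nat_lit 78) (nat_lit 76) (nat_lit 0) (XT.lf (nat_lit 0) (nat_lit 261273606782) (nat_lit 152) (nat_lit 217205525609) (nat_lit 228) (nat_lit 272485973847) (nat_lit 12) (nat_lit 5) (nat_lit 14) (nat_lit 5) (nat_lit 15) (nat_lit 5) (nat_lit 316) (nat_lit 294) (nat_lit 110)) (XT.nd (nat_lit 78) (nat_lit 76)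 (nat_lit 0) (XT.lf (nat_lit 0) (nat_lit 557284496879) (nat_lit 152) (nat_lit 35817058941) (nat_lit 228) (nat_lit 202023694095) (nat_lit 12) (nat_lit 5) (nat_lit 14) (nat_lit 5) (nat_lit 15) (nat_lit 5) (nat_lit 317) (nat_lit 294) (nat_lit 109)) (XT.lf (nat_lit 0) (nat_lit 31904004364) (nat_lit 76) (nat_lit 689607028981) (nat_lit 152) (nat_lit 120937791037) (nat_lit 11) (nat_lit 5) (nat_lit 12) (nat_lit 5) (nat_lit 13) (nat_lit 4) (nat_lit 318) (nat_lit 294) (nat_lit 108))))))))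
noncomputable def xc124 : XT := (XT.nd (nat_lit 37362) (nat_lit 0) (nat_lit 76) (XT.nd (nat_lit 36426) (nat_lit 0) (nat_lit 228) (XT.nd (nat_lit 35958) (nat_lit 0) (nat_lit 988) (XT.nd (nat_lit 35724) (nat_lit 0) (nat_lit 1216) (XT.nd (nat_lit 35646) (nat_lit 0) (nat_lit 1216) (XT.lf (nat_lit 0) (nat_lit 335775226961) (nat_lit 76) (nat_lit 531827772076) (nat_lit 152) (nat_lit 25362507475) (nat_lit 11) (nat_lit 5) (nat_lit 12) (nat_lit 5) (nat_lit 13) (nat_lit 4) (nat_lit 319) (nat_lit 294) (nat_lit 107)) (XT.lf (nat_lit 0) (nat_lit 11904447656) (nat_lit 532) (nat_lit 65083127190) (nat_lit 532) (nat_lit 65083127190) (nat_lit 27) (nat_lit 3) (nat_lit 34) (nat_lit 3) (nat_lit 34) (nat_lit 5) (nat_lit 295) (nat_lit 295) (nat_lit 130))) (XT.nd (nat_lit 78) (nat_lit 0) (nat_lit 76) (XT.lf (nat_lit 0) (nat_lit 24761952658) (nat_lit 532) (nat_lit 17923817728) (nat_lit 532) (nat_lit 252821228110)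 (nat_lit 27) (nat_lit 3) (nat_lit 34) (nat_lit 3) (nat_lit 34) (nat_lit 5) (nat_lit 296) (nat_lit 295) (nat_lit 129)) (XT.nd (nat_lit 78) (nat_lit 0) (nat_lit 0) (XT.lf (nat_lit 0) (nat_lit 30338288901) (nat_lit 456) (nat_lit 200767137419) (nat_lit 532) (nat_lit 76312651969) (nat_lit 28) (nat_lit 5) (nat_lit 34) (nat_lit 5) (nat_lit 35) (nat_lit 5) (nat_lit 297) (nat_lit 295) (nat_lit 128)) (XT.lf (nat_lit 0) (nat_lit 37972186163) (nat_lit 456) (nat_lit 79153309467) (nat_lit 532) (nat_lit 203027633028) (nat_lit 28) (nat_lit 5) (nat_lit 34) (nat_lit 5) (nat_lit 35) (nat_lit 5) (nat_lit 298) (nat_lit 295) (nat_lit 127))))) (XT.nd (nat_lit 234) (nat_lit 380) (nat_lit 0) (XT.nd (nat_lit 78) (nat_lit 0) (nat_lit 0) (XT.lf (nat_lit 0) (nat_lit 47715955631) (nat_lit 456) (nat_lit 279041458154) (nat_lit 532) (nat_lit 7029636918) (nat_lit 29) (nat_lit 5) (nat_lit 35) (nat_lit 5) (nat_lit 36)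 (nat_lit 5) (nat_lit 299) (nat_lit 295) (nat_lit 126)) (XT.nd (nat_lit 78) (nat_lit 0) (nat_lit 0) (XT.lf (nat_lit 0) (nat_lit 63501795425) (nat_lit 456) (nat_lit 147579103884) (nat_lit 532) (nat_lit 137009782149) (nat_lit 29) (nat_lit 5) (nat_lit 35) (nat_lit 5) (nat_lit 36) (nat_lit 5) (nat_lit 300) (nat_lit 295) (nat_lit 125)) (XT.lf (nat_lit 0) (nat_lit 80550450159) (nat_lit 456) (nat_lit 5599802797) (nat_lit 532) (nat_lit 277388354309) (nat_lit 29) (nat_lit 5) (nat_lit 35) (nat_lit 5) (nat_lit 36) (nat_lit 5) (nat_lit 301) (nat_lit 295) (nat_lit 124)))) (XT.nd (nat_lit 78) (nat_lit 456) (nat_lit 0) (XT.lf (nat_lit 0) (nat_lit 103973330892) (nat_lit 456) (nat_lit 225675925142) (nat_lit 76) (nat_lit 50172284797) (nat_lit 30) (nat_lit 5) (nat_lit 36) (nat_lit 5) (nat_lit 31) (nat_lit 5) (nat_lit 302) (nat_lit 295) (nat_lit 123)) (XT.nd (nat_lit 78) (nat_lit 456) (nat_lit 0) (XT.lf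 (nat_lit 0) (nat_lit 131664750874) (nat_lit 456) (nat_lit 72647414432) (nat_lit 76) (nat_lit 192903367425) (nat_lit 30) (nat_lit 5) (nat_lit 36) (nat_lit 5) (nat_lit 31) (nat_lit 5) (nat_lit 303) (nat_lit 295) (nat_lit 122)) (XT.lf (nat_lit 0) (nat_lit 97500719403) (nat_lit 456) (nat_lit 66415617573) (nat_lit 532) (nat_lit 251897119133) (nat_lit 24) (nat_lit 5) (nat_lit 30) (nat_lit 5) (nat_lit 31) (nat_lit 5) (nat_lit 304) (nat_lit 295) (nat_lit 121)))))) (XT.nd (nat_lit 468) (nat_lit 380) (nat_lit 0) (XT.nd (nat_lit 234) (nat_lit 152) (nat_lit 0) (XT.nd (nat_lit 78) (nat_lit 228) (nat_lit 0) (XT.lf (nat_lit 0) (nat_lit 202770342923) (nat_lit 532) (nat_lit 152384146783) (nat_lit 76) (nat_lit 80422940519) (nat_lit 24) (nat_lit 5) (nat_lit 31) (nat_lit 5) (nat_lit 25) (nat_lit 5) (nat_lit 305) (nat_lit 295) (nat_lit 120)) (XT.nd (nat_lit 78) (nat_lit 0) (nat_lit 0) (XT.lf (nat_lit 0)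 (nat_lit 26414996336) (nat_lit 228) (nat_lit 220677998381) (nat_lit 304) (nat_lit 209640701806) (nat_lit 21) (nat_lit 5) (nat_lit 24) (nat_lit 5) (nat_lit 25) (nat_lit 5) (nat_lit 306) (nat_lit 295) (nat_lit 119)) (XT.lf (nat_lit 0) (nat_lit 228184255202) (nat_lit 228) (nat_lit 70943621012) (nat_lit 304) (nat_lit 180121274765) (nat_lit 21) (nat_lit 5) (nat_lit 24) (nat_lit 5) (nat_lit 25) (nat_lit 5) (nat_lit 307) (nat_lit 295) (nat_lit 118)))) (XT.nd (nat_lit 78) (nat_lit 152) (nat_lit 0) (XT.lf (nat_lit 0) (nat_lit 357508524536) (nat_lit 304) (nat_lit 59653833024) (nat_lit 76) (nat_lit 86228846368) (nat_lit 21) (nat_lit 5) (nat_lit 25) (nat_lit 5) (nat_lit 22) (nat_lit 5) (nat_lit 308) (nat_lit 295) (nat_lit 117)) (XT.nd (nat_lit 78) (nat_lit 0) (nat_lit 0) (XT.lf (nat_lit 0) (nat_lit 152874805786) (nat_lit 152) (nat_lit 273204123044) (nat_lit 228) (nat_lit 102944148177) (nat_lit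 19) (nat_lit 5) (nat_lit 21) (nat_lit 5) (nat_lit 22) (nat_lit 5) (nat_lit 309) (nat_lit 295) (nat_lit 116)) (XT.lf (nat_lit 0) (nat_lit 385798268478) (nat_lit 152) (nat_lit 115967709822) (nat_lit 228) (nat_lit 54809040814) (nat_lit 19) (nat_lit 5) (nat_lit 21) (nat_lit 5) (nat_lit 22) (nat_lit 5) (nat_lit 310) (nat_lit 295) (nat_lit 115))))) (XT.nd (nat_lit 234) (nat_lit 152) (nat_lit 0) (XT.nd (nat_lit 78) (nat_lit 76) (nat_lit 0) (XT.lf (nat_lit 0) (nat_lit 52348085061) (nat_lit 152) (nat_lit 533713889177) (nat_lit 228) (nat_lit 64823942) (nat_lit 17) (nat_lit 5) (nat_lit 19) (nat_lit 5) (nat_lit 20) (nat_lit 5) (nat_lit 311) (nat_lit 295) (nat_lit 114)) (XT.nd (nat_lit 78) (nat_lit 0) (nat_lit 0) (XT.lf (nat_lit 0) (nat_lit 63907305942) (nat_lit 228) (nat_lit 319187872231) (nat_lit 76) (nat_lit 234209692663) (nat_lit 16) (nat_lit 5) (nat_lit 19) (nat_lit 5) (nat_lit 17) (nat_lit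 5) (nat_lit 312) (nat_lit 295) (nat_lit 113)) (XT.lf (nat_lit 0) (nat_lit 132993679689) (nat_lit 228) (nat_lit 87431479286) (nat_lit 76) (nat_lit 430551897729) (nat_lit 16) (nat_lit 5) (nat_lit 19) (nat_lit 5) (nat_lit 17) (nat_lit 5) (nat_lit 313) (nat_lit 295) (nat_lit 112)))) (XT.nd (nat_lit 78) (nat_lit 0) (nat_lit 0) (XT.lf (nat_lit 0) (nat_lit 171441599077) (nat_lit 152) (nat_lit 40288516292) (nat_lit 228) (nat_lit 475283050051) (nat_lit 14) (nat_lit 5) (nat_lit 16) (nat_lit 5) (nat_lit 17) (nat_lit 5) (nat_lit 314) (nat_lit 295) (nat_lit 111)) (XT.nd (nat_lit 78) (nat_lit 0) (nat_lit 0) (XT.lf (nat_lit 0) (nat_lit 302928001545) (nat_lit 228) (nat_lit 273516146776) (nat_lit 76) (nat_lit 148995011793) (nat_lit 14) (nat_lit 5) (nat_lit 17) (nat_lit 5) (nat_lit 15) (nat_lit 5) (nat_lit 315) (nat_lit 295) (nat_lit 110)) (XT.lf (nat_lit 0) (nat_lit 402468153467) (nat_lit 228) (nat_lit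 13142776478) (nat_lit 76) (nat_lit 351244589769) (nat_lit 14) (nat_lit 5) (nat_lit 17) (nat_lit 5) (nat_lit 15) (nat_lit 5) (nat_lit 316) (nat_lit 295) (nat_lit 109))))))) (XT.nd (nat_lit 36582) (nat_lit 0) (nat_lit 152) (XT.nd (nat_lit 36114) (nat_lit 0) (nat_lit 1216) (XT.nd (nat_lit 35880) (nat_lit 0) (nat_lit 1140) (XT.nd (nat_lit 78) (nat_lit 0) (nat_lit 0) (XT.lf (nat_lit 0) (nat_lit 282176025242) (nat_lit 152) (nat_lit 234581813868) (nat_lit 228) (nat_lit 294284443359) (nat_lit 12) (nat_lit 5) (nat_lit 14) (nat_lit 5) (nat_lit 15) (nat_lit 5) (nat_lit 317) (nat_lit 295) (nat_lit 108)) (XT.lf (nat_lit 0) (nat_lit 601867747294) (nat_lit 152) (nat_lit 38682281259) (nat_lit 228) (nat_lit 218185211478) (nat_lit 12) (nat_lit 5) (nat_lit 14) (nat_lit 5) (nat_lit 15) (nat_lit 5) (nat_lit 318) (nat_lit 295) (nat_lit 107))) (XT.nd (nat_lit 78) (nat_lit 0) (nat_lit 0) (XT.lf (nat_lit 0)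 (nat_lit 12857488130) (nat_lit 532) (nat_lit 70289404907) (nat_lit 532) (nat_lit 70289404907) (nat_lit 27) (nat_lit 3) (nat_lit 34) (nat_lit 3) (nat_lit 34) (nat_lit 5) (nat_lit 296) (nat_lit 296) (nat_lit 128)) (XT.nd (nat_lit 78) (nat_lit 0) (nat_lit 76) (XT.lf (nat_lit 0) (nat_lit 26744176762) (nat_lit 532) (nat_lit 19357033409) (nat_lit 532) (nat_lit 273046236621) (nat_lit 27) (nat_lit 3) (nat_lit 34) (nat_lit 3) (nat_lit 34) (nat_lit 5) (nat_lit 297) (nat_lit 296) (nat_lit 127)) (XT.lf (nat_lit 0) (nat_lit 32766529701) (nat_lit 456) (nat_lit 216827719072) (nat_lit 532) (nat_lit 82417172166) (nat_lit 28) (nat_lit 5) (nat_lit 34) (nat_lit 5) (nat_lit 35) (nat_lit 5) (nat_lit 298) (nat_lit 296) (nat_lit 126))))) (XT.nd (nat_lit 234) (nat_lit 0) (nat_lit 76) (XT.nd (nat_lit 78) (nat_lit 0) (nat_lit 76) (XT.lf (nat_lit 0) (nat_lit 41011051508) (nat_lit 456) (nat_lit 85484843353) (nat_lit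 532) (nat_lit 219269388151) (nat_lit 28) (nat_lit 5) (nat_lit 34) (nat_lit 5) (nat_lit 35) (nat_lit 5) (nat_lit 299) (nat_lit 296) (nat_lit 125)) (XT.nd (nat_lit 78) (nat_lit 0) (nat_lit 0) (XT.lf (nat_lit 0) (nat_lit 51534251329) (nat_lit 456) (nat_lit 301363964672) (nat_lit 532) (nat_lit 7591709161) (nat_lit 29) (nat_lit 5) (nat_lit 35) (nat_lit 5) (nat_lit 36) (nat_lit 5) (nat_lit 300) (nat_lit 296) (nat_lit 124)) (XT.lf (nat_lit 0) (nat_lit 68582882807) (nat_lit 456) (nat_lit 159384682070) (nat_lit 532) (nat_lit 147970288136) (nat_lit 29) (nat_lit 5) (nat_lit 35) (nat_lit 5) (nat_lit 36) (nat_lit 5) (nat_lit 301) (nat_lit 296) (nat_lit 123)))) (XT.nd (nat_lit 78) (nat_lit 0) (nat_lit 76) (XT.lf (nat_lit 0) (nat_lit 86995360012) (nat_lit 456) (nat_lit 6047092461) (nat_lit 532) (nat_lit 299579166557) (nat_lit 29) (nat_lit 5) (nat_lit 35) (nat_lit 5) (nat_lit 36) (nat_lit 5) (nat_lit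 302) (nat_lit 296) (nat_lit 122)) (XT.nd (nat_lit 78) (nat_lit 0) (nat_lit 0) (XT.lf (nat_lit 0) (nat_lit 112292019186) (nat_lit 456) (nat_lit 243729246179) (nat_lit 76) (nat_lit 54185926588) (nat_lit 30) (nat_lit 5) (nat_lit 36) (nat_lit 5) (nat_lit 31) (nat_lit 5) (nat_lit 303) (nat_lit 296) (nat_lit 121)) (XT.lf (nat_lit 0) (nat_lit 142198691891) (nat_lit 456) (nat_lit 78458510389) (nat_lit 76) (nat_lit 208335506270) (nat_lit 30) (nat_lit 5) (nat_lit 36) (nat_lit 5) (nat_lit 31) (nat_lit 5) (nat_lit 304) (nat_lit 296) (nat_lit 120)))))) (XT.nd (nat_lit 468) (nat_lit 380) (nat_lit 0) (XT.nd (nat_lit 234) (nat_lit 152) (nat_lit 0) (XT.nd (nat_lit 78) (nat_lit 228) (nat_lit 0) (XT.lf (nat_lit 0) (nat_lit 105301456503) (nat_lit 456) (nat_lit 71728908355) (nat_lit 532) (nat_lit 272048104581) (nat_lit 24) (nat_lit 5) (nat_lit 30) (nat_lit 5) (nat_lit 31) (nat_lit 5) (nat_lit 305) (nat_lit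 296) (nat_lit 119)) (XT.nd (nat_lit 78) (nat_lit 228) (nat_lit 0) (XT.lf (nat_lit 0) (nat_lit 218992636958) (nat_lit 532) (nat_lit 164574189914) (nat_lit 76) (nat_lit 86856739366) (nat_lit 24) (nat_lit 5) (nat_lit 31) (nat_lit 5) (nat_lit 25) (nat_lit 5) (nat_lit 306) (nat_lit 296) (nat_lit 118)) (XT.lf (nat_lit 0) (nat_lit 28528867221) (nat_lit 228) (nat_lit 238332200438) (nat_lit 304) (nat_lit 226411269214) (nat_lit 21) (nat_lit 5) (nat_lit 24) (nat_lit 5) (nat_lit 25) (nat_lit 5) (nat_lit 307) (nat_lit 296) (nat_lit 117)))) (XT.nd (nat_lit 78) (nat_lit 152) (nat_lit 0) (XT.lf (nat_lit 0) (nat_lit 246439617080) (nat_lit 228) (nat_lit 76619075680) (nat_lit 304) (nat_lit 194530339027) (nat_lit 21) (nat_lit 5) (nat_lit 24) (nat_lit 5) (nat_lit 25) (nat_lit 5) (nat_lit 308) (nat_lit 296) (nat_lit 116)) (XT.nd (nat_lit 78) (nat_lit 152) (nat_lit 0) (XT.lf (nat_lit 0) (nat_lit 386109750287)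 (nat_lit 304) (nat_lit 64425517546) (nat_lit 76) (nat_lit 93127184875) (nat_lit 21) (nat_lit 5) (nat_lit 25) (nat_lit 5) (nat_lit 22) (nat_lit 5) (nat_lit 309) (nat_lit 296) (nat_lit 115)) (XT.lf (nat_lit 0) (nat_lit 165105396620) (nat_lit 152) (nat_lit 295060364608) (nat_lit 228) (nat_lit 111179116761) (nat_lit 19) (nat_lit 5) (nat_lit 21) (nat_lit 5) (nat_lit 22) (nat_lit 5) (nat_lit 310) (nat_lit 296) (nat_lit 114))))) (XT.nd (nat_lit 234) (nat_lit 152) (nat_lit 0) (XT.nd (nat_lit 78) (nat_lit 228) (nat_lit 0) (XT.lf (nat_lit 0) (nat_lit 416662691410) (nat_lit 152) (nat_lit 125245044867) (nat_lit 228) (nat_lit 59193242533) (nat_lit 19) (nat_lit 5) (nat_lit 21) (nat_lit 5) (nat_lit 22) (nat_lit 5) (nat_lit 311) (nat_lit 296) (nat_lit 113)) (XT.nd (nat_lit 78) (nat_lit 76) (nat_lit 0) (XT.lf (nat_lit 0) (nat_lit 56536517965) (nat_lit 152) (nat_lit 576410874308) (nat_lit 228) (nat_lit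 69509754) (nat_lit 17) (nat_lit 5) (nat_lit 19) (nat_lit 5) (nat_lit 20) (nat_lit 5) (nat_lit 312) (nat_lit 296) (nat_lit 112)) (XT.lf (nat_lit 0) (nat_lit 69020330312) (nat_lit 228) (nat_lit 344722333418) (nat_lit 76) (nat_lit 252946558837) (nat_lit 16) (nat_lit 5) (nat_lit 19) (nat_lit 5) (nat_lit 17) (nat_lit 5) (nat_lit 313) (nat_lit 296) (nat_lit 111)))) (XT.nd (nat_lit 78) (nat_lit 152) (nat_lit 0) (XT.lf (nat_lit 0) (nat_lit 143633581374) (nat_lit 228) (nat_lit 94425471156) (nat_lit 76) (nat_lit 464996133586) (nat_lit 16) (nat_lit 5) (nat_lit 19) (nat_lit 5) (nat_lit 17) (nat_lit 5) (nat_lit 314) (nat_lit 296) (nat_lit 110)) (XT.nd (nat_lit 78) (nat_lit 0) (nat_lit 0) (XT.lf (nat_lit 0) (nat_lit 185157440148) (nat_lit 152) (nat_lit 43511473930) (nat_lit 228) (nat_lit 513305271065) (nat_lit 14) (nat_lit 5) (nat_lit 16) (nat_lit 5) (nat_lit 17) (nat_lit 5) (nat_lit 315) (nat_lit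 296) (nat_lit 109)) (XT.lf (nat_lit 0) (nat_lit 327162605052) (nat_lit 228) (nat_lit 295396935109) (nat_lit 76) (nat_lit 160914721513) (nat_lit 14) (nat_lit 5) (nat_lit 17) (nat_lit 5) (nat_lit 15) (nat_lit 5) (nat_lit 316) (nat_lit 296) (nat_lit 108))))))))
noncomputable def xc125 : XT := (XT.nd (nat_lit 73632) (nat_lit 0) (nat_lit 152) (XT.nd (nat_lit 36738) (nat_lit 0) (nat_lit 0) (XT.nd (nat_lit 36270) (nat_lit 0) (nat_lit 760) (XT.nd (nat_lit 36036) (nat_lit 0) (nat_lit 988) (XT.nd (nat_lit 35958) (nat_lit 0) (nat_lit 988) (XT.lf (nat_lit 0) (nat_lit 434665942210) (nat_lit 228) (nat_lit 14193732477) (nat_lit 76) (nat_lit 379344257670) (nat_lit 14) (nat_lit 5) (nat_lit 17) (nat_lit 5) (nat_lit 15) (nat_lit 5) (nat_lit 317) (nat_lit 296) (nat_lit 107)) (XT.lf (nat_lit 0) (nat_lit 13886674167) (nat_lit 532) (nat_lit 75912237977) (nat_lit 532) (nat_lit 75912237977) (nat_lit 27) (nat_lit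 3) (nat_lit 34) (nat_lit 3) (nat_lit 34) (nat_lit 5) (nat_lit 297) (nat_lit 297) (nat_lit 126))) (XT.nd (nat_lit 78) (nat_lit 0) (nat_lit 76) (XT.lf (nat_lit 0) (nat_lit 28884797915) (nat_lit 532) (nat_lit 20905004743) (nat_lit 532) (nat_lit 294889344212) (nat_lit 27) (nat_lit 3) (nat_lit 34) (nat_lit 3) (nat_lit 34) (nat_lit 5) (nat_lit 298) (nat_lit 297) (nat_lit 125)) (XT.nd (nat_lit 78) (nat_lit 0) (nat_lit 0) (XT.lf (nat_lit 0) (nat_lit 35388861754) (nat_lit 456) (nat_lit 234173259864) (nat_lit 532) (nat_lit 89010124162) (nat_lit 28) (nat_lit 5) (nat_lit 34) (nat_lit 5) (nat_lit 35) (nat_lit 5) (nat_lit 299) (nat_lit 297) (nat_lit 124)) (XT.lf (nat_lit 0) (nat_lit 44292870514) (nat_lit 456) (nat_lit 92323004216) (nat_lit 532) (nat_lit 236810548669) (nat_lit 28) (nat_lit 5) (nat_lit 34) (nat_lit 5) (nat_lit 35) (nat_lit 5) (nat_lit 300) (nat_lit 297) (nat_lit 123))))) (XT.nd (nat_lit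 234) (nat_lit 380) (nat_lit 0) (XT.nd (nat_lit 78) (nat_lit 0) (nat_lit 0) (XT.lf (nat_lit 0) (nat_lit 55657865276) (nat_lit 456) (nat_lit 325472387286) (nat_lit 532) (nat_lit 8198789797) (nat_lit 29) (nat_lit 5) (nat_lit 35) (nat_lit 5) (nat_lit 36) (nat_lit 5) (nat_lit 301) (nat_lit 297) (nat_lit 122)) (XT.nd (nat_lit 78) (nat_lit 0) (nat_lit 0) (XT.lf (nat_lit 0) (nat_lit 74070322543) (nat_lit 456) (nat_lit 172134813525) (nat_lit 532) (nat_lit 159807674061) (nat_lit 29) (nat_lit 5) (nat_lit 35) (nat_lit 5) (nat_lit 36) (nat_lit 5) (nat_lit 302) (nat_lit 297) (nat_lit 121)) (XT.lf (nat_lit 0) (nat_lit 93955737990) (nat_lit 456) (nat_lit 6530264385) (nat_lit 532) (nat_lit 323545280320) (nat_lit 29) (nat_lit 5) (nat_lit 35) (nat_lit 5) (nat_lit 36) (nat_lit 5) (nat_lit 303) (nat_lit 297) (nat_lit 120)))) (XT.nd (nat_lit 78) (nat_lit 456) (nat_lit 0) (XT.lf (nat_lit 0) (nat_lit 121276085302)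 (nat_lit 456) (nat_lit 263226940320) (nat_lit 76) (nat_lit 58520679837) (nat_lit 30) (nat_lit 5) (nat_lit 36) (nat_lit 5) (nat_lit 31) (nat_lit 5) (nat_lit 304) (nat_lit 297) (nat_lit 119)) (XT.nd (nat_lit 78) (nat_lit 456) (nat_lit 0) (XT.lf (nat_lit 0) (nat_lit 153575239632) (nat_lit 456) (nat_lit 84734593485) (nat_lit 76) (nat_lit 225002234848) (nat_lit 30) (nat_lit 5) (nat_lit 36) (nat_lit 5) (nat_lit 31) (nat_lit 5) (nat_lit 305) (nat_lit 297) (nat_lit 118)) (XT.lf (nat_lit 0) (nat_lit 113726155626) (nat_lit 456) (nat_lit 77467256498) (nat_lit 532) (nat_lit 293811280723) (nat_lit 24) (nat_lit 5) (nat_lit 30) (nat_lit 5) (nat_lit 31) (nat_lit 5) (nat_lit 306) (nat_lit 297) (nat_lit 117)))))) (XT.nd (nat_lit 468) (nat_lit 380) (nat_lit 0) (XT.nd (nat_lit 234) (nat_lit 152) (nat_lit 0) (XT.nd (nat_lit 78) (nat_lit 228) (nat_lit 0) (XT.lf (nat_lit 0) (nat_lit 236512619417) (nat_lit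 532) (nat_lit 177739534733) (nat_lit 76) (nat_lit 93805247312) (nat_lit 24) (nat_lit 5) (nat_lit 31) (nat_lit 5) (nat_lit 25) (nat_lit 5) (nat_lit 307) (nat_lit 297) (nat_lit 116)) (XT.nd (nat_lit 78) (nat_lit 0) (nat_lit 0) (XT.lf (nat_lit 0) (nat_lit 30811752027) (nat_lit 228) (nat_lit 257398744053) (nat_lit 304) (nat_lit 244523580271) (nat_lit 21) (nat_lit 5) (nat_lit 24) (nat_lit 5) (nat_lit 25) (nat_lit 5) (nat_lit 308) (nat_lit 297) (nat_lit 115)) (XT.lf (nat_lit 0) (nat_lit 266155319250) (nat_lit 228) (nat_lit 82748571717) (nat_lit 304) (nat_lit 210092219408) (nat_lit 21) (nat_lit 5) (nat_lit 24) (nat_lit 5) (nat_lit 25) (nat_lit 5) (nat_lit 309) (nat_lit 297) (nat_lit 114)))) (XT.nd (nat_lit 78) (nat_lit 152) (nat_lit 0) (XT.lf (nat_lit 0) (nat_lit 416998996520) (nat_lit 304) (nat_lit 69579025582) (nat_lit 76) (nat_lit 100577386069) (nat_lit 21) (nat_lit 5) (nat_lit 25) (nat_lit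 5) (nat_lit 22) (nat_lit 5) (nat_lit 310) (nat_lit 297) (nat_lit 113)) (XT.nd (nat_lit 78) (nat_lit 0) (nat_lit 0) (XT.lf (nat_lit 0) (nat_lit 178314348214) (nat_lit 152) (nat_lit 318665118091) (nat_lit 228) (nat_lit 120072963188) (nat_lit 19) (nat_lit 5) (nat_lit 21) (nat_lit 5) (nat_lit 22) (nat_lit 5) (nat_lit 311) (nat_lit 297) (nat_lit 112)) (XT.lf (nat_lit 0) (nat_lit 449996188079) (nat_lit 152) (nat_lit 135264578378) (nat_lit 228) (nat_lit 63928254793) (nat_lit 19) (nat_lit 5) (nat_lit 21) (nat_lit 5) (nat_lit 22) (nat_lit 5) (nat_lit 312) (nat_lit 297) (nat_lit 111))))) (XT.nd (nat_lit 234) (nat_lit 152) (nat_lit 0) (XT.nd (nat_lit 78) (nat_lit 76) (nat_lit 0) (XT.lf (nat_lit 0) (nat_lit 61059941886) (nat_lit 152) (nat_lit 622523636225) (nat_lit 228) (nat_lit 74641777) (nat_lit 17) (nat_lit 5) (nat_lit 19) (nat_lit 5) (nat_lit 20) (nat_lit 5) (nat_lit 313) (nat_lit 297) (nat_lit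 110)) (XT.nd (nat_lit 78) (nat_lit 0) (nat_lit 0) (XT.lf (nat_lit 0) (nat_lit 74542333875) (nat_lit 228) (nat_lit 372299632616) (nat_lit 76) (nat_lit 273182361358) (nat_lit 16) (nat_lit 5) (nat_lit 19) (nat_lit 5) (nat_lit 17) (nat_lit 5) (nat_lit 314) (nat_lit 297) (nat_lit 109)) (XT.lf (nat_lit 0) (nat_lit 155124617086) (nat_lit 228) (nat_lit 101979057482) (nat_lit 76) (nat_lit 502195896322) (nat_lit 16) (nat_lit 5) (nat_lit 19) (nat_lit 5) (nat_lit 17) (nat_lit 5) (nat_lit 315) (nat_lit 297) (nat_lit 108)))) (XT.nd (nat_lit 78) (nat_lit 0) (nat_lit 0) (XT.lf (nat_lit 0) (nat_lit 199970475299) (nat_lit 152) (nat_lit 46992285822) (nat_lit 228) (nat_lit 554369330105) (nat_lit 14) (nat_lit 5) (nat_lit 16) (nat_lit 5) (nat_lit 17) (nat_lit 5) (nat_lit 316) (nat_lit 297) (nat_lit 107)) (XT.nd (nat_lit 36036) (nat_lit 0) (nat_lit 988) (XT.lf (nat_lit 0) (nat_lit 353335924998) (nat_lit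 228) (nat_lit 319028258326) (nat_lit 76) (nat_lit 173787992493) (nat_lit 14) (nat_lit 5) (nat_lit 17) (nat_lit 5) (nat_lit 15) (nat_lit 5) (nat_lit 317) (nat_lit 297) (nat_lit 106)) (XT.lf (nat_lit 0) (nat_lit 14998111347) (nat_lit 532) (nat_lit 81984943247) (nat_lit 532) (nat_lit 81984943247) (nat_lit 27) (nat_lit 3) (nat_lit 34) (nat_lit 3) (nat_lit 34) (nat_lit 5) (nat_lit 298) (nat_lit 298) (nat_lit 124))))))) (XT.nd (nat_lit 858) (nat_lit 380) (nat_lit 0) (XT.nd (nat_lit 390) (nat_lit 456) (nat_lit 0) (XT.nd (nat_lit 156) (nat_lit 0) (nat_lit 76) (XT.nd (nat_lit 78) (nat_lit 0) (nat_lit 76) (XT.lf (nat_lit 0) (nat_lit 31196513687) (nat_lit 532) (nat_lit 22576898145) (nat_lit 532) (nat_lit 318479984772) (nat_lit 27) (nat_lit 3) (nat_lit 34) (nat_lit 3) (nat_lit 34) (nat_lit 5) (nat_lit 299) (nat_lit 298) (nat_lit 123)) (XT.lf (nat_lit 0) (nat_lit 38220836329) (nat_lit 456) (nat_lit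 252906540464) (nat_lit 532) (nat_lit 96130572489) (nat_lit 28) (nat_lit 5) (nat_lit 34) (nat_lit 5) (nat_lit 35) (nat_lit 5) (nat_lit 300) (nat_lit 298) (nat_lit 122))) (XT.nd (nat_lit 78) (nat_lit 0) (nat_lit 76) (XT.lf (nat_lit 0) (nat_lit 47837101670) (nat_lit 456) (nat_lit 99708307341) (nat_lit 532) (nat_lit 255755057742) (nat_lit 28) (nat_lit 5) (nat_lit 34) (nat_lit 5) (nat_lit 35) (nat_lit 5) (nat_lit 301) (nat_lit 298) (nat_lit 121)) (XT.nd (nat_lit 78) (nat_lit 0) (nat_lit 0) (XT.lf (nat_lit 0) (nat_lit 60111243675) (nat_lit 456) (nat_lit 351509582796) (nat_lit 532) (nat_lit 8854473419) (nat_lit 29) (nat_lit 5) (nat_lit 35) (nat_lit 5) (nat_lit 36) (nat_lit 5) (nat_lit 302) (nat_lit 298) (nat_lit 120)) (XT.lf (nat_lit 0) (nat_lit 79996642028) (nat_lit 456) (nat_lit 185905047243) (nat_lit 532) (nat_lit 172592084688) (nat_lit 29) (nat_lit 5) (nat_lit 35) (nat_lit 5) (nat_lit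 36) (nat_lit 5) (nat_lit 303) (nat_lit 298) (nat_lit 119))))) (XT.nd (nat_lit 234) (nat_lit 608) (nat_lit 0) (XT.nd (nat_lit 78) (nat_lit 0) (nat_lit 76) (XT.lf (nat_lit 0) (nat_lit 101472839328) (nat_lit 456) (nat_lit 7052175014) (nat_lit 532) (nat_lit 349428714507) (nat_lit 29) (nat_lit 5) (nat_lit 35) (nat_lit 5) (nat_lit 36) (nat_lit 5) (nat_lit 304) (nat_lit 298) (nat_lit 118)) (XT.nd (nat_lit 78) (nat_lit 0) (nat_lit 0) (XT.lf (nat_lit 0) (nat_lit 130978776190) (nat_lit 456) (nat_lit 284284542087) (nat_lit 76) (nat_lit 63202230591) (nat_lit 30) (nat_lit 5) (nat_lit 36) (nat_lit 5) (nat_lit 31) (nat_lit 5) (nat_lit 305) (nat_lit 298) (nat_lit 117)) (XT.lf (nat_lit 0) (nat_lit 165861818121) (nat_lit 456) (nat_lit 91512848502) (nat_lit 76) (nat_lit 243002317679) (nat_lit 30) (nat_lit 5) (nat_lit 36) (nat_lit 5) (nat_lit 31) (nat_lit 5) (nat_lit 306) (nat_lit 298) (nat_lit 116))))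 (XT.nd (nat_lit 78) (nat_lit 228) (nat_lit 0) (XT.lf (nat_lit 0) (nat_lit 122824747564) (nat_lit 456) (nat_lit 83664667430) (nat_lit 532) (nat_lit 317315606857) (nat_lit 24) (nat_lit 5) (nat_lit 30) (nat_lit 5) (nat_lit 31) (nat_lit 5) (nat_lit 307) (nat_lit 298) (nat_lit 115)) (XT.nd (nat_lit 78) (nat_lit 228) (nat_lit 0) (XT.lf (nat_lit 0) (nat_lit 255434118942) (nat_lit 532) (nat_lit 191958191361) (nat_lit 76) (nat_lit 101309640346) (nat_lit 24) (nat_lit 5) (nat_lit 31) (nat_lit 5) (nat_lit 25) (nat_lit 5) (nat_lit 308) (nat_lit 298) (nat_lit 114)) (XT.lf (nat_lit 0) (nat_lit 33277185526) (nat_lit 228) (nat_lit 277990615783) (nat_lit 304) (nat_lit 264084960451) (nat_lit 21) (nat_lit 5) (nat_lit 24) (nat_lit 5) (nat_lit 25) (nat_lit 5) (nat_lit 309) (nat_lit 298) (nat_lit 113)))))) (XT.nd (nat_lit 468) (nat_lit 0) (nat_lit 0) (XT.nd (nat_lit 234) (nat_lit 228) (nat_lit 0) (XT.nd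 (nat_lit 78) (nat_lit 152) (nat_lit 0) (XT.lf (nat_lit 0) (nat_lit 287448201583) (nat_lit 228) (nat_lit 89368431718) (nat_lit 304) (nat_lit 226899128219) (nat_lit 21) (nat_lit 5) (nat_lit 24) (nat_lit 5) (nat_lit 25) (nat_lit 5) (nat_lit 310) (nat_lit 298) (nat_lit 112)) (XT.nd (nat_lit 78) (nat_lit 152) (nat_lit 0) (XT.lf (nat_lit 0) (nat_lit 450359315942) (nat_lit 304) (nat_lit 75144890352) (nat_lit 76) (nat_lit 108623599592) (nat_lit 21) (nat_lit 5) (nat_lit 25) (nat_lit 5) (nat_lit 22) (nat_lit 5) (nat_lit 311) (nat_lit 298) (nat_lit 111)) (XT.lf (nat_lit 0) (nat_lit 192579941771) (nat_lit 152) (nat_lit 344158262651) (nat_lit 228) (nat_lit 129678386222) (nat_lit 19) (nat_lit 5) (nat_lit 21) (nat_lit 5) (nat_lit 22) (nat_lit 5) (nat_lit 312) (nat_lit 298) (nat_lit 110)))) (XT.nd (nat_lit 78) (nat_lit 228) (nat_lit 0) (XT.lf (nat_lit 0) (nat_lit 485996295811) (nat_lit 152) (nat_lit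 146085684566) (nat_lit 228) (nat_lit 69042131824) (nat_lit 19) (nat_lit 5) (nat_lit 21) (nat_lit 5) (nat_lit 22) (nat_lit 5) (nat_lit 313) (nat_lit 298) (nat_lit 109)) (XT.nd (nat_lit 78) (nat_lit 76) (nat_lit 0) (XT.lf (nat_lit 0) (nat_lit 65945168037) (nat_lit 152) (nat_lit 672325434507) (nat_lit 228) (nat_lit 80245528) (nat_lit 17) (nat_lit 5) (nat_lit 19) (nat_lit 5) (nat_lit 20) (nat_lit 5) (nat_lit 314) (nat_lit 298) (nat_lit 108)) (XT.lf (nat_lit 0) (nat_lit 80506043920) (nat_lit 228) (nat_lit 402083185294) (nat_lit 76) (nat_lit 295037016979) (nat_lit 16) (nat_lit 5) (nat_lit 19) (nat_lit 5) (nat_lit 17) (nat_lit 5) (nat_lit 315) (nat_lit 298) (nat_lit 107))))) (XT.nd (nat_lit 36348) (nat_lit 0) (nat_lit 912) (XT.nd (nat_lit 36192) (nat_lit 0) (nat_lit 836) (XT.lf (nat_lit 0) (nat_lit 167534885838) (nat_lit 228) (nat_lit 110136995107) (nat_lit 76) (nat_lit 542371629799) (nat_lit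 16) (nat_lit 5) (nat_lit 19) (nat_lit 5) (nat_lit 17) (nat_lit 5) (nat_lit 316) (nat_lit 298) (nat_lit 106)) (XT.nd (nat_lit 78) (nat_lit 0) (nat_lit 0) (XT.lf (nat_lit 0) (nat_lit 16198391707) (nat_lit 532) (nat_lit 88543503995) (nat_lit 532) (nat_lit 88543503995) (nat_lit 27) (nat_lit 3) (nat_lit 34) (nat_lit 3) (nat_lit 34) (nat_lit 5) (nat_lit 299) (nat_lit 299) (nat_lit 122)) (XT.lf (nat_lit 0) (nat_lit 33693033769) (nat_lit 532) (nat_lit 24382615345) (nat_lit 532) (nat_lit 343957948902) (nat_lit 27) (nat_lit 3) (nat_lit 34) (nat_lit 3) (nat_lit 34) (nat_lit 5) (nat_lit 300) (nat_lit 299) (nat_lit 121)))) (XT.nd (nat_lit 78) (nat_lit 0) (nat_lit 0) (XT.lf (nat_lit 0) (nat_lit 41279245378) (nat_lit 456) (nat_lit 273138566282) (nat_lit 532) (nat_lit 103820708270) (nat_lit 28) (nat_lit 5) (nat_lit 34) (nat_lit 5) (nat_lit 35) (nat_lit 5) (nat_lit 301) (nat_lit 299) (nat_lit 120))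 (XT.nd (nat_lit 78) (nat_lit 0) (nat_lit 76) (XT.lf (nat_lit 0) (nat_lit 51664756973) (nat_lit 456) (nat_lit 107684511355) (nat_lit 532) (nat_lit 276215175308) (nat_lit 28) (nat_lit 5) (nat_lit 34) (nat_lit 5) (nat_lit 35) (nat_lit 5) (nat_lit 302) (nat_lit 299) (nat_lit 119)) (XT.lf (nat_lit 0) (nat_lit 64920785468) (nat_lit 456) (nat_lit 379629838898) (nat_lit 532) (nat_lit 9562643054) (nat_lit 29) (nat_lit 5) (nat_lit 35) (nat_lit 5) (nat_lit 36) (nat_lit 5) (nat_lit 303) (nat_lit 299) (nat_lit 118))))))))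
noncomputable def xc126 : XT := (XT.nd (nat_lit 37986) (nat_lit 0) (nat_lit 228) (XT.nd (nat_lit 858) (nat_lit 228) (nat_lit 0) (XT.nd (nat_lit 390) (nat_lit 380) (nat_lit 0) (XT.nd (nat_lit 156) (nat_lit 380) (nat_lit 0) (XT.nd (nat_lit 78) (nat_lit 0) (nat_lit 0) (XT.lf (nat_lit 0) (nat_lit 86396968112) (nat_lit 456) (nat_lit 200776978317) (nat_lit 532) (nat_lit 186399277168) (nat_lit 29) (nat_lit 5) (nat_lit 35) (nat_lit 5) (nat_lit 36) (nat_lit 5) (nat_lit 304) (nat_lit 299) (nat_lit 117)) (XT.lf (nat_lit 0) (nat_lit 109591217142) (nat_lit 456) (nat_lit 7615911325) (nat_lit 532) (nat_lit 377382850283) (nat_lit 29) (nat_lit 5) (nat_lit 35) (nat_lit 5) (nat_lit 36) (nat_lit 5) (nat_lit 305) (nat_lit 299) (nat_lit 116))) (XT.nd (nat_lit 78) (nat_lit 456) (nat_lit 0) (XT.lf (nat_lit 0) (nat_lit 141457596174) (nat_lit 456) (nat_lit 307026830953) (nat_lit 76) (nat_lit 68258320189) (nat_lit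 30) (nat_lit 5) (nat_lit 36) (nat_lit 5) (nat_lit 31) (nat_lit 5) (nat_lit 306) (nat_lit 299) (nat_lit 115)) (XT.nd (nat_lit 78) (nat_lit 456) (nat_lit 0) (XT.lf (nat_lit 0) (nat_lit 179131243097) (nat_lit 456) (nat_lit 98833437029) (nat_lit 76) (nat_lit 262442420825) (nat_lit 30) (nat_lit 5) (nat_lit 36) (nat_lit 5) (nat_lit 31) (nat_lit 5) (nat_lit 307) (nat_lit 299) (nat_lit 114)) (XT.lf (nat_lit 0) (nat_lit 132651155599) (nat_lit 456) (nat_lit 90357866899) (nat_lit 532) (nat_lit 342700361300) (nat_lit 24) (nat_lit 5) (nat_lit 30) (nat_lit 5) (nat_lit 31) (nat_lit 5) (nat_lit 308) (nat_lit 299) (nat_lit 113))))) (XT.nd (nat_lit 234) (nat_lit 152) (nat_lit 0) (XT.nd (nat_lit 78) (nat_lit 228) (nat_lit 0) (XT.lf (nat_lit 0) (nat_lit 275869268529) (nat_lit 532) (nat_lit 207314412727) (nat_lit 76) (nat_lit 109414388638) (nat_lit 24) (nat_lit 5) (nat_lit 31) (nat_lit 5) (nat_lit 25)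 (nat_lit 5) (nat_lit 309) (nat_lit 299) (nat_lit 112)) (XT.nd (nat_lit 78) (nat_lit 0) (nat_lit 0) (XT.lf (nat_lit 0) (nat_lit 35939783325) (nat_lit 228) (nat_lit 300229841216) (nat_lit 304) (nat_lit 285211323266) (nat_lit 21) (nat_lit 5) (nat_lit 24) (nat_lit 5) (nat_lit 25) (nat_lit 5) (nat_lit 310) (nat_lit 299) (nat_lit 111)) (XT.lf (nat_lit 0) (nat_lit 310444449336) (nat_lit 228) (nat_lit 96517884192) (nat_lit 304) (nat_lit 245050656605) (nat_lit 21) (nat_lit 5) (nat_lit 24) (nat_lit 5) (nat_lit 25) (nat_lit 5) (nat_lit 311) (nat_lit 299) (nat_lit 110)))) (XT.nd (nat_lit 78) (nat_lit 152) (nat_lit 0) (XT.lf (nat_lit 0) (nat_lit 486388403897) (nat_lit 304) (nat_lit 81156089539) (nat_lit 76) (nat_lit 117313506967) (nat_lit 21) (nat_lit 5) (nat_lit 25) (nat_lit 5) (nat_lit 22) (nat_lit 5) (nat_lit 312) (nat_lit 299) (nat_lit 109)) (XT.nd (nat_lit 78) (nat_lit 0) (nat_lit 0) (XT.lf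 (nat_lit 0) (nat_lit 207986719229) (nat_lit 152) (nat_lit 371690868031) (nat_lit 228) (nat_lit 140052302164) (nat_lit 19) (nat_lit 5) (nat_lit 21) (nat_lit 5) (nat_lit 22) (nat_lit 5) (nat_lit 313) (nat_lit 299) (nat_lit 108)) (XT.lf (nat_lit 0) (nat_lit 524876353287) (nat_lit 152) (nat_lit 157772487821) (nat_lit 228) (nat_lit 74565173707) (nat_lit 19) (nat_lit 5) (nat_lit 21) (nat_lit 5) (nat_lit 22) (nat_lit 5) (nat_lit 314) (nat_lit 299) (nat_lit 107)))))) (XT.nd (nat_lit 36660) (nat_lit 0) (nat_lit 608) (XT.nd (nat_lit 36426) (nat_lit 0) (nat_lit 836) (XT.nd (nat_lit 78) (nat_lit 76) (nat_lit 0) (XT.lf (nat_lit 0) (nat_lit 71221150821) (nat_lit 152) (nat_lit 726111389864) (nat_lit 228) (nat_lit 86350021) (nat_lit 17) (nat_lit 5) (nat_lit 19) (nat_lit 5) (nat_lit 20) (nat_lit 5) (nat_lit 315) (nat_lit 299) (nat_lit 106)) (XT.nd (nat_lit 36270) (nat_lit 0) (nat_lit 836) (XT.lf (nat_lit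 0) (nat_lit 86946804642) (nat_lit 228) (nat_lit 434249481809) (nat_lit 76) (nat_lit 318640035533) (nat_lit 16) (nat_lit 5) (nat_lit 19) (nat_lit 5) (nat_lit 17) (nat_lit 5) (nat_lit 316) (nat_lit 299) (nat_lit 105)) (XT.lf (nat_lit 0) (nat_lit 17494632945) (nat_lit 532) (nat_lit 95626783087) (nat_lit 532) (nat_lit 95626783087) (nat_lit 27) (nat_lit 3) (nat_lit 34) (nat_lit 3) (nat_lit 34) (nat_lit 5) (nat_lit 300) (nat_lit 300) (nat_lit 120)))) (XT.nd (nat_lit 78) (nat_lit 0) (nat_lit 76) (XT.lf (nat_lit 0) (nat_lit 36389161473) (nat_lit 532) (nat_lit 26332851929) (nat_lit 532) (nat_lit 371474212171) (nat_lit 27) (nat_lit 3) (nat_lit 34) (nat_lit 3) (nat_lit 34) (nat_lit 5) (nat_lit 301) (nat_lit 300) (nat_lit 119)) (XT.nd (nat_lit 78) (nat_lit 0) (nat_lit 0) (XT.lf (nat_lit 0) (nat_lit 44582221277) (nat_lit 456) (nat_lit 294989225128) (nat_lit 532) (nat_lit 112126099140) (nat_lit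 28) (nat_lit 5) (nat_lit 34) (nat_lit 5) (nat_lit 35) (nat_lit 5) (nat_lit 302) (nat_lit 300) (nat_lit 118)) (XT.lf (nat_lit 0) (nat_lit 55798526667) (nat_lit 456) (nat_lit 116298877396) (nat_lit 532) (nat_lit 298312143229) (nat_lit 28) (nat_lit 5) (nat_lit 34) (nat_lit 5) (nat_lit 35) (nat_lit 5) (nat_lit 303) (nat_lit 300) (nat_lit 117))))) (XT.nd (nat_lit 234) (nat_lit 380) (nat_lit 0) (XT.nd (nat_lit 78) (nat_lit 0) (nat_lit 0) (XT.lf (nat_lit 0) (nat_lit 70114998973) (nat_lit 456) (nat_lit 409999788319) (nat_lit 532) (nat_lit 10327493114) (nat_lit 29) (nat_lit 5) (nat_lit 35) (nat_lit 5) (nat_lit 36) (nat_lit 5) (nat_lit 304) (nat_lit 300) (nat_lit 116)) (XT.nd (nat_lit 78) (nat_lit 0) (nat_lit 0) (XT.lf (nat_lit 0) (nat_lit 93309235438) (nat_lit 456) (nat_lit 216838731314) (nat_lit 532) (nat_lit 201311069911) (nat_lit 29) (nat_lit 5) (nat_lit 35) (nat_lit 5) (nat_lit 36) (nat_lit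 5) (nat_lit 305) (nat_lit 300) (nat_lit 115)) (XT.lf (nat_lit 0) (nat_lit 118358986622) (nat_lit 456) (nat_lit 8224808982) (nat_lit 532) (nat_lit 407573339944) (nat_lit 29) (nat_lit 5) (nat_lit 35) (nat_lit 5) (nat_lit 36) (nat_lit 5) (nat_lit 306) (nat_lit 300) (nat_lit 114)))) (XT.nd (nat_lit 78) (nat_lit 456) (nat_lit 0) (XT.lf (nat_lit 0) (nat_lit 152774647873) (nat_lit 456) (nat_lit 331588570620) (nat_lit 76) (nat_lit 73718909630) (nat_lit 30) (nat_lit 5) (nat_lit 36) (nat_lit 5) (nat_lit 31) (nat_lit 5) (nat_lit 307) (nat_lit 300) (nat_lit 113)) (XT.nd (nat_lit 78) (nat_lit 456) (nat_lit 0) (XT.lf (nat_lit 0) (nat_lit 193462153661) (nat_lit 456) (nat_lit 106739735317) (nat_lit 76) (nat_lit 283437743960) (nat_lit 30) (nat_lit 5) (nat_lit 36) (nat_lit 5) (nat_lit 31) (nat_lit 5) (nat_lit 308) (nat_lit 300) (nat_lit 112)) (XT.lf (nat_lit 0) (nat_lit 143263615185) (nat_lit 456) (nat_lit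 97586518605) (nat_lit 532) (nat_lit 370115966589) (nat_lit 24) (nat_lit 5) (nat_lit 30) (nat_lit 5) (nat_lit 31) (nat_lit 5) (nat_lit 309) (nat_lit 300) (nat_lit 111))))))) (XT.nd (nat_lit 37206) (nat_lit 0) (nat_lit 152) (XT.nd (nat_lit 390) (nat_lit 0) (nat_lit 0) (XT.nd (nat_lit 156) (nat_lit 152) (nat_lit 0) (XT.nd (nat_lit 78) (nat_lit 228) (nat_lit 0) (XT.lf (nat_lit 0) (nat_lit 297939170156) (nat_lit 532) (nat_lit 223899193710) (nat_lit 76) (nat_lit 118167520066) (nat_lit 24) (nat_lit 5) (nat_lit 31) (nat_lit 5) (nat_lit 25) (nat_lit 5) (nat_lit 310) (nat_lit 300) (nat_lit 110)) (XT.lf (nat_lit 0) (nat_lit 38815328608) (nat_lit 228) (nat_lit 324248208084) (nat_lit 304) (nat_lit 308027857025) (nat_lit 21) (nat_lit 5) (nat_lit 24) (nat_lit 5) (nat_lit 25) (nat_lit 5) (nat_lit 311) (nat_lit 300) (nat_lit 109))) (XT.nd (nat_lit 78) (nat_lit 152) (nat_lit 0) (XT.lf (nat_lit 0) (nat_lit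 335280341040) (nat_lit 228) (nat_lit 104239296011) (nat_lit 304) (nat_lit 264654364594) (nat_lit 21) (nat_lit 5) (nat_lit 24) (nat_lit 5) (nat_lit 25) (nat_lit 5) (nat_lit 312) (nat_lit 300) (nat_lit 108)) (XT.nd (nat_lit 78) (nat_lit 152) (nat_lit 0) (XT.lf (nat_lit 0) (nat_lit 525299770000) (nat_lit 304) (nat_lit 87648240590) (nat_lit 76) (nat_lit 126698604164) (nat_lit 21) (nat_lit 5) (nat_lit 25) (nat_lit 5) (nat_lit 22) (nat_lit 5) (nat_lit 313) (nat_lit 300) (nat_lit 107)) (XT.lf (nat_lit 0) (nat_lit 224625984371) (nat_lit 152) (nat_lit 401426089779) (nat_lit 228) (nat_lit 151256182020) (nat_lit 19) (nat_lit 5) (nat_lit 21) (nat_lit 5) (nat_lit 22) (nat_lit 5) (nat_lit 314) (nat_lit 300) (nat_lit 106))))) (XT.nd (nat_lit 36582) (nat_lit 0) (nat_lit 684) (XT.nd (nat_lit 36426) (nat_lit 0) (nat_lit 608) (XT.lf (nat_lit 0) (nat_lit 566866764886) (nat_lit 152) (nat_lit 170394242685)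 (nat_lit 228) (nat_lit 80530105828) (nat_lit 19) (nat_lit 5) (nat_lit 21) (nat_lit 5) (nat_lit 22) (nat_lit 5) (nat_lit 315) (nat_lit 300) (nat_lit 105)) (XT.nd (nat_lit 78) (nat_lit 0) (nat_lit 0) (XT.lf (nat_lit 0) (nat_lit 18894520712) (nat_lit 532) (nat_lit 103276753214) (nat_lit 532) (nat_lit 103276753214) (nat_lit 27) (nat_lit 3) (nat_lit 34) (nat_lit 3) (nat_lit 34) (nat_lit 5) (nat_lit 301) (nat_lit 301) (nat_lit 118)) (XT.lf (nat_lit 0) (nat_lit 39300881669) (nat_lit 532) (nat_lit 28439160602) (nat_lit 532) (nat_lit 401191829663) (nat_lit 27) (nat_lit 3) (nat_lit 34) (nat_lit 3) (nat_lit 34) (nat_lit 5) (nat_lit 302) (nat_lit 301) (nat_lit 117)))) (XT.nd (nat_lit 78) (nat_lit 0) (nat_lit 0) (XT.lf (nat_lit 0) (nat_lit 48149344476) (nat_lit 456) (nat_lit 318587997521) (nat_lit 532) (nat_lit 121095959199) (nat_lit 28) (nat_lit 5) (nat_lit 34) (nat_lit 5) (nat_lit 35) (nat_lit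 5) (nat_lit 303) (nat_lit 301) (nat_lit 116)) (XT.nd (nat_lit 78) (nat_lit 0) (nat_lit 76) (XT.lf (nat_lit 0) (nat_lit 60262913891) (nat_lit 456) (nat_lit 125602449053) (nat_lit 532) (nat_lit 322176903694) (nat_lit 28) (nat_lit 5) (nat_lit 34) (nat_lit 5) (nat_lit 35) (nat_lit 5) (nat_lit 304) (nat_lit 301) (nat_lit 115)) (XT.lf (nat_lit 0) (nat_lit 75724670999) (nat_lit 456) (nat_lit 442799396136) (nat_lit 532) (nat_lit 11153554202) (nat_lit 29) (nat_lit 5) (nat_lit 35) (nat_lit 5) (nat_lit 36) (nat_lit 5) (nat_lit 305) (nat_lit 301) (nat_lit 114)))))) (XT.nd (nat_lit 468) (nat_lit 228) (nat_lit 0) (XT.nd (nat_lit 234) (nat_lit 380) (nat_lit 0) (XT.nd (nat_lit 78) (nat_lit 0) (nat_lit 0) (XT.lf (nat_lit 0) (nat_lit 100774411411) (nat_lit 456) (nat_lit 234185482366) (nat_lit 532) (nat_lit 217415827392) (nat_lit 29) (nat_lit 5) (nat_lit 35) (nat_lit 5) (nat_lit 36) (nat_lit 5) (nat_lit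 306) (nat_lit 301) (nat_lit 113)) (XT.nd (nat_lit 78) (nat_lit 0) (nat_lit 76) (XT.lf (nat_lit 0) (nat_lit 127828110309) (nat_lit 456) (nat_lit 8882471985) (nat_lit 532) (nat_lit 440179088518) (nat_lit 29) (nat_lit 5) (nat_lit 35) (nat_lit 5) (nat_lit 36) (nat_lit 5) (nat_lit 307) (nat_lit 301) (nat_lit 112)) (XT.lf (nat_lit 0) (nat_lit 164997000366) (nat_lit 456) (nat_lit 358115307497) (nat_lit 76) (nat_lit 79616357094) (nat_lit 30) (nat_lit 5) (nat_lit 36) (nat_lit 5) (nat_lit 31) (nat_lit 5) (nat_lit 308) (nat_lit 301) (nat_lit 111)))) (XT.nd (nat_lit 78) (nat_lit 456) (nat_lit 0) (XT.lf (nat_lit 0) (nat_lit 208939478420) (nat_lit 456) (nat_lit 115278591205) (nat_lit 76) (nat_lit 306112703008) (nat_lit 30) (nat_lit 5) (nat_lit 36) (nat_lit 5) (nat_lit 31) (nat_lit 5) (nat_lit 309) (nat_lit 301) (nat_lit 110)) (XT.nd (nat_lit 78) (nat_lit 0) (nat_lit 0) (XT.lf (nat_lit 0) (nat_lit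 154725019162) (nat_lit 456) (nat_lit 105393459259) (nat_lit 532) (nat_lit 399724880734) (nat_lit 24) (nat_lit 5) (nat_lit 30) (nat_lit 5) (nat_lit 31) (nat_lit 5) (nat_lit 310) (nat_lit 301) (nat_lit 109)) (XT.lf (nat_lit 0) (nat_lit 321774612533) (nat_lit 532) (nat_lit 241810810246) (nat_lit 76) (nat_lit 127620904814) (nat_lit 24) (nat_lit 5) (nat_lit 31) (nat_lit 5) (nat_lit 25) (nat_lit 5) (nat_lit 311) (nat_lit 301) (nat_lit 108))))) (XT.nd (nat_lit 36738) (nat_lit 0) (nat_lit 456) (XT.nd (nat_lit 78) (nat_lit 0) (nat_lit 0) (XT.lf (nat_lit 0) (nat_lit 41920865782) (nat_lit 228) (nat_lit 350188047215) (nat_lit 304) (nat_lit 332669766568) (nat_lit 21) (nat_lit 5) (nat_lit 24) (nat_lit 5) (nat_lit 25) (nat_lit 5) (nat_lit 312) (nat_lit 301) (nat_lit 107)) (XT.nd (nat_lit 78) (nat_lit 0) (nat_lit 0) (XT.lf (nat_lit 0) (nat_lit 362103056180) (nat_lit 228) (nat_lit 112578423474) (nat_lit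 304) (nat_lit 285826418374) (nat_lit 21) (nat_lit 5) (nat_lit 24) (nat_lit 5) (nat_lit 25) (nat_lit 5) (nat_lit 313) (nat_lit 301) (nat_lit 106)) (XT.lf (nat_lit 0) (nat_lit 567324003479) (nat_lit 304) (nat_lit 94659811675) (nat_lit 76) (nat_lit 136834506762) (nat_lit 21) (nat_lit 5) (nat_lit 25) (nat_lit 5) (nat_lit 22) (nat_lit 5) (nat_lit 314) (nat_lit 301) (nat_lit 105)))) (XT.nd (nat_lit 78) (nat_lit 0) (nat_lit 0) (XT.lf (nat_lit 0) (nat_lit 20406354257) (nat_lit 532) (nat_lit 111538745563) (nat_lit 532) (nat_lit 111538745563) (nat_lit 27) (nat_lit 3) (nat_lit 34) (nat_lit 3) (nat_lit 34) (nat_lit 5) (nat_lit 302) (nat_lit 302) (nat_lit 116)) (XT.nd (nat_lit 78) (nat_lit 0) (nat_lit 76) (XT.lf (nat_lit 0) (nat_lit 42445455700) (nat_lit 532) (nat_lit 30714019546) (nat_lit 532) (nat_lit 433286902131) (nat_lit 27) (nat_lit 3) (nat_lit 34) (nat_lit 3) (nat_lit 34) (nat_lit 5) (nat_lit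 303) (nat_lit 302) (nat_lit 115)) (XT.lf (nat_lit 0) (nat_lit 52001759710) (nat_lit 456) (nat_lit 344074723864) (nat_lit 532) (nat_lit 130783440570) (nat_lit 28) (nat_lit 5) (nat_lit 34) (nat_lit 5) (nat_lit 35) (nat_lit 5) (nat_lit 304) (nat_lit 302) (nat_lit 114))))))))
noncomputable def xc127 : XT := (XT.nd (nat_lit 75192) (nat_lit 0) (nat_lit 456) (XT.nd (nat_lit 37518) (nat_lit 0) (nat_lit 228) (XT.nd (nat_lit 390) (nat_lit 532) (nat_lit 0) (XT.nd (nat_lit 156) (nat_lit 0) (nat_lit 76) (XT.nd (nat_lit 78) (nat_lit 0) (nat_lit 76) (XT.lf (nat_lit 0) (nat_lit 65084380035) (nat_lit 456) (nat_lit 135650354738) (nat_lit 532) (nat_lit 347950875097) (nat_lit 28) (nat_lit 5) (nat_lit 34) (nat_lit 5) (nat_lit 35) (nat_lit 5) (nat_lit 305) (nat_lit 302) (nat_lit 113)) (XT.lf (nat_lit 0) (nat_lit 81783049436) (nat_lit 456) (nat_lit 478223026111) (nat_lit 532) (nat_lit 12045719915) (nat_lit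 29) (nat_lit 5) (nat_lit 35) (nat_lit 5) (nat_lit 36) (nat_lit 5) (nat_lit 306) (nat_lit 302) (nat_lit 112))) (XT.nd (nat_lit 78) (nat_lit 0) (nat_lit 0) (XT.lf (nat_lit 0) (nat_lit 108836739099) (nat_lit 456) (nat_lit 252920023070) (nat_lit 532) (nat_lit 234808983748) (nat_lit 29) (nat_lit 5) (nat_lit 35) (nat_lit 5) (nat_lit 36) (nat_lit 5) (nat_lit 307) (nat_lit 302) (nat_lit 111)) (XT.nd (nat_lit 78) (nat_lit 0) (nat_lit 76) (XT.lf (nat_lit 0) (nat_lit 138054706148) (nat_lit 456) (nat_lit 9592793924) (nat_lit 532) (nat_lit 475393313900) (nat_lit 29) (nat_lit 5) (nat_lit 35) (nat_lit 5) (nat_lit 36) (nat_lit 5) (nat_lit 308) (nat_lit 302) (nat_lit 110)) (XT.lf (nat_lit 0) (nat_lit 178197086753) (nat_lit 456) (nat_lit 386764233081) (nat_lit 76) (nat_lit 85985609671) (nat_lit 30) (nat_lit 5) (nat_lit 36) (nat_lit 5) (nat_lit 31) (nat_lit 5) (nat_lit 309) (nat_lit 302) (nat_lit 109)))))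 (XT.nd (nat_lit 234) (nat_lit 228) (nat_lit 0) (XT.nd (nat_lit 78) (nat_lit 456) (nat_lit 0) (XT.lf (nat_lit 0) (nat_lit 225654938876) (nat_lit 456) (nat_lit 124500601634) (nat_lit 76) (nat_lit 330601667406) (nat_lit 30) (nat_lit 5) (nat_lit 36) (nat_lit 5) (nat_lit 31) (nat_lit 5) (nat_lit 310) (nat_lit 302) (nat_lit 108)) (XT.nd (nat_lit 78) (nat_lit 0) (nat_lit 0) (XT.lf (nat_lit 0) (nat_lit 167103290553) (nat_lit 456) (nat_lit 113824952431) (nat_lit 532) (nat_lit 431702559823) (nat_lit 24) (nat_lit 5) (nat_lit 30) (nat_lit 5) (nat_lit 31) (nat_lit 5) (nat_lit 311) (nat_lit 302) (nat_lit 107)) (XT.lf (nat_lit 0) (nat_lit 347516846252) (nat_lit 532) (nat_lit 261155401608) (nat_lit 76) (nat_lit 137830562746) (nat_lit 24) (nat_lit 5) (nat_lit 31) (nat_lit 5) (nat_lit 25) (nat_lit 5) (nat_lit 312) (nat_lit 302) (nat_lit 106)))) (XT.nd (nat_lit 36738) (nat_lit 0) (nat_lit 456) (XT.lf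 (nat_lit 0) (nat_lit 45274801579) (nat_lit 228) (nat_lit 378203075976) (nat_lit 304) (nat_lit 359283074387) (nat_lit 21) (nat_lit 5) (nat_lit 24) (nat_lit 5) (nat_lit 25) (nat_lit 5) (nat_lit 313) (nat_lit 302) (nat_lit 105)) (XT.nd (nat_lit 78) (nat_lit 0) (nat_lit 0) (XT.lf (nat_lit 0) (nat_lit 22039095698) (nat_lit 532) (nat_lit 120461718400) (nat_lit 532) (nat_lit 120461718400) (nat_lit 27) (nat_lit 3) (nat_lit 34) (nat_lit 3) (nat_lit 34) (nat_lit 5) (nat_lit 303) (nat_lit 303) (nat_lit 114)) (XT.lf (nat_lit 0) (nat_lit 45841523824) (nat_lit 532) (nat_lit 33170906281) (nat_lit 532) (nat_lit 467949619473) (nat_lit 27) (nat_lit 3) (nat_lit 34) (nat_lit 3) (nat_lit 34) (nat_lit 5) (nat_lit 304) (nat_lit 303) (nat_lit 113)))))) (XT.nd (nat_lit 468) (nat_lit 304) (nat_lit 0) (XT.nd (nat_lit 234) (nat_lit 0) (nat_lit 76) (XT.nd (nat_lit 78) (nat_lit 0) (nat_lit 0) (XT.lf (nat_lit 0)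 (nat_lit 56162301443) (nat_lit 456) (nat_lit 371600433034) (nat_lit 532) (nat_lit 141245948323) (nat_lit 28) (nat_lit 5) (nat_lit 34) (nat_lit 5) (nat_lit 35) (nat_lit 5) (nat_lit 305) (nat_lit 303) (nat_lit 112)) (XT.nd (nat_lit 78) (nat_lit 0) (nat_lit 76) (XT.lf (nat_lit 0) (nat_lit 70291501694) (nat_lit 456) (nat_lit 146502134284) (nat_lit 532) (nat_lit 375786790018) (nat_lit 28) (nat_lit 5) (nat_lit 34) (nat_lit 5) (nat_lit 35) (nat_lit 5) (nat_lit 306) (nat_lit 303) (nat_lit 111)) (XT.lf (nat_lit 0) (nat_lit 88326040405) (nat_lit 456) (nat_lit 516480592381) (nat_lit 532) (nat_lit 13009275809) (nat_lit 29) (nat_lit 5) (nat_lit 35) (nat_lit 5) (nat_lit 36) (nat_lit 5) (nat_lit 307) (nat_lit 303) (nat_lit 110)))) (XT.nd (nat_lit 78) (nat_lit 0) (nat_lit 0) (XT.lf (nat_lit 0) (nat_lit 117543999536) (nat_lit 456) (nat_lit 273153369528) (nat_lit 532) (nat_lit 253593608281) (nat_lit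 29) (nat_lit 5) (nat_lit 35) (nat_lit 5) (nat_lit 36) (nat_lit 5) (nat_lit 308) (nat_lit 303) (nat_lit 109)) (XT.nd (nat_lit 78) (nat_lit 0) (nat_lit 76) (XT.lf (nat_lit 0) (nat_lit 149099380148) (nat_lit 456) (nat_lit 10359980968) (nat_lit 532) (nat_lit 513424691821) (nat_lit 29) (nat_lit 5) (nat_lit 35) (nat_lit 5) (nat_lit 36) (nat_lit 5) (nat_lit 309) (nat_lit 303) (nat_lit 108)) (XT.lf (nat_lit 0) (nat_lit 192453133492) (nat_lit 456) (nat_lit 417705115369) (nat_lit 76) (nat_lit 92864410443) (nat_lit 30) (nat_lit 5) (nat_lit 36) (nat_lit 5) (nat_lit 31) (nat_lit 5) (nat_lit 310) (nat_lit 303) (nat_lit 107))))) (XT.nd (nat_lit 36972) (nat_lit 0) (nat_lit 228) (XT.nd (nat_lit 78) (nat_lit 456) (nat_lit 0) (XT.lf (nat_lit 0) (nat_lit 243707593059) (nat_lit 456) (nat_lit 134460412396) (nat_lit 76) (nat_lit 357049756352) (nat_lit 30) (nat_lit 5) (nat_lit 36) (nat_lit 5) (nat_lit 31)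 (nat_lit 5) (nat_lit 311) (nat_lit 303) (nat_lit 106)) (XT.nd (nat_lit 78) (nat_lit 0) (nat_lit 0) (XT.lf (nat_lit 0) (nat_lit 180471785157) (nat_lit 456) (nat_lit 122930962713) (nat_lit 532) (nat_lit 466238497659) (nat_lit 24) (nat_lit 5) (nat_lit 30) (nat_lit 5) (nat_lit 31) (nat_lit 5) (nat_lit 312) (nat_lit 303) (nat_lit 105)) (XT.lf (nat_lit 0) (nat_lit 375318420904) (nat_lit 532) (nat_lit 282047599291) (nat_lit 76) (nat_lit 148856995374) (nat_lit 24) (nat_lit 5) (nat_lit 31) (nat_lit 5) (nat_lit 25) (nat_lit 5) (nat_lit 313) (nat_lit 303) (nat_lit 104)))) (XT.nd (nat_lit 78) (nat_lit 0) (nat_lit 0) (XT.lf (nat_lit 0) (nat_lit 23802423200) (nat_lit 532) (nat_lit 130098547155) (nat_lit 532) (nat_lit 130098547155) (nat_lit 27) (nat_lit 3) (nat_lit 34) (nat_lit 3) (nat_lit 34) (nat_lit 5) (nat_lit 304) (nat_lit 304) (nat_lit 112)) (XT.nd (nat_lit 78) (nat_lit 0) (nat_lit 76) (XT.lf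 (nat_lit 0) (nat_lit 49509215815) (nat_lit 532) (nat_lit 35824377455) (nat_lit 532) (nat_lit 505385387703) (nat_lit 27) (nat_lit 3) (nat_lit 34) (nat_lit 3) (nat_lit 34) (nat_lit 5) (nat_lit 305) (nat_lit 304) (nat_lit 111)) (XT.lf (nat_lit 0) (nat_lit 60655629314) (nat_lit 456) (nat_lit 401328237275) (nat_lit 532) (nat_lit 152545480590) (nat_lit 28) (nat_lit 5) (nat_lit 34) (nat_lit 5) (nat_lit 35) (nat_lit 5) (nat_lit 306) (nat_lit 304) (nat_lit 110))))))) (XT.nd (nat_lit 37752) (nat_lit 0) (nat_lit 0) (XT.nd (nat_lit 390) (nat_lit 76) (nat_lit 0) (XT.nd (nat_lit 156) (nat_lit 0) (nat_lit 76) (XT.nd (nat_lit 78) (nat_lit 0) (nat_lit 76) (XT.lf (nat_lit 0) (nat_lit 75915140122) (nat_lit 456) (nat_lit 158222091692) (nat_lit 532) (nat_lit 405849600258) (nat_lit 28) (nat_lit 5) (nat_lit 34) (nat_lit 5) (nat_lit 35) (nat_lit 5) (nat_lit 307) (nat_lit 304) (nat_lit 109)) (XT.lf (nat_lit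 0) (nat_lit 95392421146) (nat_lit 456) (nat_lit 557798803301) (nat_lit 532) (nat_lit 14049930683) (nat_lit 29) (nat_lit 5) (nat_lit 35) (nat_lit 5) (nat_lit 36) (nat_lit 5) (nat_lit 308) (nat_lit 304) (nat_lit 108))) (XT.nd (nat_lit 78) (nat_lit 0) (nat_lit 0) (XT.lf (nat_lit 0) (nat_lit 126947794970) (nat_lit 456) (nat_lit 295005420136) (nat_lit 532) (nat_lit 273881016211) (nat_lit 29) (nat_lit 5) (nat_lit 35) (nat_lit 5) (nat_lit 36) (nat_lit 5) (nat_lit 309) (nat_lit 304) (nat_lit 107)) (XT.nd (nat_lit 78) (nat_lit 0) (nat_lit 76) (XT.lf (nat_lit 0) (nat_lit 161027585625) (nat_lit 456) (nat_lit 11188576710) (nat_lit 532) (nat_lit 554498592414) (nat_lit 29) (nat_lit 5) (nat_lit 35) (nat_lit 5) (nat_lit 36) (nat_lit 5) (nat_lit 310) (nat_lit 304) (nat_lit 106)) (XT.lf (nat_lit 0) (nat_lit 207849624053) (nat_lit 456) (nat_lit 451121304813) (nat_lit 76) (nat_lit 100293522124) (nat_lit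 30) (nat_lit 5) (nat_lit 36) (nat_lit 5) (nat_lit 31) (nat_lit 5) (nat_lit 311) (nat_lit 304) (nat_lit 105))))) (XT.nd (nat_lit 37128) (nat_lit 0) (nat_lit 76) (XT.nd (nat_lit 36972) (nat_lit 228) (nat_lit 0) (XT.lf (nat_lit 0) (nat_lit 263204422617) (nat_lit 456) (nat_lit 145217041882) (nat_lit 76) (nat_lit 385613698754) (nat_lit 30) (nat_lit 5) (nat_lit 36) (nat_lit 5) (nat_lit 31) (nat_lit 5) (nat_lit 312) (nat_lit 304) (nat_lit 104)) (XT.nd (nat_lit 78) (nat_lit 0) (nat_lit 0) (XT.lf (nat_lit 0) (nat_lit 25706788392) (nat_lit 532) (nat_lit 140506337720) (nat_lit 532) (nat_lit 140506337720) (nat_lit 27) (nat_lit 3) (nat_lit 34) (nat_lit 3) (nat_lit 34) (nat_lit 5) (nat_lit 305) (nat_lit 305) (nat_lit 110)) (XT.lf (nat_lit 0) (nat_lit 53470270369) (nat_lit 532) (nat_lit 38690155046) (nat_lit 532) (nat_lit 545816046114) (nat_lit 27) (nat_lit 3) (nat_lit 34) (nat_lit 3) (nat_lit 34)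 (nat_lit 5) (nat_lit 306) (nat_lit 305) (nat_lit 109)))) (XT.nd (nat_lit 78) (nat_lit 0) (nat_lit 0) (XT.lf (nat_lit 0) (nat_lit 65508374374) (nat_lit 456) (nat_lit 433434298725) (nat_lit 532) (nat_lit 164748995925) (nat_lit 28) (nat_lit 5) (nat_lit 34) (nat_lit 5) (nat_lit 35) (nat_lit 5) (nat_lit 307) (nat_lit 305) (nat_lit 108)) (XT.nd (nat_lit 78) (nat_lit 0) (nat_lit 76) (XT.lf (nat_lit 0) (nat_lit 81988624216) (nat_lit 456) (nat_lit 170879676128) (nat_lit 532) (nat_lit 438317454286) (nat_lit 28) (nat_lit 5) (nat_lit 34) (nat_lit 5) (nat_lit 35) (nat_lit 5) (nat_lit 308) (nat_lit 305) (nat_lit 107)) (XT.lf (nat_lit 0) (nat_lit 103024069903) (nat_lit 456) (nat_lit 602422504830) (nat_lit 532) (nat_lit 15173850385) (nat_lit 29) (nat_lit 5) (nat_lit 35) (nat_lit 5) (nat_lit 36) (nat_lit 5) (nat_lit 309) (nat_lit 305) (nat_lit 106)))))) (XT.nd (nat_lit 37518) (nat_lit 0) (nat_lit 0)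 (XT.nd (nat_lit 37284) (nat_lit 0) (nat_lit 0) (XT.nd (nat_lit 78) (nat_lit 152) (nat_lit 0) (XT.lf (nat_lit 0) (nat_lit 137103854739) (nat_lit 456) (nat_lit 318605666029) (nat_lit 532) (nat_lit 295791428293) (nat_lit 29) (nat_lit 5) (nat_lit 35) (nat_lit 5) (nat_lit 36) (nat_lit 5) (nat_lit 310) (nat_lit 305) (nat_lit 105)) (XT.nd (nat_lit 37128) (nat_lit 152) (nat_lit 0) (XT.lf (nat_lit 0) (nat_lit 173910011153) (nat_lit 456) (nat_lit 12083489034) (nat_lit 532) (nat_lit 598858415719) (nat_lit 29) (nat_lit 5) (nat_lit 35) (nat_lit 5) (nat_lit 36) (nat_lit 5) (nat_lit 311) (nat_lit 305) (nat_lit 104)) (XT.lf (nat_lit 0) (nat_lit 27763478357) (nat_lit 532) (nat_lit 151746764828) (nat_lit 532) (nat_lit 151746764828) (nat_lit 27) (nat_lit 3) (nat_lit 34) (nat_lit 3) (nat_lit 34) (nat_lit 5) (nat_lit 306) (nat_lit 306) (nat_lit 108)))) (XT.nd (nat_lit 78) (nat_lit 0) (nat_lit 76) (XT.lf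 (nat_lit 0) (nat_lit 57748164023) (nat_lit 532) (nat_lit 41785219468) (nat_lit 532) (nat_lit 589481181821) (nat_lit 27) (nat_lit 3) (nat_lit 34) (nat_lit 3) (nat_lit 34) (nat_lit 5) (nat_lit 307) (nat_lit 306) (nat_lit 107)) (XT.nd (nat_lit 78) (nat_lit 0) (nat_lit 0) (XT.lf (nat_lit 0) (nat_lit 70749296995) (nat_lit 456) (nat_lit 468108873271) (nat_lit 532) (nat_lit 177928810049) (nat_lit 28) (nat_lit 5) (nat_lit 34) (nat_lit 5) (nat_lit 35) (nat_lit 5) (nat_lit 308) (nat_lit 306) (nat_lit 106)) (XT.lf (nat_lit 0) (nat_lit 88547948108) (nat_lit 456) (nat_lit 184549893411) (nat_lit 532) (nat_lit 473382752898) (nat_lit 28) (nat_lit 5) (nat_lit 34) (nat_lit 5) (nat_lit 35) (nat_lit 5) (nat_lit 309) (nat_lit 306) (nat_lit 105))))) (XT.nd (nat_lit 37440) (nat_lit 0) (nat_lit 0) (XT.nd (nat_lit 37284) (nat_lit 152) (nat_lit 0) (XT.lf (nat_lit 0) (nat_lit 111266214173) (nat_lit 456) (nat_lit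 650616131403) (nat_lit 532) (nat_lit 16387694328) (nat_lit 29) (nat_lit 5) (nat_lit 35) (nat_lit 5) (nat_lit 36) (nat_lit 5) (nat_lit 310) (nat_lit 306) (nat_lit 104)) (XT.nd (nat_lit 78) (nat_lit 0) (nat_lit 0) (XT.lf (nat_lit 0) (nat_lit 29984682562) (nat_lit 532) (nat_lit 163886437504) (nat_lit 532) (nat_lit 163886437504) (nat_lit 27) (nat_lit 3) (nat_lit 34) (nat_lit 3) (nat_lit 34) (nat_lit 5) (nat_lit 307) (nat_lit 307) (nat_lit 106)) (XT.lf (nat_lit 0) (nat_lit 62368250361) (nat_lit 532) (nat_lit 45127910154) (nat_lit 532) (nat_lit 636639549496) (nat_lit 27) (nat_lit 3) (nat_lit 34) (nat_lit 3) (nat_lit 34) (nat_lit 5) (nat_lit 308) (nat_lit 307) (nat_lit 105)))) (XT.nd (nat_lit 78) (nat_lit 76) (nat_lit 0) (XT.lf (nat_lit 0) (nat_lit 76409457379) (nat_lit 456) (nat_lit 505557437941) (nat_lit 532) (nat_lit 192163024362) (nat_lit 28) (nat_lit 5) (nat_lit 34) (nat_lit 5) (nat_lit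 35) (nat_lit 5) (nat_lit 309) (nat_lit 307) (nat_lit 104)) (XT.nd (nat_lit 37440) (nat_lit 76) (nat_lit 0) (XT.lf (nat_lit 0) (nat_lit 95631984534) (nat_lit 456) (nat_lit 199313750447) (nat_lit 532) (nat_lit 511253289341) (nat_lit 28) (nat_lit 5) (nat_lit 34) (nat_lit 5) (nat_lit 35) (nat_lit 5) (nat_lit 310) (nat_lit 307) (nat_lit 103)) (XT.lf (nat_lit 0) (nat_lit 67357910336) (nat_lit 532) (nat_lit 48738034196) (nat_lit 532) (nat_lit 687570604685) (nat_lit 27) (nat_lit 3) (nat_lit 34) (nat_lit 3) (nat_lit 34) (nat_lit 5) (nat_lit 309) (nat_lit 308) (nat_lit 103))))))))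

set_option maxRecDepth 10000000 in
noncomputable def Tp : PT := (PT.nd (nat_lit 4586088) (PT.nd (nat_lit 4361682) (PT.nd (nat_lit 4174248) pc0 pc1) (PT.nd (nat_lit 112554) pc2 pc3)) (PT.nd (nat_lit 113256) (PT.nd (nat_lit 74802) pc4 pc5) (PT.nd (nat_lit 73866) pc6 pc7)))

set_option maxRecDepth 10000000 in
noncomputable def Tx : XT := (XT.nd (nat_lit 7229664) (nat_lit 0) (nat_lit 76) XT.nil (XT.nd (nat_lit 4350060) (nat_lit 0) (nat_lit 0) (XT.nd (nat_lit 2059278) (nat_lit 0) (nat_lit 0) (XT.nd (nat_lit 1423032) (nat_lit 0) (nat_lit 0) (XT.nd (nat_lit 1009554) (nat_lit 0) (nat_lit 0) (XT.nd (nat_lit 710346) (nat_lit 0) (nat_lit 0) (XT.nd (nat_lit 486798) (nat_lit 0) (nat_lit 0) (XT.nd (nat_lit 337038) (nat_lit 0) (nat_lit 0) (XT.nd (nat_lit 224874) (nat_lit 0) (nat_lit 0) xc0 xc1) (XT.nd (nat_lit 75192) (nat_lit 0) (nat_lit 0) xc2 xc3)) (XT.nd (nat_lit 112476) (nat_lit 0) (nat_lit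 0) (XT.nd (nat_lit 73944) (nat_lit 0) (nat_lit 0) xc4 xc5) (XT.nd (nat_lit 38376) (nat_lit 0) (nat_lit 0) xc6 xc7))) (XT.nd (nat_lit 150696) (nat_lit 0) (nat_lit 0) (XT.nd (nat_lit 75660) (nat_lit 0) (nat_lit 0) (XT.nd (nat_lit 37908) (nat_lit 0) (nat_lit 0) xc8 xc9) (XT.nd (nat_lit 37596) (nat_lit 0) (nat_lit 0) xc10 xc11)) (XT.nd (nat_lit 74568) (nat_lit 0) (nat_lit 0) (XT.nd (nat_lit 37362) (nat_lit 0) (nat_lit 0) xc12 xc13) (XT.nd (nat_lit 37050) (nat_lit 0) (nat_lit 0) xc14 xc15)))) (XT.nd (nat_lit 225264) (nat_lit 0) (nat_lit 0) (XT.nd (nat_lit 113334) (nat_lit 0) (nat_lit 0) (XT.nd (nat_lit 40326) (nat_lit 0) (nat_lit 0) (XT.nd (nat_lit 36738) (nat_lit 0) (nat_lit 0) xc16 xc17) (XT.nd (nat_lit 36582) (nat_lit 0) (nat_lit 0) xc18 xc19)) (XT.nd (nat_lit 39858) (nat_lit 0) (nat_lit 0) (XT.nd (nat_lit 36270) (nat_lit 0) (nat_lit 0) xc20 xc21) (XT.nd (nat_lit 36114) (nat_lit 0) (nat_lit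 0) xc22 xc23))) (XT.nd (nat_lit 110526) (nat_lit 0) (nat_lit 0) (XT.nd (nat_lit 39390) (nat_lit 0) (nat_lit 0) (XT.nd (nat_lit 35802) (nat_lit 0) (nat_lit 0) xc24 xc25) (XT.nd (nat_lit 35646) (nat_lit 0) (nat_lit 0) xc26 xc27)) (XT.nd (nat_lit 38922) (nat_lit 0) (nat_lit 0) (XT.nd (nat_lit 3588) (nat_lit 0) (nat_lit 0) xc28 xc29) (XT.nd (nat_lit 3588) (nat_lit 0) (nat_lit 0) xc30 xc31))))) (XT.nd (nat_lit 335322) (nat_lit 0) (nat_lit 0) (XT.nd (nat_lit 184626) (nat_lit 0) (nat_lit 0) (XT.nd (nat_lit 77142) (nat_lit 0) (nat_lit 0) (XT.nd (nat_lit 38610) (nat_lit 0) (nat_lit 0) (XT.nd (nat_lit 35022) (nat_lit 0) (nat_lit 0) xc32 xc33) (XT.nd (nat_lit 34944) (nat_lit 0) (nat_lit 0) xc34 xc35)) (XT.nd (nat_lit 69420) (nat_lit 0) (nat_lit 0) (XT.nd (nat_lit 34788) (nat_lit 0) (nat_lit 0) xc36 xc37) (XT.nd (nat_lit 3588) (nat_lit 0) (nat_lit 0) xc38 xc39))) (XT.nd (nat_lit 75660) (nat_lit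 0) (nat_lit 0) (XT.nd (nat_lit 37908) (nat_lit 0) (nat_lit 0) (XT.nd (nat_lit 3588) (nat_lit 0) (nat_lit 0) xc40 xc41) (XT.nd (nat_lit 3588) (nat_lit 0) (nat_lit 0) xc42 xc43)) (XT.nd (nat_lit 37596) (nat_lit 0) (nat_lit 0) (XT.nd (nat_lit 3588) (nat_lit 0) (nat_lit 0) xc44 xc45) (XT.nd (nat_lit 3588) (nat_lit 0) (nat_lit 0) xc46 xc47)))) (XT.nd (nat_lit 149760) (nat_lit 0) (nat_lit 0) (XT.nd (nat_lit 74646) (nat_lit 0) (nat_lit 0) (XT.nd (nat_lit 37284) (nat_lit 0) (nat_lit 0) (XT.nd (nat_lit 3588) (nat_lit 0) (nat_lit 0) xc48 xc49) (XT.nd (nat_lit 3588) (nat_lit 0) (nat_lit 0) xc50 xc51)) (XT.nd (nat_lit 37518) (nat_lit 0) (nat_lit 0) (XT.nd (nat_lit 3588) (nat_lit 0) (nat_lit 0) xc52 xc53) (XT.nd (nat_lit 3588) (nat_lit 0) (nat_lit 0) xc54 xc55))) (XT.nd (nat_lit 75426) (nat_lit 0) (nat_lit 0) (XT.nd (nat_lit 37674) (nat_lit 0) (nat_lit 0) (XT.nd (nat_lit 3588) (nat_lit 0) (nat_lit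 0) xc56 xc57) (XT.nd (nat_lit 3588) (nat_lit 0) (nat_lit 0) xc58 xc59)) (XT.nd (nat_lit 37830) (nat_lit 0) (nat_lit 0) (XT.nd (nat_lit 3588) (nat_lit 0) (nat_lit 0) xc60 xc61) (XT.nd (nat_lit 3588) (nat_lit 0) (nat_lit 0) xc62 xc63)))))) (XT.nd (nat_lit 716040) (nat_lit 0) (nat_lit 0) (XT.nd (nat_lit 338052) (nat_lit 0) (nat_lit 0) (XT.nd (nat_lit 152490) (nat_lit 0) (nat_lit 0) (XT.nd (nat_lit 75972) (nat_lit 0) (nat_lit 0) (XT.nd (nat_lit 37908) (nat_lit 0) (nat_lit 0) (XT.nd (nat_lit 3510) (nat_lit 0) (nat_lit 0) xc64 xc65) (XT.nd (nat_lit 3588) (nat_lit 0) (nat_lit 0) xc66 xc67)) (XT.nd (nat_lit 38220) (nat_lit 0) (nat_lit 0) (XT.nd (nat_lit 34632) (nat_lit 0) (nat_lit 152) xc68 xc69) (XT.nd (nat_lit 34710) (nat_lit 0) (nat_lit 0) xc70 xc71))) (XT.nd (nat_lit 108186) (nat_lit 0) (nat_lit 0) (XT.nd (nat_lit 38376) (nat_lit 0) (nat_lit 0) (XT.nd (nat_lit 34788) (nat_lit 0) (nat_lit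 0) xc72 xc73) (XT.nd (nat_lit 34866) (nat_lit 0) (nat_lit 0) xc74 xc75)) (XT.nd (nat_lit 38610) (nat_lit 0) (nat_lit 0) (XT.nd (nat_lit 3588) (nat_lit 152) (nat_lit 0) xc76 xc77) (XT.nd (nat_lit 3588) (nat_lit 0) (nat_lit 0) xc78 xc79)))) (XT.nd (nat_lit 187824) (nat_lit 0) (nat_lit 0) (XT.nd (nat_lit 77766) (nat_lit 0) (nat_lit 0) (XT.nd (nat_lit 38844) (nat_lit 0) (nat_lit 0) (XT.nd (nat_lit 35256) (nat_lit 0) (nat_lit 152) xc80 xc81) (XT.nd (nat_lit 35334) (nat_lit 0) (nat_lit 0) xc82 xc83)) (XT.nd (nat_lit 70902) (nat_lit 0) (nat_lit 0) (XT.nd (nat_lit 35412) (nat_lit 0) (nat_lit 0) xc84 xc85) (XT.nd (nat_lit 3588) (nat_lit 76) (nat_lit 0) xc86 xc87))) (XT.nd (nat_lit 110994) (nat_lit 0) (nat_lit 0) (XT.nd (nat_lit 39312) (nat_lit 0) (nat_lit 0) (XT.nd (nat_lit 35724) (nat_lit 0) (nat_lit 152) xc88 xc89) (XT.nd (nat_lit 35802) (nat_lit 0) (nat_lit 0) xc90 xc91)) (XT.nd (nat_lit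 39546) (nat_lit 0) (nat_lit 0) (XT.nd (nat_lit 3588) (nat_lit 152) (nat_lit 0) xc92 xc93) (XT.nd (nat_lit 36036) (nat_lit 0) (nat_lit 76) xc94 xc95))))) (XT.nd (nat_lit 522054) (nat_lit 0) (nat_lit 152) (XT.nd (nat_lit 225498) (nat_lit 0) (nat_lit 76) (XT.nd (nat_lit 112320) (nat_lit 0) (nat_lit 0) (XT.nd (nat_lit 72384) (nat_lit 0) (nat_lit 0) (XT.nd (nat_lit 36114) (nat_lit 0) (nat_lit 0) xc96 xc97) (XT.nd (nat_lit 36348) (nat_lit 0) (nat_lit 152) xc98 xc99)) (XT.nd (nat_lit 72930) (nat_lit 0) (nat_lit 0) (XT.nd (nat_lit 36426) (nat_lit 0) (nat_lit 0) xc100 xc101) (XT.nd (nat_lit 36660) (nat_lit 0) (nat_lit 76) xc102 xc103))) (XT.nd (nat_lit 147498) (nat_lit 0) (nat_lit 76) (XT.nd (nat_lit 73554) (nat_lit 0) (nat_lit 0) (XT.nd (nat_lit 36738) (nat_lit 0) (nat_lit 0) xc104 xc105) (XT.nd (nat_lit 36894) (nat_lit 0) (nat_lit 76) xc106 xc107)) (XT.nd (nat_lit 74334) (nat_lit 0) (nat_lit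 0) (XT.nd (nat_lit 37128) (nat_lit 0) (nat_lit 0) xc108 xc109) (XT.nd (nat_lit 37284) (nat_lit 0) (nat_lit 0) xc110 xc111)))) (XT.nd (nat_lit 302952) (nat_lit 0) (nat_lit 228) (XT.nd (nat_lit 150618) (nat_lit 0) (nat_lit 76) (XT.nd (nat_lit 75114) (nat_lit 0) (nat_lit 76) (XT.nd (nat_lit 37518) (nat_lit 0) (nat_lit 76) xc112 xc113) (XT.nd (nat_lit 37674) (nat_lit 0) (nat_lit 0) xc114 xc115)) (XT.nd (nat_lit 75972) (nat_lit 0) (nat_lit 76) (XT.nd (nat_lit 37908) (nat_lit 0) (nat_lit 76) xc116 xc117) (XT.nd (nat_lit 38142) (nat_lit 0) (nat_lit 0) xc118 xc119))) (XT.nd (nat_lit 225186) (nat_lit 0) (nat_lit 380) (XT.nd (nat_lit 112008) (nat_lit 0) (nat_lit 76) (XT.nd (nat_lit 73398) (nat_lit 0) (nat_lit 76) xc120 xc121) (XT.nd (nat_lit 74100) (nat_lit 0) (nat_lit 228) xc122 xc123)) (XT.nd (nat_lit 186420) (nat_lit 0) (nat_lit 380) (XT.nd (nat_lit 74880) (nat_lit 0) (nat_lit 228) xc124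 xc125) (XT.nd (nat_lit 112632) (nat_lit 0) (nat_lit 380) xc126 xc127))))))) XT.nil))

set_option maxRecDepth 10000000 in
noncomputable def Te : XT := XT.nil

set_option maxRecDepth 10000000 in
noncomputable def Tz : ZL := (ZL.cons (nat_lit 76) (nat_lit 6) (nat_lit 161949193601428196370) (ZL.cons (nat_lit 152) (nat_lit 6) (nat_lit 157170105162382593364) (ZL.cons (nat_lit 228) (nat_lit 3) (nat_lit 78366533311512146131) (ZL.cons (nat_lit 304) (nat_lit 6) (nat_lit 152008689648213342118) (ZL.cons (nat_lit 380) (nat_lit 6) (nat_lit 147748066368996466234) (ZL.cons (nat_lit 456) (nat_lit 3) (nat_lit 73671700527387908532) (ZL.cons (nat_lit 532) (nat_lit 6) (nat_lit 143146593227442240276) (ZL.cons (nat_lit 608) (nat_lit 6) (nat_lit 139393396193902486856) (ZL.cons (nat_lit 684) (nat_lit 3) (nat_lit 69509353044071313258) (ZL.cons (nat_lit 760) (nat_lit 6) (nat_lit 136061568786550395298) (ZL.cons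 (nat_lit 836) (nat_lit 6) (nat_lit 135339943397679553162) (ZL.cons (nat_lit 912) (nat_lit 6) (nat_lit 132088505080850276076) (ZL.cons (nat_lit 988) (nat_lit 3) (nat_lit 65870784898869647140) (ZL.cons (nat_lit 1064) (nat_lit 6) (nat_lit 129245123355036547696) (ZL.cons (nat_lit 1140) (nat_lit 6) (nat_lit 128576951698674656826) (ZL.cons (nat_lit 1216) (nat_lit 6) (nat_lit 126792948550752064442) (ZL.cons (nat_lit 1292) (nat_lit 6) (nat_lit 125827335808046739248) (ZL.cons (nat_lit 1368) (nat_lit 3) (nat_lit 62753049717397915087) (ZL.cons (nat_lit 1444) (nat_lit 6) (nat_lit 123476428105762931658) (ZL.cons (nat_lit 1520) (nat_lit 6) (nat_lit 122857750646168588260) (ZL.cons (nat_lit 1596) (nat_lit 6) (nat_lit 121510297286920811494) (ZL.cons (nat_lit 1672) (nat_lit 6) (nat_lit 120616211414045510388) (ZL.cons (nat_lit 1748) (nat_lit 3) (nat_lit 60159385163851038032) (ZL.cons (nat_lit 1824) (nat_lit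 6) (nat_lit 119917292205927240270) (ZL.cons (nat_lit 1900) (nat_lit 6) (nat_lit 118768198542976978320) (ZL.cons (nat_lit 1976) (nat_lit 6) (nat_lit 118195349043352586288) (ZL.cons (nat_lit 2052) (nat_lit 3) (nat_lit 58559904887605864442) (ZL.cons (nat_lit 2128) (nat_lit 6) (nat_lit 117293363792249457920) (ZL.cons (nat_lit 2204) (nat_lit 6) (nat_lit 117815054311611757506) (ZL.cons (nat_lit 2280) (nat_lit 6) (nat_lit 118687972832672626450) (ZL.cons (nat_lit 2356) (nat_lit 6) (nat_lit 117302760845578882240) (ZL.cons (nat_lit 2432) (nat_lit 6) (nat_lit 116474903555879529364) (ZL.cons (nat_lit 2508) (nat_lit 3) (nat_lit 58099747571299285828) (ZL.cons (nat_lit 2584) (nat_lit 6) (nat_lit 115126097966333798438) (ZL.cons (nat_lit 2660) (nat_lit 6) (nat_lit 115487090321772274838) (ZL.cons (nat_lit 2736) (nat_lit 6) (nat_lit 116211214246607381574) (ZL.cons (nat_lit 2812) (nat_lit 6) (nat_lit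 115147238632764546438) (ZL.cons (nat_lit 2888) (nat_lit 6) (nat_lit 114616822429408627886) (ZL.cons (nat_lit 2964) (nat_lit 3) (nat_lit 56726811265353388533) (ZL.cons (nat_lit 3040) (nat_lit 6) (nat_lit 113641060869107524430) (ZL.cons (nat_lit 3116) (nat_lit 6) (nat_lit 114204486630018807980) (ZL.cons (nat_lit 3192) (nat_lit 6) (nat_lit 113437952102519407168) (ZL.cons (nat_lit 3268) (nat_lit 3) (nat_lit 56591472156222223162) (ZL.cons (nat_lit 3344) (nat_lit 6) (nat_lit 112266026519823937382) (ZL.cons (nat_lit 3420) (nat_lit 6) (nat_lit 112655898263697491896) (ZL.cons (nat_lit 3496) (nat_lit 6) (nat_lit 112164772149479048792) (ZL.cons (nat_lit 3572) (nat_lit 3) (nat_lit 55676919461111027703) (ZL.cons (nat_lit 3648) (nat_lit 6) (nat_lit 111556272327694862556) (ZL.cons (nat_lit 3724) (nat_lit 3) (nat_lit 55660077001775690148) (ZL.cons (nat_lit 3800) (nat_lit 6) (nat_lit 110899092520167941424)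 (ZL.cons (nat_lit 3876) (nat_lit 1) (nat_lit 18446744073709551617) ZL.nil)))))))))))))))))))))))))))))))))))))))))))))))))))

noncomputable def vl : XL := ⟨(nat_lit 0), (nat_lit 76), (nat_lit 334104732), (nat_lit 228), (nat_lit 67798454), (nat_lit 76), (nat_lit 334104732), (nat_lit 1), (nat_lit 5), (nat_lit 3), (nat_lit 4), (nat_lit 1), (nat_lit 4), (nat_lit 0), (nat_lit 0), (nat_lit 0)⟩

noncomputable def cp0 : Nat := (nat_lit 93273145387987066341788647130379743917063658215425591763964170901756019339061523499753654545595455322924907108499098383463951680149615294040455286707435811011716531866536393597355523965726831350798688665726785380794975289091286500696390843806411097220097571483002794612848961601576426349808342351323143652095003285033764617372236954611259715048948914406588487141892479777271402730323781795372668791314507667341831143214689138045969267354198660071404853552931571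8677031825648188407861245705278947104519719378809175152449165116042275735125330393278462065568945139653737575510025240813310712652106785022370493856548987539167352315635415789388275253126508432756027098250545139592130045209047873503571374671313685628121855459233879576315761192144934742621051250944988373139414629890964485763690125264244322781679953922240761572961153334663174450197601022712726772835315669882467759087429350483041568547275075375902682033748907282463129855047450097645474837176469847897480193138014568696552096703725615541587223185013093591442697808390235780812050737114038340673298181688677948242724597259449027124251871407955423785755535876791369934303852747201760490605287712819189936951278558337929576448)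

noncomputable def cp1 : Nat := (nat_lit 1212796259699616378511230894592110413832194807971768881654182616427804148376868291291836787877968843688572836581713689547927853434021204904090717440341304945510017496365810779273696256733040144879874757391103252173380284716600701240007891440432232440984319895658038637889350122708886843515141876007779664255608722757059181422725896006008168477622608627849201193513403291066800672216431545571576340147342021776656587057518720455625441728531769908833134332689622502128087862291066428993651287218704975880681225192559109570694531603798121914988725624960357822166843435498908358243487906488400171687376366685786281839593350616096847481139759572651231665829561079207020438242467870974670273461176795792920099767664149019982009539273878855488634872694911726020511505301085589543263646879512495443810522170077841218888754568904072585667193187216747672984914507104842812921551875096513463462355704648229982930578982699957175011675297819750172787478496902944180644296099867319162443935725255726010327760983649108488145894039087397143315569516449413205901116676085277077862575082725586103797606381426124557350975791929437240515685458040882983070680199037516616503445990139589830805237645178830848)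

noncomputable def rc0 : Nat := (nat_lit 1212796259699616378511230894592110413832194807971768881654182616427804148376868291291836787877968843688572836581713689547927853434021204904090717440341304945510017496365810779273696256733040144879874757391103252173380284716600701240007891440432232440984319895658038637889350122708886843515141876007779664255608722757059181422725896006008168477622608627849201193513403291066800672216431545571576340147342021776656587057518720455625441728531769908833134332689622502128087862291066428993651287218704975880681225192559109570694531603798121914988725624960357822166843435498908358243487906488400171687376366685786281839593350616096847481139759572651231665829561079207020438242467870974670273461176795792920099767664149019982009539273878855488634872694911726020511505301085589543263646879512495443810522170077841218888754568904072585667193187216747672984914507104842812921551875096513463462355704648229982930578982699957175011675297819750172787478496902944180644296099867319162443935725255726010327760983649108488145894039087397143315569516449413205901116676085277077862575082725586103797606381426124557350975791929437240515685458040882983070680199037516616503445990139589830805237645178830848)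

end Vale.Agent.Lib.P154.PChain.BW.S2
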