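import Vale.Agent.Lib.P154.PChain.BW.R2_0

set_option linter.all false

namespace Vale.Agent.Lib.P154.PChain.BW.S3

open Vale.Agent.Lib.P154.Chain

noncomputable def pc0 : PT := (PT.nd (nat_lit 4024254) (PT.nd (nat_lit 3911856) (PT.nd (nat_lit 3836976) (PT.nd (nat_lit 3836820) (PT.nd (nat_lit 3799458) (PT.nd (nat_lit 3799380) PT.nil (PT.lf (nat_lit 76) (nat_lit 6) (nat_lit 1) (nat_lit 3) (nat_lit 129) (nat_lit 101) (nat_lit 130))) (PT.lf (nat_lit 76) (nat_lit 6) (nat_lit 1) (nat_lit 1) (nat_lit 130) (nat_lit 101) (nat_lit 129))) (PT.nd (nat_lit 78) (PT.lf (nat_lit 152) (nat_lit 6) (nat_lit 2) (nat_lit 3) (nat_lit 128) (nat_lit 102) (nat_lit 130)) (PT.lf (nat_lit 228) (nat_lit 3) (nat_lit 3) (nat_lit 1) (nat_lit 129) (nat_lit 102) (nat_lit 129)))) (PT.nd (nat_lit 37440) (PT.nd (nat_lit 37362) (PT.lf (nat_lit 152) (nat_lit 6) (nat_lit 2) (nat_lit 1) (nat_lit 130) (nat_lit 102) (nat_lit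 128)) (PT.lf (nat_lit 304) (nat_lit 6) (nat_lit 4) (nat_lit 3) (nat_lit 128) (nat_lit 103) (nat_lit 129))) (PT.nd (nat_lit 37362) (PT.lf (nat_lit 304) (nat_lit 6) (nat_lit 4) (nat_lit 1) (nat_lit 129) (nat_lit 103) (nat_lit 128)) (PT.lf (nat_lit 380) (nat_lit 6) (nat_lit 5) (nat_lit 3) (nat_lit 127) (nat_lit 104) (nat_lit 129))))) (PT.nd (nat_lit 74880) (PT.nd (nat_lit 37440) (PT.nd (nat_lit 78) (PT.lf (nat_lit 456) (nat_lit 3) (nat_lit 6) (nat_lit 1) (nat_lit 128) (nat_lit 104) (nat_lit 128)) (PT.lf (nat_lit 380) (nat_lit 6) (nat_lit 5) (nat_lit 1) (nat_lit 129) (nat_lit 104) (nat_lit 127))) (PT.nd (nat_lit 78) (PT.lf (nat_lit 532) (nat_lit 6) (nat_lit 7) (nat_lit 3) (nat_lit 127) (nat_lit 105) (nat_lit 128)) (PT.lf (nat_lit 532) (nat_lit 6) (nat_lit 7) (nat_lit 1) (nat_lit 128) (nat_lit 105) (nat_lit 127)))) (PT.nd (nat_lit 156) (PT.nd (nat_lit 78) (PT.lf (nat_lit 608) (nat_lit 6)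 (nat_lit 8) (nat_lit 3) (nat_lit 126) (nat_lit 106) (nat_lit 128)) (PT.lf (nat_lit 684) (nat_lit 3) (nat_lit 9) (nat_lit 1) (nat_lit 127) (nat_lit 106) (nat_lit 127))) (PT.nd (nat_lit 37284) (PT.lf (nat_lit 608) (nat_lit 6) (nat_lit 8) (nat_lit 1) (nat_lit 128) (nat_lit 106) (nat_lit 126)) (PT.lf (nat_lit 760) (nat_lit 6) (nat_lit 10) (nat_lit 3) (nat_lit 125) (nat_lit 107) (nat_lit 128)))))) (PT.nd (nat_lit 75036) (PT.nd (nat_lit 37518) (PT.nd (nat_lit 156) (PT.nd (nat_lit 78) (PT.lf (nat_lit 836) (nat_lit 6) (nat_lit 11) (nat_lit 3) (nat_lit 126) (nat_lit 107) (nat_lit 127)) (PT.lf (nat_lit 836) (nat_lit 6) (nat_lit 11) (nat_lit 1) (nat_lit 127) (nat_lit 107) (nat_lit 126))) (PT.nd (nat_lit 37284) (PT.lf (nat_lit 760) (nat_lit 6) (nat_lit 10) (nat_lit 1) (nat_lit 128) (nat_lit 107) (nat_lit 125)) (PT.lf (nat_lit 912) (nat_lit 6) (nat_lit 12) (nat_lit 3) (nat_lit 125) (nat_lit 108)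 (nat_lit 127)))) (PT.nd (nat_lit 37362) (PT.nd (nat_lit 78) (PT.lf (nat_lit 988) (nat_lit 3) (nat_lit 13) (nat_lit 1) (nat_lit 126) (nat_lit 108) (nat_lit 126)) (PT.lf (nat_lit 912) (nat_lit 6) (nat_lit 12) (nat_lit 1) (nat_lit 127) (nat_lit 108) (nat_lit 125))) (PT.nd (nat_lit 78) (PT.lf (nat_lit 1064) (nat_lit 6) (nat_lit 14) (nat_lit 3) (nat_lit 124) (nat_lit 109) (nat_lit 127)) (PT.lf (nat_lit 1140) (nat_lit 6) (nat_lit 15) (nat_lit 3) (nat_lit 125) (nat_lit 109) (nat_lit 126))))) (PT.nd (nat_lit 37440) (PT.nd (nat_lit 37284) (PT.nd (nat_lit 78) (PT.lf (nat_lit 1140) (nat_lit 6) (nat_lit 15) (nat_lit 1) (nat_lit 126) (nat_lit 109) (nat_lit 125)) (PT.lf (nat_lit 1064) (nat_lit 6) (nat_lit 14) (nat_lit 1) (nat_lit 127) (nat_lit 109) (nat_lit 124))) (PT.nd (nat_lit 78) (PT.lf (nat_lit 1216) (nat_lit 6) (nat_lit 16) (nat_lit 3) (nat_lit 123) (nat_lit 110) (nat_lit 127)) (PT.lf (nat_lit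 1292) (nat_lit 6) (nat_lit 17) (nat_lit 3) (nat_lit 124) (nat_lit 110) (nat_lit 126)))) (PT.nd (nat_lit 156) (PT.nd (nat_lit 78) (PT.lf (nat_lit 1368) (nat_lit 3) (nat_lit 18) (nat_lit 1) (nat_lit 125) (nat_lit 110) (nat_lit 125)) (PT.lf (nat_lit 1292) (nat_lit 6) (nat_lit 17) (nat_lit 1) (nat_lit 126) (nat_lit 110) (nat_lit 124))) (PT.nd (nat_lit 37206) (PT.lf (nat_lit 1216) (nat_lit 6) (nat_lit 16) (nat_lit 1) (nat_lit 127) (nat_lit 110) (nat_lit 123)) (PT.nd (nat_lit 78) (PT.lf (nat_lit 1444) (nat_lit 6) (nat_lit 19) (nat_lit 3) (nat_lit 123) (nat_lit 111) (nat_lit 126)) (PT.lf (nat_lit 1520) (nat_lit 6) (nat_lit 20) (nat_lit 3) (nat_lit 124) (nat_lit 111) (nat_lit 125))))))))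
noncomputable def pc1 : PT := (PT.nd (nat_lit 112398) (PT.nd (nat_lit 74802) (PT.nd (nat_lit 37440) (PT.nd (nat_lit 37284) (PT.nd (nat_lit 78) (PT.lf (nat_lit 1520) (nat_lit 6) (nat_lit 20) (nat_lit 1) (nat_lit 125) (nat_lit 111) (nat_lit 124)) (PT.lf (nat_lit 1444) (nat_lit 6) (nat_lit 19) (nat_lit 1) (nat_lit 126) (nat_lit 111) (nat_lit 123))) (PT.nd (nat_lit 78) (PT.lf (nat_lit 1596) (nat_lit 6) (nat_lit 21) (nat_lit 3) (nat_lit 122) (nat_lit 112) (nat_lit 126)) (PT.lf (nat_lit 1672) (nat_lit 6) (nat_lit 22) (nat_lit 3) (nat_lit 123) (nat_lit 112) (nat_lit 125)))) (PT.nd (nat_lit 156) (PT.nd (nat_lit 78) (PT.lf (nat_lit 1748) (nat_lit 3) (nat_lit 23) (nat_lit 1) (nat_lit 124) (nat_lit 112) (nat_lit 124)) (PT.lf (nat_lit 1672) (nat_lit 6) (nat_lit 22) (nat_lit 1) (nat_lit 125) (nat_lit 112) (nat_lit 123))) (PT.nd (nat_lit 37128) (PT.lf (nat_lit 1596) (nat_lit 6) (nat_lit 21) (nat_lit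 1) (nat_lit 126) (nat_lit 112) (nat_lit 122)) (PT.lf (nat_lit 1824) (nat_lit 6) (nat_lit 24) (nat_lit 3) (nat_lit 121) (nat_lit 113) (nat_lit 126))))) (PT.nd (nat_lit 312) (PT.nd (nat_lit 156) (PT.nd (nat_lit 78) (PT.lf (nat_lit 1900) (nat_lit 6) (nat_lit 25) (nat_lit 3) (nat_lit 122) (nat_lit 113) (nat_lit 125)) (PT.lf (nat_lit 1976) (nat_lit 6) (nat_lit 26) (nat_lit 3) (nat_lit 123) (nat_lit 113) (nat_lit 124))) (PT.nd (nat_lit 78) (PT.lf (nat_lit 1976) (nat_lit 6) (nat_lit 26) (nat_lit 1) (nat_lit 124) (nat_lit 113) (nat_lit 123)) (PT.lf (nat_lit 1900) (nat_lit 6) (nat_lit 25) (nat_lit 1) (nat_lit 125) (nat_lit 113) (nat_lit 122)))) (PT.nd (nat_lit 37128) (PT.nd (nat_lit 37050) (PT.lf (nat_lit 1824) (nat_lit 6) (nat_lit 24) (nat_lit 1) (nat_lit 126) (nat_lit 113) (nat_lit 121)) (PT.lf (nat_lit 2280) (nat_lit 6) (nat_lit 30) (nat_lit 3) (nat_lit 120) (nat_lit 114) (nat_lit 126))) (PT.nd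 (nat_lit 78) (PT.lf (nat_lit 2356) (nat_lit 6) (nat_lit 31) (nat_lit 3) (nat_lit 121) (nat_lit 114) (nat_lit 125)) (PT.lf (nat_lit 2432) (nat_lit 6) (nat_lit 32) (nat_lit 3) (nat_lit 122) (nat_lit 114) (nat_lit 124)))))) (PT.nd (nat_lit 37518) (PT.nd (nat_lit 37206) (PT.nd (nat_lit 156) (PT.nd (nat_lit 78) (PT.lf (nat_lit 2508) (nat_lit 3) (nat_lit 33) (nat_lit 1) (nat_lit 123) (nat_lit 114) (nat_lit 123)) (PT.lf (nat_lit 2432) (nat_lit 6) (nat_lit 32) (nat_lit 1) (nat_lit 124) (nat_lit 114) (nat_lit 122))) (PT.nd (nat_lit 78) (PT.lf (nat_lit 2356) (nat_lit 6) (nat_lit 31) (nat_lit 1) (nat_lit 125) (nat_lit 114) (nat_lit 121)) (PT.lf (nat_lit 2280) (nat_lit 6) (nat_lit 30) (nat_lit 1) (nat_lit 126) (nat_lit 114) (nat_lit 120)))) (PT.nd (nat_lit 156) (PT.nd (nat_lit 78) (PT.lf (nat_lit 2204) (nat_lit 6) (nat_lit 29) (nat_lit 3) (nat_lit 119) (nat_lit 115) (nat_lit 126)) (PT.lf (nat_lit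 2736) (nat_lit 6) (nat_lit 36) (nat_lit 3) (nat_lit 120) (nat_lit 115) (nat_lit 125))) (PT.nd (nat_lit 78) (PT.lf (nat_lit 2812) (nat_lit 6) (nat_lit 37) (nat_lit 3) (nat_lit 121) (nat_lit 115) (nat_lit 124)) (PT.lf (nat_lit 2888) (nat_lit 6) (nat_lit 38) (nat_lit 3) (nat_lit 122) (nat_lit 115) (nat_lit 123))))) (PT.nd (nat_lit 37128) (PT.nd (nat_lit 156) (PT.nd (nat_lit 78) (PT.lf (nat_lit 2888) (nat_lit 6) (nat_lit 38) (nat_lit 1) (nat_lit 123) (nat_lit 115) (nat_lit 122)) (PT.lf (nat_lit 2812) (nat_lit 6) (nat_lit 37) (nat_lit 1) (nat_lit 124) (nat_lit 115) (nat_lit 121))) (PT.nd (nat_lit 78) (PT.lf (nat_lit 2736) (nat_lit 6) (nat_lit 36) (nat_lit 1) (nat_lit 125) (nat_lit 115) (nat_lit 120)) (PT.lf (nat_lit 2204) (nat_lit 6) (nat_lit 29) (nat_lit 1) (nat_lit 126) (nat_lit 115) (nat_lit 119)))) (PT.nd (nat_lit 156) (PT.nd (nat_lit 78) (PT.lf (nat_lit 2128) (nat_lit 6) (nat_lit 28)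 (nat_lit 3) (nat_lit 118) (nat_lit 116) (nat_lit 126)) (PT.lf (nat_lit 2660) (nat_lit 6) (nat_lit 35) (nat_lit 3) (nat_lit 119) (nat_lit 116) (nat_lit 125))) (PT.nd (nat_lit 78) (PT.lf (nat_lit 3116) (nat_lit 6) (nat_lit 41) (nat_lit 3) (nat_lit 120) (nat_lit 116) (nat_lit 124)) (PT.nd (nat_lit 78) (PT.lf (nat_lit 3192) (nat_lit 6) (nat_lit 42) (nat_lit 3) (nat_lit 121) (nat_lit 116) (nat_lit 123)) (PT.lf (nat_lit 3268) (nat_lit 3) (nat_lit 43) (nat_lit 1) (nat_lit 122) (nat_lit 116) (nat_lit 122))))))))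
noncomputable def pc2 : PT := (PT.nd (nat_lit 74646) (PT.nd (nat_lit 37362) (PT.nd (nat_lit 37050) (PT.nd (nat_lit 156) (PT.nd (nat_lit 78) (PT.lf (nat_lit 3192) (nat_lit 6) (nat_lit 42) (nat_lit 1) (nat_lit 123) (nat_lit 116) (nat_lit 121)) (PT.lf (nat_lit 3116) (nat_lit 6) (nat_lit 41) (nat_lit 1) (nat_lit 124) (nat_lit 116) (nat_lit 120))) (PT.nd (nat_lit 78) (PT.lf (nat_lit 2660) (nat_lit 6) (nat_lit 35) (nat_lit 1) (nat_lit 125) (nat_lit 116) (nat_lit 119)) (PT.lf (nat_lit 2128) (nat_lit 6) (nat_lit 28) (nat_lit 1) (nat_lit 126) (nat_lit 116) (nat_lit 118)))) (PT.nd (nat_lit 156) (PT.nd (nat_lit 78) (PT.lf (nat_lit 2052) (nat_lit 3) (nat_lit 27) (nat_lit 3) (nat_lit 117) (nat_lit 117) (nat_lit 126)) (PT.lf (nat_lit 2584) (nat_lit 6) (nat_lit 34) (nat_lit 3) (nat_lit 118) (nat_lit 117) (nat_lit 125))) (PT.nd (nat_lit 78) (PT.lf (nat_lit 3040) (nat_lit 6) (nat_lit 40) (nat_lit 3)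 (nat_lit 119) (nat_lit 117) (nat_lit 124)) (PT.lf (nat_lit 3420) (nat_lit 6) (nat_lit 45) (nat_lit 3) (nat_lit 120) (nat_lit 117) (nat_lit 123))))) (PT.nd (nat_lit 312) (PT.nd (nat_lit 156) (PT.nd (nat_lit 78) (PT.lf (nat_lit 3496) (nat_lit 6) (nat_lit 46) (nat_lit 3) (nat_lit 121) (nat_lit 117) (nat_lit 122)) (PT.lf (nat_lit 3496) (nat_lit 6) (nat_lit 46) (nat_lit 1) (nat_lit 122) (nat_lit 117) (nat_lit 121))) (PT.nd (nat_lit 78) (PT.lf (nat_lit 3420) (nat_lit 6) (nat_lit 45) (nat_lit 1) (nat_lit 123) (nat_lit 117) (nat_lit 120)) (PT.lf (nat_lit 3040) (nat_lit 6) (nat_lit 40) (nat_lit 1) (nat_lit 124) (nat_lit 117) (nat_lit 119)))) (PT.nd (nat_lit 36816) (PT.nd (nat_lit 78) (PT.lf (nat_lit 2584) (nat_lit 6) (nat_lit 34) (nat_lit 1) (nat_lit 125) (nat_lit 117) (nat_lit 118)) (PT.lf (nat_lit 2052) (nat_lit 3) (nat_lit 27) (nat_lit 0) (nat_lit 126) (nat_lit 117) (nat_lit 117))) (PT.nd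 (nat_lit 78) (PT.lf (nat_lit 2128) (nat_lit 6) (nat_lit 28) (nat_lit 5) (nat_lit 116) (nat_lit 118) (nat_lit 126)) (PT.lf (nat_lit 2584) (nat_lit 6) (nat_lit 34) (nat_lit 5) (nat_lit 117) (nat_lit 118) (nat_lit 125)))))) (PT.nd (nat_lit 624) (PT.nd (nat_lit 312) (PT.nd (nat_lit 156) (PT.nd (nat_lit 78) (PT.lf (nat_lit 2964) (nat_lit 3) (nat_lit 39) (nat_lit 3) (nat_lit 118) (nat_lit 118) (nat_lit 124)) (PT.lf (nat_lit 3344) (nat_lit 6) (nat_lit 44) (nat_lit 3) (nat_lit 119) (nat_lit 118) (nat_lit 123))) (PT.nd (nat_lit 78) (PT.lf (nat_lit 3648) (nat_lit 6) (nat_lit 48) (nat_lit 3) (nat_lit 120) (nat_lit 118) (nat_lit 122)) (PT.lf (nat_lit 3724) (nat_lit 3) (nat_lit 49) (nat_lit 1) (nat_lit 121) (nat_lit 118) (nat_lit 121)))) (PT.nd (nat_lit 156) (PT.nd (nat_lit 78) (PT.lf (nat_lit 3648) (nat_lit 6) (nat_lit 48) (nat_lit 1) (nat_lit 122) (nat_lit 118) (nat_lit 120)) (PT.lf (nat_lit 3344)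 (nat_lit 6) (nat_lit 44) (nat_lit 1) (nat_lit 123) (nat_lit 118) (nat_lit 119))) (PT.nd (nat_lit 78) (PT.lf (nat_lit 2964) (nat_lit 3) (nat_lit 39) (nat_lit 0) (nat_lit 124) (nat_lit 118) (nat_lit 118)) (PT.lf (nat_lit 2584) (nat_lit 6) (nat_lit 34) (nat_lit 0) (nat_lit 125) (nat_lit 118) (nat_lit 117))))) (PT.nd (nat_lit 36894) (PT.nd (nat_lit 36738) (PT.nd (nat_lit 36660) (PT.lf (nat_lit 2128) (nat_lit 6) (nat_lit 28) (nat_lit 0) (nat_lit 126) (nat_lit 118) (nat_lit 116)) (PT.lf (nat_lit 2204) (nat_lit 6) (nat_lit 29) (nat_lit 5) (nat_lit 115) (nat_lit 119) (nat_lit 126))) (PT.nd (nat_lit 78) (PT.lf (nat_lit 2660) (nat_lit 6) (nat_lit 35) (nat_lit 5) (nat_lit 116) (nat_lit 119) (nat_lit 125)) (PT.lf (nat_lit 3040) (nat_lit 6) (nat_lit 40) (nat_lit 5) (nat_lit 117) (nat_lit 119) (nat_lit 124)))) (PT.nd (nat_lit 156) (PT.nd (nat_lit 78) (PT.lf (nat_lit 3344) (nat_lit 6) (nat_lit 44)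 (nat_lit 5) (nat_lit 118) (nat_lit 119) (nat_lit 123)) (PT.lf (nat_lit 3572) (nat_lit 3) (nat_lit 47) (nat_lit 3) (nat_lit 119) (nat_lit 119) (nat_lit 122))) (PT.nd (nat_lit 78) (PT.lf (nat_lit 3800) (nat_lit 6) (nat_lit 50) (nat_lit 3) (nat_lit 120) (nat_lit 119) (nat_lit 121)) (PT.nd (nat_lit 78) (PT.lf (nat_lit 3800) (nat_lit 6) (nat_lit 50) (nat_lit 1) (nat_lit 121) (nat_lit 119) (nat_lit 120)) (PT.lf (nat_lit 3572) (nat_lit 3) (nat_lit 47) (nat_lit 0) (nat_lit 122) (nat_lit 119) (nat_lit 119))))))))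
noncomputable def pc3 : PT := (PT.nd (nat_lit 37752) (PT.nd (nat_lit 37128) (PT.nd (nat_lit 36816) (PT.nd (nat_lit 156) (PT.nd (nat_lit 78) (PT.lf (nat_lit 3344) (nat_lit 6) (nat_lit 44) (nat_lit 0) (nat_lit 123) (nat_lit 119) (nat_lit 118)) (PT.lf (nat_lit 3040) (nat_lit 6) (nat_lit 40) (nat_lit 0) (nat_lit 124) (nat_lit 119) (nat_lit 117))) (PT.nd (nat_lit 78) (PT.lf (nat_lit 2660) (nat_lit 6) (nat_lit 35) (nat_lit 0) (nat_lit 125) (nat_lit 119) (nat_lit 116)) (PT.lf (nat_lit 2204) (nat_lit 6) (nat_lit 29) (nat_lit 0) (nat_lit 126) (nat_lit 119) (nat_lit 115)))) (PT.nd (nat_lit 156) (PT.nd (nat_lit 78) (PT.lf (nat_lit 2280) (nat_lit 6) (nat_lit 30) (nat_lit 5) (nat_lit 114) (nat_lit 120) (nat_lit 126)) (PT.lf (nat_lit 2736) (nat_lit 6) (nat_lit 36) (nat_lit 5) (nat_lit 115) (nat_lit 120) (nat_lit 125))) (PT.nd (nat_lit 78) (PT.lf (nat_lit 3116) (nat_lit 6) (nat_lit 41) (nat_lit 5)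 (nat_lit 116) (nat_lit 120) (nat_lit 124)) (PT.lf (nat_lit 3420) (nat_lit 6) (nat_lit 45) (nat_lit 5) (nat_lit 117) (nat_lit 120) (nat_lit 123))))) (PT.nd (nat_lit 312) (PT.nd (nat_lit 156) (PT.nd (nat_lit 78) (PT.lf (nat_lit 3648) (nat_lit 6) (nat_lit 48) (nat_lit 5) (nat_lit 118) (nat_lit 120) (nat_lit 122)) (PT.lf (nat_lit 3800) (nat_lit 6) (nat_lit 50) (nat_lit 5) (nat_lit 119) (nat_lit 120) (nat_lit 121))) (PT.nd (nat_lit 78) (PT.lf (nat_lit 3876) (nat_lit 1) (nat_lit 51) (nat_lit 0) (nat_lit 120) (nat_lit 120) (nat_lit 120)) (PT.lf (nat_lit 3800) (nat_lit 6) (nat_lit 50) (nat_lit 0) (nat_lit 121) (nat_lit 120) (nat_lit 119)))) (PT.nd (nat_lit 156) (PT.nd (nat_lit 78) (PT.lf (nat_lit 3648) (nat_lit 6) (nat_lit 48) (nat_lit 0) (nat_lit 122) (nat_lit 120) (nat_lit 118)) (PT.lf (nat_lit 3420) (nat_lit 6) (nat_lit 45) (nat_lit 0) (nat_lit 123) (nat_lit 120) (nat_lit 117))) (PT.nd (nat_lit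 78) (PT.lf (nat_lit 3116) (nat_lit 6) (nat_lit 41) (nat_lit 0) (nat_lit 124) (nat_lit 120) (nat_lit 116)) (PT.lf (nat_lit 2736) (nat_lit 6) (nat_lit 36) (nat_lit 0) (nat_lit 125) (nat_lit 120) (nat_lit 115)))))) (PT.nd (nat_lit 37050) (PT.nd (nat_lit 36738) (PT.nd (nat_lit 36582) (PT.nd (nat_lit 36504) (PT.lf (nat_lit 2280) (nat_lit 6) (nat_lit 30) (nat_lit 0) (nat_lit 126) (nat_lit 120) (nat_lit 114)) (PT.lf (nat_lit 1824) (nat_lit 6) (nat_lit 24) (nat_lit 5) (nat_lit 113) (nat_lit 121) (nat_lit 126))) (PT.nd (nat_lit 78) (PT.lf (nat_lit 2356) (nat_lit 6) (nat_lit 31) (nat_lit 5) (nat_lit 114) (nat_lit 121) (nat_lit 125)) (PT.lf (nat_lit 2812) (nat_lit 6) (nat_lit 37) (nat_lit 5) (nat_lit 115) (nat_lit 121) (nat_lit 124)))) (PT.nd (nat_lit 156) (PT.nd (nat_lit 78) (PT.lf (nat_lit 3192) (nat_lit 6) (nat_lit 42) (nat_lit 5) (nat_lit 116) (nat_lit 121) (nat_lit 123)) (PT.lf (nat_lit 3496)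 (nat_lit 6) (nat_lit 46) (nat_lit 5) (nat_lit 117) (nat_lit 121) (nat_lit 122))) (PT.nd (nat_lit 78) (PT.lf (nat_lit 3724) (nat_lit 3) (nat_lit 49) (nat_lit 4) (nat_lit 118) (nat_lit 121) (nat_lit 121)) (PT.lf (nat_lit 3800) (nat_lit 6) (nat_lit 50) (nat_lit 4) (nat_lit 119) (nat_lit 121) (nat_lit 120))))) (PT.nd (nat_lit 312) (PT.nd (nat_lit 156) (PT.nd (nat_lit 78) (PT.lf (nat_lit 3800) (nat_lit 6) (nat_lit 50) (nat_lit 2) (nat_lit 120) (nat_lit 121) (nat_lit 119)) (PT.lf (nat_lit 3724) (nat_lit 3) (nat_lit 49) (nat_lit 0) (nat_lit 121) (nat_lit 121) (nat_lit 118))) (PT.nd (nat_lit 78) (PT.lf (nat_lit 3496) (nat_lit 6) (nat_lit 46) (nat_lit 0) (nat_lit 122) (nat_lit 121) (nat_lit 117)) (PT.lf (nat_lit 3192) (nat_lit 6) (nat_lit 42) (nat_lit 0) (nat_lit 123) (nat_lit 121) (nat_lit 116)))) (PT.nd (nat_lit 156) (PT.nd (nat_lit 78) (PT.lf (nat_lit 2812) (nat_lit 6) (nat_lit 37) (nat_lit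 0) (nat_lit 124) (nat_lit 121) (nat_lit 115)) (PT.lf (nat_lit 2356) (nat_lit 6) (nat_lit 31) (nat_lit 0) (nat_lit 125) (nat_lit 121) (nat_lit 114))) (PT.nd (nat_lit 36426) (PT.lf (nat_lit 1824) (nat_lit 6) (nat_lit 24) (nat_lit 0) (nat_lit 126) (nat_lit 121) (nat_lit 113)) (PT.nd (nat_lit 78) (PT.lf (nat_lit 1596) (nat_lit 6) (nat_lit 21) (nat_lit 5) (nat_lit 112) (nat_lit 122) (nat_lit 126)) (PT.lf (nat_lit 1900) (nat_lit 6) (nat_lit 25) (nat_lit 5) (nat_lit 113) (nat_lit 122) (nat_lit 125))))))))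
noncomputable def pc4 : PT := (PT.nd (nat_lit 37440) (PT.nd (nat_lit 624) (PT.nd (nat_lit 312) (PT.nd (nat_lit 156) (PT.nd (nat_lit 78) (PT.lf (nat_lit 2432) (nat_lit 6) (nat_lit 32) (nat_lit 5) (nat_lit 114) (nat_lit 122) (nat_lit 124)) (PT.lf (nat_lit 2888) (nat_lit 6) (nat_lit 38) (nat_lit 5) (nat_lit 115) (nat_lit 122) (nat_lit 123))) (PT.nd (nat_lit 78) (PT.lf (nat_lit 3268) (nat_lit 3) (nat_lit 43) (nat_lit 4) (nat_lit 116) (nat_lit 122) (nat_lit 122)) (PT.lf (nat_lit 3496) (nat_lit 6) (nat_lit 46) (nat_lit 4) (nat_lit 117) (nat_lit 122) (nat_lit 121)))) (PT.nd (nat_lit 156) (PT.nd (nat_lit 78) (PT.lf (nat_lit 3648) (nat_lit 6) (nat_lit 48) (nat_lit 4) (nat_lit 118) (nat_lit 122) (nat_lit 120)) (PT.lf (nat_lit 3572) (nat_lit 3) (nat_lit 47) (nat_lit 2) (nat_lit 119) (nat_lit 122) (nat_lit 119))) (PT.nd (nat_lit 78) (PT.lf (nat_lit 3648) (nat_lit 6) (nat_lit 48) (nat_lit 2) (nat_lit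 120) (nat_lit 122) (nat_lit 118)) (PT.lf (nat_lit 3496) (nat_lit 6) (nat_lit 46) (nat_lit 2) (nat_lit 121) (nat_lit 122) (nat_lit 117))))) (PT.nd (nat_lit 312) (PT.nd (nat_lit 156) (PT.nd (nat_lit 78) (PT.lf (nat_lit 3268) (nat_lit 3) (nat_lit 43) (nat_lit 0) (nat_lit 122) (nat_lit 122) (nat_lit 116)) (PT.lf (nat_lit 2888) (nat_lit 6) (nat_lit 38) (nat_lit 0) (nat_lit 123) (nat_lit 122) (nat_lit 115))) (PT.nd (nat_lit 78) (PT.lf (nat_lit 2432) (nat_lit 6) (nat_lit 32) (nat_lit 0) (nat_lit 124) (nat_lit 122) (nat_lit 114)) (PT.lf (nat_lit 1900) (nat_lit 6) (nat_lit 25) (nat_lit 0) (nat_lit 125) (nat_lit 122) (nat_lit 113)))) (PT.nd (nat_lit 36348) (PT.nd (nat_lit 36270) (PT.lf (nat_lit 1596) (nat_lit 6) (nat_lit 21) (nat_lit 0) (nat_lit 126) (nat_lit 122) (nat_lit 112)) (PT.lf (nat_lit 1216) (nat_lit 6) (nat_lit 16) (nat_lit 5) (nat_lit 110) (nat_lit 123) (nat_lit 127))) (PT.nd (nat_lit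 78) (PT.lf (nat_lit 1444) (nat_lit 6) (nat_lit 19) (nat_lit 5) (nat_lit 111) (nat_lit 123) (nat_lit 126)) (PT.lf (nat_lit 1672) (nat_lit 6) (nat_lit 22) (nat_lit 5) (nat_lit 112) (nat_lit 123) (nat_lit 125)))))) (PT.nd (nat_lit 624) (PT.nd (nat_lit 312) (PT.nd (nat_lit 156) (PT.nd (nat_lit 78) (PT.lf (nat_lit 1976) (nat_lit 6) (nat_lit 26) (nat_lit 5) (nat_lit 113) (nat_lit 123) (nat_lit 124)) (PT.lf (nat_lit 2508) (nat_lit 3) (nat_lit 33) (nat_lit 4) (nat_lit 114) (nat_lit 123) (nat_lit 123))) (PT.nd (nat_lit 78) (PT.lf (nat_lit 2888) (nat_lit 6) (nat_lit 38) (nat_lit 4) (nat_lit 115) (nat_lit 123) (nat_lit 122)) (PT.lf (nat_lit 3192) (nat_lit 6) (nat_lit 42) (nat_lit 4) (nat_lit 116) (nat_lit 123) (nat_lit 121)))) (PT.nd (nat_lit 156) (PT.nd (nat_lit 78) (PT.lf (nat_lit 3420) (nat_lit 6) (nat_lit 45) (nat_lit 4) (nat_lit 117) (nat_lit 123) (nat_lit 120)) (PT.lf (nat_lit 3344) (nat_lit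 6) (nat_lit 44) (nat_lit 4) (nat_lit 118) (nat_lit 123) (nat_lit 119))) (PT.nd (nat_lit 78) (PT.lf (nat_lit 3344) (nat_lit 6) (nat_lit 44) (nat_lit 2) (nat_lit 119) (nat_lit 123) (nat_lit 118)) (PT.lf (nat_lit 3420) (nat_lit 6) (nat_lit 45) (nat_lit 2) (nat_lit 120) (nat_lit 123) (nat_lit 117))))) (PT.nd (nat_lit 312) (PT.nd (nat_lit 156) (PT.nd (nat_lit 78) (PT.lf (nat_lit 3192) (nat_lit 6) (nat_lit 42) (nat_lit 2) (nat_lit 121) (nat_lit 123) (nat_lit 116)) (PT.lf (nat_lit 2888) (nat_lit 6) (nat_lit 38) (nat_lit 2) (nat_lit 122) (nat_lit 123) (nat_lit 115))) (PT.nd (nat_lit 78) (PT.lf (nat_lit 2508) (nat_lit 3) (nat_lit 33) (nat_lit 0) (nat_lit 123) (nat_lit 123) (nat_lit 114)) (PT.lf (nat_lit 1976) (nat_lit 6) (nat_lit 26) (nat_lit 0) (nat_lit 124) (nat_lit 123) (nat_lit 113)))) (PT.nd (nat_lit 156) (PT.nd (nat_lit 78) (PT.lf (nat_lit 1672) (nat_lit 6) (nat_lit 22) (nat_lit 0) (nat_lit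 125) (nat_lit 123) (nat_lit 112)) (PT.lf (nat_lit 1444) (nat_lit 6) (nat_lit 19) (nat_lit 0) (nat_lit 126) (nat_lit 123) (nat_lit 111))) (PT.nd (nat_lit 36114) (PT.lf (nat_lit 1216) (nat_lit 6) (nat_lit 16) (nat_lit 0) (nat_lit 127) (nat_lit 123) (nat_lit 110)) (PT.nd (nat_lit 78) (PT.lf (nat_lit 1064) (nat_lit 6) (nat_lit 14) (nat_lit 5) (nat_lit 109) (nat_lit 124) (nat_lit 127)) (PT.lf (nat_lit 1292) (nat_lit 6) (nat_lit 17) (nat_lit 5) (nat_lit 110) (nat_lit 124) (nat_lit 126))))))))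
noncomputable def pc5 : PT := (PT.nd (nat_lit 1248) (PT.nd (nat_lit 624) (PT.nd (nat_lit 312) (PT.nd (nat_lit 156) (PT.nd (nat_lit 78) (PT.lf (nat_lit 1520) (nat_lit 6) (nat_lit 20) (nat_lit 5) (nat_lit 111) (nat_lit 124) (nat_lit 125)) (PT.lf (nat_lit 1748) (nat_lit 3) (nat_lit 23) (nat_lit 4) (nat_lit 112) (nat_lit 124) (nat_lit 124))) (PT.nd (nat_lit 78) (PT.lf (nat_lit 1976) (nat_lit 6) (nat_lit 26) (nat_lit 4) (nat_lit 113) (nat_lit 124) (nat_lit 123)) (PT.lf (nat_lit 2432) (nat_lit 6) (nat_lit 32) (nat_lit 4) (nat_lit 114) (nat_lit 124) (nat_lit 122)))) (PT.nd (nat_lit 156) (PT.nd (nat_lit 78) (PT.lf (nat_lit 2812) (nat_lit 6) (nat_lit 37) (nat_lit 4) (nat_lit 115) (nat_lit 124) (nat_lit 121)) (PT.lf (nat_lit 3116) (nat_lit 6) (nat_lit 41) (nat_lit 4) (nat_lit 116) (nat_lit 124) (nat_lit 120))) (PT.nd (nat_lit 78) (PT.lf (nat_lit 3040) (nat_lit 6) (nat_lit 40) (nat_lit 4) (nat_lit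 117) (nat_lit 124) (nat_lit 119)) (PT.lf (nat_lit 2964) (nat_lit 3) (nat_lit 39) (nat_lit 2) (nat_lit 118) (nat_lit 124) (nat_lit 118))))) (PT.nd (nat_lit 312) (PT.nd (nat_lit 156) (PT.nd (nat_lit 78) (PT.lf (nat_lit 3040) (nat_lit 6) (nat_lit 40) (nat_lit 2) (nat_lit 119) (nat_lit 124) (nat_lit 117)) (PT.lf (nat_lit 3116) (nat_lit 6) (nat_lit 41) (nat_lit 2) (nat_lit 120) (nat_lit 124) (nat_lit 116))) (PT.nd (nat_lit 78) (PT.lf (nat_lit 2812) (nat_lit 6) (nat_lit 37) (nat_lit 2) (nat_lit 121) (nat_lit 124) (nat_lit 115)) (PT.lf (nat_lit 2432) (nat_lit 6) (nat_lit 32) (nat_lit 2) (nat_lit 122) (nat_lit 124) (nat_lit 114)))) (PT.nd (nat_lit 156) (PT.nd (nat_lit 78) (PT.lf (nat_lit 1976) (nat_lit 6) (nat_lit 26) (nat_lit 2) (nat_lit 123) (nat_lit 124) (nat_lit 113)) (PT.lf (nat_lit 1748) (nat_lit 3) (nat_lit 23) (nat_lit 0) (nat_lit 124) (nat_lit 124) (nat_lit 112))) (PT.nd (nat_lit 78)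 (PT.lf (nat_lit 1520) (nat_lit 6) (nat_lit 20) (nat_lit 0) (nat_lit 125) (nat_lit 124) (nat_lit 111)) (PT.lf (nat_lit 1292) (nat_lit 6) (nat_lit 17) (nat_lit 0) (nat_lit 126) (nat_lit 124) (nat_lit 110)))))) (PT.nd (nat_lit 36504) (PT.nd (nat_lit 36192) (PT.nd (nat_lit 36036) (PT.nd (nat_lit 35958) (PT.lf (nat_lit 1064) (nat_lit 6) (nat_lit 14) (nat_lit 0) (nat_lit 127) (nat_lit 124) (nat_lit 109)) (PT.lf (nat_lit 760) (nat_lit 6) (nat_lit 10) (nat_lit 5) (nat_lit 107) (nat_lit 125) (nat_lit 128))) (PT.nd (nat_lit 78) (PT.lf (nat_lit 912) (nat_lit 6) (nat_lit 12) (nat_lit 5) (nat_lit 108) (nat_lit 125) (nat_lit 127)) (PT.lf (nat_lit 1140) (nat_lit 6) (nat_lit 15) (nat_lit 5) (nat_lit 109) (nat_lit 125) (nat_lit 126)))) (PT.nd (nat_lit 156) (PT.nd (nat_lit 78) (PT.lf (nat_lit 1368) (nat_lit 3) (nat_lit 18) (nat_lit 4) (nat_lit 110) (nat_lit 125) (nat_lit 125)) (PT.lf (nat_lit 1520) (nat_lit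 6) (nat_lit 20) (nat_lit 4) (nat_lit 111) (nat_lit 125) (nat_lit 124))) (PT.nd (nat_lit 78) (PT.lf (nat_lit 1672) (nat_lit 6) (nat_lit 22) (nat_lit 4) (nat_lit 112) (nat_lit 125) (nat_lit 123)) (PT.lf (nat_lit 1900) (nat_lit 6) (nat_lit 25) (nat_lit 4) (nat_lit 113) (nat_lit 125) (nat_lit 122))))) (PT.nd (nat_lit 312) (PT.nd (nat_lit 156) (PT.nd (nat_lit 78) (PT.lf (nat_lit 2356) (nat_lit 6) (nat_lit 31) (nat_lit 4) (nat_lit 114) (nat_lit 125) (nat_lit 121)) (PT.lf (nat_lit 2736) (nat_lit 6) (nat_lit 36) (nat_lit 4) (nat_lit 115) (nat_lit 125) (nat_lit 120))) (PT.nd (nat_lit 78) (PT.lf (nat_lit 2660) (nat_lit 6) (nat_lit 35) (nat_lit 4) (nat_lit 116) (nat_lit 125) (nat_lit 119)) (PT.lf (nat_lit 2584) (nat_lit 6) (nat_lit 34) (nat_lit 4) (nat_lit 117) (nat_lit 125) (nat_lit 118)))) (PT.nd (nat_lit 156) (PT.nd (nat_lit 78) (PT.lf (nat_lit 2584) (nat_lit 6) (nat_lit 34) (nat_lit 2) (nat_lit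 118) (nat_lit 125) (nat_lit 117)) (PT.lf (nat_lit 2660) (nat_lit 6) (nat_lit 35) (nat_lit 2) (nat_lit 119) (nat_lit 125) (nat_lit 116))) (PT.nd (nat_lit 78) (PT.lf (nat_lit 2736) (nat_lit 6) (nat_lit 36) (nat_lit 2) (nat_lit 120) (nat_lit 125) (nat_lit 115)) (PT.nd (nat_lit 78) (PT.lf (nat_lit 2356) (nat_lit 6) (nat_lit 31) (nat_lit 2) (nat_lit 121) (nat_lit 125) (nat_lit 114)) (PT.lf (nat_lit 1900) (nat_lit 6) (nat_lit 25) (nat_lit 2) (nat_lit 122) (nat_lit 125) (nat_lit 113))))))))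
noncomputable def pc6 : PT := (PT.nd (nat_lit 36972) (PT.nd (nat_lit 36348) (PT.nd (nat_lit 312) (PT.nd (nat_lit 156) (PT.nd (nat_lit 78) (PT.lf (nat_lit 1672) (nat_lit 6) (nat_lit 22) (nat_lit 2) (nat_lit 123) (nat_lit 125) (nat_lit 112)) (PT.lf (nat_lit 1520) (nat_lit 6) (nat_lit 20) (nat_lit 2) (nat_lit 124) (nat_lit 125) (nat_lit 111))) (PT.nd (nat_lit 78) (PT.lf (nat_lit 1368) (nat_lit 3) (nat_lit 18) (nat_lit 0) (nat_lit 125) (nat_lit 125) (nat_lit 110)) (PT.lf (nat_lit 1140) (nat_lit 6) (nat_lit 15) (nat_lit 0) (nat_lit 126) (nat_lit 125) (nat_lit 109)))) (PT.nd (nat_lit 35880) (PT.nd (nat_lit 78) (PT.lf (nat_lit 912) (nat_lit 6) (nat_lit 12) (nat_lit 0) (nat_lit 127) (nat_lit 125) (nat_lit 108)) (PT.lf (nat_lit 760) (nat_lit 6) (nat_lit 10) (nat_lit 0) (nat_lit 128) (nat_lit 125) (nat_lit 107))) (PT.nd (nat_lit 78) (PT.lf (nat_lit 608) (nat_lit 6) (nat_lit 8) (nat_lit 5) (nat_lit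 106) (nat_lit 126) (nat_lit 128)) (PT.lf (nat_lit 836) (nat_lit 6) (nat_lit 11) (nat_lit 5) (nat_lit 107) (nat_lit 126) (nat_lit 127))))) (PT.nd (nat_lit 312) (PT.nd (nat_lit 156) (PT.nd (nat_lit 78) (PT.lf (nat_lit 988) (nat_lit 3) (nat_lit 13) (nat_lit 4) (nat_lit 108) (nat_lit 126) (nat_lit 126)) (PT.lf (nat_lit 1140) (nat_lit 6) (nat_lit 15) (nat_lit 4) (nat_lit 109) (nat_lit 126) (nat_lit 125))) (PT.nd (nat_lit 78) (PT.lf (nat_lit 1292) (nat_lit 6) (nat_lit 17) (nat_lit 4) (nat_lit 110) (nat_lit 126) (nat_lit 124)) (PT.lf (nat_lit 1444) (nat_lit 6) (nat_lit 19) (nat_lit 4) (nat_lit 111) (nat_lit 126) (nat_lit 123)))) (PT.nd (nat_lit 156) (PT.nd (nat_lit 78) (PT.lf (nat_lit 1596) (nat_lit 6) (nat_lit 21) (nat_lit 4) (nat_lit 112) (nat_lit 126) (nat_lit 122)) (PT.lf (nat_lit 1824) (nat_lit 6) (nat_lit 24) (nat_lit 4) (nat_lit 113) (nat_lit 126) (nat_lit 121))) (PT.nd (nat_lit 78)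 (PT.lf (nat_lit 2280) (nat_lit 6) (nat_lit 30) (nat_lit 4) (nat_lit 114) (nat_lit 126) (nat_lit 120)) (PT.lf (nat_lit 2204) (nat_lit 6) (nat_lit 29) (nat_lit 4) (nat_lit 115) (nat_lit 126) (nat_lit 119)))))) (PT.nd (nat_lit 624) (PT.nd (nat_lit 312) (PT.nd (nat_lit 156) (PT.nd (nat_lit 78) (PT.lf (nat_lit 2128) (nat_lit 6) (nat_lit 28) (nat_lit 4) (nat_lit 116) (nat_lit 126) (nat_lit 118)) (PT.lf (nat_lit 2052) (nat_lit 3) (nat_lit 27) (nat_lit 2) (nat_lit 117) (nat_lit 126) (nat_lit 117))) (PT.nd (nat_lit 78) (PT.lf (nat_lit 2128) (nat_lit 6) (nat_lit 28) (nat_lit 2) (nat_lit 118) (nat_lit 126) (nat_lit 116)) (PT.lf (nat_lit 2204) (nat_lit 6) (nat_lit 29) (nat_lit 2) (nat_lit 119) (nat_lit 126) (nat_lit 115)))) (PT.nd (nat_lit 156) (PT.nd (nat_lit 78) (PT.lf (nat_lit 2280) (nat_lit 6) (nat_lit 30) (nat_lit 2) (nat_lit 120) (nat_lit 126) (nat_lit 114)) (PT.lf (nat_lit 1824) (nat_lit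 6) (nat_lit 24) (nat_lit 2) (nat_lit 121) (nat_lit 126) (nat_lit 113))) (PT.nd (nat_lit 78) (PT.lf (nat_lit 1596) (nat_lit 6) (nat_lit 21) (nat_lit 2) (nat_lit 122) (nat_lit 126) (nat_lit 112)) (PT.lf (nat_lit 1444) (nat_lit 6) (nat_lit 19) (nat_lit 2) (nat_lit 123) (nat_lit 126) (nat_lit 111))))) (PT.nd (nat_lit 312) (PT.nd (nat_lit 156) (PT.nd (nat_lit 78) (PT.lf (nat_lit 1292) (nat_lit 6) (nat_lit 17) (nat_lit 2) (nat_lit 124) (nat_lit 126) (nat_lit 110)) (PT.lf (nat_lit 1140) (nat_lit 6) (nat_lit 15) (nat_lit 2) (nat_lit 125) (nat_lit 126) (nat_lit 109))) (PT.nd (nat_lit 78) (PT.lf (nat_lit 988) (nat_lit 3) (nat_lit 13) (nat_lit 0) (nat_lit 126) (nat_lit 126) (nat_lit 108)) (PT.lf (nat_lit 836) (nat_lit 6) (nat_lit 11) (nat_lit 0) (nat_lit 127) (nat_lit 126) (nat_lit 107)))) (PT.nd (nat_lit 35724) (PT.nd (nat_lit 35646) (PT.lf (nat_lit 608) (nat_lit 6) (nat_lit 8) (nat_lit 0) (nat_lit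 128) (nat_lit 126) (nat_lit 106)) (PT.lf (nat_lit 380) (nat_lit 6) (nat_lit 5) (nat_lit 5) (nat_lit 104) (nat_lit 127) (nat_lit 129))) (PT.nd (nat_lit 78) (PT.lf (nat_lit 532) (nat_lit 6) (nat_lit 7) (nat_lit 5) (nat_lit 105) (nat_lit 127) (nat_lit 128)) (PT.nd (nat_lit 78) (PT.lf (nat_lit 684) (nat_lit 3) (nat_lit 9) (nat_lit 4) (nat_lit 106) (nat_lit 127) (nat_lit 127)) (PT.lf (nat_lit 836) (nat_lit 6) (nat_lit 11) (nat_lit 4) (nat_lit 107) (nat_lit 127) (nat_lit 126))))))))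
noncomputable def pc7 : PT := (PT.nd (nat_lit 38922) (PT.nd (nat_lit 1560) (PT.nd (nat_lit 1248) (PT.nd (nat_lit 156) (PT.nd (nat_lit 78) (PT.lf (nat_lit 912) (nat_lit 6) (nat_lit 12) (nat_lit 4) (nat_lit 108) (nat_lit 127) (nat_lit 125)) (PT.lf (nat_lit 1064) (nat_lit 6) (nat_lit 14) (nat_lit 4) (nat_lit 109) (nat_lit 127) (nat_lit 124))) (PT.nd (nat_lit 1014) (PT.lf (nat_lit 1216) (nat_lit 6) (nat_lit 16) (nat_lit 4) (nat_lit 110) (nat_lit 127) (nat_lit 123)) (PT.lf (nat_lit 1216) (nat_lit 6) (nat_lit 16) (nat_lit 2) (nat_lit 123) (nat_lit 127) (nat_lit 110)))) (PT.nd (nat_lit 156) (PT.nd (nat_lit 78) (PT.lf (nat_lit 1064) (nat_lit 6) (nat_lit 14) (nat_lit 2) (nat_lit 124) (nat_lit 127) (nat_lit 109)) (PT.lf (nat_lit 912) (nat_lit 6) (nat_lit 12) (nat_lit 2) (nat_lit 125) (nat_lit 127) (nat_lit 108))) (PT.nd (nat_lit 78) (PT.lf (nat_lit 836) (nat_lit 6) (nat_lit 11) (nat_lit 2) (nat_lit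 126) (nat_lit 127) (nat_lit 107)) (PT.lf (nat_lit 684) (nat_lit 3) (nat_lit 9) (nat_lit 0) (nat_lit 127) (nat_lit 127) (nat_lit 106))))) (PT.nd (nat_lit 35646) (PT.nd (nat_lit 35490) (PT.nd (nat_lit 78) (PT.lf (nat_lit 532) (nat_lit 6) (nat_lit 7) (nat_lit 0) (nat_lit 128) (nat_lit 127) (nat_lit 105)) (PT.lf (nat_lit 380) (nat_lit 6) (nat_lit 5) (nat_lit 0) (nat_lit 129) (nat_lit 127) (nat_lit 104))) (PT.nd (nat_lit 78) (PT.lf (nat_lit 152) (nat_lit 6) (nat_lit 2) (nat_lit 5) (nat_lit 102) (nat_lit 128) (nat_lit 130)) (PT.lf (nat_lit 304) (nat_lit 6) (nat_lit 4) (nat_lit 5) (nat_lit 103) (nat_lit 128) (nat_lit 129)))) (PT.nd (nat_lit 156) (PT.nd (nat_lit 78) (PT.lf (nat_lit 456) (nat_lit 3) (nat_lit 6) (nat_lit 4) (nat_lit 104) (nat_lit 128) (nat_lit 128)) (PT.lf (nat_lit 532) (nat_lit 6) (nat_lit 7) (nat_lit 4) (nat_lit 105) (nat_lit 128) (nat_lit 127))) (PT.nd (nat_lit 78) (PT.lf (nat_lit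 608) (nat_lit 6) (nat_lit 8) (nat_lit 4) (nat_lit 106) (nat_lit 128) (nat_lit 126)) (PT.nd (nat_lit 1404) (PT.lf (nat_lit 760) (nat_lit 6) (nat_lit 10) (nat_lit 4) (nat_lit 107) (nat_lit 128) (nat_lit 125)) (PT.lf (nat_lit 760) (nat_lit 6) (nat_lit 10) (nat_lit 2) (nat_lit 125) (nat_lit 128) (nat_lit 107))))))) (PT.nd (nat_lit 35802) (PT.nd (nat_lit 312) (PT.nd (nat_lit 156) (PT.nd (nat_lit 78) (PT.lf (nat_lit 608) (nat_lit 6) (nat_lit 8) (nat_lit 2) (nat_lit 126) (nat_lit 128) (nat_lit 106)) (PT.lf (nat_lit 532) (nat_lit 6) (nat_lit 7) (nat_lit 2) (nat_lit 127) (nat_lit 128) (nat_lit 105))) (PT.nd (nat_lit 78) (PT.lf (nat_lit 456) (nat_lit 3) (nat_lit 6) (nat_lit 0) (nat_lit 128) (nat_lit 128) (nat_lit 104)) (PT.lf (nat_lit 304) (nat_lit 6) (nat_lit 4) (nat_lit 0) (nat_lit 129) (nat_lit 128) (nat_lit 103)))) (PT.nd (nat_lit 35334) (PT.nd (nat_lit 35256) (PT.lf (nat_lit 152) (nat_lit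 6) (nat_lit 2) (nat_lit 0) (nat_lit 130) (nat_lit 128) (nat_lit 102)) (PT.lf (nat_lit 76) (nat_lit 6) (nat_lit 1) (nat_lit 5) (nat_lit 101) (nat_lit 129) (nat_lit 130))) (PT.nd (nat_lit 78) (PT.lf (nat_lit 228) (nat_lit 3) (nat_lit 3) (nat_lit 4) (nat_lit 102) (nat_lit 129) (nat_lit 129)) (PT.lf (nat_lit 304) (nat_lit 6) (nat_lit 4) (nat_lit 4) (nat_lit 103) (nat_lit 129) (nat_lit 128))))) (PT.nd (nat_lit 2028) (PT.nd (nat_lit 1872) (PT.nd (nat_lit 1794) (PT.lf (nat_lit 380) (nat_lit 6) (nat_lit 5) (nat_lit 4) (nat_lit 104) (nat_lit 129) (nat_lit 127)) (PT.lf (nat_lit 380) (nat_lit 6) (nat_lit 5) (nat_lit 2) (nat_lit 127) (nat_lit 129) (nat_lit 104))) (PT.nd (nat_lit 78) (PT.lf (nat_lit 304) (nat_lit 6) (nat_lit 4) (nat_lit 2) (nat_lit 128) (nat_lit 129) (nat_lit 103)) (PT.lf (nat_lit 228) (nat_lit 3) (nat_lit 3) (nat_lit 0) (nat_lit 129) (nat_lit 129) (nat_lit 102)))) (PT.nd (nat_lit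 35334) (PT.nd (nat_lit 35256) (PT.lf (nat_lit 76) (nat_lit 6) (nat_lit 1) (nat_lit 0) (nat_lit 130) (nat_lit 129) (nat_lit 101)) (PT.lf (nat_lit 76) (nat_lit 6) (nat_lit 1) (nat_lit 4) (nat_lit 101) (nat_lit 130) (nat_lit 129))) (PT.nd (nat_lit 2028) (PT.lf (nat_lit 152) (nat_lit 6) (nat_lit 2) (nat_lit 4) (nat_lit 102) (nat_lit 130) (nat_lit 128)) (PT.nd (nat_lit 78) (PT.lf (nat_lit 152) (nat_lit 6) (nat_lit 2) (nat_lit 2) (nat_lit 128) (nat_lit 130) (nat_lit 102)) (PT.lf (nat_lit 76) (nat_lit 6) (nat_lit 1) (nat_lit 2) (nat_lit 129) (nat_lit 130) (nat_lit 101))))))))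
noncomputable def xc0 : XT := (XT.nd (nat_lit 112476) (nat_lit 0) (nat_lit 0) (XT.nd (nat_lit 74880) (nat_lit 0) (nat_lit 0) (XT.nd (nat_lit 37518) (nat_lit 0) (nat_lit 0) (XT.nd (nat_lit 37362) (nat_lit 0) (nat_lit 0) (XT.nd (nat_lit 78) (nat_lit 0) (nat_lit 0) (XT.lf (nat_lit 0) (nat_lit 330613602533) (nat_lit 76) (nat_lit 37470370142) (nat_lit 76) (nat_lit 37470370142) (nat_lit 1) (nat_lit 4) (nat_lit 2) (nat_lit 5) (nat_lit 2) (nat_lit 4) (nat_lit 322) (nat_lit 199) (nat_lit 199)) (XT.lf (nat_lit 0) (nat_lit 715748560504) (nat_lit 76) (nat_lit 80143591354) (nat_lit 76) (nat_lit 80057298968) (nat_lit 1) (nat_lit 4) (nat_lit 2) (nat_lit 5) (nat_lit 2) (nat_lit 4) (nat_lit 323) (nat_lit 199) (nat_lit 198))) (XT.nd (nat_lit 78) (nat_lit 0) (nat_lit 0) (XT.lf (nat_lit 0) (nat_lit 281903839282) (nat_lit 76) (nat_lit 32919617640) (nat_lit 76) (nat_lit 32919617640) (nat_lit 1) (nat_lit 4)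 (nat_lit 2) (nat_lit 5) (nat_lit 2) (nat_lit 4) (nat_lit 320) (nat_lit 200) (nat_lit 200)) (XT.lf (nat_lit 0) (nat_lit 610665326205) (nat_lit 76) (nat_lit 70250573297) (nat_lit 76) (nat_lit 70157377520) (nat_lit 1) (nat_lit 4) (nat_lit 2) (nat_lit 5) (nat_lit 2) (nat_lit 4) (nat_lit 321) (nat_lit 200) (nat_lit 199)))) (XT.nd (nat_lit 37206) (nat_lit 0) (nat_lit 0) (XT.nd (nat_lit 78) (nat_lit 0) (nat_lit 0) (XT.lf (nat_lit 0) (nat_lit 661186111926) (nat_lit 76) (nat_lit 75051637640) (nat_lit 76) (nat_lit 74872149478) (nat_lit 1) (nat_lit 4) (nat_lit 2) (nat_lit 5) (nat_lit 2) (nat_lit 4) (nat_lit 322) (nat_lit 200) (nat_lit 198)) (XT.lf (nat_lit 0) (nat_lit 715669418160) (nat_lit 76) (nat_lit 80270879061) (nat_lit 76) (nat_lit 80011490541) (nat_lit 1) (nat_lit 4) (nat_lit 2) (nat_lit 5) (nat_lit 2) (nat_lit 4) (nat_lit 323) (nat_lit 200) (nat_lit 197))) (XT.nd (nat_lit 78) (nat_lit 0)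 (nat_lit 0) (XT.lf (nat_lit 0) (nat_lit 240019545384) (nat_lit 76) (nat_lit 29081666035) (nat_lit 76) (nat_lit 29081666035) (nat_lit 1) (nat_lit 4) (nat_lit 2) (nat_lit 5) (nat_lit 2) (nat_lit 4) (nat_lit 318) (nat_lit 201) (nat_lit 201)) (XT.lf (nat_lit 0) (nat_lit 520335494055) (nat_lit 76) (nat_lit 61892133765) (nat_lit 76) (nat_lit 61791482327) (nat_lit 1) (nat_lit 4) (nat_lit 2) (nat_lit 5) (nat_lit 2) (nat_lit 4) (nat_lit 319) (nat_lit 201) (nat_lit 200))))) (XT.nd (nat_lit 37206) (nat_lit 0) (nat_lit 0) (XT.nd (nat_lit 156) (nat_lit 0) (nat_lit 0) (XT.nd (nat_lit 78) (nat_lit 0) (nat_lit 0) (XT.lf (nat_lit 0) (nat_lit 563763297973) (nat_lit 76) (nat_lit 65959004424) (nat_lit 76) (nat_lit 65765157209) (nat_lit 1) (nat_lit 4) (nat_lit 2) (nat_lit 5) (nat_lit 2) (nat_lit 4) (nat_lit 320) (nat_lit 201) (nat_lit 199)) (XT.lf (nat_lit 0) (nat_lit 610579852474) (nat_lit 76) (nat_lit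 70388044020) (nat_lit 76) (nat_lit 70107904419) (nat_lit 1) (nat_lit 4) (nat_lit 2) (nat_lit 5) (nat_lit 2) (nat_lit 4) (nat_lit 321) (nat_lit 201) (nat_lit 198))) (XT.nd (nat_lit 78) (nat_lit 0) (nat_lit 0) (XT.lf (nat_lit 0) (nat_lit 661062588991) (nat_lit 76) (nat_lit 75205498714) (nat_lit 76) (nat_lit 74845458756) (nat_lit 1) (nat_lit 4) (nat_lit 2) (nat_lit 5) (nat_lit 2) (nat_lit 4) (nat_lit 322) (nat_lit 201) (nat_lit 197)) (XT.lf (nat_lit 0) (nat_lit 715510664481) (nat_lit 76) (nat_lit 80439916386) (nat_lit 76) (nat_lit 80005894616) (nat_lit 1) (nat_lit 4) (nat_lit 2) (nat_lit 5) (nat_lit 2) (nat_lit 4) (nat_lit 323) (nat_lit 201) (nat_lit 196)))) (XT.nd (nat_lit 156) (nat_lit 0) (nat_lit 0) (XT.nd (nat_lit 78) (nat_lit 0) (nat_lit 0) (XT.lf (nat_lit 0) (nat_lit 203977109495) (nat_lit 76) (nat_lit 25859913124) (nat_lit 76) (nat_lit 25859913124) (nat_lit 1) (nat_lit 4) (nat_lit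 2) (nat_lit 5) (nat_lit 2) (nat_lit 4) (nat_lit 316) (nat_lit 202) (nat_lit 202)) (XT.lf (nat_lit 0) (nat_lit 442635294616) (nat_lit 76) (nat_lit 54859206288) (nat_lit 76) (nat_lit 54750502735) (nat_lit 1) (nat_lit 4) (nat_lit 2) (nat_lit 5) (nat_lit 2) (nat_lit 4) (nat_lit 317) (nat_lit 202) (nat_lit 201))) (XT.nd (nat_lit 78) (nat_lit 0) (nat_lit 0) (XT.lf (nat_lit 0) (nat_lit 479991159731) (nat_lit 76) (nat_lit 58292682745) (nat_lit 76) (nat_lit 58083327753) (nat_lit 1) (nat_lit 4) (nat_lit 2) (nat_lit 5) (nat_lit 2) (nat_lit 4) (nat_lit 318) (nat_lit 202) (nat_lit 200)) (XT.nd (nat_lit 78) (nat_lit 0) (nat_lit 0) (XT.lf (nat_lit 0) (nat_lit 520243182425) (nat_lit 76) (nat_lit 62040602147) (nat_lit 76) (nat_lit 61738051378) (nat_lit 1) (nat_lit 4) (nat_lit 2) (nat_lit 5) (nat_lit 2) (nat_lit 4) (nat_lit 319) (nat_lit 202) (nat_lit 199)) (XT.lf (nat_lit 0) (nat_lit 563629893203) (nat_lit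 76) (nat_lit 66125174385) (nat_lit 76) (nat_lit 65736331230) (nat_lit 1) (nat_lit 4) (nat_lit 2) (nat_lit 5) (nat_lit 2) (nat_lit 4) (nat_lit 320) (nat_lit 202) (nat_lit 198))))))) (XT.nd (nat_lit 37440) (nat_lit 0) (nat_lit 0) (XT.nd (nat_lit 37050) (nat_lit 0) (nat_lit 0) (XT.nd (nat_lit 156) (nat_lit 0) (nat_lit 0) (XT.nd (nat_lit 78) (nat_lit 0) (nat_lit 0) (XT.lf (nat_lit 0) (nat_lit 610408398500) (nat_lit 76) (nat_lit 70570604332) (nat_lit 76) (nat_lit 70101860820) (nat_lit 1) (nat_lit 4) (nat_lit 2) (nat_lit 5) (nat_lit 2) (nat_lit 4) (nat_lit 321) (nat_lit 202) (nat_lit 197)) (XT.lf (nat_lit 0) (nat_lit 660855904273) (nat_lit 76) (nat_lit 75403235277) (nat_lit 76) (nat_lit 74860509953) (nat_lit 1) (nat_lit 4) (nat_lit 2) (nat_lit 5) (nat_lit 2) (nat_lit 4) (nat_lit 322) (nat_lit 202) (nat_lit 196))) (XT.nd (nat_lit 36816) (nat_lit 0) (nat_lit 0) (XT.lf (nat_lit 0) (nat_lit 715271358703)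 (nat_lit 76) (nat_lit 80651705033) (nat_lit 76) (nat_lit 80040478031) (nat_lit 1) (nat_lit 4) (nat_lit 2) (nat_lit 5) (nat_lit 2) (nat_lit 4) (nat_lit 323) (nat_lit 202) (nat_lit 195)) (XT.lf (nat_lit 0) (nat_lit 172932452878) (nat_lit 76) (nat_lit 23171945034) (nat_lit 76) (nat_lit 23171945034) (nat_lit 1) (nat_lit 4) (nat_lit 2) (nat_lit 5) (nat_lit 2) (nat_lit 4) (nat_lit 314) (nat_lit 203) (nat_lit 203)))) (XT.nd (nat_lit 156) (nat_lit 0) (nat_lit 0) (XT.nd (nat_lit 78) (nat_lit 0) (nat_lit 0) (XT.lf (nat_lit 0) (nat_lit 375742415370) (nat_lit 76) (nat_lit 48973338729) (nat_lit 76) (nat_lit 48855938891) (nat_lit 1) (nat_lit 4) (nat_lit 2) (nat_lit 5) (nat_lit 2) (nat_lit 4) (nat_lit 315) (nat_lit 203) (nat_lit 202)) (XT.lf (nat_lit 0) (nat_lit 407902453469) (nat_lit 76) (nat_lit 51859524978) (nat_lit 76) (nat_lit 51633421586) (nat_lit 1) (nat_lit 4) (nat_lit 2) (nat_lit 5) (nat_lit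 2) (nat_lit 4) (nat_lit 316) (nat_lit 203) (nat_lit 201))) (XT.nd (nat_lit 78) (nat_lit 0) (nat_lit 0) (XT.lf (nat_lit 0) (nat_lit 442535598056) (nat_lit 76) (nat_lit 55019552140) (nat_lit 76) (nat_lit 54692797310) (nat_lit 1) (nat_lit 4) (nat_lit 2) (nat_lit 5) (nat_lit 2) (nat_lit 4) (nat_lit 317) (nat_lit 203) (nat_lit 200)) (XT.nd (nat_lit 78) (nat_lit 0) (nat_lit 0) (XT.lf (nat_lit 0) (nat_lit 479847082579) (nat_lit 76) (nat_lit 58472146303) (nat_lit 76) (nat_lit 58052195696) (nat_lit 1) (nat_lit 4) (nat_lit 2) (nat_lit 5) (nat_lit 2) (nat_lit 4) (nat_lit 318) (nat_lit 203) (nat_lit 199)) (XT.lf (nat_lit 0) (nat_lit 520058012133) (nat_lit 76) (nat_lit 62237767283) (nat_lit 76) (nat_lit 61731524290) (nat_lit 1) (nat_lit 4) (nat_lit 2) (nat_lit 5) (nat_lit 2) (nat_lit 4) (nat_lit 319) (nat_lit 203) (nat_lit 198)))))) (XT.nd (nat_lit 36894) (nat_lit 0) (nat_lit 0) (XT.nd (nat_lit 156)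 (nat_lit 0) (nat_lit 0) (XT.nd (nat_lit 78) (nat_lit 0) (nat_lit 0) (XT.lf (nat_lit 0) (nat_lit 563406673708) (nat_lit 76) (nat_lit 66338729872) (nat_lit 76) (nat_lit 65752586522) (nat_lit 1) (nat_lit 4) (nat_lit 2) (nat_lit 5) (nat_lit 2) (nat_lit 4) (nat_lit 320) (nat_lit 203) (nat_lit 197)) (XT.lf (nat_lit 0) (nat_lit 610149948261) (nat_lit 76) (nat_lit 70799336070) (nat_lit 76) (nat_lit 70139210908) (nat_lit 1) (nat_lit 4) (nat_lit 2) (nat_lit 5) (nat_lit 2) (nat_lit 4) (nat_lit 321) (nat_lit 203) (nat_lit 196))) (XT.nd (nat_lit 78) (nat_lit 0) (nat_lit 0) (XT.lf (nat_lit 0) (nat_lit 660564832974) (nat_lit 76) (nat_lit 75646019099) (nat_lit 76) (nat_lit 74917392259) (nat_lit 1) (nat_lit 4) (nat_lit 2) (nat_lit 5) (nat_lit 2) (nat_lit 4) (nat_lit 322) (nat_lit 203) (nat_lit 195)) (XT.lf (nat_lit 0) (nat_lit 714950082720) (nat_lit 76) (nat_lit 80907500044) (nat_lit 76) (nat_lit 80115445725)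 (nat_lit 1) (nat_lit 4) (nat_lit 2) (nat_lit 5) (nat_lit 2) (nat_lit 4) (nat_lit 323) (nat_lit 203) (nat_lit 194)))) (XT.nd (nat_lit 156) (nat_lit 0) (nat_lit 0) (XT.nd (nat_lit 78) (nat_lit 0) (nat_lit 0) (XT.lf (nat_lit 0) (nat_lit 146161060273) (nat_lit 76) (nat_lit 20947544652) (nat_lit 76) (nat_lit 20947544652) (nat_lit 1) (nat_lit 4) (nat_lit 2) (nat_lit 5) (nat_lit 2) (nat_lit 4) (nat_lit 312) (nat_lit 204) (nat_lit 204)) (XT.lf (nat_lit 0) (nat_lit 318092872716) (nat_lit 76) (nat_lit 44082388901) (nat_lit 76) (nat_lit 43955597076) (nat_lit 1) (nat_lit 4) (nat_lit 2) (nat_lit 5) (nat_lit 2) (nat_lit 4) (nat_lit 313) (nat_lit 204) (nat_lit 203))) (XT.nd (nat_lit 78) (nat_lit 0) (nat_lit 0) (XT.lf (nat_lit 0) (nat_lit 345808998992) (nat_lit 76) (nat_lit 46494764696) (nat_lit 76) (nat_lit 46250573033) (nat_lit 1) (nat_lit 4) (nat_lit 2) (nat_lit 5) (nat_lit 2) (nat_lit 4) (nat_lit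 314) (nat_lit 204) (nat_lit 202)) (XT.nd (nat_lit 78) (nat_lit 0) (nat_lit 0) (XT.lf (nat_lit 0) (nat_lit 375634743085) (nat_lit 76) (nat_lit 49146512249) (nat_lit 76) (nat_lit 48793617032) (nat_lit 1) (nat_lit 4) (nat_lit 2) (nat_lit 5) (nat_lit 2) (nat_lit 4) (nat_lit 315) (nat_lit 204) (nat_lit 201)) (XT.lf (nat_lit 0) (nat_lit 407746850146) (nat_lit 76) (nat_lit 52053345619) (nat_lit 76) (nat_lit 51599798964) (nat_lit 1) (nat_lit 4) (nat_lit 2) (nat_lit 5) (nat_lit 2) (nat_lit 4) (nat_lit 316) (nat_lit 204) (nat_lit 200))))))))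
noncomputable def xc1 : XT := (XT.nd (nat_lit 37752) (nat_lit 0) (nat_lit 0) (XT.nd (nat_lit 37050) (nat_lit 0) (nat_lit 0) (XT.nd (nat_lit 312) (nat_lit 0) (nat_lit 0) (XT.nd (nat_lit 156) (nat_lit 0) (nat_lit 0) (XT.nd (nat_lit 78) (nat_lit 0) (nat_lit 0) (XT.lf (nat_lit 0) (nat_lit 442335614141) (nat_lit 76) (nat_lit 55232490487) (nat_lit 76) (nat_lit 54685748055) (nat_lit 1) (nat_lit 4) (nat_lit 2) (nat_lit 5) (nat_lit 2) (nat_lit 4) (nat_lit 317) (nat_lit 204) (nat_lit 199)) (XT.lf (nat_lit 0) (nat_lit 479606005524) (nat_lit 76) (nat_lit 58702786229) (nat_lit 76) (nat_lit 58069751411) (nat_lit 1) (nat_lit 4) (nat_lit 2) (nat_lit 5) (nat_lit 2) (nat_lit 4) (nat_lit 318) (nat_lit 204) (nat_lit 198))) (XT.nd (nat_lit 78) (nat_lit 0) (nat_lit 0) (XT.lf (nat_lit 0) (nat_lit 519778885875) (nat_lit 76) (nat_lit 62484797560) (nat_lit 76) (nat_lit 61771862385) (nat_lit 1) (nat_lit 4) (nat_lit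 2) (nat_lit 5) (nat_lit 2) (nat_lit 4) (nat_lit 319) (nat_lit 204) (nat_lit 197)) (XT.lf (nat_lit 0) (nat_lit 563092316705) (nat_lit 76) (nat_lit 66600936400) (nat_lit 76) (nat_lit 65814019413) (nat_lit 1) (nat_lit 4) (nat_lit 2) (nat_lit 5) (nat_lit 2) (nat_lit 4) (nat_lit 320) (nat_lit 204) (nat_lit 196)))) (XT.nd (nat_lit 156) (nat_lit 0) (nat_lit 0) (XT.nd (nat_lit 78) (nat_lit 0) (nat_lit 0) (XT.lf (nat_lit 0) (nat_lit 609802970198) (nat_lit 76) (nat_lit 71075594683) (nat_lit 76) (nat_lit 70220176018) (nat_lit 1) (nat_lit 4) (nat_lit 2) (nat_lit 5) (nat_lit 2) (nat_lit 4) (nat_lit 321) (nat_lit 204) (nat_lit 195)) (XT.lf (nat_lit 0) (nat_lit 660187650226) (nat_lit 76) (nat_lit 75935288901) (nat_lit 76) (nat_lit 75016442757) (nat_lit 1) (nat_lit 4) (nat_lit 2) (nat_lit 5) (nat_lit 2) (nat_lit 4) (nat_lit 322) (nat_lit 204) (nat_lit 194))) (XT.nd (nat_lit 36504) (nat_lit 0) (nat_lit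 0) (XT.lf (nat_lit 0) (nat_lit 714544932672) (nat_lit 76) (nat_lit 81208817243) (nat_lit 76) (nat_lit 80231241951) (nat_lit 1) (nat_lit 4) (nat_lit 2) (nat_lit 5) (nat_lit 2) (nat_lit 4) (nat_lit 323) (nat_lit 204) (nat_lit 193)) (XT.lf (nat_lit 0) (nat_lit 123040854530) (nat_lit 76) (nat_lit 19126986784) (nat_lit 76) (nat_lit 19126986784) (nat_lit 1) (nat_lit 4) (nat_lit 2) (nat_lit 5) (nat_lit 2) (nat_lit 4) (nat_lit 310) (nat_lit 205) (nat_lit 205))))) (XT.nd (nat_lit 312) (nat_lit 0) (nat_lit 0) (XT.nd (nat_lit 156) (nat_lit 0) (nat_lit 0) (XT.nd (nat_lit 78) (nat_lit 0) (nat_lit 0) (XT.lf (nat_lit 0) (nat_lit 268344026913) (nat_lit 76) (nat_lit 40056839302) (nat_lit 76) (nat_lit 39919904131) (nat_lit 1) (nat_lit 4) (nat_lit 2) (nat_lit 5) (nat_lit 2) (nat_lit 4) (nat_lit 311) (nat_lit 205) (nat_lit 204)) (XT.lf (nat_lit 0) (nat_lit 292261741242) (nat_lit 76) (nat_lit 42058033903)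 (nat_lit 76) (nat_lit 41794306907) (nat_lit 1) (nat_lit 4) (nat_lit 2) (nat_lit 5) (nat_lit 2) (nat_lit 4) (nat_lit 312) (nat_lit 205) (nat_lit 203))) (XT.nd (nat_lit 78) (nat_lit 0) (nat_lit 0) (XT.lf (nat_lit 0) (nat_lit 317976586648) (nat_lit 76) (nat_lit 44269416303) (nat_lit 76) (nat_lit 43888289468) (nat_lit 1) (nat_lit 4) (nat_lit 2) (nat_lit 5) (nat_lit 2) (nat_lit 4) (nat_lit 313) (nat_lit 205) (nat_lit 202)) (XT.lf (nat_lit 0) (nat_lit 345640947403) (nat_lit 76) (nat_lit 46704090989) (nat_lit 76) (nat_lit 46214260601) (nat_lit 1) (nat_lit 4) (nat_lit 2) (nat_lit 5) (nat_lit 2) (nat_lit 4) (nat_lit 314) (nat_lit 205) (nat_lit 201)))) (XT.nd (nat_lit 156) (nat_lit 0) (nat_lit 0) (XT.nd (nat_lit 78) (nat_lit 0) (nat_lit 0) (XT.lf (nat_lit 0) (nat_lit 375418760457) (nat_lit 76) (nat_lit 49376485664) (nat_lit 76) (nat_lit 48786003837) (nat_lit 1) (nat_lit 4) (nat_lit 2) (nat_lit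 5) (nat_lit 2) (nat_lit 4) (nat_lit 315) (nat_lit 205) (nat_lit 200)) (XT.lf (nat_lit 0) (nat_lit 407486486926) (nat_lit 76) (nat_lit 52302436740) (nat_lit 76) (nat_lit 51618759137) (nat_lit 1) (nat_lit 4) (nat_lit 2) (nat_lit 5) (nat_lit 2) (nat_lit 4) (nat_lit 316) (nat_lit 205) (nat_lit 199))) (XT.nd (nat_lit 78) (nat_lit 0) (nat_lit 0) (XT.lf (nat_lit 0) (nat_lit 442034157781) (nat_lit 76) (nat_lit 55499283187) (nat_lit 76) (nat_lit 54729313198) (nat_lit 1) (nat_lit 4) (nat_lit 2) (nat_lit 5) (nat_lit 2) (nat_lit 4) (nat_lit 317) (nat_lit 205) (nat_lit 198)) (XT.nd (nat_lit 78) (nat_lit 0) (nat_lit 0) (XT.lf (nat_lit 0) (nat_lit 479266499961) (nat_lit 76) (nat_lit 58985969280) (nat_lit 76) (nat_lit 58136098934) (nat_lit 1) (nat_lit 4) (nat_lit 2) (nat_lit 5) (nat_lit 2) (nat_lit 4) (nat_lit 318) (nat_lit 205) (nat_lit 197)) (XT.lf (nat_lit 0) (nat_lit 519404149567) (nat_lit 76) (nat_lit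 62783156862) (nat_lit 76) (nat_lit 61859304704) (nat_lit 1) (nat_lit 4) (nat_lit 2) (nat_lit 5) (nat_lit 2) (nat_lit 4) (nat_lit 319) (nat_lit 205) (nat_lit 196))))))) (XT.nd (nat_lit 36972) (nat_lit 0) (nat_lit 0) (XT.nd (nat_lit 36582) (nat_lit 0) (nat_lit 0) (XT.nd (nat_lit 156) (nat_lit 0) (nat_lit 0) (XT.nd (nat_lit 78) (nat_lit 0) (nat_lit 0) (XT.lf (nat_lit 0) (nat_lit 562684959338) (nat_lit 76) (nat_lit 66913347786) (nat_lit 76) (nat_lit 65920993950) (nat_lit 1) (nat_lit 4) (nat_lit 2) (nat_lit 5) (nat_lit 2) (nat_lit 4) (nat_lit 320) (nat_lit 205) (nat_lit 195)) (XT.lf (nat_lit 0) (nat_lit 609365408146) (nat_lit 76) (nat_lit 71401017258) (nat_lit 76) (nat_lit 70345235942) (nat_lit 1) (nat_lit 4) (nat_lit 2) (nat_lit 5) (nat_lit 2) (nat_lit 4) (nat_lit 321) (nat_lit 205) (nat_lit 194))) (XT.nd (nat_lit 78) (nat_lit 0) (nat_lit 0) (XT.lf (nat_lit 0) (nat_lit 659722120874) (nat_lit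 76) (nat_lit 76272758874) (nat_lit 76) (nat_lit 75158248410) (nat_lit 1) (nat_lit 4) (nat_lit 2) (nat_lit 5) (nat_lit 2) (nat_lit 4) (nat_lit 322) (nat_lit 205) (nat_lit 193)) (XT.lf (nat_lit 0) (nat_lit 714053507671) (nat_lit 76) (nat_lit 81557442213) (nat_lit 76) (nat_lit 80388552910) (nat_lit 1) (nat_lit 4) (nat_lit 2) (nat_lit 5) (nat_lit 2) (nat_lit 4) (nat_lit 323) (nat_lit 205) (nat_lit 192)))) (XT.nd (nat_lit 156) (nat_lit 0) (nat_lit 0) (XT.nd (nat_lit 78) (nat_lit 0) (nat_lit 0) (XT.lf (nat_lit 0) (nat_lit 103037508896) (nat_lit 76) (nat_lit 17659579334) (nat_lit 76) (nat_lit 17659579334) (nat_lit 1) (nat_lit 4) (nat_lit 2) (nat_lit 5) (nat_lit 2) (nat_lit 4) (nat_lit 308) (nat_lit 206) (nat_lit 206)) (XT.lf (nat_lit 0) (nat_lit 225342862835) (nat_lit 76) (nat_lit 36786643038) (nat_lit 76) (nat_lit 36638753053) (nat_lit 1) (nat_lit 4) (nat_lit 2) (nat_lit 5) (nat_lit 2) (nat_lit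 4) (nat_lit 309) (nat_lit 206) (nat_lit 205))) (XT.nd (nat_lit 78) (nat_lit 0) (nat_lit 0) (XT.lf (nat_lit 0) (nat_lit 246016499411) (nat_lit 76) (nat_lit 38429953734) (nat_lit 76) (nat_lit 38145128579) (nat_lit 1) (nat_lit 4) (nat_lit 2) (nat_lit 5) (nat_lit 2) (nat_lit 4) (nat_lit 310) (nat_lit 206) (nat_lit 204)) (XT.nd (nat_lit 78) (nat_lit 0) (nat_lit 0) (XT.lf (nat_lit 0) (nat_lit 268218437960) (nat_lit 76) (nat_lit 40258828895) (nat_lit 76) (nat_lit 39847211914) (nat_lit 1) (nat_lit 4) (nat_lit 2) (nat_lit 5) (nat_lit 2) (nat_lit 4) (nat_lit 311) (nat_lit 206) (nat_lit 203)) (XT.lf (nat_lit 0) (nat_lit 292080245525) (nat_lit 76) (nat_lit 42284106300) (nat_lit 76) (nat_lit 41755089481) (nat_lit 1) (nat_lit 4) (nat_lit 2) (nat_lit 5) (nat_lit 2) (nat_lit 4) (nat_lit 312) (nat_lit 206) (nat_lit 202)))))) (XT.nd (nat_lit 312) (nat_lit 0) (nat_lit 0) (XT.nd (nat_lit 156) (nat_lit 0)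 (nat_lit 0) (XT.nd (nat_lit 78) (nat_lit 0) (nat_lit 0) (XT.lf (nat_lit 0) (nat_lit 317743325410) (nat_lit 76) (nat_lit 44517787591) (nat_lit 76) (nat_lit 43880067218) (nat_lit 1) (nat_lit 4) (nat_lit 2) (nat_lit 5) (nat_lit 2) (nat_lit 4) (nat_lit 313) (nat_lit 206) (nat_lit 201)) (XT.lf (nat_lit 0) (nat_lit 345359755126) (nat_lit 76) (nat_lit 46973109399) (nat_lit 76) (nat_lit 46234737588) (nat_lit 1) (nat_lit 4) (nat_lit 2) (nat_lit 5) (nat_lit 2) (nat_lit 4) (nat_lit 314) (nat_lit 206) (nat_lit 200))) (XT.nd (nat_lit 78) (nat_lit 0) (nat_lit 0) (XT.lf (nat_lit 0) (nat_lit 375093187589) (nat_lit 76) (nat_lit 49664621779) (nat_lit 76) (nat_lit 48833054191) (nat_lit 1) (nat_lit 4) (nat_lit 2) (nat_lit 5) (nat_lit 2) (nat_lit 4) (nat_lit 315) (nat_lit 206) (nat_lit 199)) (XT.lf (nat_lit 0) (nat_lit 407119820918) (nat_lit 76) (nat_lit 52608274435) (nat_lit 76) (nat_lit 51690414461) (nat_lit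 1) (nat_lit 4) (nat_lit 2) (nat_lit 5) (nat_lit 2) (nat_lit 4) (nat_lit 316) (nat_lit 206) (nat_lit 198)))) (XT.nd (nat_lit 156) (nat_lit 0) (nat_lit 0) (XT.nd (nat_lit 78) (nat_lit 0) (nat_lit 0) (XT.lf (nat_lit 0) (nat_lit 441629442569) (nat_lit 76) (nat_lit 55821511233) (nat_lit 76) (nat_lit 54823750902) (nat_lit 1) (nat_lit 4) (nat_lit 2) (nat_lit 5) (nat_lit 2) (nat_lit 4) (nat_lit 317) (nat_lit 206) (nat_lit 197)) (XT.lf (nat_lit 0) (nat_lit 478826554005) (nat_lit 76) (nat_lit 59323373577) (nat_lit 76) (nat_lit 58251631434) (nat_lit 1) (nat_lit 4) (nat_lit 2) (nat_lit 5) (nat_lit 2) (nat_lit 4) (nat_lit 318) (nat_lit 206) (nat_lit 196))) (XT.nd (nat_lit 78) (nat_lit 0) (nat_lit 0) (XT.lf (nat_lit 0) (nat_lit 518931582551) (nat_lit 76) (nat_lit 63134613243) (nat_lit 76) (nat_lit 61994369422) (nat_lit 1) (nat_lit 4) (nat_lit 2) (nat_lit 5) (nat_lit 2) (nat_lit 4) (nat_lit 319) (nat_lit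 206) (nat_lit 195)) (XT.nd (nat_lit 78) (nat_lit 0) (nat_lit 0) (XT.lf (nat_lit 0) (nat_lit 562182187638) (nat_lit 76) (nat_lit 67277815357) (nat_lit 76) (nat_lit 66074144056) (nat_lit 1) (nat_lit 4) (nat_lit 2) (nat_lit 5) (nat_lit 2) (nat_lit 4) (nat_lit 320) (nat_lit 206) (nat_lit 194)) (XT.lf (nat_lit 0) (nat_lit 608834669145) (nat_lit 76) (nat_lit 71777532225) (nat_lit 76) (nat_lit 70515131777) (nat_lit 1) (nat_lit 4) (nat_lit 2) (nat_lit 5) (nat_lit 2) (nat_lit 4) (nat_lit 321) (nat_lit 206) (nat_lit 193))))))))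
noncomputable def xc2 : XT := (XT.nd (nat_lit 37440) (nat_lit 0) (nat_lit 0) (XT.nd (nat_lit 36738) (nat_lit 0) (nat_lit 0) (XT.nd (nat_lit 36426) (nat_lit 0) (nat_lit 0) (XT.nd (nat_lit 36270) (nat_lit 0) (nat_lit 0) (XT.nd (nat_lit 78) (nat_lit 0) (nat_lit 0) (XT.lf (nat_lit 0) (nat_lit 659165486224) (nat_lit 76) (nat_lit 76660428839) (nat_lit 76) (nat_lit 75343649550) (nat_lit 1) (nat_lit 4) (nat_lit 2) (nat_lit 5) (nat_lit 2) (nat_lit 4) (nat_lit 322) (nat_lit 206) (nat_lit 192)) (XT.lf (nat_lit 0) (nat_lit 713472895568) (nat_lit 76) (nat_lit 81955440880) (nat_lit 76) (nat_lit 80588310813) (nat_lit 1) (nat_lit 4) (nat_lit 2) (nat_lit 5) (nat_lit 2) (nat_lit 4) (nat_lit 323) (nat_lit 206) (nat_lit 191))) (XT.nd (nat_lit 78) (nat_lit 0) (nat_lit 0) (XT.lf (nat_lit 0) (nat_lit 85691848774) (nat_lit 76) (nat_lit 16502415646) (nat_lit 76) (nat_lit 16502415646) (nat_lit 1) (nat_lit 4)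 (nat_lit 2) (nat_lit 5) (nat_lit 2) (nat_lit 4) (nat_lit 306) (nat_lit 207) (nat_lit 207)) (XT.lf (nat_lit 0) (nat_lit 188098784461) (nat_lit 76) (nat_lit 34178525605) (nat_lit 76) (nat_lit 34018804422) (nat_lit 1) (nat_lit 4) (nat_lit 2) (nat_lit 5) (nat_lit 2) (nat_lit 4) (nat_lit 307) (nat_lit 207) (nat_lit 206)))) (XT.nd (nat_lit 156) (nat_lit 0) (nat_lit 0) (XT.nd (nat_lit 78) (nat_lit 0) (nat_lit 0) (XT.lf (nat_lit 0) (nat_lit 206004591371) (nat_lit 76) (nat_lit 35509217248) (nat_lit 76) (nat_lit 35201606079) (nat_lit 1) (nat_lit 4) (nat_lit 2) (nat_lit 5) (nat_lit 2) (nat_lit 4) (nat_lit 308) (nat_lit 207) (nat_lit 205)) (XT.lf (nat_lit 0) (nat_lit 225207226765) (nat_lit 76) (nat_lit 37004791799) (nat_lit 76) (nat_lit 36560245459) (nat_lit 1) (nat_lit 4) (nat_lit 2) (nat_lit 5) (nat_lit 2) (nat_lit 4) (nat_lit 309) (nat_lit 207) (nat_lit 204))) (XT.nd (nat_lit 78) (nat_lit 0)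 (nat_lit 0) (XT.lf (nat_lit 0) (nat_lit 245820484037) (nat_lit 76) (nat_lit 38674111923) (nat_lit 76) (nat_lit 38102773758) (nat_lit 1) (nat_lit 4) (nat_lit 2) (nat_lit 5) (nat_lit 2) (nat_lit 4) (nat_lit 310) (nat_lit 207) (nat_lit 203)) (XT.lf (nat_lit 0) (nat_lit 267966515822) (nat_lit 76) (nat_lit 40527069887) (nat_lit 76) (nat_lit 39838331884) (nat_lit 1) (nat_lit 4) (nat_lit 2) (nat_lit 5) (nat_lit 2) (nat_lit 4) (nat_lit 311) (nat_lit 207) (nat_lit 202))))) (XT.nd (nat_lit 312) (nat_lit 0) (nat_lit 0) (XT.nd (nat_lit 156) (nat_lit 0) (nat_lit 0) (XT.nd (nat_lit 78) (nat_lit 0) (nat_lit 0) (XT.lf (nat_lit 0) (nat_lit 291776557866) (nat_lit 76) (nat_lit 42574646183) (nat_lit 76) (nat_lit 41777204626) (nat_lit 1) (nat_lit 4) (nat_lit 2) (nat_lit 5) (nat_lit 2) (nat_lit 4) (nat_lit 312) (nat_lit 207) (nat_lit 201)) (XT.lf (nat_lit 0) (nat_lit 317391706712) (nat_lit 76) (nat_lit 44828974596)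 (nat_lit 76) (nat_lit 43930881601) (nat_lit 1) (nat_lit 4) (nat_lit 2) (nat_lit 5) (nat_lit 2) (nat_lit 4) (nat_lit 313) (nat_lit 207) (nat_lit 200))) (XT.nd (nat_lit 78) (nat_lit 0) (nat_lit 0) (XT.lf (nat_lit 0) (nat_lit 344963755837) (nat_lit 76) (nat_lit 47303414110) (nat_lit 76) (nat_lit 46312125338) (nat_lit 1) (nat_lit 4) (nat_lit 2) (nat_lit 5) (nat_lit 2) (nat_lit 4) (nat_lit 314) (nat_lit 207) (nat_lit 199)) (XT.lf (nat_lit 0) (nat_lit 374656095160) (nat_lit 76) (nat_lit 50012628069) (nat_lit 76) (nat_lit 48935046912) (nat_lit 1) (nat_lit 4) (nat_lit 2) (nat_lit 5) (nat_lit 2) (nat_lit 4) (nat_lit 315) (nat_lit 207) (nat_lit 198)))) (XT.nd (nat_lit 156) (nat_lit 0) (nat_lit 0) (XT.nd (nat_lit 78) (nat_lit 0) (nat_lit 0) (XT.lf (nat_lit 0) (nat_lit 406644679285) (nat_lit 76) (nat_lit 52972671075) (nat_lit 76) (nat_lit 51815189561) (nat_lit 1) (nat_lit 4) (nat_lit 2) (nat_lit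 5) (nat_lit 2) (nat_lit 4) (nat_lit 316) (nat_lit 207) (nat_lit 197)) (XT.lf (nat_lit 0) (nat_lit 441119070192) (nat_lit 76) (nat_lit 56201084124) (nat_lit 76) (nat_lit 54969620798) (nat_lit 1) (nat_lit 4) (nat_lit 2) (nat_lit 5) (nat_lit 2) (nat_lit 4) (nat_lit 317) (nat_lit 207) (nat_lit 196))) (XT.nd (nat_lit 78) (nat_lit 0) (nat_lit 0) (XT.lf (nat_lit 0) (nat_lit 478283560568) (nat_lit 76) (nat_lit 59716998552) (nat_lit 76) (nat_lit 58417033548) (nat_lit 1) (nat_lit 4) (nat_lit 2) (nat_lit 5) (nat_lit 2) (nat_lit 4) (nat_lit 318) (nat_lit 207) (nat_lit 195)) (XT.nd (nat_lit 78) (nat_lit 0) (nat_lit 0) (XT.lf (nat_lit 0) (nat_lit 518358384430) (nat_lit 76) (nat_lit 63541249408) (nat_lit 76) (nat_lit 62177856924) (nat_lit 1) (nat_lit 4) (nat_lit 2) (nat_lit 5) (nat_lit 2) (nat_lit 4) (nat_lit 319) (nat_lit 207) (nat_lit 194)) (XT.lf (nat_lit 0) (nat_lit 561581022216) (nat_lit 76) (nat_lit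 67696498919) (nat_lit 76) (nat_lit 66274377287) (nat_lit 1) (nat_lit 4) (nat_lit 2) (nat_lit 5) (nat_lit 2) (nat_lit 4) (nat_lit 320) (nat_lit 207) (nat_lit 193))))))) (XT.nd (nat_lit 36660) (nat_lit 0) (nat_lit 0) (XT.nd (nat_lit 36270) (nat_lit 0) (nat_lit 0) (XT.nd (nat_lit 156) (nat_lit 0) (nat_lit 0) (XT.nd (nat_lit 78) (nat_lit 0) (nat_lit 0) (XT.lf (nat_lit 0) (nat_lit 608207608075) (nat_lit 76) (nat_lit 72207370785) (nat_lit 76) (nat_lit 70730870313) (nat_lit 1) (nat_lit 4) (nat_lit 2) (nat_lit 5) (nat_lit 2) (nat_lit 4) (nat_lit 321) (nat_lit 207) (nat_lit 192)) (XT.lf (nat_lit 0) (nat_lit 658514447701) (nat_lit 76) (nat_lit 77100596100) (nat_lit 76) (nat_lit 75573744849) (nat_lit 1) (nat_lit 4) (nat_lit 2) (nat_lit 5) (nat_lit 2) (nat_lit 4) (nat_lit 322) (nat_lit 207) (nat_lit 191))) (XT.nd (nat_lit 36036) (nat_lit 0) (nat_lit 0) (XT.lf (nat_lit 0) (nat_lit 712799655700) (nat_lit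 76) (nat_lit 82405171754) (nat_lit 76) (nat_lit 80831699412) (nat_lit 1) (nat_lit 4) (nat_lit 2) (nat_lit 5) (nat_lit 2) (nat_lit 4) (nat_lit 323) (nat_lit 207) (nat_lit 190)) (XT.lf (nat_lit 0) (nat_lit 70609044384) (nat_lit 76) (nat_lit 15619308113) (nat_lit 76) (nat_lit 15619308113) (nat_lit 1) (nat_lit 4) (nat_lit 2) (nat_lit 5) (nat_lit 2) (nat_lit 4) (nat_lit 304) (nat_lit 208) (nat_lit 208)))) (XT.nd (nat_lit 156) (nat_lit 0) (nat_lit 0) (XT.nd (nat_lit 78) (nat_lit 0) (nat_lit 0) (XT.lf (nat_lit 0) (nat_lit 155760278267) (nat_lit 76) (nat_lit 32153677959) (nat_lit 76) (nat_lit 31981179081) (nat_lit 1) (nat_lit 4) (nat_lit 2) (nat_lit 5) (nat_lit 2) (nat_lit 4) (nat_lit 305) (nat_lit 208) (nat_lit 207)) (XT.lf (nat_lit 0) (nat_lit 171307637014) (nat_lit 76) (nat_lit 33210094558) (nat_lit 76) (nat_lit 32877874496) (nat_lit 1) (nat_lit 4) (nat_lit 2) (nat_lit 5) (nat_lit 2) (nat_lit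 4) (nat_lit 306) (nat_lit 208) (nat_lit 206))) (XT.nd (nat_lit 78) (nat_lit 0) (nat_lit 0) (XT.lf (nat_lit 0) (nat_lit 187952297506) (nat_lit 76) (nat_lit 34414126267) (nat_lit 76) (nat_lit 33934016221) (nat_lit 1) (nat_lit 4) (nat_lit 2) (nat_lit 5) (nat_lit 2) (nat_lit 4) (nat_lit 307) (nat_lit 208) (nat_lit 205)) (XT.nd (nat_lit 78) (nat_lit 0) (nat_lit 0) (XT.lf (nat_lit 0) (nat_lit 205792894767) (nat_lit 76) (nat_lit 35772908091) (nat_lit 76) (nat_lit 35155862873) (nat_lit 1) (nat_lit 4) (nat_lit 2) (nat_lit 5) (nat_lit 2) (nat_lit 4) (nat_lit 308) (nat_lit 208) (nat_lit 204)) (XT.lf (nat_lit 0) (nat_lit 224935150857) (nat_lit 76) (nat_lit 37294492069) (nat_lit 76) (nat_lit 36550655026) (nat_lit 1) (nat_lit 4) (nat_lit 2) (nat_lit 5) (nat_lit 2) (nat_lit 4) (nat_lit 309) (nat_lit 208) (nat_lit 203)))))) (XT.nd (nat_lit 312) (nat_lit 0) (nat_lit 0) (XT.nd (nat_lit 156) (nat_lit 0)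 (nat_lit 0) (XT.nd (nat_lit 78) (nat_lit 0) (nat_lit 0) (XT.lf (nat_lit 0) (nat_lit 245492501365) (nat_lit 76) (nat_lit 38987894996) (nat_lit 76) (nat_lit 38126658115) (nat_lit 1) (nat_lit 4) (nat_lit 2) (nat_lit 5) (nat_lit 2) (nat_lit 4) (nat_lit 310) (nat_lit 208) (nat_lit 202)) (XT.lf (nat_lit 0) (nat_lit 267586767629) (nat_lit 76) (nat_lit 40863151852) (nat_lit 76) (nat_lit 39893211417) (nat_lit 1) (nat_lit 4) (nat_lit 2) (nat_lit 5) (nat_lit 2) (nat_lit 4) (nat_lit 311) (nat_lit 208) (nat_lit 201))) (XT.nd (nat_lit 78) (nat_lit 0) (nat_lit 0) (XT.lf (nat_lit 0) (nat_lit 291348878634) (nat_lit 76) (nat_lit 42931375270) (nat_lit 76) (nat_lit 41860783396) (nat_lit 1) (nat_lit 4) (nat_lit 2) (nat_lit 5) (nat_lit 2) (nat_lit 4) (nat_lit 312) (nat_lit 208) (nat_lit 200)) (XT.lf (nat_lit 0) (nat_lit 316919646889) (nat_lit 76) (nat_lit 45204821389) (nat_lit 76) (nat_lit 44041033739) (nat_lit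 1) (nat_lit 4) (nat_lit 2) (nat_lit 5) (nat_lit 2) (nat_lit 4) (nat_lit 313) (nat_lit 208) (nat_lit 199)))) (XT.nd (nat_lit 156) (nat_lit 0) (nat_lit 0) (XT.nd (nat_lit 78) (nat_lit 0) (nat_lit 0) (XT.lf (nat_lit 0) (nat_lit 344450602873) (nat_lit 76) (nat_lit 47696962481) (nat_lit 76) (nat_lit 46446882446) (nat_lit 1) (nat_lit 4) (nat_lit 2) (nat_lit 5) (nat_lit 2) (nat_lit 4) (nat_lit 314) (nat_lit 208) (nat_lit 198)) (XT.lf (nat_lit 0) (nat_lit 374104892993) (nat_lit 76) (nat_lit 50422566792) (nat_lit 76) (nat_lit 49092586399) (nat_lit 1) (nat_lit 4) (nat_lit 2) (nat_lit 5) (nat_lit 2) (nat_lit 4) (nat_lit 315) (nat_lit 208) (nat_lit 197))) (XT.nd (nat_lit 78) (nat_lit 0) (nat_lit 0) (XT.lf (nat_lit 0) (nat_lit 406058246374) (nat_lit 76) (nat_lit 53397786049) (nat_lit 76) (nat_lit 51993823844) (nat_lit 1) (nat_lit 4) (nat_lit 2) (nat_lit 5) (nat_lit 2) (nat_lit 4) (nat_lit 316) (nat_lit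 208) (nat_lit 196)) (XT.nd (nat_lit 78) (nat_lit 0) (nat_lit 0) (XT.lf (nat_lit 0) (nat_lit 440500016221) (nat_lit 76) (nat_lit 56640251182) (nat_lit 76) (nat_lit 55167787300) (nat_lit 1) (nat_lit 4) (nat_lit 2) (nat_lit 5) (nat_lit 2) (nat_lit 4) (nat_lit 317) (nat_lit 208) (nat_lit 195)) (XT.lf (nat_lit 0) (nat_lit 477634301913) (nat_lit 76) (nat_lit 60169176800) (nat_lit 76) (nat_lit 58633285437) (nat_lit 1) (nat_lit 4) (nat_lit 2) (nat_lit 5) (nat_lit 2) (nat_lit 4) (nat_lit 318) (nat_lit 208) (nat_lit 194))))))))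
noncomputable def xc3 : XT := (XT.nd (nat_lit 37128) (nat_lit 0) (nat_lit 0) (XT.nd (nat_lit 36426) (nat_lit 0) (nat_lit 0) (XT.nd (nat_lit 312) (nat_lit 0) (nat_lit 0) (XT.nd (nat_lit 156) (nat_lit 0) (nat_lit 0) (XT.nd (nat_lit 78) (nat_lit 0) (nat_lit 0) (XT.lf (nat_lit 0) (nat_lit 517681158474) (nat_lit 76) (nat_lit 64005475053) (nat_lit 76) (nat_lit 62410854543) (nat_lit 1) (nat_lit 4) (nat_lit 2) (nat_lit 5) (nat_lit 2) (nat_lit 4) (nat_lit 319) (nat_lit 208) (nat_lit 193)) (XT.lf (nat_lit 0) (nat_lit 560877900611) (nat_lit 76) (nat_lit 68171879561) (nat_lit 76) (nat_lit 66522880210) (nat_lit 1) (nat_lit 4) (nat_lit 2) (nat_lit 5) (nat_lit 2) (nat_lit 4) (nat_lit 320) (nat_lit 208) (nat_lit 192))) (XT.nd (nat_lit 78) (nat_lit 0) (nat_lit 0) (XT.lf (nat_lit 0) (nat_lit 607480509017) (nat_lit 76) (nat_lit 72693080129) (nat_lit 76) (nat_lit 70993730000) (nat_lit 1) (nat_lit 4) (nat_lit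 2) (nat_lit 5) (nat_lit 2) (nat_lit 4) (nat_lit 321) (nat_lit 208) (nat_lit 191)) (XT.lf (nat_lit 0) (nat_lit 657765147299) (nat_lit 76) (nat_lit 77595869056) (nat_lit 76) (nat_lit 75849897836) (nat_lit 1) (nat_lit 4) (nat_lit 2) (nat_lit 5) (nat_lit 2) (nat_lit 4) (nat_lit 322) (nat_lit 208) (nat_lit 190)))) (XT.nd (nat_lit 35958) (nat_lit 0) (nat_lit 0) (XT.nd (nat_lit 35880) (nat_lit 0) (nat_lit 0) (XT.lf (nat_lit 0) (nat_lit 712029798497) (nat_lit 76) (nat_lit 82909299906) (nat_lit 76) (nat_lit 81120161010) (nat_lit 1) (nat_lit 4) (nat_lit 2) (nat_lit 5) (nat_lit 2) (nat_lit 4) (nat_lit 323) (nat_lit 208) (nat_lit 189)) (XT.lf (nat_lit 0) (nat_lit 57449338329) (nat_lit 76) (nat_lit 14979877467) (nat_lit 76) (nat_lit 14979877467) (nat_lit 1) (nat_lit 4) (nat_lit 2) (nat_lit 5) (nat_lit 2) (nat_lit 4) (nat_lit 302) (nat_lit 209) (nat_lit 209))) (XT.nd (nat_lit 78) (nat_lit 0) (nat_lit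 0) (XT.lf (nat_lit 0) (nat_lit 127594892580) (nat_lit 76) (nat_lit 30645785558) (nat_lit 76) (nat_lit 30459486770) (nat_lit 1) (nat_lit 4) (nat_lit 2) (nat_lit 5) (nat_lit 2) (nat_lit 4) (nat_lit 303) (nat_lit 209) (nat_lit 208)) (XT.lf (nat_lit 0) (nat_lit 141135943391) (nat_lit 76) (nat_lit 31460300553) (nat_lit 76) (nat_lit 31101502887) (nat_lit 1) (nat_lit 4) (nat_lit 2) (nat_lit 5) (nat_lit 2) (nat_lit 4) (nat_lit 304) (nat_lit 209) (nat_lit 207))))) (XT.nd (nat_lit 312) (nat_lit 0) (nat_lit 0) (XT.nd (nat_lit 156) (nat_lit 0) (nat_lit 0) (XT.nd (nat_lit 78) (nat_lit 0) (nat_lit 0) (XT.lf (nat_lit 0) (nat_lit 155602072356) (nat_lit 76) (nat_lit 32408126674) (nat_lit 76) (nat_lit 31889607824) (nat_lit 1) (nat_lit 4) (nat_lit 2) (nat_lit 5) (nat_lit 2) (nat_lit 4) (nat_lit 305) (nat_lit 209) (nat_lit 206)) (XT.lf (nat_lit 0) (nat_lit 171079004682) (nat_lit 76) (nat_lit 33494880668)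 (nat_lit 76) (nat_lit 32828471833) (nat_lit 1) (nat_lit 4) (nat_lit 2) (nat_lit 5) (nat_lit 2) (nat_lit 4) (nat_lit 306) (nat_lit 209) (nat_lit 205))) (XT.nd (nat_lit 78) (nat_lit 0) (nat_lit 0) (XT.lf (nat_lit 0) (nat_lit 187658455525) (nat_lit 76) (nat_lit 34727002559) (nat_lit 76) (nat_lit 33923658553) (nat_lit 1) (nat_lit 4) (nat_lit 2) (nat_lit 5) (nat_lit 2) (nat_lit 4) (nat_lit 307) (nat_lit 209) (nat_lit 204)) (XT.lf (nat_lit 0) (nat_lit 205438673482) (nat_lit 76) (nat_lit 36111793810) (nat_lit 76) (nat_lit 35181657979) (nat_lit 1) (nat_lit 4) (nat_lit 2) (nat_lit 5) (nat_lit 2) (nat_lit 4) (nat_lit 308) (nat_lit 209) (nat_lit 203)))) (XT.nd (nat_lit 156) (nat_lit 0) (nat_lit 0) (XT.nd (nat_lit 78) (nat_lit 0) (nat_lit 0) (XT.lf (nat_lit 0) (nat_lit 224525022808) (nat_lit 76) (nat_lit 37657460592) (nat_lit 76) (nat_lit 36609924922) (nat_lit 1) (nat_lit 4) (nat_lit 2) (nat_lit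 5) (nat_lit 2) (nat_lit 4) (nat_lit 309) (nat_lit 209) (nat_lit 202)) (XT.lf (nat_lit 0) (nat_lit 245030607794) (nat_lit 76) (nat_lit 39373162410) (nat_lit 76) (nat_lit 38216923187) (nat_lit 1) (nat_lit 4) (nat_lit 2) (nat_lit 5) (nat_lit 2) (nat_lit 4) (nat_lit 310) (nat_lit 209) (nat_lit 201))) (XT.nd (nat_lit 78) (nat_lit 0) (nat_lit 0) (XT.lf (nat_lit 0) (nat_lit 267076943020) (nat_lit 76) (nat_lit 41269066388) (nat_lit 76) (nat_lit 40012175726) (nat_lit 1) (nat_lit 4) (nat_lit 2) (nat_lit 5) (nat_lit 2) (nat_lit 4) (nat_lit 311) (nat_lit 209) (nat_lit 200)) (XT.nd (nat_lit 78) (nat_lit 0) (nat_lit 0) (XT.lf (nat_lit 0) (nat_lit 290794673433) (nat_lit 76) (nat_lit 43356407511) (nat_lit 76) (nat_lit 42006321073) (nat_lit 1) (nat_lit 4) (nat_lit 2) (nat_lit 5) (nat_lit 2) (nat_lit 4) (nat_lit 312) (nat_lit 209) (nat_lit 199)) (XT.lf (nat_lit 0) (nat_lit 316324348549) (nat_lit 76) (nat_lit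 45647555209) (nat_lit 76) (nat_lit 44211176385) (nat_lit 1) (nat_lit 4) (nat_lit 2) (nat_lit 5) (nat_lit 2) (nat_lit 4) (nat_lit 313) (nat_lit 209) (nat_lit 198))))))) (XT.nd (nat_lit 702) (nat_lit 0) (nat_lit 0) (XT.nd (nat_lit 312) (nat_lit 0) (nat_lit 0) (XT.nd (nat_lit 156) (nat_lit 0) (nat_lit 0) (XT.nd (nat_lit 78) (nat_lit 0) (nat_lit 0) (XT.lf (nat_lit 0) (nat_lit 343817255329) (nat_lit 76) (nat_lit 48156086653) (nat_lit 76) (nat_lit 46639807472) (nat_lit 1) (nat_lit 4) (nat_lit 2) (nat_lit 5) (nat_lit 2) (nat_lit 4) (nat_lit 314) (nat_lit 209) (nat_lit 197)) (XT.lf (nat_lit 0) (nat_lit 373436314704) (nat_lit 76) (nat_lit 50896867215) (nat_lit 76) (nat_lit 49306606221) (nat_lit 1) (nat_lit 4) (nat_lit 2) (nat_lit 5) (nat_lit 2) (nat_lit 4) (nat_lit 315) (nat_lit 209) (nat_lit 196))) (XT.nd (nat_lit 78) (nat_lit 0) (nat_lit 0) (XT.lf (nat_lit 0) (nat_lit 405357047026) (nat_lit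 76) (nat_lit 53886138556) (nat_lit 76) (nat_lit 52227375885) (nat_lit 1) (nat_lit 4) (nat_lit 2) (nat_lit 5) (nat_lit 2) (nat_lit 4) (nat_lit 316) (nat_lit 209) (nat_lit 195)) (XT.lf (nat_lit 0) (nat_lit 439768612189) (nat_lit 76) (nat_lit 57141614879) (nat_lit 76) (nat_lit 55419424728) (nat_lit 1) (nat_lit 4) (nat_lit 2) (nat_lit 5) (nat_lit 2) (nat_lit 4) (nat_lit 317) (nat_lit 209) (nat_lit 194)))) (XT.nd (nat_lit 156) (nat_lit 0) (nat_lit 0) (XT.nd (nat_lit 78) (nat_lit 0) (nat_lit 0) (XT.lf (nat_lit 0) (nat_lit 476874930579) (nat_lit 76) (nat_lit 60682587893) (nat_lit 76) (nat_lit 58901668595) (nat_lit 1) (nat_lit 4) (nat_lit 2) (nat_lit 5) (nat_lit 2) (nat_lit 4) (nat_lit 318) (nat_lit 209) (nat_lit 193)) (XT.lf (nat_lit 0) (nat_lit 516895891492) (nat_lit 76) (nat_lit 64530041144) (nat_lit 76) (nat_lit 62694743005) (nat_lit 1) (nat_lit 4) (nat_lit 2) (nat_lit 5) (nat_lit 2) (nat_lit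 4) (nat_lit 319) (nat_lit 209) (nat_lit 192))) (XT.nd (nat_lit 78) (nat_lit 0) (nat_lit 0) (XT.lf (nat_lit 0) (nat_lit 560068656176) (nat_lit 76) (nat_lit 68706774354) (nat_lit 76) (nat_lit 66821125436) (nat_lit 1) (nat_lit 4) (nat_lit 2) (nat_lit 5) (nat_lit 2) (nat_lit 4) (nat_lit 320) (nat_lit 209) (nat_lit 191)) (XT.nd (nat_lit 78) (nat_lit 0) (nat_lit 0) (XT.lf (nat_lit 0) (nat_lit 606649063238) (nat_lit 76) (nat_lit 73237538534) (nat_lit 76) (nat_lit 71305268525) (nat_lit 1) (nat_lit 4) (nat_lit 2) (nat_lit 5) (nat_lit 2) (nat_lit 4) (nat_lit 321) (nat_lit 209) (nat_lit 190)) (XT.lf (nat_lit 0) (nat_lit 656913144718) (nat_lit 76) (nat_lit 78149182658) (nat_lit 76) (nat_lit 76173744972) (nat_lit 1) (nat_lit 4) (nat_lit 2) (nat_lit 5) (nat_lit 2) (nat_lit 4) (nat_lit 322) (nat_lit 209) (nat_lit 189)))))) (XT.nd (nat_lit 35958) (nat_lit 0) (nat_lit 0) (XT.nd (nat_lit 35802) (nat_lit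 0) (nat_lit 0) (XT.nd (nat_lit 35724) (nat_lit 0) (nat_lit 0) (XT.lf (nat_lit 0) (nat_lit 711158761842) (nat_lit 76) (nat_lit 83470812764) (nat_lit 76) (nat_lit 81455405008) (nat_lit 1) (nat_lit 4) (nat_lit 2) (nat_lit 5) (nat_lit 2) (nat_lit 4) (nat_lit 323) (nat_lit 209) (nat_lit 188)) (XT.lf (nat_lit 0) (nat_lit 45920088546) (nat_lit 76) (nat_lit 14558775813) (nat_lit 76) (nat_lit 14558775813) (nat_lit 1) (nat_lit 4) (nat_lit 2) (nat_lit 5) (nat_lit 2) (nat_lit 4) (nat_lit 300) (nat_lit 210) (nat_lit 210))) (XT.nd (nat_lit 78) (nat_lit 0) (nat_lit 0) (XT.lf (nat_lit 0) (nat_lit 102972058791) (nat_lit 76) (nat_lit 29599346004) (nat_lit 76) (nat_lit 29398143313) (nat_lit 1) (nat_lit 4) (nat_lit 2) (nat_lit 5) (nat_lit 2) (nat_lit 4) (nat_lit 301) (nat_lit 210) (nat_lit 209)) (XT.lf (nat_lit 0) (nat_lit 114809959651) (nat_lit 76) (nat_lit 30199174007) (nat_lit 76) (nat_lit 29811672527)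 (nat_lit 1) (nat_lit 4) (nat_lit 2) (nat_lit 5) (nat_lit 2) (nat_lit 4) (nat_lit 302) (nat_lit 210) (nat_lit 208)))) (XT.nd (nat_lit 156) (nat_lit 0) (nat_lit 0) (XT.nd (nat_lit 78) (nat_lit 0) (nat_lit 0) (XT.lf (nat_lit 0) (nat_lit 127424030196) (nat_lit 76) (nat_lit 30920590170) (nat_lit 76) (nat_lit 30360589812) (nat_lit 1) (nat_lit 4) (nat_lit 2) (nat_lit 5) (nat_lit 2) (nat_lit 4) (nat_lit 303) (nat_lit 210) (nat_lit 207)) (XT.lf (nat_lit 0) (nat_lit 140889020473) (nat_lit 76) (nat_lit 31767869553) (nat_lit 76) (nat_lit 31048148011) (nat_lit 1) (nat_lit 4) (nat_lit 2) (nat_lit 5) (nat_lit 2) (nat_lit 4) (nat_lit 304) (nat_lit 210) (nat_lit 206))) (XT.nd (nat_lit 78) (nat_lit 0) (nat_lit 0) (XT.lf (nat_lit 0) (nat_lit 155284723016) (nat_lit 76) (nat_lit 32746033070) (nat_lit 76) (nat_lit 31878421543) (nat_lit 1) (nat_lit 4) (nat_lit 2) (nat_lit 5) (nat_lit 2) (nat_lit 4) (nat_lit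 305) (nat_lit 210) (nat_lit 205)) (XT.nd (nat_lit 78) (nat_lit 0) (nat_lit 0) (XT.lf (nat_lit 0) (nat_lit 170696445694) (nat_lit 76) (nat_lit 33860877245) (nat_lit 76) (nat_lit 32856330547) (nat_lit 1) (nat_lit 4) (nat_lit 2) (nat_lit 5) (nat_lit 2) (nat_lit 4) (nat_lit 306) (nat_lit 210) (nat_lit 204)) (XT.lf (nat_lit 0) (nat_lit 187215517232) (nat_lit 76) (nat_lit 35119008564) (nat_lit 76) (nat_lit 33987670041) (nat_lit 1) (nat_lit 4) (nat_lit 2) (nat_lit 5) (nat_lit 2) (nat_lit 4) (nat_lit 307) (nat_lit 210) (nat_lit 203))))))))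
noncomputable def xc4 : XT := (XT.nd (nat_lit 36816) (nat_lit 0) (nat_lit 0) (XT.nd (nat_lit 624) (nat_lit 0) (nat_lit 0) (XT.nd (nat_lit 312) (nat_lit 0) (nat_lit 0) (XT.nd (nat_lit 156) (nat_lit 0) (nat_lit 0) (XT.nd (nat_lit 78) (nat_lit 0) (nat_lit 0) (XT.lf (nat_lit 0) (nat_lit 204939828426) (nat_lit 76) (nat_lit 36527882618) (nat_lit 76) (nat_lit 35279144257) (nat_lit 1) (nat_lit 4) (nat_lit 2) (nat_lit 5) (nat_lit 2) (nat_lit 4) (nat_lit 308) (nat_lit 210) (nat_lit 202)) (XT.lf (nat_lit 0) (nat_lit 223974412230) (nat_lit 76) (nat_lit 38095848291) (nat_lit 76) (nat_lit 36738406376) (nat_lit 1) (nat_lit 4) (nat_lit 2) (nat_lit 5) (nat_lit 2) (nat_lit 4) (nat_lit 309) (nat_lit 210) (nat_lit 201))) (XT.nd (nat_lit 78) (nat_lit 0) (nat_lit 0) (XT.lf (nat_lit 0) (nat_lit 244432066178) (nat_lit 76) (nat_lit 39832197231) (nat_lit 76) (nat_lit 38374103878) (nat_lit 1) (nat_lit 4) (nat_lit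 2) (nat_lit 5) (nat_lit 2) (nat_lit 4) (nat_lit 310) (nat_lit 210) (nat_lit 200)) (XT.lf (nat_lit 0) (nat_lit 266434020812) (nat_lit 76) (nat_lit 41747218915) (nat_lit 76) (nat_lit 40195929784) (nat_lit 1) (nat_lit 4) (nat_lit 2) (nat_lit 5) (nat_lit 2) (nat_lit 4) (nat_lit 311) (nat_lit 210) (nat_lit 199)))) (XT.nd (nat_lit 156) (nat_lit 0) (nat_lit 0) (XT.nd (nat_lit 78) (nat_lit 0) (nat_lit 0) (XT.lf (nat_lit 0) (nat_lit 290110658085) (nat_lit 76) (nat_lit 43852261617) (nat_lit 76) (nat_lit 42214680101) (nat_lit 1) (nat_lit 4) (nat_lit 2) (nat_lit 5) (nat_lit 2) (nat_lit 4) (nat_lit 312) (nat_lit 210) (nat_lit 198)) (XT.lf (nat_lit 0) (nat_lit 315602283997) (nat_lit 76) (nat_lit 46159799666) (nat_lit 76) (nat_lit 44442317793) (nat_lit 1) (nat_lit 4) (nat_lit 2) (nat_lit 5) (nat_lit 2) (nat_lit 4) (nat_lit 313) (nat_lit 210) (nat_lit 197))) (XT.nd (nat_lit 78) (nat_lit 0) (nat_lit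 0) (XT.lf (nat_lit 0) (nat_lit 343059960033) (nat_lit 76) (nat_lit 48683507361) (nat_lit 76) (nat_lit 46892043676) (nat_lit 1) (nat_lit 4) (nat_lit 2) (nat_lit 5) (nat_lit 2) (nat_lit 4) (nat_lit 314) (nat_lit 210) (nat_lit 196)) (XT.lf (nat_lit 0) (nat_lit 372646398349) (nat_lit 76) (nat_lit 51438340007) (nat_lit 76) (nat_lit 49578374644) (nat_lit 1) (nat_lit 4) (nat_lit 2) (nat_lit 5) (nat_lit 2) (nat_lit 4) (nat_lit 315) (nat_lit 210) (nat_lit 195))))) (XT.nd (nat_lit 312) (nat_lit 0) (nat_lit 0) (XT.nd (nat_lit 156) (nat_lit 0) (nat_lit 0) (XT.nd (nat_lit 78) (nat_lit 0) (nat_lit 0) (XT.lf (nat_lit 0) (nat_lit 404536925986) (nat_lit 76) (nat_lit 54440622537) (nat_lit 76) (nat_lit 52517229695) (nat_lit 1) (nat_lit 4) (nat_lit 2) (nat_lit 5) (nat_lit 2) (nat_lit 4) (nat_lit 316) (nat_lit 210) (nat_lit 194)) (XT.lf (nat_lit 0) (nat_lit 438920523848) (nat_lit 76) (nat_lit 57708146257)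 (nat_lit 76) (nat_lit 55726024267) (nat_lit 1) (nat_lit 4) (nat_lit 2) (nat_lit 5) (nat_lit 2) (nat_lit 4) (nat_lit 317) (nat_lit 210) (nat_lit 193))) (XT.nd (nat_lit 78) (nat_lit 0) (nat_lit 0) (XT.lf (nat_lit 0) (nat_lit 476000946590) (nat_lit 76) (nat_lit 61260274269) (nat_lit 76) (nat_lit 59223773438) (nat_lit 1) (nat_lit 4) (nat_lit 2) (nat_lit 5) (nat_lit 2) (nat_lit 4) (nat_lit 318) (nat_lit 210) (nat_lit 192)) (XT.lf (nat_lit 0) (nat_lit 515997930050) (nat_lit 76) (nat_lit 65118056221) (nat_lit 76) (nat_lit 63031204612) (nat_lit 1) (nat_lit 4) (nat_lit 2) (nat_lit 5) (nat_lit 2) (nat_lit 4) (nat_lit 319) (nat_lit 210) (nat_lit 191)))) (XT.nd (nat_lit 156) (nat_lit 0) (nat_lit 0) (XT.nd (nat_lit 78) (nat_lit 0) (nat_lit 0) (XT.lf (nat_lit 0) (nat_lit 559148493389) (nat_lit 76) (nat_lit 69304353043) (nat_lit 76) (nat_lit 67170880343) (nat_lit 1) (nat_lit 4) (nat_lit 2) (nat_lit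 5) (nat_lit 2) (nat_lit 4) (nat_lit 320) (nat_lit 210) (nat_lit 190)) (XT.lf (nat_lit 0) (nat_lit 605708343650) (nat_lit 76) (nat_lit 73843972420) (nat_lit 76) (nat_lit 71667332043) (nat_lit 1) (nat_lit 4) (nat_lit 2) (nat_lit 5) (nat_lit 2) (nat_lit 4) (nat_lit 321) (nat_lit 210) (nat_lit 189))) (XT.nd (nat_lit 78) (nat_lit 0) (nat_lit 0) (XT.lf (nat_lit 0) (nat_lit 655953391056) (nat_lit 76) (nat_lit 78763815800) (nat_lit 76) (nat_lit 76547205352) (nat_lit 1) (nat_lit 4) (nat_lit 2) (nat_lit 5) (nat_lit 2) (nat_lit 4) (nat_lit 322) (nat_lit 210) (nat_lit 188)) (XT.nd (nat_lit 35568) (nat_lit 0) (nat_lit 0) (XT.lf (nat_lit 0) (nat_lit 710181384035) (nat_lit 76) (nat_lit 84093037811) (nat_lit 76) (nat_lit 81839418038) (nat_lit 1) (nat_lit 4) (nat_lit 2) (nat_lit 5) (nat_lit 2) (nat_lit 4) (nat_lit 323) (nat_lit 210) (nat_lit 187)) (XT.lf (nat_lit 0) (nat_lit 35768938385) (nat_lit 76)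 (nat_lit 14335024645) (nat_lit 76) (nat_lit 14335024645) (nat_lit 1) (nat_lit 4) (nat_lit 2) (nat_lit 5) (nat_lit 2) (nat_lit 4) (nat_lit 298) (nat_lit 211) (nat_lit 211))))))) (XT.nd (nat_lit 702) (nat_lit 0) (nat_lit 0) (XT.nd (nat_lit 312) (nat_lit 0) (nat_lit 0) (XT.nd (nat_lit 156) (nat_lit 0) (nat_lit 0) (XT.nd (nat_lit 78) (nat_lit 0) (nat_lit 0) (XT.lf (nat_lit 0) (nat_lit 81348347847) (nat_lit 76) (nat_lit 28968234701) (nat_lit 76) (nat_lit 28750935794) (nat_lit 1) (nat_lit 4) (nat_lit 2) (nat_lit 5) (nat_lit 2) (nat_lit 4) (nat_lit 299) (nat_lit 211) (nat_lit 210)) (XT.lf (nat_lit 0) (nat_lit 91744362724) (nat_lit 76) (nat_lit 29376124225) (nat_lit 76) (nat_lit 28957622627) (nat_lit 1) (nat_lit 4) (nat_lit 2) (nat_lit 5) (nat_lit 2) (nat_lit 4) (nat_lit 300) (nat_lit 211) (nat_lit 209))) (XT.nd (nat_lit 78) (nat_lit 0) (nat_lit 0) (XT.lf (nat_lit 0) (nat_lit 102787527416) (nat_lit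 76) (nat_lit 29896134985) (nat_lit 76) (nat_lit 29291334598) (nat_lit 1) (nat_lit 4) (nat_lit 2) (nat_lit 5) (nat_lit 2) (nat_lit 4) (nat_lit 301) (nat_lit 211) (nat_lit 208)) (XT.lf (nat_lit 0) (nat_lit 114543282899) (nat_lit 76) (nat_lit 30531348527) (nat_lit 76) (nat_lit 29754049261) (nat_lit 1) (nat_lit 4) (nat_lit 2) (nat_lit 5) (nat_lit 2) (nat_lit 4) (nat_lit 302) (nat_lit 211) (nat_lit 207)))) (XT.nd (nat_lit 156) (nat_lit 0) (nat_lit 0) (XT.nd (nat_lit 78) (nat_lit 0) (nat_lit 0) (XT.lf (nat_lit 0) (nat_lit 127081292909) (nat_lit 76) (nat_lit 31285529078) (nat_lit 76) (nat_lit 30348508629) (nat_lit 1) (nat_lit 4) (nat_lit 2) (nat_lit 5) (nat_lit 2) (nat_lit 4) (nat_lit 303) (nat_lit 211) (nat_lit 206)) (XT.lf (nat_lit 0) (nat_lit 140475856765) (nat_lit 76) (nat_lit 32163145856) (nat_lit 76) (nat_lit 31078235422) (nat_lit 1) (nat_lit 4) (nat_lit 2) (nat_lit 5) (nat_lit 2) (nat_lit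 4) (nat_lit 304) (nat_lit 211) (nat_lit 205))) (XT.nd (nat_lit 78) (nat_lit 0) (nat_lit 0) (XT.lf (nat_lit 0) (nat_lit 154806349660) (nat_lit 76) (nat_lit 33169399554) (nat_lit 76) (nat_lit 31947553950) (nat_lit 1) (nat_lit 4) (nat_lit 2) (nat_lit 5) (nat_lit 2) (nat_lit 4) (nat_lit 305) (nat_lit 211) (nat_lit 204)) (XT.nd (nat_lit 78) (nat_lit 0) (nat_lit 0) (XT.lf (nat_lit 0) (nat_lit 170157693033) (nat_lit 76) (nat_lit 34310253157) (nat_lit 76) (nat_lit 32961615727) (nat_lit 1) (nat_lit 4) (nat_lit 2) (nat_lit 5) (nat_lit 2) (nat_lit 4) (nat_lit 306) (nat_lit 211) (nat_lit 203)) (XT.lf (nat_lit 0) (nat_lit 186620857808) (nat_lit 76) (nat_lit 35592467279) (nat_lit 76) (nat_lit 34126430011) (nat_lit 1) (nat_lit 4) (nat_lit 2) (nat_lit 5) (nat_lit 2) (nat_lit 4) (nat_lit 307) (nat_lit 211) (nat_lit 202)))))) (XT.nd (nat_lit 312) (nat_lit 0) (nat_lit 0) (XT.nd (nat_lit 156) (nat_lit 0)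 (nat_lit 0) (XT.nd (nat_lit 78) (nat_lit 0) (nat_lit 0) (XT.lf (nat_lit 0) (nat_lit 204293403480) (nat_lit 76) (nat_lit 37023640224) (nat_lit 76) (nat_lit 35448899402) (nat_lit 1) (nat_lit 4) (nat_lit 2) (nat_lit 5) (nat_lit 2) (nat_lit 4) (nat_lit 308) (nat_lit 211) (nat_lit 201)) (XT.lf (nat_lit 0) (nat_lit 223280056245) (nat_lit 76) (nat_lit 38612253019) (nat_lit 76) (nat_lit 36936860759) (nat_lit 1) (nat_lit 4) (nat_lit 2) (nat_lit 5) (nat_lit 2) (nat_lit 4) (nat_lit 309) (nat_lit 211) (nat_lit 200))) (XT.nd (nat_lit 78) (nat_lit 0) (nat_lit 0) (XT.lf (nat_lit 0) (nat_lit 243693329602) (nat_lit 76) (nat_lit 40367719665) (nat_lit 76) (nat_lit 38599131628) (nat_lit 1) (nat_lit 4) (nat_lit 2) (nat_lit 5) (nat_lit 2) (nat_lit 4) (nat_lit 310) (nat_lit 211) (nat_lit 199)) (XT.lf (nat_lit 0) (nat_lit 265654191096) (nat_lit 76) (nat_lit 42300442928) (nat_lit 76) (nat_lit 40445562505) (nat_lit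 1) (nat_lit 4) (nat_lit 2) (nat_lit 5) (nat_lit 2) (nat_lit 4) (nat_lit 311) (nat_lit 211) (nat_lit 198)))) (XT.nd (nat_lit 156) (nat_lit 0) (nat_lit 0) (XT.nd (nat_lit 78) (nat_lit 0) (nat_lit 0) (XT.lf (nat_lit 0) (nat_lit 289292779166) (nat_lit 76) (nat_lit 44421875981) (nat_lit 76) (nat_lit 42487095201) (nat_lit 1) (nat_lit 4) (nat_lit 2) (nat_lit 5) (nat_lit 2) (nat_lit 4) (nat_lit 312) (nat_lit 211) (nat_lit 197)) (XT.lf (nat_lit 0) (nat_lit 314749174333) (nat_lit 76) (nat_lit 46744590281) (nat_lit 76) (nat_lit 44735827689) (nat_lit 1) (nat_lit 4) (nat_lit 2) (nat_lit 5) (nat_lit 2) (nat_lit 4) (nat_lit 313) (nat_lit 211) (nat_lit 196))) (XT.nd (nat_lit 78) (nat_lit 0) (nat_lit 0) (XT.lf (nat_lit 0) (nat_lit 342174229310) (nat_lit 76) (nat_lit 49282350060) (nat_lit 76) (nat_lit 47205085790) (nat_lit 1) (nat_lit 4) (nat_lit 2) (nat_lit 5) (nat_lit 2) (nat_lit 4) (nat_lit 314) (nat_lit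 211) (nat_lit 195)) (XT.nd (nat_lit 78) (nat_lit 0) (nat_lit 0) (XT.lf (nat_lit 0) (nat_lit 371730462941) (nat_lit 76) (nat_lit 52050193895) (nat_lit 76) (nat_lit 49909502146) (nat_lit 1) (nat_lit 4) (nat_lit 2) (nat_lit 5) (nat_lit 2) (nat_lit 4) (nat_lit 315) (nat_lit 211) (nat_lit 194)) (XT.lf (nat_lit 0) (nat_lit 403593023277) (nat_lit 76) (nat_lit 55064523823) (nat_lit 76) (nat_lit 52865102926) (nat_lit 1) (nat_lit 4) (nat_lit 2) (nat_lit 5) (nat_lit 2) (nat_lit 4) (nat_lit 316) (nat_lit 211) (nat_lit 193))))))))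
noncomputable def xc5 : XT := (XT.nd (nat_lit 36660) (nat_lit 0) (nat_lit 0) (XT.nd (nat_lit 35958) (nat_lit 0) (nat_lit 0) (XT.nd (nat_lit 312) (nat_lit 0) (nat_lit 0) (XT.nd (nat_lit 156) (nat_lit 0) (nat_lit 0) (XT.nd (nat_lit 78) (nat_lit 0) (nat_lit 0) (XT.lf (nat_lit 0) (nat_lit 437950725491) (nat_lit 76) (nat_lit 58343202540) (nat_lit 76) (nat_lit 56089402803) (nat_lit 1) (nat_lit 4) (nat_lit 2) (nat_lit 5) (nat_lit 2) (nat_lit 4) (nat_lit 317) (nat_lit 211) (nat_lit 192)) (XT.lf (nat_lit 0) (nat_lit 475007170780) (nat_lit 76) (nat_lit 61905659254) (nat_lit 76) (nat_lit 59601508738) (nat_lit 1) (nat_lit 4) (nat_lit 2) (nat_lit 5) (nat_lit 2) (nat_lit 4) (nat_lit 318) (nat_lit 211) (nat_lit 191))) (XT.nd (nat_lit 78) (nat_lit 0) (nat_lit 0) (XT.lf (nat_lit 0) (nat_lit 514981952895) (nat_lit 76) (nat_lit 65773004818) (nat_lit 76) (nat_lit 63422233212) (nat_lit 1) (nat_lit 4) (nat_lit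 2) (nat_lit 5) (nat_lit 2) (nat_lit 4) (nat_lit 319) (nat_lit 211) (nat_lit 190)) (XT.lf (nat_lit 0) (nat_lit 558111959434) (nat_lit 76) (nat_lit 69968156837) (nat_lit 76) (nat_lit 67574217553) (nat_lit 1) (nat_lit 4) (nat_lit 2) (nat_lit 5) (nat_lit 2) (nat_lit 4) (nat_lit 320) (nat_lit 211) (nat_lit 189)))) (XT.nd (nat_lit 156) (nat_lit 0) (nat_lit 0) (XT.nd (nat_lit 78) (nat_lit 0) (nat_lit 0) (XT.lf (nat_lit 0) (nat_lit 604652775619) (nat_lit 76) (nat_lit 74515975470) (nat_lit 76) (nat_lit 72082066115) (nat_lit 1) (nat_lit 4) (nat_lit 2) (nat_lit 5) (nat_lit 2) (nat_lit 4) (nat_lit 321) (nat_lit 211) (nat_lit 188)) (XT.lf (nat_lit 0) (nat_lit 654880198882) (nat_lit 76) (nat_lit 79443410754) (nat_lit 76) (nat_lit 76972492074) (nat_lit 1) (nat_lit 4) (nat_lit 2) (nat_lit 5) (nat_lit 2) (nat_lit 4) (nat_lit 322) (nat_lit 211) (nat_lit 187))) (XT.nd (nat_lit 35412) (nat_lit 0) (nat_lit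 0) (XT.lf (nat_lit 0) (nat_lit 709091873210) (nat_lit 76) (nat_lit 84779662305) (nat_lit 76) (nat_lit 82274475732) (nat_lit 1) (nat_lit 4) (nat_lit 2) (nat_lit 5) (nat_lit 2) (nat_lit 4) (nat_lit 323) (nat_lit 211) (nat_lit 186)) (XT.lf (nat_lit 0) (nat_lit 26777952389) (nat_lit 76) (nat_lit 14291451759) (nat_lit 76) (nat_lit 14291451759) (nat_lit 1) (nat_lit 4) (nat_lit 2) (nat_lit 5) (nat_lit 2) (nat_lit 4) (nat_lit 296) (nat_lit 212) (nat_lit 212))))) (XT.nd (nat_lit 312) (nat_lit 0) (nat_lit 0) (XT.nd (nat_lit 156) (nat_lit 0) (nat_lit 0) (XT.nd (nat_lit 78) (nat_lit 0) (nat_lit 0) (XT.lf (nat_lit 0) (nat_lit 62254813370) (nat_lit 76) (nat_lit 28714483786) (nat_lit 76) (nat_lit 28479800966) (nat_lit 1) (nat_lit 4) (nat_lit 2) (nat_lit 5) (nat_lit 2) (nat_lit 4) (nat_lit 297) (nat_lit 212) (nat_lit 211)) (XT.lf (nat_lit 0) (nat_lit 71434397253) (nat_lit 76) (nat_lit 28949307697) (nat_lit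 76) (nat_lit 28497325970) (nat_lit 1) (nat_lit 4) (nat_lit 2) (nat_lit 5) (nat_lit 2) (nat_lit 4) (nat_lit 298) (nat_lit 212) (nat_lit 210))) (XT.nd (nat_lit 78) (nat_lit 0) (nat_lit 0) (XT.lf (nat_lit 0) (nat_lit 81149053962) (nat_lit 76) (nat_lit 29288766800) (nat_lit 76) (nat_lit 28635582382) (nat_lit 1) (nat_lit 4) (nat_lit 2) (nat_lit 5) (nat_lit 2) (nat_lit 4) (nat_lit 299) (nat_lit 212) (nat_lit 209)) (XT.lf (nat_lit 0) (nat_lit 91456351831) (nat_lit 76) (nat_lit 29734872706) (nat_lit 76) (nat_lit 28895389500) (nat_lit 1) (nat_lit 4) (nat_lit 2) (nat_lit 5) (nat_lit 2) (nat_lit 4) (nat_lit 300) (nat_lit 212) (nat_lit 208)))) (XT.nd (nat_lit 156) (nat_lit 0) (nat_lit 0) (XT.nd (nat_lit 78) (nat_lit 0) (nat_lit 0) (XT.lf (nat_lit 0) (nat_lit 102417371146) (nat_lit 76) (nat_lit 30290269005) (nat_lit 76) (nat_lit 29278286920) (nat_lit 1) (nat_lit 4) (nat_lit 2) (nat_lit 5) (nat_lit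 2) (nat_lit 4) (nat_lit 301) (nat_lit 212) (nat_lit 207)) (XT.lf (nat_lit 0) (nat_lit 114097066095) (nat_lit 76) (nat_lit 30958246934) (nat_lit 76) (nat_lit 29786543666) (nat_lit 1) (nat_lit 4) (nat_lit 2) (nat_lit 5) (nat_lit 2) (nat_lit 4) (nat_lit 302) (nat_lit 212) (nat_lit 206))) (XT.nd (nat_lit 78) (nat_lit 0) (nat_lit 0) (XT.lf (nat_lit 0) (nat_lit 126564649684) (nat_lit 76) (nat_lit 31742764881) (nat_lit 76) (nat_lit 30423171628) (nat_lit 1) (nat_lit 4) (nat_lit 2) (nat_lit 5) (nat_lit 2) (nat_lit 4) (nat_lit 303) (nat_lit 212) (nat_lit 205)) (XT.nd (nat_lit 78) (nat_lit 0) (nat_lit 0) (XT.lf (nat_lit 0) (nat_lit 139894003891) (nat_lit 76) (nat_lit 32648471841) (nat_lit 76) (nat_lit 31191943417) (nat_lit 1) (nat_lit 4) (nat_lit 2) (nat_lit 5) (nat_lit 2) (nat_lit 4) (nat_lit 304) (nat_lit 212) (nat_lit 204)) (XT.lf (nat_lit 0) (nat_lit 154164117482) (nat_lit 76) (nat_lit 33680734967)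 (nat_lit 76) (nat_lit 32097414717) (nat_lit 1) (nat_lit 4) (nat_lit 2) (nat_lit 5) (nat_lit 2) (nat_lit 4) (nat_lit 305) (nat_lit 212) (nat_lit 203))))))) (XT.nd (nat_lit 702) (nat_lit 0) (nat_lit 0) (XT.nd (nat_lit 312) (nat_lit 0) (nat_lit 0) (XT.nd (nat_lit 156) (nat_lit 0) (nat_lit 0) (XT.nd (nat_lit 78) (nat_lit 0) (nat_lit 0) (XT.lf (nat_lit 0) (nat_lit 169459554091) (nat_lit 76) (nat_lit 34845671372) (nat_lit 76) (nat_lit 33144951285) (nat_lit 1) (nat_lit 4) (nat_lit 2) (nat_lit 5) (nat_lit 2) (nat_lit 4) (nat_lit 306) (nat_lit 212) (nat_lit 202)) (XT.lf (nat_lit 0) (nat_lit 185870953345) (nat_lit 76) (nat_lit 36150184385) (nat_lit 76) (nat_lit 34340760744) (nat_lit 1) (nat_lit 4) (nat_lit 2) (nat_lit 5) (nat_lit 2) (nat_lit 4) (nat_lit 307) (nat_lit 212) (nat_lit 201))) (XT.nd (nat_lit 78) (nat_lit 0) (nat_lit 0) (XT.lf (nat_lit 0) (nat_lit 203495567978) (nat_lit 76) (nat_lit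 37602004453) (nat_lit 76) (nat_lit 35691929373) (nat_lit 1) (nat_lit 4) (nat_lit 2) (nat_lit 5) (nat_lit 2) (nat_lit 4) (nat_lit 308) (nat_lit 212) (nat_lit 200)) (XT.lf (nat_lit 0) (nat_lit 222437840152) (nat_lit 76) (nat_lit 39209734954) (nat_lit 76) (nat_lit 37206464097) (nat_lit 1) (nat_lit 4) (nat_lit 2) (nat_lit 5) (nat_lit 2) (nat_lit 4) (nat_lit 309) (nat_lit 212) (nat_lit 199)))) (XT.nd (nat_lit 156) (nat_lit 0) (nat_lit 0) (XT.nd (nat_lit 78) (nat_lit 0) (nat_lit 0) (XT.lf (nat_lit 0) (nat_lit 242810020369) (nat_lit 76) (nat_lit 40982903179) (nat_lit 76) (nat_lit 38893339936) (nat_lit 1) (nat_lit 4) (nat_lit 2) (nat_lit 5) (nat_lit 2) (nat_lit 4) (nat_lit 310) (nat_lit 212) (nat_lit 198)) (XT.lf (nat_lit 0) (nat_lit 264732832659) (nat_lit 76) (nat_lit 42932016792) (nat_lit 76) (nat_lit 40762553193) (nat_lit 1) (nat_lit 4) (nat_lit 2) (nat_lit 5) (nat_lit 2) (nat_lit 4) (nat_lit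 311) (nat_lit 212) (nat_lit 197))) (XT.nd (nat_lit 78) (nat_lit 0) (nat_lit 0) (XT.lf (nat_lit 0) (nat_lit 288336189985) (nat_lit 76) (nat_lit 45068626097) (nat_lit 76) (nat_lit 42825180685) (nat_lit 1) (nat_lit 4) (nat_lit 2) (nat_lit 5) (nat_lit 2) (nat_lit 4) (nat_lit 312) (nat_lit 212) (nat_lit 196)) (XT.nd (nat_lit 78) (nat_lit 0) (nat_lit 0) (XT.lf (nat_lit 0) (nat_lit 313759964093) (nat_lit 76) (nat_lit 47405392481) (nat_lit 76) (nat_lit 45093445391) (nat_lit 1) (nat_lit 4) (nat_lit 2) (nat_lit 5) (nat_lit 2) (nat_lit 4) (nat_lit 313) (nat_lit 212) (nat_lit 195)) (XT.lf (nat_lit 0) (nat_lit 341154814385) (nat_lit 76) (nat_lit 49956163449) (nat_lit 76) (nat_lit 47580788880) (nat_lit 1) (nat_lit 4) (nat_lit 2) (nat_lit 5) (nat_lit 2) (nat_lit 4) (nat_lit 314) (nat_lit 212) (nat_lit 194)))))) (XT.nd (nat_lit 312) (nat_lit 0) (nat_lit 0) (XT.nd (nat_lit 156) (nat_lit 0) (nat_lit 0)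 (XT.nd (nat_lit 78) (nat_lit 0) (nat_lit 0) (XT.lf (nat_lit 0) (nat_lit 370683080715) (nat_lit 76) (nat_lit 52736054681) (nat_lit 76) (nat_lit 50301950965) (nat_lit 1) (nat_lit 4) (nat_lit 2) (nat_lit 5) (nat_lit 2) (nat_lit 4) (nat_lit 315) (nat_lit 212) (nat_lit 193)) (XT.lf (nat_lit 0) (nat_lit 402519745402) (nat_lit 76) (nat_lit 55761539607) (nat_lit 76) (nat_lit 53273057050) (nat_lit 1) (nat_lit 4) (nat_lit 2) (nat_lit 5) (nat_lit 2) (nat_lit 4) (nat_lit 316) (nat_lit 212) (nat_lit 192))) (XT.nd (nat_lit 78) (nat_lit 0) (nat_lit 0) (XT.lf (nat_lit 0) (nat_lit 436853470163) (nat_lit 76) (nat_lit 59050547026) (nat_lit 76) (nat_lit 56511713690) (nat_lit 1) (nat_lit 4) (nat_lit 2) (nat_lit 5) (nat_lit 2) (nat_lit 4) (nat_lit 317) (nat_lit 212) (nat_lit 191)) (XT.lf (nat_lit 0) (nat_lit 473887714108) (nat_lit 76) (nat_lit 62622567352) (nat_lit 76) (nat_lit 60037112925) (nat_lit 1) (nat_lit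 4) (nat_lit 2) (nat_lit 5) (nat_lit 2) (nat_lit 4) (nat_lit 318) (nat_lit 212) (nat_lit 190)))) (XT.nd (nat_lit 156) (nat_lit 0) (nat_lit 0) (XT.nd (nat_lit 78) (nat_lit 0) (nat_lit 0) (XT.lf (nat_lit 0) (nat_lit 513841939422) (nat_lit 76) (nat_lit 66498768113) (nat_lit 76) (nat_lit 63870146009) (nat_lit 1) (nat_lit 4) (nat_lit 2) (nat_lit 5) (nat_lit 2) (nat_lit 4) (nat_lit 319) (nat_lit 212) (nat_lit 189)) (XT.lf (nat_lit 0) (nat_lit 556952911886) (nat_lit 76) (nat_lit 70702119388) (nat_lit 76) (nat_lit 68033527213) (nat_lit 1) (nat_lit 4) (nat_lit 2) (nat_lit 5) (nat_lit 2) (nat_lit 4) (nat_lit 320) (nat_lit 212) (nat_lit 188))) (XT.nd (nat_lit 78) (nat_lit 0) (nat_lit 0) (XT.lf (nat_lit 0) (nat_lit 603476103928) (nat_lit 76) (nat_lit 75257529925) (nat_lit 76) (nat_lit 72551928425) (nat_lit 1) (nat_lit 4) (nat_lit 2) (nat_lit 5) (nat_lit 2) (nat_lit 4) (nat_lit 321) (nat_lit 212)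 (nat_lit 187)) (XT.nd (nat_lit 78) (nat_lit 0) (nat_lit 0) (XT.lf (nat_lit 0) (nat_lit 653687208539) (nat_lit 76) (nat_lit 80191994749) (nat_lit 76) (nat_lit 77452125356) (nat_lit 1) (nat_lit 4) (nat_lit 2) (nat_lit 5) (nat_lit 2) (nat_lit 4) (nat_lit 322) (nat_lit 212) (nat_lit 186)) (XT.lf (nat_lit 0) (nat_lit 707883773005) (nat_lit 76) (nat_lit 85534755134) (nat_lit 76) (nat_lit 82763156210) (nat_lit 1) (nat_lit 4) (nat_lit 2) (nat_lit 5) (nat_lit 2) (nat_lit 4) (nat_lit 323) (nat_lit 212) (nat_lit 185))))))))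
noncomputable def xc6 : XT := (XT.nd (nat_lit 1326) (nat_lit 0) (nat_lit 0) (XT.nd (nat_lit 624) (nat_lit 0) (nat_lit 0) (XT.nd (nat_lit 312) (nat_lit 0) (nat_lit 0) (XT.nd (nat_lit 156) (nat_lit 0) (nat_lit 0) (XT.nd (nat_lit 78) (nat_lit 0) (nat_lit 0) (XT.lf (nat_lit 0) (nat_lit 18758579298) (nat_lit 76) (nat_lit 14414213324) (nat_lit 76) (nat_lit 14414213324) (nat_lit 1) (nat_lit 4) (nat_lit 2) (nat_lit 5) (nat_lit 2) (nat_lit 4) (nat_lit 294) (nat_lit 213) (nat_lit 213)) (XT.lf (nat_lit 0) (nat_lit 45286122390) (nat_lit 76) (nat_lit 28807244606) (nat_lit 76) (nat_lit 28553787160) (nat_lit 1) (nat_lit 4) (nat_lit 2) (nat_lit 5) (nat_lit 2) (nat_lit 4) (nat_lit 295) (nat_lit 213) (nat_lit 212))) (XT.nd (nat_lit 78) (nat_lit 0) (nat_lit 0) (XT.lf (nat_lit 0) (nat_lit 53444146900) (nat_lit 76) (nat_lit 28884502599) (nat_lit 76) (nat_lit 28396362334) (nat_lit 1) (nat_lit 4) (nat_lit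 2) (nat_lit 5) (nat_lit 2) (nat_lit 4) (nat_lit 296) (nat_lit 213) (nat_lit 211)) (XT.lf (nat_lit 0) (nat_lit 62039575974) (nat_lit 76) (nat_lit 29060658453) (nat_lit 76) (nat_lit 28355219282) (nat_lit 1) (nat_lit 4) (nat_lit 2) (nat_lit 5) (nat_lit 2) (nat_lit 4) (nat_lit 297) (nat_lit 213) (nat_lit 210)))) (XT.nd (nat_lit 156) (nat_lit 0) (nat_lit 0) (XT.nd (nat_lit 78) (nat_lit 0) (nat_lit 0) (XT.lf (nat_lit 0) (nat_lit 71123345489) (nat_lit 76) (nat_lit 29336756056) (nat_lit 76) (nat_lit 28430114193) (nat_lit 1) (nat_lit 4) (nat_lit 2) (nat_lit 5) (nat_lit 2) (nat_lit 4) (nat_lit 298) (nat_lit 213) (nat_lit 209)) (XT.lf (nat_lit 0) (nat_lit 80749285190) (nat_lit 76) (nat_lit 29714431542) (nat_lit 76) (nat_lit 28621490890) (nat_lit 1) (nat_lit 4) (nat_lit 2) (nat_lit 5) (nat_lit 2) (nat_lit 4) (nat_lit 299) (nat_lit 213) (nat_lit 208))) (XT.nd (nat_lit 78) (nat_lit 0) (nat_lit 0)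 (XT.lf (nat_lit 0) (nat_lit 90974437683) (nat_lit 76) (nat_lit 30195922986) (nat_lit 76) (nat_lit 28930483456) (nat_lit 1) (nat_lit 4) (nat_lit 2) (nat_lit 5) (nat_lit 2) (nat_lit 4) (nat_lit 300) (nat_lit 213) (nat_lit 207)) (XT.lf (nat_lit 0) (nat_lit 101859396464) (nat_lit 76) (nat_lit 30784083673) (nat_lit 76) (nat_lit 29358922959) (nat_lit 1) (nat_lit 4) (nat_lit 2) (nat_lit 5) (nat_lit 2) (nat_lit 4) (nat_lit 301) (nat_lit 213) (nat_lit 206))))) (XT.nd (nat_lit 312) (nat_lit 0) (nat_lit 0) (XT.nd (nat_lit 156) (nat_lit 0) (nat_lit 0) (XT.nd (nat_lit 78) (nat_lit 0) (nat_lit 0) (XT.lf (nat_lit 0) (nat_lit 113468664991) (nat_lit 76) (nat_lit 31482398998) (nat_lit 76) (nat_lit 29909348299) (nat_lit 1) (nat_lit 4) (nat_lit 2) (nat_lit 5) (nat_lit 2) (nat_lit 4) (nat_lit 302) (nat_lit 213) (nat_lit 205)) (XT.lf (nat_lit 0) (nat_lit 125871038932) (nat_lit 76) (nat_lit 32295007126) (nat_lit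 76) (nat_lit 30585021257) (nat_lit 1) (nat_lit 4) (nat_lit 2) (nat_lit 5) (nat_lit 2) (nat_lit 4) (nat_lit 303) (nat_lit 213) (nat_lit 204))) (XT.nd (nat_lit 78) (nat_lit 0) (nat_lit 0) (XT.lf (nat_lit 0) (nat_lit 139140013835) (nat_lit 76) (nat_lit 33226723513) (nat_lit 76) (nat_lit 31389945819) (nat_lit 1) (nat_lit 4) (nat_lit 2) (nat_lit 5) (nat_lit 2) (nat_lit 4) (nat_lit 304) (nat_lit 213) (nat_lit 203)) (XT.lf (nat_lit 0) (nat_lit 153354220661) (nat_lit 76) (nat_lit 34283069442) (nat_lit 76) (nat_lit 32328891909) (nat_lit 1) (nat_lit 4) (nat_lit 2) (nat_lit 5) (nat_lit 2) (nat_lit 4) (nat_lit 305) (nat_lit 213) (nat_lit 202)))) (XT.nd (nat_lit 156) (nat_lit 0) (nat_lit 0) (XT.nd (nat_lit 78) (nat_lit 0) (nat_lit 0) (XT.lf (nat_lit 0) (nat_lit 168597891749) (nat_lit 76) (nat_lit 35470304739) (nat_lit 76) (nat_lit 33407423653) (nat_lit 1) (nat_lit 4) (nat_lit 2) (nat_lit 5) (nat_lit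 2) (nat_lit 4) (nat_lit 306) (nat_lit 213) (nat_lit 201)) (XT.lf (nat_lit 0) (nat_lit 184961359964) (nat_lit 76) (nat_lit 36795464874) (nat_lit 76) (nat_lit 34631932349) (nat_lit 1) (nat_lit 4) (nat_lit 2) (nat_lit 5) (nat_lit 2) (nat_lit 4) (nat_lit 307) (nat_lit 213) (nat_lit 200))) (XT.nd (nat_lit 78) (nat_lit 0) (nat_lit 0) (XT.lf (nat_lit 0) (nat_lit 202541594006) (nat_lit 76) (nat_lit 38266402648) (nat_lit 76) (nat_lit 36009674346) (nat_lit 1) (nat_lit 4) (nat_lit 2) (nat_lit 5) (nat_lit 2) (nat_lit 4) (nat_lit 308) (nat_lit 213) (nat_lit 199)) (XT.nd (nat_lit 78) (nat_lit 0) (nat_lit 0) (XT.lf (nat_lit 0) (nat_lit 221442773040) (nat_lit 76) (nat_lit 39891834727) (nat_lit 76) (nat_lit 37548814040) (nat_lit 1) (nat_lit 4) (nat_lit 2) (nat_lit 5) (nat_lit 2) (nat_lit 4) (nat_lit 309) (nat_lit 213) (nat_lit 198)) (XT.lf (nat_lit 0) (nat_lit 241776904053) (nat_lit 76) (nat_lit 41681393303)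 (nat_lit 76) (nat_lit 39258472259) (nat_lit 1) (nat_lit 4) (nat_lit 2) (nat_lit 5) (nat_lit 2) (nat_lit 4) (nat_lit 310) (nat_lit 213) (nat_lit 197))))))) (XT.nd (nat_lit 702) (nat_lit 0) (nat_lit 0) (XT.nd (nat_lit 312) (nat_lit 0) (nat_lit 0) (XT.nd (nat_lit 156) (nat_lit 0) (nat_lit 0) (XT.nd (nat_lit 78) (nat_lit 0) (nat_lit 0) (XT.lf (nat_lit 0) (nat_lit 263664485599) (nat_lit 76) (nat_lit 43645683168) (nat_lit 76) (nat_lit 41148780311) (nat_lit 1) (nat_lit 4) (nat_lit 2) (nat_lit 5) (nat_lit 2) (nat_lit 4) (nat_lit 311) (nat_lit 213) (nat_lit 196)) (XT.lf (nat_lit 0) (nat_lit 287235221865) (nat_lit 76) (nat_lit 45796344557) (nat_lit 76) (nat_lit 43230940022) (nat_lit 1) (nat_lit 4) (nat_lit 2) (nat_lit 5) (nat_lit 2) (nat_lit 4) (nat_lit 312) (nat_lit 213) (nat_lit 195))) (XT.nd (nat_lit 78) (nat_lit 0) (nat_lit 0) (XT.lf (nat_lit 0) (nat_lit 312628791289) (nat_lit 76) (nat_lit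 48146122130) (nat_lit 76) (nat_lit 45517290116) (nat_lit 1) (nat_lit 4) (nat_lit 2) (nat_lit 5) (nat_lit 2) (nat_lit 4) (nat_lit 313) (nat_lit 213) (nat_lit 194)) (XT.lf (nat_lit 0) (nat_lit 339995674280) (nat_lit 76) (nat_lit 50708940496) (nat_lit 76) (nat_lit 48021379334) (nat_lit 1) (nat_lit 4) (nat_lit 2) (nat_lit 5) (nat_lit 2) (nat_lit 4) (nat_lit 314) (nat_lit 213) (nat_lit 193)))) (XT.nd (nat_lit 156) (nat_lit 0) (nat_lit 0) (XT.nd (nat_lit 78) (nat_lit 0) (nat_lit 0) (XT.lf (nat_lit 0) (nat_lit 369498044962) (nat_lit 76) (nat_lit 53499986725) (nat_lit 76) (nat_lit 50758046723) (nat_lit 1) (nat_lit 4) (nat_lit 2) (nat_lit 5) (nat_lit 2) (nat_lit 4) (nat_lit 315) (nat_lit 213) (nat_lit 192)) (XT.lf (nat_lit 0) (nat_lit 401310732197) (nat_lit 76) (nat_lit 56535800352) (nat_lit 76) (nat_lit 53743509572) (nat_lit 1) (nat_lit 4) (nat_lit 2) (nat_lit 5) (nat_lit 2) (nat_lit 4) (nat_lit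 316) (nat_lit 213) (nat_lit 191))) (XT.nd (nat_lit 78) (nat_lit 0) (nat_lit 0) (XT.lf (nat_lit 0) (nat_lit 435622255613) (nat_lit 76) (nat_lit 59834371383) (nat_lit 76) (nat_lit 56995459512) (nat_lit 1) (nat_lit 4) (nat_lit 2) (nat_lit 5) (nat_lit 2) (nat_lit 4) (nat_lit 317) (nat_lit 213) (nat_lit 190)) (XT.nd (nat_lit 78) (nat_lit 0) (nat_lit 0) (XT.lf (nat_lit 0) (nat_lit 472635942756) (nat_lit 76) (nat_lit 63415246906) (nat_lit 76) (nat_lit 60533167358) (nat_lit 1) (nat_lit 4) (nat_lit 2) (nat_lit 5) (nat_lit 2) (nat_lit 4) (nat_lit 318) (nat_lit 213) (nat_lit 189)) (XT.lf (nat_lit 0) (nat_lit 512571133995) (nat_lit 76) (nat_lit 67299646923) (nat_lit 76) (nat_lit 64377597304) (nat_lit 1) (nat_lit 4) (nat_lit 2) (nat_lit 5) (nat_lit 2) (nat_lit 4) (nat_lit 319) (nat_lit 213) (nat_lit 188)))))) (XT.nd (nat_lit 35334) (nat_lit 0) (nat_lit 0) (XT.nd (nat_lit 156) (nat_lit 0) (nat_lit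 0) (XT.nd (nat_lit 78) (nat_lit 0) (nat_lit 0) (XT.lf (nat_lit 0) (nat_lit 555664482316) (nat_lit 76) (nat_lit 71510590102) (nat_lit 76) (nat_lit 68551531158) (nat_lit 1) (nat_lit 4) (nat_lit 2) (nat_lit 5) (nat_lit 2) (nat_lit 4) (nat_lit 320) (nat_lit 213) (nat_lit 187)) (XT.lf (nat_lit 0) (nat_lit 602171355707) (nat_lit 76) (nat_lit 76073030180) (nat_lit 76) (nat_lit 73079703342) (nat_lit 1) (nat_lit 4) (nat_lit 2) (nat_lit 5) (nat_lit 2) (nat_lit 4) (nat_lit 321) (nat_lit 213) (nat_lit 186))) (XT.nd (nat_lit 78) (nat_lit 0) (nat_lit 0) (XT.lf (nat_lit 0) (nat_lit 652367350455) (nat_lit 76) (nat_lit 81014003838) (nat_lit 76) (nat_lit 77988947469) (nat_lit 1) (nat_lit 4) (nat_lit 2) (nat_lit 5) (nat_lit 2) (nat_lit 4) (nat_lit 322) (nat_lit 213) (nat_lit 185)) (XT.lf (nat_lit 0) (nat_lit 706549924308) (nat_lit 76) (nat_lit 86362790921) (nat_lit 76) (nat_lit 83308355356) (nat_lit 1)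 (nat_lit 4) (nat_lit 2) (nat_lit 5) (nat_lit 2) (nat_lit 4) (nat_lit 323) (nat_lit 213) (nat_lit 184)))) (XT.nd (nat_lit 156) (nat_lit 0) (nat_lit 0) (XT.nd (nat_lit 78) (nat_lit 0) (nat_lit 0) (XT.lf (nat_lit 0) (nat_lit 11547323527) (nat_lit 76) (nat_lit 14692389334) (nat_lit 76) (nat_lit 14692389334) (nat_lit 1) (nat_lit 4) (nat_lit 2) (nat_lit 5) (nat_lit 2) (nat_lit 4) (nat_lit 292) (nat_lit 214) (nat_lit 214)) (XT.lf (nat_lit 0) (nat_lit 30091217214) (nat_lit 76) (nat_lit 29221908293) (nat_lit 76) (nat_lit 28948174252) (nat_lit 1) (nat_lit 4) (nat_lit 2) (nat_lit 5) (nat_lit 2) (nat_lit 4) (nat_lit 293) (nat_lit 214) (nat_lit 213))) (XT.nd (nat_lit 78) (nat_lit 0) (nat_lit 0) (XT.lf (nat_lit 0) (nat_lit 37396460087) (nat_lit 76) (nat_lit 29154153655) (nat_lit 76) (nat_lit 28626962169) (nat_lit 1) (nat_lit 4) (nat_lit 2) (nat_lit 5) (nat_lit 2) (nat_lit 4) (nat_lit 294) (nat_lit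 214) (nat_lit 212)) (XT.nd (nat_lit 78) (nat_lit 0) (nat_lit 0) (XT.lf (nat_lit 0) (nat_lit 45053666002) (nat_lit 76) (nat_lit 29181113246) (nat_lit 76) (nat_lit 28419238941) (nat_lit 1) (nat_lit 4) (nat_lit 2) (nat_lit 5) (nat_lit 2) (nat_lit 4) (nat_lit 295) (nat_lit 214) (nat_lit 211)) (XT.lf (nat_lit 0) (nat_lit 53108210995) (nat_lit 76) (nat_lit 29302946827) (nat_lit 76) (nat_lit 28323773615) (nat_lit 1) (nat_lit 4) (nat_lit 2) (nat_lit 5) (nat_lit 2) (nat_lit 4) (nat_lit 296) (nat_lit 214) (nat_lit 210))))))))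
noncomputable def xc7 : XT := (XT.nd (nat_lit 1404) (nat_lit 0) (nat_lit 0) (XT.nd (nat_lit 702) (nat_lit 0) (nat_lit 0) (XT.nd (nat_lit 312) (nat_lit 0) (nat_lit 0) (XT.nd (nat_lit 156) (nat_lit 0) (nat_lit 0) (XT.nd (nat_lit 78) (nat_lit 0) (nat_lit 0) (XT.lf (nat_lit 0) (nat_lit 61607825701) (nat_lit 76) (nat_lit 29520376374) (nat_lit 76) (nat_lit 28340000470) (nat_lit 1) (nat_lit 4) (nat_lit 2) (nat_lit 5) (nat_lit 2) (nat_lit 4) (nat_lit 297) (nat_lit 214) (nat_lit 209)) (XT.lf (nat_lit 0) (nat_lit 70602878209) (nat_lit 76) (nat_lit 29834690359) (nat_lit 76) (nat_lit 28468015667) (nat_lit 1) (nat_lit 4) (nat_lit 2) (nat_lit 5) (nat_lit 2) (nat_lit 4) (nat_lit 298) (nat_lit 214) (nat_lit 208))) (XT.nd (nat_lit 78) (nat_lit 0) (nat_lit 0) (XT.lf (nat_lit 0) (nat_lit 80146672533) (nat_lit 76) (nat_lit 30247751383) (nat_lit 76) (nat_lit 28708577812) (nat_lit 1) (nat_lit 4) (nat_lit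 2) (nat_lit 5) (nat_lit 2) (nat_lit 4) (nat_lit 299) (nat_lit 214) (nat_lit 207)) (XT.lf (nat_lit 0) (nat_lit 90295764491) (nat_lit 76) (nat_lit 30762007215) (nat_lit 76) (nat_lit 29063112461) (nat_lit 1) (nat_lit 4) (nat_lit 2) (nat_lit 5) (nat_lit 2) (nat_lit 4) (nat_lit 300) (nat_lit 214) (nat_lit 206)))) (XT.nd (nat_lit 156) (nat_lit 0) (nat_lit 0) (XT.nd (nat_lit 78) (nat_lit 0) (nat_lit 0) (XT.lf (nat_lit 0) (nat_lit 101110296851) (nat_lit 76) (nat_lit 31380505298) (nat_lit 76) (nat_lit 29533720558) (nat_lit 1) (nat_lit 4) (nat_lit 2) (nat_lit 5) (nat_lit 2) (nat_lit 4) (nat_lit 301) (nat_lit 214) (nat_lit 205)) (XT.lf (nat_lit 0) (nat_lit 112654355730) (nat_lit 76) (nat_lit 32106910804) (nat_lit 76) (nat_lit 30123190894) (nat_lit 1) (nat_lit 4) (nat_lit 2) (nat_lit 5) (nat_lit 2) (nat_lit 4) (nat_lit 302) (nat_lit 214) (nat_lit 204))) (XT.nd (nat_lit 78) (nat_lit 0) (nat_lit 0)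 (XT.lf (nat_lit 0) (nat_lit 124996350366) (nat_lit 76) (nat_lit 32945528359) (nat_lit 76) (nat_lit 30835016624) (nat_lit 1) (nat_lit 4) (nat_lit 2) (nat_lit 5) (nat_lit 2) (nat_lit 4) (nat_lit 303) (nat_lit 214) (nat_lit 203)) (XT.nd (nat_lit 78) (nat_lit 0) (nat_lit 0) (XT.lf (nat_lit 0) (nat_lit 138209418505) (nat_lit 76) (nat_lit 33901327550) (nat_lit 76) (nat_lit 31673415976) (nat_lit 1) (nat_lit 4) (nat_lit 2) (nat_lit 5) (nat_lit 2) (nat_lit 4) (nat_lit 304) (nat_lit 214) (nat_lit 202)) (XT.lf (nat_lit 0) (nat_lit 152371859811) (nat_lit 76) (nat_lit 34979972370) (nat_lit 76) (nat_lit 32643357243) (nat_lit 1) (nat_lit 4) (nat_lit 2) (nat_lit 5) (nat_lit 2) (nat_lit 4) (nat_lit 305) (nat_lit 214) (nat_lit 201)))))) (XT.nd (nat_lit 312) (nat_lit 0) (nat_lit 0) (XT.nd (nat_lit 156) (nat_lit 0) (nat_lit 0) (XT.nd (nat_lit 78) (nat_lit 0) (nat_lit 0) (XT.lf (nat_lit 0) (nat_lit 167567599860)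 (nat_lit 76) (nat_lit 36187854789) (nat_lit 76) (nat_lit 33750588224) (nat_lit 1) (nat_lit 4) (nat_lit 2) (nat_lit 5) (nat_lit 2) (nat_lit 4) (nat_lit 306) (nat_lit 214) (nat_lit 200)) (XT.lf (nat_lit 0) (nat_lit 183886687483) (nat_lit 76) (nat_lit 37532132630) (nat_lit 76) (nat_lit 35001670288) (nat_lit 1) (nat_lit 4) (nat_lit 2) (nat_lit 5) (nat_lit 2) (nat_lit 4) (nat_lit 307) (nat_lit 214) (nat_lit 199))) (XT.nd (nat_lit 78) (nat_lit 0) (nat_lit 0) (XT.lf (nat_lit 0) (nat_lit 201425828385) (nat_lit 76) (nat_lit 39020771982) (nat_lit 76) (nat_lit 36404017254) (nat_lit 1) (nat_lit 4) (nat_lit 2) (nat_lit 5) (nat_lit 2) (nat_lit 4) (nat_lit 308) (nat_lit 214) (nat_lit 198)) (XT.lf (nat_lit 0) (nat_lit 220288958216) (nat_lit 76) (nat_lit 40662594413) (nat_lit 76) (nat_lit 37965939328) (nat_lit 1) (nat_lit 4) (nat_lit 2) (nat_lit 5) (nat_lit 2) (nat_lit 4) (nat_lit 309) (nat_lit 214)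 (nat_lit 197)))) (XT.nd (nat_lit 156) (nat_lit 0) (nat_lit 0) (XT.nd (nat_lit 78) (nat_lit 0) (nat_lit 0) (XT.lf (nat_lit 0) (nat_lit 240587858485) (nat_lit 76) (nat_lit 42467329240) (nat_lit 76) (nat_lit 39696692343) (nat_lit 1) (nat_lit 4) (nat_lit 2) (nat_lit 5) (nat_lit 2) (nat_lit 4) (nat_lit 310) (nat_lit 214) (nat_lit 196)) (XT.lf (nat_lit 0) (nat_lit 262442818971) (nat_lit 76) (nat_lit 44445671189) (nat_lit 76) (nat_lit 41606532614) (nat_lit 1) (nat_lit 4) (nat_lit 2) (nat_lit 5) (nat_lit 2) (nat_lit 4) (nat_lit 311) (nat_lit 214) (nat_lit 195))) (XT.nd (nat_lit 78) (nat_lit 0) (nat_lit 0) (XT.lf (nat_lit 0) (nat_lit 285983350552) (nat_lit 76) (nat_lit 46609343767) (nat_lit 76) (nat_lit 43706777712) (nat_lit 1) (nat_lit 4) (nat_lit 2) (nat_lit 5) (nat_lit 2) (nat_lit 4) (nat_lit 312) (nat_lit 214) (nat_lit 194)) (XT.nd (nat_lit 78) (nat_lit 0) (nat_lit 0) (XT.lf (nat_lit 0) (nat_lit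 311348952675) (nat_lit 76) (nat_lit 48971168737) (nat_lit 76) (nat_lit 46009873535) (nat_lit 1) (nat_lit 4) (nat_lit 2) (nat_lit 5) (nat_lit 2) (nat_lit 4) (nat_lit 313) (nat_lit 214) (nat_lit 193)) (XT.lf (nat_lit 0) (nat_lit 338689940018) (nat_lit 76) (nat_lit 51545142100) (nat_lit 76) (nat_lit 48529468057) (nat_lit 1) (nat_lit 4) (nat_lit 2) (nat_lit 5) (nat_lit 2) (nat_lit 4) (nat_lit 314) (nat_lit 214) (nat_lit 192))))))) (XT.nd (nat_lit 35568) (nat_lit 0) (nat_lit 0) (XT.nd (nat_lit 312) (nat_lit 0) (nat_lit 0) (XT.nd (nat_lit 156) (nat_lit 0) (nat_lit 0) (XT.nd (nat_lit 78) (nat_lit 0) (nat_lit 0) (XT.lf (nat_lit 0) (nat_lit 368168333247) (nat_lit 76) (nat_lit 54346517032) (nat_lit 76) (nat_lit 51280492210) (nat_lit 1) (nat_lit 4) (nat_lit 2) (nat_lit 5) (nat_lit 2) (nat_lit 4) (nat_lit 315) (nat_lit 214) (nat_lit 191)) (XT.lf (nat_lit 0) (nat_lit 399958819137) (nat_lit 76) (nat_lit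 57391894271) (nat_lit 76) (nat_lit 54279248359) (nat_lit 1) (nat_lit 4) (nat_lit 2) (nat_lit 5) (nat_lit 2) (nat_lit 4) (nat_lit 316) (nat_lit 214) (nat_lit 190))) (XT.nd (nat_lit 78) (nat_lit 0) (nat_lit 0) (XT.lf (nat_lit 0) (nat_lit 434249785752) (nat_lit 76) (nat_lit 60699320499) (nat_lit 76) (nat_lit 57543506910) (nat_lit 1) (nat_lit 4) (nat_lit 2) (nat_lit 5) (nat_lit 2) (nat_lit 4) (nat_lit 317) (nat_lit 214) (nat_lit 189)) (XT.lf (nat_lit 0) (nat_lit 471244438821) (nat_lit 76) (nat_lit 64288395278) (nat_lit 76) (nat_lit 61092611618) (nat_lit 1) (nat_lit 4) (nat_lit 2) (nat_lit 5) (nat_lit 2) (nat_lit 4) (nat_lit 318) (nat_lit 214) (nat_lit 188)))) (XT.nd (nat_lit 156) (nat_lit 0) (nat_lit 0) (XT.nd (nat_lit 78) (nat_lit 0) (nat_lit 0) (XT.lf (nat_lit 0) (nat_lit 511162005916) (nat_lit 76) (nat_lit 68180387199) (nat_lit 76) (nat_lit 64947594214) (nat_lit 1) (nat_lit 4) (nat_lit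 2) (nat_lit 5) (nat_lit 2) (nat_lit 4) (nat_lit 319) (nat_lit 214) (nat_lit 187)) (XT.lf (nat_lit 0) (nat_lit 554239035585) (nat_lit 76) (nat_lit 72398359918) (nat_lit 76) (nat_lit 69131299039) (nat_lit 1) (nat_lit 4) (nat_lit 2) (nat_lit 5) (nat_lit 2) (nat_lit 4) (nat_lit 320) (nat_lit 214) (nat_lit 186))) (XT.nd (nat_lit 78) (nat_lit 0) (nat_lit 0) (XT.lf (nat_lit 0) (nat_lit 600730799114) (nat_lit 76) (nat_lit 76967308830) (nat_lit 76) (nat_lit 73668518420) (nat_lit 1) (nat_lit 4) (nat_lit 2) (nat_lit 5) (nat_lit 2) (nat_lit 4) (nat_lit 321) (nat_lit 214) (nat_lit 185)) (XT.nd (nat_lit 78) (nat_lit 0) (nat_lit 0) (XT.lf (nat_lit 0) (nat_lit 650912803249) (nat_lit 76) (nat_lit 81914309186) (nat_lit 76) (nat_lit 78586139581) (nat_lit 1) (nat_lit 4) (nat_lit 2) (nat_lit 5) (nat_lit 2) (nat_lit 4) (nat_lit 322) (nat_lit 214) (nat_lit 184)) (XT.lf (nat_lit 0) (nat_lit 705082422831) (nat_lit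 76) (nat_lit 87268676545) (nat_lit 76) (nat_lit 83913303981) (nat_lit 1) (nat_lit 4) (nat_lit 2) (nat_lit 5) (nat_lit 2) (nat_lit 4) (nat_lit 323) (nat_lit 214) (nat_lit 183)))))) (XT.nd (nat_lit 312) (nat_lit 0) (nat_lit 0) (XT.nd (nat_lit 156) (nat_lit 0) (nat_lit 0) (XT.nd (nat_lit 78) (nat_lit 0) (nat_lit 0) (XT.lf (nat_lit 0) (nat_lit 5002023235) (nat_lit 76) (nat_lit 15117642402) (nat_lit 76) (nat_lit 15117642402) (nat_lit 1) (nat_lit 4) (nat_lit 2) (nat_lit 5) (nat_lit 2) (nat_lit 4) (nat_lit 290) (nat_lit 215) (nat_lit 215)) (XT.lf (nat_lit 0) (nat_lit 16365288453) (nat_lit 76) (nat_lit 29939362705) (nat_lit 76) (nat_lit 29643729941) (nat_lit 1) (nat_lit 4) (nat_lit 2) (nat_lit 5) (nat_lit 2) (nat_lit 4) (nat_lit 291) (nat_lit 215) (nat_lit 214))) (XT.nd (nat_lit 78) (nat_lit 0) (nat_lit 0) (XT.lf (nat_lit 0) (nat_lit 22964292665) (nat_lit 76) (nat_lit 29736563836) (nat_lit 76)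 (nat_lit 29167197031) (nat_lit 1) (nat_lit 4) (nat_lit 2) (nat_lit 5) (nat_lit 2) (nat_lit 4) (nat_lit 292) (nat_lit 215) (nat_lit 213)) (XT.lf (nat_lit 0) (nat_lit 29840164315) (nat_lit 76) (nat_lit 29625686425) (nat_lit 76) (nat_lit 28802862176) (nat_lit 1) (nat_lit 4) (nat_lit 2) (nat_lit 5) (nat_lit 2) (nat_lit 4) (nat_lit 293) (nat_lit 215) (nat_lit 212)))) (XT.nd (nat_lit 156) (nat_lit 0) (nat_lit 0) (XT.nd (nat_lit 78) (nat_lit 0) (nat_lit 0) (XT.lf (nat_lit 0) (nat_lit 37033649310) (nat_lit 76) (nat_lit 29606073422) (nat_lit 76) (nat_lit 28548566353) (nat_lit 1) (nat_lit 4) (nat_lit 2) (nat_lit 5) (nat_lit 2) (nat_lit 4) (nat_lit 294) (nat_lit 215) (nat_lit 211)) (XT.lf (nat_lit 0) (nat_lit 44587375707) (nat_lit 76) (nat_lit 29677608601) (nat_lit 76) (nat_lit 28402802625) (nat_lit 1) (nat_lit 4) (nat_lit 2) (nat_lit 5) (nat_lit 2) (nat_lit 4) (nat_lit 295) (nat_lit 215) (nat_lit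 210))) (XT.nd (nat_lit 78) (nat_lit 0) (nat_lit 0) (XT.lf (nat_lit 0) (nat_lit 52546106332) (nat_lit 76) (nat_lit 29840715874) (nat_lit 76) (nat_lit 28364707206) (nat_lit 1) (nat_lit 4) (nat_lit 2) (nat_lit 5) (nat_lit 2) (nat_lit 4) (nat_lit 296) (nat_lit 215) (nat_lit 209)) (XT.nd (nat_lit 78) (nat_lit 0) (nat_lit 0) (XT.lf (nat_lit 0) (nat_lit 60957004031) (nat_lit 76) (nat_lit 30096361802) (nat_lit 76) (nat_lit 28434054346) (nat_lit 1) (nat_lit 4) (nat_lit 2) (nat_lit 5) (nat_lit 2) (nat_lit 4) (nat_lit 297) (nat_lit 215) (nat_lit 208)) (XT.lf (nat_lit 0) (nat_lit 69869911162) (nat_lit 76) (nat_lit 30446061326) (nat_lit 76) (nat_lit 28611254991) (nat_lit 1) (nat_lit 4) (nat_lit 2) (nat_lit 5) (nat_lit 2) (nat_lit 4) (nat_lit 298) (nat_lit 215) (nat_lit 207))))))))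
noncomputable def xc8 : XT := (XT.nd (nat_lit 1326) (nat_lit 0) (nat_lit 0) (XT.nd (nat_lit 624) (nat_lit 0) (nat_lit 0) (XT.nd (nat_lit 312) (nat_lit 0) (nat_lit 0) (XT.nd (nat_lit 156) (nat_lit 0) (nat_lit 0) (XT.nd (nat_lit 78) (nat_lit 0) (nat_lit 0) (XT.lf (nat_lit 0) (nat_lit 79337644951) (nat_lit 76) (nat_lit 30891886738) (nat_lit 76) (nat_lit 28897359219) (nat_lit 1) (nat_lit 4) (nat_lit 2) (nat_lit 5) (nat_lit 2) (nat_lit 4) (nat_lit 299) (nat_lit 215) (nat_lit 206)) (XT.lf (nat_lit 0) (nat_lit 89416310489) (nat_lit 76) (nat_lit 31436479966) (nat_lit 76) (nat_lit 29294062463) (nat_lit 1) (nat_lit 4) (nat_lit 2) (nat_lit 5) (nat_lit 2) (nat_lit 4) (nat_lit 300) (nat_lit 215) (nat_lit 205))) (XT.nd (nat_lit 78) (nat_lit 0) (nat_lit 0) (XT.lf (nat_lit 0) (nat_lit 100165633200) (nat_lit 76) (nat_lit 32083068230) (nat_lit 76) (nat_lit 29803715555) (nat_lit 1) (nat_lit 4) (nat_lit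 2) (nat_lit 5) (nat_lit 2) (nat_lit 4) (nat_lit 301) (nat_lit 215) (nat_lit 204)) (XT.lf (nat_lit 0) (nat_lit 111649312774) (nat_lit 76) (nat_lit 32835483163) (nat_lit 76) (nat_lit 30429338664) (nat_lit 1) (nat_lit 4) (nat_lit 2) (nat_lit 5) (nat_lit 2) (nat_lit 4) (nat_lit 302) (nat_lit 215) (nat_lit 203)))) (XT.nd (nat_lit 156) (nat_lit 0) (nat_lit 0) (XT.nd (nat_lit 78) (nat_lit 0) (nat_lit 0) (XT.lf (nat_lit 0) (nat_lit 123935400647) (nat_lit 76) (nat_lit 33698183522) (nat_lit 76) (nat_lit 31174639184) (nat_lit 1) (nat_lit 4) (nat_lit 2) (nat_lit 5) (nat_lit 2) (nat_lit 4) (nat_lit 303) (nat_lit 215) (nat_lit 202)) (XT.lf (nat_lit 0) (nat_lit 137096703265) (nat_lit 76) (nat_lit 34676281604) (nat_lit 76) (nat_lit 32044033713) (nat_lit 1) (nat_lit 4) (nat_lit 2) (nat_lit 5) (nat_lit 2) (nat_lit 4) (nat_lit 304) (nat_lit 215) (nat_lit 201))) (XT.nd (nat_lit 78) (nat_lit 0) (nat_lit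 0) (XT.lf (nat_lit 0) (nat_lit 151211213531) (nat_lit 76) (nat_lit 35775573546) (nat_lit 76) (nat_lit 33042674216) (nat_lit 1) (nat_lit 4) (nat_lit 2) (nat_lit 5) (nat_lit 2) (nat_lit 4) (nat_lit 305) (nat_lit 215) (nat_lit 200)) (XT.lf (nat_lit 0) (nat_lit 166362572989) (nat_lit 76) (nat_lit 37002573671) (nat_lit 76) (nat_lit 34176478565) (nat_lit 1) (nat_lit 4) (nat_lit 2) (nat_lit 5) (nat_lit 2) (nat_lit 4) (nat_lit 306) (nat_lit 215) (nat_lit 199))))) (XT.nd (nat_lit 312) (nat_lit 0) (nat_lit 0) (XT.nd (nat_lit 156) (nat_lit 0) (nat_lit 0) (XT.nd (nat_lit 78) (nat_lit 0) (nat_lit 0) (XT.lf (nat_lit 0) (nat_lit 182640567473) (nat_lit 76) (nat_lit 38364553090) (nat_lit 76) (nat_lit 35452165598) (nat_lit 1) (nat_lit 4) (nat_lit 2) (nat_lit 5) (nat_lit 2) (nat_lit 4) (nat_lit 307) (nat_lit 215) (nat_lit 198)) (XT.lf (nat_lit 0) (nat_lit 200141659171) (nat_lit 76) (nat_lit 39869582794)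 (nat_lit 76) (nat_lit 36877294945) (nat_lit 1) (nat_lit 4) (nat_lit 2) (nat_lit 5) (nat_lit 2) (nat_lit 4) (nat_lit 308) (nat_lit 215) (nat_lit 197))) (XT.nd (nat_lit 78) (nat_lit 0) (nat_lit 0) (XT.lf (nat_lit 0) (nat_lit 218969558257) (nat_lit 76) (nat_lit 41526581476) (nat_lit 76) (nat_lit 38460311814) (nat_lit 1) (nat_lit 4) (nat_lit 2) (nat_lit 5) (nat_lit 2) (nat_lit 4) (nat_lit 309) (nat_lit 215) (nat_lit 196)) (XT.lf (nat_lit 0) (nat_lit 239235837466) (nat_lit 76) (nat_lit 43345368387) (nat_lit 76) (nat_lit 40210597048) (nat_lit 1) (nat_lit 4) (nat_lit 2) (nat_lit 5) (nat_lit 2) (nat_lit 4) (nat_lit 310) (nat_lit 215) (nat_lit 195)))) (XT.nd (nat_lit 156) (nat_lit 0) (nat_lit 0) (XT.nd (nat_lit 78) (nat_lit 0) (nat_lit 0) (XT.lf (nat_lit 0) (nat_lit 261060593268) (nat_lit 76) (nat_lit 45336721525) (nat_lit 76) (nat_lit 42138522706) (nat_lit 1) (nat_lit 4) (nat_lit 2) (nat_lit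 5) (nat_lit 2) (nat_lit 4) (nat_lit 311) (nat_lit 215) (nat_lit 194)) (XT.lf (nat_lit 0) (nat_lit 284573157549) (nat_lit 76) (nat_lit 47512441500) (nat_lit 76) (nat_lit 44255513534) (nat_lit 1) (nat_lit 4) (nat_lit 2) (nat_lit 5) (nat_lit 2) (nat_lit 4) (nat_lit 312) (nat_lit 215) (nat_lit 193))) (XT.nd (nat_lit 78) (nat_lit 0) (nat_lit 0) (XT.lf (nat_lit 0) (nat_lit 309912864023) (nat_lit 76) (nat_lit 49885421468) (nat_lit 76) (nat_lit 46574114661) (nat_lit 1) (nat_lit 4) (nat_lit 2) (nat_lit 5) (nat_lit 2) (nat_lit 4) (nat_lit 313) (nat_lit 215) (nat_lit 192)) (XT.nd (nat_lit 78) (nat_lit 0) (nat_lit 0) (XT.lf (nat_lit 0) (nat_lit 337229873913) (nat_lit 76) (nat_lit 52469723533) (nat_lit 76) (nat_lit 49108065948) (nat_lit 1) (nat_lit 4) (nat_lit 2) (nat_lit 5) (nat_lit 2) (nat_lit 4) (nat_lit 314) (nat_lit 215) (nat_lit 191)) (XT.lf (nat_lit 0) (nat_lit 366686065797) (nat_lit 76) (nat_lit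 55280662076) (nat_lit 76) (nat_lit 51872383400) (nat_lit 1) (nat_lit 4) (nat_lit 2) (nat_lit 5) (nat_lit 2) (nat_lit 4) (nat_lit 315) (nat_lit 215) (nat_lit 190))))))) (XT.nd (nat_lit 35412) (nat_lit 0) (nat_lit 0) (XT.nd (nat_lit 312) (nat_lit 0) (nat_lit 0) (XT.nd (nat_lit 156) (nat_lit 0) (nat_lit 0) (XT.nd (nat_lit 78) (nat_lit 0) (nat_lit 0) (XT.lf (nat_lit 0) (nat_lit 398455994886) (nat_lit 76) (nat_lit 58334894512) (nat_lit 76) (nat_lit 54883448160) (nat_lit 1) (nat_lit 4) (nat_lit 2) (nat_lit 5) (nat_lit 2) (nat_lit 4) (nat_lit 316) (nat_lit 215) (nat_lit 189)) (XT.lf (nat_lit 0) (nat_lit 432727927426) (nat_lit 76) (nat_lit 61650519996) (nat_lit 76) (nat_lit 58159103572) (nat_lit 1) (nat_lit 4) (nat_lit 2) (nat_lit 5) (nat_lit 2) (nat_lit 4) (nat_lit 317) (nat_lit 215) (nat_lit 188))) (XT.nd (nat_lit 78) (nat_lit 0) (nat_lit 0) (XT.lf (nat_lit 0) (nat_lit 469704956352) (nat_lit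 76) (nat_lit 65247186679) (nat_lit 76) (nat_lit 61718760930) (nat_lit 1) (nat_lit 4) (nat_lit 2) (nat_lit 5) (nat_lit 2) (nat_lit 4) (nat_lit 318) (nat_lit 215) (nat_lit 187)) (XT.lf (nat_lit 0) (nat_lit 509606204796) (nat_lit 76) (nat_lit 69146208141) (nat_lit 76) (nat_lit 65583514498) (nat_lit 1) (nat_lit 4) (nat_lit 2) (nat_lit 5) (nat_lit 2) (nat_lit 4) (nat_lit 319) (nat_lit 215) (nat_lit 186)))) (XT.nd (nat_lit 156) (nat_lit 0) (nat_lit 0) (XT.nd (nat_lit 78) (nat_lit 0) (nat_lit 0) (XT.lf (nat_lit 0) (nat_lit 552668124603) (nat_lit 76) (nat_lit 73370689694) (nat_lit 76) (nat_lit 69776266520) (nat_lit 1) (nat_lit 4) (nat_lit 2) (nat_lit 5) (nat_lit 2) (nat_lit 4) (nat_lit 320) (nat_lit 215) (nat_lit 185)) (XT.lf (nat_lit 0) (nat_lit 599145897518) (nat_lit 76) (nat_lit 77945665304) (nat_lit 76) (nat_lit 74321862935) (nat_lit 1) (nat_lit 4) (nat_lit 2) (nat_lit 5) (nat_lit 2) (nat_lit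 4) (nat_lit 321) (nat_lit 215) (nat_lit 184))) (XT.nd (nat_lit 78) (nat_lit 0) (nat_lit 0) (XT.lf (nat_lit 0) (nat_lit 649314947382) (nat_lit 76) (nat_lit 82898245937) (nat_lit 76) (nat_lit 79247240608) (nat_lit 1) (nat_lit 4) (nat_lit 2) (nat_lit 5) (nat_lit 2) (nat_lit 4) (nat_lit 322) (nat_lit 215) (nat_lit 183)) (XT.nd (nat_lit 34788) (nat_lit 0) (nat_lit 76) (XT.lf (nat_lit 0) (nat_lit 703472572268) (nat_lit 76) (nat_lit 88257780218) (nat_lit 76) (nat_lit 84581586965) (nat_lit 1) (nat_lit 4) (nat_lit 2) (nat_lit 5) (nat_lit 2) (nat_lit 4) (nat_lit 323) (nat_lit 215) (nat_lit 182)) (XT.lf (nat_lit 0) (nat_lit 14698212779) (nat_lit 152) (nat_lit 969302904) (nat_lit 0) (nat_lit 14698212779) (nat_lit 2) (nat_lit 5) (nat_lit 4) (nat_lit 4) (nat_lit 2) (nat_lit 4) (nat_lit 288) (nat_lit 216) (nat_lit 216)))))) (XT.nd (nat_lit 312) (nat_lit 0) (nat_lit 0) (XT.nd (nat_lit 156) (nat_lit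 0) (nat_lit 0) (XT.nd (nat_lit 78) (nat_lit 0) (nat_lit 0) (XT.lf (nat_lit 0) (nat_lit 3842870465) (nat_lit 76) (nat_lit 30945367130) (nat_lit 76) (nat_lit 30626083745) (nat_lit 1) (nat_lit 4) (nat_lit 2) (nat_lit 5) (nat_lit 2) (nat_lit 4) (nat_lit 289) (nat_lit 216) (nat_lit 215)) (XT.lf (nat_lit 0) (nat_lit 9863263729) (nat_lit 76) (nat_lit 30615212784) (nat_lit 76) (nat_lit 30000296635) (nat_lit 1) (nat_lit 4) (nat_lit 2) (nat_lit 5) (nat_lit 2) (nat_lit 4) (nat_lit 290) (nat_lit 216) (nat_lit 214))) (XT.nd (nat_lit 78) (nat_lit 0) (nat_lit 0) (XT.lf (nat_lit 0) (nat_lit 16094151323) (nat_lit 76) (nat_lit 30375443088) (nat_lit 76) (nat_lit 29486792898) (nat_lit 1) (nat_lit 4) (nat_lit 2) (nat_lit 5) (nat_lit 2) (nat_lit 4) (nat_lit 291) (nat_lit 216) (nat_lit 213)) (XT.lf (nat_lit 0) (nat_lit 22572457026) (nat_lit 76) (nat_lit 30224637184) (nat_lit 76) (nat_lit 29082529549) (nat_lit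 1) (nat_lit 4) (nat_lit 2) (nat_lit 5) (nat_lit 2) (nat_lit 4) (nat_lit 292) (nat_lit 216) (nat_lit 212)))) (XT.nd (nat_lit 156) (nat_lit 0) (nat_lit 0) (XT.nd (nat_lit 78) (nat_lit 0) (nat_lit 0) (XT.lf (nat_lit 0) (nat_lit 29336570797) (nat_lit 76) (nat_lit 30161901408) (nat_lit 76) (nat_lit 28785110954) (nat_lit 1) (nat_lit 4) (nat_lit 2) (nat_lit 5) (nat_lit 2) (nat_lit 4) (nat_lit 293) (nat_lit 216) (nat_lit 211)) (XT.lf (nat_lit 0) (nat_lit 36426576274) (nat_lit 76) (nat_lit 30186863992) (nat_lit 76) (nat_lit 28592774631) (nat_lit 1) (nat_lit 4) (nat_lit 2) (nat_lit 5) (nat_lit 2) (nat_lit 4) (nat_lit 294) (nat_lit 216) (nat_lit 210))) (XT.nd (nat_lit 78) (nat_lit 0) (nat_lit 0) (XT.lf (nat_lit 0) (nat_lit 43884488304) (nat_lit 76) (nat_lit 30299672863) (nat_lit 76) (nat_lit 28504380810) (nat_lit 1) (nat_lit 4) (nat_lit 2) (nat_lit 5) (nat_lit 2) (nat_lit 4) (nat_lit 295) (nat_lit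 216) (nat_lit 209)) (XT.nd (nat_lit 78) (nat_lit 0) (nat_lit 0) (XT.lf (nat_lit 0) (nat_lit 51754501921) (nat_lit 76) (nat_lit 30500996518) (nat_lit 76) (nat_lit 28519405677) (nat_lit 1) (nat_lit 4) (nat_lit 2) (nat_lit 5) (nat_lit 2) (nat_lit 4) (nat_lit 296) (nat_lit 216) (nat_lit 208)) (XT.lf (nat_lit 0) (nat_lit 60083254243) (nat_lit 76) (nat_lit 30792027985) (nat_lit 76) (nat_lit 28637938266) (nat_lit 1) (nat_lit 4) (nat_lit 2) (nat_lit 5) (nat_lit 2) (nat_lit 4) (nat_lit 297) (nat_lit 216) (nat_lit 207))))))))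
noncomputable def xc9 : XT := (XT.nd (nat_lit 1326) (nat_lit 0) (nat_lit 0) (XT.nd (nat_lit 624) (nat_lit 0) (nat_lit 0) (XT.nd (nat_lit 312) (nat_lit 0) (nat_lit 0) (XT.nd (nat_lit 156) (nat_lit 0) (nat_lit 0) (XT.nd (nat_lit 78) (nat_lit 0) (nat_lit 0) (XT.lf (nat_lit 0) (nat_lit 68920100839) (nat_lit 76) (nat_lit 31174491897) (nat_lit 76) (nat_lit 28860680993) (nat_lit 1) (nat_lit 4) (nat_lit 2) (nat_lit 5) (nat_lit 2) (nat_lit 4) (nat_lit 298) (nat_lit 216) (nat_lit 206)) (XT.lf (nat_lit 0) (nat_lit 78317408208) (nat_lit 76) (nat_lit 31650654704) (nat_lit 76) (nat_lit 29188953816) (nat_lit 1) (nat_lit 4) (nat_lit 2) (nat_lit 5) (nat_lit 2) (nat_lit 4) (nat_lit 299) (nat_lit 216) (nat_lit 205))) (XT.nd (nat_lit 78) (nat_lit 0) (nat_lit 0) (XT.lf (nat_lit 0) (nat_lit 88330864097) (nat_lit 76) (nat_lit 32223338114) (nat_lit 76) (nat_lit 29624702055) (nat_lit 1) (nat_lit 4) (nat_lit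 2) (nat_lit 5) (nat_lit 2) (nat_lit 4) (nat_lit 300) (nat_lit 216) (nat_lit 204)) (XT.lf (nat_lit 0) (nat_lit 99019807503) (nat_lit 76) (nat_lit 32895935805) (nat_lit 76) (nat_lit 30170507921) (nat_lit 1) (nat_lit 4) (nat_lit 2) (nat_lit 5) (nat_lit 2) (nat_lit 4) (nat_lit 301) (nat_lit 216) (nat_lit 203)))) (XT.nd (nat_lit 156) (nat_lit 0) (nat_lit 0) (XT.nd (nat_lit 78) (nat_lit 0) (nat_lit 0) (XT.lf (nat_lit 0) (nat_lit 110447580315) (nat_lit 76) (nat_lit 33672433542) (nat_lit 76) (nat_lit 30829605819) (nat_lit 1) (nat_lit 4) (nat_lit 2) (nat_lit 5) (nat_lit 2) (nat_lit 4) (nat_lit 302) (nat_lit 216) (nat_lit 202)) (XT.lf (nat_lit 0) (nat_lit 122681902666) (nat_lit 76) (nat_lit 34557432792) (nat_lit 76) (nat_lit 31605901516) (nat_lit 1) (nat_lit 4) (nat_lit 2) (nat_lit 5) (nat_lit 2) (nat_lit 4) (nat_lit 303) (nat_lit 216) (nat_lit 201))) (XT.nd (nat_lit 78) (nat_lit 0) (nat_lit 0)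 (XT.lf (nat_lit 0) (nat_lit 135795274245) (nat_lit 76) (nat_lit 35556177996) (nat_lit 76) (nat_lit 32503995281) (nat_lit 1) (nat_lit 4) (nat_lit 2) (nat_lit 5) (nat_lit 2) (nat_lit 4) (nat_lit 304) (nat_lit 216) (nat_lit 200)) (XT.lf (nat_lit 0) (nat_lit 149865403920) (nat_lit 76) (nat_lit 36674587643) (nat_lit 76) (nat_lit 33529209152) (nat_lit 1) (nat_lit 4) (nat_lit 2) (nat_lit 5) (nat_lit 2) (nat_lit 4) (nat_lit 305) (nat_lit 216) (nat_lit 199))))) (XT.nd (nat_lit 312) (nat_lit 0) (nat_lit 0) (XT.nd (nat_lit 156) (nat_lit 0) (nat_lit 0) (XT.nd (nat_lit 78) (nat_lit 0) (nat_lit 0) (XT.lf (nat_lit 0) (nat_lit 164975670238) (nat_lit 76) (nat_lit 37919289347) (nat_lit 76) (nat_lit 34687618470) (nat_lit 1) (nat_lit 4) (nat_lit 2) (nat_lit 5) (nat_lit 2) (nat_lit 4) (nat_lit 306) (nat_lit 216) (nat_lit 198)) (XT.lf (nat_lit 0) (nat_lit 181215615518) (nat_lit 76) (nat_lit 39297659118) (nat_lit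 76) (nat_lit 35986087884) (nat_lit 1) (nat_lit 4) (nat_lit 2) (nat_lit 5) (nat_lit 2) (nat_lit 4) (nat_lit 307) (nat_lit 216) (nat_lit 197))) (XT.nd (nat_lit 78) (nat_lit 0) (nat_lit 0) (XT.lf (nat_lit 0) (nat_lit 198681476472) (nat_lit 76) (nat_lit 40817865072) (nat_lit 76) (nat_lit 37432312026) (nat_lit 1) (nat_lit 4) (nat_lit 2) (nat_lit 5) (nat_lit 2) (nat_lit 4) (nat_lit 308) (nat_lit 216) (nat_lit 196)) (XT.lf (nat_lit 0) (nat_lit 217476754498) (nat_lit 76) (nat_lit 42488915838) (nat_lit 76) (nat_lit 39034861114) (nat_lit 1) (nat_lit 4) (nat_lit 2) (nat_lit 5) (nat_lit 2) (nat_lit 4) (nat_lit 309) (nat_lit 216) (nat_lit 195)))) (XT.nd (nat_lit 156) (nat_lit 0) (nat_lit 0) (XT.nd (nat_lit 78) (nat_lit 0) (nat_lit 0) (XT.lf (nat_lit 0) (nat_lit 237712829023) (nat_lit 76) (nat_lit 44320713939) (nat_lit 76) (nat_lit 40803231735) (nat_lit 1) (nat_lit 4) (nat_lit 2) (nat_lit 5) (nat_lit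 2) (nat_lit 4) (nat_lit 310) (nat_lit 216) (nat_lit 194)) (XT.lf (nat_lit 0) (nat_lit 259509617524) (nat_lit 76) (nat_lit 46324114474) (nat_lit 76) (nat_lit 42747903123) (nat_lit 1) (nat_lit 4) (nat_lit 2) (nat_lit 5) (nat_lit 2) (nat_lit 4) (nat_lit 311) (nat_lit 216) (nat_lit 193))) (XT.nd (nat_lit 78) (nat_lit 0) (nat_lit 0) (XT.lf (nat_lit 0) (nat_lit 282996286156) (nat_lit 76) (nat_lit 48510989447) (nat_lit 76) (nat_lit 44880399255) (nat_lit 1) (nat_lit 4) (nat_lit 2) (nat_lit 5) (nat_lit 2) (nat_lit 4) (nat_lit 312) (nat_lit 216) (nat_lit 192)) (XT.nd (nat_lit 78) (nat_lit 0) (nat_lit 0) (XT.lf (nat_lit 0) (nat_lit 308312015177) (nat_lit 76) (nat_lit 50894298117) (nat_lit 76) (nat_lit 47213357146) (nat_lit 1) (nat_lit 4) (nat_lit 2) (nat_lit 5) (nat_lit 2) (nat_lit 4) (nat_lit 313) (nat_lit 216) (nat_lit 191)) (XT.lf (nat_lit 0) (nat_lit 335606823723) (nat_lit 76) (nat_lit 53488163794)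 (nat_lit 76) (nat_lit 49760601732) (nat_lit 1) (nat_lit 4) (nat_lit 2) (nat_lit 5) (nat_lit 2) (nat_lit 4) (nat_lit 314) (nat_lit 216) (nat_lit 190))))))) (XT.nd (nat_lit 35256) (nat_lit 0) (nat_lit 0) (XT.nd (nat_lit 312) (nat_lit 0) (nat_lit 0) (XT.nd (nat_lit 156) (nat_lit 0) (nat_lit 0) (XT.nd (nat_lit 78) (nat_lit 0) (nat_lit 0) (XT.lf (nat_lit 0) (nat_lit 365042458806) (nat_lit 76) (nat_lit 56307957534) (nat_lit 76) (nat_lit 52537227796) (nat_lit 1) (nat_lit 4) (nat_lit 2) (nat_lit 5) (nat_lit 2) (nat_lit 4) (nat_lit 315) (nat_lit 216) (nat_lit 189)) (XT.lf (nat_lit 0) (nat_lit 396793353820) (nat_lit 76) (nat_lit 59370389226) (nat_lit 76) (nat_lit 55559689417) (nat_lit 1) (nat_lit 4) (nat_lit 2) (nat_lit 5) (nat_lit 2) (nat_lit 4) (nat_lit 316) (nat_lit 216) (nat_lit 188))) (XT.nd (nat_lit 78) (nat_lit 0) (nat_lit 0) (XT.lf (nat_lit 0) (nat_lit 431047662217) (nat_lit 76) (nat_lit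 62693606614) (nat_lit 76) (nat_lit 58845897480) (nat_lit 1) (nat_lit 4) (nat_lit 2) (nat_lit 5) (nat_lit 2) (nat_lit 4) (nat_lit 317) (nat_lit 216) (nat_lit 187)) (XT.lf (nat_lit 0) (nat_lit 468008372491) (nat_lit 76) (nat_lit 66297302837) (nat_lit 76) (nat_lit 62415325809) (nat_lit 1) (nat_lit 4) (nat_lit 2) (nat_lit 5) (nat_lit 2) (nat_lit 4) (nat_lit 318) (nat_lit 216) (nat_lit 186)))) (XT.nd (nat_lit 156) (nat_lit 0) (nat_lit 0) (XT.nd (nat_lit 78) (nat_lit 0) (nat_lit 0) (XT.lf (nat_lit 0) (nat_lit 507894511073) (nat_lit 76) (nat_lit 70202833133) (nat_lit 76) (nat_lit 66289126574) (nat_lit 1) (nat_lit 4) (nat_lit 2) (nat_lit 5) (nat_lit 2) (nat_lit 4) (nat_lit 319) (nat_lit 216) (nat_lit 185)) (XT.lf (nat_lit 0) (nat_lit 550942440266) (nat_lit 76) (nat_lit 74433341385) (nat_lit 76) (nat_lit 70490255630) (nat_lit 1) (nat_lit 4) (nat_lit 2) (nat_lit 5) (nat_lit 2) (nat_lit 4) (nat_lit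 320) (nat_lit 216) (nat_lit 184))) (XT.nd (nat_lit 78) (nat_lit 0) (nat_lit 0) (XT.lf (nat_lit 0) (nat_lit 597407258910) (nat_lit 76) (nat_lit 79013897270) (nat_lit 76) (nat_lit 75043608557) (nat_lit 1) (nat_lit 4) (nat_lit 2) (nat_lit 5) (nat_lit 2) (nat_lit 4) (nat_lit 321) (nat_lit 216) (nat_lit 183)) (XT.nd (nat_lit 78) (nat_lit 0) (nat_lit 0) (XT.lf (nat_lit 0) (nat_lit 647564314078) (nat_lit 76) (nat_lit 83971644825) (nat_lit 76) (nat_lit 79976168187) (nat_lit 1) (nat_lit 4) (nat_lit 2) (nat_lit 5) (nat_lit 2) (nat_lit 4) (nat_lit 322) (nat_lit 216) (nat_lit 182)) (XT.lf (nat_lit 0) (nat_lit 701710832764) (nat_lit 76) (nat_lit 89335963293) (nat_lit 76) (nat_lit 85317164503) (nat_lit 1) (nat_lit 4) (nat_lit 2) (nat_lit 5) (nat_lit 2) (nat_lit 4) (nat_lit 323) (nat_lit 216) (nat_lit 181)))))) (XT.nd (nat_lit 312) (nat_lit 0) (nat_lit 0) (XT.nd (nat_lit 156) (nat_lit 76) (nat_lit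 0) (XT.nd (nat_lit 78) (nat_lit 0) (nat_lit 0) (XT.lf (nat_lit 0) (nat_lit 9918408914) (nat_lit 152) (nat_lit 6361134120) (nat_lit 0) (nat_lit 9918408914) (nat_lit 2) (nat_lit 5) (nat_lit 4) (nat_lit 4) (nat_lit 2) (nat_lit 4) (nat_lit 286) (nat_lit 217) (nat_lit 217)) (XT.lf (nat_lit 0) (nat_lit 24642271270) (nat_lit 152) (nat_lit 7461395305) (nat_lit 0) (nat_lit 24297445214) (nat_lit 2) (nat_lit 5) (nat_lit 4) (nat_lit 4) (nat_lit 2) (nat_lit 4) (nat_lit 287) (nat_lit 217) (nat_lit 216))) (XT.nd (nat_lit 78) (nat_lit 76) (nat_lit 0) (XT.lf (nat_lit 0) (nat_lit 29657076272) (nat_lit 152) (nat_lit 2085784768) (nat_lit 0) (nat_lit 28992966831) (nat_lit 2) (nat_lit 5) (nat_lit 4) (nat_lit 4) (nat_lit 2) (nat_lit 4) (nat_lit 288) (nat_lit 217) (nat_lit 215)) (XT.lf (nat_lit 0) (nat_lit 3550042364) (nat_lit 76) (nat_lit 31416333943) (nat_lit 76) (nat_lit 30456591738) (nat_lit 1) (nat_lit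 4) (nat_lit 2) (nat_lit 5) (nat_lit 2) (nat_lit 4) (nat_lit 289) (nat_lit 217) (nat_lit 214)))) (XT.nd (nat_lit 156) (nat_lit 0) (nat_lit 0) (XT.nd (nat_lit 78) (nat_lit 0) (nat_lit 0) (XT.lf (nat_lit 0) (nat_lit 9440081238) (nat_lit 76) (nat_lit 31142332000) (nat_lit 76) (nat_lit 29908855754) (nat_lit 1) (nat_lit 4) (nat_lit 2) (nat_lit 5) (nat_lit 2) (nat_lit 4) (nat_lit 290) (nat_lit 217) (nat_lit 213)) (XT.lf (nat_lit 0) (nat_lit 15550270323) (nat_lit 76) (nat_lit 30954555269) (nat_lit 76) (nat_lit 29467621578) (nat_lit 1) (nat_lit 4) (nat_lit 2) (nat_lit 5) (nat_lit 2) (nat_lit 4) (nat_lit 291) (nat_lit 217) (nat_lit 212))) (XT.nd (nat_lit 78) (nat_lit 0) (nat_lit 0) (XT.lf (nat_lit 0) (nat_lit 21916818147) (nat_lit 76) (nat_lit 30851891000) (nat_lit 76) (nat_lit 29130274490) (nat_lit 1) (nat_lit 4) (nat_lit 2) (nat_lit 5) (nat_lit 2) (nat_lit 4) (nat_lit 292) (nat_lit 217) (nat_lit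 211)) (XT.nd (nat_lit 78) (nat_lit 0) (nat_lit 0) (XT.lf (nat_lit 0) (nat_lit 28577452401) (nat_lit 76) (nat_lit 30833730812) (nat_lit 76) (nat_lit 28894815395) (nat_lit 1) (nat_lit 4) (nat_lit 2) (nat_lit 5) (nat_lit 2) (nat_lit 4) (nat_lit 293) (nat_lit 217) (nat_lit 210)) (XT.lf (nat_lit 0) (nat_lit 35571643510) (nat_lit 76) (nat_lit 30899967088) (nat_lit 76) (nat_lit 28759848980) (nat_lit 1) (nat_lit 4) (nat_lit 2) (nat_lit 5) (nat_lit 2) (nat_lit 4) (nat_lit 294) (nat_lit 217) (nat_lit 209))))))))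
noncomputable def xc10 : XT := (XT.nd (nat_lit 1326) (nat_lit 0) (nat_lit 0) (XT.nd (nat_lit 624) (nat_lit 0) (nat_lit 0) (XT.nd (nat_lit 312) (nat_lit 0) (nat_lit 0) (XT.nd (nat_lit 156) (nat_lit 0) (nat_lit 0) (XT.nd (nat_lit 78) (nat_lit 0) (nat_lit 0) (XT.lf (nat_lit 0) (nat_lit 42940838533) (nat_lit 76) (nat_lit 31050992341) (nat_lit 76) (nat_lit 28724575444) (nat_lit 1) (nat_lit 4) (nat_lit 2) (nat_lit 5) (nat_lit 2) (nat_lit 4) (nat_lit 295) (nat_lit 217) (nat_lit 208)) (XT.lf (nat_lit 0) (nat_lit 50728706773) (nat_lit 76) (nat_lit 31287701534) (nat_lit 76) (nat_lit 28788785759) (nat_lit 1) (nat_lit 4) (nat_lit 2) (nat_lit 5) (nat_lit 2) (nat_lit 4) (nat_lit 296) (nat_lit 217) (nat_lit 207))) (XT.nd (nat_lit 78) (nat_lit 0) (nat_lit 0) (XT.lf (nat_lit 0) (nat_lit 58981398560) (nat_lit 76) (nat_lit 31611497389) (nat_lit 76) (nat_lit 28952860430) (nat_lit 1) (nat_lit 4) (nat_lit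 2) (nat_lit 5) (nat_lit 2) (nat_lit 4) (nat_lit 297) (nat_lit 217) (nat_lit 206)) (XT.lf (nat_lit 0) (nat_lit 67747818736) (nat_lit 76) (nat_lit 32024298696) (nat_lit 76) (nat_lit 29217771753) (nat_lit 1) (nat_lit 4) (nat_lit 2) (nat_lit 5) (nat_lit 2) (nat_lit 4) (nat_lit 298) (nat_lit 217) (nat_lit 205)))) (XT.nd (nat_lit 156) (nat_lit 0) (nat_lit 0) (XT.nd (nat_lit 78) (nat_lit 0) (nat_lit 0) (XT.lf (nat_lit 0) (nat_lit 77079916456) (nat_lit 76) (nat_lit 32528551686) (nat_lit 76) (nat_lit 29585089571) (nat_lit 1) (nat_lit 4) (nat_lit 2) (nat_lit 5) (nat_lit 2) (nat_lit 4) (nat_lit 299) (nat_lit 217) (nat_lit 204)) (XT.lf (nat_lit 0) (nat_lit 87032993040) (nat_lit 76) (nat_lit 33127244522) (nat_lit 76) (nat_lit 30056990582) (nat_lit 1) (nat_lit 4) (nat_lit 2) (nat_lit 5) (nat_lit 2) (nat_lit 4) (nat_lit 300) (nat_lit 217) (nat_lit 203))) (XT.nd (nat_lit 78) (nat_lit 0) (nat_lit 0)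 (XT.lf (nat_lit 0) (nat_lit 97666029683) (nat_lit 76) (nat_lit 33823925017) (nat_lit 76) (nat_lit 30636271238) (nat_lit 1) (nat_lit 4) (nat_lit 2) (nat_lit 5) (nat_lit 2) (nat_lit 4) (nat_lit 301) (nat_lit 217) (nat_lit 202)) (XT.lf (nat_lit 0) (nat_lit 109042036973) (nat_lit 76) (nat_lit 34622721645) (nat_lit 76) (nat_lit 31326364313) (nat_lit 1) (nat_lit 4) (nat_lit 2) (nat_lit 5) (nat_lit 2) (nat_lit 4) (nat_lit 302) (nat_lit 217) (nat_lit 201))))) (XT.nd (nat_lit 312) (nat_lit 0) (nat_lit 0) (XT.nd (nat_lit 156) (nat_lit 0) (nat_lit 0) (XT.nd (nat_lit 78) (nat_lit 0) (nat_lit 0) (XT.lf (nat_lit 0) (nat_lit 121228428285) (nat_lit 76) (nat_lit 35528368017) (nat_lit 76) (nat_lit 32131359246) (nat_lit 1) (nat_lit 4) (nat_lit 2) (nat_lit 5) (nat_lit 2) (nat_lit 4) (nat_lit 303) (nat_lit 217) (nat_lit 200)) (XT.lf (nat_lit 0) (nat_lit 134297419273) (nat_lit 76) (nat_lit 36546230926) (nat_lit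 76) (nat_lit 33056026379) (nat_lit 1) (nat_lit 4) (nat_lit 2) (nat_lit 5) (nat_lit 2) (nat_lit 4) (nat_lit 304) (nat_lit 217) (nat_lit 199))) (XT.nd (nat_lit 78) (nat_lit 0) (nat_lit 0) (XT.lf (nat_lit 0) (nat_lit 148326455808) (nat_lit 76) (nat_lit 37682342153) (nat_lit 76) (nat_lit 34105845220) (nat_lit 1) (nat_lit 4) (nat_lit 2) (nat_lit 5) (nat_lit 2) (nat_lit 4) (nat_lit 305) (nat_lit 217) (nat_lit 198)) (XT.lf (nat_lit 0) (nat_lit 163398672922) (nat_lit 76) (nat_lit 38943434208) (nat_lit 76) (nat_lit 35287036918) (nat_lit 1) (nat_lit 4) (nat_lit 2) (nat_lit 5) (nat_lit 2) (nat_lit 4) (nat_lit 306) (nat_lit 217) (nat_lit 197)))) (XT.nd (nat_lit 156) (nat_lit 0) (nat_lit 0) (XT.nd (nat_lit 78) (nat_lit 0) (nat_lit 0) (XT.lf (nat_lit 0) (nat_lit 179603387458) (nat_lit 76) (nat_lit 40336980230) (nat_lit 76) (nat_lit 36606601128) (nat_lit 1) (nat_lit 4) (nat_lit 2) (nat_lit 5) (nat_lit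 2) (nat_lit 4) (nat_lit 307) (nat_lit 217) (nat_lit 196)) (XT.lf (nat_lit 0) (nat_lit 197036627352) (nat_lit 76) (nat_lit 41871238269) (nat_lit 76) (nat_lit 38072357489) (nat_lit 1) (nat_lit 4) (nat_lit 2) (nat_lit 5) (nat_lit 2) (nat_lit 4) (nat_lit 308) (nat_lit 217) (nat_lit 195))) (XT.nd (nat_lit 78) (nat_lit 0) (nat_lit 0) (XT.lf (nat_lit 0) (nat_lit 215801700694) (nat_lit 76) (nat_lit 43555300224) (nat_lit 76) (nat_lit 39692991964) (nat_lit 1) (nat_lit 4) (nat_lit 2) (nat_lit 5) (nat_lit 2) (nat_lit 4) (nat_lit 309) (nat_lit 217) (nat_lit 194)) (XT.nd (nat_lit 78) (nat_lit 0) (nat_lit 0) (XT.lf (nat_lit 0) (nat_lit 236009807918) (nat_lit 76) (nat_lit 45399145722) (nat_lit 76) (nat_lit 41478108314) (nat_lit 1) (nat_lit 4) (nat_lit 2) (nat_lit 5) (nat_lit 2) (nat_lit 4) (nat_lit 310) (nat_lit 217) (nat_lit 193)) (XT.lf (nat_lit 0) (nat_lit 257780700771) (nat_lit 76) (nat_lit 47413701254)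 (nat_lit 76) (nat_lit 43438285006) (nat_lit 1) (nat_lit 4) (nat_lit 2) (nat_lit 5) (nat_lit 2) (nat_lit 4) (nat_lit 311) (nat_lit 217) (nat_lit 192))))))) (XT.nd (nat_lit 702) (nat_lit 0) (nat_lit 0) (XT.nd (nat_lit 312) (nat_lit 0) (nat_lit 0) (XT.nd (nat_lit 156) (nat_lit 0) (nat_lit 0) (XT.nd (nat_lit 78) (nat_lit 0) (nat_lit 0) (XT.lf (nat_lit 0) (nat_lit 281243391950) (nat_lit 76) (nat_lit 49610904929) (nat_lit 76) (nat_lit 45585137902) (nat_lit 1) (nat_lit 4) (nat_lit 2) (nat_lit 5) (nat_lit 2) (nat_lit 4) (nat_lit 312) (nat_lit 217) (nat_lit 191)) (XT.lf (nat_lit 0) (nat_lit 306536919626) (nat_lit 76) (nat_lit 52003777211) (nat_lit 76) (nat_lit 47931389093) (nat_lit 1) (nat_lit 4) (nat_lit 2) (nat_lit 5) (nat_lit 2) (nat_lit 4) (nat_lit 313) (nat_lit 217) (nat_lit 190))) (XT.nd (nat_lit 78) (nat_lit 0) (nat_lit 0) (XT.lf (nat_lit 0) (nat_lit 333811171371) (nat_lit 76) (nat_lit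 54606498084) (nat_lit 76) (nat_lit 50490942290) (nat_lit 1) (nat_lit 4) (nat_lit 2) (nat_lit 5) (nat_lit 2) (nat_lit 4) (nat_lit 314) (nat_lit 217) (nat_lit 189)) (XT.lf (nat_lit 0) (nat_lit 363227772379) (nat_lit 76) (nat_lit 57434491081) (nat_lit 76) (nat_lit 53278965216) (nat_lit 1) (nat_lit 4) (nat_lit 2) (nat_lit 5) (nat_lit 2) (nat_lit 4) (nat_lit 315) (nat_lit 217) (nat_lit 188)))) (XT.nd (nat_lit 156) (nat_lit 0) (nat_lit 0) (XT.nd (nat_lit 78) (nat_lit 0) (nat_lit 0) (XT.lf (nat_lit 0) (nat_lit 394961043250) (nat_lit 76) (nat_lit 60504514677) (nat_lit 76) (nat_lit 56311979487) (nat_lit 1) (nat_lit 4) (nat_lit 2) (nat_lit 5) (nat_lit 2) (nat_lit 4) (nat_lit 316) (nat_lit 217) (nat_lit 187)) (XT.lf (nat_lit 0) (nat_lit 429199032996) (nat_lit 76) (nat_lit 63834761605) (nat_lit 76) (nat_lit 59607958522) (nat_lit 1) (nat_lit 4) (nat_lit 2) (nat_lit 5) (nat_lit 2) (nat_lit 4) (nat_lit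 317) (nat_lit 217) (nat_lit 186))) (XT.nd (nat_lit 78) (nat_lit 0) (nat_lit 0) (XT.lf (nat_lit 0) (nat_lit 466144633407) (nat_lit 76) (nat_lit 67444966663) (nat_lit 76) (nat_lit 63186434048) (nat_lit 1) (nat_lit 4) (nat_lit 2) (nat_lit 5) (nat_lit 2) (nat_lit 4) (nat_lit 318) (nat_lit 217) (nat_lit 185)) (XT.nd (nat_lit 78) (nat_lit 0) (nat_lit 0) (XT.lf (nat_lit 0) (nat_lit 506016781376) (nat_lit 76) (nat_lit 71356523657) (nat_lit 76) (nat_lit 67068611846) (nat_lit 1) (nat_lit 4) (nat_lit 2) (nat_lit 5) (nat_lit 2) (nat_lit 4) (nat_lit 319) (nat_lit 217) (nat_lit 184)) (XT.lf (nat_lit 0) (nat_lit 549051756298) (nat_lit 76) (nat_lit 75592612184) (nat_lit 76) (nat_lit 71277497415) (nat_lit 1) (nat_lit 4) (nat_lit 2) (nat_lit 5) (nat_lit 2) (nat_lit 4) (nat_lit 320) (nat_lit 217) (nat_lit 183)))))) (XT.nd (nat_lit 34710) (nat_lit 0) (nat_lit 0) (XT.nd (nat_lit 156) (nat_lit 0) (nat_lit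 0) (XT.nd (nat_lit 78) (nat_lit 0) (nat_lit 0) (XT.lf (nat_lit 0) (nat_lit 595504580246) (nat_lit 76) (nat_lit 80178334992) (nat_lit 76) (nat_lit 75838032298) (nat_lit 1) (nat_lit 4) (nat_lit 2) (nat_lit 5) (nat_lit 2) (nat_lit 4) (nat_lit 321) (nat_lit 217) (nat_lit 182)) (XT.lf (nat_lit 0) (nat_lit 645650529214) (nat_lit 76) (nat_lit 85140866734) (nat_lit 76) (nat_lit 80777241887) (nat_lit 1) (nat_lit 4) (nat_lit 2) (nat_lit 5) (nat_lit 2) (nat_lit 4) (nat_lit 322) (nat_lit 217) (nat_lit 181))) (XT.nd (nat_lit 34476) (nat_lit 0) (nat_lit 76) (XT.lf (nat_lit 0) (nat_lit 699786764381) (nat_lit 76) (nat_lit 90509615005) (nat_lit 76) (nat_lit 86124395573) (nat_lit 1) (nat_lit 4) (nat_lit 2) (nat_lit 5) (nat_lit 2) (nat_lit 4) (nat_lit 323) (nat_lit 217) (nat_lit 180)) (XT.lf (nat_lit 0) (nat_lit 5605862348) (nat_lit 152) (nat_lit 11426169384) (nat_lit 0) (nat_lit 5605862348) (nat_lit 2)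 (nat_lit 5) (nat_lit 4) (nat_lit 4) (nat_lit 2) (nat_lit 4) (nat_lit 284) (nat_lit 218) (nat_lit 218)))) (XT.nd (nat_lit 156) (nat_lit 76) (nat_lit 0) (XT.nd (nat_lit 78) (nat_lit 0) (nat_lit 0) (XT.lf (nat_lit 0) (nat_lit 15584651328) (nat_lit 152) (nat_lit 17899579122) (nat_lit 0) (nat_lit 15212239187) (nat_lit 2) (nat_lit 5) (nat_lit 4) (nat_lit 4) (nat_lit 2) (nat_lit 4) (nat_lit 285) (nat_lit 218) (nat_lit 217)) (XT.lf (nat_lit 0) (nat_lit 20118320598) (nat_lit 152) (nat_lit 12881221517) (nat_lit 0) (nat_lit 19401082402) (nat_lit 2) (nat_lit 5) (nat_lit 4) (nat_lit 4) (nat_lit 2) (nat_lit 4) (nat_lit 286) (nat_lit 218) (nat_lit 216))) (XT.nd (nat_lit 78) (nat_lit 76) (nat_lit 0) (XT.lf (nat_lit 0) (nat_lit 24839598696) (nat_lit 152) (nat_lit 7767527540) (nat_lit 0) (nat_lit 23803077114) (nat_lit 2) (nat_lit 5) (nat_lit 4) (nat_lit 4) (nat_lit 2) (nat_lit 4) (nat_lit 287) (nat_lit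 218) (nat_lit 215)) (XT.nd (nat_lit 78) (nat_lit 76) (nat_lit 0) (XT.lf (nat_lit 0) (nat_lit 29776463564) (nat_lit 152) (nat_lit 2528193817) (nat_lit 0) (nat_lit 28444309219) (nat_lit 2) (nat_lit 5) (nat_lit 4) (nat_lit 4) (nat_lit 2) (nat_lit 4) (nat_lit 288) (nat_lit 218) (nat_lit 214)) (XT.lf (nat_lit 0) (nat_lit 2962650884) (nat_lit 76) (nat_lit 32041775099) (nat_lit 76) (nat_lit 30435886713) (nat_lit 1) (nat_lit 4) (nat_lit 2) (nat_lit 5) (nat_lit 2) (nat_lit 4) (nat_lit 289) (nat_lit 218) (nat_lit 213))))))))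
noncomputable def xc11 : XT := (XT.nd (nat_lit 1404) (nat_lit 0) (nat_lit 0) (XT.nd (nat_lit 702) (nat_lit 0) (nat_lit 0) (XT.nd (nat_lit 312) (nat_lit 0) (nat_lit 0) (XT.nd (nat_lit 156) (nat_lit 0) (nat_lit 0) (XT.nd (nat_lit 78) (nat_lit 0) (nat_lit 0) (XT.lf (nat_lit 0) (nat_lit 8731991249) (nat_lit 76) (nat_lit 31819766121) (nat_lit 76) (nat_lit 29960420290) (nat_lit 1) (nat_lit 4) (nat_lit 2) (nat_lit 5) (nat_lit 2) (nat_lit 4) (nat_lit 290) (nat_lit 218) (nat_lit 212)) (XT.lf (nat_lit 0) (nat_lit 14730422455) (nat_lit 76) (nat_lit 31680131025) (nat_lit 76) (nat_lit 29586102374) (nat_lit 1) (nat_lit 4) (nat_lit 2) (nat_lit 5) (nat_lit 2) (nat_lit 4) (nat_lit 291) (nat_lit 218) (nat_lit 211))) (XT.nd (nat_lit 78) (nat_lit 0) (nat_lit 0) (XT.lf (nat_lit 0) (nat_lit 20993490762) (nat_lit 76) (nat_lit 31622042343) (nat_lit 76) (nat_lit 29310714786) (nat_lit 1) (nat_lit 4) (nat_lit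 2) (nat_lit 5) (nat_lit 2) (nat_lit 4) (nat_lit 292) (nat_lit 218) (nat_lit 210)) (XT.lf (nat_lit 0) (nat_lit 27558310648) (nat_lit 76) (nat_lit 31645155847) (nat_lit 76) (nat_lit 29132625598) (nat_lit 1) (nat_lit 4) (nat_lit 2) (nat_lit 5) (nat_lit 2) (nat_lit 4) (nat_lit 293) (nat_lit 218) (nat_lit 209)))) (XT.nd (nat_lit 156) (nat_lit 0) (nat_lit 0) (XT.nd (nat_lit 78) (nat_lit 0) (nat_lit 0) (XT.lf (nat_lit 0) (nat_lit 34463784750) (nat_lit 76) (nat_lit 31749608506) (nat_lit 76) (nat_lit 29050779468) (nat_lit 1) (nat_lit 4) (nat_lit 2) (nat_lit 5) (nat_lit 2) (nat_lit 4) (nat_lit 294) (nat_lit 218) (nat_lit 208)) (XT.lf (nat_lit 0) (nat_lit 41750834395) (nat_lit 76) (nat_lit 31936019297) (nat_lit 76) (nat_lit 29064691381) (nat_lit 1) (nat_lit 4) (nat_lit 2) (nat_lit 5) (nat_lit 2) (nat_lit 4) (nat_lit 295) (nat_lit 218) (nat_lit 207))) (XT.nd (nat_lit 78) (nat_lit 0) (nat_lit 0)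 (XT.lf (nat_lit 0) (nat_lit 49462642101) (nat_lit 76) (nat_lit 32205492878) (nat_lit 76) (nat_lit 29174443779) (nat_lit 1) (nat_lit 4) (nat_lit 2) (nat_lit 5) (nat_lit 2) (nat_lit 4) (nat_lit 296) (nat_lit 218) (nat_lit 206)) (XT.nd (nat_lit 78) (nat_lit 0) (nat_lit 0) (XT.lf (nat_lit 0) (nat_lit 57644907468) (nat_lit 76) (nat_lit 32559626129) (nat_lit 76) (nat_lit 29380687045) (nat_lit 1) (nat_lit 4) (nat_lit 2) (nat_lit 5) (nat_lit 2) (nat_lit 4) (nat_lit 297) (nat_lit 218) (nat_lit 205)) (XT.lf (nat_lit 0) (nat_lit 66346117995) (nat_lit 76) (nat_lit 33000517618) (nat_lit 76) (nat_lit 29684643362) (nat_lit 1) (nat_lit 4) (nat_lit 2) (nat_lit 5) (nat_lit 2) (nat_lit 4) (nat_lit 298) (nat_lit 218) (nat_lit 204)))))) (XT.nd (nat_lit 312) (nat_lit 0) (nat_lit 0) (XT.nd (nat_lit 156) (nat_lit 0) (nat_lit 0) (XT.nd (nat_lit 78) (nat_lit 0) (nat_lit 0) (XT.lf (nat_lit 0) (nat_lit 75617836410)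 (nat_lit 76) (nat_lit 33530780034) (nat_lit 76) (nat_lit 30088113954) (nat_lit 1) (nat_lit 4) (nat_lit 2) (nat_lit 5) (nat_lit 2) (nat_lit 4) (nat_lit 299) (nat_lit 218) (nat_lit 203)) (XT.lf (nat_lit 0) (nat_lit 85515006231) (nat_lit 76) (nat_lit 34153555674) (nat_lit 76) (nat_lit 30593489755) (nat_lit 1) (nat_lit 4) (nat_lit 2) (nat_lit 5) (nat_lit 2) (nat_lit 4) (nat_lit 300) (nat_lit 218) (nat_lit 202))) (XT.nd (nat_lit 78) (nat_lit 0) (nat_lit 0) (XT.lf (nat_lit 0) (nat_lit 96096277353) (nat_lit 76) (nat_lit 34872535060) (nat_lit 76) (nat_lit 31203765587) (nat_lit 1) (nat_lit 4) (nat_lit 2) (nat_lit 5) (nat_lit 2) (nat_lit 4) (nat_lit 301) (nat_lit 218) (nat_lit 201)) (XT.lf (nat_lit 0) (nat_lit 107424353603) (nat_lit 76) (nat_lit 35691978810) (nat_lit 76) (nat_lit 31922557899) (nat_lit 1) (nat_lit 4) (nat_lit 2) (nat_lit 5) (nat_lit 2) (nat_lit 4) (nat_lit 302) (nat_lit 218) (nat_lit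 200)))) (XT.nd (nat_lit 156) (nat_lit 0) (nat_lit 0) (XT.nd (nat_lit 78) (nat_lit 0) (nat_lit 0) (XT.lf (nat_lit 0) (nat_lit 119566364325) (nat_lit 76) (nat_lit 36616742888) (nat_lit 76) (nat_lit 32754126200) (nat_lit 1) (nat_lit 4) (nat_lit 2) (nat_lit 5) (nat_lit 2) (nat_lit 4) (nat_lit 303) (nat_lit 218) (nat_lit 199)) (XT.lf (nat_lit 0) (nat_lit 132594262172) (nat_lit 76) (nat_lit 37652307376) (nat_lit 76) (nat_lit 33703398303) (nat_lit 1) (nat_lit 4) (nat_lit 2) (nat_lit 5) (nat_lit 2) (nat_lit 4) (nat_lit 304) (nat_lit 218) (nat_lit 198))) (XT.nd (nat_lit 78) (nat_lit 0) (nat_lit 0) (XT.lf (nat_lit 0) (nat_lit 146585249504) (nat_lit 76) (nat_lit 38804808954) (nat_lit 76) (nat_lit 34775999524) (nat_lit 1) (nat_lit 4) (nat_lit 2) (nat_lit 5) (nat_lit 2) (nat_lit 4) (nat_lit 305) (nat_lit 218) (nat_lit 197)) (XT.nd (nat_lit 78) (nat_lit 0) (nat_lit 0) (XT.lf (nat_lit 0) (nat_lit 161622235874)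 (nat_lit 76) (nat_lit 40081077260) (nat_lit 76) (nat_lit 35978286018) (nat_lit 1) (nat_lit 4) (nat_lit 2) (nat_lit 5) (nat_lit 2) (nat_lit 4) (nat_lit 306) (nat_lit 218) (nat_lit 196)) (XT.lf (nat_lit 0) (nat_lit 177794329350) (nat_lit 76) (nat_lit 41488675366) (nat_lit 76) (nat_lit 37317382446) (nat_lit 1) (nat_lit 4) (nat_lit 2) (nat_lit 5) (nat_lit 2) (nat_lit 4) (nat_lit 307) (nat_lit 218) (nat_lit 195))))))) (XT.nd (nat_lit 702) (nat_lit 0) (nat_lit 0) (XT.nd (nat_lit 312) (nat_lit 0) (nat_lit 0) (XT.nd (nat_lit 156) (nat_lit 0) (nat_lit 0) (XT.nd (nat_lit 78) (nat_lit 0) (nat_lit 0) (XT.lf (nat_lit 0) (nat_lit 195197364560) (nat_lit 76) (nat_lit 43035944594) (nat_lit 76) (nat_lit 38801224194) (nat_lit 1) (nat_lit 4) (nat_lit 2) (nat_lit 5) (nat_lit 2) (nat_lit 4) (nat_lit 308) (nat_lit 218) (nat_lit 194)) (XT.lf (nat_lit 0) (nat_lit 213934470601) (nat_lit 76) (nat_lit 44732053946)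 (nat_lit 76) (nat_lit 40438604399) (nat_lit 1) (nat_lit 4) (nat_lit 2) (nat_lit 5) (nat_lit 2) (nat_lit 4) (nat_lit 309) (nat_lit 218) (nat_lit 193))) (XT.nd (nat_lit 78) (nat_lit 0) (nat_lit 0) (XT.lf (nat_lit 0) (nat_lit 234116682176) (nat_lit 76) (nat_lit 46587054442) (nat_lit 76) (nat_lit 42239226054) (nat_lit 1) (nat_lit 4) (nat_lit 2) (nat_lit 5) (nat_lit 2) (nat_lit 4) (nat_lit 310) (nat_lit 218) (nat_lit 192)) (XT.lf (nat_lit 0) (nat_lit 255863597576) (nat_lit 76) (nat_lit 48611938676) (nat_lit 76) (nat_lit 44213759509) (nat_lit 1) (nat_lit 4) (nat_lit 2) (nat_lit 5) (nat_lit 2) (nat_lit 4) (nat_lit 311) (nat_lit 218) (nat_lit 191)))) (XT.nd (nat_lit 156) (nat_lit 0) (nat_lit 0) (XT.nd (nat_lit 78) (nat_lit 0) (nat_lit 0) (XT.lf (nat_lit 0) (nat_lit 279304087410) (nat_lit 76) (nat_lit 50818705963) (nat_lit 76) (nat_lit 46373905705) (nat_lit 1) (nat_lit 4) (nat_lit 2) (nat_lit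 5) (nat_lit 2) (nat_lit 4) (nat_lit 312) (nat_lit 218) (nat_lit 190)) (XT.lf (nat_lit 0) (nat_lit 304577058286) (nat_lit 76) (nat_lit 53220433441) (nat_lit 76) (nat_lit 48732465507) (nat_lit 1) (nat_lit 4) (nat_lit 2) (nat_lit 5) (nat_lit 2) (nat_lit 4) (nat_lit 313) (nat_lit 218) (nat_lit 189))) (XT.nd (nat_lit 78) (nat_lit 0) (nat_lit 0) (XT.lf (nat_lit 0) (nat_lit 331832275955) (nat_lit 76) (nat_lit 55831353571) (nat_lit 76) (nat_lit 51303415566) (nat_lit 1) (nat_lit 4) (nat_lit 2) (nat_lit 5) (nat_lit 2) (nat_lit 4) (nat_lit 314) (nat_lit 218) (nat_lit 188)) (XT.nd (nat_lit 78) (nat_lit 0) (nat_lit 0) (XT.lf (nat_lit 0) (nat_lit 361231252820) (nat_lit 76) (nat_lit 58666938471) (nat_lit 76) (nat_lit 54101991141) (nat_lit 1) (nat_lit 4) (nat_lit 2) (nat_lit 5) (nat_lit 2) (nat_lit 4) (nat_lit 315) (nat_lit 218) (nat_lit 187)) (XT.lf (nat_lit 0) (nat_lit 392948205040) (nat_lit 76) (nat_lit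 61743991608) (nat_lit 76) (nat_lit 57144776384) (nat_lit 1) (nat_lit 4) (nat_lit 2) (nat_lit 5) (nat_lit 2) (nat_lit 4) (nat_lit 316) (nat_lit 218) (nat_lit 186)))))) (XT.nd (nat_lit 312) (nat_lit 0) (nat_lit 0) (XT.nd (nat_lit 156) (nat_lit 0) (nat_lit 0) (XT.nd (nat_lit 78) (nat_lit 0) (nat_lit 0) (XT.lf (nat_lit 0) (nat_lit 427171084923) (nat_lit 76) (nat_lit 65080747371) (nat_lit 76) (nat_lit 60449802615) (nat_lit 1) (nat_lit 4) (nat_lit 2) (nat_lit 5) (nat_lit 2) (nat_lit 4) (nat_lit 317) (nat_lit 218) (nat_lit 185)) (XT.lf (nat_lit 0) (nat_lit 464102694721) (nat_lit 76) (nat_lit 68696979126) (nat_lit 76) (nat_lit 64036655175) (nat_lit 1) (nat_lit 4) (nat_lit 2) (nat_lit 5) (nat_lit 2) (nat_lit 4) (nat_lit 318) (nat_lit 218) (nat_lit 184))) (XT.nd (nat_lit 78) (nat_lit 0) (nat_lit 0) (XT.lf (nat_lit 0) (nat_lit 503961888419) (nat_lit 76) (nat_lit 72614116396) (nat_lit 76) (nat_lit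 67926589486) (nat_lit 1) (nat_lit 4) (nat_lit 2) (nat_lit 5) (nat_lit 2) (nat_lit 4) (nat_lit 319) (nat_lit 218) (nat_lit 183)) (XT.lf (nat_lit 0) (nat_lit 546984868645) (nat_lit 76) (nat_lit 76855371846) (nat_lit 76) (nat_lit 72142657011) (nat_lit 1) (nat_lit 4) (nat_lit 2) (nat_lit 5) (nat_lit 2) (nat_lit 4) (nat_lit 320) (nat_lit 218) (nat_lit 182)))) (XT.nd (nat_lit 156) (nat_lit 0) (nat_lit 0) (XT.nd (nat_lit 78) (nat_lit 0) (nat_lit 0) (XT.lf (nat_lit 0) (nat_lit 593426586393) (nat_lit 76) (nat_lit 81445878841) (nat_lit 76) (nat_lit 76709841854) (nat_lit 1) (nat_lit 4) (nat_lit 2) (nat_lit 5) (nat_lit 2) (nat_lit 4) (nat_lit 321) (nat_lit 218) (nat_lit 181)) (XT.lf (nat_lit 0) (nat_lit 643562251842) (nat_lit 76) (nat_lit 86412840386) (nat_lit 76) (nat_lit 81655208813) (nat_lit 1) (nat_lit 4) (nat_lit 2) (nat_lit 5) (nat_lit 2) (nat_lit 4) (nat_lit 322) (nat_lit 218) (nat_lit 180)))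 (XT.nd (nat_lit 34320) (nat_lit 0) (nat_lit 76) (XT.lf (nat_lit 0) (nat_lit 697688965233) (nat_lit 76) (nat_lit 91785690326) (nat_lit 76) (nat_lit 87008063767) (nat_lit 1) (nat_lit 4) (nat_lit 2) (nat_lit 5) (nat_lit 2) (nat_lit 4) (nat_lit 323) (nat_lit 218) (nat_lit 179)) (XT.nd (nat_lit 78) (nat_lit 0) (nat_lit 0) (XT.lf (nat_lit 0) (nat_lit 1676742790) (nat_lit 152) (nat_lit 16246422514) (nat_lit 0) (nat_lit 1676742790) (nat_lit 2) (nat_lit 5) (nat_lit 4) (nat_lit 4) (nat_lit 2) (nat_lit 4) (nat_lit 282) (nat_lit 219) (nat_lit 219)) (XT.lf (nat_lit 0) (nat_lit 7375832175) (nat_lit 152) (nat_lit 27768850143) (nat_lit 0) (nat_lit 6973627064) (nat_lit 2) (nat_lit 5) (nat_lit 4) (nat_lit 4) (nat_lit 2) (nat_lit 4) (nat_lit 283) (nat_lit 219) (nat_lit 218))))))))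
noncomputable def xc12 : XT := (XT.nd (nat_lit 1326) (nat_lit 0) (nat_lit 0) (XT.nd (nat_lit 624) (nat_lit 0) (nat_lit 0) (XT.nd (nat_lit 312) (nat_lit 76) (nat_lit 0) (XT.nd (nat_lit 156) (nat_lit 0) (nat_lit 0) (XT.nd (nat_lit 78) (nat_lit 0) (nat_lit 0) (XT.lf (nat_lit 0) (nat_lit 11515747687) (nat_lit 152) (nat_lit 23024008306) (nat_lit 0) (nat_lit 10741130435) (nat_lit 2) (nat_lit 5) (nat_lit 4) (nat_lit 4) (nat_lit 2) (nat_lit 4) (nat_lit 284) (nat_lit 219) (nat_lit 217)) (XT.lf (nat_lit 0) (nat_lit 15797764947) (nat_lit 152) (nat_lit 18230201935) (nat_lit 0) (nat_lit 14678321640) (nat_lit 2) (nat_lit 5) (nat_lit 4) (nat_lit 4) (nat_lit 2) (nat_lit 4) (nat_lit 285) (nat_lit 219) (nat_lit 216))) (XT.nd (nat_lit 78) (nat_lit 0) (nat_lit 0) (XT.lf (nat_lit 0) (nat_lit 20247258874) (nat_lit 152) (nat_lit 13359023290) (nat_lit 0) (nat_lit 18808532182) (nat_lit 2) (nat_lit 5) (nat_lit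 4) (nat_lit 4) (nat_lit 2) (nat_lit 4) (nat_lit 286) (nat_lit 219) (nat_lit 215)) (XT.lf (nat_lit 0) (nat_lit 24890596839) (nat_lit 152) (nat_lit 8381606126) (nat_lit 0) (nat_lit 23156237382) (nat_lit 2) (nat_lit 5) (nat_lit 4) (nat_lit 4) (nat_lit 2) (nat_lit 4) (nat_lit 287) (nat_lit 219) (nat_lit 214)))) (XT.nd (nat_lit 156) (nat_lit 0) (nat_lit 0) (XT.nd (nat_lit 78) (nat_lit 76) (nat_lit 0) (XT.lf (nat_lit 0) (nat_lit 29755294918) (nat_lit 152) (nat_lit 3268454639) (nat_lit 0) (nat_lit 27747201421) (nat_lit 2) (nat_lit 5) (nat_lit 4) (nat_lit 4) (nat_lit 2) (nat_lit 4) (nat_lit 288) (nat_lit 219) (nat_lit 213)) (XT.lf (nat_lit 0) (nat_lit 2077215187) (nat_lit 76) (nat_lit 32825396915) (nat_lit 76) (nat_lit 30563845973) (nat_lit 1) (nat_lit 4) (nat_lit 2) (nat_lit 5) (nat_lit 2) (nat_lit 4) (nat_lit 289) (nat_lit 219) (nat_lit 212))) (XT.nd (nat_lit 78) (nat_lit 0) (nat_lit 0) (XT.lf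 (nat_lit 0) (nat_lit 7734797673) (nat_lit 76) (nat_lit 32651529572) (nat_lit 76) (nat_lit 30155295810) (nat_lit 1) (nat_lit 4) (nat_lit 2) (nat_lit 5) (nat_lit 2) (nat_lit 4) (nat_lit 290) (nat_lit 219) (nat_lit 211)) (XT.lf (nat_lit 0) (nat_lit 13629749362) (nat_lit 76) (nat_lit 32556470064) (nat_lit 76) (nat_lit 29842937395) (nat_lit 1) (nat_lit 4) (nat_lit 2) (nat_lit 5) (nat_lit 2) (nat_lit 4) (nat_lit 291) (nat_lit 219) (nat_lit 210))))) (XT.nd (nat_lit 312) (nat_lit 0) (nat_lit 0) (XT.nd (nat_lit 156) (nat_lit 0) (nat_lit 0) (XT.nd (nat_lit 78) (nat_lit 0) (nat_lit 0) (XT.lf (nat_lit 0) (nat_lit 19797003301) (nat_lit 76) (nat_lit 32539655074) (nat_lit 76) (nat_lit 29624919714) (nat_lit 1) (nat_lit 4) (nat_lit 2) (nat_lit 5) (nat_lit 2) (nat_lit 4) (nat_lit 292) (nat_lit 219) (nat_lit 209)) (XT.lf (nat_lit 0) (nat_lit 26273106180) (nat_lit 76) (nat_lit 32600984960) (nat_lit 76)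 (nat_lit 29499950811) (nat_lit 1) (nat_lit 4) (nat_lit 2) (nat_lit 5) (nat_lit 2) (nat_lit 4) (nat_lit 293) (nat_lit 219) (nat_lit 208))) (XT.nd (nat_lit 78) (nat_lit 0) (nat_lit 0) (XT.lf (nat_lit 0) (nat_lit 33096434905) (nat_lit 76) (nat_lit 32740823157) (nat_lit 76) (nat_lit 29467290130) (nat_lit 1) (nat_lit 4) (nat_lit 2) (nat_lit 5) (nat_lit 2) (nat_lit 4) (nat_lit 294) (nat_lit 219) (nat_lit 207)) (XT.lf (nat_lit 0) (nat_lit 40307424016) (nat_lit 76) (nat_lit 32959998336) (nat_lit 76) (nat_lit 29526744125) (nat_lit 1) (nat_lit 4) (nat_lit 2) (nat_lit 5) (nat_lit 2) (nat_lit 4) (nat_lit 295) (nat_lit 219) (nat_lit 206)))) (XT.nd (nat_lit 156) (nat_lit 0) (nat_lit 0) (XT.nd (nat_lit 78) (nat_lit 0) (nat_lit 0) (XT.lf (nat_lit 0) (nat_lit 47948805300) (nat_lit 76) (nat_lit 33259809313) (nat_lit 76) (nat_lit 29678665117) (nat_lit 1) (nat_lit 4) (nat_lit 2) (nat_lit 5) (nat_lit 2)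 (nat_lit 4) (nat_lit 296) (nat_lit 219) (nat_lit 205)) (XT.lf (nat_lit 0) (nat_lit 56065861019) (nat_lit 76) (nat_lit 33642032746) (nat_lit 76) (nat_lit 29923953379) (nat_lit 1) (nat_lit 4) (nat_lit 2) (nat_lit 5) (nat_lit 2) (nat_lit 4) (nat_lit 297) (nat_lit 219) (nat_lit 204))) (XT.nd (nat_lit 78) (nat_lit 0) (nat_lit 0) (XT.lf (nat_lit 0) (nat_lit 64706692241) (nat_lit 76) (nat_lit 34108933661) (nat_lit 76) (nat_lit 30264062469) (nat_lit 1) (nat_lit 4) (nat_lit 2) (nat_lit 5) (nat_lit 2) (nat_lit 4) (nat_lit 298) (nat_lit 219) (nat_lit 203)) (XT.nd (nat_lit 78) (nat_lit 0) (nat_lit 0) (XT.lf (nat_lit 0) (nat_lit 73922503893) (nat_lit 76) (nat_lit 34663278881) (nat_lit 76) (nat_lit 30701007851) (nat_lit 1) (nat_lit 4) (nat_lit 2) (nat_lit 5) (nat_lit 2) (nat_lit 4) (nat_lit 299) (nat_lit 219) (nat_lit 202)) (XT.lf (nat_lit 0) (nat_lit 83767908192) (nat_lit 76) (nat_lit 35308353412)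 (nat_lit 76) (nat_lit 31237378828) (nat_lit 1) (nat_lit 4) (nat_lit 2) (nat_lit 5) (nat_lit 2) (nat_lit 4) (nat_lit 300) (nat_lit 219) (nat_lit 201))))))) (XT.nd (nat_lit 702) (nat_lit 0) (nat_lit 0) (XT.nd (nat_lit 312) (nat_lit 0) (nat_lit 0) (XT.nd (nat_lit 156) (nat_lit 0) (nat_lit 0) (XT.nd (nat_lit 78) (nat_lit 0) (nat_lit 0) (XT.lf (nat_lit 0) (nat_lit 94301248275) (nat_lit 76) (nat_lit 36047979920) (nat_lit 76) (nat_lit 31876353898) (nat_lit 1) (nat_lit 4) (nat_lit 2) (nat_lit 5) (nat_lit 2) (nat_lit 4) (nat_lit 301) (nat_lit 219) (nat_lit 200)) (XT.lf (nat_lit 0) (nat_lit 105584943935) (nat_lit 76) (nat_lit 36886541376) (nat_lit 76) (nat_lit 32621719577) (nat_lit 1) (nat_lit 4) (nat_lit 2) (nat_lit 5) (nat_lit 2) (nat_lit 4) (nat_lit 302) (nat_lit 219) (nat_lit 199))) (XT.nd (nat_lit 78) (nat_lit 0) (nat_lit 0) (XT.lf (nat_lit 0) (nat_lit 117685861516) (nat_lit 76) (nat_lit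 37829007033) (nat_lit 76) (nat_lit 33477892848) (nat_lit 1) (nat_lit 4) (nat_lit 2) (nat_lit 5) (nat_lit 2) (nat_lit 4) (nat_lit 303) (nat_lit 219) (nat_lit 198)) (XT.lf (nat_lit 0) (nat_lit 130675710160) (nat_lit 76) (nat_lit 38880961872) (nat_lit 76) (nat_lit 34449947330) (nat_lit 1) (nat_lit 4) (nat_lit 2) (nat_lit 5) (nat_lit 2) (nat_lit 4) (nat_lit 304) (nat_lit 219) (nat_lit 197)))) (XT.nd (nat_lit 156) (nat_lit 0) (nat_lit 0) (XT.nd (nat_lit 78) (nat_lit 0) (nat_lit 0) (XT.lf (nat_lit 0) (nat_lit 144631466747) (nat_lit 76) (nat_lit 40048639701) (nat_lit 76) (nat_lit 35543643347) (nat_lit 1) (nat_lit 4) (nat_lit 2) (nat_lit 5) (nat_lit 2) (nat_lit 4) (nat_lit 305) (nat_lit 219) (nat_lit 196)) (XT.lf (nat_lit 0) (nat_lit 159635832058) (nat_lit 76) (nat_lit 41338960092) (nat_lit 76) (nat_lit 36765462060) (nat_lit 1) (nat_lit 4) (nat_lit 2) (nat_lit 5) (nat_lit 2) (nat_lit 4) (nat_lit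 306) (nat_lit 219) (nat_lit 195))) (XT.nd (nat_lit 78) (nat_lit 0) (nat_lit 0) (XT.lf (nat_lit 0) (nat_lit 175777720849) (nat_lit 76) (nat_lit 42759569387) (nat_lit 76) (nat_lit 38122643875) (nat_lit 1) (nat_lit 4) (nat_lit 2) (nat_lit 5) (nat_lit 2) (nat_lit 4) (nat_lit 307) (nat_lit 219) (nat_lit 194)) (XT.nd (nat_lit 78) (nat_lit 0) (nat_lit 0) (XT.lf (nat_lit 0) (nat_lit 193152788758) (nat_lit 76) (nat_lit 44318886012) (nat_lit 76) (nat_lit 39623231352) (nat_lit 1) (nat_lit 4) (nat_lit 2) (nat_lit 5) (nat_lit 2) (nat_lit 4) (nat_lit 308) (nat_lit 219) (nat_lit 193)) (XT.lf (nat_lit 0) (nat_lit 211863999150) (nat_lit 76) (nat_lit 46026150362) (nat_lit 76) (nat_lit 41276116862) (nat_lit 1) (nat_lit 4) (nat_lit 2) (nat_lit 5) (nat_lit 2) (nat_lit 4) (nat_lit 309) (nat_lit 219) (nat_lit 192)))))) (XT.nd (nat_lit 312) (nat_lit 0) (nat_lit 0) (XT.nd (nat_lit 156) (nat_lit 0) (nat_lit 0)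 (XT.nd (nat_lit 78) (nat_lit 0) (nat_lit 0) (XT.lf (nat_lit 0) (nat_lit 232022233273) (nat_lit 76) (nat_lit 47891479558) (nat_lit 76) (nat_lit 43091095281) (nat_lit 1) (nat_lit 4) (nat_lit 2) (nat_lit 5) (nat_lit 2) (nat_lit 4) (nat_lit 310) (nat_lit 219) (nat_lit 191)) (XT.lf (nat_lit 0) (nat_lit 253746947328) (nat_lit 76) (nat_lit 49925927405) (nat_lit 76) (nat_lit 45078922036) (nat_lit 1) (nat_lit 4) (nat_lit 2) (nat_lit 5) (nat_lit 2) (nat_lit 4) (nat_lit 311) (nat_lit 219) (nat_lit 190))) (XT.nd (nat_lit 78) (nat_lit 0) (nat_lit 0) (XT.lf (nat_lit 0) (nat_lit 277166880362) (nat_lit 76) (nat_lit 52141549888) (nat_lit 76) (nat_lit 47251376843) (nat_lit 1) (nat_lit 4) (nat_lit 2) (nat_lit 5) (nat_lit 2) (nat_lit 4) (nat_lit 312) (nat_lit 219) (nat_lit 189)) (XT.lf (nat_lit 0) (nat_lit 302420817162) (nat_lit 76) (nat_lit 54551476623) (nat_lit 76) (nat_lit 49621333506) (nat_lit 1) (nat_lit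 4) (nat_lit 2) (nat_lit 5) (nat_lit 2) (nat_lit 4) (nat_lit 313) (nat_lit 219) (nat_lit 188)))) (XT.nd (nat_lit 156) (nat_lit 0) (nat_lit 0) (XT.nd (nat_lit 78) (nat_lit 0) (nat_lit 0) (XT.lf (nat_lit 0) (nat_lit 329658410688) (nat_lit 76) (nat_lit 57169988657) (nat_lit 76) (nat_lit 52202836215) (nat_lit 1) (nat_lit 4) (nat_lit 2) (nat_lit 5) (nat_lit 2) (nat_lit 4) (nat_lit 314) (nat_lit 219) (nat_lit 187)) (XT.lf (nat_lit 0) (nat_lit 359041068902) (nat_lit 76) (nat_lit 60012603098) (nat_lit 76) (nat_lit 55011182762) (nat_lit 1) (nat_lit 4) (nat_lit 2) (nat_lit 5) (nat_lit 2) (nat_lit 4) (nat_lit 315) (nat_lit 219) (nat_lit 186))) (XT.nd (nat_lit 78) (nat_lit 0) (nat_lit 0) (XT.lf (nat_lit 0) (nat_lit 390742911259) (nat_lit 76) (nat_lit 63096165069) (nat_lit 76) (nat_lit 58063015202) (nat_lit 1) (nat_lit 4) (nat_lit 2) (nat_lit 5) (nat_lit 2) (nat_lit 4) (nat_lit 316) (nat_lit 219)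 (nat_lit 185)) (XT.nd (nat_lit 78) (nat_lit 0) (nat_lit 0) (XT.lf (nat_lit 0) (nat_lit 424951800529) (nat_lit 76) (nat_lit 66438947529) (nat_lit 76) (nat_lit 61376418467) (nat_lit 1) (nat_lit 4) (nat_lit 2) (nat_lit 5) (nat_lit 2) (nat_lit 4) (nat_lit 317) (nat_lit 219) (nat_lit 184)) (XT.lf (nat_lit 0) (nat_lit 461870456056) (nat_lit 76) (nat_lit 70060759560) (nat_lit 76) (nat_lit 64971027539) (nat_lit 1) (nat_lit 4) (nat_lit 2) (nat_lit 5) (nat_lit 2) (nat_lit 4) (nat_lit 318) (nat_lit 219) (nat_lit 183))))))))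
noncomputable def xc13 : XT := (XT.nd (nat_lit 35412) (nat_lit 0) (nat_lit 0) (XT.nd (nat_lit 34710) (nat_lit 0) (nat_lit 0) (XT.nd (nat_lit 312) (nat_lit 0) (nat_lit 0) (XT.nd (nat_lit 156) (nat_lit 0) (nat_lit 0) (XT.nd (nat_lit 78) (nat_lit 0) (nat_lit 0) (XT.lf (nat_lit 0) (nat_lit 501717655057) (nat_lit 76) (nat_lit 73983063753) (nat_lit 76) (nat_lit 68868143807) (nat_lit 1) (nat_lit 4) (nat_lit 2) (nat_lit 5) (nat_lit 2) (nat_lit 4) (nat_lit 319) (nat_lit 219) (nat_lit 182)) (XT.lf (nat_lit 0) (nat_lit 544729529083) (nat_lit 76) (nat_lit 78229103389) (nat_lit 76) (nat_lit 73090861291) (nat_lit 1) (nat_lit 4) (nat_lit 2) (nat_lit 5) (nat_lit 2) (nat_lit 4) (nat_lit 320) (nat_lit 219) (nat_lit 181))) (XT.nd (nat_lit 78) (nat_lit 0) (nat_lit 0) (XT.lf (nat_lit 0) (nat_lit 591160963313) (nat_lit 76) (nat_lit 82824040188) (nat_lit 76) (nat_lit 77664203503) (nat_lit 1) (nat_lit 4) (nat_lit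 2) (nat_lit 5) (nat_lit 2) (nat_lit 4) (nat_lit 321) (nat_lit 219) (nat_lit 180)) (XT.lf (nat_lit 0) (nat_lit 641287106987) (nat_lit 76) (nat_lit 87795103402) (nat_lit 76) (nat_lit 82615271731) (nat_lit 1) (nat_lit 4) (nat_lit 2) (nat_lit 5) (nat_lit 2) (nat_lit 4) (nat_lit 322) (nat_lit 219) (nat_lit 179)))) (XT.nd (nat_lit 34242) (nat_lit 0) (nat_lit 76) (XT.nd (nat_lit 34164) (nat_lit 0) (nat_lit 228) (XT.lf (nat_lit 0) (nat_lit 695405003918) (nat_lit 76) (nat_lit 93171751185) (nat_lit 76) (nat_lit 87973405637) (nat_lit 1) (nat_lit 4) (nat_lit 2) (nat_lit 5) (nat_lit 2) (nat_lit 4) (nat_lit 323) (nat_lit 219) (nat_lit 178)) (XT.lf (nat_lit 0) (nat_lit 13182796477) (nat_lit 76) (nat_lit 1910868669) (nat_lit 76) (nat_lit 1910868669) (nat_lit 4) (nat_lit 4) (nat_lit 5) (nat_lit 5) (nat_lit 5) (nat_lit 4) (nat_lit 280) (nat_lit 220) (nat_lit 220))) (XT.nd (nat_lit 78) (nat_lit 152) (nat_lit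 0) (XT.lf (nat_lit 0) (nat_lit 35802656370) (nat_lit 76) (nat_lit 580214578) (nat_lit 76) (nat_lit 124113981) (nat_lit 4) (nat_lit 4) (nat_lit 5) (nat_lit 5) (nat_lit 5) (nat_lit 4) (nat_lit 281) (nat_lit 220) (nat_lit 219)) (XT.lf (nat_lit 0) (nat_lit 3681830411) (nat_lit 152) (nat_lit 32678248129) (nat_lit 0) (nat_lit 2845243779) (nat_lit 2) (nat_lit 5) (nat_lit 4) (nat_lit 4) (nat_lit 2) (nat_lit 4) (nat_lit 282) (nat_lit 220) (nat_lit 218))))) (XT.nd (nat_lit 312) (nat_lit 76) (nat_lit 0) (XT.nd (nat_lit 156) (nat_lit 0) (nat_lit 0) (XT.nd (nat_lit 78) (nat_lit 0) (nat_lit 0) (XT.lf (nat_lit 0) (nat_lit 7605994885) (nat_lit 152) (nat_lit 28125922782) (nat_lit 0) (nat_lit 6396996113) (nat_lit 2) (nat_lit 5) (nat_lit 4) (nat_lit 4) (nat_lit 2) (nat_lit 4) (nat_lit 283) (nat_lit 220) (nat_lit 217)) (XT.lf (nat_lit 0) (nat_lit 11655001025) (nat_lit 152) (nat_lit 23540034221) (nat_lit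 0) (nat_lit 10101176197) (nat_lit 2) (nat_lit 5) (nat_lit 4) (nat_lit 4) (nat_lit 2) (nat_lit 4) (nat_lit 284) (nat_lit 220) (nat_lit 216))) (XT.nd (nat_lit 78) (nat_lit 0) (nat_lit 0) (XT.lf (nat_lit 0) (nat_lit 15852842942) (nat_lit 152) (nat_lit 18893406809) (nat_lit 0) (nat_lit 13979734729) (nat_lit 2) (nat_lit 5) (nat_lit 4) (nat_lit 4) (nat_lit 2) (nat_lit 4) (nat_lit 285) (nat_lit 220) (nat_lit 215)) (XT.lf (nat_lit 0) (nat_lit 20224396736) (nat_lit 152) (nat_lit 14158504978) (nat_lit 0) (nat_lit 18055655759) (nat_lit 2) (nat_lit 5) (nat_lit 4) (nat_lit 4) (nat_lit 2) (nat_lit 4) (nat_lit 286) (nat_lit 220) (nat_lit 214)))) (XT.nd (nat_lit 156) (nat_lit 76) (nat_lit 0) (XT.nd (nat_lit 78) (nat_lit 0) (nat_lit 0) (XT.lf (nat_lit 0) (nat_lit 24795567911) (nat_lit 152) (nat_lit 9307270049) (nat_lit 0) (nat_lit 22353092893) (nat_lit 2) (nat_lit 5) (nat_lit 4) (nat_lit 4) (nat_lit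 2) (nat_lit 4) (nat_lit 287) (nat_lit 220) (nat_lit 213)) (XT.lf (nat_lit 0) (nat_lit 29593444889) (nat_lit 152) (nat_lit 4310953965) (nat_lit 0) (nat_lit 26897512426) (nat_lit 2) (nat_lit 5) (nat_lit 4) (nat_lit 4) (nat_lit 2) (nat_lit 4) (nat_lit 288) (nat_lit 220) (nat_lit 212))) (XT.nd (nat_lit 78) (nat_lit 0) (nat_lit 0) (XT.lf (nat_lit 0) (nat_lit 888488247) (nat_lit 76) (nat_lit 33771843077) (nat_lit 76) (nat_lit 30841227795) (nat_lit 1) (nat_lit 4) (nat_lit 2) (nat_lit 5) (nat_lit 2) (nat_lit 4) (nat_lit 289) (nat_lit 220) (nat_lit 211)) (XT.nd (nat_lit 78) (nat_lit 0) (nat_lit 0) (XT.lf (nat_lit 0) (nat_lit 6442591215) (nat_lit 76) (nat_lit 33642551321) (nat_lit 76) (nat_lit 30494637132) (nat_lit 1) (nat_lit 4) (nat_lit 2) (nat_lit 5) (nat_lit 2) (nat_lit 4) (nat_lit 290) (nat_lit 220) (nat_lit 210)) (XT.lf (nat_lit 0) (nat_lit 12241728537) (nat_lit 76) (nat_lit 33588765505)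 (nat_lit 76) (nat_lit 30239648624) (nat_lit 1) (nat_lit 4) (nat_lit 2) (nat_lit 5) (nat_lit 2) (nat_lit 4) (nat_lit 291) (nat_lit 220) (nat_lit 209))))))) (XT.nd (nat_lit 702) (nat_lit 0) (nat_lit 0) (XT.nd (nat_lit 312) (nat_lit 0) (nat_lit 0) (XT.nd (nat_lit 156) (nat_lit 0) (nat_lit 0) (XT.nd (nat_lit 78) (nat_lit 0) (nat_lit 0) (XT.lf (nat_lit 0) (nat_lit 18320265468) (nat_lit 76) (nat_lit 33610166898) (nat_lit 76) (nat_lit 30074751228) (nat_lit 1) (nat_lit 4) (nat_lit 2) (nat_lit 5) (nat_lit 2) (nat_lit 4) (nat_lit 292) (nat_lit 220) (nat_lit 208)) (XT.lf (nat_lit 0) (nat_lit 24714222970) (nat_lit 76) (nat_lit 33706882322) (nat_lit 76) (nat_lit 29998967775) (nat_lit 1) (nat_lit 4) (nat_lit 2) (nat_lit 5) (nat_lit 2) (nat_lit 4) (nat_lit 293) (nat_lit 220) (nat_lit 207))) (XT.nd (nat_lit 78) (nat_lit 0) (nat_lit 0) (XT.lf (nat_lit 0) (nat_lit 31461491160) (nat_lit 76) (nat_lit 33879484907)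 (nat_lit 76) (nat_lit 30011849176) (nat_lit 1) (nat_lit 4) (nat_lit 2) (nat_lit 5) (nat_lit 2) (nat_lit 4) (nat_lit 294) (nat_lit 220) (nat_lit 206)) (XT.lf (nat_lit 0) (nat_lit 38602053850) (nat_lit 76) (nat_lit 34128997482) (nat_lit 76) (nat_lit 30113471766) (nat_lit 1) (nat_lit 4) (nat_lit 2) (nat_lit 5) (nat_lit 2) (nat_lit 4) (nat_lit 295) (nat_lit 220) (nat_lit 205)))) (XT.nd (nat_lit 156) (nat_lit 0) (nat_lit 0) (XT.nd (nat_lit 78) (nat_lit 0) (nat_lit 0) (XT.lf (nat_lit 0) (nat_lit 46178225486) (nat_lit 76) (nat_lit 34456898640) (nat_lit 76) (nat_lit 30304437753) (nat_lit 1) (nat_lit 4) (nat_lit 2) (nat_lit 5) (nat_lit 2) (nat_lit 4) (nat_lit 296) (nat_lit 220) (nat_lit 204)) (XT.lf (nat_lit 0) (nat_lit 54234901900) (nat_lit 76) (nat_lit 34865131500) (nat_lit 76) (nat_lit 30585878788) (nat_lit 1) (nat_lit 4) (nat_lit 2) (nat_lit 5) (nat_lit 2) (nat_lit 4) (nat_lit 297) (nat_lit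 220) (nat_lit 203))) (XT.nd (nat_lit 78) (nat_lit 0) (nat_lit 0) (XT.lf (nat_lit 0) (nat_lit 62819826359) (nat_lit 76) (nat_lit 35356115219) (nat_lit 76) (nat_lit 30959462668) (nat_lit 1) (nat_lit 4) (nat_lit 2) (nat_lit 5) (nat_lit 2) (nat_lit 4) (nat_lit 298) (nat_lit 220) (nat_lit 202)) (XT.nd (nat_lit 78) (nat_lit 0) (nat_lit 0) (XT.lf (nat_lit 0) (nat_lit 71983872489) (nat_lit 76) (nat_lit 35932759330) (nat_lit 76) (nat_lit 31427403226) (nat_lit 1) (nat_lit 4) (nat_lit 2) (nat_lit 5) (nat_lit 2) (nat_lit 4) (nat_lit 299) (nat_lit 220) (nat_lit 201)) (XT.lf (nat_lit 0) (nat_lit 81781345750) (nat_lit 76) (nat_lit 36598480983) (nat_lit 76) (nat_lit 31992473440) (nat_lit 1) (nat_lit 4) (nat_lit 2) (nat_lit 5) (nat_lit 2) (nat_lit 4) (nat_lit 300) (nat_lit 220) (nat_lit 200)))))) (XT.nd (nat_lit 312) (nat_lit 0) (nat_lit 0) (XT.nd (nat_lit 156) (nat_lit 0) (nat_lit 0) (XT.nd (nat_lit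 78) (nat_lit 0) (nat_lit 0) (XT.lf (nat_lit 0) (nat_lit 92270305242) (nat_lit 76) (nat_lit 37357225197) (nat_lit 76) (nat_lit 32658021877) (nat_lit 1) (nat_lit 4) (nat_lit 2) (nat_lit 5) (nat_lit 2) (nat_lit 4) (nat_lit 301) (nat_lit 220) (nat_lit 199)) (XT.lf (nat_lit 0) (nat_lit 103512907761) (nat_lit 76) (nat_lit 38213488231) (nat_lit 76) (nat_lit 33427992526) (nat_lit 1) (nat_lit 4) (nat_lit 2) (nat_lit 5) (nat_lit 2) (nat_lit 4) (nat_lit 302) (nat_lit 220) (nat_lit 198))) (XT.nd (nat_lit 78) (nat_lit 0) (nat_lit 0) (XT.lf (nat_lit 0) (nat_lit 115575776139) (nat_lit 76) (nat_lit 39172344239) (nat_lit 76) (nat_lit 34306948177) (nat_lit 1) (nat_lit 4) (nat_lit 2) (nat_lit 5) (nat_lit 2) (nat_lit 4) (nat_lit 303) (nat_lit 220) (nat_lit 197)) (XT.lf (nat_lit 0) (nat_lit 128530394038) (nat_lit 76) (nat_lit 40239475330) (nat_lit 76) (nat_lit 35300097456) (nat_lit 1) (nat_lit 4) (nat_lit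 2) (nat_lit 5) (nat_lit 2) (nat_lit 4) (nat_lit 304) (nat_lit 220) (nat_lit 196)))) (XT.nd (nat_lit 156) (nat_lit 0) (nat_lit 0) (XT.nd (nat_lit 78) (nat_lit 0) (nat_lit 0) (XT.lf (nat_lit 0) (nat_lit 142453529566) (nat_lit 76) (nat_lit 41421205243) (nat_lit 76) (nat_lit 36413325691) (nat_lit 1) (nat_lit 4) (nat_lit 2) (nat_lit 5) (nat_lit 2) (nat_lit 4) (nat_lit 305) (nat_lit 220) (nat_lit 195)) (XT.lf (nat_lit 0) (nat_lit 157427690192) (nat_lit 76) (nat_lit 42724536823) (nat_lit 76) (nat_lit 37653229791) (nat_lit 1) (nat_lit 4) (nat_lit 2) (nat_lit 5) (nat_lit 2) (nat_lit 4) (nat_lit 306) (nat_lit 220) (nat_lit 194))) (XT.nd (nat_lit 78) (nat_lit 0) (nat_lit 0) (XT.lf (nat_lit 0) (nat_lit 173541611682) (nat_lit 76) (nat_lit 44157193515) (nat_lit 76) (nat_lit 39027157335) (nat_lit 1) (nat_lit 4) (nat_lit 2) (nat_lit 5) (nat_lit 2) (nat_lit 4) (nat_lit 307) (nat_lit 220) (nat_lit 193))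 (XT.nd (nat_lit 78) (nat_lit 0) (nat_lit 0) (XT.lf (nat_lit 0) (nat_lit 190890783943) (nat_lit 76) (nat_lit 45727665138) (nat_lit 76) (nat_lit 40543250117) (nat_lit 1) (nat_lit 4) (nat_lit 2) (nat_lit 5) (nat_lit 2) (nat_lit 4) (nat_lit 308) (nat_lit 220) (nat_lit 192)) (XT.lf (nat_lit 0) (nat_lit 209578016883) (nat_lit 76) (nat_lit 47445258189) (nat_lit 76) (nat_lit 42210492391) (nat_lit 1) (nat_lit 4) (nat_lit 2) (nat_lit 5) (nat_lit 2) (nat_lit 4) (nat_lit 309) (nat_lit 220) (nat_lit 191))))))))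
noncomputable def xc14 : XT := (XT.nd (nat_lit 35256) (nat_lit 0) (nat_lit 0) (XT.nd (nat_lit 624) (nat_lit 0) (nat_lit 0) (XT.nd (nat_lit 312) (nat_lit 0) (nat_lit 0) (XT.nd (nat_lit 156) (nat_lit 0) (nat_lit 0) (XT.nd (nat_lit 78) (nat_lit 0) (nat_lit 0) (XT.lf (nat_lit 0) (nat_lit 229714049661) (nat_lit 76) (nat_lit 49320150998) (nat_lit 76) (nat_lit 44038764109) (nat_lit 1) (nat_lit 4) (nat_lit 2) (nat_lit 5) (nat_lit 2) (nat_lit 4) (nat_lit 310) (nat_lit 220) (nat_lit 190)) (XT.lf (nat_lit 0) (nat_lit 251418206915) (nat_lit 76) (nat_lit 51363454042) (nat_lit 76) (nat_lit 46038899475) (nat_lit 1) (nat_lit 4) (nat_lit 2) (nat_lit 5) (nat_lit 2) (nat_lit 4) (nat_lit 311) (nat_lit 220) (nat_lit 189))) (XT.nd (nat_lit 78) (nat_lit 0) (nat_lit 0) (XT.lf (nat_lit 0) (nat_lit 274819105873) (nat_lit 76) (nat_lit 53587275781) (nat_lit 76) (nat_lit 48222751144) (nat_lit 1) (nat_lit 4) (nat_lit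 2) (nat_lit 5) (nat_lit 2) (nat_lit 4) (nat_lit 312) (nat_lit 220) (nat_lit 188)) (XT.lf (nat_lit 0) (nat_lit 300055418530) (nat_lit 76) (nat_lit 56004794420) (nat_lit 76) (nat_lit 50603260457) (nat_lit 1) (nat_lit 4) (nat_lit 2) (nat_lit 5) (nat_lit 2) (nat_lit 4) (nat_lit 313) (nat_lit 220) (nat_lit 187)))) (XT.nd (nat_lit 156) (nat_lit 0) (nat_lit 0) (XT.nd (nat_lit 78) (nat_lit 0) (nat_lit 0) (XT.lf (nat_lit 0) (nat_lit 327276693405) (nat_lit 76) (nat_lit 58630335994) (nat_lit 76) (nat_lit 53194534138) (nat_lit 1) (nat_lit 4) (nat_lit 2) (nat_lit 5) (nat_lit 2) (nat_lit 4) (nat_lit 314) (nat_lit 220) (nat_lit 186)) (XT.lf (nat_lit 0) (nat_lit 356644241757) (nat_lit 76) (nat_lit 61479459269) (nat_lit 76) (nat_lit 56011927882) (nat_lit 1) (nat_lit 4) (nat_lit 2) (nat_lit 5) (nat_lit 2) (nat_lit 4) (nat_lit 315) (nat_lit 220) (nat_lit 185))) (XT.nd (nat_lit 78) (nat_lit 0) (nat_lit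 0) (XT.lf (nat_lit 0) (nat_lit 388332093500) (nat_lit 76) (nat_lit 64569047938) (nat_lit 76) (nat_lit 59072137355) (nat_lit 1) (nat_lit 4) (nat_lit 2) (nat_lit 5) (nat_lit 2) (nat_lit 4) (nat_lit 316) (nat_lit 220) (nat_lit 184)) (XT.lf (nat_lit 0) (nat_lit 422528028499) (nat_lit 76) (nat_lit 67917410674) (nat_lit 76) (nat_lit 62393297133) (nat_lit 1) (nat_lit 4) (nat_lit 2) (nat_lit 5) (nat_lit 2) (nat_lit 4) (nat_lit 317) (nat_lit 220) (nat_lit 183))))) (XT.nd (nat_lit 312) (nat_lit 0) (nat_lit 0) (XT.nd (nat_lit 156) (nat_lit 0) (nat_lit 0) (XT.nd (nat_lit 78) (nat_lit 0) (nat_lit 0) (XT.lf (nat_lit 0) (nat_lit 459434689330) (nat_lit 76) (nat_lit 71544389628) (nat_lit 76) (nat_lit 65995088162) (nat_lit 1) (nat_lit 4) (nat_lit 2) (nat_lit 5) (nat_lit 2) (nat_lit 4) (nat_lit 318) (nat_lit 220) (nat_lit 182)) (XT.lf (nat_lit 0) (nat_lit 499270782131) (nat_lit 76) (nat_lit 75471478007)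 (nat_lit 76) (nat_lit 69898854388) (nat_lit 1) (nat_lit 4) (nat_lit 2) (nat_lit 5) (nat_lit 2) (nat_lit 4) (nat_lit 319) (nat_lit 220) (nat_lit 181))) (XT.nd (nat_lit 78) (nat_lit 0) (nat_lit 0) (XT.lf (nat_lit 0) (nat_lit 542272372639) (nat_lit 76) (nat_lit 79721947447) (nat_lit 76) (nat_lit 74127729243) (nat_lit 1) (nat_lit 4) (nat_lit 2) (nat_lit 5) (nat_lit 2) (nat_lit 4) (nat_lit 320) (nat_lit 220) (nat_lit 180)) (XT.lf (nat_lit 0) (nat_lit 588694285092) (nat_lit 76) (nat_lit 84320985915) (nat_lit 76) (nat_lit 78706772723) (nat_lit 1) (nat_lit 4) (nat_lit 2) (nat_lit 5) (nat_lit 2) (nat_lit 4) (nat_lit 321) (nat_lit 220) (nat_lit 179)))) (XT.nd (nat_lit 34086) (nat_lit 0) (nat_lit 228) (XT.nd (nat_lit 78) (nat_lit 0) (nat_lit 0) (XT.lf (nat_lit 0) (nat_lit 638811612306) (nat_lit 76) (nat_lit 89295846971) (nat_lit 76) (nat_lit 83663119903) (nat_lit 1) (nat_lit 4) (nat_lit 2) (nat_lit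 5) (nat_lit 2) (nat_lit 4) (nat_lit 322) (nat_lit 220) (nat_lit 178)) (XT.lf (nat_lit 0) (nat_lit 692921345849) (nat_lit 76) (nat_lit 94676011275) (nat_lit 76) (nat_lit 89026141728) (nat_lit 1) (nat_lit 4) (nat_lit 2) (nat_lit 5) (nat_lit 2) (nat_lit 4) (nat_lit 323) (nat_lit 220) (nat_lit 177))) (XT.nd (nat_lit 78) (nat_lit 0) (nat_lit 0) (XT.lf (nat_lit 0) (nat_lit 4331594056) (nat_lit 76) (nat_lit 5229498713) (nat_lit 76) (nat_lit 5229498713) (nat_lit 4) (nat_lit 4) (nat_lit 5) (nat_lit 5) (nat_lit 5) (nat_lit 4) (nat_lit 278) (nat_lit 221) (nat_lit 221)) (XT.nd (nat_lit 78) (nat_lit 0) (nat_lit 0) (XT.lf (nat_lit 0) (nat_lit 17270284419) (nat_lit 76) (nat_lit 7464674533) (nat_lit 76) (nat_lit 6972085888) (nat_lit 4) (nat_lit 4) (nat_lit 5) (nat_lit 5) (nat_lit 5) (nat_lit 4) (nat_lit 279) (nat_lit 221) (nat_lit 220)) (XT.lf (nat_lit 0) (nat_lit 26180078626) (nat_lit 76) (nat_lit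 4391659479) (nat_lit 76) (nat_lit 3442970239) (nat_lit 4) (nat_lit 4) (nat_lit 5) (nat_lit 5) (nat_lit 5) (nat_lit 4) (nat_lit 280) (nat_lit 221) (nat_lit 219))))))) (XT.nd (nat_lit 702) (nat_lit 76) (nat_lit 0) (XT.nd (nat_lit 312) (nat_lit 0) (nat_lit 0) (XT.nd (nat_lit 156) (nat_lit 0) (nat_lit 0) (XT.nd (nat_lit 78) (nat_lit 76) (nat_lit 0) (XT.lf (nat_lit 0) (nat_lit 144485458) (nat_lit 152) (nat_lit 1074809418) (nat_lit 76) (nat_lit 35298437126) (nat_lit 3) (nat_lit 5) (nat_lit 5) (nat_lit 5) (nat_lit 4) (nat_lit 4) (nat_lit 281) (nat_lit 221) (nat_lit 218)) (XT.lf (nat_lit 0) (nat_lit 3832224016) (nat_lit 152) (nat_lit 33235556117) (nat_lit 0) (nat_lit 2154093202) (nat_lit 2) (nat_lit 5) (nat_lit 4) (nat_lit 4) (nat_lit 2) (nat_lit 4) (nat_lit 282) (nat_lit 221) (nat_lit 217))) (XT.nd (nat_lit 78) (nat_lit 0) (nat_lit 0) (XT.lf (nat_lit 0) (nat_lit 7665479119) (nat_lit 152) (nat_lit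 28842184046) (nat_lit 0) (nat_lit 5642522249) (nat_lit 2) (nat_lit 5) (nat_lit 4) (nat_lit 4) (nat_lit 2) (nat_lit 4) (nat_lit 283) (nat_lit 221) (nat_lit 216)) (XT.lf (nat_lit 0) (nat_lit 11630309916) (nat_lit 152) (nat_lit 24403474443) (nat_lit 0) (nat_lit 9288069661) (nat_lit 2) (nat_lit 5) (nat_lit 4) (nat_lit 4) (nat_lit 2) (nat_lit 4) (nat_lit 284) (nat_lit 221) (nat_lit 215)))) (XT.nd (nat_lit 156) (nat_lit 0) (nat_lit 0) (XT.nd (nat_lit 78) (nat_lit 0) (nat_lit 0) (XT.lf (nat_lit 0) (nat_lit 15750211700) (nat_lit 152) (nat_lit 19893123846) (nat_lit 0) (nat_lit 13112338681) (nat_lit 2) (nat_lit 5) (nat_lit 4) (nat_lit 4) (nat_lit 2) (nat_lit 4) (nat_lit 285) (nat_lit 221) (nat_lit 214)) (XT.lf (nat_lit 0) (nat_lit 20049598705) (nat_lit 152) (nat_lit 15284404250) (nat_lit 0) (nat_lit 17137991645) (nat_lit 2) (nat_lit 5) (nat_lit 4) (nat_lit 4) (nat_lit 2) (nat_lit 4) (nat_lit 286)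 (nat_lit 221) (nat_lit 213))) (XT.nd (nat_lit 78) (nat_lit 0) (nat_lit 0) (XT.lf (nat_lit 0) (nat_lit 24553948778) (nat_lit 152) (nat_lit 10550004725) (nat_lit 0) (nat_lit 21388884273) (nat_lit 2) (nat_lit 5) (nat_lit 4) (nat_lit 4) (nat_lit 2) (nat_lit 4) (nat_lit 287) (nat_lit 221) (nat_lit 212)) (XT.nd (nat_lit 78) (nat_lit 0) (nat_lit 0) (XT.lf (nat_lit 0) (nat_lit 29289954365) (nat_lit 152) (nat_lit 5661869569) (nat_lit 0) (nat_lit 25890207041) (nat_lit 2) (nat_lit 5) (nat_lit 4) (nat_lit 4) (nat_lit 2) (nat_lit 4) (nat_lit 288) (nat_lit 221) (nat_lit 211)) (XT.lf (nat_lit 0) (nat_lit 34285680685) (nat_lit 152) (nat_lit 591032055) (nat_lit 0) (nat_lit 30668634453) (nat_lit 2) (nat_lit 5) (nat_lit 4) (nat_lit 4) (nat_lit 2) (nat_lit 4) (nat_lit 289) (nat_lit 221) (nat_lit 210)))))) (XT.nd (nat_lit 312) (nat_lit 0) (nat_lit 0) (XT.nd (nat_lit 156) (nat_lit 0) (nat_lit 0) (XT.nd (nat_lit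 78) (nat_lit 0) (nat_lit 0) (XT.lf (nat_lit 0) (nat_lit 4847714356) (nat_lit 76) (nat_lit 34798704091) (nat_lit 76) (nat_lit 30980455168) (nat_lit 1) (nat_lit 4) (nat_lit 2) (nat_lit 5) (nat_lit 2) (nat_lit 4) (nat_lit 290) (nat_lit 221) (nat_lit 209)) (XT.lf (nat_lit 0) (nat_lit 10558134670) (nat_lit 76) (nat_lit 34783134656) (nat_lit 76) (nat_lit 30778586945) (nat_lit 1) (nat_lit 4) (nat_lit 2) (nat_lit 5) (nat_lit 2) (nat_lit 4) (nat_lit 291) (nat_lit 221) (nat_lit 208))) (XT.nd (nat_lit 78) (nat_lit 0) (nat_lit 0) (XT.lf (nat_lit 0) (nat_lit 16554526224) (nat_lit 76) (nat_lit 34839921588) (nat_lit 76) (nat_lit 30662874998) (nat_lit 1) (nat_lit 4) (nat_lit 2) (nat_lit 5) (nat_lit 2) (nat_lit 4) (nat_lit 292) (nat_lit 221) (nat_lit 207)) (XT.lf (nat_lit 0) (nat_lit 22872423191) (nat_lit 76) (nat_lit 34969401400) (nat_lit 76) (nat_lit 30632633626) (nat_lit 1) (nat_lit 4) (nat_lit 2)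 (nat_lit 5) (nat_lit 2) (nat_lit 4) (nat_lit 293) (nat_lit 221) (nat_lit 206)))) (XT.nd (nat_lit 156) (nat_lit 0) (nat_lit 0) (XT.nd (nat_lit 78) (nat_lit 0) (nat_lit 0) (XT.lf (nat_lit 0) (nat_lit 29549264961) (nat_lit 76) (nat_lit 35172341380) (nat_lit 76) (nat_lit 30687683622) (nat_lit 1) (nat_lit 4) (nat_lit 2) (nat_lit 5) (nat_lit 2) (nat_lit 4) (nat_lit 294) (nat_lit 221) (nat_lit 205)) (XT.lf (nat_lit 0) (nat_lit 36624618002) (nat_lit 76) (nat_lit 35449944137) (nat_lit 76) (nat_lit 30828351207) (nat_lit 1) (nat_lit 4) (nat_lit 2) (nat_lit 5) (nat_lit 2) (nat_lit 4) (nat_lit 295) (nat_lit 221) (nat_lit 204))) (XT.nd (nat_lit 78) (nat_lit 0) (nat_lit 0) (XT.lf (nat_lit 0) (nat_lit 44140410334) (nat_lit 76) (nat_lit 35803854722) (nat_lit 76) (nat_lit 31055469968) (nat_lit 1) (nat_lit 4) (nat_lit 2) (nat_lit 5) (nat_lit 2) (nat_lit 4) (nat_lit 296) (nat_lit 221) (nat_lit 203)) (XT.nd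 (nat_lit 78) (nat_lit 0) (nat_lit 0) (XT.lf (nat_lit 0) (nat_lit 52141179984) (nat_lit 76) (nat_lit 36236170385) (nat_lit 76) (nat_lit 31370385792) (nat_lit 1) (nat_lit 4) (nat_lit 2) (nat_lit 5) (nat_lit 2) (nat_lit 4) (nat_lit 297) (nat_lit 221) (nat_lit 202)) (XT.lf (nat_lit 0) (nat_lit 60674338921) (nat_lit 76) (nat_lit 36749452996) (nat_lit 76) (nat_lit 31774964849) (nat_lit 1) (nat_lit 4) (nat_lit 2) (nat_lit 5) (nat_lit 2) (nat_lit 4) (nat_lit 298) (nat_lit 221) (nat_lit 201))))))))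
noncomputable def xc15 : XT := (XT.nd (nat_lit 1404) (nat_lit 0) (nat_lit 0) (XT.nd (nat_lit 702) (nat_lit 0) (nat_lit 0) (XT.nd (nat_lit 312) (nat_lit 0) (nat_lit 0) (XT.nd (nat_lit 156) (nat_lit 0) (nat_lit 0) (XT.nd (nat_lit 78) (nat_lit 0) (nat_lit 0) (XT.lf (nat_lit 0) (nat_lit 69790454013) (nat_lit 76) (nat_lit 37346744229) (nat_lit 76) (nat_lit 32271604643) (nat_lit 1) (nat_lit 4) (nat_lit 2) (nat_lit 5) (nat_lit 2) (nat_lit 4) (nat_lit 299) (nat_lit 221) (nat_lit 200)) (XT.lf (nat_lit 0) (nat_lit 79543546682) (nat_lit 76) (nat_lit 38031583588) (nat_lit 76) (nat_lit 32863248226) (nat_lit 1) (nat_lit 4) (nat_lit 2) (nat_lit 5) (nat_lit 2) (nat_lit 4) (nat_lit 300) (nat_lit 221) (nat_lit 199))) (XT.nd (nat_lit 78) (nat_lit 0) (nat_lit 0) (XT.lf (nat_lit 0) (nat_lit 89991413034) (nat_lit 76) (nat_lit 38808029380) (nat_lit 76) (nat_lit 33553401633) (nat_lit 1) (nat_lit 4) (nat_lit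 2) (nat_lit 5) (nat_lit 2) (nat_lit 4) (nat_lit 301) (nat_lit 221) (nat_lit 198)) (XT.lf (nat_lit 0) (nat_lit 101195966350) (nat_lit 76) (nat_lit 39680682766) (nat_lit 76) (nat_lit 34346154661) (nat_lit 1) (nat_lit 4) (nat_lit 2) (nat_lit 5) (nat_lit 2) (nat_lit 4) (nat_lit 302) (nat_lit 221) (nat_lit 197)))) (XT.nd (nat_lit 156) (nat_lit 0) (nat_lit 0) (XT.nd (nat_lit 78) (nat_lit 0) (nat_lit 0) (XT.lf (nat_lit 0) (nat_lit 113223603983) (nat_lit 76) (nat_lit 40654715025) (nat_lit 76) (nat_lit 35246205108) (nat_lit 1) (nat_lit 4) (nat_lit 2) (nat_lit 5) (nat_lit 2) (nat_lit 4) (nat_lit 303) (nat_lit 221) (nat_lit 196)) (XT.lf (nat_lit 0) (nat_lit 126145600823) (nat_lit 76) (nat_lit 41735898200) (nat_lit 76) (nat_lit 36258886605) (nat_lit 1) (nat_lit 4) (nat_lit 2) (nat_lit 5) (nat_lit 2) (nat_lit 4) (nat_lit 304) (nat_lit 221) (nat_lit 195))) (XT.nd (nat_lit 78) (nat_lit 0) (nat_lit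 0) (XT.lf (nat_lit 0) (nat_lit 140038531666) (nat_lit 76) (nat_lit 42930639302) (nat_lit 76) (nat_lit 37390200228) (nat_lit 1) (nat_lit 4) (nat_lit 2) (nat_lit 5) (nat_lit 2) (nat_lit 4) (nat_lit 305) (nat_lit 221) (nat_lit 194)) (XT.nd (nat_lit 78) (nat_lit 0) (nat_lit 0) (XT.lf (nat_lit 0) (nat_lit 154984724991) (nat_lit 76) (nat_lit 44246018279) (nat_lit 76) (nat_lit 38646850057) (nat_lit 1) (nat_lit 4) (nat_lit 2) (nat_lit 5) (nat_lit 2) (nat_lit 4) (nat_lit 306) (nat_lit 221) (nat_lit 193)) (XT.lf (nat_lit 0) (nat_lit 171072750833) (nat_lit 76) (nat_lit 45689829969) (nat_lit 76) (nat_lit 40036282906) (nat_lit 1) (nat_lit 4) (nat_lit 2) (nat_lit 5) (nat_lit 2) (nat_lit 4) (nat_lit 307) (nat_lit 221) (nat_lit 192)))))) (XT.nd (nat_lit 312) (nat_lit 0) (nat_lit 0) (XT.nd (nat_lit 156) (nat_lit 0) (nat_lit 0) (XT.nd (nat_lit 78) (nat_lit 0) (nat_lit 0) (XT.lf (nat_lit 0) (nat_lit 188397945641)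 (nat_lit 76) (nat_lit 47270630293) (nat_lit 76) (nat_lit 41566732452) (nat_lit 1) (nat_lit 4) (nat_lit 2) (nat_lit 5) (nat_lit 2) (nat_lit 4) (nat_lit 308) (nat_lit 221) (nat_lit 191)) (XT.lf (nat_lit 0) (nat_lit 207062977236) (nat_lit 76) (nat_lit 48997786956) (nat_lit 76) (nat_lit 43247268025) (nat_lit 1) (nat_lit 4) (nat_lit 2) (nat_lit 5) (nat_lit 2) (nat_lit 4) (nat_lit 309) (nat_lit 221) (nat_lit 190))) (XT.nd (nat_lit 78) (nat_lit 0) (nat_lit 0) (XT.lf (nat_lit 0) (nat_lit 227178453213) (nat_lit 76) (nat_lit 50881534962) (nat_lit 76) (nat_lit 45087848354) (nat_lit 1) (nat_lit 4) (nat_lit 2) (nat_lit 5) (nat_lit 2) (nat_lit 4) (nat_lit 310) (nat_lit 221) (nat_lit 189)) (XT.lf (nat_lit 0) (nat_lit 248863576392) (nat_lit 76) (nat_lit 52933037262) (nat_lit 76) (nat_lit 47099380582) (nat_lit 1) (nat_lit 4) (nat_lit 2) (nat_lit 5) (nat_lit 2) (nat_lit 4) (nat_lit 311) (nat_lit 221)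 (nat_lit 188)))) (XT.nd (nat_lit 156) (nat_lit 0) (nat_lit 0) (XT.nd (nat_lit 78) (nat_lit 0) (nat_lit 0) (XT.lf (nat_lit 0) (nat_lit 272246851208) (nat_lit 76) (nat_lit 55164450905) (nat_lit 76) (nat_lit 49293784901) (nat_lit 1) (nat_lit 4) (nat_lit 2) (nat_lit 5) (nat_lit 2) (nat_lit 4) (nat_lit 312) (nat_lit 221) (nat_lit 187)) (XT.lf (nat_lit 0) (nat_lit 297466845213) (nat_lit 76) (nat_lit 57588999085) (nat_lit 76) (nat_lit 51684065187) (nat_lit 1) (nat_lit 4) (nat_lit 2) (nat_lit 5) (nat_lit 2) (nat_lit 4) (nat_lit 313) (nat_lit 221) (nat_lit 186))) (XT.nd (nat_lit 78) (nat_lit 0) (nat_lit 0) (XT.lf (nat_lit 0) (nat_lit 324673010226) (nat_lit 76) (nat_lit 60221049493) (nat_lit 76) (nat_lit 54284386064) (nat_lit 1) (nat_lit 4) (nat_lit 2) (nat_lit 5) (nat_lit 2) (nat_lit 4) (nat_lit 314) (nat_lit 221) (nat_lit 185)) (XT.nd (nat_lit 78) (nat_lit 0) (nat_lit 0) (XT.lf (nat_lit 0) (nat_lit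 354026567964) (nat_lit 76) (nat_lit 63076199466) (nat_lit 76) (nat_lit 57110156841) (nat_lit 1) (nat_lit 4) (nat_lit 2) (nat_lit 5) (nat_lit 2) (nat_lit 4) (nat_lit 315) (nat_lit 221) (nat_lit 184)) (XT.lf (nat_lit 0) (nat_lit 385701465436) (nat_lit 76) (nat_lit 66171368411) (nat_lit 76) (nat_lit 60178122827) (nat_lit 1) (nat_lit 4) (nat_lit 2) (nat_lit 5) (nat_lit 2) (nat_lit 4) (nat_lit 316) (nat_lit 221) (nat_lit 183))))))) (XT.nd (nat_lit 34476) (nat_lit 0) (nat_lit 76) (XT.nd (nat_lit 312) (nat_lit 0) (nat_lit 0) (XT.nd (nat_lit 156) (nat_lit 0) (nat_lit 0) (XT.nd (nat_lit 78) (nat_lit 0) (nat_lit 0) (XT.lf (nat_lit 0) (nat_lit 419885405739) (nat_lit 76) (nat_lit 69524898069) (nat_lit 76) (nat_lit 63506464561) (nat_lit 1) (nat_lit 4) (nat_lit 2) (nat_lit 5) (nat_lit 2) (nat_lit 4) (nat_lit 317) (nat_lit 221) (nat_lit 182)) (XT.lf (nat_lit 0) (nat_lit 456780960370) (nat_lit 76) (nat_lit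 73156661210) (nat_lit 76) (nat_lit 67114905549) (nat_lit 1) (nat_lit 4) (nat_lit 2) (nat_lit 5) (nat_lit 2) (nat_lit 4) (nat_lit 318) (nat_lit 221) (nat_lit 181))) (XT.nd (nat_lit 78) (nat_lit 0) (nat_lit 0) (XT.lf (nat_lit 0) (nat_lit 496606769653) (nat_lit 76) (nat_lit 77088179393) (nat_lit 76) (nat_lit 71024829146) (nat_lit 1) (nat_lit 4) (nat_lit 2) (nat_lit 5) (nat_lit 2) (nat_lit 4) (nat_lit 319) (nat_lit 221) (nat_lit 180)) (XT.lf (nat_lit 0) (nat_lit 539598838384) (nat_lit 76) (nat_lit 81342750502) (nat_lit 76) (nat_lit 75259405268) (nat_lit 1) (nat_lit 4) (nat_lit 2) (nat_lit 5) (nat_lit 2) (nat_lit 4) (nat_lit 320) (nat_lit 221) (nat_lit 179)))) (XT.nd (nat_lit 156) (nat_lit 0) (nat_lit 0) (XT.nd (nat_lit 78) (nat_lit 0) (nat_lit 0) (XT.lf (nat_lit 0) (nat_lit 586011934378) (nat_lit 76) (nat_lit 85945586812) (nat_lit 76) (nat_lit 79843727701) (nat_lit 1) (nat_lit 4) (nat_lit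 2) (nat_lit 5) (nat_lit 2) (nat_lit 4) (nat_lit 321) (nat_lit 221) (nat_lit 178)) (XT.lf (nat_lit 0) (nat_lit 636121098204) (nat_lit 76) (nat_lit 90923964388) (nat_lit 76) (nat_lit 84804962800) (nat_lit 1) (nat_lit 4) (nat_lit 2) (nat_lit 5) (nat_lit 2) (nat_lit 4) (nat_lit 322) (nat_lit 221) (nat_lit 177))) (XT.nd (nat_lit 33852) (nat_lit 0) (nat_lit 228) (XT.lf (nat_lit 0) (nat_lit 690223273054) (nat_lit 76) (nat_lit 96307384729) (nat_lit 76) (nat_lit 90172510476) (nat_lit 1) (nat_lit 4) (nat_lit 2) (nat_lit 5) (nat_lit 2) (nat_lit 4) (nat_lit 323) (nat_lit 221) (nat_lit 176)) (XT.nd (nat_lit 78) (nat_lit 76) (nat_lit 0) (XT.lf (nat_lit 0) (nat_lit 4607015779) (nat_lit 152) (nat_lit 3692439005) (nat_lit 0) (nat_lit 4607015779) (nat_lit 5) (nat_lit 5) (nat_lit 7) (nat_lit 4) (nat_lit 5) (nat_lit 4) (nat_lit 276) (nat_lit 222) (nat_lit 222)) (XT.lf (nat_lit 0) (nat_lit 307784693) (nat_lit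 76) (nat_lit 13924368033) (nat_lit 76) (nat_lit 13392372297) (nat_lit 4) (nat_lit 4) (nat_lit 5) (nat_lit 5) (nat_lit 5) (nat_lit 4) (nat_lit 277) (nat_lit 222) (nat_lit 221)))))) (XT.nd (nat_lit 312) (nat_lit 76) (nat_lit 0) (XT.nd (nat_lit 156) (nat_lit 76) (nat_lit 0) (XT.nd (nat_lit 78) (nat_lit 0) (nat_lit 0) (XT.lf (nat_lit 0) (nat_lit 8462832638) (nat_lit 76) (nat_lit 11074513338) (nat_lit 76) (nat_lit 10049928959) (nat_lit 4) (nat_lit 4) (nat_lit 5) (nat_lit 5) (nat_lit 5) (nat_lit 4) (nat_lit 278) (nat_lit 222) (nat_lit 220)) (XT.lf (nat_lit 0) (nat_lit 16884414616) (nat_lit 76) (nat_lit 8157523941) (nat_lit 76) (nat_lit 6676838964) (nat_lit 4) (nat_lit 4) (nat_lit 5) (nat_lit 5) (nat_lit 5) (nat_lit 4) (nat_lit 279) (nat_lit 222) (nat_lit 219))) (XT.nd (nat_lit 78) (nat_lit 76) (nat_lit 0) (XT.lf (nat_lit 0) (nat_lit 25622436296) (nat_lit 76) (nat_lit 5156113977) (nat_lit 76)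 (nat_lit 3253113633) (nat_lit 4) (nat_lit 4) (nat_lit 5) (nat_lit 5) (nat_lit 5) (nat_lit 4) (nat_lit 280) (nat_lit 222) (nat_lit 218)) (XT.lf (nat_lit 0) (nat_lit 233805123) (nat_lit 152) (nat_lit 1814732586) (nat_lit 76) (nat_lit 34490913823) (nat_lit 3) (nat_lit 5) (nat_lit 5) (nat_lit 5) (nat_lit 4) (nat_lit 4) (nat_lit 281) (nat_lit 222) (nat_lit 217)))) (XT.nd (nat_lit 156) (nat_lit 0) (nat_lit 0) (XT.nd (nat_lit 78) (nat_lit 0) (nat_lit 0) (XT.lf (nat_lit 0) (nat_lit 3805557618) (nat_lit 152) (nat_lit 34168071558) (nat_lit 0) (nat_lit 1275938143) (nat_lit 2) (nat_lit 5) (nat_lit 4) (nat_lit 4) (nat_lit 2) (nat_lit 4) (nat_lit 282) (nat_lit 222) (nat_lit 216)) (XT.lf (nat_lit 0) (nat_lit 7554637378) (nat_lit 152) (nat_lit 29921878446) (nat_lit 0) (nat_lit 4705734517) (nat_lit 2) (nat_lit 5) (nat_lit 4) (nat_lit 4) (nat_lit 2) (nat_lit 4) (nat_lit 283) (nat_lit 222) (nat_lit 215)))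 (XT.nd (nat_lit 78) (nat_lit 0) (nat_lit 0) (XT.lf (nat_lit 0) (nat_lit 11441528042) (nat_lit 152) (nat_lit 25619445657) (nat_lit 0) (nat_lit 8296992417) (nat_lit 2) (nat_lit 5) (nat_lit 4) (nat_lit 4) (nat_lit 2) (nat_lit 4) (nat_lit 284) (nat_lit 222) (nat_lit 214)) (XT.nd (nat_lit 78) (nat_lit 0) (nat_lit 0) (XT.lf (nat_lit 0) (nat_lit 15489263036) (nat_lit 152) (nat_lit 21235277295) (nat_lit 0) (nat_lit 12070993371) (nat_lit 2) (nat_lit 5) (nat_lit 4) (nat_lit 4) (nat_lit 2) (nat_lit 4) (nat_lit 285) (nat_lit 222) (nat_lit 213)) (XT.lf (nat_lit 0) (nat_lit 19721828939) (nat_lit 152) (nat_lit 16743393102) (nat_lit 0) (nat_lit 16050101829) (nat_lit 2) (nat_lit 5) (nat_lit 4) (nat_lit 4) (nat_lit 2) (nat_lit 4) (nat_lit 286) (nat_lit 222) (nat_lit 212))))))))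
noncomputable def xc16 : XT := (XT.nd (nat_lit 1326) (nat_lit 0) (nat_lit 0) (XT.nd (nat_lit 624) (nat_lit 0) (nat_lit 0) (XT.nd (nat_lit 312) (nat_lit 0) (nat_lit 0) (XT.nd (nat_lit 156) (nat_lit 76) (nat_lit 0) (XT.nd (nat_lit 78) (nat_lit 0) (nat_lit 0) (XT.lf (nat_lit 0) (nat_lit 24164307622) (nat_lit 152) (nat_lit 12117174505) (nat_lit 0) (nat_lit 20257897692) (nat_lit 2) (nat_lit 5) (nat_lit 4) (nat_lit 4) (nat_lit 2) (nat_lit 4) (nat_lit 287) (nat_lit 222) (nat_lit 211)) (XT.lf (nat_lit 0) (nat_lit 28843024885) (nat_lit 152) (nat_lit 7329206876) (nat_lit 0) (nat_lit 24719316048) (nat_lit 2) (nat_lit 5) (nat_lit 4) (nat_lit 4) (nat_lit 2) (nat_lit 4) (nat_lit 288) (nat_lit 222) (nat_lit 210))) (XT.nd (nat_lit 78) (nat_lit 76) (nat_lit 0) (XT.lf (nat_lit 0) (nat_lit 33785706459) (nat_lit 152) (nat_lit 2351117072) (nat_lit 0) (nat_lit 29460794931) (nat_lit 2) (nat_lit 5) (nat_lit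 4) (nat_lit 4) (nat_lit 2) (nat_lit 4) (nat_lit 289) (nat_lit 222) (nat_lit 209)) (XT.lf (nat_lit 0) (nat_lit 2940715972) (nat_lit 76) (nat_lit 36126839156) (nat_lit 76) (nat_lit 31615628839) (nat_lit 1) (nat_lit 4) (nat_lit 2) (nat_lit 5) (nat_lit 2) (nat_lit 4) (nat_lit 290) (nat_lit 222) (nat_lit 208)))) (XT.nd (nat_lit 156) (nat_lit 0) (nat_lit 0) (XT.nd (nat_lit 78) (nat_lit 0) (nat_lit 0) (XT.lf (nat_lit 0) (nat_lit 8568990909) (nat_lit 76) (nat_lit 36146655260) (nat_lit 76) (nat_lit 31462946065) (nat_lit 1) (nat_lit 4) (nat_lit 2) (nat_lit 5) (nat_lit 2) (nat_lit 4) (nat_lit 291) (nat_lit 222) (nat_lit 207)) (XT.lf (nat_lit 0) (nat_lit 14489321929) (nat_lit 76) (nat_lit 36236206579) (nat_lit 76) (nat_lit 31392776200) (nat_lit 1) (nat_lit 4) (nat_lit 2) (nat_lit 5) (nat_lit 2) (nat_lit 4) (nat_lit 292) (nat_lit 222) (nat_lit 206))) (XT.nd (nat_lit 78) (nat_lit 0) (nat_lit 0) (XT.lf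 (nat_lit 0) (nat_lit 20736792475) (nat_lit 76) (nat_lit 36396023787) (nat_lit 76) (nat_lit 31404703423) (nat_lit 1) (nat_lit 4) (nat_lit 2) (nat_lit 5) (nat_lit 2) (nat_lit 4) (nat_lit 293) (nat_lit 222) (nat_lit 205)) (XT.lf (nat_lit 0) (nat_lit 27348424596) (nat_lit 76) (nat_lit 36627053949) (nat_lit 76) (nat_lit 31498798414) (nat_lit 1) (nat_lit 4) (nat_lit 2) (nat_lit 5) (nat_lit 2) (nat_lit 4) (nat_lit 294) (nat_lit 222) (nat_lit 204))))) (XT.nd (nat_lit 312) (nat_lit 0) (nat_lit 0) (XT.nd (nat_lit 156) (nat_lit 0) (nat_lit 0) (XT.nd (nat_lit 78) (nat_lit 0) (nat_lit 0) (XT.lf (nat_lit 0) (nat_lit 34363398333) (nat_lit 76) (nat_lit 36930666133) (nat_lit 76) (nat_lit 31675618773) (nat_lit 1) (nat_lit 4) (nat_lit 2) (nat_lit 5) (nat_lit 2) (nat_lit 4) (nat_lit 295) (nat_lit 222) (nat_lit 203)) (XT.lf (nat_lit 0) (nat_lit 41823283901) (nat_lit 76) (nat_lit 37308659521) (nat_lit 76)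 (nat_lit 31936212323) (nat_lit 1) (nat_lit 4) (nat_lit 2) (nat_lit 5) (nat_lit 2) (nat_lit 4) (nat_lit 296) (nat_lit 222) (nat_lit 202))) (XT.nd (nat_lit 78) (nat_lit 0) (nat_lit 0) (XT.lf (nat_lit 0) (nat_lit 49772288030) (nat_lit 76) (nat_lit 37763274076) (nat_lit 76) (nat_lit 32282123324) (nat_lit 1) (nat_lit 4) (nat_lit 2) (nat_lit 5) (nat_lit 2) (nat_lit 4) (nat_lit 297) (nat_lit 222) (nat_lit 201)) (XT.lf (nat_lit 0) (nat_lit 58257515928) (nat_lit 76) (nat_lit 38297203808) (nat_lit 76) (nat_lit 32715401618) (nat_lit 1) (nat_lit 4) (nat_lit 2) (nat_lit 5) (nat_lit 2) (nat_lit 4) (nat_lit 298) (nat_lit 222) (nat_lit 200)))) (XT.nd (nat_lit 156) (nat_lit 0) (nat_lit 0) (XT.nd (nat_lit 78) (nat_lit 0) (nat_lit 0) (XT.lf (nat_lit 0) (nat_lit 67329250429) (nat_lit 76) (nat_lit 38913612747) (nat_lit 76) (nat_lit 33238614779) (nat_lit 1) (nat_lit 4) (nat_lit 2) (nat_lit 5) (nat_lit 2)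 (nat_lit 4) (nat_lit 299) (nat_lit 222) (nat_lit 199)) (XT.lf (nat_lit 0) (nat_lit 77041249958) (nat_lit 76) (nat_lit 39616153685) (nat_lit 76) (nat_lit 33854863332) (nat_lit 1) (nat_lit 4) (nat_lit 2) (nat_lit 5) (nat_lit 2) (nat_lit 4) (nat_lit 300) (nat_lit 222) (nat_lit 198))) (XT.nd (nat_lit 78) (nat_lit 0) (nat_lit 0) (XT.lf (nat_lit 0) (nat_lit 87451067106) (nat_lit 76) (nat_lit 40408989828) (nat_lit 76) (nat_lit 34567799118) (nat_lit 1) (nat_lit 4) (nat_lit 2) (nat_lit 5) (nat_lit 2) (nat_lit 4) (nat_lit 301) (nat_lit 222) (nat_lit 197)) (XT.nd (nat_lit 78) (nat_lit 0) (nat_lit 0) (XT.lf (nat_lit 0) (nat_lit 98620389678) (nat_lit 76) (nat_lit 41296819465) (nat_lit 76) (nat_lit 35381646943) (nat_lit 1) (nat_lit 4) (nat_lit 2) (nat_lit 5) (nat_lit 2) (nat_lit 4) (nat_lit 302) (nat_lit 222) (nat_lit 196)) (XT.lf (nat_lit 0) (nat_lit 110615406251) (nat_lit 76) (nat_lit 42284903808)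 (nat_lit 76) (nat_lit 36301229608) (nat_lit 1) (nat_lit 4) (nat_lit 2) (nat_lit 5) (nat_lit 2) (nat_lit 4) (nat_lit 303) (nat_lit 222) (nat_lit 195))))))) (XT.nd (nat_lit 702) (nat_lit 0) (nat_lit 0) (XT.nd (nat_lit 312) (nat_lit 0) (nat_lit 0) (XT.nd (nat_lit 156) (nat_lit 0) (nat_lit 0) (XT.nd (nat_lit 78) (nat_lit 0) (nat_lit 0) (XT.lf (nat_lit 0) (nat_lit 123507198407) (nat_lit 76) (nat_lit 43379098172) (nat_lit 76) (nat_lit 37331996493) (nat_lit 1) (nat_lit 4) (nat_lit 2) (nat_lit 5) (nat_lit 2) (nat_lit 4) (nat_lit 304) (nat_lit 222) (nat_lit 194)) (XT.lf (nat_lit 0) (nat_lit 137372161949) (nat_lit 76) (nat_lit 44585886672) (nat_lit 76) (nat_lit 38480055845) (nat_lit 1) (nat_lit 4) (nat_lit 2) (nat_lit 5) (nat_lit 2) (nat_lit 4) (nat_lit 305) (nat_lit 222) (nat_lit 193))) (XT.nd (nat_lit 78) (nat_lit 0) (nat_lit 0) (XT.lf (nat_lit 0) (nat_lit 152292459626) (nat_lit 76) (nat_lit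 45912420646) (nat_lit 76) (nat_lit 39752210978) (nat_lit 1) (nat_lit 4) (nat_lit 2) (nat_lit 5) (nat_lit 2) (nat_lit 4) (nat_lit 306) (nat_lit 222) (nat_lit 192)) (XT.lf (nat_lit 0) (nat_lit 168356508015) (nat_lit 76) (nat_lit 47366561038) (nat_lit 76) (nat_lit 41156000592) (nat_lit 1) (nat_lit 4) (nat_lit 2) (nat_lit 5) (nat_lit 2) (nat_lit 4) (nat_lit 307) (nat_lit 222) (nat_lit 191)))) (XT.nd (nat_lit 156) (nat_lit 0) (nat_lit 0) (XT.nd (nat_lit 78) (nat_lit 0) (nat_lit 0) (XT.lf (nat_lit 0) (nat_lit 185659501478) (nat_lit 76) (nat_lit 48956924974) (nat_lit 76) (nat_lit 42699743437) (nat_lit 1) (nat_lit 4) (nat_lit 2) (nat_lit 5) (nat_lit 2) (nat_lit 4) (nat_lit 308) (nat_lit 222) (nat_lit 190)) (XT.lf (nat_lit 0) (nat_lit 204303976272) (nat_lit 76) (nat_lit 50692936834) (nat_lit 76) (nat_lit 44392587621) (nat_lit 1) (nat_lit 4) (nat_lit 2) (nat_lit 5) (nat_lit 2) (nat_lit 4) (nat_lit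 309) (nat_lit 222) (nat_lit 189))) (XT.nd (nat_lit 78) (nat_lit 0) (nat_lit 0) (XT.lf (nat_lit 0) (nat_lit 224400418174) (nat_lit 76) (nat_lit 52584884097) (nat_lit 76) (nat_lit 46244564812) (nat_lit 1) (nat_lit 4) (nat_lit 2) (nat_lit 5) (nat_lit 2) (nat_lit 4) (nat_lit 310) (nat_lit 222) (nat_lit 188)) (XT.nd (nat_lit 78) (nat_lit 0) (nat_lit 0) (XT.lf (nat_lit 0) (nat_lit 246067917210) (nat_lit 76) (nat_lit 54643978300) (nat_lit 76) (nat_lit 48266649690) (nat_lit 1) (nat_lit 4) (nat_lit 2) (nat_lit 5) (nat_lit 2) (nat_lit 4) (nat_lit 311) (nat_lit 222) (nat_lit 187)) (XT.lf (nat_lit 0) (nat_lit 269434873374) (nat_lit 76) (nat_lit 56882421484) (nat_lit 76) (nat_lit 50470824980) (nat_lit 1) (nat_lit 4) (nat_lit 2) (nat_lit 5) (nat_lit 2) (nat_lit 4) (nat_lit 312) (nat_lit 222) (nat_lit 186)))))) (XT.nd (nat_lit 312) (nat_lit 0) (nat_lit 0) (XT.nd (nat_lit 156) (nat_lit 0) (nat_lit 0)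 (XT.nd (nat_lit 78) (nat_lit 0) (nat_lit 0) (XT.lf (nat_lit 0) (nat_lit 294639757517) (nat_lit 76) (nat_lit 59313478497) (nat_lit 76) (nat_lit 52870152463) (nat_lit 1) (nat_lit 4) (nat_lit 2) (nat_lit 5) (nat_lit 2) (nat_lit 4) (nat_lit 313) (nat_lit 222) (nat_lit 185)) (XT.lf (nat_lit 0) (nat_lit 321831931917) (nat_lit 76) (nat_lit 61951555604) (nat_lit 76) (nat_lit 55478850373) (nat_lit 1) (nat_lit 4) (nat_lit 2) (nat_lit 5) (nat_lit 2) (nat_lit 4) (nat_lit 314) (nat_lit 222) (nat_lit 184))) (XT.nd (nat_lit 78) (nat_lit 0) (nat_lit 0) (XT.lf (nat_lit 0) (nat_lit 351172535383) (nat_lit 76) (nat_lit 64812285853) (nat_lit 76) (nat_lit 58312377664) (nat_lit 1) (nat_lit 4) (nat_lit 2) (nat_lit 5) (nat_lit 2) (nat_lit 4) (nat_lit 315) (nat_lit 222) (nat_lit 183)) (XT.lf (nat_lit 0) (nat_lit 382835438159) (nat_lit 76) (nat_lit 67912621720) (nat_lit 76) (nat_lit 61387525606) (nat_lit 1) (nat_lit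 4) (nat_lit 2) (nat_lit 5) (nat_lit 2) (nat_lit 4) (nat_lit 316) (nat_lit 222) (nat_lit 182)))) (XT.nd (nat_lit 156) (nat_lit 0) (nat_lit 0) (XT.nd (nat_lit 78) (nat_lit 0) (nat_lit 0) (XT.lf (nat_lit 0) (nat_lit 417008272262) (nat_lit 76) (nat_lit 71270935566) (nat_lit 76) (nat_lit 64722517299) (nat_lit 1) (nat_lit 4) (nat_lit 2) (nat_lit 5) (nat_lit 2) (nat_lit 4) (nat_lit 317) (nat_lit 222) (nat_lit 181)) (XT.lf (nat_lit 0) (nat_lit 453893543375) (nat_lit 76) (nat_lit 74907128509) (nat_lit 76) (nat_lit 68337115657) (nat_lit 1) (nat_lit 4) (nat_lit 2) (nat_lit 5) (nat_lit 2) (nat_lit 4) (nat_lit 318) (nat_lit 222) (nat_lit 180))) (XT.nd (nat_lit 78) (nat_lit 0) (nat_lit 0) (XT.lf (nat_lit 0) (nat_lit 493709830882) (nat_lit 76) (nat_lit 78842748361) (nat_lit 76) (nat_lit 72252740522) (nat_lit 1) (nat_lit 4) (nat_lit 2) (nat_lit 5) (nat_lit 2) (nat_lit 4) (nat_lit 319) (nat_lit 222)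 (nat_lit 179)) (XT.nd (nat_lit 78) (nat_lit 0) (nat_lit 0) (XT.lf (nat_lit 0) (nat_lit 536693083153) (nat_lit 76) (nat_lit 83101117313) (nat_lit 76) (nat_lit 76492595597) (nat_lit 1) (nat_lit 4) (nat_lit 2) (nat_lit 5) (nat_lit 2) (nat_lit 4) (nat_lit 320) (nat_lit 222) (nat_lit 178)) (XT.lf (nat_lit 0) (nat_lit 583098015759) (nat_lit 76) (nat_lit 87707470143) (nat_lit 76) (nat_lit 81081805949) (nat_lit 1) (nat_lit 4) (nat_lit 2) (nat_lit 5) (nat_lit 2) (nat_lit 4) (nat_lit 321) (nat_lit 222) (nat_lit 177))))))))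
noncomputable def xc17 : XT := (XT.nd (nat_lit 34944) (nat_lit 0) (nat_lit 0) (XT.nd (nat_lit 34242) (nat_lit 0) (nat_lit 76) (XT.nd (nat_lit 33930) (nat_lit 0) (nat_lit 228) (XT.nd (nat_lit 33774) (nat_lit 0) (nat_lit 304) (XT.nd (nat_lit 78) (nat_lit 0) (nat_lit 0) (XT.lf (nat_lit 0) (nat_lit 633199620891) (nat_lit 76) (nat_lit 92689103757) (nat_lit 76) (nat_lit 86047566898) (nat_lit 1) (nat_lit 4) (nat_lit 2) (nat_lit 5) (nat_lit 2) (nat_lit 4) (nat_lit 322) (nat_lit 222) (nat_lit 176)) (XT.lf (nat_lit 0) (nat_lit 687294796951) (nat_lit 76) (nat_lit 98075538947) (nat_lit 76) (nat_lit 91419305176) (nat_lit 1) (nat_lit 4) (nat_lit 2) (nat_lit 5) (nat_lit 2) (nat_lit 4) (nat_lit 323) (nat_lit 222) (nat_lit 175))) (XT.nd (nat_lit 78) (nat_lit 0) (nat_lit 0) (XT.lf (nat_lit 0) (nat_lit 135105655) (nat_lit 152) (nat_lit 11035872090) (nat_lit 0) (nat_lit 135105655) (nat_lit 5) (nat_lit 5)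 (nat_lit 7) (nat_lit 4) (nat_lit 5) (nat_lit 4) (nat_lit 274) (nat_lit 223) (nat_lit 223)) (XT.lf (nat_lit 0) (nat_lit 4910116939) (nat_lit 152) (nat_lit 14901993648) (nat_lit 0) (nat_lit 4335561544) (nat_lit 5) (nat_lit 5) (nat_lit 7) (nat_lit 4) (nat_lit 5) (nat_lit 4) (nat_lit 275) (nat_lit 223) (nat_lit 222)))) (XT.nd (nat_lit 156) (nat_lit 76) (nat_lit 0) (XT.nd (nat_lit 78) (nat_lit 0) (nat_lit 0) (XT.lf (nat_lit 0) (nat_lit 9665783189) (nat_lit 152) (nat_lit 7594336287) (nat_lit 0) (nat_lit 8559232059) (nat_lit 5) (nat_lit 5) (nat_lit 7) (nat_lit 4) (nat_lit 5) (nat_lit 4) (nat_lit 276) (nat_lit 223) (nat_lit 221)) (XT.lf (nat_lit 0) (nat_lit 14565391787) (nat_lit 152) (nat_lit 105467463) (nat_lit 0) (nat_lit 12966252013) (nat_lit 5) (nat_lit 5) (nat_lit 7) (nat_lit 4) (nat_lit 5) (nat_lit 4) (nat_lit 277) (nat_lit 223) (nat_lit 220))) (XT.nd (nat_lit 78) (nat_lit 0) (nat_lit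 0) (XT.lf (nat_lit 0) (nat_lit 7860578922) (nat_lit 76) (nat_lit 11900124196) (nat_lit 76) (nat_lit 9844883824) (nat_lit 4) (nat_lit 4) (nat_lit 5) (nat_lit 5) (nat_lit 5) (nat_lit 4) (nat_lit 278) (nat_lit 223) (nat_lit 219)) (XT.lf (nat_lit 0) (nat_lit 16110388373) (nat_lit 76) (nat_lit 9054739887) (nat_lit 76) (nat_lit 6577184149) (nat_lit 4) (nat_lit 4) (nat_lit 5) (nat_lit 5) (nat_lit 5) (nat_lit 4) (nat_lit 279) (nat_lit 223) (nat_lit 218))))) (XT.nd (nat_lit 312) (nat_lit 0) (nat_lit 0) (XT.nd (nat_lit 156) (nat_lit 76) (nat_lit 0) (XT.nd (nat_lit 78) (nat_lit 76) (nat_lit 0) (XT.lf (nat_lit 0) (nat_lit 24689361418) (nat_lit 76) (nat_lit 6119630931) (nat_lit 76) (nat_lit 3251042446) (nat_lit 4) (nat_lit 4) (nat_lit 5) (nat_lit 5) (nat_lit 5) (nat_lit 4) (nat_lit 280) (nat_lit 223) (nat_lit 217)) (XT.lf (nat_lit 0) (nat_lit 148346739) (nat_lit 152) (nat_lit 2926545027) (nat_lit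 76) (nat_lit 33497477352) (nat_lit 3) (nat_lit 5) (nat_lit 5) (nat_lit 5) (nat_lit 4) (nat_lit 4) (nat_lit 281) (nat_lit 223) (nat_lit 216))) (XT.nd (nat_lit 78) (nat_lit 0) (nat_lit 0) (XT.lf (nat_lit 0) (nat_lit 3601673194) (nat_lit 152) (nat_lit 35481320469) (nat_lit 0) (nat_lit 205574720) (nat_lit 2) (nat_lit 5) (nat_lit 4) (nat_lit 4) (nat_lit 2) (nat_lit 4) (nat_lit 282) (nat_lit 223) (nat_lit 215)) (XT.lf (nat_lit 0) (nat_lit 7272812821) (nat_lit 152) (nat_lit 31371404171) (nat_lit 0) (nat_lit 3581081582) (nat_lit 2) (nat_lit 5) (nat_lit 4) (nat_lit 4) (nat_lit 2) (nat_lit 4) (nat_lit 283) (nat_lit 223) (nat_lit 214)))) (XT.nd (nat_lit 156) (nat_lit 0) (nat_lit 0) (XT.nd (nat_lit 78) (nat_lit 0) (nat_lit 0) (XT.lf (nat_lit 0) (nat_lit 11087536695) (nat_lit 152) (nat_lit 27195153617) (nat_lit 0) (nat_lit 7122071416) (nat_lit 2) (nat_lit 5) (nat_lit 4) (nat_lit 4) (nat_lit 2) (nat_lit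 4) (nat_lit 284) (nat_lit 223) (nat_lit 213)) (XT.lf (nat_lit 0) (nat_lit 15068450588) (nat_lit 152) (nat_lit 22927820658) (nat_lit 0) (nat_lit 10849527864) (nat_lit 2) (nat_lit 5) (nat_lit 4) (nat_lit 4) (nat_lit 2) (nat_lit 4) (nat_lit 285) (nat_lit 223) (nat_lit 212))) (XT.nd (nat_lit 78) (nat_lit 0) (nat_lit 0) (XT.lf (nat_lit 0) (nat_lit 19239145100) (nat_lit 152) (nat_lit 18544117394) (nat_lit 0) (nat_lit 14785539556) (nat_lit 2) (nat_lit 5) (nat_lit 4) (nat_lit 4) (nat_lit 2) (nat_lit 4) (nat_lit 286) (nat_lit 223) (nat_lit 211)) (XT.nd (nat_lit 78) (nat_lit 0) (nat_lit 0) (XT.lf (nat_lit 0) (nat_lit 23624335459) (nat_lit 152) (nat_lit 14018066323) (nat_lit 0) (nat_lit 18953431008) (nat_lit 2) (nat_lit 5) (nat_lit 4) (nat_lit 4) (nat_lit 2) (nat_lit 4) (nat_lit 287) (nat_lit 223) (nat_lit 210)) (XT.lf (nat_lit 0) (nat_lit 28250007977) (nat_lit 152) (nat_lit 9322846404) (nat_lit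 0) (nat_lit 23377900834) (nat_lit 2) (nat_lit 5) (nat_lit 4) (nat_lit 4) (nat_lit 2) (nat_lit 4) (nat_lit 288) (nat_lit 223) (nat_lit 209))))))) (XT.nd (nat_lit 702) (nat_lit 0) (nat_lit 0) (XT.nd (nat_lit 312) (nat_lit 0) (nat_lit 0) (XT.nd (nat_lit 156) (nat_lit 0) (nat_lit 0) (XT.nd (nat_lit 78) (nat_lit 76) (nat_lit 0) (XT.lf (nat_lit 0) (nat_lit 33143574047) (nat_lit 152) (nat_lit 4430634109) (nat_lit 0) (nat_lit 28085168116) (nat_lit 2) (nat_lit 5) (nat_lit 4) (nat_lit 4) (nat_lit 2) (nat_lit 4) (nat_lit 289) (nat_lit 223) (nat_lit 208)) (XT.lf (nat_lit 0) (nat_lit 710295333) (nat_lit 76) (nat_lit 37634826946) (nat_lit 76) (nat_lit 32403922137) (nat_lit 1) (nat_lit 4) (nat_lit 2) (nat_lit 5) (nat_lit 2) (nat_lit 4) (nat_lit 290) (nat_lit 223) (nat_lit 207))) (XT.nd (nat_lit 78) (nat_lit 0) (nat_lit 0) (XT.lf (nat_lit 0) (nat_lit 6262509736) (nat_lit 76) (nat_lit 37687407438) (nat_lit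 76) (nat_lit 32296781445) (nat_lit 1) (nat_lit 4) (nat_lit 2) (nat_lit 5) (nat_lit 2) (nat_lit 4) (nat_lit 291) (nat_lit 223) (nat_lit 206)) (XT.lf (nat_lit 0) (nat_lit 12112414335) (nat_lit 76) (nat_lit 37807296153) (nat_lit 76) (nat_lit 32268780175) (nat_lit 1) (nat_lit 4) (nat_lit 2) (nat_lit 5) (nat_lit 2) (nat_lit 4) (nat_lit 292) (nat_lit 223) (nat_lit 205)))) (XT.nd (nat_lit 156) (nat_lit 0) (nat_lit 0) (XT.nd (nat_lit 78) (nat_lit 0) (nat_lit 0) (XT.lf (nat_lit 0) (nat_lit 18294675233) (nat_lit 76) (nat_lit 37995203542) (nat_lit 76) (nat_lit 32319752394) (nat_lit 1) (nat_lit 4) (nat_lit 2) (nat_lit 5) (nat_lit 2) (nat_lit 4) (nat_lit 293) (nat_lit 223) (nat_lit 204)) (XT.lf (nat_lit 0) (nat_lit 24845928049) (nat_lit 76) (nat_lit 38252243132) (nat_lit 76) (nat_lit 32450000158) (nat_lit 1) (nat_lit 4) (nat_lit 2) (nat_lit 5) (nat_lit 2) (nat_lit 4) (nat_lit 294) (nat_lit 223) (nat_lit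 203))) (XT.nd (nat_lit 78) (nat_lit 0) (nat_lit 0) (XT.lf (nat_lit 0) (nat_lit 31804995022) (nat_lit 76) (nat_lit 38579938118) (nat_lit 76) (nat_lit 32660295306) (nat_lit 1) (nat_lit 4) (nat_lit 2) (nat_lit 5) (nat_lit 2) (nat_lit 4) (nat_lit 295) (nat_lit 223) (nat_lit 202)) (XT.nd (nat_lit 78) (nat_lit 0) (nat_lit 0) (XT.lf (nat_lit 0) (nat_lit 39213115069) (nat_lit 76) (nat_lit 38980230399) (nat_lit 76) (nat_lit 32951884033) (nat_lit 1) (nat_lit 4) (nat_lit 2) (nat_lit 5) (nat_lit 2) (nat_lit 4) (nat_lit 296) (nat_lit 223) (nat_lit 201)) (XT.lf (nat_lit 0) (nat_lit 47114188159) (nat_lit 76) (nat_lit 39455492075) (nat_lit 76) (nat_lit 33326494271) (nat_lit 1) (nat_lit 4) (nat_lit 2) (nat_lit 5) (nat_lit 2) (nat_lit 4) (nat_lit 297) (nat_lit 223) (nat_lit 200)))))) (XT.nd (nat_lit 312) (nat_lit 0) (nat_lit 0) (XT.nd (nat_lit 156) (nat_lit 0) (nat_lit 0) (XT.nd (nat_lit 78) (nat_lit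 0) (nat_lit 0) (XT.lf (nat_lit 0) (nat_lit 55555035466) (nat_lit 76) (nat_lit 40008539513) (nat_lit 76) (nat_lit 33786345932) (nat_lit 1) (nat_lit 4) (nat_lit 2) (nat_lit 5) (nat_lit 2) (nat_lit 4) (nat_lit 298) (nat_lit 223) (nat_lit 199)) (XT.lf (nat_lit 0) (nat_lit 64585676827) (nat_lit 76) (nat_lit 40642650031) (nat_lit 76) (nat_lit 34334164064) (nat_lit 1) (nat_lit 4) (nat_lit 2) (nat_lit 5) (nat_lit 2) (nat_lit 4) (nat_lit 299) (nat_lit 223) (nat_lit 198))) (XT.nd (nat_lit 78) (nat_lit 0) (nat_lit 0) (XT.lf (nat_lit 0) (nat_lit 74259627152) (nat_lit 76) (nat_lit 41361581320) (nat_lit 76) (nat_lit 34973194996) (nat_lit 1) (nat_lit 4) (nat_lit 2) (nat_lit 5) (nat_lit 2) (nat_lit 4) (nat_lit 300) (nat_lit 223) (nat_lit 197)) (XT.lf (nat_lit 0) (nat_lit 84634213556) (nat_lit 76) (nat_lit 42169593714) (nat_lit 76) (nat_lit 35707225578) (nat_lit 1) (nat_lit 4) (nat_lit 2) (nat_lit 5)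 (nat_lit 2) (nat_lit 4) (nat_lit 301) (nat_lit 223) (nat_lit 196)))) (XT.nd (nat_lit 156) (nat_lit 0) (nat_lit 0) (XT.nd (nat_lit 78) (nat_lit 0) (nat_lit 0) (XT.lf (nat_lit 0) (nat_lit 95770915068) (nat_lit 76) (nat_lit 43071475435) (nat_lit 76) (nat_lit 36540605622) (nat_lit 1) (nat_lit 4) (nat_lit 2) (nat_lit 5) (nat_lit 2) (nat_lit 4) (nat_lit 302) (nat_lit 223) (nat_lit 195)) (XT.lf (nat_lit 0) (nat_lit 107735726957) (nat_lit 76) (nat_lit 44072570968) (nat_lit 76) (nat_lit 37478273674) (nat_lit 1) (nat_lit 4) (nat_lit 2) (nat_lit 5) (nat_lit 2) (nat_lit 4) (nat_lit 303) (nat_lit 223) (nat_lit 194))) (XT.nd (nat_lit 78) (nat_lit 0) (nat_lit 0) (XT.lf (nat_lit 0) (nat_lit 120599551812) (nat_lit 76) (nat_lit 45178812729) (nat_lit 76) (nat_lit 38525786288) (nat_lit 1) (nat_lit 4) (nat_lit 2) (nat_lit 5) (nat_lit 2) (nat_lit 4) (nat_lit 304) (nat_lit 223) (nat_lit 193)) (XT.nd (nat_lit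 78) (nat_lit 0) (nat_lit 0) (XT.lf (nat_lit 0) (nat_lit 134438619705) (nat_lit 76) (nat_lit 46396756226) (nat_lit 76) (nat_lit 39689350945) (nat_lit 1) (nat_lit 4) (nat_lit 2) (nat_lit 5) (nat_lit 2) (nat_lit 4) (nat_lit 305) (nat_lit 223) (nat_lit 192)) (XT.lf (nat_lit 0) (nat_lit 149334939929) (nat_lit 76) (nat_lit 47733618902) (nat_lit 76) (nat_lit 40975862842) (nat_lit 1) (nat_lit 4) (nat_lit 2) (nat_lit 5) (nat_lit 2) (nat_lit 4) (nat_lit 306) (nat_lit 223) (nat_lit 191))))))))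
noncomputable def xc18 : XT := (XT.nd (nat_lit 34788) (nat_lit 0) (nat_lit 76) (XT.nd (nat_lit 624) (nat_lit 0) (nat_lit 0) (XT.nd (nat_lit 312) (nat_lit 0) (nat_lit 0) (XT.nd (nat_lit 156) (nat_lit 0) (nat_lit 0) (XT.nd (nat_lit 78) (nat_lit 0) (nat_lit 0) (XT.lf (nat_lit 0) (nat_lit 165376786974) (nat_lit 76) (nat_lit 49197322906) (nat_lit 76) (nat_lit 42392945755) (nat_lit 1) (nat_lit 4) (nat_lit 2) (nat_lit 5) (nat_lit 2) (nat_lit 4) (nat_lit 307) (nat_lit 223) (nat_lit 190)) (XT.lf (nat_lit 0) (nat_lit 182659223636) (nat_lit 76) (nat_lit 50796542039) (nat_lit 76) (nat_lit 43948997211) (nat_lit 1) (nat_lit 4) (nat_lit 2) (nat_lit 5) (nat_lit 2) (nat_lit 4) (nat_lit 308) (nat_lit 223) (nat_lit 189))) (XT.nd (nat_lit 78) (nat_lit 0) (nat_lit 0) (XT.lf (nat_lit 0) (nat_lit 201284664355) (nat_lit 76) (nat_lit 52540753156) (nat_lit 76) (nat_lit 45653238257) (nat_lit 1) (nat_lit 4) (nat_lit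 2) (nat_lit 5) (nat_lit 2) (nat_lit 4) (nat_lit 309) (nat_lit 223) (nat_lit 188)) (XT.lf (nat_lit 0) (nat_lit 221363482114) (nat_lit 76) (nat_lit 54440292322) (nat_lit 76) (nat_lit 47515768098) (nat_lit 1) (nat_lit 4) (nat_lit 2) (nat_lit 5) (nat_lit 2) (nat_lit 4) (nat_lit 310) (nat_lit 223) (nat_lit 187)))) (XT.nd (nat_lit 156) (nat_lit 0) (nat_lit 0) (XT.nd (nat_lit 78) (nat_lit 0) (nat_lit 0) (XT.lf (nat_lit 0) (nat_lit 243014662498) (nat_lit 76) (nat_lit 56506416066) (nat_lit 76) (nat_lit 49547623948) (nat_lit 1) (nat_lit 4) (nat_lit 2) (nat_lit 5) (nat_lit 2) (nat_lit 4) (nat_lit 311) (nat_lit 223) (nat_lit 186)) (XT.lf (nat_lit 0) (nat_lit 266366508800) (nat_lit 76) (nat_lit 58751368084) (nat_lit 76) (nat_lit 51760846435) (nat_lit 1) (nat_lit 4) (nat_lit 2) (nat_lit 5) (nat_lit 2) (nat_lit 4) (nat_lit 312) (nat_lit 223) (nat_lit 185))) (XT.nd (nat_lit 78) (nat_lit 0) (nat_lit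 0) (XT.lf (nat_lit 0) (nat_lit 291557402330) (nat_lit 76) (nat_lit 61188451795) (nat_lit 76) (nat_lit 54168550951) (nat_lit 1) (nat_lit 4) (nat_lit 2) (nat_lit 5) (nat_lit 2) (nat_lit 4) (nat_lit 313) (nat_lit 223) (nat_lit 184)) (XT.lf (nat_lit 0) (nat_lit 318736622458) (nat_lit 76) (nat_lit 63832109177) (nat_lit 76) (nat_lit 56785005374) (nat_lit 1) (nat_lit 4) (nat_lit 2) (nat_lit 5) (nat_lit 2) (nat_lit 4) (nat_lit 314) (nat_lit 223) (nat_lit 183))))) (XT.nd (nat_lit 312) (nat_lit 0) (nat_lit 0) (XT.nd (nat_lit 156) (nat_lit 0) (nat_lit 0) (XT.nd (nat_lit 78) (nat_lit 0) (nat_lit 0) (XT.lf (nat_lit 0) (nat_lit 348065231228) (nat_lit 76) (nat_lit 66698006348) (nat_lit 76) (nat_lit 59625714621) (nat_lit 1) (nat_lit 4) (nat_lit 2) (nat_lit 5) (nat_lit 2) (nat_lit 4) (nat_lit 315) (nat_lit 223) (nat_lit 182)) (XT.lf (nat_lit 0) (nat_lit 379717027805) (nat_lit 76) (nat_lit 69803126403)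 (nat_lit 76) (nat_lit 62707512522) (nat_lit 1) (nat_lit 4) (nat_lit 2) (nat_lit 5) (nat_lit 2) (nat_lit 4) (nat_lit 316) (nat_lit 223) (nat_lit 181))) (XT.nd (nat_lit 78) (nat_lit 0) (nat_lit 0) (XT.lf (nat_lit 0) (nat_lit 413879578389) (nat_lit 76) (nat_lit 73165870052) (nat_lit 76) (nat_lit 66048661586) (nat_lit 1) (nat_lit 4) (nat_lit 2) (nat_lit 5) (nat_lit 2) (nat_lit 4) (nat_lit 317) (nat_lit 223) (nat_lit 180)) (XT.lf (nat_lit 0) (nat_lit 450755327725) (nat_lit 76) (nat_lit 76806164665) (nat_lit 76) (nat_lit 69668961212) (nat_lit 1) (nat_lit 4) (nat_lit 2) (nat_lit 5) (nat_lit 2) (nat_lit 4) (nat_lit 318) (nat_lit 223) (nat_lit 179)))) (XT.nd (nat_lit 156) (nat_lit 0) (nat_lit 0) (XT.nd (nat_lit 78) (nat_lit 0) (nat_lit 0) (XT.lf (nat_lit 0) (nat_lit 490562798773) (nat_lit 76) (nat_lit 80745582359) (nat_lit 76) (nat_lit 73589865029) (nat_lit 1) (nat_lit 4) (nat_lit 2) (nat_lit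 5) (nat_lit 2) (nat_lit 4) (nat_lit 319) (nat_lit 223) (nat_lit 178)) (XT.lf (nat_lit 0) (nat_lit 533537887656) (nat_lit 76) (nat_lit 85007467831) (nat_lit 76) (nat_lit 77834608023) (nat_lit 1) (nat_lit 4) (nat_lit 2) (nat_lit 5) (nat_lit 2) (nat_lit 4) (nat_lit 320) (nat_lit 223) (nat_lit 177))) (XT.nd (nat_lit 78) (nat_lit 0) (nat_lit 0) (XT.lf (nat_lit 0) (nat_lit 579935261569) (nat_lit 76) (nat_lit 89617076698) (nat_lit 76) (nat_lit 82428344225) (nat_lit 1) (nat_lit 4) (nat_lit 2) (nat_lit 5) (nat_lit 2) (nat_lit 4) (nat_lit 321) (nat_lit 223) (nat_lit 176)) (XT.nd (nat_lit 78) (nat_lit 0) (nat_lit 0) (XT.lf (nat_lit 0) (nat_lit 630029867911) (nat_lit 76) (nat_lit 94601725162) (nat_lit 76) (nat_lit 87398295777) (nat_lit 1) (nat_lit 4) (nat_lit 2) (nat_lit 5) (nat_lit 2) (nat_lit 4) (nat_lit 322) (nat_lit 223) (nat_lit 175)) (XT.lf (nat_lit 0) (nat_lit 684118563610) (nat_lit 76) (nat_lit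 99990951880) (nat_lit 76) (nat_lit 92773914242) (nat_lit 1) (nat_lit 4) (nat_lit 2) (nat_lit 5) (nat_lit 2) (nat_lit 4) (nat_lit 323) (nat_lit 223) (nat_lit 174))))))) (XT.nd (nat_lit 702) (nat_lit 152) (nat_lit 0) (XT.nd (nat_lit 312) (nat_lit 76) (nat_lit 0) (XT.nd (nat_lit 156) (nat_lit 152) (nat_lit 0) (XT.nd (nat_lit 78) (nat_lit 0) (nat_lit 0) (XT.lf (nat_lit 0) (nat_lit 2061811709) (nat_lit 76) (nat_lit 3939429114) (nat_lit 76) (nat_lit 3939429114) (nat_lit 7) (nat_lit 4) (nat_lit 8) (nat_lit 5) (nat_lit 8) (nat_lit 4) (nat_lit 272) (nat_lit 224) (nat_lit 224)) (XT.lf (nat_lit 0) (nat_lit 13376994244) (nat_lit 76) (nat_lit 4232891306) (nat_lit 76) (nat_lit 3581345488) (nat_lit 7) (nat_lit 4) (nat_lit 8) (nat_lit 5) (nat_lit 8) (nat_lit 4) (nat_lit 273) (nat_lit 224) (nat_lit 223))) (XT.nd (nat_lit 78) (nat_lit 0) (nat_lit 0) (XT.lf (nat_lit 0) (nat_lit 313730590) (nat_lit 76)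 (nat_lit 451420420) (nat_lit 152) (nat_lit 21853586636) (nat_lit 5) (nat_lit 5) (nat_lit 6) (nat_lit 5) (nat_lit 7) (nat_lit 4) (nat_lit 274) (nat_lit 224) (nat_lit 222)) (XT.lf (nat_lit 0) (nat_lit 5275204937) (nat_lit 152) (nat_lit 15337666862) (nat_lit 0) (nat_lit 3548133980) (nat_lit 5) (nat_lit 5) (nat_lit 7) (nat_lit 4) (nat_lit 5) (nat_lit 4) (nat_lit 275) (nat_lit 224) (nat_lit 221)))) (XT.nd (nat_lit 156) (nat_lit 76) (nat_lit 0) (XT.nd (nat_lit 78) (nat_lit 0) (nat_lit 0) (XT.lf (nat_lit 0) (nat_lit 9917163999) (nat_lit 152) (nat_lit 8223952351) (nat_lit 0) (nat_lit 7697504398) (nat_lit 5) (nat_lit 5) (nat_lit 7) (nat_lit 4) (nat_lit 5) (nat_lit 4) (nat_lit 276) (nat_lit 224) (nat_lit 220)) (XT.lf (nat_lit 0) (nat_lit 14711488164) (nat_lit 152) (nat_lit 914660238) (nat_lit 0) (nat_lit 12035727966) (nat_lit 5) (nat_lit 5) (nat_lit 7) (nat_lit 4) (nat_lit 5) (nat_lit 4) (nat_lit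 277) (nat_lit 224) (nat_lit 219))) (XT.nd (nat_lit 78) (nat_lit 0) (nat_lit 0) (XT.lf (nat_lit 0) (nat_lit 6852858053) (nat_lit 76) (nat_lit 12940722507) (nat_lit 76) (nat_lit 9842646942) (nat_lit 4) (nat_lit 4) (nat_lit 5) (nat_lit 5) (nat_lit 5) (nat_lit 4) (nat_lit 278) (nat_lit 224) (nat_lit 218)) (XT.nd (nat_lit 78) (nat_lit 0) (nat_lit 0) (XT.lf (nat_lit 0) (nat_lit 14943618869) (nat_lit 76) (nat_lit 10161639207) (nat_lit 76) (nat_lit 6672530895) (nat_lit 4) (nat_lit 4) (nat_lit 5) (nat_lit 5) (nat_lit 5) (nat_lit 4) (nat_lit 279) (nat_lit 224) (nat_lit 217)) (XT.lf (nat_lit 0) (nat_lit 23375324659) (nat_lit 76) (nat_lit 7287920074) (nat_lit 76) (nat_lit 3436744403) (nat_lit 4) (nat_lit 4) (nat_lit 5) (nat_lit 5) (nat_lit 5) (nat_lit 4) (nat_lit 280) (nat_lit 224) (nat_lit 216)))))) (XT.nd (nat_lit 312) (nat_lit 0) (nat_lit 0) (XT.nd (nat_lit 156) (nat_lit 0) (nat_lit 0) (XT.nd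 (nat_lit 78) (nat_lit 152) (nat_lit 0) (XT.lf (nat_lit 0) (nat_lit 32197941087) (nat_lit 76) (nat_lit 4302535661) (nat_lit 76) (nat_lit 116112437) (nat_lit 4) (nat_lit 4) (nat_lit 5) (nat_lit 5) (nat_lit 5) (nat_lit 4) (nat_lit 281) (nat_lit 224) (nat_lit 215)) (XT.lf (nat_lit 0) (nat_lit 2138014401) (nat_lit 76) (nat_lit 1098498782) (nat_lit 152) (nat_lit 36101736928) (nat_lit 2) (nat_lit 5) (nat_lit 3) (nat_lit 5) (nat_lit 4) (nat_lit 4) (nat_lit 282) (nat_lit 224) (nat_lit 214))) (XT.nd (nat_lit 78) (nat_lit 0) (nat_lit 0) (XT.lf (nat_lit 0) (nat_lit 6818335377) (nat_lit 152) (nat_lit 33199351003) (nat_lit 0) (nat_lit 2261898834) (nat_lit 2) (nat_lit 5) (nat_lit 4) (nat_lit 4) (nat_lit 2) (nat_lit 4) (nat_lit 283) (nat_lit 224) (nat_lit 213)) (XT.lf (nat_lit 0) (nat_lit 10566238149) (nat_lit 152) (nat_lit 29139935853) (nat_lit 0) (nat_lit 5756344162) (nat_lit 2) (nat_lit 5) (nat_lit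 4) (nat_lit 4) (nat_lit 2) (nat_lit 4) (nat_lit 284) (nat_lit 224) (nat_lit 212)))) (XT.nd (nat_lit 156) (nat_lit 0) (nat_lit 0) (XT.nd (nat_lit 78) (nat_lit 0) (nat_lit 0) (XT.lf (nat_lit 0) (nat_lit 14485280652) (nat_lit 152) (nat_lit 24980783822) (nat_lit 0) (nat_lit 9440703845) (nat_lit 2) (nat_lit 5) (nat_lit 4) (nat_lit 4) (nat_lit 2) (nat_lit 4) (nat_lit 285) (nat_lit 224) (nat_lit 211)) (XT.lf (nat_lit 0) (nat_lit 18598686840) (nat_lit 152) (nat_lit 20697248084) (nat_lit 0) (nat_lit 13336811126) (nat_lit 2) (nat_lit 5) (nat_lit 4) (nat_lit 4) (nat_lit 2) (nat_lit 4) (nat_lit 286) (nat_lit 224) (nat_lit 210))) (XT.nd (nat_lit 78) (nat_lit 0) (nat_lit 0) (XT.lf (nat_lit 0) (nat_lit 22930832453) (nat_lit 152) (nat_lit 16263944723) (nat_lit 0) (nat_lit 17467754048) (nat_lit 2) (nat_lit 5) (nat_lit 4) (nat_lit 4) (nat_lit 2) (nat_lit 4) (nat_lit 287) (nat_lit 224) (nat_lit 209)) (XT.nd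 (nat_lit 78) (nat_lit 0) (nat_lit 0) (XT.lf (nat_lit 0) (nat_lit 27507389467) (nat_lit 152) (nat_lit 11654602313) (nat_lit 0) (nat_lit 21858012273) (nat_lit 2) (nat_lit 5) (nat_lit 4) (nat_lit 4) (nat_lit 2) (nat_lit 4) (nat_lit 288) (nat_lit 224) (nat_lit 208)) (XT.lf (nat_lit 0) (nat_lit 32355478218) (nat_lit 152) (nat_lit 6841906230) (nat_lit 0) (nat_lit 26533602146) (nat_lit 2) (nat_lit 5) (nat_lit 4) (nat_lit 4) (nat_lit 2) (nat_lit 4) (nat_lit 289) (nat_lit 224) (nat_lit 207))))))))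
noncomputable def xc19 : XT := (XT.nd (nat_lit 1326) (nat_lit 0) (nat_lit 0) (XT.nd (nat_lit 624) (nat_lit 0) (nat_lit 0) (XT.nd (nat_lit 312) (nat_lit 0) (nat_lit 0) (XT.nd (nat_lit 156) (nat_lit 0) (nat_lit 0) (XT.nd (nat_lit 78) (nat_lit 76) (nat_lit 0) (XT.lf (nat_lit 0) (nat_lit 37503828122) (nat_lit 152) (nat_lit 1797336796) (nat_lit 0) (nat_lit 31522230866) (nat_lit 2) (nat_lit 5) (nat_lit 4) (nat_lit 4) (nat_lit 2) (nat_lit 4) (nat_lit 290) (nat_lit 224) (nat_lit 206)) (XT.lf (nat_lit 0) (nat_lit 3625023113) (nat_lit 76) (nat_lit 39414521574) (nat_lit 76) (nat_lit 33285034333) (nat_lit 1) (nat_lit 4) (nat_lit 2) (nat_lit 5) (nat_lit 2) (nat_lit 4) (nat_lit 291) (nat_lit 224) (nat_lit 205))) (XT.nd (nat_lit 78) (nat_lit 0) (nat_lit 0) (XT.lf (nat_lit 0) (nat_lit 9409718064) (nat_lit 76) (nat_lit 39562500470) (nat_lit 76) (nat_lit 33296078059) (nat_lit 1) (nat_lit 4) (nat_lit 2)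 (nat_lit 5) (nat_lit 2) (nat_lit 4) (nat_lit 292) (nat_lit 224) (nat_lit 204)) (XT.lf (nat_lit 0) (nat_lit 15531599657) (nat_lit 76) (nat_lit 39776417287) (nat_lit 76) (nat_lit 33383203050) (nat_lit 1) (nat_lit 4) (nat_lit 2) (nat_lit 5) (nat_lit 2) (nat_lit 4) (nat_lit 293) (nat_lit 224) (nat_lit 203)))) (XT.nd (nat_lit 156) (nat_lit 0) (nat_lit 0) (XT.nd (nat_lit 78) (nat_lit 0) (nat_lit 0) (XT.lf (nat_lit 0) (nat_lit 22026945710) (nat_lit 76) (nat_lit 40057539679) (nat_lit 76) (nat_lit 33546925604) (nat_lit 1) (nat_lit 4) (nat_lit 2) (nat_lit 5) (nat_lit 2) (nat_lit 4) (nat_lit 294) (nat_lit 224) (nat_lit 202)) (XT.lf (nat_lit 0) (nat_lit 28934247162) (nat_lit 76) (nat_lit 40407533558) (nat_lit 76) (nat_lit 33788215929) (nat_lit 1) (nat_lit 4) (nat_lit 2) (nat_lit 5) (nat_lit 2) (nat_lit 4) (nat_lit 295) (nat_lit 224) (nat_lit 201))) (XT.nd (nat_lit 78) (nat_lit 0) (nat_lit 0) (XT.lf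 (nat_lit 0) (nat_lit 36294436170) (nat_lit 76) (nat_lit 40828472960) (nat_lit 76) (nat_lit 34108503893) (nat_lit 1) (nat_lit 4) (nat_lit 2) (nat_lit 5) (nat_lit 2) (nat_lit 4) (nat_lit 296) (nat_lit 224) (nat_lit 200)) (XT.lf (nat_lit 0) (nat_lit 44151128668) (nat_lit 76) (nat_lit 41322852342) (nat_lit 76) (nat_lit 34509687498) (nat_lit 1) (nat_lit 4) (nat_lit 2) (nat_lit 5) (nat_lit 2) (nat_lit 4) (nat_lit 297) (nat_lit 224) (nat_lit 199))))) (XT.nd (nat_lit 312) (nat_lit 0) (nat_lit 0) (XT.nd (nat_lit 156) (nat_lit 0) (nat_lit 0) (XT.nd (nat_lit 78) (nat_lit 0) (nat_lit 0) (XT.lf (nat_lit 0) (nat_lit 52550882836) (nat_lit 76) (nat_lit 41893601359) (nat_lit 76) (nat_lit 34994144129) (nat_lit 1) (nat_lit 4) (nat_lit 2) (nat_lit 5) (nat_lit 2) (nat_lit 4) (nat_lit 298) (nat_lit 224) (nat_lit 198)) (XT.lf (nat_lit 0) (nat_lit 61543474992) (nat_lit 76) (nat_lit 42544102228) (nat_lit 76)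 (nat_lit 35564744641) (nat_lit 1) (nat_lit 4) (nat_lit 2) (nat_lit 5) (nat_lit 2) (nat_lit 4) (nat_lit 299) (nat_lit 224) (nat_lit 197))) (XT.nd (nat_lit 78) (nat_lit 0) (nat_lit 0) (XT.lf (nat_lit 0) (nat_lit 71182194574) (nat_lit 76) (nat_lit 43278209768) (nat_lit 76) (nat_lit 36224870369) (nat_lit 1) (nat_lit 4) (nat_lit 2) (nat_lit 5) (nat_lit 2) (nat_lit 4) (nat_lit 300) (nat_lit 224) (nat_lit 196)) (XT.lf (nat_lit 0) (nat_lit 81524159918) (nat_lit 76) (nat_lit 44100274247) (nat_lit 76) (nat_lit 36978433170) (nat_lit 1) (nat_lit 4) (nat_lit 2) (nat_lit 5) (nat_lit 2) (nat_lit 4) (nat_lit 301) (nat_lit 224) (nat_lit 195)))) (XT.nd (nat_lit 156) (nat_lit 0) (nat_lit 0) (XT.nd (nat_lit 78) (nat_lit 0) (nat_lit 0) (XT.lf (nat_lit 0) (nat_lit 92630656745) (nat_lit 76) (nat_lit 45015167157) (nat_lit 76) (nat_lit 37829898600) (nat_lit 1) (nat_lit 4) (nat_lit 2) (nat_lit 5) (nat_lit 2)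 (nat_lit 4) (nat_lit 302) (nat_lit 224) (nat_lit 194)) (XT.lf (nat_lit 0) (nat_lit 104567501334) (nat_lit 76) (nat_lit 46028310086) (nat_lit 76) (nat_lit 38784312382) (nat_lit 1) (nat_lit 4) (nat_lit 2) (nat_lit 5) (nat_lit 2) (nat_lit 4) (nat_lit 303) (nat_lit 224) (nat_lit 193))) (XT.nd (nat_lit 78) (nat_lit 0) (nat_lit 0) (XT.lf (nat_lit 0) (nat_lit 117405430540) (nat_lit 76) (nat_lit 47145706845) (nat_lit 76) (nat_lit 39847330301) (nat_lit 1) (nat_lit 4) (nat_lit 2) (nat_lit 5) (nat_lit 2) (nat_lit 4) (nat_lit 304) (nat_lit 224) (nat_lit 192)) (XT.nd (nat_lit 78) (nat_lit 0) (nat_lit 0) (XT.lf (nat_lit 0) (nat_lit 131220520981) (nat_lit 76) (nat_lit 48373979044) (nat_lit 76) (nat_lit 41025251721) (nat_lit 1) (nat_lit 4) (nat_lit 2) (nat_lit 5) (nat_lit 2) (nat_lit 4) (nat_lit 305) (nat_lit 224) (nat_lit 191)) (XT.lf (nat_lit 0) (nat_lit 146094639860) (nat_lit 76) (nat_lit 49720405332)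 (nat_lit 76) (nat_lit 42325056918) (nat_lit 1) (nat_lit 4) (nat_lit 2) (nat_lit 5) (nat_lit 2) (nat_lit 4) (nat_lit 306) (nat_lit 224) (nat_lit 190))))))) (XT.nd (nat_lit 702) (nat_lit 0) (nat_lit 0) (XT.nd (nat_lit 312) (nat_lit 0) (nat_lit 0) (XT.nd (nat_lit 156) (nat_lit 0) (nat_lit 0) (XT.nd (nat_lit 78) (nat_lit 0) (nat_lit 0) (XT.lf (nat_lit 0) (nat_lit 162115930103) (nat_lit 76) (nat_lit 51192964533) (nat_lit 76) (nat_lit 43754448442) (nat_lit 1) (nat_lit 4) (nat_lit 2) (nat_lit 5) (nat_lit 2) (nat_lit 4) (nat_lit 307) (nat_lit 224) (nat_lit 189)) (XT.lf (nat_lit 0) (nat_lit 179379332690) (nat_lit 76) (nat_lit 52800382922) (nat_lit 76) (nat_lit 45321896760) (nat_lit 1) (nat_lit 4) (nat_lit 2) (nat_lit 5) (nat_lit 2) (nat_lit 4) (nat_lit 308) (nat_lit 224) (nat_lit 188))) (XT.nd (nat_lit 78) (nat_lit 0) (nat_lit 0) (XT.lf (nat_lit 0) (nat_lit 197987149266) (nat_lit 76) (nat_lit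 54552185942) (nat_lit 76) (nat_lit 47036690455) (nat_lit 1) (nat_lit 4) (nat_lit 2) (nat_lit 5) (nat_lit 2) (nat_lit 4) (nat_lit 309) (nat_lit 224) (nat_lit 187)) (XT.lf (nat_lit 0) (nat_lit 218049648374) (nat_lit 76) (nat_lit 56458754649) (nat_lit 76) (nat_lit 48908991269) (nat_lit 1) (nat_lit 4) (nat_lit 2) (nat_lit 5) (nat_lit 2) (nat_lit 4) (nat_lit 310) (nat_lit 224) (nat_lit 186)))) (XT.nd (nat_lit 156) (nat_lit 0) (nat_lit 0) (XT.nd (nat_lit 78) (nat_lit 0) (nat_lit 0) (XT.lf (nat_lit 0) (nat_lit 239685718896) (nat_lit 76) (nat_lit 58531387227) (nat_lit 76) (nat_lit 50949894315) (nat_lit 1) (nat_lit 4) (nat_lit 2) (nat_lit 5) (nat_lit 2) (nat_lit 4) (nat_lit 311) (nat_lit 224) (nat_lit 185)) (XT.lf (nat_lit 0) (nat_lit 263023574584) (nat_lit 76) (nat_lit 60782365943) (nat_lit 76) (nat_lit 53171493836) (nat_lit 1) (nat_lit 4) (nat_lit 2) (nat_lit 5) (nat_lit 2) (nat_lit 4) (nat_lit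 312) (nat_lit 224) (nat_lit 184))) (XT.nd (nat_lit 78) (nat_lit 0) (nat_lit 0) (XT.lf (nat_lit 0) (nat_lit 288201513843) (nat_lit 76) (nat_lit 63225029930) (nat_lit 76) (nat_lit 55586954864) (nat_lit 1) (nat_lit 4) (nat_lit 2) (nat_lit 5) (nat_lit 2) (nat_lit 4) (nat_lit 313) (nat_lit 224) (nat_lit 183)) (XT.nd (nat_lit 78) (nat_lit 0) (nat_lit 0) (XT.lf (nat_lit 0) (nat_lit 315368739275) (nat_lit 76) (nat_lit 65873854235) (nat_lit 76) (nat_lit 58210591244) (nat_lit 1) (nat_lit 4) (nat_lit 2) (nat_lit 5) (nat_lit 2) (nat_lit 4) (nat_lit 314) (nat_lit 224) (nat_lit 182)) (XT.lf (nat_lit 0) (nat_lit 344686241845) (nat_lit 76) (nat_lit 68744535593) (nat_lit 76) (nat_lit 61057950450) (nat_lit 1) (nat_lit 4) (nat_lit 2) (nat_lit 5) (nat_lit 2) (nat_lit 4) (nat_lit 315) (nat_lit 224) (nat_lit 181)))))) (XT.nd (nat_lit 312) (nat_lit 0) (nat_lit 0) (XT.nd (nat_lit 156) (nat_lit 0) (nat_lit 0)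 (XT.nd (nat_lit 78) (nat_lit 0) (nat_lit 0) (XT.lf (nat_lit 0) (nat_lit 376327754903) (nat_lit 76) (nat_lit 71854085451) (nat_lit 76) (nat_lit 64145905722) (nat_lit 1) (nat_lit 4) (nat_lit 2) (nat_lit 5) (nat_lit 2) (nat_lit 4) (nat_lit 316) (nat_lit 224) (nat_lit 180)) (XT.lf (nat_lit 0) (nat_lit 410480783711) (nat_lit 76) (nat_lit 75220930769) (nat_lit 76) (nat_lit 67492756053) (nat_lit 1) (nat_lit 4) (nat_lit 2) (nat_lit 5) (nat_lit 2) (nat_lit 4) (nat_lit 317) (nat_lit 224) (nat_lit 179))) (XT.nd (nat_lit 78) (nat_lit 0) (nat_lit 0) (XT.lf (nat_lit 0) (nat_lit 447347716588) (nat_lit 76) (nat_lit 78865023224) (nat_lit 76) (nat_lit 71118334632) (nat_lit 1) (nat_lit 4) (nat_lit 2) (nat_lit 5) (nat_lit 2) (nat_lit 4) (nat_lit 318) (nat_lit 224) (nat_lit 178)) (XT.lf (nat_lit 0) (nat_lit 487147024247) (nat_lit 76) (nat_lit 82807957439) (nat_lit 76) (nat_lit 75044126368) (nat_lit 1) (nat_lit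 4) (nat_lit 2) (nat_lit 5) (nat_lit 2) (nat_lit 4) (nat_lit 319) (nat_lit 224) (nat_lit 177)))) (XT.nd (nat_lit 156) (nat_lit 0) (nat_lit 0) (XT.nd (nat_lit 78) (nat_lit 0) (nat_lit 0) (XT.lf (nat_lit 0) (nat_lit 530114554438) (nat_lit 76) (nat_lit 87073098948) (nat_lit 76) (nat_lit 79293395212) (nat_lit 1) (nat_lit 4) (nat_lit 2) (nat_lit 5) (nat_lit 2) (nat_lit 4) (nat_lit 320) (nat_lit 224) (nat_lit 176)) (XT.lf (nat_lit 0) (nat_lit 576504929560) (nat_lit 76) (nat_lit 91685722665) (nat_lit 76) (nat_lit 83891322017) (nat_lit 1) (nat_lit 4) (nat_lit 2) (nat_lit 5) (nat_lit 2) (nat_lit 4) (nat_lit 321) (nat_lit 224) (nat_lit 175))) (XT.nd (nat_lit 78) (nat_lit 0) (nat_lit 0) (XT.lf (nat_lit 0) (nat_lit 626593055542) (nat_lit 76) (nat_lit 96673162656) (nat_lit 76) (nat_lit 88865153756) (nat_lit 1) (nat_lit 4) (nat_lit 2) (nat_lit 5) (nat_lit 2) (nat_lit 4) (nat_lit 322) (nat_lit 224)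 (nat_lit 174)) (XT.nd (nat_lit 33384) (nat_lit 0) (nat_lit 532) (XT.lf (nat_lit 0) (nat_lit 680675750907) (nat_lit 76) (nat_lit 102064974121) (nat_lit 76) (nat_lit 94244364987) (nat_lit 1) (nat_lit 4) (nat_lit 2) (nat_lit 5) (nat_lit 2) (nat_lit 4) (nat_lit 323) (nat_lit 224) (nat_lit 173)) (XT.lf (nat_lit 0) (nat_lit 1139296326) (nat_lit 152) (nat_lit 6505616978) (nat_lit 0) (nat_lit 1139296326) (nat_lit 8) (nat_lit 5) (nat_lit 10) (nat_lit 4) (nat_lit 8) (nat_lit 4) (nat_lit 270) (nat_lit 225) (nat_lit 225))))))))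
noncomputable def xc20 : XT := (XT.nd (nat_lit 1326) (nat_lit 76) (nat_lit 0) (XT.nd (nat_lit 624) (nat_lit 152) (nat_lit 0) (XT.nd (nat_lit 312) (nat_lit 152) (nat_lit 0) (XT.nd (nat_lit 156) (nat_lit 76) (nat_lit 0) (XT.nd (nat_lit 78) (nat_lit 76) (nat_lit 0) (XT.lf (nat_lit 0) (nat_lit 7329395676) (nat_lit 152) (nat_lit 4723228931) (nat_lit 0) (nat_lit 6625726193) (nat_lit 8) (nat_lit 5) (nat_lit 10) (nat_lit 4) (nat_lit 8) (nat_lit 4) (nat_lit 271) (nat_lit 225) (nat_lit 224)) (XT.lf (nat_lit 0) (nat_lit 3897712508) (nat_lit 76) (nat_lit 8672973435) (nat_lit 76) (nat_lit 7317758135) (nat_lit 7) (nat_lit 4) (nat_lit 8) (nat_lit 5) (nat_lit 8) (nat_lit 4) (nat_lit 272) (nat_lit 225) (nat_lit 223))) (XT.nd (nat_lit 78) (nat_lit 76) (nat_lit 0) (XT.lf (nat_lit 0) (nat_lit 12941906565) (nat_lit 76) (nat_lit 5110752553) (nat_lit 76) (nat_lit 3152254089) (nat_lit 7) (nat_lit 4) (nat_lit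 8) (nat_lit 5) (nat_lit 8) (nat_lit 4) (nat_lit 273) (nat_lit 225) (nat_lit 222)) (XT.lf (nat_lit 0) (nat_lit 1057292451) (nat_lit 152) (nat_lit 349644460) (nat_lit 76) (nat_lit 21231578975) (nat_lit 6) (nat_lit 5) (nat_lit 8) (nat_lit 5) (nat_lit 7) (nat_lit 4) (nat_lit 274) (nat_lit 225) (nat_lit 221)))) (XT.nd (nat_lit 156) (nat_lit 76) (nat_lit 0) (XT.nd (nat_lit 78) (nat_lit 0) (nat_lit 0) (XT.lf (nat_lit 0) (nat_lit 5432989023) (nat_lit 152) (nat_lit 16211595059) (nat_lit 0) (nat_lit 2543168010) (nat_lit 5) (nat_lit 5) (nat_lit 7) (nat_lit 4) (nat_lit 5) (nat_lit 4) (nat_lit 275) (nat_lit 225) (nat_lit 220)) (XT.lf (nat_lit 0) (nat_lit 9969663651) (nat_lit 152) (nat_lit 9277457259) (nat_lit 0) (nat_lit 6623742042) (nat_lit 5) (nat_lit 5) (nat_lit 7) (nat_lit 4) (nat_lit 5) (nat_lit 4) (nat_lit 276) (nat_lit 225) (nat_lit 219))) (XT.nd (nat_lit 78) (nat_lit 76) (nat_lit 0) (XT.lf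 (nat_lit 0) (nat_lit 14666502229) (nat_lit 152) (nat_lit 2134439879) (nat_lit 0) (nat_lit 10898265253) (nat_lit 5) (nat_lit 5) (nat_lit 7) (nat_lit 4) (nat_lit 5) (nat_lit 4) (nat_lit 277) (nat_lit 225) (nat_lit 218)) (XT.lf (nat_lit 0) (nat_lit 5433698353) (nat_lit 76) (nat_lit 14202474780) (nat_lit 76) (nat_lit 10043205056) (nat_lit 4) (nat_lit 4) (nat_lit 5) (nat_lit 5) (nat_lit 5) (nat_lit 4) (nat_lit 278) (nat_lit 225) (nat_lit 217))))) (XT.nd (nat_lit 312) (nat_lit 0) (nat_lit 0) (XT.nd (nat_lit 156) (nat_lit 152) (nat_lit 0) (XT.nd (nat_lit 78) (nat_lit 0) (nat_lit 0) (XT.lf (nat_lit 0) (nat_lit 13377191913) (nat_lit 76) (nat_lit 11484781303) (nat_lit 76) (nat_lit 6963444220) (nat_lit 4) (nat_lit 4) (nat_lit 5) (nat_lit 5) (nat_lit 5) (nat_lit 4) (nat_lit 279) (nat_lit 225) (nat_lit 216)) (XT.lf (nat_lit 0) (nat_lit 21672539134) (nat_lit 76) (nat_lit 8667904598) (nat_lit 76) (nat_lit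 3811319961) (nat_lit 4) (nat_lit 4) (nat_lit 5) (nat_lit 5) (nat_lit 5) (nat_lit 4) (nat_lit 280) (nat_lit 225) (nat_lit 215))) (XT.nd (nat_lit 78) (nat_lit 152) (nat_lit 0) (XT.lf (nat_lit 0) (nat_lit 30368897627) (nat_lit 76) (nat_lit 5735152064) (nat_lit 76) (nat_lit 568153025) (nat_lit 4) (nat_lit 4) (nat_lit 5) (nat_lit 5) (nat_lit 5) (nat_lit 4) (nat_lit 281) (nat_lit 225) (nat_lit 214)) (XT.lf (nat_lit 0) (nat_lit 75046946) (nat_lit 76) (nat_lit 2622253896) (nat_lit 152) (nat_lit 36702136715) (nat_lit 2) (nat_lit 5) (nat_lit 3) (nat_lit 5) (nat_lit 4) (nat_lit 4) (nat_lit 282) (nat_lit 225) (nat_lit 213)))) (XT.nd (nat_lit 156) (nat_lit 0) (nat_lit 0) (XT.nd (nat_lit 78) (nat_lit 0) (nat_lit 0) (XT.lf (nat_lit 0) (nat_lit 6188511846) (nat_lit 152) (nat_lit 35416551220) (nat_lit 0) (nat_lit 740368894) (nat_lit 2) (nat_lit 5) (nat_lit 4) (nat_lit 4) (nat_lit 2) (nat_lit 4) (nat_lit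 283) (nat_lit 225) (nat_lit 212)) (XT.lf (nat_lit 0) (nat_lit 9874543228) (nat_lit 152) (nat_lit 31465316998) (nat_lit 0) (nat_lit 4191717457) (nat_lit 2) (nat_lit 5) (nat_lit 4) (nat_lit 4) (nat_lit 2) (nat_lit 4) (nat_lit 284) (nat_lit 225) (nat_lit 211))) (XT.nd (nat_lit 78) (nat_lit 0) (nat_lit 0) (XT.lf (nat_lit 0) (nat_lit 13736297406) (nat_lit 152) (nat_lit 27406332494) (nat_lit 0) (nat_lit 7836172728) (nat_lit 2) (nat_lit 5) (nat_lit 4) (nat_lit 4) (nat_lit 2) (nat_lit 4) (nat_lit 285) (nat_lit 225) (nat_lit 210)) (XT.nd (nat_lit 78) (nat_lit 0) (nat_lit 0) (XT.lf (nat_lit 0) (nat_lit 17796658849) (nat_lit 152) (nat_lit 23215544466) (nat_lit 0) (nat_lit 11695331479) (nat_lit 2) (nat_lit 5) (nat_lit 4) (nat_lit 4) (nat_lit 2) (nat_lit 4) (nat_lit 286) (nat_lit 225) (nat_lit 209)) (XT.lf (nat_lit 0) (nat_lit 22079688958) (nat_lit 152) (nat_lit 18868118614) (nat_lit 0) (nat_lit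 15792062800) (nat_lit 2) (nat_lit 5) (nat_lit 4) (nat_lit 4) (nat_lit 2) (nat_lit 4) (nat_lit 287) (nat_lit 225) (nat_lit 208))))))) (XT.nd (nat_lit 702) (nat_lit 0) (nat_lit 0) (XT.nd (nat_lit 312) (nat_lit 0) (nat_lit 0) (XT.nd (nat_lit 156) (nat_lit 76) (nat_lit 0) (XT.nd (nat_lit 78) (nat_lit 0) (nat_lit 0) (XT.lf (nat_lit 0) (nat_lit 26610768653) (nat_lit 152) (nat_lit 14338292416) (nat_lit 0) (nat_lit 20150643616) (nat_lit 2) (nat_lit 5) (nat_lit 4) (nat_lit 4) (nat_lit 2) (nat_lit 4) (nat_lit 288) (nat_lit 225) (nat_lit 207)) (XT.lf (nat_lit 0) (nat_lit 31416748775) (nat_lit 152) (nat_lit 9599222456) (nat_lit 0) (nat_lit 24796902555) (nat_lit 2) (nat_lit 5) (nat_lit 4) (nat_lit 4) (nat_lit 2) (nat_lit 4) (nat_lit 289) (nat_lit 225) (nat_lit 206))) (XT.nd (nat_lit 78) (nat_lit 76) (nat_lit 0) (XT.lf (nat_lit 0) (nat_lit 36526109208) (nat_lit 152) (nat_lit 4622825356) (nat_lit 0)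 (nat_lit 29758373003) (nat_lit 2) (nat_lit 5) (nat_lit 4) (nat_lit 4) (nat_lit 2) (nat_lit 4) (nat_lit 290) (nat_lit 225) (nat_lit 205)) (XT.lf (nat_lit 0) (nat_lit 640901492) (nat_lit 76) (nat_lit 41338232418) (nat_lit 76) (nat_lit 34433561042) (nat_lit 1) (nat_lit 4) (nat_lit 2) (nat_lit 5) (nat_lit 2) (nat_lit 4) (nat_lit 291) (nat_lit 225) (nat_lit 204)))) (XT.nd (nat_lit 156) (nat_lit 0) (nat_lit 0) (XT.nd (nat_lit 78) (nat_lit 0) (nat_lit 0) (XT.lf (nat_lit 0) (nat_lit 6365217138) (nat_lit 76) (nat_lit 41512220742) (nat_lit 76) (nat_lit 34480757541) (nat_lit 1) (nat_lit 4) (nat_lit 2) (nat_lit 5) (nat_lit 2) (nat_lit 4) (nat_lit 292) (nat_lit 225) (nat_lit 203)) (XT.lf (nat_lit 0) (nat_lit 12431191968) (nat_lit 76) (nat_lit 41750220362) (nat_lit 76) (nat_lit 34601357323) (nat_lit 1) (nat_lit 4) (nat_lit 2) (nat_lit 5) (nat_lit 2) (nat_lit 4) (nat_lit 293) (nat_lit 225) (nat_lit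 202))) (XT.nd (nat_lit 78) (nat_lit 0) (nat_lit 0) (XT.lf (nat_lit 0) (nat_lit 18874772499) (nat_lit 76) (nat_lit 42053641646) (nat_lit 76) (nat_lit 34796075053) (nat_lit 1) (nat_lit 4) (nat_lit 2) (nat_lit 5) (nat_lit 2) (nat_lit 4) (nat_lit 294) (nat_lit 225) (nat_lit 201)) (XT.nd (nat_lit 78) (nat_lit 0) (nat_lit 0) (XT.lf (nat_lit 0) (nat_lit 25734142912) (nat_lit 76) (nat_lit 42424282646) (nat_lit 76) (nat_lit 35066064614) (nat_lit 1) (nat_lit 4) (nat_lit 2) (nat_lit 5) (nat_lit 2) (nat_lit 4) (nat_lit 295) (nat_lit 225) (nat_lit 200)) (XT.lf (nat_lit 0) (nat_lit 33049951329) (nat_lit 76) (nat_lit 42864339754) (nat_lit 76) (nat_lit 35412925946) (nat_lit 1) (nat_lit 4) (nat_lit 2) (nat_lit 5) (nat_lit 2) (nat_lit 4) (nat_lit 296) (nat_lit 225) (nat_lit 199)))))) (XT.nd (nat_lit 312) (nat_lit 0) (nat_lit 0) (XT.nd (nat_lit 156) (nat_lit 0) (nat_lit 0) (XT.nd (nat_lit 78) (nat_lit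 0) (nat_lit 0) (XT.lf (nat_lit 0) (nat_lit 40865550687) (nat_lit 76) (nat_lit 43376420715) (nat_lit 76) (nat_lit 35838714521) (nat_lit 1) (nat_lit 4) (nat_lit 2) (nat_lit 5) (nat_lit 2) (nat_lit 4) (nat_lit 297) (nat_lit 225) (nat_lit 198)) (XT.lf (nat_lit 0) (nat_lit 49227255651) (nat_lit 76) (nat_lit 43963560083) (nat_lit 76) (nat_lit 36345953532) (nat_lit 1) (nat_lit 4) (nat_lit 2) (nat_lit 5) (nat_lit 2) (nat_lit 4) (nat_lit 298) (nat_lit 225) (nat_lit 197))) (XT.nd (nat_lit 78) (nat_lit 0) (nat_lit 0) (XT.lf (nat_lit 0) (nat_lit 58184617063) (nat_lit 76) (nat_lit 44629237203) (nat_lit 76) (nat_lit 36937648839) (nat_lit 1) (nat_lit 4) (nat_lit 2) (nat_lit 5) (nat_lit 2) (nat_lit 4) (nat_lit 299) (nat_lit 225) (nat_lit 196)) (XT.lf (nat_lit 0) (nat_lit 67790715585) (nat_lit 76) (nat_lit 45377396827) (nat_lit 76) (nat_lit 37617306786) (nat_lit 1) (nat_lit 4) (nat_lit 2) (nat_lit 5)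 (nat_lit 2) (nat_lit 4) (nat_lit 300) (nat_lit 225) (nat_lit 195)))) (XT.nd (nat_lit 156) (nat_lit 0) (nat_lit 0) (XT.nd (nat_lit 78) (nat_lit 0) (nat_lit 0) (XT.lf (nat_lit 0) (nat_lit 78102476245) (nat_lit 76) (nat_lit 46212472495) (nat_lit 76) (nat_lit 38388954974) (nat_lit 1) (nat_lit 4) (nat_lit 2) (nat_lit 5) (nat_lit 2) (nat_lit 4) (nat_lit 301) (nat_lit 225) (nat_lit 194)) (XT.lf (nat_lit 0) (nat_lit 89181005771) (nat_lit 76) (nat_lit 47139412802) (nat_lit 76) (nat_lit 39257166134) (nat_lit 1) (nat_lit 4) (nat_lit 2) (nat_lit 5) (nat_lit 2) (nat_lit 4) (nat_lit 302) (nat_lit 225) (nat_lit 193))) (XT.nd (nat_lit 78) (nat_lit 0) (nat_lit 0) (XT.lf (nat_lit 0) (nat_lit 101091954711) (nat_lit 76) (nat_lit 48163710730) (nat_lit 76) (nat_lit 40227085221) (nat_lit 1) (nat_lit 4) (nat_lit 2) (nat_lit 5) (nat_lit 2) (nat_lit 4) (nat_lit 303) (nat_lit 225) (nat_lit 192)) (XT.nd (nat_lit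 78) (nat_lit 0) (nat_lit 0) (XT.lf (nat_lit 0) (nat_lit 113905906464) (nat_lit 76) (nat_lit 49291436190) (nat_lit 76) (nat_lit 41304459903) (nat_lit 1) (nat_lit 4) (nat_lit 2) (nat_lit 5) (nat_lit 2) (nat_lit 4) (nat_lit 304) (nat_lit 225) (nat_lit 191)) (XT.lf (nat_lit 0) (nat_lit 127698795561) (nat_lit 76) (nat_lit 50529272001) (nat_lit 76) (nat_lit 42495674623) (nat_lit 1) (nat_lit 4) (nat_lit 2) (nat_lit 5) (nat_lit 2) (nat_lit 4) (nat_lit 305) (nat_lit 225) (nat_lit 190))))))))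
noncomputable def xc21 : XT := (XT.nd (nat_lit 1326) (nat_lit 0) (nat_lit 0) (XT.nd (nat_lit 624) (nat_lit 0) (nat_lit 0) (XT.nd (nat_lit 312) (nat_lit 0) (nat_lit 0) (XT.nd (nat_lit 156) (nat_lit 0) (nat_lit 0) (XT.nd (nat_lit 78) (nat_lit 0) (nat_lit 0) (XT.lf (nat_lit 0) (nat_lit 142552357639) (nat_lit 76) (nat_lit 51884553486) (nat_lit 76) (nat_lit 43807788431) (nat_lit 1) (nat_lit 4) (nat_lit 2) (nat_lit 5) (nat_lit 2) (nat_lit 4) (nat_lit 306) (nat_lit 225) (nat_lit 189)) (XT.lf (nat_lit 0) (nat_lit 158554613807) (nat_lit 76) (nat_lit 53365311942) (nat_lit 76) (nat_lit 45248576816) (nat_lit 1) (nat_lit 4) (nat_lit 2) (nat_lit 5) (nat_lit 2) (nat_lit 4) (nat_lit 307) (nat_lit 225) (nat_lit 188))) (XT.nd (nat_lit 78) (nat_lit 0) (nat_lit 0) (XT.lf (nat_lit 0) (nat_lit 175800392251) (nat_lit 76) (nat_lit 54980322236) (nat_lit 76) (nat_lit 46826577785) (nat_lit 1) (nat_lit 4) (nat_lit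 2) (nat_lit 5) (nat_lit 2) (nat_lit 4) (nat_lit 308) (nat_lit 225) (nat_lit 187)) (XT.lf (nat_lit 0) (nat_lit 194391890176) (nat_lit 76) (nat_lit 56739154797) (nat_lit 76) (nat_lit 48551142452) (nat_lit 1) (nat_lit 4) (nat_lit 2) (nat_lit 5) (nat_lit 2) (nat_lit 4) (nat_lit 309) (nat_lit 225) (nat_lit 186)))) (XT.nd (nat_lit 156) (nat_lit 0) (nat_lit 0) (XT.nd (nat_lit 78) (nat_lit 0) (nat_lit 0) (XT.lf (nat_lit 0) (nat_lit 214439279421) (nat_lit 76) (nat_lit 58652232337) (nat_lit 76) (nat_lit 50432490462) (nat_lit 1) (nat_lit 4) (nat_lit 2) (nat_lit 5) (nat_lit 2) (nat_lit 4) (nat_lit 310) (nat_lit 225) (nat_lit 185)) (XT.lf (nat_lit 0) (nat_lit 236061359330) (nat_lit 76) (nat_lit 60730891613) (nat_lit 76) (nat_lit 52481770542) (nat_lit 1) (nat_lit 4) (nat_lit 2) (nat_lit 5) (nat_lit 2) (nat_lit 4) (nat_lit 311) (nat_lit 225) (nat_lit 184))) (XT.nd (nat_lit 78) (nat_lit 0) (nat_lit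 0) (XT.lf (nat_lit 0) (nat_lit 259386260746) (nat_lit 76) (nat_lit 62987450605) (nat_lit 76) (nat_lit 54711126575) (nat_lit 1) (nat_lit 4) (nat_lit 2) (nat_lit 5) (nat_lit 2) (nat_lit 4) (nat_lit 312) (nat_lit 225) (nat_lit 183)) (XT.lf (nat_lit 0) (nat_lit 284552205309) (nat_lit 76) (nat_lit 65435281515) (nat_lit 76) (nat_lit 57133769560) (nat_lit 1) (nat_lit 4) (nat_lit 2) (nat_lit 5) (nat_lit 2) (nat_lit 4) (nat_lit 313) (nat_lit 225) (nat_lit 182))))) (XT.nd (nat_lit 312) (nat_lit 0) (nat_lit 0) (XT.nd (nat_lit 156) (nat_lit 0) (nat_lit 0) (XT.nd (nat_lit 78) (nat_lit 0) (nat_lit 0) (XT.lf (nat_lit 0) (nat_lit 311708324541) (nat_lit 76) (nat_lit 68088890007) (nat_lit 76) (nat_lit 59764055899) (nat_lit 1) (nat_lit 4) (nat_lit 2) (nat_lit 5) (nat_lit 2) (nat_lit 4) (nat_lit 314) (nat_lit 225) (nat_lit 181)) (XT.lf (nat_lit 0) (nat_lit 341015543594) (nat_lit 76) (nat_lit 70964001168)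 (nat_lit 76) (nat_lit 62617572475) (nat_lit 1) (nat_lit 4) (nat_lit 2) (nat_lit 5) (nat_lit 2) (nat_lit 4) (nat_lit 315) (nat_lit 225) (nat_lit 180))) (XT.nd (nat_lit 78) (nat_lit 0) (nat_lit 0) (XT.lf (nat_lit 0) (nat_lit 372647534875) (nat_lit 76) (nat_lit 74077652695) (nat_lit 76) (nat_lit 65711229015) (nat_lit 1) (nat_lit 4) (nat_lit 2) (nat_lit 5) (nat_lit 2) (nat_lit 4) (nat_lit 316) (nat_lit 225) (nat_lit 179)) (XT.lf (nat_lit 0) (nat_lit 406791747224) (nat_lit 76) (nat_lit 77448295855) (nat_lit 76) (nat_lit 69063358299) (nat_lit 1) (nat_lit 4) (nat_lit 2) (nat_lit 5) (nat_lit 2) (nat_lit 4) (nat_lit 317) (nat_lit 225) (nat_lit 178)))) (XT.nd (nat_lit 156) (nat_lit 0) (nat_lit 0) (XT.nd (nat_lit 78) (nat_lit 0) (nat_lit 0) (XT.lf (nat_lit 0) (nat_lit 443650516712) (nat_lit 76) (nat_lit 81095904831) (nat_lit 76) (nat_lit 72693824796) (nat_lit 1) (nat_lit 4) (nat_lit 2) (nat_lit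 5) (nat_lit 2) (nat_lit 4) (nat_lit 318) (nat_lit 225) (nat_lit 177)) (XT.lf (nat_lit 0) (nat_lit 483442265678) (nat_lit 76) (nat_lit 85042095083) (nat_lit 76) (nat_lit 76624142383) (nat_lit 1) (nat_lit 4) (nat_lit 2) (nat_lit 5) (nat_lit 2) (nat_lit 4) (nat_lit 319) (nat_lit 225) (nat_lit 176))) (XT.nd (nat_lit 78) (nat_lit 0) (nat_lit 0) (XT.lf (nat_lit 0) (nat_lit 526402797079) (nat_lit 76) (nat_lit 89310251442) (nat_lit 76) (nat_lit 80877601829) (nat_lit 1) (nat_lit 4) (nat_lit 2) (nat_lit 5) (nat_lit 2) (nat_lit 4) (nat_lit 320) (nat_lit 225) (nat_lit 175)) (XT.nd (nat_lit 78) (nat_lit 0) (nat_lit 0) (XT.lf (nat_lit 0) (nat_lit 572786691840) (nat_lit 76) (nat_lit 93925666686) (nat_lit 76) (nat_lit 85479408821) (nat_lit 1) (nat_lit 4) (nat_lit 2) (nat_lit 5) (nat_lit 2) (nat_lit 4) (nat_lit 321) (nat_lit 225) (nat_lit 174)) (XT.lf (nat_lit 0) (nat_lit 622868817488) (nat_lit 76) (nat_lit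 98915691424) (nat_lit 76) (nat_lit 90456833327) (nat_lit 1) (nat_lit 4) (nat_lit 2) (nat_lit 5) (nat_lit 2) (nat_lit 4) (nat_lit 322) (nat_lit 225) (nat_lit 173))))))) (XT.nd (nat_lit 33852) (nat_lit 0) (nat_lit 76) (XT.nd (nat_lit 33462) (nat_lit 0) (nat_lit 304) (XT.nd (nat_lit 33306) (nat_lit 0) (nat_lit 532) (XT.nd (nat_lit 33228) (nat_lit 0) (nat_lit 684) (XT.lf (nat_lit 0) (nat_lit 676945956988) (nat_lit 76) (nat_lit 104309896174) (nat_lit 76) (nat_lit 95839371194) (nat_lit 1) (nat_lit 4) (nat_lit 2) (nat_lit 5) (nat_lit 2) (nat_lit 4) (nat_lit 323) (nat_lit 225) (nat_lit 172)) (XT.lf (nat_lit 0) (nat_lit 1269418616) (nat_lit 152) (nat_lit 3266151827) (nat_lit 152) (nat_lit 3266151827) (nat_lit 10) (nat_lit 4) (nat_lit 12) (nat_lit 5) (nat_lit 12) (nat_lit 4) (nat_lit 268) (nat_lit 226) (nat_lit 226))) (XT.nd (nat_lit 78) (nat_lit 152) (nat_lit 0) (XT.lf (nat_lit 0) (nat_lit 12036795077)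 (nat_lit 152) (nat_lit 2654530870) (nat_lit 152) (nat_lit 1856569677) (nat_lit 10) (nat_lit 4) (nat_lit 12) (nat_lit 5) (nat_lit 12) (nat_lit 4) (nat_lit 269) (nat_lit 226) (nat_lit 225)) (XT.lf (nat_lit 0) (nat_lit 2896062563) (nat_lit 152) (nat_lit 13247408734) (nat_lit 0) (nat_lit 1432430038) (nat_lit 8) (nat_lit 5) (nat_lit 10) (nat_lit 4) (nat_lit 8) (nat_lit 4) (nat_lit 270) (nat_lit 226) (nat_lit 224)))) (XT.nd (nat_lit 156) (nat_lit 152) (nat_lit 0) (XT.nd (nat_lit 78) (nat_lit 76) (nat_lit 0) (XT.lf (nat_lit 0) (nat_lit 7814927503) (nat_lit 152) (nat_lit 5178084060) (nat_lit 0) (nat_lit 5699749161) (nat_lit 8) (nat_lit 5) (nat_lit 10) (nat_lit 4) (nat_lit 8) (nat_lit 4) (nat_lit 271) (nat_lit 226) (nat_lit 223)) (XT.lf (nat_lit 0) (nat_lit 3218641046) (nat_lit 76) (nat_lit 9704809624) (nat_lit 76) (nat_lit 6986348117) (nat_lit 7) (nat_lit 4) (nat_lit 8) (nat_lit 5) (nat_lit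 8) (nat_lit 4) (nat_lit 272) (nat_lit 226) (nat_lit 222))) (XT.nd (nat_lit 78) (nat_lit 152) (nat_lit 0) (XT.lf (nat_lit 0) (nat_lit 12069152910) (nat_lit 76) (nat_lit 6220131372) (nat_lit 76) (nat_lit 2943074343) (nat_lit 7) (nat_lit 4) (nat_lit 8) (nat_lit 5) (nat_lit 8) (nat_lit 4) (nat_lit 273) (nat_lit 226) (nat_lit 221)) (XT.nd (nat_lit 78) (nat_lit 76) (nat_lit 0) (XT.lf (nat_lit 0) (nat_lit 1150223305) (nat_lit 152) (nat_lit 1436317328) (nat_lit 76) (nat_lit 20084985272) (nat_lit 6) (nat_lit 5) (nat_lit 8) (nat_lit 5) (nat_lit 7) (nat_lit 4) (nat_lit 274) (nat_lit 226) (nat_lit 220)) (XT.lf (nat_lit 0) (nat_lit 5384404214) (nat_lit 152) (nat_lit 17528957071) (nat_lit 0) (nat_lit 1314708279) (nat_lit 5) (nat_lit 5) (nat_lit 7) (nat_lit 4) (nat_lit 5) (nat_lit 4) (nat_lit 275) (nat_lit 226) (nat_lit 219)))))) (XT.nd (nat_lit 312) (nat_lit 152) (nat_lit 0) (XT.nd (nat_lit 156) (nat_lit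 76) (nat_lit 0) (XT.nd (nat_lit 78) (nat_lit 0) (nat_lit 0) (XT.lf (nat_lit 0) (nat_lit 9823593255) (nat_lit 152) (nat_lit 10761094004) (nat_lit 0) (nat_lit 5331581954) (nat_lit 5) (nat_lit 5) (nat_lit 7) (nat_lit 4) (nat_lit 5) (nat_lit 4) (nat_lit 276) (nat_lit 226) (nat_lit 218)) (XT.lf (nat_lit 0) (nat_lit 14430167401) (nat_lit 152) (nat_lit 3772034710) (nat_lit 0) (nat_lit 9547123352) (nat_lit 5) (nat_lit 5) (nat_lit 7) (nat_lit 4) (nat_lit 5) (nat_lit 4) (nat_lit 277) (nat_lit 226) (nat_lit 217))) (XT.nd (nat_lit 78) (nat_lit 0) (nat_lit 0) (XT.lf (nat_lit 0) (nat_lit 3594689986) (nat_lit 76) (nat_lit 15692858067) (nat_lit 76) (nat_lit 10447746659) (nat_lit 4) (nat_lit 4) (nat_lit 5) (nat_lit 5) (nat_lit 5) (nat_lit 4) (nat_lit 278) (nat_lit 226) (nat_lit 216)) (XT.lf (nat_lit 0) (nat_lit 11401824977) (nat_lit 76) (nat_lit 13032007018) (nat_lit 76) (nat_lit 7451648056) (nat_lit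 4) (nat_lit 4) (nat_lit 5) (nat_lit 5) (nat_lit 5) (nat_lit 4) (nat_lit 279) (nat_lit 226) (nat_lit 215)))) (XT.nd (nat_lit 156) (nat_lit 152) (nat_lit 0) (XT.nd (nat_lit 78) (nat_lit 0) (nat_lit 0) (XT.lf (nat_lit 0) (nat_lit 19570914262) (nat_lit 76) (nat_lit 10267762192) (nat_lit 76) (nat_lit 4376988827) (nat_lit 4) (nat_lit 4) (nat_lit 5) (nat_lit 5) (nat_lit 5) (nat_lit 4) (nat_lit 280) (nat_lit 226) (nat_lit 214)) (XT.lf (nat_lit 0) (nat_lit 28150367260) (nat_lit 76) (nat_lit 7383742878) (nat_lit 76) (nat_lit 1205548771) (nat_lit 4) (nat_lit 4) (nat_lit 5) (nat_lit 5) (nat_lit 5) (nat_lit 4) (nat_lit 281) (nat_lit 226) (nat_lit 213))) (XT.nd (nat_lit 78) (nat_lit 76) (nat_lit 0) (XT.lf (nat_lit 0) (nat_lit 2014845926) (nat_lit 152) (nat_lit 2313890275) (nat_lit 76) (nat_lit 35142056857) (nat_lit 3) (nat_lit 5) (nat_lit 5) (nat_lit 5) (nat_lit 4) (nat_lit 4) (nat_lit 282) (nat_lit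 226) (nat_lit 212)) (XT.nd (nat_lit 78) (nat_lit 0) (nat_lit 0) (XT.lf (nat_lit 0) (nat_lit 4370276342) (nat_lit 76) (nat_lit 1025342060) (nat_lit 152) (nat_lit 37026810187) (nat_lit 2) (nat_lit 5) (nat_lit 3) (nat_lit 5) (nat_lit 4) (nat_lit 4) (nat_lit 283) (nat_lit 226) (nat_lit 211)) (XT.lf (nat_lit 0) (nat_lit 9008352998) (nat_lit 152) (nat_lit 34185077090) (nat_lit 0) (nat_lit 2418919439) (nat_lit 2) (nat_lit 5) (nat_lit 4) (nat_lit 4) (nat_lit 2) (nat_lit 4) (nat_lit 284) (nat_lit 226) (nat_lit 210))))))))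
noncomputable def xc22 : XT := (XT.nd (nat_lit 1326) (nat_lit 0) (nat_lit 0) (XT.nd (nat_lit 624) (nat_lit 0) (nat_lit 0) (XT.nd (nat_lit 312) (nat_lit 76) (nat_lit 0) (XT.nd (nat_lit 156) (nat_lit 0) (nat_lit 0) (XT.nd (nat_lit 78) (nat_lit 0) (nat_lit 0) (XT.lf (nat_lit 0) (nat_lit 12817062431) (nat_lit 152) (nat_lit 30218840296) (nat_lit 0) (nat_lit 6026426180) (nat_lit 2) (nat_lit 5) (nat_lit 4) (nat_lit 4) (nat_lit 2) (nat_lit 4) (nat_lit 285) (nat_lit 226) (nat_lit 209)) (XT.lf (nat_lit 0) (nat_lit 16828308370) (nat_lit 152) (nat_lit 26113929777) (nat_lit 0) (nat_lit 9851373330) (nat_lit 2) (nat_lit 5) (nat_lit 4) (nat_lit 4) (nat_lit 2) (nat_lit 4) (nat_lit 286) (nat_lit 226) (nat_lit 208))) (XT.nd (nat_lit 78) (nat_lit 0) (nat_lit 0) (XT.lf (nat_lit 0) (nat_lit 21065861160) (nat_lit 152) (nat_lit 21846020137) (nat_lit 0) (nat_lit 13916427242) (nat_lit 2) (nat_lit 5) (nat_lit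 4) (nat_lit 4) (nat_lit 2) (nat_lit 4) (nat_lit 287) (nat_lit 226) (nat_lit 207)) (XT.lf (nat_lit 0) (nat_lit 25554832226) (nat_lit 152) (nat_lit 17389820061) (nat_lit 0) (nat_lit 18245677125) (nat_lit 2) (nat_lit 5) (nat_lit 4) (nat_lit 4) (nat_lit 2) (nat_lit 4) (nat_lit 288) (nat_lit 226) (nat_lit 206)))) (XT.nd (nat_lit 156) (nat_lit 76) (nat_lit 0) (XT.nd (nat_lit 78) (nat_lit 0) (nat_lit 0) (XT.lf (nat_lit 0) (nat_lit 30321822878) (nat_lit 152) (nat_lit 12718922436) (nat_lit 0) (nat_lit 22864777791) (nat_lit 2) (nat_lit 5) (nat_lit 4) (nat_lit 4) (nat_lit 2) (nat_lit 4) (nat_lit 289) (nat_lit 226) (nat_lit 205)) (XT.lf (nat_lit 0) (nat_lit 35395081948) (nat_lit 152) (nat_lit 7805647870) (nat_lit 0) (nat_lit 27801101691) (nat_lit 2) (nat_lit 5) (nat_lit 4) (nat_lit 4) (nat_lit 2) (nat_lit 4) (nat_lit 290) (nat_lit 226) (nat_lit 204))) (XT.nd (nat_lit 78) (nat_lit 76) (nat_lit 0)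 (XT.lf (nat_lit 0) (nat_lit 40804673195) (nat_lit 152) (nat_lit 2620880661) (nat_lit 0) (nat_lit 33083901113) (nat_lit 2) (nat_lit 5) (nat_lit 4) (nat_lit 4) (nat_lit 2) (nat_lit 4) (nat_lit 291) (nat_lit 226) (nat_lit 203)) (XT.lf (nat_lit 0) (nat_lit 2960870070) (nat_lit 76) (nat_lit 43668010865) (nat_lit 76) (nat_lit 35829838945) (nat_lit 1) (nat_lit 4) (nat_lit 2) (nat_lit 5) (nat_lit 2) (nat_lit 4) (nat_lit 292) (nat_lit 226) (nat_lit 202))))) (XT.nd (nat_lit 312) (nat_lit 0) (nat_lit 0) (XT.nd (nat_lit 156) (nat_lit 0) (nat_lit 0) (XT.nd (nat_lit 78) (nat_lit 0) (nat_lit 0) (XT.lf (nat_lit 0) (nat_lit 8975079378) (nat_lit 76) (nat_lit 43928309377) (nat_lit 76) (nat_lit 35981433903) (nat_lit 1) (nat_lit 4) (nat_lit 2) (nat_lit 5) (nat_lit 2) (nat_lit 4) (nat_lit 293) (nat_lit 226) (nat_lit 201)) (XT.lf (nat_lit 0) (nat_lit 15370728871) (nat_lit 76) (nat_lit 44252377783) (nat_lit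 76) (nat_lit 36204850870) (nat_lit 1) (nat_lit 4) (nat_lit 2) (nat_lit 5) (nat_lit 2) (nat_lit 4) (nat_lit 294) (nat_lit 226) (nat_lit 200))) (XT.nd (nat_lit 78) (nat_lit 0) (nat_lit 0) (XT.lf (nat_lit 0) (nat_lit 22185718693) (nat_lit 76) (nat_lit 44642136489) (nat_lit 76) (nat_lit 36501413799) (nat_lit 1) (nat_lit 4) (nat_lit 2) (nat_lit 5) (nat_lit 2) (nat_lit 4) (nat_lit 295) (nat_lit 226) (nat_lit 199)) (XT.lf (nat_lit 0) (nat_lit 29460433969) (nat_lit 76) (nat_lit 45099895175) (nat_lit 76) (nat_lit 36872880100) (nat_lit 1) (nat_lit 4) (nat_lit 2) (nat_lit 5) (nat_lit 2) (nat_lit 4) (nat_lit 296) (nat_lit 226) (nat_lit 198)))) (XT.nd (nat_lit 156) (nat_lit 0) (nat_lit 0) (XT.nd (nat_lit 78) (nat_lit 0) (nat_lit 0) (XT.lf (nat_lit 0) (nat_lit 37237984124) (nat_lit 76) (nat_lit 45628366488) (nat_lit 76) (nat_lit 37321451055) (nat_lit 1) (nat_lit 4) (nat_lit 2) (nat_lit 5) (nat_lit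 2) (nat_lit 4) (nat_lit 297) (nat_lit 226) (nat_lit 197)) (XT.lf (nat_lit 0) (nat_lit 45564458343) (nat_lit 76) (nat_lit 46230682107) (nat_lit 76) (nat_lit 37849784862) (nat_lit 1) (nat_lit 4) (nat_lit 2) (nat_lit 5) (nat_lit 2) (nat_lit 4) (nat_lit 298) (nat_lit 226) (nat_lit 196))) (XT.nd (nat_lit 78) (nat_lit 0) (nat_lit 0) (XT.lf (nat_lit 0) (nat_lit 54489198696) (nat_lit 76) (nat_lit 46910411311) (nat_lit 76) (nat_lit 38461012388) (nat_lit 1) (nat_lit 4) (nat_lit 2) (nat_lit 5) (nat_lit 2) (nat_lit 4) (nat_lit 299) (nat_lit 226) (nat_lit 195)) (XT.nd (nat_lit 78) (nat_lit 0) (nat_lit 0) (XT.lf (nat_lit 0) (nat_lit 64065092534) (nat_lit 76) (nat_lit 47671582124) (nat_lit 76) (nat_lit 39158755722) (nat_lit 1) (nat_lit 4) (nat_lit 2) (nat_lit 5) (nat_lit 2) (nat_lit 4) (nat_lit 300) (nat_lit 226) (nat_lit 194)) (XT.lf (nat_lit 0) (nat_lit 74348885892) (nat_lit 76) (nat_lit 48518705189)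 (nat_lit 76) (nat_lit 39947149640) (nat_lit 1) (nat_lit 4) (nat_lit 2) (nat_lit 5) (nat_lit 2) (nat_lit 4) (nat_lit 301) (nat_lit 226) (nat_lit 193))))))) (XT.nd (nat_lit 702) (nat_lit 0) (nat_lit 0) (XT.nd (nat_lit 312) (nat_lit 0) (nat_lit 0) (XT.nd (nat_lit 156) (nat_lit 0) (nat_lit 0) (XT.nd (nat_lit 78) (nat_lit 0) (nat_lit 0) (XT.lf (nat_lit 0) (nat_lit 85401519770) (nat_lit 76) (nat_lit 49456800495) (nat_lit 76) (nat_lit 40830866105) (nat_lit 1) (nat_lit 4) (nat_lit 2) (nat_lit 5) (nat_lit 2) (nat_lit 4) (nat_lit 302) (nat_lit 226) (nat_lit 192)) (XT.lf (nat_lit 0) (nat_lit 97288491257) (nat_lit 76) (nat_lit 50491427123) (nat_lit 76) (nat_lit 41815141955) (nat_lit 1) (nat_lit 4) (nat_lit 2) (nat_lit 5) (nat_lit 2) (nat_lit 4) (nat_lit 303) (nat_lit 226) (nat_lit 191))) (XT.nd (nat_lit 78) (nat_lit 0) (nat_lit 0) (XT.lf (nat_lit 0) (nat_lit 110080241666) (nat_lit 76) (nat_lit 51628716196)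 (nat_lit 76) (nat_lit 42905809937) (nat_lit 1) (nat_lit 4) (nat_lit 2) (nat_lit 5) (nat_lit 2) (nat_lit 4) (nat_lit 304) (nat_lit 226) (nat_lit 190)) (XT.lf (nat_lit 0) (nat_lit 123852573961) (nat_lit 76) (nat_lit 52875407203) (nat_lit 76) (nat_lit 44109333267) (nat_lit 1) (nat_lit 4) (nat_lit 2) (nat_lit 5) (nat_lit 2) (nat_lit 4) (nat_lit 305) (nat_lit 226) (nat_lit 189)))) (XT.nd (nat_lit 156) (nat_lit 0) (nat_lit 0) (XT.nd (nat_lit 78) (nat_lit 0) (nat_lit 0) (XT.lf (nat_lit 0) (nat_lit 138687101964) (nat_lit 76) (nat_lit 54238887945) (nat_lit 76) (nat_lit 45432843937) (nat_lit 1) (nat_lit 4) (nat_lit 2) (nat_lit 5) (nat_lit 2) (nat_lit 4) (nat_lit 306) (nat_lit 226) (nat_lit 188)) (XT.lf (nat_lit 0) (nat_lit 154671733990) (nat_lit 76) (nat_lit 55727238305) (nat_lit 76) (nat_lit 46884184973) (nat_lit 1) (nat_lit 4) (nat_lit 2) (nat_lit 5) (nat_lit 2) (nat_lit 4) (nat_lit 307) (nat_lit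 226) (nat_lit 187))) (XT.nd (nat_lit 78) (nat_lit 0) (nat_lit 0) (XT.lf (nat_lit 0) (nat_lit 171901193782) (nat_lit 76) (nat_lit 57349278139) (nat_lit 76) (nat_lit 48471956913) (nat_lit 1) (nat_lit 4) (nat_lit 2) (nat_lit 5) (nat_lit 2) (nat_lit 4) (nat_lit 308) (nat_lit 226) (nat_lit 186)) (XT.nd (nat_lit 78) (nat_lit 0) (nat_lit 0) (XT.lf (nat_lit 0) (nat_lit 190477581844) (nat_lit 76) (nat_lit 59114619534) (nat_lit 76) (nat_lit 50205568777) (nat_lit 1) (nat_lit 4) (nat_lit 2) (nat_lit 5) (nat_lit 2) (nat_lit 4) (nat_lit 309) (nat_lit 226) (nat_lit 185)) (XT.lf (nat_lit 0) (nat_lit 210510980476) (nat_lit 76) (nat_lit 61033723773) (nat_lit 76) (nat_lit 52095293820) (nat_lit 1) (nat_lit 4) (nat_lit 2) (nat_lit 5) (nat_lit 2) (nat_lit 4) (nat_lit 310) (nat_lit 226) (nat_lit 184)))))) (XT.nd (nat_lit 312) (nat_lit 0) (nat_lit 0) (XT.nd (nat_lit 156) (nat_lit 0) (nat_lit 0) (XT.nd (nat_lit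 78) (nat_lit 0) (nat_lit 0) (XT.lf (nat_lit 0) (nat_lit 232120106113) (nat_lit 76) (nat_lit 63117963325) (nat_lit 76) (nat_lit 54152330413) (nat_lit 1) (nat_lit 4) (nat_lit 2) (nat_lit 5) (nat_lit 2) (nat_lit 4) (nat_lit 311) (nat_lit 226) (nat_lit 183)) (XT.lf (nat_lit 0) (nat_lit 255433012834) (nat_lit 76) (nat_lit 65379689239) (nat_lit 76) (nat_lit 56388868403) (nat_lit 1) (nat_lit 4) (nat_lit 2) (nat_lit 5) (nat_lit 2) (nat_lit 4) (nat_lit 312) (nat_lit 226) (nat_lit 182))) (XT.nd (nat_lit 78) (nat_lit 0) (nat_lit 0) (XT.lf (nat_lit 0) (nat_lit 280587851197) (nat_lit 76) (nat_lit 67832304336) (nat_lit 76) (nat_lit 58818161347) (nat_lit 1) (nat_lit 4) (nat_lit 2) (nat_lit 5) (nat_lit 2) (nat_lit 4) (nat_lit 313) (nat_lit 226) (nat_lit 181)) (XT.lf (nat_lit 0) (nat_lit 307733686911) (nat_lit 76) (nat_lit 70490342631) (nat_lit 76) (nat_lit 61454605056) (nat_lit 1) (nat_lit 4) (nat_lit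 2) (nat_lit 5) (nat_lit 2) (nat_lit 4) (nat_lit 314) (nat_lit 226) (nat_lit 180)))) (XT.nd (nat_lit 156) (nat_lit 0) (nat_lit 0) (XT.nd (nat_lit 78) (nat_lit 0) (nat_lit 0) (XT.lf (nat_lit 0) (nat_lit 337031384187) (nat_lit 76) (nat_lit 73369555461) (nat_lit 76) (nat_lit 64313822900) (nat_lit 1) (nat_lit 4) (nat_lit 2) (nat_lit 5) (nat_lit 2) (nat_lit 4) (nat_lit 315) (nat_lit 226) (nat_lit 179)) (XT.lf (nat_lit 0) (nat_lit 368654559009) (nat_lit 76) (nat_lit 76487004830) (nat_lit 76) (nat_lit 67412758392) (nat_lit 1) (nat_lit 4) (nat_lit 2) (nat_lit 5) (nat_lit 2) (nat_lit 4) (nat_lit 316) (nat_lit 226) (nat_lit 178))) (XT.nd (nat_lit 78) (nat_lit 0) (nat_lit 0) (XT.lf (nat_lit 0) (nat_lit 402790607969) (nat_lit 76) (nat_lit 79861164511) (nat_lit 76) (nat_lit 70769775595) (nat_lit 1) (nat_lit 4) (nat_lit 2) (nat_lit 5) (nat_lit 2) (nat_lit 4) (nat_lit 317) (nat_lit 226) (nat_lit 177))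 (XT.nd (nat_lit 78) (nat_lit 0) (nat_lit 0) (XT.lf (nat_lit 0) (nat_lit 439641818765) (nat_lit 76) (nat_lit 83512029524) (nat_lit 76) (nat_lit 74404767943) (nat_lit 1) (nat_lit 4) (nat_lit 2) (nat_lit 5) (nat_lit 2) (nat_lit 4) (nat_lit 318) (nat_lit 226) (nat_lit 176)) (XT.lf (nat_lit 0) (nat_lit 479426568941) (nat_lit 76) (nat_lit 87461234625) (nat_lit 76) (nat_lit 78339276132) (nat_lit 1) (nat_lit 4) (nat_lit 2) (nat_lit 5) (nat_lit 2) (nat_lit 4) (nat_lit 319) (nat_lit 226) (nat_lit 175))))))))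
noncomputable def xc23 : XT := (XT.nd (nat_lit 34398) (nat_lit 0) (nat_lit 0) (XT.nd (nat_lit 33696) (nat_lit 0) (nat_lit 228) (XT.nd (nat_lit 33306) (nat_lit 0) (nat_lit 532) (XT.nd (nat_lit 156) (nat_lit 0) (nat_lit 0) (XT.nd (nat_lit 78) (nat_lit 0) (nat_lit 0) (XT.lf (nat_lit 0) (nat_lit 522380619980) (nat_lit 76) (nat_lit 91732182512) (nat_lit 76) (nat_lit 82596615766) (nat_lit 1) (nat_lit 4) (nat_lit 2) (nat_lit 5) (nat_lit 2) (nat_lit 4) (nat_lit 320) (nat_lit 226) (nat_lit 174)) (XT.lf (nat_lit 0) (nat_lit 568758514408) (nat_lit 76) (nat_lit 96350182503) (nat_lit 76) (nat_lit 87202015524) (nat_lit 1) (nat_lit 4) (nat_lit 2) (nat_lit 5) (nat_lit 2) (nat_lit 4) (nat_lit 321) (nat_lit 226) (nat_lit 173))) (XT.nd (nat_lit 78) (nat_lit 0) (nat_lit 0) (XT.lf (nat_lit 0) (nat_lit 618835084190) (nat_lit 76) (nat_lit 101342600527) (nat_lit 76) (nat_lit 92182766665) (nat_lit 1) (nat_lit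 4) (nat_lit 2) (nat_lit 5) (nat_lit 2) (nat_lit 4) (nat_lit 322) (nat_lit 226) (nat_lit 172)) (XT.lf (nat_lit 0) (nat_lit 672907079370) (nat_lit 76) (nat_lit 106739021281) (nat_lit 76) (nat_lit 97568384750) (nat_lit 1) (nat_lit 4) (nat_lit 2) (nat_lit 5) (nat_lit 2) (nat_lit 4) (nat_lit 323) (nat_lit 226) (nat_lit 171)))) (XT.nd (nat_lit 156) (nat_lit 304) (nat_lit 0) (XT.nd (nat_lit 78) (nat_lit 152) (nat_lit 0) (XT.lf (nat_lit 0) (nat_lit 6445940824) (nat_lit 152) (nat_lit 262448353) (nat_lit 152) (nat_lit 262448353) (nat_lit 14) (nat_lit 4) (nat_lit 16) (nat_lit 5) (nat_lit 16) (nat_lit 4) (nat_lit 266) (nat_lit 227) (nat_lit 227)) (XT.lf (nat_lit 0) (nat_lit 4553143431) (nat_lit 152) (nat_lit 6494040656) (nat_lit 0) (nat_lit 3691345342) (nat_lit 12) (nat_lit 5) (nat_lit 14) (nat_lit 4) (nat_lit 12) (nat_lit 4) (nat_lit 267) (nat_lit 227) (nat_lit 226))) (XT.nd (nat_lit 78) (nat_lit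 152) (nat_lit 0) (XT.lf (nat_lit 0) (nat_lit 2303524553) (nat_lit 152) (nat_lit 7483685516) (nat_lit 152) (nat_lit 5823926233) (nat_lit 10) (nat_lit 4) (nat_lit 12) (nat_lit 5) (nat_lit 12) (nat_lit 4) (nat_lit 268) (nat_lit 227) (nat_lit 225)) (XT.nd (nat_lit 78) (nat_lit 152) (nat_lit 0) (XT.lf (nat_lit 0) (nat_lit 11583600285) (nat_lit 152) (nat_lit 3688860668) (nat_lit 152) (nat_lit 1290248429) (nat_lit 10) (nat_lit 4) (nat_lit 12) (nat_lit 5) (nat_lit 12) (nat_lit 4) (nat_lit 269) (nat_lit 227) (nat_lit 224)) (XT.lf (nat_lit 0) (nat_lit 3288498852) (nat_lit 152) (nat_lit 13957332623) (nat_lit 0) (nat_lit 352560426) (nat_lit 8) (nat_lit 5) (nat_lit 10) (nat_lit 4) (nat_lit 8) (nat_lit 4) (nat_lit 270) (nat_lit 227) (nat_lit 223)))))) (XT.nd (nat_lit 312) (nat_lit 152) (nat_lit 0) (XT.nd (nat_lit 156) (nat_lit 76) (nat_lit 0) (XT.nd (nat_lit 78) (nat_lit 76) (nat_lit 0) (XT.lf (nat_lit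 0) (nat_lit 8085198901) (nat_lit 152) (nat_lit 6090489755) (nat_lit 0) (nat_lit 4545977309) (nat_lit 8) (nat_lit 5) (nat_lit 10) (nat_lit 4) (nat_lit 8) (nat_lit 4) (nat_lit 271) (nat_lit 227) (nat_lit 222)) (XT.lf (nat_lit 0) (nat_lit 2082384905) (nat_lit 76) (nat_lit 10980481378) (nat_lit 76) (nat_lit 6882664264) (nat_lit 7) (nat_lit 4) (nat_lit 8) (nat_lit 5) (nat_lit 8) (nat_lit 4) (nat_lit 272) (nat_lit 227) (nat_lit 221))) (XT.nd (nat_lit 78) (nat_lit 76) (nat_lit 0) (XT.lf (nat_lit 0) (nat_lit 10753561405) (nat_lit 76) (nat_lit 7567601858) (nat_lit 76) (nat_lit 2952566668) (nat_lit 7) (nat_lit 4) (nat_lit 8) (nat_lit 5) (nat_lit 8) (nat_lit 4) (nat_lit 273) (nat_lit 227) (nat_lit 220)) (XT.lf (nat_lit 0) (nat_lit 1039596060) (nat_lit 152) (nat_lit 2962768893) (nat_lit 76) (nat_lit 18715843276) (nat_lit 6) (nat_lit 5) (nat_lit 8) (nat_lit 5) (nat_lit 7) (nat_lit 4) (nat_lit 274)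 (nat_lit 227) (nat_lit 219)))) (XT.nd (nat_lit 156) (nat_lit 76) (nat_lit 0) (XT.nd (nat_lit 78) (nat_lit 0) (nat_lit 0) (XT.lf (nat_lit 0) (nat_lit 4982190027) (nat_lit 76) (nat_lit 149303621) (nat_lit 152) (nat_lit 19150586916) (nat_lit 5) (nat_lit 5) (nat_lit 6) (nat_lit 5) (nat_lit 7) (nat_lit 4) (nat_lit 275) (nat_lit 227) (nat_lit 218)) (XT.lf (nat_lit 0) (nat_lit 9478087209) (nat_lit 152) (nat_lit 12683654507) (nat_lit 0) (nat_lit 3813366889) (nat_lit 5) (nat_lit 5) (nat_lit 7) (nat_lit 4) (nat_lit 5) (nat_lit 4) (nat_lit 276) (nat_lit 227) (nat_lit 217))) (XT.nd (nat_lit 78) (nat_lit 76) (nat_lit 0) (XT.lf (nat_lit 0) (nat_lit 14001083177) (nat_lit 152) (nat_lit 5837148997) (nat_lit 0) (nat_lit 7974295498) (nat_lit 5) (nat_lit 5) (nat_lit 7) (nat_lit 4) (nat_lit 5) (nat_lit 4) (nat_lit 277) (nat_lit 227) (nat_lit 216)) (XT.nd (nat_lit 78) (nat_lit 0) (nat_lit 0) (XT.lf (nat_lit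 0) (nat_lit 1324935125) (nat_lit 76) (nat_lit 17420704268) (nat_lit 76) (nat_lit 11058669034) (nat_lit 4) (nat_lit 4) (nat_lit 5) (nat_lit 5) (nat_lit 5) (nat_lit 4) (nat_lit 278) (nat_lit 227) (nat_lit 215)) (XT.lf (nat_lit 0) (nat_lit 9005812181) (nat_lit 76) (nat_lit 14812485097) (nat_lit 76) (nat_lit 8140035461) (nat_lit 4) (nat_lit 4) (nat_lit 5) (nat_lit 5) (nat_lit 5) (nat_lit 4) (nat_lit 279) (nat_lit 227) (nat_lit 214))))))) (XT.nd (nat_lit 702) (nat_lit 76) (nat_lit 0) (XT.nd (nat_lit 312) (nat_lit 0) (nat_lit 0) (XT.nd (nat_lit 156) (nat_lit 152) (nat_lit 0) (XT.nd (nat_lit 78) (nat_lit 0) (nat_lit 0) (XT.lf (nat_lit 0) (nat_lit 17057995971) (nat_lit 76) (nat_lit 12096973491) (nat_lit 76) (nat_lit 5137103113) (nat_lit 4) (nat_lit 4) (nat_lit 5) (nat_lit 5) (nat_lit 5) (nat_lit 4) (nat_lit 280) (nat_lit 227) (nat_lit 213)) (XT.lf (nat_lit 0) (nat_lit 25529203140) (nat_lit 76)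 (nat_lit 9258077530) (nat_lit 76) (nat_lit 2032076834) (nat_lit 4) (nat_lit 4) (nat_lit 5) (nat_lit 5) (nat_lit 5) (nat_lit 4) (nat_lit 281) (nat_lit 227) (nat_lit 212))) (XT.nd (nat_lit 78) (nat_lit 76) (nat_lit 0) (XT.lf (nat_lit 0) (nat_lit 1155245884) (nat_lit 152) (nat_lit 5104163593) (nat_lit 76) (nat_lit 33294822903) (nat_lit 3) (nat_lit 5) (nat_lit 5) (nat_lit 5) (nat_lit 4) (nat_lit 4) (nat_lit 282) (nat_lit 227) (nat_lit 211)) (XT.lf (nat_lit 0) (nat_lit 1389875450) (nat_lit 76) (nat_lit 3044493797) (nat_lit 152) (nat_lit 38076691494) (nat_lit 2) (nat_lit 5) (nat_lit 3) (nat_lit 5) (nat_lit 4) (nat_lit 4) (nat_lit 283) (nat_lit 227) (nat_lit 210)))) (XT.nd (nat_lit 156) (nat_lit 0) (nat_lit 0) (XT.nd (nat_lit 78) (nat_lit 0) (nat_lit 0) (XT.lf (nat_lit 0) (nat_lit 7962534480) (nat_lit 152) (nat_lit 37315333226) (nat_lit 0) (nat_lit 427444638) (nat_lit 2) (nat_lit 5) (nat_lit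 4) (nat_lit 4) (nat_lit 2) (nat_lit 4) (nat_lit 284) (nat_lit 227) (nat_lit 209)) (XT.lf (nat_lit 0) (nat_lit 11722128409) (nat_lit 152) (nat_lit 33434973941) (nat_lit 0) (nat_lit 4000739778) (nat_lit 2) (nat_lit 5) (nat_lit 4) (nat_lit 4) (nat_lit 2) (nat_lit 4) (nat_lit 285) (nat_lit 227) (nat_lit 208))) (XT.nd (nat_lit 78) (nat_lit 0) (nat_lit 0) (XT.lf (nat_lit 0) (nat_lit 15687897029) (nat_lit 152) (nat_lit 29409579634) (nat_lit 0) (nat_lit 7794009519) (nat_lit 2) (nat_lit 5) (nat_lit 4) (nat_lit 4) (nat_lit 2) (nat_lit 4) (nat_lit 286) (nat_lit 227) (nat_lit 207)) (XT.nd (nat_lit 78) (nat_lit 0) (nat_lit 0) (XT.lf (nat_lit 0) (nat_lit 19883341190) (nat_lit 152) (nat_lit 25215296117) (nat_lit 0) (nat_lit 11829732498) (nat_lit 2) (nat_lit 5) (nat_lit 4) (nat_lit 4) (nat_lit 2) (nat_lit 4) (nat_lit 287) (nat_lit 227) (nat_lit 206)) (XT.lf (nat_lit 0) (nat_lit 24333322785) (nat_lit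 152) (nat_lit 20827268376) (nat_lit 0) (nat_lit 16131824108) (nat_lit 2) (nat_lit 5) (nat_lit 4) (nat_lit 4) (nat_lit 2) (nat_lit 4) (nat_lit 288) (nat_lit 227) (nat_lit 205)))))) (XT.nd (nat_lit 312) (nat_lit 76) (nat_lit 0) (XT.nd (nat_lit 156) (nat_lit 0) (nat_lit 0) (XT.nd (nat_lit 78) (nat_lit 0) (nat_lit 0) (XT.lf (nat_lit 0) (nat_lit 29064212075) (nat_lit 152) (nat_lit 16219493284) (nat_lit 0) (nat_lit 20725778226) (nat_lit 2) (nat_lit 5) (nat_lit 4) (nat_lit 4) (nat_lit 2) (nat_lit 4) (nat_lit 289) (nat_lit 227) (nat_lit 204)) (XT.lf (nat_lit 0) (nat_lit 34104043958) (nat_lit 152) (nat_lit 11364665507) (nat_lit 0) (nat_lit 25638818284) (nat_lit 2) (nat_lit 5) (nat_lit 4) (nat_lit 4) (nat_lit 2) (nat_lit 4) (nat_lit 290) (nat_lit 227) (nat_lit 203))) (XT.nd (nat_lit 78) (nat_lit 0) (nat_lit 0) (XT.lf (nat_lit 0) (nat_lit 39482684107) (nat_lit 152) (nat_lit 6234015696) (nat_lit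 0) (nat_lit 30900058594) (nat_lit 2) (nat_lit 5) (nat_lit 4) (nat_lit 4) (nat_lit 2) (nat_lit 4) (nat_lit 291) (nat_lit 227) (nat_lit 202)) (XT.lf (nat_lit 0) (nat_lit 45232005942) (nat_lit 152) (nat_lit 797139999) (nat_lit 0) (nat_lit 36540676876) (nat_lit 2) (nat_lit 5) (nat_lit 4) (nat_lit 4) (nat_lit 2) (nat_lit 4) (nat_lit 292) (nat_lit 227) (nat_lit 201)))) (XT.nd (nat_lit 156) (nat_lit 0) (nat_lit 0) (XT.nd (nat_lit 78) (nat_lit 0) (nat_lit 0) (XT.lf (nat_lit 0) (nat_lit 5142781221) (nat_lit 76) (nat_lit 46323591527) (nat_lit 76) (nat_lit 37531611022) (nat_lit 1) (nat_lit 4) (nat_lit 2) (nat_lit 5) (nat_lit 2) (nat_lit 4) (nat_lit 293) (nat_lit 227) (nat_lit 200)) (XT.lf (nat_lit 0) (nat_lit 11494050122) (nat_lit 76) (nat_lit 46666777638) (nat_lit 76) (nat_lit 37781601357) (nat_lit 1) (nat_lit 4) (nat_lit 2) (nat_lit 5) (nat_lit 2) (nat_lit 4) (nat_lit 294) (nat_lit 227) (nat_lit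 199))) (XT.nd (nat_lit 78) (nat_lit 0) (nat_lit 0) (XT.lf (nat_lit 0) (nat_lit 18267946804) (nat_lit 76) (nat_lit 47074237923) (nat_lit 76) (nat_lit 38102769257) (nat_lit 1) (nat_lit 4) (nat_lit 2) (nat_lit 5) (nat_lit 2) (nat_lit 4) (nat_lit 295) (nat_lit 227) (nat_lit 198)) (XT.nd (nat_lit 78) (nat_lit 0) (nat_lit 0) (XT.lf (nat_lit 0) (nat_lit 25504612877) (nat_lit 76) (nat_lit 47548386961) (nat_lit 76) (nat_lit 38497017937) (nat_lit 1) (nat_lit 4) (nat_lit 2) (nat_lit 5) (nat_lit 2) (nat_lit 4) (nat_lit 296) (nat_lit 227) (nat_lit 197)) (XT.lf (nat_lit 0) (nat_lit 33246932288) (nat_lit 76) (nat_lit 48092034524) (nat_lit 76) (nat_lit 38966683688) (nat_lit 1) (nat_lit 4) (nat_lit 2) (nat_lit 5) (nat_lit 2) (nat_lit 4) (nat_lit 297) (nat_lit 227) (nat_lit 196))))))))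
noncomputable def xc24 : XT := (XT.nd (nat_lit 1326) (nat_lit 0) (nat_lit 0) (XT.nd (nat_lit 624) (nat_lit 0) (nat_lit 0) (XT.nd (nat_lit 312) (nat_lit 0) (nat_lit 0) (XT.nd (nat_lit 156) (nat_lit 0) (nat_lit 0) (XT.nd (nat_lit 78) (nat_lit 0) (nat_lit 0) (XT.lf (nat_lit 0) (nat_lit 41540785447) (nat_lit 76) (nat_lit 48708402228) (nat_lit 76) (nat_lit 39514549714) (nat_lit 1) (nat_lit 4) (nat_lit 2) (nat_lit 5) (nat_lit 2) (nat_lit 4) (nat_lit 298) (nat_lit 227) (nat_lit 195)) (XT.lf (nat_lit 0) (nat_lit 50435321116) (nat_lit 76) (nat_lit 49401142621) (nat_lit 76) (nat_lit 40143862627) (nat_lit 1) (nat_lit 4) (nat_lit 2) (nat_lit 5) (nat_lit 2) (nat_lit 4) (nat_lit 299) (nat_lit 227) (nat_lit 194))) (XT.nd (nat_lit 78) (nat_lit 0) (nat_lit 0) (XT.lf (nat_lit 0) (nat_lit 59983247652) (nat_lit 76) (nat_lit 50174360832) (nat_lit 76) (nat_lit 40858351690) (nat_lit 1) (nat_lit 4) (nat_lit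 2) (nat_lit 5) (nat_lit 2) (nat_lit 4) (nat_lit 300) (nat_lit 227) (nat_lit 193)) (XT.lf (nat_lit 0) (nat_lit 70241145362) (nat_lit 76) (nat_lit 51032638894) (nat_lit 76) (nat_lit 41662250913) (nat_lit 1) (nat_lit 4) (nat_lit 2) (nat_lit 5) (nat_lit 2) (nat_lit 4) (nat_lit 301) (nat_lit 227) (nat_lit 192)))) (XT.nd (nat_lit 156) (nat_lit 0) (nat_lit 0) (XT.nd (nat_lit 78) (nat_lit 0) (nat_lit 0) (XT.lf (nat_lit 0) (nat_lit 81269801788) (nat_lit 76) (nat_lit 51981062901) (nat_lit 76) (nat_lit 42560324141) (nat_lit 1) (nat_lit 4) (nat_lit 2) (nat_lit 5) (nat_lit 2) (nat_lit 4) (nat_lit 302) (nat_lit 227) (nat_lit 191)) (XT.lf (nat_lit 0) (nat_lit 93134571930) (nat_lit 76) (nat_lit 53025253142) (nat_lit 76) (nat_lit 43557893291) (nat_lit 1) (nat_lit 4) (nat_lit 2) (nat_lit 5) (nat_lit 2) (nat_lit 4) (nat_lit 303) (nat_lit 227) (nat_lit 190))) (XT.nd (nat_lit 78) (nat_lit 0) (nat_lit 0)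 (XT.lf (nat_lit 0) (nat_lit 105905765538) (nat_lit 76) (nat_lit 54171397411) (nat_lit 76) (nat_lit 44660869884) (nat_lit 1) (nat_lit 4) (nat_lit 2) (nat_lit 5) (nat_lit 2) (nat_lit 4) (nat_lit 304) (nat_lit 227) (nat_lit 189)) (XT.lf (nat_lit 0) (nat_lit 119659063758) (nat_lit 76) (nat_lit 55426287675) (nat_lit 76) (nat_lit 45875790076) (nat_lit 1) (nat_lit 4) (nat_lit 2) (nat_lit 5) (nat_lit 2) (nat_lit 4) (nat_lit 305) (nat_lit 227) (nat_lit 188))))) (XT.nd (nat_lit 312) (nat_lit 0) (nat_lit 0) (XT.nd (nat_lit 156) (nat_lit 0) (nat_lit 0) (XT.nd (nat_lit 78) (nat_lit 0) (nat_lit 0) (XT.lf (nat_lit 0) (nat_lit 134475967618) (nat_lit 76) (nat_lit 56797360320) (nat_lit 76) (nat_lit 47209853396) (nat_lit 1) (nat_lit 4) (nat_lit 2) (nat_lit 5) (nat_lit 2) (nat_lit 4) (nat_lit 306) (nat_lit 227) (nat_lit 187)) (XT.lf (nat_lit 0) (nat_lit 150444280992) (nat_lit 76) (nat_lit 58292740221) (nat_lit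 76) (nat_lit 48670965404) (nat_lit 1) (nat_lit 4) (nat_lit 2) (nat_lit 5) (nat_lit 2) (nat_lit 4) (nat_lit 307) (nat_lit 227) (nat_lit 186))) (XT.nd (nat_lit 78) (nat_lit 0) (nat_lit 0) (XT.lf (nat_lit 0) (nat_lit 167658630922) (nat_lit 76) (nat_lit 59921288889) (nat_lit 76) (nat_lit 50267784540) (nat_lit 1) (nat_lit 4) (nat_lit 2) (nat_lit 5) (nat_lit 2) (nat_lit 4) (nat_lit 308) (nat_lit 227) (nat_lit 185)) (XT.lf (nat_lit 0) (nat_lit 186221028371) (nat_lit 76) (nat_lit 61692656982) (nat_lit 76) (nat_lit 52009773438) (nat_lit 1) (nat_lit 4) (nat_lit 2) (nat_lit 5) (nat_lit 2) (nat_lit 4) (nat_lit 309) (nat_lit 227) (nat_lit 184)))) (XT.nd (nat_lit 156) (nat_lit 0) (nat_lit 0) (XT.nd (nat_lit 78) (nat_lit 0) (nat_lit 0) (XT.lf (nat_lit 0) (nat_lit 206241472731) (nat_lit 76) (nat_lit 63617341497) (nat_lit 76) (nat_lit 53907254994) (nat_lit 1) (nat_lit 4) (nat_lit 2) (nat_lit 5) (nat_lit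 2) (nat_lit 4) (nat_lit 310) (nat_lit 227) (nat_lit 183)) (XT.lf (nat_lit 0) (nat_lit 227838603673) (nat_lit 76) (nat_lit 65706747971) (nat_lit 76) (nat_lit 55971473543) (nat_lit 1) (nat_lit 4) (nat_lit 2) (nat_lit 5) (nat_lit 2) (nat_lit 4) (nat_lit 311) (nat_lit 227) (nat_lit 182))) (XT.nd (nat_lit 78) (nat_lit 0) (nat_lit 0) (XT.lf (nat_lit 0) (nat_lit 251140404194) (nat_lit 76) (nat_lit 67973258073) (nat_lit 76) (nat_lit 58214661492) (nat_lit 1) (nat_lit 4) (nat_lit 2) (nat_lit 5) (nat_lit 2) (nat_lit 4) (nat_lit 312) (nat_lit 227) (nat_lit 181)) (XT.nd (nat_lit 78) (nat_lit 0) (nat_lit 0) (XT.lf (nat_lit 0) (nat_lit 276284959038) (nat_lit 76) (nat_lit 70430302972) (nat_lit 76) (nat_lit 60650111806) (nat_lit 1) (nat_lit 4) (nat_lit 2) (nat_lit 5) (nat_lit 2) (nat_lit 4) (nat_lit 313) (nat_lit 227) (nat_lit 180)) (XT.lf (nat_lit 0) (nat_lit 303421272975) (nat_lit 76) (nat_lit 73092442937)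 (nat_lit 76) (nat_lit 63292256784) (nat_lit 1) (nat_lit 4) (nat_lit 2) (nat_lit 5) (nat_lit 2) (nat_lit 4) (nat_lit 314) (nat_lit 227) (nat_lit 179))))))) (XT.nd (nat_lit 33540) (nat_lit 0) (nat_lit 456) (XT.nd (nat_lit 312) (nat_lit 0) (nat_lit 0) (XT.nd (nat_lit 156) (nat_lit 0) (nat_lit 0) (XT.nd (nat_lit 78) (nat_lit 0) (nat_lit 0) (XT.lf (nat_lit 0) (nat_lit 332710153792) (nat_lit 76) (nat_lit 75975453610) (nat_lit 76) (nat_lit 66156753580) (nat_lit 1) (nat_lit 4) (nat_lit 2) (nat_lit 5) (nat_lit 2) (nat_lit 4) (nat_lit 315) (nat_lit 227) (nat_lit 178)) (XT.lf (nat_lit 0) (nat_lit 364325165226) (nat_lit 76) (nat_lit 79096419499) (nat_lit 76) (nat_lit 69260576991) (nat_lit 1) (nat_lit 4) (nat_lit 2) (nat_lit 5) (nat_lit 2) (nat_lit 4) (nat_lit 316) (nat_lit 227) (nat_lit 177))) (XT.nd (nat_lit 78) (nat_lit 0) (nat_lit 0) (XT.lf (nat_lit 0) (nat_lit 398453655493) (nat_lit 76) (nat_lit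 82473835217) (nat_lit 76) (nat_lit 72622120044) (nat_lit 1) (nat_lit 4) (nat_lit 2) (nat_lit 5) (nat_lit 2) (nat_lit 4) (nat_lit 317) (nat_lit 227) (nat_lit 176)) (XT.lf (nat_lit 0) (nat_lit 435297867498) (nat_lit 76) (nat_lit 86127715080) (nat_lit 76) (nat_lit 76261302994) (nat_lit 1) (nat_lit 4) (nat_lit 2) (nat_lit 5) (nat_lit 2) (nat_lit 4) (nat_lit 318) (nat_lit 227) (nat_lit 175)))) (XT.nd (nat_lit 156) (nat_lit 0) (nat_lit 0) (XT.nd (nat_lit 78) (nat_lit 0) (nat_lit 0) (XT.lf (nat_lit 0) (nat_lit 475076137313) (nat_lit 76) (nat_lit 90079711708) (nat_lit 76) (nat_lit 80199691371) (nat_lit 1) (nat_lit 4) (nat_lit 2) (nat_lit 5) (nat_lit 2) (nat_lit 4) (nat_lit 319) (nat_lit 227) (nat_lit 174)) (XT.lf (nat_lit 0) (nat_lit 518024188019) (nat_lit 76) (nat_lit 94353244342) (nat_lit 76) (nat_lit 84460623771) (nat_lit 1) (nat_lit 4) (nat_lit 2) (nat_lit 5) (nat_lit 2) (nat_lit 4) (nat_lit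 320) (nat_lit 227) (nat_lit 173))) (XT.nd (nat_lit 78) (nat_lit 0) (nat_lit 0) (XT.lf (nat_lit 0) (nat_lit 564396526581) (nat_lit 76) (nat_lit 98973637618) (nat_lit 76) (nat_lit 89069350165) (nat_lit 1) (nat_lit 4) (nat_lit 2) (nat_lit 5) (nat_lit 2) (nat_lit 4) (nat_lit 321) (nat_lit 227) (nat_lit 172)) (XT.nd (nat_lit 78) (nat_lit 0) (nat_lit 0) (XT.lf (nat_lit 0) (nat_lit 614467952044) (nat_lit 76) (nat_lit 103968271646) (nat_lit 76) (nat_lit 94053181523) (nat_lit 1) (nat_lit 4) (nat_lit 2) (nat_lit 5) (nat_lit 2) (nat_lit 4) (nat_lit 322) (nat_lit 227) (nat_lit 171)) (XT.lf (nat_lit 0) (nat_lit 668535183966) (nat_lit 76) (nat_lit 109366744256) (nat_lit 76) (nat_lit 99441651662) (nat_lit 1) (nat_lit 4) (nat_lit 2) (nat_lit 5) (nat_lit 2) (nat_lit 4) (nat_lit 323) (nat_lit 227) (nat_lit 170)))))) (XT.nd (nat_lit 312) (nat_lit 380) (nat_lit 0) (XT.nd (nat_lit 156) (nat_lit 152) (nat_lit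 0) (XT.nd (nat_lit 78) (nat_lit 152) (nat_lit 0) (XT.lf (nat_lit 0) (nat_lit 1691197850) (nat_lit 228) (nat_lit 2882252819) (nat_lit 0) (nat_lit 1691197850) (nat_lit 16) (nat_lit 5) (nat_lit 19) (nat_lit 4) (nat_lit 16) (nat_lit 4) (nat_lit 264) (nat_lit 228) (nat_lit 228)) (XT.lf (nat_lit 0) (nat_lit 3223459932) (nat_lit 152) (nat_lit 5480271013) (nat_lit 152) (nat_lit 4502991980) (nat_lit 14) (nat_lit 4) (nat_lit 16) (nat_lit 5) (nat_lit 16) (nat_lit 4) (nat_lit 265) (nat_lit 228) (nat_lit 227))) (XT.nd (nat_lit 78) (nat_lit 76) (nat_lit 0) (XT.lf (nat_lit 0) (nat_lit 289582900) (nat_lit 228) (nat_lit 1288522079) (nat_lit 76) (nat_lit 12371070689) (nat_lit 13) (nat_lit 5) (nat_lit 16) (nat_lit 5) (nat_lit 14) (nat_lit 4) (nat_lit 266) (nat_lit 228) (nat_lit 226)) (XT.lf (nat_lit 0) (nat_lit 5188410930) (nat_lit 152) (nat_lit 6967825562) (nat_lit 0) (nat_lit 2597909711) (nat_lit 12)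 (nat_lit 5) (nat_lit 14) (nat_lit 4) (nat_lit 12) (nat_lit 4) (nat_lit 267) (nat_lit 228) (nat_lit 225)))) (XT.nd (nat_lit 156) (nat_lit 228) (nat_lit 0) (XT.nd (nat_lit 78) (nat_lit 0) (nat_lit 0) (XT.lf (nat_lit 0) (nat_lit 1596192067) (nat_lit 152) (nat_lit 8683709634) (nat_lit 152) (nat_lit 5354355458) (nat_lit 10) (nat_lit 4) (nat_lit 12) (nat_lit 5) (nat_lit 12) (nat_lit 4) (nat_lit 268) (nat_lit 228) (nat_lit 224)) (XT.lf (nat_lit 0) (nat_lit 10674525104) (nat_lit 152) (nat_lit 4965688432) (nat_lit 152) (nat_lit 952211148) (nat_lit 10) (nat_lit 4) (nat_lit 12) (nat_lit 5) (nat_lit 12) (nat_lit 4) (nat_lit 269) (nat_lit 228) (nat_lit 223))) (XT.nd (nat_lit 78) (nat_lit 76) (nat_lit 0) (XT.lf (nat_lit 0) (nat_lit 2474428008) (nat_lit 76) (nat_lit 999402535) (nat_lit 152) (nat_lit 14161413518) (nat_lit 8) (nat_lit 5) (nat_lit 9) (nat_lit 5) (nat_lit 10) (nat_lit 4) (nat_lit 270)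 (nat_lit 228) (nat_lit 222)) (XT.nd (nat_lit 78) (nat_lit 76) (nat_lit 0) (XT.lf (nat_lit 0) (nat_lit 8141811476) (nat_lit 152) (nat_lit 7465852864) (nat_lit 0) (nat_lit 3157573471) (nat_lit 8) (nat_lit 5) (nat_lit 10) (nat_lit 4) (nat_lit 8) (nat_lit 4) (nat_lit 271) (nat_lit 228) (nat_lit 221)) (XT.lf (nat_lit 0) (nat_lit 482210715) (nat_lit 76) (nat_lit 12507548235) (nat_lit 76) (nat_lit 7006092153) (nat_lit 7) (nat_lit 4) (nat_lit 8) (nat_lit 5) (nat_lit 8) (nat_lit 4) (nat_lit 272) (nat_lit 228) (nat_lit 220))))))))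
noncomputable def xc25 : XT := (XT.nd (nat_lit 1326) (nat_lit 76) (nat_lit 0) (XT.nd (nat_lit 624) (nat_lit 152) (nat_lit 0) (XT.nd (nat_lit 312) (nat_lit 76) (nat_lit 0) (XT.nd (nat_lit 156) (nat_lit 76) (nat_lit 0) (XT.nd (nat_lit 78) (nat_lit 76) (nat_lit 0) (XT.lf (nat_lit 0) (nat_lit 8987335953) (nat_lit 76) (nat_lit 9161149022) (nat_lit 76) (nat_lit 3180787314) (nat_lit 7) (nat_lit 4) (nat_lit 8) (nat_lit 5) (nat_lit 8) (nat_lit 4) (nat_lit 273) (nat_lit 228) (nat_lit 219)) (XT.lf (nat_lit 0) (nat_lit 724755145) (nat_lit 152) (nat_lit 4938044794) (nat_lit 76) (nat_lit 17116039552) (nat_lit 6) (nat_lit 5) (nat_lit 8) (nat_lit 5) (nat_lit 7) (nat_lit 4) (nat_lit 274) (nat_lit 228) (nat_lit 218))) (XT.nd (nat_lit 78) (nat_lit 0) (nat_lit 0) (XT.lf (nat_lit 0) (nat_lit 2791357453) (nat_lit 76) (nat_lit 1904122879) (nat_lit 152) (nat_lit 19653488734) (nat_lit 5) (nat_lit 5) (nat_lit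 6) (nat_lit 5) (nat_lit 7) (nat_lit 4) (nat_lit 275) (nat_lit 228) (nat_lit 217)) (XT.lf (nat_lit 0) (nat_lit 8931098069) (nat_lit 152) (nat_lit 15056531721) (nat_lit 0) (nat_lit 2060100017) (nat_lit 5) (nat_lit 5) (nat_lit 7) (nat_lit 4) (nat_lit 5) (nat_lit 4) (nat_lit 276) (nat_lit 228) (nat_lit 216)))) (XT.nd (nat_lit 156) (nat_lit 76) (nat_lit 0) (XT.nd (nat_lit 78) (nat_lit 0) (nat_lit 0) (XT.lf (nat_lit 0) (nat_lit 13376706835) (nat_lit 152) (nat_lit 8342020454) (nat_lit 0) (nat_lit 6170461229) (nat_lit 5) (nat_lit 5) (nat_lit 7) (nat_lit 4) (nat_lit 5) (nat_lit 4) (nat_lit 277) (nat_lit 228) (nat_lit 215)) (XT.lf (nat_lit 0) (nat_lit 18028922284) (nat_lit 152) (nat_lit 1344559422) (nat_lit 0) (nat_lit 10512262275) (nat_lit 5) (nat_lit 5) (nat_lit 7) (nat_lit 4) (nat_lit 5) (nat_lit 4) (nat_lit 278) (nat_lit 228) (nat_lit 214))) (XT.nd (nat_lit 78) (nat_lit 0) (nat_lit 0) (XT.lf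 (nat_lit 0) (nat_lit 6174954931) (nat_lit 76) (nat_lit 16836766521) (nat_lit 76) (nat_lit 9032685769) (nat_lit 4) (nat_lit 4) (nat_lit 5) (nat_lit 5) (nat_lit 5) (nat_lit 4) (nat_lit 279) (nat_lit 228) (nat_lit 213)) (XT.lf (nat_lit 0) (nat_lit 14118892892) (nat_lit 76) (nat_lit 14166378267) (nat_lit 76) (nat_lit 6096167198) (nat_lit 4) (nat_lit 4) (nat_lit 5) (nat_lit 5) (nat_lit 5) (nat_lit 4) (nat_lit 280) (nat_lit 228) (nat_lit 212))))) (XT.nd (nat_lit 312) (nat_lit 0) (nat_lit 0) (XT.nd (nat_lit 156) (nat_lit 76) (nat_lit 0) (XT.nd (nat_lit 78) (nat_lit 76) (nat_lit 0) (XT.lf (nat_lit 0) (nat_lit 22489872442) (nat_lit 76) (nat_lit 11369263187) (nat_lit 76) (nat_lit 3052635158) (nat_lit 4) (nat_lit 4) (nat_lit 5) (nat_lit 5) (nat_lit 5) (nat_lit 4) (nat_lit 281) (nat_lit 228) (nat_lit 211)) (XT.lf (nat_lit 0) (nat_lit 112235096) (nat_lit 152) (nat_lit 8314709932) (nat_lit 76) (nat_lit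 31223363533) (nat_lit 3) (nat_lit 5) (nat_lit 5) (nat_lit 5) (nat_lit 4) (nat_lit 4) (nat_lit 282) (nat_lit 228) (nat_lit 210))) (XT.nd (nat_lit 78) (nat_lit 76) (nat_lit 0) (XT.lf (nat_lit 0) (nat_lit 3318624626) (nat_lit 152) (nat_lit 1952874224) (nat_lit 76) (nat_lit 37339376964) (nat_lit 3) (nat_lit 5) (nat_lit 5) (nat_lit 5) (nat_lit 4) (nat_lit 4) (nat_lit 283) (nat_lit 228) (nat_lit 209)) (XT.lf (nat_lit 0) (nat_lit 4905991089) (nat_lit 76) (nat_lit 1853842825) (nat_lit 152) (nat_lit 39049735929) (nat_lit 2) (nat_lit 5) (nat_lit 3) (nat_lit 5) (nat_lit 4) (nat_lit 4) (nat_lit 284) (nat_lit 228) (nat_lit 208)))) (XT.nd (nat_lit 156) (nat_lit 0) (nat_lit 0) (XT.nd (nat_lit 78) (nat_lit 0) (nat_lit 0) (XT.lf (nat_lit 0) (nat_lit 10445006842) (nat_lit 152) (nat_lit 37073791999) (nat_lit 0) (nat_lit 1747109454) (nat_lit 2) (nat_lit 5) (nat_lit 4) (nat_lit 4) (nat_lit 2) (nat_lit 4)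 (nat_lit 285) (nat_lit 228) (nat_lit 207)) (XT.lf (nat_lit 0) (nat_lit 14368666833) (nat_lit 152) (nat_lit 33122023814) (nat_lit 0) (nat_lit 5511048261) (nat_lit 2) (nat_lit 5) (nat_lit 4) (nat_lit 4) (nat_lit 2) (nat_lit 4) (nat_lit 286) (nat_lit 228) (nat_lit 206))) (XT.nd (nat_lit 78) (nat_lit 0) (nat_lit 0) (XT.lf (nat_lit 0) (nat_lit 18525121524) (nat_lit 152) (nat_lit 28995912632) (nat_lit 0) (nat_lit 9519612967) (nat_lit 2) (nat_lit 5) (nat_lit 4) (nat_lit 4) (nat_lit 2) (nat_lit 4) (nat_lit 287) (nat_lit 228) (nat_lit 205)) (XT.nd (nat_lit 78) (nat_lit 0) (nat_lit 0) (XT.lf (nat_lit 0) (nat_lit 22939001756) (nat_lit 152) (nat_lit 24671007424) (nat_lit 0) (nat_lit 13796558029) (nat_lit 2) (nat_lit 5) (nat_lit 4) (nat_lit 4) (nat_lit 2) (nat_lit 4) (nat_lit 288) (nat_lit 228) (nat_lit 204)) (XT.lf (nat_lit 0) (nat_lit 27636463859) (nat_lit 152) (nat_lit 20121679122) (nat_lit 0)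 (nat_lit 18367228306) (nat_lit 2) (nat_lit 5) (nat_lit 4) (nat_lit 4) (nat_lit 2) (nat_lit 4) (nat_lit 289) (nat_lit 228) (nat_lit 203))))))) (XT.nd (nat_lit 702) (nat_lit 0) (nat_lit 0) (XT.nd (nat_lit 312) (nat_lit 0) (nat_lit 0) (XT.nd (nat_lit 156) (nat_lit 76) (nat_lit 0) (XT.nd (nat_lit 78) (nat_lit 0) (nat_lit 0) (XT.lf (nat_lit 0) (nat_lit 32645344643) (nat_lit 152) (nat_lit 15320968743) (nat_lit 0) (nat_lit 23258709252) (nat_lit 2) (nat_lit 5) (nat_lit 4) (nat_lit 4) (nat_lit 2) (nat_lit 4) (nat_lit 290) (nat_lit 228) (nat_lit 202)) (XT.lf (nat_lit 0) (nat_lit 37995326366) (nat_lit 152) (nat_lit 10240427633) (nat_lit 0) (nat_lit 28499987422) (nat_lit 2) (nat_lit 5) (nat_lit 4) (nat_lit 4) (nat_lit 2) (nat_lit 4) (nat_lit 291) (nat_lit 228) (nat_lit 201))) (XT.nd (nat_lit 78) (nat_lit 76) (nat_lit 0) (XT.lf (nat_lit 0) (nat_lit 43718112623) (nat_lit 152) (nat_lit 4849948883)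 (nat_lit 0) (nat_lit 34122122240) (nat_lit 2) (nat_lit 5) (nat_lit 4) (nat_lit 4) (nat_lit 2) (nat_lit 4) (nat_lit 292) (nat_lit 228) (nat_lit 200)) (XT.lf (nat_lit 0) (nat_lit 911587582) (nat_lit 76) (nat_lit 48950261076) (nat_lit 76) (nat_lit 39261074916) (nat_lit 1) (nat_lit 4) (nat_lit 2) (nat_lit 5) (nat_lit 2) (nat_lit 4) (nat_lit 293) (nat_lit 228) (nat_lit 199)))) (XT.nd (nat_lit 156) (nat_lit 0) (nat_lit 0) (XT.nd (nat_lit 78) (nat_lit 0) (nat_lit 0) (XT.lf (nat_lit 0) (nat_lit 7221763343) (nat_lit 76) (nat_lit 49311148767) (nat_lit 76) (nat_lit 39535670221) (nat_lit 1) (nat_lit 4) (nat_lit 2) (nat_lit 5) (nat_lit 2) (nat_lit 4) (nat_lit 294) (nat_lit 228) (nat_lit 198)) (XT.lf (nat_lit 0) (nat_lit 13957610821) (nat_lit 76) (nat_lit 49734999403) (nat_lit 76) (nat_lit 39879620500) (nat_lit 1) (nat_lit 4) (nat_lit 2) (nat_lit 5) (nat_lit 2) (nat_lit 4) (nat_lit 295) (nat_lit 228)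 (nat_lit 197))) (XT.nd (nat_lit 78) (nat_lit 0) (nat_lit 0) (XT.lf (nat_lit 0) (nat_lit 21159046150) (nat_lit 76) (nat_lit 50224324692) (nat_lit 76) (nat_lit 40294963977) (nat_lit 1) (nat_lit 4) (nat_lit 2) (nat_lit 5) (nat_lit 2) (nat_lit 4) (nat_lit 296) (nat_lit 228) (nat_lit 196)) (XT.nd (nat_lit 78) (nat_lit 0) (nat_lit 0) (XT.lf (nat_lit 0) (nat_lit 28868744501) (nat_lit 76) (nat_lit 50782024339) (nat_lit 76) (nat_lit 40784161946) (nat_lit 1) (nat_lit 4) (nat_lit 2) (nat_lit 5) (nat_lit 2) (nat_lit 4) (nat_lit 297) (nat_lit 228) (nat_lit 195)) (XT.lf (nat_lit 0) (nat_lit 37132392976) (nat_lit 76) (nat_lit 51411403232) (nat_lit 76) (nat_lit 41350113359) (nat_lit 1) (nat_lit 4) (nat_lit 2) (nat_lit 5) (nat_lit 2) (nat_lit 4) (nat_lit 298) (nat_lit 228) (nat_lit 194)))))) (XT.nd (nat_lit 312) (nat_lit 0) (nat_lit 0) (XT.nd (nat_lit 156) (nat_lit 0) (nat_lit 0) (XT.nd (nat_lit 78)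 (nat_lit 0) (nat_lit 0) (XT.lf (nat_lit 0) (nat_lit 45998961344) (nat_lit 76) (nat_lit 52116191022) (nat_lit 76) (nat_lit 41996172002) (nat_lit 1) (nat_lit 4) (nat_lit 2) (nat_lit 5) (nat_lit 2) (nat_lit 4) (nat_lit 299) (nat_lit 228) (nat_lit 193)) (XT.lf (nat_lit 0) (nat_lit 55520992231) (nat_lit 76) (nat_lit 52900564231) (nat_lit 76) (nat_lit 42726166370) (nat_lit 1) (nat_lit 4) (nat_lit 2) (nat_lit 5) (nat_lit 2) (nat_lit 4) (nat_lit 300) (nat_lit 228) (nat_lit 192))) (XT.nd (nat_lit 78) (nat_lit 0) (nat_lit 0) (XT.lf (nat_lit 0) (nat_lit 65754912489) (nat_lit 76) (nat_lit 53769170995) (nat_lit 76) (nat_lit 43544422356) (nat_lit 1) (nat_lit 4) (nat_lit 2) (nat_lit 5) (nat_lit 2) (nat_lit 4) (nat_lit 301) (nat_lit 228) (nat_lit 191)) (XT.lf (nat_lit 0) (nat_lit 76761367569) (nat_lit 76) (nat_lit 54727158614) (nat_lit 76) (nat_lit 44455788884) (nat_lit 1) (nat_lit 4) (nat_lit 2) (nat_lit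 5) (nat_lit 2) (nat_lit 4) (nat_lit 302) (nat_lit 228) (nat_lit 190)))) (XT.nd (nat_lit 156) (nat_lit 0) (nat_lit 0) (XT.nd (nat_lit 78) (nat_lit 0) (nat_lit 0) (XT.lf (nat_lit 0) (nat_lit 88605580911) (nat_lit 76) (nat_lit 55780204051) (nat_lit 76) (nat_lit 45465666645) (nat_lit 1) (nat_lit 4) (nat_lit 2) (nat_lit 5) (nat_lit 2) (nat_lit 4) (nat_lit 303) (nat_lit 228) (nat_lit 189)) (XT.lf (nat_lit 0) (nat_lit 101357740443) (nat_lit 76) (nat_lit 56934547577) (nat_lit 76) (nat_lit 46580040099) (nat_lit 1) (nat_lit 4) (nat_lit 2) (nat_lit 5) (nat_lit 2) (nat_lit 4) (nat_lit 304) (nat_lit 228) (nat_lit 188))) (XT.nd (nat_lit 78) (nat_lit 0) (nat_lit 0) (XT.lf (nat_lit 0) (nat_lit 115093414520) (nat_lit 76) (nat_lit 58197029745) (nat_lit 76) (nat_lit 47805512942) (nat_lit 1) (nat_lit 4) (nat_lit 2) (nat_lit 5) (nat_lit 2) (nat_lit 4) (nat_lit 305) (nat_lit 228) (nat_lit 187)) (XT.nd (nat_lit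 78) (nat_lit 0) (nat_lit 0) (XT.lf (nat_lit 0) (nat_lit 129893999729) (nat_lit 76) (nat_lit 59575131930) (nat_lit 76) (nat_lit 49149347234) (nat_lit 1) (nat_lit 4) (nat_lit 2) (nat_lit 5) (nat_lit 2) (nat_lit 4) (nat_lit 306) (nat_lit 228) (nat_lit 186)) (XT.lf (nat_lit 0) (nat_lit 145847203240) (nat_lit 76) (nat_lit 61077020665) (nat_lit 76) (nat_lit 50619506438) (nat_lit 1) (nat_lit 4) (nat_lit 2) (nat_lit 5) (nat_lit 2) (nat_lit 4) (nat_lit 307) (nat_lit 228) (nat_lit 185))))))))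
noncomputable def xc26 : XT := (XT.nd (nat_lit 34086) (nat_lit 0) (nat_lit 228) (XT.nd (nat_lit 624) (nat_lit 0) (nat_lit 0) (XT.nd (nat_lit 312) (nat_lit 0) (nat_lit 0) (XT.nd (nat_lit 156) (nat_lit 0) (nat_lit 0) (XT.nd (nat_lit 78) (nat_lit 0) (nat_lit 0) (XT.lf (nat_lit 0) (nat_lit 163047562557) (nat_lit 76) (nat_lit 62711596031) (nat_lit 76) (nat_lit 52224702608) (nat_lit 1) (nat_lit 4) (nat_lit 2) (nat_lit 5) (nat_lit 2) (nat_lit 4) (nat_lit 308) (nat_lit 228) (nat_lit 184)) (XT.lf (nat_lit 0) (nat_lit 181597005735) (nat_lit 76) (nat_lit 64488544400) (nat_lit 76) (nat_lit 53974448018) (nat_lit 1) (nat_lit 4) (nat_lit 2) (nat_lit 5) (nat_lit 2) (nat_lit 4) (nat_lit 309) (nat_lit 228) (nat_lit 183))) (XT.nd (nat_lit 78) (nat_lit 0) (nat_lit 0) (XT.lf (nat_lit 0) (nat_lit 201605455399) (nat_lit 76) (nat_lit 66418395837) (nat_lit 76) (nat_lit 55879111530) (nat_lit 1) (nat_lit 4) (nat_lit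 2) (nat_lit 5) (nat_lit 2) (nat_lit 4) (nat_lit 310) (nat_lit 228) (nat_lit 182)) (XT.lf (nat_lit 0) (nat_lit 223191480141) (nat_lit 76) (nat_lit 68512586499) (nat_lit 76) (nat_lit 57949980039) (nat_lit 1) (nat_lit 4) (nat_lit 2) (nat_lit 5) (nat_lit 2) (nat_lit 4) (nat_lit 311) (nat_lit 228) (nat_lit 181)))) (XT.nd (nat_lit 156) (nat_lit 0) (nat_lit 0) (XT.nd (nat_lit 78) (nat_lit 0) (nat_lit 0) (XT.lf (nat_lit 0) (nat_lit 246482997143) (nat_lit 76) (nat_lit 70783526403) (nat_lit 76) (nat_lit 60199325358) (nat_lit 1) (nat_lit 4) (nat_lit 2) (nat_lit 5) (nat_lit 2) (nat_lit 4) (nat_lit 312) (nat_lit 228) (nat_lit 180)) (XT.lf (nat_lit 0) (nat_lit 271618030211) (nat_lit 76) (nat_lit 73244672972) (nat_lit 76) (nat_lit 62640476940) (nat_lit 1) (nat_lit 4) (nat_lit 2) (nat_lit 5) (nat_lit 2) (nat_lit 4) (nat_lit 313) (nat_lit 228) (nat_lit 179))) (XT.nd (nat_lit 78) (nat_lit 0) (nat_lit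 0) (XT.lf (nat_lit 0) (nat_lit 298745527689) (nat_lit 76) (nat_lit 75910610779) (nat_lit 76) (nat_lit 65287900870) (nat_lit 1) (nat_lit 4) (nat_lit 2) (nat_lit 5) (nat_lit 2) (nat_lit 4) (nat_lit 314) (nat_lit 228) (nat_lit 178)) (XT.lf (nat_lit 0) (nat_lit 328026245117) (nat_lit 76) (nat_lit 78797137972) (nat_lit 76) (nat_lit 68157285585) (nat_lit 1) (nat_lit 4) (nat_lit 2) (nat_lit 5) (nat_lit 2) (nat_lit 4) (nat_lit 315) (nat_lit 228) (nat_lit 177))))) (XT.nd (nat_lit 312) (nat_lit 0) (nat_lit 0) (XT.nd (nat_lit 156) (nat_lit 0) (nat_lit 0) (XT.nd (nat_lit 78) (nat_lit 0) (nat_lit 0) (XT.lf (nat_lit 0) (nat_lit 359633697858) (nat_lit 76) (nat_lit 81921359899) (nat_lit 76) (nat_lit 71265634847) (nat_lit 1) (nat_lit 4) (nat_lit 2) (nat_lit 5) (nat_lit 2) (nat_lit 4) (nat_lit 316) (nat_lit 228) (nat_lit 176)) (XT.lf (nat_lit 0) (nat_lit 393755189335) (nat_lit 76) (nat_lit 85301790467)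 (nat_lit 76) (nat_lit 74631368502) (nat_lit 1) (nat_lit 4) (nat_lit 2) (nat_lit 5) (nat_lit 2) (nat_lit 4) (nat_lit 317) (nat_lit 228) (nat_lit 175))) (XT.nd (nat_lit 78) (nat_lit 0) (nat_lit 0) (XT.lf (nat_lit 0) (nat_lit 430592920980) (nat_lit 76) (nat_lit 88958461857) (nat_lit 76) (nat_lit 78274431640) (nat_lit 1) (nat_lit 4) (nat_lit 2) (nat_lit 5) (nat_lit 2) (nat_lit 4) (nat_lit 318) (nat_lit 228) (nat_lit 174)) (XT.lf (nat_lit 0) (nat_lit 470365190461) (nat_lit 76) (nat_lit 92913043233) (nat_lit 76) (nat_lit 82216412783) (nat_lit 1) (nat_lit 4) (nat_lit 2) (nat_lit 5) (nat_lit 2) (nat_lit 4) (nat_lit 319) (nat_lit 228) (nat_lit 173)))) (XT.nd (nat_lit 156) (nat_lit 0) (nat_lit 0) (XT.nd (nat_lit 78) (nat_lit 0) (nat_lit 0) (XT.lf (nat_lit 0) (nat_lit 513307685301) (nat_lit 76) (nat_lit 97188969151) (nat_lit 76) (nat_lit 86480671818) (nat_lit 1) (nat_lit 4) (nat_lit 2) (nat_lit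 5) (nat_lit 2) (nat_lit 4) (nat_lit 320) (nat_lit 228) (nat_lit 172)) (XT.lf (nat_lit 0) (nat_lit 559674879544) (nat_lit 76) (nat_lit 101811578432) (nat_lit 76) (nat_lit 91092478430) (nat_lit 1) (nat_lit 4) (nat_lit 2) (nat_lit 5) (nat_lit 2) (nat_lit 4) (nat_lit 321) (nat_lit 228) (nat_lit 171))) (XT.nd (nat_lit 32838) (nat_lit 0) (nat_lit 1368) (XT.lf (nat_lit 0) (nat_lit 609741541748) (nat_lit 76) (nat_lit 106808264315) (nat_lit 76) (nat_lit 96079161842) (nat_lit 1) (nat_lit 4) (nat_lit 2) (nat_lit 5) (nat_lit 2) (nat_lit 4) (nat_lit 322) (nat_lit 228) (nat_lit 170)) (XT.nd (nat_lit 78) (nat_lit 0) (nat_lit 0) (XT.lf (nat_lit 0) (nat_lit 76604815) (nat_lit 152) (nat_lit 2796027254) (nat_lit 152) (nat_lit 2796027254) (nat_lit 19) (nat_lit 4) (nat_lit 21) (nat_lit 5) (nat_lit 21) (nat_lit 4) (nat_lit 262) (nat_lit 229) (nat_lit 229)) (XT.lf (nat_lit 0) (nat_lit 9420870432) (nat_lit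 152) (nat_lit 1799409346) (nat_lit 152) (nat_lit 691174923) (nat_lit 19) (nat_lit 4) (nat_lit 21) (nat_lit 5) (nat_lit 21) (nat_lit 4) (nat_lit 263) (nat_lit 229) (nat_lit 228))))))) (XT.nd (nat_lit 702) (nat_lit 304) (nat_lit 0) (XT.nd (nat_lit 312) (nat_lit 304) (nat_lit 0) (XT.nd (nat_lit 156) (nat_lit 152) (nat_lit 0) (XT.nd (nat_lit 78) (nat_lit 152) (nat_lit 0) (XT.lf (nat_lit 0) (nat_lit 4284543696) (nat_lit 228) (nat_lit 6001112099) (nat_lit 0) (nat_lit 2251803308) (nat_lit 16) (nat_lit 5) (nat_lit 19) (nat_lit 4) (nat_lit 16) (nat_lit 4) (nat_lit 264) (nat_lit 229) (nat_lit 227)) (XT.lf (nat_lit 0) (nat_lit 2752706362) (nat_lit 152) (nat_lit 6703865983) (nat_lit 152) (nat_lit 3766237600) (nat_lit 14) (nat_lit 4) (nat_lit 16) (nat_lit 5) (nat_lit 16) (nat_lit 4) (nat_lit 265) (nat_lit 229) (nat_lit 226))) (XT.nd (nat_lit 78) (nat_lit 76) (nat_lit 0) (XT.lf (nat_lit 0) (nat_lit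 865422867) (nat_lit 228) (nat_lit 2001370757) (nat_lit 76) (nat_lit 11105165921) (nat_lit 13) (nat_lit 5) (nat_lit 16) (nat_lit 5) (nat_lit 14) (nat_lit 4) (nat_lit 266) (nat_lit 229) (nat_lit 225)) (XT.lf (nat_lit 0) (nat_lit 5600912387) (nat_lit 152) (nat_lit 7918202989) (nat_lit 0) (nat_lit 1266356920) (nat_lit 12) (nat_lit 5) (nat_lit 14) (nat_lit 4) (nat_lit 12) (nat_lit 4) (nat_lit 267) (nat_lit 229) (nat_lit 224)))) (XT.nd (nat_lit 156) (nat_lit 152) (nat_lit 0) (XT.nd (nat_lit 78) (nat_lit 0) (nat_lit 0) (XT.lf (nat_lit 0) (nat_lit 412648175) (nat_lit 152) (nat_lit 10139487264) (nat_lit 152) (nat_lit 5120808689) (nat_lit 10) (nat_lit 4) (nat_lit 12) (nat_lit 5) (nat_lit 12) (nat_lit 4) (nat_lit 268) (nat_lit 229) (nat_lit 223)) (XT.lf (nat_lit 0) (nat_lit 9304182420) (nat_lit 152) (nat_lit 6492580549) (nat_lit 152) (nat_lit 840454651) (nat_lit 10) (nat_lit 4) (nat_lit 12) (nat_lit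 5) (nat_lit 12) (nat_lit 4) (nat_lit 269) (nat_lit 229) (nat_lit 222))) (XT.nd (nat_lit 78) (nat_lit 0) (nat_lit 0) (XT.lf (nat_lit 0) (nat_lit 827996588) (nat_lit 76) (nat_lit 2619148672) (nat_lit 152) (nat_lit 14239831470) (nat_lit 8) (nat_lit 5) (nat_lit 9) (nat_lit 5) (nat_lit 10) (nat_lit 4) (nat_lit 270) (nat_lit 229) (nat_lit 221)) (XT.nd (nat_lit 78) (nat_lit 0) (nat_lit 0) (XT.lf (nat_lit 0) (nat_lit 7985100712) (nat_lit 152) (nat_lit 9312323689) (nat_lit 0) (nat_lit 1526310067) (nat_lit 8) (nat_lit 5) (nat_lit 10) (nat_lit 4) (nat_lit 8) (nat_lit 4) (nat_lit 271) (nat_lit 229) (nat_lit 220)) (XT.lf (nat_lit 0) (nat_lit 12728541096) (nat_lit 152) (nat_lit 1540430448) (nat_lit 0) (nat_lit 5790844825) (nat_lit 8) (nat_lit 5) (nat_lit 10) (nat_lit 4) (nat_lit 8) (nat_lit 4) (nat_lit 272) (nat_lit 229) (nat_lit 219)))))) (XT.nd (nat_lit 312) (nat_lit 76) (nat_lit 0) (XT.nd (nat_lit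 156) (nat_lit 76) (nat_lit 0) (XT.nd (nat_lit 78) (nat_lit 76) (nat_lit 0) (XT.lf (nat_lit 0) (nat_lit 6760010031) (nat_lit 76) (nat_lit 11010216106) (nat_lit 76) (nat_lit 3629088700) (nat_lit 7) (nat_lit 4) (nat_lit 8) (nat_lit 5) (nat_lit 8) (nat_lit 4) (nat_lit 273) (nat_lit 229) (nat_lit 218)) (XT.lf (nat_lit 0) (nat_lit 203834838) (nat_lit 152) (nat_lit 7373850371) (nat_lit 76) (nat_lit 15276093781) (nat_lit 6) (nat_lit 5) (nat_lit 8) (nat_lit 5) (nat_lit 7) (nat_lit 4) (nat_lit 274) (nat_lit 229) (nat_lit 217))) (XT.nd (nat_lit 78) (nat_lit 0) (nat_lit 0) (XT.lf (nat_lit 0) (nat_lit 135897282) (nat_lit 76) (nat_lit 3916678229) (nat_lit 152) (nat_lit 20377616186) (nat_lit 5) (nat_lit 5) (nat_lit 6) (nat_lit 5) (nat_lit 7) (nat_lit 4) (nat_lit 275) (nat_lit 229) (nat_lit 216)) (XT.lf (nat_lit 0) (nat_lit 8179384418) (nat_lit 152) (nat_lit 17893787138) (nat_lit 0) (nat_lit 61391608)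 (nat_lit 5) (nat_lit 5) (nat_lit 7) (nat_lit 4) (nat_lit 5) (nat_lit 4) (nat_lit 276) (nat_lit 229) (nat_lit 215)))) (XT.nd (nat_lit 156) (nat_lit 76) (nat_lit 0) (XT.nd (nat_lit 78) (nat_lit 0) (nat_lit 0) (XT.lf (nat_lit 0) (nat_lit 12553338367) (nat_lit 152) (nat_lit 11301492764) (nat_lit 0) (nat_lit 4124931156) (nat_lit 5) (nat_lit 5) (nat_lit 7) (nat_lit 4) (nat_lit 5) (nat_lit 4) (nat_lit 277) (nat_lit 229) (nat_lit 214)) (XT.lf (nat_lit 0) (nat_lit 17139206764) (nat_lit 152) (nat_lit 4417195521) (nat_lit 0) (nat_lit 8423378810) (nat_lit 5) (nat_lit 5) (nat_lit 7) (nat_lit 4) (nat_lit 5) (nat_lit 4) (nat_lit 278) (nat_lit 229) (nat_lit 213))) (XT.nd (nat_lit 78) (nat_lit 0) (nat_lit 0) (XT.lf (nat_lit 0) (nat_lit 2892477777) (nat_lit 76) (nat_lit 19116847031) (nat_lit 76) (nat_lit 10134888760) (nat_lit 4) (nat_lit 4) (nat_lit 5) (nat_lit 5) (nat_lit 5) (nat_lit 4) (nat_lit 279)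 (nat_lit 229) (nat_lit 212)) (XT.nd (nat_lit 78) (nat_lit 0) (nat_lit 0) (XT.lf (nat_lit 0) (nat_lit 10736188119) (nat_lit 76) (nat_lit 16488239659) (nat_lit 76) (nat_lit 7259864428) (nat_lit 4) (nat_lit 4) (nat_lit 5) (nat_lit 5) (nat_lit 5) (nat_lit 4) (nat_lit 280) (nat_lit 229) (nat_lit 211)) (XT.lf (nat_lit 0) (nat_lit 19014364318) (nat_lit 76) (nat_lit 13729810581) (nat_lit 76) (nat_lit 4273271497) (nat_lit 4) (nat_lit 4) (nat_lit 5) (nat_lit 5) (nat_lit 5) (nat_lit 4) (nat_lit 281) (nat_lit 229) (nat_lit 210))))))))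
noncomputable def xc27 : XT := (XT.nd (nat_lit 1404) (nat_lit 0) (nat_lit 0) (XT.nd (nat_lit 702) (nat_lit 76) (nat_lit 0) (XT.nd (nat_lit 312) (nat_lit 0) (nat_lit 0) (XT.nd (nat_lit 156) (nat_lit 76) (nat_lit 0) (XT.nd (nat_lit 78) (nat_lit 76) (nat_lit 0) (XT.lf (nat_lit 0) (nat_lit 27776062232) (nat_lit 76) (nat_lit 10825213551) (nat_lit 76) (nat_lit 1157411640) (nat_lit 4) (nat_lit 4) (nat_lit 5) (nat_lit 5) (nat_lit 5) (nat_lit 4) (nat_lit 282) (nat_lit 229) (nat_lit 209)) (XT.lf (nat_lit 0) (nat_lit 2038768600) (nat_lit 152) (nat_lit 5683940008) (nat_lit 76) (nat_lit 34999906902) (nat_lit 3) (nat_lit 5) (nat_lit 5) (nat_lit 5) (nat_lit 4) (nat_lit 4) (nat_lit 283) (nat_lit 229) (nat_lit 208))) (XT.nd (nat_lit 78) (nat_lit 0) (nat_lit 0) (XT.lf (nat_lit 0) (nat_lit 973868220) (nat_lit 76) (nat_lit 4400964794) (nat_lit 152) (nat_lit 40551821386) (nat_lit 2) (nat_lit 5) (nat_lit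 3) (nat_lit 5) (nat_lit 4) (nat_lit 4) (nat_lit 284) (nat_lit 229) (nat_lit 207)) (XT.lf (nat_lit 0) (nat_lit 8217645275) (nat_lit 76) (nat_lit 772545933) (nat_lit 152) (nat_lit 40396373509) (nat_lit 2) (nat_lit 5) (nat_lit 3) (nat_lit 5) (nat_lit 4) (nat_lit 4) (nat_lit 285) (nat_lit 229) (nat_lit 206)))) (XT.nd (nat_lit 156) (nat_lit 0) (nat_lit 0) (XT.nd (nat_lit 78) (nat_lit 0) (nat_lit 0) (XT.lf (nat_lit 0) (nat_lit 12862800122) (nat_lit 152) (nat_lit 37273261986) (nat_lit 0) (nat_lit 2988960896) (nat_lit 2) (nat_lit 5) (nat_lit 4) (nat_lit 4) (nat_lit 2) (nat_lit 4) (nat_lit 286) (nat_lit 229) (nat_lit 205)) (XT.lf (nat_lit 0) (nat_lit 16983153450) (nat_lit 152) (nat_lit 33210273337) (nat_lit 0) (nat_lit 6972379053) (nat_lit 2) (nat_lit 5) (nat_lit 4) (nat_lit 4) (nat_lit 2) (nat_lit 4) (nat_lit 287) (nat_lit 229) (nat_lit 204))) (XT.nd (nat_lit 78) (nat_lit 0) (nat_lit 0) (XT.lf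 (nat_lit 0) (nat_lit 21363606496) (nat_lit 152) (nat_lit 28943814919) (nat_lit 0) (nat_lit 11226040274) (nat_lit 2) (nat_lit 5) (nat_lit 4) (nat_lit 4) (nat_lit 2) (nat_lit 4) (nat_lit 288) (nat_lit 229) (nat_lit 203)) (XT.nd (nat_lit 78) (nat_lit 0) (nat_lit 0) (XT.lf (nat_lit 0) (nat_lit 26030117500) (nat_lit 152) (nat_lit 24448604015) (nat_lit 0) (nat_lit 15775151439) (nat_lit 2) (nat_lit 5) (nat_lit 4) (nat_lit 4) (nat_lit 2) (nat_lit 4) (nat_lit 289) (nat_lit 229) (nat_lit 202)) (XT.lf (nat_lit 0) (nat_lit 31010339859) (nat_lit 152) (nat_lit 19698002337) (nat_lit 0) (nat_lit 20646670245) (nat_lit 2) (nat_lit 5) (nat_lit 4) (nat_lit 4) (nat_lit 2) (nat_lit 4) (nat_lit 290) (nat_lit 229) (nat_lit 201)))))) (XT.nd (nat_lit 312) (nat_lit 0) (nat_lit 0) (XT.nd (nat_lit 156) (nat_lit 76) (nat_lit 0) (XT.nd (nat_lit 78) (nat_lit 0) (nat_lit 0) (XT.lf (nat_lit 0) (nat_lit 36333786003) (nat_lit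 152) (nat_lit 14663858174) (nat_lit 0) (nat_lit 25869464950) (nat_lit 2) (nat_lit 5) (nat_lit 4) (nat_lit 4) (nat_lit 2) (nat_lit 4) (nat_lit 291) (nat_lit 229) (nat_lit 200)) (XT.lf (nat_lit 0) (nat_lit 42032002280) (nat_lit 152) (nat_lit 9316339558) (nat_lit 0) (nat_lit 31474485450) (nat_lit 2) (nat_lit 5) (nat_lit 4) (nat_lit 4) (nat_lit 2) (nat_lit 4) (nat_lit 292) (nat_lit 229) (nat_lit 199))) (XT.nd (nat_lit 78) (nat_lit 76) (nat_lit 0) (XT.lf (nat_lit 0) (nat_lit 48138755896) (nat_lit 152) (nat_lit 3623757491) (nat_lit 0) (nat_lit 37494946681) (nat_lit 2) (nat_lit 5) (nat_lit 4) (nat_lit 4) (nat_lit 2) (nat_lit 4) (nat_lit 293) (nat_lit 229) (nat_lit 198)) (XT.lf (nat_lit 0) (nat_lit 2528551277) (nat_lit 76) (nat_lit 52201161516) (nat_lit 76) (nat_lit 41477451944) (nat_lit 1) (nat_lit 4) (nat_lit 2) (nat_lit 5) (nat_lit 2) (nat_lit 4) (nat_lit 294) (nat_lit 229) (nat_lit 197))))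 (XT.nd (nat_lit 156) (nat_lit 0) (nat_lit 0) (XT.nd (nat_lit 78) (nat_lit 0) (nat_lit 0) (XT.lf (nat_lit 0) (nat_lit 9229168011) (nat_lit 76) (nat_lit 52640188403) (nat_lit 76) (nat_lit 41842497019) (nat_lit 1) (nat_lit 4) (nat_lit 2) (nat_lit 5) (nat_lit 2) (nat_lit 4) (nat_lit 295) (nat_lit 229) (nat_lit 196)) (XT.lf (nat_lit 0) (nat_lit 16397982280) (nat_lit 76) (nat_lit 53143565776) (nat_lit 76) (nat_lit 42277372714) (nat_lit 1) (nat_lit 4) (nat_lit 2) (nat_lit 5) (nat_lit 2) (nat_lit 4) (nat_lit 296) (nat_lit 229) (nat_lit 195))) (XT.nd (nat_lit 78) (nat_lit 0) (nat_lit 0) (XT.lf (nat_lit 0) (nat_lit 24077475947) (nat_lit 76) (nat_lit 53714276613) (nat_lit 76) (nat_lit 42784656071) (nat_lit 1) (nat_lit 4) (nat_lit 2) (nat_lit 5) (nat_lit 2) (nat_lit 4) (nat_lit 297) (nat_lit 229) (nat_lit 194)) (XT.nd (nat_lit 78) (nat_lit 0) (nat_lit 0) (XT.lf (nat_lit 0) (nat_lit 32313157121)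 (nat_lit 76) (nat_lit 54355702903) (nat_lit 76) (nat_lit 43367353213) (nat_lit 1) (nat_lit 4) (nat_lit 2) (nat_lit 5) (nat_lit 2) (nat_lit 4) (nat_lit 298) (nat_lit 229) (nat_lit 193)) (XT.lf (nat_lit 0) (nat_lit 41153829840) (nat_lit 76) (nat_lit 55071645690) (nat_lit 76) (nat_lit 44028917160) (nat_lit 1) (nat_lit 4) (nat_lit 2) (nat_lit 5) (nat_lit 2) (nat_lit 4) (nat_lit 299) (nat_lit 229) (nat_lit 192))))))) (XT.nd (nat_lit 702) (nat_lit 0) (nat_lit 0) (XT.nd (nat_lit 312) (nat_lit 0) (nat_lit 0) (XT.nd (nat_lit 156) (nat_lit 0) (nat_lit 0) (XT.nd (nat_lit 78) (nat_lit 0) (nat_lit 0) (XT.lf (nat_lit 0) (nat_lit 50651883275) (nat_lit 76) (nat_lit 55866347600) (nat_lit 76) (nat_lit 44773268292) (nat_lit 1) (nat_lit 4) (nat_lit 2) (nat_lit 5) (nat_lit 2) (nat_lit 4) (nat_lit 300) (nat_lit 229) (nat_lit 191)) (XT.lf (nat_lit 0) (nat_lit 60863602188) (nat_lit 76) (nat_lit 56744517977)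 (nat_lit 76) (nat_lit 45604817578) (nat_lit 1) (nat_lit 4) (nat_lit 2) (nat_lit 5) (nat_lit 2) (nat_lit 4) (nat_lit 301) (nat_lit 229) (nat_lit 190))) (XT.nd (nat_lit 78) (nat_lit 0) (nat_lit 0) (XT.lf (nat_lit 0) (nat_lit 71849500467) (nat_lit 76) (nat_lit 57711360793) (nat_lit 76) (nat_lit 46528492716) (nat_lit 1) (nat_lit 4) (nat_lit 2) (nat_lit 5) (nat_lit 2) (nat_lit 4) (nat_lit 302) (nat_lit 229) (nat_lit 189)) (XT.lf (nat_lit 0) (nat_lit 83674679734) (nat_lit 76) (nat_lit 58772605486) (nat_lit 76) (nat_lit 47549767339) (nat_lit 1) (nat_lit 4) (nat_lit 2) (nat_lit 5) (nat_lit 2) (nat_lit 4) (nat_lit 303) (nat_lit 229) (nat_lit 188)))) (XT.nd (nat_lit 156) (nat_lit 0) (nat_lit 0) (XT.nd (nat_lit 78) (nat_lit 0) (nat_lit 0) (XT.lf (nat_lit 0) (nat_lit 96409215123) (nat_lit 76) (nat_lit 59934540916) (nat_lit 76) (nat_lit 48674693444) (nat_lit 1) (nat_lit 4) (nat_lit 2) (nat_lit 5)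 (nat_lit 2) (nat_lit 4) (nat_lit 304) (nat_lit 229) (nat_lit 187)) (XT.lf (nat_lit 0) (nat_lit 110128570549) (nat_lit 76) (nat_lit 61204052624) (nat_lit 76) (nat_lit 49909937258) (nat_lit 1) (nat_lit 4) (nat_lit 2) (nat_lit 5) (nat_lit 2) (nat_lit 4) (nat_lit 305) (nat_lit 229) (nat_lit 186))) (XT.nd (nat_lit 78) (nat_lit 0) (nat_lit 0) (XT.lf (nat_lit 0) (nat_lit 124914045895) (nat_lit 76) (nat_lit 62588663644) (nat_lit 76) (nat_lit 51262818747) (nat_lit 1) (nat_lit 4) (nat_lit 2) (nat_lit 5) (nat_lit 2) (nat_lit 4) (nat_lit 306) (nat_lit 229) (nat_lit 185)) (XT.nd (nat_lit 78) (nat_lit 0) (nat_lit 0) (XT.lf (nat_lit 0) (nat_lit 140853258793) (nat_lit 76) (nat_lit 64096579077) (nat_lit 76) (nat_lit 52741354984) (nat_lit 1) (nat_lit 4) (nat_lit 2) (nat_lit 5) (nat_lit 2) (nat_lit 4) (nat_lit 307) (nat_lit 229) (nat_lit 184)) (XT.lf (nat_lit 0) (nat_lit 158040663839) (nat_lit 76) (nat_lit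 65736734719) (nat_lit 76) (nat_lit 54354307667) (nat_lit 1) (nat_lit 4) (nat_lit 2) (nat_lit 5) (nat_lit 2) (nat_lit 4) (nat_lit 308) (nat_lit 229) (nat_lit 183)))))) (XT.nd (nat_lit 312) (nat_lit 0) (nat_lit 0) (XT.nd (nat_lit 156) (nat_lit 0) (nat_lit 0) (XT.nd (nat_lit 78) (nat_lit 0) (nat_lit 0) (XT.lf (nat_lit 0) (nat_lit 176578112320) (nat_lit 76) (nat_lit 67518850010) (nat_lit 76) (nat_lit 56111235034) (nat_lit 1) (nat_lit 4) (nat_lit 2) (nat_lit 5) (nat_lit 2) (nat_lit 4) (nat_lit 309) (nat_lit 229) (nat_lit 182)) (XT.lf (nat_lit 0) (nat_lit 196575455785) (nat_lit 76) (nat_lit 69453485634) (nat_lit 76) (nat_lit 58022548506) (nat_lit 1) (nat_lit 4) (nat_lit 2) (nat_lit 5) (nat_lit 2) (nat_lit 4) (nat_lit 310) (nat_lit 229) (nat_lit 181))) (XT.nd (nat_lit 78) (nat_lit 0) (nat_lit 0) (XT.lf (nat_lit 0) (nat_lit 218151197008) (nat_lit 76) (nat_lit 71552106099) (nat_lit 76) (nat_lit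 60099574384) (nat_lit 1) (nat_lit 4) (nat_lit 2) (nat_lit 5) (nat_lit 2) (nat_lit 4) (nat_lit 311) (nat_lit 229) (nat_lit 180)) (XT.lf (nat_lit 0) (nat_lit 241433192234) (nat_lit 76) (nat_lit 73827147673) (nat_lit 76) (nat_lit 62354620971) (nat_lit 1) (nat_lit 4) (nat_lit 2) (nat_lit 5) (nat_lit 2) (nat_lit 4) (nat_lit 312) (nat_lit 229) (nat_lit 179)))) (XT.nd (nat_lit 156) (nat_lit 0) (nat_lit 0) (XT.nd (nat_lit 78) (nat_lit 0) (nat_lit 0) (XT.lf (nat_lit 0) (nat_lit 266559408843) (nat_lit 76) (nat_lit 76292092084) (nat_lit 76) (nat_lit 64801051506) (nat_lit 1) (nat_lit 4) (nat_lit 2) (nat_lit 5) (nat_lit 2) (nat_lit 4) (nat_lit 313) (nat_lit 229) (nat_lit 178)) (XT.lf (nat_lit 0) (nat_lit 293678742932) (nat_lit 76) (nat_lit 78961546411) (nat_lit 76) (nat_lit 67453363354) (nat_lit 1) (nat_lit 4) (nat_lit 2) (nat_lit 5) (nat_lit 2) (nat_lit 4) (nat_lit 314) (nat_lit 229) (nat_lit 177)))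 (XT.nd (nat_lit 78) (nat_lit 0) (nat_lit 0) (XT.lf (nat_lit 0) (nat_lit 322951901667) (nat_lit 76) (nat_lit 81851329642) (nat_lit 76) (nat_lit 70327273920) (nat_lit 1) (nat_lit 4) (nat_lit 2) (nat_lit 5) (nat_lit 2) (nat_lit 4) (nat_lit 315) (nat_lit 229) (nat_lit 176)) (XT.nd (nat_lit 78) (nat_lit 0) (nat_lit 0) (XT.lf (nat_lit 0) (nat_lit 354552355618) (nat_lit 76) (nat_lit 84978566418) (nat_lit 76) (nat_lit 73439813784) (nat_lit 1) (nat_lit 4) (nat_lit 2) (nat_lit 5) (nat_lit 2) (nat_lit 4) (nat_lit 316) (nat_lit 229) (nat_lit 175)) (XT.lf (nat_lit 0) (nat_lit 388667366734) (nat_lit 76) (nat_lit 88361788513) (nat_lit 76) (nat_lit 76809427627) (nat_lit 1) (nat_lit 4) (nat_lit 2) (nat_lit 5) (nat_lit 2) (nat_lit 4) (nat_lit 317) (nat_lit 229) (nat_lit 174))))))))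
noncomputable def xc28 : XT := (XT.nd (nat_lit 33930) (nat_lit 0) (nat_lit 76) (XT.nd (nat_lit 33228) (nat_lit 0) (nat_lit 532) (XT.nd (nat_lit 312) (nat_lit 0) (nat_lit 0) (XT.nd (nat_lit 156) (nat_lit 0) (nat_lit 0) (XT.nd (nat_lit 78) (nat_lit 0) (nat_lit 0) (XT.lf (nat_lit 0) (nat_lit 425499098045) (nat_lit 76) (nat_lit 92021044650) (nat_lit 76) (nat_lit 80456083531) (nat_lit 1) (nat_lit 4) (nat_lit 2) (nat_lit 5) (nat_lit 2) (nat_lit 4) (nat_lit 318) (nat_lit 229) (nat_lit 173)) (XT.lf (nat_lit 0) (nat_lit 465265811661) (nat_lit 76) (nat_lit 95978019311) (nat_lit 76) (nat_lit 84401391309) (nat_lit 1) (nat_lit 4) (nat_lit 2) (nat_lit 5) (nat_lit 2) (nat_lit 4) (nat_lit 319) (nat_lit 229) (nat_lit 172))) (XT.nd (nat_lit 78) (nat_lit 0) (nat_lit 0) (XT.lf (nat_lit 0) (nat_lit 508203162181) (nat_lit 76) (nat_lit 100256161234) (nat_lit 76) (nat_lit 88668730563) (nat_lit 1) (nat_lit 4)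 (nat_lit 2) (nat_lit 5) (nat_lit 2) (nat_lit 4) (nat_lit 320) (nat_lit 229) (nat_lit 171)) (XT.lf (nat_lit 0) (nat_lit 554565593166) (nat_lit 76) (nat_lit 104880822371) (nat_lit 76) (nat_lit 93283389228) (nat_lit 1) (nat_lit 4) (nat_lit 2) (nat_lit 5) (nat_lit 2) (nat_lit 4) (nat_lit 321) (nat_lit 229) (nat_lit 170)))) (XT.nd (nat_lit 32760) (nat_lit 0) (nat_lit 1520) (XT.nd (nat_lit 32682) (nat_lit 0) (nat_lit 1748) (XT.lf (nat_lit 0) (nat_lit 604627844945) (nat_lit 76) (nat_lit 109879408121) (nat_lit 76) (nat_lit 98272713430) (nat_lit 1) (nat_lit 4) (nat_lit 2) (nat_lit 5) (nat_lit 2) (nat_lit 4) (nat_lit 322) (nat_lit 229) (nat_lit 169)) (XT.lf (nat_lit 0) (nat_lit 1928620086) (nat_lit 228) (nat_lit 1617980981) (nat_lit 228) (nat_lit 1617980981) (nat_lit 24) (nat_lit 4) (nat_lit 27) (nat_lit 5) (nat_lit 27) (nat_lit 4) (nat_lit 260) (nat_lit 230) (nat_lit 230))) (XT.nd (nat_lit 78)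 (nat_lit 0) (nat_lit 0) (XT.lf (nat_lit 0) (nat_lit 1708431690) (nat_lit 228) (nat_lit 8595038449) (nat_lit 0) (nat_lit 511538513) (nat_lit 21) (nat_lit 5) (nat_lit 24) (nat_lit 4) (nat_lit 21) (nat_lit 4) (nat_lit 261) (nat_lit 230) (nat_lit 229)) (XT.lf (nat_lit 0) (nat_lit 6786150477) (nat_lit 228) (nat_lit 78508548) (nat_lit 0) (nat_lit 4481022876) (nat_lit 21) (nat_lit 5) (nat_lit 24) (nat_lit 4) (nat_lit 21) (nat_lit 4) (nat_lit 262) (nat_lit 230) (nat_lit 228))))) (XT.nd (nat_lit 312) (nat_lit 380) (nat_lit 0) (XT.nd (nat_lit 156) (nat_lit 228) (nat_lit 0) (XT.nd (nat_lit 78) (nat_lit 152) (nat_lit 0) (XT.lf (nat_lit 0) (nat_lit 180620815) (nat_lit 228) (nat_lit 2960997912) (nat_lit 76) (nat_lit 8785919258) (nat_lit 18) (nat_lit 5) (nat_lit 21) (nat_lit 5) (nat_lit 19) (nat_lit 4) (nat_lit 263) (nat_lit 230) (nat_lit 227)) (XT.lf (nat_lit 0) (nat_lit 4963593358) (nat_lit 228)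 (nat_lit 6712333592) (nat_lit 0) (nat_lit 886066712) (nat_lit 16) (nat_lit 5) (nat_lit 19) (nat_lit 4) (nat_lit 16) (nat_lit 4) (nat_lit 264) (nat_lit 230) (nat_lit 226))) (XT.nd (nat_lit 78) (nat_lit 76) (nat_lit 0) (XT.lf (nat_lit 0) (nat_lit 1808409571) (nat_lit 152) (nat_lit 8181027821) (nat_lit 152) (nat_lit 3265641921) (nat_lit 14) (nat_lit 4) (nat_lit 16) (nat_lit 5) (nat_lit 16) (nat_lit 4) (nat_lit 265) (nat_lit 230) (nat_lit 225)) (XT.lf (nat_lit 0) (nat_lit 1222835550) (nat_lit 228) (nat_lit 3184368626) (nat_lit 76) (nat_lit 9603367284) (nat_lit 13) (nat_lit 5) (nat_lit 16) (nat_lit 5) (nat_lit 14) (nat_lit 4) (nat_lit 266) (nat_lit 230) (nat_lit 224)))) (XT.nd (nat_lit 156) (nat_lit 304) (nat_lit 0) (XT.nd (nat_lit 78) (nat_lit 0) (nat_lit 0) (XT.lf (nat_lit 0) (nat_lit 5476618155) (nat_lit 76) (nat_lit 321493514) (nat_lit 152) (nat_lit 9034330702) (nat_lit 12) (nat_lit 5)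 (nat_lit 13) (nat_lit 5) (nat_lit 14) (nat_lit 4) (nat_lit 267) (nat_lit 230) (nat_lit 223)) (XT.lf (nat_lit 0) (nat_lit 10625104861) (nat_lit 152) (nat_lit 1213981019) (nat_lit 0) (nat_lit 3887361568) (nat_lit 12) (nat_lit 5) (nat_lit 14) (nat_lit 4) (nat_lit 12) (nat_lit 4) (nat_lit 268) (nat_lit 230) (nat_lit 222))) (XT.nd (nat_lit 78) (nat_lit 152) (nat_lit 0) (XT.lf (nat_lit 0) (nat_lit 7464451685) (nat_lit 152) (nat_lit 8278585267) (nat_lit 152) (nat_lit 954316676) (nat_lit 10) (nat_lit 4) (nat_lit 12) (nat_lit 5) (nat_lit 12) (nat_lit 4) (nat_lit 269) (nat_lit 230) (nat_lit 221)) (XT.nd (nat_lit 78) (nat_lit 76) (nat_lit 0) (XT.lf (nat_lit 0) (nat_lit 3222926604) (nat_lit 228) (nat_lit 1260348031) (nat_lit 76) (nat_lit 13269889750) (nat_lit 9) (nat_lit 5) (nat_lit 12) (nat_lit 5) (nat_lit 10) (nat_lit 4) (nat_lit 270) (nat_lit 230) (nat_lit 220)) (XT.lf (nat_lit 0) (nat_lit 7250604214)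 (nat_lit 76) (nat_lit 369299538) (nat_lit 152) (nat_lit 11277310540) (nat_lit 8) (nat_lit 5) (nat_lit 9) (nat_lit 5) (nat_lit 10) (nat_lit 4) (nat_lit 271) (nat_lit 230) (nat_lit 219))))))) (XT.nd (nat_lit 702) (nat_lit 152) (nat_lit 0) (XT.nd (nat_lit 312) (nat_lit 152) (nat_lit 0) (XT.nd (nat_lit 156) (nat_lit 76) (nat_lit 0) (XT.nd (nat_lit 78) (nat_lit 76) (nat_lit 0) (XT.lf (nat_lit 0) (nat_lit 12267783492) (nat_lit 152) (nat_lit 4017781208) (nat_lit 0) (nat_lit 3852734758) (nat_lit 8) (nat_lit 5) (nat_lit 10) (nat_lit 4) (nat_lit 8) (nat_lit 4) (nat_lit 272) (nat_lit 230) (nat_lit 218)) (XT.lf (nat_lit 0) (nat_lit 4058384673) (nat_lit 76) (nat_lit 13125760545) (nat_lit 76) (nat_lit 4300127426) (nat_lit 7) (nat_lit 4) (nat_lit 8) (nat_lit 5) (nat_lit 8) (nat_lit 4) (nat_lit 273) (nat_lit 230) (nat_lit 217))) (XT.nd (nat_lit 78) (nat_lit 76) (nat_lit 0) (XT.lf (nat_lit 0) (nat_lit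 12649938456) (nat_lit 76) (nat_lit 9749455902) (nat_lit 76) (nat_lit 543652056) (nat_lit 7) (nat_lit 4) (nat_lit 8) (nat_lit 5) (nat_lit 8) (nat_lit 4) (nat_lit 274) (nat_lit 230) (nat_lit 216)) (XT.lf (nat_lit 0) (nat_lit 3245806642) (nat_lit 152) (nat_lit 2903910161) (nat_lit 76) (nat_lit 18374171112) (nat_lit 6) (nat_lit 5) (nat_lit 8) (nat_lit 5) (nat_lit 7) (nat_lit 4) (nat_lit 275) (nat_lit 230) (nat_lit 215)))) (XT.nd (nat_lit 156) (nat_lit 76) (nat_lit 0) (XT.nd (nat_lit 78) (nat_lit 0) (nat_lit 0) (XT.lf (nat_lit 0) (nat_lit 4986722467) (nat_lit 76) (nat_lit 2267166004) (nat_lit 152) (nat_lit 18980464935) (nat_lit 5) (nat_lit 5) (nat_lit 6) (nat_lit 5) (nat_lit 7) (nat_lit 4) (nat_lit 276) (nat_lit 230) (nat_lit 214)) (XT.lf (nat_lit 0) (nat_lit 11526098553) (nat_lit 152) (nat_lit 14733103540) (nat_lit 0) (nat_lit 1825583620) (nat_lit 5) (nat_lit 5) (nat_lit 7) (nat_lit 4) (nat_lit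 5) (nat_lit 4) (nat_lit 277) (nat_lit 230) (nat_lit 213))) (XT.nd (nat_lit 78) (nat_lit 76) (nat_lit 0) (XT.lf (nat_lit 0) (nat_lit 16050534494) (nat_lit 152) (nat_lit 7953587584) (nat_lit 0) (nat_lit 6083889244) (nat_lit 5) (nat_lit 5) (nat_lit 7) (nat_lit 4) (nat_lit 5) (nat_lit 4) (nat_lit 278) (nat_lit 230) (nat_lit 212)) (XT.nd (nat_lit 78) (nat_lit 76) (nat_lit 0) (XT.lf (nat_lit 0) (nat_lit 20818610951) (nat_lit 152) (nat_lit 833511347) (nat_lit 0) (nat_lit 10605548740) (nat_lit 5) (nat_lit 5) (nat_lit 7) (nat_lit 4) (nat_lit 5) (nat_lit 4) (nat_lit 279) (nat_lit 230) (nat_lit 211)) (XT.lf (nat_lit 0) (nat_lit 6889835993) (nat_lit 76) (nat_lit 19076316847) (nat_lit 76) (nat_lit 8635090783) (nat_lit 4) (nat_lit 4) (nat_lit 5) (nat_lit 5) (nat_lit 5) (nat_lit 4) (nat_lit 280) (nat_lit 230) (nat_lit 210)))))) (XT.nd (nat_lit 312) (nat_lit 76) (nat_lit 0) (XT.nd (nat_lit 156) (nat_lit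 76) (nat_lit 0) (XT.nd (nat_lit 78) (nat_lit 0) (nat_lit 0) (XT.lf (nat_lit 0) (nat_lit 15082083163) (nat_lit 76) (nat_lit 16353708141) (nat_lit 76) (nat_lit 5701219251) (nat_lit 4) (nat_lit 4) (nat_lit 5) (nat_lit 5) (nat_lit 5) (nat_lit 4) (nat_lit 281) (nat_lit 230) (nat_lit 209)) (XT.lf (nat_lit 0) (nat_lit 23764217162) (nat_lit 76) (nat_lit 13482278121) (nat_lit 76) (nat_lit 2634175503) (nat_lit 4) (nat_lit 4) (nat_lit 5) (nat_lit 5) (nat_lit 5) (nat_lit 4) (nat_lit 282) (nat_lit 230) (nat_lit 208))) (XT.nd (nat_lit 78) (nat_lit 0) (nat_lit 0) (XT.lf (nat_lit 0) (nat_lit 565516987) (nat_lit 152) (nat_lit 9869916615) (nat_lit 76) (nat_lit 32412593381) (nat_lit 3) (nat_lit 5) (nat_lit 5) (nat_lit 5) (nat_lit 4) (nat_lit 4) (nat_lit 283) (nat_lit 230) (nat_lit 207)) (XT.lf (nat_lit 0) (nat_lit 3845864168) (nat_lit 152) (nat_lit 3312912136) (nat_lit 76) (nat_lit 38896156559) (nat_lit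 3) (nat_lit 5) (nat_lit 5) (nat_lit 5) (nat_lit 4) (nat_lit 4) (nat_lit 284) (nat_lit 230) (nat_lit 206)))) (XT.nd (nat_lit 156) (nat_lit 0) (nat_lit 0) (XT.nd (nat_lit 78) (nat_lit 0) (nat_lit 0) (XT.lf (nat_lit 0) (nat_lit 3754717399) (nat_lit 76) (nat_lit 3614519461) (nat_lit 152) (nat_lit 42150280714) (nat_lit 2) (nat_lit 5) (nat_lit 3) (nat_lit 5) (nat_lit 4) (nat_lit 4) (nat_lit 285) (nat_lit 230) (nat_lit 205)) (XT.lf (nat_lit 0) (nat_lit 11161373241) (nat_lit 152) (nat_lit 41887894080) (nat_lit 0) (nat_lit 212801720) (nat_lit 2) (nat_lit 5) (nat_lit 4) (nat_lit 4) (nat_lit 2) (nat_lit 4) (nat_lit 286) (nat_lit 230) (nat_lit 204))) (XT.nd (nat_lit 78) (nat_lit 0) (nat_lit 0) (XT.lf (nat_lit 0) (nat_lit 15248299382) (nat_lit 152) (nat_lit 37883352221) (nat_lit 0) (nat_lit 4172936037) (nat_lit 2) (nat_lit 5) (nat_lit 4) (nat_lit 4) (nat_lit 2) (nat_lit 4) (nat_lit 287) (nat_lit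 230) (nat_lit 203)) (XT.nd (nat_lit 78) (nat_lit 0) (nat_lit 0) (XT.lf (nat_lit 0) (nat_lit 19597801329) (nat_lit 152) (nat_lit 33671011201) (nat_lit 0) (nat_lit 8405038146) (nat_lit 2) (nat_lit 5) (nat_lit 4) (nat_lit 4) (nat_lit 2) (nat_lit 4) (nat_lit 288) (nat_lit 230) (nat_lit 202)) (XT.lf (nat_lit 0) (nat_lit 24235653907) (nat_lit 152) (nat_lit 29225908998) (nat_lit 0) (nat_lit 12934187170) (nat_lit 2) (nat_lit 5) (nat_lit 4) (nat_lit 4) (nat_lit 2) (nat_lit 4) (nat_lit 289) (nat_lit 230) (nat_lit 201))))))))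
noncomputable def xc29 : XT := (XT.nd (nat_lit 1326) (nat_lit 0) (nat_lit 0) (XT.nd (nat_lit 624) (nat_lit 0) (nat_lit 0) (XT.nd (nat_lit 312) (nat_lit 76) (nat_lit 0) (XT.nd (nat_lit 156) (nat_lit 0) (nat_lit 0) (XT.nd (nat_lit 78) (nat_lit 0) (nat_lit 0) (XT.lf (nat_lit 0) (nat_lit 29189340688) (nat_lit 152) (nat_lit 24521704267) (nat_lit 0) (nat_lit 17787222512) (nat_lit 2) (nat_lit 5) (nat_lit 4) (nat_lit 4) (nat_lit 2) (nat_lit 4) (nat_lit 290) (nat_lit 230) (nat_lit 200)) (XT.lf (nat_lit 0) (nat_lit 34488216851) (nat_lit 152) (nat_lit 19530520238) (nat_lit 0) (nat_lit 22992902899) (nat_lit 2) (nat_lit 5) (nat_lit 4) (nat_lit 4) (nat_lit 2) (nat_lit 4) (nat_lit 291) (nat_lit 230) (nat_lit 199))) (XT.nd (nat_lit 78) (nat_lit 0) (nat_lit 0) (XT.lf (nat_lit 0) (nat_lit 40163683146) (nat_lit 152) (nat_lit 14222779526) (nat_lit 0) (nat_lit 28582076808) (nat_lit 2) (nat_lit 5) (nat_lit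 4) (nat_lit 4) (nat_lit 2) (nat_lit 4) (nat_lit 292) (nat_lit 230) (nat_lit 198)) (XT.lf (nat_lit 0) (nat_lit 46249371965) (nat_lit 152) (nat_lit 8567028851) (nat_lit 0) (nat_lit 34587865269) (nat_lit 2) (nat_lit 5) (nat_lit 4) (nat_lit 4) (nat_lit 2) (nat_lit 4) (nat_lit 293) (nat_lit 230) (nat_lit 197)))) (XT.nd (nat_lit 156) (nat_lit 0) (nat_lit 0) (XT.nd (nat_lit 78) (nat_lit 76) (nat_lit 0) (XT.lf (nat_lit 0) (nat_lit 52781346648) (nat_lit 152) (nat_lit 2529752653) (nat_lit 0) (nat_lit 41045858141) (nat_lit 2) (nat_lit 5) (nat_lit 4) (nat_lit 4) (nat_lit 2) (nat_lit 4) (nat_lit 294) (nat_lit 230) (nat_lit 196)) (XT.lf (nat_lit 0) (nat_lit 4054597973) (nat_lit 76) (nat_lit 55807020858) (nat_lit 76) (nat_lit 44003030673) (nat_lit 1) (nat_lit 4) (nat_lit 2) (nat_lit 5) (nat_lit 2) (nat_lit 4) (nat_lit 295) (nat_lit 230) (nat_lit 195))) (XT.nd (nat_lit 78) (nat_lit 0) (nat_lit 0) (XT.lf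 (nat_lit 0) (nat_lit 11193207557) (nat_lit 76) (nat_lit 56323409421) (nat_lit 76) (nat_lit 44455991756) (nat_lit 1) (nat_lit 4) (nat_lit 2) (nat_lit 5) (nat_lit 2) (nat_lit 4) (nat_lit 296) (nat_lit 230) (nat_lit 194)) (XT.lf (nat_lit 0) (nat_lit 18844733923) (nat_lit 76) (nat_lit 56906167655) (nat_lit 76) (nat_lit 44980020842) (nat_lit 1) (nat_lit 4) (nat_lit 2) (nat_lit 5) (nat_lit 2) (nat_lit 4) (nat_lit 297) (nat_lit 230) (nat_lit 193))))) (XT.nd (nat_lit 312) (nat_lit 0) (nat_lit 0) (XT.nd (nat_lit 156) (nat_lit 0) (nat_lit 0) (XT.nd (nat_lit 78) (nat_lit 0) (nat_lit 0) (XT.lf (nat_lit 0) (nat_lit 27054519449) (nat_lit 76) (nat_lit 57558748942) (nat_lit 76) (nat_lit 45578223289) (nat_lit 1) (nat_lit 4) (nat_lit 2) (nat_lit 5) (nat_lit 2) (nat_lit 4) (nat_lit 298) (nat_lit 230) (nat_lit 192)) (XT.lf (nat_lit 0) (nat_lit 35871214715) (nat_lit 76) (nat_lit 58285020431) (nat_lit 76)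 (nat_lit 46254144000) (nat_lit 1) (nat_lit 4) (nat_lit 2) (nat_lit 5) (nat_lit 2) (nat_lit 4) (nat_lit 299) (nat_lit 230) (nat_lit 191))) (XT.nd (nat_lit 78) (nat_lit 0) (nat_lit 0) (XT.lf (nat_lit 0) (nat_lit 45347066805) (nat_lit 76) (nat_lit 59089285953) (nat_lit 76) (nat_lit 47011788431) (nat_lit 1) (nat_lit 4) (nat_lit 2) (nat_lit 5) (nat_lit 2) (nat_lit 4) (nat_lit 300) (nat_lit 230) (nat_lit 190)) (XT.lf (nat_lit 0) (nat_lit 55538228917) (nat_lit 76) (nat_lit 59976311527) (nat_lit 76) (nat_lit 47855646328) (nat_lit 1) (nat_lit 4) (nat_lit 2) (nat_lit 5) (nat_lit 2) (nat_lit 4) (nat_lit 301) (nat_lit 230) (nat_lit 189)))) (XT.nd (nat_lit 156) (nat_lit 0) (nat_lit 0) (XT.nd (nat_lit 78) (nat_lit 0) (nat_lit 0) (XT.lf (nat_lit 0) (nat_lit 66505093122) (nat_lit 76) (nat_lit 60951353599) (nat_lit 76) (nat_lit 48790718329) (nat_lit 1) (nat_lit 4) (nat_lit 2) (nat_lit 5) (nat_lit 2)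 (nat_lit 4) (nat_lit 302) (nat_lit 230) (nat_lit 188)) (XT.lf (nat_lit 0) (nat_lit 78312648245) (nat_lit 76) (nat_lit 62020190196) (nat_lit 76) (nat_lit 49822545601) (nat_lit 1) (nat_lit 4) (nat_lit 2) (nat_lit 5) (nat_lit 2) (nat_lit 4) (nat_lit 303) (nat_lit 230) (nat_lit 187))) (XT.nd (nat_lit 78) (nat_lit 0) (nat_lit 0) (XT.lf (nat_lit 0) (nat_lit 91030864983) (nat_lit 76) (nat_lit 63189155166) (nat_lit 76) (nat_lit 50957242678) (nat_lit 1) (nat_lit 4) (nat_lit 2) (nat_lit 5) (nat_lit 2) (nat_lit 4) (nat_lit 304) (nat_lit 230) (nat_lit 186)) (XT.nd (nat_lit 78) (nat_lit 0) (nat_lit 0) (XT.lf (nat_lit 0) (nat_lit 104735110546) (nat_lit 76) (nat_lit 64465175709) (nat_lit 76) (nat_lit 52201533689) (nat_lit 1) (nat_lit 4) (nat_lit 2) (nat_lit 5) (nat_lit 2) (nat_lit 4) (nat_lit 305) (nat_lit 230) (nat_lit 185)) (XT.lf (nat_lit 0) (nat_lit 119506595279) (nat_lit 76) (nat_lit 65855813426)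 (nat_lit 76) (nat_lit 53562792211) (nat_lit 1) (nat_lit 4) (nat_lit 2) (nat_lit 5) (nat_lit 2) (nat_lit 4) (nat_lit 306) (nat_lit 230) (nat_lit 184))))))) (XT.nd (nat_lit 702) (nat_lit 0) (nat_lit 0) (XT.nd (nat_lit 312) (nat_lit 0) (nat_lit 0) (XT.nd (nat_lit 156) (nat_lit 0) (nat_lit 0) (XT.nd (nat_lit 78) (nat_lit 0) (nat_lit 0) (XT.lf (nat_lit 0) (nat_lit 135432853906) (nat_lit 76) (nat_lit 67369309135) (nat_lit 76) (nat_lit 55049084961) (nat_lit 1) (nat_lit 4) (nat_lit 2) (nat_lit 5) (nat_lit 2) (nat_lit 4) (nat_lit 307) (nat_lit 230) (nat_lit 183)) (XT.lf (nat_lit 0) (nat_lit 152608264255) (nat_lit 76) (nat_lit 69014631700) (nat_lit 76) (nat_lit 56669219601) (nat_lit 1) (nat_lit 4) (nat_lit 2) (nat_lit 5) (nat_lit 2) (nat_lit 4) (nat_lit 308) (nat_lit 230) (nat_lit 182))) (XT.nd (nat_lit 78) (nat_lit 0) (nat_lit 0) (XT.lf (nat_lit 0) (nat_lit 171134606537) (nat_lit 76) (nat_lit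 70801531178) (nat_lit 76) (nat_lit 58432796927) (nat_lit 1) (nat_lit 4) (nat_lit 2) (nat_lit 5) (nat_lit 2) (nat_lit 4) (nat_lit 309) (nat_lit 230) (nat_lit 181)) (XT.lf (nat_lit 0) (nat_lit 191121666483) (nat_lit 76) (nat_lit 72740596605) (nat_lit 76) (nat_lit 60350267768) (nat_lit 1) (nat_lit 4) (nat_lit 2) (nat_lit 5) (nat_lit 2) (nat_lit 4) (nat_lit 310) (nat_lit 230) (nat_lit 180)))) (XT.nd (nat_lit 156) (nat_lit 0) (nat_lit 0) (XT.nd (nat_lit 78) (nat_lit 0) (nat_lit 0) (XT.lf (nat_lit 0) (nat_lit 212687885930) (nat_lit 76) (nat_lit 74843318739) (nat_lit 76) (nat_lit 62432994915) (nat_lit 1) (nat_lit 4) (nat_lit 2) (nat_lit 5) (nat_lit 2) (nat_lit 4) (nat_lit 311) (nat_lit 230) (nat_lit 179)) (XT.lf (nat_lit 0) (nat_lit 235961064697) (nat_lit 76) (nat_lit 77122158155) (nat_lit 76) (nat_lit 64693320454) (nat_lit 1) (nat_lit 4) (nat_lit 2) (nat_lit 5) (nat_lit 2) (nat_lit 4) (nat_lit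 312) (nat_lit 230) (nat_lit 178))) (XT.nd (nat_lit 78) (nat_lit 0) (nat_lit 0) (XT.lf (nat_lit 0) (nat_lit 261079117917) (nat_lit 76) (nat_lit 79590619087) (nat_lit 76) (nat_lit 67144638908) (nat_lit 1) (nat_lit 4) (nat_lit 2) (nat_lit 5) (nat_lit 2) (nat_lit 4) (nat_lit 313) (nat_lit 230) (nat_lit 177)) (XT.nd (nat_lit 78) (nat_lit 0) (nat_lit 0) (XT.lf (nat_lit 0) (nat_lit 288190893313) (nat_lit 76) (nat_lit 82263329451) (nat_lit 76) (nat_lit 69801476607) (nat_lit 1) (nat_lit 4) (nat_lit 2) (nat_lit 5) (nat_lit 2) (nat_lit 4) (nat_lit 314) (nat_lit 230) (nat_lit 176)) (XT.lf (nat_lit 0) (nat_lit 317457053258) (nat_lit 76) (nat_lit 85156127531) (nat_lit 76) (nat_lit 72679577775) (nat_lit 1) (nat_lit 4) (nat_lit 2) (nat_lit 5) (nat_lit 2) (nat_lit 4) (nat_lit 315) (nat_lit 230) (nat_lit 175)))))) (XT.nd (nat_lit 312) (nat_lit 0) (nat_lit 0) (XT.nd (nat_lit 156) (nat_lit 0) (nat_lit 0)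 (XT.nd (nat_lit 78) (nat_lit 0) (nat_lit 0) (XT.lf (nat_lit 0) (nat_lit 349051026848) (nat_lit 76) (nat_lit 88286155835) (nat_lit 76) (nat_lit 75795997826) (nat_lit 1) (nat_lit 4) (nat_lit 2) (nat_lit 5) (nat_lit 2) (nat_lit 4) (nat_lit 316) (nat_lit 230) (nat_lit 174)) (XT.lf (nat_lit 0) (nat_lit 383160037630) (nat_lit 76) (nat_lit 91671962678) (nat_lit 76) (nat_lit 79169204436) (nat_lit 1) (nat_lit 4) (nat_lit 2) (nat_lit 5) (nat_lit 2) (nat_lit 4) (nat_lit 317) (nat_lit 230) (nat_lit 173))) (XT.nd (nat_lit 78) (nat_lit 0) (nat_lit 0) (XT.lf (nat_lit 0) (nat_lit 419986213076) (nat_lit 76) (nat_lit 95333612100) (nat_lit 76) (nat_lit 82819186975) (nat_lit 1) (nat_lit 4) (nat_lit 2) (nat_lit 5) (nat_lit 2) (nat_lit 4) (nat_lit 318) (nat_lit 230) (nat_lit 172)) (XT.lf (nat_lit 0) (nat_lit 459747782372) (nat_lit 76) (nat_lit 99292802765) (nat_lit 76) (nat_lit 86767574971) (nat_lit 1) (nat_lit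 4) (nat_lit 2) (nat_lit 5) (nat_lit 2) (nat_lit 4) (nat_lit 319) (nat_lit 230) (nat_lit 171)))) (XT.nd (nat_lit 156) (nat_lit 0) (nat_lit 0) (XT.nd (nat_lit 78) (nat_lit 0) (nat_lit 0) (XT.lf (nat_lit 0) (nat_lit 502680369634) (nat_lit 76) (nat_lit 103572996543) (nat_lit 76) (nat_lit 91037766278) (nat_lit 1) (nat_lit 4) (nat_lit 2) (nat_lit 5) (nat_lit 2) (nat_lit 4) (nat_lit 320) (nat_lit 230) (nat_lit 170)) (XT.lf (nat_lit 0) (nat_lit 549038390193) (nat_lit 76) (nat_lit 108199557547) (nat_lit 76) (nat_lit 95655065734) (nat_lit 1) (nat_lit 4) (nat_lit 2) (nat_lit 5) (nat_lit 2) (nat_lit 4) (nat_lit 321) (nat_lit 230) (nat_lit 169))) (XT.nd (nat_lit 32526) (nat_lit 0) (nat_lit 1976) (XT.lf (nat_lit 0) (nat_lit 599096558246) (nat_lit 76) (nat_lit 113199902433) (nat_lit 76) (nat_lit 100646835112) (nat_lit 1) (nat_lit 4) (nat_lit 2) (nat_lit 5) (nat_lit 2) (nat_lit 4) (nat_lit 322) (nat_lit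 230) (nat_lit 168)) (XT.nd (nat_lit 78) (nat_lit 228) (nat_lit 0) (XT.lf (nat_lit 0) (nat_lit 2975893891) (nat_lit 228) (nat_lit 882185106) (nat_lit 228) (nat_lit 882185106) (nat_lit 30) (nat_lit 4) (nat_lit 33) (nat_lit 5) (nat_lit 33) (nat_lit 4) (nat_lit 258) (nat_lit 231) (nat_lit 231)) (XT.lf (nat_lit 0) (nat_lit 3182797189) (nat_lit 228) (nat_lit 4880249386) (nat_lit 0) (nat_lit 1825520326) (nat_lit 27) (nat_lit 5) (nat_lit 30) (nat_lit 4) (nat_lit 27) (nat_lit 4) (nat_lit 259) (nat_lit 231) (nat_lit 230))))))))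
noncomputable def xc30 : XT := (XT.nd (nat_lit 1326) (nat_lit 228) (nat_lit 0) (XT.nd (nat_lit 624) (nat_lit 532) (nat_lit 0) (XT.nd (nat_lit 312) (nat_lit 456) (nat_lit 0) (XT.nd (nat_lit 156) (nat_lit 228) (nat_lit 0) (XT.nd (nat_lit 78) (nat_lit 228) (nat_lit 0) (XT.lf (nat_lit 0) (nat_lit 3633522481) (nat_lit 228) (nat_lit 4659093895) (nat_lit 228) (nat_lit 2045079196) (nat_lit 24) (nat_lit 4) (nat_lit 27) (nat_lit 5) (nat_lit 27) (nat_lit 4) (nat_lit 260) (nat_lit 231) (nat_lit 229)) (XT.lf (nat_lit 0) (nat_lit 1749826273) (nat_lit 152) (nat_lit 946508905) (nat_lit 228) (nat_lit 8135081389) (nat_lit 21) (nat_lit 5) (nat_lit 23) (nat_lit 5) (nat_lit 24) (nat_lit 4) (nat_lit 261) (nat_lit 231) (nat_lit 228))) (XT.nd (nat_lit 78) (nat_lit 228) (nat_lit 0) (XT.lf (nat_lit 0) (nat_lit 7617040376) (nat_lit 228) (nat_lit 760296176) (nat_lit 0) (nat_lit 2993125159) (nat_lit 21) (nat_lit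 5) (nat_lit 24) (nat_lit 4) (nat_lit 21) (nat_lit 4) (nat_lit 262) (nat_lit 231) (nat_lit 227)) (XT.lf (nat_lit 0) (nat_lit 812239569) (nat_lit 228) (nat_lit 3908956492) (nat_lit 76) (nat_lit 7238386618) (nat_lit 18) (nat_lit 5) (nat_lit 21) (nat_lit 5) (nat_lit 19) (nat_lit 4) (nat_lit 263) (nat_lit 231) (nat_lit 226)))) (XT.nd (nat_lit 156) (nat_lit 152) (nat_lit 0) (XT.nd (nat_lit 78) (nat_lit 152) (nat_lit 0) (XT.lf (nat_lit 0) (nat_lit 4688418558) (nat_lit 152) (nat_lit 746809921) (nat_lit 228) (nat_lit 7167234637) (nat_lit 16) (nat_lit 5) (nat_lit 18) (nat_lit 5) (nat_lit 19) (nat_lit 4) (nat_lit 264) (nat_lit 231) (nat_lit 225)) (XT.lf (nat_lit 0) (nat_lit 384973727) (nat_lit 152) (nat_lit 9920510080) (nat_lit 152) (nat_lit 2998238451) (nat_lit 14) (nat_lit 4) (nat_lit 16) (nat_lit 5) (nat_lit 16) (nat_lit 4) (nat_lit 265) (nat_lit 231) (nat_lit 224))) (XT.nd (nat_lit 78) (nat_lit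 76) (nat_lit 0) (XT.lf (nat_lit 0) (nat_lit 1363938951) (nat_lit 228) (nat_lit 4844526043) (nat_lit 76) (nat_lit 7856775230) (nat_lit 13) (nat_lit 5) (nat_lit 16) (nat_lit 5) (nat_lit 14) (nat_lit 4) (nat_lit 266) (nat_lit 231) (nat_lit 223)) (XT.lf (nat_lit 0) (nat_lit 3585656957) (nat_lit 76) (nat_lit 2215015013) (nat_lit 152) (nat_lit 9093688072) (nat_lit 12) (nat_lit 5) (nat_lit 13) (nat_lit 5) (nat_lit 14) (nat_lit 4) (nat_lit 267) (nat_lit 231) (nat_lit 222))))) (XT.nd (nat_lit 312) (nat_lit 228) (nat_lit 0) (XT.nd (nat_lit 156) (nat_lit 152) (nat_lit 0) (XT.nd (nat_lit 78) (nat_lit 152) (nat_lit 0) (XT.lf (nat_lit 0) (nat_lit 10493687305) (nat_lit 152) (nat_lit 3304722696) (nat_lit 0) (nat_lit 1996951928) (nat_lit 12) (nat_lit 5) (nat_lit 14) (nat_lit 4) (nat_lit 12) (nat_lit 4) (nat_lit 268) (nat_lit 231) (nat_lit 221)) (XT.lf (nat_lit 0) (nat_lit 5144430790) (nat_lit 152) (nat_lit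 10334286320) (nat_lit 152) (nat_lit 1294471963) (nat_lit 10) (nat_lit 4) (nat_lit 12) (nat_lit 5) (nat_lit 12) (nat_lit 4) (nat_lit 269) (nat_lit 231) (nat_lit 220))) (XT.nd (nat_lit 78) (nat_lit 76) (nat_lit 0) (XT.lf (nat_lit 0) (nat_lit 2800071764) (nat_lit 228) (nat_lit 3802518148) (nat_lit 76) (nat_lit 11231598043) (nat_lit 9) (nat_lit 5) (nat_lit 12) (nat_lit 5) (nat_lit 10) (nat_lit 4) (nat_lit 270) (nat_lit 231) (nat_lit 219)) (XT.lf (nat_lit 0) (nat_lit 4479343336) (nat_lit 76) (nat_lit 2587784123) (nat_lit 152) (nat_lit 11917831709) (nat_lit 8) (nat_lit 5) (nat_lit 9) (nat_lit 5) (nat_lit 10) (nat_lit 4) (nat_lit 271) (nat_lit 231) (nat_lit 218)))) (XT.nd (nat_lit 156) (nat_lit 152) (nat_lit 0) (XT.nd (nat_lit 78) (nat_lit 76) (nat_lit 0) (XT.lf (nat_lit 0) (nat_lit 11597227065) (nat_lit 152) (nat_lit 6979955916) (nat_lit 0) (nat_lit 1654958912) (nat_lit 8) (nat_lit 5) (nat_lit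 10) (nat_lit 4) (nat_lit 8) (nat_lit 4) (nat_lit 272) (nat_lit 231) (nat_lit 217)) (XT.lf (nat_lit 0) (nat_lit 866450245) (nat_lit 76) (nat_lit 15520318899) (nat_lit 76) (nat_lit 5197880019) (nat_lit 7) (nat_lit 4) (nat_lit 8) (nat_lit 5) (nat_lit 8) (nat_lit 4) (nat_lit 273) (nat_lit 231) (nat_lit 216))) (XT.nd (nat_lit 78) (nat_lit 152) (nat_lit 0) (XT.lf (nat_lit 0) (nat_lit 9335951393) (nat_lit 76) (nat_lit 12192879266) (nat_lit 76) (nat_lit 1518430454) (nat_lit 7) (nat_lit 4) (nat_lit 8) (nat_lit 5) (nat_lit 8) (nat_lit 4) (nat_lit 274) (nat_lit 231) (nat_lit 215)) (XT.nd (nat_lit 78) (nat_lit 76) (nat_lit 0) (XT.lf (nat_lit 0) (nat_lit 2233189742) (nat_lit 152) (nat_lit 6422344962) (nat_lit 76) (nat_lit 15976938407) (nat_lit 6) (nat_lit 5) (nat_lit 8) (nat_lit 5) (nat_lit 7) (nat_lit 4) (nat_lit 275) (nat_lit 231) (nat_lit 214)) (XT.lf (nat_lit 0) (nat_lit 1241517665) (nat_lit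 76) (nat_lit 4877357153) (nat_lit 152) (nat_lit 20230329613) (nat_lit 5) (nat_lit 5) (nat_lit 6) (nat_lit 5) (nat_lit 7) (nat_lit 4) (nat_lit 276) (nat_lit 231) (nat_lit 213))))))) (XT.nd (nat_lit 702) (nat_lit 76) (nat_lit 0) (XT.nd (nat_lit 312) (nat_lit 76) (nat_lit 0) (XT.nd (nat_lit 156) (nat_lit 76) (nat_lit 0) (XT.nd (nat_lit 78) (nat_lit 0) (nat_lit 0) (XT.lf (nat_lit 0) (nat_lit 9535140204) (nat_lit 76) (nat_lit 765714796) (nat_lit 152) (nat_lit 17903428411) (nat_lit 5) (nat_lit 5) (nat_lit 6) (nat_lit 5) (nat_lit 7) (nat_lit 4) (nat_lit 277) (nat_lit 231) (nat_lit 212)) (XT.lf (nat_lit 0) (nat_lit 14756454084) (nat_lit 152) (nat_lit 11974692007) (nat_lit 0) (nat_lit 3479929935) (nat_lit 5) (nat_lit 5) (nat_lit 7) (nat_lit 4) (nat_lit 5) (nat_lit 4) (nat_lit 278) (nat_lit 231) (nat_lit 211))) (XT.nd (nat_lit 78) (nat_lit 76) (nat_lit 0) (XT.lf (nat_lit 0) (nat_lit 19471862111)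 (nat_lit 152) (nat_lit 4944448835) (nat_lit 0) (nat_lit 7967174111) (nat_lit 5) (nat_lit 5) (nat_lit 7) (nat_lit 4) (nat_lit 5) (nat_lit 4) (nat_lit 279) (nat_lit 231) (nat_lit 210)) (XT.lf (nat_lit 0) (nat_lit 2557043317) (nat_lit 76) (nat_lit 21945946582) (nat_lit 76) (nat_lit 10229995755) (nat_lit 4) (nat_lit 4) (nat_lit 5) (nat_lit 5) (nat_lit 5) (nat_lit 4) (nat_lit 280) (nat_lit 231) (nat_lit 209)))) (XT.nd (nat_lit 156) (nat_lit 76) (nat_lit 0) (XT.nd (nat_lit 78) (nat_lit 0) (nat_lit 0) (XT.lf (nat_lit 0) (nat_lit 10669726571) (nat_lit 76) (nat_lit 19256504887) (nat_lit 76) (nat_lit 7344940332) (nat_lit 4) (nat_lit 4) (nat_lit 5) (nat_lit 5) (nat_lit 5) (nat_lit 4) (nat_lit 281) (nat_lit 231) (nat_lit 208)) (XT.lf (nat_lit 0) (nat_lit 19278190278) (nat_lit 76) (nat_lit 16415785063) (nat_lit 76) (nat_lit 4323096686) (nat_lit 4) (nat_lit 4) (nat_lit 5) (nat_lit 5) (nat_lit 5) (nat_lit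 4) (nat_lit 282) (nat_lit 231) (nat_lit 207))) (XT.nd (nat_lit 78) (nat_lit 76) (nat_lit 0) (XT.lf (nat_lit 0) (nat_lit 28433447555) (nat_lit 76) (nat_lit 13406953214) (nat_lit 76) (nat_lit 1146557594) (nat_lit 4) (nat_lit 4) (nat_lit 5) (nat_lit 5) (nat_lit 5) (nat_lit 4) (nat_lit 283) (nat_lit 231) (nat_lit 206)) (XT.nd (nat_lit 78) (nat_lit 0) (nat_lit 0) (XT.lf (nat_lit 0) (nat_lit 2132975087) (nat_lit 152) (nat_lit 8043081174) (nat_lit 76) (nat_lit 36020653726) (nat_lit 3) (nat_lit 5) (nat_lit 5) (nat_lit 5) (nat_lit 4) (nat_lit 4) (nat_lit 284) (nat_lit 231) (nat_lit 205)) (XT.lf (nat_lit 0) (nat_lit 5562993247) (nat_lit 152) (nat_lit 1155325875) (nat_lit 76) (nat_lit 42947712856) (nat_lit 3) (nat_lit 5) (nat_lit 5) (nat_lit 5) (nat_lit 4) (nat_lit 4) (nat_lit 285) (nat_lit 231) (nat_lit 204)))))) (XT.nd (nat_lit 312) (nat_lit 0) (nat_lit 0) (XT.nd (nat_lit 156) (nat_lit 0) (nat_lit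 0) (XT.nd (nat_lit 78) (nat_lit 0) (nat_lit 0) (XT.lf (nat_lit 0) (nat_lit 6372429944) (nat_lit 76) (nat_lit 2927581467) (nat_lit 152) (nat_lit 44111392348) (nat_lit 2) (nat_lit 5) (nat_lit 3) (nat_lit 5) (nat_lit 4) (nat_lit 4) (nat_lit 286) (nat_lit 231) (nat_lit 203)) (XT.lf (nat_lit 0) (nat_lit 13310278702) (nat_lit 152) (nat_lit 43042841603) (nat_lit 0) (nat_lit 1104694626) (nat_lit 2) (nat_lit 5) (nat_lit 4) (nat_lit 4) (nat_lit 2) (nat_lit 4) (nat_lit 287) (nat_lit 231) (nat_lit 202))) (XT.nd (nat_lit 78) (nat_lit 0) (nat_lit 0) (XT.lf (nat_lit 0) (nat_lit 17631122224) (nat_lit 152) (nat_lit 38880609284) (nat_lit 0) (nat_lit 5316834594) (nat_lit 2) (nat_lit 5) (nat_lit 4) (nat_lit 4) (nat_lit 2) (nat_lit 4) (nat_lit 288) (nat_lit 231) (nat_lit 201)) (XT.lf (nat_lit 0) (nat_lit 22242439223) (nat_lit 152) (nat_lit 34481904028) (nat_lit 0) (nat_lit 9827500155) (nat_lit 2) (nat_lit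 5) (nat_lit 4) (nat_lit 4) (nat_lit 2) (nat_lit 4) (nat_lit 289) (nat_lit 231) (nat_lit 200)))) (XT.nd (nat_lit 156) (nat_lit 0) (nat_lit 0) (XT.nd (nat_lit 78) (nat_lit 0) (nat_lit 0) (XT.lf (nat_lit 0) (nat_lit 27171556024) (nat_lit 152) (nat_lit 29820659432) (nat_lit 0) (nat_lit 14663421179) (nat_lit 2) (nat_lit 5) (nat_lit 4) (nat_lit 4) (nat_lit 2) (nat_lit 4) (nat_lit 290) (nat_lit 231) (nat_lit 199)) (XT.lf (nat_lit 0) (nat_lit 32447682206) (nat_lit 152) (nat_lit 24869253306) (nat_lit 0) (nat_lit 19853254975) (nat_lit 2) (nat_lit 5) (nat_lit 4) (nat_lit 4) (nat_lit 2) (nat_lit 4) (nat_lit 291) (nat_lit 231) (nat_lit 198))) (XT.nd (nat_lit 78) (nat_lit 0) (nat_lit 0) (XT.lf (nat_lit 0) (nat_lit 38102083702) (nat_lit 152) (nat_lit 19598343985) (nat_lit 0) (nat_lit 25427756114) (nat_lit 2) (nat_lit 5) (nat_lit 4) (nat_lit 4) (nat_lit 2) (nat_lit 4) (nat_lit 292) (nat_lit 231) (nat_lit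 197)) (XT.nd (nat_lit 78) (nat_lit 0) (nat_lit 0) (XT.lf (nat_lit 0) (nat_lit 44168268078) (nat_lit 152) (nat_lit 13976696450) (nat_lit 0) (nat_lit 31419958678) (nat_lit 2) (nat_lit 5) (nat_lit 4) (nat_lit 4) (nat_lit 2) (nat_lit 4) (nat_lit 293) (nat_lit 231) (nat_lit 196)) (XT.lf (nat_lit 0) (nat_lit 50682183092) (nat_lit 152) (nat_lit 7970997235) (nat_lit 0) (nat_lit 37865372014) (nat_lit 2) (nat_lit 5) (nat_lit 4) (nat_lit 4) (nat_lit 2) (nat_lit 4) (nat_lit 294) (nat_lit 231) (nat_lit 195))))))))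
noncomputable def xc31 : XT := (XT.nd (nat_lit 1404) (nat_lit 0) (nat_lit 0) (XT.nd (nat_lit 702) (nat_lit 0) (nat_lit 0) (XT.nd (nat_lit 312) (nat_lit 0) (nat_lit 0) (XT.nd (nat_lit 156) (nat_lit 0) (nat_lit 0) (XT.nd (nat_lit 78) (nat_lit 76) (nat_lit 0) (XT.lf (nat_lit 0) (nat_lit 57682429723) (nat_lit 152) (nat_lit 1545657011) (nat_lit 0) (nat_lit 44802191165) (nat_lit 2) (nat_lit 5) (nat_lit 4) (nat_lit 4) (nat_lit 2) (nat_lit 4) (nat_lit 295) (nat_lit 231) (nat_lit 194)) (XT.lf (nat_lit 0) (nat_lit 5513878871) (nat_lit 76) (nat_lit 59782699143) (nat_lit 76) (nat_lit 46843731438) (nat_lit 1) (nat_lit 4) (nat_lit 2) (nat_lit 5) (nat_lit 2) (nat_lit 4) (nat_lit 296) (nat_lit 231) (nat_lit 193))) (XT.nd (nat_lit 78) (nat_lit 0) (nat_lit 0) (XT.lf (nat_lit 0) (nat_lit 13139509588) (nat_lit 76) (nat_lit 60376612375) (nat_lit 76) (nat_lit 47383265829) (nat_lit 1) (nat_lit 4) (nat_lit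 2) (nat_lit 5) (nat_lit 2) (nat_lit 4) (nat_lit 297) (nat_lit 231) (nat_lit 192)) (XT.lf (nat_lit 0) (nat_lit 21325317661) (nat_lit 76) (nat_lit 61039522363) (nat_lit 76) (nat_lit 47995825039) (nat_lit 1) (nat_lit 4) (nat_lit 2) (nat_lit 5) (nat_lit 2) (nat_lit 4) (nat_lit 298) (nat_lit 231) (nat_lit 191)))) (XT.nd (nat_lit 156) (nat_lit 0) (nat_lit 0) (XT.nd (nat_lit 78) (nat_lit 0) (nat_lit 0) (XT.lf (nat_lit 0) (nat_lit 30119811582) (nat_lit 76) (nat_lit 61775357465) (nat_lit 76) (nat_lit 48685039050) (nat_lit 1) (nat_lit 4) (nat_lit 2) (nat_lit 5) (nat_lit 2) (nat_lit 4) (nat_lit 299) (nat_lit 231) (nat_lit 190)) (XT.lf (nat_lit 0) (nat_lit 39575106872) (nat_lit 76) (nat_lit 62588478184) (nat_lit 76) (nat_lit 49454992092) (nat_lit 1) (nat_lit 4) (nat_lit 2) (nat_lit 5) (nat_lit 2) (nat_lit 4) (nat_lit 300) (nat_lit 231) (nat_lit 189))) (XT.nd (nat_lit 78) (nat_lit 0) (nat_lit 0)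 (XT.lf (nat_lit 0) (nat_lit 49747234909) (nat_lit 76) (nat_lit 63483703013) (nat_lit 76) (nat_lit 50310246851) (nat_lit 1) (nat_lit 4) (nat_lit 2) (nat_lit 5) (nat_lit 2) (nat_lit 4) (nat_lit 301) (nat_lit 231) (nat_lit 188)) (XT.nd (nat_lit 78) (nat_lit 0) (nat_lit 0) (XT.lf (nat_lit 0) (nat_lit 60696474970) (nat_lit 76) (nat_lit 64466336989) (nat_lit 76) (nat_lit 51255871501) (nat_lit 1) (nat_lit 4) (nat_lit 2) (nat_lit 5) (nat_lit 2) (nat_lit 4) (nat_lit 302) (nat_lit 231) (nat_lit 187)) (XT.lf (nat_lit 0) (nat_lit 72487711442) (nat_lit 76) (nat_lit 65542203128) (nat_lit 76) (nat_lit 52297469746) (nat_lit 1) (nat_lit 4) (nat_lit 2) (nat_lit 5) (nat_lit 2) (nat_lit 4) (nat_lit 303) (nat_lit 231) (nat_lit 186)))))) (XT.nd (nat_lit 312) (nat_lit 0) (nat_lit 0) (XT.nd (nat_lit 156) (nat_lit 0) (nat_lit 0) (XT.nd (nat_lit 78) (nat_lit 0) (nat_lit 0) (XT.lf (nat_lit 0) (nat_lit 85190818317)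 (nat_lit 76) (nat_lit 66717676932) (nat_lit 76) (nat_lit 53441214019) (nat_lit 1) (nat_lit 4) (nat_lit 2) (nat_lit 5) (nat_lit 2) (nat_lit 4) (nat_lit 304) (nat_lit 231) (nat_lit 185)) (XT.lf (nat_lit 0) (nat_lit 98881073267) (nat_lit 76) (nat_lit 67999724172) (nat_lit 76) (nat_lit 54693882064) (nat_lit 1) (nat_lit 4) (nat_lit 2) (nat_lit 5) (nat_lit 2) (nat_lit 4) (nat_lit 305) (nat_lit 231) (nat_lit 184))) (XT.nd (nat_lit 78) (nat_lit 0) (nat_lit 0) (XT.lf (nat_lit 0) (nat_lit 113639603729) (nat_lit 76) (nat_lit 69395942166) (nat_lit 76) (nat_lit 56062897099) (nat_lit 1) (nat_lit 4) (nat_lit 2) (nat_lit 5) (nat_lit 2) (nat_lit 4) (nat_lit 306) (nat_lit 231) (nat_lit 183)) (XT.lf (nat_lit 0) (nat_lit 129553867660) (nat_lit 76) (nat_lit 70914604797) (nat_lit 76) (nat_lit 57556371805) (nat_lit 1) (nat_lit 4) (nat_lit 2) (nat_lit 5) (nat_lit 2) (nat_lit 4) (nat_lit 307) (nat_lit 231) (nat_lit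 182)))) (XT.nd (nat_lit 156) (nat_lit 0) (nat_lit 0) (XT.nd (nat_lit 78) (nat_lit 0) (nat_lit 0) (XT.lf (nat_lit 0) (nat_lit 146718171809) (nat_lit 76) (nat_lit 72564711548) (nat_lit 76) (nat_lit 59183156404) (nat_lit 1) (nat_lit 4) (nat_lit 2) (nat_lit 5) (nat_lit 2) (nat_lit 4) (nat_lit 308) (nat_lit 231) (nat_lit 181)) (XT.lf (nat_lit 0) (nat_lit 165234230573) (nat_lit 76) (nat_lit 74356040830) (nat_lit 76) (nat_lit 60952891100) (nat_lit 1) (nat_lit 4) (nat_lit 2) (nat_lit 5) (nat_lit 2) (nat_lit 4) (nat_lit 309) (nat_lit 231) (nat_lit 180))) (XT.nd (nat_lit 78) (nat_lit 0) (nat_lit 0) (XT.lf (nat_lit 0) (nat_lit 185211768742) (nat_lit 76) (nat_lit 76299207927) (nat_lit 76) (nat_lit 62876063210) (nat_lit 1) (nat_lit 4) (nat_lit 2) (nat_lit 5) (nat_lit 2) (nat_lit 4) (nat_lit 310) (nat_lit 231) (nat_lit 179)) (XT.nd (nat_lit 78) (nat_lit 0) (nat_lit 0) (XT.lf (nat_lit 0) (nat_lit 206769171730)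 (nat_lit 76) (nat_lit 78405727902) (nat_lit 76) (nat_lit 64964069309) (nat_lit 1) (nat_lit 4) (nat_lit 2) (nat_lit 5) (nat_lit 2) (nat_lit 4) (nat_lit 311) (nat_lit 231) (nat_lit 178)) (XT.lf (nat_lit 0) (nat_lit 230034187108) (nat_lit 76) (nat_lit 80688083839) (nat_lit 76) (nat_lit 67229282767) (nat_lit 1) (nat_lit 4) (nat_lit 2) (nat_lit 5) (nat_lit 2) (nat_lit 4) (nat_lit 312) (nat_lit 231) (nat_lit 177))))))) (XT.nd (nat_lit 702) (nat_lit 0) (nat_lit 0) (XT.nd (nat_lit 312) (nat_lit 0) (nat_lit 0) (XT.nd (nat_lit 156) (nat_lit 0) (nat_lit 0) (XT.nd (nat_lit 78) (nat_lit 0) (nat_lit 0) (XT.lf (nat_lit 0) (nat_lit 255144681635) (nat_lit 76) (nat_lit 83159800808) (nat_lit 76) (nat_lit 69685127071) (nat_lit 1) (nat_lit 4) (nat_lit 2) (nat_lit 5) (nat_lit 2) (nat_lit 4) (nat_lit 313) (nat_lit 231) (nat_lit 176)) (XT.lf (nat_lit 0) (nat_lit 282249458242) (nat_lit 76) (nat_lit 85835526022)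 (nat_lit 76) (nat_lit 72346155372) (nat_lit 1) (nat_lit 4) (nat_lit 2) (nat_lit 5) (nat_lit 2) (nat_lit 4) (nat_lit 314) (nat_lit 231) (nat_lit 175))) (XT.nd (nat_lit 78) (nat_lit 0) (nat_lit 0) (XT.lf (nat_lit 0) (nat_lit 311509137826) (nat_lit 76) (nat_lit 88731115629) (nat_lit 76) (nat_lit 75228136728) (nat_lit 1) (nat_lit 4) (nat_lit 2) (nat_lit 5) (nat_lit 2) (nat_lit 4) (nat_lit 315) (nat_lit 231) (nat_lit 174)) (XT.lf (nat_lit 0) (nat_lit 343097111082) (nat_lit 76) (nat_lit 91863728680) (nat_lit 76) (nat_lit 78348149546) (nat_lit 1) (nat_lit 4) (nat_lit 2) (nat_lit 5) (nat_lit 2) (nat_lit 4) (nat_lit 316) (nat_lit 231) (nat_lit 173)))) (XT.nd (nat_lit 156) (nat_lit 0) (nat_lit 0) (XT.nd (nat_lit 78) (nat_lit 0) (nat_lit 0) (XT.lf (nat_lit 0) (nat_lit 377200565999) (nat_lit 76) (nat_lit 95251928808) (nat_lit 76) (nat_lit 81724682790) (nat_lit 1) (nat_lit 4) (nat_lit 2) (nat_lit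 5) (nat_lit 2) (nat_lit 4) (nat_lit 317) (nat_lit 231) (nat_lit 172)) (XT.lf (nat_lit 0) (nat_lit 414021597124) (nat_lit 76) (nat_lit 98915794234) (nat_lit 76) (nat_lit 85377745548) (nat_lit 1) (nat_lit 4) (nat_lit 2) (nat_lit 5) (nat_lit 2) (nat_lit 4) (nat_lit 318) (nat_lit 231) (nat_lit 171))) (XT.nd (nat_lit 78) (nat_lit 0) (nat_lit 0) (XT.lf (nat_lit 0) (nat_lit 453778403162) (nat_lit 76) (nat_lit 102877036755) (nat_lit 76) (nat_lit 89328985597) (nat_lit 1) (nat_lit 4) (nat_lit 2) (nat_lit 5) (nat_lit 2) (nat_lit 4) (nat_lit 319) (nat_lit 231) (nat_lit 170)) (XT.nd (nat_lit 78) (nat_lit 0) (nat_lit 0) (XT.lf (nat_lit 0) (nat_lit 496706579999) (nat_lit 76) (nat_lit 107159130400) (nat_lit 76) (nat_lit 93601817695) (nat_lit 1) (nat_lit 4) (nat_lit 2) (nat_lit 5) (nat_lit 2) (nat_lit 4) (nat_lit 320) (nat_lit 231) (nat_lit 169)) (XT.lf (nat_lit 0) (nat_lit 543060516832) (nat_lit 76)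 (nat_lit 111787450540) (nat_lit 76) (nat_lit 98221562327) (nat_lit 1) (nat_lit 4) (nat_lit 2) (nat_lit 5) (nat_lit 2) (nat_lit 4) (nat_lit 321) (nat_lit 231) (nat_lit 168)))))) (XT.nd (nat_lit 32604) (nat_lit 0) (nat_lit 1292) (XT.nd (nat_lit 32448) (nat_lit 0) (nat_lit 2204) (XT.nd (nat_lit 32370) (nat_lit 0) (nat_lit 2736) (XT.lf (nat_lit 0) (nat_lit 593114903656) (nat_lit 76) (nat_lit 116789424255) (nat_lit 76) (nat_lit 103215595757) (nat_lit 1) (nat_lit 4) (nat_lit 2) (nat_lit 5) (nat_lit 2) (nat_lit 4) (nat_lit 322) (nat_lit 231) (nat_lit 167)) (XT.lf (nat_lit 0) (nat_lit 3522546784) (nat_lit 304) (nat_lit 430830641) (nat_lit 304) (nat_lit 430830641) (nat_lit 37) (nat_lit 4) (nat_lit 41) (nat_lit 5) (nat_lit 41) (nat_lit 4) (nat_lit 256) (nat_lit 232) (nat_lit 232))) (XT.nd (nat_lit 78) (nat_lit 228) (nat_lit 0) (XT.lf (nat_lit 0) (nat_lit 4031065890) (nat_lit 304) (nat_lit 2587047335)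 (nat_lit 0) (nat_lit 2491913927) (nat_lit 33) (nat_lit 5) (nat_lit 37) (nat_lit 4) (nat_lit 33) (nat_lit 4) (nat_lit 257) (nat_lit 232) (nat_lit 231)) (XT.lf (nat_lit 0) (nat_lit 5739229305) (nat_lit 228) (nat_lit 3357131456) (nat_lit 228) (nat_lit 392838787) (nat_lit 30) (nat_lit 4) (nat_lit 33) (nat_lit 5) (nat_lit 33) (nat_lit 4) (nat_lit 258) (nat_lit 232) (nat_lit 230)))) (XT.nd (nat_lit 156) (nat_lit 456) (nat_lit 0) (XT.nd (nat_lit 78) (nat_lit 228) (nat_lit 0) (XT.lf (nat_lit 0) (nat_lit 4327567095) (nat_lit 228) (nat_lit 5330688630) (nat_lit 0) (nat_lit 247693384) (nat_lit 27) (nat_lit 5) (nat_lit 30) (nat_lit 4) (nat_lit 27) (nat_lit 4) (nat_lit 259) (nat_lit 232) (nat_lit 229)) (XT.lf (nat_lit 0) (nat_lit 2961043670) (nat_lit 228) (nat_lit 6322908368) (nat_lit 228) (nat_lit 1079388512) (nat_lit 24) (nat_lit 4) (nat_lit 27) (nat_lit 5) (nat_lit 27) (nat_lit 4) (nat_lit 260)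 (nat_lit 232) (nat_lit 228))) (XT.nd (nat_lit 78) (nat_lit 228) (nat_lit 0) (XT.lf (nat_lit 0) (nat_lit 809644698) (nat_lit 152) (nat_lit 2668703930) (nat_lit 228) (nat_lit 7386118733) (nat_lit 21) (nat_lit 5) (nat_lit 23) (nat_lit 5) (nat_lit 24) (nat_lit 4) (nat_lit 261) (nat_lit 232) (nat_lit 227)) (XT.nd (nat_lit 78) (nat_lit 228) (nat_lit 0) (XT.lf (nat_lit 0) (nat_lit 8240465597) (nat_lit 228) (nat_lit 1901097141) (nat_lit 0) (nat_lit 1270361785) (nat_lit 21) (nat_lit 5) (nat_lit 24) (nat_lit 4) (nat_lit 21) (nat_lit 4) (nat_lit 262) (nat_lit 232) (nat_lit 226)) (XT.lf (nat_lit 0) (nat_lit 1229546178) (nat_lit 228) (nat_lit 5329286362) (nat_lit 76) (nat_lit 5449485695) (nat_lit 18) (nat_lit 5) (nat_lit 21) (nat_lit 5) (nat_lit 19) (nat_lit 4) (nat_lit 263) (nat_lit 232) (nat_lit 225))))))))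
noncomputable def xc32 : XT := (XT.nd (nat_lit 1326) (nat_lit 304) (nat_lit 0) (XT.nd (nat_lit 624) (nat_lit 228) (nat_lit 0) (XT.nd (nat_lit 312) (nat_lit 304) (nat_lit 0) (XT.nd (nat_lit 156) (nat_lit 304) (nat_lit 0) (XT.nd (nat_lit 78) (nat_lit 0) (nat_lit 0) (XT.lf (nat_lit 0) (nat_lit 3038769584) (nat_lit 152) (nat_lit 2670113829) (nat_lit 228) (nat_lit 6949891898) (nat_lit 16) (nat_lit 5) (nat_lit 18) (nat_lit 5) (nat_lit 19) (nat_lit 4) (nat_lit 264) (nat_lit 232) (nat_lit 224)) (XT.lf (nat_lit 0) (nat_lit 10430410162) (nat_lit 228) (nat_lit 1477193652) (nat_lit 0) (nat_lit 1460231933) (nat_lit 16) (nat_lit 5) (nat_lit 19) (nat_lit 4) (nat_lit 16) (nat_lit 4) (nat_lit 265) (nat_lit 232) (nat_lit 223))) (XT.nd (nat_lit 78) (nat_lit 76) (nat_lit 0) (XT.lf (nat_lit 0) (nat_lit 1289569238) (nat_lit 228) (nat_lit 6991680978) (nat_lit 76) (nat_lit 5855039584) (nat_lit 13) (nat_lit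 5) (nat_lit 16) (nat_lit 5) (nat_lit 14) (nat_lit 4) (nat_lit 266) (nat_lit 232) (nat_lit 222)) (XT.lf (nat_lit 0) (nat_lit 1204626383) (nat_lit 76) (nat_lit 4383556965) (nat_lit 152) (nat_lit 9384430133) (nat_lit 12) (nat_lit 5) (nat_lit 13) (nat_lit 5) (nat_lit 14) (nat_lit 4) (nat_lit 267) (nat_lit 232) (nat_lit 221)))) (XT.nd (nat_lit 156) (nat_lit 152) (nat_lit 0) (XT.nd (nat_lit 78) (nat_lit 152) (nat_lit 0) (XT.lf (nat_lit 0) (nat_lit 9992612266) (nat_lit 76) (nat_lit 160555868) (nat_lit 152) (nat_lit 5727124612) (nat_lit 12) (nat_lit 5) (nat_lit 13) (nat_lit 5) (nat_lit 14) (nat_lit 4) (nat_lit 268) (nat_lit 232) (nat_lit 220)) (XT.lf (nat_lit 0) (nat_lit 2330371463) (nat_lit 152) (nat_lit 12671865639) (nat_lit 152) (nat_lit 1862936246) (nat_lit 10) (nat_lit 4) (nat_lit 12) (nat_lit 5) (nat_lit 12) (nat_lit 4) (nat_lit 269) (nat_lit 232) (nat_lit 219))) (XT.nd (nat_lit 78) (nat_lit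 76) (nat_lit 0) (XT.lf (nat_lit 0) (nat_lit 2163147585) (nat_lit 228) (nat_lit 6840079535) (nat_lit 76) (nat_lit 8927946825) (nat_lit 9) (nat_lit 5) (nat_lit 12) (nat_lit 5) (nat_lit 10) (nat_lit 4) (nat_lit 270) (nat_lit 232) (nat_lit 218)) (XT.lf (nat_lit 0) (nat_lit 1207054659) (nat_lit 76) (nat_lit 5091823559) (nat_lit 152) (nat_lit 12789841745) (nat_lit 8) (nat_lit 5) (nat_lit 9) (nat_lit 5) (nat_lit 10) (nat_lit 4) (nat_lit 271) (nat_lit 232) (nat_lit 217))))) (XT.nd (nat_lit 312) (nat_lit 76) (nat_lit 0) (XT.nd (nat_lit 156) (nat_lit 152) (nat_lit 0) (XT.nd (nat_lit 78) (nat_lit 0) (nat_lit 0) (XT.lf (nat_lit 0) (nat_lit 9883580577) (nat_lit 76) (nat_lit 842470900) (nat_lit 152) (nat_lit 9615190631) (nat_lit 8) (nat_lit 5) (nat_lit 9) (nat_lit 5) (nat_lit 10) (nat_lit 4) (nat_lit 272) (nat_lit 232) (nat_lit 216)) (XT.lf (nat_lit 0) (nat_lit 15417630468) (nat_lit 152) (nat_lit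 2743980045) (nat_lit 0) (nat_lit 3537215819) (nat_lit 8) (nat_lit 5) (nat_lit 10) (nat_lit 4) (nat_lit 8) (nat_lit 4) (nat_lit 273) (nat_lit 232) (nat_lit 215))) (XT.nd (nat_lit 78) (nat_lit 76) (nat_lit 0) (XT.lf (nat_lit 0) (nat_lit 5521781030) (nat_lit 76) (nat_lit 14925886890) (nat_lit 76) (nat_lit 2719537119) (nat_lit 7) (nat_lit 4) (nat_lit 8) (nat_lit 5) (nat_lit 8) (nat_lit 4) (nat_lit 274) (nat_lit 232) (nat_lit 214)) (XT.lf (nat_lit 0) (nat_lit 1006602382) (nat_lit 152) (nat_lit 10444606667) (nat_lit 76) (nat_lit 13305487792) (nat_lit 6) (nat_lit 5) (nat_lit 8) (nat_lit 5) (nat_lit 7) (nat_lit 4) (nat_lit 275) (nat_lit 232) (nat_lit 213)))) (XT.nd (nat_lit 156) (nat_lit 0) (nat_lit 0) (XT.nd (nat_lit 78) (nat_lit 76) (nat_lit 0) (XT.lf (nat_lit 0) (nat_lit 4813715362) (nat_lit 152) (nat_lit 2919461891) (nat_lit 76) (nat_lit 18744314690) (nat_lit 6) (nat_lit 5) (nat_lit 8) (nat_lit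 5) (nat_lit 7) (nat_lit 4) (nat_lit 276) (nat_lit 232) (nat_lit 212)) (XT.lf (nat_lit 0) (nat_lit 5182950134) (nat_lit 76) (nat_lit 3709374903) (nat_lit 152) (nat_lit 19445539576) (nat_lit 5) (nat_lit 5) (nat_lit 6) (nat_lit 5) (nat_lit 7) (nat_lit 4) (nat_lit 277) (nat_lit 232) (nat_lit 211))) (XT.nd (nat_lit 78) (nat_lit 0) (nat_lit 0) (XT.lf (nat_lit 0) (nat_lit 13249296908) (nat_lit 152) (nat_lit 16504337559) (nat_lit 0) (nat_lit 596070015) (nat_lit 5) (nat_lit 5) (nat_lit 7) (nat_lit 4) (nat_lit 5) (nat_lit 4) (nat_lit 278) (nat_lit 232) (nat_lit 210)) (XT.nd (nat_lit 78) (nat_lit 0) (nat_lit 0) (XT.lf (nat_lit 0) (nat_lit 17915937871) (nat_lit 152) (nat_lit 9557273150) (nat_lit 0) (nat_lit 5051448152) (nat_lit 5) (nat_lit 5) (nat_lit 7) (nat_lit 4) (nat_lit 5) (nat_lit 4) (nat_lit 279) (nat_lit 232) (nat_lit 209)) (XT.lf (nat_lit 0) (nat_lit 22861988359) (nat_lit 152) (nat_lit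 2214639725) (nat_lit 0) (nat_lit 9801884911) (nat_lit 5) (nat_lit 5) (nat_lit 7) (nat_lit 4) (nat_lit 5) (nat_lit 4) (nat_lit 280) (nat_lit 232) (nat_lit 208))))))) (XT.nd (nat_lit 702) (nat_lit 76) (nat_lit 0) (XT.nd (nat_lit 312) (nat_lit 76) (nat_lit 0) (XT.nd (nat_lit 156) (nat_lit 76) (nat_lit 0) (XT.nd (nat_lit 78) (nat_lit 0) (nat_lit 0) (XT.lf (nat_lit 0) (nat_lit 5751147245) (nat_lit 76) (nat_lit 22455402580) (nat_lit 76) (nat_lit 9214175311) (nat_lit 4) (nat_lit 4) (nat_lit 5) (nat_lit 5) (nat_lit 5) (nat_lit 4) (nat_lit 281) (nat_lit 232) (nat_lit 207)) (XT.lf (nat_lit 0) (nat_lit 14291397717) (nat_lit 76) (nat_lit 19643118122) (nat_lit 76) (nat_lit 6234183610) (nat_lit 4) (nat_lit 4) (nat_lit 5) (nat_lit 5) (nat_lit 5) (nat_lit 4) (nat_lit 282) (nat_lit 232) (nat_lit 206))) (XT.nd (nat_lit 78) (nat_lit 76) (nat_lit 0) (XT.lf (nat_lit 0) (nat_lit 23383494593) (nat_lit 76)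 (nat_lit 16660615316) (nat_lit 76) (nat_lit 3096396320) (nat_lit 4) (nat_lit 4) (nat_lit 5) (nat_lit 5) (nat_lit 5) (nat_lit 4) (nat_lit 283) (nat_lit 232) (nat_lit 205)) (XT.lf (nat_lit 0) (nat_lit 210810506) (nat_lit 152) (nat_lit 13275839387) (nat_lit 76) (nat_lit 32866936279) (nat_lit 3) (nat_lit 5) (nat_lit 5) (nat_lit 5) (nat_lit 4) (nat_lit 4) (nat_lit 284) (nat_lit 232) (nat_lit 204)))) (XT.nd (nat_lit 156) (nat_lit 0) (nat_lit 0) (XT.nd (nat_lit 78) (nat_lit 76) (nat_lit 0) (XT.lf (nat_lit 0) (nat_lit 3608668599) (nat_lit 152) (nat_lit 6443361712) (nat_lit 76) (nat_lit 39772550258) (nat_lit 3) (nat_lit 5) (nat_lit 5) (nat_lit 5) (nat_lit 4) (nat_lit 4) (nat_lit 285) (nat_lit 232) (nat_lit 203)) (XT.lf (nat_lit 0) (nat_lit 856672436) (nat_lit 76) (nat_lit 6373120055) (nat_lit 152) (nat_lit 46346014204) (nat_lit 2) (nat_lit 5) (nat_lit 3) (nat_lit 5) (nat_lit 4) (nat_lit 4) (nat_lit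 286) (nat_lit 232) (nat_lit 202))) (XT.nd (nat_lit 78) (nat_lit 0) (nat_lit 0) (XT.lf (nat_lit 0) (nat_lit 8868965725) (nat_lit 76) (nat_lit 2324939947) (nat_lit 152) (nat_lit 46430675116) (nat_lit 2) (nat_lit 5) (nat_lit 3) (nat_lit 5) (nat_lit 4) (nat_lit 4) (nat_lit 287) (nat_lit 232) (nat_lit 201)) (XT.nd (nat_lit 78) (nat_lit 0) (nat_lit 0) (XT.lf (nat_lit 0) (nat_lit 15451914787) (nat_lit 152) (nat_lit 44603480862) (nat_lit 0) (nat_lit 1943129154) (nat_lit 2) (nat_lit 5) (nat_lit 4) (nat_lit 4) (nat_lit 2) (nat_lit 4) (nat_lit 288) (nat_lit 232) (nat_lit 200)) (XT.lf (nat_lit 0) (nat_lit 20038661806) (nat_lit 152) (nat_lit 40247735741) (nat_lit 0) (nat_lit 6436680397) (nat_lit 2) (nat_lit 5) (nat_lit 4) (nat_lit 4) (nat_lit 2) (nat_lit 4) (nat_lit 289) (nat_lit 232) (nat_lit 199)))))) (XT.nd (nat_lit 312) (nat_lit 76) (nat_lit 0) (XT.nd (nat_lit 156) (nat_lit 0) (nat_lit 0) (XT.nd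 (nat_lit 78) (nat_lit 0) (nat_lit 0) (XT.lf (nat_lit 0) (nat_lit 24945028624) (nat_lit 152) (nat_lit 35626269048) (nat_lit 0) (nat_lit 11256754829) (nat_lit 2) (nat_lit 5) (nat_lit 4) (nat_lit 4) (nat_lit 2) (nat_lit 4) (nat_lit 290) (nat_lit 232) (nat_lit 198)) (XT.lf (nat_lit 0) (nat_lit 30200090008) (nat_lit 152) (nat_lit 30711694314) (nat_lit 0) (nat_lit 16431915856) (nat_lit 2) (nat_lit 5) (nat_lit 4) (nat_lit 4) (nat_lit 2) (nat_lit 4) (nat_lit 291) (nat_lit 232) (nat_lit 197))) (XT.nd (nat_lit 78) (nat_lit 0) (nat_lit 0) (XT.lf (nat_lit 0) (nat_lit 35834987062) (nat_lit 152) (nat_lit 25474888133) (nat_lit 0) (nat_lit 21992831098) (nat_lit 2) (nat_lit 5) (nat_lit 4) (nat_lit 4) (nat_lit 2) (nat_lit 4) (nat_lit 292) (nat_lit 232) (nat_lit 196)) (XT.lf (nat_lit 0) (nat_lit 41883111769) (nat_lit 152) (nat_lit 19884817581) (nat_lit 0) (nat_lit 27972454127) (nat_lit 2) (nat_lit 5) (nat_lit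 4) (nat_lit 4) (nat_lit 2) (nat_lit 4) (nat_lit 293) (nat_lit 232) (nat_lit 195)))) (XT.nd (nat_lit 156) (nat_lit 76) (nat_lit 0) (XT.nd (nat_lit 78) (nat_lit 0) (nat_lit 0) (XT.lf (nat_lit 0) (nat_lit 48380304867) (nat_lit 152) (nat_lit 13908356312) (nat_lit 0) (nat_lit 34406219746) (nat_lit 2) (nat_lit 5) (nat_lit 4) (nat_lit 4) (nat_lit 2) (nat_lit 4) (nat_lit 294) (nat_lit 232) (nat_lit 194)) (XT.lf (nat_lit 0) (nat_lit 55365068243) (nat_lit 152) (nat_lit 7510088259) (nat_lit 0) (nat_lit 41332253973) (nat_lit 2) (nat_lit 5) (nat_lit 4) (nat_lit 4) (nat_lit 2) (nat_lit 4) (nat_lit 295) (nat_lit 232) (nat_lit 193))) (XT.nd (nat_lit 78) (nat_lit 76) (nat_lit 0) (XT.lf (nat_lit 0) (nat_lit 62878793085) (nat_lit 152) (nat_lit 652097762) (nat_lit 0) (nat_lit 48791599975) (nat_lit 2) (nat_lit 5) (nat_lit 4) (nat_lit 4) (nat_lit 2) (nat_lit 4) (nat_lit 296) (nat_lit 232) (nat_lit 192)) (XT.nd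 (nat_lit 78) (nat_lit 0) (nat_lit 0) (XT.lf (nat_lit 0) (nat_lit 6927994205) (nat_lit 76) (nat_lit 64146176371) (nat_lit 76) (nat_lit 50008632483) (nat_lit 1) (nat_lit 4) (nat_lit 2) (nat_lit 5) (nat_lit 2) (nat_lit 4) (nat_lit 297) (nat_lit 232) (nat_lit 191)) (XT.lf (nat_lit 0) (nat_lit 15091600933) (nat_lit 76) (nat_lit 64818649972) (nat_lit 76) (nat_lit 50634484993) (nat_lit 1) (nat_lit 4) (nat_lit 2) (nat_lit 5) (nat_lit 2) (nat_lit 4) (nat_lit 298) (nat_lit 232) (nat_lit 190))))))))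
noncomputable def xc33 : XT := (XT.nd (nat_lit 1326) (nat_lit 0) (nat_lit 0) (XT.nd (nat_lit 624) (nat_lit 0) (nat_lit 0) (XT.nd (nat_lit 312) (nat_lit 0) (nat_lit 0) (XT.nd (nat_lit 156) (nat_lit 0) (nat_lit 0) (XT.nd (nat_lit 78) (nat_lit 0) (nat_lit 0) (XT.lf (nat_lit 0) (nat_lit 23865538053) (nat_lit 76) (nat_lit 65563340271) (nat_lit 76) (nat_lit 51336007615) (nat_lit 1) (nat_lit 4) (nat_lit 2) (nat_lit 5) (nat_lit 2) (nat_lit 4) (nat_lit 299) (nat_lit 232) (nat_lit 189)) (XT.lf (nat_lit 0) (nat_lit 33301799268) (nat_lit 76) (nat_lit 66384660246) (nat_lit 76) (nat_lit 52117357519) (nat_lit 1) (nat_lit 4) (nat_lit 2) (nat_lit 5) (nat_lit 2) (nat_lit 4) (nat_lit 300) (nat_lit 232) (nat_lit 188))) (XT.nd (nat_lit 78) (nat_lit 0) (nat_lit 0) (XT.lf (nat_lit 0) (nat_lit 43456303161) (nat_lit 76) (nat_lit 67287476979) (nat_lit 76) (nat_lit 52983164927) (nat_lit 1) (nat_lit 4) (nat_lit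 2) (nat_lit 5) (nat_lit 2) (nat_lit 4) (nat_lit 301) (nat_lit 232) (nat_lit 187)) (XT.lf (nat_lit 0) (nat_lit 54389224571) (nat_lit 76) (nat_lit 68277140496) (nat_lit 76) (nat_lit 53938560550) (nat_lit 1) (nat_lit 4) (nat_lit 2) (nat_lit 5) (nat_lit 2) (nat_lit 4) (nat_lit 302) (nat_lit 232) (nat_lit 186)))) (XT.nd (nat_lit 156) (nat_lit 0) (nat_lit 0) (XT.nd (nat_lit 78) (nat_lit 0) (nat_lit 0) (XT.lf (nat_lit 0) (nat_lit 66165351181) (nat_lit 76) (nat_lit 69359515468) (nat_lit 76) (nat_lit 54989205991) (nat_lit 1) (nat_lit 4) (nat_lit 2) (nat_lit 5) (nat_lit 2) (nat_lit 4) (nat_lit 303) (nat_lit 232) (nat_lit 185)) (XT.lf (nat_lit 0) (nat_lit 78854467443) (nat_lit 76) (nat_lit 70541015970) (nat_lit 76) (nat_lit 56141327298) (nat_lit 1) (nat_lit 4) (nat_lit 2) (nat_lit 5) (nat_lit 2) (nat_lit 4) (nat_lit 304) (nat_lit 232) (nat_lit 184))) (XT.nd (nat_lit 78) (nat_lit 0) (nat_lit 0)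 (XT.lf (nat_lit 0) (nat_lit 92531768122) (nat_lit 76) (nat_lit 71828643486) (nat_lit 76) (nat_lit 57401751855) (nat_lit 1) (nat_lit 4) (nat_lit 2) (nat_lit 5) (nat_lit 2) (nat_lit 4) (nat_lit 305) (nat_lit 232) (nat_lit 183)) (XT.lf (nat_lit 0) (nat_lit 107278303887) (nat_lit 76) (nat_lit 73230028402) (nat_lit 76) (nat_lit 58777948846) (nat_lit 1) (nat_lit 4) (nat_lit 2) (nat_lit 5) (nat_lit 2) (nat_lit 4) (nat_lit 306) (nat_lit 232) (nat_lit 182))))) (XT.nd (nat_lit 312) (nat_lit 0) (nat_lit 0) (XT.nd (nat_lit 156) (nat_lit 0) (nat_lit 0) (XT.nd (nat_lit 78) (nat_lit 0) (nat_lit 0) (XT.lf (nat_lit 0) (nat_lit 123181461618) (nat_lit 76) (nat_lit 74753475221) (nat_lit 76) (nat_lit 60278073512) (nat_lit 1) (nat_lit 4) (nat_lit 2) (nat_lit 5) (nat_lit 2) (nat_lit 4) (nat_lit 307) (nat_lit 232) (nat_lit 181)) (XT.lf (nat_lit 0) (nat_lit 140335482249) (nat_lit 76) (nat_lit 76408011775) (nat_lit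 76) (nat_lit 61911015481) (nat_lit 1) (nat_lit 4) (nat_lit 2) (nat_lit 5) (nat_lit 2) (nat_lit 4) (nat_lit 308) (nat_lit 232) (nat_lit 180))) (XT.nd (nat_lit 78) (nat_lit 0) (nat_lit 0) (XT.lf (nat_lit 0) (nat_lit 158842019236) (nat_lit 76) (nat_lit 78203442726) (nat_lit 76) (nat_lit 63686451445) (nat_lit 1) (nat_lit 4) (nat_lit 2) (nat_lit 5) (nat_lit 2) (nat_lit 4) (nat_lit 309) (nat_lit 232) (nat_lit 179)) (XT.lf (nat_lit 0) (nat_lit 178810740946) (nat_lit 76) (nat_lit 80150407665) (nat_lit 76) (nat_lit 65614902507) (nat_lit 1) (nat_lit 4) (nat_lit 2) (nat_lit 5) (nat_lit 2) (nat_lit 4) (nat_lit 310) (nat_lit 232) (nat_lit 178)))) (XT.nd (nat_lit 156) (nat_lit 0) (nat_lit 0) (XT.nd (nat_lit 78) (nat_lit 0) (nat_lit 0) (XT.lf (nat_lit 0) (nat_lit 200359980545) (nat_lit 76) (nat_lit 82260444161) (nat_lit 76) (nat_lit 67707796525) (nat_lit 1) (nat_lit 4) (nat_lit 2) (nat_lit 5) (nat_lit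 2) (nat_lit 4) (nat_lit 311) (nat_lit 232) (nat_lit 177)) (XT.lf (nat_lit 0) (nat_lit 223617437231) (nat_lit 76) (nat_lit 84546056135) (nat_lit 76) (nat_lit 69977535834) (nat_lit 1) (nat_lit 4) (nat_lit 2) (nat_lit 5) (nat_lit 2) (nat_lit 4) (nat_lit 312) (nat_lit 232) (nat_lit 176))) (XT.nd (nat_lit 78) (nat_lit 0) (nat_lit 0) (XT.lf (nat_lit 0) (nat_lit 248720932968) (nat_lit 76) (nat_lit 87020787954) (nat_lit 76) (nat_lit 72437570740) (nat_lit 1) (nat_lit 4) (nat_lit 2) (nat_lit 5) (nat_lit 2) (nat_lit 4) (nat_lit 313) (nat_lit 232) (nat_lit 175)) (XT.nd (nat_lit 78) (nat_lit 0) (nat_lit 0) (XT.lf (nat_lit 0) (nat_lit 275819229214) (nat_lit 76) (nat_lit 89699304695) (nat_lit 76) (nat_lit 75102479229) (nat_lit 1) (nat_lit 4) (nat_lit 2) (nat_lit 5) (nat_lit 2) (nat_lit 4) (nat_lit 314) (nat_lit 232) (nat_lit 174)) (XT.lf (nat_lit 0) (nat_lit 305072908464) (nat_lit 76) (nat_lit 92597479050)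 (nat_lit 76) (nat_lit 77988053351) (nat_lit 1) (nat_lit 4) (nat_lit 2) (nat_lit 5) (nat_lit 2) (nat_lit 4) (nat_lit 315) (nat_lit 232) (nat_lit 173))))))) (XT.nd (nat_lit 32838) (nat_lit 0) (nat_lit 1140) (XT.nd (nat_lit 312) (nat_lit 0) (nat_lit 0) (XT.nd (nat_lit 156) (nat_lit 0) (nat_lit 0) (XT.nd (nat_lit 78) (nat_lit 0) (nat_lit 0) (XT.lf (nat_lit 0) (nat_lit 336655325854) (nat_lit 76) (nat_lit 95732485386) (nat_lit 76) (nat_lit 81111392804) (nat_lit 1) (nat_lit 4) (nat_lit 2) (nat_lit 5) (nat_lit 2) (nat_lit 4) (nat_lit 316) (nat_lit 232) (nat_lit 172)) (XT.lf (nat_lit 0) (nat_lit 370753636452) (nat_lit 76) (nat_lit 99122901517) (nat_lit 76) (nat_lit 84491006266) (nat_lit 1) (nat_lit 4) (nat_lit 2) (nat_lit 5) (nat_lit 2) (nat_lit 4) (nat_lit 317) (nat_lit 232) (nat_lit 171))) (XT.nd (nat_lit 78) (nat_lit 0) (nat_lit 0) (XT.lf (nat_lit 0) (nat_lit 407569904319) (nat_lit 76) (nat_lit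 102788818800) (nat_lit 76) (nat_lit 88146921077) (nat_lit 1) (nat_lit 4) (nat_lit 2) (nat_lit 5) (nat_lit 2) (nat_lit 4) (nat_lit 318) (nat_lit 232) (nat_lit 170)) (XT.lf (nat_lit 0) (nat_lit 447322299932) (nat_lit 76) (nat_lit 106751961187) (nat_lit 76) (nat_lit 92100801917) (nat_lit 1) (nat_lit 4) (nat_lit 2) (nat_lit 5) (nat_lit 2) (nat_lit 4) (nat_lit 319) (nat_lit 232) (nat_lit 169)))) (XT.nd (nat_lit 156) (nat_lit 0) (nat_lit 0) (XT.nd (nat_lit 78) (nat_lit 0) (nat_lit 0) (XT.lf (nat_lit 0) (nat_lit 490246393042) (nat_lit 76) (nat_lit 111035813968) (nat_lit 76) (nat_lit 96376079191) (nat_lit 1) (nat_lit 4) (nat_lit 2) (nat_lit 5) (nat_lit 2) (nat_lit 4) (nat_lit 320) (nat_lit 232) (nat_lit 168)) (XT.lf (nat_lit 0) (nat_lit 536596548647) (nat_lit 76) (nat_lit 115665762937) (nat_lit 76) (nat_lit 100998087875) (nat_lit 1) (nat_lit 4) (nat_lit 2) (nat_lit 5) (nat_lit 2) (nat_lit 4)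 (nat_lit 321) (nat_lit 232) (nat_lit 167))) (XT.nd (nat_lit 32214) (nat_lit 0) (nat_lit 3040) (XT.lf (nat_lit 0) (nat_lit 586647434334) (nat_lit 76) (nat_lit 120669244827) (nat_lit 76) (nat_lit 105994217651) (nat_lit 1) (nat_lit 4) (nat_lit 2) (nat_lit 5) (nat_lit 2) (nat_lit 4) (nat_lit 322) (nat_lit 232) (nat_lit 166)) (XT.nd (nat_lit 78) (nat_lit 304) (nat_lit 0) (XT.lf (nat_lit 0) (nat_lit 3801781189) (nat_lit 304) (nat_lit 142764794) (nat_lit 304) (nat_lit 142764794) (nat_lit 45) (nat_lit 4) (nat_lit 49) (nat_lit 5) (nat_lit 49) (nat_lit 4) (nat_lit 254) (nat_lit 233) (nat_lit 233)) (XT.lf (nat_lit 0) (nat_lit 4518646905) (nat_lit 304) (nat_lit 1166808779) (nat_lit 0) (nat_lit 2773248579) (nat_lit 41) (nat_lit 5) (nat_lit 45) (nat_lit 4) (nat_lit 41) (nat_lit 4) (nat_lit 255) (nat_lit 233) (nat_lit 232)))))) (XT.nd (nat_lit 312) (nat_lit 836) (nat_lit 0) (XT.nd (nat_lit 156) (nat_lit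 456) (nat_lit 0) (XT.nd (nat_lit 78) (nat_lit 228) (nat_lit 0) (XT.lf (nat_lit 0) (nat_lit 691433789) (nat_lit 380) (nat_lit 1944068618) (nat_lit 76) (nat_lit 6141206545) (nat_lit 36) (nat_lit 5) (nat_lit 41) (nat_lit 5) (nat_lit 37) (nat_lit 4) (nat_lit 256) (nat_lit 233) (nat_lit 231)) (XT.lf (nat_lit 0) (nat_lit 5369638438) (nat_lit 304) (nat_lit 3015018317) (nat_lit 0) (nat_lit 743061649) (nat_lit 33) (nat_lit 5) (nat_lit 37) (nat_lit 4) (nat_lit 33) (nat_lit 4) (nat_lit 257) (nat_lit 233) (nat_lit 230))) (XT.nd (nat_lit 78) (nat_lit 152) (nat_lit 0) (XT.lf (nat_lit 0) (nat_lit 741086737) (nat_lit 304) (nat_lit 4426923705) (nat_lit 76) (nat_lit 4346656864) (nat_lit 29) (nat_lit 5) (nat_lit 33) (nat_lit 5) (nat_lit 30) (nat_lit 4) (nat_lit 258) (nat_lit 233) (nat_lit 229)) (XT.lf (nat_lit 0) (nat_lit 3680160219) (nat_lit 152) (nat_lit 1611615481) (nat_lit 228) (nat_lit 4647782740)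 (nat_lit 27) (nat_lit 5) (nat_lit 29) (nat_lit 5) (nat_lit 30) (nat_lit 4) (nat_lit 259) (nat_lit 233) (nat_lit 228)))) (XT.nd (nat_lit 156) (nat_lit 532) (nat_lit 0) (XT.nd (nat_lit 78) (nat_lit 76) (nat_lit 0) (XT.lf (nat_lit 0) (nat_lit 1835818680) (nat_lit 228) (nat_lit 8237265024) (nat_lit 228) (nat_lit 333167301) (nat_lit 24) (nat_lit 4) (nat_lit 27) (nat_lit 5) (nat_lit 27) (nat_lit 4) (nat_lit 260) (nat_lit 233) (nat_lit 227)) (XT.lf (nat_lit 0) (nat_lit 4060183952) (nat_lit 304) (nat_lit 578359633) (nat_lit 76) (nat_lit 6275759414) (nat_lit 23) (nat_lit 5) (nat_lit 27) (nat_lit 5) (nat_lit 24) (nat_lit 4) (nat_lit 261) (nat_lit 233) (nat_lit 226))) (XT.nd (nat_lit 78) (nat_lit 380) (nat_lit 0) (XT.lf (nat_lit 0) (nat_lit 7950832199) (nat_lit 152) (nat_lit 720537928) (nat_lit 228) (nat_lit 2798383433) (nat_lit 21) (nat_lit 5) (nat_lit 23) (nat_lit 5) (nat_lit 24) (nat_lit 4)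 (nat_lit 262) (nat_lit 233) (nat_lit 225)) (XT.nd (nat_lit 78) (nat_lit 152) (nat_lit 0) (XT.lf (nat_lit 0) (nat_lit 1435013569) (nat_lit 228) (nat_lit 7230404293) (nat_lit 76) (nat_lit 3408615594) (nat_lit 18) (nat_lit 5) (nat_lit 21) (nat_lit 5) (nat_lit 19) (nat_lit 4) (nat_lit 263) (nat_lit 233) (nat_lit 224)) (XT.lf (nat_lit 0) (nat_lit 905943419) (nat_lit 152) (nat_lit 4865944999) (nat_lit 228) (nat_lit 6960090100) (nat_lit 16) (nat_lit 5) (nat_lit 18) (nat_lit 5) (nat_lit 19) (nat_lit 4) (nat_lit 264) (nat_lit 233) (nat_lit 223))))))))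
noncomputable def xc34 : XT := (XT.nd (nat_lit 1326) (nat_lit 228) (nat_lit 0) (XT.nd (nat_lit 624) (nat_lit 304) (nat_lit 0) (XT.nd (nat_lit 312) (nat_lit 304) (nat_lit 0) (XT.nd (nat_lit 156) (nat_lit 76) (nat_lit 0) (XT.nd (nat_lit 78) (nat_lit 228) (nat_lit 0) (XT.lf (nat_lit 0) (nat_lit 9626204287) (nat_lit 152) (nat_lit 740140980) (nat_lit 228) (nat_lit 3081385021) (nat_lit 16) (nat_lit 5) (nat_lit 18) (nat_lit 5) (nat_lit 19) (nat_lit 4) (nat_lit 265) (nat_lit 233) (nat_lit 222)) (XT.lf (nat_lit 0) (nat_lit 999285702) (nat_lit 228) (nat_lit 9638557313) (nat_lit 76) (nat_lit 3586298209) (nat_lit 13) (nat_lit 5) (nat_lit 16) (nat_lit 5) (nat_lit 14) (nat_lit 4) (nat_lit 266) (nat_lit 233) (nat_lit 221))) (XT.nd (nat_lit 78) (nat_lit 76) (nat_lit 0) (XT.lf (nat_lit 0) (nat_lit 5185625228) (nat_lit 228) (nat_lit 1626794213) (nat_lit 76) (nat_lit 8253935042) (nat_lit 13) (nat_lit 5)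 (nat_lit 16) (nat_lit 5) (nat_lit 14) (nat_lit 4) (nat_lit 267) (nat_lit 233) (nat_lit 220)) (XT.lf (nat_lit 0) (nat_lit 6967758301) (nat_lit 76) (nat_lit 2667889350) (nat_lit 152) (nat_lit 6344389631) (nat_lit 12) (nat_lit 5) (nat_lit 13) (nat_lit 5) (nat_lit 14) (nat_lit 4) (nat_lit 268) (nat_lit 233) (nat_lit 219)))) (XT.nd (nat_lit 156) (nat_lit 76) (nat_lit 0) (XT.nd (nat_lit 78) (nat_lit 228) (nat_lit 0) (XT.lf (nat_lit 0) (nat_lit 14326298750) (nat_lit 152) (nat_lit 962575120) (nat_lit 0) (nat_lit 1684201405) (nat_lit 12) (nat_lit 5) (nat_lit 14) (nat_lit 4) (nat_lit 12) (nat_lit 4) (nat_lit 269) (nat_lit 233) (nat_lit 218)) (XT.lf (nat_lit 0) (nat_lit 1308379703) (nat_lit 228) (nat_lit 10391032556) (nat_lit 76) (nat_lit 6345284830) (nat_lit 9) (nat_lit 5) (nat_lit 12) (nat_lit 5) (nat_lit 10) (nat_lit 4) (nat_lit 270) (nat_lit 233) (nat_lit 217))) (XT.nd (nat_lit 78) (nat_lit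 76) (nat_lit 0) (XT.lf (nat_lit 0) (nat_lit 5350972733) (nat_lit 228) (nat_lit 2502896109) (nat_lit 76) (nat_lit 11353224249) (nat_lit 9) (nat_lit 5) (nat_lit 12) (nat_lit 5) (nat_lit 10) (nat_lit 4) (nat_lit 271) (nat_lit 233) (nat_lit 216)) (XT.lf (nat_lit 0) (nat_lit 5975739193) (nat_lit 76) (nat_lit 3691450969) (nat_lit 152) (nat_lit 10798151663) (nat_lit 8) (nat_lit 5) (nat_lit 9) (nat_lit 5) (nat_lit 10) (nat_lit 4) (nat_lit 272) (nat_lit 233) (nat_lit 215))))) (XT.nd (nat_lit 312) (nat_lit 152) (nat_lit 0) (XT.nd (nat_lit 156) (nat_lit 76) (nat_lit 0) (XT.nd (nat_lit 78) (nat_lit 76) (nat_lit 0) (XT.lf (nat_lit 0) (nat_lit 14248286699) (nat_lit 152) (nat_lit 6840835203) (nat_lit 0) (nat_lit 739493824) (nat_lit 8) (nat_lit 5) (nat_lit 10) (nat_lit 4) (nat_lit 8) (nat_lit 4) (nat_lit 273) (nat_lit 233) (nat_lit 214)) (XT.lf (nat_lit 0) (nat_lit 1184824876) (nat_lit 76) (nat_lit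 17964674374) (nat_lit 76) (nat_lit 4154089719) (nat_lit 7) (nat_lit 4) (nat_lit 8) (nat_lit 5) (nat_lit 8) (nat_lit 4) (nat_lit 274) (nat_lit 233) (nat_lit 213))) (XT.nd (nat_lit 78) (nat_lit 76) (nat_lit 0) (XT.lf (nat_lit 0) (nat_lit 9895292002) (nat_lit 76) (nat_lit 14545834452) (nat_lit 76) (nat_lit 455812964) (nat_lit 7) (nat_lit 4) (nat_lit 8) (nat_lit 5) (nat_lit 8) (nat_lit 4) (nat_lit 275) (nat_lit 233) (nat_lit 212)) (XT.lf (nat_lit 0) (nat_lit 3311084684) (nat_lit 152) (nat_lit 7561035693) (nat_lit 76) (nat_lit 15748835343) (nat_lit 6) (nat_lit 5) (nat_lit 8) (nat_lit 5) (nat_lit 7) (nat_lit 4) (nat_lit 276) (nat_lit 233) (nat_lit 211)))) (XT.nd (nat_lit 156) (nat_lit 76) (nat_lit 0) (XT.nd (nat_lit 78) (nat_lit 0) (nat_lit 0) (XT.lf (nat_lit 0) (nat_lit 300238350) (nat_lit 76) (nat_lit 6962478572) (nat_lit 152) (nat_lit 21225076232) (nat_lit 5) (nat_lit 5) (nat_lit 6) (nat_lit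 5) (nat_lit 7) (nat_lit 4) (nat_lit 277) (nat_lit 233) (nat_lit 210)) (XT.lf (nat_lit 0) (nat_lit 8891577104) (nat_lit 76) (nat_lit 2670244560) (nat_lit 152) (nat_lit 18940812023) (nat_lit 5) (nat_lit 5) (nat_lit 6) (nat_lit 5) (nat_lit 7) (nat_lit 4) (nat_lit 278) (nat_lit 233) (nat_lit 209))) (XT.nd (nat_lit 78) (nat_lit 76) (nat_lit 0) (XT.lf (nat_lit 0) (nat_lit 16141617938) (nat_lit 152) (nat_lit 14699319547) (nat_lit 0) (nat_lit 1841092488) (nat_lit 5) (nat_lit 5) (nat_lit 7) (nat_lit 4) (nat_lit 5) (nat_lit 4) (nat_lit 279) (nat_lit 233) (nat_lit 208)) (XT.nd (nat_lit 78) (nat_lit 76) (nat_lit 0) (XT.lf (nat_lit 0) (nat_lit 21045858529) (nat_lit 152) (nat_lit 7427998505) (nat_lit 0) (nat_lit 6564209256) (nat_lit 5) (nat_lit 5) (nat_lit 7) (nat_lit 4) (nat_lit 5) (nat_lit 4) (nat_lit 280) (nat_lit 233) (nat_lit 207)) (XT.lf (nat_lit 0) (nat_lit 297198045) (nat_lit 76) (nat_lit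 25969357650) (nat_lit 76) (nat_lit 11320001134) (nat_lit 4) (nat_lit 4) (nat_lit 5) (nat_lit 5) (nat_lit 5) (nat_lit 4) (nat_lit 281) (nat_lit 233) (nat_lit 206))))))) (XT.nd (nat_lit 702) (nat_lit 76) (nat_lit 0) (XT.nd (nat_lit 312) (nat_lit 76) (nat_lit 0) (XT.nd (nat_lit 156) (nat_lit 76) (nat_lit 0) (XT.nd (nat_lit 78) (nat_lit 0) (nat_lit 0) (XT.lf (nat_lit 0) (nat_lit 8774288117) (nat_lit 76) (nat_lit 23183402234) (nat_lit 76) (nat_lit 8378761235) (nat_lit 4) (nat_lit 4) (nat_lit 5) (nat_lit 5) (nat_lit 5) (nat_lit 4) (nat_lit 282) (nat_lit 233) (nat_lit 205)) (XT.lf (nat_lit 0) (nat_lit 17807903139) (nat_lit 76) (nat_lit 20225278172) (nat_lit 76) (nat_lit 5276855242) (nat_lit 4) (nat_lit 4) (nat_lit 5) (nat_lit 5) (nat_lit 5) (nat_lit 4) (nat_lit 283) (nat_lit 233) (nat_lit 204))) (XT.nd (nat_lit 78) (nat_lit 76) (nat_lit 0) (XT.lf (nat_lit 0) (nat_lit 27451575646) (nat_lit 76)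 (nat_lit 17077455837) (nat_lit 76) (nat_lit 1995901491) (nat_lit 4) (nat_lit 4) (nat_lit 5) (nat_lit 5) (nat_lit 5) (nat_lit 4) (nat_lit 284) (nat_lit 233) (nat_lit 203)) (XT.lf (nat_lit 0) (nat_lit 1436060074) (nat_lit 152) (nat_lit 12260901023) (nat_lit 76) (nat_lit 36302072879) (nat_lit 3) (nat_lit 5) (nat_lit 5) (nat_lit 5) (nat_lit 4) (nat_lit 4) (nat_lit 285) (nat_lit 233) (nat_lit 202)))) (XT.nd (nat_lit 156) (nat_lit 0) (nat_lit 0) (XT.nd (nat_lit 78) (nat_lit 76) (nat_lit 0) (XT.lf (nat_lit 0) (nat_lit 5016236835) (nat_lit 152) (nat_lit 5035677395) (nat_lit 76) (nat_lit 43700448444) (nat_lit 3) (nat_lit 5) (nat_lit 5) (nat_lit 5) (nat_lit 4) (nat_lit 4) (nat_lit 286) (nat_lit 233) (nat_lit 201)) (XT.lf (nat_lit 0) (nat_lit 2764781588) (nat_lit 76) (nat_lit 6108110366) (nat_lit 152) (nat_lit 48933668840) (nat_lit 2) (nat_lit 5) (nat_lit 3) (nat_lit 5) (nat_lit 4) (nat_lit 4)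 (nat_lit 287) (nat_lit 233) (nat_lit 200))) (XT.nd (nat_lit 78) (nat_lit 0) (nat_lit 0) (XT.lf (nat_lit 0) (nat_lit 11281793499) (nat_lit 76) (nat_lit 1793472833) (nat_lit 152) (nat_lit 49108067551) (nat_lit 2) (nat_lit 5) (nat_lit 3) (nat_lit 5) (nat_lit 4) (nat_lit 4) (nat_lit 288) (nat_lit 233) (nat_lit 199)) (XT.nd (nat_lit 78) (nat_lit 0) (nat_lit 0) (XT.lf (nat_lit 0) (nat_lit 17611262233) (nat_lit 152) (nat_lit 46557572029) (nat_lit 0) (nat_lit 2741634148) (nat_lit 2) (nat_lit 5) (nat_lit 4) (nat_lit 4) (nat_lit 2) (nat_lit 4) (nat_lit 289) (nat_lit 233) (nat_lit 198)) (XT.lf (nat_lit 0) (nat_lit 22496564253) (nat_lit 152) (nat_lit 41972936728) (nat_lit 0) (nat_lit 7547035812) (nat_lit 2) (nat_lit 5) (nat_lit 4) (nat_lit 4) (nat_lit 2) (nat_lit 4) (nat_lit 290) (nat_lit 233) (nat_lit 197)))))) (XT.nd (nat_lit 312) (nat_lit 76) (nat_lit 0) (XT.nd (nat_lit 156) (nat_lit 0) (nat_lit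 0) (XT.nd (nat_lit 78) (nat_lit 0) (nat_lit 0) (XT.lf (nat_lit 0) (nat_lit 27732121194) (nat_lit 152) (nat_lit 37092465135) (nat_lit 0) (nat_lit 12708610941) (nat_lit 2) (nat_lit 5) (nat_lit 4) (nat_lit 4) (nat_lit 2) (nat_lit 4) (nat_lit 291) (nat_lit 233) (nat_lit 196)) (XT.lf (nat_lit 0) (nat_lit 33348958579) (nat_lit 152) (nat_lit 31887235936) (nat_lit 0) (nat_lit 18256946648) (nat_lit 2) (nat_lit 5) (nat_lit 4) (nat_lit 4) (nat_lit 2) (nat_lit 4) (nat_lit 292) (nat_lit 233) (nat_lit 195))) (XT.nd (nat_lit 78) (nat_lit 0) (nat_lit 0) (XT.lf (nat_lit 0) (nat_lit 39380361370) (nat_lit 152) (nat_lit 26326403329) (nat_lit 0) (nat_lit 24224921959) (nat_lit 2) (nat_lit 5) (nat_lit 4) (nat_lit 4) (nat_lit 2) (nat_lit 4) (nat_lit 293) (nat_lit 233) (nat_lit 194)) (XT.lf (nat_lit 0) (nat_lit 45862071213) (nat_lit 152) (nat_lit 20377014232) (nat_lit 0) (nat_lit 30647902655) (nat_lit 2) (nat_lit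 5) (nat_lit 4) (nat_lit 4) (nat_lit 2) (nat_lit 4) (nat_lit 294) (nat_lit 233) (nat_lit 193)))) (XT.nd (nat_lit 156) (nat_lit 76) (nat_lit 0) (XT.nd (nat_lit 78) (nat_lit 0) (nat_lit 0) (XT.lf (nat_lit 0) (nat_lit 52832498241) (nat_lit 152) (nat_lit 14003813007) (nat_lit 0) (nat_lit 37563950842) (nat_lit 2) (nat_lit 5) (nat_lit 4) (nat_lit 4) (nat_lit 2) (nat_lit 4) (nat_lit 295) (nat_lit 233) (nat_lit 192)) (XT.lf (nat_lit 0) (nat_lit 60332948687) (nat_lit 152) (nat_lit 7169032533) (nat_lit 0) (nat_lit 45014050510) (nat_lit 2) (nat_lit 5) (nat_lit 4) (nat_lit 4) (nat_lit 2) (nat_lit 4) (nat_lit 296) (nat_lit 233) (nat_lit 191))) (XT.nd (nat_lit 78) (nat_lit 0) (nat_lit 0) (XT.lf (nat_lit 0) (nat_lit 173378793) (nat_lit 76) (nat_lit 68237197801) (nat_lit 76) (nat_lit 52871678533) (nat_lit 1) (nat_lit 4) (nat_lit 2) (nat_lit 5) (nat_lit 2) (nat_lit 4) (nat_lit 297) (nat_lit 233) (nat_lit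 190)) (XT.nd (nat_lit 78) (nat_lit 0) (nat_lit 0) (XT.lf (nat_lit 0) (nat_lit 8316428721) (nat_lit 76) (nat_lit 68918526599) (nat_lit 76) (nat_lit 53509839654) (nat_lit 1) (nat_lit 4) (nat_lit 2) (nat_lit 5) (nat_lit 2) (nat_lit 4) (nat_lit 298) (nat_lit 233) (nat_lit 189)) (XT.lf (nat_lit 0) (nat_lit 17071331766) (nat_lit 76) (nat_lit 69671416154) (nat_lit 76) (nat_lit 54222759138) (nat_lit 1) (nat_lit 4) (nat_lit 2) (nat_lit 5) (nat_lit 2) (nat_lit 4) (nat_lit 299) (nat_lit 233) (nat_lit 188))))))))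
noncomputable def xc35 : XT := (XT.nd (nat_lit 1326) (nat_lit 0) (nat_lit 0) (XT.nd (nat_lit 624) (nat_lit 0) (nat_lit 0) (XT.nd (nat_lit 312) (nat_lit 0) (nat_lit 0) (XT.nd (nat_lit 156) (nat_lit 0) (nat_lit 0) (XT.nd (nat_lit 78) (nat_lit 0) (nat_lit 0) (XT.lf (nat_lit 0) (nat_lit 26489968837) (nat_lit 76) (nat_lit 70500328033) (nat_lit 76) (nat_lit 55014661691) (nat_lit 1) (nat_lit 4) (nat_lit 2) (nat_lit 5) (nat_lit 2) (nat_lit 4) (nat_lit 300) (nat_lit 233) (nat_lit 187)) (XT.lf (nat_lit 0) (nat_lit 36628154079) (nat_lit 76) (nat_lit 71410174307) (nat_lit 76) (nat_lit 55890240072) (nat_lit 1) (nat_lit 4) (nat_lit 2) (nat_lit 5) (nat_lit 2) (nat_lit 4) (nat_lit 301) (nat_lit 233) (nat_lit 186))) (XT.nd (nat_lit 78) (nat_lit 0) (nat_lit 0) (XT.lf (nat_lit 0) (nat_lit 47545965627) (nat_lit 76) (nat_lit 72406346657) (nat_lit 76) (nat_lit 56854682891) (nat_lit 1) (nat_lit 4) (nat_lit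 2) (nat_lit 5) (nat_lit 2) (nat_lit 4) (nat_lit 302) (nat_lit 233) (nat_lit 185)) (XT.lf (nat_lit 0) (nat_lit 59308101623) (nat_lit 76) (nat_lit 73494748328) (nat_lit 76) (nat_lit 57913705366) (nat_lit 1) (nat_lit 4) (nat_lit 2) (nat_lit 5) (nat_lit 2) (nat_lit 4) (nat_lit 303) (nat_lit 233) (nat_lit 184)))) (XT.nd (nat_lit 156) (nat_lit 0) (nat_lit 0) (XT.nd (nat_lit 78) (nat_lit 0) (nat_lit 0) (XT.lf (nat_lit 0) (nat_lit 71984263614) (nat_lit 76) (nat_lit 74681829106) (nat_lit 76) (nat_lit 59073583185) (nat_lit 1) (nat_lit 4) (nat_lit 2) (nat_lit 5) (nat_lit 2) (nat_lit 4) (nat_lit 304) (nat_lit 233) (nat_lit 183)) (XT.lf (nat_lit 0) (nat_lit 85649569597) (nat_lit 76) (nat_lit 75974623544) (nat_lit 76) (nat_lit 60341189699) (nat_lit 1) (nat_lit 4) (nat_lit 2) (nat_lit 5) (nat_lit 2) (nat_lit 4) (nat_lit 305) (nat_lit 233) (nat_lit 182))) (XT.nd (nat_lit 78) (nat_lit 0) (nat_lit 0)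 (XT.lf (nat_lit 0) (nat_lit 100384999163) (nat_lit 76) (nat_lit 77380792647) (nat_lit 76) (nat_lit 61724036649) (nat_lit 1) (nat_lit 4) (nat_lit 2) (nat_lit 5) (nat_lit 2) (nat_lit 4) (nat_lit 306) (nat_lit 233) (nat_lit 181)) (XT.lf (nat_lit 0) (nat_lit 116277873375) (nat_lit 76) (nat_lit 78908669269) (nat_lit 76) (nat_lit 63230318685) (nat_lit 1) (nat_lit 4) (nat_lit 2) (nat_lit 5) (nat_lit 2) (nat_lit 4) (nat_lit 307) (nat_lit 233) (nat_lit 180))))) (XT.nd (nat_lit 312) (nat_lit 0) (nat_lit 0) (XT.nd (nat_lit 156) (nat_lit 0) (nat_lit 0) (XT.nd (nat_lit 78) (nat_lit 0) (nat_lit 0) (XT.lf (nat_lit 0) (nat_lit 133422372230) (nat_lit 76) (nat_lit 80567307493) (nat_lit 76) (nat_lit 64868961922) (nat_lit 1) (nat_lit 4) (nat_lit 2) (nat_lit 5) (nat_lit 2) (nat_lit 4) (nat_lit 308) (nat_lit 233) (nat_lit 179)) (XT.lf (nat_lit 0) (nat_lit 151920092757) (nat_lit 76) (nat_lit 82366536286) (nat_lit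 76) (nat_lit 66649676839) (nat_lit 1) (nat_lit 4) (nat_lit 2) (nat_lit 5) (nat_lit 2) (nat_lit 4) (nat_lit 309) (nat_lit 233) (nat_lit 178))) (XT.nd (nat_lit 78) (nat_lit 0) (nat_lit 0) (XT.lf (nat_lit 0) (nat_lit 171880651079) (nat_lit 76) (nat_lit 84317017745) (nat_lit 76) (nat_lit 68583015819) (nat_lit 1) (nat_lit 4) (nat_lit 2) (nat_lit 5) (nat_lit 2) (nat_lit 4) (nat_lit 310) (nat_lit 233) (nat_lit 177)) (XT.lf (nat_lit 0) (nat_lit 193422331985) (nat_lit 76) (nat_lit 86430310279) (nat_lit 76) (nat_lit 70680435688) (nat_lit 1) (nat_lit 4) (nat_lit 2) (nat_lit 5) (nat_lit 2) (nat_lit 4) (nat_lit 311) (nat_lit 233) (nat_lit 176)))) (XT.nd (nat_lit 156) (nat_lit 0) (nat_lit 0) (XT.nd (nat_lit 78) (nat_lit 0) (nat_lit 0) (XT.lf (nat_lit 0) (nat_lit 216672789881) (nat_lit 76) (nat_lit 88718937102) (nat_lit 76) (nat_lit 72954365599) (nat_lit 1) (nat_lit 4) (nat_lit 2) (nat_lit 5) (nat_lit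 2) (nat_lit 4) (nat_lit 312) (nat_lit 233) (nat_lit 175)) (XT.lf (nat_lit 0) (nat_lit 241769805257) (nat_lit 76) (nat_lit 91196460448) (nat_lit 76) (nat_lit 75418280693) (nat_lit 1) (nat_lit 4) (nat_lit 2) (nat_lit 5) (nat_lit 2) (nat_lit 4) (nat_lit 313) (nat_lit 233) (nat_lit 174))) (XT.nd (nat_lit 78) (nat_lit 0) (nat_lit 0) (XT.lf (nat_lit 0) (nat_lit 268862101168) (nat_lit 76) (nat_lit 93877561936) (nat_lit 76) (nat_lit 78086781948) (nat_lit 1) (nat_lit 4) (nat_lit 2) (nat_lit 5) (nat_lit 2) (nat_lit 4) (nat_lit 314) (nat_lit 233) (nat_lit 173)) (XT.nd (nat_lit 78) (nat_lit 0) (nat_lit 0) (XT.lf (nat_lit 0) (nat_lit 298110224553) (nat_lit 76) (nat_lit 96778129576) (nat_lit 76) (nat_lit 80975682705) (nat_lit 1) (nat_lit 4) (nat_lit 2) (nat_lit 5) (nat_lit 2) (nat_lit 4) (nat_lit 315) (nat_lit 233) (nat_lit 172)) (XT.lf (nat_lit 0) (nat_lit 329687497624) (nat_lit 76) (nat_lit 99915351916)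 (nat_lit 76) (nat_lit 84102102376) (nat_lit 1) (nat_lit 4) (nat_lit 2) (nat_lit 5) (nat_lit 2) (nat_lit 4) (nat_lit 316) (nat_lit 233) (nat_lit 171))))))) (XT.nd (nat_lit 32682) (nat_lit 0) (nat_lit 1292) (XT.nd (nat_lit 312) (nat_lit 0) (nat_lit 0) (XT.nd (nat_lit 156) (nat_lit 0) (nat_lit 0) (XT.nd (nat_lit 78) (nat_lit 0) (nat_lit 0) (XT.lf (nat_lit 0) (nat_lit 363781044963) (nat_lit 76) (nat_lit 103307819904) (nat_lit 76) (nat_lit 87484567892) (nat_lit 1) (nat_lit 4) (nat_lit 2) (nat_lit 5) (nat_lit 2) (nat_lit 4) (nat_lit 317) (nat_lit 233) (nat_lit 170)) (XT.lf (nat_lit 0) (nat_lit 400592902406) (nat_lit 76) (nat_lit 106975637053) (nat_lit 76) (nat_lit 91143123494) (nat_lit 1) (nat_lit 4) (nat_lit 2) (nat_lit 5) (nat_lit 2) (nat_lit 4) (nat_lit 318) (nat_lit 233) (nat_lit 169))) (XT.nd (nat_lit 78) (nat_lit 0) (nat_lit 0) (XT.lf (nat_lit 0) (nat_lit 440341214292) (nat_lit 76) (nat_lit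 110940538576) (nat_lit 76) (nat_lit 95099449510) (nat_lit 1) (nat_lit 4) (nat_lit 2) (nat_lit 5) (nat_lit 2) (nat_lit 4) (nat_lit 319) (nat_lit 233) (nat_lit 168)) (XT.lf (nat_lit 0) (nat_lit 483261526174) (nat_lit 76) (nat_lit 115226020187) (nat_lit 76) (nat_lit 99376990836) (nat_lit 1) (nat_lit 4) (nat_lit 2) (nat_lit 5) (nat_lit 2) (nat_lit 4) (nat_lit 320) (nat_lit 233) (nat_lit 167)))) (XT.nd (nat_lit 32136) (nat_lit 0) (nat_lit 3268) (XT.nd (nat_lit 78) (nat_lit 0) (nat_lit 0) (XT.lf (nat_lit 0) (nat_lit 529608180641) (nat_lit 76) (nat_lit 119857477330) (nat_lit 76) (nat_lit 104001095865) (nat_lit 1) (nat_lit 4) (nat_lit 2) (nat_lit 5) (nat_lit 2) (nat_lit 4) (nat_lit 321) (nat_lit 233) (nat_lit 166)) (XT.lf (nat_lit 0) (nat_lit 579655824534) (nat_lit 76) (nat_lit 124862355680) (nat_lit 76) (nat_lit 108999166700) (nat_lit 1) (nat_lit 4) (nat_lit 2) (nat_lit 5) (nat_lit 2) (nat_lit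 4) (nat_lit 322) (nat_lit 233) (nat_lit 165))) (XT.nd (nat_lit 78) (nat_lit 380) (nat_lit 0) (XT.lf (nat_lit 0) (nat_lit 76662639) (nat_lit 380) (nat_lit 3688840956) (nat_lit 0) (nat_lit 76662639) (nat_lit 49) (nat_lit 5) (nat_lit 54) (nat_lit 4) (nat_lit 49) (nat_lit 4) (nat_lit 252) (nat_lit 234) (nat_lit 234)) (XT.nd (nat_lit 78) (nat_lit 380) (nat_lit 0) (XT.lf (nat_lit 0) (nat_lit 4849981382) (nat_lit 380) (nat_lit 197585984) (nat_lit 0) (nat_lit 2870699681) (nat_lit 49) (nat_lit 5) (nat_lit 54) (nat_lit 4) (nat_lit 49) (nat_lit 4) (nat_lit 253) (nat_lit 234) (nat_lit 233)) (XT.lf (nat_lit 0) (nat_lit 1473116875) (nat_lit 380) (nat_lit 792060349) (nat_lit 76) (nat_lit 5917329904) (nat_lit 44) (nat_lit 5) (nat_lit 49) (nat_lit 5) (nat_lit 45) (nat_lit 4) (nat_lit 254) (nat_lit 234) (nat_lit 232)))))) (XT.nd (nat_lit 312) (nat_lit 836) (nat_lit 0) (XT.nd (nat_lit 156) (nat_lit 532)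 (nat_lit 0) (XT.nd (nat_lit 78) (nat_lit 380) (nat_lit 0) (XT.lf (nat_lit 0) (nat_lit 6076167087) (nat_lit 304) (nat_lit 1570991100) (nat_lit 0) (nat_lit 829629008) (nat_lit 41) (nat_lit 5) (nat_lit 45) (nat_lit 4) (nat_lit 41) (nat_lit 4) (nat_lit 255) (nat_lit 234) (nat_lit 231)) (XT.lf (nat_lit 0) (nat_lit 2023104836) (nat_lit 380) (nat_lit 2595570905) (nat_lit 76) (nat_lit 4183563009) (nat_lit 36) (nat_lit 5) (nat_lit 41) (nat_lit 5) (nat_lit 37) (nat_lit 4) (nat_lit 256) (nat_lit 234) (nat_lit 230))) (XT.nd (nat_lit 78) (nat_lit 304) (nat_lit 0) (XT.lf (nat_lit 0) (nat_lit 5268948899) (nat_lit 228) (nat_lit 1266386799) (nat_lit 304) (nat_lit 2626881452) (nat_lit 33) (nat_lit 5) (nat_lit 36) (nat_lit 5) (nat_lit 37) (nat_lit 4) (nat_lit 257) (nat_lit 234) (nat_lit 229)) (XT.lf (nat_lit 0) (nat_lit 1662802394) (nat_lit 304) (nat_lit 5554501909) (nat_lit 76) (nat_lit 2340233621) (nat_lit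 29) (nat_lit 5) (nat_lit 33) (nat_lit 5) (nat_lit 30) (nat_lit 4) (nat_lit 258) (nat_lit 234) (nat_lit 228)))) (XT.nd (nat_lit 156) (nat_lit 380) (nat_lit 0) (XT.nd (nat_lit 78) (nat_lit 304) (nat_lit 0) (XT.lf (nat_lit 0) (nat_lit 2336019226) (nat_lit 152) (nat_lit 3727682571) (nat_lit 228) (nat_lit 3926764017) (nat_lit 27) (nat_lit 5) (nat_lit 29) (nat_lit 5) (nat_lit 30) (nat_lit 4) (nat_lit 259) (nat_lit 234) (nat_lit 227)) (XT.lf (nat_lit 0) (nat_lit 191669045) (nat_lit 304) (nat_lit 10218593144) (nat_lit 76) (nat_lit 56264459) (nat_lit 23) (nat_lit 5) (nat_lit 27) (nat_lit 5) (nat_lit 24) (nat_lit 4) (nat_lit 260) (nat_lit 234) (nat_lit 226))) (XT.nd (nat_lit 78) (nat_lit 380) (nat_lit 0) (XT.lf (nat_lit 0) (nat_lit 4455966748) (nat_lit 304) (nat_lit 2400522680) (nat_lit 76) (nat_lit 4124195494) (nat_lit 23) (nat_lit 5) (nat_lit 27) (nat_lit 5) (nat_lit 24) (nat_lit 4) (nat_lit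 261) (nat_lit 234) (nat_lit 225)) (XT.nd (nat_lit 78) (nat_lit 228) (nat_lit 0) (XT.lf (nat_lit 0) (nat_lit 5906955527) (nat_lit 152) (nat_lit 3018666275) (nat_lit 228) (nat_lit 2618003994) (nat_lit 21) (nat_lit 5) (nat_lit 23) (nat_lit 5) (nat_lit 24) (nat_lit 4) (nat_lit 262) (nat_lit 234) (nat_lit 224)) (XT.lf (nat_lit 0) (nat_lit 1429859327) (nat_lit 228) (nat_lit 9623576170) (nat_lit 76) (nat_lit 1103682271) (nat_lit 18) (nat_lit 5) (nat_lit 21) (nat_lit 5) (nat_lit 19) (nat_lit 4) (nat_lit 263) (nat_lit 234) (nat_lit 223))))))))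
noncomputable def xc36 : XT := (XT.nd (nat_lit 1326) (nat_lit 304) (nat_lit 0) (XT.nd (nat_lit 624) (nat_lit 304) (nat_lit 0) (XT.nd (nat_lit 312) (nat_lit 304) (nat_lit 0) (XT.nd (nat_lit 156) (nat_lit 228) (nat_lit 0) (XT.nd (nat_lit 78) (nat_lit 152) (nat_lit 0) (XT.lf (nat_lit 0) (nat_lit 5651513016) (nat_lit 228) (nat_lit 1667561782) (nat_lit 76) (nat_lit 5502086928) (nat_lit 18) (nat_lit 5) (nat_lit 21) (nat_lit 5) (nat_lit 19) (nat_lit 4) (nat_lit 264) (nat_lit 234) (nat_lit 222)) (XT.lf (nat_lit 0) (nat_lit 6852801427) (nat_lit 152) (nat_lit 3270422492) (nat_lit 228) (nat_lit 3420139688) (nat_lit 16) (nat_lit 5) (nat_lit 18) (nat_lit 5) (nat_lit 19) (nat_lit 4) (nat_lit 265) (nat_lit 234) (nat_lit 221))) (XT.nd (nat_lit 78) (nat_lit 0) (nat_lit 0) (XT.lf (nat_lit 0) (nat_lit 491368144) (nat_lit 228) (nat_lit 12800840240) (nat_lit 76) (nat_lit 1037106712) (nat_lit 13) (nat_lit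 5) (nat_lit 16) (nat_lit 5) (nat_lit 14) (nat_lit 4) (nat_lit 266) (nat_lit 234) (nat_lit 220)) (XT.lf (nat_lit 0) (nat_lit 4591164161) (nat_lit 228) (nat_lit 4924251858) (nat_lit 76) (nat_lit 5660694928) (nat_lit 13) (nat_lit 5) (nat_lit 16) (nat_lit 5) (nat_lit 14) (nat_lit 4) (nat_lit 267) (nat_lit 234) (nat_lit 219)))) (XT.nd (nat_lit 156) (nat_lit 228) (nat_lit 0) (XT.nd (nat_lit 78) (nat_lit 0) (nat_lit 0) (XT.lf (nat_lit 0) (nat_lit 3431971626) (nat_lit 76) (nat_lit 5473878540) (nat_lit 152) (nat_lit 7190946897) (nat_lit 12) (nat_lit 5) (nat_lit 13) (nat_lit 5) (nat_lit 14) (nat_lit 4) (nat_lit 268) (nat_lit 234) (nat_lit 218)) (XT.lf (nat_lit 0) (nat_lit 12383513848) (nat_lit 76) (nat_lit 1109756565) (nat_lit 152) (nat_lit 3601945164) (nat_lit 12) (nat_lit 5) (nat_lit 13) (nat_lit 5) (nat_lit 14) (nat_lit 4) (nat_lit 269) (nat_lit 234) (nat_lit 217))) (XT.nd (nat_lit 78) (nat_lit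 0) (nat_lit 0) (XT.lf (nat_lit 0) (nat_lit 230702827) (nat_lit 228) (nat_lit 14476419895) (nat_lit 76) (nat_lit 3468307395) (nat_lit 9) (nat_lit 5) (nat_lit 12) (nat_lit 5) (nat_lit 10) (nat_lit 4) (nat_lit 270) (nat_lit 234) (nat_lit 216)) (XT.lf (nat_lit 0) (nat_lit 4204506876) (nat_lit 228) (nat_lit 6699732022) (nat_lit 76) (nat_lit 8437205467) (nat_lit 9) (nat_lit 5) (nat_lit 12) (nat_lit 5) (nat_lit 10) (nat_lit 4) (nat_lit 271) (nat_lit 234) (nat_lit 215))))) (XT.nd (nat_lit 312) (nat_lit 152) (nat_lit 0) (XT.nd (nat_lit 156) (nat_lit 76) (nat_lit 0) (XT.nd (nat_lit 78) (nat_lit 0) (nat_lit 0) (XT.lf (nat_lit 0) (nat_lit 1533531775) (nat_lit 76) (nat_lit 6854143723) (nat_lit 152) (nat_lit 12218835596) (nat_lit 8) (nat_lit 5) (nat_lit 9) (nat_lit 5) (nat_lit 10) (nat_lit 4) (nat_lit 272) (nat_lit 234) (nat_lit 214)) (XT.lf (nat_lit 0) (nat_lit 10459388315) (nat_lit 76) (nat_lit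 2436939822) (nat_lit 152) (nat_lit 9077232345) (nat_lit 8) (nat_lit 5) (nat_lit 9) (nat_lit 5) (nat_lit 10) (nat_lit 4) (nat_lit 273) (nat_lit 234) (nat_lit 213))) (XT.nd (nat_lit 78) (nat_lit 76) (nat_lit 0) (XT.lf (nat_lit 0) (nat_lit 17684408810) (nat_lit 152) (nat_lit 3582174676) (nat_lit 0) (nat_lit 2187748770) (nat_lit 8) (nat_lit 5) (nat_lit 10) (nat_lit 4) (nat_lit 8) (nat_lit 4) (nat_lit 274) (nat_lit 234) (nat_lit 212)) (XT.lf (nat_lit 0) (nat_lit 4920137245) (nat_lit 76) (nat_lit 17944326668) (nat_lit 76) (nat_lit 2188928819) (nat_lit 7) (nat_lit 4) (nat_lit 8) (nat_lit 5) (nat_lit 8) (nat_lit 4) (nat_lit 275) (nat_lit 234) (nat_lit 211)))) (XT.nd (nat_lit 156) (nat_lit 76) (nat_lit 0) (XT.nd (nat_lit 78) (nat_lit 0) (nat_lit 0) (XT.lf (nat_lit 0) (nat_lit 1582694738) (nat_lit 152) (nat_lit 12750445679) (nat_lit 76) (nat_lit 12448274680) (nat_lit 6) (nat_lit 5) (nat_lit 8)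 (nat_lit 5) (nat_lit 7) (nat_lit 4) (nat_lit 276) (nat_lit 234) (nat_lit 210)) (XT.lf (nat_lit 0) (nat_lit 5482653653) (nat_lit 152) (nat_lit 4977355871) (nat_lit 76) (nat_lit 18190933982) (nat_lit 6) (nat_lit 5) (nat_lit 8) (nat_lit 5) (nat_lit 7) (nat_lit 4) (nat_lit 277) (nat_lit 234) (nat_lit 209))) (XT.nd (nat_lit 78) (nat_lit 0) (nat_lit 0) (XT.lf (nat_lit 0) (nat_lit 3374249048) (nat_lit 76) (nat_lit 6282550621) (nat_lit 152) (nat_lit 21015331665) (nat_lit 5) (nat_lit 5) (nat_lit 6) (nat_lit 5) (nat_lit 7) (nat_lit 4) (nat_lit 278) (nat_lit 234) (nat_lit 208)) (XT.nd (nat_lit 78) (nat_lit 0) (nat_lit 0) (XT.lf (nat_lit 0) (nat_lit 12426969596) (nat_lit 76) (nat_lit 1738562054) (nat_lit 152) (nat_lit 18689641184) (nat_lit 5) (nat_lit 5) (nat_lit 6) (nat_lit 5) (nat_lit 7) (nat_lit 4) (nat_lit 279) (nat_lit 234) (nat_lit 207)) (XT.lf (nat_lit 0) (nat_lit 19003915548) (nat_lit 152)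 (nat_lit 13195768355) (nat_lit 0) (nat_lit 3014903268) (nat_lit 5) (nat_lit 5) (nat_lit 7) (nat_lit 4) (nat_lit 5) (nat_lit 4) (nat_lit 280) (nat_lit 234) (nat_lit 206))))))) (XT.nd (nat_lit 702) (nat_lit 76) (nat_lit 0) (XT.nd (nat_lit 312) (nat_lit 152) (nat_lit 0) (XT.nd (nat_lit 156) (nat_lit 0) (nat_lit 0) (XT.nd (nat_lit 78) (nat_lit 76) (nat_lit 0) (XT.lf (nat_lit 0) (nat_lit 24184127372) (nat_lit 152) (nat_lit 5541222871) (nat_lit 0) (nat_lit 8039830608) (nat_lit 5) (nat_lit 5) (nat_lit 7) (nat_lit 4) (nat_lit 5) (nat_lit 4) (nat_lit 281) (nat_lit 234) (nat_lit 205)) (XT.lf (nat_lit 0) (nat_lit 2694167493) (nat_lit 76) (nat_lit 27057616862) (nat_lit 76) (nat_lit 10769538168) (nat_lit 4) (nat_lit 4) (nat_lit 5) (nat_lit 5) (nat_lit 5) (nat_lit 4) (nat_lit 282) (nat_lit 234) (nat_lit 204))) (XT.nd (nat_lit 78) (nat_lit 0) (nat_lit 0) (XT.lf (nat_lit 0) (nat_lit 11673632652) (nat_lit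 76) (nat_lit 24122065709) (nat_lit 76) (nat_lit 7700855599) (nat_lit 4) (nat_lit 4) (nat_lit 5) (nat_lit 5) (nat_lit 5) (nat_lit 4) (nat_lit 283) (nat_lit 234) (nat_lit 203)) (XT.lf (nat_lit 0) (nat_lit 21267166395) (nat_lit 76) (nat_lit 20995144218) (nat_lit 76) (nat_lit 4450664278) (nat_lit 4) (nat_lit 4) (nat_lit 5) (nat_lit 5) (nat_lit 5) (nat_lit 4) (nat_lit 284) (nat_lit 234) (nat_lit 202)))) (XT.nd (nat_lit 156) (nat_lit 76) (nat_lit 0) (XT.nd (nat_lit 78) (nat_lit 76) (nat_lit 0) (XT.lf (nat_lit 0) (nat_lit 31531619295) (nat_lit 76) (nat_lit 17658322483) (nat_lit 76) (nat_lit 999703811) (nat_lit 4) (nat_lit 4) (nat_lit 5) (nat_lit 5) (nat_lit 5) (nat_lit 4) (nat_lit 285) (nat_lit 234) (nat_lit 201)) (XT.lf (nat_lit 0) (nat_lit 2586940016) (nat_lit 152) (nat_lit 11461075648) (nat_lit 76) (nat_lit 39897066640) (nat_lit 3) (nat_lit 5) (nat_lit 5) (nat_lit 5) (nat_lit 4) (nat_lit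 4) (nat_lit 286) (nat_lit 234) (nat_lit 200))) (XT.nd (nat_lit 78) (nat_lit 76) (nat_lit 0) (XT.lf (nat_lit 0) (nat_lit 6376790537) (nat_lit 152) (nat_lit 3789737645) (nat_lit 76) (nat_lit 47836139810) (nat_lit 3) (nat_lit 5) (nat_lit 5) (nat_lit 5) (nat_lit 4) (nat_lit 4) (nat_lit 287) (nat_lit 234) (nat_lit 199)) (XT.nd (nat_lit 78) (nat_lit 0) (nat_lit 0) (XT.lf (nat_lit 0) (nat_lit 4563103481) (nat_lit 76) (nat_lit 5932442242) (nat_lit 152) (nat_lit 51888120149) (nat_lit 2) (nat_lit 5) (nat_lit 3) (nat_lit 5) (nat_lit 4) (nat_lit 4) (nat_lit 288) (nat_lit 234) (nat_lit 198)) (XT.lf (nat_lit 0) (nat_lit 13644651207) (nat_lit 76) (nat_lit 1321842370) (nat_lit 152) (nat_lit 52147599809) (nat_lit 2) (nat_lit 5) (nat_lit 3) (nat_lit 5) (nat_lit 4) (nat_lit 4) (nat_lit 289) (nat_lit 234) (nat_lit 197)))))) (XT.nd (nat_lit 312) (nat_lit 76) (nat_lit 0) (XT.nd (nat_lit 156) (nat_lit 0) (nat_lit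 0) (XT.nd (nat_lit 78) (nat_lit 0) (nat_lit 0) (XT.lf (nat_lit 0) (nat_lit 19811653491) (nat_lit 152) (nat_lit 48898272355) (nat_lit 0) (nat_lit 3512280606) (nat_lit 2) (nat_lit 5) (nat_lit 4) (nat_lit 4) (nat_lit 2) (nat_lit 4) (nat_lit 290) (nat_lit 234) (nat_lit 196)) (XT.lf (nat_lit 0) (nat_lit 25029150764) (nat_lit 152) (nat_lit 44049377743) (nat_lit 0) (nat_lit 8661276200) (nat_lit 2) (nat_lit 5) (nat_lit 4) (nat_lit 4) (nat_lit 2) (nat_lit 4) (nat_lit 291) (nat_lit 234) (nat_lit 195))) (XT.nd (nat_lit 78) (nat_lit 0) (nat_lit 0) (XT.lf (nat_lit 0) (nat_lit 30629266233) (nat_lit 152) (nat_lit 38873386490) (nat_lit 0) (nat_lit 14197964190) (nat_lit 2) (nat_lit 5) (nat_lit 4) (nat_lit 4) (nat_lit 2) (nat_lit 4) (nat_lit 292) (nat_lit 234) (nat_lit 194)) (XT.lf (nat_lit 0) (nat_lit 36645185769) (nat_lit 152) (nat_lit 33339626056) (nat_lit 0) (nat_lit 20155154578) (nat_lit 2) (nat_lit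 5) (nat_lit 4) (nat_lit 4) (nat_lit 2) (nat_lit 4) (nat_lit 293) (nat_lit 234) (nat_lit 193)))) (XT.nd (nat_lit 156) (nat_lit 76) (nat_lit 0) (XT.nd (nat_lit 78) (nat_lit 0) (nat_lit 0) (XT.lf (nat_lit 0) (nat_lit 43112559264) (nat_lit 152) (nat_lit 27415303786) (nat_lit 0) (nat_lit 26568149233) (nat_lit 2) (nat_lit 5) (nat_lit 4) (nat_lit 4) (nat_lit 2) (nat_lit 4) (nat_lit 294) (nat_lit 234) (nat_lit 192)) (XT.lf (nat_lit 0) (nat_lit 50069711896) (nat_lit 152) (nat_lit 21065312584) (nat_lit 0) (nat_lit 33474951086) (nat_lit 2) (nat_lit 5) (nat_lit 4) (nat_lit 4) (nat_lit 2) (nat_lit 4) (nat_lit 295) (nat_lit 234) (nat_lit 191))) (XT.nd (nat_lit 78) (nat_lit 76) (nat_lit 0) (XT.lf (nat_lit 0) (nat_lit 57557871235) (nat_lit 152) (nat_lit 14252022874) (nat_lit 0) (nat_lit 40916489334) (nat_lit 2) (nat_lit 5) (nat_lit 4) (nat_lit 4) (nat_lit 2) (nat_lit 4) (nat_lit 296) (nat_lit 234) (nat_lit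 190)) (XT.nd (nat_lit 78) (nat_lit 76) (nat_lit 0) (XT.lf (nat_lit 0) (nat_lit 65621411559) (nat_lit 152) (nat_lit 6935059606) (nat_lit 0) (nat_lit 48936861981) (nat_lit 2) (nat_lit 5) (nat_lit 4) (nat_lit 4) (nat_lit 2) (nat_lit 4) (nat_lit 297) (nat_lit 234) (nat_lit 189)) (XT.lf (nat_lit 0) (nat_lit 959651856) (nat_lit 76) (nat_lit 73363447809) (nat_lit 76) (nat_lit 56638928160) (nat_lit 1) (nat_lit 4) (nat_lit 2) (nat_lit 5) (nat_lit 2) (nat_lit 4) (nat_lit 298) (nat_lit 234) (nat_lit 188))))))))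
noncomputable def xc37 : XT := (XT.nd (nat_lit 1326) (nat_lit 0) (nat_lit 0) (XT.nd (nat_lit 624) (nat_lit 0) (nat_lit 0) (XT.nd (nat_lit 312) (nat_lit 0) (nat_lit 0) (XT.nd (nat_lit 156) (nat_lit 0) (nat_lit 0) (XT.nd (nat_lit 78) (nat_lit 0) (nat_lit 0) (XT.lf (nat_lit 0) (nat_lit 9696930758) (nat_lit 76) (nat_lit 74123929268) (nat_lit 76) (nat_lit 57362400294) (nat_lit 1) (nat_lit 4) (nat_lit 2) (nat_lit 5) (nat_lit 2) (nat_lit 4) (nat_lit 299) (nat_lit 234) (nat_lit 187)) (XT.lf (nat_lit 0) (nat_lit 19099249178) (nat_lit 76) (nat_lit 74959870687) (nat_lit 76) (nat_lit 58164073820) (nat_lit 1) (nat_lit 4) (nat_lit 2) (nat_lit 5) (nat_lit 2) (nat_lit 4) (nat_lit 300) (nat_lit 234) (nat_lit 186))) (XT.nd (nat_lit 78) (nat_lit 0) (nat_lit 0) (XT.lf (nat_lit 0) (nat_lit 29222324557) (nat_lit 76) (nat_lit 75876225795) (nat_lit 76) (nat_lit 59048699397) (nat_lit 1) (nat_lit 4) (nat_lit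 2) (nat_lit 5) (nat_lit 2) (nat_lit 4) (nat_lit 301) (nat_lit 234) (nat_lit 185)) (XT.lf (nat_lit 0) (nat_lit 40126145492) (nat_lit 76) (nat_lit 76878424844) (nat_lit 76) (nat_lit 60021519249) (nat_lit 1) (nat_lit 4) (nat_lit 2) (nat_lit 5) (nat_lit 2) (nat_lit 4) (nat_lit 302) (nat_lit 234) (nat_lit 184)))) (XT.nd (nat_lit 156) (nat_lit 0) (nat_lit 0) (XT.nd (nat_lit 78) (nat_lit 0) (nat_lit 0) (XT.lf (nat_lit 0) (nat_lit 51875327216) (nat_lit 76) (nat_lit 77972406790) (nat_lit 76) (nat_lit 61088298237) (nat_lit 1) (nat_lit 4) (nat_lit 2) (nat_lit 5) (nat_lit 2) (nat_lit 4) (nat_lit 303) (nat_lit 234) (nat_lit 183)) (XT.lf (nat_lit 0) (nat_lit 64539494511) (nat_lit 76) (nat_lit 79164654490) (nat_lit 76) (nat_lit 62255358013) (nat_lit 1) (nat_lit 4) (nat_lit 2) (nat_lit 5) (nat_lit 2) (nat_lit 4) (nat_lit 304) (nat_lit 234) (nat_lit 182))) (XT.nd (nat_lit 78) (nat_lit 0) (nat_lit 0)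 (XT.lf (nat_lit 0) (nat_lit 78193694294) (nat_lit 76) (nat_lit 80462233116) (nat_lit 76) (nat_lit 63529614486) (nat_lit 1) (nat_lit 4) (nat_lit 2) (nat_lit 5) (nat_lit 2) (nat_lit 4) (nat_lit 305) (nat_lit 234) (nat_lit 181)) (XT.lf (nat_lit 0) (nat_lit 92918840342) (nat_lit 76) (nat_lit 81872832022) (nat_lit 76) (nat_lit 64918618806) (nat_lit 1) (nat_lit 4) (nat_lit 2) (nat_lit 5) (nat_lit 2) (nat_lit 4) (nat_lit 306) (nat_lit 234) (nat_lit 180))))) (XT.nd (nat_lit 312) (nat_lit 0) (nat_lit 0) (XT.nd (nat_lit 156) (nat_lit 0) (nat_lit 0) (XT.nd (nat_lit 78) (nat_lit 0) (nat_lit 0) (XT.lf (nat_lit 0) (nat_lit 108802192778) (nat_lit 76) (nat_lit 83404810313) (nat_lit 76) (nat_lit 66430602110) (nat_lit 1) (nat_lit 4) (nat_lit 2) (nat_lit 5) (nat_lit 2) (nat_lit 4) (nat_lit 307) (nat_lit 234) (nat_lit 179)) (XT.lf (nat_lit 0) (nat_lit 125937875173) (nat_lit 76) (nat_lit 85067246379) (nat_lit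 76) (nat_lit 68074524299) (nat_lit 1) (nat_lit 4) (nat_lit 2) (nat_lit 5) (nat_lit 2) (nat_lit 4) (nat_lit 308) (nat_lit 234) (nat_lit 178))) (XT.nd (nat_lit 78) (nat_lit 0) (nat_lit 0) (XT.lf (nat_lit 0) (nat_lit 144427432312) (nat_lit 76) (nat_lit 86869991692) (nat_lit 76) (nat_lit 69860127135) (nat_lit 1) (nat_lit 4) (nat_lit 2) (nat_lit 5) (nat_lit 2) (nat_lit 4) (nat_lit 309) (nat_lit 234) (nat_lit 177)) (XT.lf (nat_lit 0) (nat_lit 164380431941) (nat_lit 76) (nat_lit 88823729189) (nat_lit 76) (nat_lit 71797991966) (nat_lit 1) (nat_lit 4) (nat_lit 2) (nat_lit 5) (nat_lit 2) (nat_lit 4) (nat_lit 310) (nat_lit 234) (nat_lit 176)))) (XT.nd (nat_lit 156) (nat_lit 0) (nat_lit 0) (XT.nd (nat_lit 78) (nat_lit 0) (nat_lit 0) (XT.lf (nat_lit 0) (nat_lit 185915114057) (nat_lit 76) (nat_lit 90940036572) (nat_lit 76) (nat_lit 73899602437) (nat_lit 1) (nat_lit 4) (nat_lit 2) (nat_lit 5) (nat_lit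 2) (nat_lit 4) (nat_lit 311) (nat_lit 234) (nat_lit 175)) (XT.lf (nat_lit 0) (nat_lit 209159091591) (nat_lit 76) (nat_lit 93231454923) (nat_lit 76) (nat_lit 76177412536) (nat_lit 1) (nat_lit 4) (nat_lit 2) (nat_lit 5) (nat_lit 2) (nat_lit 4) (nat_lit 312) (nat_lit 234) (nat_lit 174))) (XT.nd (nat_lit 78) (nat_lit 0) (nat_lit 0) (XT.lf (nat_lit 0) (nat_lit 234250106634) (nat_lit 76) (nat_lit 95711563016) (nat_lit 76) (nat_lit 78644920396) (nat_lit 1) (nat_lit 4) (nat_lit 2) (nat_lit 5) (nat_lit 2) (nat_lit 4) (nat_lit 313) (nat_lit 234) (nat_lit 173)) (XT.nd (nat_lit 78) (nat_lit 0) (nat_lit 0) (XT.lf (nat_lit 0) (nat_lit 261336846680) (nat_lit 76) (nat_lit 98395057790) (nat_lit 76) (nat_lit 81316748286) (nat_lit 1) (nat_lit 4) (nat_lit 2) (nat_lit 5) (nat_lit 2) (nat_lit 4) (nat_lit 314) (nat_lit 234) (nat_lit 172)) (XT.lf (nat_lit 0) (nat_lit 290579825745) (nat_lit 76) (nat_lit 101297841434)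 (nat_lit 76) (nat_lit 84208729261) (nat_lit 1) (nat_lit 4) (nat_lit 2) (nat_lit 5) (nat_lit 2) (nat_lit 4) (nat_lit 315) (nat_lit 234) (nat_lit 171))))))) (XT.nd (nat_lit 32526) (nat_lit 0) (nat_lit 1900) (XT.nd (nat_lit 312) (nat_lit 0) (nat_lit 0) (XT.nd (nat_lit 156) (nat_lit 0) (nat_lit 0) (XT.nd (nat_lit 78) (nat_lit 0) (nat_lit 0) (XT.lf (nat_lit 0) (nat_lit 322152335558) (nat_lit 76) (nat_lit 104437115630) (nat_lit 76) (nat_lit 87338000986) (nat_lit 1) (nat_lit 4) (nat_lit 2) (nat_lit 5) (nat_lit 2) (nat_lit 4) (nat_lit 316) (nat_lit 234) (nat_lit 170)) (XT.lf (nat_lit 0) (nat_lit 356241472472) (nat_lit 76) (nat_lit 107831483484) (nat_lit 76) (nat_lit 90723107292) (nat_lit 1) (nat_lit 4) (nat_lit 2) (nat_lit 5) (nat_lit 2) (nat_lit 4) (nat_lit 317) (nat_lit 234) (nat_lit 169))) (XT.nd (nat_lit 78) (nat_lit 0) (nat_lit 0) (XT.lf (nat_lit 0) (nat_lit 393049246188) (nat_lit 76) (nat_lit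 111501059769) (nat_lit 76) (nat_lit 94384108070) (nat_lit 1) (nat_lit 4) (nat_lit 2) (nat_lit 5) (nat_lit 2) (nat_lit 4) (nat_lit 318) (nat_lit 234) (nat_lit 168)) (XT.lf (nat_lit 0) (nat_lit 432793776846) (nat_lit 76) (nat_lit 115467590122) (nat_lit 76) (nat_lit 98342698138) (nat_lit 1) (nat_lit 4) (nat_lit 2) (nat_lit 5) (nat_lit 2) (nat_lit 4) (nat_lit 319) (nat_lit 234) (nat_lit 167)))) (XT.nd (nat_lit 156) (nat_lit 0) (nat_lit 0) (XT.nd (nat_lit 78) (nat_lit 0) (nat_lit 0) (XT.lf (nat_lit 0) (nat_lit 475710587590) (nat_lit 76) (nat_lit 119754579907) (nat_lit 76) (nat_lit 102622335809) (nat_lit 1) (nat_lit 4) (nat_lit 2) (nat_lit 5) (nat_lit 2) (nat_lit 4) (nat_lit 320) (nat_lit 234) (nat_lit 166)) (XT.lf (nat_lit 0) (nat_lit 522054000263) (nat_lit 76) (nat_lit 124387433510) (nat_lit 76) (nat_lit 107248381897) (nat_lit 1) (nat_lit 4) (nat_lit 2) (nat_lit 5) (nat_lit 2) (nat_lit 4)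 (nat_lit 321) (nat_lit 234) (nat_lit 165))) (XT.nd (nat_lit 31902) (nat_lit 0) (nat_lit 4028) (XT.lf (nat_lit 0) (nat_lit 572098642496) (nat_lit 76) (nat_lit 129393604876) (nat_lit 76) (nat_lit 112248250010) (nat_lit 1) (nat_lit 4) (nat_lit 2) (nat_lit 5) (nat_lit 2) (nat_lit 4) (nat_lit 322) (nat_lit 234) (nat_lit 164)) (XT.nd (nat_lit 78) (nat_lit 684) (nat_lit 0) (XT.lf (nat_lit 0) (nat_lit 301214116) (nat_lit 684) (nat_lit 3040542000) (nat_lit 0) (nat_lit 301214116) (nat_lit 63) (nat_lit 5) (nat_lit 72) (nat_lit 4) (nat_lit 63) (nat_lit 4) (nat_lit 250) (nat_lit 235) (nat_lit 235)) (XT.lf (nat_lit 0) (nat_lit 668502348) (nat_lit 684) (nat_lit 4525701901) (nat_lit 684) (nat_lit 2281196452) (nat_lit 54) (nat_lit 4) (nat_lit 63) (nat_lit 5) (nat_lit 63) (nat_lit 4) (nat_lit 251) (nat_lit 235) (nat_lit 234)))))) (XT.nd (nat_lit 312) (nat_lit 1140) (nat_lit 0) (XT.nd (nat_lit 156) (nat_lit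 608) (nat_lit 0) (XT.nd (nat_lit 78) (nat_lit 0) (nat_lit 0) (XT.lf (nat_lit 0) (nat_lit 85726276) (nat_lit 304) (nat_lit 2064750558) (nat_lit 380) (nat_lit 5541884617) (nat_lit 49) (nat_lit 5) (nat_lit 53) (nat_lit 5) (nat_lit 54) (nat_lit 4) (nat_lit 252) (nat_lit 235) (nat_lit 233)) (XT.lf (nat_lit 0) (nat_lit 6654980449) (nat_lit 380) (nat_lit 576447817) (nat_lit 0) (nat_lit 705406268) (nat_lit 49) (nat_lit 5) (nat_lit 54) (nat_lit 4) (nat_lit 49) (nat_lit 4) (nat_lit 253) (nat_lit 235) (nat_lit 232))) (XT.nd (nat_lit 78) (nat_lit 228) (nat_lit 0) (XT.lf (nat_lit 0) (nat_lit 3042063794) (nat_lit 380) (nat_lit 1410258440) (nat_lit 76) (nat_lit 3756194085) (nat_lit 44) (nat_lit 5) (nat_lit 49) (nat_lit 5) (nat_lit 45) (nat_lit 4) (nat_lit 254) (nat_lit 235) (nat_lit 231)) (XT.lf (nat_lit 0) (nat_lit 6108891322) (nat_lit 228) (nat_lit 1367498029) (nat_lit 304) (nat_lit 1035603345) (nat_lit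 41) (nat_lit 5) (nat_lit 44) (nat_lit 5) (nat_lit 45) (nat_lit 4) (nat_lit 255) (nat_lit 235) (nat_lit 230)))) (XT.nd (nat_lit 156) (nat_lit 532) (nat_lit 0) (XT.nd (nat_lit 78) (nat_lit 228) (nat_lit 0) (XT.lf (nat_lit 0) (nat_lit 3168821784) (nat_lit 380) (nat_lit 3668237234) (nat_lit 76) (nat_lit 2008770444) (nat_lit 36) (nat_lit 5) (nat_lit 41) (nat_lit 5) (nat_lit 37) (nat_lit 4) (nat_lit 256) (nat_lit 235) (nat_lit 229)) (XT.lf (nat_lit 0) (nat_lit 3991101117) (nat_lit 228) (nat_lit 3539797850) (nat_lit 304) (nat_lit 1683037190) (nat_lit 33) (nat_lit 5) (nat_lit 36) (nat_lit 5) (nat_lit 37) (nat_lit 4) (nat_lit 257) (nat_lit 235) (nat_lit 228))) (XT.nd (nat_lit 78) (nat_lit 228) (nat_lit 0) (XT.lf (nat_lit 0) (nat_lit 2390343496) (nat_lit 304) (nat_lit 7133253487) (nat_lit 76) (nat_lit 94775133) (nat_lit 29) (nat_lit 5) (nat_lit 33) (nat_lit 5) (nat_lit 30) (nat_lit 4) (nat_lit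 258) (nat_lit 235) (nat_lit 227)) (XT.nd (nat_lit 78) (nat_lit 76) (nat_lit 0) (XT.lf (nat_lit 0) (nat_lit 539067026) (nat_lit 152) (nat_lit 6104857678) (nat_lit 228) (nat_lit 3415247949) (nat_lit 27) (nat_lit 5) (nat_lit 29) (nat_lit 5) (nat_lit 30) (nat_lit 4) (nat_lit 259) (nat_lit 235) (nat_lit 226)) (XT.lf (nat_lit 0) (nat_lit 566888070) (nat_lit 228) (nat_lit 1790682100) (nat_lit 76) (nat_lit 8183707134) (nat_lit 26) (nat_lit 5) (nat_lit 29) (nat_lit 5) (nat_lit 27) (nat_lit 5) (nat_lit 260) (nat_lit 235) (nat_lit 225))))))))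
noncomputable def xc38 : XT := (XT.nd (nat_lit 1326) (nat_lit 304) (nat_lit 0) (XT.nd (nat_lit 624) (nat_lit 532) (nat_lit 0) (XT.nd (nat_lit 312) (nat_lit 380) (nat_lit 0) (XT.nd (nat_lit 156) (nat_lit 228) (nat_lit 0) (XT.nd (nat_lit 78) (nat_lit 152) (nat_lit 0) (XT.lf (nat_lit 0) (nat_lit 4655401573) (nat_lit 304) (nat_lit 4693556131) (nat_lit 76) (nat_lit 1715680841) (nat_lit 23) (nat_lit 5) (nat_lit 27) (nat_lit 5) (nat_lit 24) (nat_lit 4) (nat_lit 261) (nat_lit 235) (nat_lit 224)) (XT.lf (nat_lit 0) (nat_lit 3388599696) (nat_lit 152) (nat_lit 5595637897) (nat_lit 228) (nat_lit 2650765887) (nat_lit 21) (nat_lit 5) (nat_lit 23) (nat_lit 5) (nat_lit 24) (nat_lit 4) (nat_lit 262) (nat_lit 235) (nat_lit 223))) (XT.nd (nat_lit 78) (nat_lit 152) (nat_lit 0) (XT.lf (nat_lit 0) (nat_lit 1242434518) (nat_lit 228) (nat_lit 280686588) (nat_lit 76) (nat_lit 10733523334) (nat_lit 20) (nat_lit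 5) (nat_lit 23) (nat_lit 5) (nat_lit 21) (nat_lit 5) (nat_lit 263) (nat_lit 235) (nat_lit 222)) (XT.lf (nat_lit 0) (nat_lit 5342116927) (nat_lit 228) (nat_lit 4707096657) (nat_lit 76) (nat_lit 2877886192) (nat_lit 18) (nat_lit 5) (nat_lit 21) (nat_lit 5) (nat_lit 19) (nat_lit 4) (nat_lit 264) (nat_lit 235) (nat_lit 221)))) (XT.nd (nat_lit 156) (nat_lit 228) (nat_lit 0) (XT.nd (nat_lit 78) (nat_lit 0) (nat_lit 0) (XT.lf (nat_lit 0) (nat_lit 3578728269) (nat_lit 152) (nat_lit 6097325000) (nat_lit 228) (nat_lit 3980426757) (nat_lit 16) (nat_lit 5) (nat_lit 18) (nat_lit 5) (nat_lit 19) (nat_lit 4) (nat_lit 265) (nat_lit 235) (nat_lit 220)) (XT.lf (nat_lit 0) (nat_lit 12437361733) (nat_lit 152) (nat_lit 1830411824) (nat_lit 228) (nat_lit 181441518) (nat_lit 16) (nat_lit 5) (nat_lit 18) (nat_lit 5) (nat_lit 19) (nat_lit 4) (nat_lit 266) (nat_lit 235) (nat_lit 219))) (XT.nd (nat_lit 78) (nat_lit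 0) (nat_lit 0) (XT.lf (nat_lit 0) (nat_lit 3782469820) (nat_lit 228) (nat_lit 8745842607) (nat_lit 76) (nat_lit 2775161232) (nat_lit 13) (nat_lit 5) (nat_lit 16) (nat_lit 5) (nat_lit 14) (nat_lit 4) (nat_lit 267) (nat_lit 235) (nat_lit 218)) (XT.lf (nat_lit 0) (nat_lit 7969376021) (nat_lit 228) (nat_lit 615354180) (nat_lit 76) (nat_lit 7646037544) (nat_lit 13) (nat_lit 5) (nat_lit 16) (nat_lit 5) (nat_lit 14) (nat_lit 4) (nat_lit 268) (nat_lit 235) (nat_lit 217))))) (XT.nd (nat_lit 312) (nat_lit 228) (nat_lit 0) (XT.nd (nat_lit 156) (nat_lit 228) (nat_lit 0) (XT.nd (nat_lit 78) (nat_lit 0) (nat_lit 0) (XT.lf (nat_lit 0) (nat_lit 8204987581) (nat_lit 76) (nat_lit 4271451848) (nat_lit 152) (nat_lit 4756967429) (nat_lit 12) (nat_lit 5) (nat_lit 13) (nat_lit 5) (nat_lit 14) (nat_lit 4) (nat_lit 269) (nat_lit 235) (nat_lit 216)) (XT.lf (nat_lit 0) (nat_lit 17224141290) (nat_lit 152) (nat_lit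 788460587) (nat_lit 0) (nat_lit 310042051) (nat_lit 12) (nat_lit 5) (nat_lit 14) (nat_lit 4) (nat_lit 12) (nat_lit 4) (nat_lit 270) (nat_lit 235) (nat_lit 215))) (XT.nd (nat_lit 78) (nat_lit 0) (nat_lit 0) (XT.lf (nat_lit 0) (nat_lit 2833841272) (nat_lit 228) (nat_lit 11446956508) (nat_lit 76) (nat_lit 5212714440) (nat_lit 9) (nat_lit 5) (nat_lit 12) (nat_lit 5) (nat_lit 10) (nat_lit 4) (nat_lit 271) (nat_lit 235) (nat_lit 214)) (XT.lf (nat_lit 0) (nat_lit 6934091704) (nat_lit 228) (nat_lit 3358324492) (nat_lit 76) (nat_lit 10470461954) (nat_lit 9) (nat_lit 5) (nat_lit 12) (nat_lit 5) (nat_lit 10) (nat_lit 4) (nat_lit 272) (nat_lit 235) (nat_lit 213)))) (XT.nd (nat_lit 156) (nat_lit 152) (nat_lit 0) (XT.nd (nat_lit 78) (nat_lit 0) (nat_lit 0) (XT.lf (nat_lit 0) (nat_lit 5365093935) (nat_lit 76) (nat_lit 5967450013) (nat_lit 152) (nat_lit 10803035544) (nat_lit 8) (nat_lit 5) (nat_lit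 9) (nat_lit 5) (nat_lit 10) (nat_lit 4) (nat_lit 273) (nat_lit 235) (nat_lit 212)) (XT.lf (nat_lit 0) (nat_lit 14730287175) (nat_lit 76) (nat_lit 1303167963) (nat_lit 152) (nat_lit 7587386025) (nat_lit 8) (nat_lit 5) (nat_lit 9) (nat_lit 5) (nat_lit 10) (nat_lit 4) (nat_lit 274) (nat_lit 235) (nat_lit 211))) (XT.nd (nat_lit 78) (nat_lit 152) (nat_lit 0) (XT.lf (nat_lit 0) (nat_lit 21067833647) (nat_lit 152) (nat_lit 605779392) (nat_lit 0) (nat_lit 3553694117) (nat_lit 8) (nat_lit 5) (nat_lit 10) (nat_lit 4) (nat_lit 8) (nat_lit 4) (nat_lit 275) (nat_lit 235) (nat_lit 210)) (XT.nd (nat_lit 78) (nat_lit 76) (nat_lit 0) (XT.lf (nat_lit 0) (nat_lit 8434912815) (nat_lit 76) (nat_lit 18130282903) (nat_lit 76) (nat_lit 394317406) (nat_lit 7) (nat_lit 4) (nat_lit 8) (nat_lit 5) (nat_lit 8) (nat_lit 4) (nat_lit 276) (nat_lit 235) (nat_lit 209)) (XT.lf (nat_lit 0) (nat_lit 3474756794) (nat_lit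 152) (nat_lit 10818108484) (nat_lit 76) (nat_lit 14538758701) (nat_lit 6) (nat_lit 5) (nat_lit 8) (nat_lit 5) (nat_lit 7) (nat_lit 4) (nat_lit 277) (nat_lit 235) (nat_lit 208))))))) (XT.nd (nat_lit 702) (nat_lit 152) (nat_lit 0) (XT.nd (nat_lit 312) (nat_lit 76) (nat_lit 0) (XT.nd (nat_lit 156) (nat_lit 0) (nat_lit 0) (XT.nd (nat_lit 78) (nat_lit 76) (nat_lit 0) (XT.lf (nat_lit 0) (nat_lit 7555938609) (nat_lit 152) (nat_lit 2641865776) (nat_lit 76) (nat_lit 20659747632) (nat_lit 6) (nat_lit 5) (nat_lit 8) (nat_lit 5) (nat_lit 7) (nat_lit 4) (nat_lit 278) (nat_lit 235) (nat_lit 207)) (XT.lf (nat_lit 0) (nat_lit 6259065197) (nat_lit 76) (nat_lit 5724689791) (nat_lit 152) (nat_lit 21060969493) (nat_lit 5) (nat_lit 5) (nat_lit 6) (nat_lit 5) (nat_lit 7) (nat_lit 4) (nat_lit 279) (nat_lit 235) (nat_lit 206))) (XT.nd (nat_lit 78) (nat_lit 0) (nat_lit 0) (XT.lf (nat_lit 0) (nat_lit 15842308854)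 (nat_lit 76) (nat_lit 895735093) (nat_lit 152) (nat_lit 18670378492) (nat_lit 5) (nat_lit 5) (nat_lit 6) (nat_lit 5) (nat_lit 7) (nat_lit 4) (nat_lit 280) (nat_lit 235) (nat_lit 205)) (XT.lf (nat_lit 0) (nat_lit 21871080793) (nat_lit 152) (nat_lit 11954193235) (nat_lit 0) (nat_lit 4136173874) (nat_lit 5) (nat_lit 5) (nat_lit 7) (nat_lit 4) (nat_lit 5) (nat_lit 4) (nat_lit 281) (nat_lit 235) (nat_lit 204)))) (XT.nd (nat_lit 156) (nat_lit 0) (nat_lit 0) (XT.nd (nat_lit 78) (nat_lit 76) (nat_lit 0) (XT.lf (nat_lit 0) (nat_lit 27365942749) (nat_lit 152) (nat_lit 3857449785) (nat_lit 0) (nat_lit 9497904413) (nat_lit 5) (nat_lit 5) (nat_lit 7) (nat_lit 4) (nat_lit 5) (nat_lit 4) (nat_lit 282) (nat_lit 235) (nat_lit 203)) (XT.lf (nat_lit 0) (nat_lit 4944331898) (nat_lit 76) (nat_lit 28374070004) (nat_lit 76) (nat_lit 10382761838) (nat_lit 4) (nat_lit 4) (nat_lit 5) (nat_lit 5) (nat_lit 5) (nat_lit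 4) (nat_lit 283) (nat_lit 235) (nat_lit 202))) (XT.nd (nat_lit 78) (nat_lit 0) (nat_lit 0) (XT.lf (nat_lit 0) (nat_lit 14491440861) (nat_lit 76) (nat_lit 25266501145) (nat_lit 76) (nat_lit 7161054248) (nat_lit 4) (nat_lit 4) (nat_lit 5) (nat_lit 5) (nat_lit 5) (nat_lit 4) (nat_lit 284) (nat_lit 235) (nat_lit 201)) (XT.nd (nat_lit 78) (nat_lit 0) (nat_lit 0) (XT.lf (nat_lit 0) (nat_lit 24712907853) (nat_lit 76) (nat_lit 21947598513) (nat_lit 76) (nat_lit 3736467606) (nat_lit 4) (nat_lit 4) (nat_lit 5) (nat_lit 5) (nat_lit 5) (nat_lit 4) (nat_lit 285) (nat_lit 235) (nat_lit 200)) (XT.lf (nat_lit 0) (nat_lit 35669304529) (nat_lit 76) (nat_lit 18397694539) (nat_lit 76) (nat_lit 88708066) (nat_lit 4) (nat_lit 4) (nat_lit 5) (nat_lit 5) (nat_lit 5) (nat_lit 4) (nat_lit 286) (nat_lit 235) (nat_lit 199)))))) (XT.nd (nat_lit 312) (nat_lit 0) (nat_lit 0) (XT.nd (nat_lit 156) (nat_lit 76) (nat_lit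 0) (XT.nd (nat_lit 78) (nat_lit 0) (nat_lit 0) (XT.lf (nat_lit 0) (nat_lit 3682094065) (nat_lit 152) (nat_lit 10851300642) (nat_lit 76) (nat_lit 43681105574) (nat_lit 3) (nat_lit 5) (nat_lit 5) (nat_lit 5) (nat_lit 4) (nat_lit 4) (nat_lit 287) (nat_lit 235) (nat_lit 198)) (XT.lf (nat_lit 0) (nat_lit 7709340121) (nat_lit 152) (nat_lit 2679341603) (nat_lit 76) (nat_lit 52211432479) (nat_lit 3) (nat_lit 5) (nat_lit 5) (nat_lit 5) (nat_lit 4) (nat_lit 4) (nat_lit 288) (nat_lit 235) (nat_lit 197))) (XT.nd (nat_lit 78) (nat_lit 0) (nat_lit 0) (XT.lf (nat_lit 0) (nat_lit 6280294564) (nat_lit 76) (nat_lit 5837492908) (nat_lit 152) (nat_lit 55215916848) (nat_lit 2) (nat_lit 5) (nat_lit 3) (nat_lit 5) (nat_lit 4) (nat_lit 4) (nat_lit 289) (nat_lit 235) (nat_lit 196)) (XT.lf (nat_lit 0) (nat_lit 15988207381) (nat_lit 76) (nat_lit 900233544) (nat_lit 152) (nat_lit 55557136578) (nat_lit 2) (nat_lit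 5) (nat_lit 3) (nat_lit 5) (nat_lit 4) (nat_lit 4) (nat_lit 290) (nat_lit 235) (nat_lit 195)))) (XT.nd (nat_lit 156) (nat_lit 0) (nat_lit 0) (XT.nd (nat_lit 78) (nat_lit 0) (nat_lit 0) (XT.lf (nat_lit 0) (nat_lit 22075161114) (nat_lit 152) (nat_lit 51623658288) (nat_lit 0) (nat_lit 4265927428) (nat_lit 2) (nat_lit 5) (nat_lit 4) (nat_lit 4) (nat_lit 2) (nat_lit 4) (nat_lit 291) (nat_lit 235) (nat_lit 194)) (XT.lf (nat_lit 0) (nat_lit 27659793328) (nat_lit 152) (nat_lit 46474739208) (nat_lit 0) (nat_lit 9791830494) (nat_lit 2) (nat_lit 5) (nat_lit 4) (nat_lit 4) (nat_lit 2) (nat_lit 4) (nat_lit 292) (nat_lit 235) (nat_lit 193))) (XT.nd (nat_lit 78) (nat_lit 0) (nat_lit 0) (XT.lf (nat_lit 0) (nat_lit 33661376516) (nat_lit 152) (nat_lit 40966045600) (nat_lit 0) (nat_lit 15739034841) (nat_lit 2) (nat_lit 5) (nat_lit 4) (nat_lit 4) (nat_lit 2) (nat_lit 4) (nat_lit 293) (nat_lit 235) (nat_lit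 192)) (XT.nd (nat_lit 78) (nat_lit 0) (nat_lit 0) (XT.lf (nat_lit 0) (nat_lit 40115475615) (nat_lit 152) (nat_lit 35064933354) (nat_lit 0) (nat_lit 22142783163) (nat_lit 2) (nat_lit 5) (nat_lit 4) (nat_lit 4) (nat_lit 2) (nat_lit 4) (nat_lit 294) (nat_lit 235) (nat_lit 191)) (XT.lf (nat_lit 0) (nat_lit 47060337140) (nat_lit 152) (nat_lit 28736432916) (nat_lit 0) (nat_lit 29041023596) (nat_lit 2) (nat_lit 5) (nat_lit 4) (nat_lit 4) (nat_lit 2) (nat_lit 4) (nat_lit 295) (nat_lit 235) (nat_lit 190))))))))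
noncomputable def xc39 : XT := (XT.nd (nat_lit 1404) (nat_lit 0) (nat_lit 0) (XT.nd (nat_lit 702) (nat_lit 0) (nat_lit 0) (XT.nd (nat_lit 312) (nat_lit 0) (nat_lit 0) (XT.nd (nat_lit 156) (nat_lit 76) (nat_lit 0) (XT.nd (nat_lit 78) (nat_lit 0) (nat_lit 0) (XT.lf (nat_lit 0) (nat_lit 54537115824) (nat_lit 152) (nat_lit 21943042060) (nat_lit 0) (nat_lit 36474634603) (nat_lit 2) (nat_lit 5) (nat_lit 4) (nat_lit 4) (nat_lit 2) (nat_lit 4) (nat_lit 296) (nat_lit 235) (nat_lit 189)) (XT.lf (nat_lit 0) (nat_lit 62590118504) (nat_lit 152) (nat_lit 14644503657) (nat_lit 0) (nat_lit 44487667213) (nat_lit 2) (nat_lit 5) (nat_lit 4) (nat_lit 4) (nat_lit 2) (nat_lit 4) (nat_lit 297) (nat_lit 235) (nat_lit 188))) (XT.nd (nat_lit 78) (nat_lit 76) (nat_lit 0) (XT.lf (nat_lit 0) (nat_lit 71267066679) (nat_lit 152) (nat_lit 6797567108) (nat_lit 0) (nat_lit 53127606062) (nat_lit 2) (nat_lit 5) (nat_lit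 4) (nat_lit 4) (nat_lit 2) (nat_lit 4) (nat_lit 298) (nat_lit 235) (nat_lit 187)) (XT.lf (nat_lit 0) (nat_lit 1698634874) (nat_lit 76) (nat_lit 78947264875) (nat_lit 76) (nat_lit 60773536365) (nat_lit 1) (nat_lit 4) (nat_lit 2) (nat_lit 5) (nat_lit 2) (nat_lit 4) (nat_lit 299) (nat_lit 235) (nat_lit 186)))) (XT.nd (nat_lit 156) (nat_lit 0) (nat_lit 0) (XT.nd (nat_lit 78) (nat_lit 0) (nat_lit 0) (XT.lf (nat_lit 0) (nat_lit 11085843432) (nat_lit 76) (nat_lit 79789715129) (nat_lit 76) (nat_lit 61584257087) (nat_lit 1) (nat_lit 4) (nat_lit 2) (nat_lit 5) (nat_lit 2) (nat_lit 4) (nat_lit 300) (nat_lit 235) (nat_lit 185)) (XT.lf (nat_lit 0) (nat_lit 21194928198) (nat_lit 76) (nat_lit 80712096934) (nat_lit 76) (nat_lit 62477259697) (nat_lit 1) (nat_lit 4) (nat_lit 2) (nat_lit 5) (nat_lit 2) (nat_lit 4) (nat_lit 301) (nat_lit 235) (nat_lit 184))) (XT.nd (nat_lit 78) (nat_lit 0) (nat_lit 0) (XT.lf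 (nat_lit 0) (nat_lit 32085794861) (nat_lit 76) (nat_lit 81719876259) (nat_lit 76) (nat_lit 63457836063) (nat_lit 1) (nat_lit 4) (nat_lit 2) (nat_lit 5) (nat_lit 2) (nat_lit 4) (nat_lit 302) (nat_lit 235) (nat_lit 183)) (XT.nd (nat_lit 78) (nat_lit 0) (nat_lit 0) (XT.lf (nat_lit 0) (nat_lit 43822981890) (nat_lit 76) (nat_lit 82819025127) (nat_lit 76) (nat_lit 64531797007) (nat_lit 1) (nat_lit 4) (nat_lit 2) (nat_lit 5) (nat_lit 2) (nat_lit 4) (nat_lit 303) (nat_lit 235) (nat_lit 182)) (XT.lf (nat_lit 0) (nat_lit 56476042985) (nat_lit 76) (nat_lit 84016057015) (nat_lit 76) (nat_lit 65705506742) (nat_lit 1) (nat_lit 4) (nat_lit 2) (nat_lit 5) (nat_lit 2) (nat_lit 4) (nat_lit 304) (nat_lit 235) (nat_lit 181)))))) (XT.nd (nat_lit 312) (nat_lit 0) (nat_lit 0) (XT.nd (nat_lit 156) (nat_lit 0) (nat_lit 0) (XT.nd (nat_lit 78) (nat_lit 0) (nat_lit 0) (XT.lf (nat_lit 0) (nat_lit 70119959249) (nat_lit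 76) (nat_lit 85318065444) (nat_lit 76) (nat_lit 66985920585) (nat_lit 1) (nat_lit 4) (nat_lit 2) (nat_lit 5) (nat_lit 2) (nat_lit 4) (nat_lit 305) (nat_lit 235) (nat_lit 180)) (XT.lf (nat_lit 0) (nat_lit 84835583520) (nat_lit 76) (nat_lit 86732766019) (nat_lit 76) (nat_lit 68380626174) (nat_lit 1) (nat_lit 4) (nat_lit 2) (nat_lit 5) (nat_lit 2) (nat_lit 4) (nat_lit 306) (nat_lit 235) (nat_lit 179))) (XT.nd (nat_lit 78) (nat_lit 0) (nat_lit 0) (XT.lf (nat_lit 0) (nat_lit 100710119497) (nat_lit 76) (nat_lit 88268542152) (nat_lit 76) (nat_lit 69897888430) (nat_lit 1) (nat_lit 4) (nat_lit 2) (nat_lit 5) (nat_lit 2) (nat_lit 4) (nat_lit 307) (nat_lit 235) (nat_lit 178)) (XT.lf (nat_lit 0) (nat_lit 117837638504) (nat_lit 76) (nat_lit 89934494739) (nat_lit 76) (nat_lit 71546698538) (nat_lit 1) (nat_lit 4) (nat_lit 2) (nat_lit 5) (nat_lit 2) (nat_lit 4) (nat_lit 308) (nat_lit 235) (nat_lit 177))))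 (XT.nd (nat_lit 156) (nat_lit 0) (nat_lit 0) (XT.nd (nat_lit 78) (nat_lit 0) (nat_lit 0) (XT.lf (nat_lit 0) (nat_lit 136319636950) (nat_lit 76) (nat_lit 91740496090) (nat_lit 76) (nat_lit 73336827224) (nat_lit 1) (nat_lit 4) (nat_lit 2) (nat_lit 5) (nat_lit 2) (nat_lit 4) (nat_lit 309) (nat_lit 235) (nat_lit 176)) (XT.lf (nat_lit 0) (nat_lit 156265637789) (nat_lit 76) (nat_lit 93697248436) (nat_lit 76) (nat_lit 75278882658) (nat_lit 1) (nat_lit 4) (nat_lit 2) (nat_lit 5) (nat_lit 2) (nat_lit 4) (nat_lit 310) (nat_lit 235) (nat_lit 175))) (XT.nd (nat_lit 78) (nat_lit 0) (nat_lit 0) (XT.lf (nat_lit 0) (nat_lit 177793839544) (nat_lit 76) (nat_lit 95816347346) (nat_lit 76) (nat_lit 77384373316) (nat_lit 1) (nat_lit 4) (nat_lit 2) (nat_lit 5) (nat_lit 2) (nat_lit 4) (nat_lit 311) (nat_lit 235) (nat_lit 174)) (XT.nd (nat_lit 78) (nat_lit 0) (nat_lit 0) (XT.lf (nat_lit 0) (nat_lit 201031816744)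 (nat_lit 76) (nat_lit 98110350444) (nat_lit 76) (nat_lit 79665776181) (nat_lit 1) (nat_lit 4) (nat_lit 2) (nat_lit 5) (nat_lit 2) (nat_lit 4) (nat_lit 312) (nat_lit 235) (nat_lit 173)) (XT.lf (nat_lit 0) (nat_lit 226117275921) (nat_lit 76) (nat_lit 100592851823) (nat_lit 76) (nat_lit 82136610676) (nat_lit 1) (nat_lit 4) (nat_lit 2) (nat_lit 5) (nat_lit 2) (nat_lit 4) (nat_lit 313) (nat_lit 235) (nat_lit 172))))))) (XT.nd (nat_lit 32370) (nat_lit 0) (nat_lit 2660) (XT.nd (nat_lit 312) (nat_lit 0) (nat_lit 0) (XT.nd (nat_lit 156) (nat_lit 0) (nat_lit 0) (XT.nd (nat_lit 78) (nat_lit 0) (nat_lit 0) (XT.lf (nat_lit 0) (nat_lit 253198871648) (nat_lit 76) (nat_lit 103278562600) (nat_lit 76) (nat_lit 84811518785) (nat_lit 1) (nat_lit 4) (nat_lit 2) (nat_lit 5) (nat_lit 2) (nat_lit 4) (nat_lit 314) (nat_lit 235) (nat_lit 171)) (XT.lf (nat_lit 0) (nat_lit 282437087455) (nat_lit 76) (nat_lit 106183398100)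 (nat_lit 76) (nat_lit 87706351813) (nat_lit 1) (nat_lit 4) (nat_lit 2) (nat_lit 5) (nat_lit 2) (nat_lit 4) (nat_lit 315) (nat_lit 235) (nat_lit 170))) (XT.nd (nat_lit 78) (nat_lit 0) (nat_lit 0) (XT.lf (nat_lit 0) (nat_lit 314005186843) (nat_lit 76) (nat_lit 109324572163) (nat_lit 76) (nat_lit 90838264328) (nat_lit 1) (nat_lit 4) (nat_lit 2) (nat_lit 5) (nat_lit 2) (nat_lit 4) (nat_lit 316) (nat_lit 235) (nat_lit 169)) (XT.lf (nat_lit 0) (nat_lit 348090240030) (nat_lit 76) (nat_lit 112720699153) (nat_lit 76) (nat_lit 94225815811) (nat_lit 1) (nat_lit 4) (nat_lit 2) (nat_lit 5) (nat_lit 2) (nat_lit 4) (nat_lit 317) (nat_lit 235) (nat_lit 168)))) (XT.nd (nat_lit 156) (nat_lit 0) (nat_lit 0) (XT.nd (nat_lit 78) (nat_lit 0) (nat_lit 0) (XT.lf (nat_lit 0) (nat_lit 384894232517) (nat_lit 76) (nat_lit 116391904267) (nat_lit 76) (nat_lit 97889080641) (nat_lit 1) (nat_lit 4) (nat_lit 2) (nat_lit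 5) (nat_lit 2) (nat_lit 4) (nat_lit 318) (nat_lit 235) (nat_lit 167)) (XT.lf (nat_lit 0) (nat_lit 424635262038) (nat_lit 76) (nat_lit 120359942795) (nat_lit 76) (nat_lit 101849767054) (nat_lit 1) (nat_lit 4) (nat_lit 2) (nat_lit 5) (nat_lit 2) (nat_lit 4) (nat_lit 319) (nat_lit 235) (nat_lit 166))) (XT.nd (nat_lit 78) (nat_lit 0) (nat_lit 0) (XT.lf (nat_lit 0) (nat_lit 467548830989) (nat_lit 76) (nat_lit 124648329039) (nat_lit 76) (nat_lit 106131345784) (nat_lit 1) (nat_lit 4) (nat_lit 2) (nat_lit 5) (nat_lit 2) (nat_lit 4) (nat_lit 320) (nat_lit 235) (nat_lit 165)) (XT.nd (nat_lit 78) (nat_lit 0) (nat_lit 0) (XT.lf (nat_lit 0) (nat_lit 513889242001) (nat_lit 76) (nat_lit 129282475659) (nat_lit 76) (nat_lit 110759189150) (nat_lit 1) (nat_lit 4) (nat_lit 2) (nat_lit 5) (nat_lit 2) (nat_lit 4) (nat_lit 321) (nat_lit 235) (nat_lit 164)) (XT.lf (nat_lit 0) (nat_lit 563931104917) (nat_lit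 76) (nat_lit 134289844264) (nat_lit 76) (nat_lit 115760721409) (nat_lit 1) (nat_lit 4) (nat_lit 2) (nat_lit 5) (nat_lit 2) (nat_lit 4) (nat_lit 322) (nat_lit 235) (nat_lit 163)))))) (XT.nd (nat_lit 312) (nat_lit 1368) (nat_lit 0) (XT.nd (nat_lit 156) (nat_lit 1368) (nat_lit 0) (XT.nd (nat_lit 78) (nat_lit 532) (nat_lit 0) (XT.lf (nat_lit 0) (nat_lit 586712116) (nat_lit 532) (nat_lit 2312303416) (nat_lit 0) (nat_lit 586712116) (nat_lit 79) (nat_lit 5) (nat_lit 86) (nat_lit 4) (nat_lit 79) (nat_lit 4) (nat_lit 248) (nat_lit 236) (nat_lit 236)) (XT.lf (nat_lit 0) (nat_lit 1676252290) (nat_lit 532) (nat_lit 3994746040) (nat_lit 532) (nat_lit 1449476860) (nat_lit 72) (nat_lit 4) (nat_lit 79) (nat_lit 5) (nat_lit 79) (nat_lit 4) (nat_lit 249) (nat_lit 236) (nat_lit 235))) (XT.nd (nat_lit 78) (nat_lit 684) (nat_lit 0) (XT.lf (nat_lit 0) (nat_lit 1001360828) (nat_lit 608) (nat_lit 1878327332)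 (nat_lit 684) (nat_lit 4414732667) (nat_lit 63) (nat_lit 5) (nat_lit 71) (nat_lit 5) (nat_lit 72) (nat_lit 4) (nat_lit 250) (nat_lit 236) (nat_lit 234)) (XT.lf (nat_lit 0) (nat_lit 305100769) (nat_lit 684) (nat_lit 6968278637) (nat_lit 684) (nat_lit 221461515) (nat_lit 54) (nat_lit 4) (nat_lit 63) (nat_lit 5) (nat_lit 63) (nat_lit 4) (nat_lit 251) (nat_lit 236) (nat_lit 233)))) (XT.nd (nat_lit 156) (nat_lit 912) (nat_lit 0) (XT.nd (nat_lit 78) (nat_lit 380) (nat_lit 0) (XT.lf (nat_lit 0) (nat_lit 3985955514) (nat_lit 760) (nat_lit 499909970) (nat_lit 76) (nat_lit 3233175748) (nat_lit 53) (nat_lit 5) (nat_lit 63) (nat_lit 5) (nat_lit 54) (nat_lit 4) (nat_lit 252) (nat_lit 236) (nat_lit 232)) (XT.lf (nat_lit 0) (nat_lit 339189882) (nat_lit 380) (nat_lit 1368641108) (nat_lit 76) (nat_lit 6264637322) (nat_lit 48) (nat_lit 5) (nat_lit 53) (nat_lit 5) (nat_lit 49) (nat_lit 5) (nat_lit 253)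 (nat_lit 236) (nat_lit 231))) (XT.nd (nat_lit 78) (nat_lit 608) (nat_lit 0) (XT.lf (nat_lit 0) (nat_lit 4439747361) (nat_lit 380) (nat_lit 2424858933) (nat_lit 76) (nat_lit 1388419865) (nat_lit 44) (nat_lit 5) (nat_lit 49) (nat_lit 5) (nat_lit 45) (nat_lit 4) (nat_lit 254) (nat_lit 236) (nat_lit 230)) (XT.nd (nat_lit 78) (nat_lit 304) (nat_lit 0) (XT.lf (nat_lit 0) (nat_lit 153281212) (nat_lit 304) (nat_lit 3666035721) (nat_lit 76) (nat_lit 4745314201) (nat_lit 40) (nat_lit 5) (nat_lit 44) (nat_lit 5) (nat_lit 41) (nat_lit 5) (nat_lit 255) (nat_lit 236) (nat_lit 229)) (XT.lf (nat_lit 0) (nat_lit 3732607810) (nat_lit 304) (nat_lit 409154301) (nat_lit 380) (nat_lit 4765657889) (nat_lit 36) (nat_lit 5) (nat_lit 40) (nat_lit 5) (nat_lit 41) (nat_lit 5) (nat_lit 256) (nat_lit 236) (nat_lit 228))))))))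
noncomputable def xc40 : XT := (XT.nd (nat_lit 1326) (nat_lit 532) (nat_lit 0) (XT.nd (nat_lit 624) (nat_lit 684) (nat_lit 0) (XT.nd (nat_lit 312) (nat_lit 608) (nat_lit 0) (XT.nd (nat_lit 156) (nat_lit 228) (nat_lit 0) (XT.nd (nat_lit 78) (nat_lit 304) (nat_lit 0) (XT.lf (nat_lit 0) (nat_lit 2284168418) (nat_lit 228) (nat_lit 6066074592) (nat_lit 304) (nat_lit 933538140) (nat_lit 33) (nat_lit 5) (nat_lit 36) (nat_lit 5) (nat_lit 37) (nat_lit 4) (nat_lit 257) (nat_lit 236) (nat_lit 227)) (XT.lf (nat_lit 0) (nat_lit 484299988) (nat_lit 228) (nat_lit 2482479878) (nat_lit 304) (nat_lit 6728812593) (nat_lit 29) (nat_lit 5) (nat_lit 32) (nat_lit 5) (nat_lit 33) (nat_lit 5) (nat_lit 258) (nat_lit 236) (nat_lit 226))) (XT.nd (nat_lit 78) (nat_lit 228) (nat_lit 0) (XT.lf (nat_lit 0) (nat_lit 7062757802) (nat_lit 304) (nat_lit 1666251194) (nat_lit 76) (nat_lit 1415733364) (nat_lit 29) (nat_lit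 5) (nat_lit 33) (nat_lit 5) (nat_lit 30) (nat_lit 4) (nat_lit 259) (nat_lit 236) (nat_lit 225)) (XT.lf (nat_lit 0) (nat_lit 755565626) (nat_lit 228) (nat_lit 4289026942) (nat_lit 76) (nat_lit 5589104008) (nat_lit 26) (nat_lit 5) (nat_lit 29) (nat_lit 5) (nat_lit 27) (nat_lit 5) (nat_lit 260) (nat_lit 236) (nat_lit 224)))) (XT.nd (nat_lit 156) (nat_lit 228) (nat_lit 0) (XT.nd (nat_lit 78) (nat_lit 152) (nat_lit 0) (XT.lf (nat_lit 0) (nat_lit 3679286262) (nat_lit 228) (nat_lit 995933311) (nat_lit 304) (nat_lit 6490664331) (nat_lit 23) (nat_lit 5) (nat_lit 26) (nat_lit 5) (nat_lit 27) (nat_lit 5) (nat_lit 261) (nat_lit 236) (nat_lit 223)) (XT.lf (nat_lit 0) (nat_lit 380841115) (nat_lit 152) (nat_lit 8466723735) (nat_lit 228) (nat_lit 2896863256) (nat_lit 21) (nat_lit 5) (nat_lit 23) (nat_lit 5) (nat_lit 24) (nat_lit 4) (nat_lit 262) (nat_lit 236) (nat_lit 222))) (XT.nd (nat_lit 78) (nat_lit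 152) (nat_lit 0) (XT.lf (nat_lit 0) (nat_lit 913415038) (nat_lit 228) (nat_lit 3525518431) (nat_lit 76) (nat_lit 7932180464) (nat_lit 20) (nat_lit 5) (nat_lit 23) (nat_lit 5) (nat_lit 21) (nat_lit 5) (nat_lit 263) (nat_lit 236) (nat_lit 221)) (XT.lf (nat_lit 0) (nat_lit 4790844407) (nat_lit 152) (nat_lit 37462869) (nat_lit 228) (nat_lit 8222791142) (nat_lit 18) (nat_lit 5) (nat_lit 20) (nat_lit 5) (nat_lit 21) (nat_lit 5) (nat_lit 264) (nat_lit 236) (nat_lit 220))))) (XT.nd (nat_lit 312) (nat_lit 304) (nat_lit 0) (XT.nd (nat_lit 156) (nat_lit 228) (nat_lit 0) (XT.nd (nat_lit 78) (nat_lit 152) (nat_lit 0) (XT.lf (nat_lit 0) (nat_lit 9025546683) (nat_lit 228) (nat_lit 208522408) (nat_lit 76) (nat_lit 4553512612) (nat_lit 18) (nat_lit 5) (nat_lit 21) (nat_lit 5) (nat_lit 19) (nat_lit 4) (nat_lit 265) (nat_lit 236) (nat_lit 219)) (XT.lf (nat_lit 0) (nat_lit 8528300782) (nat_lit 152) (nat_lit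 5009514271) (nat_lit 228) (nat_lit 1046722615) (nat_lit 16) (nat_lit 5) (nat_lit 18) (nat_lit 5) (nat_lit 19) (nat_lit 4) (nat_lit 266) (nat_lit 236) (nat_lit 218))) (XT.nd (nat_lit 78) (nat_lit 0) (nat_lit 0) (XT.lf (nat_lit 0) (nat_lit 2327875508) (nat_lit 152) (nat_lit 433644847) (nat_lit 228) (nat_lit 12687338489) (nat_lit 13) (nat_lit 5) (nat_lit 15) (nat_lit 5) (nat_lit 16) (nat_lit 5) (nat_lit 267) (nat_lit 236) (nat_lit 217)) (XT.lf (nat_lit 0) (nat_lit 6872955116) (nat_lit 228) (nat_lit 5091030547) (nat_lit 76) (nat_lit 4416143595) (nat_lit 13) (nat_lit 5) (nat_lit 16) (nat_lit 5) (nat_lit 14) (nat_lit 4) (nat_lit 268) (nat_lit 236) (nat_lit 216)))) (XT.nd (nat_lit 156) (nat_lit 228) (nat_lit 0) (XT.nd (nat_lit 78) (nat_lit 0) (nat_lit 0) (XT.lf (nat_lit 0) (nat_lit 3478682482) (nat_lit 76) (nat_lit 7763933112) (nat_lit 152) (nat_lit 6147210663) (nat_lit 12) (nat_lit 5) (nat_lit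 13) (nat_lit 5) (nat_lit 14) (nat_lit 4) (nat_lit 269) (nat_lit 236) (nat_lit 215)) (XT.lf (nat_lit 0) (nat_lit 12718089455) (nat_lit 76) (nat_lit 3206843429) (nat_lit 152) (nat_lit 2557573502) (nat_lit 12) (nat_lit 5) (nat_lit 13) (nat_lit 5) (nat_lit 14) (nat_lit 4) (nat_lit 270) (nat_lit 236) (nat_lit 214))) (XT.nd (nat_lit 78) (nat_lit 0) (nat_lit 0) (XT.lf (nat_lit 0) (nat_lit 1230853457) (nat_lit 228) (nat_lit 16772701265) (nat_lit 76) (nat_lit 1660643074) (nat_lit 9) (nat_lit 5) (nat_lit 12) (nat_lit 5) (nat_lit 10) (nat_lit 4) (nat_lit 271) (nat_lit 236) (nat_lit 213)) (XT.nd (nat_lit 78) (nat_lit 0) (nat_lit 0) (XT.lf (nat_lit 0) (nat_lit 5276496979) (nat_lit 228) (nat_lit 8772540721) (nat_lit 76) (nat_lit 6887398308) (nat_lit 9) (nat_lit 5) (nat_lit 12) (nat_lit 5) (nat_lit 10) (nat_lit 4) (nat_lit 272) (nat_lit 236) (nat_lit 212)) (XT.lf (nat_lit 0) (nat_lit 9540623118) (nat_lit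 228) (nat_lit 302756833) (nat_lit 76) (nat_lit 12472605126) (nat_lit 9) (nat_lit 5) (nat_lit 12) (nat_lit 5) (nat_lit 10) (nat_lit 4) (nat_lit 273) (nat_lit 236) (nat_lit 211))))))) (XT.nd (nat_lit 702) (nat_lit 228) (nat_lit 0) (XT.nd (nat_lit 312) (nat_lit 76) (nat_lit 0) (XT.nd (nat_lit 156) (nat_lit 152) (nat_lit 0) (XT.nd (nat_lit 78) (nat_lit 0) (nat_lit 0) (XT.lf (nat_lit 0) (nat_lit 8974067926) (nat_lit 76) (nat_lit 5214543195) (nat_lit 152) (nat_lit 9615403474) (nat_lit 8) (nat_lit 5) (nat_lit 9) (nat_lit 5) (nat_lit 10) (nat_lit 4) (nat_lit 274) (nat_lit 236) (nat_lit 210)) (XT.lf (nat_lit 0) (nat_lit 18852938368) (nat_lit 76) (nat_lit 268252123) (nat_lit 152) (nat_lit 6294492727) (nat_lit 8) (nat_lit 5) (nat_lit 9) (nat_lit 5) (nat_lit 10) (nat_lit 4) (nat_lit 275) (nat_lit 236) (nat_lit 209))) (XT.nd (nat_lit 78) (nat_lit 76) (nat_lit 0) (XT.lf (nat_lit 0) (nat_lit 2214093283)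 (nat_lit 76) (nat_lit 22261554300) (nat_lit 76) (nat_lit 2679491181) (nat_lit 7) (nat_lit 4) (nat_lit 8) (nat_lit 5) (nat_lit 8) (nat_lit 4) (nat_lit 276) (nat_lit 236) (nat_lit 208)) (XT.lf (nat_lit 0) (nat_lit 1222440133) (nat_lit 152) (nat_lit 17266240858) (nat_lit 76) (nat_lit 10542458660) (nat_lit 6) (nat_lit 5) (nat_lit 8) (nat_lit 5) (nat_lit 7) (nat_lit 4) (nat_lit 277) (nat_lit 236) (nat_lit 207)))) (XT.nd (nat_lit 156) (nat_lit 76) (nat_lit 0) (XT.nd (nat_lit 78) (nat_lit 0) (nat_lit 0) (XT.lf (nat_lit 0) (nat_lit 5266323136) (nat_lit 152) (nat_lit 9152373306) (nat_lit 76) (nat_lit 16640321372) (nat_lit 6) (nat_lit 5) (nat_lit 8) (nat_lit 5) (nat_lit 7) (nat_lit 4) (nat_lit 278) (nat_lit 236) (nat_lit 206)) (XT.lf (nat_lit 0) (nat_lit 9561882030) (nat_lit 152) (nat_lit 509526282) (nat_lit 76) (nat_lit 23181473716) (nat_lit 6) (nat_lit 5) (nat_lit 8) (nat_lit 5) (nat_lit 7)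 (nat_lit 4) (nat_lit 279) (nat_lit 236) (nat_lit 205))) (XT.nd (nat_lit 78) (nat_lit 0) (nat_lit 0) (XT.lf (nat_lit 0) (nat_lit 9001625311) (nat_lit 76) (nat_lit 5273487265) (nat_lit 152) (nat_lit 21343593362) (nat_lit 5) (nat_lit 5) (nat_lit 6) (nat_lit 5) (nat_lit 7) (nat_lit 4) (nat_lit 280) (nat_lit 236) (nat_lit 204)) (XT.nd (nat_lit 78) (nat_lit 0) (nat_lit 0) (XT.lf (nat_lit 0) (nat_lit 19185466617) (nat_lit 76) (nat_lit 125562688) (nat_lit 152) (nat_lit 18865625724) (nat_lit 5) (nat_lit 5) (nat_lit 6) (nat_lit 5) (nat_lit 7) (nat_lit 4) (nat_lit 281) (nat_lit 236) (nat_lit 203)) (XT.lf (nat_lit 0) (nat_lit 24775475762) (nat_lit 152) (nat_lit 10941018587) (nat_lit 0) (nat_lit 5221593114) (nat_lit 5) (nat_lit 5) (nat_lit 7) (nat_lit 4) (nat_lit 5) (nat_lit 4) (nat_lit 282) (nat_lit 236) (nat_lit 202)))))) (XT.nd (nat_lit 312) (nat_lit 152) (nat_lit 0) (XT.nd (nat_lit 156) (nat_lit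 0) (nat_lit 0) (XT.nd (nat_lit 78) (nat_lit 76) (nat_lit 0) (XT.lf (nat_lit 0) (nat_lit 30624392711) (nat_lit 152) (nat_lit 2342425299) (nat_lit 0) (nat_lit 10956371331) (nat_lit 5) (nat_lit 5) (nat_lit 7) (nat_lit 4) (nat_lit 5) (nat_lit 4) (nat_lit 283) (nat_lit 236) (nat_lit 201)) (XT.lf (nat_lit 0) (nat_lit 7084246596) (nat_lit 76) (nat_lit 29916838362) (nat_lit 76) (nat_lit 10143132971) (nat_lit 4) (nat_lit 4) (nat_lit 5) (nat_lit 5) (nat_lit 5) (nat_lit 4) (nat_lit 284) (nat_lit 236) (nat_lit 200))) (XT.nd (nat_lit 78) (nat_lit 0) (nat_lit 0) (XT.lf (nat_lit 0) (nat_lit 17265911820) (nat_lit 76) (nat_lit 26614527494) (nat_lit 76) (nat_lit 6742966538) (nat_lit 4) (nat_lit 4) (nat_lit 5) (nat_lit 5) (nat_lit 5) (nat_lit 4) (nat_lit 285) (nat_lit 236) (nat_lit 199)) (XT.lf (nat_lit 0) (nat_lit 28185455009) (nat_lit 76) (nat_lit 23079986262) (nat_lit 76) (nat_lit 3117818302) (nat_lit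 4) (nat_lit 4) (nat_lit 5) (nat_lit 5) (nat_lit 5) (nat_lit 4) (nat_lit 286) (nat_lit 236) (nat_lit 198)))) (XT.nd (nat_lit 156) (nat_lit 76) (nat_lit 0) (XT.nd (nat_lit 78) (nat_lit 0) (nat_lit 0) (XT.lf (nat_lit 0) (nat_lit 729667977) (nat_lit 152) (nat_lit 18550243981) (nat_lit 76) (nat_lit 39165559307) (nat_lit 3) (nat_lit 5) (nat_lit 5) (nat_lit 5) (nat_lit 4) (nat_lit 4) (nat_lit 287) (nat_lit 236) (nat_lit 197)) (XT.lf (nat_lit 0) (nat_lit 4738148943) (nat_lit 152) (nat_lit 10410538904) (nat_lit 76) (nat_lit 47683373172) (nat_lit 3) (nat_lit 5) (nat_lit 5) (nat_lit 5) (nat_lit 4) (nat_lit 4) (nat_lit 288) (nat_lit 236) (nat_lit 196))) (XT.nd (nat_lit 78) (nat_lit 76) (nat_lit 0) (XT.lf (nat_lit 0) (nat_lit 9031168213) (nat_lit 152) (nat_lit 1681776163) (nat_lit 76) (nat_lit 56858512959) (nat_lit 3) (nat_lit 5) (nat_lit 5) (nat_lit 5) (nat_lit 4) (nat_lit 4) (nat_lit 289) (nat_lit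 236) (nat_lit 195)) (XT.nd (nat_lit 78) (nat_lit 0) (nat_lit 0) (XT.lf (nat_lit 0) (nat_lit 7941962646) (nat_lit 76) (nat_lit 5816199549) (nat_lit 152) (nat_lit 58927383514) (nat_lit 2) (nat_lit 5) (nat_lit 3) (nat_lit 5) (nat_lit 4) (nat_lit 4) (nat_lit 290) (nat_lit 236) (nat_lit 194)) (XT.lf (nat_lit 0) (nat_lit 18340638524) (nat_lit 76) (nat_lit 520129272) (nat_lit 152) (nat_lit 59348182799) (nat_lit 2) (nat_lit 5) (nat_lit 3) (nat_lit 5) (nat_lit 4) (nat_lit 4) (nat_lit 291) (nat_lit 236) (nat_lit 193))))))))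
noncomputable def xc41 : XT := (XT.nd (nat_lit 1326) (nat_lit 0) (nat_lit 0) (XT.nd (nat_lit 624) (nat_lit 76) (nat_lit 0) (XT.nd (nat_lit 312) (nat_lit 0) (nat_lit 0) (XT.nd (nat_lit 156) (nat_lit 0) (nat_lit 0) (XT.nd (nat_lit 78) (nat_lit 0) (nat_lit 0) (XT.lf (nat_lit 0) (nat_lit 24422942987) (nat_lit 152) (nat_lit 54736339141) (nat_lit 0) (nat_lit 5012435138) (nat_lit 2) (nat_lit 5) (nat_lit 4) (nat_lit 4) (nat_lit 2) (nat_lit 4) (nat_lit 292) (nat_lit 236) (nat_lit 192)) (XT.lf (nat_lit 0) (nat_lit 30411251779) (nat_lit 152) (nat_lit 49250855558) (nat_lit 0) (nat_lit 10950393152) (nat_lit 2) (nat_lit 5) (nat_lit 4) (nat_lit 4) (nat_lit 2) (nat_lit 4) (nat_lit 293) (nat_lit 236) (nat_lit 191))) (XT.nd (nat_lit 78) (nat_lit 0) (nat_lit 0) (XT.lf (nat_lit 0) (nat_lit 36853059772) (nat_lit 152) (nat_lit 43371234075) (nat_lit 0) (nat_lit 17345580053) (nat_lit 2) (nat_lit 5) (nat_lit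 4) (nat_lit 4) (nat_lit 2) (nat_lit 4) (nat_lit 294) (nat_lit 236) (nat_lit 190)) (XT.lf (nat_lit 0) (nat_lit 43786540641) (nat_lit 152) (nat_lit 37062632492) (nat_lit 0) (nat_lit 24235893246) (nat_lit 2) (nat_lit 5) (nat_lit 4) (nat_lit 4) (nat_lit 2) (nat_lit 4) (nat_lit 295) (nat_lit 236) (nat_lit 189)))) (XT.nd (nat_lit 156) (nat_lit 0) (nat_lit 0) (XT.nd (nat_lit 78) (nat_lit 0) (nat_lit 0) (XT.lf (nat_lit 0) (nat_lit 51252781682) (nat_lit 152) (nat_lit 30287666502) (nat_lit 0) (nat_lit 31662164216) (nat_lit 2) (nat_lit 5) (nat_lit 4) (nat_lit 4) (nat_lit 2) (nat_lit 4) (nat_lit 296) (nat_lit 236) (nat_lit 188)) (XT.lf (nat_lit 0) (nat_lit 59296027285) (nat_lit 152) (nat_lit 23006188160) (nat_lit 0) (nat_lit 39668400494) (nat_lit 2) (nat_lit 5) (nat_lit 4) (nat_lit 4) (nat_lit 2) (nat_lit 4) (nat_lit 297) (nat_lit 236) (nat_lit 187))) (XT.nd (nat_lit 78) (nat_lit 0) (nat_lit 0)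 (XT.lf (nat_lit 0) (nat_lit 67963941129) (nat_lit 152) (nat_lit 15175047963) (nat_lit 0) (nat_lit 48302046444) (nat_lit 2) (nat_lit 5) (nat_lit 4) (nat_lit 4) (nat_lit 2) (nat_lit 4) (nat_lit 298) (nat_lit 236) (nat_lit 186)) (XT.lf (nat_lit 0) (nat_lit 77307888628) (nat_lit 152) (nat_lit 6747839156) (nat_lit 0) (nat_lit 57614264412) (nat_lit 2) (nat_lit 5) (nat_lit 4) (nat_lit 4) (nat_lit 2) (nat_lit 4) (nat_lit 299) (nat_lit 236) (nat_lit 185))))) (XT.nd (nat_lit 312) (nat_lit 0) (nat_lit 0) (XT.nd (nat_lit 156) (nat_lit 0) (nat_lit 0) (XT.nd (nat_lit 78) (nat_lit 0) (nat_lit 0) (XT.lf (nat_lit 0) (nat_lit 2402264750) (nat_lit 76) (nat_lit 85018482657) (nat_lit 76) (nat_lit 65295479246) (nat_lit 1) (nat_lit 4) (nat_lit 2) (nat_lit 5) (nat_lit 2) (nat_lit 4) (nat_lit 300) (nat_lit 236) (nat_lit 184)) (XT.lf (nat_lit 0) (nat_lit 12498395245) (nat_lit 76) (nat_lit 85946444739) (nat_lit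 76) (nat_lit 66196238369) (nat_lit 1) (nat_lit 4) (nat_lit 2) (nat_lit 5) (nat_lit 2) (nat_lit 4) (nat_lit 301) (nat_lit 236) (nat_lit 183))) (XT.nd (nat_lit 78) (nat_lit 0) (nat_lit 0) (XT.lf (nat_lit 0) (nat_lit 23377267212) (nat_lit 76) (nat_lit 86959390986) (nat_lit 76) (nat_lit 67183996691) (nat_lit 1) (nat_lit 4) (nat_lit 2) (nat_lit 5) (nat_lit 2) (nat_lit 4) (nat_lit 302) (nat_lit 236) (nat_lit 182)) (XT.lf (nat_lit 0) (nat_lit 35103348041) (nat_lit 76) (nat_lit 88063324042) (nat_lit 76) (nat_lit 68264607594) (nat_lit 1) (nat_lit 4) (nat_lit 2) (nat_lit 5) (nat_lit 2) (nat_lit 4) (nat_lit 303) (nat_lit 236) (nat_lit 181)))) (XT.nd (nat_lit 156) (nat_lit 0) (nat_lit 0) (XT.nd (nat_lit 78) (nat_lit 0) (nat_lit 0) (XT.lf (nat_lit 0) (nat_lit 47746125618) (nat_lit 76) (nat_lit 89264785732) (nat_lit 76) (nat_lit 69444474699) (nat_lit 1) (nat_lit 4) (nat_lit 2) (nat_lit 5) (nat_lit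 2) (nat_lit 4) (nat_lit 304) (nat_lit 236) (nat_lit 180)) (XT.lf (nat_lit 0) (nat_lit 61380520106) (nat_lit 76) (nat_lit 90570895830) (nat_lit 76) (nat_lit 70730589810) (nat_lit 1) (nat_lit 4) (nat_lit 2) (nat_lit 5) (nat_lit 2) (nat_lit 4) (nat_lit 305) (nat_lit 236) (nat_lit 179))) (XT.nd (nat_lit 78) (nat_lit 0) (nat_lit 0) (XT.lf (nat_lit 0) (nat_lit 76087327917) (nat_lit 76) (nat_lit 91989394248) (nat_lit 76) (nat_lit 72130574351) (nat_lit 1) (nat_lit 4) (nat_lit 2) (nat_lit 5) (nat_lit 2) (nat_lit 4) (nat_lit 306) (nat_lit 236) (nat_lit 178)) (XT.nd (nat_lit 78) (nat_lit 0) (nat_lit 0) (XT.lf (nat_lit 0) (nat_lit 91953700506) (nat_lit 76) (nat_lit 93528686901) (nat_lit 76) (nat_lit 73652724526) (nat_lit 1) (nat_lit 4) (nat_lit 2) (nat_lit 5) (nat_lit 2) (nat_lit 4) (nat_lit 307) (nat_lit 236) (nat_lit 177)) (XT.lf (nat_lit 0) (nat_lit 109073660820) (nat_lit 76) (nat_lit 95197895525)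 (nat_lit 76) (nat_lit 75306060485) (nat_lit 1) (nat_lit 4) (nat_lit 2) (nat_lit 5) (nat_lit 2) (nat_lit 4) (nat_lit 308) (nat_lit 236) (nat_lit 176))))))) (XT.nd (nat_lit 702) (nat_lit 0) (nat_lit 0) (XT.nd (nat_lit 312) (nat_lit 0) (nat_lit 0) (XT.nd (nat_lit 156) (nat_lit 0) (nat_lit 0) (XT.nd (nat_lit 78) (nat_lit 0) (nat_lit 0) (XT.lf (nat_lit 0) (nat_lit 127548660476) (nat_lit 76) (nat_lit 97006911726) (nat_lit 76) (nat_lit 77100379773) (nat_lit 1) (nat_lit 4) (nat_lit 2) (nat_lit 5) (nat_lit 2) (nat_lit 4) (nat_lit 309) (nat_lit 236) (nat_lit 175)) (XT.lf (nat_lit 0) (nat_lit 147488180954) (nat_lit 76) (nat_lit 98966455599) (nat_lit 76) (nat_lit 79046315394) (nat_lit 1) (nat_lit 4) (nat_lit 2) (nat_lit 5) (nat_lit 2) (nat_lit 4) (nat_lit 310) (nat_lit 236) (nat_lit 174))) (XT.nd (nat_lit 78) (nat_lit 0) (nat_lit 0) (XT.lf (nat_lit 0) (nat_lit 169010382374) (nat_lit 76) (nat_lit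 101088139257) (nat_lit 76) (nat_lit 81155398819) (nat_lit 1) (nat_lit 4) (nat_lit 2) (nat_lit 5) (nat_lit 2) (nat_lit 4) (nat_lit 311) (nat_lit 236) (nat_lit 173)) (XT.lf (nat_lit 0) (nat_lit 192242803710) (nat_lit 76) (nat_lit 103384535640) (nat_lit 76) (nat_lit 83440128319) (nat_lit 1) (nat_lit 4) (nat_lit 2) (nat_lit 5) (nat_lit 2) (nat_lit 4) (nat_lit 312) (nat_lit 236) (nat_lit 172)))) (XT.nd (nat_lit 156) (nat_lit 0) (nat_lit 0) (XT.nd (nat_lit 78) (nat_lit 0) (nat_lit 0) (XT.lf (nat_lit 0) (nat_lit 217323118567) (nat_lit 76) (nat_lit 105869253023) (nat_lit 76) (nat_lit 85914043033) (nat_lit 1) (nat_lit 4) (nat_lit 2) (nat_lit 5) (nat_lit 2) (nat_lit 4) (nat_lit 313) (nat_lit 236) (nat_lit 171)) (XT.lf (nat_lit 0) (nat_lit 244399951036) (nat_lit 76) (nat_lit 108557015656) (nat_lit 76) (nat_lit 88591803195) (nat_lit 1) (nat_lit 4) (nat_lit 2) (nat_lit 5) (nat_lit 2) (nat_lit 4)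 (nat_lit 314) (nat_lit 236) (nat_lit 170))) (XT.nd (nat_lit 78) (nat_lit 0) (nat_lit 0) (XT.lf (nat_lit 0) (nat_lit 273633756417) (nat_lit 76) (nat_lit 111463751023) (nat_lit 76) (nat_lit 91489277014) (nat_lit 1) (nat_lit 4) (nat_lit 2) (nat_lit 5) (nat_lit 2) (nat_lit 4) (nat_lit 315) (nat_lit 236) (nat_lit 169)) (XT.nd (nat_lit 78) (nat_lit 0) (nat_lit 0) (XT.lf (nat_lit 0) (nat_lit 305197772079) (nat_lit 76) (nat_lit 114606684221) (nat_lit 76) (nat_lit 94623634705) (nat_lit 1) (nat_lit 4) (nat_lit 2) (nat_lit 5) (nat_lit 2) (nat_lit 4) (nat_lit 316) (nat_lit 236) (nat_lit 168)) (XT.lf (nat_lit 0) (nat_lit 339279044038) (nat_lit 76) (nat_lit 118004440040) (nat_lit 76) (nat_lit 98013450240) (nat_lit 1) (nat_lit 4) (nat_lit 2) (nat_lit 5) (nat_lit 2) (nat_lit 4) (nat_lit 317) (nat_lit 236) (nat_lit 167)))))) (XT.nd (nat_lit 312) (nat_lit 0) (nat_lit 0) (XT.nd (nat_lit 156) (nat_lit 0)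 (nat_lit 0) (XT.nd (nat_lit 78) (nat_lit 0) (nat_lit 0) (XT.lf (nat_lit 0) (nat_lit 376079535387) (nat_lit 76) (nat_lit 121677153330) (nat_lit 76) (nat_lit 101678811414) (nat_lit 1) (nat_lit 4) (nat_lit 2) (nat_lit 5) (nat_lit 2) (nat_lit 4) (nat_lit 318) (nat_lit 236) (nat_lit 166)) (XT.lf (nat_lit 0) (nat_lit 415817323114) (nat_lit 76) (nat_lit 125646588316) (nat_lit 76) (nat_lit 105641438887) (nat_lit 1) (nat_lit 4) (nat_lit 2) (nat_lit 5) (nat_lit 2) (nat_lit 4) (nat_lit 319) (nat_lit 236) (nat_lit 165))) (XT.nd (nat_lit 78) (nat_lit 0) (nat_lit 0) (XT.lf (nat_lit 0) (nat_lit 458727890404) (nat_lit 76) (nat_lit 129936267578) (nat_lit 76) (nat_lit 109924814894) (nat_lit 1) (nat_lit 4) (nat_lit 2) (nat_lit 5) (nat_lit 2) (nat_lit 4) (nat_lit 320) (nat_lit 236) (nat_lit 164)) (XT.lf (nat_lit 0) (nat_lit 505065522100) (nat_lit 76) (nat_lit 134571611436) (nat_lit 76) (nat_lit 114554322406)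 (nat_lit 1) (nat_lit 4) (nat_lit 2) (nat_lit 5) (nat_lit 2) (nat_lit 4) (nat_lit 321) (nat_lit 236) (nat_lit 163)))) (XT.nd (nat_lit 31668) (nat_lit 0) (nat_lit 5320) (XT.nd (nat_lit 31590) (nat_lit 0) (nat_lit 6840) (XT.lf (nat_lit 0) (nat_lit 555104811576) (nat_lit 76) (nat_lit 139580088595) (nat_lit 76) (nat_lit 119557395541) (nat_lit 1) (nat_lit 4) (nat_lit 2) (nat_lit 5) (nat_lit 2) (nat_lit 4) (nat_lit 322) (nat_lit 236) (nat_lit 162)) (XT.lf (nat_lit 0) (nat_lit 979981747) (nat_lit 380) (nat_lit 1407159427) (nat_lit 0) (nat_lit 979981747) (nat_lit 91) (nat_lit 5) (nat_lit 96) (nat_lit 4) (nat_lit 91) (nat_lit 4) (nat_lit 246) (nat_lit 237) (nat_lit 237))) (XT.nd (nat_lit 78) (nat_lit 1140) (nat_lit 0) (XT.lf (nat_lit 0) (nat_lit 3029019457) (nat_lit 380) (nat_lit 3351666485) (nat_lit 380) (nat_lit 465331235) (nat_lit 86) (nat_lit 4) (nat_lit 91) (nat_lit 5) (nat_lit 91) (nat_lit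 4) (nat_lit 247) (nat_lit 237) (nat_lit 236)) (XT.nd (nat_lit 78) (nat_lit 608) (nat_lit 0) (XT.lf (nat_lit 0) (nat_lit 2163350331) (nat_lit 456) (nat_lit 1603585385) (nat_lit 532) (nat_lit 3213581379) (nat_lit 79) (nat_lit 5) (nat_lit 85) (nat_lit 5) (nat_lit 86) (nat_lit 4) (nat_lit 248) (nat_lit 237) (nat_lit 235)) (XT.lf (nat_lit 0) (nat_lit 896961692) (nat_lit 608) (nat_lit 5812119144) (nat_lit 76) (nat_lit 430794457) (nat_lit 71) (nat_lit 5) (nat_lit 79) (nat_lit 5) (nat_lit 72) (nat_lit 4) (nat_lit 249) (nat_lit 237) (nat_lit 234))))))))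
noncomputable def xc42 : XT := (XT.nd (nat_lit 1326) (nat_lit 836) (nat_lit 0) (XT.nd (nat_lit 624) (nat_lit 1292) (nat_lit 0) (XT.nd (nat_lit 312) (nat_lit 1140) (nat_lit 0) (XT.nd (nat_lit 156) (nat_lit 1064) (nat_lit 0) (XT.nd (nat_lit 78) (nat_lit 76) (nat_lit 0) (XT.lf (nat_lit 0) (nat_lit 438064836) (nat_lit 608) (nat_lit 4572234445) (nat_lit 684) (nat_lit 2311917503) (nat_lit 63) (nat_lit 5) (nat_lit 71) (nat_lit 5) (nat_lit 72) (nat_lit 4) (nat_lit 250) (nat_lit 237) (nat_lit 233)) (XT.lf (nat_lit 0) (nat_lit 1653268398) (nat_lit 684) (nat_lit 470551384) (nat_lit 76) (nat_lit 5406672824) (nat_lit 62) (nat_lit 5) (nat_lit 71) (nat_lit 5) (nat_lit 63) (nat_lit 5) (nat_lit 251) (nat_lit 237) (nat_lit 232))) (XT.nd (nat_lit 78) (nat_lit 380) (nat_lit 0) (XT.lf (nat_lit 0) (nat_lit 5667360236) (nat_lit 760) (nat_lit 1452782237) (nat_lit 76) (nat_lit 644551340) (nat_lit 53) (nat_lit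 5) (nat_lit 63) (nat_lit 5) (nat_lit 54) (nat_lit 4) (nat_lit 252) (nat_lit 237) (nat_lit 231)) (XT.lf (nat_lit 0) (nat_lit 1767031585) (nat_lit 380) (nat_lit 2578814389) (nat_lit 76) (nat_lit 3679535867) (nat_lit 48) (nat_lit 5) (nat_lit 53) (nat_lit 5) (nat_lit 49) (nat_lit 5) (nat_lit 253) (nat_lit 237) (nat_lit 230)))) (XT.nd (nat_lit 156) (nat_lit 532) (nat_lit 0) (XT.nd (nat_lit 78) (nat_lit 304) (nat_lit 0) (XT.lf (nat_lit 0) (nat_lit 4454103146) (nat_lit 304) (nat_lit 1239702225) (nat_lit 380) (nat_lit 2621527276) (nat_lit 44) (nat_lit 5) (nat_lit 48) (nat_lit 5) (nat_lit 49) (nat_lit 5) (nat_lit 254) (nat_lit 237) (nat_lit 229)) (XT.lf (nat_lit 0) (nat_lit 1136679423) (nat_lit 304) (nat_lit 5364799138) (nat_lit 76) (nat_lit 2133659833) (nat_lit 40) (nat_lit 5) (nat_lit 44) (nat_lit 5) (nat_lit 41) (nat_lit 5) (nat_lit 255) (nat_lit 237) (nat_lit 228))) (XT.nd (nat_lit 78) (nat_lit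 228) (nat_lit 0) (XT.lf (nat_lit 0) (nat_lit 1831742290) (nat_lit 304) (nat_lit 3145862845) (nat_lit 380) (nat_lit 4008274524) (nat_lit 36) (nat_lit 5) (nat_lit 40) (nat_lit 5) (nat_lit 41) (nat_lit 5) (nat_lit 256) (nat_lit 237) (nat_lit 227)) (XT.lf (nat_lit 0) (nat_lit 138035645) (nat_lit 228) (nat_lit 8860187556) (nat_lit 304) (nat_lit 373942824) (nat_lit 33) (nat_lit 5) (nat_lit 36) (nat_lit 5) (nat_lit 37) (nat_lit 4) (nat_lit 257) (nat_lit 237) (nat_lit 226))))) (XT.nd (nat_lit 312) (nat_lit 532) (nat_lit 0) (XT.nd (nat_lit 156) (nat_lit 456) (nat_lit 0) (XT.nd (nat_lit 78) (nat_lit 228) (nat_lit 0) (XT.lf (nat_lit 0) (nat_lit 3393234883) (nat_lit 304) (nat_lit 1913208994) (nat_lit 76) (nat_lit 4483327305) (nat_lit 32) (nat_lit 5) (nat_lit 36) (nat_lit 5) (nat_lit 33) (nat_lit 5) (nat_lit 258) (nat_lit 237) (nat_lit 225)) (XT.lf (nat_lit 0) (nat_lit 5908975199) (nat_lit 228) (nat_lit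 1424779778) (nat_lit 304) (nat_lit 2913373443) (nat_lit 29) (nat_lit 5) (nat_lit 32) (nat_lit 5) (nat_lit 33) (nat_lit 5) (nat_lit 259) (nat_lit 237) (nat_lit 224))) (XT.nd (nat_lit 78) (nat_lit 228) (nat_lit 0) (XT.lf (nat_lit 0) (nat_lit 754026496) (nat_lit 228) (nat_lit 7268919082) (nat_lit 76) (nat_lit 2721626223) (nat_lit 26) (nat_lit 5) (nat_lit 29) (nat_lit 5) (nat_lit 27) (nat_lit 5) (nat_lit 260) (nat_lit 237) (nat_lit 223)) (XT.lf (nat_lit 0) (nat_lit 471327809) (nat_lit 228) (nat_lit 4060871895) (nat_lit 304) (nat_lit 6751988192) (nat_lit 23) (nat_lit 5) (nat_lit 26) (nat_lit 5) (nat_lit 27) (nat_lit 5) (nat_lit 261) (nat_lit 237) (nat_lit 222)))) (XT.nd (nat_lit 156) (nat_lit 304) (nat_lit 0) (XT.nd (nat_lit 78) (nat_lit 228) (nat_lit 0) (XT.lf (nat_lit 0) (nat_lit 8563726435) (nat_lit 304) (nat_lit 3033831788) (nat_lit 76) (nat_lit 272543258) (nat_lit 23) (nat_lit 5) (nat_lit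 27) (nat_lit 5) (nat_lit 24) (nat_lit 4) (nat_lit 262) (nat_lit 237) (nat_lit 221)) (XT.lf (nat_lit 0) (nat_lit 383202305) (nat_lit 228) (nat_lit 7283178562) (nat_lit 76) (nat_lit 4837706157) (nat_lit 20) (nat_lit 5) (nat_lit 23) (nat_lit 5) (nat_lit 21) (nat_lit 5) (nat_lit 263) (nat_lit 237) (nat_lit 220))) (XT.nd (nat_lit 78) (nat_lit 152) (nat_lit 0) (XT.lf (nat_lit 0) (nat_lit 792479367) (nat_lit 152) (nat_lit 3365344187) (nat_lit 228) (nat_lit 9033529692) (nat_lit 18) (nat_lit 5) (nat_lit 20) (nat_lit 5) (nat_lit 21) (nat_lit 5) (nat_lit 264) (nat_lit 237) (nat_lit 219)) (XT.nd (nat_lit 78) (nat_lit 152) (nat_lit 0) (XT.lf (nat_lit 0) (nat_lit 8228810909) (nat_lit 228) (nat_lit 4406422287) (nat_lit 76) (nat_lit 1299164259) (nat_lit 18) (nat_lit 5) (nat_lit 21) (nat_lit 5) (nat_lit 19) (nat_lit 4) (nat_lit 265) (nat_lit 237) (nat_lit 218)) (XT.lf (nat_lit 0) (nat_lit 4085196060)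 (nat_lit 152) (nat_lit 8517722701) (nat_lit 228) (nat_lit 2135572613) (nat_lit 16) (nat_lit 5) (nat_lit 18) (nat_lit 5) (nat_lit 19) (nat_lit 4) (nat_lit 266) (nat_lit 237) (nat_lit 217))))))) (XT.nd (nat_lit 702) (nat_lit 228) (nat_lit 0) (XT.nd (nat_lit 312) (nat_lit 304) (nat_lit 0) (XT.nd (nat_lit 156) (nat_lit 76) (nat_lit 0) (XT.nd (nat_lit 78) (nat_lit 152) (nat_lit 0) (XT.lf (nat_lit 0) (nat_lit 1604666453) (nat_lit 228) (nat_lit 2427612915) (nat_lit 76) (nat_lit 11576728634) (nat_lit 15) (nat_lit 5) (nat_lit 18) (nat_lit 5) (nat_lit 16) (nat_lit 5) (nat_lit 267) (nat_lit 237) (nat_lit 216)) (XT.lf (nat_lit 0) (nat_lit 5556507448) (nat_lit 228) (nat_lit 10131424525) (nat_lit 76) (nat_lit 860513871) (nat_lit 13) (nat_lit 5) (nat_lit 16) (nat_lit 5) (nat_lit 14) (nat_lit 4) (nat_lit 268) (nat_lit 237) (nat_lit 215))) (XT.nd (nat_lit 78) (nat_lit 76) (nat_lit 0) (XT.lf (nat_lit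 0) (nat_lit 9812955886) (nat_lit 228) (nat_lit 1765048700) (nat_lit 76) (nat_lit 5985972690) (nat_lit 13) (nat_lit 5) (nat_lit 16) (nat_lit 5) (nat_lit 14) (nat_lit 4) (nat_lit 269) (nat_lit 237) (nat_lit 214)) (XT.lf (nat_lit 0) (nat_lit 7327998255) (nat_lit 76) (nat_lit 7082895383) (nat_lit 152) (nat_lit 4250143700) (nat_lit 12) (nat_lit 5) (nat_lit 13) (nat_lit 5) (nat_lit 14) (nat_lit 4) (nat_lit 270) (nat_lit 237) (nat_lit 213)))) (XT.nd (nat_lit 156) (nat_lit 76) (nat_lit 0) (XT.nd (nat_lit 78) (nat_lit 228) (nat_lit 0) (XT.lf (nat_lit 0) (nat_lit 17042037699) (nat_lit 76) (nat_lit 2257694258) (nat_lit 152) (nat_lit 550286960) (nat_lit 12) (nat_lit 5) (nat_lit 13) (nat_lit 5) (nat_lit 14) (nat_lit 4) (nat_lit 271) (nat_lit 237) (nat_lit 212)) (XT.lf (nat_lit 0) (nat_lit 3381125812) (nat_lit 228) (nat_lit 14790283748) (nat_lit 76) (nat_lit 2958000736) (nat_lit 9) (nat_lit 5) (nat_lit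 12) (nat_lit 5) (nat_lit 10) (nat_lit 4) (nat_lit 272) (nat_lit 237) (nat_lit 211))) (XT.nd (nat_lit 78) (nat_lit 76) (nat_lit 0) (XT.lf (nat_lit 0) (nat_lit 7598435328) (nat_lit 228) (nat_lit 6396349887) (nat_lit 76) (nat_lit 8516636669) (nat_lit 9) (nat_lit 5) (nat_lit 12) (nat_lit 5) (nat_lit 10) (nat_lit 4) (nat_lit 273) (nat_lit 237) (nat_lit 210)) (XT.nd (nat_lit 78) (nat_lit 0) (nat_lit 0) (XT.lf (nat_lit 0) (nat_lit 2606439489) (nat_lit 76) (nat_lit 9497218591) (nat_lit 152) (nat_lit 11903044257) (nat_lit 8) (nat_lit 5) (nat_lit 9) (nat_lit 5) (nat_lit 10) (nat_lit 4) (nat_lit 274) (nat_lit 237) (nat_lit 209)) (XT.lf (nat_lit 0) (nat_lit 12418130600) (nat_lit 76) (nat_lit 4576920284) (nat_lit 152) (nat_lit 8625483733) (nat_lit 8) (nat_lit 5) (nat_lit 9) (nat_lit 5) (nat_lit 10) (nat_lit 4) (nat_lit 275) (nat_lit 237) (nat_lit 208)))))) (XT.nd (nat_lit 312) (nat_lit 76) (nat_lit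 0) (XT.nd (nat_lit 156) (nat_lit 76) (nat_lit 0) (XT.nd (nat_lit 78) (nat_lit 76) (nat_lit 0) (XT.lf (nat_lit 0) (nat_lit 22209157920) (nat_lit 152) (nat_lit 4492991020) (nat_lit 0) (nat_lit 664955324) (nat_lit 8) (nat_lit 5) (nat_lit 10) (nat_lit 4) (nat_lit 8) (nat_lit 4) (nat_lit 276) (nat_lit 237) (nat_lit 207)) (XT.lf (nat_lit 0) (nat_lit 4868901827) (nat_lit 76) (nat_lit 23050513895) (nat_lit 76) (nat_lit 1330218694) (nat_lit 7) (nat_lit 4) (nat_lit 8) (nat_lit 5) (nat_lit 8) (nat_lit 4) (nat_lit 277) (nat_lit 237) (nat_lit 206))) (XT.nd (nat_lit 78) (nat_lit 0) (nat_lit 0) (XT.lf (nat_lit 0) (nat_lit 2721703677) (nat_lit 152) (nat_lit 16303851371) (nat_lit 76) (nat_lit 12254801625) (nat_lit 6) (nat_lit 5) (nat_lit 8) (nat_lit 5) (nat_lit 7) (nat_lit 4) (nat_lit 278) (nat_lit 237) (nat_lit 205)) (XT.lf (nat_lit 0) (nat_lit 6985284851) (nat_lit 152) (nat_lit 7714480990) (nat_lit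 76) (nat_lit 18776126964) (nat_lit 6) (nat_lit 5) (nat_lit 8) (nat_lit 5) (nat_lit 7) (nat_lit 4) (nat_lit 279) (nat_lit 237) (nat_lit 204)))) (XT.nd (nat_lit 156) (nat_lit 0) (nat_lit 0) (XT.nd (nat_lit 78) (nat_lit 0) (nat_lit 0) (XT.lf (nat_lit 0) (nat_lit 1507289649) (nat_lit 76) (nat_lit 10044609166) (nat_lit 152) (nat_lit 24297216351) (nat_lit 5) (nat_lit 5) (nat_lit 6) (nat_lit 5) (nat_lit 7) (nat_lit 4) (nat_lit 280) (nat_lit 237) (nat_lit 203)) (XT.lf (nat_lit 0) (nat_lit 11643767423) (nat_lit 76) (nat_lit 4915892902) (nat_lit 152) (nat_lit 21848874306) (nat_lit 5) (nat_lit 5) (nat_lit 6) (nat_lit 5) (nat_lit 7) (nat_lit 4) (nat_lit 281) (nat_lit 237) (nat_lit 202))) (XT.nd (nat_lit 78) (nat_lit 0) (nat_lit 0) (XT.lf (nat_lit 0) (nat_lit 21922968976) (nat_lit 152) (nat_lit 18684745801) (nat_lit 0) (nat_lit 567367154) (nat_lit 5) (nat_lit 5) (nat_lit 7) (nat_lit 4) (nat_lit 5)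 (nat_lit 4) (nat_lit 282) (nat_lit 237) (nat_lit 201)) (XT.nd (nat_lit 78) (nat_lit 0) (nat_lit 0) (XT.lf (nat_lit 0) (nat_lit 27747490251) (nat_lit 152) (nat_lit 10127762603) (nat_lit 0) (nat_lit 6286204419) (nat_lit 5) (nat_lit 5) (nat_lit 7) (nat_lit 4) (nat_lit 5) (nat_lit 4) (nat_lit 283) (nat_lit 237) (nat_lit 200)) (XT.lf (nat_lit 0) (nat_lit 33990988969) (nat_lit 152) (nat_lit 966358702) (nat_lit 0) (nat_lit 12431847571) (nat_lit 5) (nat_lit 5) (nat_lit 7) (nat_lit 4) (nat_lit 5) (nat_lit 4) (nat_lit 284) (nat_lit 237) (nat_lit 199))))))))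
noncomputable def xc43 : XT := (XT.nd (nat_lit 1404) (nat_lit 0) (nat_lit 0) (XT.nd (nat_lit 702) (nat_lit 76) (nat_lit 0) (XT.nd (nat_lit 312) (nat_lit 76) (nat_lit 0) (XT.nd (nat_lit 156) (nat_lit 76) (nat_lit 0) (XT.nd (nat_lit 78) (nat_lit 0) (nat_lit 0) (XT.lf (nat_lit 0) (nat_lit 9146500851) (nat_lit 76) (nat_lit 31686765299) (nat_lit 76) (nat_lit 10037016896) (nat_lit 4) (nat_lit 4) (nat_lit 5) (nat_lit 5) (nat_lit 5) (nat_lit 4) (nat_lit 285) (nat_lit 237) (nat_lit 198)) (XT.lf (nat_lit 0) (nat_lit 20031920440) (nat_lit 76) (nat_lit 28166448830) (nat_lit 76) (nat_lit 6432805052) (nat_lit 4) (nat_lit 4) (nat_lit 5) (nat_lit 5) (nat_lit 5) (nat_lit 4) (nat_lit 286) (nat_lit 237) (nat_lit 197))) (XT.nd (nat_lit 78) (nat_lit 76) (nat_lit 0) (XT.lf (nat_lit 0) (nat_lit 31722454071) (nat_lit 76) (nat_lit 24391902883) (nat_lit 76) (nat_lit 2580578202) (nat_lit 4) (nat_lit 4) (nat_lit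 5) (nat_lit 5) (nat_lit 5) (nat_lit 4) (nat_lit 287) (nat_lit 237) (nat_lit 196)) (XT.lf (nat_lit 0) (nat_lit 1493122297) (nat_lit 152) (nat_lit 18822350731) (nat_lit 76) (nat_lit 42768969933) (nat_lit 3) (nat_lit 5) (nat_lit 5) (nat_lit 5) (nat_lit 4) (nat_lit 4) (nat_lit 288) (nat_lit 237) (nat_lit 195)))) (XT.nd (nat_lit 156) (nat_lit 76) (nat_lit 0) (XT.nd (nat_lit 78) (nat_lit 0) (nat_lit 0) (XT.lf (nat_lit 0) (nat_lit 5770053527) (nat_lit 152) (nat_lit 10121240564) (nat_lit 76) (nat_lit 51933381805) (nat_lit 3) (nat_lit 5) (nat_lit 5) (nat_lit 5) (nat_lit 4) (nat_lit 4) (nat_lit 289) (nat_lit 237) (nat_lit 194)) (XT.lf (nat_lit 0) (nat_lit 10358154881) (nat_lit 152) (nat_lit 777298393) (nat_lit 76) (nat_lit 61810285458) (nat_lit 3) (nat_lit 5) (nat_lit 5) (nat_lit 5) (nat_lit 4) (nat_lit 4) (nat_lit 290) (nat_lit 237) (nat_lit 193))) (XT.nd (nat_lit 78) (nat_lit 0) (nat_lit 0)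 (XT.lf (nat_lit 0) (nat_lit 9571184983) (nat_lit 76) (nat_lit 5862863146) (nat_lit 152) (nat_lit 63036458728) (nat_lit 2) (nat_lit 5) (nat_lit 3) (nat_lit 5) (nat_lit 4) (nat_lit 4) (nat_lit 291) (nat_lit 237) (nat_lit 192)) (XT.nd (nat_lit 78) (nat_lit 0) (nat_lit 0) (XT.lf (nat_lit 0) (nat_lit 20728135279) (nat_lit 76) (nat_lit 174117052) (nat_lit 152) (nat_lit 63535745323) (nat_lit 2) (nat_lit 5) (nat_lit 3) (nat_lit 5) (nat_lit 4) (nat_lit 4) (nat_lit 292) (nat_lit 237) (nat_lit 191)) (XT.lf (nat_lit 0) (nat_lit 26875551561) (nat_lit 152) (nat_lit 58243151100) (nat_lit 0) (nat_lit 5760852374) (nat_lit 2) (nat_lit 5) (nat_lit 4) (nat_lit 4) (nat_lit 2) (nat_lit 4) (nat_lit 293) (nat_lit 237) (nat_lit 190)))))) (XT.nd (nat_lit 312) (nat_lit 76) (nat_lit 0) (XT.nd (nat_lit 156) (nat_lit 0) (nat_lit 0) (XT.nd (nat_lit 78) (nat_lit 0) (nat_lit 0) (XT.lf (nat_lit 0) (nat_lit 33305978898)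 (nat_lit 152) (nat_lit 52383428472) (nat_lit 0) (nat_lit 12148112035) (nat_lit 2) (nat_lit 5) (nat_lit 4) (nat_lit 4) (nat_lit 2) (nat_lit 4) (nat_lit 294) (nat_lit 237) (nat_lit 189)) (XT.lf (nat_lit 0) (nat_lit 40228922124) (nat_lit 152) (nat_lit 46093251754) (nat_lit 0) (nat_lit 19031085190) (nat_lit 2) (nat_lit 5) (nat_lit 4) (nat_lit 4) (nat_lit 2) (nat_lit 4) (nat_lit 295) (nat_lit 237) (nat_lit 188))) (XT.nd (nat_lit 78) (nat_lit 0) (nat_lit 0) (XT.lf (nat_lit 0) (nat_lit 47685406088) (nat_lit 152) (nat_lit 39335345825) (nat_lit 0) (nat_lit 26450559828) (nat_lit 2) (nat_lit 5) (nat_lit 4) (nat_lit 4) (nat_lit 2) (nat_lit 4) (nat_lit 296) (nat_lit 237) (nat_lit 187)) (XT.lf (nat_lit 0) (nat_lit 55719617360) (nat_lit 152) (nat_lit 32069663836) (nat_lit 0) (nat_lit 34450503207) (nat_lit 2) (nat_lit 5) (nat_lit 4) (nat_lit 4) (nat_lit 2) (nat_lit 4) (nat_lit 297) (nat_lit 237) (nat_lit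 186)))) (XT.nd (nat_lit 156) (nat_lit 76) (nat_lit 0) (XT.nd (nat_lit 78) (nat_lit 0) (nat_lit 0) (XT.lf (nat_lit 0) (nat_lit 64379166082) (nat_lit 152) (nat_lit 24253149892) (nat_lit 0) (nat_lit 43078322398) (nat_lit 2) (nat_lit 5) (nat_lit 4) (nat_lit 4) (nat_lit 2) (nat_lit 4) (nat_lit 298) (nat_lit 237) (nat_lit 185)) (XT.lf (nat_lit 0) (nat_lit 73715368099) (nat_lit 152) (nat_lit 15839483911) (nat_lit 0) (nat_lit 52385145219) (nat_lit 2) (nat_lit 5) (nat_lit 4) (nat_lit 4) (nat_lit 2) (nat_lit 4) (nat_lit 299) (nat_lit 237) (nat_lit 184))) (XT.nd (nat_lit 78) (nat_lit 76) (nat_lit 0) (XT.lf (nat_lit 0) (nat_lit 83783549051) (nat_lit 152) (nat_lit 6778807132) (nat_lit 0) (nat_lit 62426123212) (nat_lit 2) (nat_lit 5) (nat_lit 4) (nat_lit 4) (nat_lit 2) (nat_lit 4) (nat_lit 300) (nat_lit 237) (nat_lit 183)) (XT.nd (nat_lit 78) (nat_lit 0) (nat_lit 0) (XT.lf (nat_lit 0) (nat_lit 3081190689)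 (nat_lit 76) (nat_lit 91610287566) (nat_lit 76) (nat_lit 70227673803) (nat_lit 1) (nat_lit 4) (nat_lit 2) (nat_lit 5) (nat_lit 2) (nat_lit 4) (nat_lit 301) (nat_lit 237) (nat_lit 182)) (XT.lf (nat_lit 0) (nat_lit 13948956456) (nat_lit 76) (nat_lit 92628018000) (nat_lit 76) (nat_lit 71222082084) (nat_lit 1) (nat_lit 4) (nat_lit 2) (nat_lit 5) (nat_lit 2) (nat_lit 4) (nat_lit 302) (nat_lit 237) (nat_lit 181))))))) (XT.nd (nat_lit 702) (nat_lit 0) (nat_lit 0) (XT.nd (nat_lit 312) (nat_lit 0) (nat_lit 0) (XT.nd (nat_lit 156) (nat_lit 0) (nat_lit 0) (XT.nd (nat_lit 78) (nat_lit 0) (nat_lit 0) (XT.lf (nat_lit 0) (nat_lit 25664753766) (nat_lit 76) (nat_lit 93736380859) (nat_lit 76) (nat_lit 72308850357) (nat_lit 1) (nat_lit 4) (nat_lit 2) (nat_lit 5) (nat_lit 2) (nat_lit 4) (nat_lit 303) (nat_lit 237) (nat_lit 180)) (XT.lf (nat_lit 0) (nat_lit 38298009567) (nat_lit 76) (nat_lit 94941944219)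 (nat_lit 76) (nat_lit 73494418730) (nat_lit 1) (nat_lit 4) (nat_lit 2) (nat_lit 5) (nat_lit 2) (nat_lit 4) (nat_lit 304) (nat_lit 237) (nat_lit 179))) (XT.nd (nat_lit 78) (nat_lit 0) (nat_lit 0) (XT.lf (nat_lit 0) (nat_lit 51923587595) (nat_lit 76) (nat_lit 96251852159) (nat_lit 76) (nat_lit 74785812794) (nat_lit 1) (nat_lit 4) (nat_lit 2) (nat_lit 5) (nat_lit 2) (nat_lit 4) (nat_lit 305) (nat_lit 237) (nat_lit 178)) (XT.lf (nat_lit 0) (nat_lit 66622232018) (nat_lit 76) (nat_lit 97673867097) (nat_lit 76) (nat_lit 76190685254) (nat_lit 1) (nat_lit 4) (nat_lit 2) (nat_lit 5) (nat_lit 2) (nat_lit 4) (nat_lit 306) (nat_lit 237) (nat_lit 177)))) (XT.nd (nat_lit 156) (nat_lit 0) (nat_lit 0) (XT.nd (nat_lit 78) (nat_lit 0) (nat_lit 0) (XT.lf (nat_lit 0) (nat_lit 82481045914) (nat_lit 76) (nat_lit 99216415788) (nat_lit 76) (nat_lit 77717361279) (nat_lit 1) (nat_lit 4) (nat_lit 2) (nat_lit 5)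 (nat_lit 2) (nat_lit 4) (nat_lit 307) (nat_lit 237) (nat_lit 176)) (XT.lf (nat_lit 0) (nat_lit 99594007438) (nat_lit 76) (nat_lit 100888639261) (nat_lit 76) (nat_lit 79374887840) (nat_lit 1) (nat_lit 4) (nat_lit 2) (nat_lit 5) (nat_lit 2) (nat_lit 4) (nat_lit 308) (nat_lit 237) (nat_lit 175))) (XT.nd (nat_lit 78) (nat_lit 0) (nat_lit 0) (XT.lf (nat_lit 0) (nat_lit 118062526733) (nat_lit 76) (nat_lit 102700446989) (nat_lit 76) (nat_lit 81173087316) (nat_lit 1) (nat_lit 4) (nat_lit 2) (nat_lit 5) (nat_lit 2) (nat_lit 4) (nat_lit 309) (nat_lit 237) (nat_lit 174)) (XT.nd (nat_lit 78) (nat_lit 0) (nat_lit 0) (XT.lf (nat_lit 0) (nat_lit 137996046876) (nat_lit 76) (nat_lit 104662575610) (nat_lit 76) (nat_lit 83122615704) (nat_lit 1) (nat_lit 4) (nat_lit 2) (nat_lit 5) (nat_lit 2) (nat_lit 4) (nat_lit 310) (nat_lit 237) (nat_lit 173)) (XT.lf (nat_lit 0) (nat_lit 159512692432) (nat_lit 76) (nat_lit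 106786652553) (nat_lit 76) (nat_lit 85235025764) (nat_lit 1) (nat_lit 4) (nat_lit 2) (nat_lit 5) (nat_lit 2) (nat_lit 4) (nat_lit 311) (nat_lit 237) (nat_lit 172)))))) (XT.nd (nat_lit 312) (nat_lit 0) (nat_lit 0) (XT.nd (nat_lit 156) (nat_lit 0) (nat_lit 0) (XT.nd (nat_lit 78) (nat_lit 0) (nat_lit 0) (XT.lf (nat_lit 0) (nat_lit 182739969448) (nat_lit 76) (nat_lit 109085264940) (nat_lit 76) (nat_lit 87522835482) (nat_lit 1) (nat_lit 4) (nat_lit 2) (nat_lit 5) (nat_lit 2) (nat_lit 4) (nat_lit 312) (nat_lit 237) (nat_lit 171)) (XT.lf (nat_lit 0) (nat_lit 207815521047) (nat_lit 76) (nat_lit 111572034179) (nat_lit 76) (nat_lit 89999602249) (nat_lit 1) (nat_lit 4) (nat_lit 2) (nat_lit 5) (nat_lit 2) (nat_lit 4) (nat_lit 313) (nat_lit 237) (nat_lit 170))) (XT.nd (nat_lit 78) (nat_lit 0) (nat_lit 0) (XT.lf (nat_lit 0) (nat_lit 234887943090) (nat_lit 76) (nat_lit 114261696679) (nat_lit 76) (nat_lit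 92680003201) (nat_lit 1) (nat_lit 4) (nat_lit 2) (nat_lit 5) (nat_lit 2) (nat_lit 4) (nat_lit 314) (nat_lit 237) (nat_lit 169)) (XT.lf (nat_lit 0) (nat_lit 264117664746) (nat_lit 76) (nat_lit 117170191181) (nat_lit 76) (nat_lit 95579922196) (nat_lit 1) (nat_lit 4) (nat_lit 2) (nat_lit 5) (nat_lit 2) (nat_lit 4) (nat_lit 315) (nat_lit 237) (nat_lit 168)))) (XT.nd (nat_lit 156) (nat_lit 0) (nat_lit 0) (XT.nd (nat_lit 78) (nat_lit 0) (nat_lit 0) (XT.lf (nat_lit 0) (nat_lit 295677899178) (nat_lit 76) (nat_lit 120314753209) (nat_lit 76) (nat_lit 98716543940) (nat_lit 1) (nat_lit 4) (nat_lit 2) (nat_lit 5) (nat_lit 2) (nat_lit 4) (nat_lit 316) (nat_lit 237) (nat_lit 167)) (XT.lf (nat_lit 0) (nat_lit 329755670000) (nat_lit 76) (nat_lit 123714017203) (nat_lit 76) (nat_lit 102108455819) (nat_lit 1) (nat_lit 4) (nat_lit 2) (nat_lit 5) (nat_lit 2) (nat_lit 4) (nat_lit 317) (nat_lit 237) (nat_lit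 166))) (XT.nd (nat_lit 78) (nat_lit 0) (nat_lit 0) (XT.lf (nat_lit 0) (nat_lit 366552919556) (nat_lit 76) (nat_lit 127388126952) (nat_lit 76) (nat_lit 105775758053) (nat_lit 1) (nat_lit 4) (nat_lit 2) (nat_lit 5) (nat_lit 2) (nat_lit 4) (nat_lit 318) (nat_lit 237) (nat_lit 165)) (XT.nd (nat_lit 78) (nat_lit 0) (nat_lit 0) (XT.lf (nat_lit 0) (nat_lit 406287705622) (nat_lit 76) (nat_lit 131358854956) (nat_lit 76) (nat_lit 109740182804) (nat_lit 1) (nat_lit 4) (nat_lit 2) (nat_lit 5) (nat_lit 2) (nat_lit 4) (nat_lit 319) (nat_lit 237) (nat_lit 164)) (XT.lf (nat_lit 0) (nat_lit 449195493596) (nat_lit 76) (nat_lit 135649731455) (nat_lit 76) (nat_lit 114025222957) (nat_lit 1) (nat_lit 4) (nat_lit 2) (nat_lit 5) (nat_lit 2) (nat_lit 4) (nat_lit 320) (nat_lit 237) (nat_lit 163))))))))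
noncomputable def xc44 : XT := (XT.nd (nat_lit 32682) (nat_lit 0) (nat_lit 532) (XT.nd (nat_lit 31980) (nat_lit 0) (nat_lit 2356) (XT.nd (nat_lit 31668) (nat_lit 0) (nat_lit 5320) (XT.nd (nat_lit 31512) (nat_lit 0) (nat_lit 7144) (XT.nd (nat_lit 78) (nat_lit 0) (nat_lit 0) (XT.lf (nat_lit 0) (nat_lit 495530551852) (nat_lit 76) (nat_lit 140286183867) (nat_lit 76) (nat_lit 118656271345) (nat_lit 1) (nat_lit 4) (nat_lit 2) (nat_lit 5) (nat_lit 2) (nat_lit 4) (nat_lit 321) (nat_lit 237) (nat_lit 162)) (XT.lf (nat_lit 0) (nat_lit 545567458512) (nat_lit 76) (nat_lit 145295687464) (nat_lit 76) (nat_lit 123660771216) (nat_lit 1) (nat_lit 4) (nat_lit 2) (nat_lit 5) (nat_lit 2) (nat_lit 4) (nat_lit 322) (nat_lit 237) (nat_lit 161))) (XT.nd (nat_lit 78) (nat_lit 304) (nat_lit 0) (XT.lf (nat_lit 0) (nat_lit 1519894822) (nat_lit 228) (nat_lit 245016947) (nat_lit 0) (nat_lit 1519894822) (nat_lit 99)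 (nat_lit 5) (nat_lit 102) (nat_lit 4) (nat_lit 99) (nat_lit 4) (nat_lit 244) (nat_lit 238) (nat_lit 238)) (XT.lf (nat_lit 0) (nat_lit 738009427) (nat_lit 304) (nat_lit 1760184846) (nat_lit 76) (nat_lit 4147679880) (nat_lit 95) (nat_lit 5) (nat_lit 99) (nat_lit 5) (nat_lit 96) (nat_lit 4) (nat_lit 245) (nat_lit 238) (nat_lit 237)))) (XT.nd (nat_lit 156) (nat_lit 1064) (nat_lit 0) (XT.nd (nat_lit 78) (nat_lit 456) (nat_lit 0) (XT.lf (nat_lit 0) (nat_lit 3760665391) (nat_lit 304) (nat_lit 1148808548) (nat_lit 380) (nat_lit 1834624562) (nat_lit 91) (nat_lit 5) (nat_lit 95) (nat_lit 5) (nat_lit 96) (nat_lit 4) (nat_lit 246) (nat_lit 238) (nat_lit 236)) (XT.lf (nat_lit 0) (nat_lit 2196082534) (nat_lit 456) (nat_lit 4174140761) (nat_lit 76) (nat_lit 494960319) (nat_lit 85) (nat_lit 5) (nat_lit 91) (nat_lit 5) (nat_lit 86) (nat_lit 4) (nat_lit 247) (nat_lit 238) (nat_lit 235))) (XT.nd (nat_lit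 78) (nat_lit 608) (nat_lit 0) (XT.lf (nat_lit 0) (nat_lit 1641692399) (nat_lit 456) (nat_lit 4598487900) (nat_lit 532) (nat_lit 769000832) (nat_lit 79) (nat_lit 5) (nat_lit 85) (nat_lit 5) (nat_lit 86) (nat_lit 4) (nat_lit 248) (nat_lit 238) (nat_lit 234)) (XT.lf (nat_lit 0) (nat_lit 581706150) (nat_lit 532) (nat_lit 2504271963) (nat_lit 608) (nat_lit 4090574610) (nat_lit 71) (nat_lit 5) (nat_lit 78) (nat_lit 5) (nat_lit 79) (nat_lit 5) (nat_lit 249) (nat_lit 238) (nat_lit 233))))) (XT.nd (nat_lit 312) (nat_lit 1216) (nat_lit 0) (XT.nd (nat_lit 156) (nat_lit 1064) (nat_lit 0) (XT.nd (nat_lit 78) (nat_lit 684) (nat_lit 0) (XT.lf (nat_lit 0) (nat_lit 6905084914) (nat_lit 532) (nat_lit 101130397) (nat_lit 608) (nat_lit 363311345) (nat_lit 71) (nat_lit 5) (nat_lit 78) (nat_lit 5) (nat_lit 79) (nat_lit 5) (nat_lit 250) (nat_lit 238) (nat_lit 232)) (XT.lf (nat_lit 0) (nat_lit 3387282282) (nat_lit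 684) (nat_lit 1607463027) (nat_lit 76) (nat_lit 2590009168) (nat_lit 62) (nat_lit 5) (nat_lit 71) (nat_lit 5) (nat_lit 63) (nat_lit 5) (nat_lit 251) (nat_lit 238) (nat_lit 231))) (XT.nd (nat_lit 78) (nat_lit 380) (nat_lit 0) (XT.lf (nat_lit 0) (nat_lit 5011880733) (nat_lit 684) (nat_lit 2226192829) (nat_lit 760) (nat_lit 589845230) (nat_lit 53) (nat_lit 5) (nat_lit 62) (nat_lit 5) (nat_lit 63) (nat_lit 5) (nat_lit 252) (nat_lit 238) (nat_lit 230)) (XT.lf (nat_lit 0) (nat_lit 3039595605) (nat_lit 380) (nat_lit 4182561683) (nat_lit 76) (nat_lit 875310263) (nat_lit 48) (nat_lit 5) (nat_lit 53) (nat_lit 5) (nat_lit 49) (nat_lit 5) (nat_lit 253) (nat_lit 238) (nat_lit 229)))) (XT.nd (nat_lit 156) (nat_lit 608) (nat_lit 0) (XT.nd (nat_lit 78) (nat_lit 304) (nat_lit 0) (XT.lf (nat_lit 0) (nat_lit 2660855974) (nat_lit 304) (nat_lit 4157543839) (nat_lit 380) (nat_lit 1577068665) (nat_lit 44)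 (nat_lit 5) (nat_lit 48) (nat_lit 5) (nat_lit 49) (nat_lit 5) (nat_lit 254) (nat_lit 238) (nat_lit 228)) (XT.lf (nat_lit 0) (nat_lit 1219221686) (nat_lit 228) (nat_lit 745989912) (nat_lit 304) (nat_lit 6758946783) (nat_lit 40) (nat_lit 5) (nat_lit 43) (nat_lit 5) (nat_lit 44) (nat_lit 5) (nat_lit 255) (nat_lit 238) (nat_lit 227))) (XT.nd (nat_lit 78) (nat_lit 608) (nat_lit 0) (XT.lf (nat_lit 0) (nat_lit 5656745995) (nat_lit 304) (nat_lit 486174110) (nat_lit 76) (nat_lit 2939981181) (nat_lit 40) (nat_lit 5) (nat_lit 44) (nat_lit 5) (nat_lit 41) (nat_lit 5) (nat_lit 256) (nat_lit 238) (nat_lit 226)) (XT.nd (nat_lit 78) (nat_lit 228) (nat_lit 0) (XT.lf (nat_lit 0) (nat_lit 77815320) (nat_lit 380) (nat_lit 2421577366) (nat_lit 76) (nat_lit 6976286563) (nat_lit 35) (nat_lit 5) (nat_lit 40) (nat_lit 5) (nat_lit 36) (nat_lit 5) (nat_lit 257) (nat_lit 238) (nat_lit 225)) (XT.lf (nat_lit 0) (nat_lit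 3654610976) (nat_lit 304) (nat_lit 4753007675) (nat_lit 76) (nat_lit 1494728962) (nat_lit 32) (nat_lit 5) (nat_lit 36) (nat_lit 5) (nat_lit 33) (nat_lit 5) (nat_lit 258) (nat_lit 238) (nat_lit 224))))))) (XT.nd (nat_lit 702) (nat_lit 532) (nat_lit 0) (XT.nd (nat_lit 312) (nat_lit 608) (nat_lit 0) (XT.nd (nat_lit 156) (nat_lit 228) (nat_lit 0) (XT.nd (nat_lit 78) (nat_lit 228) (nat_lit 0) (XT.lf (nat_lit 0) (nat_lit 2852387554) (nat_lit 228) (nat_lit 4602713254) (nat_lit 304) (nat_lit 2912007822) (nat_lit 29) (nat_lit 5) (nat_lit 32) (nat_lit 5) (nat_lit 33) (nat_lit 5) (nat_lit 259) (nat_lit 238) (nat_lit 223)) (XT.lf (nat_lit 0) (nat_lit 119163773) (nat_lit 152) (nat_lit 450125509) (nat_lit 228) (nat_lit 10304919350) (nat_lit 26) (nat_lit 5) (nat_lit 28) (nat_lit 5) (nat_lit 29) (nat_lit 5) (nat_lit 260) (nat_lit 238) (nat_lit 222))) (XT.nd (nat_lit 78) (nat_lit 228) (nat_lit 0) (XT.lf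 (nat_lit 0) (nat_lit 4248450544) (nat_lit 228) (nat_lit 3138959021) (nat_lit 76) (nat_lit 4031694214) (nat_lit 26) (nat_lit 5) (nat_lit 29) (nat_lit 5) (nat_lit 27) (nat_lit 5) (nat_lit 261) (nat_lit 238) (nat_lit 221)) (XT.lf (nat_lit 0) (nat_lit 5015752721) (nat_lit 228) (nat_lit 3129109476) (nat_lit 304) (nat_lit 3867215044) (nat_lit 23) (nat_lit 5) (nat_lit 26) (nat_lit 5) (nat_lit 27) (nat_lit 5) (nat_lit 262) (nat_lit 238) (nat_lit 220)))) (XT.nd (nat_lit 156) (nat_lit 380) (nat_lit 0) (XT.nd (nat_lit 78) (nat_lit 76) (nat_lit 0) (XT.lf (nat_lit 0) (nat_lit 1074466897) (nat_lit 152) (nat_lit 11218638709) (nat_lit 228) (nat_lit 362962755) (nat_lit 21) (nat_lit 5) (nat_lit 23) (nat_lit 5) (nat_lit 24) (nat_lit 4) (nat_lit 263) (nat_lit 238) (nat_lit 219)) (XT.lf (nat_lit 0) (nat_lit 3338823758) (nat_lit 228) (nat_lit 3630022677) (nat_lit 76) (nat_lit 6379242403) (nat_lit 20) (nat_lit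 5) (nat_lit 23) (nat_lit 5) (nat_lit 21) (nat_lit 5) (nat_lit 264) (nat_lit 238) (nat_lit 218))) (XT.nd (nat_lit 78) (nat_lit 228) (nat_lit 0) (XT.lf (nat_lit 0) (nat_lit 4907604739) (nat_lit 152) (nat_lit 2354404689) (nat_lit 228) (nat_lit 6836743631) (nat_lit 18) (nat_lit 5) (nat_lit 20) (nat_lit 5) (nat_lit 21) (nat_lit 5) (nat_lit 265) (nat_lit 238) (nat_lit 217)) (XT.nd (nat_lit 78) (nat_lit 228) (nat_lit 0) (XT.lf (nat_lit 0) (nat_lit 11471881508) (nat_lit 228) (nat_lit 888891186) (nat_lit 76) (nat_lit 2550498968) (nat_lit 18) (nat_lit 5) (nat_lit 21) (nat_lit 5) (nat_lit 19) (nat_lit 4) (nat_lit 266) (nat_lit 238) (nat_lit 216)) (XT.lf (nat_lit 0) (nat_lit 266424597) (nat_lit 228) (nat_lit 7677444407) (nat_lit 76) (nat_lit 7842932567) (nat_lit 15) (nat_lit 5) (nat_lit 18) (nat_lit 5) (nat_lit 16) (nat_lit 5) (nat_lit 267) (nat_lit 238) (nat_lit 215)))))) (XT.nd (nat_lit 312) (nat_lit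 304) (nat_lit 0) (XT.nd (nat_lit 156) (nat_lit 76) (nat_lit 0) (XT.nd (nat_lit 78) (nat_lit 0) (nat_lit 0) (XT.lf (nat_lit 0) (nat_lit 918793397) (nat_lit 152) (nat_lit 3142501707) (nat_lit 228) (nat_lit 12672966666) (nat_lit 13) (nat_lit 5) (nat_lit 15) (nat_lit 5) (nat_lit 16) (nat_lit 5) (nat_lit 268) (nat_lit 238) (nat_lit 214)) (XT.lf (nat_lit 0) (nat_lit 8214143193) (nat_lit 228) (nat_lit 7485212292) (nat_lit 76) (nat_lit 2055778691) (nat_lit 13) (nat_lit 5) (nat_lit 16) (nat_lit 5) (nat_lit 14) (nat_lit 4) (nat_lit 269) (nat_lit 238) (nat_lit 213))) (XT.nd (nat_lit 78) (nat_lit 0) (nat_lit 0) (XT.lf (nat_lit 0) (nat_lit 1337219170) (nat_lit 76) (nat_lit 11330831618) (nat_lit 152) (nat_lit 6191493990) (nat_lit 12) (nat_lit 5) (nat_lit 13) (nat_lit 5) (nat_lit 14) (nat_lit 4) (nat_lit 270) (nat_lit 238) (nat_lit 212)) (XT.lf (nat_lit 0) (nat_lit 10975813196) (nat_lit 76) (nat_lit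 6533141231) (nat_lit 152) (nat_lit 2542106658) (nat_lit 12) (nat_lit 5) (nat_lit 13) (nat_lit 5) (nat_lit 14) (nat_lit 4) (nat_lit 271) (nat_lit 238) (nat_lit 211)))) (XT.nd (nat_lit 156) (nat_lit 76) (nat_lit 0) (XT.nd (nat_lit 78) (nat_lit 152) (nat_lit 0) (XT.lf (nat_lit 0) (nat_lit 1260358188) (nat_lit 152) (nat_lit 122916295) (nat_lit 76) (nat_lit 19958489492) (nat_lit 11) (nat_lit 5) (nat_lit 13) (nat_lit 5) (nat_lit 12) (nat_lit 5) (nat_lit 272) (nat_lit 238) (nat_lit 210)) (XT.lf (nat_lit 0) (nat_lit 5410707165) (nat_lit 228) (nat_lit 13123511919) (nat_lit 76) (nat_lit 4193017180) (nat_lit 9) (nat_lit 5) (nat_lit 12) (nat_lit 5) (nat_lit 10) (nat_lit 4) (nat_lit 273) (nat_lit 238) (nat_lit 209))) (XT.nd (nat_lit 78) (nat_lit 76) (nat_lit 0) (XT.lf (nat_lit 0) (nat_lit 9835098384) (nat_lit 228) (nat_lit 4269174056) (nat_lit 76) (nat_lit 10122390181) (nat_lit 9) (nat_lit 5) (nat_lit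 12) (nat_lit 5) (nat_lit 10) (nat_lit 4) (nat_lit 274) (nat_lit 238) (nat_lit 208)) (XT.nd (nat_lit 78) (nat_lit 0) (nat_lit 0) (XT.lf (nat_lit 0) (nat_lit 5339155796) (nat_lit 76) (nat_lit 9280342035) (nat_lit 152) (nat_lit 11226443337) (nat_lit 8) (nat_lit 5) (nat_lit 9) (nat_lit 5) (nat_lit 10) (nat_lit 4) (nat_lit 275) (nat_lit 238) (nat_lit 207)) (XT.lf (nat_lit 0) (nat_lit 15748804333) (nat_lit 76) (nat_lit 4038764606) (nat_lit 152) (nat_lit 7807333116) (nat_lit 8) (nat_lit 5) (nat_lit 9) (nat_lit 5) (nat_lit 10) (nat_lit 4) (nat_lit 276) (nat_lit 238) (nat_lit 206))))))))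
noncomputable def xc45 : XT := (XT.nd (nat_lit 1326) (nat_lit 76) (nat_lit 0) (XT.nd (nat_lit 624) (nat_lit 228) (nat_lit 0) (XT.nd (nat_lit 312) (nat_lit 76) (nat_lit 0) (XT.nd (nat_lit 156) (nat_lit 76) (nat_lit 0) (XT.nd (nat_lit 78) (nat_lit 76) (nat_lit 0) (XT.lf (nat_lit 0) (nat_lit 25325735728) (nat_lit 152) (nat_lit 2631708252) (nat_lit 0) (nat_lit 1528675597) (nat_lit 8) (nat_lit 5) (nat_lit 10) (nat_lit 4) (nat_lit 8) (nat_lit 4) (nat_lit 277) (nat_lit 238) (nat_lit 205)) (XT.lf (nat_lit 0) (nat_lit 7382626149) (nat_lit 76) (nat_lit 24044105119) (nat_lit 76) (nat_lit 96073962) (nat_lit 7) (nat_lit 4) (nat_lit 8) (nat_lit 5) (nat_lit 8) (nat_lit 4) (nat_lit 278) (nat_lit 238) (nat_lit 204))) (XT.nd (nat_lit 78) (nat_lit 0) (nat_lit 0) (XT.lf (nat_lit 0) (nat_lit 4140973178) (nat_lit 152) (nat_lit 15598824128) (nat_lit 76) (nat_lit 13980167128) (nat_lit 6) (nat_lit 5) (nat_lit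 8) (nat_lit 5) (nat_lit 7) (nat_lit 4) (nat_lit 279) (nat_lit 238) (nat_lit 203)) (XT.lf (nat_lit 0) (nat_lit 8656638386) (nat_lit 152) (nat_lit 6471143772) (nat_lit 76) (nat_lit 20968014688) (nat_lit 6) (nat_lit 5) (nat_lit 8) (nat_lit 5) (nat_lit 7) (nat_lit 4) (nat_lit 280) (nat_lit 238) (nat_lit 202)))) (XT.nd (nat_lit 156) (nat_lit 0) (nat_lit 0) (XT.nd (nat_lit 78) (nat_lit 0) (nat_lit 0) (XT.lf (nat_lit 0) (nat_lit 3407513642) (nat_lit 76) (nat_lit 10126443321) (nat_lit 152) (nat_lit 25127839470) (nat_lit 5) (nat_lit 5) (nat_lit 6) (nat_lit 5) (nat_lit 7) (nat_lit 4) (nat_lit 281) (nat_lit 238) (nat_lit 201)) (XT.lf (nat_lit 0) (nat_lit 14223084393) (nat_lit 76) (nat_lit 4640891576) (nat_lit 152) (nat_lit 22566085926) (nat_lit 5) (nat_lit 5) (nat_lit 6) (nat_lit 5) (nat_lit 7) (nat_lit 4) (nat_lit 282) (nat_lit 238) (nat_lit 200))) (XT.nd (nat_lit 78) (nat_lit 0) (nat_lit 0) (XT.lf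 (nat_lit 0) (nat_lit 24593451335) (nat_lit 152) (nat_lit 18616064843) (nat_lit 0) (nat_lit 1211723060) (nat_lit 5) (nat_lit 5) (nat_lit 7) (nat_lit 4) (nat_lit 5) (nat_lit 4) (nat_lit 283) (nat_lit 238) (nat_lit 199)) (XT.lf (nat_lit 0) (nat_lit 30816034694) (nat_lit 152) (nat_lit 9490334888) (nat_lit 0) (nat_lit 7343699414) (nat_lit 5) (nat_lit 5) (nat_lit 7) (nat_lit 4) (nat_lit 5) (nat_lit 4) (nat_lit 284) (nat_lit 238) (nat_lit 198))))) (XT.nd (nat_lit 312) (nat_lit 152) (nat_lit 0) (XT.nd (nat_lit 156) (nat_lit 0) (nat_lit 0) (XT.nd (nat_lit 78) (nat_lit 0) (nat_lit 0) (XT.lf (nat_lit 0) (nat_lit 306559918) (nat_lit 76) (nat_lit 37194369634) (nat_lit 76) (nat_lit 13638138979) (nat_lit 4) (nat_lit 4) (nat_lit 5) (nat_lit 5) (nat_lit 5) (nat_lit 4) (nat_lit 285) (nat_lit 238) (nat_lit 197)) (XT.lf (nat_lit 0) (nat_lit 11160383581) (nat_lit 76) (nat_lit 33687224242) (nat_lit 76) (nat_lit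 10053312684) (nat_lit 4) (nat_lit 4) (nat_lit 5) (nat_lit 5) (nat_lit 5) (nat_lit 4) (nat_lit 286) (nat_lit 238) (nat_lit 196))) (XT.nd (nat_lit 78) (nat_lit 0) (nat_lit 0) (XT.lf (nat_lit 0) (nat_lit 22821661725) (nat_lit 76) (nat_lit 29924873736) (nat_lit 76) (nat_lit 6219035416) (nat_lit 4) (nat_lit 4) (nat_lit 5) (nat_lit 5) (nat_lit 5) (nat_lit 4) (nat_lit 287) (nat_lit 238) (nat_lit 195)) (XT.lf (nat_lit 0) (nat_lit 35359498220) (nat_lit 76) (nat_lit 25885022705) (nat_lit 76) (nat_lit 2112585533) (nat_lit 4) (nat_lit 4) (nat_lit 5) (nat_lit 5) (nat_lit 5) (nat_lit 4) (nat_lit 288) (nat_lit 238) (nat_lit 194)))) (XT.nd (nat_lit 156) (nat_lit 76) (nat_lit 0) (XT.nd (nat_lit 78) (nat_lit 0) (nat_lit 0) (XT.lf (nat_lit 0) (nat_lit 2217065293) (nat_lit 152) (nat_lit 19289118926) (nat_lit 76) (nat_lit 46593578990) (nat_lit 3) (nat_lit 5) (nat_lit 5) (nat_lit 5) (nat_lit 4) (nat_lit 4)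 (nat_lit 289) (nat_lit 238) (nat_lit 193)) (XT.lf (nat_lit 0) (nat_lit 6791373746) (nat_lit 152) (nat_lit 9968884380) (nat_lit 76) (nat_lit 56461285185) (nat_lit 3) (nat_lit 5) (nat_lit 5) (nat_lit 5) (nat_lit 4) (nat_lit 4) (nat_lit 290) (nat_lit 238) (nat_lit 192))) (XT.nd (nat_lit 78) (nat_lit 0) (nat_lit 0) (XT.lf (nat_lit 0) (nat_lit 53006332) (nat_lit 76) (nat_lit 11652884013) (nat_lit 152) (nat_lit 67048515498) (nat_lit 2) (nat_lit 5) (nat_lit 3) (nat_lit 5) (nat_lit 4) (nat_lit 4) (nat_lit 291) (nat_lit 238) (nat_lit 191)) (XT.nd (nat_lit 78) (nat_lit 0) (nat_lit 0) (XT.lf (nat_lit 0) (nat_lit 11188959108) (nat_lit 76) (nat_lit 5972982418) (nat_lit 152) (nat_lit 67560586445) (nat_lit 2) (nat_lit 5) (nat_lit 3) (nat_lit 5) (nat_lit 4) (nat_lit 4) (nat_lit 292) (nat_lit 238) (nat_lit 190)) (XT.lf (nat_lit 0) (nat_lit 23033323562) (nat_lit 152) (nat_lit 67996219903) (nat_lit 0)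 (nat_lit 139659673) (nat_lit 2) (nat_lit 5) (nat_lit 4) (nat_lit 4) (nat_lit 2) (nat_lit 4) (nat_lit 293) (nat_lit 238) (nat_lit 189))))))) (XT.nd (nat_lit 702) (nat_lit 0) (nat_lit 0) (XT.nd (nat_lit 312) (nat_lit 76) (nat_lit 0) (XT.nd (nat_lit 156) (nat_lit 0) (nat_lit 0) (XT.nd (nat_lit 78) (nat_lit 0) (nat_lit 0) (XT.lf (nat_lit 0) (nat_lit 29453213256) (nat_lit 152) (nat_lit 62154922141) (nat_lit 0) (nat_lit 6519579296) (nat_lit 2) (nat_lit 5) (nat_lit 4) (nat_lit 4) (nat_lit 2) (nat_lit 4) (nat_lit 294) (nat_lit 238) (nat_lit 188)) (XT.lf (nat_lit 0) (nat_lit 36366399405) (nat_lit 152) (nat_lit 55881805484) (nat_lit 0) (nat_lit 13395756120) (nat_lit 2) (nat_lit 5) (nat_lit 4) (nat_lit 4) (nat_lit 2) (nat_lit 4) (nat_lit 295) (nat_lit 238) (nat_lit 187))) (XT.nd (nat_lit 78) (nat_lit 0) (nat_lit 0) (XT.lf (nat_lit 0) (nat_lit 43813849038) (nat_lit 152) (nat_lit 49139695908) (nat_lit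 0) (nat_lit 20808937859) (nat_lit 2) (nat_lit 5) (nat_lit 4) (nat_lit 4) (nat_lit 2) (nat_lit 4) (nat_lit 296) (nat_lit 238) (nat_lit 186)) (XT.lf (nat_lit 0) (nat_lit 51839695189) (nat_lit 152) (nat_lit 41888640170) (nat_lit 0) (nat_lit 28803054479) (nat_lit 2) (nat_lit 5) (nat_lit 4) (nat_lit 4) (nat_lit 2) (nat_lit 4) (nat_lit 297) (nat_lit 238) (nat_lit 185)))) (XT.nd (nat_lit 156) (nat_lit 76) (nat_lit 0) (XT.nd (nat_lit 78) (nat_lit 0) (nat_lit 0) (XT.lf (nat_lit 0) (nat_lit 60491498429) (nat_lit 152) (nat_lit 34085669053) (nat_lit 0) (nat_lit 37425478523) (nat_lit 2) (nat_lit 5) (nat_lit 4) (nat_lit 4) (nat_lit 2) (nat_lit 4) (nat_lit 298) (nat_lit 238) (nat_lit 184)) (XT.lf (nat_lit 0) (nat_lit 69820528702) (nat_lit 152) (nat_lit 25684542726) (nat_lit 0) (nat_lit 46727305838) (nat_lit 2) (nat_lit 5) (nat_lit 4) (nat_lit 4) (nat_lit 2) (nat_lit 4) (nat_lit 299) (nat_lit 238) (nat_lit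 183))) (XT.nd (nat_lit 78) (nat_lit 76) (nat_lit 0) (XT.lf (nat_lit 0) (nat_lit 79882069152) (nat_lit 152) (nat_lit 16635476737) (nat_lit 0) (nat_lit 56763658362) (nat_lit 2) (nat_lit 5) (nat_lit 4) (nat_lit 4) (nat_lit 2) (nat_lit 4) (nat_lit 300) (nat_lit 238) (nat_lit 182)) (XT.nd (nat_lit 78) (nat_lit 76) (nat_lit 0) (XT.lf (nat_lit 0) (nat_lit 90735743721) (nat_lit 152) (nat_lit 6884846993) (nat_lit 0) (nat_lit 67594010779) (nat_lit 2) (nat_lit 5) (nat_lit 4) (nat_lit 4) (nat_lit 2) (nat_lit 4) (nat_lit 301) (nat_lit 238) (nat_lit 181)) (XT.lf (nat_lit 0) (nat_lit 3744991121) (nat_lit 76) (nat_lit 98759349166) (nat_lit 76) (nat_lit 75596021638) (nat_lit 1) (nat_lit 4) (nat_lit 2) (nat_lit 5) (nat_lit 2) (nat_lit 4) (nat_lit 302) (nat_lit 238) (nat_lit 180)))))) (XT.nd (nat_lit 312) (nat_lit 0) (nat_lit 0) (XT.nd (nat_lit 156) (nat_lit 0) (nat_lit 0) (XT.nd (nat_lit 78) (nat_lit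 0) (nat_lit 0) (XT.lf (nat_lit 0) (nat_lit 15451266655) (nat_lit 76) (nat_lit 99871813694) (nat_lit 76) (nat_lit 76688491180) (nat_lit 1) (nat_lit 4) (nat_lit 2) (nat_lit 5) (nat_lit 2) (nat_lit 4) (nat_lit 303) (nat_lit 238) (nat_lit 179)) (XT.lf (nat_lit 0) (nat_lit 28075705996) (nat_lit 76) (nat_lit 101081174896) (nat_lit 76) (nat_lit 77879338505) (nat_lit 1) (nat_lit 4) (nat_lit 2) (nat_lit 5) (nat_lit 2) (nat_lit 4) (nat_lit 304) (nat_lit 238) (nat_lit 178))) (XT.nd (nat_lit 78) (nat_lit 0) (nat_lit 0) (XT.lf (nat_lit 0) (nat_lit 41693120636) (nat_lit 76) (nat_lit 102394599357) (nat_lit 76) (nat_lit 79175620487) (nat_lit 1) (nat_lit 4) (nat_lit 2) (nat_lit 5) (nat_lit 2) (nat_lit 4) (nat_lit 305) (nat_lit 238) (nat_lit 177)) (XT.lf (nat_lit 0) (nat_lit 56384206366) (nat_lit 76) (nat_lit 103819870332) (nat_lit 76) (nat_lit 80585018798) (nat_lit 1) (nat_lit 4) (nat_lit 2) (nat_lit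 5) (nat_lit 2) (nat_lit 4) (nat_lit 306) (nat_lit 238) (nat_lit 176)))) (XT.nd (nat_lit 156) (nat_lit 0) (nat_lit 0) (XT.nd (nat_lit 78) (nat_lit 0) (nat_lit 0) (XT.lf (nat_lit 0) (nat_lit 72236021471) (nat_lit 76) (nat_lit 105365433873) (nat_lit 76) (nat_lit 82115885426) (nat_lit 1) (nat_lit 4) (nat_lit 2) (nat_lit 5) (nat_lit 2) (nat_lit 4) (nat_lit 307) (nat_lit 238) (nat_lit 175)) (XT.lf (nat_lit 0) (nat_lit 89342502634) (nat_lit 76) (nat_lit 107040448873) (nat_lit 76) (nat_lit 83777292174) (nat_lit 1) (nat_lit 4) (nat_lit 2) (nat_lit 5) (nat_lit 2) (nat_lit 4) (nat_lit 308) (nat_lit 238) (nat_lit 174))) (XT.nd (nat_lit 78) (nat_lit 0) (nat_lit 0) (XT.lf (nat_lit 0) (nat_lit 107805021595) (nat_lit 76) (nat_lit 108854841349) (nat_lit 76) (nat_lit 85579084416) (nat_lit 1) (nat_lit 4) (nat_lit 2) (nat_lit 5) (nat_lit 2) (nat_lit 4) (nat_lit 309) (nat_lit 238) (nat_lit 173)) (XT.nd (nat_lit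 78) (nat_lit 0) (nat_lit 0) (XT.lf (nat_lit 0) (nat_lit 127732985874) (nat_lit 76) (nat_lit 110819363254) (nat_lit 76) (nat_lit 87531939439) (nat_lit 1) (nat_lit 4) (nat_lit 2) (nat_lit 5) (nat_lit 2) (nat_lit 4) (nat_lit 310) (nat_lit 238) (nat_lit 172)) (XT.lf (nat_lit 0) (nat_lit 149244487110) (nat_lit 76) (nat_lit 112945656201) (nat_lit 76) (nat_lit 89647429717) (nat_lit 1) (nat_lit 4) (nat_lit 2) (nat_lit 5) (nat_lit 2) (nat_lit 4) (nat_lit 311) (nat_lit 238) (nat_lit 171))))))))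
noncomputable def xc46 : XT := (XT.nd (nat_lit 32526) (nat_lit 0) (nat_lit 1444) (XT.nd (nat_lit 624) (nat_lit 0) (nat_lit 0) (XT.nd (nat_lit 312) (nat_lit 0) (nat_lit 0) (XT.nd (nat_lit 156) (nat_lit 0) (nat_lit 0) (XT.nd (nat_lit 78) (nat_lit 0) (nat_lit 0) (XT.lf (nat_lit 0) (nat_lit 172467000867) (nat_lit 76) (nat_lit 115246320445) (nat_lit 76) (nat_lit 91938091489) (nat_lit 1) (nat_lit 4) (nat_lit 2) (nat_lit 5) (nat_lit 2) (nat_lit 4) (nat_lit 312) (nat_lit 238) (nat_lit 170)) (XT.lf (nat_lit 0) (nat_lit 197538142042) (nat_lit 76) (nat_lit 117734989550) (nat_lit 76) (nat_lit 94417499046) (nat_lit 1) (nat_lit 4) (nat_lit 2) (nat_lit 5) (nat_lit 2) (nat_lit 4) (nat_lit 313) (nat_lit 238) (nat_lit 169))) (XT.nd (nat_lit 78) (nat_lit 0) (nat_lit 0) (XT.lf (nat_lit 0) (nat_lit 224606480358) (nat_lit 76) (nat_lit 120426411186) (nat_lit 76) (nat_lit 97100345175) (nat_lit 1) (nat_lit 4)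 (nat_lit 2) (nat_lit 5) (nat_lit 2) (nat_lit 4) (nat_lit 314) (nat_lit 238) (nat_lit 168)) (XT.lf (nat_lit 0) (nat_lit 253832420785) (nat_lit 76) (nat_lit 123336534517) (nat_lit 76) (nat_lit 100002528222) (nat_lit 1) (nat_lit 4) (nat_lit 2) (nat_lit 5) (nat_lit 2) (nat_lit 4) (nat_lit 315) (nat_lit 238) (nat_lit 167)))) (XT.nd (nat_lit 156) (nat_lit 0) (nat_lit 0) (XT.nd (nat_lit 78) (nat_lit 0) (nat_lit 0) (XT.lf (nat_lit 0) (nat_lit 285389154080) (nat_lit 76) (nat_lit 126482604720) (nat_lit 76) (nat_lit 103141246310) (nat_lit 1) (nat_lit 4) (nat_lit 2) (nat_lit 5) (nat_lit 2) (nat_lit 4) (nat_lit 316) (nat_lit 238) (nat_lit 166)) (XT.lf (nat_lit 0) (nat_lit 319463683108) (nat_lit 76) (nat_lit 129883265174) (nat_lit 76) (nat_lit 106535099249) (nat_lit 1) (nat_lit 4) (nat_lit 2) (nat_lit 5) (nat_lit 2) (nat_lit 4) (nat_lit 317) (nat_lit 238) (nat_lit 165))) (XT.nd (nat_lit 78) (nat_lit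 0) (nat_lit 0) (XT.lf (nat_lit 0) (nat_lit 356257931003) (nat_lit 76) (nat_lit 133558667939) (nat_lit 76) (nat_lit 110204198761) (nat_lit 1) (nat_lit 4) (nat_lit 2) (nat_lit 5) (nat_lit 2) (nat_lit 4) (nat_lit 318) (nat_lit 238) (nat_lit 164)) (XT.lf (nat_lit 0) (nat_lit 395989937753) (nat_lit 76) (nat_lit 137530593181) (nat_lit 76) (nat_lit 114170287657) (nat_lit 1) (nat_lit 4) (nat_lit 2) (nat_lit 5) (nat_lit 2) (nat_lit 4) (nat_lit 319) (nat_lit 238) (nat_lit 163))))) (XT.nd (nat_lit 31512) (nat_lit 0) (nat_lit 6384) (XT.nd (nat_lit 156) (nat_lit 0) (nat_lit 0) (XT.nd (nat_lit 78) (nat_lit 0) (nat_lit 0) (XT.lf (nat_lit 0) (nat_lit 438895152287) (nat_lit 76) (nat_lit 141822578235) (nat_lit 76) (nat_lit 118456868687) (nat_lit 1) (nat_lit 4) (nat_lit 2) (nat_lit 5) (nat_lit 2) (nat_lit 4) (nat_lit 320) (nat_lit 238) (nat_lit 162)) (XT.lf (nat_lit 0) (nat_lit 485227827727) (nat_lit 76)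 (nat_lit 146460057085) (nat_lit 76) (nat_lit 123089343811) (nat_lit 1) (nat_lit 4) (nat_lit 2) (nat_lit 5) (nat_lit 2) (nat_lit 4) (nat_lit 321) (nat_lit 238) (nat_lit 161))) (XT.nd (nat_lit 31278) (nat_lit 0) (nat_lit 7676) (XT.lf (nat_lit 0) (nat_lit 535262528078) (nat_lit 76) (nat_lit 151470511089) (nat_lit 76) (nat_lit 128095164735) (nat_lit 1) (nat_lit 4) (nat_lit 2) (nat_lit 5) (nat_lit 2) (nat_lit 4) (nat_lit 322) (nat_lit 238) (nat_lit 160)) (XT.lf (nat_lit 0) (nat_lit 1283930509) (nat_lit 76) (nat_lit 976167406) (nat_lit 76) (nat_lit 976167406) (nat_lit 102) (nat_lit 4) (nat_lit 103) (nat_lit 5) (nat_lit 103) (nat_lit 4) (nat_lit 242) (nat_lit 239) (nat_lit 239)))) (XT.nd (nat_lit 156) (nat_lit 1064) (nat_lit 0) (XT.nd (nat_lit 78) (nat_lit 0) (nat_lit 0) (XT.lf (nat_lit 0) (nat_lit 903553714) (nat_lit 152) (nat_lit 1347789625) (nat_lit 228) (nat_lit 4264205872) (nat_lit 99)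 (nat_lit 5) (nat_lit 101) (nat_lit 5) (nat_lit 102) (nat_lit 4) (nat_lit 243) (nat_lit 239) (nat_lit 238)) (XT.lf (nat_lit 0) (nat_lit 5950205012) (nat_lit 152) (nat_lit 439387439) (nat_lit 228) (nat_lit 190940749) (nat_lit 99) (nat_lit 5) (nat_lit 101) (nat_lit 5) (nat_lit 102) (nat_lit 4) (nat_lit 244) (nat_lit 239) (nat_lit 237))) (XT.nd (nat_lit 78) (nat_lit 760) (nat_lit 0) (XT.lf (nat_lit 0) (nat_lit 3776650257) (nat_lit 304) (nat_lit 2096575663) (nat_lit 76) (nat_lit 792096699) (nat_lit 95) (nat_lit 5) (nat_lit 99) (nat_lit 5) (nat_lit 96) (nat_lit 4) (nat_lit 245) (nat_lit 239) (nat_lit 236)) (XT.nd (nat_lit 78) (nat_lit 380) (nat_lit 0) (XT.lf (nat_lit 0) (nat_lit 964406061) (nat_lit 380) (nat_lit 3505525352) (nat_lit 76) (nat_lit 2303096077) (nat_lit 90) (nat_lit 5) (nat_lit 95) (nat_lit 5) (nat_lit 91) (nat_lit 5) (nat_lit 246) (nat_lit 239) (nat_lit 235)) (XT.lf (nat_lit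 0) (nat_lit 1999956067) (nat_lit 380) (nat_lit 2753891548) (nat_lit 456) (nat_lit 2149157181) (nat_lit 85) (nat_lit 5) (nat_lit 90) (nat_lit 5) (nat_lit 91) (nat_lit 5) (nat_lit 247) (nat_lit 239) (nat_lit 234))))))) (XT.nd (nat_lit 702) (nat_lit 1520) (nat_lit 0) (XT.nd (nat_lit 312) (nat_lit 1672) (nat_lit 0) (XT.nd (nat_lit 156) (nat_lit 1216) (nat_lit 0) (XT.nd (nat_lit 78) (nat_lit 0) (nat_lit 0) (XT.lf (nat_lit 0) (nat_lit 761582058) (nat_lit 456) (nat_lit 731178213) (nat_lit 532) (nat_lit 5564037886) (nat_lit 78) (nat_lit 5) (nat_lit 84) (nat_lit 5) (nat_lit 85) (nat_lit 5) (nat_lit 248) (nat_lit 239) (nat_lit 233)) (XT.lf (nat_lit 0) (nat_lit 5155765487) (nat_lit 532) (nat_lit 495549614) (nat_lit 76) (nat_lit 1581599804) (nat_lit 78) (nat_lit 5) (nat_lit 85) (nat_lit 5) (nat_lit 79) (nat_lit 5) (nat_lit 249) (nat_lit 239) (nat_lit 232))) (XT.nd (nat_lit 78) (nat_lit 608) (nat_lit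 0) (XT.lf (nat_lit 0) (nat_lit 1448108340) (nat_lit 608) (nat_lit 1770658689) (nat_lit 76) (nat_lit 4214155167) (nat_lit 70) (nat_lit 5) (nat_lit 78) (nat_lit 5) (nat_lit 71) (nat_lit 5) (nat_lit 250) (nat_lit 239) (nat_lit 231)) (XT.lf (nat_lit 0) (nat_lit 4541363457) (nat_lit 608) (nat_lit 450213924) (nat_lit 684) (nat_lit 2666861917) (nat_lit 62) (nat_lit 5) (nat_lit 70) (nat_lit 5) (nat_lit 71) (nat_lit 5) (nat_lit 251) (nat_lit 239) (nat_lit 230)))) (XT.nd (nat_lit 156) (nat_lit 608) (nat_lit 0) (XT.nd (nat_lit 78) (nat_lit 304) (nat_lit 0) (XT.lf (nat_lit 0) (nat_lit 751520579) (nat_lit 760) (nat_lit 4588978867) (nat_lit 76) (nat_lit 2569030247) (nat_lit 52) (nat_lit 5) (nat_lit 62) (nat_lit 5) (nat_lit 53) (nat_lit 5) (nat_lit 252) (nat_lit 239) (nat_lit 229)) (XT.lf (nat_lit 0) (nat_lit 1963106423) (nat_lit 304) (nat_lit 2236230464) (nat_lit 380) (nat_lit 3988070041) (nat_lit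 48) (nat_lit 5) (nat_lit 52) (nat_lit 5) (nat_lit 53) (nat_lit 5) (nat_lit 253) (nat_lit 239) (nat_lit 228))) (XT.nd (nat_lit 78) (nat_lit 304) (nat_lit 0) (XT.lf (nat_lit 0) (nat_lit 461312623) (nat_lit 304) (nat_lit 7336488460) (nat_lit 380) (nat_lit 697227143) (nat_lit 44) (nat_lit 5) (nat_lit 48) (nat_lit 5) (nat_lit 49) (nat_lit 5) (nat_lit 254) (nat_lit 239) (nat_lit 227)) (XT.nd (nat_lit 78) (nat_lit 228) (nat_lit 0) (XT.lf (nat_lit 0) (nat_lit 2690916940) (nat_lit 380) (nat_lit 1253712300) (nat_lit 76) (nat_lit 4885232912) (nat_lit 43) (nat_lit 5) (nat_lit 48) (nat_lit 5) (nat_lit 44) (nat_lit 5) (nat_lit 255) (nat_lit 239) (nat_lit 226)) (XT.lf (nat_lit 0) (nat_lit 6016320030) (nat_lit 228) (nat_lit 197664187) (nat_lit 304) (nat_lit 2983536858) (nat_lit 40) (nat_lit 5) (nat_lit 43) (nat_lit 5) (nat_lit 44) (nat_lit 5) (nat_lit 256) (nat_lit 239) (nat_lit 225)))))) (XT.nd (nat_lit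 312) (nat_lit 608) (nat_lit 0) (XT.nd (nat_lit 156) (nat_lit 304) (nat_lit 0) (XT.nd (nat_lit 78) (nat_lit 228) (nat_lit 0) (XT.lf (nat_lit 0) (nat_lit 361611577) (nat_lit 380) (nat_lit 5445120215) (nat_lit 76) (nat_lit 3790888946) (nat_lit 35) (nat_lit 5) (nat_lit 40) (nat_lit 5) (nat_lit 36) (nat_lit 5) (nat_lit 257) (nat_lit 239) (nat_lit 224)) (XT.lf (nat_lit 0) (nat_lit 1936831314) (nat_lit 228) (nat_lit 1836741124) (nat_lit 304) (nat_lit 6259360669) (nat_lit 32) (nat_lit 5) (nat_lit 35) (nat_lit 5) (nat_lit 36) (nat_lit 5) (nat_lit 258) (nat_lit 239) (nat_lit 223))) (XT.nd (nat_lit 78) (nat_lit 304) (nat_lit 0) (XT.lf (nat_lit 0) (nat_lit 7415381124) (nat_lit 304) (nat_lit 663471388) (nat_lit 76) (nat_lit 2427148135) (nat_lit 32) (nat_lit 5) (nat_lit 36) (nat_lit 5) (nat_lit 33) (nat_lit 5) (nat_lit 259) (nat_lit 239) (nat_lit 222)) (XT.lf (nat_lit 0) (nat_lit 301214520) (nat_lit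 304) (nat_lit 3667324334) (nat_lit 76) (nat_lit 7049788668) (nat_lit 28) (nat_lit 5) (nat_lit 32) (nat_lit 5) (nat_lit 29) (nat_lit 5) (nat_lit 260) (nat_lit 239) (nat_lit 221)))) (XT.nd (nat_lit 156) (nat_lit 228) (nat_lit 0) (XT.nd (nat_lit 78) (nat_lit 228) (nat_lit 0) (XT.lf (nat_lit 0) (nat_lit 3786966493) (nat_lit 228) (nat_lit 7245382966) (nat_lit 76) (nat_lit 540847799) (nat_lit 26) (nat_lit 5) (nat_lit 29) (nat_lit 5) (nat_lit 27) (nat_lit 5) (nat_lit 261) (nat_lit 239) (nat_lit 220)) (XT.lf (nat_lit 0) (nat_lit 670720716) (nat_lit 228) (nat_lit 6872266596) (nat_lit 304) (nat_lit 4630484547) (nat_lit 23) (nat_lit 5) (nat_lit 26) (nat_lit 5) (nat_lit 27) (nat_lit 5) (nat_lit 262) (nat_lit 239) (nat_lit 219))) (XT.nd (nat_lit 78) (nat_lit 228) (nat_lit 0) (XT.lf (nat_lit 0) (nat_lit 9280797822) (nat_lit 228) (nat_lit 2302078690) (nat_lit 304) (nat_lit 1240264914) (nat_lit 23)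 (nat_lit 5) (nat_lit 26) (nat_lit 5) (nat_lit 27) (nat_lit 5) (nat_lit 263) (nat_lit 239) (nat_lit 218)) (XT.nd (nat_lit 78) (nat_lit 0) (nat_lit 0) (XT.lf (nat_lit 0) (nat_lit 2328847839) (nat_lit 228) (nat_lit 8579962912) (nat_lit 76) (nat_lit 2615303582) (nat_lit 20) (nat_lit 5) (nat_lit 23) (nat_lit 5) (nat_lit 21) (nat_lit 5) (nat_lit 264) (nat_lit 239) (nat_lit 217)) (XT.lf (nat_lit 0) (nat_lit 6113615932) (nat_lit 228) (nat_lit 288899996) (nat_lit 76) (nat_lit 7879396400) (nat_lit 20) (nat_lit 5) (nat_lit 23) (nat_lit 5) (nat_lit 21) (nat_lit 5) (nat_lit 265) (nat_lit 239) (nat_lit 216))))))))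
noncomputable def xc47 : XT := (XT.nd (nat_lit 1404) (nat_lit 228) (nat_lit 0) (XT.nd (nat_lit 702) (nat_lit 304) (nat_lit 0) (XT.nd (nat_lit 312) (nat_lit 304) (nat_lit 0) (XT.nd (nat_lit 156) (nat_lit 228) (nat_lit 0) (XT.nd (nat_lit 78) (nat_lit 152) (nat_lit 0) (XT.lf (nat_lit 0) (nat_lit 8773915984) (nat_lit 152) (nat_lit 1445220170) (nat_lit 228) (nat_lit 4880709496) (nat_lit 18) (nat_lit 5) (nat_lit 20) (nat_lit 5) (nat_lit 21) (nat_lit 5) (nat_lit 266) (nat_lit 239) (nat_lit 215)) (XT.lf (nat_lit 0) (nat_lit 2435901288) (nat_lit 152) (nat_lit 12207781984) (nat_lit 228) (nat_lit 1340380750) (nat_lit 16) (nat_lit 5) (nat_lit 18) (nat_lit 5) (nat_lit 19) (nat_lit 4) (nat_lit 267) (nat_lit 239) (nat_lit 214))) (XT.nd (nat_lit 78) (nat_lit 152) (nat_lit 0) (XT.lf (nat_lit 0) (nat_lit 2430248190) (nat_lit 228) (nat_lit 5040521238) (nat_lit 76) (nat_lit 9465319209) (nat_lit 15) (nat_lit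 5) (nat_lit 18) (nat_lit 5) (nat_lit 16) (nat_lit 5) (nat_lit 268) (nat_lit 239) (nat_lit 213)) (XT.lf (nat_lit 0) (nat_lit 4102125933) (nat_lit 152) (nat_lit 2316431136) (nat_lit 228) (nat_lit 11546779967) (nat_lit 13) (nat_lit 5) (nat_lit 15) (nat_lit 5) (nat_lit 16) (nat_lit 5) (nat_lit 269) (nat_lit 239) (nat_lit 212)))) (XT.nd (nat_lit 156) (nat_lit 228) (nat_lit 0) (XT.nd (nat_lit 78) (nat_lit 76) (nat_lit 0) (XT.lf (nat_lit 0) (nat_lit 10768664179) (nat_lit 228) (nat_lit 5120443717) (nat_lit 76) (nat_lit 3185967761) (nat_lit 13) (nat_lit 5) (nat_lit 16) (nat_lit 5) (nat_lit 14) (nat_lit 4) (nat_lit 270) (nat_lit 239) (nat_lit 211)) (XT.lf (nat_lit 0) (nat_lit 4278988445) (nat_lit 76) (nat_lit 11203607608) (nat_lit 152) (nat_lit 4790472270) (nat_lit 12) (nat_lit 5) (nat_lit 13) (nat_lit 5) (nat_lit 14) (nat_lit 4) (nat_lit 271) (nat_lit 239) (nat_lit 210))) (XT.nd (nat_lit 78)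 (nat_lit 228) (nat_lit 0) (XT.lf (nat_lit 0) (nat_lit 14478685419) (nat_lit 76) (nat_lit 6098671660) (nat_lit 152) (nat_lit 989603672) (nat_lit 12) (nat_lit 5) (nat_lit 13) (nat_lit 5) (nat_lit 14) (nat_lit 4) (nat_lit 272) (nat_lit 239) (nat_lit 209)) (XT.nd (nat_lit 78) (nat_lit 0) (nat_lit 0) (XT.lf (nat_lit 0) (nat_lit 2431727452) (nat_lit 152) (nat_lit 541196456) (nat_lit 228) (nat_lit 19991360729) (nat_lit 9) (nat_lit 5) (nat_lit 11) (nat_lit 5) (nat_lit 12) (nat_lit 5) (nat_lit 273) (nat_lit 239) (nat_lit 208)) (XT.lf (nat_lit 0) (nat_lit 7351700988) (nat_lit 228) (nat_lit 11729981926) (nat_lit 76) (nat_lit 5384405386) (nat_lit 9) (nat_lit 5) (nat_lit 12) (nat_lit 5) (nat_lit 10) (nat_lit 4) (nat_lit 274) (nat_lit 239) (nat_lit 207)))))) (XT.nd (nat_lit 312) (nat_lit 228) (nat_lit 0) (XT.nd (nat_lit 156) (nat_lit 0) (nat_lit 0) (XT.nd (nat_lit 78) (nat_lit 76) (nat_lit 0) (XT.lf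 (nat_lit 0) (nat_lit 12018329634) (nat_lit 228) (nat_lit 2348290437) (nat_lit 76) (nat_lit 11724724759) (nat_lit 9) (nat_lit 5) (nat_lit 12) (nat_lit 5) (nat_lit 10) (nat_lit 4) (nat_lit 275) (nat_lit 239) (nat_lit 206)) (XT.lf (nat_lit 0) (nat_lit 7930383894) (nat_lit 76) (nat_lit 9185445972) (nat_lit 152) (nat_lit 10728087214) (nat_lit 8) (nat_lit 5) (nat_lit 9) (nat_lit 5) (nat_lit 10) (nat_lit 4) (nat_lit 276) (nat_lit 239) (nat_lit 205))) (XT.nd (nat_lit 78) (nat_lit 0) (nat_lit 0) (XT.lf (nat_lit 0) (nat_lit 19012500933) (nat_lit 76) (nat_lit 3586566306) (nat_lit 152) (nat_lit 7138890516) (nat_lit 8) (nat_lit 5) (nat_lit 9) (nat_lit 5) (nat_lit 10) (nat_lit 4) (nat_lit 277) (nat_lit 239) (nat_lit 204)) (XT.lf (nat_lit 0) (nat_lit 28500495866) (nat_lit 152) (nat_lit 938333690) (nat_lit 0) (nat_lit 2345863203) (nat_lit 8) (nat_lit 5) (nat_lit 10) (nat_lit 4) (nat_lit 8) (nat_lit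 4) (nat_lit 278) (nat_lit 239) (nat_lit 203)))) (XT.nd (nat_lit 156) (nat_lit 76) (nat_lit 0) (XT.nd (nat_lit 78) (nat_lit 0) (nat_lit 0) (XT.lf (nat_lit 0) (nat_lit 1012091831) (nat_lit 152) (nat_lit 24209277729) (nat_lit 76) (nat_lit 8765173705) (nat_lit 6) (nat_lit 5) (nat_lit 8) (nat_lit 5) (nat_lit 7) (nat_lit 4) (nat_lit 279) (nat_lit 239) (nat_lit 202)) (XT.lf (nat_lit 0) (nat_lit 5502372095) (nat_lit 152) (nat_lit 15124048857) (nat_lit 76) (nat_lit 15737281949) (nat_lit 6) (nat_lit 5) (nat_lit 8) (nat_lit 5) (nat_lit 7) (nat_lit 4) (nat_lit 280) (nat_lit 239) (nat_lit 201))) (XT.nd (nat_lit 78) (nat_lit 76) (nat_lit 0) (XT.lf (nat_lit 0) (nat_lit 10302985256) (nat_lit 152) (nat_lit 5393760088) (nat_lit 76) (nat_lit 23236846095) (nat_lit 6) (nat_lit 5) (nat_lit 8) (nat_lit 5) (nat_lit 7) (nat_lit 4) (nat_lit 281) (nat_lit 239) (nat_lit 200)) (XT.nd (nat_lit 78) (nat_lit 0) (nat_lit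 0) (XT.lf (nat_lit 0) (nat_lit 5205869896) (nat_lit 76) (nat_lit 10317787714) (nat_lit 152) (nat_lit 26183716327) (nat_lit 5) (nat_lit 5) (nat_lit 6) (nat_lit 5) (nat_lit 7) (nat_lit 4) (nat_lit 282) (nat_lit 239) (nat_lit 199)) (XT.lf (nat_lit 0) (nat_lit 16773667406) (nat_lit 76) (nat_lit 4439226724) (nat_lit 152) (nat_lit 23487715115) (nat_lit 5) (nat_lit 5) (nat_lit 6) (nat_lit 5) (nat_lit 7) (nat_lit 4) (nat_lit 283) (nat_lit 239) (nat_lit 198))))))) (XT.nd (nat_lit 702) (nat_lit 0) (nat_lit 0) (XT.nd (nat_lit 312) (nat_lit 152) (nat_lit 0) (XT.nd (nat_lit 156) (nat_lit 76) (nat_lit 0) (XT.nd (nat_lit 78) (nat_lit 0) (nat_lit 0) (XT.lf (nat_lit 0) (nat_lit 27346802648) (nat_lit 152) (nat_lit 18764934546) (nat_lit 0) (nat_lit 1822178166) (nat_lit 5) (nat_lit 5) (nat_lit 7) (nat_lit 4) (nat_lit 5) (nat_lit 4) (nat_lit 284) (nat_lit 239) (nat_lit 197)) (XT.lf (nat_lit 0) (nat_lit 34008979698)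 (nat_lit 152) (nat_lit 9008436230) (nat_lit 0) (nat_lit 8406674313) (nat_lit 5) (nat_lit 5) (nat_lit 7) (nat_lit 4) (nat_lit 5) (nat_lit 4) (nat_lit 285) (nat_lit 239) (nat_lit 196))) (XT.nd (nat_lit 78) (nat_lit 0) (nat_lit 0) (XT.lf (nat_lit 0) (nat_lit 1518272360) (nat_lit 76) (nat_lit 39675028204) (nat_lit 76) (nat_lit 14000796057) (nat_lit 4) (nat_lit 4) (nat_lit 5) (nat_lit 5) (nat_lit 5) (nat_lit 4) (nat_lit 286) (nat_lit 239) (nat_lit 195)) (XT.lf (nat_lit 0) (nat_lit 13152462091) (nat_lit 76) (nat_lit 35923969773) (nat_lit 76) (nat_lit 10183138773) (nat_lit 4) (nat_lit 4) (nat_lit 5) (nat_lit 5) (nat_lit 5) (nat_lit 4) (nat_lit 287) (nat_lit 239) (nat_lit 194)))) (XT.nd (nat_lit 156) (nat_lit 152) (nat_lit 0) (XT.nd (nat_lit 78) (nat_lit 0) (nat_lit 0) (XT.lf (nat_lit 0) (nat_lit 25665216722) (nat_lit 76) (nat_lit 31894574368) (nat_lit 76) (nat_lit 6092077763) (nat_lit 4) (nat_lit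 4) (nat_lit 5) (nat_lit 5) (nat_lit 5) (nat_lit 4) (nat_lit 288) (nat_lit 239) (nat_lit 193)) (XT.lf (nat_lit 0) (nat_lit 39130685910) (nat_lit 76) (nat_lit 27562964090) (nat_lit 76) (nat_lit 1703369702) (nat_lit 4) (nat_lit 4) (nat_lit 5) (nat_lit 5) (nat_lit 5) (nat_lit 4) (nat_lit 289) (nat_lit 239) (nat_lit 192))) (XT.nd (nat_lit 78) (nat_lit 76) (nat_lit 0) (XT.lf (nat_lit 0) (nat_lit 2912686013) (nat_lit 152) (nat_lit 19941456376) (nat_lit 76) (nat_lit 50666651268) (nat_lit 3) (nat_lit 5) (nat_lit 5) (nat_lit 5) (nat_lit 4) (nat_lit 4) (nat_lit 290) (nat_lit 239) (nat_lit 191)) (XT.nd (nat_lit 78) (nat_lit 76) (nat_lit 0) (XT.lf (nat_lit 0) (nat_lit 7814549846) (nat_lit 152) (nat_lit 9941587664) (nat_lit 76) (nat_lit 61298174999) (nat_lit 3) (nat_lit 5) (nat_lit 5) (nat_lit 5) (nat_lit 4) (nat_lit 4) (nat_lit 291) (nat_lit 239) (nat_lit 190)) (XT.lf (nat_lit 0) (nat_lit 846209178)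 (nat_lit 76) (nat_lit 12252790865) (nat_lit 152) (nat_lit 71932036570) (nat_lit 2) (nat_lit 5) (nat_lit 3) (nat_lit 5) (nat_lit 4) (nat_lit 4) (nat_lit 292) (nat_lit 239) (nat_lit 189)))))) (XT.nd (nat_lit 312) (nat_lit 0) (nat_lit 0) (XT.nd (nat_lit 156) (nat_lit 0) (nat_lit 0) (XT.nd (nat_lit 78) (nat_lit 0) (nat_lit 0) (XT.lf (nat_lit 0) (nat_lit 12814596521) (nat_lit 76) (nat_lit 6143113725) (nat_lit 152) (nat_lit 72520655427) (nat_lit 2) (nat_lit 5) (nat_lit 3) (nat_lit 5) (nat_lit 4) (nat_lit 4) (nat_lit 293) (nat_lit 239) (nat_lit 188)) (XT.lf (nat_lit 0) (nat_lit 25271931643) (nat_lit 152) (nat_lit 72743620230) (nat_lit 0) (nat_lit 426627569) (nat_lit 2) (nat_lit 5) (nat_lit 4) (nat_lit 4) (nat_lit 2) (nat_lit 4) (nat_lit 294) (nat_lit 239) (nat_lit 187))) (XT.nd (nat_lit 78) (nat_lit 0) (nat_lit 0) (XT.lf (nat_lit 0) (nat_lit 32176083461) (nat_lit 152) (nat_lit 66486299926)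 (nat_lit 0) (nat_lit 7296511493) (nat_lit 2) (nat_lit 5) (nat_lit 4) (nat_lit 4) (nat_lit 2) (nat_lit 4) (nat_lit 295) (nat_lit 239) (nat_lit 186)) (XT.lf (nat_lit 0) (nat_lit 39615167972) (nat_lit 152) (nat_lit 59758816602) (nat_lit 0) (nat_lit 14703866474) (nat_lit 2) (nat_lit 5) (nat_lit 4) (nat_lit 4) (nat_lit 2) (nat_lit 4) (nat_lit 296) (nat_lit 239) (nat_lit 185)))) (XT.nd (nat_lit 156) (nat_lit 0) (nat_lit 0) (XT.nd (nat_lit 78) (nat_lit 0) (nat_lit 0) (XT.lf (nat_lit 0) (nat_lit 47633268641) (nat_lit 152) (nat_lit 52521303691) (nat_lit 0) (nat_lit 22692587947) (nat_lit 2) (nat_lit 5) (nat_lit 4) (nat_lit 4) (nat_lit 2) (nat_lit 4) (nat_lit 297) (nat_lit 239) (nat_lit 184)) (XT.lf (nat_lit 0) (nat_lit 56277900138) (nat_lit 152) (nat_lit 44730872227) (nat_lit 0) (nat_lit 31310016485) (nat_lit 2) (nat_lit 5) (nat_lit 4) (nat_lit 4) (nat_lit 2) (nat_lit 4) (nat_lit 298) (nat_lit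 239) (nat_lit 183))) (XT.nd (nat_lit 78) (nat_lit 0) (nat_lit 0) (XT.lf (nat_lit 0) (nat_lit 65600289908) (nat_lit 152) (nat_lit 36341356691) (nat_lit 0) (nat_lit 40607218331) (nat_lit 2) (nat_lit 5) (nat_lit 4) (nat_lit 4) (nat_lit 2) (nat_lit 4) (nat_lit 299) (nat_lit 239) (nat_lit 182)) (XT.nd (nat_lit 78) (nat_lit 0) (nat_lit 0) (XT.lf (nat_lit 0) (nat_lit 75655681744) (nat_lit 152) (nat_lit 27303041434) (nat_lit 0) (nat_lit 50639288014) (nat_lit 2) (nat_lit 5) (nat_lit 4) (nat_lit 4) (nat_lit 2) (nat_lit 4) (nat_lit 300) (nat_lit 239) (nat_lit 181)) (XT.lf (nat_lit 0) (nat_lit 86503663152) (nat_lit 152) (nat_lit 17562366071) (nat_lit 0) (nat_lit 61465674836) (nat_lit 2) (nat_lit 5) (nat_lit 4) (nat_lit 4) (nat_lit 2) (nat_lit 4) (nat_lit 301) (nat_lit 239) (nat_lit 180))))))))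
noncomputable def xc48 : XT := (XT.nd (nat_lit 1326) (nat_lit 0) (nat_lit 0) (XT.nd (nat_lit 624) (nat_lit 0) (nat_lit 0) (XT.nd (nat_lit 312) (nat_lit 0) (nat_lit 0) (XT.nd (nat_lit 156) (nat_lit 0) (nat_lit 0) (XT.nd (nat_lit 78) (nat_lit 76) (nat_lit 0) (XT.lf (nat_lit 0) (nat_lit 98208518467) (nat_lit 152) (nat_lit 7061608081) (nat_lit 0) (nat_lit 73150535164) (nat_lit 2) (nat_lit 5) (nat_lit 4) (nat_lit 4) (nat_lit 2) (nat_lit 4) (nat_lit 302) (nat_lit 239) (nat_lit 179)) (XT.lf (nat_lit 0) (nat_lit 4402362339) (nat_lit 76) (nat_lit 106505980668) (nat_lit 76) (nat_lit 81429483489) (nat_lit 1) (nat_lit 4) (nat_lit 2) (nat_lit 5) (nat_lit 2) (nat_lit 4) (nat_lit 303) (nat_lit 239) (nat_lit 178))) (XT.nd (nat_lit 78) (nat_lit 0) (nat_lit 0) (XT.lf (nat_lit 0) (nat_lit 17018638291) (nat_lit 76) (nat_lit 107718858390) (nat_lit 76) (nat_lit 82625218733) (nat_lit 1) (nat_lit 4) (nat_lit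 2) (nat_lit 5) (nat_lit 2) (nat_lit 4) (nat_lit 304) (nat_lit 239) (nat_lit 177)) (XT.lf (nat_lit 0) (nat_lit 30628494238) (nat_lit 76) (nat_lit 109035538888) (nat_lit 76) (nat_lit 83926026566) (nat_lit 1) (nat_lit 4) (nat_lit 2) (nat_lit 5) (nat_lit 2) (nat_lit 4) (nat_lit 305) (nat_lit 239) (nat_lit 176)))) (XT.nd (nat_lit 156) (nat_lit 0) (nat_lit 0) (XT.nd (nat_lit 78) (nat_lit 0) (nat_lit 0) (XT.lf (nat_lit 0) (nat_lit 45312581178) (nat_lit 76) (nat_lit 110463824713) (nat_lit 76) (nat_lit 85339615478) (nat_lit 1) (nat_lit 4) (nat_lit 2) (nat_lit 5) (nat_lit 2) (nat_lit 4) (nat_lit 306) (nat_lit 239) (nat_lit 175)) (XT.lf (nat_lit 0) (nat_lit 61157915923) (nat_lit 76) (nat_lit 112012179781) (nat_lit 76) (nat_lit 86874362294) (nat_lit 1) (nat_lit 4) (nat_lit 2) (nat_lit 5) (nat_lit 2) (nat_lit 4) (nat_lit 307) (nat_lit 239) (nat_lit 174))) (XT.nd (nat_lit 78) (nat_lit 0) (nat_lit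 0) (XT.lf (nat_lit 0) (nat_lit 78258396752) (nat_lit 76) (nat_lit 113689779529) (nat_lit 76) (nat_lit 88539361809) (nat_lit 1) (nat_lit 4) (nat_lit 2) (nat_lit 5) (nat_lit 2) (nat_lit 4) (nat_lit 308) (nat_lit 239) (nat_lit 173)) (XT.lf (nat_lit 0) (nat_lit 96715359848) (nat_lit 76) (nat_lit 115506565289) (nat_lit 76) (nat_lit 90344480686) (nat_lit 1) (nat_lit 4) (nat_lit 2) (nat_lit 5) (nat_lit 2) (nat_lit 4) (nat_lit 309) (nat_lit 239) (nat_lit 172))))) (XT.nd (nat_lit 312) (nat_lit 0) (nat_lit 0) (XT.nd (nat_lit 156) (nat_lit 0) (nat_lit 0) (XT.nd (nat_lit 78) (nat_lit 0) (nat_lit 0) (XT.lf (nat_lit 0) (nat_lit 116638179807) (nat_lit 76) (nat_lit 117473303199) (nat_lit 76) (nat_lit 92300415927) (nat_lit 1) (nat_lit 4) (nat_lit 2) (nat_lit 5) (nat_lit 2) (nat_lit 4) (nat_lit 310) (nat_lit 239) (nat_lit 171)) (XT.lf (nat_lit 0) (nat_lit 138144917784) (nat_lit 76) (nat_lit 119601648002)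 (nat_lit 76) (nat_lit 94418758258) (nat_lit 1) (nat_lit 4) (nat_lit 2) (nat_lit 5) (nat_lit 2) (nat_lit 4) (nat_lit 311) (nat_lit 239) (nat_lit 170))) (XT.nd (nat_lit 78) (nat_lit 0) (nat_lit 0) (XT.lf (nat_lit 0) (nat_lit 161363021117) (nat_lit 76) (nat_lit 121904212112) (nat_lit 76) (nat_lit 96712060820) (nat_lit 1) (nat_lit 4) (nat_lit 2) (nat_lit 5) (nat_lit 2) (nat_lit 4) (nat_lit 312) (nat_lit 239) (nat_lit 169)) (XT.lf (nat_lit 0) (nat_lit 186430078564) (nat_lit 76) (nat_lit 124394640353) (nat_lit 76) (nat_lit 99193913554) (nat_lit 1) (nat_lit 4) (nat_lit 2) (nat_lit 5) (nat_lit 2) (nat_lit 4) (nat_lit 313) (nat_lit 239) (nat_lit 168)))) (XT.nd (nat_lit 156) (nat_lit 0) (nat_lit 0) (XT.nd (nat_lit 78) (nat_lit 0) (nat_lit 0) (XT.lf (nat_lit 0) (nat_lit 213494635652) (nat_lit 76) (nat_lit 127087690818) (nat_lit 76) (nat_lit 101879023735) (nat_lit 1) (nat_lit 4) (nat_lit 2) (nat_lit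 5) (nat_lit 2) (nat_lit 4) (nat_lit 314) (nat_lit 239) (nat_lit 167)) (XT.lf (nat_lit 0) (nat_lit 242717074942) (nat_lit 76) (nat_lit 129999322325) (nat_lit 76) (nat_lit 104783303127) (nat_lit 1) (nat_lit 4) (nat_lit 2) (nat_lit 5) (nat_lit 2) (nat_lit 4) (nat_lit 315) (nat_lit 239) (nat_lit 166))) (XT.nd (nat_lit 78) (nat_lit 0) (nat_lit 0) (XT.lf (nat_lit 0) (nat_lit 274270566443) (nat_lit 76) (nat_lit 133146788987) (nat_lit 76) (nat_lit 107923962275) (nat_lit 1) (nat_lit 4) (nat_lit 2) (nat_lit 5) (nat_lit 2) (nat_lit 4) (nat_lit 316) (nat_lit 239) (nat_lit 165)) (XT.nd (nat_lit 78) (nat_lit 0) (nat_lit 0) (XT.lf (nat_lit 0) (nat_lit 308342093810) (nat_lit 76) (nat_lit 136548742457) (nat_lit 76) (nat_lit 111319612491) (nat_lit 1) (nat_lit 4) (nat_lit 2) (nat_lit 5) (nat_lit 2) (nat_lit 4) (nat_lit 317) (nat_lit 239) (nat_lit 164)) (XT.lf (nat_lit 0) (nat_lit 345133562389) (nat_lit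 76) (nat_lit 140225342461) (nat_lit 76) (nat_lit 114990376149) (nat_lit 1) (nat_lit 4) (nat_lit 2) (nat_lit 5) (nat_lit 2) (nat_lit 4) (nat_lit 318) (nat_lit 239) (nat_lit 163))))))) (XT.nd (nat_lit 31824) (nat_lit 0) (nat_lit 3496) (XT.nd (nat_lit 31434) (nat_lit 0) (nat_lit 7068) (XT.nd (nat_lit 156) (nat_lit 0) (nat_lit 0) (XT.nd (nat_lit 78) (nat_lit 0) (nat_lit 0) (XT.lf (nat_lit 0) (nat_lit 384862995699) (nat_lit 76) (nat_lit 144198376257) (nat_lit 76) (nat_lit 118958005921) (nat_lit 1) (nat_lit 4) (nat_lit 2) (nat_lit 5) (nat_lit 2) (nat_lit 4) (nat_lit 319) (nat_lit 239) (nat_lit 162)) (XT.lf (nat_lit 0) (nat_lit 427765827417) (nat_lit 76) (nat_lit 148491387749) (nat_lit 76) (nat_lit 123246013687) (nat_lit 1) (nat_lit 4) (nat_lit 2) (nat_lit 5) (nat_lit 2) (nat_lit 4) (nat_lit 320) (nat_lit 239) (nat_lit 161))) (XT.nd (nat_lit 31200) (nat_lit 0) (nat_lit 7828) (XT.lf (nat_lit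 0) (nat_lit 474096296548) (nat_lit 76) (nat_lit 153129817006) (nat_lit 76) (nat_lit 127879809865) (nat_lit 1) (nat_lit 4) (nat_lit 2) (nat_lit 5) (nat_lit 2) (nat_lit 4) (nat_lit 321) (nat_lit 239) (nat_lit 160)) (XT.lf (nat_lit 0) (nat_lit 1073741823) (nat_lit 0) (nat_lit 0) (nat_lit 0) (nat_lit 0) (nat_lit 104) (nat_lit 0) (nat_lit 1) (nat_lit 0) (nat_lit 1) (nat_lit 0) (nat_lit 240) (nat_lit 240) (nat_lit 240)))) (XT.nd (nat_lit 156) (nat_lit 532) (nat_lit 0) (XT.nd (nat_lit 78) (nat_lit 152) (nat_lit 0) (XT.lf (nat_lit 0) (nat_lit 4184753271) (nat_lit 76) (nat_lit 2090845364) (nat_lit 0) (nat_lit 176117128) (nat_lit 103) (nat_lit 5) (nat_lit 104) (nat_lit 0) (nat_lit 103) (nat_lit 4) (nat_lit 241) (nat_lit 240) (nat_lit 239)) (XT.lf (nat_lit 0) (nat_lit 1783939837) (nat_lit 152) (nat_lit 4063259608) (nat_lit 76) (nat_lit 635848849) (nat_lit 101) (nat_lit 5) (nat_lit 103) (nat_lit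 5) (nat_lit 102) (nat_lit 4) (nat_lit 242) (nat_lit 240) (nat_lit 238))) (XT.nd (nat_lit 78) (nat_lit 380) (nat_lit 0) (XT.lf (nat_lit 0) (nat_lit 587242303) (nat_lit 152) (nat_lit 5141703043) (nat_lit 228) (nat_lit 807069261) (nat_lit 99) (nat_lit 5) (nat_lit 101) (nat_lit 5) (nat_lit 102) (nat_lit 4) (nat_lit 243) (nat_lit 240) (nat_lit 237)) (XT.nd (nat_lit 78) (nat_lit 304) (nat_lit 0) (XT.lf (nat_lit 0) (nat_lit 2978405637) (nat_lit 228) (nat_lit 1137651015) (nat_lit 76) (nat_lit 2493020873) (nat_lit 98) (nat_lit 5) (nat_lit 101) (nat_lit 5) (nat_lit 99) (nat_lit 5) (nat_lit 244) (nat_lit 240) (nat_lit 236)) (XT.lf (nat_lit 0) (nat_lit 41350049) (nat_lit 304) (nat_lit 2764737150) (nat_lit 76) (nat_lit 3898578282) (nat_lit 94) (nat_lit 5) (nat_lit 98) (nat_lit 5) (nat_lit 95) (nat_lit 5) (nat_lit 245) (nat_lit 240) (nat_lit 235)))))) (XT.nd (nat_lit 312) (nat_lit 2356) (nat_lit 0)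 (XT.nd (nat_lit 156) (nat_lit 456) (nat_lit 0) (XT.nd (nat_lit 78) (nat_lit 456) (nat_lit 0) (XT.lf (nat_lit 0) (nat_lit 2440069956) (nat_lit 304) (nat_lit 1161632758) (nat_lit 380) (nat_lit 3219623203) (nat_lit 90) (nat_lit 5) (nat_lit 94) (nat_lit 5) (nat_lit 95) (nat_lit 5) (nat_lit 246) (nat_lit 240) (nat_lit 234)) (XT.lf (nat_lit 0) (nat_lit 236275567) (nat_lit 456) (nat_lit 5972340540) (nat_lit 76) (nat_lit 752873768) (nat_lit 84) (nat_lit 5) (nat_lit 90) (nat_lit 5) (nat_lit 85) (nat_lit 5) (nat_lit 247) (nat_lit 240) (nat_lit 233))) (XT.nd (nat_lit 78) (nat_lit 456) (nat_lit 0) (XT.lf (nat_lit 0) (nat_lit 3652150182) (nat_lit 456) (nat_lit 483326233) (nat_lit 76) (nat_lit 2986969345) (nat_lit 84) (nat_lit 5) (nat_lit 90) (nat_lit 5) (nat_lit 85) (nat_lit 5) (nat_lit 248) (nat_lit 240) (nat_lit 232)) (XT.lf (nat_lit 0) (nat_lit 5390688997) (nat_lit 456) (nat_lit 1754805464) (nat_lit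 532) (nat_lit 162456115) (nat_lit 78) (nat_lit 5) (nat_lit 84) (nat_lit 5) (nat_lit 85) (nat_lit 5) (nat_lit 249) (nat_lit 240) (nat_lit 231)))) (XT.nd (nat_lit 156) (nat_lit 1140) (nat_lit 0) (XT.nd (nat_lit 78) (nat_lit 608) (nat_lit 0) (XT.lf (nat_lit 0) (nat_lit 3120196988) (nat_lit 608) (nat_lit 3438220708) (nat_lit 76) (nat_lit 957909687) (nat_lit 70) (nat_lit 5) (nat_lit 78) (nat_lit 5) (nat_lit 71) (nat_lit 5) (nat_lit 250) (nat_lit 240) (nat_lit 230)) (XT.lf (nat_lit 0) (nat_lit 2703363552) (nat_lit 608) (nat_lit 3810663252) (nat_lit 684) (nat_lit 1236038606) (nat_lit 62) (nat_lit 5) (nat_lit 70) (nat_lit 5) (nat_lit 71) (nat_lit 5) (nat_lit 251) (nat_lit 240) (nat_lit 229))) (XT.nd (nat_lit 78) (nat_lit 380) (nat_lit 0) (XT.lf (nat_lit 0) (nat_lit 1232621194) (nat_lit 684) (nat_lit 713037291) (nat_lit 760) (nat_lit 6064576508) (nat_lit 52) (nat_lit 5) (nat_lit 61) (nat_lit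 5) (nat_lit 62) (nat_lit 5) (nat_lit 252) (nat_lit 240) (nat_lit 228)) (XT.nd (nat_lit 78) (nat_lit 380) (nat_lit 0) (XT.lf (nat_lit 0) (nat_lit 5242504368) (nat_lit 760) (nat_lit 389754589) (nat_lit 76) (nat_lit 2664005165) (nat_lit 52) (nat_lit 5) (nat_lit 62) (nat_lit 5) (nat_lit 53) (nat_lit 5) (nat_lit 253) (nat_lit 240) (nat_lit 227)) (XT.lf (nat_lit 0) (nat_lit 91904207) (nat_lit 380) (nat_lit 2124618561) (nat_lit 76) (nat_lit 6394589190) (nat_lit 47) (nat_lit 5) (nat_lit 52) (nat_lit 5) (nat_lit 48) (nat_lit 5) (nat_lit 254) (nat_lit 240) (nat_lit 226))))))))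
noncomputable def xc49 : XT := (XT.nd (nat_lit 1326) (nat_lit 684) (nat_lit 0) (XT.nd (nat_lit 624) (nat_lit 988) (nat_lit 0) (XT.nd (nat_lit 312) (nat_lit 684) (nat_lit 0) (XT.nd (nat_lit 156) (nat_lit 380) (nat_lit 0) (XT.nd (nat_lit 78) (nat_lit 228) (nat_lit 0) (XT.lf (nat_lit 0) (nat_lit 3289277936) (nat_lit 380) (nat_lit 4115511008) (nat_lit 76) (nat_lit 1549528054) (nat_lit 43) (nat_lit 5) (nat_lit 48) (nat_lit 5) (nat_lit 44) (nat_lit 5) (nat_lit 255) (nat_lit 240) (nat_lit 225)) (XT.lf (nat_lit 0) (nat_lit 2952666061) (nat_lit 228) (nat_lit 3720162865) (nat_lit 304) (nat_lit 2656578977) (nat_lit 40) (nat_lit 5) (nat_lit 43) (nat_lit 5) (nat_lit 44) (nat_lit 5) (nat_lit 256) (nat_lit 240) (nat_lit 224))) (XT.nd (nat_lit 78) (nat_lit 0) (nat_lit 0) (XT.lf (nat_lit 0) (nat_lit 480547994) (nat_lit 380) (nat_lit 8940696810) (nat_lit 76) (nat_lit 318287629) (nat_lit 35) (nat_lit 5)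 (nat_lit 40) (nat_lit 5) (nat_lit 36) (nat_lit 5) (nat_lit 257) (nat_lit 240) (nat_lit 223)) (XT.lf (nat_lit 0) (nat_lit 3778774325) (nat_lit 380) (nat_lit 1723188932) (nat_lit 76) (nat_lit 4678940737) (nat_lit 35) (nat_lit 5) (nat_lit 40) (nat_lit 5) (nat_lit 36) (nat_lit 5) (nat_lit 258) (nat_lit 240) (nat_lit 222)))) (XT.nd (nat_lit 156) (nat_lit 228) (nat_lit 0) (XT.nd (nat_lit 78) (nat_lit 228) (nat_lit 0) (XT.lf (nat_lit 0) (nat_lit 6068637058) (nat_lit 228) (nat_lit 1206164631) (nat_lit 304) (nat_lit 3386803789) (nat_lit 32) (nat_lit 5) (nat_lit 35) (nat_lit 5) (nat_lit 36) (nat_lit 5) (nat_lit 259) (nat_lit 240) (nat_lit 221)) (XT.lf (nat_lit 0) (nat_lit 3218578776) (nat_lit 228) (nat_lit 7813878925) (nat_lit 304) (nat_lit 149872264) (nat_lit 29) (nat_lit 5) (nat_lit 32) (nat_lit 5) (nat_lit 33) (nat_lit 5) (nat_lit 260) (nat_lit 240) (nat_lit 220))) (XT.nd (nat_lit 78) (nat_lit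 152) (nat_lit 0) (XT.lf (nat_lit 0) (nat_lit 3193559571) (nat_lit 304) (nat_lit 188871582) (nat_lit 76) (nat_lit 8362522990) (nat_lit 28) (nat_lit 5) (nat_lit 32) (nat_lit 5) (nat_lit 29) (nat_lit 5) (nat_lit 261) (nat_lit 240) (nat_lit 219)) (XT.lf (nat_lit 0) (nat_lit 6816024642) (nat_lit 228) (nat_lit 4084893966) (nat_lit 76) (nat_lit 1451248661) (nat_lit 26) (nat_lit 5) (nat_lit 29) (nat_lit 5) (nat_lit 27) (nat_lit 5) (nat_lit 262) (nat_lit 240) (nat_lit 218))))) (XT.nd (nat_lit 312) (nat_lit 380) (nat_lit 0) (XT.nd (nat_lit 156) (nat_lit 304) (nat_lit 0) (XT.nd (nat_lit 78) (nat_lit 76) (nat_lit 0) (XT.lf (nat_lit 0) (nat_lit 4301956968) (nat_lit 228) (nat_lit 6424492791) (nat_lit 304) (nat_lit 2282101705) (nat_lit 23) (nat_lit 5) (nat_lit 26) (nat_lit 5) (nat_lit 27) (nat_lit 5) (nat_lit 263) (nat_lit 240) (nat_lit 217)) (XT.lf (nat_lit 0) (nat_lit 1140239827) (nat_lit 304) (nat_lit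 403032485) (nat_lit 76) (nat_lit 12176284080) (nat_lit 22) (nat_lit 5) (nat_lit 26) (nat_lit 5) (nat_lit 23) (nat_lit 5) (nat_lit 264) (nat_lit 240) (nat_lit 216))) (XT.nd (nat_lit 78) (nat_lit 152) (nat_lit 0) (XT.lf (nat_lit 0) (nat_lit 4837087401) (nat_lit 228) (nat_lit 5903837265) (nat_lit 76) (nat_lit 3741022872) (nat_lit 20) (nat_lit 5) (nat_lit 23) (nat_lit 5) (nat_lit 21) (nat_lit 5) (nat_lit 265) (nat_lit 240) (nat_lit 215)) (XT.lf (nat_lit 0) (nat_lit 2894063020) (nat_lit 152) (nat_lit 5903763412) (nat_lit 228) (nat_lit 6509476011) (nat_lit 18) (nat_lit 5) (nat_lit 20) (nat_lit 5) (nat_lit 21) (nat_lit 5) (nat_lit 266) (nat_lit 240) (nat_lit 214)))) (XT.nd (nat_lit 156) (nat_lit 152) (nat_lit 0) (XT.nd (nat_lit 78) (nat_lit 228) (nat_lit 0) (XT.lf (nat_lit 0) (nat_lit 12453969579) (nat_lit 152) (nat_lit 619876797) (nat_lit 228) (nat_lit 3125269801) (nat_lit 18) (nat_lit 5)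 (nat_lit 20) (nat_lit 5) (nat_lit 21) (nat_lit 5) (nat_lit 267) (nat_lit 240) (nat_lit 213)) (XT.lf (nat_lit 0) (nat_lit 582526597) (nat_lit 228) (nat_lit 11599119373) (nat_lit 76) (nat_lit 4977035219) (nat_lit 15) (nat_lit 5) (nat_lit 18) (nat_lit 5) (nat_lit 16) (nat_lit 5) (nat_lit 268) (nat_lit 240) (nat_lit 212))) (XT.nd (nat_lit 78) (nat_lit 152) (nat_lit 0) (XT.lf (nat_lit 0) (nat_lit 4461524720) (nat_lit 228) (nat_lit 2656452648) (nat_lit 76) (nat_lit 11075555750) (nat_lit 15) (nat_lit 5) (nat_lit 18) (nat_lit 5) (nat_lit 16) (nat_lit 5) (nat_lit 269) (nat_lit 240) (nat_lit 211)) (XT.nd (nat_lit 78) (nat_lit 0) (nat_lit 0) (XT.lf (nat_lit 0) (nat_lit 7096473189) (nat_lit 152) (nat_lit 1577988161) (nat_lit 228) (nat_lit 10635796686) (nat_lit 13) (nat_lit 5) (nat_lit 15) (nat_lit 5) (nat_lit 16) (nat_lit 5) (nat_lit 270) (nat_lit 240) (nat_lit 210)) (XT.lf (nat_lit 0) (nat_lit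 13256863015) (nat_lit 228) (nat_lit 2989282268) (nat_lit 76) (nat_lit 4268800235) (nat_lit 13) (nat_lit 5) (nat_lit 16) (nat_lit 5) (nat_lit 14) (nat_lit 4) (nat_lit 271) (nat_lit 240) (nat_lit 209))))))) (XT.nd (nat_lit 702) (nat_lit 152) (nat_lit 0) (XT.nd (nat_lit 312) (nat_lit 228) (nat_lit 0) (XT.nd (nat_lit 156) (nat_lit 152) (nat_lit 0) (XT.nd (nat_lit 78) (nat_lit 76) (nat_lit 0) (XT.lf (nat_lit 0) (nat_lit 7051684528) (nat_lit 76) (nat_lit 11213673189) (nat_lit 152) (nat_lit 3547903090) (nat_lit 12) (nat_lit 5) (nat_lit 13) (nat_lit 5) (nat_lit 14) (nat_lit 4) (nat_lit 272) (nat_lit 240) (nat_lit 208)) (XT.lf (nat_lit 0) (nat_lit 422630767) (nat_lit 152) (nat_lit 5336200291) (nat_lit 76) (nat_lit 17457541109) (nat_lit 11) (nat_lit 5) (nat_lit 13) (nat_lit 5) (nat_lit 12) (nat_lit 5) (nat_lit 273) (nat_lit 240) (nat_lit 207))) (XT.nd (nat_lit 78) (nat_lit 0) (nat_lit 0) (XT.lf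 (nat_lit 0) (nat_lit 4598055639) (nat_lit 228) (nat_lit 19903618656) (nat_lit 76) (nat_lit 226758589) (nat_lit 9) (nat_lit 5) (nat_lit 12) (nat_lit 5) (nat_lit 10) (nat_lit 4) (nat_lit 274) (nat_lit 240) (nat_lit 206)) (XT.lf (nat_lit 0) (nat_lit 9232821678) (nat_lit 228) (nat_lit 10573549421) (nat_lit 76) (nat_lit 6548994265) (nat_lit 9) (nat_lit 5) (nat_lit 12) (nat_lit 5) (nat_lit 10) (nat_lit 4) (nat_lit 275) (nat_lit 240) (nat_lit 205)))) (XT.nd (nat_lit 156) (nat_lit 152) (nat_lit 0) (XT.nd (nat_lit 78) (nat_lit 76) (nat_lit 0) (XT.lf (nat_lit 0) (nat_lit 14177003978) (nat_lit 228) (nat_lit 596495284) (nat_lit 76) (nat_lit 13342180932) (nat_lit 9) (nat_lit 5) (nat_lit 12) (nat_lit 5) (nat_lit 10) (nat_lit 4) (nat_lit 276) (nat_lit 240) (nat_lit 204)) (XT.lf (nat_lit 0) (nat_lit 10420177803) (nat_lit 76) (nat_lit 9202411771) (nat_lit 152) (nat_lit 10389084887) (nat_lit 8) (nat_lit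 5) (nat_lit 9) (nat_lit 5) (nat_lit 10) (nat_lit 4) (nat_lit 277) (nat_lit 240) (nat_lit 203))) (XT.nd (nat_lit 78) (nat_lit 152) (nat_lit 0) (XT.lf (nat_lit 0) (nat_lit 22251429895) (nat_lit 76) (nat_lit 3208797279) (nat_lit 152) (nat_lit 6601437586) (nat_lit 8) (nat_lit 5) (nat_lit 9) (nat_lit 5) (nat_lit 10) (nat_lit 4) (nat_lit 278) (nat_lit 240) (nat_lit 202)) (XT.nd (nat_lit 78) (nat_lit 76) (nat_lit 0) (XT.lf (nat_lit 0) (nat_lit 639360133) (nat_lit 76) (nat_lit 31135983807) (nat_lit 76) (nat_lit 2499913554) (nat_lit 7) (nat_lit 4) (nat_lit 8) (nat_lit 5) (nat_lit 8) (nat_lit 4) (nat_lit 279) (nat_lit 240) (nat_lit 201)) (XT.lf (nat_lit 0) (nat_lit 2046874976) (nat_lit 152) (nat_lit 24550944762) (nat_lit 76) (nat_lit 10057777834) (nat_lit 6) (nat_lit 5) (nat_lit 8) (nat_lit 5) (nat_lit 7) (nat_lit 4) (nat_lit 280) (nat_lit 240) (nat_lit 200)))))) (XT.nd (nat_lit 312) (nat_lit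 76) (nat_lit 0) (XT.nd (nat_lit 156) (nat_lit 76) (nat_lit 0) (XT.nd (nat_lit 78) (nat_lit 0) (nat_lit 0) (XT.lf (nat_lit 0) (nat_lit 6825724638) (nat_lit 152) (nat_lit 14857051297) (nat_lit 76) (nat_lit 17543848053) (nat_lit 6) (nat_lit 5) (nat_lit 8) (nat_lit 5) (nat_lit 7) (nat_lit 4) (nat_lit 281) (nat_lit 240) (nat_lit 199)) (XT.lf (nat_lit 0) (nat_lit 11944967388) (nat_lit 152) (nat_lit 4457741016) (nat_lit 76) (nat_lit 25602815587) (nat_lit 6) (nat_lit 5) (nat_lit 8) (nat_lit 5) (nat_lit 7) (nat_lit 4) (nat_lit 282) (nat_lit 240) (nat_lit 198))) (XT.nd (nat_lit 78) (nat_lit 0) (nat_lit 0) (XT.lf (nat_lit 0) (nat_lit 6930428619) (nat_lit 76) (nat_lit 10612714271) (nat_lit 152) (nat_lit 27460212073) (nat_lit 5) (nat_lit 5) (nat_lit 6) (nat_lit 5) (nat_lit 7) (nat_lit 4) (nat_lit 283) (nat_lit 240) (nat_lit 197)) (XT.lf (nat_lit 0) (nat_lit 19326754438) (nat_lit 76) (nat_lit 4303164436)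 (nat_lit 152) (nat_lit 24609138287) (nat_lit 5) (nat_lit 5) (nat_lit 6) (nat_lit 5) (nat_lit 7) (nat_lit 4) (nat_lit 284) (nat_lit 240) (nat_lit 196)))) (XT.nd (nat_lit 156) (nat_lit 76) (nat_lit 0) (XT.nd (nat_lit 78) (nat_lit 0) (nat_lit 0) (XT.lf (nat_lit 0) (nat_lit 30208308182) (nat_lit 152) (nat_lit 19116939079) (nat_lit 0) (nat_lit 2408210702) (nat_lit 5) (nat_lit 5) (nat_lit 7) (nat_lit 4) (nat_lit 5) (nat_lit 4) (nat_lit 285) (nat_lit 240) (nat_lit 195)) (XT.lf (nat_lit 0) (nat_lit 37353551150) (nat_lit 152) (nat_lit 8665046100) (nat_lit 0) (nat_lit 9486854817) (nat_lit 5) (nat_lit 5) (nat_lit 7) (nat_lit 4) (nat_lit 5) (nat_lit 4) (nat_lit 286) (nat_lit 240) (nat_lit 194))) (XT.nd (nat_lit 78) (nat_lit 0) (nat_lit 0) (XT.lf (nat_lit 0) (nat_lit 2657556208) (nat_lit 76) (nat_lit 42424741194) (nat_lit 76) (nat_lit 14496379255) (nat_lit 4) (nat_lit 4) (nat_lit 5) (nat_lit 5) (nat_lit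 5) (nat_lit 4) (nat_lit 287) (nat_lit 240) (nat_lit 193)) (XT.nd (nat_lit 78) (nat_lit 0) (nat_lit 0) (XT.lf (nat_lit 0) (nat_lit 15147086890) (nat_lit 76) (nat_lit 38405026923) (nat_lit 76) (nat_lit 10419567202) (nat_lit 4) (nat_lit 4) (nat_lit 5) (nat_lit 5) (nat_lit 5) (nat_lit 4) (nat_lit 288) (nat_lit 240) (nat_lit 192)) (XT.lf (nat_lit 0) (nat_lit 28591052423) (nat_lit 76) (nat_lit 34082380658) (nat_lit 76) (nat_lit 6044052620) (nat_lit 4) (nat_lit 4) (nat_lit 5) (nat_lit 5) (nat_lit 5) (nat_lit 4) (nat_lit 289) (nat_lit 240) (nat_lit 191))))))))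
noncomputable def xc50 : XT := (XT.nd (nat_lit 1326) (nat_lit 0) (nat_lit 0) (XT.nd (nat_lit 624) (nat_lit 76) (nat_lit 0) (XT.nd (nat_lit 312) (nat_lit 0) (nat_lit 0) (XT.nd (nat_lit 156) (nat_lit 76) (nat_lit 0) (XT.nd (nat_lit 78) (nat_lit 76) (nat_lit 0) (XT.lf (nat_lit 0) (nat_lit 43069120749) (nat_lit 76) (nat_lit 29431186718) (nat_lit 76) (nat_lit 1343906534) (nat_lit 4) (nat_lit 4) (nat_lit 5) (nat_lit 5) (nat_lit 5) (nat_lit 4) (nat_lit 290) (nat_lit 240) (nat_lit 190)) (XT.lf (nat_lit 0) (nat_lit 3590021451) (nat_lit 152) (nat_lit 20773062270) (nat_lit 76) (nat_lit 55016267628) (nat_lit 3) (nat_lit 5) (nat_lit 5) (nat_lit 5) (nat_lit 4) (nat_lit 4) (nat_lit 291) (nat_lit 240) (nat_lit 189))) (XT.nd (nat_lit 78) (nat_lit 76) (nat_lit 0) (XT.lf (nat_lit 0) (nat_lit 8851121756) (nat_lit 152) (nat_lit 10029775217) (nat_lit 76) (nat_lit 66476366275) (nat_lit 3) (nat_lit 5) (nat_lit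 5) (nat_lit 5) (nat_lit 4) (nat_lit 4) (nat_lit 292) (nat_lit 240) (nat_lit 188)) (XT.lf (nat_lit 0) (nat_lit 1590313953) (nat_lit 76) (nat_lit 12948099980) (nat_lit 152) (nat_lit 77274768076) (nat_lit 2) (nat_lit 5) (nat_lit 3) (nat_lit 5) (nat_lit 4) (nat_lit 4) (nat_lit 293) (nat_lit 240) (nat_lit 187)))) (XT.nd (nat_lit 156) (nat_lit 0) (nat_lit 0) (XT.nd (nat_lit 78) (nat_lit 0) (nat_lit 0) (XT.lf (nat_lit 0) (nat_lit 14466067985) (nat_lit 76) (nat_lit 6370753421) (nat_lit 152) (nat_lit 77940982473) (nat_lit 2) (nat_lit 5) (nat_lit 3) (nat_lit 5) (nat_lit 4) (nat_lit 4) (nat_lit 294) (nat_lit 240) (nat_lit 186)) (XT.lf (nat_lit 0) (nat_lit 27633142789) (nat_lit 152) (nat_lit 77969576527) (nat_lit 0) (nat_lit 697207639) (nat_lit 2) (nat_lit 5) (nat_lit 4) (nat_lit 4) (nat_lit 2) (nat_lit 4) (nat_lit 295) (nat_lit 240) (nat_lit 185))) (XT.nd (nat_lit 78) (nat_lit 0) (nat_lit 0) (XT.lf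 (nat_lit 0) (nat_lit 35064481818) (nat_lit 152) (nat_lit 71255636030) (nat_lit 0) (nat_lit 8099167473) (nat_lit 2) (nat_lit 5) (nat_lit 4) (nat_lit 4) (nat_lit 2) (nat_lit 4) (nat_lit 296) (nat_lit 240) (nat_lit 184)) (XT.lf (nat_lit 0) (nat_lit 43075410743) (nat_lit 152) (nat_lit 64030662773) (nat_lit 0) (nat_lit 16082893440) (nat_lit 2) (nat_lit 5) (nat_lit 4) (nat_lit 4) (nat_lit 2) (nat_lit 4) (nat_lit 297) (nat_lit 240) (nat_lit 183))))) (XT.nd (nat_lit 312) (nat_lit 76) (nat_lit 0) (XT.nd (nat_lit 156) (nat_lit 0) (nat_lit 0) (XT.nd (nat_lit 78) (nat_lit 0) (nat_lit 0) (XT.lf (nat_lit 0) (nat_lit 51713401737) (nat_lit 152) (nat_lit 56251842100) (nat_lit 0) (nat_lit 24695696509) (nat_lit 2) (nat_lit 5) (nat_lit 4) (nat_lit 4) (nat_lit 2) (nat_lit 4) (nat_lit 298) (nat_lit 240) (nat_lit 182)) (XT.lf (nat_lit 0) (nat_lit 61029642894) (nat_lit 152) (nat_lit 47873077295) (nat_lit 0)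 (nat_lit 33988615513) (nat_lit 2) (nat_lit 5) (nat_lit 4) (nat_lit 4) (nat_lit 2) (nat_lit 4) (nat_lit 299) (nat_lit 240) (nat_lit 181))) (XT.nd (nat_lit 78) (nat_lit 0) (nat_lit 0) (XT.lf (nat_lit 0) (nat_lit 71079341569) (nat_lit 152) (nat_lit 38844716421) (nat_lit 0) (nat_lit 44016719602) (nat_lit 2) (nat_lit 5) (nat_lit 4) (nat_lit 4) (nat_lit 2) (nat_lit 4) (nat_lit 300) (nat_lit 240) (nat_lit 180)) (XT.lf (nat_lit 0) (nat_lit 81922051532) (nat_lit 152) (nat_lit 29113258078) (nat_lit 0) (nat_lit 54839434578) (nat_lit 2) (nat_lit 5) (nat_lit 4) (nat_lit 4) (nat_lit 2) (nat_lit 4) (nat_lit 301) (nat_lit 240) (nat_lit 179)))) (XT.nd (nat_lit 156) (nat_lit 76) (nat_lit 0) (XT.nd (nat_lit 78) (nat_lit 0) (nat_lit 0) (XT.lf (nat_lit 0) (nat_lit 93622025878) (nat_lit 152) (nat_lit 18621034365) (nat_lit 0) (nat_lit 66520895048) (nat_lit 2) (nat_lit 5) (nat_lit 4) (nat_lit 4) (nat_lit 2)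 (nat_lit 4) (nat_lit 302) (nat_lit 240) (nat_lit 178)) (XT.lf (nat_lit 0) (nat_lit 106248597790) (nat_lit 152) (nat_lit 7305869142) (nat_lit 0) (nat_lit 79130324482) (nat_lit 2) (nat_lit 5) (nat_lit 4) (nat_lit 4) (nat_lit 2) (nat_lit 4) (nat_lit 303) (nat_lit 240) (nat_lit 177))) (XT.nd (nat_lit 78) (nat_lit 0) (nat_lit 0) (XT.lf (nat_lit 0) (nat_lit 5061283089) (nat_lit 76) (nat_lit 114894329122) (nat_lit 76) (nat_lit 87760183148) (nat_lit 1) (nat_lit 4) (nat_lit 2) (nat_lit 5) (nat_lit 2) (nat_lit 4) (nat_lit 304) (nat_lit 240) (nat_lit 176)) (XT.nd (nat_lit 78) (nat_lit 0) (nat_lit 0) (XT.lf (nat_lit 0) (nat_lit 18664140246) (nat_lit 76) (nat_lit 116214024469) (nat_lit 76) (nat_lit 89065181583) (nat_lit 1) (nat_lit 4) (nat_lit 2) (nat_lit 5) (nat_lit 2) (nat_lit 4) (nat_lit 305) (nat_lit 240) (nat_lit 175)) (XT.lf (nat_lit 0) (nat_lit 33341746825) (nat_lit 76) (nat_lit 117645101822)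 (nat_lit 76) (nat_lit 90482650684) (nat_lit 1) (nat_lit 4) (nat_lit 2) (nat_lit 5) (nat_lit 2) (nat_lit 4) (nat_lit 306) (nat_lit 240) (nat_lit 174))))))) (XT.nd (nat_lit 702) (nat_lit 0) (nat_lit 0) (XT.nd (nat_lit 312) (nat_lit 0) (nat_lit 0) (XT.nd (nat_lit 156) (nat_lit 0) (nat_lit 0) (XT.nd (nat_lit 78) (nat_lit 0) (nat_lit 0) (XT.lf (nat_lit 0) (nat_lit 49181081235) (nat_lit 76) (nat_lit 119196041637) (nat_lit 76) (nat_lit 92020990266) (nat_lit 1) (nat_lit 4) (nat_lit 2) (nat_lit 5) (nat_lit 2) (nat_lit 4) (nat_lit 307) (nat_lit 240) (nat_lit 173)) (XT.lf (nat_lit 0) (nat_lit 66276006199) (nat_lit 76) (nat_lit 120876034670) (nat_lit 76) (nat_lit 93689316415) (nat_lit 1) (nat_lit 4) (nat_lit 2) (nat_lit 5) (nat_lit 2) (nat_lit 4) (nat_lit 308) (nat_lit 240) (nat_lit 172))) (XT.nd (nat_lit 78) (nat_lit 0) (nat_lit 0) (XT.lf (nat_lit 0) (nat_lit 84727824976) (nat_lit 76) (nat_lit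 122695036434) (nat_lit 76) (nat_lit 95497515511) (nat_lit 1) (nat_lit 4) (nat_lit 2) (nat_lit 5) (nat_lit 2) (nat_lit 4) (nat_lit 309) (nat_lit 240) (nat_lit 171)) (XT.lf (nat_lit 0) (nat_lit 104645881676) (nat_lit 76) (nat_lit 124663826200) (nat_lit 76) (nat_lit 97456302805) (nat_lit 1) (nat_lit 4) (nat_lit 2) (nat_lit 5) (nat_lit 2) (nat_lit 4) (nat_lit 310) (nat_lit 240) (nat_lit 170)))) (XT.nd (nat_lit 156) (nat_lit 0) (nat_lit 0) (XT.nd (nat_lit 78) (nat_lit 0) (nat_lit 0) (XT.lf (nat_lit 0) (nat_lit 126148209229) (nat_lit 76) (nat_lit 126794070869) (nat_lit 76) (nat_lit 99577285927) (nat_lit 1) (nat_lit 4) (nat_lit 2) (nat_lit 5) (nat_lit 2) (nat_lit 4) (nat_lit 311) (nat_lit 240) (nat_lit 169)) (XT.lf (nat_lit 0) (nat_lit 149362228834) (nat_lit 76) (nat_lit 129098394115) (nat_lit 76) (nat_lit 101873033665) (nat_lit 1) (nat_lit 4) (nat_lit 2) (nat_lit 5) (nat_lit 2) (nat_lit 4)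 (nat_lit 312) (nat_lit 240) (nat_lit 168))) (XT.nd (nat_lit 78) (nat_lit 0) (nat_lit 0) (XT.lf (nat_lit 0) (nat_lit 174425505054) (nat_lit 76) (nat_lit 131590451185) (nat_lit 76) (nat_lit 104357150451) (nat_lit 1) (nat_lit 4) (nat_lit 2) (nat_lit 5) (nat_lit 2) (nat_lit 4) (nat_lit 313) (nat_lit 240) (nat_lit 167)) (XT.nd (nat_lit 78) (nat_lit 0) (nat_lit 0) (XT.lf (nat_lit 0) (nat_lit 201486561004) (nat_lit 76) (nat_lit 134285009826) (nat_lit 76) (nat_lit 107044356977) (nat_lit 1) (nat_lit 4) (nat_lit 2) (nat_lit 5) (nat_lit 2) (nat_lit 4) (nat_lit 314) (nat_lit 240) (nat_lit 166)) (XT.lf (nat_lit 0) (nat_lit 230705758500) (nat_lit 76) (nat_lit 137198037791) (nat_lit 76) (nat_lit 109950577428) (nat_lit 1) (nat_lit 4) (nat_lit 2) (nat_lit 5) (nat_lit 2) (nat_lit 4) (nat_lit 315) (nat_lit 240) (nat_lit 165)))))) (XT.nd (nat_lit 312) (nat_lit 0) (nat_lit 0) (XT.nd (nat_lit 156) (nat_lit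 0) (nat_lit 0) (XT.nd (nat_lit 78) (nat_lit 0) (nat_lit 0) (XT.lf (nat_lit 0) (nat_lit 262256248341) (nat_lit 76) (nat_lit 140346797470) (nat_lit 76) (nat_lit 113093033854) (nat_lit 1) (nat_lit 4) (nat_lit 2) (nat_lit 5) (nat_lit 2) (nat_lit 4) (nat_lit 316) (nat_lit 240) (nat_lit 164)) (XT.lf (nat_lit 0) (nat_lit 296324996392) (nat_lit 76) (nat_lit 143749948179) (nat_lit 76) (nat_lit 116490348216) (nat_lit 1) (nat_lit 4) (nat_lit 2) (nat_lit 5) (nat_lit 2) (nat_lit 4) (nat_lit 317) (nat_lit 240) (nat_lit 163))) (XT.nd (nat_lit 78) (nat_lit 0) (nat_lit 0) (XT.lf (nat_lit 0) (nat_lit 333113891530) (nat_lit 76) (nat_lit 147427656737) (nat_lit 76) (nat_lit 120162652750) (nat_lit 1) (nat_lit 4) (nat_lit 2) (nat_lit 5) (nat_lit 2) (nat_lit 4) (nat_lit 318) (nat_lit 240) (nat_lit 162)) (XT.lf (nat_lit 0) (nat_lit 372840942025) (nat_lit 76) (nat_lit 151401716971) (nat_lit 76) (nat_lit 124131709258)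 (nat_lit 1) (nat_lit 4) (nat_lit 2) (nat_lit 5) (nat_lit 2) (nat_lit 4) (nat_lit 319) (nat_lit 240) (nat_lit 161)))) (XT.nd (nat_lit 31356) (nat_lit 0) (nat_lit 7296) (XT.nd (nat_lit 78) (nat_lit 0) (nat_lit 0) (XT.lf (nat_lit 0) (nat_lit 415741567433) (nat_lit 76) (nat_lit 155695678870) (nat_lit 76) (nat_lit 128421038077) (nat_lit 1) (nat_lit 4) (nat_lit 2) (nat_lit 5) (nat_lit 2) (nat_lit 4) (nat_lit 320) (nat_lit 240) (nat_lit 160)) (XT.lf (nat_lit 0) (nat_lit 462069993683) (nat_lit 76) (nat_lit 160334988133) (nat_lit 76) (nat_lit 133056057452) (nat_lit 1) (nat_lit 4) (nat_lit 2) (nat_lit 5) (nat_lit 2) (nat_lit 4) (nat_lit 321) (nat_lit 240) (nat_lit 159))) (XT.nd (nat_lit 78) (nat_lit 228) (nat_lit 0) (XT.lf (nat_lit 0) (nat_lit 817697082) (nat_lit 228) (nat_lit 1209123608) (nat_lit 228) (nat_lit 1209123608) (nat_lit 100) (nat_lit 3) (nat_lit 103) (nat_lit 3) (nat_lit 103) (nat_lit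 5) (nat_lit 241) (nat_lit 241) (nat_lit 238)) (XT.nd (nat_lit 78) (nat_lit 228) (nat_lit 0) (XT.lf (nat_lit 76) (nat_lit 1948337685) (nat_lit 0) (nat_lit 3459511344) (nat_lit 228) (nat_lit 1105559470) (nat_lit 101) (nat_lit 5) (nat_lit 100) (nat_lit 3) (nat_lit 103) (nat_lit 5) (nat_lit 242) (nat_lit 241) (nat_lit 237)) (XT.lf (nat_lit 0) (nat_lit 2492923189) (nat_lit 228) (nat_lit 68653447) (nat_lit 304) (nat_lit 4014307603) (nat_lit 97) (nat_lit 5) (nat_lit 100) (nat_lit 3) (nat_lit 101) (nat_lit 5) (nat_lit 243) (nat_lit 241) (nat_lit 236))))))))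
noncomputable def xc51 : XT := (XT.nd (nat_lit 1326) (nat_lit 1824) (nat_lit 0) (XT.nd (nat_lit 624) (nat_lit 2204) (nat_lit 0) (XT.nd (nat_lit 312) (nat_lit 2128) (nat_lit 0) (XT.nd (nat_lit 156) (nat_lit 380) (nat_lit 0) (XT.nd (nat_lit 78) (nat_lit 228) (nat_lit 0) (XT.lf (nat_lit 76) (nat_lit 4719161710) (nat_lit 0) (nat_lit 1343586038) (nat_lit 304) (nat_lit 596417808) (nat_lit 98) (nat_lit 5) (nat_lit 97) (nat_lit 5) (nat_lit 101) (nat_lit 5) (nat_lit 244) (nat_lit 241) (nat_lit 235)) (XT.lf (nat_lit 0) (nat_lit 2781777395) (nat_lit 304) (nat_lit 3782996304) (nat_lit 76) (nat_lit 198643806) (nat_lit 94) (nat_lit 5) (nat_lit 98) (nat_lit 5) (nat_lit 95) (nat_lit 5) (nat_lit 245) (nat_lit 241) (nat_lit 234))) (XT.nd (nat_lit 78) (nat_lit 76) (nat_lit 0) (XT.lf (nat_lit 0) (nat_lit 1280571932) (nat_lit 304) (nat_lit 4892916979) (nat_lit 380) (nat_lit 716129485) (nat_lit 90) (nat_lit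 5) (nat_lit 94) (nat_lit 5) (nat_lit 95) (nat_lit 5) (nat_lit 246) (nat_lit 241) (nat_lit 233)) (XT.lf (nat_lit 0) (nat_lit 2487610054) (nat_lit 380) (nat_lit 402393767) (nat_lit 76) (nat_lit 4147403217) (nat_lit 89) (nat_lit 5) (nat_lit 94) (nat_lit 5) (nat_lit 90) (nat_lit 5) (nat_lit 247) (nat_lit 241) (nat_lit 232)))) (XT.nd (nat_lit 156) (nat_lit 1216) (nat_lit 0) (XT.nd (nat_lit 78) (nat_lit 532) (nat_lit 0) (XT.lf (nat_lit 0) (nat_lit 5171336025) (nat_lit 380) (nat_lit 554489999) (nat_lit 456) (nat_lit 1482324853) (nat_lit 84) (nat_lit 5) (nat_lit 89) (nat_lit 5) (nat_lit 90) (nat_lit 5) (nat_lit 248) (nat_lit 241) (nat_lit 231)) (XT.lf (nat_lit 0) (nat_lit 1603826395) (nat_lit 532) (nat_lit 3737808410) (nat_lit 76) (nat_lit 2059556914) (nat_lit 77) (nat_lit 5) (nat_lit 84) (nat_lit 5) (nat_lit 78) (nat_lit 5) (nat_lit 249) (nat_lit 241) (nat_lit 230))) (XT.nd (nat_lit 78) (nat_lit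 684) (nat_lit 0) (XT.lf (nat_lit 0) (nat_lit 2106415422) (nat_lit 532) (nat_lit 2608806869) (nat_lit 608) (nat_lit 2903261258) (nat_lit 70) (nat_lit 5) (nat_lit 77) (nat_lit 5) (nat_lit 78) (nat_lit 5) (nat_lit 250) (nat_lit 241) (nat_lit 229)) (XT.lf (nat_lit 0) (nat_lit 57705624) (nat_lit 684) (nat_lit 7366932290) (nat_lit 76) (nat_lit 437580047) (nat_lit 61) (nat_lit 5) (nat_lit 70) (nat_lit 5) (nat_lit 62) (nat_lit 5) (nat_lit 251) (nat_lit 241) (nat_lit 228))))) (XT.nd (nat_lit 312) (nat_lit 836) (nat_lit 0) (XT.nd (nat_lit 156) (nat_lit 684) (nat_lit 0) (XT.nd (nat_lit 78) (nat_lit 684) (nat_lit 0) (XT.lf (nat_lit 0) (nat_lit 3073026313) (nat_lit 684) (nat_lit 1249370800) (nat_lit 76) (nat_lit 3805969675) (nat_lit 61) (nat_lit 5) (nat_lit 70) (nat_lit 5) (nat_lit 62) (nat_lit 5) (nat_lit 252) (nat_lit 241) (nat_lit 227)) (XT.lf (nat_lit 0) (nat_lit 5329788728) (nat_lit 684) (nat_lit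 875823516) (nat_lit 760) (nat_lit 2217555348) (nat_lit 52) (nat_lit 5) (nat_lit 61) (nat_lit 5) (nat_lit 62) (nat_lit 5) (nat_lit 253) (nat_lit 241) (nat_lit 226))) (XT.nd (nat_lit 78) (nat_lit 304) (nat_lit 0) (XT.lf (nat_lit 0) (nat_lit 746120807) (nat_lit 380) (nat_lit 5148758269) (nat_lit 76) (nat_lit 2850737440) (nat_lit 47) (nat_lit 5) (nat_lit 52) (nat_lit 5) (nat_lit 48) (nat_lit 5) (nat_lit 254) (nat_lit 241) (nat_lit 225)) (XT.lf (nat_lit 0) (nat_lit 1642037928) (nat_lit 304) (nat_lit 2136117820) (nat_lit 380) (nat_lit 5319388916) (nat_lit 43) (nat_lit 5) (nat_lit 47) (nat_lit 5) (nat_lit 48) (nat_lit 5) (nat_lit 255) (nat_lit 241) (nat_lit 224)))) (XT.nd (nat_lit 156) (nat_lit 532) (nat_lit 0) (XT.nd (nat_lit 78) (nat_lit 304) (nat_lit 0) (XT.lf (nat_lit 0) (nat_lit 6997363911) (nat_lit 380) (nat_lit 544593006) (nat_lit 76) (nat_lit 1939318170) (nat_lit 43) (nat_lit 5) (nat_lit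 48) (nat_lit 5) (nat_lit 44) (nat_lit 5) (nat_lit 256) (nat_lit 241) (nat_lit 223)) (XT.lf (nat_lit 0) (nat_lit 539341355) (nat_lit 304) (nat_lit 2986646625) (nat_lit 76) (nat_lit 6371066714) (nat_lit 39) (nat_lit 5) (nat_lit 43) (nat_lit 5) (nat_lit 40) (nat_lit 5) (nat_lit 257) (nat_lit 241) (nat_lit 222))) (XT.nd (nat_lit 78) (nat_lit 228) (nat_lit 0) (XT.lf (nat_lit 0) (nat_lit 3656245373) (nat_lit 380) (nat_lit 5806377646) (nat_lit 76) (nat_lit 885214228) (nat_lit 35) (nat_lit 5) (nat_lit 40) (nat_lit 5) (nat_lit 36) (nat_lit 5) (nat_lit 258) (nat_lit 241) (nat_lit 221)) (XT.nd (nat_lit 78) (nat_lit 0) (nat_lit 0) (XT.lf (nat_lit 0) (nat_lit 1759698505) (nat_lit 228) (nat_lit 5253715979) (nat_lit 304) (nat_lit 3822386490) (nat_lit 32) (nat_lit 5) (nat_lit 35) (nat_lit 5) (nat_lit 36) (nat_lit 5) (nat_lit 259) (nat_lit 241) (nat_lit 220)) (XT.lf (nat_lit 0) (nat_lit 9963643832) (nat_lit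 228) (nat_lit 636063338) (nat_lit 304) (nat_lit 765682134) (nat_lit 32) (nat_lit 5) (nat_lit 35) (nat_lit 5) (nat_lit 36) (nat_lit 5) (nat_lit 260) (nat_lit 241) (nat_lit 219))))))) (XT.nd (nat_lit 702) (nat_lit 532) (nat_lit 0) (XT.nd (nat_lit 312) (nat_lit 608) (nat_lit 0) (XT.nd (nat_lit 156) (nat_lit 228) (nat_lit 0) (XT.nd (nat_lit 78) (nat_lit 152) (nat_lit 0) (XT.lf (nat_lit 0) (nat_lit 2499103633) (nat_lit 304) (nat_lit 5105880926) (nat_lit 76) (nat_lit 4328688178) (nat_lit 28) (nat_lit 5) (nat_lit 32) (nat_lit 5) (nat_lit 29) (nat_lit 5) (nat_lit 261) (nat_lit 241) (nat_lit 218)) (XT.lf (nat_lit 0) (nat_lit 3129940058) (nat_lit 152) (nat_lit 2827031675) (nat_lit 228) (nat_lit 6592385401) (nat_lit 26) (nat_lit 5) (nat_lit 28) (nat_lit 5) (nat_lit 29) (nat_lit 5) (nat_lit 262) (nat_lit 241) (nat_lit 217))) (XT.nd (nat_lit 78) (nat_lit 228) (nat_lit 0) (XT.lf (nat_lit 0) (nat_lit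 9698498682) (nat_lit 228) (nat_lit 1205135727) (nat_lit 76) (nat_lit 2310775370) (nat_lit 26) (nat_lit 5) (nat_lit 29) (nat_lit 5) (nat_lit 27) (nat_lit 5) (nat_lit 263) (nat_lit 241) (nat_lit 216)) (XT.lf (nat_lit 0) (nat_lit 7713310538) (nat_lit 228) (nat_lit 6083209474) (nat_lit 304) (nat_lit 133718533) (nat_lit 23) (nat_lit 5) (nat_lit 26) (nat_lit 5) (nat_lit 27) (nat_lit 5) (nat_lit 264) (nat_lit 241) (nat_lit 215)))) (XT.nd (nat_lit 156) (nat_lit 380) (nat_lit 0) (XT.nd (nat_lit 78) (nat_lit 0) (nat_lit 0) (XT.lf (nat_lit 0) (nat_lit 2563247593) (nat_lit 152) (nat_lit 797440444) (nat_lit 228) (nat_lit 11342564605) (nat_lit 20) (nat_lit 5) (nat_lit 22) (nat_lit 5) (nat_lit 23) (nat_lit 5) (nat_lit 265) (nat_lit 241) (nat_lit 214)) (XT.lf (nat_lit 0) (nat_lit 7214736607) (nat_lit 228) (nat_lit 3493323018) (nat_lit 76) (nat_lit 4826051447) (nat_lit 20) (nat_lit 5) (nat_lit 23) (nat_lit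 5) (nat_lit 21) (nat_lit 5) (nat_lit 266) (nat_lit 241) (nat_lit 213))) (XT.nd (nat_lit 78) (nat_lit 228) (nat_lit 0) (XT.lf (nat_lit 0) (nat_lit 5883125392) (nat_lit 152) (nat_lit 5504804313) (nat_lit 228) (nat_lit 5043292929) (nat_lit 18) (nat_lit 5) (nat_lit 20) (nat_lit 5) (nat_lit 21) (nat_lit 5) (nat_lit 267) (nat_lit 241) (nat_lit 212)) (XT.nd (nat_lit 78) (nat_lit 228) (nat_lit 0) (XT.lf (nat_lit 0) (nat_lit 15868449953) (nat_lit 228) (nat_lit 1400418551) (nat_lit 76) (nat_lit 132862409) (nat_lit 18) (nat_lit 5) (nat_lit 21) (nat_lit 5) (nat_lit 19) (nat_lit 4) (nat_lit 268) (nat_lit 241) (nat_lit 211)) (XT.lf (nat_lit 0) (nat_lit 2329921942) (nat_lit 228) (nat_lit 9946206062) (nat_lit 76) (nat_lit 6165023041) (nat_lit 15) (nat_lit 5) (nat_lit 18) (nat_lit 5) (nat_lit 16) (nat_lit 5) (nat_lit 269) (nat_lit 241) (nat_lit 210)))))) (XT.nd (nat_lit 312) (nat_lit 304) (nat_lit 0)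 (XT.nd (nat_lit 156) (nat_lit 76) (nat_lit 0) (XT.nd (nat_lit 78) (nat_lit 152) (nat_lit 0) (XT.lf (nat_lit 0) (nat_lit 6393255233) (nat_lit 228) (nat_lit 479299544) (nat_lit 76) (nat_lit 12692919659) (nat_lit 15) (nat_lit 5) (nat_lit 18) (nat_lit 5) (nat_lit 16) (nat_lit 5) (nat_lit 270) (nat_lit 241) (nat_lit 209)) (XT.lf (nat_lit 0) (nat_lit 9950008243) (nat_lit 152) (nat_lit 912254077) (nat_lit 228) (nat_lit 9913678872) (nat_lit 13) (nat_lit 5) (nat_lit 15) (nat_lit 5) (nat_lit 16) (nat_lit 5) (nat_lit 271) (nat_lit 241) (nat_lit 208))) (XT.nd (nat_lit 78) (nat_lit 76) (nat_lit 0) (XT.lf (nat_lit 0) (nat_lit 15712050004) (nat_lit 228) (nat_lit 1050100993) (nat_lit 76) (nat_lit 5320142263) (nat_lit 13) (nat_lit 5) (nat_lit 16) (nat_lit 5) (nat_lit 14) (nat_lit 4) (nat_lit 272) (nat_lit 241) (nat_lit 207)) (XT.lf (nat_lit 0) (nat_lit 9699475846) (nat_lit 76) (nat_lit 11350973639) (nat_lit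 152) (nat_lit 2437867916) (nat_lit 12) (nat_lit 5) (nat_lit 13) (nat_lit 5) (nat_lit 14) (nat_lit 4) (nat_lit 273) (nat_lit 241) (nat_lit 206)))) (XT.nd (nat_lit 156) (nat_lit 76) (nat_lit 0) (XT.nd (nat_lit 78) (nat_lit 152) (nat_lit 0) (XT.lf (nat_lit 0) (nat_lit 1705751377) (nat_lit 152) (nat_lit 3789116082) (nat_lit 76) (nat_lit 19512988205) (nat_lit 11) (nat_lit 5) (nat_lit 13) (nat_lit 5) (nat_lit 12) (nat_lit 5) (nat_lit 274) (nat_lit 241) (nat_lit 205)) (XT.lf (nat_lit 0) (nat_lit 6163108063) (nat_lit 228) (nat_lit 19556249761) (nat_lit 76) (nat_lit 924377469) (nat_lit 9) (nat_lit 5) (nat_lit 12) (nat_lit 5) (nat_lit 10) (nat_lit 4) (nat_lit 275) (nat_lit 241) (nat_lit 204))) (XT.nd (nat_lit 78) (nat_lit 76) (nat_lit 0) (XT.lf (nat_lit 0) (nat_lit 11079973313) (nat_lit 228) (nat_lit 9623453386) (nat_lit 76) (nat_lit 7702060280) (nat_lit 9) (nat_lit 5) (nat_lit 12) (nat_lit 5)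 (nat_lit 10) (nat_lit 4) (nat_lit 276) (nat_lit 241) (nat_lit 203)) (XT.nd (nat_lit 78) (nat_lit 0) (nat_lit 0) (XT.lf (nat_lit 0) (nat_lit 1052413325) (nat_lit 76) (nat_lit 15301594963) (nat_lit 152) (nat_lit 13956116234) (nat_lit 8) (nat_lit 5) (nat_lit 9) (nat_lit 5) (nat_lit 10) (nat_lit 4) (nat_lit 277) (nat_lit 241) (nat_lit 202)) (XT.lf (nat_lit 0) (nat_lit 12844466923) (nat_lit 76) (nat_lit 9323146999) (nat_lit 152) (nat_lit 10193763371) (nat_lit 8) (nat_lit 5) (nat_lit 9) (nat_lit 5) (nat_lit 10) (nat_lit 4) (nat_lit 278) (nat_lit 241) (nat_lit 201))))))))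
noncomputable def xc52 : XT := (XT.nd (nat_lit 1326) (nat_lit 76) (nat_lit 0) (XT.nd (nat_lit 624) (nat_lit 228) (nat_lit 0) (XT.nd (nat_lit 312) (nat_lit 76) (nat_lit 0) (XT.nd (nat_lit 156) (nat_lit 76) (nat_lit 0) (XT.nd (nat_lit 78) (nat_lit 76) (nat_lit 0) (XT.lf (nat_lit 0) (nat_lit 25504391412) (nat_lit 76) (nat_lit 2895632808) (nat_lit 152) (nat_lit 6179137495) (nat_lit 8) (nat_lit 5) (nat_lit 9) (nat_lit 5) (nat_lit 10) (nat_lit 4) (nat_lit 279) (nat_lit 241) (nat_lit 200)) (XT.lf (nat_lit 0) (nat_lit 2136212057) (nat_lit 76) (nat_lit 33048060608) (nat_lit 76) (nat_lit 1787542512) (nat_lit 7) (nat_lit 4) (nat_lit 8) (nat_lit 5) (nat_lit 8) (nat_lit 4) (nat_lit 280) (nat_lit 241) (nat_lit 199))) (XT.nd (nat_lit 78) (nat_lit 0) (nat_lit 0) (XT.lf (nat_lit 0) (nat_lit 3028368285) (nat_lit 152) (nat_lit 25147500464) (nat_lit 76) (nat_lit 11369421864) (nat_lit 6) (nat_lit 5) (nat_lit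 8) (nat_lit 5) (nat_lit 7) (nat_lit 4) (nat_lit 281) (nat_lit 241) (nat_lit 198)) (XT.lf (nat_lit 0) (nat_lit 8128952342) (nat_lit 152) (nat_lit 14779393291) (nat_lit 76) (nat_lit 19416820531) (nat_lit 6) (nat_lit 5) (nat_lit 8) (nat_lit 5) (nat_lit 7) (nat_lit 4) (nat_lit 282) (nat_lit 241) (nat_lit 197)))) (XT.nd (nat_lit 156) (nat_lit 0) (nat_lit 0) (XT.nd (nat_lit 78) (nat_lit 76) (nat_lit 0) (XT.lf (nat_lit 0) (nat_lit 13601647865) (nat_lit 152) (nat_lit 3641932418) (nat_lit 76) (nat_lit 28085730309) (nat_lit 6) (nat_lit 5) (nat_lit 8) (nat_lit 5) (nat_lit 7) (nat_lit 4) (nat_lit 283) (nat_lit 241) (nat_lit 196)) (XT.lf (nat_lit 0) (nat_lit 8606338501) (nat_lit 76) (nat_lit 11006916202) (nat_lit 152) (nat_lit 28955553078) (nat_lit 5) (nat_lit 5) (nat_lit 6) (nat_lit 5) (nat_lit 7) (nat_lit 4) (nat_lit 284) (nat_lit 241) (nat_lit 195))) (XT.nd (nat_lit 78) (nat_lit 0) (nat_lit 0)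 (XT.lf (nat_lit 0) (nat_lit 21911298119) (nat_lit 76) (nat_lit 4226292396) (nat_lit 152) (nat_lit 25928354572) (nat_lit 5) (nat_lit 5) (nat_lit 6) (nat_lit 5) (nat_lit 7) (nat_lit 4) (nat_lit 285) (nat_lit 241) (nat_lit 194)) (XT.lf (nat_lit 0) (nat_lit 33202614574) (nat_lit 152) (nat_lit 19661048809) (nat_lit 0) (nat_lit 2978318075) (nat_lit 5) (nat_lit 5) (nat_lit 7) (nat_lit 4) (nat_lit 5) (nat_lit 4) (nat_lit 286) (nat_lit 241) (nat_lit 193))))) (XT.nd (nat_lit 312) (nat_lit 152) (nat_lit 0) (XT.nd (nat_lit 156) (nat_lit 0) (nat_lit 0) (XT.nd (nat_lit 78) (nat_lit 76) (nat_lit 0) (XT.lf (nat_lit 0) (nat_lit 40876688703) (nat_lit 152) (nat_lit 8445985532) (nat_lit 0) (nat_lit 10595294421) (nat_lit 5) (nat_lit 5) (nat_lit 7) (nat_lit 4) (nat_lit 5) (nat_lit 4) (nat_lit 287) (nat_lit 241) (nat_lit 192)) (XT.lf (nat_lit 0) (nat_lit 3742779068) (nat_lit 76) (nat_lit 45454960830) (nat_lit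 76) (nat_lit 15120698231) (nat_lit 4) (nat_lit 4) (nat_lit 5) (nat_lit 5) (nat_lit 5) (nat_lit 4) (nat_lit 288) (nat_lit 241) (nat_lit 191))) (XT.nd (nat_lit 78) (nat_lit 0) (nat_lit 0) (XT.lf (nat_lit 0) (nat_lit 17166833807) (nat_lit 76) (nat_lit 41140614578) (nat_lit 76) (nat_lit 10757399833) (nat_lit 4) (nat_lit 4) (nat_lit 5) (nat_lit 5) (nat_lit 5) (nat_lit 4) (nat_lit 289) (nat_lit 241) (nat_lit 190)) (XT.lf (nat_lit 0) (nat_lit 31626466215) (nat_lit 76) (nat_lit 36497105834) (nat_lit 76) (nat_lit 6068565029) (nat_lit 4) (nat_lit 4) (nat_lit 5) (nat_lit 5) (nat_lit 5) (nat_lit 4) (nat_lit 290) (nat_lit 241) (nat_lit 189)))) (XT.nd (nat_lit 156) (nat_lit 76) (nat_lit 0) (XT.nd (nat_lit 78) (nat_lit 76) (nat_lit 0) (XT.lf (nat_lit 0) (nat_lit 47207362999) (nat_lit 76) (nat_lit 31496917510) (nat_lit 76) (nat_lit 1026408130) (nat_lit 4) (nat_lit 4) (nat_lit 5) (nat_lit 5) (nat_lit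 5) (nat_lit 4) (nat_lit 291) (nat_lit 241) (nat_lit 188)) (XT.lf (nat_lit 0) (nat_lit 4258156428) (nat_lit 152) (nat_lit 21780148492) (nat_lit 76) (nat_lit 59671585034) (nat_lit 3) (nat_lit 5) (nat_lit 5) (nat_lit 5) (nat_lit 4) (nat_lit 4) (nat_lit 292) (nat_lit 241) (nat_lit 187))) (XT.nd (nat_lit 78) (nat_lit 76) (nat_lit 0) (XT.lf (nat_lit 0) (nat_lit 9911927480) (nat_lit 152) (nat_lit 10225899124) (nat_lit 76) (nat_lit 72029675573) (nat_lit 3) (nat_lit 5) (nat_lit 5) (nat_lit 5) (nat_lit 4) (nat_lit 4) (nat_lit 293) (nat_lit 241) (nat_lit 186)) (XT.nd (nat_lit 78) (nat_lit 0) (nat_lit 0) (XT.lf (nat_lit 0) (nat_lit 2297449942) (nat_lit 76) (nat_lit 13739680013) (nat_lit 152) (nat_lit 83103670459) (nat_lit 2) (nat_lit 5) (nat_lit 3) (nat_lit 5) (nat_lit 4) (nat_lit 4) (nat_lit 294) (nat_lit 241) (nat_lit 185)) (XT.lf (nat_lit 0) (nat_lit 16160307935) (nat_lit 76) (nat_lit 6654239653)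 (nat_lit 152) (nat_lit 83849336012) (nat_lit 2) (nat_lit 5) (nat_lit 3) (nat_lit 5) (nat_lit 4) (nat_lit 4) (nat_lit 295) (nat_lit 241) (nat_lit 184))))))) (XT.nd (nat_lit 702) (nat_lit 76) (nat_lit 0) (XT.nd (nat_lit 312) (nat_lit 0) (nat_lit 0) (XT.nd (nat_lit 156) (nat_lit 0) (nat_lit 0) (XT.nd (nat_lit 78) (nat_lit 0) (nat_lit 0) (XT.lf (nat_lit 0) (nat_lit 30134823545) (nat_lit 152) (nat_lit 83698283492) (nat_lit 0) (nat_lit 955701898) (nat_lit 2) (nat_lit 5) (nat_lit 4) (nat_lit 4) (nat_lit 2) (nat_lit 4) (nat_lit 296) (nat_lit 241) (nat_lit 183)) (XT.lf (nat_lit 0) (nat_lit 38139111968) (nat_lit 152) (nat_lit 76484921026) (nat_lit 0) (nat_lit 8934802397) (nat_lit 2) (nat_lit 5) (nat_lit 4) (nat_lit 4) (nat_lit 2) (nat_lit 4) (nat_lit 297) (nat_lit 241) (nat_lit 182))) (XT.nd (nat_lit 78) (nat_lit 0) (nat_lit 0) (XT.lf (nat_lit 0) (nat_lit 46770954348) (nat_lit 152) (nat_lit 68716851085)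 (nat_lit 0) (nat_lit 17543322624) (nat_lit 2) (nat_lit 5) (nat_lit 4) (nat_lit 4) (nat_lit 2) (nat_lit 4) (nat_lit 298) (nat_lit 241) (nat_lit 181)) (XT.lf (nat_lit 0) (nat_lit 56081502344) (nat_lit 152) (nat_lit 60348040662) (nat_lit 0) (nat_lit 26832276035) (nat_lit 2) (nat_lit 5) (nat_lit 4) (nat_lit 4) (nat_lit 2) (nat_lit 4) (nat_lit 299) (nat_lit 241) (nat_lit 180)))) (XT.nd (nat_lit 156) (nat_lit 0) (nat_lit 0) (XT.nd (nat_lit 78) (nat_lit 0) (nat_lit 0) (XT.lf (nat_lit 0) (nat_lit 66125929574) (nat_lit 152) (nat_lit 51328896808) (nat_lit 0) (nat_lit 36856708277) (nat_lit 2) (nat_lit 5) (nat_lit 4) (nat_lit 4) (nat_lit 2) (nat_lit 4) (nat_lit 300) (nat_lit 241) (nat_lit 179)) (XT.lf (nat_lit 0) (nat_lit 76963758569) (nat_lit 152) (nat_lit 41605972742) (nat_lit 0) (nat_lit 47676023396) (nat_lit 2) (nat_lit 5) (nat_lit 4) (nat_lit 4) (nat_lit 2) (nat_lit 4) (nat_lit 301) (nat_lit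 241) (nat_lit 178))) (XT.nd (nat_lit 78) (nat_lit 0) (nat_lit 0) (XT.lf (nat_lit 0) (nat_lit 88659213501) (nat_lit 152) (nat_lit 31121651139) (nat_lit 0) (nat_lit 59354335849) (nat_lit 2) (nat_lit 5) (nat_lit 4) (nat_lit 4) (nat_lit 2) (nat_lit 4) (nat_lit 302) (nat_lit 241) (nat_lit 177)) (XT.nd (nat_lit 78) (nat_lit 0) (nat_lit 0) (XT.lf (nat_lit 0) (nat_lit 101281600770) (nat_lit 152) (nat_lit 19813802683) (nat_lit 0) (nat_lit 71960850453) (nat_lit 2) (nat_lit 5) (nat_lit 4) (nat_lit 4) (nat_lit 2) (nat_lit 4) (nat_lit 303) (nat_lit 241) (nat_lit 176)) (XT.lf (nat_lit 0) (nat_lit 114905719707) (nat_lit 152) (nat_lit 7615417904) (nat_lit 0) (nat_lit 85570272478) (nat_lit 2) (nat_lit 5) (nat_lit 4) (nat_lit 4) (nat_lit 2) (nat_lit 4) (nat_lit 304) (nat_lit 241) (nat_lit 175)))))) (XT.nd (nat_lit 312) (nat_lit 0) (nat_lit 0) (XT.nd (nat_lit 156) (nat_lit 0) (nat_lit 0) (XT.nd (nat_lit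 78) (nat_lit 0) (nat_lit 0) (XT.lf (nat_lit 0) (nat_lit 5729158783) (nat_lit 76) (nat_lit 123972595273) (nat_lit 76) (nat_lit 94623539792) (nat_lit 1) (nat_lit 4) (nat_lit 2) (nat_lit 5) (nat_lit 2) (nat_lit 4) (nat_lit 305) (nat_lit 241) (nat_lit 174)) (XT.lf (nat_lit 0) (nat_lit 20400765028) (nat_lit 76) (nat_lit 125406257373) (nat_lit 76) (nat_lit 96044601659) (nat_lit 1) (nat_lit 4) (nat_lit 2) (nat_lit 5) (nat_lit 2) (nat_lit 4) (nat_lit 306) (nat_lit 241) (nat_lit 173))) (XT.nd (nat_lit 78) (nat_lit 0) (nat_lit 0) (XT.lf (nat_lit 0) (nat_lit 36234543573) (nat_lit 76) (nat_lit 126959590473) (nat_lit 76) (nat_lit 97586267876) (nat_lit 1) (nat_lit 4) (nat_lit 2) (nat_lit 5) (nat_lit 2) (nat_lit 4) (nat_lit 307) (nat_lit 241) (nat_lit 172)) (XT.lf (nat_lit 0) (nat_lit 53324324218) (nat_lit 76) (nat_lit 128641799510) (nat_lit 76) (nat_lit 99257674244) (nat_lit 1) (nat_lit 4) (nat_lit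 2) (nat_lit 5) (nat_lit 2) (nat_lit 4) (nat_lit 308) (nat_lit 241) (nat_lit 171)))) (XT.nd (nat_lit 156) (nat_lit 0) (nat_lit 0) (XT.nd (nat_lit 78) (nat_lit 0) (nat_lit 0) (XT.lf (nat_lit 0) (nat_lit 71771379736) (nat_lit 76) (nat_lit 130462853131) (nat_lit 76) (nat_lit 101068725393) (nat_lit 1) (nat_lit 4) (nat_lit 2) (nat_lit 5) (nat_lit 2) (nat_lit 4) (nat_lit 309) (nat_lit 241) (nat_lit 170)) (XT.lf (nat_lit 0) (nat_lit 91685026011) (nat_lit 76) (nat_lit 132433542763) (nat_lit 76) (nat_lit 103030153478) (nat_lit 1) (nat_lit 4) (nat_lit 2) (nat_lit 5) (nat_lit 2) (nat_lit 4) (nat_lit 310) (nat_lit 241) (nat_lit 169))) (XT.nd (nat_lit 78) (nat_lit 0) (nat_lit 0) (XT.lf (nat_lit 0) (nat_lit 113183269837) (nat_lit 76) (nat_lit 134565546568) (nat_lit 76) (nat_lit 105153581776) (nat_lit 1) (nat_lit 4) (nat_lit 2) (nat_lit 5) (nat_lit 2) (nat_lit 4) (nat_lit 311) (nat_lit 241) (nat_lit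 168)) (XT.nd (nat_lit 78) (nat_lit 0) (nat_lit 0) (XT.lf (nat_lit 0) (nat_lit 136393508215) (nat_lit 76) (nat_lit 136871498643) (nat_lit 76) (nat_lit 107451593566) (nat_lit 1) (nat_lit 4) (nat_lit 2) (nat_lit 5) (nat_lit 2) (nat_lit 4) (nat_lit 312) (nat_lit 241) (nat_lit 167)) (XT.lf (nat_lit 0) (nat_lit 161453283296) (nat_lit 76) (nat_lit 139365063889) (nat_lit 76) (nat_lit 109937806697) (nat_lit 1) (nat_lit 4) (nat_lit 2) (nat_lit 5) (nat_lit 2) (nat_lit 4) (nat_lit 313) (nat_lit 241) (nat_lit 166))))))))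
noncomputable def xc53 : XT := (XT.nd (nat_lit 32604) (nat_lit 0) (nat_lit 1292) (XT.nd (nat_lit 31902) (nat_lit 0) (nat_lit 5776) (XT.nd (nat_lit 312) (nat_lit 0) (nat_lit 0) (XT.nd (nat_lit 156) (nat_lit 0) (nat_lit 0) (XT.nd (nat_lit 78) (nat_lit 0) (nat_lit 0) (XT.lf (nat_lit 0) (nat_lit 188511097453) (nat_lit 76) (nat_lit 142061018988) (nat_lit 76) (nat_lit 112626954282) (nat_lit 1) (nat_lit 4) (nat_lit 2) (nat_lit 5) (nat_lit 2) (nat_lit 4) (nat_lit 314) (nat_lit 241) (nat_lit 165)) (XT.lf (nat_lit 0) (nat_lit 217727293288) (nat_lit 76) (nat_lit 144975339971) (nat_lit 76) (nat_lit 115534972011) (nat_lit 1) (nat_lit 4) (nat_lit 2) (nat_lit 5) (nat_lit 2) (nat_lit 4) (nat_lit 315) (nat_lit 241) (nat_lit 164))) (XT.nd (nat_lit 78) (nat_lit 0) (nat_lit 0) (XT.lf (nat_lit 0) (nat_lit 249275003813) (nat_lit 76) (nat_lit 148125296888) (nat_lit 76) (nat_lit 118679092582) (nat_lit 1) (nat_lit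 4) (nat_lit 2) (nat_lit 5) (nat_lit 2) (nat_lit 4) (nat_lit 316) (nat_lit 241) (nat_lit 163)) (XT.lf (nat_lit 0) (nat_lit 283341178423) (nat_lit 76) (nat_lit 151529556151) (nat_lit 76) (nat_lit 122077947821) (nat_lit 1) (nat_lit 4) (nat_lit 2) (nat_lit 5) (nat_lit 2) (nat_lit 4) (nat_lit 317) (nat_lit 241) (nat_lit 162)))) (XT.nd (nat_lit 156) (nat_lit 0) (nat_lit 0) (XT.nd (nat_lit 78) (nat_lit 0) (nat_lit 0) (XT.lf (nat_lit 0) (nat_lit 320127690747) (nat_lit 76) (nat_lit 155208291147) (nat_lit 76) (nat_lit 125751679091) (nat_lit 1) (nat_lit 4) (nat_lit 2) (nat_lit 5) (nat_lit 2) (nat_lit 4) (nat_lit 318) (nat_lit 241) (nat_lit 161)) (XT.lf (nat_lit 0) (nat_lit 359852534931) (nat_lit 76) (nat_lit 159183301788) (nat_lit 76) (nat_lit 129722056652) (nat_lit 1) (nat_lit 4) (nat_lit 2) (nat_lit 5) (nat_lit 2) (nat_lit 4) (nat_lit 319) (nat_lit 241) (nat_lit 160))) (XT.nd (nat_lit 78) (nat_lit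 0) (nat_lit 0) (XT.lf (nat_lit 0) (nat_lit 402751117458) (nat_lit 76) (nat_lit 163478143693) (nat_lit 76) (nat_lit 134012608668) (nat_lit 1) (nat_lit 4) (nat_lit 2) (nat_lit 5) (nat_lit 2) (nat_lit 4) (nat_lit 320) (nat_lit 241) (nat_lit 159)) (XT.lf (nat_lit 0) (nat_lit 449077652153) (nat_lit 76) (nat_lit 168118267776) (nat_lit 76) (nat_lit 138648760632) (nat_lit 1) (nat_lit 4) (nat_lit 2) (nat_lit 5) (nat_lit 2) (nat_lit 4) (nat_lit 321) (nat_lit 241) (nat_lit 158))))) (XT.nd (nat_lit 312) (nat_lit 1216) (nat_lit 0) (XT.nd (nat_lit 156) (nat_lit 304) (nat_lit 0) (XT.nd (nat_lit 78) (nat_lit 0) (nat_lit 0) (XT.lf (nat_lit 0) (nat_lit 583993413) (nat_lit 0) (nat_lit 583993413) (nat_lit 228) (nat_lit 2114320011) (nat_lit 97) (nat_lit 5) (nat_lit 97) (nat_lit 3) (nat_lit 100) (nat_lit 3) (nat_lit 242) (nat_lit 242) (nat_lit 236)) (XT.lf (nat_lit 0) (nat_lit 5640032110) (nat_lit 0) (nat_lit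 72708034) (nat_lit 228) (nat_lit 924160272) (nat_lit 97) (nat_lit 5) (nat_lit 97) (nat_lit 3) (nat_lit 100) (nat_lit 3) (nat_lit 243) (nat_lit 242) (nat_lit 235))) (XT.nd (nat_lit 78) (nat_lit 0) (nat_lit 0) (XT.lf (nat_lit 0) (nat_lit 2302073308) (nat_lit 304) (nat_lit 3098156130) (nat_lit 380) (nat_lit 1328063937) (nat_lit 93) (nat_lit 5) (nat_lit 97) (nat_lit 5) (nat_lit 98) (nat_lit 5) (nat_lit 244) (nat_lit 242) (nat_lit 234)) (XT.lf (nat_lit 76) (nat_lit 1683159498) (nat_lit 0) (nat_lit 3804559950) (nat_lit 380) (nat_lit 1354141683) (nat_lit 94) (nat_lit 5) (nat_lit 93) (nat_lit 5) (nat_lit 98) (nat_lit 5) (nat_lit 245) (nat_lit 242) (nat_lit 233)))) (XT.nd (nat_lit 156) (nat_lit 836) (nat_lit 0) (XT.nd (nat_lit 78) (nat_lit 0) (nat_lit 76) (XT.lf (nat_lit 0) (nat_lit 1657222337) (nat_lit 380) (nat_lit 229763093) (nat_lit 456) (nat_lit 5090210468) (nat_lit 88) (nat_lit 5) (nat_lit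 93) (nat_lit 5) (nat_lit 94) (nat_lit 5) (nat_lit 246) (nat_lit 242) (nat_lit 232)) (XT.lf (nat_lit 0) (nat_lit 4671252217) (nat_lit 380) (nat_lit 2087293132) (nat_lit 76) (nat_lit 375124625) (nat_lit 89) (nat_lit 5) (nat_lit 94) (nat_lit 5) (nat_lit 90) (nat_lit 5) (nat_lit 247) (nat_lit 242) (nat_lit 231))) (XT.nd (nat_lit 78) (nat_lit 456) (nat_lit 0) (XT.lf (nat_lit 0) (nat_lit 430080517) (nat_lit 456) (nat_lit 3982383742) (nat_lit 76) (nat_lit 2900055721) (nat_lit 83) (nat_lit 5) (nat_lit 89) (nat_lit 5) (nat_lit 84) (nat_lit 5) (nat_lit 248) (nat_lit 242) (nat_lit 230)) (XT.nd (nat_lit 78) (nat_lit 0) (nat_lit 0) (XT.lf (nat_lit 0) (nat_lit 1570393504) (nat_lit 456) (nat_lit 1713447430) (nat_lit 532) (nat_lit 4230549046) (nat_lit 77) (nat_lit 5) (nat_lit 83) (nat_lit 5) (nat_lit 84) (nat_lit 5) (nat_lit 249) (nat_lit 242) (nat_lit 229)) (XT.lf (nat_lit 0) (nat_lit 6224884609) (nat_lit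 532) (nat_lit 234147738) (nat_lit 76) (nat_lit 1281851299) (nat_lit 77) (nat_lit 5) (nat_lit 84) (nat_lit 5) (nat_lit 78) (nat_lit 5) (nat_lit 250) (nat_lit 242) (nat_lit 228))))))) (XT.nd (nat_lit 702) (nat_lit 1292) (nat_lit 0) (XT.nd (nat_lit 312) (nat_lit 912) (nat_lit 0) (XT.nd (nat_lit 156) (nat_lit 1064) (nat_lit 0) (XT.nd (nat_lit 78) (nat_lit 608) (nat_lit 0) (XT.lf (nat_lit 0) (nat_lit 1275593397) (nat_lit 608) (nat_lit 2099636008) (nat_lit 76) (nat_lit 4615157741) (nat_lit 69) (nat_lit 5) (nat_lit 77) (nat_lit 5) (nat_lit 70) (nat_lit 5) (nat_lit 251) (nat_lit 242) (nat_lit 227)) (XT.lf (nat_lit 0) (nat_lit 4104194461) (nat_lit 684) (nat_lit 4085707857) (nat_lit 76) (nat_lit 76528314) (nat_lit 61) (nat_lit 5) (nat_lit 70) (nat_lit 5) (nat_lit 62) (nat_lit 5) (nat_lit 252) (nat_lit 242) (nat_lit 226))) (XT.nd (nat_lit 78) (nat_lit 380) (nat_lit 0) (XT.lf (nat_lit 0) (nat_lit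 2308433275) (nat_lit 684) (nat_lit 4788950687) (nat_lit 760) (nat_lit 1471334589) (nat_lit 52) (nat_lit 5) (nat_lit 61) (nat_lit 5) (nat_lit 62) (nat_lit 5) (nat_lit 253) (nat_lit 242) (nat_lit 225)) (XT.lf (nat_lit 0) (nat_lit 270713605) (nat_lit 304) (nat_lit 1010483148) (nat_lit 380) (nat_lit 7619207414) (nat_lit 47) (nat_lit 5) (nat_lit 51) (nat_lit 5) (nat_lit 52) (nat_lit 5) (nat_lit 254) (nat_lit 242) (nat_lit 224)))) (XT.nd (nat_lit 156) (nat_lit 608) (nat_lit 0) (XT.nd (nat_lit 78) (nat_lit 304) (nat_lit 0) (XT.lf (nat_lit 0) (nat_lit 4188460833) (nat_lit 380) (nat_lit 1964297351) (nat_lit 76) (nat_lit 3106235052) (nat_lit 47) (nat_lit 5) (nat_lit 52) (nat_lit 5) (nat_lit 48) (nat_lit 5) (nat_lit 255) (nat_lit 242) (nat_lit 223)) (XT.lf (nat_lit 0) (nat_lit 5213469051) (nat_lit 304) (nat_lit 2052731929) (nat_lit 380) (nat_lit 2383987172) (nat_lit 43) (nat_lit 5) (nat_lit 47)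 (nat_lit 5) (nat_lit 48) (nat_lit 5) (nat_lit 256) (nat_lit 242) (nat_lit 222))) (XT.nd (nat_lit 78) (nat_lit 304) (nat_lit 0) (XT.lf (nat_lit 0) (nat_lit 464536679) (nat_lit 304) (nat_lit 7235968654) (nat_lit 76) (nat_lit 2374305820) (nat_lit 39) (nat_lit 5) (nat_lit 43) (nat_lit 5) (nat_lit 40) (nat_lit 5) (nat_lit 257) (nat_lit 242) (nat_lit 221)) (XT.nd (nat_lit 78) (nat_lit 0) (nat_lit 0) (XT.lf (nat_lit 0) (nat_lit 82479711) (nat_lit 304) (nat_lit 3344761508) (nat_lit 380) (nat_lit 7106381792) (nat_lit 35) (nat_lit 5) (nat_lit 39) (nat_lit 5) (nat_lit 40) (nat_lit 5) (nat_lit 258) (nat_lit 242) (nat_lit 220)) (XT.lf (nat_lit 0) (nat_lit 6638434251) (nat_lit 380) (nat_lit 2970497848) (nat_lit 76) (nat_lit 1420249120) (nat_lit 35) (nat_lit 5) (nat_lit 40) (nat_lit 5) (nat_lit 36) (nat_lit 5) (nat_lit 259) (nat_lit 242) (nat_lit 219)))))) (XT.nd (nat_lit 312) (nat_lit 608) (nat_lit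 0) (XT.nd (nat_lit 156) (nat_lit 152) (nat_lit 0) (XT.nd (nat_lit 78) (nat_lit 304) (nat_lit 0) (XT.lf (nat_lit 0) (nat_lit 5057433468) (nat_lit 228) (nat_lit 5056796161) (nat_lit 304) (nat_lit 1450338560) (nat_lit 32) (nat_lit 5) (nat_lit 35) (nat_lit 5) (nat_lit 36) (nat_lit 5) (nat_lit 260) (nat_lit 242) (nat_lit 218)) (XT.lf (nat_lit 0) (nat_lit 1561261909) (nat_lit 228) (nat_lit 62765756) (nat_lit 304) (nat_lit 10520216491) (nat_lit 28) (nat_lit 5) (nat_lit 31) (nat_lit 5) (nat_lit 32) (nat_lit 5) (nat_lit 261) (nat_lit 242) (nat_lit 217))) (XT.nd (nat_lit 78) (nat_lit 152) (nat_lit 0) (XT.lf (nat_lit 0) (nat_lit 4975939573) (nat_lit 304) (nat_lit 2520144234) (nat_lit 76) (nat_lit 5269366098) (nat_lit 28) (nat_lit 5) (nat_lit 32) (nat_lit 5) (nat_lit 29) (nat_lit 5) (nat_lit 262) (nat_lit 242) (nat_lit 216)) (XT.lf (nat_lit 0) (nat_lit 6244417835) (nat_lit 152) (nat_lit 2342075817)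 (nat_lit 228) (nat_lit 4850764521) (nat_lit 26) (nat_lit 5) (nat_lit 28) (nat_lit 5) (nat_lit 29) (nat_lit 5) (nat_lit 263) (nat_lit 242) (nat_lit 215)))) (XT.nd (nat_lit 156) (nat_lit 304) (nat_lit 0) (XT.nd (nat_lit 78) (nat_lit 76) (nat_lit 0) (XT.lf (nat_lit 0) (nat_lit 1495415640) (nat_lit 228) (nat_lit 11006076056) (nat_lit 304) (nat_lit 1660938058) (nat_lit 23) (nat_lit 5) (nat_lit 26) (nat_lit 5) (nat_lit 27) (nat_lit 5) (nat_lit 264) (nat_lit 242) (nat_lit 214)) (XT.lf (nat_lit 0) (nat_lit 1794659481) (nat_lit 304) (nat_lit 4011580521) (nat_lit 76) (nat_lit 9134949541) (nat_lit 22) (nat_lit 5) (nat_lit 26) (nat_lit 5) (nat_lit 23) (nat_lit 5) (nat_lit 265) (nat_lit 242) (nat_lit 213))) (XT.nd (nat_lit 78) (nat_lit 152) (nat_lit 0) (XT.lf (nat_lit 0) (nat_lit 5351396253) (nat_lit 152) (nat_lit 109636530) (nat_lit 228) (nat_lit 10320555439) (nat_lit 20) (nat_lit 5) (nat_lit 22)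 (nat_lit 5) (nat_lit 23) (nat_lit 5) (nat_lit 266) (nat_lit 242) (nat_lit 212)) (XT.nd (nat_lit 78) (nat_lit 152) (nat_lit 0) (XT.lf (nat_lit 0) (nat_lit 9498604677) (nat_lit 228) (nat_lit 1301234309) (nat_lit 76) (nat_lit 5885786751) (nat_lit 20) (nat_lit 5) (nat_lit 23) (nat_lit 5) (nat_lit 21) (nat_lit 5) (nat_lit 267) (nat_lit 242) (nat_lit 211)) (XT.lf (nat_lit 0) (nat_lit 8717919225) (nat_lit 152) (nat_lit 5198223490) (nat_lit 228) (nat_lit 3743274572) (nat_lit 18) (nat_lit 5) (nat_lit 20) (nat_lit 5) (nat_lit 21) (nat_lit 5) (nat_lit 268) (nat_lit 242) (nat_lit 210))))))))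
noncomputable def xc54 : XT := (XT.nd (nat_lit 1326) (nat_lit 228) (nat_lit 0) (XT.nd (nat_lit 624) (nat_lit 304) (nat_lit 0) (XT.nd (nat_lit 312) (nat_lit 304) (nat_lit 0) (XT.nd (nat_lit 156) (nat_lit 152) (nat_lit 0) (XT.nd (nat_lit 78) (nat_lit 76) (nat_lit 0) (XT.lf (nat_lit 0) (nat_lit 770337597) (nat_lit 152) (nat_lit 17887801456) (nat_lit 228) (nat_lit 54678727) (nat_lit 16) (nat_lit 5) (nat_lit 18) (nat_lit 5) (nat_lit 19) (nat_lit 4) (nat_lit 269) (nat_lit 242) (nat_lit 209)) (XT.lf (nat_lit 0) (nat_lit 3974471748) (nat_lit 228) (nat_lit 8529245773) (nat_lit 76) (nat_lit 7335372522) (nat_lit 15) (nat_lit 5) (nat_lit 18) (nat_lit 5) (nat_lit 16) (nat_lit 5) (nat_lit 270) (nat_lit 242) (nat_lit 208))) (XT.nd (nat_lit 78) (nat_lit 0) (nat_lit 0) (XT.lf (nat_lit 0) (nat_lit 1581738266) (nat_lit 152) (nat_lit 6697817243) (nat_lit 228) (nat_lit 12778298886) (nat_lit 13) (nat_lit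 5) (nat_lit 15) (nat_lit 5) (nat_lit 16) (nat_lit 5) (nat_lit 271) (nat_lit 242) (nat_lit 207)) (XT.lf (nat_lit 0) (nat_lit 12705728723) (nat_lit 152) (nat_lit 306245089) (nat_lit 228) (nat_lit 9358195036) (nat_lit 13) (nat_lit 5) (nat_lit 15) (nat_lit 5) (nat_lit 16) (nat_lit 5) (nat_lit 272) (nat_lit 242) (nat_lit 206)))) (XT.nd (nat_lit 156) (nat_lit 228) (nat_lit 0) (XT.nd (nat_lit 78) (nat_lit 0) (nat_lit 0) (XT.lf (nat_lit 0) (nat_lit 757703784) (nat_lit 76) (nat_lit 17418817351) (nat_lit 152) (nat_lit 5608451420) (nat_lit 12) (nat_lit 5) (nat_lit 13) (nat_lit 5) (nat_lit 14) (nat_lit 4) (nat_lit 273) (nat_lit 242) (nat_lit 205)) (XT.lf (nat_lit 0) (nat_lit 12261833568) (nat_lit 76) (nat_lit 11607651148) (nat_lit 152) (nat_lit 1437880697) (nat_lit 12) (nat_lit 5) (nat_lit 13) (nat_lit 5) (nat_lit 14) (nat_lit 4) (nat_lit 274) (nat_lit 242) (nat_lit 204))) (XT.nd (nat_lit 78) (nat_lit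 152) (nat_lit 0) (XT.lf (nat_lit 0) (nat_lit 2913293575) (nat_lit 152) (nat_lit 2399875485) (nat_lit 76) (nat_lit 21638879633) (nat_lit 11) (nat_lit 5) (nat_lit 13) (nat_lit 5) (nat_lit 12) (nat_lit 5) (nat_lit 275) (nat_lit 242) (nat_lit 203)) (XT.lf (nat_lit 0) (nat_lit 7682569579) (nat_lit 228) (nat_lit 19457805308) (nat_lit 76) (nat_lit 1580870698) (nat_lit 9) (nat_lit 5) (nat_lit 12) (nat_lit 5) (nat_lit 10) (nat_lit 4) (nat_lit 276) (nat_lit 242) (nat_lit 202))))) (XT.nd (nat_lit 312) (nat_lit 228) (nat_lit 0) (XT.nd (nat_lit 156) (nat_lit 0) (nat_lit 0) (XT.nd (nat_lit 78) (nat_lit 76) (nat_lit 0) (XT.lf (nat_lit 0) (nat_lit 12916753466) (nat_lit 228) (nat_lit 8853566292) (nat_lit 76) (nat_lit 8857616798) (nat_lit 9) (nat_lit 5) (nat_lit 12) (nat_lit 5) (nat_lit 10) (nat_lit 4) (nat_lit 277) (nat_lit 242) (nat_lit 201)) (XT.lf (nat_lit 0) (nat_lit 2609453517) (nat_lit 76) (nat_lit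 15955854306) (nat_lit 152) (nat_lit 14122190434) (nat_lit 8) (nat_lit 5) (nat_lit 9) (nat_lit 5) (nat_lit 10) (nat_lit 4) (nat_lit 278) (nat_lit 242) (nat_lit 200))) (XT.nd (nat_lit 78) (nat_lit 0) (nat_lit 0) (XT.lf (nat_lit 0) (nat_lit 15235771615) (nat_lit 76) (nat_lit 9541342968) (nat_lit 152) (nat_lit 10129250461) (nat_lit 8) (nat_lit 5) (nat_lit 9) (nat_lit 5) (nat_lit 10) (nat_lit 4) (nat_lit 279) (nat_lit 242) (nat_lit 199)) (XT.lf (nat_lit 0) (nat_lit 28807471742) (nat_lit 76) (nat_lit 2638713256) (nat_lit 152) (nat_lit 5858640735) (nat_lit 8) (nat_lit 5) (nat_lit 9) (nat_lit 5) (nat_lit 10) (nat_lit 4) (nat_lit 280) (nat_lit 242) (nat_lit 198)))) (XT.nd (nat_lit 156) (nat_lit 76) (nat_lit 0) (XT.nd (nat_lit 78) (nat_lit 76) (nat_lit 0) (XT.lf (nat_lit 0) (nat_lit 3546566423) (nat_lit 76) (nat_lit 35195676116) (nat_lit 76) (nat_lit 1148340730) (nat_lit 7) (nat_lit 4) (nat_lit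 8) (nat_lit 5) (nat_lit 8) (nat_lit 4) (nat_lit 281) (nat_lit 242) (nat_lit 197)) (XT.lf (nat_lit 0) (nat_lit 3971720834) (nat_lit 152) (nat_lit 25986872622) (nat_lit 76) (nat_lit 12713665089) (nat_lit 6) (nat_lit 5) (nat_lit 8) (nat_lit 5) (nat_lit 7) (nat_lit 4) (nat_lit 282) (nat_lit 242) (nat_lit 196))) (XT.nd (nat_lit 78) (nat_lit 76) (nat_lit 0) (XT.lf (nat_lit 0) (nat_lit 9428419535) (nat_lit 152) (nat_lit 14876163385) (nat_lit 76) (nat_lit 21372656428) (nat_lit 6) (nat_lit 5) (nat_lit 8) (nat_lit 5) (nat_lit 7) (nat_lit 4) (nat_lit 283) (nat_lit 242) (nat_lit 195)) (XT.nd (nat_lit 78) (nat_lit 76) (nat_lit 0) (XT.lf (nat_lit 0) (nat_lit 15290845440) (nat_lit 152) (nat_lit 2928119077) (nat_lit 76) (nat_lit 30705264896) (nat_lit 6) (nat_lit 5) (nat_lit 8) (nat_lit 5) (nat_lit 7) (nat_lit 4) (nat_lit 284) (nat_lit 242) (nat_lit 194)) (XT.lf (nat_lit 0) (nat_lit 10256330142) (nat_lit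 76) (nat_lit 11497538763) (nat_lit 152) (nat_lit 30670594752) (nat_lit 5) (nat_lit 5) (nat_lit 6) (nat_lit 5) (nat_lit 7) (nat_lit 4) (nat_lit 285) (nat_lit 242) (nat_lit 193))))))) (XT.nd (nat_lit 702) (nat_lit 76) (nat_lit 0) (XT.nd (nat_lit 312) (nat_lit 76) (nat_lit 0) (XT.nd (nat_lit 156) (nat_lit 76) (nat_lit 0) (XT.nd (nat_lit 78) (nat_lit 0) (nat_lit 0) (XT.lf (nat_lit 0) (nat_lit 24554465452) (nat_lit 76) (nat_lit 4203348810) (nat_lit 152) (nat_lit 27445768704) (nat_lit 5) (nat_lit 5) (nat_lit 6) (nat_lit 5) (nat_lit 7) (nat_lit 4) (nat_lit 286) (nat_lit 242) (nat_lit 192)) (XT.lf (nat_lit 0) (nat_lit 36354058426) (nat_lit 152) (nat_lit 20389243588) (nat_lit 0) (nat_lit 3540186502) (nat_lit 5) (nat_lit 5) (nat_lit 7) (nat_lit 4) (nat_lit 5) (nat_lit 4) (nat_lit 287) (nat_lit 242) (nat_lit 191))) (XT.nd (nat_lit 78) (nat_lit 76) (nat_lit 0) (XT.lf (nat_lit 0) (nat_lit 44605374434)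 (nat_lit 152) (nat_lit 8339544814) (nat_lit 0) (nat_lit 11742550365) (nat_lit 5) (nat_lit 5) (nat_lit 7) (nat_lit 4) (nat_lit 5) (nat_lit 4) (nat_lit 288) (nat_lit 242) (nat_lit 190)) (XT.lf (nat_lit 0) (nat_lit 4790330991) (nat_lit 76) (nat_lit 48779492419) (nat_lit 76) (nat_lit 15871342289) (nat_lit 4) (nat_lit 4) (nat_lit 5) (nat_lit 5) (nat_lit 5) (nat_lit 4) (nat_lit 289) (nat_lit 242) (nat_lit 189)))) (XT.nd (nat_lit 156) (nat_lit 76) (nat_lit 0) (XT.nd (nat_lit 78) (nat_lit 0) (nat_lit 0) (XT.lf (nat_lit 0) (nat_lit 19232893103) (nat_lit 76) (nat_lit 44143099598) (nat_lit 76) (nat_lit 11192980894) (nat_lit 4) (nat_lit 4) (nat_lit 5) (nat_lit 5) (nat_lit 5) (nat_lit 4) (nat_lit 290) (nat_lit 242) (nat_lit 188)) (XT.lf (nat_lit 0) (nat_lit 34797984059) (nat_lit 76) (nat_lit 39149500092) (nat_lit 76) (nat_lit 6160521596) (nat_lit 4) (nat_lit 4) (nat_lit 5) (nat_lit 5) (nat_lit 5)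 (nat_lit 4) (nat_lit 291) (nat_lit 242) (nat_lit 187))) (XT.nd (nat_lit 78) (nat_lit 76) (nat_lit 0) (XT.lf (nat_lit 0) (nat_lit 51577841435) (nat_lit 76) (nat_lit 33769102199) (nat_lit 76) (nat_lit 744142414) (nat_lit 4) (nat_lit 4) (nat_lit 5) (nat_lit 5) (nat_lit 5) (nat_lit 4) (nat_lit 292) (nat_lit 242) (nat_lit 186)) (XT.nd (nat_lit 78) (nat_lit 0) (nat_lit 0) (XT.lf (nat_lit 0) (nat_lit 4925397816) (nat_lit 152) (nat_lit 22961210268) (nat_lit 76) (nat_lit 64663089612) (nat_lit 3) (nat_lit 5) (nat_lit 5) (nat_lit 5) (nat_lit 4) (nat_lit 4) (nat_lit 293) (nat_lit 242) (nat_lit 185)) (XT.lf (nat_lit 0) (nat_lit 11007278783) (nat_lit 152) (nat_lit 10524202440) (nat_lit 76) (nat_lit 77993695707) (nat_lit 3) (nat_lit 5) (nat_lit 5) (nat_lit 5) (nat_lit 4) (nat_lit 4) (nat_lit 294) (nat_lit 242) (nat_lit 184)))))) (XT.nd (nat_lit 312) (nat_lit 0) (nat_lit 0) (XT.nd (nat_lit 156) (nat_lit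 0) (nat_lit 0) (XT.nd (nat_lit 78) (nat_lit 0) (nat_lit 0) (XT.lf (nat_lit 0) (nat_lit 2978426040) (nat_lit 76) (nat_lit 14629434005) (nat_lit 152) (nat_lit 89449255708) (nat_lit 2) (nat_lit 5) (nat_lit 3) (nat_lit 5) (nat_lit 4) (nat_lit 4) (nat_lit 295) (nat_lit 242) (nat_lit 183)) (XT.lf (nat_lit 0) (nat_lit 17913484517) (nat_lit 76) (nat_lit 6992671039) (nat_lit 152) (nat_lit 90276997349) (nat_lit 2) (nat_lit 5) (nat_lit 3) (nat_lit 5) (nat_lit 4) (nat_lit 4) (nat_lit 296) (nat_lit 242) (nat_lit 182))) (XT.nd (nat_lit 78) (nat_lit 0) (nat_lit 0) (XT.lf (nat_lit 0) (nat_lit 32795120174) (nat_lit 152) (nat_lit 89957881462) (nat_lit 0) (nat_lit 1205955760) (nat_lit 2) (nat_lit 5) (nat_lit 4) (nat_lit 4) (nat_lit 2) (nat_lit 4) (nat_lit 297) (nat_lit 242) (nat_lit 181)) (XT.lf (nat_lit 0) (nat_lit 41421269393) (nat_lit 152) (nat_lit 82199765903) (nat_lit 0) (nat_lit 9810510393) (nat_lit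 2) (nat_lit 5) (nat_lit 4) (nat_lit 4) (nat_lit 2) (nat_lit 4) (nat_lit 298) (nat_lit 242) (nat_lit 180)))) (XT.nd (nat_lit 156) (nat_lit 0) (nat_lit 0) (XT.nd (nat_lit 78) (nat_lit 0) (nat_lit 0) (XT.lf (nat_lit 0) (nat_lit 50726545944) (nat_lit 152) (nat_lit 73840172500) (nat_lit 0) (nat_lit 19095791957) (nat_lit 2) (nat_lit 5) (nat_lit 4) (nat_lit 4) (nat_lit 2) (nat_lit 4) (nat_lit 299) (nat_lit 242) (nat_lit 179)) (XT.lf (nat_lit 0) (nat_lit 60766092206) (nat_lit 152) (nat_lit 64829562923) (nat_lit 0) (nat_lit 29116824342) (nat_lit 2) (nat_lit 5) (nat_lit 4) (nat_lit 4) (nat_lit 2) (nat_lit 4) (nat_lit 300) (nat_lit 242) (nat_lit 178))) (XT.nd (nat_lit 78) (nat_lit 0) (nat_lit 0) (XT.lf (nat_lit 0) (nat_lit 71599401786) (nat_lit 152) (nat_lit 55114540967) (nat_lit 0) (nat_lit 39932991444) (nat_lit 2) (nat_lit 5) (nat_lit 4) (nat_lit 4) (nat_lit 2) (nat_lit 4) (nat_lit 301) (nat_lit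 242) (nat_lit 177)) (XT.nd (nat_lit 78) (nat_lit 0) (nat_lit 0) (XT.lf (nat_lit 0) (nat_lit 83290672075) (nat_lit 152) (nat_lit 44637536131) (nat_lit 0) (nat_lit 51608389068) (nat_lit 2) (nat_lit 5) (nat_lit 4) (nat_lit 4) (nat_lit 2) (nat_lit 4) (nat_lit 302) (nat_lit 242) (nat_lit 176)) (XT.lf (nat_lit 0) (nat_lit 95909184674) (nat_lit 152) (nat_lit 33336462461) (nat_lit 0) (nat_lit 64212204755) (nat_lit 2) (nat_lit 5) (nat_lit 4) (nat_lit 4) (nat_lit 2) (nat_lit 4) (nat_lit 303) (nat_lit 242) (nat_lit 175))))))))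
noncomputable def xc55 : XT := (XT.nd (nat_lit 32760) (nat_lit 0) (nat_lit 2584) (XT.nd (nat_lit 702) (nat_lit 0) (nat_lit 0) (XT.nd (nat_lit 312) (nat_lit 0) (nat_lit 0) (XT.nd (nat_lit 156) (nat_lit 76) (nat_lit 0) (XT.nd (nat_lit 78) (nat_lit 0) (nat_lit 0) (XT.lf (nat_lit 0) (nat_lit 109529715955) (nat_lit 152) (nat_lit 21144350630) (nat_lit 0) (nat_lit 77819127783) (nat_lit 2) (nat_lit 5) (nat_lit 4) (nat_lit 4) (nat_lit 2) (nat_lit 4) (nat_lit 304) (nat_lit 242) (nat_lit 174)) (XT.lf (nat_lit 0) (nat_lit 124232980176) (nat_lit 152) (nat_lit 7988951088) (nat_lit 0) (nat_lit 92509791771) (nat_lit 2) (nat_lit 5) (nat_lit 4) (nat_lit 4) (nat_lit 2) (nat_lit 4) (nat_lit 305) (nat_lit 242) (nat_lit 173))) (XT.nd (nat_lit 78) (nat_lit 0) (nat_lit 0) (XT.lf (nat_lit 0) (nat_lit 6412948488) (nat_lit 76) (nat_lit 133793283401) (nat_lit 76) (nat_lit 102058428114) (nat_lit 1) (nat_lit 4) (nat_lit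 2) (nat_lit 5) (nat_lit 2) (nat_lit 4) (nat_lit 306) (nat_lit 242) (nat_lit 172)) (XT.lf (nat_lit 0) (nat_lit 22241582714) (nat_lit 76) (nat_lit 135348832506) (nat_lit 76) (nat_lit 103603174549) (nat_lit 1) (nat_lit 4) (nat_lit 2) (nat_lit 5) (nat_lit 2) (nat_lit 4) (nat_lit 307) (nat_lit 242) (nat_lit 171)))) (XT.nd (nat_lit 156) (nat_lit 0) (nat_lit 0) (XT.nd (nat_lit 78) (nat_lit 0) (nat_lit 0) (XT.lf (nat_lit 0) (nat_lit 39326600100) (nat_lit 76) (nat_lit 137033093399) (nat_lit 76) (nat_lit 105277432970) (nat_lit 1) (nat_lit 4) (nat_lit 2) (nat_lit 5) (nat_lit 2) (nat_lit 4) (nat_lit 308) (nat_lit 242) (nat_lit 170)) (XT.lf (nat_lit 0) (nat_lit 57769245193) (nat_lit 76) (nat_lit 138856046886) (nat_lit 76) (nat_lit 107091124909) (nat_lit 1) (nat_lit 4) (nat_lit 2) (nat_lit 5) (nat_lit 2) (nat_lit 4) (nat_lit 309) (nat_lit 242) (nat_lit 169))) (XT.nd (nat_lit 78) (nat_lit 0) (nat_lit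 0) (XT.lf (nat_lit 0) (nat_lit 77678807742) (nat_lit 76) (nat_lit 140828495654) (nat_lit 76) (nat_lit 109054998171) (nat_lit 1) (nat_lit 4) (nat_lit 2) (nat_lit 5) (nat_lit 2) (nat_lit 4) (nat_lit 310) (nat_lit 242) (nat_lit 168)) (XT.nd (nat_lit 78) (nat_lit 0) (nat_lit 0) (XT.lf (nat_lit 0) (nat_lit 99173270340) (nat_lit 76) (nat_lit 142962128288) (nat_lit 76) (nat_lit 111180690521) (nat_lit 1) (nat_lit 4) (nat_lit 2) (nat_lit 5) (nat_lit 2) (nat_lit 4) (nat_lit 311) (nat_lit 242) (nat_lit 167)) (XT.lf (nat_lit 0) (nat_lit 122380007579) (nat_lit 76) (nat_lit 145269588539) (nat_lit 76) (nat_lit 113480798656) (nat_lit 1) (nat_lit 4) (nat_lit 2) (nat_lit 5) (nat_lit 2) (nat_lit 4) (nat_lit 312) (nat_lit 242) (nat_lit 166)))))) (XT.nd (nat_lit 312) (nat_lit 0) (nat_lit 0) (XT.nd (nat_lit 156) (nat_lit 0) (nat_lit 0) (XT.nd (nat_lit 78) (nat_lit 0) (nat_lit 0) (XT.lf (nat_lit 0) (nat_lit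 147436540867) (nat_lit 76) (nat_lit 147764550243) (nat_lit 76) (nat_lit 115968952846) (nat_lit 1) (nat_lit 4) (nat_lit 2) (nat_lit 5) (nat_lit 2) (nat_lit 4) (nat_lit 313) (nat_lit 242) (nat_lit 165)) (XT.lf (nat_lit 0) (nat_lit 174491353363) (nat_lit 76) (nat_lit 150461798359) (nat_lit 76) (nat_lit 118659897709) (nat_lit 1) (nat_lit 4) (nat_lit 2) (nat_lit 5) (nat_lit 2) (nat_lit 4) (nat_lit 314) (nat_lit 242) (nat_lit 164))) (XT.nd (nat_lit 78) (nat_lit 0) (nat_lit 0) (XT.lf (nat_lit 0) (nat_lit 203704769882) (nat_lit 76) (nat_lit 153377316580) (nat_lit 76) (nat_lit 121569579584) (nat_lit 1) (nat_lit 4) (nat_lit 2) (nat_lit 5) (nat_lit 2) (nat_lit 4) (nat_lit 315) (nat_lit 242) (nat_lit 163)) (XT.lf (nat_lit 0) (nat_lit 235249906967) (nat_lit 76) (nat_lit 156528382051) (nat_lit 76) (nat_lit 124715241031) (nat_lit 1) (nat_lit 4) (nat_lit 2) (nat_lit 5) (nat_lit 2) (nat_lit 4) (nat_lit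 316) (nat_lit 242) (nat_lit 162)))) (XT.nd (nat_lit 156) (nat_lit 0) (nat_lit 0) (XT.nd (nat_lit 78) (nat_lit 0) (nat_lit 0) (XT.lf (nat_lit 0) (nat_lit 269313698762) (nat_lit 76) (nat_lit 159933667753) (nat_lit 76) (nat_lit 128115523006) (nat_lit 1) (nat_lit 4) (nat_lit 2) (nat_lit 5) (nat_lit 2) (nat_lit 4) (nat_lit 317) (nat_lit 242) (nat_lit 161)) (XT.lf (nat_lit 0) (nat_lit 306098004775) (nat_lit 76) (nat_lit 163613353156) (nat_lit 76) (nat_lit 131790575329) (nat_lit 1) (nat_lit 4) (nat_lit 2) (nat_lit 5) (nat_lit 2) (nat_lit 4) (nat_lit 318) (nat_lit 242) (nat_lit 160))) (XT.nd (nat_lit 78) (nat_lit 0) (nat_lit 0) (XT.lf (nat_lit 0) (nat_lit 345820806078) (nat_lit 76) (nat_lit 167589243802) (nat_lit 76) (nat_lit 135762176088) (nat_lit 1) (nat_lit 4) (nat_lit 2) (nat_lit 5) (nat_lit 2) (nat_lit 4) (nat_lit 319) (nat_lit 242) (nat_lit 159)) (XT.nd (nat_lit 78) (nat_lit 0) (nat_lit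 0) (XT.lf (nat_lit 0) (nat_lit 388717497051) (nat_lit 76) (nat_lit 171884900527) (nat_lit 76) (nat_lit 140053860693) (nat_lit 1) (nat_lit 4) (nat_lit 2) (nat_lit 5) (nat_lit 2) (nat_lit 4) (nat_lit 320) (nat_lit 242) (nat_lit 158)) (XT.lf (nat_lit 0) (nat_lit 435042280305) (nat_lit 76) (nat_lit 176525779073) (nat_lit 76) (nat_lit 144691061351) (nat_lit 1) (nat_lit 4) (nat_lit 2) (nat_lit 5) (nat_lit 2) (nat_lit 4) (nat_lit 321) (nat_lit 242) (nat_lit 157))))))) (XT.nd (nat_lit 702) (nat_lit 2584) (nat_lit 0) (XT.nd (nat_lit 312) (nat_lit 1368) (nat_lit 0) (XT.nd (nat_lit 156) (nat_lit 380) (nat_lit 0) (XT.nd (nat_lit 78) (nat_lit 0) (nat_lit 0) (XT.lf (nat_lit 0) (nat_lit 1071200248) (nat_lit 380) (nat_lit 1143553062) (nat_lit 380) (nat_lit 1143553062) (nat_lit 92) (nat_lit 3) (nat_lit 97) (nat_lit 3) (nat_lit 97) (nat_lit 5) (nat_lit 243) (nat_lit 243) (nat_lit 234)) (XT.lf (nat_lit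 76) (nat_lit 2223031212) (nat_lit 0) (nat_lit 2922529950) (nat_lit 380) (nat_lit 1672506206) (nat_lit 93) (nat_lit 5) (nat_lit 92) (nat_lit 3) (nat_lit 97) (nat_lit 5) (nat_lit 244) (nat_lit 243) (nat_lit 233))) (XT.nd (nat_lit 78) (nat_lit 0) (nat_lit 76) (XT.lf (nat_lit 76) (nat_lit 59022052) (nat_lit 0) (nat_lit 1099248332) (nat_lit 456) (nat_lit 5783074938) (nat_lit 88) (nat_lit 5) (nat_lit 87) (nat_lit 5) (nat_lit 93) (nat_lit 5) (nat_lit 245) (nat_lit 243) (nat_lit 232)) (XT.lf (nat_lit 0) (nat_lit 3976259596) (nat_lit 380) (nat_lit 2043732779) (nat_lit 456) (nat_lit 1064037329) (nat_lit 88) (nat_lit 5) (nat_lit 93) (nat_lit 5) (nat_lit 94) (nat_lit 5) (nat_lit 246) (nat_lit 243) (nat_lit 231)))) (XT.nd (nat_lit 156) (nat_lit 988) (nat_lit 0) (XT.nd (nat_lit 78) (nat_lit 456) (nat_lit 0) (XT.lf (nat_lit 76) (nat_lit 3096167062) (nat_lit 0) (nat_lit 3734495448) (nat_lit 456) (nat_lit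 418660601) (nat_lit 89) (nat_lit 5) (nat_lit 88) (nat_lit 5) (nat_lit 94) (nat_lit 5) (nat_lit 247) (nat_lit 243) (nat_lit 230)) (XT.lf (nat_lit 76) (nat_lit 1121953616) (nat_lit 0) (nat_lit 1092854526) (nat_lit 532) (nat_lit 5222189324) (nat_lit 83) (nat_lit 5) (nat_lit 82) (nat_lit 5) (nat_lit 89) (nat_lit 5) (nat_lit 248) (nat_lit 243) (nat_lit 229))) (XT.nd (nat_lit 78) (nat_lit 1064) (nat_lit 0) (XT.lf (nat_lit 0) (nat_lit 4917259540) (nat_lit 456) (nat_lit 879774032) (nat_lit 76) (nat_lit 1850083569) (nat_lit 83) (nat_lit 5) (nat_lit 89) (nat_lit 5) (nat_lit 84) (nat_lit 5) (nat_lit 249) (nat_lit 243) (nat_lit 228)) (XT.nd (nat_lit 78) (nat_lit 608) (nat_lit 0) (XT.lf (nat_lit 0) (nat_lit 4968544192) (nat_lit 456) (nat_lit 2752034787) (nat_lit 532) (nat_lit 160551579) (nat_lit 77) (nat_lit 5) (nat_lit 83) (nat_lit 5) (nat_lit 84) (nat_lit 5) (nat_lit 250) (nat_lit 243) (nat_lit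 227)) (XT.lf (nat_lit 0) (nat_lit 2402422389) (nat_lit 608) (nat_lit 5073337124) (nat_lit 76) (nat_lit 663636892) (nat_lit 69) (nat_lit 5) (nat_lit 77) (nat_lit 5) (nat_lit 70) (nat_lit 5) (nat_lit 251) (nat_lit 243) (nat_lit 226)))))) (XT.nd (nat_lit 312) (nat_lit 912) (nat_lit 0) (XT.nd (nat_lit 156) (nat_lit 1064) (nat_lit 0) (XT.nd (nat_lit 78) (nat_lit 0) (nat_lit 0) (XT.lf (nat_lit 0) (nat_lit 1026959132) (nat_lit 608) (nat_lit 4062496710) (nat_lit 684) (nat_lit 3333579724) (nat_lit 61) (nat_lit 5) (nat_lit 69) (nat_lit 5) (nat_lit 70) (nat_lit 5) (nat_lit 252) (nat_lit 243) (nat_lit 225)) (XT.lf (nat_lit 0) (nat_lit 7636527867) (nat_lit 608) (nat_lit 265399889) (nat_lit 684) (nat_lit 832910585) (nat_lit 61) (nat_lit 5) (nat_lit 69) (nat_lit 5) (nat_lit 70) (nat_lit 5) (nat_lit 253) (nat_lit 243) (nat_lit 224))) (XT.nd (nat_lit 78) (nat_lit 304) (nat_lit 0) (XT.lf (nat_lit 0) (nat_lit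 1790777392) (nat_lit 760) (nat_lit 3434904062) (nat_lit 76) (nat_lit 3846186993) (nat_lit 51) (nat_lit 5) (nat_lit 61) (nat_lit 5) (nat_lit 52) (nat_lit 5) (nat_lit 254) (nat_lit 243) (nat_lit 223)) (XT.lf (nat_lit 0) (nat_lit 3450290754) (nat_lit 304) (nat_lit 1065075632) (nat_lit 380) (nat_lit 4924615973) (nat_lit 47) (nat_lit 5) (nat_lit 51) (nat_lit 5) (nat_lit 52) (nat_lit 5) (nat_lit 255) (nat_lit 243) (nat_lit 222)))) (XT.nd (nat_lit 156) (nat_lit 532) (nat_lit 0) (XT.nd (nat_lit 78) (nat_lit 76) (nat_lit 0) (XT.lf (nat_lit 0) (nat_lit 993662665) (nat_lit 304) (nat_lit 6445466364) (nat_lit 380) (nat_lit 2400109241) (nat_lit 43) (nat_lit 5) (nat_lit 47) (nat_lit 5) (nat_lit 48) (nat_lit 5) (nat_lit 256) (nat_lit 243) (nat_lit 221)) (XT.lf (nat_lit 0) (nat_lit 296950682) (nat_lit 380) (nat_lit 1696970698) (nat_lit 76) (nat_lit 8277870806) (nat_lit 42) (nat_lit 5) (nat_lit 47) (nat_lit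 5) (nat_lit 43) (nat_lit 5) (nat_lit 257) (nat_lit 243) (nat_lit 220))) (XT.nd (nat_lit 78) (nat_lit 304) (nat_lit 0) (XT.lf (nat_lit 0) (nat_lit 3134537408) (nat_lit 304) (nat_lit 4754273737) (nat_lit 76) (nat_lit 2848344466) (nat_lit 39) (nat_lit 5) (nat_lit 43) (nat_lit 5) (nat_lit 40) (nat_lit 5) (nat_lit 258) (nat_lit 243) (nat_lit 219)) (XT.nd (nat_lit 78) (nat_lit 0) (nat_lit 0) (XT.lf (nat_lit 0) (nat_lit 3016641750) (nat_lit 304) (nat_lit 3168299013) (nat_lit 380) (nat_lit 5056086314) (nat_lit 35) (nat_lit 5) (nat_lit 39) (nat_lit 5) (nat_lit 40) (nat_lit 5) (nat_lit 259) (nat_lit 243) (nat_lit 218)) (XT.lf (nat_lit 0) (nat_lit 9475483998) (nat_lit 380) (nat_lit 378585198) (nat_lit 76) (nat_lit 1931860952) (nat_lit 35) (nat_lit 5) (nat_lit 40) (nat_lit 5) (nat_lit 36) (nat_lit 5) (nat_lit 260) (nat_lit 243) (nat_lit 217))))))))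
noncomputable def xc56 : XT := (XT.nd (nat_lit 1326) (nat_lit 456) (nat_lit 0) (XT.nd (nat_lit 624) (nat_lit 684) (nat_lit 0) (XT.nd (nat_lit 312) (nat_lit 608) (nat_lit 0) (XT.nd (nat_lit 156) (nat_lit 152) (nat_lit 0) (XT.nd (nat_lit 78) (nat_lit 228) (nat_lit 0) (XT.lf (nat_lit 0) (nat_lit 706102614) (nat_lit 304) (nat_lit 4214114873) (nat_lit 76) (nat_lit 7450550917) (nat_lit 31) (nat_lit 5) (nat_lit 35) (nat_lit 5) (nat_lit 32) (nat_lit 5) (nat_lit 261) (nat_lit 243) (nat_lit 216)) (XT.lf (nat_lit 0) (nat_lit 3861139357) (nat_lit 304) (nat_lit 8656148439) (nat_lit 76) (nat_lit 484737096) (nat_lit 28) (nat_lit 5) (nat_lit 32) (nat_lit 5) (nat_lit 29) (nat_lit 5) (nat_lit 262) (nat_lit 243) (nat_lit 215))) (XT.nd (nat_lit 78) (nat_lit 152) (nat_lit 0) (XT.lf (nat_lit 0) (nat_lit 7326096057) (nat_lit 304) (nat_lit 154705733) (nat_lit 76) (nat_lit 6200502890) (nat_lit 28) (nat_lit 5)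 (nat_lit 32) (nat_lit 5) (nat_lit 29) (nat_lit 5) (nat_lit 263) (nat_lit 243) (nat_lit 214)) (XT.lf (nat_lit 0) (nat_lit 9199460435) (nat_lit 152) (nat_lit 1919772479) (nat_lit 228) (nat_lit 3293513859) (nat_lit 26) (nat_lit 5) (nat_lit 28) (nat_lit 5) (nat_lit 29) (nat_lit 5) (nat_lit 264) (nat_lit 243) (nat_lit 213)))) (XT.nd (nat_lit 156) (nat_lit 304) (nat_lit 0) (XT.nd (nat_lit 78) (nat_lit 0) (nat_lit 0) (XT.lf (nat_lit 0) (nat_lit 54760566) (nat_lit 304) (nat_lit 11151954916) (nat_lit 76) (nat_lit 3994200806) (nat_lit 22) (nat_lit 5) (nat_lit 26) (nat_lit 5) (nat_lit 23) (nat_lit 5) (nat_lit 265) (nat_lit 243) (nat_lit 212)) (XT.lf (nat_lit 0) (nat_lit 3596714135) (nat_lit 304) (nat_lit 2017308928) (nat_lit 76) (nat_lit 10433657784) (nat_lit 22) (nat_lit 5) (nat_lit 26) (nat_lit 5) (nat_lit 23) (nat_lit 5) (nat_lit 266) (nat_lit 243) (nat_lit 211))) (XT.nd (nat_lit 78) (nat_lit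 152) (nat_lit 0) (XT.lf (nat_lit 0) (nat_lit 7476334457) (nat_lit 228) (nat_lit 8974282220) (nat_lit 76) (nat_lit 509133424) (nat_lit 20) (nat_lit 5) (nat_lit 23) (nat_lit 5) (nat_lit 21) (nat_lit 5) (nat_lit 267) (nat_lit 243) (nat_lit 210)) (XT.lf (nat_lit 0) (nat_lit 737222326) (nat_lit 152) (nat_lit 10995991685) (nat_lit 228) (nat_lit 6208484785) (nat_lit 18) (nat_lit 5) (nat_lit 20) (nat_lit 5) (nat_lit 21) (nat_lit 5) (nat_lit 268) (nat_lit 243) (nat_lit 209))))) (XT.nd (nat_lit 312) (nat_lit 304) (nat_lit 0) (XT.nd (nat_lit 156) (nat_lit 152) (nat_lit 0) (XT.nd (nat_lit 78) (nat_lit 228) (nat_lit 0) (XT.lf (nat_lit 0) (nat_lit 11442225021) (nat_lit 152) (nat_lit 4973679132) (nat_lit 228) (nat_lit 2582275468) (nat_lit 18) (nat_lit 5) (nat_lit 20) (nat_lit 5) (nat_lit 21) (nat_lit 5) (nat_lit 269) (nat_lit 243) (nat_lit 208)) (XT.lf (nat_lit 0) (nat_lit 1292981530) (nat_lit 228)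 (nat_lit 17328200344) (nat_lit 76) (nat_lit 1517084201) (nat_lit 15) (nat_lit 5) (nat_lit 18) (nat_lit 5) (nat_lit 16) (nat_lit 5) (nat_lit 270) (nat_lit 243) (nat_lit 207))) (XT.nd (nat_lit 78) (nat_lit 152) (nat_lit 0) (XT.lf (nat_lit 0) (nat_lit 5542563276) (nat_lit 228) (nat_lit 7314588887) (nat_lit 76) (nat_lit 8502747280) (nat_lit 15) (nat_lit 5) (nat_lit 18) (nat_lit 5) (nat_lit 16) (nat_lit 5) (nat_lit 271) (nat_lit 243) (nat_lit 206)) (XT.lf (nat_lit 0) (nat_lit 3522832717) (nat_lit 152) (nat_lit 6604948813) (nat_lit 228) (nat_lit 12551879329) (nat_lit 13) (nat_lit 5) (nat_lit 15) (nat_lit 5) (nat_lit 16) (nat_lit 5) (nat_lit 272) (nat_lit 243) (nat_lit 205)))) (XT.nd (nat_lit 156) (nat_lit 228) (nat_lit 0) (XT.nd (nat_lit 78) (nat_lit 76) (nat_lit 0) (XT.lf (nat_lit 0) (nat_lit 15154876434) (nat_lit 228) (nat_lit 8703207776) (nat_lit 76) (nat_lit 243333496) (nat_lit 13) (nat_lit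 5) (nat_lit 16) (nat_lit 5) (nat_lit 14) (nat_lit 4) (nat_lit 273) (nat_lit 243) (nat_lit 204)) (XT.lf (nat_lit 0) (nat_lit 2472393841) (nat_lit 76) (nat_lit 18209174238) (nat_lit 152) (nat_lit 4950630634) (nat_lit 12) (nat_lit 5) (nat_lit 13) (nat_lit 5) (nat_lit 14) (nat_lit 4) (nat_lit 274) (nat_lit 243) (nat_lit 203))) (XT.nd (nat_lit 78) (nat_lit 228) (nat_lit 0) (XT.lf (nat_lit 0) (nat_lit 14774330025) (nat_lit 76) (nat_lit 11977792406) (nat_lit 152) (nat_lit 528376987) (nat_lit 12) (nat_lit 5) (nat_lit 13) (nat_lit 5) (nat_lit 14) (nat_lit 4) (nat_lit 275) (nat_lit 243) (nat_lit 202)) (XT.nd (nat_lit 78) (nat_lit 152) (nat_lit 0) (XT.lf (nat_lit 0) (nat_lit 4064637315) (nat_lit 152) (nat_lit 1140931125) (nat_lit 76) (nat_lit 23854259869) (nat_lit 11) (nat_lit 5) (nat_lit 13) (nat_lit 5) (nat_lit 12) (nat_lit 5) (nat_lit 276) (nat_lit 243) (nat_lit 201)) (XT.lf (nat_lit 0) (nat_lit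 9177158746) (nat_lit 228) (nat_lit 19588722913) (nat_lit 76) (nat_lit 2206777109) (nat_lit 9) (nat_lit 5) (nat_lit 12) (nat_lit 5) (nat_lit 10) (nat_lit 4) (nat_lit 277) (nat_lit 243) (nat_lit 200))))))) (XT.nd (nat_lit 702) (nat_lit 152) (nat_lit 0) (XT.nd (nat_lit 312) (nat_lit 228) (nat_lit 0) (XT.nd (nat_lit 156) (nat_lit 0) (nat_lit 0) (XT.nd (nat_lit 78) (nat_lit 76) (nat_lit 0) (XT.lf (nat_lit 0) (nat_lit 14764893373) (nat_lit 228) (nat_lit 8241752689) (nat_lit 76) (nat_lit 10028667583) (nat_lit 9) (nat_lit 5) (nat_lit 12) (nat_lit 5) (nat_lit 10) (nat_lit 4) (nat_lit 278) (nat_lit 243) (nat_lit 199)) (XT.lf (nat_lit 0) (nat_lit 4080938815) (nat_lit 76) (nat_lit 16743752473) (nat_lit 152) (nat_lit 14437137909) (nat_lit 8) (nat_lit 5) (nat_lit 9) (nat_lit 5) (nat_lit 10) (nat_lit 4) (nat_lit 279) (nat_lit 243) (nat_lit 198))) (XT.nd (nat_lit 78) (nat_lit 0) (nat_lit 0) (XT.lf (nat_lit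 0) (nat_lit 17623826879) (nat_lit 76) (nat_lit 9852270612) (nat_lit 152) (nat_lit 10185120350) (nat_lit 8) (nat_lit 5) (nat_lit 9) (nat_lit 5) (nat_lit 10) (nat_lit 4) (nat_lit 280) (nat_lit 243) (nat_lit 197)) (XT.lf (nat_lit 0) (nat_lit 32194656087) (nat_lit 76) (nat_lit 2430940137) (nat_lit 152) (nat_lit 5628748524) (nat_lit 8) (nat_lit 5) (nat_lit 9) (nat_lit 5) (nat_lit 10) (nat_lit 4) (nat_lit 281) (nat_lit 243) (nat_lit 196)))) (XT.nd (nat_lit 156) (nat_lit 76) (nat_lit 0) (XT.nd (nat_lit 78) (nat_lit 76) (nat_lit 0) (XT.lf (nat_lit 0) (nat_lit 4892926684) (nat_lit 76) (nat_lit 37585893527) (nat_lit 76) (nat_lit 569593119) (nat_lit 7) (nat_lit 4) (nat_lit 8) (nat_lit 5) (nat_lit 8) (nat_lit 4) (nat_lit 282) (nat_lit 243) (nat_lit 195)) (XT.lf (nat_lit 0) (nat_lit 4890524247) (nat_lit 152) (nat_lit 27060654497) (nat_lit 76) (nat_lit 14103434458) (nat_lit 6) (nat_lit 5) (nat_lit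 8) (nat_lit 5) (nat_lit 7) (nat_lit 4) (nat_lit 283) (nat_lit 243) (nat_lit 194))) (XT.nd (nat_lit 78) (nat_lit 76) (nat_lit 0) (XT.lf (nat_lit 0) (nat_lit 10739235455) (nat_lit 152) (nat_lit 15135545405) (nat_lit 76) (nat_lit 23427539463) (nat_lit 6) (nat_lit 5) (nat_lit 8) (nat_lit 5) (nat_lit 7) (nat_lit 4) (nat_lit 284) (nat_lit 243) (nat_lit 193)) (XT.nd (nat_lit 78) (nat_lit 76) (nat_lit 0) (XT.lf (nat_lit 0) (nat_lit 17029430072) (nat_lit 152) (nat_lit 2300599112) (nat_lit 76) (nat_lit 33481195829) (nat_lit 6) (nat_lit 5) (nat_lit 8) (nat_lit 5) (nat_lit 7) (nat_lit 4) (nat_lit 285) (nat_lit 243) (nat_lit 192)) (XT.lf (nat_lit 0) (nat_lit 11901154593) (nat_lit 76) (nat_lit 12083039107) (nat_lit 152) (nat_lit 32608636561) (nat_lit 5) (nat_lit 5) (nat_lit 6) (nat_lit 5) (nat_lit 7) (nat_lit 4) (nat_lit 286) (nat_lit 243) (nat_lit 191)))))) (XT.nd (nat_lit 312) (nat_lit 76) (nat_lit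 0) (XT.nd (nat_lit 156) (nat_lit 76) (nat_lit 0) (XT.nd (nat_lit 78) (nat_lit 0) (nat_lit 0) (XT.lf (nat_lit 0) (nat_lit 27282080132) (nat_lit 76) (nat_lit 4230077126) (nat_lit 152) (nat_lit 29164017449) (nat_lit 5) (nat_lit 5) (nat_lit 6) (nat_lit 5) (nat_lit 7) (nat_lit 4) (nat_lit 287) (nat_lit 243) (nat_lit 190)) (XT.lf (nat_lit 0) (nat_lit 39686967021) (nat_lit 152) (nat_lit 21296198297) (nat_lit 0) (nat_lit 4100838820) (nat_lit 5) (nat_lit 5) (nat_lit 7) (nat_lit 4) (nat_lit 5) (nat_lit 4) (nat_lit 288) (nat_lit 243) (nat_lit 189))) (XT.nd (nat_lit 78) (nat_lit 76) (nat_lit 0) (XT.lf (nat_lit 0) (nat_lit 48566937649) (nat_lit 152) (nat_lit 8336166937) (nat_lit 0) (nat_lit 12938840873) (nat_lit 5) (nat_lit 5) (nat_lit 7) (nat_lit 4) (nat_lit 5) (nat_lit 4) (nat_lit 289) (nat_lit 243) (nat_lit 188)) (XT.lf (nat_lit 0) (nat_lit 5814958018) (nat_lit 76) (nat_lit 52414477604) (nat_lit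 76) (nat_lit 16747521037) (nat_lit 4) (nat_lit 4) (nat_lit 5) (nat_lit 5) (nat_lit 5) (nat_lit 4) (nat_lit 290) (nat_lit 243) (nat_lit 187)))) (XT.nd (nat_lit 156) (nat_lit 76) (nat_lit 0) (XT.nd (nat_lit 78) (nat_lit 0) (nat_lit 0) (XT.lf (nat_lit 0) (nat_lit 21365413947) (nat_lit 76) (nat_lit 47426978854) (nat_lit 76) (nat_lit 11724040999) (nat_lit 4) (nat_lit 4) (nat_lit 5) (nat_lit 5) (nat_lit 5) (nat_lit 4) (nat_lit 291) (nat_lit 243) (nat_lit 186)) (XT.lf (nat_lit 0) (nat_lit 38131720372) (nat_lit 76) (nat_lit 42052229810) (nat_lit 76) (nat_lit 6315975947) (nat_lit 4) (nat_lit 4) (nat_lit 5) (nat_lit 5) (nat_lit 5) (nat_lit 4) (nat_lit 292) (nat_lit 243) (nat_lit 185))) (XT.nd (nat_lit 78) (nat_lit 76) (nat_lit 0) (XT.lf (nat_lit 0) (nat_lit 56213233183) (nat_lit 76) (nat_lit 36258380107) (nat_lit 76) (nat_lit 491278089) (nat_lit 4) (nat_lit 4) (nat_lit 5) (nat_lit 5) (nat_lit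 5) (nat_lit 4) (nat_lit 293) (nat_lit 243) (nat_lit 184)) (XT.nd (nat_lit 78) (nat_lit 0) (nat_lit 0) (XT.lf (nat_lit 0) (nat_lit 5599426960) (nat_lit 152) (nat_lit 24316839855) (nat_lit 76) (nat_lit 70022846121) (nat_lit 3) (nat_lit 5) (nat_lit 5) (nat_lit 5) (nat_lit 4) (nat_lit 4) (nat_lit 294) (nat_lit 243) (nat_lit 183)) (XT.lf (nat_lit 0) (nat_lit 12147117863) (nat_lit 152) (nat_lit 10920520826) (nat_lit 76) (nat_lit 84406070382) (nat_lit 3) (nat_lit 5) (nat_lit 5) (nat_lit 5) (nat_lit 4) (nat_lit 4) (nat_lit 295) (nat_lit 243) (nat_lit 182))))))))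
noncomputable def xc57 : XT := (XT.nd (nat_lit 1326) (nat_lit 0) (nat_lit 0) (XT.nd (nat_lit 624) (nat_lit 76) (nat_lit 0) (XT.nd (nat_lit 312) (nat_lit 0) (nat_lit 0) (XT.nd (nat_lit 156) (nat_lit 0) (nat_lit 0) (XT.nd (nat_lit 78) (nat_lit 0) (nat_lit 0) (XT.lf (nat_lit 0) (nat_lit 3642951926) (nat_lit 76) (nat_lit 15620244479) (nat_lit 152) (nat_lit 96345672512) (nat_lit 2) (nat_lit 5) (nat_lit 3) (nat_lit 5) (nat_lit 4) (nat_lit 4) (nat_lit 296) (nat_lit 243) (nat_lit 181)) (XT.lf (nat_lit 0) (nat_lit 19741240874) (nat_lit 76) (nat_lit 7385840050) (nat_lit 152) (nat_lit 97258857459) (nat_lit 2) (nat_lit 5) (nat_lit 3) (nat_lit 5) (nat_lit 4) (nat_lit 4) (nat_lit 297) (nat_lit 243) (nat_lit 180))) (XT.nd (nat_lit 78) (nat_lit 0) (nat_lit 0) (XT.lf (nat_lit 0) (nat_lit 35632645036) (nat_lit 152) (nat_lit 96780485308) (nat_lit 0) (nat_lit 1451435743) (nat_lit 2) (nat_lit 5) (nat_lit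 4) (nat_lit 4) (nat_lit 2) (nat_lit 4) (nat_lit 298) (nat_lit 243) (nat_lit 179)) (XT.lf (nat_lit 0) (nat_lit 44933040619) (nat_lit 152) (nat_lit 88429426183) (nat_lit 0) (nat_lit 10733317450) (nat_lit 2) (nat_lit 5) (nat_lit 4) (nat_lit 4) (nat_lit 2) (nat_lit 4) (nat_lit 299) (nat_lit 243) (nat_lit 178)))) (XT.nd (nat_lit 156) (nat_lit 0) (nat_lit 0) (XT.nd (nat_lit 78) (nat_lit 0) (nat_lit 0) (XT.lf (nat_lit 0) (nat_lit 54968067466) (nat_lit 152) (nat_lit 79426718715) (nat_lit 0) (nat_lit 20751201818) (nat_lit 2) (nat_lit 5) (nat_lit 4) (nat_lit 4) (nat_lit 2) (nat_lit 4) (nat_lit 300) (nat_lit 243) (nat_lit 177)) (XT.lf (nat_lit 0) (nat_lit 65797192403) (nat_lit 152) (nat_lit 69719013527) (nat_lit 0) (nat_lit 31564454090) (nat_lit 2) (nat_lit 5) (nat_lit 4) (nat_lit 4) (nat_lit 2) (nat_lit 4) (nat_lit 301) (nat_lit 243) (nat_lit 176))) (XT.nd (nat_lit 78) (nat_lit 0) (nat_lit 0)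 (XT.lf (nat_lit 0) (nat_lit 77484588023) (nat_lit 152) (nat_lit 59248783475) (nat_lit 0) (nat_lit 43237152797) (nat_lit 2) (nat_lit 5) (nat_lit 4) (nat_lit 4) (nat_lit 2) (nat_lit 4) (nat_lit 302) (nat_lit 243) (nat_lit 175)) (XT.lf (nat_lit 0) (nat_lit 90099512965) (nat_lit 152) (nat_lit 47953982754) (nat_lit 0) (nat_lit 55838469487) (nat_lit 2) (nat_lit 5) (nat_lit 4) (nat_lit 4) (nat_lit 2) (nat_lit 4) (nat_lit 303) (nat_lit 243) (nat_lit 174))))) (XT.nd (nat_lit 312) (nat_lit 0) (nat_lit 0) (XT.nd (nat_lit 156) (nat_lit 76) (nat_lit 0) (XT.nd (nat_lit 78) (nat_lit 0) (nat_lit 0) (XT.lf (nat_lit 0) (nat_lit 103716722340) (nat_lit 152) (nat_lit 35767679209) (nat_lit 0) (nat_lit 69443078630) (nat_lit 2) (nat_lit 5) (nat_lit 4) (nat_lit 4) (nat_lit 2) (nat_lit 4) (nat_lit 304) (nat_lit 243) (nat_lit 173)) (XT.lf (nat_lit 0) (nat_lit 118416910724) (nat_lit 152) (nat_lit 22617657710) (nat_lit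 0) (nat_lit 84131600130) (nat_lit 2) (nat_lit 5) (nat_lit 4) (nat_lit 4) (nat_lit 2) (nat_lit 4) (nat_lit 305) (nat_lit 243) (nat_lit 172))) (XT.nd (nat_lit 78) (nat_lit 76) (nat_lit 0) (XT.lf (nat_lit 0) (nat_lit 134287190342) (nat_lit 152) (nat_lit 8425992203) (nat_lit 0) (nat_lit 99991077080) (nat_lit 2) (nat_lit 5) (nat_lit 4) (nat_lit 4) (nat_lit 2) (nat_lit 4) (nat_lit 306) (nat_lit 243) (nat_lit 171)) (XT.lf (nat_lit 0) (nat_lit 7119277408) (nat_lit 76) (nat_lit 144413481761) (nat_lit 76) (nat_lit 110107366027) (nat_lit 1) (nat_lit 4) (nat_lit 2) (nat_lit 5) (nat_lit 2) (nat_lit 4) (nat_lit 307) (nat_lit 243) (nat_lit 170)))) (XT.nd (nat_lit 156) (nat_lit 0) (nat_lit 0) (XT.nd (nat_lit 78) (nat_lit 0) (nat_lit 0) (XT.lf (nat_lit 0) (nat_lit 24199884369) (nat_lit 76) (nat_lit 146099642520) (nat_lit 76) (nat_lit 111784265239) (nat_lit 1) (nat_lit 4) (nat_lit 2) (nat_lit 5) (nat_lit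 2) (nat_lit 4) (nat_lit 308) (nat_lit 243) (nat_lit 169)) (XT.lf (nat_lit 0) (nat_lit 42638445735) (nat_lit 76) (nat_lit 147924355143) (nat_lit 76) (nat_lit 113600402354) (nat_lit 1) (nat_lit 4) (nat_lit 2) (nat_lit 5) (nat_lit 2) (nat_lit 4) (nat_lit 309) (nat_lit 243) (nat_lit 168))) (XT.nd (nat_lit 78) (nat_lit 0) (nat_lit 0) (XT.lf (nat_lit 0) (nat_lit 62544227056) (nat_lit 76) (nat_lit 149898432741) (nat_lit 76) (nat_lit 115566539667) (nat_lit 1) (nat_lit 4) (nat_lit 2) (nat_lit 5) (nat_lit 2) (nat_lit 4) (nat_lit 310) (nat_lit 243) (nat_lit 167)) (XT.nd (nat_lit 78) (nat_lit 0) (nat_lit 0) (XT.lf (nat_lit 0) (nat_lit 84035188516) (nat_lit 76) (nat_lit 152033573551) (nat_lit 76) (nat_lit 117694328362) (nat_lit 1) (nat_lit 4) (nat_lit 2) (nat_lit 5) (nat_lit 2) (nat_lit 4) (nat_lit 311) (nat_lit 243) (nat_lit 166)) (XT.lf (nat_lit 0) (nat_lit 107238683962) (nat_lit 76) (nat_lit 154342430260)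 (nat_lit 76) (nat_lit 119996377557) (nat_lit 1) (nat_lit 4) (nat_lit 2) (nat_lit 5) (nat_lit 2) (nat_lit 4) (nat_lit 312) (nat_lit 243) (nat_lit 165))))))) (XT.nd (nat_lit 32136) (nat_lit 0) (nat_lit 5168) (XT.nd (nat_lit 312) (nat_lit 0) (nat_lit 0) (XT.nd (nat_lit 156) (nat_lit 0) (nat_lit 0) (XT.nd (nat_lit 78) (nat_lit 0) (nat_lit 0) (XT.lf (nat_lit 0) (nat_lit 132292215589) (nat_lit 76) (nat_lit 156838684981) (nat_lit 76) (nat_lit 122486329025) (nat_lit 1) (nat_lit 4) (nat_lit 2) (nat_lit 5) (nat_lit 2) (nat_lit 4) (nat_lit 313) (nat_lit 243) (nat_lit 164)) (XT.lf (nat_lit 0) (nat_lit 159344248769) (nat_lit 76) (nat_lit 159537130336) (nat_lit 76) (nat_lit 125178938033) (nat_lit 1) (nat_lit 4) (nat_lit 2) (nat_lit 5) (nat_lit 2) (nat_lit 4) (nat_lit 314) (nat_lit 243) (nat_lit 163))) (XT.nd (nat_lit 78) (nat_lit 0) (nat_lit 0) (XT.lf (nat_lit 0) (nat_lit 188555091848) (nat_lit 76)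 (nat_lit 162453757111) (nat_lit 76) (nat_lit 128090160784) (nat_lit 1) (nat_lit 4) (nat_lit 2) (nat_lit 5) (nat_lit 2) (nat_lit 4) (nat_lit 315) (nat_lit 243) (nat_lit 162)) (XT.lf (nat_lit 0) (nat_lit 220097846117) (nat_lit 76) (nat_lit 165605849021) (nat_lit 76) (nat_lit 131237248968) (nat_lit 1) (nat_lit 4) (nat_lit 2) (nat_lit 5) (nat_lit 2) (nat_lit 4) (nat_lit 316) (nat_lit 243) (nat_lit 161)))) (XT.nd (nat_lit 156) (nat_lit 0) (nat_lit 0) (XT.nd (nat_lit 78) (nat_lit 0) (nat_lit 0) (XT.lf (nat_lit 0) (nat_lit 254159431602) (nat_lit 76) (nat_lit 169012085128) (nat_lit 76) (nat_lit 134638851996) (nat_lit 1) (nat_lit 4) (nat_lit 2) (nat_lit 5) (nat_lit 2) (nat_lit 4) (nat_lit 317) (nat_lit 243) (nat_lit 160)) (XT.lf (nat_lit 0) (nat_lit 290941694735) (nat_lit 76) (nat_lit 172692650537) (nat_lit 76) (nat_lit 138315127516) (nat_lit 1) (nat_lit 4) (nat_lit 2) (nat_lit 5) (nat_lit 2)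 (nat_lit 4) (nat_lit 318) (nat_lit 243) (nat_lit 159))) (XT.nd (nat_lit 78) (nat_lit 0) (nat_lit 0) (XT.lf (nat_lit 0) (nat_lit 330662604483) (nat_lit 76) (nat_lit 176669356004) (nat_lit 76) (nat_lit 142287860864) (nat_lit 1) (nat_lit 4) (nat_lit 2) (nat_lit 5) (nat_lit 2) (nat_lit 4) (nat_lit 319) (nat_lit 243) (nat_lit 158)) (XT.nd (nat_lit 78) (nat_lit 0) (nat_lit 0) (XT.lf (nat_lit 0) (nat_lit 373557544015) (nat_lit 76) (nat_lit 180965767192) (nat_lit 76) (nat_lit 146580594164) (nat_lit 1) (nat_lit 4) (nat_lit 2) (nat_lit 5) (nat_lit 2) (nat_lit 4) (nat_lit 320) (nat_lit 243) (nat_lit 157)) (XT.lf (nat_lit 0) (nat_lit 419880705565) (nat_lit 76) (nat_lit 185607344315) (nat_lit 76) (nat_lit 151218765835) (nat_lit 1) (nat_lit 4) (nat_lit 2) (nat_lit 5) (nat_lit 2) (nat_lit 4) (nat_lit 321) (nat_lit 243) (nat_lit 156)))))) (XT.nd (nat_lit 312) (nat_lit 912) (nat_lit 0) (XT.nd (nat_lit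 156) (nat_lit 456) (nat_lit 0) (XT.nd (nat_lit 78) (nat_lit 0) (nat_lit 0) (XT.lf (nat_lit 0) (nat_lit 248352028) (nat_lit 0) (nat_lit 248352028) (nat_lit 380) (nat_lit 2967977109) (nat_lit 87) (nat_lit 5) (nat_lit 87) (nat_lit 3) (nat_lit 92) (nat_lit 3) (nat_lit 244) (nat_lit 244) (nat_lit 232)) (XT.lf (nat_lit 0) (nat_lit 3629450654) (nat_lit 380) (nat_lit 1874257742) (nat_lit 456) (nat_lit 1555591457) (nat_lit 87) (nat_lit 5) (nat_lit 92) (nat_lit 3) (nat_lit 93) (nat_lit 5) (nat_lit 245) (nat_lit 244) (nat_lit 231))) (XT.nd (nat_lit 78) (nat_lit 456) (nat_lit 0) (XT.lf (nat_lit 76) (nat_lit 2990931929) (nat_lit 0) (nat_lit 3285279717) (nat_lit 456) (nat_lit 935171982) (nat_lit 88) (nat_lit 5) (nat_lit 87) (nat_lit 5) (nat_lit 93) (nat_lit 5) (nat_lit 246) (nat_lit 244) (nat_lit 230)) (XT.lf (nat_lit 76) (nat_lit 786923170) (nat_lit 0) (nat_lit 717352638) (nat_lit 532) (nat_lit 5881447233)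 (nat_lit 82) (nat_lit 5) (nat_lit 81) (nat_lit 5) (nat_lit 88) (nat_lit 5) (nat_lit 247) (nat_lit 244) (nat_lit 229)))) (XT.nd (nat_lit 156) (nat_lit 988) (nat_lit 0) (XT.nd (nat_lit 78) (nat_lit 0) (nat_lit 0) (XT.lf (nat_lit 0) (nat_lit 3986601865) (nat_lit 456) (nat_lit 1430054462) (nat_lit 532) (nat_lit 2163985617) (nat_lit 82) (nat_lit 5) (nat_lit 88) (nat_lit 5) (nat_lit 89) (nat_lit 5) (nat_lit 248) (nat_lit 244) (nat_lit 228)) (XT.lf (nat_lit 76) (nat_lit 4127529422) (nat_lit 0) (nat_lit 2406546357) (nat_lit 532) (nat_lit 1265068255) (nat_lit 83) (nat_lit 5) (nat_lit 82) (nat_lit 5) (nat_lit 89) (nat_lit 5) (nat_lit 249) (nat_lit 244) (nat_lit 227))) (XT.nd (nat_lit 78) (nat_lit 532) (nat_lit 0) (XT.lf (nat_lit 0) (nat_lit 1081783952) (nat_lit 532) (nat_lit 6011516051) (nat_lit 76) (nat_lit 948433488) (nat_lit 76) (nat_lit 5) (nat_lit 83) (nat_lit 5) (nat_lit 77) (nat_lit 5)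 (nat_lit 250) (nat_lit 244) (nat_lit 226)) (XT.nd (nat_lit 78) (nat_lit 532) (nat_lit 0) (XT.lf (nat_lit 0) (nat_lit 3490713483) (nat_lit 532) (nat_lit 195268026) (nat_lit 76) (nat_lit 4621855080) (nat_lit 76) (nat_lit 5) (nat_lit 83) (nat_lit 5) (nat_lit 77) (nat_lit 5) (nat_lit 251) (nat_lit 244) (nat_lit 225)) (XT.lf (nat_lit 0) (nat_lit 6016635869) (nat_lit 608) (nat_lit 2459114357) (nat_lit 76) (nat_lit 124260052) (nat_lit 69) (nat_lit 5) (nat_lit 77) (nat_lit 5) (nat_lit 70) (nat_lit 5) (nat_lit 252) (nat_lit 244) (nat_lit 224))))))))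
noncomputable def xc58 : XT := (XT.nd (nat_lit 1326) (nat_lit 988) (nat_lit 0) (XT.nd (nat_lit 624) (nat_lit 1292) (nat_lit 0) (XT.nd (nat_lit 312) (nat_lit 912) (nat_lit 0) (XT.nd (nat_lit 156) (nat_lit 304) (nat_lit 0) (XT.nd (nat_lit 78) (nat_lit 760) (nat_lit 0) (XT.lf (nat_lit 0) (nat_lit 3997956180) (nat_lit 608) (nat_lit 4712295772) (nat_lit 684) (nat_lit 207947390) (nat_lit 61) (nat_lit 5) (nat_lit 69) (nat_lit 5) (nat_lit 70) (nat_lit 5) (nat_lit 253) (nat_lit 244) (nat_lit 223)) (XT.lf (nat_lit 0) (nat_lit 1672660003) (nat_lit 684) (nat_lit 523205563) (nat_lit 760) (nat_lit 7069260715) (nat_lit 51) (nat_lit 5) (nat_lit 60) (nat_lit 5) (nat_lit 61) (nat_lit 5) (nat_lit 254) (nat_lit 244) (nat_lit 222))) (XT.nd (nat_lit 78) (nat_lit 304) (nat_lit 0) (XT.lf (nat_lit 0) (nat_lit 4788085797) (nat_lit 760) (nat_lit 879282594) (nat_lit 76) (nat_lit 3972852363) (nat_lit 51) (nat_lit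 5) (nat_lit 61) (nat_lit 5) (nat_lit 52) (nat_lit 5) (nat_lit 255) (nat_lit 244) (nat_lit 221)) (XT.lf (nat_lit 0) (nat_lit 6433721473) (nat_lit 304) (nat_lit 1127779825) (nat_lit 380) (nat_lit 2485828020) (nat_lit 47) (nat_lit 5) (nat_lit 51) (nat_lit 5) (nat_lit 52) (nat_lit 5) (nat_lit 256) (nat_lit 244) (nat_lit 220)))) (XT.nd (nat_lit 156) (nat_lit 304) (nat_lit 0) (XT.nd (nat_lit 78) (nat_lit 228) (nat_lit 0) (XT.lf (nat_lit 0) (nat_lit 73485012) (nat_lit 380) (nat_lit 6684522213) (nat_lit 76) (nat_lit 3729263121) (nat_lit 42) (nat_lit 5) (nat_lit 47) (nat_lit 5) (nat_lit 43) (nat_lit 5) (nat_lit 257) (nat_lit 244) (nat_lit 219)) (XT.lf (nat_lit 0) (nat_lit 811991189) (nat_lit 228) (nat_lit 1912725439) (nat_lit 304) (nat_lit 8237508673) (nat_lit 39) (nat_lit 5) (nat_lit 42) (nat_lit 5) (nat_lit 43) (nat_lit 5) (nat_lit 258) (nat_lit 244) (nat_lit 218))) (XT.nd (nat_lit 78) (nat_lit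 304) (nat_lit 0) (XT.lf (nat_lit 0) (nat_lit 5642534449) (nat_lit 304) (nat_lit 2510668098) (nat_lit 76) (nat_lit 3319776992) (nat_lit 39) (nat_lit 5) (nat_lit 43) (nat_lit 5) (nat_lit 40) (nat_lit 5) (nat_lit 259) (nat_lit 244) (nat_lit 217)) (XT.lf (nat_lit 0) (nat_lit 5767887066) (nat_lit 304) (nat_lit 3041067275) (nat_lit 380) (nat_lit 3215369153) (nat_lit 35) (nat_lit 5) (nat_lit 39) (nat_lit 5) (nat_lit 40) (nat_lit 5) (nat_lit 260) (nat_lit 244) (nat_lit 216))))) (XT.nd (nat_lit 312) (nat_lit 608) (nat_lit 0) (XT.nd (nat_lit 156) (nat_lit 380) (nat_lit 0) (XT.nd (nat_lit 78) (nat_lit 76) (nat_lit 0) (XT.lf (nat_lit 0) (nat_lit 2083704733) (nat_lit 228) (nat_lit 10159352347) (nat_lit 304) (nat_lit 376451472) (nat_lit 32) (nat_lit 5) (nat_lit 35) (nat_lit 5) (nat_lit 36) (nat_lit 5) (nat_lit 261) (nat_lit 244) (nat_lit 215)) (XT.lf (nat_lit 0) (nat_lit 2667884699) (nat_lit 304)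 (nat_lit 2160010122) (nat_lit 76) (nat_lit 8429493211) (nat_lit 31) (nat_lit 5) (nat_lit 35) (nat_lit 5) (nat_lit 32) (nat_lit 5) (nat_lit 262) (nat_lit 244) (nat_lit 214))) (XT.nd (nat_lit 78) (nat_lit 152) (nat_lit 0) (XT.lf (nat_lit 0) (nat_lit 5977513208) (nat_lit 304) (nat_lit 6971742129) (nat_lit 76) (nat_lit 995356345) (nat_lit 28) (nat_lit 5) (nat_lit 32) (nat_lit 5) (nat_lit 29) (nat_lit 5) (nat_lit 263) (nat_lit 244) (nat_lit 213)) (XT.lf (nat_lit 0) (nat_lit 2100994402) (nat_lit 152) (nat_lit 7517586844) (nat_lit 228) (nat_lit 5065240279) (nat_lit 26) (nat_lit 5) (nat_lit 28) (nat_lit 5) (nat_lit 29) (nat_lit 5) (nat_lit 264) (nat_lit 244) (nat_lit 212)))) (XT.nd (nat_lit 156) (nat_lit 304) (nat_lit 0) (XT.nd (nat_lit 78) (nat_lit 304) (nat_lit 0) (XT.lf (nat_lit 0) (nat_lit 12040603461) (nat_lit 152) (nat_lit 1550661030) (nat_lit 228) (nat_lit 1889203624) (nat_lit 26) (nat_lit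 5) (nat_lit 28) (nat_lit 5) (nat_lit 29) (nat_lit 5) (nat_lit 265) (nat_lit 244) (nat_lit 211)) (XT.lf (nat_lit 0) (nat_lit 1594772796) (nat_lit 304) (nat_lit 9900409426) (nat_lit 76) (nat_lit 4839581574) (nat_lit 22) (nat_lit 5) (nat_lit 26) (nat_lit 5) (nat_lit 23) (nat_lit 5) (nat_lit 266) (nat_lit 244) (nat_lit 210))) (XT.nd (nat_lit 78) (nat_lit 304) (nat_lit 0) (XT.lf (nat_lit 0) (nat_lit 5306332177) (nat_lit 304) (nat_lit 193784491) (nat_lit 76) (nat_lit 11755243650) (nat_lit 22) (nat_lit 5) (nat_lit 26) (nat_lit 5) (nat_lit 23) (nat_lit 5) (nat_lit 267) (nat_lit 244) (nat_lit 209)) (XT.nd (nat_lit 78) (nat_lit 152) (nat_lit 0) (XT.lf (nat_lit 0) (nat_lit 9429266079) (nat_lit 228) (nat_lit 7730225109) (nat_lit 76) (nat_lit 1084630130) (nat_lit 20) (nat_lit 5) (nat_lit 23) (nat_lit 5) (nat_lit 21) (nat_lit 5) (nat_lit 268) (nat_lit 244) (nat_lit 208)) (XT.lf (nat_lit 0) (nat_lit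 2672933685) (nat_lit 152) (nat_lit 11282705987) (nat_lit 228) (nat_lit 5352884800) (nat_lit 18) (nat_lit 5) (nat_lit 20) (nat_lit 5) (nat_lit 21) (nat_lit 5) (nat_lit 269) (nat_lit 244) (nat_lit 207))))))) (XT.nd (nat_lit 702) (nat_lit 304) (nat_lit 0) (XT.nd (nat_lit 312) (nat_lit 304) (nat_lit 0) (XT.nd (nat_lit 156) (nat_lit 152) (nat_lit 0) (XT.nd (nat_lit 78) (nat_lit 228) (nat_lit 0) (XT.lf (nat_lit 0) (nat_lit 14095319294) (nat_lit 152) (nat_lit 4822531765) (nat_lit 228) (nat_lit 1536747535) (nat_lit 18) (nat_lit 5) (nat_lit 20) (nat_lit 5) (nat_lit 21) (nat_lit 5) (nat_lit 270) (nat_lit 244) (nat_lit 206)) (XT.lf (nat_lit 0) (nat_lit 2553951338) (nat_lit 228) (nat_lit 16957978086) (nat_lit 76) (nat_lit 2175992564) (nat_lit 15) (nat_lit 5) (nat_lit 18) (nat_lit 5) (nat_lit 16) (nat_lit 5) (nat_lit 271) (nat_lit 244) (nat_lit 205))) (XT.nd (nat_lit 78) (nat_lit 152) (nat_lit 0)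 (XT.lf (nat_lit 0) (nat_lit 7057756566) (nat_lit 228) (nat_lit 6273387216) (nat_lit 76) (nat_lit 9680690791) (nat_lit 15) (nat_lit 5) (nat_lit 18) (nat_lit 5) (nat_lit 16) (nat_lit 5) (nat_lit 272) (nat_lit 244) (nat_lit 204)) (XT.lf (nat_lit 0) (nat_lit 5360348112) (nat_lit 152) (nat_lit 6594341109) (nat_lit 228) (nat_lit 12485484864) (nat_lit 13) (nat_lit 5) (nat_lit 15) (nat_lit 5) (nat_lit 16) (nat_lit 5) (nat_lit 273) (nat_lit 244) (nat_lit 203)))) (XT.nd (nat_lit 156) (nat_lit 228) (nat_lit 0) (XT.nd (nat_lit 78) (nat_lit 76) (nat_lit 0) (XT.lf (nat_lit 0) (nat_lit 17316433702) (nat_lit 228) (nat_lit 7916933783) (nat_lit 76) (nat_lit 745903997) (nat_lit 13) (nat_lit 5) (nat_lit 16) (nat_lit 5) (nat_lit 14) (nat_lit 4) (nat_lit 274) (nat_lit 244) (nat_lit 202)) (XT.lf (nat_lit 0) (nat_lit 4088286989) (nat_lit 76) (nat_lit 19148805552) (nat_lit 152) (nat_lit 4398038339) (nat_lit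 12) (nat_lit 5) (nat_lit 13) (nat_lit 5) (nat_lit 14) (nat_lit 4) (nat_lit 275) (nat_lit 244) (nat_lit 201))) (XT.nd (nat_lit 78) (nat_lit 152) (nat_lit 0) (XT.lf (nat_lit 0) (nat_lit 297876620) (nat_lit 152) (nat_lit 12154295766) (nat_lit 76) (nat_lit 16966412197) (nat_lit 11) (nat_lit 5) (nat_lit 13) (nat_lit 5) (nat_lit 12) (nat_lit 5) (nat_lit 276) (nat_lit 244) (nat_lit 200)) (XT.nd (nat_lit 78) (nat_lit 0) (nat_lit 0) (XT.lf (nat_lit 0) (nat_lit 12124841) (nat_lit 152) (nat_lit 5165150071) (nat_lit 228) (nat_lit 26165848475) (nat_lit 9) (nat_lit 5) (nat_lit 11) (nat_lit 5) (nat_lit 12) (nat_lit 5) (nat_lit 277) (nat_lit 244) (nat_lit 199)) (XT.lf (nat_lit 0) (nat_lit 10665775547) (nat_lit 228) (nat_lit 19933506944) (nat_lit 76) (nat_lit 2811505797) (nat_lit 9) (nat_lit 5) (nat_lit 12) (nat_lit 5) (nat_lit 10) (nat_lit 4) (nat_lit 278) (nat_lit 244) (nat_lit 198)))))) (XT.nd (nat_lit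 312) (nat_lit 228) (nat_lit 0) (XT.nd (nat_lit 156) (nat_lit 0) (nat_lit 0) (XT.nd (nat_lit 78) (nat_lit 76) (nat_lit 0) (XT.lf (nat_lit 0) (nat_lit 16644644196) (nat_lit 228) (nat_lit 7769320865) (nat_lit 76) (nat_lit 11227429988) (nat_lit 9) (nat_lit 5) (nat_lit 12) (nat_lit 5) (nat_lit 10) (nat_lit 4) (nat_lit 279) (nat_lit 244) (nat_lit 197)) (XT.lf (nat_lit 0) (nat_lit 5490000526) (nat_lit 76) (nat_lit 17664382492) (nat_lit 152) (nat_lit 14893525472) (nat_lit 8) (nat_lit 5) (nat_lit 9) (nat_lit 5) (nat_lit 10) (nat_lit 4) (nat_lit 280) (nat_lit 244) (nat_lit 196))) (XT.nd (nat_lit 78) (nat_lit 0) (nat_lit 0) (XT.lf (nat_lit 0) (nat_lit 20036128034) (nat_lit 76) (nat_lit 10252609503) (nat_lit 152) (nat_lit 10353093432) (nat_lit 8) (nat_lit 5) (nat_lit 9) (nat_lit 5) (nat_lit 10) (nat_lit 4) (nat_lit 281) (nat_lit 244) (nat_lit 195)) (XT.lf (nat_lit 0) (nat_lit 35698372097) (nat_lit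 76) (nat_lit 2266301683) (nat_lit 152) (nat_lit 5480125677) (nat_lit 8) (nat_lit 5) (nat_lit 9) (nat_lit 5) (nat_lit 10) (nat_lit 4) (nat_lit 282) (nat_lit 244) (nat_lit 194)))) (XT.nd (nat_lit 156) (nat_lit 76) (nat_lit 0) (XT.nd (nat_lit 78) (nat_lit 76) (nat_lit 0) (XT.lf (nat_lit 0) (nat_lit 6195399011) (nat_lit 76) (nat_lit 40228021630) (nat_lit 76) (nat_lit 40216407) (nat_lit 7) (nat_lit 4) (nat_lit 8) (nat_lit 5) (nat_lit 8) (nat_lit 4) (nat_lit 283) (nat_lit 244) (nat_lit 193)) (XT.lf (nat_lit 0) (nat_lit 5797083184) (nat_lit 152) (nat_lit 28363737365) (nat_lit 76) (nat_lit 15551218956) (nat_lit 6) (nat_lit 5) (nat_lit 8) (nat_lit 5) (nat_lit 7) (nat_lit 4) (nat_lit 284) (nat_lit 244) (nat_lit 192))) (XT.nd (nat_lit 78) (nat_lit 76) (nat_lit 0) (XT.lf (nat_lit 0) (nat_lit 12075519660) (nat_lit 152) (nat_lit 15548454323) (nat_lit 76) (nat_lit 25597584973) (nat_lit 6) (nat_lit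 5) (nat_lit 8) (nat_lit 5) (nat_lit 7) (nat_lit 4) (nat_lit 285) (nat_lit 244) (nat_lit 191)) (XT.nd (nat_lit 78) (nat_lit 76) (nat_lit 0) (XT.lf (nat_lit 0) (nat_lit 18833585745) (nat_lit 152) (nat_lit 1745818602) (nat_lit 76) (nat_lit 36433619599) (nat_lit 6) (nat_lit 5) (nat_lit 8) (nat_lit 5) (nat_lit 7) (nat_lit 4) (nat_lit 286) (nat_lit 244) (nat_lit 190)) (XT.lf (nat_lit 0) (nat_lit 13559966816) (nat_lit 76) (nat_lit 12763071505) (nat_lit 152) (nat_lit 34775278641) (nat_lit 5) (nat_lit 5) (nat_lit 6) (nat_lit 5) (nat_lit 7) (nat_lit 4) (nat_lit 287) (nat_lit 244) (nat_lit 189))))))))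
noncomputable def xc59 : XT := (XT.nd (nat_lit 1404) (nat_lit 76) (nat_lit 0) (XT.nd (nat_lit 702) (nat_lit 76) (nat_lit 0) (XT.nd (nat_lit 312) (nat_lit 76) (nat_lit 0) (XT.nd (nat_lit 156) (nat_lit 76) (nat_lit 0) (XT.nd (nat_lit 78) (nat_lit 0) (nat_lit 0) (XT.lf (nat_lit 0) (nat_lit 30119016779) (nat_lit 76) (nat_lit 4303102989) (nat_lit 152) (nat_lit 31087834359) (nat_lit 5) (nat_lit 5) (nat_lit 6) (nat_lit 5) (nat_lit 7) (nat_lit 4) (nat_lit 288) (nat_lit 244) (nat_lit 188)) (XT.lf (nat_lit 0) (nat_lit 43225936661) (nat_lit 152) (nat_lit 22379022436) (nat_lit 0) (nat_lit 4666763777) (nat_lit 5) (nat_lit 5) (nat_lit 7) (nat_lit 4) (nat_lit 5) (nat_lit 4) (nat_lit 289) (nat_lit 244) (nat_lit 187))) (XT.nd (nat_lit 78) (nat_lit 76) (nat_lit 0) (XT.lf (nat_lit 0) (nat_lit 52789341067) (nat_lit 152) (nat_lit 8428179067) (nat_lit 0) (nat_lit 14194186895) (nat_lit 5) (nat_lit 5) (nat_lit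 7) (nat_lit 4) (nat_lit 5) (nat_lit 4) (nat_lit 290) (nat_lit 244) (nat_lit 186)) (XT.lf (nat_lit 0) (nat_lit 6830052248) (nat_lit 76) (nat_lit 56378405524) (nat_lit 76) (nat_lit 17749935344) (nat_lit 4) (nat_lit 4) (nat_lit 5) (nat_lit 5) (nat_lit 5) (nat_lit 4) (nat_lit 291) (nat_lit 244) (nat_lit 185)))) (XT.nd (nat_lit 156) (nat_lit 76) (nat_lit 0) (XT.nd (nat_lit 78) (nat_lit 0) (nat_lit 0) (XT.lf (nat_lit 0) (nat_lit 23583811496) (nat_lit 76) (nat_lit 51008886895) (nat_lit 76) (nat_lit 12349568560) (nat_lit 4) (nat_lit 4) (nat_lit 5) (nat_lit 5) (nat_lit 5) (nat_lit 4) (nat_lit 292) (nat_lit 244) (nat_lit 184)) (XT.lf (nat_lit 0) (nat_lit 41653706551) (nat_lit 76) (nat_lit 45219880170) (nat_lit 76) (nat_lit 6531998728) (nat_lit 4) (nat_lit 4) (nat_lit 5) (nat_lit 5) (nat_lit 5) (nat_lit 4) (nat_lit 293) (nat_lit 244) (nat_lit 183))) (XT.nd (nat_lit 78) (nat_lit 76) (nat_lit 0)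 (XT.lf (nat_lit 0) (nat_lit 61146818273) (nat_lit 76) (nat_lit 38977080122) (nat_lit 76) (nat_lit 262751359) (nat_lit 4) (nat_lit 4) (nat_lit 5) (nat_lit 5) (nat_lit 5) (nat_lit 4) (nat_lit 294) (nat_lit 244) (nat_lit 182)) (XT.nd (nat_lit 78) (nat_lit 0) (nat_lit 0) (XT.lf (nat_lit 0) (nat_lit 6287433688) (nat_lit 152) (nat_lit 25849577961) (nat_lit 76) (nat_lit 75784746977) (nat_lit 3) (nat_lit 5) (nat_lit 5) (nat_lit 5) (nat_lit 4) (nat_lit 4) (nat_lit 295) (nat_lit 244) (nat_lit 181)) (XT.lf (nat_lit 0) (nat_lit 13341158191) (nat_lit 152) (nat_lit 11412117044) (nat_lit 76) (nat_lit 91306771907) (nat_lit 3) (nat_lit 5) (nat_lit 5) (nat_lit 5) (nat_lit 4) (nat_lit 4) (nat_lit 296) (nat_lit 244) (nat_lit 180)))))) (XT.nd (nat_lit 312) (nat_lit 0) (nat_lit 0) (XT.nd (nat_lit 156) (nat_lit 0) (nat_lit 0) (XT.nd (nat_lit 78) (nat_lit 0) (nat_lit 0) (XT.lf (nat_lit 0) (nat_lit 4299830298)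 (nat_lit 76) (nat_lit 16715933785) (nat_lit 152) (nat_lit 103830826612) (nat_lit 2) (nat_lit 5) (nat_lit 3) (nat_lit 5) (nat_lit 4) (nat_lit 4) (nat_lit 297) (nat_lit 244) (nat_lit 179)) (XT.lf (nat_lit 0) (nat_lit 21658912567) (nat_lit 76) (nat_lit 7834179243) (nat_lit 152) (nat_lit 104833547813) (nat_lit 2) (nat_lit 5) (nat_lit 3) (nat_lit 5) (nat_lit 4) (nat_lit 4) (nat_lit 298) (nat_lit 244) (nat_lit 178))) (XT.nd (nat_lit 78) (nat_lit 0) (nat_lit 0) (XT.lf (nat_lit 0) (nat_lit 38666654486) (nat_lit 152) (nat_lit 104202256547) (nat_lit 0) (nat_lit 1695297107) (nat_lit 2) (nat_lit 5) (nat_lit 4) (nat_lit 4) (nat_lit 2) (nat_lit 4) (nat_lit 299) (nat_lit 244) (nat_lit 177)) (XT.lf (nat_lit 0) (nat_lit 48697496690) (nat_lit 152) (nat_lit 95206865847) (nat_lit 0) (nat_lit 11710266646) (nat_lit 2) (nat_lit 5) (nat_lit 4) (nat_lit 4) (nat_lit 2) (nat_lit 4) (nat_lit 300) (nat_lit 244)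 (nat_lit 176)))) (XT.nd (nat_lit 156) (nat_lit 0) (nat_lit 0) (XT.nd (nat_lit 78) (nat_lit 0) (nat_lit 0) (XT.lf (nat_lit 0) (nat_lit 59522746957) (nat_lit 152) (nat_lit 85505935443) (nat_lit 0) (nat_lit 22520820001) (nat_lit 2) (nat_lit 5) (nat_lit 4) (nat_lit 4) (nat_lit 2) (nat_lit 4) (nat_lit 301) (nat_lit 244) (nat_lit 175)) (XT.lf (nat_lit 0) (nat_lit 71206554919) (nat_lit 152) (nat_lit 75041978341) (nat_lit 0) (nat_lit 34191019712) (nat_lit 2) (nat_lit 5) (nat_lit 4) (nat_lit 4) (nat_lit 2) (nat_lit 4) (nat_lit 302) (nat_lit 244) (nat_lit 174))) (XT.nd (nat_lit 78) (nat_lit 0) (nat_lit 0) (XT.lf (nat_lit 0) (nat_lit 83818157956) (nat_lit 152) (nat_lit 63752985905) (nat_lit 0) (nat_lit 46790022516) (nat_lit 2) (nat_lit 5) (nat_lit 4) (nat_lit 4) (nat_lit 2) (nat_lit 4) (nat_lit 303) (nat_lit 244) (nat_lit 173)) (XT.nd (nat_lit 78) (nat_lit 0) (nat_lit 0) (XT.lf (nat_lit 0) (nat_lit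 97432291494) (nat_lit 152) (nat_lit 51572060404) (nat_lit 0) (nat_lit 60392489171) (nat_lit 2) (nat_lit 5) (nat_lit 4) (nat_lit 4) (nat_lit 2) (nat_lit 4) (nat_lit 304) (nat_lit 244) (nat_lit 172)) (XT.lf (nat_lit 0) (nat_lit 112129631880) (nat_lit 152) (nat_lit 38427018574) (nat_lit 0) (nat_lit 75079026887) (nat_lit 2) (nat_lit 5) (nat_lit 4) (nat_lit 4) (nat_lit 2) (nat_lit 4) (nat_lit 305) (nat_lit 244) (nat_lit 171))))))) (XT.nd (nat_lit 702) (nat_lit 0) (nat_lit 0) (XT.nd (nat_lit 312) (nat_lit 0) (nat_lit 0) (XT.nd (nat_lit 156) (nat_lit 76) (nat_lit 0) (XT.nd (nat_lit 78) (nat_lit 0) (nat_lit 0) (XT.lf (nat_lit 0) (nat_lit 127997274463) (nat_lit 152) (nat_lit 24239963871) (nat_lit 0) (nat_lit 90936666999) (nat_lit 2) (nat_lit 5) (nat_lit 4) (nat_lit 4) (nat_lit 2) (nat_lit 4) (nat_lit 306) (nat_lit 244) (nat_lit 170)) (XT.lf (nat_lit 0) (nat_lit 145129249720) (nat_lit 152) (nat_lit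 8926824861) (nat_lit 0) (nat_lit 108059380707) (nat_lit 2) (nat_lit 5) (nat_lit 4) (nat_lit 4) (nat_lit 2) (nat_lit 4) (nat_lit 307) (nat_lit 244) (nat_lit 169))) (XT.nd (nat_lit 78) (nat_lit 0) (nat_lit 0) (XT.lf (nat_lit 0) (nat_lit 7854537228) (nat_lit 76) (nat_lit 155895174574) (nat_lit 76) (nat_lit 118816730055) (nat_lit 1) (nat_lit 4) (nat_lit 2) (nat_lit 5) (nat_lit 2) (nat_lit 4) (nat_lit 308) (nat_lit 244) (nat_lit 168)) (XT.lf (nat_lit 0) (nat_lit 26289317366) (nat_lit 76) (nat_lit 157721516026) (nat_lit 76) (nat_lit 120635131223) (nat_lit 1) (nat_lit 4) (nat_lit 2) (nat_lit 5) (nat_lit 2) (nat_lit 4) (nat_lit 309) (nat_lit 244) (nat_lit 167)))) (XT.nd (nat_lit 156) (nat_lit 0) (nat_lit 0) (XT.nd (nat_lit 78) (nat_lit 0) (nat_lit 0) (XT.lf (nat_lit 0) (nat_lit 46191597549) (nat_lit 76) (nat_lit 159697101799) (nat_lit 76) (nat_lit 122603364881) (nat_lit 1) (nat_lit 4) (nat_lit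 2) (nat_lit 5) (nat_lit 2) (nat_lit 4) (nat_lit 310) (nat_lit 244) (nat_lit 166)) (XT.lf (nat_lit 0) (nat_lit 67679317216) (nat_lit 76) (nat_lit 161833639068) (nat_lit 76) (nat_lit 124733094635) (nat_lit 1) (nat_lit 4) (nat_lit 2) (nat_lit 5) (nat_lit 2) (nat_lit 4) (nat_lit 311) (nat_lit 244) (nat_lit 165))) (XT.nd (nat_lit 78) (nat_lit 0) (nat_lit 0) (XT.lf (nat_lit 0) (nat_lit 90879811001) (nat_lit 76) (nat_lit 164143788794) (nat_lit 76) (nat_lit 127036941108) (nat_lit 1) (nat_lit 4) (nat_lit 2) (nat_lit 5) (nat_lit 2) (nat_lit 4) (nat_lit 312) (nat_lit 244) (nat_lit 164)) (XT.nd (nat_lit 78) (nat_lit 0) (nat_lit 0) (XT.lf (nat_lit 0) (nat_lit 115930563312) (nat_lit 76) (nat_lit 166641240754) (nat_lit 76) (nat_lit 129528556721) (nat_lit 1) (nat_lit 4) (nat_lit 2) (nat_lit 5) (nat_lit 2) (nat_lit 4) (nat_lit 313) (nat_lit 244) (nat_lit 163)) (XT.lf (nat_lit 0) (nat_lit 142980023052)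 (nat_lit 76) (nat_lit 169340794662) (nat_lit 76) (nat_lit 132222706606) (nat_lit 1) (nat_lit 4) (nat_lit 2) (nat_lit 5) (nat_lit 2) (nat_lit 4) (nat_lit 314) (nat_lit 244) (nat_lit 162)))))) (XT.nd (nat_lit 312) (nat_lit 0) (nat_lit 0) (XT.nd (nat_lit 156) (nat_lit 0) (nat_lit 0) (XT.nd (nat_lit 78) (nat_lit 0) (nat_lit 0) (XT.lf (nat_lit 0) (nat_lit 172188483315) (nat_lit 76) (nat_lit 172258447876) (nat_lit 76) (nat_lit 135135356094) (nat_lit 1) (nat_lit 4) (nat_lit 2) (nat_lit 5) (nat_lit 2) (nat_lit 4) (nat_lit 315) (nat_lit 244) (nat_lit 161)) (XT.lf (nat_lit 0) (nat_lit 203729031273) (nat_lit 76) (nat_lit 175411490192) (nat_lit 76) (nat_lit 138283765330) (nat_lit 1) (nat_lit 4) (nat_lit 2) (nat_lit 5) (nat_lit 2) (nat_lit 4) (nat_lit 316) (nat_lit 244) (nat_lit 160))) (XT.nd (nat_lit 78) (nat_lit 0) (nat_lit 0) (XT.lf (nat_lit 0) (nat_lit 237788573878) (nat_lit 76) (nat_lit 178818606306)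 (nat_lit 76) (nat_lit 141686591555) (nat_lit 1) (nat_lit 4) (nat_lit 2) (nat_lit 5) (nat_lit 2) (nat_lit 4) (nat_lit 317) (nat_lit 244) (nat_lit 159)) (XT.lf (nat_lit 0) (nat_lit 274568945456) (nat_lit 76) (nat_lit 182499986535) (nat_lit 76) (nat_lit 145363999665) (nat_lit 1) (nat_lit 4) (nat_lit 2) (nat_lit 5) (nat_lit 2) (nat_lit 4) (nat_lit 318) (nat_lit 244) (nat_lit 158)))) (XT.nd (nat_lit 156) (nat_lit 0) (nat_lit 0) (XT.nd (nat_lit 78) (nat_lit 0) (nat_lit 0) (XT.lf (nat_lit 0) (nat_lit 314288103763) (nat_lit 76) (nat_lit 186477446465) (nat_lit 76) (nat_lit 149337781707) (nat_lit 1) (nat_lit 4) (nat_lit 2) (nat_lit 5) (nat_lit 2) (nat_lit 4) (nat_lit 319) (nat_lit 244) (nat_lit 157)) (XT.lf (nat_lit 0) (nat_lit 357181421591) (nat_lit 76) (nat_lit 190774556230) (nat_lit 76) (nat_lit 153631486020) (nat_lit 1) (nat_lit 4) (nat_lit 2) (nat_lit 5) (nat_lit 2) (nat_lit 4) (nat_lit 320)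 (nat_lit 244) (nat_lit 156))) (XT.nd (nat_lit 31590) (nat_lit 0) (nat_lit 6004) (XT.lf (nat_lit 0) (nat_lit 403503081564) (nat_lit 76) (nat_lit 195416780183) (nat_lit 76) (nat_lit 158270556777) (nat_lit 1) (nat_lit 4) (nat_lit 2) (nat_lit 5) (nat_lit 2) (nat_lit 4) (nat_lit 321) (nat_lit 244) (nat_lit 155)) (XT.nd (nat_lit 78) (nat_lit 532) (nat_lit 0) (XT.lf (nat_lit 0) (nat_lit 1522909302) (nat_lit 0) (nat_lit 1522909302) (nat_lit 380) (nat_lit 553565473) (nat_lit 87) (nat_lit 5) (nat_lit 87) (nat_lit 3) (nat_lit 92) (nat_lit 3) (nat_lit 245) (nat_lit 245) (nat_lit 230)) (XT.lf (nat_lit 76) (nat_lit 590747128) (nat_lit 0) (nat_lit 558911704) (nat_lit 532) (nat_lit 6210522752) (nat_lit 81) (nat_lit 5) (nat_lit 80) (nat_lit 3) (nat_lit 87) (nat_lit 5) (nat_lit 246) (nat_lit 245) (nat_lit 229))))))))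
noncomputable def xc60 : XT := (XT.nd (nat_lit 1326) (nat_lit 1748) (nat_lit 0) (XT.nd (nat_lit 624) (nat_lit 2204) (nat_lit 0) (XT.nd (nat_lit 312) (nat_lit 1140) (nat_lit 0) (XT.nd (nat_lit 156) (nat_lit 456) (nat_lit 0) (XT.nd (nat_lit 78) (nat_lit 0) (nat_lit 0) (XT.lf (nat_lit 0) (nat_lit 3429557376) (nat_lit 456) (nat_lit 1859238811) (nat_lit 532) (nat_lit 2252159895) (nat_lit 81) (nat_lit 5) (nat_lit 87) (nat_lit 5) (nat_lit 88) (nat_lit 5) (nat_lit 247) (nat_lit 245) (nat_lit 228)) (XT.lf (nat_lit 76) (nat_lit 3416353939) (nat_lit 0) (nat_lit 2329090559) (nat_lit 532) (nat_lit 1999385974) (nat_lit 82) (nat_lit 5) (nat_lit 81) (nat_lit 5) (nat_lit 88) (nat_lit 5) (nat_lit 248) (nat_lit 245) (nat_lit 227))) (XT.nd (nat_lit 78) (nat_lit 0) (nat_lit 0) (XT.lf (nat_lit 0) (nat_lit 138529959) (nat_lit 532) (nat_lit 6870698096) (nat_lit 608) (nat_lit 963431252) (nat_lit 75) (nat_lit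 5) (nat_lit 82) (nat_lit 5) (nat_lit 83) (nat_lit 5) (nat_lit 249) (nat_lit 245) (nat_lit 226)) (XT.lf (nat_lit 0) (nat_lit 2308175924) (nat_lit 532) (nat_lit 1303127340) (nat_lit 608) (nat_lit 4610311040) (nat_lit 75) (nat_lit 5) (nat_lit 82) (nat_lit 5) (nat_lit 83) (nat_lit 5) (nat_lit 250) (nat_lit 245) (nat_lit 225)))) (XT.nd (nat_lit 156) (nat_lit 684) (nat_lit 0) (XT.nd (nat_lit 78) (nat_lit 532) (nat_lit 0) (XT.lf (nat_lit 0) (nat_lit 4555881708) (nat_lit 532) (nat_lit 3763161356) (nat_lit 76) (nat_lit 177214500) (nat_lit 76) (nat_lit 5) (nat_lit 83) (nat_lit 5) (nat_lit 77) (nat_lit 5) (nat_lit 251) (nat_lit 245) (nat_lit 224)) (XT.lf (nat_lit 0) (nat_lit 2392802545) (nat_lit 532) (nat_lit 4551151407) (nat_lit 608) (nat_lit 1851813307) (nat_lit 69) (nat_lit 5) (nat_lit 76) (nat_lit 5) (nat_lit 77) (nat_lit 5) (nat_lit 252) (nat_lit 245) (nat_lit 223))) (XT.nd (nat_lit 78) (nat_lit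 608) (nat_lit 0) (XT.lf (nat_lit 0) (nat_lit 303437964) (nat_lit 608) (nat_lit 77525636) (nat_lit 76) (nat_lit 8743145900) (nat_lit 68) (nat_lit 5) (nat_lit 76) (nat_lit 5) (nat_lit 69) (nat_lit 5) (nat_lit 253) (nat_lit 245) (nat_lit 222)) (XT.lf (nat_lit 0) (nat_lit 2597885512) (nat_lit 684) (nat_lit 2725860543) (nat_lit 76) (nat_lit 4152625663) (nat_lit 60) (nat_lit 5) (nat_lit 69) (nat_lit 5) (nat_lit 61) (nat_lit 5) (nat_lit 254) (nat_lit 245) (nat_lit 221))))) (XT.nd (nat_lit 312) (nat_lit 836) (nat_lit 0) (XT.nd (nat_lit 156) (nat_lit 380) (nat_lit 0) (XT.nd (nat_lit 78) (nat_lit 304) (nat_lit 0) (XT.lf (nat_lit 0) (nat_lit 4278649470) (nat_lit 684) (nat_lit 738224272) (nat_lit 760) (nat_lit 4843589345) (nat_lit 51) (nat_lit 5) (nat_lit 60) (nat_lit 5) (nat_lit 61) (nat_lit 5) (nat_lit 255) (nat_lit 245) (nat_lit 220)) (XT.lf (nat_lit 0) (nat_lit 1525834658) (nat_lit 304) (nat_lit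 6116005170) (nat_lit 380) (nat_lit 2633464754) (nat_lit 47) (nat_lit 5) (nat_lit 51) (nat_lit 5) (nat_lit 52) (nat_lit 5) (nat_lit 256) (nat_lit 245) (nat_lit 219))) (XT.nd (nat_lit 78) (nat_lit 380) (nat_lit 0) (XT.lf (nat_lit 0) (nat_lit 9269584708) (nat_lit 304) (nat_lit 1198710494) (nat_lit 380) (nat_lit 256061519) (nat_lit 47) (nat_lit 5) (nat_lit 51) (nat_lit 5) (nat_lit 52) (nat_lit 5) (nat_lit 257) (nat_lit 245) (nat_lit 218)) (XT.lf (nat_lit 0) (nat_lit 2293560512) (nat_lit 380) (nat_lit 4794533291) (nat_lit 76) (nat_lit 4117161518) (nat_lit 42) (nat_lit 5) (nat_lit 47) (nat_lit 5) (nat_lit 43) (nat_lit 5) (nat_lit 258) (nat_lit 245) (nat_lit 217)))) (XT.nd (nat_lit 156) (nat_lit 608) (nat_lit 0) (XT.nd (nat_lit 78) (nat_lit 0) (nat_lit 0) (XT.lf (nat_lit 0) (nat_lit 3196324473) (nat_lit 228) (nat_lit 1832763543) (nat_lit 304) (nat_lit 6696270775) (nat_lit 39) (nat_lit 5) (nat_lit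 42) (nat_lit 5) (nat_lit 43) (nat_lit 5) (nat_lit 259) (nat_lit 245) (nat_lit 216)) (XT.lf (nat_lit 0) (nat_lit 8029151581) (nat_lit 304) (nat_lit 461909459) (nat_lit 76) (nat_lit 3794176854) (nat_lit 39) (nat_lit 5) (nat_lit 43) (nat_lit 5) (nat_lit 40) (nat_lit 5) (nat_lit 260) (nat_lit 245) (nat_lit 215))) (XT.nd (nat_lit 78) (nat_lit 304) (nat_lit 0) (XT.lf (nat_lit 0) (nat_lit 8381164718) (nat_lit 304) (nat_lit 2957967490) (nat_lit 380) (nat_lit 1547698081) (nat_lit 35) (nat_lit 5) (nat_lit 39) (nat_lit 5) (nat_lit 40) (nat_lit 5) (nat_lit 261) (nat_lit 245) (nat_lit 214)) (XT.nd (nat_lit 78) (nat_lit 0) (nat_lit 0) (XT.lf (nat_lit 0) (nat_lit 1370606107) (nat_lit 304) (nat_lit 9158214965) (nat_lit 76) (nat_lit 3005156432) (nat_lit 31) (nat_lit 5) (nat_lit 35) (nat_lit 5) (nat_lit 32) (nat_lit 5) (nat_lit 262) (nat_lit 245) (nat_lit 213)) (XT.lf (nat_lit 0) (nat_lit 4514797878)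 (nat_lit 304) (nat_lit 282713246) (nat_lit 76) (nat_lit 9432126176) (nat_lit 31) (nat_lit 5) (nat_lit 35) (nat_lit 5) (nat_lit 32) (nat_lit 5) (nat_lit 263) (nat_lit 245) (nat_lit 212))))))) (XT.nd (nat_lit 702) (nat_lit 532) (nat_lit 0) (XT.nd (nat_lit 312) (nat_lit 532) (nat_lit 0) (XT.nd (nat_lit 156) (nat_lit 304) (nat_lit 0) (XT.nd (nat_lit 78) (nat_lit 152) (nat_lit 0) (XT.lf (nat_lit 0) (nat_lit 8005339352) (nat_lit 304) (nat_lit 5491674413) (nat_lit 76) (nat_lit 1479511844) (nat_lit 28) (nat_lit 5) (nat_lit 32) (nat_lit 5) (nat_lit 29) (nat_lit 5) (nat_lit 264) (nat_lit 245) (nat_lit 211)) (XT.lf (nat_lit 0) (nat_lit 4218320428) (nat_lit 152) (nat_lit 7635018562) (nat_lit 228) (nat_lit 3926208257) (nat_lit 26) (nat_lit 5) (nat_lit 28) (nat_lit 5) (nat_lit 29) (nat_lit 5) (nat_lit 265) (nat_lit 245) (nat_lit 210))) (XT.nd (nat_lit 78) (nat_lit 304) (nat_lit 0) (XT.lf (nat_lit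 0) (nat_lit 14808709584) (nat_lit 152) (nat_lit 1226588700) (nat_lit 228) (nat_lit 610477650) (nat_lit 26) (nat_lit 5) (nat_lit 28) (nat_lit 5) (nat_lit 29) (nat_lit 5) (nat_lit 266) (nat_lit 245) (nat_lit 209)) (XT.lf (nat_lit 0) (nat_lit 3038911019) (nat_lit 304) (nat_lit 8854563335) (nat_lit 76) (nat_lit 5677575177) (nat_lit 22) (nat_lit 5) (nat_lit 26) (nat_lit 5) (nat_lit 23) (nat_lit 5) (nat_lit 267) (nat_lit 245) (nat_lit 208)))) (XT.nd (nat_lit 156) (nat_lit 380) (nat_lit 0) (XT.nd (nat_lit 78) (nat_lit 0) (nat_lit 0) (XT.lf (nat_lit 0) (nat_lit 1541799637) (nat_lit 152) (nat_lit 5432144631) (nat_lit 228) (nat_lit 11595367798) (nat_lit 20) (nat_lit 5) (nat_lit 22) (nat_lit 5) (nat_lit 23) (nat_lit 5) (nat_lit 268) (nat_lit 245) (nat_lit 207)) (XT.lf (nat_lit 0) (nat_lit 11345151317) (nat_lit 228) (nat_lit 6666544620) (nat_lit 76) (nat_lit 1629876220) (nat_lit 20) (nat_lit 5)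 (nat_lit 23) (nat_lit 5) (nat_lit 21) (nat_lit 5) (nat_lit 269) (nat_lit 245) (nat_lit 206))) (XT.nd (nat_lit 78) (nat_lit 228) (nat_lit 0) (XT.lf (nat_lit 0) (nat_lit 4495764927) (nat_lit 152) (nat_lit 11676950523) (nat_lit 228) (nat_lit 4621754500) (nat_lit 18) (nat_lit 5) (nat_lit 20) (nat_lit 5) (nat_lit 21) (nat_lit 5) (nat_lit 270) (nat_lit 245) (nat_lit 205)) (XT.nd (nat_lit 78) (nat_lit 228) (nat_lit 0) (XT.lf (nat_lit 0) (nat_lit 16712756455) (nat_lit 152) (nat_lit 4737619545) (nat_lit 228) (nat_lit 586204852) (nat_lit 18) (nat_lit 5) (nat_lit 20) (nat_lit 5) (nat_lit 21) (nat_lit 5) (nat_lit 271) (nat_lit 245) (nat_lit 204)) (XT.lf (nat_lit 0) (nat_lit 3750663952) (nat_lit 228) (nat_lit 16808719312) (nat_lit 76) (nat_lit 2810927273) (nat_lit 15) (nat_lit 5) (nat_lit 18) (nat_lit 5) (nat_lit 16) (nat_lit 5) (nat_lit 272) (nat_lit 245) (nat_lit 203)))))) (XT.nd (nat_lit 312)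 (nat_lit 304) (nat_lit 0) (XT.nd (nat_lit 156) (nat_lit 76) (nat_lit 0) (XT.nd (nat_lit 78) (nat_lit 152) (nat_lit 0) (XT.lf (nat_lit 0) (nat_lit 8541262745) (nat_lit 228) (nat_lit 5380909099) (nat_lit 76) (nat_lit 10881863929) (nat_lit 15) (nat_lit 5) (nat_lit 18) (nat_lit 5) (nat_lit 16) (nat_lit 5) (nat_lit 273) (nat_lit 245) (nat_lit 202)) (XT.lf (nat_lit 0) (nat_lit 7122928342) (nat_lit 152) (nat_lit 6659779680) (nat_lit 228) (nat_lit 12566504027) (nat_lit 13) (nat_lit 5) (nat_lit 15) (nat_lit 5) (nat_lit 16) (nat_lit 5) (nat_lit 274) (nat_lit 245) (nat_lit 201))) (XT.nd (nat_lit 78) (nat_lit 76) (nat_lit 0) (XT.lf (nat_lit 0) (nat_lit 19515506245) (nat_lit 228) (nat_lit 7279257438) (nat_lit 76) (nat_lit 1219759978) (nat_lit 13) (nat_lit 5) (nat_lit 16) (nat_lit 5) (nat_lit 14) (nat_lit 4) (nat_lit 275) (nat_lit 245) (nat_lit 200)) (XT.lf (nat_lit 0) (nat_lit 5631143536) (nat_lit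 76) (nat_lit 20237377842) (nat_lit 152) (nat_lit 3936573153) (nat_lit 12) (nat_lit 5) (nat_lit 13) (nat_lit 5) (nat_lit 14) (nat_lit 4) (nat_lit 276) (nat_lit 245) (nat_lit 199)))) (XT.nd (nat_lit 156) (nat_lit 76) (nat_lit 0) (XT.nd (nat_lit 78) (nat_lit 152) (nat_lit 0) (XT.lf (nat_lit 0) (nat_lit 1050667222) (nat_lit 152) (nat_lit 11974840922) (nat_lit 76) (nat_lit 18708154205) (nat_lit 11) (nat_lit 5) (nat_lit 13) (nat_lit 5) (nat_lit 12) (nat_lit 5) (nat_lit 277) (nat_lit 245) (nat_lit 198)) (XT.lf (nat_lit 0) (nat_lit 1114837575) (nat_lit 152) (nat_lit 5168784023) (nat_lit 228) (nat_lit 27530527707) (nat_lit 9) (nat_lit 5) (nat_lit 11) (nat_lit 5) (nat_lit 12) (nat_lit 5) (nat_lit 278) (nat_lit 245) (nat_lit 197))) (XT.nd (nat_lit 78) (nat_lit 76) (nat_lit 0) (XT.lf (nat_lit 0) (nat_lit 12165851807) (nat_lit 228) (nat_lit 20480250426) (nat_lit 76) (nat_lit 3403527185) (nat_lit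 9) (nat_lit 5) (nat_lit 12) (nat_lit 5) (nat_lit 10) (nat_lit 4) (nat_lit 279) (nat_lit 245) (nat_lit 196)) (XT.nd (nat_lit 78) (nat_lit 76) (nat_lit 0) (XT.lf (nat_lit 0) (nat_lit 18575117783) (nat_lit 228) (nat_lit 7420554429) (nat_lit 76) (nat_lit 12465532651) (nat_lit 9) (nat_lit 5) (nat_lit 12) (nat_lit 5) (nat_lit 10) (nat_lit 4) (nat_lit 280) (nat_lit 245) (nat_lit 195)) (XT.lf (nat_lit 0) (nat_lit 6857344092) (nat_lit 76) (nat_lit 18718419427) (nat_lit 152) (nat_lit 15486084782) (nat_lit 8) (nat_lit 5) (nat_lit 9) (nat_lit 5) (nat_lit 10) (nat_lit 4) (nat_lit 281) (nat_lit 245) (nat_lit 194))))))))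
noncomputable def xc61 : XT := (XT.nd (nat_lit 1326) (nat_lit 76) (nat_lit 0) (XT.nd (nat_lit 624) (nat_lit 228) (nat_lit 0) (XT.nd (nat_lit 312) (nat_lit 76) (nat_lit 0) (XT.nd (nat_lit 156) (nat_lit 152) (nat_lit 0) (XT.nd (nat_lit 78) (nat_lit 0) (nat_lit 0) (XT.lf (nat_lit 0) (nat_lit 22498410428) (nat_lit 76) (nat_lit 10740305610) (nat_lit 152) (nat_lit 10626782825) (nat_lit 8) (nat_lit 5) (nat_lit 9) (nat_lit 5) (nat_lit 10) (nat_lit 4) (nat_lit 282) (nat_lit 245) (nat_lit 193)) (XT.lf (nat_lit 0) (nat_lit 39349975339) (nat_lit 76) (nat_lit 2139723732) (nat_lit 152) (nat_lit 5405056026) (nat_lit 8) (nat_lit 5) (nat_lit 9) (nat_lit 5) (nat_lit 10) (nat_lit 4) (nat_lit 283) (nat_lit 245) (nat_lit 192))) (XT.nd (nat_lit 78) (nat_lit 0) (nat_lit 0) (XT.lf (nat_lit 0) (nat_lit 435101797) (nat_lit 152) (nat_lit 42691084244) (nat_lit 76) (nat_lit 7029628883) (nat_lit 6) (nat_lit 5) (nat_lit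 8) (nat_lit 5) (nat_lit 7) (nat_lit 4) (nat_lit 284) (nat_lit 245) (nat_lit 191)) (XT.lf (nat_lit 0) (nat_lit 6702651105) (nat_lit 152) (nat_lit 29894007915) (nat_lit 76) (nat_lit 17069244577) (nat_lit 6) (nat_lit 5) (nat_lit 8) (nat_lit 5) (nat_lit 7) (nat_lit 4) (nat_lit 285) (nat_lit 245) (nat_lit 190)))) (XT.nd (nat_lit 156) (nat_lit 76) (nat_lit 0) (XT.nd (nat_lit 78) (nat_lit 0) (nat_lit 0) (XT.lf (nat_lit 0) (nat_lit 13450636480) (nat_lit 152) (nat_lit 16108230262) (nat_lit 76) (nat_lit 27899028904) (nat_lit 6) (nat_lit 5) (nat_lit 8) (nat_lit 5) (nat_lit 7) (nat_lit 4) (nat_lit 286) (nat_lit 245) (nat_lit 189)) (XT.lf (nat_lit 0) (nat_lit 20719045981) (nat_lit 152) (nat_lit 1252057787) (nat_lit 76) (nat_lit 39583158365) (nat_lit 6) (nat_lit 5) (nat_lit 8) (nat_lit 5) (nat_lit 7) (nat_lit 4) (nat_lit 287) (nat_lit 245) (nat_lit 188))) (XT.nd (nat_lit 78) (nat_lit 0) (nat_lit 0)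 (XT.lf (nat_lit 0) (nat_lit 15250662529) (nat_lit 76) (nat_lit 13538394719) (nat_lit 152) (nat_lit 37178315298) (nat_lit 5) (nat_lit 5) (nat_lit 6) (nat_lit 5) (nat_lit 7) (nat_lit 4) (nat_lit 288) (nat_lit 245) (nat_lit 187)) (XT.lf (nat_lit 0) (nat_lit 33089555128) (nat_lit 76) (nat_lit 4419830389) (nat_lit 152) (nat_lit 33223948483) (nat_lit 5) (nat_lit 5) (nat_lit 6) (nat_lit 5) (nat_lit 7) (nat_lit 4) (nat_lit 289) (nat_lit 245) (nat_lit 186))))) (XT.nd (nat_lit 312) (nat_lit 152) (nat_lit 0) (XT.nd (nat_lit 156) (nat_lit 76) (nat_lit 0) (XT.nd (nat_lit 78) (nat_lit 0) (nat_lit 0) (XT.lf (nat_lit 0) (nat_lit 46996093451) (nat_lit 152) (nat_lit 23637046800) (nat_lit 0) (nat_lit 5244029649) (nat_lit 5) (nat_lit 5) (nat_lit 7) (nat_lit 4) (nat_lit 5) (nat_lit 4) (nat_lit 290) (nat_lit 245) (nat_lit 185)) (XT.lf (nat_lit 0) (nat_lit 57301453035) (nat_lit 152) (nat_lit 8609565400) (nat_lit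 0) (nat_lit 15518541077) (nat_lit 5) (nat_lit 5) (nat_lit 7) (nat_lit 4) (nat_lit 5) (nat_lit 4) (nat_lit 291) (nat_lit 245) (nat_lit 184))) (XT.nd (nat_lit 78) (nat_lit 0) (nat_lit 0) (XT.lf (nat_lit 0) (nat_lit 7847904977) (nat_lit 76) (nat_lit 60692149940) (nat_lit 76) (nat_lit 18880674876) (nat_lit 4) (nat_lit 4) (nat_lit 5) (nat_lit 5) (nat_lit 5) (nat_lit 4) (nat_lit 292) (nat_lit 245) (nat_lit 183)) (XT.lf (nat_lit 0) (nat_lit 25907042851) (nat_lit 76) (nat_lit 54907627453) (nat_lit 76) (nat_lit 13069705068) (nat_lit 4) (nat_lit 4) (nat_lit 5) (nat_lit 5) (nat_lit 5) (nat_lit 4) (nat_lit 293) (nat_lit 245) (nat_lit 182)))) (XT.nd (nat_lit 156) (nat_lit 152) (nat_lit 0) (XT.nd (nat_lit 78) (nat_lit 0) (nat_lit 0) (XT.lf (nat_lit 0) (nat_lit 45390194219) (nat_lit 76) (nat_lit 48668979478) (nat_lit 76) (nat_lit 6806568833) (nat_lit 4) (nat_lit 4) (nat_lit 5) (nat_lit 5) (nat_lit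 5) (nat_lit 4) (nat_lit 294) (nat_lit 245) (nat_lit 181)) (XT.lf (nat_lit 0) (nat_lit 66412814793) (nat_lit 76) (nat_lit 41939236249) (nat_lit 76) (nat_lit 54151289) (nat_lit 4) (nat_lit 4) (nat_lit 5) (nat_lit 5) (nat_lit 5) (nat_lit 4) (nat_lit 295) (nat_lit 245) (nat_lit 180))) (XT.nd (nat_lit 78) (nat_lit 76) (nat_lit 0) (XT.lf (nat_lit 0) (nat_lit 6996234772) (nat_lit 152) (nat_lit 27563798413) (nat_lit 76) (nat_lit 81984763674) (nat_lit 3) (nat_lit 5) (nat_lit 5) (nat_lit 5) (nat_lit 4) (nat_lit 4) (nat_lit 296) (nat_lit 245) (nat_lit 179)) (XT.nd (nat_lit 78) (nat_lit 76) (nat_lit 0) (XT.lf (nat_lit 0) (nat_lit 14599012317) (nat_lit 152) (nat_lit 11997544015) (nat_lit 76) (nat_lit 98738384899) (nat_lit 3) (nat_lit 5) (nat_lit 5) (nat_lit 5) (nat_lit 4) (nat_lit 4) (nat_lit 297) (nat_lit 245) (nat_lit 178)) (XT.lf (nat_lit 0) (nat_lit 4957124522) (nat_lit 76) (nat_lit 17921238107)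 (nat_lit 152) (nat_lit 111946535109) (nat_lit 2) (nat_lit 5) (nat_lit 3) (nat_lit 5) (nat_lit 4) (nat_lit 4) (nat_lit 298) (nat_lit 245) (nat_lit 177))))))) (XT.nd (nat_lit 702) (nat_lit 76) (nat_lit 0) (XT.nd (nat_lit 312) (nat_lit 0) (nat_lit 0) (XT.nd (nat_lit 156) (nat_lit 0) (nat_lit 0) (XT.nd (nat_lit 78) (nat_lit 0) (nat_lit 0) (XT.lf (nat_lit 0) (nat_lit 23681725388) (nat_lit 76) (nat_lit 8338718785) (nat_lit 152) (nat_lit 113043604201) (nat_lit 2) (nat_lit 5) (nat_lit 3) (nat_lit 5) (nat_lit 4) (nat_lit 4) (nat_lit 299) (nat_lit 245) (nat_lit 176)) (XT.lf (nat_lit 0) (nat_lit 41917220938) (nat_lit 152) (nat_lit 112263516302) (nat_lit 0) (nat_lit 1940442914) (nat_lit 2) (nat_lit 5) (nat_lit 4) (nat_lit 4) (nat_lit 2) (nat_lit 4) (nat_lit 300) (nat_lit 245) (nat_lit 175))) (XT.nd (nat_lit 78) (nat_lit 0) (nat_lit 0) (XT.lf (nat_lit 0) (nat_lit 52738883548) (nat_lit 152) (nat_lit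 102568858847) (nat_lit 0) (nat_lit 12748497272) (nat_lit 2) (nat_lit 5) (nat_lit 4) (nat_lit 4) (nat_lit 2) (nat_lit 4) (nat_lit 301) (nat_lit 245) (nat_lit 174)) (XT.lf (nat_lit 0) (nat_lit 64419369606) (nat_lit 152) (nat_lit 92110710031) (nat_lit 0) (nat_lit 24416383096) (nat_lit 2) (nat_lit 5) (nat_lit 4) (nat_lit 4) (nat_lit 2) (nat_lit 4) (nat_lit 302) (nat_lit 245) (nat_lit 173)))) (XT.nd (nat_lit 156) (nat_lit 0) (nat_lit 0) (XT.nd (nat_lit 78) (nat_lit 0) (nat_lit 0) (XT.lf (nat_lit 0) (nat_lit 77027896805) (nat_lit 152) (nat_lit 80827095638) (nat_lit 0) (nat_lit 37013243413) (nat_lit 2) (nat_lit 5) (nat_lit 4) (nat_lit 4) (nat_lit 2) (nat_lit 4) (nat_lit 303) (nat_lit 245) (nat_lit 172)) (XT.lf (nat_lit 0) (nat_lit 90639182345) (nat_lit 152) (nat_lit 68651149805) (nat_lit 0) (nat_lit 50613726284) (nat_lit 2) (nat_lit 5) (nat_lit 4) (nat_lit 4) (nat_lit 2) (nat_lit 4) (nat_lit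 304) (nat_lit 245) (nat_lit 171))) (XT.nd (nat_lit 78) (nat_lit 0) (nat_lit 0) (XT.lf (nat_lit 0) (nat_lit 105333885696) (nat_lit 152) (nat_lit 55510718780) (nat_lit 0) (nat_lit 65298427163) (nat_lit 2) (nat_lit 5) (nat_lit 4) (nat_lit 4) (nat_lit 2) (nat_lit 4) (nat_lit 305) (nat_lit 245) (nat_lit 170)) (XT.nd (nat_lit 78) (nat_lit 0) (nat_lit 0) (XT.lf (nat_lit 0) (nat_lit 121199086580) (nat_lit 152) (nat_lit 41327933341) (nat_lit 0) (nat_lit 81154366500) (nat_lit 2) (nat_lit 5) (nat_lit 4) (nat_lit 4) (nat_lit 2) (nat_lit 4) (nat_lit 306) (nat_lit 245) (nat_lit 169)) (XT.lf (nat_lit 0) (nat_lit 138328801004) (nat_lit 152) (nat_lit 26018747352) (nat_lit 0) (nat_lit 98275505416) (nat_lit 2) (nat_lit 5) (nat_lit 4) (nat_lit 4) (nat_lit 2) (nat_lit 4) (nat_lit 307) (nat_lit 245) (nat_lit 168)))))) (XT.nd (nat_lit 312) (nat_lit 0) (nat_lit 0) (XT.nd (nat_lit 156) (nat_lit 0) (nat_lit 0)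 (XT.nd (nat_lit 78) (nat_lit 76) (nat_lit 0) (XT.lf (nat_lit 0) (nat_lit 156824538385) (nat_lit 152) (nat_lit 9492439712) (nat_lit 0) (nat_lit 116763302513) (nat_lit 2) (nat_lit 5) (nat_lit 4) (nat_lit 4) (nat_lit 2) (nat_lit 4) (nat_lit 308) (nat_lit 245) (nat_lit 167)) (XT.lf (nat_lit 0) (nat_lit 8624976361) (nat_lit 76) (nat_lit 168305586785) (nat_lit 76) (nat_lit 128236998798) (nat_lit 1) (nat_lit 4) (nat_lit 2) (nat_lit 5) (nat_lit 2) (nat_lit 4) (nat_lit 309) (nat_lit 245) (nat_lit 166))) (XT.nd (nat_lit 78) (nat_lit 0) (nat_lit 0) (XT.lf (nat_lit 0) (nat_lit 28524014751) (nat_lit 76) (nat_lit 170282569017) (nat_lit 76) (nat_lit 130207173515) (nat_lit 1) (nat_lit 4) (nat_lit 2) (nat_lit 5) (nat_lit 2) (nat_lit 4) (nat_lit 310) (nat_lit 245) (nat_lit 165)) (XT.lf (nat_lit 0) (nat_lit 50008732756) (nat_lit 76) (nat_lit 172420399302) (nat_lit 76) (nat_lit 132338700547) (nat_lit 1)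 (nat_lit 4) (nat_lit 2) (nat_lit 5) (nat_lit 2) (nat_lit 4) (nat_lit 311) (nat_lit 245) (nat_lit 164)))) (XT.nd (nat_lit 156) (nat_lit 0) (nat_lit 0) (XT.nd (nat_lit 78) (nat_lit 0) (nat_lit 0) (XT.lf (nat_lit 0) (nat_lit 73206447226) (nat_lit 76) (nat_lit 174731746267) (nat_lit 76) (nat_lit 134644211166) (nat_lit 1) (nat_lit 4) (nat_lit 2) (nat_lit 5) (nat_lit 2) (nat_lit 4) (nat_lit 312) (nat_lit 245) (nat_lit 163)) (XT.lf (nat_lit 0) (nat_lit 98254626096) (nat_lit 76) (nat_lit 177230306780) (nat_lit 76) (nat_lit 137137367655) (nat_lit 1) (nat_lit 4) (nat_lit 2) (nat_lit 5) (nat_lit 2) (nat_lit 4) (nat_lit 313) (nat_lit 245) (nat_lit 162))) (XT.nd (nat_lit 78) (nat_lit 0) (nat_lit 0) (XT.lf (nat_lit 0) (nat_lit 125301703021) (nat_lit 76) (nat_lit 179930887128) (nat_lit 76) (nat_lit 139832944276) (nat_lit 1) (nat_lit 4) (nat_lit 2) (nat_lit 5) (nat_lit 2) (nat_lit 4) (nat_lit 314) (nat_lit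 245) (nat_lit 161)) (XT.nd (nat_lit 78) (nat_lit 0) (nat_lit 0) (XT.lf (nat_lit 0) (nat_lit 154507956973) (nat_lit 76) (nat_lit 182849490748) (nat_lit 76) (nat_lit 142746914817) (nat_lit 1) (nat_lit 4) (nat_lit 2) (nat_lit 5) (nat_lit 2) (nat_lit 4) (nat_lit 315) (nat_lit 245) (nat_lit 160)) (XT.lf (nat_lit 0) (nat_lit 186046462052) (nat_lit 76) (nat_lit 186003413070) (nat_lit 76) (nat_lit 145896547250) (nat_lit 1) (nat_lit 4) (nat_lit 2) (nat_lit 5) (nat_lit 2) (nat_lit 4) (nat_lit 316) (nat_lit 245) (nat_lit 159))))))))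
noncomputable def xc62 : XT := (XT.nd (nat_lit 32916) (nat_lit 0) (nat_lit 912) (XT.nd (nat_lit 32214) (nat_lit 0) (nat_lit 3496) (XT.nd (nat_lit 312) (nat_lit 0) (nat_lit 0) (XT.nd (nat_lit 156) (nat_lit 0) (nat_lit 0) (XT.nd (nat_lit 78) (nat_lit 0) (nat_lit 0) (XT.lf (nat_lit 0) (nat_lit 220104113101) (nat_lit 76) (nat_lit 189411344004) (nat_lit 76) (nat_lit 149300506065) (nat_lit 1) (nat_lit 4) (nat_lit 2) (nat_lit 5) (nat_lit 2) (nat_lit 4) (nat_lit 317) (nat_lit 245) (nat_lit 158)) (XT.lf (nat_lit 0) (nat_lit 256882733238) (nat_lit 76) (nat_lit 193093478695) (nat_lit 76) (nat_lit 152978962869) (nat_lit 1) (nat_lit 4) (nat_lit 2) (nat_lit 5) (nat_lit 2) (nat_lit 4) (nat_lit 318) (nat_lit 245) (nat_lit 157))) (XT.nd (nat_lit 78) (nat_lit 0) (nat_lit 0) (XT.lf (nat_lit 0) (nat_lit 296600269842) (nat_lit 76) (nat_lit 197071637203) (nat_lit 76) (nat_lit 156953715924) (nat_lit 1) (nat_lit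 4) (nat_lit 2) (nat_lit 5) (nat_lit 2) (nat_lit 4) (nat_lit 319) (nat_lit 245) (nat_lit 156)) (XT.lf (nat_lit 0) (nat_lit 339492086092) (nat_lit 76) (nat_lit 201369393798) (nat_lit 76) (nat_lit 161248319324) (nat_lit 1) (nat_lit 4) (nat_lit 2) (nat_lit 5) (nat_lit 2) (nat_lit 4) (nat_lit 320) (nat_lit 245) (nat_lit 155)))) (XT.nd (nat_lit 31746) (nat_lit 0) (nat_lit 6004) (XT.nd (nat_lit 31668) (nat_lit 0) (nat_lit 6004) (XT.lf (nat_lit 0) (nat_lit 385812355714) (nat_lit 76) (nat_lit 206012216669) (nat_lit 76) (nat_lit 165888222568) (nat_lit 1) (nat_lit 4) (nat_lit 2) (nat_lit 5) (nat_lit 2) (nat_lit 4) (nat_lit 321) (nat_lit 245) (nat_lit 154)) (XT.lf (nat_lit 0) (nat_lit 1622050748) (nat_lit 532) (nat_lit 1070914767) (nat_lit 532) (nat_lit 1070914767) (nat_lit 80) (nat_lit 3) (nat_lit 87) (nat_lit 3) (nat_lit 87) (nat_lit 5) (nat_lit 246) (nat_lit 246) (nat_lit 228))) (XT.nd (nat_lit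 78) (nat_lit 0) (nat_lit 76) (XT.lf (nat_lit 76) (nat_lit 2861666535) (nat_lit 0) (nat_lit 2490176087) (nat_lit 532) (nat_lit 2365933853) (nat_lit 81) (nat_lit 5) (nat_lit 80) (nat_lit 3) (nat_lit 87) (nat_lit 5) (nat_lit 247) (nat_lit 246) (nat_lit 227)) (XT.lf (nat_lit 76) (nat_lit 301996779) (nat_lit 0) (nat_lit 7185118655) (nat_lit 532) (nat_lit 444152758) (nat_lit 82) (nat_lit 5) (nat_lit 81) (nat_lit 5) (nat_lit 88) (nat_lit 5) (nat_lit 248) (nat_lit 246) (nat_lit 226))))) (XT.nd (nat_lit 312) (nat_lit 2052) (nat_lit 0) (XT.nd (nat_lit 156) (nat_lit 0) (nat_lit 76) (XT.nd (nat_lit 78) (nat_lit 0) (nat_lit 0) (XT.lf (nat_lit 0) (nat_lit 1521973106) (nat_lit 532) (nat_lit 2300273694) (nat_lit 608) (nat_lit 4342254088) (nat_lit 74) (nat_lit 5) (nat_lit 81) (nat_lit 5) (nat_lit 82) (nat_lit 5) (nat_lit 249) (nat_lit 246) (nat_lit 225)) (XT.lf (nat_lit 76) (nat_lit 3446780329) (nat_lit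 0) (nat_lit 65634870) (nat_lit 608) (nat_lit 4910479855) (nat_lit 75) (nat_lit 5) (nat_lit 74) (nat_lit 5) (nat_lit 82) (nat_lit 5) (nat_lit 250) (nat_lit 246) (nat_lit 224))) (XT.nd (nat_lit 78) (nat_lit 0) (nat_lit 0) (XT.lf (nat_lit 76) (nat_lit 885083985) (nat_lit 0) (nat_lit 4734322153) (nat_lit 608) (nat_lit 3085611415) (nat_lit 76) (nat_lit 5) (nat_lit 75) (nat_lit 5) (nat_lit 83) (nat_lit 5) (nat_lit 251) (nat_lit 246) (nat_lit 223)) (XT.lf (nat_lit 76) (nat_lit 7280722040) (nat_lit 0) (nat_lit 552539334) (nat_lit 608) (nat_lit 1180387369) (nat_lit 76) (nat_lit 5) (nat_lit 75) (nat_lit 5) (nat_lit 83) (nat_lit 5) (nat_lit 252) (nat_lit 246) (nat_lit 222)))) (XT.nd (nat_lit 156) (nat_lit 988) (nat_lit 0) (XT.nd (nat_lit 78) (nat_lit 608) (nat_lit 0) (XT.lf (nat_lit 0) (nat_lit 847741210) (nat_lit 608) (nat_lit 4539016340) (nat_lit 76) (nat_lit 3960353057) (nat_lit 68) (nat_lit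 5) (nat_lit 76) (nat_lit 5) (nat_lit 69) (nat_lit 5) (nat_lit 253) (nat_lit 246) (nat_lit 221)) (XT.lf (nat_lit 0) (nat_lit 2156555363) (nat_lit 608) (nat_lit 782316793) (nat_lit 684) (nat_lit 6771001796) (nat_lit 60) (nat_lit 5) (nat_lit 68) (nat_lit 5) (nat_lit 69) (nat_lit 5) (nat_lit 254) (nat_lit 246) (nat_lit 220))) (XT.nd (nat_lit 78) (nat_lit 988) (nat_lit 0) (XT.lf (nat_lit 0) (nat_lit 5219365728) (nat_lit 684) (nat_lit 728140891) (nat_lit 76) (nat_lit 4153693894) (nat_lit 60) (nat_lit 5) (nat_lit 69) (nat_lit 5) (nat_lit 61) (nat_lit 5) (nat_lit 255) (nat_lit 246) (nat_lit 219)) (XT.nd (nat_lit 78) (nat_lit 304) (nat_lit 0) (XT.lf (nat_lit 0) (nat_lit 6740434454) (nat_lit 684) (nat_lit 945740945) (nat_lit 760) (nat_lit 2838061894) (nat_lit 51) (nat_lit 5) (nat_lit 60) (nat_lit 5) (nat_lit 61) (nat_lit 5) (nat_lit 256) (nat_lit 246) (nat_lit 218)) (XT.lf (nat_lit 0) (nat_lit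 3797128761) (nat_lit 304) (nat_lit 6587422883) (nat_lit 380) (nat_lit 595407913) (nat_lit 47) (nat_lit 5) (nat_lit 51) (nat_lit 5) (nat_lit 52) (nat_lit 5) (nat_lit 257) (nat_lit 246) (nat_lit 217))))))) (XT.nd (nat_lit 702) (nat_lit 988) (nat_lit 0) (XT.nd (nat_lit 312) (nat_lit 684) (nat_lit 0) (XT.nd (nat_lit 156) (nat_lit 532) (nat_lit 0) (XT.nd (nat_lit 78) (nat_lit 0) (nat_lit 0) (XT.lf (nat_lit 0) (nat_lit 515867158) (nat_lit 304) (nat_lit 1240010716) (nat_lit 380) (nat_lit 9715939780) (nat_lit 42) (nat_lit 5) (nat_lit 46) (nat_lit 5) (nat_lit 47) (nat_lit 5) (nat_lit 258) (nat_lit 246) (nat_lit 216)) (XT.lf (nat_lit 0) (nat_lit 4375362138) (nat_lit 380) (nat_lit 3099263050) (nat_lit 76) (nat_lit 4523315429) (nat_lit 42) (nat_lit 5) (nat_lit 47) (nat_lit 5) (nat_lit 43) (nat_lit 5) (nat_lit 259) (nat_lit 246) (nat_lit 215))) (XT.nd (nat_lit 78) (nat_lit 304) (nat_lit 0) (XT.lf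 (nat_lit 0) (nat_lit 5440519790) (nat_lit 228) (nat_lit 1779641886) (nat_lit 304) (nat_lit 5345622479) (nat_lit 39) (nat_lit 5) (nat_lit 42) (nat_lit 5) (nat_lit 43) (nat_lit 5) (nat_lit 260) (nat_lit 246) (nat_lit 214)) (XT.lf (nat_lit 0) (nat_lit 1477093782) (nat_lit 304) (nat_lit 8876585908) (nat_lit 380) (nat_lit 2822706316) (nat_lit 35) (nat_lit 5) (nat_lit 39) (nat_lit 5) (nat_lit 40) (nat_lit 5) (nat_lit 261) (nat_lit 246) (nat_lit 213)))) (XT.nd (nat_lit 156) (nat_lit 380) (nat_lit 0) (XT.nd (nat_lit 78) (nat_lit 304) (nat_lit 0) (XT.lf (nat_lit 0) (nat_lit 10896519596) (nat_lit 304) (nat_lit 2914782216) (nat_lit 380) (nat_lit 21221913) (nat_lit 35) (nat_lit 5) (nat_lit 39) (nat_lit 5) (nat_lit 40) (nat_lit 5) (nat_lit 262) (nat_lit 246) (nat_lit 212)) (XT.lf (nat_lit 0) (nat_lit 2992738303) (nat_lit 304) (nat_lit 7992633564) (nat_lit 76) (nat_lit 3549525899) (nat_lit 31) (nat_lit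 5) (nat_lit 35) (nat_lit 5) (nat_lit 32) (nat_lit 5) (nat_lit 263) (nat_lit 246) (nat_lit 211))) (XT.nd (nat_lit 78) (nat_lit 152) (nat_lit 0) (XT.lf (nat_lit 0) (nat_lit 1500317556) (nat_lit 228) (nat_lit 4799536191) (nat_lit 304) (nat_lit 8991244498) (nat_lit 28) (nat_lit 5) (nat_lit 31) (nat_lit 5) (nat_lit 32) (nat_lit 5) (nat_lit 264) (nat_lit 246) (nat_lit 210)) (XT.nd (nat_lit 78) (nat_lit 152) (nat_lit 0) (XT.lf (nat_lit 0) (nat_lit 9974320245) (nat_lit 304) (nat_lit 4183917244) (nat_lit 76) (nat_lit 1944689485) (nat_lit 28) (nat_lit 5) (nat_lit 32) (nat_lit 5) (nat_lit 29) (nat_lit 5) (nat_lit 265) (nat_lit 246) (nat_lit 209)) (XT.lf (nat_lit 0) (nat_lit 6226950734) (nat_lit 152) (nat_lit 7830889296) (nat_lit 228) (nat_lit 2916358377) (nat_lit 26) (nat_lit 5) (nat_lit 28) (nat_lit 5) (nat_lit 29) (nat_lit 5) (nat_lit 266) (nat_lit 246) (nat_lit 208)))))) (XT.nd (nat_lit 312)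 (nat_lit 532) (nat_lit 0) (XT.nd (nat_lit 156) (nat_lit 152) (nat_lit 0) (XT.nd (nat_lit 78) (nat_lit 228) (nat_lit 0) (XT.lf (nat_lit 0) (nat_lit 548427087) (nat_lit 228) (nat_lit 382805690) (nat_lit 76) (nat_lit 16983066082) (nat_lit 25) (nat_lit 5) (nat_lit 28) (nat_lit 5) (nat_lit 26) (nat_lit 5) (nat_lit 267) (nat_lit 246) (nat_lit 207)) (XT.lf (nat_lit 0) (nat_lit 4410758811) (nat_lit 304) (nat_lit 7987243522) (nat_lit 76) (nat_lit 6518292746) (nat_lit 22) (nat_lit 5) (nat_lit 26) (nat_lit 5) (nat_lit 23) (nat_lit 5) (nat_lit 268) (nat_lit 246) (nat_lit 206))) (XT.nd (nat_lit 78) (nat_lit 0) (nat_lit 0) (XT.lf (nat_lit 0) (nat_lit 3172351143) (nat_lit 152) (nat_lit 5428165317) (nat_lit 228) (nat_lit 11397202489) (nat_lit 20) (nat_lit 5) (nat_lit 22) (nat_lit 5) (nat_lit 23) (nat_lit 5) (nat_lit 269) (nat_lit 246) (nat_lit 205)) (XT.lf (nat_lit 0) (nat_lit 13248600144) (nat_lit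 228) (nat_lit 5757739848) (nat_lit 76) (nat_lit 2153335315) (nat_lit 20) (nat_lit 5) (nat_lit 23) (nat_lit 5) (nat_lit 21) (nat_lit 5) (nat_lit 270) (nat_lit 246) (nat_lit 204)))) (XT.nd (nat_lit 156) (nat_lit 304) (nat_lit 0) (XT.nd (nat_lit 78) (nat_lit 76) (nat_lit 0) (XT.lf (nat_lit 0) (nat_lit 6234881322) (nat_lit 152) (nat_lit 12175259564) (nat_lit 228) (nat_lit 3997529596) (nat_lit 18) (nat_lit 5) (nat_lit 20) (nat_lit 5) (nat_lit 21) (nat_lit 5) (nat_lit 271) (nat_lit 246) (nat_lit 203)) (XT.lf (nat_lit 0) (nat_lit 278043589) (nat_lit 228) (nat_lit 4430314678) (nat_lit 76) (nat_lit 19044297913) (nat_lit 17) (nat_lit 5) (nat_lit 20) (nat_lit 5) (nat_lit 18) (nat_lit 5) (nat_lit 272) (nat_lit 246) (nat_lit 202))) (XT.nd (nat_lit 78) (nat_lit 152) (nat_lit 0) (XT.lf (nat_lit 0) (nat_lit 4901537118) (nat_lit 228) (nat_lit 16862352882) (nat_lit 76) (nat_lit 3430910598) (nat_lit 15)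 (nat_lit 5) (nat_lit 18) (nat_lit 5) (nat_lit 16) (nat_lit 5) (nat_lit 273) (nat_lit 246) (nat_lit 201)) (XT.nd (nat_lit 78) (nat_lit 152) (nat_lit 0) (XT.lf (nat_lit 0) (nat_lit 10012360108) (nat_lit 228) (nat_lit 4615952221) (nat_lit 76) (nat_lit 12118254842) (nat_lit 15) (nat_lit 5) (nat_lit 18) (nat_lit 5) (nat_lit 16) (nat_lit 5) (nat_lit 274) (nat_lit 246) (nat_lit 200)) (XT.lf (nat_lit 0) (nat_lit 8836240302) (nat_lit 152) (nat_lit 6796378311) (nat_lit 228) (nat_lit 12784941954) (nat_lit 13) (nat_lit 5) (nat_lit 15) (nat_lit 5) (nat_lit 16) (nat_lit 5) (nat_lit 275) (nat_lit 246) (nat_lit 199))))))))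
noncomputable def xc63 : XT := (XT.nd (nat_lit 1404) (nat_lit 228) (nat_lit 0) (XT.nd (nat_lit 702) (nat_lit 304) (nat_lit 0) (XT.nd (nat_lit 312) (nat_lit 76) (nat_lit 0) (XT.nd (nat_lit 156) (nat_lit 228) (nat_lit 0) (XT.nd (nat_lit 78) (nat_lit 76) (nat_lit 0) (XT.lf (nat_lit 0) (nat_lit 21774412937) (nat_lit 228) (nat_lit 6771893774) (nat_lit 76) (nat_lit 1672436507) (nat_lit 13) (nat_lit 5) (nat_lit 16) (nat_lit 5) (nat_lit 14) (nat_lit 4) (nat_lit 276) (nat_lit 246) (nat_lit 198)) (XT.lf (nat_lit 0) (nat_lit 7123982059) (nat_lit 76) (nat_lit 21476282203) (nat_lit 152) (nat_lit 3554218267) (nat_lit 12) (nat_lit 5) (nat_lit 13) (nat_lit 5) (nat_lit 14) (nat_lit 4) (nat_lit 277) (nat_lit 246) (nat_lit 197))) (XT.nd (nat_lit 78) (nat_lit 152) (nat_lit 0) (XT.lf (nat_lit 0) (nat_lit 1759686711) (nat_lit 152) (nat_lit 11945346623) (nat_lit 76) (nat_lit 20534392476) (nat_lit 11) (nat_lit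 5) (nat_lit 13) (nat_lit 5) (nat_lit 12) (nat_lit 5) (nat_lit 278) (nat_lit 246) (nat_lit 196)) (XT.lf (nat_lit 0) (nat_lit 2148591408) (nat_lit 152) (nat_lit 5231139579) (nat_lit 228) (nat_lit 29108322594) (nat_lit 9) (nat_lit 5) (nat_lit 11) (nat_lit 5) (nat_lit 12) (nat_lit 5) (nat_lit 279) (nat_lit 246) (nat_lit 195)))) (XT.nd (nat_lit 156) (nat_lit 76) (nat_lit 0) (XT.nd (nat_lit 78) (nat_lit 0) (nat_lit 0) (XT.lf (nat_lit 0) (nat_lit 13693658888) (nat_lit 228) (nat_lit 21220233326) (nat_lit 76) (nat_lit 3990539234) (nat_lit 9) (nat_lit 5) (nat_lit 12) (nat_lit 5) (nat_lit 10) (nat_lit 4) (nat_lit 280) (nat_lit 246) (nat_lit 194)) (XT.lf (nat_lit 0) (nat_lit 20574589185) (nat_lit 228) (nat_lit 7182312548) (nat_lit 76) (nat_lit 13754191813) (nat_lit 9) (nat_lit 5) (nat_lit 12) (nat_lit 5) (nat_lit 10) (nat_lit 4) (nat_lit 281) (nat_lit 246) (nat_lit 193))) (XT.nd (nat_lit 78) (nat_lit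 0) (nat_lit 0) (XT.lf (nat_lit 0) (nat_lit 8201665093) (nat_lit 76) (nat_lit 19908010895) (nat_lit 152) (nat_lit 16211491859) (nat_lit 8) (nat_lit 5) (nat_lit 9) (nat_lit 5) (nat_lit 10) (nat_lit 4) (nat_lit 282) (nat_lit 246) (nat_lit 192)) (XT.nd (nat_lit 78) (nat_lit 0) (nat_lit 0) (XT.lf (nat_lit 0) (nat_lit 25035073516) (nat_lit 76) (nat_lit 11314454053) (nat_lit 152) (nat_lit 11001481280) (nat_lit 8) (nat_lit 5) (nat_lit 9) (nat_lit 5) (nat_lit 10) (nat_lit 4) (nat_lit 283) (nat_lit 246) (nat_lit 191)) (XT.lf (nat_lit 0) (nat_lit 43180186563) (nat_lit 76) (nat_lit 2046942366) (nat_lit 152) (nat_lit 5397234424) (nat_lit 8) (nat_lit 5) (nat_lit 9) (nat_lit 5) (nat_lit 10) (nat_lit 4) (nat_lit 284) (nat_lit 246) (nat_lit 190)))))) (XT.nd (nat_lit 312) (nat_lit 152) (nat_lit 0) (XT.nd (nat_lit 156) (nat_lit 0) (nat_lit 0) (XT.nd (nat_lit 78) (nat_lit 0) (nat_lit 0) (XT.lf (nat_lit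 0) (nat_lit 878985188) (nat_lit 152) (nat_lit 45422270577) (nat_lit 76) (nat_lit 7845636327) (nat_lit 6) (nat_lit 5) (nat_lit 8) (nat_lit 5) (nat_lit 7) (nat_lit 4) (nat_lit 285) (nat_lit 246) (nat_lit 189)) (XT.lf (nat_lit 0) (nat_lit 7617636571) (nat_lit 152) (nat_lit 31652102246) (nat_lit 76) (nat_lit 18669633341) (nat_lit 6) (nat_lit 5) (nat_lit 8) (nat_lit 5) (nat_lit 7) (nat_lit 4) (nat_lit 286) (nat_lit 246) (nat_lit 188))) (XT.nd (nat_lit 78) (nat_lit 0) (nat_lit 0) (XT.lf (nat_lit 0) (nat_lit 14877403488) (nat_lit 152) (nat_lit 16810382848) (nat_lit 76) (nat_lit 30348404178) (nat_lit 6) (nat_lit 5) (nat_lit 8) (nat_lit 5) (nat_lit 7) (nat_lit 4) (nat_lit 287) (nat_lit 246) (nat_lit 187)) (XT.lf (nat_lit 0) (nat_lit 22701306780) (nat_lit 152) (nat_lit 809161451) (nat_lit 76) (nat_lit 42951156369) (nat_lit 6) (nat_lit 5) (nat_lit 8) (nat_lit 5) (nat_lit 7) (nat_lit 4) (nat_lit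 288) (nat_lit 246) (nat_lit 186)))) (XT.nd (nat_lit 156) (nat_lit 76) (nat_lit 0) (XT.nd (nat_lit 78) (nat_lit 0) (nat_lit 0) (XT.lf (nat_lit 0) (nat_lit 16990175723) (nat_lit 76) (nat_lit 14410798853) (nat_lit 152) (nat_lit 39827661425) (nat_lit 5) (nat_lit 5) (nat_lit 6) (nat_lit 5) (nat_lit 7) (nat_lit 4) (nat_lit 289) (nat_lit 246) (nat_lit 185)) (XT.lf (nat_lit 0) (nat_lit 36217701197) (nat_lit 76) (nat_lit 4578354373) (nat_lit 152) (nat_lit 35581013346) (nat_lit 5) (nat_lit 5) (nat_lit 6) (nat_lit 5) (nat_lit 7) (nat_lit 4) (nat_lit 290) (nat_lit 246) (nat_lit 184))) (XT.nd (nat_lit 78) (nat_lit 76) (nat_lit 0) (XT.lf (nat_lit 0) (nat_lit 51023340818) (nat_lit 152) (nat_lit 25071651292) (nat_lit 0) (nat_lit 5838384643) (nat_lit 5) (nat_lit 5) (nat_lit 7) (nat_lit 4) (nat_lit 5) (nat_lit 4) (nat_lit 291) (nat_lit 246) (nat_lit 183)) (XT.nd (nat_lit 78) (nat_lit 76) (nat_lit 0) (XT.lf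 (nat_lit 0) (nat_lit 62133309917) (nat_lit 152) (nat_lit 8875775769) (nat_lit 0) (nat_lit 16921906421) (nat_lit 5) (nat_lit 5) (nat_lit 7) (nat_lit 4) (nat_lit 5) (nat_lit 4) (nat_lit 292) (nat_lit 246) (nat_lit 182)) (XT.lf (nat_lit 0) (nat_lit 8879928519) (nat_lit 76) (nat_lit 65379030830) (nat_lit 76) (nat_lit 20143139073) (nat_lit 4) (nat_lit 4) (nat_lit 5) (nat_lit 5) (nat_lit 5) (nat_lit 4) (nat_lit 293) (nat_lit 246) (nat_lit 181))))))) (XT.nd (nat_lit 702) (nat_lit 76) (nat_lit 0) (XT.nd (nat_lit 312) (nat_lit 76) (nat_lit 0) (XT.nd (nat_lit 156) (nat_lit 76) (nat_lit 0) (XT.nd (nat_lit 78) (nat_lit 0) (nat_lit 0) (XT.lf (nat_lit 0) (nat_lit 28353857337) (nat_lit 76) (nat_lit 59144227366) (nat_lit 76) (nat_lit 13885661294) (nat_lit 4) (nat_lit 4) (nat_lit 5) (nat_lit 5) (nat_lit 5) (nat_lit 4) (nat_lit 294) (nat_lit 246) (nat_lit 180)) (XT.lf (nat_lit 0) (nat_lit 49367938514)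 (nat_lit 76) (nat_lit 52418043870) (nat_lit 76) (nat_lit 7138483062) (nat_lit 4) (nat_lit 4) (nat_lit 5) (nat_lit 5) (nat_lit 5) (nat_lit 4) (nat_lit 295) (nat_lit 246) (nat_lit 179))) (XT.nd (nat_lit 78) (nat_lit 0) (nat_lit 0) (XT.lf (nat_lit 0) (nat_lit 133949912) (nat_lit 152) (nat_lit 45024403058) (nat_lit 76) (nat_lit 71910481519) (nat_lit 3) (nat_lit 5) (nat_lit 5) (nat_lit 5) (nat_lit 4) (nat_lit 4) (nat_lit 296) (nat_lit 246) (nat_lit 178)) (XT.lf (nat_lit 0) (nat_lit 7732379360) (nat_lit 152) (nat_lit 29465622292) (nat_lit 76) (nat_lit 88661203323) (nat_lit 3) (nat_lit 5) (nat_lit 5) (nat_lit 5) (nat_lit 4) (nat_lit 4) (nat_lit 297) (nat_lit 246) (nat_lit 177)))) (XT.nd (nat_lit 156) (nat_lit 0) (nat_lit 0) (XT.nd (nat_lit 78) (nat_lit 76) (nat_lit 0) (XT.lf (nat_lit 0) (nat_lit 15930309049) (nat_lit 152) (nat_lit 12676532727) (nat_lit 76) (nat_lit 106746398798) (nat_lit 3)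 (nat_lit 5) (nat_lit 5) (nat_lit 5) (nat_lit 4) (nat_lit 4) (nat_lit 298) (nat_lit 246) (nat_lit 176)) (XT.lf (nat_lit 0) (nat_lit 5622305423) (nat_lit 76) (nat_lit 19241793825) (nat_lit 152) (nat_lit 120738713995) (nat_lit 2) (nat_lit 5) (nat_lit 3) (nat_lit 5) (nat_lit 4) (nat_lit 4) (nat_lit 299) (nat_lit 246) (nat_lit 175))) (XT.nd (nat_lit 78) (nat_lit 0) (nat_lit 0) (XT.lf (nat_lit 0) (nat_lit 25824977252) (nat_lit 76) (nat_lit 8901053944) (nat_lit 152) (nat_lit 121935662979) (nat_lit 2) (nat_lit 5) (nat_lit 3) (nat_lit 5) (nat_lit 4) (nat_lit 4) (nat_lit 300) (nat_lit 246) (nat_lit 174)) (XT.nd (nat_lit 78) (nat_lit 0) (nat_lit 0) (XT.lf (nat_lit 0) (nat_lit 45405401505) (nat_lit 152) (nat_lit 121008897358) (nat_lit 0) (nat_lit 2189575841) (nat_lit 2) (nat_lit 5) (nat_lit 4) (nat_lit 4) (nat_lit 2) (nat_lit 4) (nat_lit 301) (nat_lit 246) (nat_lit 173)) (XT.lf (nat_lit 0) (nat_lit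 57082811725) (nat_lit 152) (nat_lit 110556126585) (nat_lit 0) (nat_lit 13855319178) (nat_lit 2) (nat_lit 5) (nat_lit 4) (nat_lit 4) (nat_lit 2) (nat_lit 4) (nat_lit 302) (nat_lit 246) (nat_lit 172)))))) (XT.nd (nat_lit 312) (nat_lit 76) (nat_lit 0) (XT.nd (nat_lit 156) (nat_lit 0) (nat_lit 0) (XT.nd (nat_lit 78) (nat_lit 0) (nat_lit 0) (XT.lf (nat_lit 0) (nat_lit 69688490927) (nat_lit 152) (nat_lit 99277491861) (nat_lit 0) (nat_lit 26450195711) (nat_lit 2) (nat_lit 5) (nat_lit 4) (nat_lit 4) (nat_lit 2) (nat_lit 4) (nat_lit 303) (nat_lit 246) (nat_lit 171)) (XT.lf (nat_lit 0) (nat_lit 83297139432) (nat_lit 152) (nat_lit 87106156833) (nat_lit 0) (nat_lit 40048841745) (nat_lit 2) (nat_lit 5) (nat_lit 4) (nat_lit 4) (nat_lit 2) (nat_lit 4) (nat_lit 304) (nat_lit 246) (nat_lit 170))) (XT.nd (nat_lit 78) (nat_lit 0) (nat_lit 0) (XT.lf (nat_lit 0) (nat_lit 97989401083) (nat_lit 152) (nat_lit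 73969995071) (nat_lit 0) (nat_lit 54731841848) (nat_lit 2) (nat_lit 5) (nat_lit 4) (nat_lit 4) (nat_lit 2) (nat_lit 4) (nat_lit 305) (nat_lit 246) (nat_lit 169)) (XT.lf (nat_lit 0) (nat_lit 113852341135) (nat_lit 152) (nat_lit 59791162654) (nat_lit 0) (nat_lit 70586206393) (nat_lit 2) (nat_lit 5) (nat_lit 4) (nat_lit 4) (nat_lit 2) (nat_lit 4) (nat_lit 306) (nat_lit 246) (nat_lit 168)))) (XT.nd (nat_lit 156) (nat_lit 76) (nat_lit 0) (XT.nd (nat_lit 78) (nat_lit 0) (nat_lit 0) (XT.lf (nat_lit 0) (nat_lit 130979962195) (nat_lit 152) (nat_lit 44485636871) (nat_lit 0) (nat_lit 87705887169) (nat_lit 2) (nat_lit 5) (nat_lit 4) (nat_lit 4) (nat_lit 2) (nat_lit 4) (nat_lit 307) (nat_lit 246) (nat_lit 167)) (XT.lf (nat_lit 0) (nat_lit 149473761277) (nat_lit 152) (nat_lit 27962718310) (nat_lit 0) (nat_lit 106192334136) (nat_lit 2) (nat_lit 5) (nat_lit 4) (nat_lit 4) (nat_lit 2) (nat_lit 4) (nat_lit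 308) (nat_lit 246) (nat_lit 166))) (XT.nd (nat_lit 78) (nat_lit 76) (nat_lit 0) (XT.lf (nat_lit 0) (nat_lit 169443331264) (nat_lit 152) (nat_lit 10124493379) (nat_lit 0) (nat_lit 126155096609) (nat_lit 2) (nat_lit 5) (nat_lit 4) (nat_lit 4) (nat_lit 2) (nat_lit 4) (nat_lit 309) (nat_lit 246) (nat_lit 165)) (XT.nd (nat_lit 78) (nat_lit 0) (nat_lit 0) (XT.lf (nat_lit 0) (nat_lit 9436781874) (nat_lit 76) (nat_lit 181717563087) (nat_lit 76) (nat_lit 138423025178) (nat_lit 1) (nat_lit 4) (nat_lit 2) (nat_lit 5) (nat_lit 2) (nat_lit 4) (nat_lit 310) (nat_lit 246) (nat_lit 164)) (XT.lf (nat_lit 0) (nat_lit 30918720563) (nat_lit 76) (nat_lit 183856590611) (nat_lit 76) (nat_lit 140556216356) (nat_lit 1) (nat_lit 4) (nat_lit 2) (nat_lit 5) (nat_lit 2) (nat_lit 4) (nat_lit 311) (nat_lit 246) (nat_lit 163))))))))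
noncomputable def xc64 : XT := (XT.nd (nat_lit 32994) (nat_lit 0) (nat_lit 1444) (XT.nd (nat_lit 624) (nat_lit 0) (nat_lit 0) (XT.nd (nat_lit 312) (nat_lit 0) (nat_lit 0) (XT.nd (nat_lit 156) (nat_lit 0) (nat_lit 0) (XT.nd (nat_lit 78) (nat_lit 0) (nat_lit 0) (XT.lf (nat_lit 0) (nat_lit 54113861592) (nat_lit 76) (nat_lit 186169046129) (nat_lit 76) (nat_lit 142863267850) (nat_lit 1) (nat_lit 4) (nat_lit 2) (nat_lit 5) (nat_lit 2) (nat_lit 4) (nat_lit 312) (nat_lit 246) (nat_lit 162)) (XT.lf (nat_lit 0) (nat_lit 79159657648) (nat_lit 76) (nat_lit 188668633082) (nat_lit 76) (nat_lit 145357851076) (nat_lit 1) (nat_lit 4) (nat_lit 2) (nat_lit 5) (nat_lit 2) (nat_lit 4) (nat_lit 313) (nat_lit 246) (nat_lit 161))) (XT.nd (nat_lit 78) (nat_lit 0) (nat_lit 0) (XT.lf (nat_lit 0) (nat_lit 106204528262) (nat_lit 76) (nat_lit 191370163835) (nat_lit 76) (nat_lit 148054748750) (nat_lit 1) (nat_lit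 4) (nat_lit 2) (nat_lit 5) (nat_lit 2) (nat_lit 4) (nat_lit 314) (nat_lit 246) (nat_lit 160)) (XT.lf (nat_lit 0) (nat_lit 135408739334) (nat_lit 76) (nat_lit 194289647462) (nat_lit 76) (nat_lit 150969942488) (nat_lit 1) (nat_lit 4) (nat_lit 2) (nat_lit 5) (nat_lit 2) (nat_lit 4) (nat_lit 315) (nat_lit 246) (nat_lit 159)))) (XT.nd (nat_lit 156) (nat_lit 0) (nat_lit 0) (XT.nd (nat_lit 78) (nat_lit 0) (nat_lit 0) (XT.lf (nat_lit 0) (nat_lit 166945352857) (nat_lit 76) (nat_lit 197444384604) (nat_lit 76) (nat_lit 154120707511) (nat_lit 1) (nat_lit 4) (nat_lit 2) (nat_lit 5) (nat_lit 2) (nat_lit 4) (nat_lit 316) (nat_lit 246) (nat_lit 158)) (XT.lf (nat_lit 0) (nat_lit 201001252466) (nat_lit 76) (nat_lit 200853070001) (nat_lit 76) (nat_lit 157525715020) (nat_lit 1) (nat_lit 4) (nat_lit 2) (nat_lit 5) (nat_lit 2) (nat_lit 4) (nat_lit 317) (nat_lit 246) (nat_lit 157))) (XT.nd (nat_lit 78) (nat_lit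 0) (nat_lit 0) (XT.lf (nat_lit 0) (nat_lit 237778250899) (nat_lit 76) (nat_lit 204535903269) (nat_lit 76) (nat_lit 161205142837) (nat_lit 1) (nat_lit 4) (nat_lit 2) (nat_lit 5) (nat_lit 2) (nat_lit 4) (nat_lit 318) (nat_lit 246) (nat_lit 156)) (XT.lf (nat_lit 0) (nat_lit 277494285925) (nat_lit 76) (nat_lit 208514708607) (nat_lit 76) (nat_lit 165180794979) (nat_lit 1) (nat_lit 4) (nat_lit 2) (nat_lit 5) (nat_lit 2) (nat_lit 4) (nat_lit 319) (nat_lit 246) (nat_lit 155))))) (XT.nd (nat_lit 31980) (nat_lit 0) (nat_lit 5016) (XT.nd (nat_lit 31824) (nat_lit 0) (nat_lit 5472) (XT.nd (nat_lit 78) (nat_lit 0) (nat_lit 0) (XT.lf (nat_lit 0) (nat_lit 320384711825) (nat_lit 76) (nat_lit 212813064120) (nat_lit 76) (nat_lit 169476230865) (nat_lit 1) (nat_lit 4) (nat_lit 2) (nat_lit 5) (nat_lit 2) (nat_lit 4) (nat_lit 320) (nat_lit 246) (nat_lit 154)) (XT.lf (nat_lit 0) (nat_lit 366703694087) (nat_lit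 76) (nat_lit 217456441544) (nat_lit 76) (nat_lit 174116904931) (nat_lit 1) (nat_lit 4) (nat_lit 2) (nat_lit 5) (nat_lit 2) (nat_lit 4) (nat_lit 321) (nat_lit 246) (nat_lit 153))) (XT.nd (nat_lit 78) (nat_lit 532) (nat_lit 0) (XT.lf (nat_lit 0) (nat_lit 3638617366) (nat_lit 532) (nat_lit 160065429) (nat_lit 532) (nat_lit 160065429) (nat_lit 80) (nat_lit 3) (nat_lit 87) (nat_lit 3) (nat_lit 87) (nat_lit 5) (nat_lit 247) (nat_lit 247) (nat_lit 226)) (XT.lf (nat_lit 0) (nat_lit 1129521448) (nat_lit 532) (nat_lit 3158153526) (nat_lit 608) (nat_lit 3848379146) (nat_lit 73) (nat_lit 5) (nat_lit 80) (nat_lit 3) (nat_lit 81) (nat_lit 5) (nat_lit 248) (nat_lit 247) (nat_lit 225)))) (XT.nd (nat_lit 156) (nat_lit 456) (nat_lit 0) (XT.nd (nat_lit 78) (nat_lit 0) (nat_lit 76) (XT.lf (nat_lit 76) (nat_lit 2305151313) (nat_lit 0) (nat_lit 584266149) (nat_lit 608) (nat_lit 5489602316) (nat_lit 74) (nat_lit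 5) (nat_lit 73) (nat_lit 5) (nat_lit 81) (nat_lit 5) (nat_lit 249) (nat_lit 247) (nat_lit 224)) (XT.lf (nat_lit 0) (nat_lit 4740608264) (nat_lit 532) (nat_lit 477464602) (nat_lit 608) (nat_lit 3426747140) (nat_lit 74) (nat_lit 5) (nat_lit 81) (nat_lit 5) (nat_lit 82) (nat_lit 5) (nat_lit 250) (nat_lit 247) (nat_lit 223))) (XT.nd (nat_lit 78) (nat_lit 532) (nat_lit 0) (XT.lf (nat_lit 76) (nat_lit 5642139313) (nat_lit 0) (nat_lit 1048718687) (nat_lit 608) (nat_lit 2244332210) (nat_lit 75) (nat_lit 5) (nat_lit 74) (nat_lit 5) (nat_lit 82) (nat_lit 5) (nat_lit 251) (nat_lit 247) (nat_lit 222)) (XT.nd (nat_lit 78) (nat_lit 608) (nat_lit 0) (XT.lf (nat_lit 76) (nat_lit 2961202578) (nat_lit 0) (nat_lit 5807752433) (nat_lit 608) (nat_lit 482034526) (nat_lit 76) (nat_lit 5) (nat_lit 75) (nat_lit 5) (nat_lit 83) (nat_lit 5) (nat_lit 252) (nat_lit 247) (nat_lit 221)) (XT.lf (nat_lit 76) (nat_lit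 106604814) (nat_lit 0) (nat_lit 1215852981) (nat_lit 684) (nat_lit 8271847971) (nat_lit 68) (nat_lit 5) (nat_lit 67) (nat_lit 5) (nat_lit 76) (nat_lit 5) (nat_lit 253) (nat_lit 247) (nat_lit 220))))))) (XT.nd (nat_lit 702) (nat_lit 1140) (nat_lit 0) (XT.nd (nat_lit 312) (nat_lit 1216) (nat_lit 0) (XT.nd (nat_lit 156) (nat_lit 684) (nat_lit 0) (XT.nd (nat_lit 78) (nat_lit 608) (nat_lit 0) (XT.lf (nat_lit 0) (nat_lit 3302124657) (nat_lit 608) (nat_lit 2891711896) (nat_lit 76) (nat_lit 3769116222) (nat_lit 68) (nat_lit 5) (nat_lit 76) (nat_lit 5) (nat_lit 69) (nat_lit 5) (nat_lit 254) (nat_lit 247) (nat_lit 219)) (XT.lf (nat_lit 0) (nat_lit 4252134890) (nat_lit 608) (nat_lit 1161652938) (nat_lit 684) (nat_lit 4949220492) (nat_lit 60) (nat_lit 5) (nat_lit 68) (nat_lit 5) (nat_lit 69) (nat_lit 5) (nat_lit 255) (nat_lit 247) (nat_lit 218))) (XT.nd (nat_lit 78) (nat_lit 0) (nat_lit 0) (XT.lf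 (nat_lit 0) (nat_lit 1150099703) (nat_lit 684) (nat_lit 6574086869) (nat_lit 760) (nat_lit 3069945243) (nat_lit 51) (nat_lit 5) (nat_lit 60) (nat_lit 5) (nat_lit 61) (nat_lit 5) (nat_lit 256) (nat_lit 247) (nat_lit 217)) (XT.lf (nat_lit 0) (nat_lit 9096792862) (nat_lit 684) (nat_lit 1148679654) (nat_lit 760) (nat_lit 1013482532) (nat_lit 51) (nat_lit 5) (nat_lit 60) (nat_lit 5) (nat_lit 61) (nat_lit 5) (nat_lit 257) (nat_lit 247) (nat_lit 216)))) (XT.nd (nat_lit 156) (nat_lit 532) (nat_lit 0) (XT.nd (nat_lit 78) (nat_lit 304) (nat_lit 0) (XT.lf (nat_lit 0) (nat_lit 1243762036) (nat_lit 380) (nat_lit 5834276579) (nat_lit 76) (nat_lit 4678689338) (nat_lit 46) (nat_lit 5) (nat_lit 51) (nat_lit 5) (nat_lit 47) (nat_lit 5) (nat_lit 258) (nat_lit 247) (nat_lit 215)) (XT.lf (nat_lit 0) (nat_lit 2387134770) (nat_lit 304) (nat_lit 1265767392) (nat_lit 380) (nat_lit 8640667193) (nat_lit 42) (nat_lit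 5) (nat_lit 46) (nat_lit 5) (nat_lit 47) (nat_lit 5) (nat_lit 259) (nat_lit 247) (nat_lit 214))) (XT.nd (nat_lit 78) (nat_lit 532) (nat_lit 0) (XT.lf (nat_lit 0) (nat_lit 6352891783) (nat_lit 380) (nat_lit 1564939945) (nat_lit 76) (nat_lit 4951007986) (nat_lit 42) (nat_lit 5) (nat_lit 47) (nat_lit 5) (nat_lit 43) (nat_lit 5) (nat_lit 260) (nat_lit 247) (nat_lit 213)) (XT.nd (nat_lit 78) (nat_lit 304) (nat_lit 0) (XT.lf (nat_lit 0) (nat_lit 7580570494) (nat_lit 228) (nat_lit 1750766032) (nat_lit 304) (nat_lit 4156031229) (nat_lit 39) (nat_lit 5) (nat_lit 42) (nat_lit 5) (nat_lit 43) (nat_lit 5) (nat_lit 261) (nat_lit 247) (nat_lit 212)) (XT.lf (nat_lit 0) (nat_lit 3303466563) (nat_lit 304) (nat_lit 9327617713) (nat_lit 380) (nat_lit 1520474661) (nat_lit 35) (nat_lit 5) (nat_lit 39) (nat_lit 5) (nat_lit 40) (nat_lit 5) (nat_lit 262) (nat_lit 247) (nat_lit 211)))))) (XT.nd (nat_lit 312)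 (nat_lit 608) (nat_lit 0) (XT.nd (nat_lit 156) (nat_lit 228) (nat_lit 0) (XT.nd (nat_lit 78) (nat_lit 228) (nat_lit 0) (XT.lf (nat_lit 0) (nat_lit 1347388976) (nat_lit 380) (nat_lit 1537854291) (nat_lit 76) (nat_lit 11979705056) (nat_lit 34) (nat_lit 5) (nat_lit 39) (nat_lit 5) (nat_lit 35) (nat_lit 5) (nat_lit 263) (nat_lit 247) (nat_lit 210)) (XT.lf (nat_lit 0) (nat_lit 4528868364) (nat_lit 304) (nat_lit 7004610609) (nat_lit 76) (nat_lit 4094082065) (nat_lit 31) (nat_lit 5) (nat_lit 35) (nat_lit 5) (nat_lit 32) (nat_lit 5) (nat_lit 264) (nat_lit 247) (nat_lit 209))) (XT.nd (nat_lit 78) (nat_lit 0) (nat_lit 0) (XT.lf (nat_lit 0) (nat_lit 3177050318) (nat_lit 228) (nat_lit 4851754624) (nat_lit 304) (nat_lit 8419432094) (nat_lit 28) (nat_lit 5) (nat_lit 31) (nat_lit 5) (nat_lit 32) (nat_lit 5) (nat_lit 265) (nat_lit 247) (nat_lit 208)) (XT.lf (nat_lit 0) (nat_lit 11911286565) (nat_lit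 304) (nat_lit 3020781581) (nat_lit 76) (nat_lit 2397604058) (nat_lit 28) (nat_lit 5) (nat_lit 32) (nat_lit 5) (nat_lit 29) (nat_lit 5) (nat_lit 266) (nat_lit 247) (nat_lit 207)))) (XT.nd (nat_lit 156) (nat_lit 152) (nat_lit 0) (XT.nd (nat_lit 78) (nat_lit 304) (nat_lit 0) (XT.lf (nat_lit 0) (nat_lit 8157861141) (nat_lit 152) (nat_lit 8101624198) (nat_lit 228) (nat_lit 2014596283) (nat_lit 26) (nat_lit 5) (nat_lit 28) (nat_lit 5) (nat_lit 29) (nat_lit 5) (nat_lit 267) (nat_lit 247) (nat_lit 206)) (XT.lf (nat_lit 0) (nat_lit 981966862) (nat_lit 228) (nat_lit 643018805) (nat_lit 304) (nat_lit 17667117630) (nat_lit 22) (nat_lit 5) (nat_lit 25) (nat_lit 5) (nat_lit 26) (nat_lit 5) (nat_lit 268) (nat_lit 247) (nat_lit 205))) (XT.nd (nat_lit 78) (nat_lit 152) (nat_lit 0) (XT.lf (nat_lit 0) (nat_lit 5731327773) (nat_lit 304) (nat_lit 7275327187) (nat_lit 76) (nat_lit 7371127527) (nat_lit 22)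 (nat_lit 5) (nat_lit 26) (nat_lit 5) (nat_lit 23) (nat_lit 5) (nat_lit 269) (nat_lit 247) (nat_lit 204)) (XT.nd (nat_lit 78) (nat_lit 0) (nat_lit 0) (XT.lf (nat_lit 0) (nat_lit 4718326765) (nat_lit 152) (nat_lit 5486431844) (nat_lit 228) (nat_lit 11343791160) (nat_lit 20) (nat_lit 5) (nat_lit 22) (nat_lit 5) (nat_lit 23) (nat_lit 5) (nat_lit 270) (nat_lit 247) (nat_lit 203)) (XT.lf (nat_lit 0) (nat_lit 15162257636) (nat_lit 228) (nat_lit 4981966425) (nat_lit 76) (nat_lit 2662595451) (nat_lit 20) (nat_lit 5) (nat_lit 23) (nat_lit 5) (nat_lit 21) (nat_lit 5) (nat_lit 271) (nat_lit 247) (nat_lit 202))))))))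
noncomputable def xc65 : XT := (XT.nd (nat_lit 1326) (nat_lit 304) (nat_lit 0) (XT.nd (nat_lit 624) (nat_lit 380) (nat_lit 0) (XT.nd (nat_lit 312) (nat_lit 304) (nat_lit 0) (XT.nd (nat_lit 156) (nat_lit 152) (nat_lit 0) (XT.nd (nat_lit 78) (nat_lit 76) (nat_lit 0) (XT.lf (nat_lit 0) (nat_lit 7916332323) (nat_lit 152) (nat_lit 12775611775) (nat_lit 228) (nat_lit 3465166957) (nat_lit 18) (nat_lit 5) (nat_lit 20) (nat_lit 5) (nat_lit 21) (nat_lit 5) (nat_lit 272) (nat_lit 247) (nat_lit 201)) (XT.lf (nat_lit 0) (nat_lit 1064074488) (nat_lit 228) (nat_lit 3662027929) (nat_lit 76) (nat_lit 20886175239) (nat_lit 17) (nat_lit 5) (nat_lit 20) (nat_lit 5) (nat_lit 18) (nat_lit 5) (nat_lit 273) (nat_lit 247) (nat_lit 200))) (XT.nd (nat_lit 78) (nat_lit 0) (nat_lit 0) (XT.lf (nat_lit 0) (nat_lit 6023101146) (nat_lit 228) (nat_lit 17104461847) (nat_lit 76) (nat_lit 4044125852) (nat_lit 15) (nat_lit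 5) (nat_lit 18) (nat_lit 5) (nat_lit 16) (nat_lit 5) (nat_lit 274) (nat_lit 247) (nat_lit 199)) (XT.lf (nat_lit 0) (nat_lit 11488757304) (nat_lit 228) (nat_lit 3960340189) (nat_lit 76) (nat_lit 13401365606) (nat_lit 15) (nat_lit 5) (nat_lit 18) (nat_lit 5) (nat_lit 16) (nat_lit 5) (nat_lit 275) (nat_lit 247) (nat_lit 198)))) (XT.nd (nat_lit 156) (nat_lit 152) (nat_lit 0) (XT.nd (nat_lit 78) (nat_lit 0) (nat_lit 0) (XT.lf (nat_lit 0) (nat_lit 10523487343) (nat_lit 152) (nat_lit 7000424873) (nat_lit 228) (nat_lit 13133112486) (nat_lit 13) (nat_lit 5) (nat_lit 15) (nat_lit 5) (nat_lit 16) (nat_lit 5) (nat_lit 276) (nat_lit 247) (nat_lit 197)) (XT.lf (nat_lit 0) (nat_lit 24114502283) (nat_lit 228) (nat_lit 6379399511) (nat_lit 76) (nat_lit 2110668782) (nat_lit 13) (nat_lit 5) (nat_lit 16) (nat_lit 5) (nat_lit 14) (nat_lit 4) (nat_lit 277) (nat_lit 247) (nat_lit 196))) (XT.nd (nat_lit 78)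 (nat_lit 76) (nat_lit 0) (XT.lf (nat_lit 0) (nat_lit 8587545205) (nat_lit 76) (nat_lit 22868522412) (nat_lit 152) (nat_lit 3240749883) (nat_lit 12) (nat_lit 5) (nat_lit 13) (nat_lit 5) (nat_lit 14) (nat_lit 4) (nat_lit 278) (nat_lit 247) (nat_lit 195)) (XT.lf (nat_lit 0) (nat_lit 2436269356) (nat_lit 152) (nat_lit 12054368067) (nat_lit 76) (nat_lit 22459710689) (nat_lit 11) (nat_lit 5) (nat_lit 13) (nat_lit 5) (nat_lit 12) (nat_lit 5) (nat_lit 279) (nat_lit 247) (nat_lit 194))))) (XT.nd (nat_lit 312) (nat_lit 152) (nat_lit 0) (XT.nd (nat_lit 156) (nat_lit 76) (nat_lit 0) (XT.nd (nat_lit 78) (nat_lit 0) (nat_lit 0) (XT.lf (nat_lit 0) (nat_lit 3130292529) (nat_lit 152) (nat_lit 5348578648) (nat_lit 228) (nat_lit 30901453996) (nat_lit 9) (nat_lit 5) (nat_lit 11) (nat_lit 5) (nat_lit 12) (nat_lit 5) (nat_lit 280) (nat_lit 247) (nat_lit 193)) (XT.lf (nat_lit 0) (nat_lit 15264579357) (nat_lit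 228) (nat_lit 22147586959) (nat_lit 76) (nat_lit 4579612511) (nat_lit 9) (nat_lit 5) (nat_lit 12) (nat_lit 5) (nat_lit 10) (nat_lit 4) (nat_lit 281) (nat_lit 247) (nat_lit 192))) (XT.nd (nat_lit 78) (nat_lit 76) (nat_lit 0) (XT.lf (nat_lit 0) (nat_lit 22660767206) (nat_lit 228) (nat_lit 7043689188) (nat_lit 76) (nat_lit 15104369879) (nat_lit 9) (nat_lit 5) (nat_lit 12) (nat_lit 5) (nat_lit 10) (nat_lit 4) (nat_lit 282) (nat_lit 247) (nat_lit 191)) (XT.lf (nat_lit 0) (nat_lit 9540011497) (nat_lit 76) (nat_lit 21236692502) (nat_lit 152) (nat_lit 17068185123) (nat_lit 8) (nat_lit 5) (nat_lit 9) (nat_lit 5) (nat_lit 10) (nat_lit 4) (nat_lit 283) (nat_lit 247) (nat_lit 190)))) (XT.nd (nat_lit 156) (nat_lit 152) (nat_lit 0) (XT.nd (nat_lit 78) (nat_lit 0) (nat_lit 0) (XT.lf (nat_lit 0) (nat_lit 27669558284) (nat_lit 76) (nat_lit 11975203651) (nat_lit 152) (nat_lit 11473983037) (nat_lit 8)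 (nat_lit 5) (nat_lit 9) (nat_lit 5) (nat_lit 10) (nat_lit 4) (nat_lit 284) (nat_lit 247) (nat_lit 189)) (XT.lf (nat_lit 0) (nat_lit 47219489346) (nat_lit 76) (nat_lit 1984395231) (nat_lit 152) (nat_lit 5451590266) (nat_lit 8) (nat_lit 5) (nat_lit 9) (nat_lit 5) (nat_lit 10) (nat_lit 4) (nat_lit 285) (nat_lit 247) (nat_lit 188))) (XT.nd (nat_lit 78) (nat_lit 0) (nat_lit 0) (XT.lf (nat_lit 0) (nat_lit 1300020093) (nat_lit 152) (nat_lit 48469546387) (nat_lit 76) (nat_lit 8690740194) (nat_lit 6) (nat_lit 5) (nat_lit 8) (nat_lit 5) (nat_lit 7) (nat_lit 4) (nat_lit 286) (nat_lit 247) (nat_lit 187)) (XT.nd (nat_lit 78) (nat_lit 0) (nat_lit 0) (XT.lf (nat_lit 0) (nat_lit 8551784616) (nat_lit 152) (nat_lit 33641209467) (nat_lit 76) (nat_lit 20364549343) (nat_lit 6) (nat_lit 5) (nat_lit 8) (nat_lit 5) (nat_lit 7) (nat_lit 4) (nat_lit 287) (nat_lit 247) (nat_lit 186)) (XT.lf (nat_lit 0) (nat_lit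 16368278285) (nat_lit 152) (nat_lit 17652379254) (nat_lit 76) (nat_lit 32962707377) (nat_lit 6) (nat_lit 5) (nat_lit 8) (nat_lit 5) (nat_lit 7) (nat_lit 4) (nat_lit 288) (nat_lit 247) (nat_lit 185))))))) (XT.nd (nat_lit 702) (nat_lit 76) (nat_lit 0) (XT.nd (nat_lit 312) (nat_lit 152) (nat_lit 0) (XT.nd (nat_lit 156) (nat_lit 0) (nat_lit 0) (XT.nd (nat_lit 78) (nat_lit 76) (nat_lit 0) (XT.lf (nat_lit 0) (nat_lit 24795821061) (nat_lit 152) (nat_lit 408307126) (nat_lit 76) (nat_lit 46559870050) (nat_lit 6) (nat_lit 5) (nat_lit 8) (nat_lit 5) (nat_lit 7) (nat_lit 4) (nat_lit 289) (nat_lit 247) (nat_lit 184)) (XT.lf (nat_lit 0) (nat_lit 18794743169) (nat_lit 76) (nat_lit 15383049384) (nat_lit 152) (nat_lit 42735308583) (nat_lit 5) (nat_lit 5) (nat_lit 6) (nat_lit 5) (nat_lit 7) (nat_lit 4) (nat_lit 290) (nat_lit 247) (nat_lit 183))) (XT.nd (nat_lit 78) (nat_lit 0) (nat_lit 0) (XT.lf (nat_lit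 0) (nat_lit 39527481541) (nat_lit 76) (nat_lit 4777388114) (nat_lit 152) (nat_lit 38169563159) (nat_lit 5) (nat_lit 5) (nat_lit 6) (nat_lit 5) (nat_lit 7) (nat_lit 4) (nat_lit 291) (nat_lit 247) (nat_lit 182)) (XT.lf (nat_lit 0) (nat_lit 55334597565) (nat_lit 152) (nat_lit 26686128893) (nat_lit 0) (nat_lit 6455346207) (nat_lit 5) (nat_lit 5) (nat_lit 7) (nat_lit 4) (nat_lit 5) (nat_lit 4) (nat_lit 292) (nat_lit 247) (nat_lit 181)))) (XT.nd (nat_lit 156) (nat_lit 76) (nat_lit 0) (XT.nd (nat_lit 78) (nat_lit 76) (nat_lit 0) (XT.lf (nat_lit 0) (nat_lit 67316372379) (nat_lit 152) (nat_lit 9223565143) (nat_lit 0) (nat_lit 18414446706) (nat_lit 5) (nat_lit 5) (nat_lit 7) (nat_lit 4) (nat_lit 5) (nat_lit 4) (nat_lit 293) (nat_lit 247) (nat_lit 180)) (XT.lf (nat_lit 0) (nat_lit 9936851558) (nat_lit 76) (nat_lit 70464899331) (nat_lit 76) (nat_lit 21541978922) (nat_lit 4) (nat_lit 4) (nat_lit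 5) (nat_lit 5) (nat_lit 5) (nat_lit 4) (nat_lit 294) (nat_lit 247) (nat_lit 179))) (XT.nd (nat_lit 78) (nat_lit 76) (nat_lit 0) (XT.lf (nat_lit 0) (nat_lit 30943025885) (nat_lit 76) (nat_lit 63742011884) (nat_lit 76) (nat_lit 14799651905) (nat_lit 4) (nat_lit 4) (nat_lit 5) (nat_lit 5) (nat_lit 5) (nat_lit 4) (nat_lit 295) (nat_lit 247) (nat_lit 178)) (XT.nd (nat_lit 78) (nat_lit 76) (nat_lit 0) (XT.lf (nat_lit 0) (nat_lit 53614466152) (nat_lit 76) (nat_lit 56487641388) (nat_lit 76) (nat_lit 7527281806) (nat_lit 4) (nat_lit 4) (nat_lit 5) (nat_lit 5) (nat_lit 5) (nat_lit 4) (nat_lit 296) (nat_lit 247) (nat_lit 177)) (XT.lf (nat_lit 0) (nat_lit 308041651) (nat_lit 152) (nat_lit 48345540494) (nat_lit 76) (nat_lit 77772263148) (nat_lit 3) (nat_lit 5) (nat_lit 5) (nat_lit 5) (nat_lit 4) (nat_lit 4) (nat_lit 297) (nat_lit 247) (nat_lit 176)))))) (XT.nd (nat_lit 312) (nat_lit 0) (nat_lit 0)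 (XT.nd (nat_lit 156) (nat_lit 76) (nat_lit 0) (XT.nd (nat_lit 78) (nat_lit 0) (nat_lit 0) (XT.lf (nat_lit 0) (nat_lit 8502243548) (nat_lit 152) (nat_lit 31562858364) (nat_lit 76) (nat_lit 95854972836) (nat_lit 3) (nat_lit 5) (nat_lit 5) (nat_lit 5) (nat_lit 4) (nat_lit 4) (nat_lit 298) (nat_lit 247) (nat_lit 175)) (XT.lf (nat_lit 0) (nat_lit 17344802143) (nat_lit 152) (nat_lit 13449901908) (nat_lit 76) (nat_lit 115379511857) (nat_lit 3) (nat_lit 5) (nat_lit 5) (nat_lit 5) (nat_lit 4) (nat_lit 4) (nat_lit 299) (nat_lit 247) (nat_lit 174))) (XT.nd (nat_lit 78) (nat_lit 0) (nat_lit 0) (XT.lf (nat_lit 0) (nat_lit 6302380443) (nat_lit 76) (nat_lit 20684135161) (nat_lit 152) (nat_lit 130257598560) (nat_lit 2) (nat_lit 5) (nat_lit 3) (nat_lit 5) (nat_lit 4) (nat_lit 4) (nat_lit 300) (nat_lit 247) (nat_lit 173)) (XT.lf (nat_lit 0) (nat_lit 28104207456) (nat_lit 76) (nat_lit 9523321436) (nat_lit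 152) (nat_lit 131560689579) (nat_lit 2) (nat_lit 5) (nat_lit 3) (nat_lit 5) (nat_lit 4) (nat_lit 4) (nat_lit 301) (nat_lit 247) (nat_lit 172)))) (XT.nd (nat_lit 156) (nat_lit 0) (nat_lit 0) (XT.nd (nat_lit 78) (nat_lit 0) (nat_lit 0) (XT.lf (nat_lit 0) (nat_lit 49153405378) (nat_lit 152) (nat_lit 130487534174) (nat_lit 0) (nat_lit 2445243876) (nat_lit 2) (nat_lit 5) (nat_lit 4) (nat_lit 4) (nat_lit 2) (nat_lit 4) (nat_lit 302) (nat_lit 247) (nat_lit 171)) (XT.lf (nat_lit 0) (nat_lit 61756447545) (nat_lit 152) (nat_lit 119213510255) (nat_lit 0) (nat_lit 15038283571) (nat_lit 2) (nat_lit 5) (nat_lit 4) (nat_lit 4) (nat_lit 2) (nat_lit 4) (nat_lit 303) (nat_lit 247) (nat_lit 170))) (XT.nd (nat_lit 78) (nat_lit 0) (nat_lit 0) (XT.lf (nat_lit 0) (nat_lit 75362654351) (nat_lit 152) (nat_lit 107046444491) (nat_lit 0) (nat_lit 28635228829) (nat_lit 2) (nat_lit 5) (nat_lit 4) (nat_lit 4) (nat_lit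 2) (nat_lit 4) (nat_lit 304) (nat_lit 247) (nat_lit 169)) (XT.nd (nat_lit 78) (nat_lit 0) (nat_lit 0) (XT.lf (nat_lit 0) (nat_lit 90052655170) (nat_lit 152) (nat_lit 93914235751) (nat_lit 0) (nat_lit 43316654141) (nat_lit 2) (nat_lit 5) (nat_lit 4) (nat_lit 4) (nat_lit 2) (nat_lit 4) (nat_lit 305) (nat_lit 247) (nat_lit 168)) (XT.lf (nat_lit 0) (nat_lit 105913501858) (nat_lit 152) (nat_lit 79739063540) (nat_lit 0) (nat_lit 59169560545) (nat_lit 2) (nat_lit 5) (nat_lit 4) (nat_lit 4) (nat_lit 2) (nat_lit 4) (nat_lit 306) (nat_lit 247) (nat_lit 167))))))))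
noncomputable def xc66 : XT := (XT.nd (nat_lit 33150) (nat_lit 0) (nat_lit 1900) (XT.nd (nat_lit 624) (nat_lit 0) (nat_lit 0) (XT.nd (nat_lit 312) (nat_lit 76) (nat_lit 0) (XT.nd (nat_lit 156) (nat_lit 0) (nat_lit 0) (XT.nd (nat_lit 78) (nat_lit 0) (nat_lit 0) (XT.lf (nat_lit 0) (nat_lit 123039184619) (nat_lit 152) (nat_lit 64436926836) (nat_lit 0) (nat_lit 76287891191) (nat_lit 2) (nat_lit 5) (nat_lit 4) (nat_lit 4) (nat_lit 2) (nat_lit 4) (nat_lit 307) (nat_lit 247) (nat_lit 166)) (XT.lf (nat_lit 0) (nat_lit 141531188979) (nat_lit 152) (nat_lit 47917146311) (nat_lit 0) (nat_lit 94773088037) (nat_lit 2) (nat_lit 5) (nat_lit 4) (nat_lit 4) (nat_lit 2) (nat_lit 4) (nat_lit 308) (nat_lit 247) (nat_lit 165))) (XT.nd (nat_lit 78) (nat_lit 0) (nat_lit 0) (XT.lf (nat_lit 0) (nat_lit 161499097187) (nat_lit 152) (nat_lit 30081826969) (nat_lit 0) (nat_lit 114734692991) (nat_lit 2) (nat_lit 5)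 (nat_lit 4) (nat_lit 4) (nat_lit 2) (nat_lit 4) (nat_lit 309) (nat_lit 247) (nat_lit 164)) (XT.lf (nat_lit 0) (nat_lit 183061237587) (nat_lit 152) (nat_lit 10825278030) (nat_lit 0) (nat_lit 136290997046) (nat_lit 2) (nat_lit 5) (nat_lit 4) (nat_lit 4) (nat_lit 2) (nat_lit 4) (nat_lit 310) (nat_lit 247) (nat_lit 163)))) (XT.nd (nat_lit 156) (nat_lit 0) (nat_lit 0) (XT.nd (nat_lit 78) (nat_lit 0) (nat_lit 0) (XT.lf (nat_lit 0) (nat_lit 10296154639) (nat_lit 76) (nat_lit 196209983017) (nat_lit 76) (nat_lit 149434338451) (nat_lit 1) (nat_lit 4) (nat_lit 2) (nat_lit 5) (nat_lit 2) (nat_lit 4) (nat_lit 311) (nat_lit 247) (nat_lit 162)) (XT.lf (nat_lit 0) (nat_lit 33488912852) (nat_lit 76) (nat_lit 198523464974) (nat_lit 76) (nat_lit 151742816682) (nat_lit 1) (nat_lit 4) (nat_lit 2) (nat_lit 5) (nat_lit 2) (nat_lit 4) (nat_lit 312) (nat_lit 247) (nat_lit 161))) (XT.nd (nat_lit 78) (nat_lit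 0) (nat_lit 0) (XT.lf (nat_lit 0) (nat_lit 58532502597) (nat_lit 76) (nat_lit 201024002333) (nat_lit 76) (nat_lit 154238720961) (nat_lit 1) (nat_lit 4) (nat_lit 2) (nat_lit 5) (nat_lit 2) (nat_lit 4) (nat_lit 313) (nat_lit 247) (nat_lit 160)) (XT.lf (nat_lit 0) (nat_lit 85575330331) (nat_lit 76) (nat_lit 203726413092) (nat_lit 76) (nat_lit 156936841832) (nat_lit 1) (nat_lit 4) (nat_lit 2) (nat_lit 5) (nat_lit 2) (nat_lit 4) (nat_lit 314) (nat_lit 247) (nat_lit 159))))) (XT.nd (nat_lit 312) (nat_lit 0) (nat_lit 0) (XT.nd (nat_lit 156) (nat_lit 0) (nat_lit 0) (XT.nd (nat_lit 78) (nat_lit 0) (nat_lit 0) (XT.lf (nat_lit 0) (nat_lit 114777649848) (nat_lit 76) (nat_lit 206646711538) (nat_lit 76) (nat_lit 159853168159) (nat_lit 1) (nat_lit 4) (nat_lit 2) (nat_lit 5) (nat_lit 2) (nat_lit 4) (nat_lit 315) (nat_lit 247) (nat_lit 158)) (XT.lf (nat_lit 0) (nat_lit 146312511931) (nat_lit 76) (nat_lit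 209802203144) (nat_lit 76) (nat_lit 163004981876) (nat_lit 1) (nat_lit 4) (nat_lit 2) (nat_lit 5) (nat_lit 2) (nat_lit 4) (nat_lit 316) (nat_lit 247) (nat_lit 157))) (XT.nd (nat_lit 78) (nat_lit 0) (nat_lit 0) (XT.lf (nat_lit 0) (nat_lit 180366789836) (nat_lit 76) (nat_lit 213211587117) (nat_lit 76) (nat_lit 166410960398) (nat_lit 1) (nat_lit 4) (nat_lit 2) (nat_lit 5) (nat_lit 2) (nat_lit 4) (nat_lit 317) (nat_lit 247) (nat_lit 156)) (XT.lf (nat_lit 0) (nat_lit 217142286691) (nat_lit 76) (nat_lit 216895067217) (nat_lit 76) (nat_lit 170091287302) (nat_lit 1) (nat_lit 4) (nat_lit 2) (nat_lit 5) (nat_lit 2) (nat_lit 4) (nat_lit 318) (nat_lit 247) (nat_lit 155)))) (XT.nd (nat_lit 31980) (nat_lit 0) (nat_lit 5472) (XT.nd (nat_lit 78) (nat_lit 0) (nat_lit 0) (XT.lf (nat_lit 0) (nat_lit 256856931367) (nat_lit 76) (nat_lit 220874471472) (nat_lit 76) (nat_lit 174067771931) (nat_lit 1) (nat_lit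 4) (nat_lit 2) (nat_lit 5) (nat_lit 2) (nat_lit 4) (nat_lit 319) (nat_lit 247) (nat_lit 154)) (XT.lf (nat_lit 0) (nat_lit 299746069906) (nat_lit 76) (nat_lit 225173381537) (nat_lit 76) (nat_lit 178363978639) (nat_lit 1) (nat_lit 4) (nat_lit 2) (nat_lit 5) (nat_lit 2) (nat_lit 4) (nat_lit 320) (nat_lit 247) (nat_lit 153))) (XT.nd (nat_lit 78) (nat_lit 0) (nat_lit 0) (XT.lf (nat_lit 0) (nat_lit 670495054) (nat_lit 0) (nat_lit 670495054) (nat_lit 532) (nat_lit 2841226168) (nat_lit 73) (nat_lit 5) (nat_lit 73) (nat_lit 3) (nat_lit 80) (nat_lit 3) (nat_lit 248) (nat_lit 248) (nat_lit 224)) (XT.nd (nat_lit 78) (nat_lit 0) (nat_lit 0) (XT.lf (nat_lit 0) (nat_lit 4308829819) (nat_lit 532) (nat_lit 1656217979) (nat_lit 608) (nat_lit 2649446231) (nat_lit 73) (nat_lit 5) (nat_lit 80) (nat_lit 3) (nat_lit 81) (nat_lit 5) (nat_lit 249) (nat_lit 248) (nat_lit 223)) (XT.lf (nat_lit 76) (nat_lit 4167898998)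 (nat_lit 0) (nat_lit 1839011175) (nat_lit 608) (nat_lit 2881450252) (nat_lit 74) (nat_lit 5) (nat_lit 73) (nat_lit 5) (nat_lit 81) (nat_lit 5) (nat_lit 250) (nat_lit 248) (nat_lit 222))))))) (XT.nd (nat_lit 702) (nat_lit 1520) (nat_lit 0) (XT.nd (nat_lit 312) (nat_lit 1520) (nat_lit 0) (XT.nd (nat_lit 156) (nat_lit 0) (nat_lit 76) (XT.nd (nat_lit 78) (nat_lit 608) (nat_lit 0) (XT.lf (nat_lit 76) (nat_lit 1244710860) (nat_lit 0) (nat_lit 6549652628) (nat_lit 608) (nat_lit 1392887188) (nat_lit 75) (nat_lit 5) (nat_lit 74) (nat_lit 5) (nat_lit 82) (nat_lit 5) (nat_lit 251) (nat_lit 248) (nat_lit 221)) (XT.lf (nat_lit 0) (nat_lit 192348770) (nat_lit 608) (nat_lit 1775344105) (nat_lit 684) (nat_lit 7543665963) (nat_lit 66) (nat_lit 5) (nat_lit 74) (nat_lit 5) (nat_lit 75) (nat_lit 5) (nat_lit 252) (nat_lit 248) (nat_lit 220))) (XT.nd (nat_lit 78) (nat_lit 0) (nat_lit 0) (XT.lf (nat_lit 0)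 (nat_lit 1861629525) (nat_lit 608) (nat_lit 4974795500) (nat_lit 684) (nat_lit 3024173378) (nat_lit 67) (nat_lit 5) (nat_lit 75) (nat_lit 5) (nat_lit 76) (nat_lit 5) (nat_lit 253) (nat_lit 248) (nat_lit 219)) (XT.lf (nat_lit 76) (nat_lit 1846517221) (nat_lit 0) (nat_lit 1799106409) (nat_lit 684) (nat_lit 6593692885) (nat_lit 68) (nat_lit 5) (nat_lit 67) (nat_lit 5) (nat_lit 76) (nat_lit 5) (nat_lit 254) (nat_lit 248) (nat_lit 218)))) (XT.nd (nat_lit 156) (nat_lit 1064) (nat_lit 0) (XT.nd (nat_lit 78) (nat_lit 608) (nat_lit 0) (XT.lf (nat_lit 0) (nat_lit 5612388722) (nat_lit 608) (nat_lit 1399432806) (nat_lit 76) (nat_lit 3635061605) (nat_lit 68) (nat_lit 5) (nat_lit 76) (nat_lit 5) (nat_lit 69) (nat_lit 5) (nat_lit 255) (nat_lit 248) (nat_lit 217)) (XT.lf (nat_lit 0) (nat_lit 6241015471) (nat_lit 608) (nat_lit 1526147931) (nat_lit 684) (nat_lit 3318870883) (nat_lit 60) (nat_lit 5) (nat_lit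 68) (nat_lit 5) (nat_lit 69) (nat_lit 5) (nat_lit 256) (nat_lit 248) (nat_lit 216))) (XT.nd (nat_lit 78) (nat_lit 380) (nat_lit 0) (XT.lf (nat_lit 0) (nat_lit 2924629579) (nat_lit 684) (nat_lit 7217865146) (nat_lit 760) (nat_lit 1415888721) (nat_lit 51) (nat_lit 5) (nat_lit 60) (nat_lit 5) (nat_lit 61) (nat_lit 5) (nat_lit 257) (nat_lit 248) (nat_lit 215)) (XT.nd (nat_lit 78) (nat_lit 304) (nat_lit 0) (XT.lf (nat_lit 0) (nat_lit 643111850) (nat_lit 760) (nat_lit 695692365) (nat_lit 76) (nat_lit 10728423677) (nat_lit 50) (nat_lit 5) (nat_lit 60) (nat_lit 5) (nat_lit 51) (nat_lit 5) (nat_lit 258) (nat_lit 248) (nat_lit 214)) (XT.lf (nat_lit 0) (nat_lit 2943246940) (nat_lit 380) (nat_lit 4660808643) (nat_lit 76) (nat_lit 5005650290) (nat_lit 46) (nat_lit 5) (nat_lit 51) (nat_lit 5) (nat_lit 47) (nat_lit 5) (nat_lit 259) (nat_lit 248) (nat_lit 213)))))) (XT.nd (nat_lit 312) (nat_lit 684)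 (nat_lit 0) (XT.nd (nat_lit 156) (nat_lit 532) (nat_lit 0) (XT.nd (nat_lit 78) (nat_lit 0) (nat_lit 0) (XT.lf (nat_lit 0) (nat_lit 4147034083) (nat_lit 304) (nat_lit 1304062235) (nat_lit 380) (nat_lit 7743659449) (nat_lit 42) (nat_lit 5) (nat_lit 46) (nat_lit 5) (nat_lit 47) (nat_lit 5) (nat_lit 260) (nat_lit 248) (nat_lit 212)) (XT.lf (nat_lit 0) (nat_lit 8256442633) (nat_lit 380) (nat_lit 162130898) (nat_lit 76) (nat_lit 5403524944) (nat_lit 42) (nat_lit 5) (nat_lit 47) (nat_lit 5) (nat_lit 43) (nat_lit 5) (nat_lit 261) (nat_lit 248) (nat_lit 211))) (XT.nd (nat_lit 78) (nat_lit 304) (nat_lit 0) (XT.lf (nat_lit 0) (nat_lit 9648615175) (nat_lit 228) (nat_lit 1744010437) (nat_lit 304) (nat_lit 3101990195) (nat_lit 39) (nat_lit 5) (nat_lit 42) (nat_lit 5) (nat_lit 43) (nat_lit 5) (nat_lit 262) (nat_lit 248) (nat_lit 210)) (XT.lf (nat_lit 0) (nat_lit 5032254586) (nat_lit 304) (nat_lit 9851694869)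 (nat_lit 380) (nat_lit 332057626) (nat_lit 35) (nat_lit 5) (nat_lit 39) (nat_lit 5) (nat_lit 40) (nat_lit 5) (nat_lit 263) (nat_lit 248) (nat_lit 209)))) (XT.nd (nat_lit 156) (nat_lit 380) (nat_lit 0) (XT.nd (nat_lit 78) (nat_lit 228) (nat_lit 0) (XT.lf (nat_lit 0) (nat_lit 2629369970) (nat_lit 380) (nat_lit 261129266) (nat_lit 76) (nat_lit 13100034535) (nat_lit 34) (nat_lit 5) (nat_lit 39) (nat_lit 5) (nat_lit 35) (nat_lit 5) (nat_lit 264) (nat_lit 248) (nat_lit 208)) (XT.lf (nat_lit 0) (nat_lit 6002898510) (nat_lit 304) (nat_lit 6169717421) (nat_lit 76) (nat_lit 4645026065) (nat_lit 31) (nat_lit 5) (nat_lit 35) (nat_lit 5) (nat_lit 32) (nat_lit 5) (nat_lit 265) (nat_lit 248) (nat_lit 207))) (XT.nd (nat_lit 78) (nat_lit 152) (nat_lit 0) (XT.lf (nat_lit 0) (nat_lit 4765839993) (nat_lit 228) (nat_lit 4955477588) (nat_lit 304) (nat_lit 7986066253) (nat_lit 28) (nat_lit 5) (nat_lit 31)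 (nat_lit 5) (nat_lit 32) (nat_lit 5) (nat_lit 266) (nat_lit 248) (nat_lit 206)) (XT.nd (nat_lit 78) (nat_lit 152) (nat_lit 0) (XT.lf (nat_lit 0) (nat_lit 13840716153) (nat_lit 304) (nat_lit 1978279976) (nat_lit 76) (nat_lit 2844333005) (nat_lit 28) (nat_lit 5) (nat_lit 32) (nat_lit 5) (nat_lit 29) (nat_lit 5) (nat_lit 267) (nat_lit 248) (nat_lit 205)) (XT.lf (nat_lit 0) (nat_lit 10038845955) (nat_lit 152) (nat_lit 8444767644) (nat_lit 228) (nat_lit 1202623755) (nat_lit 26) (nat_lit 5) (nat_lit 28) (nat_lit 5) (nat_lit 29) (nat_lit 5) (nat_lit 268) (nat_lit 248) (nat_lit 204))))))))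
noncomputable def xc67 : XT := (XT.nd (nat_lit 1326) (nat_lit 456) (nat_lit 0) (XT.nd (nat_lit 624) (nat_lit 532) (nat_lit 0) (XT.nd (nat_lit 312) (nat_lit 380) (nat_lit 0) (XT.nd (nat_lit 156) (nat_lit 152) (nat_lit 0) (XT.nd (nat_lit 78) (nat_lit 0) (nat_lit 0) (XT.lf (nat_lit 0) (nat_lit 2268571943) (nat_lit 228) (nat_lit 377489945) (nat_lit 304) (nat_lit 18141679150) (nat_lit 22) (nat_lit 5) (nat_lit 25) (nat_lit 5) (nat_lit 26) (nat_lit 5) (nat_lit 269) (nat_lit 248) (nat_lit 203)) (XT.lf (nat_lit 0) (nat_lit 7019487850) (nat_lit 304) (nat_lit 6699177937) (nat_lit 76) (nat_lit 8244915260) (nat_lit 22) (nat_lit 5) (nat_lit 26) (nat_lit 5) (nat_lit 23) (nat_lit 5) (nat_lit 270) (nat_lit 248) (nat_lit 202))) (XT.nd (nat_lit 78) (nat_lit 0) (nat_lit 0) (XT.lf (nat_lit 0) (nat_lit 6203635439) (nat_lit 152) (nat_lit 5602998400) (nat_lit 228) (nat_lit 11423801716) (nat_lit 20) (nat_lit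 5) (nat_lit 22) (nat_lit 5) (nat_lit 23) (nat_lit 5) (nat_lit 271) (nat_lit 248) (nat_lit 201)) (XT.lf (nat_lit 0) (nat_lit 17107207965) (nat_lit 228) (nat_lit 4320516356) (nat_lit 76) (nat_lit 3164520535) (nat_lit 20) (nat_lit 5) (nat_lit 23) (nat_lit 5) (nat_lit 21) (nat_lit 5) (nat_lit 272) (nat_lit 248) (nat_lit 200)))) (XT.nd (nat_lit 156) (nat_lit 152) (nat_lit 0) (XT.nd (nat_lit 78) (nat_lit 76) (nat_lit 0) (XT.lf (nat_lit 0) (nat_lit 9563579662) (nat_lit 152) (nat_lit 13477300160) (nat_lit 228) (nat_lit 3011786171) (nat_lit 18) (nat_lit 5) (nat_lit 20) (nat_lit 5) (nat_lit 21) (nat_lit 5) (nat_lit 273) (nat_lit 248) (nat_lit 199)) (XT.lf (nat_lit 0) (nat_lit 1804025046) (nat_lit 228) (nat_lit 2992445648) (nat_lit 76) (nat_lit 22829988919) (nat_lit 17) (nat_lit 5) (nat_lit 20) (nat_lit 5) (nat_lit 18) (nat_lit 5) (nat_lit 274) (nat_lit 248) (nat_lit 198))) (XT.nd (nat_lit 78)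 (nat_lit 0) (nat_lit 0) (XT.lf (nat_lit 0) (nat_lit 7130327374) (nat_lit 228) (nat_lit 17523848231) (nat_lit 76) (nat_lit 4658072935) (nat_lit 15) (nat_lit 5) (nat_lit 18) (nat_lit 5) (nat_lit 16) (nat_lit 5) (nat_lit 275) (nat_lit 248) (nat_lit 197)) (XT.lf (nat_lit 0) (nat_lit 12986911718) (nat_lit 228) (nat_lit 3398490957) (nat_lit 76) (nat_lit 14742379498) (nat_lit 15) (nat_lit 5) (nat_lit 18) (nat_lit 5) (nat_lit 16) (nat_lit 5) (nat_lit 276) (nat_lit 248) (nat_lit 196))))) (XT.nd (nat_lit 312) (nat_lit 228) (nat_lit 0) (XT.nd (nat_lit 156) (nat_lit 152) (nat_lit 0) (XT.nd (nat_lit 78) (nat_lit 0) (nat_lit 0) (XT.lf (nat_lit 0) (nat_lit 12205856571) (nat_lit 152) (nat_lit 7269251984) (nat_lit 228) (nat_lit 13605379433) (nat_lit 13) (nat_lit 5) (nat_lit 15) (nat_lit 5) (nat_lit 16) (nat_lit 5) (nat_lit 277) (nat_lit 248) (nat_lit 195)) (XT.lf (nat_lit 0) (nat_lit 26556467945) (nat_lit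 228) (nat_lit 6088786311) (nat_lit 76) (nat_lit 2540528248) (nat_lit 13) (nat_lit 5) (nat_lit 16) (nat_lit 5) (nat_lit 14) (nat_lit 4) (nat_lit 278) (nat_lit 248) (nat_lit 194))) (XT.nd (nat_lit 78) (nat_lit 76) (nat_lit 0) (XT.lf (nat_lit 0) (nat_lit 10040705013) (nat_lit 76) (nat_lit 24418629746) (nat_lit 152) (nat_lit 2987487715) (nat_lit 12) (nat_lit 5) (nat_lit 13) (nat_lit 5) (nat_lit 14) (nat_lit 4) (nat_lit 279) (nat_lit 248) (nat_lit 193)) (XT.lf (nat_lit 0) (nat_lit 3090539653) (nat_lit 152) (nat_lit 12292889078) (nat_lit 76) (nat_lit 24498743045) (nat_lit 11) (nat_lit 5) (nat_lit 13) (nat_lit 5) (nat_lit 12) (nat_lit 5) (nat_lit 280) (nat_lit 248) (nat_lit 192)))) (XT.nd (nat_lit 156) (nat_lit 76) (nat_lit 0) (XT.nd (nat_lit 78) (nat_lit 0) (nat_lit 0) (XT.lf (nat_lit 0) (nat_lit 4075000747) (nat_lit 152) (nat_lit 5518361290) (nat_lit 228) (nat_lit 32914435880) (nat_lit 9)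 (nat_lit 5) (nat_lit 11) (nat_lit 5) (nat_lit 12) (nat_lit 5) (nat_lit 281) (nat_lit 248) (nat_lit 191)) (XT.lf (nat_lit 0) (nat_lit 16893348379) (nat_lit 228) (nat_lit 23259015801) (nat_lit 76) (nat_lit 5177317365) (nat_lit 9) (nat_lit 5) (nat_lit 12) (nat_lit 5) (nat_lit 10) (nat_lit 4) (nat_lit 282) (nat_lit 248) (nat_lit 190))) (XT.nd (nat_lit 78) (nat_lit 76) (nat_lit 0) (XT.lf (nat_lit 0) (nat_lit 24851038466) (nat_lit 228) (nat_lit 6995723106) (nat_lit 76) (nat_lit 16526919333) (nat_lit 9) (nat_lit 5) (nat_lit 12) (nat_lit 5) (nat_lit 10) (nat_lit 4) (nat_lit 283) (nat_lit 248) (nat_lit 189)) (XT.nd (nat_lit 78) (nat_lit 0) (nat_lit 0) (XT.lf (nat_lit 0) (nat_lit 10888100275) (nat_lit 76) (nat_lit 22709325378) (nat_lit 152) (nat_lit 18056217021) (nat_lit 8) (nat_lit 5) (nat_lit 9) (nat_lit 5) (nat_lit 10) (nat_lit 4) (nat_lit 284) (nat_lit 248) (nat_lit 188)) (XT.lf (nat_lit 0)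 (nat_lit 30424685778) (nat_lit 76) (nat_lit 12723680569) (nat_lit 152) (nat_lit 12042436021) (nat_lit 8) (nat_lit 5) (nat_lit 9) (nat_lit 5) (nat_lit 10) (nat_lit 4) (nat_lit 285) (nat_lit 248) (nat_lit 187))))))) (XT.nd (nat_lit 702) (nat_lit 228) (nat_lit 0) (XT.nd (nat_lit 312) (nat_lit 76) (nat_lit 0) (XT.nd (nat_lit 156) (nat_lit 0) (nat_lit 0) (XT.nd (nat_lit 78) (nat_lit 152) (nat_lit 0) (XT.lf (nat_lit 0) (nat_lit 51498495560) (nat_lit 76) (nat_lit 1949128910) (nat_lit 152) (nat_lit 5564138173) (nat_lit 8) (nat_lit 5) (nat_lit 9) (nat_lit 5) (nat_lit 10) (nat_lit 4) (nat_lit 286) (nat_lit 248) (nat_lit 186)) (XT.lf (nat_lit 0) (nat_lit 1704704219) (nat_lit 152) (nat_lit 51844275877) (nat_lit 76) (nat_lit 9572430275) (nat_lit 6) (nat_lit 5) (nat_lit 8) (nat_lit 5) (nat_lit 7) (nat_lit 4) (nat_lit 287) (nat_lit 248) (nat_lit 185))) (XT.nd (nat_lit 78) (nat_lit 0) (nat_lit 0) (XT.lf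 (nat_lit 0) (nat_lit 9514337125) (nat_lit 152) (nat_lit 35866918982) (nat_lit 76) (nat_lit 22166334461) (nat_lit 6) (nat_lit 5) (nat_lit 8) (nat_lit 5) (nat_lit 7) (nat_lit 4) (nat_lit 288) (nat_lit 248) (nat_lit 184)) (XT.lf (nat_lit 0) (nat_lit 17935527344) (nat_lit 152) (nat_lit 18633470296) (nat_lit 76) (nat_lit 35759558385) (nat_lit 6) (nat_lit 5) (nat_lit 8) (nat_lit 5) (nat_lit 7) (nat_lit 4) (nat_lit 289) (nat_lit 248) (nat_lit 183)))) (XT.nd (nat_lit 156) (nat_lit 0) (nat_lit 0) (XT.nd (nat_lit 78) (nat_lit 76) (nat_lit 0) (XT.lf (nat_lit 0) (nat_lit 27018178224) (nat_lit 152) (nat_lit 41805679) (nat_lit 76) (nat_lit 50432654485) (nat_lit 6) (nat_lit 5) (nat_lit 8) (nat_lit 5) (nat_lit 7) (nat_lit 4) (nat_lit 290) (nat_lit 248) (nat_lit 182)) (XT.lf (nat_lit 0) (nat_lit 20680141370) (nat_lit 76) (nat_lit 16458846475) (nat_lit 152) (nat_lit 45915308034) (nat_lit 5) (nat_lit 5)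 (nat_lit 6) (nat_lit 5) (nat_lit 7) (nat_lit 4) (nat_lit 291) (nat_lit 248) (nat_lit 181))) (XT.nd (nat_lit 78) (nat_lit 0) (nat_lit 0) (XT.lf (nat_lit 0) (nat_lit 43043215942) (nat_lit 76) (nat_lit 5016202441) (nat_lit 152) (nat_lit 41001993734) (nat_lit 5) (nat_lit 5) (nat_lit 6) (nat_lit 5) (nat_lit 7) (nat_lit 4) (nat_lit 292) (nat_lit 248) (nat_lit 180)) (XT.nd (nat_lit 78) (nat_lit 0) (nat_lit 0) (XT.lf (nat_lit 0) (nat_lit 59958029878) (nat_lit 152) (nat_lit 28485581531) (nat_lit 0) (nat_lit 7100281100) (nat_lit 5) (nat_lit 5) (nat_lit 7) (nat_lit 4) (nat_lit 5) (nat_lit 4) (nat_lit 293) (nat_lit 248) (nat_lit 179)) (XT.lf (nat_lit 0) (nat_lit 72883778935) (nat_lit 152) (nat_lit 9650859916) (nat_lit 0) (nat_lit 20006590587) (nat_lit 5) (nat_lit 5) (nat_lit 7) (nat_lit 4) (nat_lit 5) (nat_lit 4) (nat_lit 294) (nat_lit 248) (nat_lit 178)))))) (XT.nd (nat_lit 312) (nat_lit 76) (nat_lit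 0) (XT.nd (nat_lit 156) (nat_lit 76) (nat_lit 0) (XT.nd (nat_lit 78) (nat_lit 0) (nat_lit 0) (XT.lf (nat_lit 0) (nat_lit 11028892240) (nat_lit 76) (nat_lit 75978245285) (nat_lit 76) (nat_lit 23083057334) (nat_lit 4) (nat_lit 4) (nat_lit 5) (nat_lit 5) (nat_lit 5) (nat_lit 4) (nat_lit 295) (nat_lit 248) (nat_lit 177)) (XT.lf (nat_lit 0) (nat_lit 33693553657) (nat_lit 76) (nat_lit 68726700620) (nat_lit 76) (nat_lit 15814846370) (nat_lit 4) (nat_lit 4) (nat_lit 5) (nat_lit 5) (nat_lit 5) (nat_lit 4) (nat_lit 296) (nat_lit 248) (nat_lit 176))) (XT.nd (nat_lit 78) (nat_lit 76) (nat_lit 0) (XT.lf (nat_lit 0) (nat_lit 58158332426) (nat_lit 76) (nat_lit 60900474722) (nat_lit 76) (nat_lit 7973188715) (nat_lit 4) (nat_lit 4) (nat_lit 5) (nat_lit 5) (nat_lit 5) (nat_lit 4) (nat_lit 297) (nat_lit 248) (nat_lit 175)) (XT.lf (nat_lit 0) (nat_lit 472753353) (nat_lit 152) (nat_lit 51972430296) (nat_lit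 76) (nat_lit 84087445354) (nat_lit 3) (nat_lit 5) (nat_lit 5) (nat_lit 5) (nat_lit 4) (nat_lit 4) (nat_lit 298) (nat_lit 248) (nat_lit 174)))) (XT.nd (nat_lit 156) (nat_lit 76) (nat_lit 0) (XT.nd (nat_lit 78) (nat_lit 0) (nat_lit 0) (XT.lf (nat_lit 0) (nat_lit 9312115966) (nat_lit 152) (nat_lit 33864967184) (nat_lit 76) (nat_lit 103609853213) (nat_lit 3) (nat_lit 5) (nat_lit 5) (nat_lit 5) (nat_lit 4) (nat_lit 4) (nat_lit 299) (nat_lit 248) (nat_lit 173)) (XT.lf (nat_lit 0) (nat_lit 18852472365) (nat_lit 152) (nat_lit 14319486793) (nat_lit 76) (nat_lit 124689949241) (nat_lit 3) (nat_lit 5) (nat_lit 5) (nat_lit 5) (nat_lit 4) (nat_lit 4) (nat_lit 300) (nat_lit 248) (nat_lit 172))) (XT.nd (nat_lit 78) (nat_lit 0) (nat_lit 0) (XT.lf (nat_lit 0) (nat_lit 7004007938) (nat_lit 76) (nat_lit 22255702249) (nat_lit 152) (nat_lit 140557996780) (nat_lit 2) (nat_lit 5) (nat_lit 3) (nat_lit 5) (nat_lit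 4) (nat_lit 4) (nat_lit 301) (nat_lit 248) (nat_lit 171)) (XT.nd (nat_lit 78) (nat_lit 0) (nat_lit 0) (XT.lf (nat_lit 0) (nat_lit 30535356144) (nat_lit 76) (nat_lit 10208183701) (nat_lit 152) (nat_lit 141974239499) (nat_lit 2) (nat_lit 5) (nat_lit 3) (nat_lit 5) (nat_lit 4) (nat_lit 4) (nat_lit 302) (nat_lit 248) (nat_lit 170)) (XT.lf (nat_lit 0) (nat_lit 53184761958) (nat_lit 152) (nat_lit 140753290190) (nat_lit 0) (nat_lit 2709880847) (nat_lit 2) (nat_lit 5) (nat_lit 4) (nat_lit 4) (nat_lit 2) (nat_lit 4) (nat_lit 303) (nat_lit 248) (nat_lit 169))))))))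
noncomputable def xc68 : XT := (XT.nd (nat_lit 33228) (nat_lit 0) (nat_lit 2280) (XT.nd (nat_lit 624) (nat_lit 76) (nat_lit 0) (XT.nd (nat_lit 312) (nat_lit 0) (nat_lit 0) (XT.nd (nat_lit 156) (nat_lit 0) (nat_lit 0) (XT.nd (nat_lit 78) (nat_lit 0) (nat_lit 0) (XT.lf (nat_lit 0) (nat_lit 66788707932) (nat_lit 152) (nat_lit 128590177447) (nat_lit 0) (nat_lit 16305251314) (nat_lit 2) (nat_lit 5) (nat_lit 4) (nat_lit 4) (nat_lit 2) (nat_lit 4) (nat_lit 304) (nat_lit 248) (nat_lit 168)) (XT.lf (nat_lit 0) (nat_lit 81476615387) (nat_lit 152) (nat_lit 115461628913) (nat_lit 0) (nat_lit 30985218485) (nat_lit 2) (nat_lit 5) (nat_lit 4) (nat_lit 4) (nat_lit 2) (nat_lit 4) (nat_lit 305) (nat_lit 248) (nat_lit 167))) (XT.nd (nat_lit 78) (nat_lit 0) (nat_lit 0) (XT.lf (nat_lit 0) (nat_lit 97335523776) (nat_lit 152) (nat_lit 101289845781) (nat_lit 0) (nat_lit 46836774759) (nat_lit 2) (nat_lit 5)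 (nat_lit 4) (nat_lit 4) (nat_lit 2) (nat_lit 4) (nat_lit 306) (nat_lit 248) (nat_lit 166)) (XT.lf (nat_lit 0) (nat_lit 114459411815) (nat_lit 152) (nat_lit 85990847113) (nat_lit 0) (nat_lit 63953855284) (nat_lit 2) (nat_lit 5) (nat_lit 4) (nat_lit 4) (nat_lit 2) (nat_lit 4) (nat_lit 307) (nat_lit 248) (nat_lit 165)))) (XT.nd (nat_lit 156) (nat_lit 0) (nat_lit 0) (XT.nd (nat_lit 78) (nat_lit 0) (nat_lit 0) (XT.lf (nat_lit 0) (nat_lit 132949754396) (nat_lit 152) (nat_lit 69473972177) (nat_lit 0) (nat_lit 82437894611) (nat_lit 2) (nat_lit 5) (nat_lit 4) (nat_lit 4) (nat_lit 2) (nat_lit 4) (nat_lit 308) (nat_lit 248) (nat_lit 164)) (XT.lf (nat_lit 0) (nat_lit 152916123919) (nat_lit 152) (nat_lit 51641343196) (nat_lit 0) (nat_lit 102398427788) (nat_lit 2) (nat_lit 5) (nat_lit 4) (nat_lit 4) (nat_lit 2) (nat_lit 4) (nat_lit 309) (nat_lit 248) (nat_lit 163))) (XT.nd (nat_lit 78) (nat_lit 0)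 (nat_lit 0) (XT.lf (nat_lit 0) (nat_lit 174476839612) (nat_lit 152) (nat_lit 32387285330) (nat_lit 0) (nat_lit 123953739456) (nat_lit 2) (nat_lit 5) (nat_lit 4) (nat_lit 4) (nat_lit 2) (nat_lit 4) (nat_lit 310) (nat_lit 248) (nat_lit 162)) (XT.lf (nat_lit 0) (nat_lit 197759668677) (nat_lit 152) (nat_lit 11597700461) (nat_lit 0) (nat_lit 147231564796) (nat_lit 2) (nat_lit 5) (nat_lit 4) (nat_lit 4) (nat_lit 2) (nat_lit 4) (nat_lit 311) (nat_lit 248) (nat_lit 161))))) (XT.nd (nat_lit 312) (nat_lit 0) (nat_lit 0) (XT.nd (nat_lit 156) (nat_lit 0) (nat_lit 0) (XT.nd (nat_lit 78) (nat_lit 0) (nat_lit 0) (XT.lf (nat_lit 0) (nat_lit 11209379088) (nat_lit 76) (nat_lit 211868214171) (nat_lit 76) (nat_lit 161335477210) (nat_lit 1) (nat_lit 4) (nat_lit 2) (nat_lit 5) (nat_lit 2) (nat_lit 4) (nat_lit 312) (nat_lit 248) (nat_lit 160)) (XT.lf (nat_lit 0) (nat_lit 36250925952) (nat_lit 76) (nat_lit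 214369631535) (nat_lit 76) (nat_lit 163832604686) (nat_lit 1) (nat_lit 4) (nat_lit 2) (nat_lit 5) (nat_lit 2) (nat_lit 4) (nat_lit 313) (nat_lit 248) (nat_lit 159))) (XT.nd (nat_lit 78) (nat_lit 0) (nat_lit 0) (XT.lf (nat_lit 0) (nat_lit 63291862131) (nat_lit 76) (nat_lit 217072857115) (nat_lit 76) (nat_lit 166531858147) (nat_lit 1) (nat_lit 4) (nat_lit 2) (nat_lit 5) (nat_lit 2) (nat_lit 4) (nat_lit 314) (nat_lit 248) (nat_lit 158)) (XT.lf (nat_lit 0) (nat_lit 92492430208) (nat_lit 76) (nat_lit 219993910024) (nat_lit 76) (nat_lit 169449233168) (nat_lit 1) (nat_lit 4) (nat_lit 2) (nat_lit 5) (nat_lit 2) (nat_lit 4) (nat_lit 315) (nat_lit 248) (nat_lit 157)))) (XT.nd (nat_lit 156) (nat_lit 0) (nat_lit 0) (XT.nd (nat_lit 78) (nat_lit 0) (nat_lit 0) (XT.lf (nat_lit 0) (nat_lit 124025670586) (nat_lit 76) (nat_lit 223150100207) (nat_lit 76) (nat_lit 172602017898) (nat_lit 1) (nat_lit 4) (nat_lit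 2) (nat_lit 5) (nat_lit 2) (nat_lit 4) (nat_lit 316) (nat_lit 248) (nat_lit 156)) (XT.lf (nat_lit 0) (nat_lit 158078446913) (nat_lit 76) (nat_lit 226560131011) (nat_lit 76) (nat_lit 176008895507) (nat_lit 1) (nat_lit 4) (nat_lit 2) (nat_lit 5) (nat_lit 2) (nat_lit 4) (nat_lit 317) (nat_lit 248) (nat_lit 155))) (XT.nd (nat_lit 78) (nat_lit 0) (nat_lit 0) (XT.lf (nat_lit 0) (nat_lit 194852553419) (nat_lit 76) (nat_lit 230244210028) (nat_lit 76) (nat_lit 179690054897) (nat_lit 1) (nat_lit 4) (nat_lit 2) (nat_lit 5) (nat_lit 2) (nat_lit 4) (nat_lit 318) (nat_lit 248) (nat_lit 154)) (XT.nd (nat_lit 78) (nat_lit 0) (nat_lit 0) (XT.lf (nat_lit 0) (nat_lit 234565910734) (nat_lit 76) (nat_lit 234224168836) (nat_lit 76) (nat_lit 183667310348) (nat_lit 1) (nat_lit 4) (nat_lit 2) (nat_lit 5) (nat_lit 2) (nat_lit 4) (nat_lit 319) (nat_lit 248) (nat_lit 153)) (XT.lf (nat_lit 0) (nat_lit 277453857272)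 (nat_lit 76) (nat_lit 238523592376) (nat_lit 76) (nat_lit 187964230779) (nat_lit 1) (nat_lit 4) (nat_lit 2) (nat_lit 5) (nat_lit 2) (nat_lit 4) (nat_lit 320) (nat_lit 248) (nat_lit 152))))))) (XT.nd (nat_lit 702) (nat_lit 2204) (nat_lit 0) (XT.nd (nat_lit 312) (nat_lit 456) (nat_lit 0) (XT.nd (nat_lit 156) (nat_lit 532) (nat_lit 0) (XT.nd (nat_lit 78) (nat_lit 0) (nat_lit 0) (XT.lf (nat_lit 0) (nat_lit 1444794365) (nat_lit 0) (nat_lit 1444794365) (nat_lit 532) (nat_lit 1546806892) (nat_lit 73) (nat_lit 5) (nat_lit 73) (nat_lit 3) (nat_lit 80) (nat_lit 3) (nat_lit 249) (nat_lit 249) (nat_lit 222)) (XT.lf (nat_lit 0) (nat_lit 7301810086) (nat_lit 532) (nat_lit 284439158) (nat_lit 608) (nat_lit 1569561012) (nat_lit 73) (nat_lit 5) (nat_lit 80) (nat_lit 3) (nat_lit 81) (nat_lit 5) (nat_lit 250) (nat_lit 249) (nat_lit 221))) (XT.nd (nat_lit 78) (nat_lit 532) (nat_lit 0) (XT.lf (nat_lit 76)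 (nat_lit 5940233164) (nat_lit 0) (nat_lit 3021800565) (nat_lit 608) (nat_lit 499380325) (nat_lit 74) (nat_lit 5) (nat_lit 73) (nat_lit 5) (nat_lit 81) (nat_lit 5) (nat_lit 251) (nat_lit 249) (nat_lit 220)) (XT.lf (nat_lit 0) (nat_lit 894429689) (nat_lit 608) (nat_lit 6940282933) (nat_lit 684) (nat_lit 1958563954) (nat_lit 66) (nat_lit 5) (nat_lit 74) (nat_lit 5) (nat_lit 75) (nat_lit 5) (nat_lit 252) (nat_lit 249) (nat_lit 219)))) (XT.nd (nat_lit 156) (nat_lit 456) (nat_lit 0) (XT.nd (nat_lit 78) (nat_lit 0) (nat_lit 76) (XT.lf (nat_lit 0) (nat_lit 2384218410) (nat_lit 608) (nat_lit 422766590) (nat_lit 684) (nat_lit 7344793206) (nat_lit 66) (nat_lit 5) (nat_lit 74) (nat_lit 5) (nat_lit 75) (nat_lit 5) (nat_lit 253) (nat_lit 249) (nat_lit 218)) (XT.lf (nat_lit 0) (nat_lit 4038650123) (nat_lit 608) (nat_lit 3820956066) (nat_lit 684) (nat_lit 2677634416) (nat_lit 67) (nat_lit 5) (nat_lit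 75) (nat_lit 5) (nat_lit 76) (nat_lit 5) (nat_lit 254) (nat_lit 249) (nat_lit 217))) (XT.nd (nat_lit 78) (nat_lit 532) (nat_lit 0) (XT.lf (nat_lit 76) (nat_lit 3478621333) (nat_lit 0) (nat_lit 2359688891) (nat_lit 684) (nat_lit 5115098703) (nat_lit 68) (nat_lit 5) (nat_lit 67) (nat_lit 5) (nat_lit 76) (nat_lit 5) (nat_lit 255) (nat_lit 249) (nat_lit 216)) (XT.nd (nat_lit 78) (nat_lit 608) (nat_lit 0) (XT.lf (nat_lit 0) (nat_lit 7815575716) (nat_lit 608) (nat_lit 33664486) (nat_lit 76) (nat_lit 3552423533) (nat_lit 68) (nat_lit 5) (nat_lit 76) (nat_lit 5) (nat_lit 69) (nat_lit 5) (nat_lit 256) (nat_lit 249) (nat_lit 215)) (XT.lf (nat_lit 0) (nat_lit 8153799614) (nat_lit 608) (nat_lit 1881061061) (nat_lit 684) (nat_lit 1847165833) (nat_lit 60) (nat_lit 5) (nat_lit 68) (nat_lit 5) (nat_lit 69) (nat_lit 5) (nat_lit 257) (nat_lit 249) (nat_lit 214)))))) (XT.nd (nat_lit 312) (nat_lit 836)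 (nat_lit 0) (XT.nd (nat_lit 156) (nat_lit 304) (nat_lit 0) (XT.nd (nat_lit 78) (nat_lit 304) (nat_lit 0) (XT.lf (nat_lit 0) (nat_lit 96301542) (nat_lit 760) (nat_lit 7798400419) (nat_lit 76) (nat_lit 4503158830) (nat_lit 50) (nat_lit 5) (nat_lit 60) (nat_lit 5) (nat_lit 51) (nat_lit 5) (nat_lit 258) (nat_lit 249) (nat_lit 213)) (XT.lf (nat_lit 0) (nat_lit 660705701) (nat_lit 304) (nat_lit 1503910099) (nat_lit 380) (nat_lit 10787486537) (nat_lit 46) (nat_lit 5) (nat_lit 50) (nat_lit 5) (nat_lit 51) (nat_lit 5) (nat_lit 259) (nat_lit 249) (nat_lit 212))) (XT.nd (nat_lit 78) (nat_lit 304) (nat_lit 0) (XT.lf (nat_lit 0) (nat_lit 4550435040) (nat_lit 380) (nat_lit 3627457574) (nat_lit 76) (nat_lit 5365520870) (nat_lit 46) (nat_lit 5) (nat_lit 51) (nat_lit 5) (nat_lit 47) (nat_lit 5) (nat_lit 260) (nat_lit 249) (nat_lit 211)) (XT.lf (nat_lit 0) (nat_lit 5823900147) (nat_lit 304) (nat_lit 1354403548)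 (nat_lit 380) (nat_lit 7001474291) (nat_lit 42) (nat_lit 5) (nat_lit 46) (nat_lit 5) (nat_lit 47) (nat_lit 5) (nat_lit 261) (nat_lit 249) (nat_lit 210)))) (XT.nd (nat_lit 156) (nat_lit 608) (nat_lit 0) (XT.nd (nat_lit 78) (nat_lit 0) (nat_lit 0) (XT.lf (nat_lit 0) (nat_lit 1172441433) (nat_lit 228) (nat_lit 8959083287) (nat_lit 304) (nat_lit 4730055651) (nat_lit 39) (nat_lit 5) (nat_lit 42) (nat_lit 5) (nat_lit 43) (nat_lit 5) (nat_lit 262) (nat_lit 249) (nat_lit 209)) (XT.lf (nat_lit 0) (nat_lit 11673589986) (nat_lit 228) (nat_lit 1757659465) (nat_lit 304) (nat_lit 2161428961) (nat_lit 39) (nat_lit 5) (nat_lit 42) (nat_lit 5) (nat_lit 43) (nat_lit 5) (nat_lit 263) (nat_lit 249) (nat_lit 208))) (XT.nd (nat_lit 78) (nat_lit 228) (nat_lit 0) (XT.lf (nat_lit 0) (nat_lit 740068762) (nat_lit 380) (nat_lit 9696785664) (nat_lit 76) (nat_lit 5937814641) (nat_lit 34) (nat_lit 5) (nat_lit 39)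 (nat_lit 5) (nat_lit 35) (nat_lit 5) (nat_lit 264) (nat_lit 249) (nat_lit 207)) (XT.nd (nat_lit 78) (nat_lit 0) (nat_lit 0) (XT.lf (nat_lit 0) (nat_lit 948397951) (nat_lit 228) (nat_lit 2912807330) (nat_lit 304) (nat_lit 13353295154) (nat_lit 31) (nat_lit 5) (nat_lit 34) (nat_lit 5) (nat_lit 35) (nat_lit 5) (nat_lit 265) (nat_lit 249) (nat_lit 206)) (XT.lf (nat_lit 0) (nat_lit 7436251684) (nat_lit 304) (nat_lit 5467082506) (nat_lit 76) (nat_lit 5208172589) (nat_lit 31) (nat_lit 5) (nat_lit 35) (nat_lit 5) (nat_lit 32) (nat_lit 5) (nat_lit 266) (nat_lit 249) (nat_lit 205))))))))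
noncomputable def xc69 : XT := (XT.nd (nat_lit 1326) (nat_lit 456) (nat_lit 0) (XT.nd (nat_lit 624) (nat_lit 684) (nat_lit 0) (XT.nd (nat_lit 312) (nat_lit 304) (nat_lit 0) (XT.nd (nat_lit 156) (nat_lit 456) (nat_lit 0) (XT.nd (nat_lit 78) (nat_lit 0) (nat_lit 0) (XT.lf (nat_lit 0) (nat_lit 6291333572) (nat_lit 228) (nat_lit 5108073712) (nat_lit 304) (nat_lit 7675945716) (nat_lit 28) (nat_lit 5) (nat_lit 31) (nat_lit 5) (nat_lit 32) (nat_lit 5) (nat_lit 267) (nat_lit 249) (nat_lit 204)) (XT.lf (nat_lit 0) (nat_lit 15785187663) (nat_lit 304) (nat_lit 1035578613) (nat_lit 76) (nat_lit 3290432992) (nat_lit 28) (nat_lit 5) (nat_lit 32) (nat_lit 5) (nat_lit 29) (nat_lit 5) (nat_lit 268) (nat_lit 249) (nat_lit 203))) (XT.nd (nat_lit 78) (nat_lit 304) (nat_lit 0) (XT.lf (nat_lit 0) (nat_lit 11895070849) (nat_lit 152) (nat_lit 8858872299) (nat_lit 228) (nat_lit 464522758) (nat_lit 26) (nat_lit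 5) (nat_lit 28) (nat_lit 5) (nat_lit 29) (nat_lit 5) (nat_lit 269) (nat_lit 249) (nat_lit 202)) (XT.lf (nat_lit 0) (nat_lit 3485763917) (nat_lit 228) (nat_lit 135938142) (nat_lit 304) (nat_lit 18788137033) (nat_lit 22) (nat_lit 5) (nat_lit 25) (nat_lit 5) (nat_lit 26) (nat_lit 5) (nat_lit 270) (nat_lit 249) (nat_lit 201)))) (XT.nd (nat_lit 156) (nat_lit 152) (nat_lit 0) (XT.nd (nat_lit 78) (nat_lit 152) (nat_lit 0) (XT.lf (nat_lit 0) (nat_lit 8292341336) (nat_lit 304) (nat_lit 6242163419) (nat_lit 76) (nat_lit 9148076323) (nat_lit 22) (nat_lit 5) (nat_lit 26) (nat_lit 5) (nat_lit 23) (nat_lit 5) (nat_lit 271) (nat_lit 249) (nat_lit 200)) (XT.lf (nat_lit 0) (nat_lit 7649722685) (nat_lit 152) (nat_lit 5774876824) (nat_lit 228) (nat_lit 11628264207) (nat_lit 20) (nat_lit 5) (nat_lit 22) (nat_lit 5) (nat_lit 23) (nat_lit 5) (nat_lit 272) (nat_lit 249) (nat_lit 199))) (XT.nd (nat_lit 78)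 (nat_lit 152) (nat_lit 0) (XT.lf (nat_lit 0) (nat_lit 19103330658) (nat_lit 228) (nat_lit 3757372186) (nat_lit 76) (nat_lit 3665382321) (nat_lit 20) (nat_lit 5) (nat_lit 23) (nat_lit 5) (nat_lit 21) (nat_lit 5) (nat_lit 273) (nat_lit 249) (nat_lit 198)) (XT.lf (nat_lit 0) (nat_lit 11197956805) (nat_lit 152) (nat_lit 14280826630) (nat_lit 228) (nat_lit 2626362346) (nat_lit 18) (nat_lit 5) (nat_lit 20) (nat_lit 5) (nat_lit 21) (nat_lit 5) (nat_lit 274) (nat_lit 249) (nat_lit 197))))) (XT.nd (nat_lit 312) (nat_lit 304) (nat_lit 0) (XT.nd (nat_lit 156) (nat_lit 152) (nat_lit 0) (XT.nd (nat_lit 78) (nat_lit 152) (nat_lit 0) (XT.lf (nat_lit 0) (nat_lit 2509753599) (nat_lit 228) (nat_lit 2406614520) (nat_lit 76) (nat_lit 24890372653) (nat_lit 17) (nat_lit 5) (nat_lit 20) (nat_lit 5) (nat_lit 18) (nat_lit 5) (nat_lit 275) (nat_lit 249) (nat_lit 196)) (XT.lf (nat_lit 0) (nat_lit 8236914518) (nat_lit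 228) (nat_lit 18112166786) (nat_lit 76) (nat_lit 5279704551) (nat_lit 15) (nat_lit 5) (nat_lit 18) (nat_lit 5) (nat_lit 16) (nat_lit 5) (nat_lit 276) (nat_lit 249) (nat_lit 195))) (XT.nd (nat_lit 78) (nat_lit 152) (nat_lit 0) (XT.lf (nat_lit 0) (nat_lit 14522309983) (nat_lit 228) (nat_lit 2917046804) (nat_lit 76) (nat_lit 16152312247) (nat_lit 15) (nat_lit 5) (nat_lit 18) (nat_lit 5) (nat_lit 16) (nat_lit 5) (nat_lit 277) (nat_lit 249) (nat_lit 194)) (XT.lf (nat_lit 0) (nat_lit 13902910007) (nat_lit 152) (nat_lit 7601129181) (nat_lit 228) (nat_lit 14197940403) (nat_lit 13) (nat_lit 5) (nat_lit 15) (nat_lit 5) (nat_lit 16) (nat_lit 5) (nat_lit 278) (nat_lit 249) (nat_lit 193)))) (XT.nd (nat_lit 156) (nat_lit 228) (nat_lit 0) (XT.nd (nat_lit 78) (nat_lit 76) (nat_lit 0) (XT.lf (nat_lit 0) (nat_lit 29120633425) (nat_lit 228) (nat_lit 5889190689) (nat_lit 76) (nat_lit 2967541052) (nat_lit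 13) (nat_lit 5) (nat_lit 16) (nat_lit 5) (nat_lit 14) (nat_lit 4) (nat_lit 279) (nat_lit 249) (nat_lit 192)) (XT.lf (nat_lit 0) (nat_lit 11500816859) (nat_lit 76) (nat_lit 26132601558) (nat_lit 152) (nat_lit 2787081589) (nat_lit 12) (nat_lit 5) (nat_lit 13) (nat_lit 5) (nat_lit 14) (nat_lit 4) (nat_lit 280) (nat_lit 249) (nat_lit 191))) (XT.nd (nat_lit 78) (nat_lit 152) (nat_lit 0) (XT.lf (nat_lit 0) (nat_lit 3731617486) (nat_lit 152) (nat_lit 12654039310) (nat_lit 76) (nat_lit 26666337533) (nat_lit 11) (nat_lit 5) (nat_lit 13) (nat_lit 5) (nat_lit 12) (nat_lit 5) (nat_lit 281) (nat_lit 249) (nat_lit 190)) (XT.nd (nat_lit 78) (nat_lit 0) (nat_lit 0) (XT.lf (nat_lit 0) (nat_lit 4996238131) (nat_lit 152) (nat_lit 5738547915) (nat_lit 228) (nat_lit 35153956976) (nat_lit 9) (nat_lit 5) (nat_lit 11) (nat_lit 5) (nat_lit 12) (nat_lit 5) (nat_lit 282) (nat_lit 249) (nat_lit 189)) (XT.lf (nat_lit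 0) (nat_lit 18594269844) (nat_lit 228) (nat_lit 24553569272) (nat_lit 76) (nat_lit 5789835962) (nat_lit 9) (nat_lit 5) (nat_lit 12) (nat_lit 5) (nat_lit 10) (nat_lit 4) (nat_lit 283) (nat_lit 249) (nat_lit 188))))))) (XT.nd (nat_lit 702) (nat_lit 152) (nat_lit 0) (XT.nd (nat_lit 312) (nat_lit 228) (nat_lit 0) (XT.nd (nat_lit 156) (nat_lit 0) (nat_lit 0) (XT.nd (nat_lit 78) (nat_lit 76) (nat_lit 0) (XT.lf (nat_lit 0) (nat_lit 27162689686) (nat_lit 228) (nat_lit 7031151515) (nat_lit 76) (nat_lit 18032714738) (nat_lit 9) (nat_lit 5) (nat_lit 12) (nat_lit 5) (nat_lit 10) (nat_lit 4) (nat_lit 284) (nat_lit 249) (nat_lit 187)) (XT.lf (nat_lit 0) (nat_lit 12260595363) (nat_lit 76) (nat_lit 24332053469) (nat_lit 152) (nat_lit 19177135069) (nat_lit 8) (nat_lit 5) (nat_lit 9) (nat_lit 5) (nat_lit 10) (nat_lit 4) (nat_lit 285) (nat_lit 249) (nat_lit 186))) (XT.nd (nat_lit 78) (nat_lit 0) (nat_lit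 0) (XT.lf (nat_lit 0) (nat_lit 33322963479) (nat_lit 76) (nat_lit 13561928775) (nat_lit 152) (nat_lit 12706220426) (nat_lit 8) (nat_lit 5) (nat_lit 9) (nat_lit 5) (nat_lit 10) (nat_lit 4) (nat_lit 286) (nat_lit 249) (nat_lit 185)) (XT.lf (nat_lit 0) (nat_lit 56048285241) (nat_lit 76) (nat_lit 1938720112) (nat_lit 152) (nat_lit 5731852119) (nat_lit 8) (nat_lit 5) (nat_lit 9) (nat_lit 5) (nat_lit 10) (nat_lit 4) (nat_lit 287) (nat_lit 249) (nat_lit 184)))) (XT.nd (nat_lit 156) (nat_lit 76) (nat_lit 0) (XT.nd (nat_lit 78) (nat_lit 0) (nat_lit 0) (XT.lf (nat_lit 0) (nat_lit 2098867352) (nat_lit 152) (nat_lit 55560718649) (nat_lit 76) (nat_lit 10498059115) (nat_lit 6) (nat_lit 5) (nat_lit 8) (nat_lit 5) (nat_lit 7) (nat_lit 4) (nat_lit 288) (nat_lit 249) (nat_lit 183)) (XT.lf (nat_lit 0) (nat_lit 10514175573) (nat_lit 152) (nat_lit 38337106484) (nat_lit 76) (nat_lit 24087636050) (nat_lit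 6) (nat_lit 5) (nat_lit 8) (nat_lit 5) (nat_lit 7) (nat_lit 4) (nat_lit 289) (nat_lit 249) (nat_lit 182))) (XT.nd (nat_lit 78) (nat_lit 76) (nat_lit 0) (XT.lf (nat_lit 0) (nat_lit 19591380159) (nat_lit 152) (nat_lit 19754549757) (nat_lit 76) (nat_lit 38757355308) (nat_lit 6) (nat_lit 5) (nat_lit 8) (nat_lit 5) (nat_lit 7) (nat_lit 4) (nat_lit 290) (nat_lit 249) (nat_lit 181)) (XT.nd (nat_lit 78) (nat_lit 0) (nat_lit 0) (XT.lf (nat_lit 0) (nat_lit 306892876) (nat_lit 76) (nat_lit 29082170533) (nat_lit 152) (nat_lit 54292047140) (nat_lit 5) (nat_lit 5) (nat_lit 6) (nat_lit 5) (nat_lit 7) (nat_lit 4) (nat_lit 291) (nat_lit 249) (nat_lit 180)) (XT.lf (nat_lit 0) (nat_lit 22661900715) (nat_lit 76) (nat_lit 17642797968) (nat_lit 152) (nat_lit 49383778531) (nat_lit 5) (nat_lit 5) (nat_lit 6) (nat_lit 5) (nat_lit 7) (nat_lit 4) (nat_lit 292) (nat_lit 249) (nat_lit 179)))))) (XT.nd (nat_lit 312)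 (nat_lit 76) (nat_lit 0) (XT.nd (nat_lit 156) (nat_lit 76) (nat_lit 0) (XT.nd (nat_lit 78) (nat_lit 0) (nat_lit 0) (XT.lf (nat_lit 0) (nat_lit 46789773250) (nat_lit 76) (nat_lit 5294576206) (nat_lit 152) (nat_lit 44092566061) (nat_lit 5) (nat_lit 5) (nat_lit 6) (nat_lit 5) (nat_lit 7) (nat_lit 4) (nat_lit 293) (nat_lit 249) (nat_lit 178)) (XT.lf (nat_lit 0) (nat_lit 64923280385) (nat_lit 152) (nat_lit 30476844314) (nat_lit 0) (nat_lit 7778477796) (nat_lit 5) (nat_lit 5) (nat_lit 7) (nat_lit 4) (nat_lit 5) (nat_lit 4) (nat_lit 294) (nat_lit 249) (nat_lit 177))) (XT.nd (nat_lit 78) (nat_lit 76) (nat_lit 0) (XT.lf (nat_lit 0) (nat_lit 78870599877) (nat_lit 152) (nat_lit 10156647469) (nat_lit 0) (nat_lit 21709130989) (nat_lit 5) (nat_lit 5) (nat_lit 7) (nat_lit 4) (nat_lit 5) (nat_lit 4) (nat_lit 295) (nat_lit 249) (nat_lit 176)) (XT.lf (nat_lit 0) (nat_lit 12165912601) (nat_lit 76) (nat_lit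 81950326931) (nat_lit 76) (nat_lit 24773426286) (nat_lit 4) (nat_lit 4) (nat_lit 5) (nat_lit 5) (nat_lit 5) (nat_lit 4) (nat_lit 296) (nat_lit 249) (nat_lit 175)))) (XT.nd (nat_lit 156) (nat_lit 76) (nat_lit 0) (XT.nd (nat_lit 78) (nat_lit 0) (nat_lit 0) (XT.lf (nat_lit 0) (nat_lit 36624879600) (nat_lit 76) (nat_lit 74126523727) (nat_lit 76) (nat_lit 16935334418) (nat_lit 4) (nat_lit 4) (nat_lit 5) (nat_lit 5) (nat_lit 5) (nat_lit 4) (nat_lit 297) (nat_lit 249) (nat_lit 174)) (XT.lf (nat_lit 0) (nat_lit 63029370919) (nat_lit 76) (nat_lit 65681482198) (nat_lit 76) (nat_lit 8477062643) (nat_lit 4) (nat_lit 4) (nat_lit 5) (nat_lit 5) (nat_lit 5) (nat_lit 4) (nat_lit 298) (nat_lit 249) (nat_lit 173))) (XT.nd (nat_lit 78) (nat_lit 0) (nat_lit 0) (XT.lf (nat_lit 0) (nat_lit 630659672) (nat_lit 152) (nat_lit 55923817452) (nat_lit 76) (nat_lit 90894517418) (nat_lit 3) (nat_lit 5) (nat_lit 5)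 (nat_lit 5) (nat_lit 4) (nat_lit 4) (nat_lit 299) (nat_lit 249) (nat_lit 172)) (XT.nd (nat_lit 78) (nat_lit 0) (nat_lit 0) (XT.lf (nat_lit 0) (nat_lit 10168276032) (nat_lit 152) (nat_lit 36383046718) (nat_lit 76) (nat_lit 111972786318) (nat_lit 3) (nat_lit 5) (nat_lit 5) (nat_lit 5) (nat_lit 4) (nat_lit 4) (nat_lit 300) (nat_lit 249) (nat_lit 171)) (XT.lf (nat_lit 0) (nat_lit 20463624588) (nat_lit 152) (nat_lit 15288084773) (nat_lit 76) (nat_lit 134733797818) (nat_lit 3) (nat_lit 5) (nat_lit 5) (nat_lit 5) (nat_lit 4) (nat_lit 4) (nat_lit 301) (nat_lit 249) (nat_lit 170))))))))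
noncomputable def xc70 : XT := (XT.nd (nat_lit 1326) (nat_lit 0) (nat_lit 0) (XT.nd (nat_lit 624) (nat_lit 76) (nat_lit 0) (XT.nd (nat_lit 312) (nat_lit 0) (nat_lit 0) (XT.nd (nat_lit 156) (nat_lit 0) (nat_lit 0) (XT.nd (nat_lit 78) (nat_lit 0) (nat_lit 0) (XT.lf (nat_lit 0) (nat_lit 7733599029) (nat_lit 76) (nat_lit 23964858938) (nat_lit 152) (nat_lit 151699576109) (nat_lit 2) (nat_lit 5) (nat_lit 3) (nat_lit 5) (nat_lit 4) (nat_lit 4) (nat_lit 302) (nat_lit 249) (nat_lit 169)) (XT.lf (nat_lit 0) (nat_lit 33134916539) (nat_lit 76) (nat_lit 10958820351) (nat_lit 152) (nat_lit 153236752351) (nat_lit 2) (nat_lit 5) (nat_lit 3) (nat_lit 5) (nat_lit 4) (nat_lit 4) (nat_lit 303) (nat_lit 249) (nat_lit 168))) (XT.nd (nat_lit 78) (nat_lit 0) (nat_lit 0) (XT.lf (nat_lit 0) (nat_lit 57524491603) (nat_lit 152) (nat_lit 151865022268) (nat_lit 0) (nat_lit 2985842664) (nat_lit 2) (nat_lit 5) (nat_lit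 4) (nat_lit 4) (nat_lit 2) (nat_lit 4) (nat_lit 304) (nat_lit 249) (nat_lit 167)) (XT.lf (nat_lit 0) (nat_lit 72210460759) (nat_lit 152) (nat_lit 138739862812) (nat_lit 0) (nat_lit 17664459705) (nat_lit 2) (nat_lit 5) (nat_lit 4) (nat_lit 4) (nat_lit 2) (nat_lit 4) (nat_lit 305) (nat_lit 249) (nat_lit 166)))) (XT.nd (nat_lit 156) (nat_lit 0) (nat_lit 0) (XT.nd (nat_lit 78) (nat_lit 0) (nat_lit 0) (XT.lf (nat_lit 0) (nat_lit 88067574426) (nat_lit 152) (nat_lit 124571217716) (nat_lit 0) (nat_lit 33514765858) (nat_lit 2) (nat_lit 5) (nat_lit 4) (nat_lit 4) (nat_lit 2) (nat_lit 4) (nat_lit 306) (nat_lit 249) (nat_lit 165)) (XT.lf (nat_lit 0) (nat_lit 105189800686) (nat_lit 152) (nat_lit 109275124637) (nat_lit 0) (nat_lit 50630688864) (nat_lit 2) (nat_lit 5) (nat_lit 4) (nat_lit 4) (nat_lit 2) (nat_lit 4) (nat_lit 307) (nat_lit 249) (nat_lit 164))) (XT.nd (nat_lit 78) (nat_lit 0) (nat_lit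 0) (XT.lf (nat_lit 0) (nat_lit 123678604582) (nat_lit 152) (nat_lit 92760940062) (nat_lit 0) (nat_lit 69113656414) (nat_lit 2) (nat_lit 5) (nat_lit 4) (nat_lit 4) (nat_lit 2) (nat_lit 4) (nat_lit 308) (nat_lit 249) (nat_lit 163)) (XT.lf (nat_lit 0) (nat_lit 143643549397) (nat_lit 152) (nat_lit 74930802155) (nat_lit 0) (nat_lit 89073197205) (nat_lit 2) (nat_lit 5) (nat_lit 4) (nat_lit 4) (nat_lit 2) (nat_lit 4) (nat_lit 309) (nat_lit 249) (nat_lit 162))))) (XT.nd (nat_lit 312) (nat_lit 0) (nat_lit 0) (XT.nd (nat_lit 156) (nat_lit 76) (nat_lit 0) (XT.nd (nat_lit 78) (nat_lit 0) (nat_lit 0) (XT.lf (nat_lit 0) (nat_lit 165202945916) (nat_lit 152) (nat_lit 55679050840) (nat_lit 0) (nat_lit 110627589998) (nat_lit 2) (nat_lit 5) (nat_lit 4) (nat_lit 4) (nat_lit 2) (nat_lit 4) (nat_lit 310) (nat_lit 249) (nat_lit 161)) (XT.lf (nat_lit 0) (nat_lit 188484553524) (nat_lit 152) (nat_lit 34891601665)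 (nat_lit 0) (nat_lit 133904564527) (nat_lit 2) (nat_lit 5) (nat_lit 4) (nat_lit 4) (nat_lit 2) (nat_lit 4) (nat_lit 311) (nat_lit 249) (nat_lit 160))) (XT.nd (nat_lit 78) (nat_lit 76) (nat_lit 0) (XT.lf (nat_lit 0) (nat_lit 213626337305) (nat_lit 152) (nat_lit 12445269746) (nat_lit 0) (nat_lit 159042058419) (nat_lit 2) (nat_lit 5) (nat_lit 4) (nat_lit 4) (nat_lit 2) (nat_lit 4) (nat_lit 312) (nat_lit 249) (nat_lit 159)) (XT.lf (nat_lit 0) (nat_lit 12182888740) (nat_lit 76) (nat_lit 228784605901) (nat_lit 76) (nat_lit 174196354895) (nat_lit 1) (nat_lit 4) (nat_lit 2) (nat_lit 5) (nat_lit 2) (nat_lit 4) (nat_lit 313) (nat_lit 249) (nat_lit 158)))) (XT.nd (nat_lit 156) (nat_lit 0) (nat_lit 0) (XT.nd (nat_lit 78) (nat_lit 0) (nat_lit 0) (XT.lf (nat_lit 0) (nat_lit 39222073479) (nat_lit 76) (nat_lit 231488585943) (nat_lit 76) (nat_lit 176896657050) (nat_lit 1) (nat_lit 4) (nat_lit 2) (nat_lit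 5) (nat_lit 2) (nat_lit 4) (nat_lit 314) (nat_lit 249) (nat_lit 157)) (XT.lf (nat_lit 0) (nat_lit 68421019851) (nat_lit 76) (nat_lit 234410337430) (nat_lit 76) (nat_lit 179815003085) (nat_lit 1) (nat_lit 4) (nat_lit 2) (nat_lit 5) (nat_lit 2) (nat_lit 4) (nat_lit 315) (nat_lit 249) (nat_lit 156))) (XT.nd (nat_lit 78) (nat_lit 0) (nat_lit 0) (XT.lf (nat_lit 0) (nat_lit 99952758652) (nat_lit 76) (nat_lit 237567174443) (nat_lit 76) (nat_lit 182968686902) (nat_lit 1) (nat_lit 4) (nat_lit 2) (nat_lit 5) (nat_lit 2) (nat_lit 4) (nat_lit 316) (nat_lit 249) (nat_lit 155)) (XT.nd (nat_lit 78) (nat_lit 0) (nat_lit 0) (XT.lf (nat_lit 0) (nat_lit 134004144629) (nat_lit 76) (nat_lit 240977804164) (nat_lit 76) (nat_lit 186376396997) (nat_lit 1) (nat_lit 4) (nat_lit 2) (nat_lit 5) (nat_lit 2) (nat_lit 4) (nat_lit 317) (nat_lit 249) (nat_lit 154)) (XT.lf (nat_lit 0) (nat_lit 170776963774) (nat_lit 76)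 (nat_lit 244662437734) (nat_lit 76) (nat_lit 190058327209) (nat_lit 1) (nat_lit 4) (nat_lit 2) (nat_lit 5) (nat_lit 2) (nat_lit 4) (nat_lit 318) (nat_lit 249) (nat_lit 153))))))) (XT.nd (nat_lit 32682) (nat_lit 0) (nat_lit 2508) (XT.nd (nat_lit 32292) (nat_lit 0) (nat_lit 4864) (XT.nd (nat_lit 32136) (nat_lit 0) (nat_lit 4864) (XT.nd (nat_lit 78) (nat_lit 0) (nat_lit 0) (XT.lf (nat_lit 0) (nat_lit 210489129088) (nat_lit 76) (nat_lit 248642910017) (nat_lit 76) (nat_lit 194036296383) (nat_lit 1) (nat_lit 4) (nat_lit 2) (nat_lit 5) (nat_lit 2) (nat_lit 4) (nat_lit 319) (nat_lit 249) (nat_lit 152)) (XT.lf (nat_lit 0) (nat_lit 253375971922) (nat_lit 76) (nat_lit 252942808997) (nat_lit 76) (nat_lit 198333877670) (nat_lit 1) (nat_lit 4) (nat_lit 2) (nat_lit 5) (nat_lit 2) (nat_lit 4) (nat_lit 320) (nat_lit 249) (nat_lit 151))) (XT.nd (nat_lit 78) (nat_lit 608) (nat_lit 0) (XT.lf (nat_lit 0)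 (nat_lit 2178227458) (nat_lit 0) (nat_lit 2178227458) (nat_lit 532) (nat_lit 365924069) (nat_lit 73) (nat_lit 5) (nat_lit 73) (nat_lit 3) (nat_lit 80) (nat_lit 3) (nat_lit 250) (nat_lit 250) (nat_lit 220)) (XT.lf (nat_lit 0) (nat_lit 398366595) (nat_lit 608) (nat_lit 8752190852) (nat_lit 684) (nat_lit 609852246) (nat_lit 65) (nat_lit 5) (nat_lit 73) (nat_lit 5) (nat_lit 74) (nat_lit 5) (nat_lit 251) (nat_lit 250) (nat_lit 219)))) (XT.nd (nat_lit 156) (nat_lit 0) (nat_lit 76) (XT.nd (nat_lit 78) (nat_lit 0) (nat_lit 76) (XT.lf (nat_lit 0) (nat_lit 1646112684) (nat_lit 608) (nat_lit 2477473017) (nat_lit 684) (nat_lit 5975088173) (nat_lit 65) (nat_lit 5) (nat_lit 73) (nat_lit 5) (nat_lit 74) (nat_lit 5) (nat_lit 252) (nat_lit 250) (nat_lit 218)) (XT.lf (nat_lit 0) (nat_lit 2981244933) (nat_lit 608) (nat_lit 6111612008) (nat_lit 684) (nat_lit 1372317557) (nat_lit 66) (nat_lit 5) (nat_lit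 74) (nat_lit 5) (nat_lit 75) (nat_lit 5) (nat_lit 253) (nat_lit 250) (nat_lit 217))) (XT.nd (nat_lit 78) (nat_lit 0) (nat_lit 76) (XT.lf (nat_lit 76) (nat_lit 852066455) (nat_lit 0) (nat_lit 3602174859) (nat_lit 684) (nat_lit 6405713803) (nat_lit 67) (nat_lit 5) (nat_lit 66) (nat_lit 5) (nat_lit 75) (nat_lit 5) (nat_lit 254) (nat_lit 250) (nat_lit 216)) (XT.nd (nat_lit 78) (nat_lit 0) (nat_lit 0) (XT.lf (nat_lit 0) (nat_lit 6100502623) (nat_lit 608) (nat_lit 2796194388) (nat_lit 684) (nat_lit 2387324564) (nat_lit 67) (nat_lit 5) (nat_lit 75) (nat_lit 5) (nat_lit 76) (nat_lit 5) (nat_lit 255) (nat_lit 250) (nat_lit 215)) (XT.lf (nat_lit 76) (nat_lit 5029529982) (nat_lit 0) (nat_lit 2905677625) (nat_lit 684) (nat_lit 3804408097) (nat_lit 68) (nat_lit 5) (nat_lit 67) (nat_lit 5) (nat_lit 76) (nat_lit 5) (nat_lit 256) (nat_lit 250) (nat_lit 214)))))) (XT.nd (nat_lit 312) (nat_lit 912) (nat_lit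 0) (XT.nd (nat_lit 156) (nat_lit 1064) (nat_lit 0) (XT.nd (nat_lit 78) (nat_lit 0) (nat_lit 0) (XT.lf (nat_lit 0) (nat_lit 1271239193) (nat_lit 608) (nat_lit 8693370426) (nat_lit 684) (nat_lit 2265058648) (nat_lit 60) (nat_lit 5) (nat_lit 68) (nat_lit 5) (nat_lit 69) (nat_lit 5) (nat_lit 257) (nat_lit 250) (nat_lit 213)) (XT.lf (nat_lit 0) (nat_lit 10017954497) (nat_lit 608) (nat_lit 2231152680) (nat_lit 684) (nat_lit 505557482) (nat_lit 60) (nat_lit 5) (nat_lit 68) (nat_lit 5) (nat_lit 69) (nat_lit 5) (nat_lit 258) (nat_lit 250) (nat_lit 212))) (XT.nd (nat_lit 78) (nat_lit 304) (nat_lit 0) (XT.lf (nat_lit 0) (nat_lit 1455616347) (nat_lit 760) (nat_lit 7134395835) (nat_lit 76) (nat_lit 4725614498) (nat_lit 50) (nat_lit 5) (nat_lit 60) (nat_lit 5) (nat_lit 51) (nat_lit 5) (nat_lit 259) (nat_lit 250) (nat_lit 211)) (XT.lf (nat_lit 0) (nat_lit 1945469227) (nat_lit 304) (nat_lit 1663040731)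 (nat_lit 380) (nat_lit 10310222062) (nat_lit 46) (nat_lit 5) (nat_lit 50) (nat_lit 5) (nat_lit 51) (nat_lit 5) (nat_lit 260) (nat_lit 250) (nat_lit 210)))) (XT.nd (nat_lit 156) (nat_lit 608) (nat_lit 0) (XT.nd (nat_lit 78) (nat_lit 304) (nat_lit 0) (XT.lf (nat_lit 0) (nat_lit 6090505805) (nat_lit 380) (nat_lit 2712050820) (nat_lit 76) (nat_lit 5759970493) (nat_lit 46) (nat_lit 5) (nat_lit 51) (nat_lit 5) (nat_lit 47) (nat_lit 5) (nat_lit 261) (nat_lit 250) (nat_lit 209)) (XT.lf (nat_lit 0) (nat_lit 7443021466) (nat_lit 304) (nat_lit 1416473540) (nat_lit 380) (nat_lit 6394172898) (nat_lit 42) (nat_lit 5) (nat_lit 46) (nat_lit 5) (nat_lit 47) (nat_lit 5) (nat_lit 262) (nat_lit 250) (nat_lit 208))) (XT.nd (nat_lit 78) (nat_lit 380) (nat_lit 0) (XT.lf (nat_lit 0) (nat_lit 2426501190) (nat_lit 228) (nat_lit 9559261980) (nat_lit 304) (nat_lit 4007793020) (nat_lit 39) (nat_lit 5) (nat_lit 42)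 (nat_lit 5) (nat_lit 43) (nat_lit 5) (nat_lit 263) (nat_lit 250) (nat_lit 207)) (XT.nd (nat_lit 78) (nat_lit 380) (nat_lit 0) (XT.lf (nat_lit 0) (nat_lit 13681796113) (nat_lit 228) (nat_lit 1790357434) (nat_lit 304) (nat_lit 1315207090) (nat_lit 39) (nat_lit 5) (nat_lit 42) (nat_lit 5) (nat_lit 43) (nat_lit 5) (nat_lit 264) (nat_lit 250) (nat_lit 206)) (XT.lf (nat_lit 0) (nat_lit 1731384044) (nat_lit 380) (nat_lit 9361359164) (nat_lit 76) (nat_lit 6541403385) (nat_lit 34) (nat_lit 5) (nat_lit 39) (nat_lit 5) (nat_lit 35) (nat_lit 5) (nat_lit 265) (nat_lit 250) (nat_lit 205))))))))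
noncomputable def xc71 : XT := (XT.nd (nat_lit 1404) (nat_lit 456) (nat_lit 0) (XT.nd (nat_lit 702) (nat_lit 836) (nat_lit 0) (XT.nd (nat_lit 312) (nat_lit 608) (nat_lit 0) (XT.nd (nat_lit 156) (nat_lit 228) (nat_lit 0) (XT.nd (nat_lit 78) (nat_lit 0) (nat_lit 0) (XT.lf (nat_lit 0) (nat_lit 2087149074) (nat_lit 228) (nat_lit 2962611765) (nat_lit 304) (nat_lit 13494314348) (nat_lit 31) (nat_lit 5) (nat_lit 34) (nat_lit 5) (nat_lit 35) (nat_lit 5) (nat_lit 266) (nat_lit 250) (nat_lit 204)) (XT.lf (nat_lit 0) (nat_lit 8848299704) (nat_lit 304) (nat_lit 4878889856) (nat_lit 76) (nat_lit 5789044880) (nat_lit 31) (nat_lit 5) (nat_lit 35) (nat_lit 5) (nat_lit 32) (nat_lit 5) (nat_lit 267) (nat_lit 250) (nat_lit 203))) (XT.nd (nat_lit 78) (nat_lit 0) (nat_lit 0) (XT.lf (nat_lit 0) (nat_lit 7775629952) (nat_lit 228) (nat_lit 5307664325) (nat_lit 304) (nat_lit 7476401829) (nat_lit 28) (nat_lit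 5) (nat_lit 31) (nat_lit 5) (nat_lit 32) (nat_lit 5) (nat_lit 268) (nat_lit 250) (nat_lit 202)) (XT.lf (nat_lit 0) (nat_lit 17765778925) (nat_lit 304) (nat_lit 174525930) (nat_lit 76) (nat_lit 3741041899) (nat_lit 28) (nat_lit 5) (nat_lit 32) (nat_lit 5) (nat_lit 29) (nat_lit 5) (nat_lit 269) (nat_lit 250) (nat_lit 201)))) (XT.nd (nat_lit 156) (nat_lit 152) (nat_lit 0) (XT.nd (nat_lit 78) (nat_lit 228) (nat_lit 0) (XT.lf (nat_lit 0) (nat_lit 206765926) (nat_lit 228) (nat_lit 9133140301) (nat_lit 76) (nat_lit 13539287183) (nat_lit 25) (nat_lit 5) (nat_lit 28) (nat_lit 5) (nat_lit 26) (nat_lit 5) (nat_lit 270) (nat_lit 250) (nat_lit 200)) (XT.lf (nat_lit 0) (nat_lit 4567752038) (nat_lit 304) (nat_lit 19516312030) (nat_lit 76) (nat_lit 83411525) (nat_lit 22) (nat_lit 5) (nat_lit 26) (nat_lit 5) (nat_lit 23) (nat_lit 5) (nat_lit 271) (nat_lit 250) (nat_lit 199))) (XT.nd (nat_lit 78) (nat_lit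 152) (nat_lit 0) (XT.lf (nat_lit 0) (nat_lit 9565548994) (nat_lit 304) (nat_lit 5890242980) (nat_lit 76) (nat_lit 10088742596) (nat_lit 22) (nat_lit 5) (nat_lit 26) (nat_lit 5) (nat_lit 23) (nat_lit 5) (nat_lit 272) (nat_lit 250) (nat_lit 198)) (XT.nd (nat_lit 78) (nat_lit 0) (nat_lit 0) (XT.lf (nat_lit 0) (nat_lit 9075997834) (nat_lit 152) (nat_lit 5999931573) (nat_lit 228) (nat_lit 11950293479) (nat_lit 20) (nat_lit 5) (nat_lit 22) (nat_lit 5) (nat_lit 23) (nat_lit 5) (nat_lit 273) (nat_lit 250) (nat_lit 197)) (XT.lf (nat_lit 0) (nat_lit 21169616705) (nat_lit 228) (nat_lit 3278824890) (nat_lit 76) (nat_lit 4170975856) (nat_lit 20) (nat_lit 5) (nat_lit 23) (nat_lit 5) (nat_lit 21) (nat_lit 5) (nat_lit 274) (nat_lit 250) (nat_lit 196)))))) (XT.nd (nat_lit 312) (nat_lit 456) (nat_lit 0) (XT.nd (nat_lit 156) (nat_lit 152) (nat_lit 0) (XT.nd (nat_lit 78) (nat_lit 76) (nat_lit 0) (XT.lf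 (nat_lit 0) (nat_lit 12839070072) (nat_lit 152) (nat_lit 15187818187) (nat_lit 228) (nat_lit 2299462829) (nat_lit 18) (nat_lit 5) (nat_lit 20) (nat_lit 5) (nat_lit 21) (nat_lit 5) (nat_lit 275) (nat_lit 250) (nat_lit 195)) (XT.lf (nat_lit 0) (nat_lit 3191849515) (nat_lit 228) (nat_lit 1891644728) (nat_lit 76) (nat_lit 27082206564) (nat_lit 17) (nat_lit 5) (nat_lit 20) (nat_lit 5) (nat_lit 18) (nat_lit 5) (nat_lit 276) (nat_lit 250) (nat_lit 194))) (XT.nd (nat_lit 78) (nat_lit 0) (nat_lit 0) (XT.lf (nat_lit 0) (nat_lit 9355539279) (nat_lit 228) (nat_lit 18863618435) (nat_lit 76) (nat_lit 5915546091) (nat_lit 15) (nat_lit 5) (nat_lit 18) (nat_lit 5) (nat_lit 16) (nat_lit 5) (nat_lit 277) (nat_lit 250) (nat_lit 193)) (XT.lf (nat_lit 0) (nat_lit 16109716633) (nat_lit 228) (nat_lit 2504557128) (nat_lit 76) (nat_lit 17642150168) (nat_lit 15) (nat_lit 5) (nat_lit 18) (nat_lit 5) (nat_lit 16)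 (nat_lit 5) (nat_lit 278) (nat_lit 250) (nat_lit 192)))) (XT.nd (nat_lit 156) (nat_lit 304) (nat_lit 0) (XT.nd (nat_lit 78) (nat_lit 0) (nat_lit 0) (XT.lf (nat_lit 0) (nat_lit 15632928226) (nat_lit 152) (nat_lit 7995173767) (nat_lit 228) (nat_lit 14908647561) (nat_lit 13) (nat_lit 5) (nat_lit 15) (nat_lit 5) (nat_lit 16) (nat_lit 5) (nat_lit 279) (nat_lit 250) (nat_lit 191)) (XT.lf (nat_lit 0) (nat_lit 31827211434) (nat_lit 228) (nat_lit 5771592640) (nat_lit 76) (nat_lit 3396791510) (nat_lit 13) (nat_lit 5) (nat_lit 16) (nat_lit 5) (nat_lit 14) (nat_lit 4) (nat_lit 280) (nat_lit 250) (nat_lit 190))) (XT.nd (nat_lit 78) (nat_lit 228) (nat_lit 0) (XT.lf (nat_lit 0) (nat_lit 12984029881) (nat_lit 76) (nat_lit 28017861115) (nat_lit 152) (nat_lit 2633329030) (nat_lit 12) (nat_lit 5) (nat_lit 13) (nat_lit 5) (nat_lit 14) (nat_lit 4) (nat_lit 281) (nat_lit 250) (nat_lit 189)) (XT.nd (nat_lit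 78) (nat_lit 152) (nat_lit 0) (XT.lf (nat_lit 0) (nat_lit 4367796629) (nat_lit 152) (nat_lit 13132856887) (nat_lit 76) (nat_lit 28977709560) (nat_lit 11) (nat_lit 5) (nat_lit 13) (nat_lit 5) (nat_lit 12) (nat_lit 5) (nat_lit 282) (nat_lit 250) (nat_lit 188)) (XT.lf (nat_lit 0) (nat_lit 5906257247) (nat_lit 152) (nat_lit 6007917860) (nat_lit 228) (nat_lit 37628796017) (nat_lit 9) (nat_lit 5) (nat_lit 11) (nat_lit 5) (nat_lit 12) (nat_lit 5) (nat_lit 283) (nat_lit 250) (nat_lit 187))))))) (XT.nd (nat_lit 702) (nat_lit 152) (nat_lit 0) (XT.nd (nat_lit 312) (nat_lit 228) (nat_lit 0) (XT.nd (nat_lit 156) (nat_lit 76) (nat_lit 0) (XT.nd (nat_lit 78) (nat_lit 0) (nat_lit 0) (XT.lf (nat_lit 0) (nat_lit 20381411565) (nat_lit 228) (nat_lit 26032457185) (nat_lit 76) (nat_lit 6423061597) (nat_lit 9) (nat_lit 5) (nat_lit 12) (nat_lit 5) (nat_lit 10) (nat_lit 4) (nat_lit 284) (nat_lit 250) (nat_lit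 186)) (XT.lf (nat_lit 0) (nat_lit 29613112392) (nat_lit 228) (nat_lit 7144201388) (nat_lit 76) (nat_lit 19632775212) (nat_lit 9) (nat_lit 5) (nat_lit 12) (nat_lit 5) (nat_lit 10) (nat_lit 4) (nat_lit 285) (nat_lit 250) (nat_lit 185))) (XT.nd (nat_lit 78) (nat_lit 0) (nat_lit 0) (XT.lf (nat_lit 0) (nat_lit 13671353028) (nat_lit 76) (nat_lit 26112278635) (nat_lit 152) (nat_lit 20433888767) (nat_lit 8) (nat_lit 5) (nat_lit 9) (nat_lit 5) (nat_lit 10) (nat_lit 4) (nat_lit 286) (nat_lit 250) (nat_lit 184)) (XT.lf (nat_lit 0) (nat_lit 36386865405) (nat_lit 76) (nat_lit 14492865381) (nat_lit 152) (nat_lit 13465850368) (nat_lit 8) (nat_lit 5) (nat_lit 9) (nat_lit 5) (nat_lit 10) (nat_lit 4) (nat_lit 287) (nat_lit 250) (nat_lit 183)))) (XT.nd (nat_lit 156) (nat_lit 76) (nat_lit 0) (XT.nd (nat_lit 78) (nat_lit 152) (nat_lit 0) (XT.lf (nat_lit 0) (nat_lit 60900726623) (nat_lit 76) (nat_lit 1951208743)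 (nat_lit 152) (nat_lit 5952559833) (nat_lit 8) (nat_lit 5) (nat_lit 9) (nat_lit 5) (nat_lit 10) (nat_lit 4) (nat_lit 288) (nat_lit 250) (nat_lit 182)) (XT.lf (nat_lit 0) (nat_lit 2487787368) (nat_lit 152) (nat_lit 59635977978) (nat_lit 76) (nat_lit 11474936096) (nat_lit 6) (nat_lit 5) (nat_lit 8) (nat_lit 5) (nat_lit 7) (nat_lit 4) (nat_lit 289) (nat_lit 250) (nat_lit 181))) (XT.nd (nat_lit 78) (nat_lit 76) (nat_lit 0) (XT.lf (nat_lit 0) (nat_lit 11559949088) (nat_lit 152) (nat_lit 41061854481) (nat_lit 76) (nat_lit 26141528648) (nat_lit 6) (nat_lit 5) (nat_lit 8) (nat_lit 5) (nat_lit 7) (nat_lit 4) (nat_lit 290) (nat_lit 250) (nat_lit 180)) (XT.nd (nat_lit 78) (nat_lit 76) (nat_lit 0) (XT.lf (nat_lit 0) (nat_lit 21348171562) (nat_lit 152) (nat_lit 21018042884) (nat_lit 76) (nat_lit 41975426801) (nat_lit 6) (nat_lit 5) (nat_lit 8) (nat_lit 5) (nat_lit 7) (nat_lit 4) (nat_lit 291) (nat_lit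 250) (nat_lit 179)) (XT.lf (nat_lit 0) (nat_lit 634544339) (nat_lit 76) (nat_lit 31285821746) (nat_lit 152) (nat_lit 58445823739) (nat_lit 5) (nat_lit 5) (nat_lit 6) (nat_lit 5) (nat_lit 7) (nat_lit 4) (nat_lit 292) (nat_lit 250) (nat_lit 178)))))) (XT.nd (nat_lit 312) (nat_lit 152) (nat_lit 0) (XT.nd (nat_lit 156) (nat_lit 0) (nat_lit 0) (XT.nd (nat_lit 78) (nat_lit 0) (nat_lit 0) (XT.lf (nat_lit 0) (nat_lit 24755500950) (nat_lit 76) (nat_lit 18940404741) (nat_lit 152) (nat_lit 53158937135) (nat_lit 5) (nat_lit 5) (nat_lit 6) (nat_lit 5) (nat_lit 7) (nat_lit 4) (nat_lit 293) (nat_lit 250) (nat_lit 177)) (XT.lf (nat_lit 0) (nat_lit 50792814534) (nat_lit 76) (nat_lit 5612756131) (nat_lit 152) (nat_lit 47457430903) (nat_lit 5) (nat_lit 5) (nat_lit 6) (nat_lit 5) (nat_lit 7) (nat_lit 4) (nat_lit 294) (nat_lit 250) (nat_lit 176))) (XT.nd (nat_lit 78) (nat_lit 0) (nat_lit 0) (XT.lf (nat_lit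 0) (nat_lit 70261697100) (nat_lit 152) (nat_lit 32668435155) (nat_lit 0) (nat_lit 8495212645) (nat_lit 5) (nat_lit 5) (nat_lit 7) (nat_lit 4) (nat_lit 5) (nat_lit 4) (nat_lit 295) (nat_lit 250) (nat_lit 175)) (XT.lf (nat_lit 0) (nat_lit 85314094426) (nat_lit 152) (nat_lit 10740886023) (nat_lit 0) (nat_lit 23533321307) (nat_lit 5) (nat_lit 5) (nat_lit 7) (nat_lit 4) (nat_lit 5) (nat_lit 4) (nat_lit 296) (nat_lit 250) (nat_lit 174)))) (XT.nd (nat_lit 156) (nat_lit 76) (nat_lit 0) (XT.nd (nat_lit 78) (nat_lit 0) (nat_lit 0) (XT.lf (nat_lit 0) (nat_lit 13357557507) (nat_lit 76) (nat_lit 88415322584) (nat_lit 76) (nat_lit 26621319219) (nat_lit 4) (nat_lit 4) (nat_lit 5) (nat_lit 5) (nat_lit 5) (nat_lit 4) (nat_lit 297) (nat_lit 250) (nat_lit 173)) (XT.lf (nat_lit 0) (nat_lit 39757066170) (nat_lit 76) (nat_lit 79972358124) (nat_lit 76) (nat_lit 18166104533) (nat_lit 4) (nat_lit 4) (nat_lit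 5) (nat_lit 5) (nat_lit 5) (nat_lit 4) (nat_lit 298) (nat_lit 250) (nat_lit 172))) (XT.nd (nat_lit 78) (nat_lit 76) (nat_lit 0) (XT.lf (nat_lit 0) (nat_lit 68258939298) (nat_lit 76) (nat_lit 70857956791) (nat_lit 76) (nat_lit 9040360397) (nat_lit 4) (nat_lit 4) (nat_lit 5) (nat_lit 5) (nat_lit 5) (nat_lit 4) (nat_lit 299) (nat_lit 250) (nat_lit 171)) (XT.nd (nat_lit 78) (nat_lit 0) (nat_lit 0) (XT.lf (nat_lit 0) (nat_lit 784066879) (nat_lit 152) (nat_lit 60220761885) (nat_lit 76) (nat_lit 98234731449) (nat_lit 3) (nat_lit 5) (nat_lit 5) (nat_lit 5) (nat_lit 4) (nat_lit 4) (nat_lit 300) (nat_lit 250) (nat_lit 170)) (XT.lf (nat_lit 0) (nat_lit 11077066293) (nat_lit 152) (nat_lit 39129837712) (nat_lit 76) (nat_lit 120994176480) (nat_lit 3) (nat_lit 5) (nat_lit 5) (nat_lit 5) (nat_lit 4) (nat_lit 4) (nat_lit 301) (nat_lit 250) (nat_lit 169))))))))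
noncomputable def xc72 : XT := (XT.nd (nat_lit 1326) (nat_lit 0) (nat_lit 0) (XT.nd (nat_lit 624) (nat_lit 76) (nat_lit 0) (XT.nd (nat_lit 312) (nat_lit 0) (nat_lit 0) (XT.nd (nat_lit 156) (nat_lit 0) (nat_lit 0) (XT.nd (nat_lit 78) (nat_lit 76) (nat_lit 0) (XT.lf (nat_lit 0) (nat_lit 22188981387) (nat_lit 152) (nat_lit 16359416052) (nat_lit 76) (nat_lit 145571360214) (nat_lit 3) (nat_lit 5) (nat_lit 5) (nat_lit 5) (nat_lit 4) (nat_lit 4) (nat_lit 302) (nat_lit 250) (nat_lit 168)) (XT.lf (nat_lit 0) (nat_lit 8497409084) (nat_lit 76) (nat_lit 25820919832) (nat_lit 152) (nat_lit 163747184505) (nat_lit 2) (nat_lit 5) (nat_lit 3) (nat_lit 5) (nat_lit 4) (nat_lit 4) (nat_lit 303) (nat_lit 250) (nat_lit 167))) (XT.nd (nat_lit 78) (nat_lit 0) (nat_lit 0) (XT.lf (nat_lit 0) (nat_lit 35920082208) (nat_lit 76) (nat_lit 11778926145) (nat_lit 152) (nat_lit 165413879860) (nat_lit 2) (nat_lit 5) (nat_lit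 3) (nat_lit 5) (nat_lit 4) (nat_lit 4) (nat_lit 304) (nat_lit 250) (nat_lit 166)) (XT.lf (nat_lit 0) (nat_lit 62199280739) (nat_lit 152) (nat_lit 163886882539) (nat_lit 0) (nat_lit 3275439972) (nat_lit 2) (nat_lit 5) (nat_lit 4) (nat_lit 4) (nat_lit 2) (nat_lit 4) (nat_lit 305) (nat_lit 250) (nat_lit 165)))) (XT.nd (nat_lit 156) (nat_lit 0) (nat_lit 0) (XT.nd (nat_lit 78) (nat_lit 0) (nat_lit 0) (XT.lf (nat_lit 0) (nat_lit 78054732627) (nat_lit 152) (nat_lit 149721143032) (nat_lit 0) (nat_lit 19124588606) (nat_lit 2) (nat_lit 5) (nat_lit 4) (nat_lit 4) (nat_lit 2) (nat_lit 4) (nat_lit 306) (nat_lit 250) (nat_lit 164)) (XT.lf (nat_lit 0) (nat_lit 95175420202) (nat_lit 152) (nat_lit 134427740313) (nat_lit 0) (nat_lit 36239439835) (nat_lit 2) (nat_lit 5) (nat_lit 4) (nat_lit 4) (nat_lit 2) (nat_lit 4) (nat_lit 307) (nat_lit 250) (nat_lit 163))) (XT.nd (nat_lit 78) (nat_lit 0) (nat_lit 0)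 (XT.lf (nat_lit 0) (nat_lit 113662799390) (nat_lit 152) (nat_lit 117916046812) (nat_lit 0) (nat_lit 54721414999) (nat_lit 2) (nat_lit 5) (nat_lit 4) (nat_lit 4) (nat_lit 2) (nat_lit 4) (nat_lit 308) (nat_lit 250) (nat_lit 162)) (XT.lf (nat_lit 0) (nat_lit 133626425032) (nat_lit 152) (nat_lit 100088215456) (nat_lit 0) (nat_lit 74680036914) (nat_lit 2) (nat_lit 5) (nat_lit 4) (nat_lit 4) (nat_lit 2) (nat_lit 4) (nat_lit 309) (nat_lit 250) (nat_lit 161))))) (XT.nd (nat_lit 312) (nat_lit 76) (nat_lit 0) (XT.nd (nat_lit 156) (nat_lit 0) (nat_lit 0) (XT.nd (nat_lit 78) (nat_lit 0) (nat_lit 0) (XT.lf (nat_lit 0) (nat_lit 155184600093) (nat_lit 152) (nat_lit 80838599835) (nat_lit 0) (nat_lit 96233578896) (nat_lit 2) (nat_lit 5) (nat_lit 4) (nat_lit 4) (nat_lit 2) (nat_lit 4) (nat_lit 310) (nat_lit 250) (nat_lit 160)) (XT.lf (nat_lit 0) (nat_lit 178465076722) (nat_lit 152) (nat_lit 60053128155)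 (nat_lit 0) (nat_lit 119509765637) (nat_lit 2) (nat_lit 5) (nat_lit 4) (nat_lit 4) (nat_lit 2) (nat_lit 4) (nat_lit 311) (nat_lit 250) (nat_lit 159))) (XT.nd (nat_lit 78) (nat_lit 0) (nat_lit 0) (XT.lf (nat_lit 0) (nat_lit 203605813300) (nat_lit 152) (nat_lit 37608627250) (nat_lit 0) (nat_lit 144646530095) (nat_lit 2) (nat_lit 5) (nat_lit 4) (nat_lit 4) (nat_lit 2) (nat_lit 4) (nat_lit 312) (nat_lit 250) (nat_lit 158)) (XT.lf (nat_lit 0) (nat_lit 230755791968) (nat_lit 152) (nat_lit 13372092670) (nat_lit 0) (nat_lit 171792830876) (nat_lit 2) (nat_lit 5) (nat_lit 4) (nat_lit 4) (nat_lit 2) (nat_lit 4) (nat_lit 313) (nat_lit 250) (nat_lit 157)))) (XT.nd (nat_lit 156) (nat_lit 0) (nat_lit 0) (XT.nd (nat_lit 78) (nat_lit 0) (nat_lit 0) (XT.lf (nat_lit 0) (nat_lit 13223328590) (nat_lit 76) (nat_lit 247059026118) (nat_lit 76) (nat_lit 188092659574) (nat_lit 1) (nat_lit 4) (nat_lit 2) (nat_lit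 5) (nat_lit 2) (nat_lit 4) (nat_lit 314) (nat_lit 250) (nat_lit 156)) (XT.lf (nat_lit 0) (nat_lit 42420773385) (nat_lit 76) (nat_lit 249981424435) (nat_lit 76) (nat_lit 191011904695) (nat_lit 1) (nat_lit 4) (nat_lit 2) (nat_lit 5) (nat_lit 2) (nat_lit 4) (nat_lit 315) (nat_lit 250) (nat_lit 155))) (XT.nd (nat_lit 78) (nat_lit 0) (nat_lit 0) (XT.lf (nat_lit 0) (nat_lit 73951121835) (nat_lit 76) (nat_lit 253138860365) (nat_lit 76) (nat_lit 194166420998) (nat_lit 1) (nat_lit 4) (nat_lit 2) (nat_lit 5) (nat_lit 2) (nat_lit 4) (nat_lit 316) (nat_lit 250) (nat_lit 154)) (XT.nd (nat_lit 78) (nat_lit 0) (nat_lit 0) (XT.lf (nat_lit 0) (nat_lit 108001220452) (nat_lit 76) (nat_lit 256550044640) (nat_lit 76) (nat_lit 197574901916) (nat_lit 1) (nat_lit 4) (nat_lit 2) (nat_lit 5) (nat_lit 2) (nat_lit 4) (nat_lit 317) (nat_lit 250) (nat_lit 153)) (XT.lf (nat_lit 0) (nat_lit 144772847595) (nat_lit 76)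 (nat_lit 260235191684) (nat_lit 76) (nat_lit 201257545851) (nat_lit 1) (nat_lit 4) (nat_lit 2) (nat_lit 5) (nat_lit 2) (nat_lit 4) (nat_lit 318) (nat_lit 250) (nat_lit 152))))))) (XT.nd (nat_lit 32760) (nat_lit 0) (nat_lit 2508) (XT.nd (nat_lit 32370) (nat_lit 0) (nat_lit 4864) (XT.nd (nat_lit 32214) (nat_lit 0) (nat_lit 4788) (XT.nd (nat_lit 78) (nat_lit 0) (nat_lit 0) (XT.lf (nat_lit 0) (nat_lit 184483909205) (nat_lit 76) (nat_lit 264216139407) (nat_lit 76) (nat_lit 205236175881) (nat_lit 1) (nat_lit 4) (nat_lit 2) (nat_lit 5) (nat_lit 2) (nat_lit 4) (nat_lit 319) (nat_lit 250) (nat_lit 151)) (XT.lf (nat_lit 0) (nat_lit 227369730090) (nat_lit 76) (nat_lit 268516478609) (nat_lit 76) (nat_lit 209534369071) (nat_lit 1) (nat_lit 4) (nat_lit 2) (nat_lit 5) (nat_lit 2) (nat_lit 4) (nat_lit 320) (nat_lit 250) (nat_lit 150))) (XT.nd (nat_lit 78) (nat_lit 0) (nat_lit 0) (XT.lf (nat_lit 0) (nat_lit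 700159271) (nat_lit 684) (nat_lit 2170175245) (nat_lit 684) (nat_lit 2170175245) (nat_lit 64) (nat_lit 3) (nat_lit 73) (nat_lit 3) (nat_lit 73) (nat_lit 5) (nat_lit 251) (nat_lit 251) (nat_lit 218)) (XT.lf (nat_lit 76) (nat_lit 2193047927) (nat_lit 0) (nat_lit 248645496) (nat_lit 684) (nat_lit 7988175012) (nat_lit 65) (nat_lit 5) (nat_lit 64) (nat_lit 3) (nat_lit 73) (nat_lit 5) (nat_lit 252) (nat_lit 251) (nat_lit 217)))) (XT.nd (nat_lit 156) (nat_lit 0) (nat_lit 76) (XT.nd (nat_lit 78) (nat_lit 0) (nat_lit 76) (XT.lf (nat_lit 0) (nat_lit 3636667853) (nat_lit 608) (nat_lit 1546571169) (nat_lit 684) (nat_lit 5620384381) (nat_lit 65) (nat_lit 5) (nat_lit 73) (nat_lit 5) (nat_lit 74) (nat_lit 5) (nat_lit 253) (nat_lit 251) (nat_lit 216)) (XT.lf (nat_lit 0) (nat_lit 4947505904) (nat_lit 608) (nat_lit 5414075297) (nat_lit 684) (nat_lit 845158935) (nat_lit 66) (nat_lit 5) (nat_lit 74) (nat_lit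 5) (nat_lit 75) (nat_lit 5) (nat_lit 254) (nat_lit 251) (nat_lit 215))) (XT.nd (nat_lit 78) (nat_lit 0) (nat_lit 76) (XT.lf (nat_lit 76) (nat_lit 2055135091) (nat_lit 0) (nat_lit 4372943601) (nat_lit 684) (nat_lit 5211223622) (nat_lit 67) (nat_lit 5) (nat_lit 66) (nat_lit 5) (nat_lit 75) (nat_lit 5) (nat_lit 255) (nat_lit 251) (nat_lit 214)) (XT.nd (nat_lit 78) (nat_lit 0) (nat_lit 0) (XT.lf (nat_lit 0) (nat_lit 8079249700) (nat_lit 608) (nat_lit 1879253654) (nat_lit 684) (nat_lit 2145765430) (nat_lit 67) (nat_lit 5) (nat_lit 75) (nat_lit 5) (nat_lit 76) (nat_lit 5) (nat_lit 256) (nat_lit 251) (nat_lit 213)) (XT.lf (nat_lit 76) (nat_lit 6522958003) (nat_lit 0) (nat_lit 3444384940) (nat_lit 684) (nat_lit 2634224992) (nat_lit 68) (nat_lit 5) (nat_lit 67) (nat_lit 5) (nat_lit 76) (nat_lit 5) (nat_lit 257) (nat_lit 251) (nat_lit 212)))))) (XT.nd (nat_lit 312) (nat_lit 912) (nat_lit 0) (XT.nd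 (nat_lit 156) (nat_lit 988) (nat_lit 0) (XT.nd (nat_lit 78) (nat_lit 76) (nat_lit 0) (XT.lf (nat_lit 0) (nat_lit 2495022508) (nat_lit 608) (nat_lit 9573661111) (nat_lit 684) (nat_lit 1067206285) (nat_lit 60) (nat_lit 5) (nat_lit 68) (nat_lit 5) (nat_lit 69) (nat_lit 5) (nat_lit 258) (nat_lit 251) (nat_lit 211)) (XT.lf (nat_lit 0) (nat_lit 707509151) (nat_lit 684) (nat_lit 1861284336) (nat_lit 76) (nat_lit 11138866529) (nat_lit 59) (nat_lit 5) (nat_lit 68) (nat_lit 5) (nat_lit 60) (nat_lit 5) (nat_lit 259) (nat_lit 251) (nat_lit 210))) (XT.nd (nat_lit 78) (nat_lit 304) (nat_lit 0) (XT.lf (nat_lit 0) (nat_lit 2730853961) (nat_lit 760) (nat_lit 6601000881) (nat_lit 76) (nat_lit 4985524908) (nat_lit 50) (nat_lit 5) (nat_lit 60) (nat_lit 5) (nat_lit 51) (nat_lit 5) (nat_lit 260) (nat_lit 251) (nat_lit 209)) (XT.lf (nat_lit 0) (nat_lit 3157268519) (nat_lit 304) (nat_lit 1829364016) (nat_lit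 380) (nat_lit 9985979987) (nat_lit 46) (nat_lit 5) (nat_lit 50) (nat_lit 5) (nat_lit 51) (nat_lit 5) (nat_lit 261) (nat_lit 251) (nat_lit 208)))) (XT.nd (nat_lit 156) (nat_lit 608) (nat_lit 0) (XT.nd (nat_lit 78) (nat_lit 304) (nat_lit 0) (XT.lf (nat_lit 0) (nat_lit 7586007553) (nat_lit 380) (nat_lit 1895404323) (nat_lit 76) (nat_lit 6190939560) (nat_lit 46) (nat_lit 5) (nat_lit 51) (nat_lit 5) (nat_lit 47) (nat_lit 5) (nat_lit 262) (nat_lit 251) (nat_lit 207)) (XT.lf (nat_lit 0) (nat_lit 9027154291) (nat_lit 304) (nat_lit 1490111817) (nat_lit 380) (nat_lit 5904832813) (nat_lit 42) (nat_lit 5) (nat_lit 46) (nat_lit 5) (nat_lit 47) (nat_lit 5) (nat_lit 263) (nat_lit 251) (nat_lit 206))) (XT.nd (nat_lit 78) (nat_lit 380) (nat_lit 0) (XT.lf (nat_lit 0) (nat_lit 3615361033) (nat_lit 228) (nat_lit 10224081839) (nat_lit 304) (nat_lit 3384771843) (nat_lit 39) (nat_lit 5) (nat_lit 42) (nat_lit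 5) (nat_lit 43) (nat_lit 5) (nat_lit 264) (nat_lit 251) (nat_lit 205)) (XT.nd (nat_lit 78) (nat_lit 380) (nat_lit 0) (XT.lf (nat_lit 0) (nat_lit 15697395124) (nat_lit 228) (nat_lit 1841066493) (nat_lit 304) (nat_lit 546678640) (nat_lit 39) (nat_lit 5) (nat_lit 42) (nat_lit 5) (nat_lit 43) (nat_lit 5) (nat_lit 265) (nat_lit 251) (nat_lit 204)) (XT.lf (nat_lit 0) (nat_lit 2669028667) (nat_lit 380) (nat_lit 9157619274) (nat_lit 76) (nat_lit 7174938197) (nat_lit 34) (nat_lit 5) (nat_lit 39) (nat_lit 5) (nat_lit 35) (nat_lit 5) (nat_lit 266) (nat_lit 251) (nat_lit 203))))))))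
noncomputable def xc73 : XT := (XT.nd (nat_lit 1326) (nat_lit 608) (nat_lit 0) (XT.nd (nat_lit 624) (nat_lit 684) (nat_lit 0) (XT.nd (nat_lit 312) (nat_lit 456) (nat_lit 0) (XT.nd (nat_lit 156) (nat_lit 380) (nat_lit 0) (XT.nd (nat_lit 78) (nat_lit 0) (nat_lit 0) (XT.lf (nat_lit 0) (nat_lit 3165368675) (nat_lit 228) (nat_lit 3042538957) (nat_lit 304) (nat_lit 13778896860) (nat_lit 31) (nat_lit 5) (nat_lit 34) (nat_lit 5) (nat_lit 35) (nat_lit 5) (nat_lit 267) (nat_lit 251) (nat_lit 202)) (XT.lf (nat_lit 0) (nat_lit 10256736284) (nat_lit 304) (nat_lit 4389949288) (nat_lit 76) (nat_lit 6392959351) (nat_lit 31) (nat_lit 5) (nat_lit 35) (nat_lit 5) (nat_lit 32) (nat_lit 5) (nat_lit 268) (nat_lit 251) (nat_lit 201))) (XT.nd (nat_lit 78) (nat_lit 152) (nat_lit 0) (XT.lf (nat_lit 0) (nat_lit 9238720896) (nat_lit 228) (nat_lit 5553046260) (nat_lit 304) (nat_lit 7376966354) (nat_lit 28) (nat_lit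 5) (nat_lit 31) (nat_lit 5) (nat_lit 32) (nat_lit 5) (nat_lit 269) (nat_lit 251) (nat_lit 200)) (XT.lf (nat_lit 0) (nat_lit 641278131) (nat_lit 152) (nat_lit 19171152700) (nat_lit 228) (nat_lit 3569702503) (nat_lit 26) (nat_lit 5) (nat_lit 28) (nat_lit 5) (nat_lit 29) (nat_lit 5) (nat_lit 270) (nat_lit 251) (nat_lit 199)))) (XT.nd (nat_lit 156) (nat_lit 152) (nat_lit 0) (XT.nd (nat_lit 78) (nat_lit 228) (nat_lit 0) (XT.lf (nat_lit 0) (nat_lit 816922997) (nat_lit 228) (nat_lit 9067929335) (nat_lit 76) (nat_lit 14792833784) (nat_lit 25) (nat_lit 5) (nat_lit 28) (nat_lit 5) (nat_lit 26) (nat_lit 5) (nat_lit 271) (nat_lit 251) (nat_lit 198)) (XT.lf (nat_lit 0) (nat_lit 5497820674) (nat_lit 304) (nat_lit 20289382259) (nat_lit 76) (nat_lit 283436453) (nat_lit 22) (nat_lit 5) (nat_lit 26) (nat_lit 5) (nat_lit 23) (nat_lit 5) (nat_lit 272) (nat_lit 251) (nat_lit 197))) (XT.nd (nat_lit 78) (nat_lit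 152) (nat_lit 0) (XT.lf (nat_lit 0) (nat_lit 10853615574) (nat_lit 304) (nat_lit 5631615442) (nat_lit 76) (nat_lit 11074871639) (nat_lit 22) (nat_lit 5) (nat_lit 26) (nat_lit 5) (nat_lit 23) (nat_lit 5) (nat_lit 273) (nat_lit 251) (nat_lit 196)) (XT.lf (nat_lit 0) (nat_lit 10500206376) (nat_lit 152) (nat_lit 6276792185) (nat_lit 228) (nat_lit 12384856168) (nat_lit 20) (nat_lit 5) (nat_lit 22) (nat_lit 5) (nat_lit 23) (nat_lit 5) (nat_lit 274) (nat_lit 251) (nat_lit 195))))) (XT.nd (nat_lit 312) (nat_lit 304) (nat_lit 0) (XT.nd (nat_lit 156) (nat_lit 228) (nat_lit 0) (XT.nd (nat_lit 78) (nat_lit 152) (nat_lit 0) (XT.lf (nat_lit 0) (nat_lit 23324451126) (nat_lit 228) (nat_lit 2873146425) (nat_lit 76) (nat_lit 4686720925) (nat_lit 20) (nat_lit 5) (nat_lit 23) (nat_lit 5) (nat_lit 21) (nat_lit 5) (nat_lit 275) (nat_lit 251) (nat_lit 194)) (XT.lf (nat_lit 0) (nat_lit 14505150345) (nat_lit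 152) (nat_lit 16200962150) (nat_lit 228) (nat_lit 2023021617) (nat_lit 18) (nat_lit 5) (nat_lit 20) (nat_lit 5) (nat_lit 21) (nat_lit 5) (nat_lit 276) (nat_lit 251) (nat_lit 193))) (XT.nd (nat_lit 78) (nat_lit 152) (nat_lit 0) (XT.lf (nat_lit 0) (nat_lit 3859848049) (nat_lit 228) (nat_lit 1436409988) (nat_lit 76) (nat_lit 29420768770) (nat_lit 17) (nat_lit 5) (nat_lit 20) (nat_lit 5) (nat_lit 18) (nat_lit 5) (nat_lit 277) (nat_lit 251) (nat_lit 192)) (XT.lf (nat_lit 0) (nat_lit 10498076728) (nat_lit 228) (nat_lit 19774695483) (nat_lit 76) (nat_lit 6571801760) (nat_lit 15) (nat_lit 5) (nat_lit 18) (nat_lit 5) (nat_lit 16) (nat_lit 5) (nat_lit 278) (nat_lit 251) (nat_lit 191)))) (XT.nd (nat_lit 156) (nat_lit 152) (nat_lit 0) (XT.nd (nat_lit 78) (nat_lit 152) (nat_lit 0) (XT.lf (nat_lit 0) (nat_lit 17763396100) (nat_lit 228) (nat_lit 2151206489) (nat_lit 76) (nat_lit 19222977720) (nat_lit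 15) (nat_lit 5) (nat_lit 18) (nat_lit 5) (nat_lit 16) (nat_lit 5) (nat_lit 279) (nat_lit 251) (nat_lit 190)) (XT.lf (nat_lit 0) (nat_lit 17413213905) (nat_lit 152) (nat_lit 8451277938) (nat_lit 228) (nat_lit 15736860565) (nat_lit 13) (nat_lit 5) (nat_lit 15) (nat_lit 5) (nat_lit 16) (nat_lit 5) (nat_lit 280) (nat_lit 251) (nat_lit 189))) (XT.nd (nat_lit 78) (nat_lit 152) (nat_lit 0) (XT.lf (nat_lit 0) (nat_lit 34696542786) (nat_lit 228) (nat_lit 5728576134) (nat_lit 76) (nat_lit 3833012861) (nat_lit 13) (nat_lit 5) (nat_lit 16) (nat_lit 5) (nat_lit 14) (nat_lit 4) (nat_lit 281) (nat_lit 251) (nat_lit 188)) (XT.nd (nat_lit 78) (nat_lit 76) (nat_lit 0) (XT.lf (nat_lit 0) (nat_lit 14505560633) (nat_lit 76) (nat_lit 30083236706) (nat_lit 152) (nat_lit 2521019455) (nat_lit 12) (nat_lit 5) (nat_lit 13) (nat_lit 5) (nat_lit 14) (nat_lit 4) (nat_lit 282) (nat_lit 251) (nat_lit 187)) (XT.lf (nat_lit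 0) (nat_lit 5006700592) (nat_lit 152) (nat_lit 13726090404) (nat_lit 76) (nat_lit 31448588384) (nat_lit 11) (nat_lit 5) (nat_lit 13) (nat_lit 5) (nat_lit 12) (nat_lit 5) (nat_lit 283) (nat_lit 251) (nat_lit 186))))))) (XT.nd (nat_lit 702) (nat_lit 228) (nat_lit 0) (XT.nd (nat_lit 312) (nat_lit 152) (nat_lit 0) (XT.nd (nat_lit 156) (nat_lit 76) (nat_lit 0) (XT.nd (nat_lit 78) (nat_lit 0) (nat_lit 0) (XT.lf (nat_lit 0) (nat_lit 6816275030) (nat_lit 152) (nat_lit 6325902208) (nat_lit 228) (nat_lit 40349767123) (nat_lit 9) (nat_lit 5) (nat_lit 11) (nat_lit 5) (nat_lit 12) (nat_lit 5) (nat_lit 284) (nat_lit 251) (nat_lit 185)) (XT.lf (nat_lit 0) (nat_lit 22268783314) (nat_lit 228) (nat_lit 27698903530) (nat_lit 76) (nat_lit 7082687352) (nat_lit 9) (nat_lit 5) (nat_lit 12) (nat_lit 5) (nat_lit 10) (nat_lit 4) (nat_lit 285) (nat_lit 251) (nat_lit 184))) (XT.nd (nat_lit 78) (nat_lit 76) (nat_lit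 0) (XT.lf (nat_lit 0) (nat_lit 32219993628) (nat_lit 228) (nat_lit 7330413212) (nat_lit 76) (nat_lit 21338379477) (nat_lit 9) (nat_lit 5) (nat_lit 12) (nat_lit 5) (nat_lit 10) (nat_lit 4) (nat_lit 286) (nat_lit 251) (nat_lit 183)) (XT.lf (nat_lit 0) (nat_lit 15133639834) (nat_lit 76) (nat_lit 28058651949) (nat_lit 152) (nat_lit 21830759412) (nat_lit 8) (nat_lit 5) (nat_lit 9) (nat_lit 5) (nat_lit 10) (nat_lit 4) (nat_lit 287) (nat_lit 251) (nat_lit 182)))) (XT.nd (nat_lit 156) (nat_lit 152) (nat_lit 0) (XT.nd (nat_lit 78) (nat_lit 0) (nat_lit 0) (XT.lf (nat_lit 0) (nat_lit 39639091085) (nat_lit 76) (nat_lit 15520249262) (nat_lit 152) (nat_lit 14322895754) (nat_lit 8) (nat_lit 5) (nat_lit 9) (nat_lit 5) (nat_lit 10) (nat_lit 4) (nat_lit 288) (nat_lit 251) (nat_lit 181)) (XT.lf (nat_lit 0) (nat_lit 66088781464) (nat_lit 76) (nat_lit 1985041231) (nat_lit 152) (nat_lit 6224854764) (nat_lit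 8) (nat_lit 5) (nat_lit 9) (nat_lit 5) (nat_lit 10) (nat_lit 4) (nat_lit 289) (nat_lit 251) (nat_lit 180))) (XT.nd (nat_lit 78) (nat_lit 0) (nat_lit 0) (XT.lf (nat_lit 0) (nat_lit 2876291348) (nat_lit 152) (nat_lit 64089985363) (nat_lit 76) (nat_lit 12510414052) (nat_lit 6) (nat_lit 5) (nat_lit 8) (nat_lit 5) (nat_lit 7) (nat_lit 4) (nat_lit 290) (nat_lit 251) (nat_lit 179)) (XT.nd (nat_lit 78) (nat_lit 0) (nat_lit 0) (XT.lf (nat_lit 0) (nat_lit 12660190377) (nat_lit 152) (nat_lit 44053403901) (nat_lit 76) (nat_lit 28341631559) (nat_lit 6) (nat_lit 5) (nat_lit 8) (nat_lit 5) (nat_lit 7) (nat_lit 4) (nat_lit 291) (nat_lit 251) (nat_lit 178)) (XT.lf (nat_lit 0) (nat_lit 23218474696) (nat_lit 152) (nat_lit 22427820631) (nat_lit 76) (nat_lit 45434183741) (nat_lit 6) (nat_lit 5) (nat_lit 8) (nat_lit 5) (nat_lit 7) (nat_lit 4) (nat_lit 292) (nat_lit 251) (nat_lit 177)))))) (XT.nd (nat_lit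 312) (nat_lit 152) (nat_lit 0) (XT.nd (nat_lit 156) (nat_lit 0) (nat_lit 0) (XT.nd (nat_lit 78) (nat_lit 0) (nat_lit 0) (XT.lf (nat_lit 0) (nat_lit 945167310) (nat_lit 76) (nat_lit 33683301314) (nat_lit 152) (nat_lit 62958949195) (nat_lit 5) (nat_lit 5) (nat_lit 6) (nat_lit 5) (nat_lit 7) (nat_lit 4) (nat_lit 293) (nat_lit 251) (nat_lit 176)) (XT.lf (nat_lit 0) (nat_lit 26976551604) (nat_lit 76) (nat_lit 20358057332) (nat_lit 152) (nat_lit 57261151696) (nat_lit 5) (nat_lit 5) (nat_lit 6) (nat_lit 5) (nat_lit 7) (nat_lit 4) (nat_lit 294) (nat_lit 251) (nat_lit 175))) (XT.nd (nat_lit 78) (nat_lit 0) (nat_lit 0) (XT.lf (nat_lit 0) (nat_lit 55079027269) (nat_lit 76) (nat_lit 5971424966) (nat_lit 152) (nat_lit 51114673144) (nat_lit 5) (nat_lit 5) (nat_lit 6) (nat_lit 5) (nat_lit 7) (nat_lit 4) (nat_lit 295) (nat_lit 251) (nat_lit 174)) (XT.lf (nat_lit 0) (nat_lit 76006564867) (nat_lit 152)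 (nat_lit 35070527334) (nat_lit 0) (nat_lit 9255810989) (nat_lit 5) (nat_lit 5) (nat_lit 7) (nat_lit 4) (nat_lit 5) (nat_lit 4) (nat_lit 296) (nat_lit 251) (nat_lit 173)))) (XT.nd (nat_lit 156) (nat_lit 76) (nat_lit 0) (XT.nd (nat_lit 78) (nat_lit 76) (nat_lit 0) (XT.lf (nat_lit 0) (nat_lit 92253973831) (nat_lit 152) (nat_lit 11404432244) (nat_lit 0) (nat_lit 25490969726) (nat_lit 5) (nat_lit 5) (nat_lit 7) (nat_lit 4) (nat_lit 5) (nat_lit 4) (nat_lit 297) (nat_lit 251) (nat_lit 172)) (XT.lf (nat_lit 0) (nat_lit 14613380813) (nat_lit 76) (nat_lit 95410504408) (nat_lit 76) (nat_lit 28636157499) (nat_lit 4) (nat_lit 4) (nat_lit 5) (nat_lit 5) (nat_lit 5) (nat_lit 4) (nat_lit 298) (nat_lit 251) (nat_lit 171))) (XT.nd (nat_lit 78) (nat_lit 76) (nat_lit 0) (XT.lf (nat_lit 0) (nat_lit 43110982116) (nat_lit 76) (nat_lit 86297883827) (nat_lit 76) (nat_lit 19513034324) (nat_lit 4) (nat_lit 4)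 (nat_lit 5) (nat_lit 5) (nat_lit 5) (nat_lit 4) (nat_lit 299) (nat_lit 251) (nat_lit 170)) (XT.nd (nat_lit 78) (nat_lit 76) (nat_lit 0) (XT.lf (nat_lit 0) (nat_lit 73880164306) (nat_lit 76) (nat_lit 76459683198) (nat_lit 76) (nat_lit 9665109070) (nat_lit 4) (nat_lit 4) (nat_lit 5) (nat_lit 5) (nat_lit 5) (nat_lit 4) (nat_lit 300) (nat_lit 251) (nat_lit 169)) (XT.lf (nat_lit 0) (nat_lit 935059062) (nat_lit 152) (nat_lit 64886707333) (nat_lit 76) (nat_lit 106152368536) (nat_lit 3) (nat_lit 5) (nat_lit 5) (nat_lit 5) (nat_lit 4) (nat_lit 4) (nat_lit 301) (nat_lit 251) (nat_lit 168))))))))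
noncomputable def xc74 : XT := (XT.nd (nat_lit 1326) (nat_lit 0) (nat_lit 0) (XT.nd (nat_lit 624) (nat_lit 76) (nat_lit 0) (XT.nd (nat_lit 312) (nat_lit 0) (nat_lit 0) (XT.nd (nat_lit 156) (nat_lit 76) (nat_lit 0) (XT.nd (nat_lit 78) (nat_lit 0) (nat_lit 0) (XT.lf (nat_lit 0) (nat_lit 12044960145) (nat_lit 152) (nat_lit 42119747410) (nat_lit 76) (nat_lit 130728209276) (nat_lit 3) (nat_lit 5) (nat_lit 5) (nat_lit 5) (nat_lit 4) (nat_lit 4) (nat_lit 302) (nat_lit 251) (nat_lit 167)) (XT.lf (nat_lit 0) (nat_lit 24039774480) (nat_lit 152) (nat_lit 17538097745) (nat_lit 76) (nat_lit 157267530769) (nat_lit 3) (nat_lit 5) (nat_lit 5) (nat_lit 5) (nat_lit 4) (nat_lit 4) (nat_lit 303) (nat_lit 251) (nat_lit 166))) (XT.nd (nat_lit 78) (nat_lit 0) (nat_lit 0) (XT.lf (nat_lit 0) (nat_lit 9301620648) (nat_lit 76) (nat_lit 27834186165) (nat_lit 152) (nat_lit 176771206785) (nat_lit 2) (nat_lit 5) (nat_lit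 3) (nat_lit 5) (nat_lit 4) (nat_lit 4) (nat_lit 304) (nat_lit 251) (nat_lit 165)) (XT.lf (nat_lit 0) (nat_lit 38908891412) (nat_lit 76) (nat_lit 12672715001) (nat_lit 152) (nat_lit 178576849064) (nat_lit 2) (nat_lit 5) (nat_lit 3) (nat_lit 5) (nat_lit 4) (nat_lit 4) (nat_lit 305) (nat_lit 251) (nat_lit 164)))) (XT.nd (nat_lit 156) (nat_lit 0) (nat_lit 0) (XT.nd (nat_lit 78) (nat_lit 0) (nat_lit 0) (XT.lf (nat_lit 0) (nat_lit 67237663020) (nat_lit 152) (nat_lit 176888658322) (nat_lit 0) (nat_lit 3580967878) (nat_lit 2) (nat_lit 5) (nat_lit 4) (nat_lit 4) (nat_lit 2) (nat_lit 4) (nat_lit 306) (nat_lit 251) (nat_lit 163)) (XT.lf (nat_lit 0) (nat_lit 84356925887) (nat_lit 152) (nat_lit 161597746678) (nat_lit 0) (nat_lit 20694826721) (nat_lit 2) (nat_lit 5) (nat_lit 4) (nat_lit 4) (nat_lit 2) (nat_lit 4) (nat_lit 307) (nat_lit 251) (nat_lit 162))) (XT.nd (nat_lit 78) (nat_lit 0) (nat_lit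 0) (XT.lf (nat_lit 0) (nat_lit 102842985901) (nat_lit 152) (nat_lit 145088359727) (nat_lit 0) (nat_lit 39175883009) (nat_lit 2) (nat_lit 5) (nat_lit 4) (nat_lit 4) (nat_lit 2) (nat_lit 4) (nat_lit 308) (nat_lit 251) (nat_lit 161)) (XT.lf (nat_lit 0) (nat_lit 122805390085) (nat_lit 152) (nat_lit 127262664065) (nat_lit 0) (nat_lit 59133654113) (nat_lit 2) (nat_lit 5) (nat_lit 4) (nat_lit 4) (nat_lit 2) (nat_lit 4) (nat_lit 309) (nat_lit 251) (nat_lit 160))))) (XT.nd (nat_lit 312) (nat_lit 76) (nat_lit 0) (XT.nd (nat_lit 156) (nat_lit 0) (nat_lit 0) (XT.nd (nat_lit 78) (nat_lit 0) (nat_lit 0) (XT.lf (nat_lit 0) (nat_lit 144362434167) (nat_lit 152) (nat_lit 108015025940) (nat_lit 0) (nat_lit 80686408306) (nat_lit 2) (nat_lit 5) (nat_lit 4) (nat_lit 4) (nat_lit 2) (nat_lit 4) (nat_lit 310) (nat_lit 251) (nat_lit 159)) (XT.lf (nat_lit 0) (nat_lit 167641863594) (nat_lit 152) (nat_lit 87231385274)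 (nat_lit 0) (nat_lit 103961865614) (nat_lit 2) (nat_lit 5) (nat_lit 4) (nat_lit 4) (nat_lit 2) (nat_lit 4) (nat_lit 311) (nat_lit 251) (nat_lit 158))) (XT.nd (nat_lit 78) (nat_lit 0) (nat_lit 0) (XT.lf (nat_lit 0) (nat_lit 192781630539) (nat_lit 152) (nat_lit 64788579752) (nat_lit 0) (nat_lit 129097954671) (nat_lit 2) (nat_lit 5) (nat_lit 4) (nat_lit 4) (nat_lit 2) (nat_lit 4) (nat_lit 312) (nat_lit 251) (nat_lit 157)) (XT.lf (nat_lit 0) (nat_lit 219930711400) (nat_lit 152) (nat_lit 40553614971) (nat_lit 0) (nat_lit 156243630080) (nat_lit 2) (nat_lit 5) (nat_lit 4) (nat_lit 4) (nat_lit 2) (nat_lit 4) (nat_lit 313) (nat_lit 251) (nat_lit 156)))) (XT.nd (nat_lit 156) (nat_lit 0) (nat_lit 0) (XT.nd (nat_lit 78) (nat_lit 76) (nat_lit 0) (XT.lf (nat_lit 0) (nat_lit 249249989619) (nat_lit 152) (nat_lit 14382876325) (nat_lit 0) (nat_lit 185559755103) (nat_lit 2) (nat_lit 5) (nat_lit 4) (nat_lit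 4) (nat_lit 2) (nat_lit 4) (nat_lit 314) (nat_lit 251) (nat_lit 155)) (XT.lf (nat_lit 0) (nat_lit 14337615273) (nat_lit 76) (nat_lit 266799444148) (nat_lit 76) (nat_lit 203106290006) (nat_lit 1) (nat_lit 4) (nat_lit 2) (nat_lit 5) (nat_lit 2) (nat_lit 4) (nat_lit 315) (nat_lit 251) (nat_lit 154))) (XT.nd (nat_lit 78) (nat_lit 0) (nat_lit 0) (XT.lf (nat_lit 0) (nat_lit 45866676363) (nat_lit 76) (nat_lit 269957434631) (nat_lit 76) (nat_lit 206261577132) (nat_lit 1) (nat_lit 4) (nat_lit 2) (nat_lit 5) (nat_lit 2) (nat_lit 4) (nat_lit 316) (nat_lit 251) (nat_lit 153)) (XT.nd (nat_lit 78) (nat_lit 0) (nat_lit 0) (XT.lf (nat_lit 0) (nat_lit 79915582978) (nat_lit 76) (nat_lit 273369132381) (nat_lit 76) (nat_lit 209670771773) (nat_lit 1) (nat_lit 4) (nat_lit 2) (nat_lit 5) (nat_lit 2) (nat_lit 4) (nat_lit 317) (nat_lit 251) (nat_lit 152)) (XT.lf (nat_lit 0) (nat_lit 116686106417) (nat_lit 76)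 (nat_lit 277054754865) (nat_lit 76) (nat_lit 213354076564) (nat_lit 1) (nat_lit 4) (nat_lit 2) (nat_lit 5) (nat_lit 2) (nat_lit 4) (nat_lit 318) (nat_lit 251) (nat_lit 151))))))) (XT.nd (nat_lit 32838) (nat_lit 0) (nat_lit 2508) (XT.nd (nat_lit 32448) (nat_lit 0) (nat_lit 4864) (XT.nd (nat_lit 32292) (nat_lit 0) (nat_lit 4788) (XT.nd (nat_lit 78) (nat_lit 0) (nat_lit 0) (XT.lf (nat_lit 0) (nat_lit 156396146078) (nat_lit 76) (nat_lit 281036142810) (nat_lit 76) (nat_lit 217333318496) (nat_lit 1) (nat_lit 4) (nat_lit 2) (nat_lit 5) (nat_lit 2) (nat_lit 4) (nat_lit 319) (nat_lit 251) (nat_lit 150)) (XT.lf (nat_lit 0) (nat_lit 199281020715) (nat_lit 76) (nat_lit 285336889625) (nat_lit 76) (nat_lit 221632078263) (nat_lit 1) (nat_lit 4) (nat_lit 2) (nat_lit 5) (nat_lit 2) (nat_lit 4) (nat_lit 320) (nat_lit 251) (nat_lit 149))) (XT.nd (nat_lit 78) (nat_lit 0) (nat_lit 0) (XT.lf (nat_lit 0) (nat_lit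 1684420008) (nat_lit 684) (nat_lit 1853958799) (nat_lit 684) (nat_lit 1853958799) (nat_lit 64) (nat_lit 3) (nat_lit 73) (nat_lit 3) (nat_lit 73) (nat_lit 5) (nat_lit 252) (nat_lit 252) (nat_lit 216)) (XT.lf (nat_lit 76) (nat_lit 3305577824) (nat_lit 0) (nat_lit 1065059383) (nat_lit 684) (nat_lit 6797680034) (nat_lit 65) (nat_lit 5) (nat_lit 64) (nat_lit 3) (nat_lit 73) (nat_lit 5) (nat_lit 253) (nat_lit 252) (nat_lit 215)))) (XT.nd (nat_lit 156) (nat_lit 0) (nat_lit 76) (XT.nd (nat_lit 78) (nat_lit 0) (nat_lit 76) (XT.lf (nat_lit 0) (nat_lit 5521279397) (nat_lit 608) (nat_lit 702275866) (nat_lit 684) (nat_lit 5356099797) (nat_lit 65) (nat_lit 5) (nat_lit 73) (nat_lit 5) (nat_lit 74) (nat_lit 5) (nat_lit 254) (nat_lit 252) (nat_lit 214)) (XT.lf (nat_lit 0) (nat_lit 6824583276) (nat_lit 608) (nat_lit 4829998242) (nat_lit 684) (nat_lit 366694809) (nat_lit 66) (nat_lit 5) (nat_lit 74) (nat_lit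 5) (nat_lit 75) (nat_lit 5) (nat_lit 255) (nat_lit 252) (nat_lit 213))) (XT.nd (nat_lit 78) (nat_lit 0) (nat_lit 76) (XT.lf (nat_lit 76) (nat_lit 3192542571) (nat_lit 0) (nat_lit 5136526307) (nat_lit 684) (nat_lit 4164689339) (nat_lit 67) (nat_lit 5) (nat_lit 66) (nat_lit 5) (nat_lit 75) (nat_lit 5) (nat_lit 256) (nat_lit 252) (nat_lit 212)) (XT.nd (nat_lit 78) (nat_lit 0) (nat_lit 0) (XT.lf (nat_lit 0) (nat_lit 10003630543) (nat_lit 608) (nat_lit 1051682178) (nat_lit 684) (nat_lit 1946588958) (nat_lit 67) (nat_lit 5) (nat_lit 75) (nat_lit 5) (nat_lit 76) (nat_lit 5) (nat_lit 257) (nat_lit 252) (nat_lit 211)) (XT.lf (nat_lit 76) (nat_lit 7980207557) (nat_lit 0) (nat_lit 3982498412) (nat_lit 684) (nat_lit 1580786249) (nat_lit 68) (nat_lit 5) (nat_lit 67) (nat_lit 5) (nat_lit 76) (nat_lit 5) (nat_lit 258) (nat_lit 252) (nat_lit 210)))))) (XT.nd (nat_lit 312) (nat_lit 912) (nat_lit 0) (XT.nd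 (nat_lit 156) (nat_lit 988) (nat_lit 0) (XT.nd (nat_lit 78) (nat_lit 0) (nat_lit 0) (XT.lf (nat_lit 0) (nat_lit 28784609) (nat_lit 684) (nat_lit 10468736170) (nat_lit 76) (nat_lit 3627358544) (nat_lit 59) (nat_lit 5) (nat_lit 68) (nat_lit 5) (nat_lit 60) (nat_lit 5) (nat_lit 259) (nat_lit 252) (nat_lit 209)) (XT.lf (nat_lit 0) (nat_lit 1823811319) (nat_lit 684) (nat_lit 1079255998) (nat_lit 76) (nat_lit 11843074457) (nat_lit 59) (nat_lit 5) (nat_lit 68) (nat_lit 5) (nat_lit 60) (nat_lit 5) (nat_lit 260) (nat_lit 252) (nat_lit 208))) (XT.nd (nat_lit 78) (nat_lit 304) (nat_lit 0) (XT.lf (nat_lit 0) (nat_lit 3942796478) (nat_lit 760) (nat_lit 6182453191) (nat_lit 76) (nat_lit 5283081965) (nat_lit 50) (nat_lit 5) (nat_lit 60) (nat_lit 5) (nat_lit 51) (nat_lit 5) (nat_lit 261) (nat_lit 252) (nat_lit 207)) (XT.lf (nat_lit 0) (nat_lit 4315338473) (nat_lit 304) (nat_lit 2004245396) (nat_lit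 380) (nat_lit 9799724778) (nat_lit 46) (nat_lit 5) (nat_lit 50) (nat_lit 5) (nat_lit 51) (nat_lit 5) (nat_lit 262) (nat_lit 252) (nat_lit 206)))) (XT.nd (nat_lit 156) (nat_lit 608) (nat_lit 0) (XT.nd (nat_lit 78) (nat_lit 304) (nat_lit 0) (XT.lf (nat_lit 0) (nat_lit 9057309696) (nat_lit 380) (nat_lit 1160882208) (nat_lit 76) (nat_lit 6660641532) (nat_lit 46) (nat_lit 5) (nat_lit 51) (nat_lit 5) (nat_lit 47) (nat_lit 5) (nat_lit 263) (nat_lit 252) (nat_lit 205)) (XT.lf (nat_lit 0) (nat_lit 10596969902) (nat_lit 304) (nat_lit 1575301896) (nat_lit 380) (nat_lit 5519131375) (nat_lit 42) (nat_lit 5) (nat_lit 46) (nat_lit 5) (nat_lit 47) (nat_lit 5) (nat_lit 264) (nat_lit 252) (nat_lit 204))) (XT.nd (nat_lit 78) (nat_lit 380) (nat_lit 0) (XT.lf (nat_lit 0) (nat_lit 4757418918) (nat_lit 228) (nat_lit 10956342149) (nat_lit 304) (nat_lit 2846530427) (nat_lit 39) (nat_lit 5) (nat_lit 42) (nat_lit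 5) (nat_lit 43) (nat_lit 5) (nat_lit 265) (nat_lit 252) (nat_lit 203)) (XT.nd (nat_lit 78) (nat_lit 304) (nat_lit 0) (XT.lf (nat_lit 0) (nat_lit 153603756) (nat_lit 304) (nat_lit 1752826111) (nat_lit 76) (nat_lit 17586638107) (nat_lit 38) (nat_lit 5) (nat_lit 42) (nat_lit 5) (nat_lit 39) (nat_lit 5) (nat_lit 266) (nat_lit 252) (nat_lit 202)) (XT.lf (nat_lit 0) (nat_lit 3567679475) (nat_lit 380) (nat_lit 9073486170) (nat_lit 76) (nat_lit 7843431316) (nat_lit 34) (nat_lit 5) (nat_lit 39) (nat_lit 5) (nat_lit 35) (nat_lit 5) (nat_lit 267) (nat_lit 252) (nat_lit 201))))))))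
noncomputable def xc75 : XT := (XT.nd (nat_lit 1404) (nat_lit 456) (nat_lit 0) (XT.nd (nat_lit 702) (nat_lit 836) (nat_lit 0) (XT.nd (nat_lit 312) (nat_lit 456) (nat_lit 0) (XT.nd (nat_lit 156) (nat_lit 380) (nat_lit 0) (XT.nd (nat_lit 78) (nat_lit 0) (nat_lit 0) (XT.lf (nat_lit 0) (nat_lit 4199846175) (nat_lit 228) (nat_lit 3151269793) (nat_lit 304) (nat_lit 14199656281) (nat_lit 31) (nat_lit 5) (nat_lit 34) (nat_lit 5) (nat_lit 35) (nat_lit 5) (nat_lit 268) (nat_lit 252) (nat_lit 200)) (XT.lf (nat_lit 0) (nat_lit 11677903277) (nat_lit 304) (nat_lit 3987328566) (nat_lit 76) (nat_lit 7025101587) (nat_lit 31) (nat_lit 5) (nat_lit 35) (nat_lit 5) (nat_lit 32) (nat_lit 5) (nat_lit 269) (nat_lit 252) (nat_lit 199))) (XT.nd (nat_lit 78) (nat_lit 152) (nat_lit 0) (XT.lf (nat_lit 0) (nat_lit 10698875278) (nat_lit 228) (nat_lit 5843628086) (nat_lit 304) (nat_lit 7369089008) (nat_lit 28) (nat_lit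 5) (nat_lit 31) (nat_lit 5) (nat_lit 32) (nat_lit 5) (nat_lit 270) (nat_lit 252) (nat_lit 198)) (XT.lf (nat_lit 0) (nat_lit 1409314264) (nat_lit 152) (nat_lit 20526888229) (nat_lit 228) (nat_lit 3287460725) (nat_lit 26) (nat_lit 5) (nat_lit 28) (nat_lit 5) (nat_lit 29) (nat_lit 5) (nat_lit 271) (nat_lit 252) (nat_lit 197)))) (XT.nd (nat_lit 156) (nat_lit 152) (nat_lit 0) (XT.nd (nat_lit 78) (nat_lit 228) (nat_lit 0) (XT.lf (nat_lit 0) (nat_lit 1391206704) (nat_lit 228) (nat_lit 9111040131) (nat_lit 76) (nat_lit 16122354130) (nat_lit 25) (nat_lit 5) (nat_lit 28) (nat_lit 5) (nat_lit 26) (nat_lit 5) (nat_lit 272) (nat_lit 252) (nat_lit 196)) (XT.lf (nat_lit 0) (nat_lit 6421741384) (nat_lit 304) (nat_lit 21236748603) (nat_lit 76) (nat_lit 471879550) (nat_lit 22) (nat_lit 5) (nat_lit 26) (nat_lit 5) (nat_lit 23) (nat_lit 5) (nat_lit 273) (nat_lit 252) (nat_lit 195))) (XT.nd (nat_lit 78)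 (nat_lit 152) (nat_lit 0) (XT.lf (nat_lit 0) (nat_lit 12170140982) (nat_lit 304) (nat_lit 5456418532) (nat_lit 76) (nat_lit 12114350426) (nat_lit 22) (nat_lit 5) (nat_lit 26) (nat_lit 5) (nat_lit 23) (nat_lit 5) (nat_lit 274) (nat_lit 252) (nat_lit 194)) (XT.nd (nat_lit 78) (nat_lit 0) (nat_lit 0) (XT.lf (nat_lit 0) (nat_lit 11938755736) (nat_lit 152) (nat_lit 6604780969) (nat_lit 228) (nat_lit 12928576084) (nat_lit 20) (nat_lit 5) (nat_lit 22) (nat_lit 5) (nat_lit 23) (nat_lit 5) (nat_lit 275) (nat_lit 252) (nat_lit 193)) (XT.lf (nat_lit 0) (nat_lit 25585867680) (nat_lit 228) (nat_lit 2530309133) (nat_lit 76) (nat_lit 5217751706) (nat_lit 20) (nat_lit 5) (nat_lit 23) (nat_lit 5) (nat_lit 21) (nat_lit 5) (nat_lit 276) (nat_lit 252) (nat_lit 192)))))) (XT.nd (nat_lit 312) (nat_lit 456) (nat_lit 0) (XT.nd (nat_lit 156) (nat_lit 152) (nat_lit 0) (XT.nd (nat_lit 78) (nat_lit 76) (nat_lit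 0) (XT.lf (nat_lit 0) (nat_lit 16213363012) (nat_lit 152) (nat_lit 17323958281) (nat_lit 228) (nat_lit 1790146065) (nat_lit 18) (nat_lit 5) (nat_lit 20) (nat_lit 5) (nat_lit 21) (nat_lit 5) (nat_lit 277) (nat_lit 252) (nat_lit 191)) (XT.lf (nat_lit 0) (nat_lit 4522417249) (nat_lit 228) (nat_lit 1031289935) (nat_lit 76) (nat_lit 31921880272) (nat_lit 17) (nat_lit 5) (nat_lit 20) (nat_lit 5) (nat_lit 18) (nat_lit 5) (nat_lit 278) (nat_lit 252) (nat_lit 190))) (XT.nd (nat_lit 78) (nat_lit 0) (nat_lit 0) (XT.lf (nat_lit 0) (nat_lit 11675795214) (nat_lit 228) (nat_lit 20843971854) (nat_lit 76) (nat_lit 7254449178) (nat_lit 15) (nat_lit 5) (nat_lit 18) (nat_lit 5) (nat_lit 16) (nat_lit 5) (nat_lit 279) (nat_lit 252) (nat_lit 189)) (XT.lf (nat_lit 0) (nat_lit 19497312554) (nat_lit 228) (nat_lit 1848581464) (nat_lit 76) (nat_lit 20906096750) (nat_lit 15) (nat_lit 5) (nat_lit 18) (nat_lit 5)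 (nat_lit 16) (nat_lit 5) (nat_lit 280) (nat_lit 252) (nat_lit 188)))) (XT.nd (nat_lit 156) (nat_lit 304) (nat_lit 0) (XT.nd (nat_lit 78) (nat_lit 0) (nat_lit 0) (XT.lf (nat_lit 0) (nat_lit 19260361742) (nat_lit 152) (nat_lit 8970050158) (nat_lit 228) (nat_lit 16683327584) (nat_lit 13) (nat_lit 5) (nat_lit 15) (nat_lit 5) (nat_lit 16) (nat_lit 5) (nat_lit 281) (nat_lit 252) (nat_lit 187)) (XT.lf (nat_lit 0) (nat_lit 37749319053) (nat_lit 228) (nat_lit 5754125671) (nat_lit 76) (nat_lit 4280667291) (nat_lit 13) (nat_lit 5) (nat_lit 16) (nat_lit 5) (nat_lit 14) (nat_lit 4) (nat_lit 282) (nat_lit 252) (nat_lit 186))) (XT.nd (nat_lit 78) (nat_lit 228) (nat_lit 0) (XT.lf (nat_lit 0) (nat_lit 16079935834) (nat_lit 76) (nat_lit 32338958316) (nat_lit 152) (nat_lit 2445801237) (nat_lit 12) (nat_lit 5) (nat_lit 13) (nat_lit 5) (nat_lit 14) (nat_lit 4) (nat_lit 283) (nat_lit 252) (nat_lit 185)) (XT.nd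 (nat_lit 78) (nat_lit 152) (nat_lit 0) (XT.lf (nat_lit 0) (nat_lit 5655419281) (nat_lit 152) (nat_lit 14432035118) (nat_lit 76) (nat_lit 34095358563) (nat_lit 11) (nat_lit 5) (nat_lit 13) (nat_lit 5) (nat_lit 12) (nat_lit 5) (nat_lit 284) (nat_lit 252) (nat_lit 184)) (XT.lf (nat_lit 0) (nat_lit 7736677516) (nat_lit 152) (nat_lit 6692529014) (nat_lit 228) (nat_lit 43329692443) (nat_lit 9) (nat_lit 5) (nat_lit 11) (nat_lit 5) (nat_lit 12) (nat_lit 5) (nat_lit 285) (nat_lit 252) (nat_lit 183))))))) (XT.nd (nat_lit 702) (nat_lit 152) (nat_lit 0) (XT.nd (nat_lit 312) (nat_lit 228) (nat_lit 0) (XT.nd (nat_lit 156) (nat_lit 76) (nat_lit 0) (XT.nd (nat_lit 78) (nat_lit 0) (nat_lit 0) (XT.lf (nat_lit 0) (nat_lit 24270501021) (nat_lit 228) (nat_lit 29558034065) (nat_lit 76) (nat_lit 7774285904) (nat_lit 9) (nat_lit 5) (nat_lit 12) (nat_lit 5) (nat_lit 10) (nat_lit 4) (nat_lit 286) (nat_lit 252)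 (nat_lit 182)) (XT.lf (nat_lit 0) (nat_lit 35001495934) (nat_lit 228) (nat_lit 7586492799) (nat_lit 76) (nat_lit 23161175357) (nat_lit 9) (nat_lit 5) (nat_lit 12) (nat_lit 5) (nat_lit 10) (nat_lit 4) (nat_lit 287) (nat_lit 252) (nat_lit 181))) (XT.nd (nat_lit 78) (nat_lit 0) (nat_lit 0) (XT.lf (nat_lit 0) (nat_lit 16660327731) (nat_lit 76) (nat_lit 30181079892) (nat_lit 152) (nat_lit 23373310310) (nat_lit 8) (nat_lit 5) (nat_lit 9) (nat_lit 5) (nat_lit 10) (nat_lit 4) (nat_lit 288) (nat_lit 252) (nat_lit 180)) (XT.lf (nat_lit 0) (nat_lit 43102807919) (nat_lit 76) (nat_lit 16648661599) (nat_lit 152) (nat_lit 15279921992) (nat_lit 8) (nat_lit 5) (nat_lit 9) (nat_lit 5) (nat_lit 10) (nat_lit 4) (nat_lit 289) (nat_lit 252) (nat_lit 179)))) (XT.nd (nat_lit 156) (nat_lit 76) (nat_lit 0) (XT.nd (nat_lit 78) (nat_lit 152) (nat_lit 0) (XT.lf (nat_lit 0) (nat_lit 71646800228) (nat_lit 76) (nat_lit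 2039022674) (nat_lit 152) (nat_lit 6548023310) (nat_lit 8) (nat_lit 5) (nat_lit 9) (nat_lit 5) (nat_lit 10) (nat_lit 4) (nat_lit 290) (nat_lit 252) (nat_lit 178)) (XT.lf (nat_lit 0) (nat_lit 3268844064) (nat_lit 152) (nat_lit 68945518508) (nat_lit 76) (nat_lit 13611969972) (nat_lit 6) (nat_lit 5) (nat_lit 8) (nat_lit 5) (nat_lit 7) (nat_lit 4) (nat_lit 291) (nat_lit 252) (nat_lit 177))) (XT.nd (nat_lit 78) (nat_lit 76) (nat_lit 0) (XT.lf (nat_lit 0) (nat_lit 13823421727) (nat_lit 152) (nat_lit 47326133914) (nat_lit 76) (nat_lit 30702223932) (nat_lit 6) (nat_lit 5) (nat_lit 8) (nat_lit 5) (nat_lit 7) (nat_lit 4) (nat_lit 292) (nat_lit 252) (nat_lit 176)) (XT.nd (nat_lit 78) (nat_lit 76) (nat_lit 0) (XT.lf (nat_lit 0) (nat_lit 25215226856) (nat_lit 152) (nat_lit 23989136744) (nat_lit 76) (nat_lit 49155272003) (nat_lit 6) (nat_lit 5) (nat_lit 8) (nat_lit 5) (nat_lit 7) (nat_lit 4) (nat_lit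 293) (nat_lit 252) (nat_lit 175)) (XT.lf (nat_lit 0) (nat_lit 1243568267) (nat_lit 76) (nat_lit 36287613764) (nat_lit 152) (nat_lit 67856312900) (nat_lit 5) (nat_lit 5) (nat_lit 6) (nat_lit 5) (nat_lit 7) (nat_lit 4) (nat_lit 294) (nat_lit 252) (nat_lit 174)))))) (XT.nd (nat_lit 312) (nat_lit 152) (nat_lit 0) (XT.nd (nat_lit 156) (nat_lit 0) (nat_lit 0) (XT.nd (nat_lit 78) (nat_lit 0) (nat_lit 0) (XT.lf (nat_lit 0) (nat_lit 29340960522) (nat_lit 76) (nat_lit 21903042979) (nat_lit 152) (nat_lit 61713013988) (nat_lit 5) (nat_lit 5) (nat_lit 6) (nat_lit 5) (nat_lit 7) (nat_lit 4) (nat_lit 295) (nat_lit 252) (nat_lit 173)) (XT.lf (nat_lit 0) (nat_lit 59676353885) (nat_lit 76) (nat_lit 6371676982) (nat_lit 152) (nat_lit 55084374918) (nat_lit 5) (nat_lit 5) (nat_lit 6) (nat_lit 5) (nat_lit 7) (nat_lit 4) (nat_lit 296) (nat_lit 252) (nat_lit 172))) (XT.nd (nat_lit 78) (nat_lit 0) (nat_lit 0)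 (XT.lf (nat_lit 0) (nat_lit 82193341770) (nat_lit 152) (nat_lit 37694942983) (nat_lit 0) (nat_lit 10065704307) (nat_lit 5) (nat_lit 5) (nat_lit 7) (nat_lit 4) (nat_lit 5) (nat_lit 4) (nat_lit 297) (nat_lit 252) (nat_lit 171)) (XT.lf (nat_lit 0) (nat_lit 99732672955) (nat_lit 152) (nat_lit 12148984473) (nat_lit 0) (nat_lit 27594532896) (nat_lit 5) (nat_lit 5) (nat_lit 7) (nat_lit 4) (nat_lit 5) (nat_lit 4) (nat_lit 298) (nat_lit 252) (nat_lit 170)))) (XT.nd (nat_lit 156) (nat_lit 76) (nat_lit 0) (XT.nd (nat_lit 78) (nat_lit 0) (nat_lit 0) (XT.lf (nat_lit 0) (nat_lit 15942961142) (nat_lit 76) (nat_lit 102976434624) (nat_lit 76) (nat_lit 30828569941) (nat_lit 4) (nat_lit 4) (nat_lit 5) (nat_lit 5) (nat_lit 5) (nat_lit 4) (nat_lit 299) (nat_lit 252) (nat_lit 169)) (XT.lf (nat_lit 0) (nat_lit 46708480930) (nat_lit 76) (nat_lit 93139760703) (nat_lit 76) (nat_lit 20982891738) (nat_lit 4) (nat_lit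 4) (nat_lit 5) (nat_lit 5) (nat_lit 5) (nat_lit 4) (nat_lit 300) (nat_lit 252) (nat_lit 168))) (XT.nd (nat_lit 78) (nat_lit 76) (nat_lit 0) (XT.lf (nat_lit 0) (nat_lit 79928188788) (nat_lit 76) (nat_lit 82519093197) (nat_lit 76) (nat_lit 10353886932) (nat_lit 4) (nat_lit 4) (nat_lit 5) (nat_lit 5) (nat_lit 5) (nat_lit 4) (nat_lit 301) (nat_lit 252) (nat_lit 167)) (XT.nd (nat_lit 78) (nat_lit 0) (nat_lit 0) (XT.lf (nat_lit 0) (nat_lit 1085538369) (nat_lit 152) (nat_lit 69947572328) (nat_lit 76) (nat_lit 114695019756) (nat_lit 3) (nat_lit 5) (nat_lit 5) (nat_lit 5) (nat_lit 4) (nat_lit 4) (nat_lit 302) (nat_lit 252) (nat_lit 166)) (XT.lf (nat_lit 0) (nat_lit 13078626014) (nat_lit 152) (nat_lit 45368890545) (nat_lit 76) (nat_lit 141233189849) (nat_lit 3) (nat_lit 5) (nat_lit 5) (nat_lit 5) (nat_lit 4) (nat_lit 4) (nat_lit 303) (nat_lit 252) (nat_lit 165))))))))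
noncomputable def xc76 : XT := (XT.nd (nat_lit 33540) (nat_lit 0) (nat_lit 2280) (XT.nd (nat_lit 624) (nat_lit 76) (nat_lit 0) (XT.nd (nat_lit 312) (nat_lit 0) (nat_lit 0) (XT.nd (nat_lit 156) (nat_lit 0) (nat_lit 0) (XT.nd (nat_lit 78) (nat_lit 76) (nat_lit 0) (XT.lf (nat_lit 0) (nat_lit 26027835195) (nat_lit 152) (nat_lit 18829630140) (nat_lit 76) (nat_lit 169892196037) (nat_lit 3) (nat_lit 5) (nat_lit 5) (nat_lit 5) (nat_lit 4) (nat_lit 4) (nat_lit 304) (nat_lit 252) (nat_lit 164)) (XT.lf (nat_lit 0) (nat_lit 10152419400) (nat_lit 76) (nat_lit 30015990284) (nat_lit 152) (nat_lit 190847957786) (nat_lit 2) (nat_lit 5) (nat_lit 3) (nat_lit 5) (nat_lit 4) (nat_lit 4) (nat_lit 305) (nat_lit 252) (nat_lit 163))) (XT.nd (nat_lit 78) (nat_lit 0) (nat_lit 0) (XT.lf (nat_lit 0) (nat_lit 42120370410) (nat_lit 76) (nat_lit 13644929633) (nat_lit 152) (nat_lit 192802862228) (nat_lit 2) (nat_lit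 5) (nat_lit 3) (nat_lit 5) (nat_lit 4) (nat_lit 4) (nat_lit 306) (nat_lit 252) (nat_lit 162)) (XT.lf (nat_lit 0) (nat_lit 72670208145) (nat_lit 152) (nat_lit 190946151177) (nat_lit 0) (nat_lit 3904733295) (nat_lit 2) (nat_lit 5) (nat_lit 4) (nat_lit 4) (nat_lit 2) (nat_lit 4) (nat_lit 307) (nat_lit 252) (nat_lit 161)))) (XT.nd (nat_lit 156) (nat_lit 0) (nat_lit 0) (XT.nd (nat_lit 78) (nat_lit 0) (nat_lit 0) (XT.lf (nat_lit 0) (nat_lit 91155046702) (nat_lit 152) (nat_lit 174438899920) (nat_lit 0) (nat_lit 22384938772) (nat_lit 2) (nat_lit 5) (nat_lit 4) (nat_lit 4) (nat_lit 2) (nat_lit 4) (nat_lit 308) (nat_lit 252) (nat_lit 160)) (XT.lf (nat_lit 0) (nat_lit 111116319907) (nat_lit 152) (nat_lit 156615181754) (nat_lit 0) (nat_lit 42341922088) (nat_lit 2) (nat_lit 5) (nat_lit 4) (nat_lit 4) (nat_lit 2) (nat_lit 4) (nat_lit 309) (nat_lit 252) (nat_lit 159))) (XT.nd (nat_lit 78) (nat_lit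 0) (nat_lit 0) (XT.lf (nat_lit 0) (nat_lit 132672316786) (nat_lit 152) (nat_lit 137369374642) (nat_lit 0) (nat_lit 63893946848) (nat_lit 2) (nat_lit 5) (nat_lit 4) (nat_lit 4) (nat_lit 2) (nat_lit 4) (nat_lit 310) (nat_lit 252) (nat_lit 158)) (XT.lf (nat_lit 0) (nat_lit 155950776580) (nat_lit 152) (nat_lit 116587429360) (nat_lit 0) (nat_lit 87168728754) (nat_lit 2) (nat_lit 5) (nat_lit 4) (nat_lit 4) (nat_lit 2) (nat_lit 4) (nat_lit 311) (nat_lit 252) (nat_lit 157))))) (XT.nd (nat_lit 312) (nat_lit 76) (nat_lit 0) (XT.nd (nat_lit 156) (nat_lit 0) (nat_lit 0) (XT.nd (nat_lit 78) (nat_lit 0) (nat_lit 0) (XT.lf (nat_lit 0) (nat_lit 181089645717) (nat_lit 152) (nat_lit 94146193637) (nat_lit 0) (nat_lit 112304192440) (nat_lit 2) (nat_lit 5) (nat_lit 4) (nat_lit 4) (nat_lit 2) (nat_lit 4) (nat_lit 312) (nat_lit 252) (nat_lit 156)) (XT.lf (nat_lit 0) (nat_lit 208237895275) (nat_lit 152) (nat_lit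 69912682374) (nat_lit 0) (nat_lit 139449288802) (nat_lit 2) (nat_lit 5) (nat_lit 4) (nat_lit 4) (nat_lit 2) (nat_lit 4) (nat_lit 313) (nat_lit 252) (nat_lit 155))) (XT.nd (nat_lit 78) (nat_lit 0) (nat_lit 0) (XT.lf (nat_lit 0) (nat_lit 237556403768) (nat_lit 152) (nat_lit 43743289578) (nat_lit 0) (nat_lit 168764877669) (nat_lit 2) (nat_lit 5) (nat_lit 4) (nat_lit 4) (nat_lit 2) (nat_lit 4) (nat_lit 314) (nat_lit 252) (nat_lit 154)) (XT.lf (nat_lit 0) (nat_lit 269218910507) (nat_lit 152) (nat_lit 15482937365) (nat_lit 0) (nat_lit 200424681050) (nat_lit 2) (nat_lit 5) (nat_lit 4) (nat_lit 4) (nat_lit 2) (nat_lit 4) (nat_lit 315) (nat_lit 252) (nat_lit 153)))) (XT.nd (nat_lit 156) (nat_lit 0) (nat_lit 0) (XT.nd (nat_lit 78) (nat_lit 0) (nat_lit 0) (XT.lf (nat_lit 0) (nat_lit 15532995890) (nat_lit 76) (nat_lit 288122562867) (nat_lit 76) (nat_lit 219325830301) (nat_lit 1) (nat_lit 4) (nat_lit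 2) (nat_lit 5) (nat_lit 2) (nat_lit 4) (nat_lit 316) (nat_lit 252) (nat_lit 152)) (XT.lf (nat_lit 0) (nat_lit 49580798801) (nat_lit 76) (nat_lit 291534736056) (nat_lit 76) (nat_lit 222735685797) (nat_lit 1) (nat_lit 4) (nat_lit 2) (nat_lit 5) (nat_lit 2) (nat_lit 4) (nat_lit 317) (nat_lit 252) (nat_lit 151))) (XT.nd (nat_lit 78) (nat_lit 0) (nat_lit 0) (XT.lf (nat_lit 0) (nat_lit 86350300292) (nat_lit 76) (nat_lit 295220798762) (nat_lit 76) (nat_lit 226419602491) (nat_lit 1) (nat_lit 4) (nat_lit 2) (nat_lit 5) (nat_lit 2) (nat_lit 4) (nat_lit 318) (nat_lit 252) (nat_lit 150)) (XT.nd (nat_lit 78) (nat_lit 0) (nat_lit 0) (XT.lf (nat_lit 0) (nat_lit 126059393704) (nat_lit 76) (nat_lit 299202594320) (nat_lit 76) (nat_lit 230399411000) (nat_lit 1) (nat_lit 4) (nat_lit 2) (nat_lit 5) (nat_lit 2) (nat_lit 4) (nat_lit 319) (nat_lit 252) (nat_lit 149)) (XT.lf (nat_lit 0) (nat_lit 168943392184)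 (nat_lit 76) (nat_lit 303503718555) (nat_lit 76) (nat_lit 234698695375) (nat_lit 1) (nat_lit 4) (nat_lit 2) (nat_lit 5) (nat_lit 2) (nat_lit 4) (nat_lit 320) (nat_lit 252) (nat_lit 148))))))) (XT.nd (nat_lit 702) (nat_lit 2128) (nat_lit 0) (XT.nd (nat_lit 312) (nat_lit 380) (nat_lit 0) (XT.nd (nat_lit 156) (nat_lit 0) (nat_lit 76) (XT.nd (nat_lit 78) (nat_lit 0) (nat_lit 0) (XT.lf (nat_lit 0) (nat_lit 2614996651) (nat_lit 684) (nat_lit 1582324828) (nat_lit 684) (nat_lit 1582324828) (nat_lit 64) (nat_lit 3) (nat_lit 73) (nat_lit 3) (nat_lit 73) (nat_lit 5) (nat_lit 253) (nat_lit 253) (nat_lit 214)) (XT.lf (nat_lit 76) (nat_lit 4373424309) (nat_lit 0) (nat_lit 1833153577) (nat_lit 684) (nat_lit 5772951073) (nat_lit 65) (nat_lit 5) (nat_lit 64) (nat_lit 3) (nat_lit 73) (nat_lit 5) (nat_lit 254) (nat_lit 253) (nat_lit 213))) (XT.nd (nat_lit 78) (nat_lit 0) (nat_lit 0) (XT.lf (nat_lit 76)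 (nat_lit 73826967) (nat_lit 0) (nat_lit 7256629543) (nat_lit 684) (nat_lit 5099846128) (nat_lit 66) (nat_lit 5) (nat_lit 65) (nat_lit 5) (nat_lit 74) (nat_lit 5) (nat_lit 255) (nat_lit 253) (nat_lit 212)) (XT.lf (nat_lit 76) (nat_lit 8567141880) (nat_lit 0) (nat_lit 74527836) (nat_lit 684) (nat_lit 4270946165) (nat_lit 66) (nat_lit 5) (nat_lit 65) (nat_lit 5) (nat_lit 74) (nat_lit 5) (nat_lit 256) (nat_lit 253) (nat_lit 211)))) (XT.nd (nat_lit 156) (nat_lit 532) (nat_lit 0) (XT.nd (nat_lit 78) (nat_lit 0) (nat_lit 76) (XT.lf (nat_lit 76) (nat_lit 4282133796) (nat_lit 0) (nat_lit 5902169962) (nat_lit 684) (nat_lit 3243207274) (nat_lit 67) (nat_lit 5) (nat_lit 66) (nat_lit 5) (nat_lit 75) (nat_lit 5) (nat_lit 257) (nat_lit 253) (nat_lit 210)) (XT.lf (nat_lit 0) (nat_lit 11899635035) (nat_lit 608) (nat_lit 297415032) (nat_lit 684) (nat_lit 1784382514) (nat_lit 67) (nat_lit 5) (nat_lit 75)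 (nat_lit 5) (nat_lit 76) (nat_lit 5) (nat_lit 258) (nat_lit 253) (nat_lit 209))) (XT.nd (nat_lit 78) (nat_lit 608) (nat_lit 0) (XT.lf (nat_lit 76) (nat_lit 9420589966) (nat_lit 0) (nat_lit 4526203460) (nat_lit 684) (nat_lit 623421351) (nat_lit 68) (nat_lit 5) (nat_lit 67) (nat_lit 5) (nat_lit 76) (nat_lit 5) (nat_lit 259) (nat_lit 253) (nat_lit 208)) (XT.nd (nat_lit 78) (nat_lit 0) (nat_lit 0) (XT.lf (nat_lit 0) (nat_lit 1012292412) (nat_lit 684) (nat_lit 10444261837) (nat_lit 76) (nat_lit 3744490381) (nat_lit 59) (nat_lit 5) (nat_lit 68) (nat_lit 5) (nat_lit 60) (nat_lit 5) (nat_lit 260) (nat_lit 253) (nat_lit 207)) (XT.lf (nat_lit 0) (nat_lit 2878239404) (nat_lit 684) (nat_lit 367473120) (nat_lit 76) (nat_lit 12630282592) (nat_lit 59) (nat_lit 5) (nat_lit 68) (nat_lit 5) (nat_lit 60) (nat_lit 5) (nat_lit 261) (nat_lit 253) (nat_lit 206)))))) (XT.nd (nat_lit 312) (nat_lit 836) (nat_lit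 0) (XT.nd (nat_lit 156) (nat_lit 304) (nat_lit 0) (XT.nd (nat_lit 78) (nat_lit 304) (nat_lit 0) (XT.lf (nat_lit 0) (nat_lit 5109964195) (nat_lit 760) (nat_lit 5865468718) (nat_lit 76) (nat_lit 5618893014) (nat_lit 50) (nat_lit 5) (nat_lit 60) (nat_lit 5) (nat_lit 51) (nat_lit 5) (nat_lit 262) (nat_lit 253) (nat_lit 205)) (XT.lf (nat_lit 0) (nat_lit 5436875969) (nat_lit 304) (nat_lit 2189046841) (nat_lit 380) (nat_lit 9739109476) (nat_lit 46) (nat_lit 5) (nat_lit 50) (nat_lit 5) (nat_lit 51) (nat_lit 5) (nat_lit 263) (nat_lit 253) (nat_lit 204))) (XT.nd (nat_lit 78) (nat_lit 304) (nat_lit 0) (XT.lf (nat_lit 0) (nat_lit 10522996615) (nat_lit 380) (nat_lit 494018165) (nat_lit 76) (nat_lit 7171567963) (nat_lit 46) (nat_lit 5) (nat_lit 51) (nat_lit 5) (nat_lit 47) (nat_lit 5) (nat_lit 264) (nat_lit 253) (nat_lit 203)) (XT.lf (nat_lit 0) (nat_lit 12171444973) (nat_lit 304) (nat_lit 1672160353)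 (nat_lit 380) (nat_lit 5224989677) (nat_lit 42) (nat_lit 5) (nat_lit 46) (nat_lit 5) (nat_lit 47) (nat_lit 5) (nat_lit 265) (nat_lit 253) (nat_lit 202)))) (XT.nd (nat_lit 156) (nat_lit 532) (nat_lit 0) (XT.nd (nat_lit 78) (nat_lit 76) (nat_lit 0) (XT.lf (nat_lit 0) (nat_lit 5869175842) (nat_lit 228) (nat_lit 11759404530) (nat_lit 304) (nat_lit 2380645896) (nat_lit 39) (nat_lit 5) (nat_lit 42) (nat_lit 5) (nat_lit 43) (nat_lit 5) (nat_lit 266) (nat_lit 253) (nat_lit 201)) (XT.lf (nat_lit 0) (nat_lit 787565400) (nat_lit 304) (nat_lit 1192845897) (nat_lit 76) (nat_lit 19038370632) (nat_lit 38) (nat_lit 5) (nat_lit 42) (nat_lit 5) (nat_lit 39) (nat_lit 5) (nat_lit 267) (nat_lit 253) (nat_lit 200))) (XT.nd (nat_lit 78) (nat_lit 228) (nat_lit 0) (XT.lf (nat_lit 0) (nat_lit 4440481106) (nat_lit 380) (nat_lit 9099139887) (nat_lit 76) (nat_lit 8551922679) (nat_lit 34) (nat_lit 5) (nat_lit 39)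 (nat_lit 5) (nat_lit 35) (nat_lit 5) (nat_lit 268) (nat_lit 253) (nat_lit 199)) (XT.nd (nat_lit 78) (nat_lit 0) (nat_lit 0) (XT.lf (nat_lit 0) (nat_lit 5205628113) (nat_lit 228) (nat_lit 3287911602) (nat_lit 304) (nat_lit 14751307514) (nat_lit 31) (nat_lit 5) (nat_lit 34) (nat_lit 5) (nat_lit 35) (nat_lit 5) (nat_lit 269) (nat_lit 253) (nat_lit 198)) (XT.lf (nat_lit 0) (nat_lit 13127077317) (nat_lit 304) (nat_lit 3660038562) (nat_lit 76) (nat_lit 7690595215) (nat_lit 31) (nat_lit 5) (nat_lit 35) (nat_lit 5) (nat_lit 32) (nat_lit 5) (nat_lit 270) (nat_lit 253) (nat_lit 197))))))))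
noncomputable def xc77 : XT := (XT.nd (nat_lit 1326) (nat_lit 456) (nat_lit 0) (XT.nd (nat_lit 624) (nat_lit 684) (nat_lit 0) (XT.nd (nat_lit 312) (nat_lit 304) (nat_lit 0) (XT.nd (nat_lit 156) (nat_lit 304) (nat_lit 0) (XT.nd (nat_lit 78) (nat_lit 152) (nat_lit 0) (XT.lf (nat_lit 0) (nat_lit 12172975211) (nat_lit 228) (nat_lit 6179378043) (nat_lit 304) (nat_lit 7445897804) (nat_lit 28) (nat_lit 5) (nat_lit 31) (nat_lit 5) (nat_lit 32) (nat_lit 5) (nat_lit 271) (nat_lit 253) (nat_lit 196)) (XT.lf (nat_lit 0) (nat_lit 2136543187) (nat_lit 152) (nat_lit 22016470111) (nat_lit 228) (nat_lit 3063645188) (nat_lit 26) (nat_lit 5) (nat_lit 28) (nat_lit 5) (nat_lit 29) (nat_lit 5) (nat_lit 272) (nat_lit 253) (nat_lit 195))) (XT.nd (nat_lit 78) (nat_lit 228) (nat_lit 0) (XT.lf (nat_lit 0) (nat_lit 1938828572) (nat_lit 228) (nat_lit 9254940873) (nat_lit 76) (nat_lit 17537394213) (nat_lit 25) (nat_lit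 5) (nat_lit 28) (nat_lit 5) (nat_lit 26) (nat_lit 5) (nat_lit 273) (nat_lit 253) (nat_lit 194)) (XT.lf (nat_lit 0) (nat_lit 7350514179) (nat_lit 304) (nat_lit 22356312431) (nat_lit 76) (nat_lit 651749411) (nat_lit 22) (nat_lit 5) (nat_lit 26) (nat_lit 5) (nat_lit 23) (nat_lit 5) (nat_lit 274) (nat_lit 253) (nat_lit 193)))) (XT.nd (nat_lit 156) (nat_lit 152) (nat_lit 0) (XT.nd (nat_lit 78) (nat_lit 152) (nat_lit 0) (XT.lf (nat_lit 0) (nat_lit 13528042524) (nat_lit 304) (nat_lit 5356472700) (nat_lit 76) (nat_lit 13215090587) (nat_lit 22) (nat_lit 5) (nat_lit 26) (nat_lit 5) (nat_lit 23) (nat_lit 5) (nat_lit 275) (nat_lit 253) (nat_lit 192)) (XT.lf (nat_lit 0) (nat_lit 13407001642) (nat_lit 152) (nat_lit 6983853956) (nat_lit 228) (nat_lit 13579572924) (nat_lit 20) (nat_lit 5) (nat_lit 22) (nat_lit 5) (nat_lit 23) (nat_lit 5) (nat_lit 276) (nat_lit 253) (nat_lit 191))) (XT.nd (nat_lit 78)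 (nat_lit 152) (nat_lit 0) (XT.lf (nat_lit 0) (nat_lit 27971780701) (nat_lit 228) (nat_lit 2241745346) (nat_lit 76) (nat_lit 5768996523) (nat_lit 20) (nat_lit 5) (nat_lit 23) (nat_lit 5) (nat_lit 21) (nat_lit 5) (nat_lit 277) (nat_lit 253) (nat_lit 190)) (XT.lf (nat_lit 0) (nat_lit 17980082807) (nat_lit 152) (nat_lit 18561486019) (nat_lit 228) (nat_lit 1594951301) (nat_lit 18) (nat_lit 5) (nat_lit 20) (nat_lit 5) (nat_lit 21) (nat_lit 5) (nat_lit 278) (nat_lit 253) (nat_lit 189))))) (XT.nd (nat_lit 312) (nat_lit 304) (nat_lit 0) (XT.nd (nat_lit 156) (nat_lit 152) (nat_lit 0) (XT.nd (nat_lit 78) (nat_lit 152) (nat_lit 0) (XT.lf (nat_lit 0) (nat_lit 5187521119) (nat_lit 228) (nat_lit 667948778) (nat_lit 76) (nat_lit 34602045304) (nat_lit 17) (nat_lit 5) (nat_lit 20) (nat_lit 5) (nat_lit 18) (nat_lit 5) (nat_lit 279) (nat_lit 253) (nat_lit 188)) (XT.lf (nat_lit 0) (nat_lit 12899529912) (nat_lit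 228) (nat_lit 22071932617) (nat_lit 76) (nat_lit 7969324382) (nat_lit 15) (nat_lit 5) (nat_lit 18) (nat_lit 5) (nat_lit 16) (nat_lit 5) (nat_lit 280) (nat_lit 253) (nat_lit 187))) (XT.nd (nat_lit 78) (nat_lit 152) (nat_lit 0) (XT.lf (nat_lit 0) (nat_lit 21325311522) (nat_lit 228) (nat_lit 1589470772) (nat_lit 76) (nat_lit 22703139369) (nat_lit 15) (nat_lit 5) (nat_lit 18) (nat_lit 5) (nat_lit 16) (nat_lit 5) (nat_lit 281) (nat_lit 253) (nat_lit 186)) (XT.lf (nat_lit 0) (nat_lit 21190500287) (nat_lit 152) (nat_lit 9552769040) (nat_lit 228) (nat_lit 17750090991) (nat_lit 13) (nat_lit 5) (nat_lit 15) (nat_lit 5) (nat_lit 16) (nat_lit 5) (nat_lit 282) (nat_lit 253) (nat_lit 185)))) (XT.nd (nat_lit 156) (nat_lit 228) (nat_lit 0) (XT.nd (nat_lit 78) (nat_lit 76) (nat_lit 0) (XT.lf (nat_lit 0) (nat_lit 41006792736) (nat_lit 228) (nat_lit 5843453878) (nat_lit 76) (nat_lit 4744016936) (nat_lit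 13) (nat_lit 5) (nat_lit 16) (nat_lit 5) (nat_lit 14) (nat_lit 4) (nat_lit 283) (nat_lit 253) (nat_lit 184)) (XT.lf (nat_lit 0) (nat_lit 17721209260) (nat_lit 76) (nat_lit 34796670551) (nat_lit 152) (nat_lit 2404068409) (nat_lit 12) (nat_lit 5) (nat_lit 13) (nat_lit 5) (nat_lit 14) (nat_lit 4) (nat_lit 284) (nat_lit 253) (nat_lit 183))) (XT.nd (nat_lit 78) (nat_lit 152) (nat_lit 0) (XT.lf (nat_lit 0) (nat_lit 6320629437) (nat_lit 152) (nat_lit 15250398923) (nat_lit 76) (nat_lit 36935198419) (nat_lit 11) (nat_lit 5) (nat_lit 13) (nat_lit 5) (nat_lit 12) (nat_lit 5) (nat_lit 285) (nat_lit 253) (nat_lit 182)) (XT.nd (nat_lit 78) (nat_lit 0) (nat_lit 0) (XT.lf (nat_lit 0) (nat_lit 8677199922) (nat_lit 152) (nat_lit 7108379405) (nat_lit 228) (nat_lit 46583399758) (nat_lit 9) (nat_lit 5) (nat_lit 11) (nat_lit 5) (nat_lit 12) (nat_lit 5) (nat_lit 286) (nat_lit 253) (nat_lit 181)) (XT.lf (nat_lit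 0) (nat_lit 26400940007) (nat_lit 228) (nat_lit 31616793948) (nat_lit 76) (nat_lit 8503382037) (nat_lit 9) (nat_lit 5) (nat_lit 12) (nat_lit 5) (nat_lit 10) (nat_lit 4) (nat_lit 287) (nat_lit 253) (nat_lit 180))))))) (XT.nd (nat_lit 702) (nat_lit 152) (nat_lit 0) (XT.nd (nat_lit 312) (nat_lit 228) (nat_lit 0) (XT.nd (nat_lit 156) (nat_lit 0) (nat_lit 0) (XT.nd (nat_lit 78) (nat_lit 76) (nat_lit 0) (XT.lf (nat_lit 0) (nat_lit 37976429409) (nat_lit 228) (nat_lit 7910187369) (nat_lit 76) (nat_lit 25113285367) (nat_lit 9) (nat_lit 5) (nat_lit 12) (nat_lit 5) (nat_lit 10) (nat_lit 4) (nat_lit 288) (nat_lit 253) (nat_lit 179)) (XT.lf (nat_lit 0) (nat_lit 18264070197) (nat_lit 76) (nat_lit 32490744428) (nat_lit 152) (nat_lit 25068355300) (nat_lit 8) (nat_lit 5) (nat_lit 9) (nat_lit 5) (nat_lit 10) (nat_lit 4) (nat_lit 289) (nat_lit 253) (nat_lit 178))) (XT.nd (nat_lit 78) (nat_lit 0) (nat_lit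 0) (XT.lf (nat_lit 0) (nat_lit 46801880929) (nat_lit 76) (nat_lit 17883497254) (nat_lit 152) (nat_lit 16340445534) (nat_lit 8) (nat_lit 5) (nat_lit 9) (nat_lit 5) (nat_lit 10) (nat_lit 4) (nat_lit 290) (nat_lit 253) (nat_lit 177)) (XT.lf (nat_lit 0) (nat_lit 77610811262) (nat_lit 76) (nat_lit 2112276641) (nat_lit 152) (nat_lit 6921985344) (nat_lit 8) (nat_lit 5) (nat_lit 9) (nat_lit 5) (nat_lit 10) (nat_lit 4) (nat_lit 291) (nat_lit 253) (nat_lit 176)))) (XT.nd (nat_lit 156) (nat_lit 76) (nat_lit 0) (XT.nd (nat_lit 78) (nat_lit 0) (nat_lit 0) (XT.lf (nat_lit 0) (nat_lit 3669625774) (nat_lit 152) (nat_lit 74228250452) (nat_lit 76) (nat_lit 14787281132) (nat_lit 6) (nat_lit 5) (nat_lit 8) (nat_lit 5) (nat_lit 7) (nat_lit 4) (nat_lit 292) (nat_lit 253) (nat_lit 175)) (XT.lf (nat_lit 0) (nat_lit 15058253043) (nat_lit 152) (nat_lit 50896567648) (nat_lit 76) (nat_lit 33238358849) (nat_lit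 6) (nat_lit 5) (nat_lit 8) (nat_lit 5) (nat_lit 7) (nat_lit 4) (nat_lit 293) (nat_lit 253) (nat_lit 174))) (XT.nd (nat_lit 78) (nat_lit 76) (nat_lit 0) (XT.lf (nat_lit 0) (nat_lit 27351850169) (nat_lit 152) (nat_lit 25708585296) (nat_lit 76) (nat_lit 53161728025) (nat_lit 6) (nat_lit 5) (nat_lit 8) (nat_lit 5) (nat_lit 7) (nat_lit 4) (nat_lit 294) (nat_lit 253) (nat_lit 173)) (XT.nd (nat_lit 78) (nat_lit 0) (nat_lit 0) (XT.lf (nat_lit 0) (nat_lit 1534058163) (nat_lit 76) (nat_lit 39113160883) (nat_lit 152) (nat_lit 73165345854) (nat_lit 5) (nat_lit 5) (nat_lit 6) (nat_lit 5) (nat_lit 7) (nat_lit 4) (nat_lit 295) (nat_lit 253) (nat_lit 172)) (XT.lf (nat_lit 0) (nat_lit 31865093321) (nat_lit 76) (nat_lit 23583562360) (nat_lit 152) (nat_lit 66539432813) (nat_lit 5) (nat_lit 5) (nat_lit 6) (nat_lit 5) (nat_lit 7) (nat_lit 4) (nat_lit 296) (nat_lit 253) (nat_lit 171)))))) (XT.nd (nat_lit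 312) (nat_lit 76) (nat_lit 0) (XT.nd (nat_lit 156) (nat_lit 76) (nat_lit 0) (XT.nd (nat_lit 78) (nat_lit 0) (nat_lit 0) (XT.lf (nat_lit 0) (nat_lit 64614217712) (nat_lit 76) (nat_lit 6814999976) (nat_lit 152) (nat_lit 59388696861) (nat_lit 5) (nat_lit 5) (nat_lit 6) (nat_lit 5) (nat_lit 7) (nat_lit 4) (nat_lit 297) (nat_lit 253) (nat_lit 170)) (XT.lf (nat_lit 0) (nat_lit 88859902831) (nat_lit 152) (nat_lit 40555165876) (nat_lit 0) (nat_lit 10930484348) (nat_lit 5) (nat_lit 5) (nat_lit 7) (nat_lit 4) (nat_lit 5) (nat_lit 4) (nat_lit 298) (nat_lit 253) (nat_lit 169))) (XT.nd (nat_lit 78) (nat_lit 76) (nat_lit 0) (XT.lf (nat_lit 0) (nat_lit 107795632827) (nat_lit 152) (nat_lit 12977039763) (nat_lit 0) (nat_lit 29857210062) (nat_lit 5) (nat_lit 5) (nat_lit 7) (nat_lit 4) (nat_lit 5) (nat_lit 4) (nat_lit 299) (nat_lit 253) (nat_lit 168)) (XT.lf (nat_lit 0) (nat_lit 17356009371) (nat_lit 76)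 (nat_lit 111157184737) (nat_lit 76) (nat_lit 33210424672) (nat_lit 4) (nat_lit 4) (nat_lit 5) (nat_lit 5) (nat_lit 5) (nat_lit 4) (nat_lit 300) (nat_lit 253) (nat_lit 167)))) (XT.nd (nat_lit 156) (nat_lit 76) (nat_lit 0) (XT.nd (nat_lit 78) (nat_lit 0) (nat_lit 0) (XT.lf (nat_lit 0) (nat_lit 50572577310) (nat_lit 76) (nat_lit 100537826136) (nat_lit 76) (nat_lit 22583346351) (nat_lit 4) (nat_lit 4) (nat_lit 5) (nat_lit 5) (nat_lit 5) (nat_lit 4) (nat_lit 301) (nat_lit 253) (nat_lit 166)) (XT.lf (nat_lit 0) (nat_lit 86440423433) (nat_lit 76) (nat_lit 89071439705) (nat_lit 76) (nat_lit 11109812030) (nat_lit 4) (nat_lit 4) (nat_lit 5) (nat_lit 5) (nat_lit 5) (nat_lit 4) (nat_lit 302) (nat_lit 253) (nat_lit 165))) (XT.nd (nat_lit 78) (nat_lit 0) (nat_lit 0) (XT.lf (nat_lit 0) (nat_lit 1237260195) (nat_lit 152) (nat_lit 75431862690) (nat_lit 76) (nat_lit 123913884143) (nat_lit 3) (nat_lit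 5) (nat_lit 5) (nat_lit 5) (nat_lit 4) (nat_lit 4) (nat_lit 303) (nat_lit 253) (nat_lit 164)) (XT.nd (nat_lit 78) (nat_lit 0) (nat_lit 0) (XT.lf (nat_lit 0) (nat_lit 14184989018) (nat_lit 152) (nat_lit 48895146766) (nat_lit 76) (nat_lit 152571903191) (nat_lit 3) (nat_lit 5) (nat_lit 5) (nat_lit 5) (nat_lit 4) (nat_lit 4) (nat_lit 304) (nat_lit 253) (nat_lit 163)) (XT.lf (nat_lit 0) (nat_lit 28165685087) (nat_lit 152) (nat_lit 20240394049) (nat_lit 76) (nat_lit 183520662603) (nat_lit 3) (nat_lit 5) (nat_lit 5) (nat_lit 5) (nat_lit 4) (nat_lit 4) (nat_lit 305) (nat_lit 253) (nat_lit 162))))))))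
noncomputable def xc78 : XT := (XT.nd (nat_lit 33618) (nat_lit 0) (nat_lit 1900) (XT.nd (nat_lit 624) (nat_lit 76) (nat_lit 0) (XT.nd (nat_lit 312) (nat_lit 0) (nat_lit 0) (XT.nd (nat_lit 156) (nat_lit 0) (nat_lit 0) (XT.nd (nat_lit 78) (nat_lit 0) (nat_lit 0) (XT.lf (nat_lit 0) (nat_lit 11056064512) (nat_lit 76) (nat_lit 32378748611) (nat_lit 152) (nat_lit 206060114075) (nat_lit 2) (nat_lit 5) (nat_lit 3) (nat_lit 5) (nat_lit 4) (nat_lit 4) (nat_lit 306) (nat_lit 253) (nat_lit 161)) (XT.lf (nat_lit 0) (nat_lit 45574677413) (nat_lit 76) (nat_lit 14700856507) (nat_lit 152) (nat_lit 208175535341) (nat_lit 2) (nat_lit 5) (nat_lit 3) (nat_lit 5) (nat_lit 4) (nat_lit 4) (nat_lit 307) (nat_lit 253) (nat_lit 160))) (XT.nd (nat_lit 78) (nat_lit 0) (nat_lit 0) (XT.lf (nat_lit 0) (nat_lit 78529719930) (nat_lit 152) (nat_lit 206141596519) (nat_lit 0) (nat_lit 4249080397) (nat_lit 2) (nat_lit 5)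 (nat_lit 4) (nat_lit 4) (nat_lit 2) (nat_lit 4) (nat_lit 308) (nat_lit 253) (nat_lit 159)) (XT.lf (nat_lit 0) (nat_lit 98489945932) (nat_lit 152) (nat_lit 188319709366) (nat_lit 0) (nat_lit 24205334280) (nat_lit 2) (nat_lit 5) (nat_lit 4) (nat_lit 4) (nat_lit 2) (nat_lit 4) (nat_lit 309) (nat_lit 253) (nat_lit 158)))) (XT.nd (nat_lit 156) (nat_lit 0) (nat_lit 0) (XT.nd (nat_lit 78) (nat_lit 0) (nat_lit 0) (XT.lf (nat_lit 0) (nat_lit 120044973178) (nat_lit 152) (nat_lit 169075597638) (nat_lit 0) (nat_lit 45756683639) (nat_lit 2) (nat_lit 5) (nat_lit 4) (nat_lit 4) (nat_lit 2) (nat_lit 4) (nat_lit 310) (nat_lit 253) (nat_lit 157)) (XT.lf (nat_lit 0) (nat_lit 143322535165) (nat_lit 152) (nat_lit 148295222155) (nat_lit 0) (nat_lit 69030840174) (nat_lit 2) (nat_lit 5) (nat_lit 4) (nat_lit 4) (nat_lit 2) (nat_lit 4) (nat_lit 311) (nat_lit 253) (nat_lit 156))) (XT.nd (nat_lit 78) (nat_lit 0)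 (nat_lit 0) (XT.lf (nat_lit 0) (nat_lit 168460572999) (nat_lit 152) (nat_lit 125855439950) (nat_lit 0) (nat_lit 94165724812) (nat_lit 2) (nat_lit 5) (nat_lit 4) (nat_lit 4) (nat_lit 2) (nat_lit 4) (nat_lit 312) (nat_lit 253) (nat_lit 155)) (XT.lf (nat_lit 0) (nat_lit 195608052831) (nat_lit 152) (nat_lit 101623274537) (nat_lit 0) (nat_lit 121310285018) (nat_lit 2) (nat_lit 5) (nat_lit 4) (nat_lit 4) (nat_lit 2) (nat_lit 4) (nat_lit 313) (nat_lit 253) (nat_lit 154))))) (XT.nd (nat_lit 312) (nat_lit 0) (nat_lit 0) (XT.nd (nat_lit 156) (nat_lit 76) (nat_lit 0) (XT.nd (nat_lit 78) (nat_lit 0) (nat_lit 0) (XT.lf (nat_lit 0) (nat_lit 224925848616) (nat_lit 152) (nat_lit 75455127898) (nat_lit 0) (nat_lit 150625377445) (nat_lit 2) (nat_lit 5) (nat_lit 4) (nat_lit 4) (nat_lit 2) (nat_lit 4) (nat_lit 314) (nat_lit 253) (nat_lit 153)) (XT.lf (nat_lit 0) (nat_lit 256587695439) (nat_lit 152) (nat_lit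 47195929535) (nat_lit 0) (nat_lit 182284721159) (nat_lit 2) (nat_lit 5) (nat_lit 4) (nat_lit 4) (nat_lit 2) (nat_lit 4) (nat_lit 315) (nat_lit 253) (nat_lit 152))) (XT.nd (nat_lit 78) (nat_lit 76) (nat_lit 0) (XT.lf (nat_lit 0) (nat_lit 290781219060) (nat_lit 152) (nat_lit 16678217532) (nat_lit 0) (nat_lit 216475927087) (nat_lit 2) (nat_lit 5) (nat_lit 4) (nat_lit 4) (nat_lit 2) (nat_lit 4) (nat_lit 316) (nat_lit 253) (nat_lit 151)) (XT.lf (nat_lit 0) (nat_lit 16817106237) (nat_lit 76) (nat_lit 311154503687) (nat_lit 76) (nat_lit 236847065702) (nat_lit 1) (nat_lit 4) (nat_lit 2) (nat_lit 5) (nat_lit 2) (nat_lit 4) (nat_lit 317) (nat_lit 253) (nat_lit 150)))) (XT.nd (nat_lit 156) (nat_lit 0) (nat_lit 0) (XT.nd (nat_lit 78) (nat_lit 0) (nat_lit 0) (XT.lf (nat_lit 0) (nat_lit 53585661479) (nat_lit 76) (nat_lit 314840974007) (nat_lit 76) (nat_lit 240531548973) (nat_lit 1) (nat_lit 4) (nat_lit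 2) (nat_lit 5) (nat_lit 2) (nat_lit 4) (nat_lit 318) (nat_lit 253) (nat_lit 149)) (XT.lf (nat_lit 0) (nat_lit 93293878735) (nat_lit 76) (nat_lit 318823146984) (nat_lit 76) (nat_lit 244511882090) (nat_lit 1) (nat_lit 4) (nat_lit 2) (nat_lit 5) (nat_lit 2) (nat_lit 4) (nat_lit 319) (nat_lit 253) (nat_lit 148))) (XT.nd (nat_lit 32370) (nat_lit 0) (nat_lit 4788) (XT.lf (nat_lit 0) (nat_lit 136177065959) (nat_lit 76) (nat_lit 323124620681) (nat_lit 76) (nat_lit 248811652213) (nat_lit 1) (nat_lit 4) (nat_lit 2) (nat_lit 5) (nat_lit 2) (nat_lit 4) (nat_lit 320) (nat_lit 253) (nat_lit 147)) (XT.nd (nat_lit 78) (nat_lit 0) (nat_lit 0) (XT.lf (nat_lit 0) (nat_lit 3506486371) (nat_lit 684) (nat_lit 1348870799) (nat_lit 684) (nat_lit 1348870799) (nat_lit 64) (nat_lit 3) (nat_lit 73) (nat_lit 3) (nat_lit 73) (nat_lit 5) (nat_lit 254) (nat_lit 254) (nat_lit 212)) (XT.lf (nat_lit 76) (nat_lit 5412084484)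 (nat_lit 0) (nat_lit 2565273494) (nat_lit 684) (nat_lit 4890014042) (nat_lit 65) (nat_lit 5) (nat_lit 64) (nat_lit 3) (nat_lit 73) (nat_lit 5) (nat_lit 255) (nat_lit 254) (nat_lit 211))))))) (XT.nd (nat_lit 702) (nat_lit 1520) (nat_lit 0) (XT.nd (nat_lit 312) (nat_lit 1444) (nat_lit 0) (XT.nd (nat_lit 156) (nat_lit 0) (nat_lit 76) (XT.nd (nat_lit 78) (nat_lit 0) (nat_lit 0) (XT.lf (nat_lit 76) (nat_lit 814783663) (nat_lit 0) (nat_lit 8284986559) (nat_lit 684) (nat_lit 4259510396) (nat_lit 66) (nat_lit 5) (nat_lit 65) (nat_lit 5) (nat_lit 74) (nat_lit 5) (nat_lit 256) (nat_lit 254) (nat_lit 210)) (XT.lf (nat_lit 76) (nat_lit 9933115580) (nat_lit 0) (nat_lit 495144370) (nat_lit 684) (nat_lit 3456766838) (nat_lit 66) (nat_lit 5) (nat_lit 65) (nat_lit 5) (nat_lit 74) (nat_lit 5) (nat_lit 257) (nat_lit 254) (nat_lit 209))) (XT.nd (nat_lit 78) (nat_lit 0) (nat_lit 76) (XT.lf (nat_lit 76) (nat_lit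 5339886101) (nat_lit 0) (nat_lit 6678460115) (nat_lit 684) (nat_lit 2426997522) (nat_lit 67) (nat_lit 5) (nat_lit 66) (nat_lit 5) (nat_lit 75) (nat_lit 5) (nat_lit 258) (nat_lit 254) (nat_lit 208)) (XT.lf (nat_lit 76) (nat_lit 410732100) (nat_lit 0) (nat_lit 13386684608) (nat_lit 684) (nat_lit 1250236910) (nat_lit 68) (nat_lit 5) (nat_lit 67) (nat_lit 5) (nat_lit 76) (nat_lit 5) (nat_lit 259) (nat_lit 254) (nat_lit 207)))) (XT.nd (nat_lit 156) (nat_lit 912) (nat_lit 0) (XT.nd (nat_lit 78) (nat_lit 0) (nat_lit 76) (XT.lf (nat_lit 0) (nat_lit 247721784) (nat_lit 684) (nat_lit 4829374070) (nat_lit 760) (nat_lit 10609876507) (nat_lit 58) (nat_lit 5) (nat_lit 67) (nat_lit 5) (nat_lit 68) (nat_lit 5) (nat_lit 260) (nat_lit 254) (nat_lit 206)) (XT.lf (nat_lit 0) (nat_lit 1934500971) (nat_lit 684) (nat_lit 10540799675) (nat_lit 76) (nat_lit 3895681258) (nat_lit 59) (nat_lit 5) (nat_lit 68) (nat_lit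 5) (nat_lit 60) (nat_lit 5) (nat_lit 261) (nat_lit 254) (nat_lit 205))) (XT.nd (nat_lit 78) (nat_lit 304) (nat_lit 0) (XT.lf (nat_lit 0) (nat_lit 296893617) (nat_lit 684) (nat_lit 3595152471) (nat_lit 760) (nat_lit 13211068819) (nat_lit 50) (nat_lit 5) (nat_lit 59) (nat_lit 5) (nat_lit 60) (nat_lit 5) (nat_lit 262) (nat_lit 254) (nat_lit 204)) (XT.nd (nat_lit 78) (nat_lit 304) (nat_lit 0) (XT.lf (nat_lit 0) (nat_lit 6248994525) (nat_lit 760) (nat_lit 5638906552) (nat_lit 76) (nat_lit 5993957004) (nat_lit 50) (nat_lit 5) (nat_lit 60) (nat_lit 5) (nat_lit 51) (nat_lit 5) (nat_lit 263) (nat_lit 254) (nat_lit 203)) (XT.lf (nat_lit 0) (nat_lit 6537387105) (nat_lit 304) (nat_lit 2385142651) (nat_lit 380) (nat_lit 9794135623) (nat_lit 46) (nat_lit 5) (nat_lit 50) (nat_lit 5) (nat_lit 51) (nat_lit 5) (nat_lit 264) (nat_lit 254) (nat_lit 202)))))) (XT.nd (nat_lit 312) (nat_lit 912) (nat_lit 0)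 (XT.nd (nat_lit 156) (nat_lit 304) (nat_lit 0) (XT.nd (nat_lit 78) (nat_lit 0) (nat_lit 0) (XT.lf (nat_lit 0) (nat_lit 121705706) (nat_lit 304) (nat_lit 11880406441) (nat_lit 380) (nat_lit 7606690800) (nat_lit 42) (nat_lit 5) (nat_lit 46) (nat_lit 5) (nat_lit 47) (nat_lit 5) (nat_lit 265) (nat_lit 254) (nat_lit 201)) (XT.lf (nat_lit 0) (nat_lit 13768203677) (nat_lit 304) (nat_lit 1780928299) (nat_lit 380) (nat_lit 5012268509) (nat_lit 42) (nat_lit 5) (nat_lit 46) (nat_lit 5) (nat_lit 47) (nat_lit 5) (nat_lit 266) (nat_lit 254) (nat_lit 200))) (XT.nd (nat_lit 78) (nat_lit 76) (nat_lit 0) (XT.lf (nat_lit 0) (nat_lit 6965564685) (nat_lit 228) (nat_lit 12637189650) (nat_lit 304) (nat_lit 1976441390) (nat_lit 39) (nat_lit 5) (nat_lit 42) (nat_lit 5) (nat_lit 43) (nat_lit 5) (nat_lit 267) (nat_lit 254) (nat_lit 199)) (XT.lf (nat_lit 0) (nat_lit 1383555322) (nat_lit 304) (nat_lit 687959523)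 (nat_lit 76) (nat_lit 20599850327) (nat_lit 38) (nat_lit 5) (nat_lit 42) (nat_lit 5) (nat_lit 39) (nat_lit 5) (nat_lit 268) (nat_lit 254) (nat_lit 198)))) (XT.nd (nat_lit 156) (nat_lit 380) (nat_lit 0) (XT.nd (nat_lit 78) (nat_lit 228) (nat_lit 0) (XT.lf (nat_lit 0) (nat_lit 5299309506) (nat_lit 380) (nat_lit 9226740851) (nat_lit 76) (nat_lit 9305535391) (nat_lit 34) (nat_lit 5) (nat_lit 39) (nat_lit 5) (nat_lit 35) (nat_lit 5) (nat_lit 269) (nat_lit 254) (nat_lit 197)) (XT.lf (nat_lit 0) (nat_lit 6196318969) (nat_lit 228) (nat_lit 3451956384) (nat_lit 304) (nat_lit 15430450807) (nat_lit 31) (nat_lit 5) (nat_lit 34) (nat_lit 5) (nat_lit 35) (nat_lit 5) (nat_lit 270) (nat_lit 254) (nat_lit 196))) (XT.nd (nat_lit 78) (nat_lit 380) (nat_lit 0) (XT.lf (nat_lit 0) (nat_lit 14618723079) (nat_lit 304) (nat_lit 3398763895) (nat_lit 76) (nat_lit 8394564969) (nat_lit 31) (nat_lit 5) (nat_lit 35)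 (nat_lit 5) (nat_lit 32) (nat_lit 5) (nat_lit 271) (nat_lit 254) (nat_lit 195)) (XT.nd (nat_lit 78) (nat_lit 152) (nat_lit 0) (XT.lf (nat_lit 0) (nat_lit 13676811435) (nat_lit 228) (nat_lit 6560782221) (nat_lit 304) (nat_lit 7601996305) (nat_lit 28) (nat_lit 5) (nat_lit 31) (nat_lit 5) (nat_lit 32) (nat_lit 5) (nat_lit 272) (nat_lit 254) (nat_lit 194)) (XT.lf (nat_lit 0) (nat_lit 2834287442) (nat_lit 152) (nat_lit 23646984242) (nat_lit 228) (nat_lit 2891373638) (nat_lit 26) (nat_lit 5) (nat_lit 28) (nat_lit 5) (nat_lit 29) (nat_lit 5) (nat_lit 273) (nat_lit 254) (nat_lit 193))))))))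
noncomputable def xc79 : XT := (XT.nd (nat_lit 1404) (nat_lit 456) (nat_lit 0) (XT.nd (nat_lit 702) (nat_lit 532) (nat_lit 0) (XT.nd (nat_lit 312) (nat_lit 380) (nat_lit 0) (XT.nd (nat_lit 156) (nat_lit 152) (nat_lit 0) (XT.nd (nat_lit 78) (nat_lit 228) (nat_lit 0) (XT.lf (nat_lit 0) (nat_lit 2468013503) (nat_lit 228) (nat_lit 9493807963) (nat_lit 76) (nat_lit 19047768939) (nat_lit 25) (nat_lit 5) (nat_lit 28) (nat_lit 5) (nat_lit 26) (nat_lit 5) (nat_lit 274) (nat_lit 254) (nat_lit 192)) (XT.lf (nat_lit 0) (nat_lit 8294379631) (nat_lit 304) (nat_lit 23648095837) (nat_lit 76) (nat_lit 825733925) (nat_lit 22) (nat_lit 5) (nat_lit 26) (nat_lit 5) (nat_lit 23) (nat_lit 5) (nat_lit 275) (nat_lit 254) (nat_lit 191))) (XT.nd (nat_lit 78) (nat_lit 152) (nat_lit 0) (XT.lf (nat_lit 0) (nat_lit 14939752887) (nat_lit 304) (nat_lit 5325063119) (nat_lit 76) (nat_lit 14385116872) (nat_lit 22) (nat_lit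 5) (nat_lit 26) (nat_lit 5) (nat_lit 23) (nat_lit 5) (nat_lit 276) (nat_lit 254) (nat_lit 190)) (XT.lf (nat_lit 0) (nat_lit 14919501285) (nat_lit 152) (nat_lit 7414553450) (nat_lit 228) (nat_lit 14337330007) (nat_lit 20) (nat_lit 5) (nat_lit 22) (nat_lit 5) (nat_lit 23) (nat_lit 5) (nat_lit 277) (nat_lit 254) (nat_lit 189)))) (XT.nd (nat_lit 156) (nat_lit 228) (nat_lit 0) (XT.nd (nat_lit 78) (nat_lit 152) (nat_lit 0) (XT.lf (nat_lit 0) (nat_lit 30500198404) (nat_lit 228) (nat_lit 2000141458) (nat_lit 76) (nat_lit 6345249338) (nat_lit 20) (nat_lit 5) (nat_lit 23) (nat_lit 5) (nat_lit 21) (nat_lit 5) (nat_lit 278) (nat_lit 254) (nat_lit 188)) (XT.lf (nat_lit 0) (nat_lit 19821139256) (nat_lit 152) (nat_lit 19919185316) (nat_lit 228) (nat_lit 1432418420) (nat_lit 18) (nat_lit 5) (nat_lit 20) (nat_lit 5) (nat_lit 21) (nat_lit 5) (nat_lit 279) (nat_lit 254) (nat_lit 187))) (XT.nd (nat_lit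 78) (nat_lit 152) (nat_lit 0) (XT.lf (nat_lit 0) (nat_lit 5862562666) (nat_lit 228) (nat_lit 339145010) (nat_lit 76) (nat_lit 37478589080) (nat_lit 17) (nat_lit 5) (nat_lit 20) (nat_lit 5) (nat_lit 18) (nat_lit 5) (nat_lit 280) (nat_lit 254) (nat_lit 186)) (XT.nd (nat_lit 78) (nat_lit 0) (nat_lit 0) (XT.lf (nat_lit 0) (nat_lit 14179838567) (nat_lit 228) (nat_lit 23460837959) (nat_lit 76) (nat_lit 8722198926) (nat_lit 15) (nat_lit 5) (nat_lit 18) (nat_lit 5) (nat_lit 16) (nat_lit 5) (nat_lit 281) (nat_lit 254) (nat_lit 185)) (XT.lf (nat_lit 0) (nat_lit 23261286687) (nat_lit 228) (nat_lit 1367693927) (nat_lit 76) (nat_lit 24626176253) (nat_lit 15) (nat_lit 5) (nat_lit 18) (nat_lit 5) (nat_lit 16) (nat_lit 5) (nat_lit 282) (nat_lit 254) (nat_lit 184)))))) (XT.nd (nat_lit 312) (nat_lit 228) (nat_lit 0) (XT.nd (nat_lit 156) (nat_lit 152) (nat_lit 0) (XT.nd (nat_lit 78) (nat_lit 0) (nat_lit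 0) (XT.lf (nat_lit 0) (nat_lit 23219510549) (nat_lit 152) (nat_lit 10201348306) (nat_lit 228) (nat_lit 18940414801) (nat_lit 13) (nat_lit 5) (nat_lit 15) (nat_lit 5) (nat_lit 16) (nat_lit 5) (nat_lit 283) (nat_lit 254) (nat_lit 183)) (XT.lf (nat_lit 0) (nat_lit 44490978266) (nat_lit 228) (nat_lit 5992855902) (nat_lit 76) (nat_lit 5227187350) (nat_lit 13) (nat_lit 5) (nat_lit 16) (nat_lit 5) (nat_lit 14) (nat_lit 4) (nat_lit 284) (nat_lit 254) (nat_lit 182))) (XT.nd (nat_lit 78) (nat_lit 76) (nat_lit 0) (XT.lf (nat_lit 0) (nat_lit 19443157166) (nat_lit 76) (nat_lit 37469460754) (nat_lit 152) (nat_lit 2392864281) (nat_lit 12) (nat_lit 5) (nat_lit 13) (nat_lit 5) (nat_lit 14) (nat_lit 4) (nat_lit 285) (nat_lit 254) (nat_lit 181)) (XT.lf (nat_lit 0) (nat_lit 7008701442) (nat_lit 152) (nat_lit 16182194379) (nat_lit 76) (nat_lit 39986217284) (nat_lit 11) (nat_lit 5) (nat_lit 13) (nat_lit 5)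 (nat_lit 12) (nat_lit 5) (nat_lit 286) (nat_lit 254) (nat_lit 180)))) (XT.nd (nat_lit 156) (nat_lit 76) (nat_lit 0) (XT.nd (nat_lit 78) (nat_lit 0) (nat_lit 0) (XT.lf (nat_lit 0) (nat_lit 9647085969) (nat_lit 152) (nat_lit 7574553247) (nat_lit 228) (nat_lit 50127743138) (nat_lit 9) (nat_lit 5) (nat_lit 11) (nat_lit 5) (nat_lit 12) (nat_lit 5) (nat_lit 287) (nat_lit 254) (nat_lit 179)) (XT.lf (nat_lit 0) (nat_lit 28674879837) (nat_lit 228) (nat_lit 33883892229) (nat_lit 76) (nat_lit 9275519250) (nat_lit 9) (nat_lit 5) (nat_lit 12) (nat_lit 5) (nat_lit 10) (nat_lit 4) (nat_lit 288) (nat_lit 254) (nat_lit 178))) (XT.nd (nat_lit 78) (nat_lit 76) (nat_lit 0) (XT.lf (nat_lit 0) (nat_lit 41164418419) (nat_lit 228) (nat_lit 8300182697) (nat_lit 76) (nat_lit 27207409910) (nat_lit 9) (nat_lit 5) (nat_lit 12) (nat_lit 5) (nat_lit 10) (nat_lit 4) (nat_lit 289) (nat_lit 254) (nat_lit 177)) (XT.nd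 (nat_lit 78) (nat_lit 0) (nat_lit 0) (XT.lf (nat_lit 0) (nat_lit 19957462828) (nat_lit 76) (nat_lit 35000136136) (nat_lit 152) (nat_lit 26923943892) (nat_lit 8) (nat_lit 5) (nat_lit 9) (nat_lit 5) (nat_lit 10) (nat_lit 4) (nat_lit 290) (nat_lit 254) (nat_lit 176)) (XT.lf (nat_lit 0) (nat_lit 50761093455) (nat_lit 76) (nat_lit 19230966065) (nat_lit 152) (nat_lit 17508903555) (nat_lit 8) (nat_lit 5) (nat_lit 9) (nat_lit 5) (nat_lit 10) (nat_lit 4) (nat_lit 291) (nat_lit 254) (nat_lit 175))))))) (XT.nd (nat_lit 702) (nat_lit 228) (nat_lit 0) (XT.nd (nat_lit 312) (nat_lit 76) (nat_lit 0) (XT.nd (nat_lit 156) (nat_lit 0) (nat_lit 0) (XT.nd (nat_lit 78) (nat_lit 152) (nat_lit 0) (XT.lf (nat_lit 0) (nat_lit 84018807692) (nat_lit 76) (nat_lit 2204211580) (nat_lit 152) (nat_lit 7347246374) (nat_lit 8) (nat_lit 5) (nat_lit 9) (nat_lit 5) (nat_lit 10) (nat_lit 4) (nat_lit 292) (nat_lit 254) (nat_lit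 174)) (XT.lf (nat_lit 0) (nat_lit 4082601001) (nat_lit 152) (nat_lit 79966828100) (nat_lit 76) (nat_lit 16044297885) (nat_lit 6) (nat_lit 5) (nat_lit 8) (nat_lit 5) (nat_lit 7) (nat_lit 4) (nat_lit 293) (nat_lit 254) (nat_lit 173))) (XT.nd (nat_lit 78) (nat_lit 0) (nat_lit 0) (XT.lf (nat_lit 0) (nat_lit 16373473625) (nat_lit 152) (nat_lit 54783401961) (nat_lit 76) (nat_lit 35965977799) (nat_lit 6) (nat_lit 5) (nat_lit 8) (nat_lit 5) (nat_lit 7) (nat_lit 4) (nat_lit 294) (nat_lit 254) (nat_lit 172)) (XT.lf (nat_lit 0) (nat_lit 29642368866) (nat_lit 152) (nat_lit 27594076657) (nat_lit 76) (nat_lit 57478138713) (nat_lit 6) (nat_lit 5) (nat_lit 8) (nat_lit 5) (nat_lit 7) (nat_lit 4) (nat_lit 295) (nat_lit 254) (nat_lit 171)))) (XT.nd (nat_lit 156) (nat_lit 0) (nat_lit 0) (XT.nd (nat_lit 78) (nat_lit 0) (nat_lit 0) (XT.lf (nat_lit 0) (nat_lit 1820538332) (nat_lit 76) (nat_lit 42175802590)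 (nat_lit 152) (nat_lit 78916145472) (nat_lit 5) (nat_lit 5) (nat_lit 6) (nat_lit 5) (nat_lit 7) (nat_lit 4) (nat_lit 296) (nat_lit 254) (nat_lit 170)) (XT.lf (nat_lit 0) (nat_lit 34565926265) (nat_lit 76) (nat_lit 25408755530) (nat_lit 152) (nat_lit 71767746651) (nat_lit 5) (nat_lit 5) (nat_lit 6) (nat_lit 5) (nat_lit 7) (nat_lit 4) (nat_lit 297) (nat_lit 254) (nat_lit 169))) (XT.nd (nat_lit 78) (nat_lit 0) (nat_lit 0) (XT.lf (nat_lit 0) (nat_lit 69923749090) (nat_lit 76) (nat_lit 7303263106) (nat_lit 152) (nat_lit 64051977066) (nat_lit 5) (nat_lit 5) (nat_lit 6) (nat_lit 5) (nat_lit 7) (nat_lit 4) (nat_lit 298) (nat_lit 254) (nat_lit 168)) (XT.nd (nat_lit 78) (nat_lit 0) (nat_lit 0) (XT.lf (nat_lit 0) (nat_lit 96046793240) (nat_lit 152) (nat_lit 43666372230) (nat_lit 0) (nat_lit 11855955072) (nat_lit 5) (nat_lit 5) (nat_lit 7) (nat_lit 4) (nat_lit 5) (nat_lit 4) (nat_lit 299) (nat_lit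 254) (nat_lit 167)) (XT.lf (nat_lit 0) (nat_lit 116491596585) (nat_lit 152) (nat_lit 13891863207) (nat_lit 0) (nat_lit 32293038696) (nat_lit 5) (nat_lit 5) (nat_lit 7) (nat_lit 4) (nat_lit 5) (nat_lit 4) (nat_lit 300) (nat_lit 254) (nat_lit 166)))))) (XT.nd (nat_lit 312) (nat_lit 76) (nat_lit 0) (XT.nd (nat_lit 156) (nat_lit 76) (nat_lit 0) (XT.nd (nat_lit 78) (nat_lit 0) (nat_lit 0) (XT.lf (nat_lit 0) (nat_lit 18862469663) (nat_lit 76) (nat_lit 120000578568) (nat_lit 76) (nat_lit 35794872790) (nat_lit 4) (nat_lit 4) (nat_lit 5) (nat_lit 5) (nat_lit 5) (nat_lit 4) (nat_lit 301) (nat_lit 254) (nat_lit 165)) (XT.lf (nat_lit 0) (nat_lit 54727623811) (nat_lit 76) (nat_lit 108535314313) (nat_lit 76) (nat_lit 24322990118) (nat_lit 4) (nat_lit 4) (nat_lit 5) (nat_lit 5) (nat_lit 5) (nat_lit 4) (nat_lit 302) (nat_lit 254) (nat_lit 164))) (XT.nd (nat_lit 78) (nat_lit 76) (nat_lit 0) (XT.lf (nat_lit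 0) (nat_lit 93456805749) (nat_lit 76) (nat_lit 96154990146) (nat_lit 76) (nat_lit 11936537788) (nat_lit 4) (nat_lit 4) (nat_lit 5) (nat_lit 5) (nat_lit 5) (nat_lit 4) (nat_lit 303) (nat_lit 254) (nat_lit 163)) (XT.lf (nat_lit 0) (nat_lit 1391864087) (nat_lit 152) (nat_lit 81370805203) (nat_lit 76) (nat_lit 133864085759) (nat_lit 3) (nat_lit 5) (nat_lit 5) (nat_lit 5) (nat_lit 4) (nat_lit 4) (nat_lit 304) (nat_lit 254) (nat_lit 162)))) (XT.nd (nat_lit 156) (nat_lit 76) (nat_lit 0) (XT.nd (nat_lit 78) (nat_lit 0) (nat_lit 0) (XT.lf (nat_lit 0) (nat_lit 15371290988) (nat_lit 152) (nat_lit 52718233968) (nat_lit 76) (nat_lit 164811998857) (nat_lit 3) (nat_lit 5) (nat_lit 5) (nat_lit 5) (nat_lit 4) (nat_lit 4) (nat_lit 305) (nat_lit 254) (nat_lit 161)) (XT.lf (nat_lit 0) (nat_lit 30466627717) (nat_lit 152) (nat_lit 21777658407) (nat_lit 76) (nat_lit 198234115066) (nat_lit 3) (nat_lit 5) (nat_lit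 5) (nat_lit 5) (nat_lit 4) (nat_lit 4) (nat_lit 306) (nat_lit 254) (nat_lit 160))) (XT.nd (nat_lit 78) (nat_lit 0) (nat_lit 0) (XT.lf (nat_lit 0) (nat_lit 12018954646) (nat_lit 76) (nat_lit 34936023040) (nat_lit 152) (nat_lit 222497186289) (nat_lit 2) (nat_lit 5) (nat_lit 3) (nat_lit 5) (nat_lit 4) (nat_lit 4) (nat_lit 307) (nat_lit 254) (nat_lit 159)) (XT.nd (nat_lit 78) (nat_lit 0) (nat_lit 0) (XT.lf (nat_lit 0) (nat_lit 49293248804) (nat_lit 76) (nat_lit 15846345899) (nat_lit 152) (nat_lit 224785377324) (nat_lit 2) (nat_lit 5) (nat_lit 3) (nat_lit 5) (nat_lit 4) (nat_lit 4) (nat_lit 308) (nat_lit 254) (nat_lit 158)) (XT.lf (nat_lit 0) (nat_lit 84851445203) (nat_lit 152) (nat_lit 222564125585) (nat_lit 0) (nat_lit 4616414613) (nat_lit 2) (nat_lit 5) (nat_lit 4) (nat_lit 4) (nat_lit 2) (nat_lit 4) (nat_lit 309) (nat_lit 254) (nat_lit 157))))))))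
noncomputable def xc80 : XT := (XT.nd (nat_lit 33774) (nat_lit 0) (nat_lit 1444) (XT.nd (nat_lit 624) (nat_lit 76) (nat_lit 0) (XT.nd (nat_lit 312) (nat_lit 0) (nat_lit 0) (XT.nd (nat_lit 156) (nat_lit 0) (nat_lit 0) (XT.nd (nat_lit 78) (nat_lit 0) (nat_lit 0) (XT.lf (nat_lit 0) (nat_lit 106405574642) (nat_lit 152) (nat_lit 203321583657) (nat_lit 0) (nat_lit 26167138600) (nat_lit 2) (nat_lit 5) (nat_lit 4) (nat_lit 4) (nat_lit 2) (nat_lit 4) (nat_lit 310) (nat_lit 254) (nat_lit 156)) (XT.lf (nat_lit 0) (nat_lit 129682305325) (nat_lit 152) (nat_lit 182542661691) (nat_lit 0) (nat_lit 49440716087) (nat_lit 2) (nat_lit 5) (nat_lit 4) (nat_lit 4) (nat_lit 2) (nat_lit 4) (nat_lit 311) (nat_lit 254) (nat_lit 155))) (XT.nd (nat_lit 78) (nat_lit 0) (nat_lit 0) (XT.lf (nat_lit 0) (nat_lit 154819573434) (nat_lit 152) (nat_lit 160104225337) (nat_lit 0) (nat_lit 74575064570) (nat_lit 2) (nat_lit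 5) (nat_lit 4) (nat_lit 4) (nat_lit 2) (nat_lit 4) (nat_lit 312) (nat_lit 254) (nat_lit 154)) (XT.lf (nat_lit 0) (nat_lit 181966340558) (nat_lit 152) (nat_lit 135873306081) (nat_lit 0) (nat_lit 101719128336) (nat_lit 2) (nat_lit 5) (nat_lit 4) (nat_lit 4) (nat_lit 2) (nat_lit 4) (nat_lit 313) (nat_lit 254) (nat_lit 153)))) (XT.nd (nat_lit 156) (nat_lit 0) (nat_lit 0) (XT.nd (nat_lit 78) (nat_lit 0) (nat_lit 0) (XT.lf (nat_lit 0) (nat_lit 211283476427) (nat_lit 152) (nat_lit 109706313291) (nat_lit 0) (nat_lit 131033761096) (nat_lit 2) (nat_lit 5) (nat_lit 4) (nat_lit 4) (nat_lit 2) (nat_lit 4) (nat_lit 314) (nat_lit 254) (nat_lit 152)) (XT.lf (nat_lit 0) (nat_lit 242944712218) (nat_lit 152) (nat_lit 81448183307) (nat_lit 0) (nat_lit 162692679193) (nat_lit 2) (nat_lit 5) (nat_lit 4) (nat_lit 4) (nat_lit 2) (nat_lit 4) (nat_lit 315) (nat_lit 254) (nat_lit 151))) (XT.nd (nat_lit 78) (nat_lit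 0) (nat_lit 0) (XT.lf (nat_lit 0) (nat_lit 277137670067) (nat_lit 152) (nat_lit 50931460543) (nat_lit 0) (nat_lit 196883491031) (nat_lit 2) (nat_lit 5) (nat_lit 4) (nat_lit 4) (nat_lit 2) (nat_lit 4) (nat_lit 316) (nat_lit 254) (nat_lit 150)) (XT.lf (nat_lit 0) (nat_lit 314064974912) (nat_lit 152) (nat_lit 17975305161) (nat_lit 0) (nat_lit 233808808827) (nat_lit 2) (nat_lit 5) (nat_lit 4) (nat_lit 4) (nat_lit 2) (nat_lit 4) (nat_lit 317) (nat_lit 254) (nat_lit 149))))) (XT.nd (nat_lit 32760) (nat_lit 0) (nat_lit 4332) (XT.nd (nat_lit 32604) (nat_lit 0) (nat_lit 4788) (XT.nd (nat_lit 78) (nat_lit 0) (nat_lit 0) (XT.lf (nat_lit 0) (nat_lit 18198029156) (nat_lit 76) (nat_lit 336031548303) (nat_lit 76) (nat_lit 255773542358) (nat_lit 1) (nat_lit 4) (nat_lit 2) (nat_lit 5) (nat_lit 2) (nat_lit 4) (nat_lit 318) (nat_lit 254) (nat_lit 148)) (XT.lf (nat_lit 0) (nat_lit 57905435156) (nat_lit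 76) (nat_lit 340014070742) (nat_lit 76) (nat_lit 259754361224) (nat_lit 1) (nat_lit 4) (nat_lit 2) (nat_lit 5) (nat_lit 2) (nat_lit 4) (nat_lit 319) (nat_lit 254) (nat_lit 147))) (XT.nd (nat_lit 78) (nat_lit 0) (nat_lit 0) (XT.lf (nat_lit 0) (nat_lit 4371958974) (nat_lit 684) (nat_lit 1148104181) (nat_lit 684) (nat_lit 1148104181) (nat_lit 64) (nat_lit 3) (nat_lit 73) (nat_lit 3) (nat_lit 73) (nat_lit 5) (nat_lit 255) (nat_lit 255) (nat_lit 210)) (XT.lf (nat_lit 76) (nat_lit 6435574417) (nat_lit 0) (nat_lit 3272439501) (nat_lit 684) (nat_lit 4128288968) (nat_lit 65) (nat_lit 5) (nat_lit 64) (nat_lit 3) (nat_lit 73) (nat_lit 5) (nat_lit 256) (nat_lit 255) (nat_lit 209)))) (XT.nd (nat_lit 156) (nat_lit 532) (nat_lit 0) (XT.nd (nat_lit 78) (nat_lit 0) (nat_lit 0) (XT.lf (nat_lit 76) (nat_lit 1510153717) (nat_lit 0) (nat_lit 9331724657) (nat_lit 684) (nat_lit 3530035097) (nat_lit 66) (nat_lit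 5) (nat_lit 65) (nat_lit 5) (nat_lit 74) (nat_lit 5) (nat_lit 257) (nat_lit 255) (nat_lit 208)) (XT.lf (nat_lit 76) (nat_lit 11311271643) (nat_lit 0) (nat_lit 890255154) (nat_lit 684) (nat_lit 2742348805) (nat_lit 66) (nat_lit 5) (nat_lit 65) (nat_lit 5) (nat_lit 74) (nat_lit 5) (nat_lit 258) (nat_lit 255) (nat_lit 207))) (XT.nd (nat_lit 78) (nat_lit 608) (nat_lit 0) (XT.lf (nat_lit 76) (nat_lit 6380229940) (nat_lit 0) (nat_lit 7473467854) (nat_lit 684) (nat_lit 1698946817) (nat_lit 67) (nat_lit 5) (nat_lit 66) (nat_lit 5) (nat_lit 75) (nat_lit 5) (nat_lit 259) (nat_lit 255) (nat_lit 206)) (XT.nd (nat_lit 78) (nat_lit 684) (nat_lit 0) (XT.lf (nat_lit 76) (nat_lit 1080216979) (nat_lit 0) (nat_lit 14636315122) (nat_lit 684) (nat_lit 489878414) (nat_lit 68) (nat_lit 5) (nat_lit 67) (nat_lit 5) (nat_lit 76) (nat_lit 5) (nat_lit 260) (nat_lit 255) (nat_lit 205)) (XT.lf (nat_lit 0) (nat_lit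 1038687673) (nat_lit 684) (nat_lit 4596975106) (nat_lit 760) (nat_lit 11263927521) (nat_lit 58) (nat_lit 5) (nat_lit 67) (nat_lit 5) (nat_lit 68) (nat_lit 5) (nat_lit 261) (nat_lit 255) (nat_lit 204))))))) (XT.nd (nat_lit 702) (nat_lit 1064) (nat_lit 0) (XT.nd (nat_lit 312) (nat_lit 912) (nat_lit 0) (XT.nd (nat_lit 156) (nat_lit 304) (nat_lit 0) (XT.nd (nat_lit 78) (nat_lit 684) (nat_lit 0) (XT.lf (nat_lit 0) (nat_lit 2810476040) (nat_lit 684) (nat_lit 10750487595) (nat_lit 76) (nat_lit 4080133810) (nat_lit 59) (nat_lit 5) (nat_lit 68) (nat_lit 5) (nat_lit 60) (nat_lit 5) (nat_lit 262) (nat_lit 255) (nat_lit 203)) (XT.lf (nat_lit 0) (nat_lit 926686717) (nat_lit 684) (nat_lit 3953976725) (nat_lit 760) (nat_lit 13553595140) (nat_lit 50) (nat_lit 5) (nat_lit 59) (nat_lit 5) (nat_lit 60) (nat_lit 5) (nat_lit 263) (nat_lit 255) (nat_lit 202))) (XT.nd (nat_lit 78) (nat_lit 304) (nat_lit 0)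 (XT.lf (nat_lit 0) (nat_lit 7374971353) (nat_lit 760) (nat_lit 5493483013) (nat_lit 76) (nat_lit 6409646873) (nat_lit 50) (nat_lit 5) (nat_lit 60) (nat_lit 5) (nat_lit 51) (nat_lit 5) (nat_lit 264) (nat_lit 255) (nat_lit 201)) (XT.lf (nat_lit 0) (nat_lit 7630989406) (nat_lit 304) (nat_lit 2593934226) (nat_lit 380) (nat_lit 9956865195) (nat_lit 46) (nat_lit 5) (nat_lit 50) (nat_lit 5) (nat_lit 51) (nat_lit 5) (nat_lit 265) (nat_lit 255) (nat_lit 200)))) (XT.nd (nat_lit 156) (nat_lit 608) (nat_lit 0) (XT.nd (nat_lit 78) (nat_lit 0) (nat_lit 0) (XT.lf (nat_lit 0) (nat_lit 708333928) (nat_lit 304) (nat_lit 12807686287) (nat_lit 380) (nat_lit 7631225747) (nat_lit 42) (nat_lit 5) (nat_lit 46) (nat_lit 5) (nat_lit 47) (nat_lit 5) (nat_lit 266) (nat_lit 255) (nat_lit 199)) (XT.lf (nat_lit 0) (nat_lit 15403819013) (nat_lit 304) (nat_lit 1901964906) (nat_lit 380) (nat_lit 4872508955) (nat_lit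 42) (nat_lit 5) (nat_lit 46) (nat_lit 5) (nat_lit 47) (nat_lit 5) (nat_lit 267) (nat_lit 255) (nat_lit 198))) (XT.nd (nat_lit 78) (nat_lit 380) (nat_lit 0) (XT.lf (nat_lit 0) (nat_lit 8060236794) (nat_lit 228) (nat_lit 13594180562) (nat_lit 304) (nat_lit 1624734876) (nat_lit 39) (nat_lit 5) (nat_lit 42) (nat_lit 5) (nat_lit 43) (nat_lit 5) (nat_lit 268) (nat_lit 255) (nat_lit 197)) (XT.nd (nat_lit 78) (nat_lit 304) (nat_lit 0) (XT.lf (nat_lit 0) (nat_lit 1951188214) (nat_lit 304) (nat_lit 228323749) (nat_lit 76) (nat_lit 22280768776) (nat_lit 38) (nat_lit 5) (nat_lit 42) (nat_lit 5) (nat_lit 39) (nat_lit 5) (nat_lit 269) (nat_lit 255) (nat_lit 196)) (XT.lf (nat_lit 0) (nat_lit 6155001447) (nat_lit 380) (nat_lit 9450193710) (nat_lit 76) (nat_lit 10109528032) (nat_lit 34) (nat_lit 5) (nat_lit 39) (nat_lit 5) (nat_lit 35) (nat_lit 5) (nat_lit 270) (nat_lit 255) (nat_lit 195)))))) (XT.nd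 (nat_lit 312) (nat_lit 456) (nat_lit 0) (XT.nd (nat_lit 156) (nat_lit 380) (nat_lit 0) (XT.nd (nat_lit 78) (nat_lit 0) (nat_lit 0) (XT.lf (nat_lit 0) (nat_lit 7184343251) (nat_lit 228) (nat_lit 3643246514) (nat_lit 304) (nat_lit 16235393296) (nat_lit 31) (nat_lit 5) (nat_lit 34) (nat_lit 5) (nat_lit 35) (nat_lit 5) (nat_lit 271) (nat_lit 255) (nat_lit 194)) (XT.lf (nat_lit 0) (nat_lit 16166718504) (nat_lit 304) (nat_lit 3195632640) (nat_lit 76) (nat_lit 9142195099) (nat_lit 31) (nat_lit 5) (nat_lit 35) (nat_lit 5) (nat_lit 32) (nat_lit 5) (nat_lit 272) (nat_lit 255) (nat_lit 193))) (XT.nd (nat_lit 78) (nat_lit 152) (nat_lit 0) (XT.lf (nat_lit 0) (nat_lit 15225344389) (nat_lit 228) (nat_lit 6988811753) (nat_lit 304) (nat_lit 7833292734) (nat_lit 28) (nat_lit 5) (nat_lit 31) (nat_lit 5) (nat_lit 32) (nat_lit 5) (nat_lit 273) (nat_lit 255) (nat_lit 192)) (XT.lf (nat_lit 0) (nat_lit 3512694361)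 (nat_lit 152) (nat_lit 25426600082) (nat_lit 228) (nat_lit 2764861886) (nat_lit 26) (nat_lit 5) (nat_lit 28) (nat_lit 5) (nat_lit 29) (nat_lit 5) (nat_lit 274) (nat_lit 255) (nat_lit 191)))) (XT.nd (nat_lit 156) (nat_lit 152) (nat_lit 0) (XT.nd (nat_lit 78) (nat_lit 228) (nat_lit 0) (XT.lf (nat_lit 0) (nat_lit 2986166728) (nat_lit 228) (nat_lit 9823333023) (nat_lit 76) (nat_lit 20663654231) (nat_lit 25) (nat_lit 5) (nat_lit 28) (nat_lit 5) (nat_lit 26) (nat_lit 5) (nat_lit 275) (nat_lit 255) (nat_lit 190)) (XT.lf (nat_lit 0) (nat_lit 9262992002) (nat_lit 304) (nat_lit 25114084803) (nat_lit 76) (nat_lit 996254712) (nat_lit 22) (nat_lit 5) (nat_lit 26) (nat_lit 5) (nat_lit 23) (nat_lit 5) (nat_lit 276) (nat_lit 255) (nat_lit 189))) (XT.nd (nat_lit 78) (nat_lit 152) (nat_lit 0) (XT.lf (nat_lit 0) (nat_lit 16417397934) (nat_lit 304) (nat_lit 5356754557) (nat_lit 76) (nat_lit 15632650363)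 (nat_lit 22) (nat_lit 5) (nat_lit 26) (nat_lit 5) (nat_lit 23) (nat_lit 5) (nat_lit 277) (nat_lit 255) (nat_lit 188)) (XT.nd (nat_lit 78) (nat_lit 0) (nat_lit 0) (XT.lf (nat_lit 0) (nat_lit 16490238611) (nat_lit 152) (nat_lit 7897970793) (nat_lit 228) (nat_lit 15202587368) (nat_lit 20) (nat_lit 5) (nat_lit 22) (nat_lit 5) (nat_lit 23) (nat_lit 5) (nat_lit 278) (nat_lit 255) (nat_lit 187)) (XT.lf (nat_lit 0) (nat_lit 33189421449) (nat_lit 228) (nat_lit 1799261557) (nat_lit 76) (nat_lit 6951234420) (nat_lit 20) (nat_lit 5) (nat_lit 23) (nat_lit 5) (nat_lit 21) (nat_lit 5) (nat_lit 279) (nat_lit 255) (nat_lit 186))))))))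
noncomputable def xc81 : XT := (XT.nd (nat_lit 1326) (nat_lit 304) (nat_lit 0) (XT.nd (nat_lit 624) (nat_lit 380) (nat_lit 0) (XT.nd (nat_lit 312) (nat_lit 304) (nat_lit 0) (XT.nd (nat_lit 156) (nat_lit 152) (nat_lit 0) (XT.nd (nat_lit 78) (nat_lit 76) (nat_lit 0) (XT.lf (nat_lit 0) (nat_lit 21752037721) (nat_lit 152) (nat_lit 21403649852) (nat_lit 228) (nat_lit 1298273051) (nat_lit 18) (nat_lit 5) (nat_lit 20) (nat_lit 5) (nat_lit 21) (nat_lit 5) (nat_lit 280) (nat_lit 255) (nat_lit 185)) (XT.lf (nat_lit 0) (nat_lit 6554509944) (nat_lit 228) (nat_lit 38567703) (nat_lit 76) (nat_lit 40569794719) (nat_lit 17) (nat_lit 5) (nat_lit 20) (nat_lit 5) (nat_lit 18) (nat_lit 5) (nat_lit 281) (nat_lit 255) (nat_lit 184))) (XT.nd (nat_lit 78) (nat_lit 0) (nat_lit 0) (XT.lf (nat_lit 0) (nat_lit 15527142544) (nat_lit 228) (nat_lit 25014617489) (nat_lit 76) (nat_lit 9518850519) (nat_lit 15) (nat_lit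 5) (nat_lit 18) (nat_lit 5) (nat_lit 16) (nat_lit 5) (nat_lit 282) (nat_lit 255) (nat_lit 183)) (XT.lf (nat_lit 0) (nat_lit 25319334892) (nat_lit 228) (nat_lit 1177954343) (nat_lit 76) (nat_lit 26687821908) (nat_lit 15) (nat_lit 5) (nat_lit 18) (nat_lit 5) (nat_lit 16) (nat_lit 5) (nat_lit 283) (nat_lit 255) (nat_lit 182)))) (XT.nd (nat_lit 156) (nat_lit 152) (nat_lit 0) (XT.nd (nat_lit 78) (nat_lit 0) (nat_lit 0) (XT.lf (nat_lit 0) (nat_lit 25363225575) (nat_lit 152) (nat_lit 10918311573) (nat_lit 228) (nat_lit 20258731429) (nat_lit 13) (nat_lit 5) (nat_lit 15) (nat_lit 5) (nat_lit 16) (nat_lit 5) (nat_lit 284) (nat_lit 255) (nat_lit 181)) (XT.lf (nat_lit 0) (nat_lit 48224846815) (nat_lit 228) (nat_lit 6199586942) (nat_lit 76) (nat_lit 5734224700) (nat_lit 13) (nat_lit 5) (nat_lit 16) (nat_lit 5) (nat_lit 14) (nat_lit 4) (nat_lit 285) (nat_lit 255) (nat_lit 180))) (XT.nd (nat_lit 78)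 (nat_lit 76) (nat_lit 0) (XT.lf (nat_lit 0) (nat_lit 21259456074) (nat_lit 76) (nat_lit 40371901496) (nat_lit 152) (nat_lit 2409799596) (nat_lit 12) (nat_lit 5) (nat_lit 13) (nat_lit 5) (nat_lit 14) (nat_lit 4) (nat_lit 286) (nat_lit 255) (nat_lit 179)) (XT.lf (nat_lit 0) (nat_lit 7725794720) (nat_lit 152) (nat_lit 17229653625) (nat_lit 76) (nat_lit 43267593227) (nat_lit 11) (nat_lit 5) (nat_lit 13) (nat_lit 5) (nat_lit 12) (nat_lit 5) (nat_lit 287) (nat_lit 255) (nat_lit 178))))) (XT.nd (nat_lit 312) (nat_lit 152) (nat_lit 0) (XT.nd (nat_lit 156) (nat_lit 76) (nat_lit 0) (XT.nd (nat_lit 78) (nat_lit 0) (nat_lit 0) (XT.lf (nat_lit 0) (nat_lit 10655229777) (nat_lit 152) (nat_lit 8092643270) (nat_lit 228) (nat_lit 53981645201) (nat_lit 9) (nat_lit 5) (nat_lit 11) (nat_lit 5) (nat_lit 12) (nat_lit 5) (nat_lit 288) (nat_lit 255) (nat_lit 177)) (XT.lf (nat_lit 0) (nat_lit 31107643054) (nat_lit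 228) (nat_lit 36369770586) (nat_lit 76) (nat_lit 10096321635) (nat_lit 9) (nat_lit 5) (nat_lit 12) (nat_lit 5) (nat_lit 10) (nat_lit 4) (nat_lit 289) (nat_lit 255) (nat_lit 176))) (XT.nd (nat_lit 78) (nat_lit 76) (nat_lit 0) (XT.lf (nat_lit 0) (nat_lit 44586065254) (nat_lit 228) (nat_lit 8756018590) (nat_lit 76) (nat_lit 29456929411) (nat_lit 9) (nat_lit 5) (nat_lit 12) (nat_lit 5) (nat_lit 10) (nat_lit 4) (nat_lit 290) (nat_lit 255) (nat_lit 175)) (XT.lf (nat_lit 0) (nat_lit 21753191384) (nat_lit 76) (nat_lit 37723099834) (nat_lit 152) (nat_lit 28949361606) (nat_lit 8) (nat_lit 5) (nat_lit 9) (nat_lit 5) (nat_lit 10) (nat_lit 4) (nat_lit 291) (nat_lit 255) (nat_lit 174)))) (XT.nd (nat_lit 156) (nat_lit 152) (nat_lit 0) (XT.nd (nat_lit 78) (nat_lit 0) (nat_lit 0) (XT.lf (nat_lit 0) (nat_lit 55006361977) (nat_lit 76) (nat_lit 20698103357) (nat_lit 152) (nat_lit 18790636397) (nat_lit 8)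 (nat_lit 5) (nat_lit 9) (nat_lit 5) (nat_lit 10) (nat_lit 4) (nat_lit 292) (nat_lit 255) (nat_lit 173)) (XT.lf (nat_lit 0) (nat_lit 90911035498) (nat_lit 76) (nat_lit 2314492956) (nat_lit 152) (nat_lit 7824859933) (nat_lit 8) (nat_lit 5) (nat_lit 9) (nat_lit 5) (nat_lit 10) (nat_lit 4) (nat_lit 293) (nat_lit 255) (nat_lit 172))) (XT.nd (nat_lit 78) (nat_lit 0) (nat_lit 0) (XT.lf (nat_lit 0) (nat_lit 4511579765) (nat_lit 152) (nat_lit 86192978886) (nat_lit 76) (nat_lit 17391314162) (nat_lit 6) (nat_lit 5) (nat_lit 8) (nat_lit 5) (nat_lit 7) (nat_lit 4) (nat_lit 294) (nat_lit 255) (nat_lit 171)) (XT.nd (nat_lit 78) (nat_lit 0) (nat_lit 0) (XT.lf (nat_lit 0) (nat_lit 17778139184) (nat_lit 152) (nat_lit 59007559800) (nat_lit 76) (nat_lit 38902026806) (nat_lit 6) (nat_lit 5) (nat_lit 8) (nat_lit 5) (nat_lit 7) (nat_lit 4) (nat_lit 295) (nat_lit 255) (nat_lit 170)) (XT.lf (nat_lit 0) (nat_lit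 32101524737) (nat_lit 152) (nat_lit 29654830274) (nat_lit 76) (nat_lit 62130807203) (nat_lit 6) (nat_lit 5) (nat_lit 8) (nat_lit 5) (nat_lit 7) (nat_lit 4) (nat_lit 296) (nat_lit 255) (nat_lit 169))))))) (XT.nd (nat_lit 702) (nat_lit 76) (nat_lit 0) (XT.nd (nat_lit 312) (nat_lit 152) (nat_lit 0) (XT.nd (nat_lit 156) (nat_lit 0) (nat_lit 0) (XT.nd (nat_lit 78) (nat_lit 0) (nat_lit 0) (XT.lf (nat_lit 0) (nat_lit 2106575360) (nat_lit 76) (nat_lit 45492929928) (nat_lit 152) (nat_lit 85141621566) (nat_lit 5) (nat_lit 5) (nat_lit 6) (nat_lit 5) (nat_lit 7) (nat_lit 4) (nat_lit 297) (nat_lit 255) (nat_lit 168)) (XT.lf (nat_lit 0) (nat_lit 37461194775) (nat_lit 76) (nat_lit 27388736649) (nat_lit 152) (nat_lit 77427855695) (nat_lit 5) (nat_lit 5) (nat_lit 6) (nat_lit 5) (nat_lit 7) (nat_lit 4) (nat_lit 298) (nat_lit 255) (nat_lit 167))) (XT.nd (nat_lit 78) (nat_lit 0) (nat_lit 0) (XT.lf (nat_lit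 0) (nat_lit 75638014211) (nat_lit 76) (nat_lit 7838709966) (nat_lit 152) (nat_lit 69100847557) (nat_lit 5) (nat_lit 5) (nat_lit 6) (nat_lit 5) (nat_lit 7) (nat_lit 4) (nat_lit 299) (nat_lit 255) (nat_lit 166)) (XT.lf (nat_lit 0) (nat_lit 103797493302) (nat_lit 152) (nat_lit 47045478549) (nat_lit 0) (nat_lit 12848183171) (nat_lit 5) (nat_lit 5) (nat_lit 7) (nat_lit 4) (nat_lit 5) (nat_lit 4) (nat_lit 300) (nat_lit 255) (nat_lit 165)))) (XT.nd (nat_lit 156) (nat_lit 76) (nat_lit 0) (XT.nd (nat_lit 78) (nat_lit 76) (nat_lit 0) (XT.lf (nat_lit 0) (nat_lit 125872921166) (nat_lit 152) (nat_lit 14897468320) (nat_lit 0) (nat_lit 34916992619) (nat_lit 5) (nat_lit 5) (nat_lit 7) (nat_lit 4) (nat_lit 5) (nat_lit 4) (nat_lit 301) (nat_lit 255) (nat_lit 164)) (XT.lf (nat_lit 0) (nat_lit 20472615677) (nat_lit 76) (nat_lit 129558460118) (nat_lit 76) (nat_lit 38596403408) (nat_lit 4) (nat_lit 4) (nat_lit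 5) (nat_lit 5) (nat_lit 5) (nat_lit 4) (nat_lit 302) (nat_lit 255) (nat_lit 163))) (XT.nd (nat_lit 78) (nat_lit 76) (nat_lit 0) (XT.lf (nat_lit 0) (nat_lit 59199489680) (nat_lit 76) (nat_lit 117179098036) (nat_lit 76) (nat_lit 26211367101) (nat_lit 4) (nat_lit 4) (nat_lit 5) (nat_lit 5) (nat_lit 5) (nat_lit 4) (nat_lit 303) (nat_lit 255) (nat_lit 162)) (XT.nd (nat_lit 78) (nat_lit 76) (nat_lit 0) (XT.lf (nat_lit 0) (nat_lit 101020068694) (nat_lit 76) (nat_lit 103811239893) (nat_lit 76) (nat_lit 12838255045) (nat_lit 4) (nat_lit 4) (nat_lit 5) (nat_lit 5) (nat_lit 5) (nat_lit 4) (nat_lit 304) (nat_lit 255) (nat_lit 161)) (XT.lf (nat_lit 0) (nat_lit 1550901037) (nat_lit 152) (nat_lit 87798502454) (nat_lit 76) (nat_lit 144605012074) (nat_lit 3) (nat_lit 5) (nat_lit 5) (nat_lit 5) (nat_lit 4) (nat_lit 4) (nat_lit 305) (nat_lit 255) (nat_lit 160)))))) (XT.nd (nat_lit 312) (nat_lit 0) (nat_lit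 0) (XT.nd (nat_lit 156) (nat_lit 76) (nat_lit 0) (XT.nd (nat_lit 78) (nat_lit 0) (nat_lit 0) (XT.lf (nat_lit 0) (nat_lit 16645149659) (nat_lit 152) (nat_lit 56859797162) (nat_lit 76) (nat_lit 178026402705) (nat_lit 3) (nat_lit 5) (nat_lit 5) (nat_lit 5) (nat_lit 4) (nat_lit 4) (nat_lit 306) (nat_lit 255) (nat_lit 159)) (XT.lf (nat_lit 0) (nat_lit 32944842557) (nat_lit 152) (nat_lit 23449597447) (nat_lit 76) (nat_lit 214120107178) (nat_lit 3) (nat_lit 5) (nat_lit 5) (nat_lit 5) (nat_lit 4) (nat_lit 4) (nat_lit 307) (nat_lit 255) (nat_lit 158))) (XT.nd (nat_lit 78) (nat_lit 0) (nat_lit 0) (XT.lf (nat_lit 0) (nat_lit 13047690645) (nat_lit 76) (nat_lit 37702590875) (nat_lit 152) (nat_lit 240256034484) (nat_lit 2) (nat_lit 5) (nat_lit 3) (nat_lit 5) (nat_lit 4) (nat_lit 4) (nat_lit 308) (nat_lit 255) (nat_lit 157)) (XT.lf (nat_lit 0) (nat_lit 53298949103) (nat_lit 76) (nat_lit 17087836896)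 (nat_lit 152) (nat_lit 242730312410) (nat_lit 2) (nat_lit 5) (nat_lit 3) (nat_lit 5) (nat_lit 4) (nat_lit 4) (nat_lit 309) (nat_lit 255) (nat_lit 156)))) (XT.nd (nat_lit 156) (nat_lit 0) (nat_lit 0) (XT.nd (nat_lit 78) (nat_lit 0) (nat_lit 0) (XT.lf (nat_lit 0) (nat_lit 91673295113) (nat_lit 152) (nat_lit 240310271874) (nat_lit 0) (nat_lit 5009225539) (nat_lit 2) (nat_lit 5) (nat_lit 4) (nat_lit 4) (nat_lit 2) (nat_lit 4) (nat_lit 310) (nat_lit 255) (nat_lit 155)) (XT.lf (nat_lit 0) (nat_lit 114949256070) (nat_lit 152) (nat_lit 219532695758) (nat_lit 0) (nat_lit 28282266870) (nat_lit 2) (nat_lit 5) (nat_lit 4) (nat_lit 4) (nat_lit 2) (nat_lit 4) (nat_lit 311) (nat_lit 255) (nat_lit 154))) (XT.nd (nat_lit 78) (nat_lit 0) (nat_lit 0) (XT.lf (nat_lit 0) (nat_lit 140085811470) (nat_lit 152) (nat_lit 197095505561) (nat_lit 0) (nat_lit 53416118913) (nat_lit 2) (nat_lit 5) (nat_lit 4) (nat_lit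 4) (nat_lit 2) (nat_lit 4) (nat_lit 312) (nat_lit 255) (nat_lit 153)) (XT.nd (nat_lit 78) (nat_lit 0) (nat_lit 0) (XT.lf (nat_lit 0) (nat_lit 167231918678) (nat_lit 152) (nat_lit 172865740154) (nat_lit 0) (nat_lit 80559723012) (nat_lit 2) (nat_lit 5) (nat_lit 4) (nat_lit 4) (nat_lit 2) (nat_lit 4) (nat_lit 313) (nat_lit 255) (nat_lit 152)) (XT.lf (nat_lit 0) (nat_lit 196548443515) (nat_lit 152) (nat_lit 146699815744) (nat_lit 0) (nat_lit 109873930155) (nat_lit 2) (nat_lit 5) (nat_lit 4) (nat_lit 4) (nat_lit 2) (nat_lit 4) (nat_lit 314) (nat_lit 255) (nat_lit 151))))))))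
noncomputable def xc82 : XT := (XT.nd (nat_lit 33852) (nat_lit 0) (nat_lit 912) (XT.nd (nat_lit 33150) (nat_lit 0) (nat_lit 3116) (XT.nd (nat_lit 312) (nat_lit 76) (nat_lit 0) (XT.nd (nat_lit 156) (nat_lit 0) (nat_lit 0) (XT.nd (nat_lit 78) (nat_lit 0) (nat_lit 0) (XT.lf (nat_lit 0) (nat_lit 228209113534) (nat_lit 152) (nat_lit 118442675000) (nat_lit 0) (nat_lit 141532454162) (nat_lit 2) (nat_lit 5) (nat_lit 4) (nat_lit 4) (nat_lit 2) (nat_lit 4) (nat_lit 315) (nat_lit 255) (nat_lit 150)) (XT.lf (nat_lit 0) (nat_lit 262401547522) (nat_lit 152) (nat_lit 87926868199) (nat_lit 0) (nat_lit 175722901101) (nat_lit 2) (nat_lit 5) (nat_lit 4) (nat_lit 4) (nat_lit 2) (nat_lit 4) (nat_lit 316) (nat_lit 255) (nat_lit 149))) (XT.nd (nat_lit 78) (nat_lit 0) (nat_lit 0) (XT.lf (nat_lit 0) (nat_lit 299328367309) (nat_lit 152) (nat_lit 54971560931) (nat_lit 0) (nat_lit 212647881029) (nat_lit 2) (nat_lit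 5) (nat_lit 4) (nat_lit 4) (nat_lit 2) (nat_lit 4) (nat_lit 317) (nat_lit 255) (nat_lit 148)) (XT.lf (nat_lit 0) (nat_lit 339208398493) (nat_lit 152) (nat_lit 19381462485) (nat_lit 0) (nat_lit 252526208640) (nat_lit 2) (nat_lit 5) (nat_lit 4) (nat_lit 4) (nat_lit 2) (nat_lit 4) (nat_lit 318) (nat_lit 255) (nat_lit 147)))) (XT.nd (nat_lit 32682) (nat_lit 0) (nat_lit 4788) (XT.nd (nat_lit 32604) (nat_lit 0) (nat_lit 4788) (XT.lf (nat_lit 0) (nat_lit 19684353673) (nat_lit 76) (nat_lit 362900941440) (nat_lit 76) (nat_lit 276217174203) (nat_lit 1) (nat_lit 4) (nat_lit 2) (nat_lit 5) (nat_lit 2) (nat_lit 4) (nat_lit 319) (nat_lit 255) (nat_lit 146)) (XT.lf (nat_lit 0) (nat_lit 5223219201) (nat_lit 684) (nat_lit 975312355) (nat_lit 684) (nat_lit 975312355) (nat_lit 64) (nat_lit 3) (nat_lit 73) (nat_lit 3) (nat_lit 73) (nat_lit 5) (nat_lit 256) (nat_lit 256) (nat_lit 208))) (XT.nd (nat_lit 78)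 (nat_lit 0) (nat_lit 76) (XT.lf (nat_lit 76) (nat_lit 7456698812) (nat_lit 0) (nat_lit 3964570847) (nat_lit 684) (nat_lit 3470103699) (nat_lit 65) (nat_lit 5) (nat_lit 64) (nat_lit 3) (nat_lit 73) (nat_lit 5) (nat_lit 257) (nat_lit 256) (nat_lit 207)) (XT.lf (nat_lit 76) (nat_lit 2171250104) (nat_lit 0) (nat_lit 10407428587) (nat_lit 684) (nat_lit 2894882923) (nat_lit 66) (nat_lit 5) (nat_lit 65) (nat_lit 5) (nat_lit 74) (nat_lit 5) (nat_lit 258) (nat_lit 256) (nat_lit 206))))) (XT.nd (nat_lit 312) (nat_lit 1216) (nat_lit 0) (XT.nd (nat_lit 156) (nat_lit 532) (nat_lit 0) (XT.nd (nat_lit 78) (nat_lit 0) (nat_lit 76) (XT.lf (nat_lit 76) (nat_lit 12716436420) (nat_lit 0) (nat_lit 1266258861) (nat_lit 684) (nat_lit 2112148763) (nat_lit 66) (nat_lit 5) (nat_lit 65) (nat_lit 5) (nat_lit 74) (nat_lit 5) (nat_lit 259) (nat_lit 256) (nat_lit 205)) (XT.lf (nat_lit 76) (nat_lit 7416328162) (nat_lit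 0) (nat_lit 8294880029) (nat_lit 684) (nat_lit 1044215696) (nat_lit 67) (nat_lit 5) (nat_lit 66) (nat_lit 5) (nat_lit 75) (nat_lit 5) (nat_lit 260) (nat_lit 256) (nat_lit 204))) (XT.nd (nat_lit 78) (nat_lit 0) (nat_lit 0) (XT.lf (nat_lit 0) (nat_lit 201890875) (nat_lit 684) (nat_lit 15755113136) (nat_lit 760) (nat_lit 1507128793) (nat_lit 58) (nat_lit 5) (nat_lit 67) (nat_lit 5) (nat_lit 68) (nat_lit 5) (nat_lit 261) (nat_lit 256) (nat_lit 203)) (XT.lf (nat_lit 0) (nat_lit 1782917928) (nat_lit 684) (nat_lit 4434255672) (nat_lit 760) (nat_lit 11998084328) (nat_lit 58) (nat_lit 5) (nat_lit 67) (nat_lit 5) (nat_lit 68) (nat_lit 5) (nat_lit 262) (nat_lit 256) (nat_lit 202)))) (XT.nd (nat_lit 156) (nat_lit 608) (nat_lit 0) (XT.nd (nat_lit 78) (nat_lit 684) (nat_lit 0) (XT.lf (nat_lit 0) (nat_lit 3653639734) (nat_lit 684) (nat_lit 11067337256) (nat_lit 76) (nat_lit 4297489347) (nat_lit 59)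 (nat_lit 5) (nat_lit 68) (nat_lit 5) (nat_lit 60) (nat_lit 5) (nat_lit 263) (nat_lit 256) (nat_lit 201)) (XT.lf (nat_lit 0) (nat_lit 1520404654) (nat_lit 684) (nat_lit 4331347724) (nat_lit 760) (nat_lit 14025434891) (nat_lit 50) (nat_lit 5) (nat_lit 59) (nat_lit 5) (nat_lit 60) (nat_lit 5) (nat_lit 264) (nat_lit 256) (nat_lit 200))) (XT.nd (nat_lit 78) (nat_lit 608) (nat_lit 0) (XT.lf (nat_lit 0) (nat_lit 8501712259) (nat_lit 760) (nat_lit 5421528130) (nat_lit 76) (nat_lit 6867697524) (nat_lit 50) (nat_lit 5) (nat_lit 60) (nat_lit 5) (nat_lit 51) (nat_lit 5) (nat_lit 265) (nat_lit 256) (nat_lit 199)) (XT.nd (nat_lit 78) (nat_lit 304) (nat_lit 0) (XT.lf (nat_lit 0) (nat_lit 8730675805) (nat_lit 304) (nat_lit 2816864055) (nat_lit 380) (nat_lit 10221177375) (nat_lit 46) (nat_lit 5) (nat_lit 50) (nat_lit 5) (nat_lit 51) (nat_lit 5) (nat_lit 266) (nat_lit 256) (nat_lit 198)) (XT.lf (nat_lit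 0) (nat_lit 1259592348) (nat_lit 304) (nat_lit 13812451508) (nat_lit 380) (nat_lit 7741037663) (nat_lit 42) (nat_lit 5) (nat_lit 46) (nat_lit 5) (nat_lit 47) (nat_lit 5) (nat_lit 267) (nat_lit 256) (nat_lit 197))))))) (XT.nd (nat_lit 702) (nat_lit 912) (nat_lit 0) (XT.nd (nat_lit 312) (nat_lit 684) (nat_lit 0) (XT.nd (nat_lit 156) (nat_lit 380) (nat_lit 0) (XT.nd (nat_lit 78) (nat_lit 228) (nat_lit 0) (XT.lf (nat_lit 0) (nat_lit 17094079817) (nat_lit 304) (nat_lit 2035742764) (nat_lit 380) (nat_lit 4798711390) (nat_lit 42) (nat_lit 5) (nat_lit 46) (nat_lit 5) (nat_lit 47) (nat_lit 5) (nat_lit 268) (nat_lit 256) (nat_lit 196)) (XT.lf (nat_lit 0) (nat_lit 9165812711) (nat_lit 228) (nat_lit 14635432204) (nat_lit 304) (nat_lit 1317623624) (nat_lit 39) (nat_lit 5) (nat_lit 42) (nat_lit 5) (nat_lit 43) (nat_lit 5) (nat_lit 269) (nat_lit 256) (nat_lit 195))) (XT.nd (nat_lit 78) (nat_lit 0)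 (nat_lit 0) (XT.lf (nat_lit 0) (nat_lit 201095404) (nat_lit 304) (nat_lit 2301087188) (nat_lit 380) (nat_lit 23893507066) (nat_lit 34) (nat_lit 5) (nat_lit 38) (nat_lit 5) (nat_lit 39) (nat_lit 5) (nat_lit 270) (nat_lit 256) (nat_lit 194)) (XT.lf (nat_lit 0) (nat_lit 7017555181) (nat_lit 380) (nat_lit 9764948569) (nat_lit 76) (nat_lit 10969344638) (nat_lit 34) (nat_lit 5) (nat_lit 39) (nat_lit 5) (nat_lit 35) (nat_lit 5) (nat_lit 271) (nat_lit 256) (nat_lit 193)))) (XT.nd (nat_lit 156) (nat_lit 456) (nat_lit 0) (XT.nd (nat_lit 78) (nat_lit 0) (nat_lit 0) (XT.lf (nat_lit 0) (nat_lit 8181174700) (nat_lit 228) (nat_lit 3861946992) (nat_lit 304) (nat_lit 17166003243) (nat_lit 31) (nat_lit 5) (nat_lit 34) (nat_lit 5) (nat_lit 35) (nat_lit 5) (nat_lit 272) (nat_lit 256) (nat_lit 192)) (XT.lf (nat_lit 0) (nat_lit 17784556653) (nat_lit 304) (nat_lit 3044019563) (nat_lit 76) (nat_lit 9938784126)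 (nat_lit 31) (nat_lit 5) (nat_lit 35) (nat_lit 5) (nat_lit 32) (nat_lit 5) (nat_lit 273) (nat_lit 256) (nat_lit 191))) (XT.nd (nat_lit 78) (nat_lit 228) (nat_lit 0) (XT.lf (nat_lit 0) (nat_lit 16832936445) (nat_lit 228) (nat_lit 7464897964) (nat_lit 304) (nat_lit 8136856637) (nat_lit 28) (nat_lit 5) (nat_lit 31) (nat_lit 5) (nat_lit 32) (nat_lit 5) (nat_lit 274) (nat_lit 256) (nat_lit 190)) (XT.nd (nat_lit 78) (nat_lit 76) (nat_lit 0) (XT.lf (nat_lit 0) (nat_lit 4180938926) (nat_lit 152) (nat_lit 27364583628) (nat_lit 228) (nat_lit 2679276451) (nat_lit 26) (nat_lit 5) (nat_lit 28) (nat_lit 5) (nat_lit 29) (nat_lit 5) (nat_lit 275) (nat_lit 256) (nat_lit 189)) (XT.lf (nat_lit 0) (nat_lit 3500019037) (nat_lit 228) (nat_lit 10240561481) (nat_lit 76) (nat_lit 22395676419) (nat_lit 25) (nat_lit 5) (nat_lit 28) (nat_lit 5) (nat_lit 26) (nat_lit 5) (nat_lit 276) (nat_lit 256) (nat_lit 188))))))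 (XT.nd (nat_lit 312) (nat_lit 532) (nat_lit 0) (XT.nd (nat_lit 156) (nat_lit 152) (nat_lit 0) (XT.nd (nat_lit 78) (nat_lit 0) (nat_lit 0) (XT.lf (nat_lit 0) (nat_lit 10265572858) (nat_lit 304) (nat_lit 26758106392) (nat_lit 76) (nat_lit 1165514479) (nat_lit 22) (nat_lit 5) (nat_lit 26) (nat_lit 5) (nat_lit 23) (nat_lit 5) (nat_lit 277) (nat_lit 256) (nat_lit 187)) (XT.lf (nat_lit 0) (nat_lit 17972957820) (nat_lit 304) (nat_lit 5447234556) (nat_lit 76) (nat_lit 16966187754) (nat_lit 22) (nat_lit 5) (nat_lit 26) (nat_lit 5) (nat_lit 23) (nat_lit 5) (nat_lit 278) (nat_lit 256) (nat_lit 186))) (XT.nd (nat_lit 78) (nat_lit 0) (nat_lit 0) (XT.lf (nat_lit 0) (nat_lit 18132826375) (nat_lit 152) (nat_lit 8435718150) (nat_lit 228) (nat_lit 16177257116) (nat_lit 20) (nat_lit 5) (nat_lit 22) (nat_lit 5) (nat_lit 23) (nat_lit 5) (nat_lit 279) (nat_lit 256) (nat_lit 185)) (XT.lf (nat_lit 0) (nat_lit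 36058230148) (nat_lit 228) (nat_lit 1633796431) (nat_lit 76) (nat_lit 7591665423) (nat_lit 20) (nat_lit 5) (nat_lit 23) (nat_lit 5) (nat_lit 21) (nat_lit 5) (nat_lit 280) (nat_lit 256) (nat_lit 184)))) (XT.nd (nat_lit 156) (nat_lit 152) (nat_lit 0) (XT.nd (nat_lit 78) (nat_lit 228) (nat_lit 0) (XT.lf (nat_lit 0) (nat_lit 23788160380) (nat_lit 152) (nat_lit 23022431648) (nat_lit 228) (nat_lit 1188881429) (nat_lit 18) (nat_lit 5) (nat_lit 20) (nat_lit 5) (nat_lit 21) (nat_lit 5) (nat_lit 281) (nat_lit 256) (nat_lit 183)) (XT.lf (nat_lit 0) (nat_lit 247216934) (nat_lit 152) (nat_lit 7026650612) (nat_lit 228) (nat_lit 43651683758) (nat_lit 15) (nat_lit 5) (nat_lit 17) (nat_lit 5) (nat_lit 18) (nat_lit 5) (nat_lit 282) (nat_lit 256) (nat_lit 182))) (XT.nd (nat_lit 78) (nat_lit 152) (nat_lit 0) (XT.lf (nat_lit 0) (nat_lit 16951855864) (nat_lit 228) (nat_lit 26738791427) (nat_lit 76) (nat_lit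 10365128519) (nat_lit 15) (nat_lit 5) (nat_lit 18) (nat_lit 5) (nat_lit 16) (nat_lit 5) (nat_lit 283) (nat_lit 256) (nat_lit 181)) (XT.nd (nat_lit 78) (nat_lit 152) (nat_lit 0) (XT.lf (nat_lit 0) (nat_lit 27513901976) (nat_lit 228) (nat_lit 1015713411) (nat_lit 76) (nat_lit 28901338363) (nat_lit 15) (nat_lit 5) (nat_lit 18) (nat_lit 5) (nat_lit 16) (nat_lit 5) (nat_lit 284) (nat_lit 256) (nat_lit 180)) (XT.lf (nat_lit 0) (nat_lit 27637614710) (nat_lit 152) (nat_lit 11706775987) (nat_lit 228) (nat_lit 21710605736) (nat_lit 13) (nat_lit 5) (nat_lit 15) (nat_lit 5) (nat_lit 16) (nat_lit 5) (nat_lit 285) (nat_lit 256) (nat_lit 179))))))))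
noncomputable def xc83 : XT := (XT.nd (nat_lit 1326) (nat_lit 228) (nat_lit 0) (XT.nd (nat_lit 624) (nat_lit 228) (nat_lit 0) (XT.nd (nat_lit 312) (nat_lit 76) (nat_lit 0) (XT.nd (nat_lit 156) (nat_lit 228) (nat_lit 0) (XT.nd (nat_lit 78) (nat_lit 76) (nat_lit 0) (XT.lf (nat_lit 0) (nat_lit 52232517591) (nat_lit 228) (nat_lit 6461759802) (nat_lit 76) (nat_lit 6269147829) (nat_lit 13) (nat_lit 5) (nat_lit 16) (nat_lit 5) (nat_lit 14) (nat_lit 4) (nat_lit 286) (nat_lit 256) (nat_lit 178)) (XT.lf (nat_lit 0) (nat_lit 23183846249) (nat_lit 76) (nat_lit 43520106874) (nat_lit 152) (nat_lit 2452983231) (nat_lit 12) (nat_lit 5) (nat_lit 13) (nat_lit 5) (nat_lit 14) (nat_lit 4) (nat_lit 287) (nat_lit 256) (nat_lit 177))) (XT.nd (nat_lit 78) (nat_lit 152) (nat_lit 0) (XT.lf (nat_lit 0) (nat_lit 8477943657) (nat_lit 152) (nat_lit 18396163514) (nat_lit 76) (nat_lit 46799712756) (nat_lit 11) (nat_lit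 5) (nat_lit 13) (nat_lit 5) (nat_lit 12) (nat_lit 5) (nat_lit 288) (nat_lit 256) (nat_lit 176)) (XT.lf (nat_lit 0) (nat_lit 11710303279) (nat_lit 152) (nat_lit 8664716736) (nat_lit 228) (nat_lit 58166159852) (nat_lit 9) (nat_lit 5) (nat_lit 11) (nat_lit 5) (nat_lit 12) (nat_lit 5) (nat_lit 289) (nat_lit 256) (nat_lit 175)))) (XT.nd (nat_lit 156) (nat_lit 76) (nat_lit 0) (XT.nd (nat_lit 78) (nat_lit 0) (nat_lit 0) (XT.lf (nat_lit 0) (nat_lit 33715229833) (nat_lit 228) (nat_lit 39086594157) (nat_lit 76) (nat_lit 10971552096) (nat_lit 9) (nat_lit 5) (nat_lit 12) (nat_lit 5) (nat_lit 10) (nat_lit 4) (nat_lit 290) (nat_lit 256) (nat_lit 174)) (XT.lf (nat_lit 0) (nat_lit 48263112821) (nat_lit 228) (nat_lit 9278020376) (nat_lit 76) (nat_lit 31876006663) (nat_lit 9) (nat_lit 5) (nat_lit 12) (nat_lit 5) (nat_lit 10) (nat_lit 4) (nat_lit 291) (nat_lit 256) (nat_lit 173))) (XT.nd (nat_lit 78) (nat_lit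 0) (nat_lit 0) (XT.lf (nat_lit 0) (nat_lit 23664169885) (nat_lit 76) (nat_lit 40674892271) (nat_lit 152) (nat_lit 31155144384) (nat_lit 8) (nat_lit 5) (nat_lit 9) (nat_lit 5) (nat_lit 10) (nat_lit 4) (nat_lit 292) (nat_lit 256) (nat_lit 172)) (XT.lf (nat_lit 0) (nat_lit 59564947964) (nat_lit 76) (nat_lit 22292789080) (nat_lit 152) (nat_lit 20191881614) (nat_lit 8) (nat_lit 5) (nat_lit 9) (nat_lit 5) (nat_lit 10) (nat_lit 4) (nat_lit 293) (nat_lit 256) (nat_lit 171))))) (XT.nd (nat_lit 312) (nat_lit 76) (nat_lit 0) (XT.nd (nat_lit 156) (nat_lit 0) (nat_lit 0) (XT.nd (nat_lit 78) (nat_lit 152) (nat_lit 0) (XT.lf (nat_lit 0) (nat_lit 98330285956) (nat_lit 76) (nat_lit 2443020406) (nat_lit 152) (nat_lit 8356399011) (nat_lit 8) (nat_lit 5) (nat_lit 9) (nat_lit 5) (nat_lit 10) (nat_lit 4) (nat_lit 294) (nat_lit 256) (nat_lit 170)) (XT.lf (nat_lit 0) (nat_lit 4960272507) (nat_lit 152) (nat_lit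 92941644681) (nat_lit 76) (nat_lit 18837036687) (nat_lit 6) (nat_lit 5) (nat_lit 8) (nat_lit 5) (nat_lit 7) (nat_lit 4) (nat_lit 295) (nat_lit 256) (nat_lit 169))) (XT.nd (nat_lit 78) (nat_lit 0) (nat_lit 0) (XT.lf (nat_lit 0) (nat_lit 19281655468) (nat_lit 152) (nat_lit 63592264107) (nat_lit 76) (nat_lit 42064575425) (nat_lit 6) (nat_lit 5) (nat_lit 8) (nat_lit 5) (nat_lit 7) (nat_lit 4) (nat_lit 296) (nat_lit 256) (nat_lit 168)) (XT.lf (nat_lit 0) (nat_lit 34744892224) (nat_lit 152) (nat_lit 31901382920) (nat_lit 76) (nat_lit 67147925922) (nat_lit 6) (nat_lit 5) (nat_lit 8) (nat_lit 5) (nat_lit 7) (nat_lit 4) (nat_lit 297) (nat_lit 256) (nat_lit 167)))) (XT.nd (nat_lit 156) (nat_lit 0) (nat_lit 0) (XT.nd (nat_lit 78) (nat_lit 0) (nat_lit 0) (XT.lf (nat_lit 0) (nat_lit 2395466582) (nat_lit 76) (nat_lit 49083550134) (nat_lit 152) (nat_lit 91877663617) (nat_lit 5) (nat_lit 5) (nat_lit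 6) (nat_lit 5) (nat_lit 7) (nat_lit 4) (nat_lit 298) (nat_lit 256) (nat_lit 166)) (XT.lf (nat_lit 0) (nat_lit 40569539610) (nat_lit 76) (nat_lit 29534637259) (nat_lit 152) (nat_lit 83552373341) (nat_lit 5) (nat_lit 5) (nat_lit 6) (nat_lit 5) (nat_lit 7) (nat_lit 4) (nat_lit 299) (nat_lit 256) (nat_lit 165))) (XT.nd (nat_lit 78) (nat_lit 0) (nat_lit 0) (XT.lf (nat_lit 0) (nat_lit 81792249100) (nat_lit 76) (nat_lit 8423956465) (nat_lit 152) (nat_lit 74564368316) (nat_lit 5) (nat_lit 5) (nat_lit 6) (nat_lit 5) (nat_lit 7) (nat_lit 4) (nat_lit 300) (nat_lit 256) (nat_lit 164)) (XT.nd (nat_lit 78) (nat_lit 0) (nat_lit 0) (XT.lf (nat_lit 0) (nat_lit 112158697261) (nat_lit 152) (nat_lit 50711205774) (nat_lit 0) (nat_lit 13913547850) (nat_lit 5) (nat_lit 5) (nat_lit 7) (nat_lit 4) (nat_lit 5) (nat_lit 4) (nat_lit 301) (nat_lit 256) (nat_lit 163)) (XT.lf (nat_lit 0) (nat_lit 135995907170) (nat_lit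 152) (nat_lit 15998607397) (nat_lit 0) (nat_lit 37745083534) (nat_lit 5) (nat_lit 5) (nat_lit 7) (nat_lit 4) (nat_lit 5) (nat_lit 4) (nat_lit 302) (nat_lit 256) (nat_lit 162))))))) (XT.nd (nat_lit 702) (nat_lit 0) (nat_lit 0) (XT.nd (nat_lit 312) (nat_lit 76) (nat_lit 0) (XT.nd (nat_lit 156) (nat_lit 76) (nat_lit 0) (XT.nd (nat_lit 78) (nat_lit 0) (nat_lit 0) (XT.lf (nat_lit 0) (nat_lit 22197143417) (nat_lit 76) (nat_lit 139886987463) (nat_lit 76) (nat_lit 41630909915) (nat_lit 4) (nat_lit 4) (nat_lit 5) (nat_lit 5) (nat_lit 5) (nat_lit 4) (nat_lit 303) (nat_lit 256) (nat_lit 161)) (XT.lf (nat_lit 0) (nat_lit 64015743749) (nat_lit 76) (nat_lit 126519954153) (nat_lit 76) (nat_lit 28259011871) (nat_lit 4) (nat_lit 4) (nat_lit 5) (nat_lit 5) (nat_lit 5) (nat_lit 4) (nat_lit 304) (nat_lit 256) (nat_lit 160))) (XT.nd (nat_lit 78) (nat_lit 76) (nat_lit 0) (XT.lf (nat_lit 0) (nat_lit 109176021313)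 (nat_lit 76) (nat_lit 112085146745) (nat_lit 76) (nat_lit 13819700080) (nat_lit 4) (nat_lit 4) (nat_lit 5) (nat_lit 5) (nat_lit 5) (nat_lit 4) (nat_lit 305) (nat_lit 256) (nat_lit 159)) (XT.lf (nat_lit 0) (nat_lit 1715857742) (nat_lit 152) (nat_lit 94752109017) (nat_lit 76) (nat_lit 156200675946) (nat_lit 3) (nat_lit 5) (nat_lit 5) (nat_lit 5) (nat_lit 4) (nat_lit 4) (nat_lit 306) (nat_lit 256) (nat_lit 158)))) (XT.nd (nat_lit 156) (nat_lit 76) (nat_lit 0) (XT.nd (nat_lit 78) (nat_lit 0) (nat_lit 0) (XT.lf (nat_lit 0) (nat_lit 18014617763) (nat_lit 152) (nat_lit 61343512756) (nat_lit 76) (nat_lit 192293758354) (nat_lit 3) (nat_lit 5) (nat_lit 5) (nat_lit 5) (nat_lit 4) (nat_lit 4) (nat_lit 307) (nat_lit 256) (nat_lit 157)) (XT.lf (nat_lit 0) (nat_lit 35615481935) (nat_lit 152) (nat_lit 25265316928) (nat_lit 76) (nat_lit 231273089301) (nat_lit 3) (nat_lit 5) (nat_lit 5) (nat_lit 5) (nat_lit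 4) (nat_lit 4) (nat_lit 308) (nat_lit 256) (nat_lit 156))) (XT.nd (nat_lit 78) (nat_lit 0) (nat_lit 0) (XT.lf (nat_lit 0) (nat_lit 14149135892) (nat_lit 76) (nat_lit 40694523446) (nat_lit 152) (nat_lit 259441429187) (nat_lit 2) (nat_lit 5) (nat_lit 3) (nat_lit 5) (nat_lit 4) (nat_lit 4) (nat_lit 309) (nat_lit 256) (nat_lit 155)) (XT.nd (nat_lit 78) (nat_lit 0) (nat_lit 0) (XT.lf (nat_lit 0) (nat_lit 57616226138) (nat_lit 76) (nat_lit 18432387275) (nat_lit 152) (nat_lit 262116248463) (nat_lit 2) (nat_lit 5) (nat_lit 3) (nat_lit 5) (nat_lit 4) (nat_lit 4) (nat_lit 310) (nat_lit 256) (nat_lit 154)) (XT.lf (nat_lit 0) (nat_lit 99036080440) (nat_lit 152) (nat_lit 259484524558) (nat_lit 0) (nat_lit 5430109121) (nat_lit 2) (nat_lit 5) (nat_lit 4) (nat_lit 4) (nat_lit 2) (nat_lit 4) (nat_lit 311) (nat_lit 256) (nat_lit 153)))))) (XT.nd (nat_lit 312) (nat_lit 0) (nat_lit 0) (XT.nd (nat_lit 156)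 (nat_lit 0) (nat_lit 0) (XT.nd (nat_lit 78) (nat_lit 0) (nat_lit 0) (XT.lf (nat_lit 0) (nat_lit 124171975925) (nat_lit 152) (nat_lit 237048488210) (nat_lit 0) (nat_lit 30563501497) (nat_lit 2) (nat_lit 5) (nat_lit 4) (nat_lit 4) (nat_lit 2) (nat_lit 4) (nat_lit 312) (nat_lit 256) (nat_lit 152)) (XT.lf (nat_lit 0) (nat_lit 151317472100) (nat_lit 152) (nat_lit 212819791183) (nat_lit 0) (nat_lit 57706679979) (nat_lit 2) (nat_lit 5) (nat_lit 4) (nat_lit 4) (nat_lit 2) (nat_lit 4) (nat_lit 313) (nat_lit 256) (nat_lit 151))) (XT.nd (nat_lit 78) (nat_lit 0) (nat_lit 0) (XT.lf (nat_lit 0) (nat_lit 180633431166) (nat_lit 152) (nat_lit 186654856012) (nat_lit 0) (nat_lit 87020493032) (nat_lit 2) (nat_lit 5) (nat_lit 4) (nat_lit 4) (nat_lit 2) (nat_lit 4) (nat_lit 314) (nat_lit 256) (nat_lit 150)) (XT.lf (nat_lit 0) (nat_lit 212293577323) (nat_lit 152) (nat_lit 158398631231) (nat_lit 0) (nat_lit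 118678652140) (nat_lit 2) (nat_lit 5) (nat_lit 4) (nat_lit 4) (nat_lit 2) (nat_lit 4) (nat_lit 315) (nat_lit 256) (nat_lit 149)))) (XT.nd (nat_lit 156) (nat_lit 0) (nat_lit 0) (XT.nd (nat_lit 78) (nat_lit 0) (nat_lit 0) (XT.lf (nat_lit 0) (nat_lit 246485526253) (nat_lit 152) (nat_lit 127883672544) (nat_lit 0) (nat_lit 152868761211) (nat_lit 2) (nat_lit 5) (nat_lit 4) (nat_lit 4) (nat_lit 2) (nat_lit 4) (nat_lit 316) (nat_lit 256) (nat_lit 148)) (XT.lf (nat_lit 0) (nat_lit 283411896912) (nat_lit 152) (nat_lit 94929150566) (nat_lit 0) (nat_lit 189793428296) (nat_lit 2) (nat_lit 5) (nat_lit 4) (nat_lit 4) (nat_lit 2) (nat_lit 4) (nat_lit 317) (nat_lit 256) (nat_lit 147))) (XT.nd (nat_lit 78) (nat_lit 0) (nat_lit 0) (XT.lf (nat_lit 0) (nat_lit 323291512238) (nat_lit 152) (nat_lit 59339779241) (nat_lit 0) (nat_lit 229671466240) (nat_lit 2) (nat_lit 5) (nat_lit 4) (nat_lit 4) (nat_lit 2) (nat_lit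 4) (nat_lit 318) (nat_lit 256) (nat_lit 146)) (XT.nd (nat_lit 32682) (nat_lit 0) (nat_lit 4712) (XT.lf (nat_lit 0) (nat_lit 366360695878) (nat_lit 152) (nat_lit 20904658591) (nat_lit 0) (nat_lit 272739189339) (nat_lit 2) (nat_lit 5) (nat_lit 4) (nat_lit 4) (nat_lit 2) (nat_lit 4) (nat_lit 319) (nat_lit 256) (nat_lit 145)) (XT.lf (nat_lit 0) (nat_lit 6071035164) (nat_lit 684) (nat_lit 826451062) (nat_lit 684) (nat_lit 826451062) (nat_lit 64) (nat_lit 3) (nat_lit 73) (nat_lit 3) (nat_lit 73) (nat_lit 5) (nat_lit 257) (nat_lit 257) (nat_lit 206))))))))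
noncomputable def xc84 : XT := (XT.nd (nat_lit 1326) (nat_lit 1672) (nat_lit 0) (XT.nd (nat_lit 624) (nat_lit 1444) (nat_lit 0) (XT.nd (nat_lit 312) (nat_lit 1064) (nat_lit 0) (XT.nd (nat_lit 156) (nat_lit 0) (nat_lit 76) (XT.nd (nat_lit 78) (nat_lit 0) (nat_lit 76) (XT.lf (nat_lit 76) (nat_lit 8487286879) (nat_lit 0) (nat_lit 4650680433) (nat_lit 684) (nat_lit 2900276822) (nat_lit 65) (nat_lit 5) (nat_lit 64) (nat_lit 3) (nat_lit 73) (nat_lit 5) (nat_lit 258) (nat_lit 257) (nat_lit 205)) (XT.lf (nat_lit 76) (nat_lit 2808156636) (nat_lit 0) (nat_lit 11522229628) (nat_lit 684) (nat_lit 2339818052) (nat_lit 66) (nat_lit 5) (nat_lit 65) (nat_lit 5) (nat_lit 74) (nat_lit 5) (nat_lit 259) (nat_lit 257) (nat_lit 204))) (XT.nd (nat_lit 78) (nat_lit 0) (nat_lit 76) (XT.lf (nat_lit 76) (nat_lit 14162646262) (nat_lit 0) (nat_lit 1628862120) (nat_lit 684) (nat_lit 1552735937) (nat_lit 66) (nat_lit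 5) (nat_lit 65) (nat_lit 5) (nat_lit 74) (nat_lit 5) (nat_lit 260) (nat_lit 257) (nat_lit 203)) (XT.lf (nat_lit 76) (nat_lit 8460320138) (nat_lit 0) (nat_lit 9150115448) (nat_lit 684) (nat_lit 449900699) (nat_lit 67) (nat_lit 5) (nat_lit 66) (nat_lit 5) (nat_lit 75) (nat_lit 5) (nat_lit 261) (nat_lit 257) (nat_lit 202)))) (XT.nd (nat_lit 156) (nat_lit 608) (nat_lit 0) (XT.nd (nat_lit 78) (nat_lit 0) (nat_lit 0) (XT.lf (nat_lit 0) (nat_lit 830204406) (nat_lit 684) (nat_lit 16524339370) (nat_lit 760) (nat_lit 1473108915) (nat_lit 58) (nat_lit 5) (nat_lit 67) (nat_lit 5) (nat_lit 68) (nat_lit 5) (nat_lit 262) (nat_lit 257) (nat_lit 201)) (XT.lf (nat_lit 0) (nat_lit 2492368271) (nat_lit 684) (nat_lit 4334197221) (nat_lit 760) (nat_lit 12814792017) (nat_lit 58) (nat_lit 5) (nat_lit 67) (nat_lit 5) (nat_lit 68) (nat_lit 5) (nat_lit 263) (nat_lit 257) (nat_lit 200))) (XT.nd (nat_lit 78) (nat_lit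 684) (nat_lit 0) (XT.lf (nat_lit 0) (nat_lit 4476045462) (nat_lit 684) (nat_lit 11487026924) (nat_lit 76) (nat_lit 4547791265) (nat_lit 59) (nat_lit 5) (nat_lit 68) (nat_lit 5) (nat_lit 60) (nat_lit 5) (nat_lit 264) (nat_lit 257) (nat_lit 199)) (XT.lf (nat_lit 0) (nat_lit 2087495702) (nat_lit 684) (nat_lit 4730198529) (nat_lit 760) (nat_lit 14622394356) (nat_lit 50) (nat_lit 5) (nat_lit 59) (nat_lit 5) (nat_lit 60) (nat_lit 5) (nat_lit 265) (nat_lit 257) (nat_lit 198))))) (XT.nd (nat_lit 312) (nat_lit 836) (nat_lit 0) (XT.nd (nat_lit 156) (nat_lit 304) (nat_lit 0) (XT.nd (nat_lit 78) (nat_lit 304) (nat_lit 0) (XT.lf (nat_lit 0) (nat_lit 9642020019) (nat_lit 760) (nat_lit 5416778565) (nat_lit 76) (nat_lit 7370198803) (nat_lit 50) (nat_lit 5) (nat_lit 60) (nat_lit 5) (nat_lit 51) (nat_lit 5) (nat_lit 266) (nat_lit 257) (nat_lit 197)) (XT.lf (nat_lit 0) (nat_lit 9848546233) (nat_lit 304)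 (nat_lit 3055429136) (nat_lit 380) (nat_lit 10582564093) (nat_lit 46) (nat_lit 5) (nat_lit 50) (nat_lit 5) (nat_lit 51) (nat_lit 5) (nat_lit 267) (nat_lit 257) (nat_lit 196))) (XT.nd (nat_lit 78) (nat_lit 0) (nat_lit 0) (XT.lf (nat_lit 0) (nat_lit 1784392405) (nat_lit 304) (nat_lit 14900429726) (nat_lit 380) (nat_lit 7931063009) (nat_lit 42) (nat_lit 5) (nat_lit 46) (nat_lit 5) (nat_lit 47) (nat_lit 5) (nat_lit 268) (nat_lit 257) (nat_lit 195)) (XT.lf (nat_lit 0) (nat_lit 18854229044) (nat_lit 304) (nat_lit 2182844867) (nat_lit 380) (nat_lit 4785147499) (nat_lit 42) (nat_lit 5) (nat_lit 46) (nat_lit 5) (nat_lit 47) (nat_lit 5) (nat_lit 269) (nat_lit 257) (nat_lit 194)))) (XT.nd (nat_lit 156) (nat_lit 228) (nat_lit 0) (XT.nd (nat_lit 78) (nat_lit 380) (nat_lit 0) (XT.lf (nat_lit 0) (nat_lit 10294102568) (nat_lit 228) (nat_lit 15766586737) (nat_lit 304) (nat_lit 1048299253) (nat_lit 39)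 (nat_lit 5) (nat_lit 42) (nat_lit 5) (nat_lit 43) (nat_lit 5) (nat_lit 270) (nat_lit 257) (nat_lit 193)) (XT.lf (nat_lit 0) (nat_lit 607991010) (nat_lit 304) (nat_lit 2436338560) (nat_lit 380) (nat_lit 25444486108) (nat_lit 34) (nat_lit 5) (nat_lit 38) (nat_lit 5) (nat_lit 39) (nat_lit 5) (nat_lit 271) (nat_lit 257) (nat_lit 192))) (XT.nd (nat_lit 78) (nat_lit 228) (nat_lit 0) (XT.lf (nat_lit 0) (nat_lit 7896306662) (nat_lit 380) (nat_lit 10167834579) (nat_lit 76) (nat_lit 11890663096) (nat_lit 34) (nat_lit 5) (nat_lit 39) (nat_lit 5) (nat_lit 35) (nat_lit 5) (nat_lit 272) (nat_lit 257) (nat_lit 191)) (XT.nd (nat_lit 78) (nat_lit 0) (nat_lit 0) (XT.lf (nat_lit 0) (nat_lit 9197537665) (nat_lit 228) (nat_lit 4108523428) (nat_lit 304) (nat_lit 18223592902) (nat_lit 31) (nat_lit 5) (nat_lit 34) (nat_lit 5) (nat_lit 35) (nat_lit 5) (nat_lit 273) (nat_lit 257) (nat_lit 190)) (XT.lf (nat_lit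 0) (nat_lit 19485528205) (nat_lit 304) (nat_lit 2938378158) (nat_lit 76) (nat_lit 10789796852) (nat_lit 31) (nat_lit 5) (nat_lit 35) (nat_lit 5) (nat_lit 32) (nat_lit 5) (nat_lit 274) (nat_lit 257) (nat_lit 189))))))) (XT.nd (nat_lit 702) (nat_lit 456) (nat_lit 0) (XT.nd (nat_lit 312) (nat_lit 532) (nat_lit 0) (XT.nd (nat_lit 156) (nat_lit 304) (nat_lit 0) (XT.nd (nat_lit 78) (nat_lit 152) (nat_lit 0) (XT.lf (nat_lit 0) (nat_lit 18513560133) (nat_lit 228) (nat_lit 7990914621) (nat_lit 304) (nat_lit 8510799411) (nat_lit 28) (nat_lit 5) (nat_lit 31) (nat_lit 5) (nat_lit 32) (nat_lit 5) (nat_lit 275) (nat_lit 257) (nat_lit 188)) (XT.lf (nat_lit 0) (nat_lit 4847400507) (nat_lit 152) (nat_lit 29471321939) (nat_lit 228) (nat_lit 2630608978) (nat_lit 26) (nat_lit 5) (nat_lit 28) (nat_lit 5) (nat_lit 29) (nat_lit 5) (nat_lit 276) (nat_lit 257) (nat_lit 187))) (XT.nd (nat_lit 78) (nat_lit 228)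 (nat_lit 0) (XT.lf (nat_lit 0) (nat_lit 4015753561) (nat_lit 228) (nat_lit 10743758574) (nat_lit 76) (nat_lit 24255000157) (nat_lit 25) (nat_lit 5) (nat_lit 28) (nat_lit 5) (nat_lit 26) (nat_lit 5) (nat_lit 277) (nat_lit 257) (nat_lit 186)) (XT.lf (nat_lit 0) (nat_lit 11311048364) (nat_lit 304) (nat_lit 28585736046) (nat_lit 76) (nat_lit 1335538379) (nat_lit 22) (nat_lit 5) (nat_lit 26) (nat_lit 5) (nat_lit 23) (nat_lit 5) (nat_lit 278) (nat_lit 257) (nat_lit 185)))) (XT.nd (nat_lit 156) (nat_lit 380) (nat_lit 0) (XT.nd (nat_lit 78) (nat_lit 152) (nat_lit 0) (XT.lf (nat_lit 0) (nat_lit 19618414517) (nat_lit 304) (nat_lit 5593181044) (nat_lit 76) (nat_lit 18394577905) (nat_lit 22) (nat_lit 5) (nat_lit 26) (nat_lit 5) (nat_lit 23) (nat_lit 5) (nat_lit 279) (nat_lit 257) (nat_lit 184)) (XT.lf (nat_lit 0) (nat_lit 19860689003) (nat_lit 152) (nat_lit 9029908330) (nat_lit 228) (nat_lit 17264358431)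 (nat_lit 20) (nat_lit 5) (nat_lit 22) (nat_lit 5) (nat_lit 23) (nat_lit 5) (nat_lit 280) (nat_lit 257) (nat_lit 183))) (XT.nd (nat_lit 78) (nat_lit 380) (nat_lit 0) (XT.lf (nat_lit 0) (nat_lit 39126063272) (nat_lit 228) (nat_lit 1499234328) (nat_lit 76) (nat_lit 8271299967) (nat_lit 20) (nat_lit 5) (nat_lit 23) (nat_lit 5) (nat_lit 21) (nat_lit 5) (nat_lit 281) (nat_lit 257) (nat_lit 182)) (XT.nd (nat_lit 78) (nat_lit 228) (nat_lit 0) (XT.lf (nat_lit 0) (nat_lit 25944950899) (nat_lit 152) (nat_lit 24784056261) (nat_lit 228) (nat_lit 1101161469) (nat_lit 18) (nat_lit 5) (nat_lit 20) (nat_lit 5) (nat_lit 21) (nat_lit 5) (nat_lit 282) (nat_lit 257) (nat_lit 181)) (XT.lf (nat_lit 0) (nat_lit 515834562) (nat_lit 152) (nat_lit 7507696702) (nat_lit 228) (nat_lit 46967161160) (nat_lit 15) (nat_lit 5) (nat_lit 17) (nat_lit 5) (nat_lit 18) (nat_lit 5) (nat_lit 283) (nat_lit 257) (nat_lit 180))))))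 (XT.nd (nat_lit 312) (nat_lit 304) (nat_lit 0) (XT.nd (nat_lit 156) (nat_lit 152) (nat_lit 0) (XT.nd (nat_lit 78) (nat_lit 0) (nat_lit 0) (XT.lf (nat_lit 0) (nat_lit 18464504605) (nat_lit 228) (nat_lit 28640415779) (nat_lit 76) (nat_lit 11267015376) (nat_lit 15) (nat_lit 5) (nat_lit 18) (nat_lit 5) (nat_lit 16) (nat_lit 5) (nat_lit 284) (nat_lit 257) (nat_lit 179)) (XT.lf (nat_lit 0) (nat_lit 29859921793) (nat_lit 228) (nat_lit 877082556) (nat_lit 76) (nat_lit 31280738558) (nat_lit 15) (nat_lit 5) (nat_lit 18) (nat_lit 5) (nat_lit 16) (nat_lit 5) (nat_lit 285) (nat_lit 257) (nat_lit 178))) (XT.nd (nat_lit 78) (nat_lit 0) (nat_lit 0) (XT.lf (nat_lit 0) (nat_lit 30058955754) (nat_lit 152) (nat_lit 12570443827) (nat_lit 228) (nat_lit 23302714648) (nat_lit 13) (nat_lit 5) (nat_lit 15) (nat_lit 5) (nat_lit 16) (nat_lit 5) (nat_lit 286) (nat_lit 257) (nat_lit 177)) (XT.lf (nat_lit 0) (nat_lit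 56539448072) (nat_lit 228) (nat_lit 6778259832) (nat_lit 76) (nat_lit 6835996144) (nat_lit 13) (nat_lit 5) (nat_lit 16) (nat_lit 5) (nat_lit 14) (nat_lit 4) (nat_lit 287) (nat_lit 257) (nat_lit 176)))) (XT.nd (nat_lit 156) (nat_lit 152) (nat_lit 0) (XT.nd (nat_lit 78) (nat_lit 76) (nat_lit 0) (XT.lf (nat_lit 0) (nat_lit 25230283792) (nat_lit 76) (nat_lit 46931802237) (nat_lit 152) (nat_lit 2520963717) (nat_lit 12) (nat_lit 5) (nat_lit 13) (nat_lit 5) (nat_lit 14) (nat_lit 4) (nat_lit 288) (nat_lit 257) (nat_lit 175)) (XT.lf (nat_lit 0) (nat_lit 9271135733) (nat_lit 152) (nat_lit 19686218734) (nat_lit 76) (nat_lit 50604313981) (nat_lit 11) (nat_lit 5) (nat_lit 13) (nat_lit 5) (nat_lit 12) (nat_lit 5) (nat_lit 289) (nat_lit 257) (nat_lit 174))) (XT.nd (nat_lit 78) (nat_lit 0) (nat_lit 0) (XT.lf (nat_lit 0) (nat_lit 12820871642) (nat_lit 152) (nat_lit 9293303887) (nat_lit 228) (nat_lit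 62704554694) (nat_lit 9) (nat_lit 5) (nat_lit 11) (nat_lit 5) (nat_lit 12) (nat_lit 5) (nat_lit 290) (nat_lit 257) (nat_lit 173)) (XT.nd (nat_lit 78) (nat_lit 0) (nat_lit 0) (XT.lf (nat_lit 0) (nat_lit 36514450393) (nat_lit 228) (nat_lit 42048262707) (nat_lit 76) (nat_lit 11907167837) (nat_lit 9) (nat_lit 5) (nat_lit 12) (nat_lit 5) (nat_lit 10) (nat_lit 4) (nat_lit 291) (nat_lit 257) (nat_lit 172)) (XT.lf (nat_lit 0) (nat_lit 52218608304) (nat_lit 228) (nat_lit 9867244431) (nat_lit 76) (nat_lit 34479690504) (nat_lit 9) (nat_lit 5) (nat_lit 12) (nat_lit 5) (nat_lit 10) (nat_lit 4) (nat_lit 292) (nat_lit 257) (nat_lit 171))))))))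
noncomputable def xc85 : XT := (XT.nd (nat_lit 1326) (nat_lit 76) (nat_lit 0) (XT.nd (nat_lit 624) (nat_lit 152) (nat_lit 0) (XT.nd (nat_lit 312) (nat_lit 76) (nat_lit 0) (XT.nd (nat_lit 156) (nat_lit 152) (nat_lit 0) (XT.nd (nat_lit 78) (nat_lit 0) (nat_lit 0) (XT.lf (nat_lit 0) (nat_lit 25703671094) (nat_lit 76) (nat_lit 43872251666) (nat_lit 152) (nat_lit 33553106218) (nat_lit 8) (nat_lit 5) (nat_lit 9) (nat_lit 5) (nat_lit 10) (nat_lit 4) (nat_lit 293) (nat_lit 257) (nat_lit 170)) (XT.lf (nat_lit 0) (nat_lit 64465669373) (nat_lit 76) (nat_lit 24023775181) (nat_lit 152) (nat_lit 21719778702) (nat_lit 8) (nat_lit 5) (nat_lit 9) (nat_lit 5) (nat_lit 10) (nat_lit 4) (nat_lit 294) (nat_lit 257) (nat_lit 169))) (XT.nd (nat_lit 78) (nat_lit 152) (nat_lit 0) (XT.lf (nat_lit 0) (nat_lit 106322195474) (nat_lit 76) (nat_lit 2589909238) (nat_lit 152) (nat_lit 8943935522) (nat_lit 8) (nat_lit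 5) (nat_lit 9) (nat_lit 5) (nat_lit 10) (nat_lit 4) (nat_lit 295) (nat_lit 257) (nat_lit 168)) (XT.lf (nat_lit 0) (nat_lit 5432339816) (nat_lit 152) (nat_lit 100251142479) (nat_lit 76) (nat_lit 20390653765) (nat_lit 6) (nat_lit 5) (nat_lit 8) (nat_lit 5) (nat_lit 7) (nat_lit 4) (nat_lit 296) (nat_lit 257) (nat_lit 167)))) (XT.nd (nat_lit 156) (nat_lit 76) (nat_lit 0) (XT.nd (nat_lit 78) (nat_lit 0) (nat_lit 0) (XT.lf (nat_lit 0) (nat_lit 20893859673) (nat_lit 152) (nat_lit 68563132480) (nat_lit 76) (nat_lit 45472939740) (nat_lit 6) (nat_lit 5) (nat_lit 8) (nat_lit 5) (nat_lit 7) (nat_lit 4) (nat_lit 297) (nat_lit 257) (nat_lit 166)) (XT.lf (nat_lit 0) (nat_lit 37588994497) (nat_lit 152) (nat_lit 34345611373) (nat_lit 76) (nat_lit 72559758403) (nat_lit 6) (nat_lit 5) (nat_lit 8) (nat_lit 5) (nat_lit 7) (nat_lit 4) (nat_lit 298) (nat_lit 257) (nat_lit 165))) (XT.nd (nat_lit 78) (nat_lit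 0) (nat_lit 0) (XT.lf (nat_lit 0) (nat_lit 2690297661) (nat_lit 76) (nat_lit 52968383847) (nat_lit 152) (nat_lit 99163329660) (nat_lit 5) (nat_lit 5) (nat_lit 6) (nat_lit 5) (nat_lit 7) (nat_lit 4) (nat_lit 299) (nat_lit 257) (nat_lit 164)) (XT.lf (nat_lit 0) (nat_lit 43910652550) (nat_lit 76) (nat_lit 31858657963) (nat_lit 152) (nat_lit 90176797424) (nat_lit 5) (nat_lit 5) (nat_lit 6) (nat_lit 5) (nat_lit 7) (nat_lit 4) (nat_lit 300) (nat_lit 257) (nat_lit 163))))) (XT.nd (nat_lit 312) (nat_lit 76) (nat_lit 0) (XT.nd (nat_lit 156) (nat_lit 76) (nat_lit 0) (XT.nd (nat_lit 78) (nat_lit 0) (nat_lit 0) (XT.lf (nat_lit 0) (nat_lit 88424101039) (nat_lit 76) (nat_lit 9061993096) (nat_lit 152) (nat_lit 80474179092) (nat_lit 5) (nat_lit 5) (nat_lit 6) (nat_lit 5) (nat_lit 7) (nat_lit 4) (nat_lit 301) (nat_lit 257) (nat_lit 162)) (XT.lf (nat_lit 0) (nat_lit 121180608144) (nat_lit 152) (nat_lit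 54684159284) (nat_lit 0) (nat_lit 15058790480) (nat_lit 5) (nat_lit 5) (nat_lit 7) (nat_lit 4) (nat_lit 5) (nat_lit 4) (nat_lit 302) (nat_lit 257) (nat_lit 161))) (XT.nd (nat_lit 78) (nat_lit 76) (nat_lit 0) (XT.lf (nat_lit 0) (nat_lit 146921149282) (nat_lit 152) (nat_lit 17200771033) (nat_lit 0) (nat_lit 40794466884) (nat_lit 5) (nat_lit 5) (nat_lit 7) (nat_lit 4) (nat_lit 5) (nat_lit 4) (nat_lit 303) (nat_lit 257) (nat_lit 160)) (XT.lf (nat_lit 0) (nat_lit 24047262014) (nat_lit 76) (nat_lit 151046954121) (nat_lit 76) (nat_lit 44915767340) (nat_lit 4) (nat_lit 4) (nat_lit 5) (nat_lit 5) (nat_lit 5) (nat_lit 4) (nat_lit 304) (nat_lit 257) (nat_lit 159)))) (XT.nd (nat_lit 156) (nat_lit 76) (nat_lit 0) (XT.nd (nat_lit 78) (nat_lit 0) (nat_lit 0) (XT.lf (nat_lit 0) (nat_lit 69205843178) (nat_lit 76) (nat_lit 136612853874) (nat_lit 76) (nat_lit 30477496368) (nat_lit 4) (nat_lit 4) (nat_lit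 5) (nat_lit 5) (nat_lit 5) (nat_lit 4) (nat_lit 305) (nat_lit 257) (nat_lit 158)) (XT.lf (nat_lit 0) (nat_lit 117973843694) (nat_lit 76) (nat_lit 121025387549) (nat_lit 76) (nat_lit 14886168261) (nat_lit 4) (nat_lit 4) (nat_lit 5) (nat_lit 5) (nat_lit 5) (nat_lit 4) (nat_lit 306) (nat_lit 257) (nat_lit 157))) (XT.nd (nat_lit 78) (nat_lit 0) (nat_lit 0) (XT.lf (nat_lit 0) (nat_lit 1888178335) (nat_lit 152) (nat_lit 102272029424) (nat_lit 76) (nat_lit 168720103570) (nat_lit 3) (nat_lit 5) (nat_lit 5) (nat_lit 5) (nat_lit 4) (nat_lit 4) (nat_lit 307) (nat_lit 257) (nat_lit 156)) (XT.nd (nat_lit 78) (nat_lit 0) (nat_lit 0) (XT.lf (nat_lit 0) (nat_lit 19488242716) (nat_lit 152) (nat_lit 66195208301) (nat_lit 76) (nat_lit 207698901196) (nat_lit 3) (nat_lit 5) (nat_lit 5) (nat_lit 5) (nat_lit 4) (nat_lit 4) (nat_lit 308) (nat_lit 257) (nat_lit 155)) (XT.lf (nat_lit 0) (nat_lit 38494771907)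 (nat_lit 152) (nat_lit 27234889064) (nat_lit 76) (nat_lit 249794975495) (nat_lit 3) (nat_lit 5) (nat_lit 5) (nat_lit 5) (nat_lit 4) (nat_lit 4) (nat_lit 309) (nat_lit 257) (nat_lit 154))))))) (XT.nd (nat_lit 702) (nat_lit 0) (nat_lit 0) (XT.nd (nat_lit 312) (nat_lit 0) (nat_lit 0) (XT.nd (nat_lit 156) (nat_lit 0) (nat_lit 0) (XT.nd (nat_lit 78) (nat_lit 0) (nat_lit 0) (XT.lf (nat_lit 0) (nat_lit 15330475196) (nat_lit 76) (nat_lit 43929273680) (nat_lit 152) (nat_lit 280166661170) (nat_lit 2) (nat_lit 5) (nat_lit 3) (nat_lit 5) (nat_lit 4) (nat_lit 4) (nat_lit 310) (nat_lit 257) (nat_lit 153)) (XT.lf (nat_lit 0) (nat_lit 62271272778) (nat_lit 76) (nat_lit 19887708218) (nat_lit 152) (nat_lit 283057694310) (nat_lit 2) (nat_lit 5) (nat_lit 3) (nat_lit 5) (nat_lit 4) (nat_lit 4) (nat_lit 311) (nat_lit 257) (nat_lit 152))) (XT.nd (nat_lit 78) (nat_lit 0) (nat_lit 0) (XT.lf (nat_lit 0) (nat_lit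 106983762588) (nat_lit 152) (nat_lit 280199931699) (nat_lit 0) (nat_lit 5881789403) (nat_lit 2) (nat_lit 5) (nat_lit 4) (nat_lit 4) (nat_lit 2) (nat_lit 4) (nat_lit 312) (nat_lit 257) (nat_lit 151)) (XT.lf (nat_lit 0) (nat_lit 134128692992) (nat_lit 152) (nat_lit 255972223912) (nat_lit 0) (nat_lit 33024573795) (nat_lit 2) (nat_lit 5) (nat_lit 4) (nat_lit 4) (nat_lit 2) (nat_lit 4) (nat_lit 313) (nat_lit 257) (nat_lit 150)))) (XT.nd (nat_lit 156) (nat_lit 0) (nat_lit 0) (XT.nd (nat_lit 78) (nat_lit 0) (nat_lit 0) (XT.lf (nat_lit 0) (nat_lit 163444128195) (nat_lit 152) (nat_lit 229808204704) (nat_lit 0) (nat_lit 62338021950) (nat_lit 2) (nat_lit 5) (nat_lit 4) (nat_lit 4) (nat_lit 2) (nat_lit 4) (nat_lit 314) (nat_lit 257) (nat_lit 149)) (XT.lf (nat_lit 0) (nat_lit 195103789295) (nat_lit 152) (nat_lit 201552828037) (nat_lit 0) (nat_lit 93995843190) (nat_lit 2) (nat_lit 5) (nat_lit 4) (nat_lit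 4) (nat_lit 2) (nat_lit 4) (nat_lit 315) (nat_lit 257) (nat_lit 148))) (XT.nd (nat_lit 78) (nat_lit 0) (nat_lit 0) (XT.lf (nat_lit 0) (nat_lit 229295289097) (nat_lit 152) (nat_lit 171038654640) (nat_lit 0) (nat_lit 128185639419) (nat_lit 2) (nat_lit 5) (nat_lit 4) (nat_lit 4) (nat_lit 2) (nat_lit 4) (nat_lit 316) (nat_lit 257) (nat_lit 147)) (XT.nd (nat_lit 78) (nat_lit 0) (nat_lit 0) (XT.lf (nat_lit 0) (nat_lit 266221243898) (nat_lit 152) (nat_lit 138084859783) (nat_lit 0) (nat_lit 165110016836) (nat_lit 2) (nat_lit 5) (nat_lit 4) (nat_lit 4) (nat_lit 2) (nat_lit 4) (nat_lit 317) (nat_lit 257) (nat_lit 146)) (XT.lf (nat_lit 0) (nat_lit 306100474170) (nat_lit 152) (nat_lit 102496161718) (nat_lit 0) (nat_lit 204987786568) (nat_lit 2) (nat_lit 5) (nat_lit 4) (nat_lit 4) (nat_lit 2) (nat_lit 4) (nat_lit 318) (nat_lit 257) (nat_lit 145)))))) (XT.nd (nat_lit 32994) (nat_lit 0) (nat_lit 4180)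 (XT.nd (nat_lit 32838) (nat_lit 0) (nat_lit 4712) (XT.nd (nat_lit 32760) (nat_lit 0) (nat_lit 4712) (XT.lf (nat_lit 0) (nat_lit 349169301278) (nat_lit 152) (nat_lit 64061664457) (nat_lit 0) (nat_lit 248055261324) (nat_lit 2) (nat_lit 5) (nat_lit 4) (nat_lit 4) (nat_lit 2) (nat_lit 4) (nat_lit 319) (nat_lit 257) (nat_lit 144)) (XT.lf (nat_lit 0) (nat_lit 6925338028) (nat_lit 684) (nat_lit 698048729) (nat_lit 684) (nat_lit 698048729) (nat_lit 64) (nat_lit 3) (nat_lit 73) (nat_lit 3) (nat_lit 73) (nat_lit 5) (nat_lit 258) (nat_lit 258) (nat_lit 204))) (XT.nd (nat_lit 78) (nat_lit 0) (nat_lit 76) (XT.lf (nat_lit 76) (nat_lit 9538399598) (nat_lit 0) (nat_lit 5339044811) (nat_lit 684) (nat_lit 2405759896) (nat_lit 65) (nat_lit 5) (nat_lit 64) (nat_lit 3) (nat_lit 73) (nat_lit 5) (nat_lit 259) (nat_lit 258) (nat_lit 203)) (XT.lf (nat_lit 76) (nat_lit 3429934101) (nat_lit 0) (nat_lit 12685954804)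 (nat_lit 684) (nat_lit 1852573193) (nat_lit 66) (nat_lit 5) (nat_lit 65) (nat_lit 5) (nat_lit 74) (nat_lit 5) (nat_lit 260) (nat_lit 258) (nat_lit 202)))) (XT.nd (nat_lit 156) (nat_lit 0) (nat_lit 76) (XT.nd (nat_lit 78) (nat_lit 608) (nat_lit 0) (XT.lf (nat_lit 76) (nat_lit 15663366236) (nat_lit 0) (nat_lit 1983195909) (nat_lit 684) (nat_lit 1052482309) (nat_lit 66) (nat_lit 5) (nat_lit 65) (nat_lit 5) (nat_lit 74) (nat_lit 5) (nat_lit 261) (nat_lit 258) (nat_lit 201)) (XT.lf (nat_lit 0) (nat_lit 92207498) (nat_lit 684) (nat_lit 9952660319) (nat_lit 760) (nat_lit 9429767038) (nat_lit 57) (nat_lit 5) (nat_lit 66) (nat_lit 5) (nat_lit 67) (nat_lit 5) (nat_lit 262) (nat_lit 258) (nat_lit 200))) (XT.nd (nat_lit 78) (nat_lit 0) (nat_lit 0) (XT.lf (nat_lit 0) (nat_lit 1421451229) (nat_lit 684) (nat_lit 17425176422) (nat_lit 760) (nat_lit 1458421465) (nat_lit 58) (nat_lit 5) (nat_lit 67) (nat_lit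 5) (nat_lit 68) (nat_lit 5) (nat_lit 263) (nat_lit 258) (nat_lit 199)) (XT.nd (nat_lit 78) (nat_lit 0) (nat_lit 76) (XT.lf (nat_lit 0) (nat_lit 3177711872) (nat_lit 684) (nat_lit 4291016242) (nat_lit 760) (nat_lit 13717256709) (nat_lit 58) (nat_lit 5) (nat_lit 67) (nat_lit 5) (nat_lit 68) (nat_lit 5) (nat_lit 264) (nat_lit 258) (nat_lit 198)) (XT.lf (nat_lit 0) (nat_lit 5288616881) (nat_lit 684) (nat_lit 12006728692) (nat_lit 76) (nat_lit 4831455762) (nat_lit 59) (nat_lit 5) (nat_lit 68) (nat_lit 5) (nat_lit 60) (nat_lit 5) (nat_lit 265) (nat_lit 258) (nat_lit 197))))))))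
noncomputable def xc86 : XT := (XT.nd (nat_lit 1326) (nat_lit 1140) (nat_lit 0) (XT.nd (nat_lit 624) (nat_lit 1064) (nat_lit 0) (XT.nd (nat_lit 312) (nat_lit 608) (nat_lit 0) (XT.nd (nat_lit 156) (nat_lit 608) (nat_lit 0) (XT.nd (nat_lit 78) (nat_lit 0) (nat_lit 0) (XT.lf (nat_lit 0) (nat_lit 2636404374) (nat_lit 684) (nat_lit 5153490086) (nat_lit 760) (nat_lit 15342018444) (nat_lit 50) (nat_lit 5) (nat_lit 59) (nat_lit 5) (nat_lit 60) (nat_lit 5) (nat_lit 266) (nat_lit 258) (nat_lit 196)) (XT.lf (nat_lit 0) (nat_lit 10807903895) (nat_lit 760) (nat_lit 5474201943) (nat_lit 76) (nat_lit 7919593065) (nat_lit 50) (nat_lit 5) (nat_lit 60) (nat_lit 5) (nat_lit 51) (nat_lit 5) (nat_lit 267) (nat_lit 258) (nat_lit 195))) (XT.nd (nat_lit 78) (nat_lit 304) (nat_lit 0) (XT.lf (nat_lit 0) (nat_lit 10996011862) (nat_lit 304) (nat_lit 3311194020) (nat_lit 380) (nat_lit 11037959110) (nat_lit 46) (nat_lit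 5) (nat_lit 50) (nat_lit 5) (nat_lit 51) (nat_lit 5) (nat_lit 268) (nat_lit 258) (nat_lit 194)) (XT.lf (nat_lit 0) (nat_lit 2290683465) (nat_lit 304) (nat_lit 16077873996) (nat_lit 380) (nat_lit 8197528788) (nat_lit 42) (nat_lit 5) (nat_lit 46) (nat_lit 5) (nat_lit 47) (nat_lit 5) (nat_lit 269) (nat_lit 258) (nat_lit 193)))) (XT.nd (nat_lit 156) (nat_lit 380) (nat_lit 0) (XT.nd (nat_lit 78) (nat_lit 228) (nat_lit 0) (XT.lf (nat_lit 0) (nat_lit 20699178172) (nat_lit 304) (nat_lit 2343963097) (nat_lit 380) (nat_lit 4827200723) (nat_lit 42) (nat_lit 5) (nat_lit 46) (nat_lit 5) (nat_lit 47) (nat_lit 5) (nat_lit 270) (nat_lit 258) (nat_lit 192)) (XT.lf (nat_lit 0) (nat_lit 11456300904) (nat_lit 228) (nat_lit 16993894434) (nat_lit 304) (nat_lit 810888964) (nat_lit 39) (nat_lit 5) (nat_lit 42) (nat_lit 5) (nat_lit 43) (nat_lit 5) (nat_lit 271) (nat_lit 258) (nat_lit 191))) (XT.nd (nat_lit 78)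 (nat_lit 0) (nat_lit 0) (XT.lf (nat_lit 0) (nat_lit 991685139) (nat_lit 304) (nat_lit 2589376987) (nat_lit 380) (nat_lit 27170973046) (nat_lit 34) (nat_lit 5) (nat_lit 38) (nat_lit 5) (nat_lit 39) (nat_lit 5) (nat_lit 272) (nat_lit 258) (nat_lit 190)) (XT.lf (nat_lit 0) (nat_lit 8800085155) (nat_lit 380) (nat_lit 10656921603) (nat_lit 76) (nat_lit 12879442625) (nat_lit 34) (nat_lit 5) (nat_lit 39) (nat_lit 5) (nat_lit 35) (nat_lit 5) (nat_lit 273) (nat_lit 258) (nat_lit 189))))) (XT.nd (nat_lit 312) (nat_lit 456) (nat_lit 0) (XT.nd (nat_lit 156) (nat_lit 380) (nat_lit 0) (XT.nd (nat_lit 78) (nat_lit 0) (nat_lit 0) (XT.lf (nat_lit 0) (nat_lit 10243585010) (nat_lit 228) (nat_lit 4383725086) (nat_lit 304) (nat_lit 19410826527) (nat_lit 31) (nat_lit 5) (nat_lit 34) (nat_lit 5) (nat_lit 35) (nat_lit 5) (nat_lit 274) (nat_lit 258) (nat_lit 188)) (XT.lf (nat_lit 0) (nat_lit 21282888140) (nat_lit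 304) (nat_lit 2874097442) (nat_lit 76) (nat_lit 11700914410) (nat_lit 31) (nat_lit 5) (nat_lit 35) (nat_lit 5) (nat_lit 32) (nat_lit 5) (nat_lit 275) (nat_lit 258) (nat_lit 187))) (XT.nd (nat_lit 78) (nat_lit 152) (nat_lit 0) (XT.lf (nat_lit 0) (nat_lit 20280986485) (nat_lit 228) (nat_lit 8569166546) (nat_lit 304) (nat_lit 8954175574) (nat_lit 28) (nat_lit 5) (nat_lit 31) (nat_lit 5) (nat_lit 32) (nat_lit 5) (nat_lit 276) (nat_lit 258) (nat_lit 186)) (XT.lf (nat_lit 0) (nat_lit 5519817434) (nat_lit 152) (nat_lit 31758358645) (nat_lit 228) (nat_lit 2615569365) (nat_lit 26) (nat_lit 5) (nat_lit 28) (nat_lit 5) (nat_lit 29) (nat_lit 5) (nat_lit 277) (nat_lit 258) (nat_lit 185)))) (XT.nd (nat_lit 156) (nat_lit 152) (nat_lit 0) (XT.nd (nat_lit 78) (nat_lit 228) (nat_lit 0) (XT.lf (nat_lit 0) (nat_lit 4539116898) (nat_lit 228) (nat_lit 11332299190) (nat_lit 76) (nat_lit 26253415966) (nat_lit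 25) (nat_lit 5) (nat_lit 28) (nat_lit 5) (nat_lit 26) (nat_lit 5) (nat_lit 278) (nat_lit 258) (nat_lit 184)) (XT.lf (nat_lit 0) (nat_lit 12408173041) (nat_lit 304) (nat_lit 30604231711) (nat_lit 76) (nat_lit 1508210275) (nat_lit 22) (nat_lit 5) (nat_lit 26) (nat_lit 5) (nat_lit 23) (nat_lit 5) (nat_lit 279) (nat_lit 258) (nat_lit 183))) (XT.nd (nat_lit 78) (nat_lit 152) (nat_lit 0) (XT.lf (nat_lit 0) (nat_lit 21365888426) (nat_lit 304) (nat_lit 5792151066) (nat_lit 76) (nat_lit 19927096754) (nat_lit 22) (nat_lit 5) (nat_lit 26) (nat_lit 5) (nat_lit 23) (nat_lit 5) (nat_lit 280) (nat_lit 258) (nat_lit 182)) (XT.nd (nat_lit 78) (nat_lit 0) (nat_lit 0) (XT.lf (nat_lit 0) (nat_lit 21687229753) (nat_lit 152) (nat_lit 9683141812) (nat_lit 228) (nat_lit 18467970023) (nat_lit 20) (nat_lit 5) (nat_lit 22) (nat_lit 5) (nat_lit 23) (nat_lit 5) (nat_lit 281) (nat_lit 258) (nat_lit 181)) (XT.lf (nat_lit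 0) (nat_lit 42413191124) (nat_lit 228) (nat_lit 1391750390) (nat_lit 76) (nat_lit 8994990685) (nat_lit 20) (nat_lit 5) (nat_lit 23) (nat_lit 5) (nat_lit 21) (nat_lit 5) (nat_lit 282) (nat_lit 258) (nat_lit 180))))))) (XT.nd (nat_lit 702) (nat_lit 304) (nat_lit 0) (XT.nd (nat_lit 312) (nat_lit 456) (nat_lit 0) (XT.nd (nat_lit 156) (nat_lit 0) (nat_lit 0) (XT.nd (nat_lit 78) (nat_lit 228) (nat_lit 0) (XT.lf (nat_lit 0) (nat_lit 28238086142) (nat_lit 152) (nat_lit 26698047979) (nat_lit 228) (nat_lit 1032506723) (nat_lit 18) (nat_lit 5) (nat_lit 20) (nat_lit 5) (nat_lit 21) (nat_lit 5) (nat_lit 283) (nat_lit 258) (nat_lit 179)) (XT.lf (nat_lit 0) (nat_lit 770441754) (nat_lit 152) (nat_lit 8038794297) (nat_lit 228) (nat_lit 50573078892) (nat_lit 15) (nat_lit 5) (nat_lit 17) (nat_lit 5) (nat_lit 18) (nat_lit 5) (nat_lit 284) (nat_lit 258) (nat_lit 178))) (XT.nd (nat_lit 78) (nat_lit 0) (nat_lit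 0) (XT.lf (nat_lit 0) (nat_lit 20075838731) (nat_lit 228) (nat_lit 30728049108) (nat_lit 76) (nat_lit 12230685057) (nat_lit 15) (nat_lit 5) (nat_lit 18) (nat_lit 5) (nat_lit 16) (nat_lit 5) (nat_lit 285) (nat_lit 258) (nat_lit 177)) (XT.lf (nat_lit 0) (nat_lit 32372950498) (nat_lit 228) (nat_lit 758730703) (nat_lit 76) (nat_lit 33840890652) (nat_lit 15) (nat_lit 5) (nat_lit 18) (nat_lit 5) (nat_lit 16) (nat_lit 5) (nat_lit 286) (nat_lit 258) (nat_lit 176)))) (XT.nd (nat_lit 156) (nat_lit 304) (nat_lit 0) (XT.nd (nat_lit 78) (nat_lit 0) (nat_lit 0) (XT.lf (nat_lit 0) (nat_lit 32643997889) (nat_lit 152) (nat_lit 13513601420) (nat_lit 228) (nat_lit 25042840988) (nat_lit 13) (nat_lit 5) (nat_lit 15) (nat_lit 5) (nat_lit 16) (nat_lit 5) (nat_lit 287) (nat_lit 258) (nat_lit 175)) (XT.lf (nat_lit 0) (nat_lit 61172625414) (nat_lit 228) (nat_lit 7148674979) (nat_lit 76) (nat_lit 7438874197) (nat_lit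 13) (nat_lit 5) (nat_lit 16) (nat_lit 5) (nat_lit 14) (nat_lit 4) (nat_lit 288) (nat_lit 258) (nat_lit 174))) (XT.nd (nat_lit 78) (nat_lit 228) (nat_lit 0) (XT.lf (nat_lit 0) (nat_lit 27413083932) (nat_lit 76) (nat_lit 50626407127) (nat_lit 152) (nat_lit 2612680105) (nat_lit 12) (nat_lit 5) (nat_lit 13) (nat_lit 5) (nat_lit 14) (nat_lit 4) (nat_lit 289) (nat_lit 258) (nat_lit 173)) (XT.nd (nat_lit 78) (nat_lit 152) (nat_lit 0) (XT.lf (nat_lit 0) (nat_lit 10111383333) (nat_lit 152) (nat_lit 21105391043) (nat_lit 76) (nat_lit 54704634583) (nat_lit 11) (nat_lit 5) (nat_lit 13) (nat_lit 5) (nat_lit 12) (nat_lit 5) (nat_lit 290) (nat_lit 258) (nat_lit 172)) (XT.lf (nat_lit 0) (nat_lit 13995498936) (nat_lit 152) (nat_lit 9981392523) (nat_lit 228) (nat_lit 67622412599) (nat_lit 9) (nat_lit 5) (nat_lit 11) (nat_lit 5) (nat_lit 12) (nat_lit 5) (nat_lit 291) (nat_lit 258) (nat_lit 171)))))) (XT.nd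 (nat_lit 312) (nat_lit 228) (nat_lit 0) (XT.nd (nat_lit 156) (nat_lit 76) (nat_lit 0) (XT.nd (nat_lit 78) (nat_lit 0) (nat_lit 0) (XT.lf (nat_lit 0) (nat_lit 39523056848) (nat_lit 228) (nat_lit 45270440783) (nat_lit 76) (nat_lit 12909373956) (nat_lit 9) (nat_lit 5) (nat_lit 12) (nat_lit 5) (nat_lit 10) (nat_lit 4) (nat_lit 292) (nat_lit 258) (nat_lit 170)) (XT.lf (nat_lit 0) (nat_lit 56477069582) (nat_lit 228) (nat_lit 10525436077) (nat_lit 76) (nat_lit 37284021941) (nat_lit 9) (nat_lit 5) (nat_lit 12) (nat_lit 5) (nat_lit 10) (nat_lit 4) (nat_lit 293) (nat_lit 258) (nat_lit 169))) (XT.nd (nat_lit 78) (nat_lit 0) (nat_lit 0) (XT.lf (nat_lit 0) (nat_lit 27885451423) (nat_lit 76) (nat_lit 47333478999) (nat_lit 152) (nat_lit 36156379306) (nat_lit 8) (nat_lit 5) (nat_lit 9) (nat_lit 5) (nat_lit 10) (nat_lit 4) (nat_lit 294) (nat_lit 258) (nat_lit 168)) (XT.lf (nat_lit 0) (nat_lit 69739114258)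 (nat_lit 76) (nat_lit 25900720899) (nat_lit 152) (nat_lit 23382383767) (nat_lit 8) (nat_lit 5) (nat_lit 9) (nat_lit 5) (nat_lit 10) (nat_lit 4) (nat_lit 295) (nat_lit 258) (nat_lit 167)))) (XT.nd (nat_lit 156) (nat_lit 76) (nat_lit 0) (XT.nd (nat_lit 78) (nat_lit 152) (nat_lit 0) (XT.lf (nat_lit 0) (nat_lit 114935555681) (nat_lit 76) (nat_lit 2755475776) (nat_lit 152) (nat_lit 9590027003) (nat_lit 8) (nat_lit 5) (nat_lit 9) (nat_lit 5) (nat_lit 10) (nat_lit 4) (nat_lit 296) (nat_lit 258) (nat_lit 166)) (XT.lf (nat_lit 0) (nat_lit 5931437896) (nat_lit 152) (nat_lit 108163351697) (nat_lit 76) (nat_lit 22061904474) (nat_lit 6) (nat_lit 5) (nat_lit 8) (nat_lit 5) (nat_lit 7) (nat_lit 4) (nat_lit 297) (nat_lit 258) (nat_lit 165))) (XT.nd (nat_lit 78) (nat_lit 76) (nat_lit 0) (XT.lf (nat_lit 0) (nat_lit 22625100757) (nat_lit 152) (nat_lit 73948292170) (nat_lit 76) (nat_lit 49147810482) (nat_lit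 6) (nat_lit 5) (nat_lit 8) (nat_lit 5) (nat_lit 7) (nat_lit 4) (nat_lit 298) (nat_lit 258) (nat_lit 164)) (XT.nd (nat_lit 78) (nat_lit 76) (nat_lit 0) (XT.lf (nat_lit 0) (nat_lit 40651421752) (nat_lit 152) (nat_lit 37000768701) (nat_lit 76) (nat_lit 78398831264) (nat_lit 6) (nat_lit 5) (nat_lit 8) (nat_lit 5) (nat_lit 7) (nat_lit 4) (nat_lit 299) (nat_lit 258) (nat_lit 163)) (XT.lf (nat_lit 0) (nat_lit 2993993485) (nat_lit 76) (nat_lit 57169974669) (nat_lit 152) (nat_lit 107041057345) (nat_lit 5) (nat_lit 5) (nat_lit 6) (nat_lit 5) (nat_lit 7) (nat_lit 4) (nat_lit 300) (nat_lit 258) (nat_lit 162))))))))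
noncomputable def xc87 : XT := (XT.nd (nat_lit 1404) (nat_lit 0) (nat_lit 0) (XT.nd (nat_lit 702) (nat_lit 76) (nat_lit 0) (XT.nd (nat_lit 312) (nat_lit 152) (nat_lit 0) (XT.nd (nat_lit 156) (nat_lit 0) (nat_lit 0) (XT.nd (nat_lit 78) (nat_lit 0) (nat_lit 0) (XT.lf (nat_lit 0) (nat_lit 47505423282) (nat_lit 76) (nat_lit 34374128484) (nat_lit 152) (nat_lit 97339701692) (nat_lit 5) (nat_lit 5) (nat_lit 6) (nat_lit 5) (nat_lit 7) (nat_lit 4) (nat_lit 301) (nat_lit 258) (nat_lit 161)) (XT.lf (nat_lit 0) (nat_lit 95573879611) (nat_lit 76) (nat_lit 9756191325) (nat_lit 152) (nat_lit 86864669414) (nat_lit 5) (nat_lit 5) (nat_lit 6) (nat_lit 5) (nat_lit 7) (nat_lit 4) (nat_lit 302) (nat_lit 258) (nat_lit 160))) (XT.nd (nat_lit 78) (nat_lit 0) (nat_lit 0) (XT.lf (nat_lit 0) (nat_lit 130917250813) (nat_lit 152) (nat_lit 58986924475) (nat_lit 0) (nat_lit 16291064707) (nat_lit 5) (nat_lit 5) (nat_lit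 7) (nat_lit 4) (nat_lit 5) (nat_lit 4) (nat_lit 303) (nat_lit 258) (nat_lit 159)) (XT.lf (nat_lit 0) (nat_lit 158713909760) (nat_lit 152) (nat_lit 18510196094) (nat_lit 0) (nat_lit 44083552928) (nat_lit 5) (nat_lit 5) (nat_lit 7) (nat_lit 4) (nat_lit 5) (nat_lit 4) (nat_lit 304) (nat_lit 258) (nat_lit 158)))) (XT.nd (nat_lit 156) (nat_lit 76) (nat_lit 0) (XT.nd (nat_lit 78) (nat_lit 0) (nat_lit 0) (XT.lf (nat_lit 0) (nat_lit 26034783651) (nat_lit 76) (nat_lit 163104139515) (nat_lit 76) (nat_lit 48469920901) (nat_lit 4) (nat_lit 4) (nat_lit 5) (nat_lit 5) (nat_lit 5) (nat_lit 4) (nat_lit 305) (nat_lit 258) (nat_lit 157)) (XT.lf (nat_lit 0) (nat_lit 74801329776) (nat_lit 76) (nat_lit 147517279466) (nat_lit 76) (nat_lit 32879485128) (nat_lit 4) (nat_lit 4) (nat_lit 5) (nat_lit 5) (nat_lit 5) (nat_lit 4) (nat_lit 306) (nat_lit 258) (nat_lit 156))) (XT.nd (nat_lit 78) (nat_lit 76) (nat_lit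 0) (XT.lf (nat_lit 0) (nat_lit 127466398545) (nat_lit 76) (nat_lit 130684638258) (nat_lit 76) (nat_lit 16043533064) (nat_lit 4) (nat_lit 4) (nat_lit 5) (nat_lit 5) (nat_lit 5) (nat_lit 4) (nat_lit 307) (nat_lit 258) (nat_lit 155)) (XT.nd (nat_lit 78) (nat_lit 0) (nat_lit 0) (XT.lf (nat_lit 0) (nat_lit 2069284020) (nat_lit 152) (nat_lit 110402138560) (nat_lit 76) (nat_lit 182237750906) (nat_lit 3) (nat_lit 5) (nat_lit 5) (nat_lit 5) (nat_lit 4) (nat_lit 4) (nat_lit 308) (nat_lit 258) (nat_lit 154)) (XT.lf (nat_lit 0) (nat_lit 21075127519) (nat_lit 152) (nat_lit 71442997911) (nat_lit 76) (nat_lit 224333367968) (nat_lit 3) (nat_lit 5) (nat_lit 5) (nat_lit 5) (nat_lit 4) (nat_lit 4) (nat_lit 309) (nat_lit 258) (nat_lit 153)))))) (XT.nd (nat_lit 312) (nat_lit 0) (nat_lit 0) (XT.nd (nat_lit 156) (nat_lit 0) (nat_lit 0) (XT.nd (nat_lit 78) (nat_lit 76) (nat_lit 0) (XT.lf (nat_lit 0) (nat_lit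 41600117907) (nat_lit 152) (nat_lit 29369395880) (nat_lit 76) (nat_lit 269795753790) (nat_lit 3) (nat_lit 5) (nat_lit 5) (nat_lit 5) (nat_lit 4) (nat_lit 4) (nat_lit 310) (nat_lit 258) (nat_lit 152)) (XT.lf (nat_lit 0) (nat_lit 16599272979) (nat_lit 76) (nat_lit 47425772946) (nat_lit 152) (nat_lit 302554203295) (nat_lit 2) (nat_lit 5) (nat_lit 3) (nat_lit 5) (nat_lit 4) (nat_lit 4) (nat_lit 311) (nat_lit 258) (nat_lit 151))) (XT.nd (nat_lit 78) (nat_lit 0) (nat_lit 0) (XT.lf (nat_lit 0) (nat_lit 67292196607) (nat_lit 76) (nat_lit 21462203924) (nat_lit 152) (nat_lit 305678429514) (nat_lit 2) (nat_lit 5) (nat_lit 3) (nat_lit 5) (nat_lit 4) (nat_lit 4) (nat_lit 312) (nat_lit 258) (nat_lit 150)) (XT.lf (nat_lit 0) (nat_lit 115563721922) (nat_lit 152) (nat_lit 302578756462) (nat_lit 0) (nat_lit 6367140128) (nat_lit 2) (nat_lit 5) (nat_lit 4) (nat_lit 4) (nat_lit 2) (nat_lit 4) (nat_lit 313)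 (nat_lit 258) (nat_lit 149)))) (XT.nd (nat_lit 156) (nat_lit 0) (nat_lit 0) (XT.nd (nat_lit 78) (nat_lit 0) (nat_lit 0) (XT.lf (nat_lit 0) (nat_lit 144878672067) (nat_lit 152) (nat_lit 276415585369) (nat_lit 0) (nat_lit 35680250414) (nat_lit 2) (nat_lit 5) (nat_lit 4) (nat_lit 4) (nat_lit 2) (nat_lit 4) (nat_lit 314) (nat_lit 258) (nat_lit 148)) (XT.lf (nat_lit 0) (nat_lit 176537884040) (nat_lit 152) (nat_lit 248160993991) (nat_lit 0) (nat_lit 67337758813) (nat_lit 2) (nat_lit 5) (nat_lit 4) (nat_lit 4) (nat_lit 2) (nat_lit 4) (nat_lit 315) (nat_lit 258) (nat_lit 147))) (XT.nd (nat_lit 78) (nat_lit 0) (nat_lit 0) (XT.lf (nat_lit 0) (nat_lit 210728967984) (nat_lit 152) (nat_lit 217647547716) (nat_lit 0) (nat_lit 101527265374) (nat_lit 2) (nat_lit 5) (nat_lit 4) (nat_lit 4) (nat_lit 2) (nat_lit 4) (nat_lit 316) (nat_lit 258) (nat_lit 146)) (XT.nd (nat_lit 78) (nat_lit 0) (nat_lit 0) (XT.lf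 (nat_lit 0) (nat_lit 247654537730) (nat_lit 152) (nat_lit 184694426119) (nat_lit 0) (nat_lit 138451374580) (nat_lit 2) (nat_lit 5) (nat_lit 4) (nat_lit 4) (nat_lit 2) (nat_lit 4) (nat_lit 317) (nat_lit 258) (nat_lit 145)) (XT.lf (nat_lit 0) (nat_lit 287533411470) (nat_lit 152) (nat_lit 149106351443) (nat_lit 0) (nat_lit 178328895968) (nat_lit 2) (nat_lit 5) (nat_lit 4) (nat_lit 4) (nat_lit 2) (nat_lit 4) (nat_lit 318) (nat_lit 258) (nat_lit 144))))))) (XT.nd (nat_lit 33462) (nat_lit 0) (nat_lit 2204) (XT.nd (nat_lit 33072) (nat_lit 0) (nat_lit 4180) (XT.nd (nat_lit 32916) (nat_lit 0) (nat_lit 4712) (XT.nd (nat_lit 32838) (nat_lit 0) (nat_lit 4712) (XT.lf (nat_lit 0) (nat_lit 330601908456) (nat_lit 152) (nat_lit 110672431394) (nat_lit 0) (nat_lit 221396140776) (nat_lit 2) (nat_lit 5) (nat_lit 4) (nat_lit 4) (nat_lit 2) (nat_lit 4) (nat_lit 319) (nat_lit 258) (nat_lit 143)) (XT.lf (nat_lit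 0) (nat_lit 7795397350) (nat_lit 684) (nat_lit 587124437) (nat_lit 684) (nat_lit 587124437) (nat_lit 64) (nat_lit 3) (nat_lit 73) (nat_lit 3) (nat_lit 73) (nat_lit 5) (nat_lit 259) (nat_lit 259) (nat_lit 202))) (XT.nd (nat_lit 78) (nat_lit 0) (nat_lit 76) (XT.lf (nat_lit 76) (nat_lit 10620512863) (nat_lit 0) (nat_lit 6037353190) (nat_lit 684) (nat_lit 1975330537) (nat_lit 65) (nat_lit 5) (nat_lit 64) (nat_lit 3) (nat_lit 73) (nat_lit 5) (nat_lit 260) (nat_lit 259) (nat_lit 201)) (XT.lf (nat_lit 76) (nat_lit 4044799452) (nat_lit 0) (nat_lit 13908261577) (nat_lit 684) (nat_lit 1422563768) (nat_lit 66) (nat_lit 5) (nat_lit 65) (nat_lit 5) (nat_lit 74) (nat_lit 5) (nat_lit 261) (nat_lit 259) (nat_lit 200)))) (XT.nd (nat_lit 156) (nat_lit 0) (nat_lit 76) (XT.nd (nat_lit 78) (nat_lit 608) (nat_lit 0) (XT.lf (nat_lit 76) (nat_lit 17231686111) (nat_lit 0) (nat_lit 2333916757) (nat_lit 684) (nat_lit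 601296375) (nat_lit 66) (nat_lit 5) (nat_lit 65) (nat_lit 5) (nat_lit 74) (nat_lit 5) (nat_lit 262) (nat_lit 259) (nat_lit 199)) (XT.lf (nat_lit 0) (nat_lit 581878895) (nat_lit 684) (nat_lit 10399275260) (nat_lit 760) (nat_lit 10024953168) (nat_lit 57) (nat_lit 5) (nat_lit 66) (nat_lit 5) (nat_lit 67) (nat_lit 5) (nat_lit 263) (nat_lit 259) (nat_lit 198))) (XT.nd (nat_lit 78) (nat_lit 0) (nat_lit 0) (XT.lf (nat_lit 0) (nat_lit 1985124864) (nat_lit 684) (nat_lit 18458156502) (nat_lit 760) (nat_lit 1461466784) (nat_lit 58) (nat_lit 5) (nat_lit 67) (nat_lit 5) (nat_lit 68) (nat_lit 5) (nat_lit 264) (nat_lit 259) (nat_lit 197)) (XT.nd (nat_lit 78) (nat_lit 0) (nat_lit 76) (XT.lf (nat_lit 0) (nat_lit 3848556170) (nat_lit 684) (nat_lit 4300006769) (nat_lit 760) (nat_lit 14709425766) (nat_lit 58) (nat_lit 5) (nat_lit 67) (nat_lit 5) (nat_lit 68) (nat_lit 5) (nat_lit 265) (nat_lit 259) (nat_lit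 196)) (XT.lf (nat_lit 0) (nat_lit 6101356250) (nat_lit 684) (nat_lit 12624965560) (nat_lit 76) (nat_lit 5149248968) (nat_lit 59) (nat_lit 5) (nat_lit 68) (nat_lit 5) (nat_lit 60) (nat_lit 5) (nat_lit 266) (nat_lit 259) (nat_lit 195)))))) (XT.nd (nat_lit 312) (nat_lit 836) (nat_lit 0) (XT.nd (nat_lit 156) (nat_lit 608) (nat_lit 0) (XT.nd (nat_lit 78) (nat_lit 0) (nat_lit 0) (XT.lf (nat_lit 0) (nat_lit 3174742149) (nat_lit 684) (nat_lit 5604242952) (nat_lit 760) (nat_lit 16183433879) (nat_lit 50) (nat_lit 5) (nat_lit 59) (nat_lit 5) (nat_lit 60) (nat_lit 5) (nat_lit 267) (nat_lit 259) (nat_lit 194)) (XT.lf (nat_lit 0) (nat_lit 12010775467) (nat_lit 760) (nat_lit 5589848225) (nat_lit 76) (nat_lit 8518676936) (nat_lit 50) (nat_lit 5) (nat_lit 60) (nat_lit 5) (nat_lit 51) (nat_lit 5) (nat_lit 268) (nat_lit 259) (nat_lit 193))) (XT.nd (nat_lit 78) (nat_lit 304) (nat_lit 0) (XT.lf (nat_lit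 0) (nat_lit 12183976360) (nat_lit 304) (nat_lit 3585803664) (nat_lit 380) (nat_lit 11585596225) (nat_lit 46) (nat_lit 5) (nat_lit 50) (nat_lit 5) (nat_lit 51) (nat_lit 5) (nat_lit 269) (nat_lit 259) (nat_lit 192)) (XT.lf (nat_lit 0) (nat_lit 2785614813) (nat_lit 304) (nat_lit 17351595249) (nat_lit 380) (nat_lit 8537813891) (nat_lit 42) (nat_lit 5) (nat_lit 46) (nat_lit 5) (nat_lit 47) (nat_lit 5) (nat_lit 270) (nat_lit 259) (nat_lit 191)))) (XT.nd (nat_lit 156) (nat_lit 608) (nat_lit 0) (XT.nd (nat_lit 78) (nat_lit 228) (nat_lit 0) (XT.lf (nat_lit 0) (nat_lit 22643701935) (nat_lit 304) (nat_lit 2519898046) (nat_lit 380) (nat_lit 4921231225) (nat_lit 42) (nat_lit 5) (nat_lit 46) (nat_lit 5) (nat_lit 47) (nat_lit 5) (nat_lit 271) (nat_lit 259) (nat_lit 190)) (XT.lf (nat_lit 0) (nat_lit 12663160027) (nat_lit 228) (nat_lit 18324239973) (nat_lit 304) (nat_lit 600319212) (nat_lit 39) (nat_lit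 5) (nat_lit 42) (nat_lit 5) (nat_lit 43) (nat_lit 5) (nat_lit 272) (nat_lit 259) (nat_lit 189))) (XT.nd (nat_lit 78) (nat_lit 228) (nat_lit 0) (XT.lf (nat_lit 0) (nat_lit 1358275478) (nat_lit 304) (nat_lit 2760631520) (nat_lit 380) (nat_lit 29079671509) (nat_lit 34) (nat_lit 5) (nat_lit 38) (nat_lit 5) (nat_lit 39) (nat_lit 5) (nat_lit 273) (nat_lit 259) (nat_lit 188)) (XT.nd (nat_lit 78) (nat_lit 228) (nat_lit 0) (XT.lf (nat_lit 0) (nat_lit 9737351535) (nat_lit 380) (nat_lit 11231406280) (nat_lit 76) (nat_lit 13941970944) (nat_lit 34) (nat_lit 5) (nat_lit 39) (nat_lit 5) (nat_lit 35) (nat_lit 5) (nat_lit 274) (nat_lit 259) (nat_lit 187)) (XT.lf (nat_lit 0) (nat_lit 11329056321) (nat_lit 228) (nat_lit 4688572428) (nat_lit 304) (nat_lit 20731650634) (nat_lit 31) (nat_lit 5) (nat_lit 34) (nat_lit 5) (nat_lit 35) (nat_lit 5) (nat_lit 275) (nat_lit 259) (nat_lit 186))))))))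
noncomputable def xc88 : XT := (XT.nd (nat_lit 1326) (nat_lit 456) (nat_lit 0) (XT.nd (nat_lit 624) (nat_lit 836) (nat_lit 0) (XT.nd (nat_lit 312) (nat_lit 380) (nat_lit 0) (XT.nd (nat_lit 156) (nat_lit 228) (nat_lit 0) (XT.nd (nat_lit 78) (nat_lit 228) (nat_lit 0) (XT.lf (nat_lit 0) (nat_lit 23190009656) (nat_lit 304) (nat_lit 2847380031) (nat_lit 76) (nat_lit 12678083079) (nat_lit 31) (nat_lit 5) (nat_lit 35) (nat_lit 5) (nat_lit 32) (nat_lit 5) (nat_lit 276) (nat_lit 259) (nat_lit 185)) (XT.lf (nat_lit 0) (nat_lit 22148957122) (nat_lit 228) (nat_lit 9202383988) (nat_lit 304) (nat_lit 9466902119) (nat_lit 28) (nat_lit 5) (nat_lit 31) (nat_lit 5) (nat_lit 32) (nat_lit 5) (nat_lit 277) (nat_lit 259) (nat_lit 184))) (XT.nd (nat_lit 78) (nat_lit 76) (nat_lit 0) (XT.lf (nat_lit 0) (nat_lit 6205422793) (nat_lit 152) (nat_lit 34238440018) (nat_lit 228) (nat_lit 2631495014) (nat_lit 26) (nat_lit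 5) (nat_lit 28) (nat_lit 5) (nat_lit 29) (nat_lit 5) (nat_lit 278) (nat_lit 259) (nat_lit 183)) (XT.lf (nat_lit 0) (nat_lit 5075517042) (nat_lit 228) (nat_lit 12006578538) (nat_lit 76) (nat_lit 28403428437) (nat_lit 25) (nat_lit 5) (nat_lit 28) (nat_lit 5) (nat_lit 26) (nat_lit 5) (nat_lit 279) (nat_lit 259) (nat_lit 182)))) (XT.nd (nat_lit 156) (nat_lit 152) (nat_lit 0) (XT.nd (nat_lit 78) (nat_lit 0) (nat_lit 0) (XT.lf (nat_lit 0) (nat_lit 13565642391) (nat_lit 304) (nat_lit 32822492043) (nat_lit 76) (nat_lit 1685304705) (nat_lit 22) (nat_lit 5) (nat_lit 26) (nat_lit 5) (nat_lit 23) (nat_lit 5) (nat_lit 280) (nat_lit 259) (nat_lit 181)) (XT.lf (nat_lit 0) (nat_lit 23227766451) (nat_lit 304) (nat_lit 6042487777) (nat_lit 76) (nat_lit 21573521538) (nat_lit 22) (nat_lit 5) (nat_lit 26) (nat_lit 5) (nat_lit 23) (nat_lit 5) (nat_lit 281) (nat_lit 259) (nat_lit 180))) (XT.nd (nat_lit 78)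 (nat_lit 0) (nat_lit 0) (XT.lf (nat_lit 0) (nat_lit 23625985250) (nat_lit 152) (nat_lit 10398500304) (nat_lit 228) (nat_lit 19793198191) (nat_lit 20) (nat_lit 5) (nat_lit 22) (nat_lit 5) (nat_lit 23) (nat_lit 5) (nat_lit 282) (nat_lit 259) (nat_lit 179)) (XT.lf (nat_lit 0) (nat_lit 45940885296) (nat_lit 228) (nat_lit 1308112126) (nat_lit 76) (nat_lit 9767733562) (nat_lit 20) (nat_lit 5) (nat_lit 23) (nat_lit 5) (nat_lit 21) (nat_lit 5) (nat_lit 283) (nat_lit 259) (nat_lit 178))))) (XT.nd (nat_lit 312) (nat_lit 456) (nat_lit 0) (XT.nd (nat_lit 156) (nat_lit 0) (nat_lit 0) (XT.nd (nat_lit 78) (nat_lit 228) (nat_lit 0) (XT.lf (nat_lit 0) (nat_lit 30683637810) (nat_lit 152) (nat_lit 28774964534) (nat_lit 228) (nat_lit 980721404) (nat_lit 18) (nat_lit 5) (nat_lit 20) (nat_lit 5) (nat_lit 21) (nat_lit 5) (nat_lit 284) (nat_lit 259) (nat_lit 177)) (XT.lf (nat_lit 0) (nat_lit 1014982124) (nat_lit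 152) (nat_lit 8622297241) (nat_lit 228) (nat_lit 54489076815) (nat_lit 15) (nat_lit 5) (nat_lit 17) (nat_lit 5) (nat_lit 18) (nat_lit 5) (nat_lit 285) (nat_lit 259) (nat_lit 176))) (XT.nd (nat_lit 78) (nat_lit 0) (nat_lit 0) (XT.lf (nat_lit 0) (nat_lit 21796938201) (nat_lit 228) (nat_lit 33011738910) (nat_lit 76) (nat_lit 13262559314) (nat_lit 15) (nat_lit 5) (nat_lit 18) (nat_lit 5) (nat_lit 16) (nat_lit 5) (nat_lit 286) (nat_lit 259) (nat_lit 175)) (XT.lf (nat_lit 0) (nat_lit 35069297993) (nat_lit 228) (nat_lit 657804968) (nat_lit 76) (nat_lit 36597624360) (nat_lit 15) (nat_lit 5) (nat_lit 18) (nat_lit 5) (nat_lit 16) (nat_lit 5) (nat_lit 287) (nat_lit 259) (nat_lit 174)))) (XT.nd (nat_lit 156) (nat_lit 304) (nat_lit 0) (XT.nd (nat_lit 78) (nat_lit 0) (nat_lit 0) (XT.lf (nat_lit 0) (nat_lit 35410117921) (nat_lit 152) (nat_lit 14541124792) (nat_lit 228) (nat_lit 26939880379) (nat_lit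 13) (nat_lit 5) (nat_lit 15) (nat_lit 5) (nat_lit 16) (nat_lit 5) (nat_lit 288) (nat_lit 259) (nat_lit 173)) (XT.lf (nat_lit 0) (nat_lit 66160761147) (nat_lit 228) (nat_lit 7573239039) (nat_lit 76) (nat_lit 8081993702) (nat_lit 13) (nat_lit 5) (nat_lit 16) (nat_lit 5) (nat_lit 14) (nat_lit 4) (nat_lit 289) (nat_lit 259) (nat_lit 172))) (XT.nd (nat_lit 78) (nat_lit 228) (nat_lit 0) (XT.lf (nat_lit 0) (nat_lit 29747057805) (nat_lit 76) (nat_lit 54625131418) (nat_lit 152) (nat_lit 2727420927) (nat_lit 12) (nat_lit 5) (nat_lit 13) (nat_lit 5) (nat_lit 14) (nat_lit 4) (nat_lit 290) (nat_lit 259) (nat_lit 171)) (XT.nd (nat_lit 78) (nat_lit 152) (nat_lit 0) (XT.lf (nat_lit 0) (nat_lit 11004790520) (nat_lit 152) (nat_lit 22660313076) (nat_lit 76) (nat_lit 59125565949) (nat_lit 11) (nat_lit 5) (nat_lit 13) (nat_lit 5) (nat_lit 12) (nat_lit 5) (nat_lit 291) (nat_lit 259) (nat_lit 170)) (XT.lf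 (nat_lit 0) (nat_lit 15242845952) (nat_lit 152) (nat_lit 10732428209) (nat_lit 228) (nat_lit 72947752186) (nat_lit 9) (nat_lit 5) (nat_lit 11) (nat_lit 5) (nat_lit 12) (nat_lit 5) (nat_lit 292) (nat_lit 259) (nat_lit 169))))))) (XT.nd (nat_lit 702) (nat_lit 152) (nat_lit 0) (XT.nd (nat_lit 312) (nat_lit 228) (nat_lit 0) (XT.nd (nat_lit 156) (nat_lit 76) (nat_lit 0) (XT.nd (nat_lit 78) (nat_lit 0) (nat_lit 0) (XT.lf (nat_lit 0) (nat_lit 42759876038) (nat_lit 228) (nat_lit 48770605761) (nat_lit 76) (nat_lit 13984675907) (nat_lit 9) (nat_lit 5) (nat_lit 12) (nat_lit 5) (nat_lit 10) (nat_lit 4) (nat_lit 293) (nat_lit 259) (nat_lit 168)) (XT.lf (nat_lit 0) (nat_lit 61064656114) (nat_lit 228) (nat_lit 11254998477) (nat_lit 76) (nat_lit 40306143728) (nat_lit 9) (nat_lit 5) (nat_lit 12) (nat_lit 5) (nat_lit 10) (nat_lit 4) (nat_lit 294) (nat_lit 259) (nat_lit 167))) (XT.nd (nat_lit 78) (nat_lit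 0) (nat_lit 0) (XT.lf (nat_lit 0) (nat_lit 30223872106) (nat_lit 76) (nat_lit 51078531117) (nat_lit 152) (nat_lit 38979466289) (nat_lit 8) (nat_lit 5) (nat_lit 9) (nat_lit 5) (nat_lit 10) (nat_lit 4) (nat_lit 295) (nat_lit 259) (nat_lit 166)) (XT.lf (nat_lit 0) (nat_lit 75417858741) (nat_lit 76) (nat_lit 27934235792) (nat_lit 152) (nat_lit 25188693578) (nat_lit 8) (nat_lit 5) (nat_lit 9) (nat_lit 5) (nat_lit 10) (nat_lit 4) (nat_lit 296) (nat_lit 259) (nat_lit 165)))) (XT.nd (nat_lit 156) (nat_lit 76) (nat_lit 0) (XT.nd (nat_lit 78) (nat_lit 152) (nat_lit 0) (XT.lf (nat_lit 0) (nat_lit 124222636564) (nat_lit 76) (nat_lit 2940226079) (nat_lit 152) (nat_lit 10297709820) (nat_lit 8) (nat_lit 5) (nat_lit 9) (nat_lit 5) (nat_lit 10) (nat_lit 4) (nat_lit 297) (nat_lit 259) (nat_lit 164)) (XT.lf (nat_lit 0) (nat_lit 6461260623) (nat_lit 152) (nat_lit 116723928251) (nat_lit 76) (nat_lit 23861149020)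 (nat_lit 6) (nat_lit 5) (nat_lit 8) (nat_lit 5) (nat_lit 7) (nat_lit 4) (nat_lit 298) (nat_lit 259) (nat_lit 163))) (XT.nd (nat_lit 78) (nat_lit 76) (nat_lit 0) (XT.lf (nat_lit 0) (nat_lit 24486319646) (nat_lit 152) (nat_lit 79778515190) (nat_lit 76) (nat_lit 53111387347) (nat_lit 6) (nat_lit 5) (nat_lit 8) (nat_lit 5) (nat_lit 7) (nat_lit 4) (nat_lit 299) (nat_lit 259) (nat_lit 162)) (XT.nd (nat_lit 78) (nat_lit 76) (nat_lit 0) (XT.lf (nat_lit 0) (nat_lit 43950952926) (nat_lit 152) (nat_lit 39881533574) (nat_lit 76) (nat_lit 84700137789) (nat_lit 6) (nat_lit 5) (nat_lit 8) (nat_lit 5) (nat_lit 7) (nat_lit 4) (nat_lit 300) (nat_lit 259) (nat_lit 161)) (XT.lf (nat_lit 0) (nat_lit 3309363452) (nat_lit 76) (nat_lit 61712811424) (nat_lit 152) (nat_lit 115556897927) (nat_lit 5) (nat_lit 5) (nat_lit 6) (nat_lit 5) (nat_lit 7) (nat_lit 4) (nat_lit 301) (nat_lit 259) (nat_lit 160)))))) (XT.nd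 (nat_lit 312) (nat_lit 152) (nat_lit 0) (XT.nd (nat_lit 156) (nat_lit 0) (nat_lit 0) (XT.nd (nat_lit 78) (nat_lit 0) (nat_lit 0) (XT.lf (nat_lit 0) (nat_lit 51376089078) (nat_lit 76) (nat_lit 37095576153) (nat_lit 152) (nat_lit 105082948193) (nat_lit 5) (nat_lit 5) (nat_lit 6) (nat_lit 5) (nat_lit 7) (nat_lit 4) (nat_lit 302) (nat_lit 259) (nat_lit 159)) (XT.lf (nat_lit 0) (nat_lit 103284819548) (nat_lit 76) (nat_lit 10510313844) (nat_lit 152) (nat_lit 93773167379) (nat_lit 5) (nat_lit 5) (nat_lit 6) (nat_lit 5) (nat_lit 7) (nat_lit 4) (nat_lit 303) (nat_lit 259) (nat_lit 158))) (XT.nd (nat_lit 78) (nat_lit 0) (nat_lit 0) (XT.lf (nat_lit 0) (nat_lit 141426805447) (nat_lit 152) (nat_lit 63644177857) (nat_lit 0) (nat_lit 17617987562) (nat_lit 5) (nat_lit 5) (nat_lit 7) (nat_lit 4) (nat_lit 5) (nat_lit 4) (nat_lit 304) (nat_lit 259) (nat_lit 157)) (XT.lf (nat_lit 0) (nat_lit 171444517512)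 (nat_lit 152) (nat_lit 19933881619) (nat_lit 0) (nat_lit 47632123902) (nat_lit 5) (nat_lit 5) (nat_lit 7) (nat_lit 4) (nat_lit 5) (nat_lit 4) (nat_lit 305) (nat_lit 259) (nat_lit 156)))) (XT.nd (nat_lit 156) (nat_lit 76) (nat_lit 0) (XT.nd (nat_lit 78) (nat_lit 0) (nat_lit 0) (XT.lf (nat_lit 0) (nat_lit 28172213698) (nat_lit 76) (nat_lit 176129690381) (nat_lit 76) (nat_lit 52313985915) (nat_lit 4) (nat_lit 4) (nat_lit 5) (nat_lit 5) (nat_lit 5) (nat_lit 4) (nat_lit 306) (nat_lit 259) (nat_lit 155)) (XT.lf (nat_lit 0) (nat_lit 80836035562) (nat_lit 76) (nat_lit 159297568958) (nat_lit 76) (nat_lit 35478798885) (nat_lit 4) (nat_lit 4) (nat_lit 5) (nat_lit 5) (nat_lit 5) (nat_lit 4) (nat_lit 307) (nat_lit 259) (nat_lit 154))) (XT.nd (nat_lit 78) (nat_lit 76) (nat_lit 0) (XT.lf (nat_lit 0) (nat_lit 137710561728) (nat_lit 76) (nat_lit 141119878888) (nat_lit 76) (nat_lit 17298270290) (nat_lit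 4) (nat_lit 4) (nat_lit 5) (nat_lit 5) (nat_lit 5) (nat_lit 4) (nat_lit 308) (nat_lit 259) (nat_lit 153)) (XT.nd (nat_lit 78) (nat_lit 0) (nat_lit 0) (XT.lf (nat_lit 0) (nat_lit 2260590988) (nat_lit 152) (nat_lit 119190025335) (nat_lit 76) (nat_lit 196833951235) (nat_lit 3) (nat_lit 5) (nat_lit 5) (nat_lit 5) (nat_lit 4) (nat_lit 4) (nat_lit 309) (nat_lit 259) (nat_lit 152)) (XT.lf (nat_lit 0) (nat_lit 22784993505) (nat_lit 152) (nat_lit 77117433753) (nat_lit 76) (nat_lit 242295945050) (nat_lit 3) (nat_lit 5) (nat_lit 5) (nat_lit 5) (nat_lit 4) (nat_lit 4) (nat_lit 310) (nat_lit 259) (nat_lit 151))))))))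
noncomputable def xc89 : XT := (XT.nd (nat_lit 34164) (nat_lit 0) (nat_lit 1216) (XT.nd (nat_lit 624) (nat_lit 0) (nat_lit 0) (XT.nd (nat_lit 312) (nat_lit 0) (nat_lit 0) (XT.nd (nat_lit 156) (nat_lit 0) (nat_lit 0) (XT.nd (nat_lit 78) (nat_lit 76) (nat_lit 0) (XT.lf (nat_lit 0) (nat_lit 44950216029) (nat_lit 152) (nat_lit 31680980893) (nat_lit 76) (nat_lit 291394143394) (nat_lit 3) (nat_lit 5) (nat_lit 5) (nat_lit 5) (nat_lit 4) (nat_lit 4) (nat_lit 311) (nat_lit 259) (nat_lit 150)) (XT.lf (nat_lit 0) (nat_lit 17963531490) (nat_lit 76) (nat_lit 51204537604) (nat_lit 152) (nat_lit 326736428132) (nat_lit 2) (nat_lit 5) (nat_lit 3) (nat_lit 5) (nat_lit 4) (nat_lit 4) (nat_lit 312) (nat_lit 259) (nat_lit 149))) (XT.nd (nat_lit 78) (nat_lit 0) (nat_lit 0) (XT.lf (nat_lit 0) (nat_lit 72709198884) (nat_lit 76) (nat_lit 23165016184) (nat_lit 152) (nat_lit 330112230332) (nat_lit 2) (nat_lit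 5) (nat_lit 3) (nat_lit 5) (nat_lit 4) (nat_lit 4) (nat_lit 313) (nat_lit 259) (nat_lit 148)) (XT.lf (nat_lit 0) (nat_lit 124827045264) (nat_lit 152) (nat_lit 326753189890) (nat_lit 0) (nat_lit 6889206446) (nat_lit 2) (nat_lit 5) (nat_lit 4) (nat_lit 4) (nat_lit 2) (nat_lit 4) (nat_lit 314) (nat_lit 259) (nat_lit 147)))) (XT.nd (nat_lit 156) (nat_lit 0) (nat_lit 0) (XT.nd (nat_lit 78) (nat_lit 0) (nat_lit 0) (XT.lf (nat_lit 0) (nat_lit 156485841378) (nat_lit 152) (nat_lit 298499325634) (nat_lit 0) (nat_lit 38546425176) (nat_lit 2) (nat_lit 5) (nat_lit 4) (nat_lit 4) (nat_lit 2) (nat_lit 4) (nat_lit 315) (nat_lit 259) (nat_lit 146)) (XT.lf (nat_lit 0) (nat_lit 190676540268) (nat_lit 152) (nat_lit 267986552618) (nat_lit 0) (nat_lit 72735663526) (nat_lit 2) (nat_lit 5) (nat_lit 4) (nat_lit 4) (nat_lit 2) (nat_lit 4) (nat_lit 316) (nat_lit 259) (nat_lit 145))) (XT.nd (nat_lit 78) (nat_lit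 0) (nat_lit 0) (XT.lf (nat_lit 0) (nat_lit 227601753482) (nat_lit 152) (nat_lit 235034054410) (nat_lit 0) (nat_lit 109659524389) (nat_lit 2) (nat_lit 5) (nat_lit 4) (nat_lit 4) (nat_lit 2) (nat_lit 4) (nat_lit 317) (nat_lit 259) (nat_lit 144)) (XT.lf (nat_lit 0) (nat_lit 267480297100) (nat_lit 152) (nat_lit 199446556946) (nat_lit 0) (nat_lit 149536815829) (nat_lit 2) (nat_lit 5) (nat_lit 4) (nat_lit 4) (nat_lit 2) (nat_lit 4) (nat_lit 318) (nat_lit 259) (nat_lit 143))))) (XT.nd (nat_lit 33150) (nat_lit 0) (nat_lit 4180) (XT.nd (nat_lit 32994) (nat_lit 0) (nat_lit 4712) (XT.nd (nat_lit 32916) (nat_lit 0) (nat_lit 4712) (XT.lf (nat_lit 0) (nat_lit 310548488417) (nat_lit 152) (nat_lit 161013171353) (nat_lit 0) (nat_lit 192603847722) (nat_lit 2) (nat_lit 5) (nat_lit 4) (nat_lit 4) (nat_lit 2) (nat_lit 4) (nat_lit 319) (nat_lit 259) (nat_lit 142)) (XT.lf (nat_lit 0) (nat_lit 8689975879) (nat_lit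 684) (nat_lit 491117548) (nat_lit 684) (nat_lit 491117548) (nat_lit 64) (nat_lit 3) (nat_lit 73) (nat_lit 3) (nat_lit 73) (nat_lit 5) (nat_lit 260) (nat_lit 260) (nat_lit 200))) (XT.nd (nat_lit 78) (nat_lit 0) (nat_lit 76) (XT.lf (nat_lit 76) (nat_lit 11743680381) (nat_lit 0) (nat_lit 6752838697) (nat_lit 684) (nat_lit 1599329073) (nat_lit 65) (nat_lit 5) (nat_lit 64) (nat_lit 3) (nat_lit 73) (nat_lit 5) (nat_lit 261) (nat_lit 260) (nat_lit 199)) (XT.lf (nat_lit 76) (nat_lit 4660282090) (nat_lit 0) (nat_lit 15198760628) (nat_lit 684) (nat_lit 1040642463) (nat_lit 66) (nat_lit 5) (nat_lit 65) (nat_lit 5) (nat_lit 74) (nat_lit 5) (nat_lit 262) (nat_lit 260) (nat_lit 198)))) (XT.nd (nat_lit 156) (nat_lit 0) (nat_lit 76) (XT.nd (nat_lit 78) (nat_lit 608) (nat_lit 0) (XT.lf (nat_lit 76) (nat_lit 18880497558) (nat_lit 0) (nat_lit 2685295028) (nat_lit 684) (nat_lit 190394153) (nat_lit 66) (nat_lit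 5) (nat_lit 65) (nat_lit 5) (nat_lit 74) (nat_lit 5) (nat_lit 263) (nat_lit 260) (nat_lit 197)) (XT.lf (nat_lit 0) (nat_lit 1041919260) (nat_lit 684) (nat_lit 10931493443) (nat_lit 760) (nat_lit 10690465169) (nat_lit 57) (nat_lit 5) (nat_lit 66) (nat_lit 5) (nat_lit 67) (nat_lit 5) (nat_lit 264) (nat_lit 260) (nat_lit 196))) (XT.nd (nat_lit 78) (nat_lit 0) (nat_lit 0) (XT.lf (nat_lit 0) (nat_lit 2529700917) (nat_lit 684) (nat_lit 19625280529) (nat_lit 760) (nat_lit 1480966091) (nat_lit 58) (nat_lit 5) (nat_lit 67) (nat_lit 5) (nat_lit 68) (nat_lit 5) (nat_lit 265) (nat_lit 260) (nat_lit 195)) (XT.nd (nat_lit 78) (nat_lit 0) (nat_lit 76) (XT.lf (nat_lit 0) (nat_lit 4513631463) (nat_lit 684) (nat_lit 4357406855) (nat_lit 760) (nat_lit 15795977942) (nat_lit 58) (nat_lit 5) (nat_lit 67) (nat_lit 5) (nat_lit 68) (nat_lit 5) (nat_lit 266) (nat_lit 260) (nat_lit 194)) (XT.lf (nat_lit 0) (nat_lit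 6923526838) (nat_lit 684) (nat_lit 13341494502) (nat_lit 76) (nat_lit 5502269771) (nat_lit 59) (nat_lit 5) (nat_lit 68) (nat_lit 5) (nat_lit 60) (nat_lit 5) (nat_lit 267) (nat_lit 260) (nat_lit 193))))))) (XT.nd (nat_lit 702) (nat_lit 988) (nat_lit 0) (XT.nd (nat_lit 312) (nat_lit 836) (nat_lit 0) (XT.nd (nat_lit 156) (nat_lit 608) (nat_lit 0) (XT.nd (nat_lit 78) (nat_lit 0) (nat_lit 0) (XT.lf (nat_lit 0) (nat_lit 3709436048) (nat_lit 684) (nat_lit 6085567349) (nat_lit 760) (nat_lit 17147222067) (nat_lit 50) (nat_lit 5) (nat_lit 59) (nat_lit 5) (nat_lit 60) (nat_lit 5) (nat_lit 268) (nat_lit 260) (nat_lit 192)) (XT.lf (nat_lit 0) (nat_lit 13261623153) (nat_lit 760) (nat_lit 5760724463) (nat_lit 76) (nat_lit 9170606983) (nat_lit 50) (nat_lit 5) (nat_lit 60) (nat_lit 5) (nat_lit 51) (nat_lit 5) (nat_lit 269) (nat_lit 260) (nat_lit 191))) (XT.nd (nat_lit 78) (nat_lit 304) (nat_lit 0) (XT.lf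 (nat_lit 0) (nat_lit 13422997922) (nat_lit 304) (nat_lit 3880996252) (nat_lit 380) (nat_lit 12224892814) (nat_lit 46) (nat_lit 5) (nat_lit 50) (nat_lit 5) (nat_lit 51) (nat_lit 5) (nat_lit 270) (nat_lit 260) (nat_lit 190)) (XT.lf (nat_lit 0) (nat_lit 3275676507) (nat_lit 304) (nat_lit 18728998703) (nat_lit 380) (nat_lit 8950333858) (nat_lit 42) (nat_lit 5) (nat_lit 46) (nat_lit 5) (nat_lit 47) (nat_lit 5) (nat_lit 271) (nat_lit 260) (nat_lit 189)))) (XT.nd (nat_lit 156) (nat_lit 608) (nat_lit 0) (XT.nd (nat_lit 78) (nat_lit 228) (nat_lit 0) (XT.lf (nat_lit 0) (nat_lit 24702617080) (nat_lit 304) (nat_lit 2711560107) (nat_lit 380) (nat_lit 5064461997) (nat_lit 42) (nat_lit 5) (nat_lit 46) (nat_lit 5) (nat_lit 47) (nat_lit 5) (nat_lit 272) (nat_lit 260) (nat_lit 188)) (XT.lf (nat_lit 0) (nat_lit 13925145485) (nat_lit 228) (nat_lit 19765174013) (nat_lit 304) (nat_lit 412198599) (nat_lit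 39) (nat_lit 5) (nat_lit 42) (nat_lit 5) (nat_lit 43) (nat_lit 5) (nat_lit 273) (nat_lit 260) (nat_lit 187))) (XT.nd (nat_lit 78) (nat_lit 228) (nat_lit 0) (XT.lf (nat_lit 0) (nat_lit 1713212831) (nat_lit 304) (nat_lit 2950707328) (nat_lit 380) (nat_lit 31178868119) (nat_lit 34) (nat_lit 5) (nat_lit 38) (nat_lit 5) (nat_lit 39) (nat_lit 5) (nat_lit 274) (nat_lit 260) (nat_lit 186)) (XT.nd (nat_lit 78) (nat_lit 228) (nat_lit 0) (XT.lf (nat_lit 0) (nat_lit 10716322140) (nat_lit 380) (nat_lit 11891519389) (nat_lit 76) (nat_lit 15084911704) (nat_lit 34) (nat_lit 5) (nat_lit 39) (nat_lit 5) (nat_lit 35) (nat_lit 5) (nat_lit 275) (nat_lit 260) (nat_lit 185)) (XT.lf (nat_lit 0) (nat_lit 12463419672) (nat_lit 228) (nat_lit 5024348667) (nat_lit 304) (nat_lit 22191244057) (nat_lit 31) (nat_lit 5) (nat_lit 34) (nat_lit 5) (nat_lit 35) (nat_lit 5) (nat_lit 276) (nat_lit 260) (nat_lit 184)))))) (XT.nd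 (nat_lit 312) (nat_lit 532) (nat_lit 0) (XT.nd (nat_lit 156) (nat_lit 228) (nat_lit 0) (XT.nd (nat_lit 78) (nat_lit 228) (nat_lit 0) (XT.lf (nat_lit 0) (nat_lit 25220528042) (nat_lit 304) (nat_lit 2855138535) (nat_lit 76) (nat_lit 13727562506) (nat_lit 31) (nat_lit 5) (nat_lit 35) (nat_lit 5) (nat_lit 32) (nat_lit 5) (nat_lit 277) (nat_lit 260) (nat_lit 183)) (XT.lf (nat_lit 0) (nat_lit 24131343272) (nat_lit 228) (nat_lit 9893722271) (nat_lit 304) (nat_lit 10049693674) (nat_lit 28) (nat_lit 5) (nat_lit 31) (nat_lit 5) (nat_lit 32) (nat_lit 5) (nat_lit 278) (nat_lit 260) (nat_lit 182))) (XT.nd (nat_lit 78) (nat_lit 76) (nat_lit 0) (XT.lf (nat_lit 0) (nat_lit 6911064405) (nat_lit 152) (nat_lit 36925571359) (nat_lit 228) (nat_lit 2676273960) (nat_lit 26) (nat_lit 5) (nat_lit 28) (nat_lit 5) (nat_lit 29) (nat_lit 5) (nat_lit 279) (nat_lit 260) (nat_lit 181)) (XT.lf (nat_lit 0) (nat_lit 5630110183)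 (nat_lit 228) (nat_lit 12767941081) (nat_lit 76) (nat_lit 30718346054) (nat_lit 25) (nat_lit 5) (nat_lit 28) (nat_lit 5) (nat_lit 26) (nat_lit 5) (nat_lit 280) (nat_lit 260) (nat_lit 180)))) (XT.nd (nat_lit 156) (nat_lit 304) (nat_lit 0) (XT.nd (nat_lit 78) (nat_lit 0) (nat_lit 0) (XT.lf (nat_lit 0) (nat_lit 14792196514) (nat_lit 304) (nat_lit 35251036429) (nat_lit 76) (nat_lit 1868515233) (nat_lit 22) (nat_lit 5) (nat_lit 26) (nat_lit 5) (nat_lit 23) (nat_lit 5) (nat_lit 281) (nat_lit 260) (nat_lit 179)) (XT.lf (nat_lit 0) (nat_lit 25216823630) (nat_lit 304) (nat_lit 6343243302) (nat_lit 76) (nat_lit 23344205254) (nat_lit 22) (nat_lit 5) (nat_lit 26) (nat_lit 5) (nat_lit 23) (nat_lit 5) (nat_lit 282) (nat_lit 260) (nat_lit 178))) (XT.nd (nat_lit 78) (nat_lit 152) (nat_lit 0) (XT.lf (nat_lit 0) (nat_lit 25690770104) (nat_lit 152) (nat_lit 11179546264) (nat_lit 228) (nat_lit 21246158990)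 (nat_lit 20) (nat_lit 5) (nat_lit 22) (nat_lit 5) (nat_lit 23) (nat_lit 5) (nat_lit 283) (nat_lit 260) (nat_lit 177)) (XT.nd (nat_lit 78) (nat_lit 152) (nat_lit 0) (XT.lf (nat_lit 0) (nat_lit 49731587259) (nat_lit 228) (nat_lit 1245598634) (nat_lit 76) (nat_lit 10594714337) (nat_lit 20) (nat_lit 5) (nat_lit 23) (nat_lit 5) (nat_lit 21) (nat_lit 5) (nat_lit 284) (nat_lit 260) (nat_lit 176)) (XT.lf (nat_lit 0) (nat_lit 33298226620) (nat_lit 152) (nat_lit 31026441049) (nat_lit 228) (nat_lit 943964905) (nat_lit 18) (nat_lit 5) (nat_lit 20) (nat_lit 5) (nat_lit 21) (nat_lit 5) (nat_lit 285) (nat_lit 260) (nat_lit 175))))))))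
noncomputable def xc90 : XT := (XT.nd (nat_lit 1326) (nat_lit 228) (nat_lit 0) (XT.nd (nat_lit 624) (nat_lit 304) (nat_lit 0) (XT.nd (nat_lit 312) (nat_lit 304) (nat_lit 0) (XT.nd (nat_lit 156) (nat_lit 152) (nat_lit 0) (XT.nd (nat_lit 78) (nat_lit 0) (nat_lit 0) (XT.lf (nat_lit 0) (nat_lit 1252992276) (nat_lit 152) (nat_lit 9260983111) (nat_lit 228) (nat_lit 58736878896) (nat_lit 15) (nat_lit 5) (nat_lit 17) (nat_lit 5) (nat_lit 18) (nat_lit 5) (nat_lit 286) (nat_lit 260) (nat_lit 174)) (XT.lf (nat_lit 0) (nat_lit 23639314975) (nat_lit 228) (nat_lit 35503025993) (nat_lit 76) (nat_lit 14369362630) (nat_lit 15) (nat_lit 5) (nat_lit 18) (nat_lit 5) (nat_lit 16) (nat_lit 5) (nat_lit 287) (nat_lit 260) (nat_lit 173))) (XT.nd (nat_lit 78) (nat_lit 152) (nat_lit 0) (XT.lf (nat_lit 0) (nat_lit 37966158237) (nat_lit 228) (nat_lit 571862672) (nat_lit 76) (nat_lit 39567840393) (nat_lit 15) (nat_lit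 5) (nat_lit 18) (nat_lit 5) (nat_lit 16) (nat_lit 5) (nat_lit 288) (nat_lit 260) (nat_lit 172)) (XT.lf (nat_lit 0) (nat_lit 38375472108) (nat_lit 152) (nat_lit 15658491644) (nat_lit 228) (nat_lit 29003860344) (nat_lit 13) (nat_lit 5) (nat_lit 15) (nat_lit 5) (nat_lit 16) (nat_lit 5) (nat_lit 289) (nat_lit 260) (nat_lit 171)))) (XT.nd (nat_lit 156) (nat_lit 228) (nat_lit 0) (XT.nd (nat_lit 78) (nat_lit 76) (nat_lit 0) (XT.lf (nat_lit 0) (nat_lit 71534491123) (nat_lit 228) (nat_lit 8052786487) (nat_lit 76) (nat_lit 8769713665) (nat_lit 13) (nat_lit 5) (nat_lit 16) (nat_lit 5) (nat_lit 14) (nat_lit 4) (nat_lit 290) (nat_lit 260) (nat_lit 170)) (XT.lf (nat_lit 0) (nat_lit 32247644753) (nat_lit 76) (nat_lit 58951084764) (nat_lit 152) (nat_lit 2864790197) (nat_lit 12) (nat_lit 5) (nat_lit 13) (nat_lit 5) (nat_lit 14) (nat_lit 4) (nat_lit 291) (nat_lit 260) (nat_lit 169))) (XT.nd (nat_lit 78)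 (nat_lit 152) (nat_lit 0) (XT.lf (nat_lit 0) (nat_lit 11957615909) (nat_lit 152) (nat_lit 24358675459) (nat_lit 76) (nat_lit 63893814757) (nat_lit 11) (nat_lit 5) (nat_lit 13) (nat_lit 5) (nat_lit 12) (nat_lit 5) (nat_lit 292) (nat_lit 260) (nat_lit 168)) (XT.lf (nat_lit 0) (nat_lit 16571761884) (nat_lit 152) (nat_lit 11550319691) (nat_lit 228) (nat_lit 78711167165) (nat_lit 9) (nat_lit 5) (nat_lit 11) (nat_lit 5) (nat_lit 12) (nat_lit 5) (nat_lit 293) (nat_lit 260) (nat_lit 167))))) (XT.nd (nat_lit 312) (nat_lit 228) (nat_lit 0) (XT.nd (nat_lit 156) (nat_lit 76) (nat_lit 0) (XT.nd (nat_lit 78) (nat_lit 0) (nat_lit 0) (XT.lf (nat_lit 0) (nat_lit 46244944792) (nat_lit 228) (nat_lit 52568113031) (nat_lit 76) (nat_lit 15139931490) (nat_lit 9) (nat_lit 5) (nat_lit 12) (nat_lit 5) (nat_lit 10) (nat_lit 4) (nat_lit 294) (nat_lit 260) (nat_lit 166)) (XT.lf (nat_lit 0) (nat_lit 66009345891)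 (nat_lit 228) (nat_lit 12058971326) (nat_lit 76) (nat_lit 43564414402) (nat_lit 9) (nat_lit 5) (nat_lit 12) (nat_lit 5) (nat_lit 10) (nat_lit 4) (nat_lit 295) (nat_lit 260) (nat_lit 165))) (XT.nd (nat_lit 78) (nat_lit 0) (nat_lit 0) (XT.lf (nat_lit 0) (nat_lit 32734018302) (nat_lit 76) (nat_lit 55129125849) (nat_lit 152) (nat_lit 42038304249) (nat_lit 8) (nat_lit 5) (nat_lit 9) (nat_lit 5) (nat_lit 10) (nat_lit 4) (nat_lit 296) (nat_lit 260) (nat_lit 164)) (XT.lf (nat_lit 0) (nat_lit 81536691539) (nat_lit 76) (nat_lit 30135930435) (nat_lit 152) (nat_lit 27148678561) (nat_lit 8) (nat_lit 5) (nat_lit 9) (nat_lit 5) (nat_lit 10) (nat_lit 4) (nat_lit 297) (nat_lit 260) (nat_lit 163)))) (XT.nd (nat_lit 156) (nat_lit 76) (nat_lit 0) (XT.nd (nat_lit 78) (nat_lit 152) (nat_lit 0) (XT.lf (nat_lit 0) (nat_lit 134239525359) (nat_lit 76) (nat_lit 3144847665) (nat_lit 152) (nat_lit 11070498362) (nat_lit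 8) (nat_lit 5) (nat_lit 9) (nat_lit 5) (nat_lit 10) (nat_lit 4) (nat_lit 298) (nat_lit 260) (nat_lit 162)) (XT.lf (nat_lit 0) (nat_lit 7025578907) (nat_lit 152) (nat_lit 125982545888) (nat_lit 76) (nat_lit 25799440966) (nat_lit 6) (nat_lit 5) (nat_lit 8) (nat_lit 5) (nat_lit 7) (nat_lit 4) (nat_lit 299) (nat_lit 260) (nat_lit 161))) (XT.nd (nat_lit 78) (nat_lit 76) (nat_lit 0) (XT.lf (nat_lit 0) (nat_lit 26489130249) (nat_lit 152) (nat_lit 86087373606) (nat_lit 76) (nat_lit 57387520579) (nat_lit 6) (nat_lit 5) (nat_lit 8) (nat_lit 5) (nat_lit 7) (nat_lit 4) (nat_lit 300) (nat_lit 260) (nat_lit 160)) (XT.nd (nat_lit 78) (nat_lit 76) (nat_lit 0) (XT.lf (nat_lit 0) (nat_lit 47507681967) (nat_lit 152) (nat_lit 43004072187) (nat_lit 76) (nat_lit 91501354594) (nat_lit 6) (nat_lit 5) (nat_lit 8) (nat_lit 5) (nat_lit 7) (nat_lit 4) (nat_lit 301) (nat_lit 260) (nat_lit 159)) (XT.lf (nat_lit 0)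 (nat_lit 3639142097) (nat_lit 76) (nat_lit 66623463551) (nat_lit 152) (nat_lit 124760774173) (nat_lit 5) (nat_lit 5) (nat_lit 6) (nat_lit 5) (nat_lit 7) (nat_lit 4) (nat_lit 302) (nat_lit 260) (nat_lit 158))))))) (XT.nd (nat_lit 702) (nat_lit 76) (nat_lit 0) (XT.nd (nat_lit 312) (nat_lit 152) (nat_lit 0) (XT.nd (nat_lit 156) (nat_lit 0) (nat_lit 0) (XT.nd (nat_lit 78) (nat_lit 0) (nat_lit 0) (XT.lf (nat_lit 0) (nat_lit 55546388768) (nat_lit 76) (nat_lit 40038802998) (nat_lit 152) (nat_lit 113451921467) (nat_lit 5) (nat_lit 5) (nat_lit 6) (nat_lit 5) (nat_lit 7) (nat_lit 4) (nat_lit 303) (nat_lit 260) (nat_lit 157)) (XT.lf (nat_lit 0) (nat_lit 111603357486) (nat_lit 76) (nat_lit 11328528538) (nat_lit 152) (nat_lit 101240148009) (nat_lit 5) (nat_lit 5) (nat_lit 6) (nat_lit 5) (nat_lit 7) (nat_lit 4) (nat_lit 304) (nat_lit 260) (nat_lit 156))) (XT.nd (nat_lit 78) (nat_lit 0) (nat_lit 0)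 (XT.lf (nat_lit 0) (nat_lit 152771963746) (nat_lit 152) (nat_lit 68682813787) (nat_lit 0) (nat_lit 19047692067) (nat_lit 5) (nat_lit 5) (nat_lit 7) (nat_lit 4) (nat_lit 5) (nat_lit 4) (nat_lit 305) (nat_lit 260) (nat_lit 155)) (XT.lf (nat_lit 0) (nat_lit 185188795453) (nat_lit 152) (nat_lit 21479612242) (nat_lit 0) (nat_lit 51461458166) (nat_lit 5) (nat_lit 5) (nat_lit 7) (nat_lit 4) (nat_lit 5) (nat_lit 4) (nat_lit 306) (nat_lit 260) (nat_lit 154)))) (XT.nd (nat_lit 156) (nat_lit 76) (nat_lit 0) (XT.nd (nat_lit 78) (nat_lit 0) (nat_lit 0) (XT.lf (nat_lit 0) (nat_lit 30472842093) (nat_lit 76) (nat_lit 190200535181) (nat_lit 76) (nat_lit 56470359369) (nat_lit 4) (nat_lit 4) (nat_lit 5) (nat_lit 5) (nat_lit 5) (nat_lit 4) (nat_lit 307) (nat_lit 260) (nat_lit 153)) (XT.lf (nat_lit 0) (nat_lit 87346299239) (nat_lit 76) (nat_lit 172023290743) (nat_lit 76) (nat_lit 38290486666) (nat_lit 4)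 (nat_lit 4) (nat_lit 5) (nat_lit 5) (nat_lit 5) (nat_lit 4) (nat_lit 308) (nat_lit 260) (nat_lit 152))) (XT.nd (nat_lit 78) (nat_lit 76) (nat_lit 0) (XT.lf (nat_lit 0) (nat_lit 148767574104) (nat_lit 76) (nat_lit 152392725003) (nat_lit 76) (nat_lit 18657487349) (nat_lit 4) (nat_lit 4) (nat_lit 5) (nat_lit 5) (nat_lit 5) (nat_lit 4) (nat_lit 309) (nat_lit 260) (nat_lit 151)) (XT.nd (nat_lit 78) (nat_lit 0) (nat_lit 0) (XT.lf (nat_lit 0) (nat_lit 2463526956) (nat_lit 152) (nat_lit 128687260705) (nat_lit 76) (nat_lit 212595396634) (nat_lit 3) (nat_lit 5) (nat_lit 5) (nat_lit 5) (nat_lit 4) (nat_lit 4) (nat_lit 310) (nat_lit 260) (nat_lit 150)) (XT.lf (nat_lit 0) (nat_lit 24628245476) (nat_lit 152) (nat_lit 83251674141) (nat_lit 76) (nat_lit 261693258895) (nat_lit 3) (nat_lit 5) (nat_lit 5) (nat_lit 5) (nat_lit 4) (nat_lit 4) (nat_lit 311) (nat_lit 260) (nat_lit 149)))))) (XT.nd (nat_lit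 312) (nat_lit 0) (nat_lit 0) (XT.nd (nat_lit 156) (nat_lit 0) (nat_lit 0) (XT.nd (nat_lit 78) (nat_lit 76) (nat_lit 0) (XT.lf (nat_lit 0) (nat_lit 48565170802) (nat_lit 152) (nat_lit 34182909076) (nat_lit 76) (nat_lit 314718302866) (nat_lit 3) (nat_lit 5) (nat_lit 5) (nat_lit 5) (nat_lit 4) (nat_lit 4) (nat_lit 312) (nat_lit 260) (nat_lit 148)) (XT.lf (nat_lit 0) (nat_lit 19431749703) (nat_lit 76) (nat_lit 55287785748) (nat_lit 152) (nat_lit 352856385398) (nat_lit 2) (nat_lit 5) (nat_lit 3) (nat_lit 5) (nat_lit 4) (nat_lit 4) (nat_lit 313) (nat_lit 260) (nat_lit 147))) (XT.nd (nat_lit 78) (nat_lit 0) (nat_lit 0) (XT.lf (nat_lit 0) (nat_lit 78554764141) (nat_lit 76) (nat_lit 25006074086) (nat_lit 152) (nat_lit 356503655995) (nat_lit 2) (nat_lit 5) (nat_lit 3) (nat_lit 5) (nat_lit 4) (nat_lit 4) (nat_lit 314) (nat_lit 260) (nat_lit 146)) (XT.lf (nat_lit 0) (nat_lit 134828834390) (nat_lit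 152) (nat_lit 352866124189) (nat_lit 0) (nat_lit 7451226969) (nat_lit 2) (nat_lit 5) (nat_lit 4) (nat_lit 4) (nat_lit 2) (nat_lit 4) (nat_lit 315) (nat_lit 260) (nat_lit 145)))) (XT.nd (nat_lit 156) (nat_lit 0) (nat_lit 0) (XT.nd (nat_lit 78) (nat_lit 0) (nat_lit 0) (XT.lf (nat_lit 0) (nat_lit 169019176748) (nat_lit 152) (nat_lit 322353974562) (nat_lit 0) (nat_lit 41640216975) (nat_lit 2) (nat_lit 5) (nat_lit 4) (nat_lit 4) (nat_lit 2) (nat_lit 4) (nat_lit 316) (nat_lit 260) (nat_lit 144)) (XT.lf (nat_lit 0) (nat_lit 205944059841) (nat_lit 152) (nat_lit 289402053566) (nat_lit 0) (nat_lit 78563847890) (nat_lit 2) (nat_lit 5) (nat_lit 4) (nat_lit 4) (nat_lit 2) (nat_lit 4) (nat_lit 317) (nat_lit 260) (nat_lit 143))) (XT.nd (nat_lit 33072) (nat_lit 0) (nat_lit 4712) (XT.lf (nat_lit 0) (nat_lit 245822297790) (nat_lit 152) (nat_lit 253815090557) (nat_lit 0) (nat_lit 118440926416) (nat_lit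 2) (nat_lit 5) (nat_lit 4) (nat_lit 4) (nat_lit 2) (nat_lit 4) (nat_lit 318) (nat_lit 260) (nat_lit 142)) (XT.nd (nat_lit 78) (nat_lit 0) (nat_lit 0) (XT.lf (nat_lit 0) (nat_lit 9617467109) (nat_lit 684) (nat_lit 407827353) (nat_lit 684) (nat_lit 407827353) (nat_lit 64) (nat_lit 3) (nat_lit 73) (nat_lit 3) (nat_lit 73) (nat_lit 5) (nat_lit 261) (nat_lit 261) (nat_lit 198)) (XT.lf (nat_lit 76) (nat_lit 12917679689) (nat_lit 0) (nat_lit 7492394712) (nat_lit 684) (nat_lit 1269432543) (nat_lit 65) (nat_lit 5) (nat_lit 64) (nat_lit 3) (nat_lit 73) (nat_lit 5) (nat_lit 262) (nat_lit 261) (nat_lit 197))))))))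
noncomputable def xc91 : XT := (XT.nd (nat_lit 1404) (nat_lit 1368) (nat_lit 0) (XT.nd (nat_lit 702) (nat_lit 1520) (nat_lit 0) (XT.nd (nat_lit 312) (nat_lit 760) (nat_lit 0) (XT.nd (nat_lit 156) (nat_lit 0) (nat_lit 76) (XT.nd (nat_lit 78) (nat_lit 684) (nat_lit 0) (XT.lf (nat_lit 76) (nat_lit 5283360729) (nat_lit 0) (nat_lit 16567129007) (nat_lit 684) (nat_lit 698888368) (nat_lit 66) (nat_lit 5) (nat_lit 65) (nat_lit 5) (nat_lit 74) (nat_lit 5) (nat_lit 263) (nat_lit 261) (nat_lit 196)) (XT.lf (nat_lit 0) (nat_lit 181884010) (nat_lit 684) (nat_lit 2856327963) (nat_lit 760) (nat_lit 20437691643) (nat_lit 56) (nat_lit 5) (nat_lit 65) (nat_lit 5) (nat_lit 66) (nat_lit 5) (nat_lit 264) (nat_lit 261) (nat_lit 195))) (XT.nd (nat_lit 78) (nat_lit 0) (nat_lit 76) (XT.lf (nat_lit 0) (nat_lit 1479773874) (nat_lit 684) (nat_lit 11549048037) (nat_lit 760) (nat_lit 11428689134) (nat_lit 57) (nat_lit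 5) (nat_lit 66) (nat_lit 5) (nat_lit 67) (nat_lit 5) (nat_lit 265) (nat_lit 261) (nat_lit 194)) (XT.lf (nat_lit 0) (nat_lit 3062809212) (nat_lit 684) (nat_lit 20929932179) (nat_lit 760) (nat_lit 1515923113) (nat_lit 58) (nat_lit 5) (nat_lit 67) (nat_lit 5) (nat_lit 68) (nat_lit 5) (nat_lit 266) (nat_lit 261) (nat_lit 193)))) (XT.nd (nat_lit 156) (nat_lit 912) (nat_lit 0) (XT.nd (nat_lit 78) (nat_lit 0) (nat_lit 76) (XT.lf (nat_lit 0) (nat_lit 5180955519) (nat_lit 684) (nat_lit 4460285706) (nat_lit 760) (nat_lit 16982322599) (nat_lit 58) (nat_lit 5) (nat_lit 67) (nat_lit 5) (nat_lit 68) (nat_lit 5) (nat_lit 267) (nat_lit 261) (nat_lit 192)) (XT.lf (nat_lit 0) (nat_lit 7763813381) (nat_lit 684) (nat_lit 14157212294) (nat_lit 76) (nat_lit 5891937709) (nat_lit 59) (nat_lit 5) (nat_lit 68) (nat_lit 5) (nat_lit 60) (nat_lit 5) (nat_lit 268) (nat_lit 261) (nat_lit 191))) (XT.nd (nat_lit 78)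 (nat_lit 304) (nat_lit 0) (XT.lf (nat_lit 0) (nat_lit 4246858394) (nat_lit 684) (nat_lit 6600692024) (nat_lit 760) (nat_lit 18235317972) (nat_lit 50) (nat_lit 5) (nat_lit 59) (nat_lit 5) (nat_lit 60) (nat_lit 5) (nat_lit 269) (nat_lit 261) (nat_lit 190)) (XT.nd (nat_lit 78) (nat_lit 304) (nat_lit 0) (XT.lf (nat_lit 0) (nat_lit 14571168959) (nat_lit 760) (nat_lit 5984689742) (nat_lit 76) (nat_lit 9878909085) (nat_lit 50) (nat_lit 5) (nat_lit 60) (nat_lit 5) (nat_lit 51) (nat_lit 5) (nat_lit 270) (nat_lit 261) (nat_lit 189)) (XT.lf (nat_lit 0) (nat_lit 14723435367) (nat_lit 304) (nat_lit 4198616122) (nat_lit 380) (nat_lit 12956355510) (nat_lit 46) (nat_lit 5) (nat_lit 50) (nat_lit 5) (nat_lit 51) (nat_lit 5) (nat_lit 271) (nat_lit 261) (nat_lit 188)))))) (XT.nd (nat_lit 312) (nat_lit 608) (nat_lit 0) (XT.nd (nat_lit 156) (nat_lit 608) (nat_lit 0) (XT.nd (nat_lit 78) (nat_lit 0) (nat_lit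 0) (XT.lf (nat_lit 0) (nat_lit 3766822285) (nat_lit 304) (nat_lit 20218124356) (nat_lit 380) (nat_lit 9434446006) (nat_lit 42) (nat_lit 5) (nat_lit 46) (nat_lit 5) (nat_lit 47) (nat_lit 5) (nat_lit 272) (nat_lit 261) (nat_lit 187)) (XT.lf (nat_lit 0) (nat_lit 26890948351) (nat_lit 304) (nat_lit 2919971727) (nat_lit 380) (nat_lit 5254883252) (nat_lit 42) (nat_lit 5) (nat_lit 46) (nat_lit 5) (nat_lit 47) (nat_lit 5) (nat_lit 273) (nat_lit 261) (nat_lit 186))) (XT.nd (nat_lit 78) (nat_lit 380) (nat_lit 0) (XT.lf (nat_lit 0) (nat_lit 15252576754) (nat_lit 228) (nat_lit 21324950041) (nat_lit 304) (nat_lit 242717226) (nat_lit 39) (nat_lit 5) (nat_lit 42) (nat_lit 5) (nat_lit 43) (nat_lit 5) (nat_lit 274) (nat_lit 261) (nat_lit 185)) (XT.lf (nat_lit 0) (nat_lit 2061411246) (nat_lit 304) (nat_lit 3160379558) (nat_lit 380) (nat_lit 33478409813) (nat_lit 34) (nat_lit 5) (nat_lit 38) (nat_lit 5)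 (nat_lit 39) (nat_lit 5) (nat_lit 275) (nat_lit 261) (nat_lit 184)))) (XT.nd (nat_lit 156) (nat_lit 380) (nat_lit 0) (XT.nd (nat_lit 78) (nat_lit 228) (nat_lit 0) (XT.lf (nat_lit 0) (nat_lit 11745080657) (nat_lit 380) (nat_lit 12638451886) (nat_lit 76) (nat_lit 16315352689) (nat_lit 34) (nat_lit 5) (nat_lit 39) (nat_lit 5) (nat_lit 35) (nat_lit 5) (nat_lit 276) (nat_lit 261) (nat_lit 183)) (XT.lf (nat_lit 0) (nat_lit 13655999801) (nat_lit 228) (nat_lit 5392594953) (nat_lit 304) (nat_lit 23795985773) (nat_lit 31) (nat_lit 5) (nat_lit 34) (nat_lit 5) (nat_lit 35) (nat_lit 5) (nat_lit 277) (nat_lit 261) (nat_lit 182))) (XT.nd (nat_lit 78) (nat_lit 380) (nat_lit 0) (XT.lf (nat_lit 0) (nat_lit 27388476882) (nat_lit 304) (nat_lit 2894907729) (nat_lit 76) (nat_lit 14855973938) (nat_lit 31) (nat_lit 5) (nat_lit 35) (nat_lit 5) (nat_lit 32) (nat_lit 5) (nat_lit 278) (nat_lit 261) (nat_lit 181))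 (XT.nd (nat_lit 78) (nat_lit 152) (nat_lit 0) (XT.lf (nat_lit 0) (nat_lit 26242294476) (nat_lit 228) (nat_lit 10646766318) (nat_lit 304) (nat_lit 10704011576) (nat_lit 28) (nat_lit 5) (nat_lit 31) (nat_lit 5) (nat_lit 32) (nat_lit 5) (nat_lit 279) (nat_lit 261) (nat_lit 180)) (XT.lf (nat_lit 0) (nat_lit 7643311515) (nat_lit 152) (nat_lit 39835083579) (nat_lit 228) (nat_lit 2748279979) (nat_lit 26) (nat_lit 5) (nat_lit 28) (nat_lit 5) (nat_lit 29) (nat_lit 5) (nat_lit 280) (nat_lit 261) (nat_lit 179))))))) (XT.nd (nat_lit 702) (nat_lit 532) (nat_lit 0) (XT.nd (nat_lit 312) (nat_lit 380) (nat_lit 0) (XT.nd (nat_lit 156) (nat_lit 152) (nat_lit 0) (XT.nd (nat_lit 78) (nat_lit 228) (nat_lit 0) (XT.lf (nat_lit 0) (nat_lit 6207878203) (nat_lit 228) (nat_lit 13618625561) (nat_lit 76) (nat_lit 33212373531) (nat_lit 25) (nat_lit 5) (nat_lit 28) (nat_lit 5) (nat_lit 26) (nat_lit 5) (nat_lit 281)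 (nat_lit 261) (nat_lit 178)) (XT.lf (nat_lit 0) (nat_lit 16096716553) (nat_lit 304) (nat_lit 37902004995) (nat_lit 76) (nat_lit 2059479778) (nat_lit 22) (nat_lit 5) (nat_lit 26) (nat_lit 5) (nat_lit 23) (nat_lit 5) (nat_lit 282) (nat_lit 261) (nat_lit 177))) (XT.nd (nat_lit 78) (nat_lit 152) (nat_lit 0) (XT.lf (nat_lit 0) (nat_lit 27346340185) (nat_lit 304) (nat_lit 6694115406) (nat_lit 76) (nat_lit 25250152161) (nat_lit 22) (nat_lit 5) (nat_lit 26) (nat_lit 5) (nat_lit 23) (nat_lit 5) (nat_lit 283) (nat_lit 261) (nat_lit 176)) (XT.lf (nat_lit 0) (nat_lit 27895813976) (nat_lit 152) (nat_lit 12030327948) (nat_lit 228) (nat_lit 22833973232) (nat_lit 20) (nat_lit 5) (nat_lit 22) (nat_lit 5) (nat_lit 23) (nat_lit 5) (nat_lit 284) (nat_lit 261) (nat_lit 175)))) (XT.nd (nat_lit 156) (nat_lit 228) (nat_lit 0) (XT.nd (nat_lit 78) (nat_lit 152) (nat_lit 0) (XT.lf (nat_lit 0) (nat_lit 53809077837)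 (nat_lit 228) (nat_lit 1201931657) (nat_lit 76) (nat_lit 11481353632) (nat_lit 20) (nat_lit 5) (nat_lit 23) (nat_lit 5) (nat_lit 21) (nat_lit 5) (nat_lit 285) (nat_lit 261) (nat_lit 174)) (XT.lf (nat_lit 0) (nat_lit 36099171328) (nat_lit 152) (nat_lit 33465243020) (nat_lit 228) (nat_lit 920704481) (nat_lit 18) (nat_lit 5) (nat_lit 20) (nat_lit 5) (nat_lit 21) (nat_lit 5) (nat_lit 286) (nat_lit 261) (nat_lit 173))) (XT.nd (nat_lit 78) (nat_lit 0) (nat_lit 0) (XT.lf (nat_lit 0) (nat_lit 1487672315) (nat_lit 152) (nat_lit 9958053539) (nat_lit 228) (nat_lit 63340386766) (nat_lit 15) (nat_lit 5) (nat_lit 17) (nat_lit 5) (nat_lit 18) (nat_lit 5) (nat_lit 287) (nat_lit 261) (nat_lit 172)) (XT.nd (nat_lit 78) (nat_lit 0) (nat_lit 0) (XT.lf (nat_lit 0) (nat_lit 25615012400) (nat_lit 228) (nat_lit 38214965579) (nat_lit 76) (nat_lit 15558176533) (nat_lit 15) (nat_lit 5) (nat_lit 18) (nat_lit 5)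 (nat_lit 16) (nat_lit 5) (nat_lit 288) (nat_lit 261) (nat_lit 171)) (XT.lf (nat_lit 0) (nat_lit 41081739996) (nat_lit 228) (nat_lit 498813080) (nat_lit 76) (nat_lit 42769624007) (nat_lit 15) (nat_lit 5) (nat_lit 18) (nat_lit 5) (nat_lit 16) (nat_lit 5) (nat_lit 289) (nat_lit 261) (nat_lit 170)))))) (XT.nd (nat_lit 312) (nat_lit 228) (nat_lit 0) (XT.nd (nat_lit 156) (nat_lit 152) (nat_lit 0) (XT.nd (nat_lit 78) (nat_lit 0) (nat_lit 0) (XT.lf (nat_lit 0) (nat_lit 41559145640) (nat_lit 152) (nat_lit 16871799292) (nat_lit 228) (nat_lit 31245970898) (nat_lit 13) (nat_lit 5) (nat_lit 15) (nat_lit 5) (nat_lit 16) (nat_lit 5) (nat_lit 290) (nat_lit 261) (nat_lit 169)) (XT.lf (nat_lit 0) (nat_lit 77326582618) (nat_lit 228) (nat_lit 8588717504) (nat_lit 76) (nat_lit 9506579225) (nat_lit 13) (nat_lit 5) (nat_lit 16) (nat_lit 5) (nat_lit 14) (nat_lit 4) (nat_lit 291) (nat_lit 261) (nat_lit 168)))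 (XT.nd (nat_lit 78) (nat_lit 76) (nat_lit 0) (XT.lf (nat_lit 0) (nat_lit 34931042002) (nat_lit 76) (nat_lit 63629399626) (nat_lit 152) (nat_lit 3024679513) (nat_lit 12) (nat_lit 5) (nat_lit 13) (nat_lit 5) (nat_lit 14) (nat_lit 4) (nat_lit 292) (nat_lit 261) (nat_lit 167)) (XT.lf (nat_lit 0) (nat_lit 12976332647) (nat_lit 152) (nat_lit 26209236211) (nat_lit 76) (nat_lit 69038073308) (nat_lit 11) (nat_lit 5) (nat_lit 13) (nat_lit 5) (nat_lit 12) (nat_lit 5) (nat_lit 293) (nat_lit 261) (nat_lit 166)))) (XT.nd (nat_lit 156) (nat_lit 76) (nat_lit 0) (XT.nd (nat_lit 78) (nat_lit 0) (nat_lit 0) (XT.lf (nat_lit 0) (nat_lit 17991371366) (nat_lit 152) (nat_lit 12439449198) (nat_lit 228) (nat_lit 84945984753) (nat_lit 9) (nat_lit 5) (nat_lit 11) (nat_lit 5) (nat_lit 12) (nat_lit 5) (nat_lit 294) (nat_lit 261) (nat_lit 165)) (XT.lf (nat_lit 0) (nat_lit 49999648976) (nat_lit 228) (nat_lit 56684277787)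 (nat_lit 76) (nat_lit 16382403024) (nat_lit 9) (nat_lit 5) (nat_lit 12) (nat_lit 5) (nat_lit 10) (nat_lit 4) (nat_lit 295) (nat_lit 261) (nat_lit 164))) (XT.nd (nat_lit 78) (nat_lit 76) (nat_lit 0) (XT.lf (nat_lit 0) (nat_lit 71341120044) (nat_lit 228) (nat_lit 12941018397) (nat_lit 76) (nat_lit 47078527754) (nat_lit 9) (nat_lit 5) (nat_lit 12) (nat_lit 5) (nat_lit 10) (nat_lit 4) (nat_lit 296) (nat_lit 261) (nat_lit 163)) (XT.nd (nat_lit 78) (nat_lit 0) (nat_lit 0) (XT.lf (nat_lit 0) (nat_lit 35431817637) (nat_lit 76) (nat_lit 59508859416) (nat_lit 152) (nat_lit 45350340345) (nat_lit 8) (nat_lit 5) (nat_lit 9) (nat_lit 5) (nat_lit 10) (nat_lit 4) (nat_lit 297) (nat_lit 261) (nat_lit 162)) (XT.lf (nat_lit 0) (nat_lit 88132847113) (nat_lit 76) (nat_lit 32518474776) (nat_lit 152) (nat_lit 29273324473) (nat_lit 8) (nat_lit 5) (nat_lit 9) (nat_lit 5) (nat_lit 10) (nat_lit 4) (nat_lit 298)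 (nat_lit 261) (nat_lit 161))))))))
noncomputable def xc92 : XT := (XT.nd (nat_lit 1326) (nat_lit 0) (nat_lit 0) (XT.nd (nat_lit 624) (nat_lit 228) (nat_lit 0) (XT.nd (nat_lit 312) (nat_lit 76) (nat_lit 0) (XT.nd (nat_lit 156) (nat_lit 0) (nat_lit 0) (XT.nd (nat_lit 78) (nat_lit 152) (nat_lit 0) (XT.lf (nat_lit 0) (nat_lit 145046483915) (nat_lit 76) (nat_lit 3370203911) (nat_lit 152) (nat_lit 11912389737) (nat_lit 8) (nat_lit 5) (nat_lit 9) (nat_lit 5) (nat_lit 10) (nat_lit 4) (nat_lit 299) (nat_lit 261) (nat_lit 160)) (XT.lf (nat_lit 0) (nat_lit 7628278026) (nat_lit 152) (nat_lit 135993165485) (nat_lit 76) (nat_lit 27888602025) (nat_lit 6) (nat_lit 5) (nat_lit 8) (nat_lit 5) (nat_lit 7) (nat_lit 4) (nat_lit 300) (nat_lit 261) (nat_lit 159))) (XT.nd (nat_lit 78) (nat_lit 0) (nat_lit 0) (XT.lf (nat_lit 0) (nat_lit 28645902157) (nat_lit 152) (nat_lit 92911415278) (nat_lit 76) (nat_lit 62001860912)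 (nat_lit 6) (nat_lit 5) (nat_lit 8) (nat_lit 5) (nat_lit 7) (nat_lit 4) (nat_lit 301) (nat_lit 261) (nat_lit 158)) (XT.lf (nat_lit 0) (nat_lit 51343149754) (nat_lit 152) (nat_lit 46386112576) (nat_lit 76) (nat_lit 98843072856) (nat_lit 6) (nat_lit 5) (nat_lit 8) (nat_lit 5) (nat_lit 7) (nat_lit 4) (nat_lit 302) (nat_lit 261) (nat_lit 157)))) (XT.nd (nat_lit 156) (nat_lit 0) (nat_lit 0) (XT.nd (nat_lit 78) (nat_lit 0) (nat_lit 0) (XT.lf (nat_lit 0) (nat_lit 3986025839) (nat_lit 76) (nat_lit 71930730221) (nat_lit 152) (nat_lit 134706763346) (nat_lit 5) (nat_lit 5) (nat_lit 6) (nat_lit 5) (nat_lit 7) (nat_lit 4) (nat_lit 303) (nat_lit 261) (nat_lit 156)) (XT.lf (nat_lit 0) (nat_lit 60041722438) (nat_lit 76) (nat_lit 43220971669) (nat_lit 152) (nat_lit 122495785591) (nat_lit 5) (nat_lit 5) (nat_lit 6) (nat_lit 5) (nat_lit 7) (nat_lit 4) (nat_lit 304) (nat_lit 261) (nat_lit 155))) (XT.nd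 (nat_lit 78) (nat_lit 0) (nat_lit 0) (XT.lf (nat_lit 0) (nat_lit 120579424759) (nat_lit 76) (nat_lit 12215426035) (nat_lit 152) (nat_lit 109309462078) (nat_lit 5) (nat_lit 5) (nat_lit 6) (nat_lit 5) (nat_lit 7) (nat_lit 4) (nat_lit 305) (nat_lit 261) (nat_lit 154)) (XT.lf (nat_lit 0) (nat_lit 165020310234) (nat_lit 152) (nat_lit 74132087125) (nat_lit 0) (nat_lit 20588881831) (nat_lit 5) (nat_lit 5) (nat_lit 7) (nat_lit 4) (nat_lit 5) (nat_lit 4) (nat_lit 306) (nat_lit 261) (nat_lit 153))))) (XT.nd (nat_lit 312) (nat_lit 152) (nat_lit 0) (XT.nd (nat_lit 156) (nat_lit 0) (nat_lit 0) (XT.nd (nat_lit 78) (nat_lit 76) (nat_lit 0) (XT.lf (nat_lit 0) (nat_lit 200028518893) (nat_lit 152) (nat_lit 23155988846) (nat_lit 0) (nat_lit 55594462226) (nat_lit 5) (nat_lit 5) (nat_lit 7) (nat_lit 4) (nat_lit 5) (nat_lit 4) (nat_lit 307) (nat_lit 261) (nat_lit 152)) (XT.lf (nat_lit 0) (nat_lit 32950836899)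 (nat_lit 76) (nat_lit 205399833799) (nat_lit 76) (nat_lit 60963343554) (nat_lit 4) (nat_lit 4) (nat_lit 5) (nat_lit 5) (nat_lit 5) (nat_lit 4) (nat_lit 308) (nat_lit 261) (nat_lit 151))) (XT.nd (nat_lit 78) (nat_lit 0) (nat_lit 0) (XT.lf (nat_lit 0) (nat_lit 94371195251) (nat_lit 76) (nat_lit 185769650116) (nat_lit 76) (nat_lit 41330906559) (nat_lit 4) (nat_lit 4) (nat_lit 5) (nat_lit 5) (nat_lit 5) (nat_lit 4) (nat_lit 309) (nat_lit 261) (nat_lit 150)) (XT.lf (nat_lit 0) (nat_lit 160703417136) (nat_lit 76) (nat_lit 164569787553) (nat_lit 76) (nat_lit 20128957595) (nat_lit 4) (nat_lit 4) (nat_lit 5) (nat_lit 5) (nat_lit 5) (nat_lit 4) (nat_lit 310) (nat_lit 261) (nat_lit 149)))) (XT.nd (nat_lit 156) (nat_lit 76) (nat_lit 0) (XT.nd (nat_lit 78) (nat_lit 0) (nat_lit 0) (XT.lf (nat_lit 0) (nat_lit 2679546604) (nat_lit 152) (nat_lit 138949691272) (nat_lit 76) (nat_lit 229615656365) (nat_lit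 3) (nat_lit 5) (nat_lit 5) (nat_lit 5) (nat_lit 4) (nat_lit 4) (nat_lit 311) (nat_lit 261) (nat_lit 148)) (XT.lf (nat_lit 0) (nat_lit 26616039827) (nat_lit 152) (nat_lit 89881668916) (nat_lit 76) (nat_lit 282640412200) (nat_lit 3) (nat_lit 5) (nat_lit 5) (nat_lit 5) (nat_lit 4) (nat_lit 4) (nat_lit 312) (nat_lit 261) (nat_lit 147))) (XT.nd (nat_lit 78) (nat_lit 76) (nat_lit 0) (XT.lf (nat_lit 0) (nat_lit 52466620312) (nat_lit 152) (nat_lit 36889635175) (nat_lit 76) (nat_lit 339906593571) (nat_lit 3) (nat_lit 5) (nat_lit 5) (nat_lit 5) (nat_lit 4) (nat_lit 4) (nat_lit 313) (nat_lit 261) (nat_lit 146)) (XT.nd (nat_lit 78) (nat_lit 0) (nat_lit 0) (XT.lf (nat_lit 0) (nat_lit 21012983517) (nat_lit 76) (nat_lit 59699564726) (nat_lit 152) (nat_lit 381068643671) (nat_lit 2) (nat_lit 5) (nat_lit 3) (nat_lit 5) (nat_lit 4) (nat_lit 4) (nat_lit 314) (nat_lit 261) (nat_lit 145)) (XT.lf (nat_lit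 0) (nat_lit 84863861790) (nat_lit 76) (nat_lit 26996149010) (nat_lit 152) (nat_lit 385008899809) (nat_lit 2) (nat_lit 5) (nat_lit 3) (nat_lit 5) (nat_lit 4) (nat_lit 4) (nat_lit 315) (nat_lit 261) (nat_lit 144))))))) (XT.nd (nat_lit 33774) (nat_lit 0) (nat_lit 2432) (XT.nd (nat_lit 33384) (nat_lit 0) (nat_lit 4104) (XT.nd (nat_lit 156) (nat_lit 0) (nat_lit 0) (XT.nd (nat_lit 78) (nat_lit 0) (nat_lit 0) (XT.lf (nat_lit 0) (nat_lit 145628537494) (nat_lit 152) (nat_lit 381071990862) (nat_lit 0) (nat_lit 8056656409) (nat_lit 2) (nat_lit 5) (nat_lit 4) (nat_lit 4) (nat_lit 2) (nat_lit 4) (nat_lit 316) (nat_lit 261) (nat_lit 143)) (XT.lf (nat_lit 0) (nat_lit 182553114918) (nat_lit 152) (nat_lit 348120604321) (nat_lit 0) (nat_lit 44980074410) (nat_lit 2) (nat_lit 5) (nat_lit 4) (nat_lit 4) (nat_lit 2) (nat_lit 4) (nat_lit 317) (nat_lit 261) (nat_lit 142))) (XT.nd (nat_lit 33150) (nat_lit 0)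 (nat_lit 4712) (XT.lf (nat_lit 0) (nat_lit 222431069841) (nat_lit 152) (nat_lit 312534136179) (nat_lit 0) (nat_lit 84856955792) (nat_lit 2) (nat_lit 5) (nat_lit 4) (nat_lit 4) (nat_lit 2) (nat_lit 4) (nat_lit 318) (nat_lit 261) (nat_lit 141)) (XT.lf (nat_lit 0) (nat_lit 10586018422) (nat_lit 684) (nat_lit 335361293) (nat_lit 684) (nat_lit 335361293) (nat_lit 64) (nat_lit 3) (nat_lit 73) (nat_lit 3) (nat_lit 73) (nat_lit 5) (nat_lit 262) (nat_lit 262) (nat_lit 196)))) (XT.nd (nat_lit 156) (nat_lit 608) (nat_lit 0) (XT.nd (nat_lit 78) (nat_lit 0) (nat_lit 76) (XT.lf (nat_lit 76) (nat_lit 14152144199) (nat_lit 0) (nat_lit 8262678709) (nat_lit 684) (nat_lit 978460692) (nat_lit 65) (nat_lit 5) (nat_lit 64) (nat_lit 3) (nat_lit 73) (nat_lit 5) (nat_lit 263) (nat_lit 262) (nat_lit 195)) (XT.lf (nat_lit 76) (nat_lit 5920583832) (nat_lit 0) (nat_lit 18023215658) (nat_lit 684) (nat_lit 390425730)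 (nat_lit 66) (nat_lit 5) (nat_lit 65) (nat_lit 5) (nat_lit 74) (nat_lit 5) (nat_lit 264) (nat_lit 262) (nat_lit 194))) (XT.nd (nat_lit 78) (nat_lit 0) (nat_lit 76) (XT.lf (nat_lit 0) (nat_lit 523019429) (nat_lit 684) (nat_lit 2873752272) (nat_lit 760) (nat_lit 21939252745) (nat_lit 56) (nat_lit 5) (nat_lit 65) (nat_lit 5) (nat_lit 66) (nat_lit 5) (nat_lit 265) (nat_lit 262) (nat_lit 193)) (XT.nd (nat_lit 78) (nat_lit 0) (nat_lit 76) (XT.lf (nat_lit 0) (nat_lit 1902083317) (nat_lit 684) (nat_lit 12252665911) (nat_lit 760) (nat_lit 12242664265) (nat_lit 57) (nat_lit 5) (nat_lit 66) (nat_lit 5) (nat_lit 67) (nat_lit 5) (nat_lit 266) (nat_lit 262) (nat_lit 192)) (XT.lf (nat_lit 0) (nat_lit 3591383522) (nat_lit 684) (nat_lit 22376814071) (nat_lit 760) (nat_lit 1565591797) (nat_lit 58) (nat_lit 5) (nat_lit 67) (nat_lit 5) (nat_lit 68) (nat_lit 5) (nat_lit 267) (nat_lit 262) (nat_lit 191))))))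 (XT.nd (nat_lit 312) (nat_lit 1216) (nat_lit 0) (XT.nd (nat_lit 156) (nat_lit 608) (nat_lit 0) (XT.nd (nat_lit 78) (nat_lit 0) (nat_lit 76) (XT.lf (nat_lit 0) (nat_lit 5857977862) (nat_lit 684) (nat_lit 4606448672) (nat_lit 760) (nat_lit 18274607328) (nat_lit 58) (nat_lit 5) (nat_lit 67) (nat_lit 5) (nat_lit 68) (nat_lit 5) (nat_lit 268) (nat_lit 262) (nat_lit 190)) (XT.lf (nat_lit 0) (nat_lit 8630464059) (nat_lit 684) (nat_lit 15074081315) (nat_lit 76) (nat_lit 6319985418) (nat_lit 59) (nat_lit 5) (nat_lit 68) (nat_lit 5) (nat_lit 60) (nat_lit 5) (nat_lit 269) (nat_lit 262) (nat_lit 189))) (XT.nd (nat_lit 78) (nat_lit 0) (nat_lit 0) (XT.lf (nat_lit 0) (nat_lit 4792940623) (nat_lit 684) (nat_lit 7152992317) (nat_lit 760) (nat_lit 19450931938) (nat_lit 50) (nat_lit 5) (nat_lit 59) (nat_lit 5) (nat_lit 60) (nat_lit 5) (nat_lit 270) (nat_lit 262) (nat_lit 188)) (XT.lf (nat_lit 0) (nat_lit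 15950010585) (nat_lit 760) (nat_lit 6260367632) (nat_lit 76) (nat_lit 10647491310) (nat_lit 50) (nat_lit 5) (nat_lit 60) (nat_lit 5) (nat_lit 51) (nat_lit 5) (nat_lit 271) (nat_lit 262) (nat_lit 187)))) (XT.nd (nat_lit 156) (nat_lit 608) (nat_lit 0) (XT.nd (nat_lit 78) (nat_lit 304) (nat_lit 0) (XT.lf (nat_lit 0) (nat_lit 16095581125) (nat_lit 304) (nat_lit 4540626957) (nat_lit 380) (nat_lit 13781505301) (nat_lit 46) (nat_lit 5) (nat_lit 50) (nat_lit 5) (nat_lit 51) (nat_lit 5) (nat_lit 272) (nat_lit 262) (nat_lit 186)) (XT.lf (nat_lit 0) (nat_lit 4264577239) (nat_lit 304) (nat_lit 21827691723) (nat_lit 380) (nat_lit 9990372330) (nat_lit 42) (nat_lit 5) (nat_lit 46) (nat_lit 5) (nat_lit 47) (nat_lit 5) (nat_lit 273) (nat_lit 262) (nat_lit 185))) (XT.nd (nat_lit 78) (nat_lit 608) (nat_lit 0) (XT.lf (nat_lit 0) (nat_lit 29224084563) (nat_lit 304) (nat_lit 3146270778) (nat_lit 380) (nat_lit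 5491172657) (nat_lit 42) (nat_lit 5) (nat_lit 46) (nat_lit 5) (nat_lit 47) (nat_lit 5) (nat_lit 274) (nat_lit 262) (nat_lit 184)) (XT.nd (nat_lit 78) (nat_lit 380) (nat_lit 0) (XT.lf (nat_lit 0) (nat_lit 16655755828) (nat_lit 228) (nat_lit 23012566506) (nat_lit 304) (nat_lit 88560135) (nat_lit 39) (nat_lit 5) (nat_lit 42) (nat_lit 5) (nat_lit 43) (nat_lit 5) (nat_lit 275) (nat_lit 262) (nat_lit 183)) (XT.lf (nat_lit 0) (nat_lit 2407343854) (nat_lit 304) (nat_lit 3390589589) (nat_lit 380) (nat_lit 35989700641) (nat_lit 34) (nat_lit 5) (nat_lit 38) (nat_lit 5) (nat_lit 39) (nat_lit 5) (nat_lit 276) (nat_lit 262) (nat_lit 182))))))))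
noncomputable def xc93 : XT := (XT.nd (nat_lit 1326) (nat_lit 608) (nat_lit 0) (XT.nd (nat_lit 624) (nat_lit 760) (nat_lit 0) (XT.nd (nat_lit 312) (nat_lit 456) (nat_lit 0) (XT.nd (nat_lit 156) (nat_lit 228) (nat_lit 0) (XT.nd (nat_lit 78) (nat_lit 228) (nat_lit 0) (XT.lf (nat_lit 0) (nat_lit 12831680204) (nat_lit 380) (nat_lit 13474297367) (nat_lit 76) (nat_lit 17640855294) (nat_lit 34) (nat_lit 5) (nat_lit 39) (nat_lit 5) (nat_lit 35) (nat_lit 5) (nat_lit 277) (nat_lit 262) (nat_lit 181)) (XT.lf (nat_lit 0) (nat_lit 14916095144) (nat_lit 228) (nat_lit 5795108853) (nat_lit 304) (nat_lit 25553438805) (nat_lit 31) (nat_lit 5) (nat_lit 34) (nat_lit 5) (nat_lit 35) (nat_lit 5) (nat_lit 278) (nat_lit 262) (nat_lit 180))) (XT.nd (nat_lit 78) (nat_lit 228) (nat_lit 0) (XT.lf (nat_lit 0) (nat_lit 29708418713) (nat_lit 304) (nat_lit 2964770333) (nat_lit 76) (nat_lit 16070348999) (nat_lit 31)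 (nat_lit 5) (nat_lit 35) (nat_lit 5) (nat_lit 32) (nat_lit 5) (nat_lit 279) (nat_lit 262) (nat_lit 179)) (XT.lf (nat_lit 0) (nat_lit 28496379459) (nat_lit 228) (nat_lit 11465539743) (nat_lit 304) (nat_lit 11432025239) (nat_lit 28) (nat_lit 5) (nat_lit 31) (nat_lit 5) (nat_lit 32) (nat_lit 5) (nat_lit 280) (nat_lit 262) (nat_lit 178)))) (XT.nd (nat_lit 156) (nat_lit 228) (nat_lit 0) (XT.nd (nat_lit 78) (nat_lit 76) (nat_lit 0) (XT.lf (nat_lit 0) (nat_lit 8408550406) (nat_lit 152) (nat_lit 42983709977) (nat_lit 228) (nat_lit 2846318048) (nat_lit 26) (nat_lit 5) (nat_lit 28) (nat_lit 5) (nat_lit 29) (nat_lit 5) (nat_lit 281) (nat_lit 262) (nat_lit 177)) (XT.lf (nat_lit 0) (nat_lit 6813698449) (nat_lit 228) (nat_lit 14561724311) (nat_lit 76) (nat_lit 35900707543) (nat_lit 25) (nat_lit 5) (nat_lit 28) (nat_lit 5) (nat_lit 26) (nat_lit 5) (nat_lit 282) (nat_lit 262) (nat_lit 176))) (XT.nd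 (nat_lit 78) (nat_lit 0) (nat_lit 0) (XT.lf (nat_lit 0) (nat_lit 17488315604) (nat_lit 304) (nat_lit 40789177098) (nat_lit 76) (nat_lit 2259803426) (nat_lit 22) (nat_lit 5) (nat_lit 26) (nat_lit 5) (nat_lit 23) (nat_lit 5) (nat_lit 283) (nat_lit 262) (nat_lit 175)) (XT.lf (nat_lit 0) (nat_lit 29630215666) (nat_lit 304) (nat_lit 7095396216) (nat_lit 76) (nat_lit 27303095136) (nat_lit 22) (nat_lit 5) (nat_lit 26) (nat_lit 5) (nat_lit 23) (nat_lit 5) (nat_lit 284) (nat_lit 262) (nat_lit 174))))) (XT.nd (nat_lit 312) (nat_lit 228) (nat_lit 0) (XT.nd (nat_lit 156) (nat_lit 380) (nat_lit 0) (XT.nd (nat_lit 78) (nat_lit 0) (nat_lit 0) (XT.lf (nat_lit 0) (nat_lit 30255893244) (nat_lit 152) (nat_lit 12955389629) (nat_lit 228) (nat_lit 24564773329) (nat_lit 20) (nat_lit 5) (nat_lit 22) (nat_lit 5) (nat_lit 23) (nat_lit 5) (nat_lit 285) (nat_lit 262) (nat_lit 173)) (XT.lf (nat_lit 0) (nat_lit 58198649397)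 (nat_lit 228) (nat_lit 1175216790) (nat_lit 76) (nat_lit 12433351419) (nat_lit 20) (nat_lit 5) (nat_lit 23) (nat_lit 5) (nat_lit 21) (nat_lit 5) (nat_lit 286) (nat_lit 262) (nat_lit 172))) (XT.nd (nat_lit 78) (nat_lit 228) (nat_lit 0) (XT.lf (nat_lit 0) (nat_lit 39104634679) (nat_lit 152) (nat_lit 36105328278) (nat_lit 228) (nat_lit 909674954) (nat_lit 18) (nat_lit 5) (nat_lit 20) (nat_lit 5) (nat_lit 21) (nat_lit 5) (nat_lit 287) (nat_lit 262) (nat_lit 171)) (XT.lf (nat_lit 0) (nat_lit 1721947294) (nat_lit 152) (nat_lit 10717139334) (nat_lit 228) (nat_lit 68325791197) (nat_lit 15) (nat_lit 5) (nat_lit 17) (nat_lit 5) (nat_lit 18) (nat_lit 5) (nat_lit 288) (nat_lit 262) (nat_lit 170)))) (XT.nd (nat_lit 156) (nat_lit 228) (nat_lit 0) (XT.nd (nat_lit 78) (nat_lit 0) (nat_lit 0) (XT.lf (nat_lit 0) (nat_lit 27736703299) (nat_lit 228) (nat_lit 41162164116) (nat_lit 76) (nat_lit 16836493973)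 (nat_lit 15) (nat_lit 5) (nat_lit 18) (nat_lit 5) (nat_lit 16) (nat_lit 5) (nat_lit 289) (nat_lit 262) (nat_lit 169)) (XT.lf (nat_lit 0) (nat_lit 44435399479) (nat_lit 228) (nat_lit 436867471) (nat_lit 76) (nat_lit 46222363665) (nat_lit 15) (nat_lit 5) (nat_lit 18) (nat_lit 5) (nat_lit 16) (nat_lit 5) (nat_lit 290) (nat_lit 262) (nat_lit 168))) (XT.nd (nat_lit 78) (nat_lit 76) (nat_lit 0) (XT.lf (nat_lit 0) (nat_lit 44981301642) (nat_lit 152) (nat_lit 18187788363) (nat_lit 228) (nat_lit 33678606154) (nat_lit 13) (nat_lit 5) (nat_lit 15) (nat_lit 5) (nat_lit 16) (nat_lit 5) (nat_lit 291) (nat_lit 262) (nat_lit 167)) (XT.nd (nat_lit 78) (nat_lit 76) (nat_lit 0) (XT.lf (nat_lit 0) (nat_lit 83572150418) (nat_lit 228) (nat_lit 9182972052) (nat_lit 76) (nat_lit 10297359736) (nat_lit 13) (nat_lit 5) (nat_lit 16) (nat_lit 5) (nat_lit 14) (nat_lit 4) (nat_lit 292) (nat_lit 262) (nat_lit 166))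 (XT.lf (nat_lit 0) (nat_lit 37814333377) (nat_lit 76) (nat_lit 68687368263) (nat_lit 152) (nat_lit 3207245524) (nat_lit 12) (nat_lit 5) (nat_lit 13) (nat_lit 5) (nat_lit 14) (nat_lit 4) (nat_lit 293) (nat_lit 262) (nat_lit 165))))))) (XT.nd (nat_lit 702) (nat_lit 152) (nat_lit 0) (XT.nd (nat_lit 312) (nat_lit 228) (nat_lit 0) (XT.nd (nat_lit 156) (nat_lit 0) (nat_lit 0) (XT.nd (nat_lit 78) (nat_lit 152) (nat_lit 0) (XT.lf (nat_lit 0) (nat_lit 14067686399) (nat_lit 152) (nat_lit 28221841634) (nat_lit 76) (nat_lit 74589199909) (nat_lit 11) (nat_lit 5) (nat_lit 13) (nat_lit 5) (nat_lit 12) (nat_lit 5) (nat_lit 294) (nat_lit 262) (nat_lit 164)) (XT.lf (nat_lit 0) (nat_lit 19511158212) (nat_lit 152) (nat_lit 13404687379) (nat_lit 228) (nat_lit 91688443552) (nat_lit 9) (nat_lit 5) (nat_lit 11) (nat_lit 5) (nat_lit 12) (nat_lit 5) (nat_lit 295) (nat_lit 262) (nat_lit 163))) (XT.nd (nat_lit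 78) (nat_lit 0) (nat_lit 0) (XT.lf (nat_lit 0) (nat_lit 54046867637) (nat_lit 228) (nat_lit 61142473126) (nat_lit 76) (nat_lit 17719810266) (nat_lit 9) (nat_lit 5) (nat_lit 12) (nat_lit 5) (nat_lit 10) (nat_lit 4) (nat_lit 296) (nat_lit 262) (nat_lit 162)) (XT.lf (nat_lit 0) (nat_lit 77092156632) (nat_lit 228) (nat_lit 13905423124) (nat_lit 76) (nat_lit 50869638677) (nat_lit 9) (nat_lit 5) (nat_lit 12) (nat_lit 5) (nat_lit 10) (nat_lit 4) (nat_lit 297) (nat_lit 262) (nat_lit 161)))) (XT.nd (nat_lit 156) (nat_lit 152) (nat_lit 0) (XT.nd (nat_lit 78) (nat_lit 0) (nat_lit 0) (XT.lf (nat_lit 0) (nat_lit 38334159575) (nat_lit 76) (nat_lit 64243336602) (nat_lit 152) (nat_lit 48934619079) (nat_lit 8) (nat_lit 5) (nat_lit 9) (nat_lit 5) (nat_lit 10) (nat_lit 4) (nat_lit 298) (nat_lit 262) (nat_lit 160)) (XT.lf (nat_lit 0) (nat_lit 95246249444) (nat_lit 76) (nat_lit 35095664270) (nat_lit 152)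 (nat_lit 31574682566) (nat_lit 8) (nat_lit 5) (nat_lit 9) (nat_lit 5) (nat_lit 10) (nat_lit 4) (nat_lit 299) (nat_lit 262) (nat_lit 159))) (XT.nd (nat_lit 78) (nat_lit 152) (nat_lit 0) (XT.lf (nat_lit 0) (nat_lit 156708327224) (nat_lit 76) (nat_lit 3617330883) (nat_lit 152) (nat_lit 12827873634) (nat_lit 8) (nat_lit 5) (nat_lit 9) (nat_lit 5) (nat_lit 10) (nat_lit 4) (nat_lit 300) (nat_lit 262) (nat_lit 158)) (XT.nd (nat_lit 78) (nat_lit 0) (nat_lit 0) (XT.lf (nat_lit 0) (nat_lit 8273393498) (nat_lit 152) (nat_lit 146814333339) (nat_lit 76) (nat_lit 30141300082) (nat_lit 6) (nat_lit 5) (nat_lit 8) (nat_lit 5) (nat_lit 7) (nat_lit 4) (nat_lit 301) (nat_lit 262) (nat_lit 157)) (XT.lf (nat_lit 0) (nat_lit 30969845838) (nat_lit 152) (nat_lit 100290360551) (nat_lit 76) (nat_lit 66982018947) (nat_lit 6) (nat_lit 5) (nat_lit 8) (nat_lit 5) (nat_lit 7) (nat_lit 4) (nat_lit 302) (nat_lit 262)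 (nat_lit 156)))))) (XT.nd (nat_lit 312) (nat_lit 76) (nat_lit 0) (XT.nd (nat_lit 156) (nat_lit 0) (nat_lit 0) (XT.nd (nat_lit 78) (nat_lit 76) (nat_lit 0) (XT.lf (nat_lit 0) (nat_lit 55480482761) (nat_lit 152) (nat_lit 50047031259) (nat_lit 76) (nat_lit 106769045687) (nat_lit 6) (nat_lit 5) (nat_lit 8) (nat_lit 5) (nat_lit 7) (nat_lit 4) (nat_lit 303) (nat_lit 262) (nat_lit 155)) (XT.lf (nat_lit 0) (nat_lit 4352706580) (nat_lit 76) (nat_lit 77665803852) (nat_lit 152) (nat_lit 145453406643) (nat_lit 5) (nat_lit 5) (nat_lit 6) (nat_lit 5) (nat_lit 7) (nat_lit 4) (nat_lit 304) (nat_lit 262) (nat_lit 154))) (XT.nd (nat_lit 78) (nat_lit 0) (nat_lit 0) (XT.lf (nat_lit 0) (nat_lit 64889318265) (nat_lit 76) (nat_lit 46660700527) (nat_lit 152) (nat_lit 132267765316) (nat_lit 5) (nat_lit 5) (nat_lit 6) (nat_lit 5) (nat_lit 7) (nat_lit 4) (nat_lit 305) (nat_lit 262) (nat_lit 153)) (XT.lf (nat_lit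 0) (nat_lit 130266758399) (nat_lit 76) (nat_lit 13176040789) (nat_lit 152) (nat_lit 118028586525) (nat_lit 5) (nat_lit 5) (nat_lit 6) (nat_lit 5) (nat_lit 7) (nat_lit 4) (nat_lit 306) (nat_lit 262) (nat_lit 152)))) (XT.nd (nat_lit 156) (nat_lit 76) (nat_lit 0) (XT.nd (nat_lit 78) (nat_lit 0) (nat_lit 0) (XT.lf (nat_lit 0) (nat_lit 178244731167) (nat_lit 152) (nat_lit 80023772266) (nat_lit 0) (nat_lit 22250888125) (nat_lit 5) (nat_lit 5) (nat_lit 7) (nat_lit 4) (nat_lit 5) (nat_lit 4) (nat_lit 307) (nat_lit 262) (nat_lit 151)) (XT.lf (nat_lit 0) (nat_lit 216051907918) (nat_lit 152) (nat_lit 24972466261) (nat_lit 0) (nat_lit 60055811563) (nat_lit 5) (nat_lit 5) (nat_lit 7) (nat_lit 4) (nat_lit 5) (nat_lit 4) (nat_lit 308) (nat_lit 262) (nat_lit 150))) (XT.nd (nat_lit 78) (nat_lit 0) (nat_lit 0) (XT.lf (nat_lit 0) (nat_lit 35621340954) (nat_lit 76) (nat_lit 221817465053) (nat_lit 76) (nat_lit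 65819282297) (nat_lit 4) (nat_lit 4) (nat_lit 5) (nat_lit 5) (nat_lit 5) (nat_lit 4) (nat_lit 309) (nat_lit 262) (nat_lit 149)) (XT.nd (nat_lit 78) (nat_lit 0) (nat_lit 0) (XT.lf (nat_lit 0) (nat_lit 101952777078) (nat_lit 76) (nat_lit 200617930042) (nat_lit 76) (nat_lit 44617815434) (nat_lit 4) (nat_lit 4) (nat_lit 5) (nat_lit 5) (nat_lit 5) (nat_lit 4) (nat_lit 310) (nat_lit 262) (nat_lit 148)) (XT.lf (nat_lit 0) (nat_lit 173589214772) (nat_lit 76) (nat_lit 177723063073) (nat_lit 76) (nat_lit 21721159712) (nat_lit 4) (nat_lit 4) (nat_lit 5) (nat_lit 5) (nat_lit 5) (nat_lit 4) (nat_lit 311) (nat_lit 262) (nat_lit 147))))))))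
noncomputable def xc94 : XT := (XT.nd (nat_lit 34476) (nat_lit 0) (nat_lit 988) (XT.nd (nat_lit 33774) (nat_lit 0) (nat_lit 3648) (XT.nd (nat_lit 312) (nat_lit 0) (nat_lit 0) (XT.nd (nat_lit 156) (nat_lit 76) (nat_lit 0) (XT.nd (nat_lit 78) (nat_lit 0) (nat_lit 0) (XT.lf (nat_lit 0) (nat_lit 2910146178) (nat_lit 152) (nat_lit 150037759947) (nat_lit 76) (nat_lit 247995735350) (nat_lit 3) (nat_lit 5) (nat_lit 5) (nat_lit 5) (nat_lit 4) (nat_lit 4) (nat_lit 312) (nat_lit 262) (nat_lit 146)) (XT.lf (nat_lit 0) (nat_lit 28760356204) (nat_lit 152) (nat_lit 97046362960) (nat_lit 76) (nat_lit 305261669690) (nat_lit 3) (nat_lit 5) (nat_lit 5) (nat_lit 5) (nat_lit 4) (nat_lit 4) (nat_lit 313) (nat_lit 262) (nat_lit 145))) (XT.nd (nat_lit 78) (nat_lit 76) (nat_lit 0) (XT.lf (nat_lit 0) (nat_lit 56677869558) (nat_lit 152) (nat_lit 39816880555) (nat_lit 76) (nat_lit 367108403014) (nat_lit 3) (nat_lit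 5) (nat_lit 5) (nat_lit 5) (nat_lit 4) (nat_lit 4) (nat_lit 314) (nat_lit 262) (nat_lit 144)) (XT.lf (nat_lit 0) (nat_lit 22716907863) (nat_lit 76) (nat_lit 64465890087) (nat_lit 152) (nat_lit 411540201215) (nat_lit 2) (nat_lit 5) (nat_lit 3) (nat_lit 5) (nat_lit 4) (nat_lit 4) (nat_lit 315) (nat_lit 262) (nat_lit 143)))) (XT.nd (nat_lit 156) (nat_lit 0) (nat_lit 0) (XT.nd (nat_lit 78) (nat_lit 0) (nat_lit 0) (XT.lf (nat_lit 0) (nat_lit 91674161163) (nat_lit 76) (nat_lit 29146915175) (nat_lit 152) (nat_lit 415796709988) (nat_lit 2) (nat_lit 5) (nat_lit 3) (nat_lit 5) (nat_lit 4) (nat_lit 4) (nat_lit 316) (nat_lit 262) (nat_lit 142)) (XT.lf (nat_lit 0) (nat_lit 157290305706) (nat_lit 152) (nat_lit 411537668459) (nat_lit 0) (nat_lit 8709188993) (nat_lit 2) (nat_lit 5) (nat_lit 4) (nat_lit 4) (nat_lit 2) (nat_lit 4) (nat_lit 317) (nat_lit 262) (nat_lit 141))) (XT.nd (nat_lit 33228) (nat_lit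 0) (nat_lit 4712) (XT.lf (nat_lit 0) (nat_lit 197167998567) (nat_lit 152) (nat_lit 375951658527) (nat_lit 0) (nat_lit 48585887836) (nat_lit 2) (nat_lit 5) (nat_lit 4) (nat_lit 4) (nat_lit 2) (nat_lit 4) (nat_lit 318) (nat_lit 262) (nat_lit 140)) (XT.lf (nat_lit 0) (nat_lit 11603642303) (nat_lit 684) (nat_lit 272090532) (nat_lit 684) (nat_lit 272090532) (nat_lit 64) (nat_lit 3) (nat_lit 73) (nat_lit 3) (nat_lit 73) (nat_lit 5) (nat_lit 263) (nat_lit 263) (nat_lit 194))))) (XT.nd (nat_lit 312) (nat_lit 456) (nat_lit 0) (XT.nd (nat_lit 156) (nat_lit 608) (nat_lit 0) (XT.nd (nat_lit 78) (nat_lit 0) (nat_lit 76) (XT.lf (nat_lit 76) (nat_lit 15456683820) (nat_lit 0) (nat_lit 9070205712) (nat_lit 684) (nat_lit 720209381) (nat_lit 65) (nat_lit 5) (nat_lit 64) (nat_lit 3) (nat_lit 73) (nat_lit 5) (nat_lit 264) (nat_lit 263) (nat_lit 193)) (XT.lf (nat_lit 76) (nat_lit 6578176223) (nat_lit 0) (nat_lit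 19577141096) (nat_lit 684) (nat_lit 109268064) (nat_lit 66) (nat_lit 5) (nat_lit 65) (nat_lit 5) (nat_lit 74) (nat_lit 5) (nat_lit 265) (nat_lit 263) (nat_lit 192))) (XT.nd (nat_lit 78) (nat_lit 0) (nat_lit 76) (XT.lf (nat_lit 0) (nat_lit 844854722) (nat_lit 684) (nat_lit 2922683723) (nat_lit 760) (nat_lit 23579977473) (nat_lit 56) (nat_lit 5) (nat_lit 65) (nat_lit 5) (nat_lit 66) (nat_lit 5) (nat_lit 266) (nat_lit 263) (nat_lit 191)) (XT.lf (nat_lit 0) (nat_lit 2314818854) (nat_lit 684) (nat_lit 13044002325) (nat_lit 760) (nat_lit 13136069175) (nat_lit 57) (nat_lit 5) (nat_lit 66) (nat_lit 5) (nat_lit 67) (nat_lit 5) (nat_lit 267) (nat_lit 263) (nat_lit 190)))) (XT.nd (nat_lit 156) (nat_lit 608) (nat_lit 0) (XT.nd (nat_lit 78) (nat_lit 0) (nat_lit 0) (XT.lf (nat_lit 0) (nat_lit 4121792260) (nat_lit 684) (nat_lit 23971903742) (nat_lit 760) (nat_lit 1629449253) (nat_lit 58) (nat_lit 5)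 (nat_lit 67) (nat_lit 5) (nat_lit 68) (nat_lit 5) (nat_lit 268) (nat_lit 263) (nat_lit 189)) (XT.lf (nat_lit 0) (nat_lit 6551706883) (nat_lit 684) (nat_lit 4794357663) (nat_lit 760) (nat_lit 19679733425) (nat_lit 58) (nat_lit 5) (nat_lit 67) (nat_lit 5) (nat_lit 68) (nat_lit 5) (nat_lit 269) (nat_lit 263) (nat_lit 188))) (XT.nd (nat_lit 78) (nat_lit 684) (nat_lit 0) (XT.lf (nat_lit 0) (nat_lit 9531416964) (nat_lit 684) (nat_lit 16095073010) (nat_lit 76) (nat_lit 6788455215) (nat_lit 59) (nat_lit 5) (nat_lit 68) (nat_lit 5) (nat_lit 60) (nat_lit 5) (nat_lit 270) (nat_lit 263) (nat_lit 187)) (XT.nd (nat_lit 78) (nat_lit 0) (nat_lit 0) (XT.lf (nat_lit 0) (nat_lit 5353273642) (nat_lit 684) (nat_lit 7746017822) (nat_lit 760) (nat_lit 20798491857) (nat_lit 50) (nat_lit 5) (nat_lit 59) (nat_lit 5) (nat_lit 60) (nat_lit 5) (nat_lit 271) (nat_lit 263) (nat_lit 186)) (XT.lf (nat_lit 0) (nat_lit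 17408751579) (nat_lit 760) (nat_lit 6587073852) (nat_lit 76) (nat_lit 11480660212) (nat_lit 50) (nat_lit 5) (nat_lit 60) (nat_lit 5) (nat_lit 51) (nat_lit 5) (nat_lit 272) (nat_lit 263) (nat_lit 185))))))) (XT.nd (nat_lit 702) (nat_lit 988) (nat_lit 0) (XT.nd (nat_lit 312) (nat_lit 760) (nat_lit 0) (XT.nd (nat_lit 156) (nat_lit 304) (nat_lit 0) (XT.nd (nat_lit 78) (nat_lit 304) (nat_lit 0) (XT.lf (nat_lit 0) (nat_lit 17549783623) (nat_lit 304) (nat_lit 4909125351) (nat_lit 380) (nat_lit 14702819750) (nat_lit 46) (nat_lit 5) (nat_lit 50) (nat_lit 5) (nat_lit 51) (nat_lit 5) (nat_lit 273) (nat_lit 263) (nat_lit 184)) (XT.lf (nat_lit 0) (nat_lit 4774132625) (nat_lit 304) (nat_lit 23567149017) (nat_lit 380) (nat_lit 10619137991) (nat_lit 42) (nat_lit 5) (nat_lit 46) (nat_lit 5) (nat_lit 47) (nat_lit 5) (nat_lit 274) (nat_lit 263) (nat_lit 183))) (XT.nd (nat_lit 78) (nat_lit 304) (nat_lit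 0) (XT.lf (nat_lit 0) (nat_lit 31717927260) (nat_lit 304) (nat_lit 3391714993) (nat_lit 380) (nat_lit 5772629316) (nat_lit 42) (nat_lit 5) (nat_lit 46) (nat_lit 5) (nat_lit 47) (nat_lit 5) (nat_lit 275) (nat_lit 263) (nat_lit 182)) (XT.lf (nat_lit 0) (nat_lit 51465503) (nat_lit 304) (nat_lit 24785477240) (nat_lit 76) (nat_lit 18092748997) (nat_lit 38) (nat_lit 5) (nat_lit 42) (nat_lit 5) (nat_lit 39) (nat_lit 5) (nat_lit 276) (nat_lit 263) (nat_lit 181)))) (XT.nd (nat_lit 156) (nat_lit 456) (nat_lit 0) (XT.nd (nat_lit 78) (nat_lit 0) (nat_lit 0) (XT.lf (nat_lit 0) (nat_lit 2755126586) (nat_lit 304) (nat_lit 3642443467) (nat_lit 380) (nat_lit 38725716577) (nat_lit 34) (nat_lit 5) (nat_lit 38) (nat_lit 5) (nat_lit 39) (nat_lit 5) (nat_lit 277) (nat_lit 263) (nat_lit 180)) (XT.lf (nat_lit 0) (nat_lit 13984237507) (nat_lit 380) (nat_lit 14402009100) (nat_lit 76) (nat_lit 19069505739) (nat_lit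 34) (nat_lit 5) (nat_lit 39) (nat_lit 5) (nat_lit 35) (nat_lit 5) (nat_lit 278) (nat_lit 263) (nat_lit 179))) (XT.nd (nat_lit 78) (nat_lit 228) (nat_lit 0) (XT.lf (nat_lit 0) (nat_lit 16253085910) (nat_lit 228) (nat_lit 6233945874) (nat_lit 304) (nat_lit 27472348828) (nat_lit 31) (nat_lit 5) (nat_lit 34) (nat_lit 5) (nat_lit 35) (nat_lit 5) (nat_lit 279) (nat_lit 263) (nat_lit 178)) (XT.nd (nat_lit 78) (nat_lit 228) (nat_lit 0) (XT.lf (nat_lit 0) (nat_lit 32195572045) (nat_lit 304) (nat_lit 3063294541) (nat_lit 76) (nat_lit 17378179548) (nat_lit 31) (nat_lit 5) (nat_lit 35) (nat_lit 5) (nat_lit 32) (nat_lit 5) (nat_lit 280) (nat_lit 263) (nat_lit 177)) (XT.lf (nat_lit 0) (nat_lit 30908721353) (nat_lit 228) (nat_lit 12354518280) (nat_lit 304) (nat_lit 12236584461) (nat_lit 28) (nat_lit 5) (nat_lit 31) (nat_lit 5) (nat_lit 32) (nat_lit 5) (nat_lit 281) (nat_lit 263) (nat_lit 176))))))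 (XT.nd (nat_lit 312) (nat_lit 532) (nat_lit 0) (XT.nd (nat_lit 156) (nat_lit 228) (nat_lit 0) (XT.nd (nat_lit 78) (nat_lit 76) (nat_lit 0) (XT.lf (nat_lit 0) (nat_lit 9213070833) (nat_lit 152) (nat_lit 46389673332) (nat_lit 228) (nat_lit 2969578766) (nat_lit 26) (nat_lit 5) (nat_lit 28) (nat_lit 5) (nat_lit 29) (nat_lit 5) (nat_lit 282) (nat_lit 263) (nat_lit 175)) (XT.lf (nat_lit 0) (nat_lit 7452407143) (nat_lit 228) (nat_lit 15601155316) (nat_lit 76) (nat_lit 38799636685) (nat_lit 25) (nat_lit 5) (nat_lit 28) (nat_lit 5) (nat_lit 26) (nat_lit 5) (nat_lit 283) (nat_lit 263) (nat_lit 174))) (XT.nd (nat_lit 78) (nat_lit 0) (nat_lit 0) (XT.lf (nat_lit 0) (nat_lit 18976425543) (nat_lit 304) (nat_lit 43928007170) (nat_lit 76) (nat_lit 2471079184) (nat_lit 22) (nat_lit 5) (nat_lit 26) (nat_lit 5) (nat_lit 23) (nat_lit 5) (nat_lit 284) (nat_lit 263) (nat_lit 173)) (XT.lf (nat_lit 0) (nat_lit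 32083081706) (nat_lit 304) (nat_lit 7547931528) (nat_lit 76) (nat_lit 29515575602) (nat_lit 22) (nat_lit 5) (nat_lit 26) (nat_lit 5) (nat_lit 23) (nat_lit 5) (nat_lit 285) (nat_lit 263) (nat_lit 172)))) (XT.nd (nat_lit 156) (nat_lit 380) (nat_lit 0) (XT.nd (nat_lit 78) (nat_lit 0) (nat_lit 0) (XT.lf (nat_lit 0) (nat_lit 32786459140) (nat_lit 152) (nat_lit 13959786716) (nat_lit 228) (nat_lit 26447721174) (nat_lit 20) (nat_lit 5) (nat_lit 22) (nat_lit 5) (nat_lit 23) (nat_lit 5) (nat_lit 286) (nat_lit 263) (nat_lit 171)) (XT.lf (nat_lit 0) (nat_lit 62927282547) (nat_lit 228) (nat_lit 1163893427) (nat_lit 76) (nat_lit 13456731378) (nat_lit 20) (nat_lit 5) (nat_lit 23) (nat_lit 5) (nat_lit 21) (nat_lit 5) (nat_lit 287) (nat_lit 263) (nat_lit 170))) (XT.nd (nat_lit 78) (nat_lit 228) (nat_lit 0) (XT.lf (nat_lit 0) (nat_lit 42333768181) (nat_lit 152) (nat_lit 38961917963) (nat_lit 228) (nat_lit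 909844453) (nat_lit 18) (nat_lit 5) (nat_lit 20) (nat_lit 5) (nat_lit 21) (nat_lit 5) (nat_lit 288) (nat_lit 263) (nat_lit 169)) (XT.nd (nat_lit 78) (nat_lit 0) (nat_lit 0) (XT.lf (nat_lit 0) (nat_lit 1958520974) (nat_lit 152) (nat_lit 11542310131) (nat_lit 228) (nat_lit 73721701449) (nat_lit 15) (nat_lit 5) (nat_lit 17) (nat_lit 5) (nat_lit 18) (nat_lit 5) (nat_lit 289) (nat_lit 263) (nat_lit 168)) (XT.lf (nat_lit 0) (nat_lit 30017787974) (nat_lit 228) (nat_lit 44360831083) (nat_lit 76) (nat_lit 18212274359) (nat_lit 15) (nat_lit 5) (nat_lit 18) (nat_lit 5) (nat_lit 16) (nat_lit 5) (nat_lit 290) (nat_lit 263) (nat_lit 167))))))))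
noncomputable def xc95 : XT := (XT.nd (nat_lit 1404) (nat_lit 228) (nat_lit 0) (XT.nd (nat_lit 702) (nat_lit 228) (nat_lit 0) (XT.nd (nat_lit 312) (nat_lit 304) (nat_lit 0) (XT.nd (nat_lit 156) (nat_lit 76) (nat_lit 0) (XT.nd (nat_lit 78) (nat_lit 152) (nat_lit 0) (XT.lf (nat_lit 0) (nat_lit 48047776263) (nat_lit 228) (nat_lit 384496347) (nat_lit 76) (nat_lit 49946875785) (nat_lit 15) (nat_lit 5) (nat_lit 18) (nat_lit 5) (nat_lit 16) (nat_lit 5) (nat_lit 291) (nat_lit 263) (nat_lit 166)) (XT.lf (nat_lit 0) (nat_lit 48663331452) (nat_lit 152) (nat_lit 19613872069) (nat_lit 228) (nat_lit 36315416581) (nat_lit 13) (nat_lit 5) (nat_lit 15) (nat_lit 5) (nat_lit 16) (nat_lit 5) (nat_lit 292) (nat_lit 263) (nat_lit 165))) (XT.nd (nat_lit 78) (nat_lit 76) (nat_lit 0) (XT.lf (nat_lit 0) (nat_lit 90308883693) (nat_lit 228) (nat_lit 9838012035) (nat_lit 76) (nat_lit 11147086591) (nat_lit 13) (nat_lit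 5) (nat_lit 16) (nat_lit 5) (nat_lit 14) (nat_lit 4) (nat_lit 293) (nat_lit 263) (nat_lit 164)) (XT.lf (nat_lit 0) (nat_lit 40915618606) (nat_lit 76) (nat_lit 74154594236) (nat_lit 152) (nat_lit 3412892080) (nat_lit 12) (nat_lit 5) (nat_lit 13) (nat_lit 5) (nat_lit 14) (nat_lit 4) (nat_lit 294) (nat_lit 263) (nat_lit 163)))) (XT.nd (nat_lit 156) (nat_lit 76) (nat_lit 0) (XT.nd (nat_lit 78) (nat_lit 152) (nat_lit 0) (XT.lf (nat_lit 0) (nat_lit 15238752152) (nat_lit 152) (nat_lit 30407458071) (nat_lit 76) (nat_lit 80580410607) (nat_lit 11) (nat_lit 5) (nat_lit 13) (nat_lit 5) (nat_lit 12) (nat_lit 5) (nat_lit 295) (nat_lit 263) (nat_lit 162)) (XT.lf (nat_lit 0) (nat_lit 21141047042) (nat_lit 152) (nat_lit 14451412717) (nat_lit 228) (nat_lit 98977891481) (nat_lit 9) (nat_lit 5) (nat_lit 11) (nat_lit 5) (nat_lit 12) (nat_lit 5) (nat_lit 296) (nat_lit 263) (nat_lit 161))) (XT.nd (nat_lit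 78) (nat_lit 76) (nat_lit 0) (XT.lf (nat_lit 0) (nat_lit 58411123514) (nat_lit 228) (nat_lit 65968244360) (nat_lit 76) (nat_lit 19160384627) (nat_lit 9) (nat_lit 5) (nat_lit 12) (nat_lit 5) (nat_lit 10) (nat_lit 4) (nat_lit 297) (nat_lit 263) (nat_lit 160)) (XT.nd (nat_lit 78) (nat_lit 76) (nat_lit 0) (XT.lf (nat_lit 0) (nat_lit 83297035150) (nat_lit 228) (nat_lit 14957091590) (nat_lit 76) (nat_lit 54960496383) (nat_lit 9) (nat_lit 5) (nat_lit 12) (nat_lit 5) (nat_lit 10) (nat_lit 4) (nat_lit 298) (nat_lit 263) (nat_lit 159)) (XT.lf (nat_lit 0) (nat_lit 41459016936) (nat_lit 76) (nat_lit 69360314189) (nat_lit 152) (nat_lit 52811881323) (nat_lit 8) (nat_lit 5) (nat_lit 9) (nat_lit 5) (nat_lit 10) (nat_lit 4) (nat_lit 299) (nat_lit 263) (nat_lit 158)))))) (XT.nd (nat_lit 312) (nat_lit 76) (nat_lit 0) (XT.nd (nat_lit 156) (nat_lit 152) (nat_lit 0) (XT.nd (nat_lit 78) (nat_lit 0) (nat_lit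 0) (XT.lf (nat_lit 0) (nat_lit 102919768470) (nat_lit 76) (nat_lit 37882493948) (nat_lit 152) (nat_lit 34065928206) (nat_lit 8) (nat_lit 5) (nat_lit 9) (nat_lit 5) (nat_lit 10) (nat_lit 4) (nat_lit 300) (nat_lit 263) (nat_lit 157)) (XT.lf (nat_lit 0) (nat_lit 169294825874) (nat_lit 76) (nat_lit 3887436368) (nat_lit 152) (nat_lit 13821947075) (nat_lit 8) (nat_lit 5) (nat_lit 9) (nat_lit 5) (nat_lit 10) (nat_lit 4) (nat_lit 301) (nat_lit 263) (nat_lit 156))) (XT.nd (nat_lit 78) (nat_lit 0) (nat_lit 0) (XT.lf (nat_lit 0) (nat_lit 8965146004) (nat_lit 152) (nat_lit 158509509682) (nat_lit 76) (nat_lit 32571131091) (nat_lit 6) (nat_lit 5) (nat_lit 8) (nat_lit 5) (nat_lit 7) (nat_lit 4) (nat_lit 302) (nat_lit 263) (nat_lit 155)) (XT.lf (nat_lit 0) (nat_lit 33475101123) (nat_lit 152) (nat_lit 108267320577) (nat_lit 76) (nat_lit 72357735094) (nat_lit 6) (nat_lit 5) (nat_lit 8) (nat_lit 5) (nat_lit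 7) (nat_lit 4) (nat_lit 303) (nat_lit 263) (nat_lit 154)))) (XT.nd (nat_lit 156) (nat_lit 0) (nat_lit 0) (XT.nd (nat_lit 78) (nat_lit 76) (nat_lit 0) (XT.lf (nat_lit 0) (nat_lit 59944539546) (nat_lit 152) (nat_lit 54007952261) (nat_lit 76) (nat_lit 115326453260) (nat_lit 6) (nat_lit 5) (nat_lit 8) (nat_lit 5) (nat_lit 7) (nat_lit 4) (nat_lit 304) (nat_lit 263) (nat_lit 153)) (XT.lf (nat_lit 0) (nat_lit 4741902765) (nat_lit 76) (nat_lit 83862448831) (nat_lit 152) (nat_lit 157064046654) (nat_lit 5) (nat_lit 5) (nat_lit 6) (nat_lit 5) (nat_lit 7) (nat_lit 4) (nat_lit 305) (nat_lit 263) (nat_lit 152))) (XT.nd (nat_lit 78) (nat_lit 0) (nat_lit 0) (XT.lf (nat_lit 0) (nat_lit 70118407854) (nat_lit 76) (nat_lit 50378168301) (nat_lit 152) (nat_lit 142825452727) (nat_lit 5) (nat_lit 5) (nat_lit 6) (nat_lit 5) (nat_lit 7) (nat_lit 4) (nat_lit 306) (nat_lit 263) (nat_lit 151)) (XT.nd (nat_lit 78)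 (nat_lit 0) (nat_lit 0) (XT.lf (nat_lit 0) (nat_lit 140723232523) (nat_lit 76) (nat_lit 14215875656) (nat_lit 152) (nat_lit 127448897692) (nat_lit 5) (nat_lit 5) (nat_lit 6) (nat_lit 5) (nat_lit 7) (nat_lit 4) (nat_lit 307) (nat_lit 263) (nat_lit 150)) (XT.lf (nat_lit 0) (nat_lit 192523853655) (nat_lit 152) (nat_lit 86392339146) (nat_lit 0) (nat_lit 24043729878) (nat_lit 5) (nat_lit 5) (nat_lit 7) (nat_lit 4) (nat_lit 5) (nat_lit 4) (nat_lit 308) (nat_lit 263) (nat_lit 149))))))) (XT.nd (nat_lit 702) (nat_lit 0) (nat_lit 0) (XT.nd (nat_lit 312) (nat_lit 152) (nat_lit 0) (XT.nd (nat_lit 156) (nat_lit 0) (nat_lit 0) (XT.nd (nat_lit 78) (nat_lit 76) (nat_lit 0) (XT.lf (nat_lit 0) (nat_lit 233354156842) (nat_lit 152) (nat_lit 26939397912) (nat_lit 0) (nat_lit 64872101213) (nat_lit 5) (nat_lit 5) (nat_lit 7) (nat_lit 4) (nat_lit 5) (nat_lit 4) (nat_lit 309) (nat_lit 263) (nat_lit 148)) (XT.lf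 (nat_lit 0) (nat_lit 38500572496) (nat_lit 76) (nat_lit 239550554773) (nat_lit 76) (nat_lit 71066710391) (nat_lit 4) (nat_lit 4) (nat_lit 5) (nat_lit 5) (nat_lit 5) (nat_lit 4) (nat_lit 310) (nat_lit 263) (nat_lit 147))) (XT.nd (nat_lit 78) (nat_lit 0) (nat_lit 0) (XT.lf (nat_lit 0) (nat_lit 110136336527) (nat_lit 76) (nat_lit 216655968627) (nat_lit 76) (nat_lit 48170467993) (nat_lit 4) (nat_lit 4) (nat_lit 5) (nat_lit 5) (nat_lit 5) (nat_lit 4) (nat_lit 311) (nat_lit 263) (nat_lit 146)) (XT.lf (nat_lit 0) (nat_lit 187501664254) (nat_lit 76) (nat_lit 191930356435) (nat_lit 76) (nat_lit 23443322233) (nat_lit 4) (nat_lit 4) (nat_lit 5) (nat_lit 5) (nat_lit 5) (nat_lit 4) (nat_lit 312) (nat_lit 263) (nat_lit 145)))) (XT.nd (nat_lit 156) (nat_lit 76) (nat_lit 0) (XT.nd (nat_lit 78) (nat_lit 0) (nat_lit 0) (XT.lf (nat_lit 0) (nat_lit 3156877493) (nat_lit 152) (nat_lit 162016855309) (nat_lit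 76) (nat_lit 267844676135) (nat_lit 3) (nat_lit 5) (nat_lit 5) (nat_lit 5) (nat_lit 4) (nat_lit 4) (nat_lit 313) (nat_lit 263) (nat_lit 144)) (XT.lf (nat_lit 0) (nat_lit 31074073238) (nat_lit 152) (nat_lit 104787918817) (nat_lit 76) (nat_lit 329691197671) (nat_lit 3) (nat_lit 5) (nat_lit 5) (nat_lit 5) (nat_lit 4) (nat_lit 4) (nat_lit 314) (nat_lit 263) (nat_lit 143))) (XT.nd (nat_lit 78) (nat_lit 76) (nat_lit 0) (XT.lf (nat_lit 0) (nat_lit 61224032954) (nat_lit 152) (nat_lit 42981718795) (nat_lit 76) (nat_lit 396485033038) (nat_lit 3) (nat_lit 5) (nat_lit 5) (nat_lit 5) (nat_lit 4) (nat_lit 4) (nat_lit 315) (nat_lit 263) (nat_lit 142)) (XT.nd (nat_lit 78) (nat_lit 0) (nat_lit 0) (XT.lf (nat_lit 0) (nat_lit 24553881260) (nat_lit 76) (nat_lit 69614896705) (nat_lit 152) (nat_lit 444451471197) (nat_lit 2) (nat_lit 5) (nat_lit 3) (nat_lit 5) (nat_lit 4) (nat_lit 4) (nat_lit 316) (nat_lit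 263) (nat_lit 141)) (XT.lf (nat_lit 0) (nat_lit 99026261434) (nat_lit 76) (nat_lit 31471015991) (nat_lit 152) (nat_lit 449049385569) (nat_lit 2) (nat_lit 5) (nat_lit 3) (nat_lit 5) (nat_lit 4) (nat_lit 4) (nat_lit 317) (nat_lit 263) (nat_lit 140)))))) (XT.nd (nat_lit 33540) (nat_lit 0) (nat_lit 4104) (XT.nd (nat_lit 33384) (nat_lit 0) (nat_lit 4104) (XT.nd (nat_lit 33306) (nat_lit 0) (nat_lit 4712) (XT.lf (nat_lit 0) (nat_lit 169883376881) (nat_lit 152) (nat_lit 444443465139) (nat_lit 0) (nat_lit 9412782884) (nat_lit 2) (nat_lit 5) (nat_lit 4) (nat_lit 4) (nat_lit 2) (nat_lit 4) (nat_lit 318) (nat_lit 263) (nat_lit 139)) (XT.lf (nat_lit 0) (nat_lit 12678317781) (nat_lit 684) (nat_lit 216611835) (nat_lit 684) (nat_lit 216611835) (nat_lit 64) (nat_lit 3) (nat_lit 73) (nat_lit 3) (nat_lit 73) (nat_lit 5) (nat_lit 264) (nat_lit 264) (nat_lit 192))) (XT.nd (nat_lit 78) (nat_lit 608) (nat_lit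 0) (XT.lf (nat_lit 76) (nat_lit 16840996377) (nat_lit 0) (nat_lit 9921433199) (nat_lit 684) (nat_lit 489307470) (nat_lit 65) (nat_lit 5) (nat_lit 64) (nat_lit 3) (nat_lit 73) (nat_lit 5) (nat_lit 265) (nat_lit 264) (nat_lit 191)) (XT.lf (nat_lit 0) (nat_lit 145020994) (nat_lit 684) (nat_lit 21091915794) (nat_lit 760) (nat_lit 7114657101) (nat_lit 56) (nat_lit 5) (nat_lit 65) (nat_lit 5) (nat_lit 66) (nat_lit 5) (nat_lit 266) (nat_lit 264) (nat_lit 190)))) (XT.nd (nat_lit 156) (nat_lit 0) (nat_lit 152) (XT.nd (nat_lit 78) (nat_lit 0) (nat_lit 76) (XT.lf (nat_lit 0) (nat_lit 1152492602) (nat_lit 684) (nat_lit 3001346903) (nat_lit 760) (nat_lit 25368282829) (nat_lit 56) (nat_lit 5) (nat_lit 65) (nat_lit 5) (nat_lit 66) (nat_lit 5) (nat_lit 267) (nat_lit 264) (nat_lit 189)) (XT.lf (nat_lit 0) (nat_lit 2723400172) (nat_lit 684) (nat_lit 13925591047) (nat_lit 760) (nat_lit 14113216514) (nat_lit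 57) (nat_lit 5) (nat_lit 66) (nat_lit 5) (nat_lit 67) (nat_lit 5) (nat_lit 268) (nat_lit 264) (nat_lit 188))) (XT.nd (nat_lit 78) (nat_lit 0) (nat_lit 0) (XT.lf (nat_lit 0) (nat_lit 4659953042) (nat_lit 684) (nat_lit 25722427428) (nat_lit 760) (nat_lit 1707173259) (nat_lit 58) (nat_lit 5) (nat_lit 67) (nat_lit 5) (nat_lit 68) (nat_lit 5) (nat_lit 269) (nat_lit 264) (nat_lit 187)) (XT.nd (nat_lit 78) (nat_lit 0) (nat_lit 76) (XT.lf (nat_lit 0) (nat_lit 7268822509) (nat_lit 684) (nat_lit 5023064967) (nat_lit 760) (nat_lit 21205378827) (nat_lit 58) (nat_lit 5) (nat_lit 67) (nat_lit 5) (nat_lit 68) (nat_lit 5) (nat_lit 270) (nat_lit 264) (nat_lit 186)) (XT.lf (nat_lit 0) (nat_lit 10474413673) (nat_lit 684) (nat_lit 17224127058) (nat_lit 76) (nat_lit 7299699468) (nat_lit 59) (nat_lit 5) (nat_lit 68) (nat_lit 5) (nat_lit 60) (nat_lit 5) (nat_lit 271) (nat_lit 264) (nat_lit 185))))))))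
noncomputable def xc96 : XT := (XT.nd (nat_lit 1326) (nat_lit 1140) (nat_lit 0) (XT.nd (nat_lit 624) (nat_lit 1064) (nat_lit 0) (XT.nd (nat_lit 312) (nat_lit 608) (nat_lit 0) (XT.nd (nat_lit 156) (nat_lit 608) (nat_lit 0) (XT.nd (nat_lit 78) (nat_lit 0) (nat_lit 0) (XT.lf (nat_lit 0) (nat_lit 5933196858) (nat_lit 684) (nat_lit 8383519996) (nat_lit 760) (nat_lit 22283603513) (nat_lit 50) (nat_lit 5) (nat_lit 59) (nat_lit 5) (nat_lit 60) (nat_lit 5) (nat_lit 272) (nat_lit 264) (nat_lit 184)) (XT.lf (nat_lit 0) (nat_lit 18958121929) (nat_lit 760) (nat_lit 6964757190) (nat_lit 76) (nat_lit 12383140462) (nat_lit 50) (nat_lit 5) (nat_lit 60) (nat_lit 5) (nat_lit 51) (nat_lit 5) (nat_lit 273) (nat_lit 264) (nat_lit 183))) (XT.nd (nat_lit 78) (nat_lit 304) (nat_lit 0) (XT.lf (nat_lit 0) (nat_lit 19096561245) (nat_lit 304) (nat_lit 5306354898) (nat_lit 380) (nat_lit 15723690413) (nat_lit 46)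 (nat_lit 5) (nat_lit 50) (nat_lit 5) (nat_lit 51) (nat_lit 5) (nat_lit 274) (nat_lit 264) (nat_lit 182)) (XT.lf (nat_lit 0) (nat_lit 5300429839) (nat_lit 304) (nat_lit 25446727006) (nat_lit 380) (nat_lit 11322523518) (nat_lit 42) (nat_lit 5) (nat_lit 46) (nat_lit 5) (nat_lit 47) (nat_lit 5) (nat_lit 275) (nat_lit 264) (nat_lit 181)))) (XT.nd (nat_lit 156) (nat_lit 304) (nat_lit 0) (XT.nd (nat_lit 78) (nat_lit 304) (nat_lit 0) (XT.lf (nat_lit 0) (nat_lit 34389034222) (nat_lit 304) (nat_lit 3657687440) (nat_lit 380) (nat_lit 6099119742) (nat_lit 42) (nat_lit 5) (nat_lit 46) (nat_lit 5) (nat_lit 47) (nat_lit 5) (nat_lit 276) (nat_lit 264) (nat_lit 180)) (XT.lf (nat_lit 0) (nat_lit 179081725) (nat_lit 304) (nat_lit 26629215412) (nat_lit 76) (nat_lit 19549068987) (nat_lit 38) (nat_lit 5) (nat_lit 42) (nat_lit 5) (nat_lit 39) (nat_lit 5) (nat_lit 277) (nat_lit 264) (nat_lit 179))) (XT.nd (nat_lit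 78) (nat_lit 0) (nat_lit 0) (XT.lf (nat_lit 0) (nat_lit 3108591603) (nat_lit 304) (nat_lit 3917212324) (nat_lit 380) (nat_lit 41701037179) (nat_lit 34) (nat_lit 5) (nat_lit 38) (nat_lit 5) (nat_lit 39) (nat_lit 5) (nat_lit 278) (nat_lit 264) (nat_lit 178)) (XT.lf (nat_lit 0) (nat_lit 15211020821) (nat_lit 380) (nat_lit 15425370054) (nat_lit 76) (nat_lit 20609968481) (nat_lit 34) (nat_lit 5) (nat_lit 39) (nat_lit 5) (nat_lit 35) (nat_lit 5) (nat_lit 279) (nat_lit 264) (nat_lit 177))))) (XT.nd (nat_lit 312) (nat_lit 456) (nat_lit 0) (XT.nd (nat_lit 156) (nat_lit 380) (nat_lit 0) (XT.nd (nat_lit 78) (nat_lit 0) (nat_lit 0) (XT.lf (nat_lit 0) (nat_lit 17676535076) (nat_lit 228) (nat_lit 6711423814) (nat_lit 304) (nat_lit 29562656384) (nat_lit 31) (nat_lit 5) (nat_lit 34) (nat_lit 5) (nat_lit 35) (nat_lit 5) (nat_lit 280) (nat_lit 264) (nat_lit 176)) (XT.lf (nat_lit 0) (nat_lit 34865936461)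 (nat_lit 304) (nat_lit 3189481715) (nat_lit 76) (nat_lit 18787469087) (nat_lit 31) (nat_lit 5) (nat_lit 35) (nat_lit 5) (nat_lit 32) (nat_lit 5) (nat_lit 281) (nat_lit 264) (nat_lit 175))) (XT.nd (nat_lit 78) (nat_lit 152) (nat_lit 0) (XT.lf (nat_lit 0) (nat_lit 33495129226) (nat_lit 228) (nat_lit 13318647366) (nat_lit 304) (nat_lit 13121201549) (nat_lit 28) (nat_lit 5) (nat_lit 31) (nat_lit 5) (nat_lit 32) (nat_lit 5) (nat_lit 282) (nat_lit 264) (nat_lit 174)) (XT.lf (nat_lit 0) (nat_lit 10063144958) (nat_lit 152) (nat_lit 50072783547) (nat_lit 228) (nat_lit 3117600548) (nat_lit 26) (nat_lit 5) (nat_lit 28) (nat_lit 5) (nat_lit 29) (nat_lit 5) (nat_lit 283) (nat_lit 264) (nat_lit 173)))) (XT.nd (nat_lit 156) (nat_lit 152) (nat_lit 0) (XT.nd (nat_lit 78) (nat_lit 228) (nat_lit 0) (XT.lf (nat_lit 0) (nat_lit 8128857618) (nat_lit 228) (nat_lit 16741645770) (nat_lit 76) (nat_lit 41926646491)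 (nat_lit 25) (nat_lit 5) (nat_lit 28) (nat_lit 5) (nat_lit 26) (nat_lit 5) (nat_lit 284) (nat_lit 264) (nat_lit 172)) (XT.lf (nat_lit 0) (nat_lit 20570881056) (nat_lit 304) (nat_lit 47335677018) (nat_lit 76) (nat_lit 2694907050) (nat_lit 22) (nat_lit 5) (nat_lit 26) (nat_lit 5) (nat_lit 23) (nat_lit 5) (nat_lit 285) (nat_lit 264) (nat_lit 171))) (XT.nd (nat_lit 78) (nat_lit 152) (nat_lit 0) (XT.lf (nat_lit 0) (nat_lit 34720414788) (nat_lit 304) (nat_lit 8053089452) (nat_lit 76) (nat_lit 31901026773) (nat_lit 22) (nat_lit 5) (nat_lit 26) (nat_lit 5) (nat_lit 23) (nat_lit 5) (nat_lit 286) (nat_lit 264) (nat_lit 170)) (XT.nd (nat_lit 78) (nat_lit 0) (nat_lit 0) (XT.lf (nat_lit 0) (nat_lit 35503764105) (nat_lit 152) (nat_lit 15049105589) (nat_lit 228) (nat_lit 28493036450) (nat_lit 20) (nat_lit 5) (nat_lit 22) (nat_lit 5) (nat_lit 23) (nat_lit 5) (nat_lit 287) (nat_lit 264) (nat_lit 169))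 (XT.lf (nat_lit 0) (nat_lit 68023829004) (nat_lit 228) (nat_lit 1166692225) (nat_lit 76) (nat_lit 14557885668) (nat_lit 20) (nat_lit 5) (nat_lit 23) (nat_lit 5) (nat_lit 21) (nat_lit 5) (nat_lit 288) (nat_lit 264) (nat_lit 168))))))) (XT.nd (nat_lit 702) (nat_lit 304) (nat_lit 0) (XT.nd (nat_lit 312) (nat_lit 456) (nat_lit 0) (XT.nd (nat_lit 156) (nat_lit 0) (nat_lit 0) (XT.nd (nat_lit 78) (nat_lit 228) (nat_lit 0) (XT.lf (nat_lit 0) (nat_lit 45806857433) (nat_lit 152) (nat_lit 42051576666) (nat_lit 228) (nat_lit 920385356) (nat_lit 18) (nat_lit 5) (nat_lit 20) (nat_lit 5) (nat_lit 21) (nat_lit 5) (nat_lit 289) (nat_lit 264) (nat_lit 167)) (XT.lf (nat_lit 0) (nat_lit 2199923070) (nat_lit 152) (nat_lit 12438088331) (nat_lit 228) (nat_lit 79559292637) (nat_lit 15) (nat_lit 5) (nat_lit 17) (nat_lit 5) (nat_lit 18) (nat_lit 5) (nat_lit 290) (nat_lit 264) (nat_lit 166))) (XT.nd (nat_lit 78)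 (nat_lit 0) (nat_lit 0) (XT.lf (nat_lit 0) (nat_lit 32472493257) (nat_lit 228) (nat_lit 47828845234) (nat_lit 76) (nat_lit 19693999850) (nat_lit 15) (nat_lit 5) (nat_lit 18) (nat_lit 5) (nat_lit 16) (nat_lit 5) (nat_lit 291) (nat_lit 264) (nat_lit 165)) (XT.lf (nat_lit 0) (nat_lit 51940933776) (nat_lit 228) (nat_lit 340392781) (nat_lit 76) (nat_lit 53965536535) (nat_lit 15) (nat_lit 5) (nat_lit 18) (nat_lit 5) (nat_lit 16) (nat_lit 5) (nat_lit 292) (nat_lit 264) (nat_lit 164)))) (XT.nd (nat_lit 156) (nat_lit 304) (nat_lit 0) (XT.nd (nat_lit 78) (nat_lit 0) (nat_lit 0) (XT.lf (nat_lit 0) (nat_lit 52628007774) (nat_lit 152) (nat_lit 21158170995) (nat_lit 228) (nat_lit 39171371731) (nat_lit 13) (nat_lit 5) (nat_lit 15) (nat_lit 5) (nat_lit 16) (nat_lit 5) (nat_lit 293) (nat_lit 264) (nat_lit 163)) (XT.lf (nat_lit 0) (nat_lit 97577285438) (nat_lit 228) (nat_lit 10556810730) (nat_lit 76)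 (nat_lit 12061091238) (nat_lit 13) (nat_lit 5) (nat_lit 16) (nat_lit 5) (nat_lit 14) (nat_lit 4) (nat_lit 294) (nat_lit 264) (nat_lit 162))) (XT.nd (nat_lit 78) (nat_lit 228) (nat_lit 0) (XT.lf (nat_lit 0) (nat_lit 44254144637) (nat_lit 76) (nat_lit 80063159058) (nat_lit 152) (nat_lit 3642256536) (nat_lit 12) (nat_lit 5) (nat_lit 13) (nat_lit 5) (nat_lit 14) (nat_lit 4) (nat_lit 295) (nat_lit 264) (nat_lit 161)) (XT.nd (nat_lit 78) (nat_lit 152) (nat_lit 0) (XT.lf (nat_lit 0) (nat_lit 16496990563) (nat_lit 152) (nat_lit 32778214101) (nat_lit 76) (nat_lit 87047483635) (nat_lit 11) (nat_lit 5) (nat_lit 13) (nat_lit 5) (nat_lit 12) (nat_lit 5) (nat_lit 296) (nat_lit 264) (nat_lit 160)) (XT.lf (nat_lit 0) (nat_lit 22891483903) (nat_lit 152) (nat_lit 15585535292) (nat_lit 228) (nat_lit 106857004525) (nat_lit 9) (nat_lit 5) (nat_lit 11) (nat_lit 5) (nat_lit 12) (nat_lit 5) (nat_lit 297) (nat_lit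 264) (nat_lit 159)))))) (XT.nd (nat_lit 312) (nat_lit 228) (nat_lit 0) (XT.nd (nat_lit 156) (nat_lit 76) (nat_lit 0) (XT.nd (nat_lit 78) (nat_lit 0) (nat_lit 0) (XT.lf (nat_lit 0) (nat_lit 63118741161) (nat_lit 228) (nat_lit 71189439664) (nat_lit 76) (nat_lit 20712925222) (nat_lit 9) (nat_lit 5) (nat_lit 12) (nat_lit 5) (nat_lit 10) (nat_lit 4) (nat_lit 298) (nat_lit 264) (nat_lit 158)) (XT.lf (nat_lit 0) (nat_lit 89992953301) (nat_lit 228) (nat_lit 16101562394) (nat_lit 76) (nat_lit 59375585932) (nat_lit 9) (nat_lit 5) (nat_lit 12) (nat_lit 5) (nat_lit 10) (nat_lit 4) (nat_lit 299) (nat_lit 264) (nat_lit 157))) (XT.nd (nat_lit 78) (nat_lit 0) (nat_lit 0) (XT.lf (nat_lit 0) (nat_lit 44825570763) (nat_lit 76) (nat_lit 74889858339) (nat_lit 152) (nat_lit 57004675380) (nat_lit 8) (nat_lit 5) (nat_lit 9) (nat_lit 5) (nat_lit 10) (nat_lit 4) (nat_lit 300) (nat_lit 264) (nat_lit 156)) (XT.lf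 (nat_lit 0) (nat_lit 111199491125) (nat_lit 76) (nat_lit 40895240699) (nat_lit 152) (nat_lit 36761427972) (nat_lit 8) (nat_lit 5) (nat_lit 9) (nat_lit 5) (nat_lit 10) (nat_lit 4) (nat_lit 301) (nat_lit 264) (nat_lit 155)))) (XT.nd (nat_lit 156) (nat_lit 76) (nat_lit 0) (XT.nd (nat_lit 78) (nat_lit 152) (nat_lit 0) (XT.lf (nat_lit 0) (nat_lit 182881135256) (nat_lit 76) (nat_lit 4181900941) (nat_lit 152) (nat_lit 14900133869) (nat_lit 8) (nat_lit 5) (nat_lit 9) (nat_lit 5) (nat_lit 10) (nat_lit 4) (nat_lit 302) (nat_lit 264) (nat_lit 154)) (XT.lf (nat_lit 0) (nat_lit 9707975849) (nat_lit 152) (nat_lit 171147428959) (nat_lit 76) (nat_lit 35192705496) (nat_lit 6) (nat_lit 5) (nat_lit 8) (nat_lit 5) (nat_lit 7) (nat_lit 4) (nat_lit 303) (nat_lit 264) (nat_lit 153))) (XT.nd (nat_lit 78) (nat_lit 76) (nat_lit 0) (XT.lf (nat_lit 0) (nat_lit 36176829735) (nat_lit 152) (nat_lit 116889038170) (nat_lit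 76) (nat_lit 78161061234) (nat_lit 6) (nat_lit 5) (nat_lit 8) (nat_lit 5) (nat_lit 7) (nat_lit 4) (nat_lit 304) (nat_lit 264) (nat_lit 152)) (XT.nd (nat_lit 78) (nat_lit 76) (nat_lit 0) (XT.lf (nat_lit 0) (nat_lit 64762066156) (nat_lit 152) (nat_lit 58291858762) (nat_lit 76) (nat_lit 124566187420) (nat_lit 6) (nat_lit 5) (nat_lit 8) (nat_lit 5) (nat_lit 7) (nat_lit 4) (nat_lit 305) (nat_lit 264) (nat_lit 151)) (XT.lf (nat_lit 0) (nat_lit 5156388439) (nat_lit 76) (nat_lit 90557196342) (nat_lit 152) (nat_lit 169607194632) (nat_lit 5) (nat_lit 5) (nat_lit 6) (nat_lit 5) (nat_lit 7) (nat_lit 4) (nat_lit 306) (nat_lit 264) (nat_lit 150))))))))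
noncomputable def xc97 : XT := (XT.nd (nat_lit 34632) (nat_lit 0) (nat_lit 1520) (XT.nd (nat_lit 624) (nat_lit 76) (nat_lit 0) (XT.nd (nat_lit 312) (nat_lit 152) (nat_lit 0) (XT.nd (nat_lit 156) (nat_lit 0) (nat_lit 0) (XT.nd (nat_lit 78) (nat_lit 0) (nat_lit 0) (XT.lf (nat_lit 0) (nat_lit 75760411457) (nat_lit 76) (nat_lit 54395228806) (nat_lit 152) (nat_lit 154231141024) (nat_lit 5) (nat_lit 5) (nat_lit 6) (nat_lit 5) (nat_lit 7) (nat_lit 4) (nat_lit 307) (nat_lit 264) (nat_lit 149)) (XT.lf (nat_lit 0) (nat_lit 152011212398) (nat_lit 76) (nat_lit 15340930005) (nat_lit 152) (nat_lit 137625968840) (nat_lit 5) (nat_lit 5) (nat_lit 6) (nat_lit 5) (nat_lit 7) (nat_lit 4) (nat_lit 308) (nat_lit 264) (nat_lit 148))) (XT.nd (nat_lit 78) (nat_lit 0) (nat_lit 0) (XT.lf (nat_lit 0) (nat_lit 207942517772) (nat_lit 152) (nat_lit 93275146973) (nat_lit 0) (nat_lit 25978177087) (nat_lit 5) (nat_lit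 5) (nat_lit 7) (nat_lit 4) (nat_lit 5) (nat_lit 4) (nat_lit 309) (nat_lit 264) (nat_lit 147)) (XT.lf (nat_lit 0) (nat_lit 252038004042) (nat_lit 152) (nat_lit 29068087426) (nat_lit 0) (nat_lit 70072007105) (nat_lit 5) (nat_lit 5) (nat_lit 7) (nat_lit 4) (nat_lit 5) (nat_lit 4) (nat_lit 310) (nat_lit 264) (nat_lit 146)))) (XT.nd (nat_lit 156) (nat_lit 76) (nat_lit 0) (XT.nd (nat_lit 78) (nat_lit 0) (nat_lit 0) (XT.lf (nat_lit 0) (nat_lit 41605930595) (nat_lit 76) (nat_lit 258704047471) (nat_lit 76) (nat_lit 76736516966) (nat_lit 4) (nat_lit 4) (nat_lit 5) (nat_lit 5) (nat_lit 5) (nat_lit 4) (nat_lit 311) (nat_lit 264) (nat_lit 145)) (XT.lf (nat_lit 0) (nat_lit 118970680763) (nat_lit 76) (nat_lit 233978676039) (nat_lit 76) (nat_lit 52009725565) (nat_lit 4) (nat_lit 4) (nat_lit 5) (nat_lit 5) (nat_lit 5) (nat_lit 4) (nat_lit 312) (nat_lit 264) (nat_lit 144))) (XT.nd (nat_lit 78) (nat_lit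 76) (nat_lit 0) (XT.lf (nat_lit 0) (nat_lit 202523498611) (nat_lit 76) (nat_lit 207275738581) (nat_lit 76) (nat_lit 25305473321) (nat_lit 4) (nat_lit 4) (nat_lit 5) (nat_lit 5) (nat_lit 5) (nat_lit 4) (nat_lit 313) (nat_lit 264) (nat_lit 143)) (XT.lf (nat_lit 0) (nat_lit 3421361524) (nat_lit 152) (nat_lit 174957691530) (nat_lit 76) (nat_lit 289280208009) (nat_lit 3) (nat_lit 5) (nat_lit 5) (nat_lit 5) (nat_lit 4) (nat_lit 4) (nat_lit 314) (nat_lit 264) (nat_lit 142))))) (XT.nd (nat_lit 33618) (nat_lit 0) (nat_lit 4104) (XT.nd (nat_lit 156) (nat_lit 76) (nat_lit 0) (XT.nd (nat_lit 78) (nat_lit 0) (nat_lit 0) (XT.lf (nat_lit 0) (nat_lit 33571048941) (nat_lit 152) (nat_lit 113151959541) (nat_lit 76) (nat_lit 356073861801) (nat_lit 3) (nat_lit 5) (nat_lit 5) (nat_lit 5) (nat_lit 4) (nat_lit 4) (nat_lit 315) (nat_lit 264) (nat_lit 141)) (XT.lf (nat_lit 0) (nat_lit 66132186927) (nat_lit 152)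 (nat_lit 46402670391) (nat_lit 76) (nat_lit 428210658197) (nat_lit 3) (nat_lit 5) (nat_lit 5) (nat_lit 5) (nat_lit 4) (nat_lit 4) (nat_lit 316) (nat_lit 264) (nat_lit 140))) (XT.nd (nat_lit 78) (nat_lit 0) (nat_lit 0) (XT.lf (nat_lit 0) (nat_lit 26535013408) (nat_lit 76) (nat_lit 75177002888) (nat_lit 152) (nat_lit 479997347023) (nat_lit 2) (nat_lit 5) (nat_lit 3) (nat_lit 5) (nat_lit 4) (nat_lit 4) (nat_lit 317) (nat_lit 264) (nat_lit 139)) (XT.lf (nat_lit 0) (nat_lit 106963937947) (nat_lit 76) (nat_lit 33982136573) (nat_lit 152) (nat_lit 484963853202) (nat_lit 2) (nat_lit 5) (nat_lit 3) (nat_lit 5) (nat_lit 4) (nat_lit 4) (nat_lit 318) (nat_lit 264) (nat_lit 138)))) (XT.nd (nat_lit 156) (nat_lit 608) (nat_lit 0) (XT.nd (nat_lit 78) (nat_lit 0) (nat_lit 0) (XT.lf (nat_lit 0) (nat_lit 13818083970) (nat_lit 684) (nat_lit 167714838) (nat_lit 684) (nat_lit 167714838) (nat_lit 64) (nat_lit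 3) (nat_lit 73) (nat_lit 3) (nat_lit 73) (nat_lit 5) (nat_lit 265) (nat_lit 265) (nat_lit 190)) (XT.lf (nat_lit 76) (nat_lit 18314971775) (nat_lit 0) (nat_lit 10822839068) (nat_lit 684) (nat_lit 281093819) (nat_lit 65) (nat_lit 5) (nat_lit 64) (nat_lit 3) (nat_lit 73) (nat_lit 5) (nat_lit 266) (nat_lit 265) (nat_lit 189))) (XT.nd (nat_lit 78) (nat_lit 0) (nat_lit 0) (XT.lf (nat_lit 0) (nat_lit 378890731) (nat_lit 684) (nat_lit 22635610244) (nat_lit 760) (nat_lit 7593002963) (nat_lit 56) (nat_lit 5) (nat_lit 65) (nat_lit 5) (nat_lit 66) (nat_lit 5) (nat_lit 267) (nat_lit 265) (nat_lit 188)) (XT.nd (nat_lit 78) (nat_lit 0) (nat_lit 76) (XT.lf (nat_lit 0) (nat_lit 1450495768) (nat_lit 684) (nat_lit 3108437235) (nat_lit 760) (nat_lit 27313646653) (nat_lit 56) (nat_lit 5) (nat_lit 65) (nat_lit 5) (nat_lit 66) (nat_lit 5) (nat_lit 268) (nat_lit 265) (nat_lit 187)) (XT.lf (nat_lit 0) (nat_lit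 3132798086) (nat_lit 684) (nat_lit 14900808201) (nat_lit 760) (nat_lit 15179055218) (nat_lit 57) (nat_lit 5) (nat_lit 66) (nat_lit 5) (nat_lit 67) (nat_lit 5) (nat_lit 269) (nat_lit 265) (nat_lit 186))))))) (XT.nd (nat_lit 702) (nat_lit 1216) (nat_lit 0) (XT.nd (nat_lit 312) (nat_lit 912) (nat_lit 0) (XT.nd (nat_lit 156) (nat_lit 608) (nat_lit 0) (XT.nd (nat_lit 78) (nat_lit 0) (nat_lit 0) (XT.lf (nat_lit 0) (nat_lit 5211433614) (nat_lit 684) (nat_lit 27636850040) (nat_lit 760) (nat_lit 1798623720) (nat_lit 58) (nat_lit 5) (nat_lit 67) (nat_lit 5) (nat_lit 68) (nat_lit 5) (nat_lit 270) (nat_lit 265) (nat_lit 185)) (XT.lf (nat_lit 0) (nat_lit 8015776762) (nat_lit 684) (nat_lit 5292158699) (nat_lit 760) (nat_lit 22860028207) (nat_lit 58) (nat_lit 5) (nat_lit 67) (nat_lit 5) (nat_lit 68) (nat_lit 5) (nat_lit 271) (nat_lit 265) (nat_lit 184))) (XT.nd (nat_lit 78) (nat_lit 684) (nat_lit 0)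 (XT.lf (nat_lit 0) (nat_lit 11467102150) (nat_lit 684) (nat_lit 18466124616) (nat_lit 76) (nat_lit 7856384476) (nat_lit 59) (nat_lit 5) (nat_lit 68) (nat_lit 5) (nat_lit 60) (nat_lit 5) (nat_lit 272) (nat_lit 265) (nat_lit 183)) (XT.lf (nat_lit 0) (nat_lit 6537877748) (nat_lit 684) (nat_lit 9069480015) (nat_lit 760) (nat_lit 23913027311) (nat_lit 50) (nat_lit 5) (nat_lit 59) (nat_lit 5) (nat_lit 60) (nat_lit 5) (nat_lit 273) (nat_lit 265) (nat_lit 182)))) (XT.nd (nat_lit 156) (nat_lit 608) (nat_lit 0) (XT.nd (nat_lit 78) (nat_lit 304) (nat_lit 0) (XT.lf (nat_lit 0) (nat_lit 20609091147) (nat_lit 760) (nat_lit 7393952022) (nat_lit 76) (nat_lit 13360097797) (nat_lit 50) (nat_lit 5) (nat_lit 60) (nat_lit 5) (nat_lit 51) (nat_lit 5) (nat_lit 274) (nat_lit 265) (nat_lit 181)) (XT.lf (nat_lit 0) (nat_lit 20746709783) (nat_lit 304) (nat_lit 5734720902) (nat_lit 380) (nat_lit 16848393845) (nat_lit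 46) (nat_lit 5) (nat_lit 50) (nat_lit 5) (nat_lit 51) (nat_lit 5) (nat_lit 275) (nat_lit 265) (nat_lit 180))) (XT.nd (nat_lit 78) (nat_lit 304) (nat_lit 0) (XT.lf (nat_lit 0) (nat_lit 5848235320) (nat_lit 304) (nat_lit 27477497802) (nat_lit 380) (nat_lit 12103029178) (nat_lit 42) (nat_lit 5) (nat_lit 46) (nat_lit 5) (nat_lit 47) (nat_lit 5) (nat_lit 276) (nat_lit 265) (nat_lit 179)) (XT.nd (nat_lit 78) (nat_lit 304) (nat_lit 0) (XT.lf (nat_lit 0) (nat_lit 37254759825) (nat_lit 304) (nat_lit 3945703024) (nat_lit 380) (nat_lit 6471034302) (nat_lit 42) (nat_lit 5) (nat_lit 46) (nat_lit 5) (nat_lit 47) (nat_lit 5) (nat_lit 277) (nat_lit 265) (nat_lit 178)) (XT.lf (nat_lit 0) (nat_lit 299288736) (nat_lit 304) (nat_lit 28640296810) (nat_lit 76) (nat_lit 21120624883) (nat_lit 38) (nat_lit 5) (nat_lit 42) (nat_lit 5) (nat_lit 39) (nat_lit 5) (nat_lit 278) (nat_lit 265) (nat_lit 177)))))) (XT.nd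 (nat_lit 312) (nat_lit 684) (nat_lit 0) (XT.nd (nat_lit 156) (nat_lit 228) (nat_lit 0) (XT.nd (nat_lit 78) (nat_lit 0) (nat_lit 0) (XT.lf (nat_lit 0) (nat_lit 3471352054) (nat_lit 304) (nat_lit 4216334663) (nat_lit 380) (nat_lit 44931893196) (nat_lit 34) (nat_lit 5) (nat_lit 38) (nat_lit 5) (nat_lit 39) (nat_lit 5) (nat_lit 279) (nat_lit 265) (nat_lit 176)) (XT.lf (nat_lit 0) (nat_lit 16520533070) (nat_lit 380) (nat_lit 16548974612) (nat_lit 76) (nat_lit 22271542264) (nat_lit 34) (nat_lit 5) (nat_lit 39) (nat_lit 5) (nat_lit 35) (nat_lit 5) (nat_lit 280) (nat_lit 265) (nat_lit 175))) (XT.nd (nat_lit 78) (nat_lit 0) (nat_lit 0) (XT.lf (nat_lit 0) (nat_lit 19196283991) (nat_lit 228) (nat_lit 7230129790) (nat_lit 304) (nat_lit 31835521818) (nat_lit 31) (nat_lit 5) (nat_lit 34) (nat_lit 5) (nat_lit 35) (nat_lit 5) (nat_lit 281) (nat_lit 265) (nat_lit 174)) (XT.lf (nat_lit 0) (nat_lit 37736417355)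 (nat_lit 304) (nat_lit 3342722910) (nat_lit 76) (nat_lit 20306786209) (nat_lit 31) (nat_lit 5) (nat_lit 35) (nat_lit 5) (nat_lit 32) (nat_lit 5) (nat_lit 282) (nat_lit 265) (nat_lit 173)))) (XT.nd (nat_lit 156) (nat_lit 304) (nat_lit 0) (XT.nd (nat_lit 78) (nat_lit 152) (nat_lit 0) (XT.lf (nat_lit 0) (nat_lit 36272227704) (nat_lit 228) (nat_lit 14363363799) (nat_lit 304) (nat_lit 14090042333) (nat_lit 28) (nat_lit 5) (nat_lit 31) (nat_lit 5) (nat_lit 32) (nat_lit 5) (nat_lit 283) (nat_lit 265) (nat_lit 172)) (XT.lf (nat_lit 0) (nat_lit 10965100239) (nat_lit 152) (nat_lit 54054546173) (nat_lit 228) (nat_lit 3290238600) (nat_lit 26) (nat_lit 5) (nat_lit 28) (nat_lit 5) (nat_lit 29) (nat_lit 5) (nat_lit 284) (nat_lit 265) (nat_lit 171))) (XT.nd (nat_lit 78) (nat_lit 228) (nat_lit 0) (XT.lf (nat_lit 0) (nat_lit 8847974443) (nat_lit 228) (nat_lit 17988726084) (nat_lit 76) (nat_lit 45300530328)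 (nat_lit 25) (nat_lit 5) (nat_lit 28) (nat_lit 5) (nat_lit 26) (nat_lit 5) (nat_lit 285) (nat_lit 265) (nat_lit 170)) (XT.nd (nat_lit 78) (nat_lit 0) (nat_lit 0) (XT.lf (nat_lit 0) (nat_lit 22282002045) (nat_lit 304) (nat_lit 51031163958) (nat_lit 76) (nat_lit 2932911765) (nat_lit 22) (nat_lit 5) (nat_lit 26) (nat_lit 5) (nat_lit 23) (nat_lit 5) (nat_lit 286) (nat_lit 265) (nat_lit 169)) (XT.lf (nat_lit 0) (nat_lit 37558650291) (nat_lit 304) (nat_lit 8612737330) (nat_lit 76) (nat_lit 34473860906) (nat_lit 22) (nat_lit 5) (nat_lit 26) (nat_lit 5) (nat_lit 23) (nat_lit 5) (nat_lit 287) (nat_lit 265) (nat_lit 168))))))))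
noncomputable def xc98 : XT := (XT.nd (nat_lit 1326) (nat_lit 304) (nat_lit 0) (XT.nd (nat_lit 624) (nat_lit 532) (nat_lit 0) (XT.nd (nat_lit 312) (nat_lit 152) (nat_lit 0) (XT.nd (nat_lit 156) (nat_lit 380) (nat_lit 0) (XT.nd (nat_lit 78) (nat_lit 0) (nat_lit 0) (XT.lf (nat_lit 0) (nat_lit 38424987930) (nat_lit 152) (nat_lit 16229488029) (nat_lit 228) (nat_lit 30712034905) (nat_lit 20) (nat_lit 5) (nat_lit 22) (nat_lit 5) (nat_lit 23) (nat_lit 5) (nat_lit 288) (nat_lit 265) (nat_lit 167)) (XT.lf (nat_lit 0) (nat_lit 73519202277) (nat_lit 228) (nat_lit 1182599039) (nat_lit 76) (nat_lit 15743620585) (nat_lit 20) (nat_lit 5) (nat_lit 23) (nat_lit 5) (nat_lit 21) (nat_lit 5) (nat_lit 289) (nat_lit 265) (nat_lit 166))) (XT.nd (nat_lit 78) (nat_lit 228) (nat_lit 0) (XT.lf (nat_lit 0) (nat_lit 49545469641) (nat_lit 152) (nat_lit 45392301964) (nat_lit 228) (nat_lit 940649711) (nat_lit 18) (nat_lit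 5) (nat_lit 20) (nat_lit 5) (nat_lit 21) (nat_lit 5) (nat_lit 290) (nat_lit 265) (nat_lit 165)) (XT.lf (nat_lit 0) (nat_lit 2448551020) (nat_lit 152) (nat_lit 13409467179) (nat_lit 228) (nat_lit 85872471466) (nat_lit 15) (nat_lit 5) (nat_lit 17) (nat_lit 5) (nat_lit 18) (nat_lit 5) (nat_lit 291) (nat_lit 265) (nat_lit 164)))) (XT.nd (nat_lit 156) (nat_lit 152) (nat_lit 0) (XT.nd (nat_lit 78) (nat_lit 0) (nat_lit 0) (XT.lf (nat_lit 0) (nat_lit 35115973655) (nat_lit 228) (nat_lit 51585835008) (nat_lit 76) (nat_lit 21290733438) (nat_lit 15) (nat_lit 5) (nat_lit 18) (nat_lit 5) (nat_lit 16) (nat_lit 5) (nat_lit 292) (nat_lit 265) (nat_lit 163)) (XT.lf (nat_lit 0) (nat_lit 56138505642) (nat_lit 228) (nat_lit 303441014) (nat_lit 76) (nat_lit 58302421680) (nat_lit 15) (nat_lit 5) (nat_lit 18) (nat_lit 5) (nat_lit 16) (nat_lit 5) (nat_lit 293) (nat_lit 265) (nat_lit 162))) (XT.nd (nat_lit 78)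 (nat_lit 0) (nat_lit 0) (XT.lf (nat_lit 0) (nat_lit 56899642263) (nat_lit 152) (nat_lit 22829553379) (nat_lit 228) (nat_lit 42262833375) (nat_lit 13) (nat_lit 5) (nat_lit 15) (nat_lit 5) (nat_lit 16) (nat_lit 5) (nat_lit 294) (nat_lit 265) (nat_lit 161)) (XT.lf (nat_lit 0) (nat_lit 105420926306) (nat_lit 228) (nat_lit 11342848843) (nat_lit 76) (nat_lit 13045043797) (nat_lit 13) (nat_lit 5) (nat_lit 16) (nat_lit 5) (nat_lit 14) (nat_lit 4) (nat_lit 295) (nat_lit 265) (nat_lit 160))))) (XT.nd (nat_lit 312) (nat_lit 228) (nat_lit 0) (XT.nd (nat_lit 156) (nat_lit 152) (nat_lit 0) (XT.nd (nat_lit 78) (nat_lit 76) (nat_lit 0) (XT.lf (nat_lit 0) (nat_lit 47850440321) (nat_lit 76) (nat_lit 86447804790) (nat_lit 152) (nat_lit 3896199721) (nat_lit 12) (nat_lit 5) (nat_lit 13) (nat_lit 5) (nat_lit 14) (nat_lit 4) (nat_lit 296) (nat_lit 265) (nat_lit 159)) (XT.lf (nat_lit 0) (nat_lit 17850304538)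 (nat_lit 152) (nat_lit 35347452869) (nat_lit 76) (nat_lit 94028977954) (nat_lit 11) (nat_lit 5) (nat_lit 13) (nat_lit 5) (nat_lit 12) (nat_lit 5) (nat_lit 297) (nat_lit 265) (nat_lit 158))) (XT.nd (nat_lit 78) (nat_lit 0) (nat_lit 0) (XT.lf (nat_lit 0) (nat_lit 24773516862) (nat_lit 152) (nat_lit 16813524855) (nat_lit 228) (nat_lit 115372027272) (nat_lit 9) (nat_lit 5) (nat_lit 11) (nat_lit 5) (nat_lit 12) (nat_lit 5) (nat_lit 298) (nat_lit 265) (nat_lit 157)) (XT.lf (nat_lit 0) (nat_lit 68198013916) (nat_lit 228) (nat_lit 76836357316) (nat_lit 76) (nat_lit 22386857239) (nat_lit 9) (nat_lit 5) (nat_lit 12) (nat_lit 5) (nat_lit 10) (nat_lit 4) (nat_lit 299) (nat_lit 265) (nat_lit 156)))) (XT.nd (nat_lit 156) (nat_lit 152) (nat_lit 0) (XT.nd (nat_lit 78) (nat_lit 76) (nat_lit 0) (XT.lf (nat_lit 0) (nat_lit 97219957585) (nat_lit 228) (nat_lit 17345023013) (nat_lit 76) (nat_lit 64141279101)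 (nat_lit 9) (nat_lit 5) (nat_lit 12) (nat_lit 5) (nat_lit 10) (nat_lit 4) (nat_lit 300) (nat_lit 265) (nat_lit 155)) (XT.lf (nat_lit 0) (nat_lit 48454339737) (nat_lit 76) (nat_lit 80864516669) (nat_lit 152) (nat_lit 61537480438) (nat_lit 8) (nat_lit 5) (nat_lit 9) (nat_lit 5) (nat_lit 10) (nat_lit 4) (nat_lit 301) (nat_lit 265) (nat_lit 154))) (XT.nd (nat_lit 78) (nat_lit 152) (nat_lit 0) (XT.lf (nat_lit 0) (nat_lit 120135009038) (nat_lit 76) (nat_lit 44151554088) (nat_lit 152) (nat_lit 39676815384) (nat_lit 8) (nat_lit 5) (nat_lit 9) (nat_lit 5) (nat_lit 10) (nat_lit 4) (nat_lit 302) (nat_lit 265) (nat_lit 153)) (XT.nd (nat_lit 78) (nat_lit 152) (nat_lit 0) (XT.lf (nat_lit 0) (nat_lit 197548254431) (nat_lit 76) (nat_lit 4502280916) (nat_lit 152) (nat_lit 16068508629) (nat_lit 8) (nat_lit 5) (nat_lit 9) (nat_lit 5) (nat_lit 10) (nat_lit 4) (nat_lit 303) (nat_lit 265) (nat_lit 152)) (XT.lf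 (nat_lit 0) (nat_lit 10506577363) (nat_lit 152) (nat_lit 184802493596) (nat_lit 76) (nat_lit 38021739836) (nat_lit 6) (nat_lit 5) (nat_lit 8) (nat_lit 5) (nat_lit 7) (nat_lit 4) (nat_lit 304) (nat_lit 265) (nat_lit 151))))))) (XT.nd (nat_lit 702) (nat_lit 152) (nat_lit 0) (XT.nd (nat_lit 312) (nat_lit 76) (nat_lit 0) (XT.nd (nat_lit 156) (nat_lit 76) (nat_lit 0) (XT.nd (nat_lit 78) (nat_lit 0) (nat_lit 0) (XT.lf (nat_lit 0) (nat_lit 39091312638) (nat_lit 152) (nat_lit 126206152261) (nat_lit 76) (nat_lit 84426555299) (nat_lit 6) (nat_lit 5) (nat_lit 8) (nat_lit 5) (nat_lit 7) (nat_lit 4) (nat_lit 305) (nat_lit 265) (nat_lit 150)) (XT.lf (nat_lit 0) (nat_lit 69961861564) (nat_lit 152) (nat_lit 62923717683) (nat_lit 76) (nat_lit 134543157568) (nat_lit 6) (nat_lit 5) (nat_lit 8) (nat_lit 5) (nat_lit 7) (nat_lit 4) (nat_lit 306) (nat_lit 265) (nat_lit 149))) (XT.nd (nat_lit 78) (nat_lit 0)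 (nat_lit 0) (XT.lf (nat_lit 0) (nat_lit 5599020787) (nat_lit 76) (nat_lit 97789556346) (nat_lit 152) (nat_lit 183156929535) (nat_lit 5) (nat_lit 5) (nat_lit 6) (nat_lit 5) (nat_lit 7) (nat_lit 4) (nat_lit 307) (nat_lit 265) (nat_lit 148)) (XT.lf (nat_lit 0) (nat_lit 81849134441) (nat_lit 76) (nat_lit 58735536274) (nat_lit 152) (nat_lit 166552187244) (nat_lit 5) (nat_lit 5) (nat_lit 6) (nat_lit 5) (nat_lit 7) (nat_lit 4) (nat_lit 308) (nat_lit 265) (nat_lit 147)))) (XT.nd (nat_lit 156) (nat_lit 76) (nat_lit 0) (XT.nd (nat_lit 78) (nat_lit 0) (nat_lit 0) (XT.lf (nat_lit 0) (nat_lit 164197933526) (nat_lit 76) (nat_lit 16557731409) (nat_lit 152) (nat_lit 148619893512) (nat_lit 5) (nat_lit 5) (nat_lit 6) (nat_lit 5) (nat_lit 7) (nat_lit 4) (nat_lit 309) (nat_lit 265) (nat_lit 146)) (XT.lf (nat_lit 0) (nat_lit 224592284613) (nat_lit 152) (nat_lit 100712656583) (nat_lit 0) (nat_lit 28065818101)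 (nat_lit 5) (nat_lit 5) (nat_lit 7) (nat_lit 4) (nat_lit 5) (nat_lit 4) (nat_lit 310) (nat_lit 265) (nat_lit 145))) (XT.nd (nat_lit 78) (nat_lit 76) (nat_lit 0) (XT.lf (nat_lit 0) (nat_lit 272214345680) (nat_lit 152) (nat_lit 31370847246) (nat_lit 0) (nat_lit 75686459199) (nat_lit 5) (nat_lit 5) (nat_lit 7) (nat_lit 4) (nat_lit 5) (nat_lit 4) (nat_lit 311) (nat_lit 265) (nat_lit 144)) (XT.nd (nat_lit 78) (nat_lit 0) (nat_lit 0) (XT.lf (nat_lit 0) (nat_lit 44956106260) (nat_lit 76) (nat_lit 279391324900) (nat_lit 76) (nat_lit 82862123632) (nat_lit 4) (nat_lit 4) (nat_lit 5) (nat_lit 5) (nat_lit 5) (nat_lit 4) (nat_lit 312) (nat_lit 265) (nat_lit 143)) (XT.lf (nat_lit 0) (nat_lit 128508428944) (nat_lit 76) (nat_lit 252688593855) (nat_lit 76) (nat_lit 56158175193) (nat_lit 4) (nat_lit 4) (nat_lit 5) (nat_lit 5) (nat_lit 5) (nat_lit 4) (nat_lit 313) (nat_lit 265) (nat_lit 142)))))) (XT.nd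 (nat_lit 312) (nat_lit 76) (nat_lit 0) (XT.nd (nat_lit 156) (nat_lit 0) (nat_lit 0) (XT.nd (nat_lit 78) (nat_lit 76) (nat_lit 0) (XT.lf (nat_lit 0) (nat_lit 218743983795) (nat_lit 76) (nat_lit 223850041865) (nat_lit 76) (nat_lit 27318495985) (nat_lit 4) (nat_lit 4) (nat_lit 5) (nat_lit 5) (nat_lit 5) (nat_lit 4) (nat_lit 314) (nat_lit 265) (nat_lit 141)) (XT.lf (nat_lit 0) (nat_lit 3705301783) (nat_lit 152) (nat_lit 188936720943) (nat_lit 76) (nat_lit 312429447166) (nat_lit 3) (nat_lit 5) (nat_lit 5) (nat_lit 5) (nat_lit 4) (nat_lit 4) (nat_lit 315) (nat_lit 265) (nat_lit 140))) (XT.nd (nat_lit 78) (nat_lit 0) (nat_lit 0) (XT.lf (nat_lit 0) (nat_lit 36266206317) (nat_lit 152) (nat_lit 122187833056) (nat_lit 76) (nat_lit 384566087890) (nat_lit 3) (nat_lit 5) (nat_lit 5) (nat_lit 5) (nat_lit 4) (nat_lit 4) (nat_lit 316) (nat_lit 265) (nat_lit 139)) (XT.lf (nat_lit 0) (nat_lit 71431533604)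 (nat_lit 152) (nat_lit 50099806940) (nat_lit 76) (nat_lit 462473360061) (nat_lit 3) (nat_lit 5) (nat_lit 5) (nat_lit 5) (nat_lit 4) (nat_lit 4) (nat_lit 317) (nat_lit 265) (nat_lit 138)))) (XT.nd (nat_lit 33540) (nat_lit 0) (nat_lit 4104) (XT.nd (nat_lit 33462) (nat_lit 0) (nat_lit 4712) (XT.lf (nat_lit 0) (nat_lit 28672236331) (nat_lit 76) (nat_lit 81185088399) (nat_lit 152) (nat_lit 518388354034) (nat_lit 2) (nat_lit 5) (nat_lit 3) (nat_lit 5) (nat_lit 4) (nat_lit 4) (nat_lit 318) (nat_lit 265) (nat_lit 137)) (XT.lf (nat_lit 0) (nat_lit 15031127366) (nat_lit 684) (nat_lit 124353954) (nat_lit 684) (nat_lit 124353954) (nat_lit 64) (nat_lit 3) (nat_lit 73) (nat_lit 3) (nat_lit 73) (nat_lit 5) (nat_lit 266) (nat_lit 266) (nat_lit 188))) (XT.nd (nat_lit 78) (nat_lit 608) (nat_lit 0) (XT.lf (nat_lit 76) (nat_lit 19888790650) (nat_lit 0) (nat_lit 11780994051) (nat_lit 684) (nat_lit 91511495)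 (nat_lit 65) (nat_lit 5) (nat_lit 64) (nat_lit 3) (nat_lit 73) (nat_lit 5) (nat_lit 267) (nat_lit 266) (nat_lit 187)) (XT.nd (nat_lit 78) (nat_lit 0) (nat_lit 0) (XT.lf (nat_lit 0) (nat_lit 599761023) (nat_lit 684) (nat_lit 24323294786) (nat_lit 760) (nat_lit 8122573939) (nat_lit 56) (nat_lit 5) (nat_lit 65) (nat_lit 5) (nat_lit 66) (nat_lit 5) (nat_lit 268) (nat_lit 266) (nat_lit 186)) (XT.lf (nat_lit 0) (nat_lit 1742978979) (nat_lit 684) (nat_lit 3243071217) (nat_lit 760) (nat_lit 29426637218) (nat_lit 56) (nat_lit 5) (nat_lit 65) (nat_lit 5) (nat_lit 66) (nat_lit 5) (nat_lit 269) (nat_lit 266) (nat_lit 185))))))))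
noncomputable def xc99 : XT := (XT.nd (nat_lit 1326) (nat_lit 1292) (nat_lit 0) (XT.nd (nat_lit 624) (nat_lit 1292) (nat_lit 0) (XT.nd (nat_lit 312) (nat_lit 1140) (nat_lit 0) (XT.nd (nat_lit 156) (nat_lit 0) (nat_lit 76) (XT.nd (nat_lit 78) (nat_lit 0) (nat_lit 76) (XT.lf (nat_lit 0) (nat_lit 3547624521) (nat_lit 684) (nat_lit 15973848398) (nat_lit 760) (nat_lit 16339179861) (nat_lit 57) (nat_lit 5) (nat_lit 66) (nat_lit 5) (nat_lit 67) (nat_lit 5) (nat_lit 270) (nat_lit 266) (nat_lit 184)) (XT.lf (nat_lit 0) (nat_lit 5781541315) (nat_lit 684) (nat_lit 29724880020) (nat_lit 760) (nat_lit 1903827575) (nat_lit 58) (nat_lit 5) (nat_lit 67) (nat_lit 5) (nat_lit 68) (nat_lit 5) (nat_lit 271) (nat_lit 266) (nat_lit 183))) (XT.nd (nat_lit 78) (nat_lit 0) (nat_lit 76) (XT.lf (nat_lit 0) (nat_lit 8798884284) (nat_lit 684) (nat_lit 5601718411) (nat_lit 760) (nat_lit 24653010054) (nat_lit 58)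 (nat_lit 5) (nat_lit 67) (nat_lit 5) (nat_lit 68) (nat_lit 5) (nat_lit 272) (nat_lit 266) (nat_lit 182)) (XT.lf (nat_lit 0) (nat_lit 12517130974) (nat_lit 684) (nat_lit 19826874285) (nat_lit 76) (nat_lit 8461497643) (nat_lit 59) (nat_lit 5) (nat_lit 68) (nat_lit 5) (nat_lit 60) (nat_lit 5) (nat_lit 273) (nat_lit 266) (nat_lit 181)))) (XT.nd (nat_lit 156) (nat_lit 608) (nat_lit 0) (XT.nd (nat_lit 78) (nat_lit 0) (nat_lit 0) (XT.lf (nat_lit 0) (nat_lit 7172383569) (nat_lit 684) (nat_lit 9808137198) (nat_lit 760) (nat_lit 25694669906) (nat_lit 50) (nat_lit 5) (nat_lit 59) (nat_lit 5) (nat_lit 60) (nat_lit 5) (nat_lit 274) (nat_lit 266) (nat_lit 180)) (XT.lf (nat_lit 0) (nat_lit 22372975730) (nat_lit 760) (nat_lit 7875741038) (nat_lit 76) (nat_lit 14417165307) (nat_lit 50) (nat_lit 5) (nat_lit 60) (nat_lit 5) (nat_lit 51) (nat_lit 5) (nat_lit 275) (nat_lit 266) (nat_lit 179))) (XT.nd (nat_lit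 78) (nat_lit 304) (nat_lit 0) (XT.lf (nat_lit 0) (nat_lit 22511405104) (nat_lit 304) (nat_lit 6196805854) (nat_lit 380) (nat_lit 18082074851) (nat_lit 46) (nat_lit 5) (nat_lit 50) (nat_lit 5) (nat_lit 51) (nat_lit 5) (nat_lit 276) (nat_lit 266) (nat_lit 178)) (XT.lf (nat_lit 0) (nat_lit 6422207910) (nat_lit 304) (nat_lit 29671438913) (nat_lit 380) (nat_lit 12963850198) (nat_lit 42) (nat_lit 5) (nat_lit 46) (nat_lit 5) (nat_lit 47) (nat_lit 5) (nat_lit 277) (nat_lit 266) (nat_lit 177))))) (XT.nd (nat_lit 312) (nat_lit 684) (nat_lit 0) (XT.nd (nat_lit 156) (nat_lit 304) (nat_lit 0) (XT.nd (nat_lit 78) (nat_lit 304) (nat_lit 0) (XT.lf (nat_lit 0) (nat_lit 40333394096) (nat_lit 304) (nat_lit 4257416013) (nat_lit 380) (nat_lit 6889252866) (nat_lit 42) (nat_lit 5) (nat_lit 46) (nat_lit 5) (nat_lit 47) (nat_lit 5) (nat_lit 278) (nat_lit 266) (nat_lit 176)) (XT.lf (nat_lit 0) (nat_lit 414007274)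 (nat_lit 304) (nat_lit 30829277897) (nat_lit 76) (nat_lit 22816816691) (nat_lit 38) (nat_lit 5) (nat_lit 42) (nat_lit 5) (nat_lit 39) (nat_lit 5) (nat_lit 279) (nat_lit 266) (nat_lit 175))) (XT.nd (nat_lit 78) (nat_lit 0) (nat_lit 0) (XT.lf (nat_lit 0) (nat_lit 3846859534) (nat_lit 304) (nat_lit 4541420374) (nat_lit 380) (nat_lit 48436229495) (nat_lit 34) (nat_lit 5) (nat_lit 38) (nat_lit 5) (nat_lit 39) (nat_lit 5) (nat_lit 280) (nat_lit 266) (nat_lit 174)) (XT.lf (nat_lit 0) (nat_lit 17921591511) (nat_lit 380) (nat_lit 17778220902) (nat_lit 76) (nat_lit 24064219267) (nat_lit 34) (nat_lit 5) (nat_lit 39) (nat_lit 5) (nat_lit 35) (nat_lit 5) (nat_lit 281) (nat_lit 266) (nat_lit 173)))) (XT.nd (nat_lit 156) (nat_lit 456) (nat_lit 0) (XT.nd (nat_lit 78) (nat_lit 0) (nat_lit 0) (XT.lf (nat_lit 0) (nat_lit 20822544073) (nat_lit 228) (nat_lit 7792929808) (nat_lit 304) (nat_lit 34303362297)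 (nat_lit 31) (nat_lit 5) (nat_lit 34) (nat_lit 5) (nat_lit 35) (nat_lit 5) (nat_lit 282) (nat_lit 266) (nat_lit 172)) (XT.lf (nat_lit 0) (nat_lit 40824951780) (nat_lit 304) (nat_lit 3522763049) (nat_lit 76) (nat_lit 21945320528) (nat_lit 31) (nat_lit 5) (nat_lit 35) (nat_lit 5) (nat_lit 32) (nat_lit 5) (nat_lit 283) (nat_lit 266) (nat_lit 171))) (XT.nd (nat_lit 78) (nat_lit 228) (nat_lit 0) (XT.lf (nat_lit 0) (nat_lit 39257586286) (nat_lit 228) (nat_lit 15494621384) (nat_lit 304) (nat_lit 15147925298) (nat_lit 28) (nat_lit 5) (nat_lit 31) (nat_lit 5) (nat_lit 32) (nat_lit 5) (nat_lit 284) (nat_lit 266) (nat_lit 170)) (XT.nd (nat_lit 78) (nat_lit 76) (nat_lit 0) (XT.lf (nat_lit 0) (nat_lit 11925387550) (nat_lit 152) (nat_lit 58358282245) (nat_lit 228) (nat_lit 3487639793) (nat_lit 26) (nat_lit 5) (nat_lit 28) (nat_lit 5) (nat_lit 29) (nat_lit 5) (nat_lit 285) (nat_lit 266) (nat_lit 169))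 (XT.lf (nat_lit 0) (nat_lit 9614804353) (nat_lit 228) (nat_lit 19348733509) (nat_lit 76) (nat_lit 48941507012) (nat_lit 25) (nat_lit 5) (nat_lit 28) (nat_lit 5) (nat_lit 26) (nat_lit 5) (nat_lit 286) (nat_lit 266) (nat_lit 168))))))) (XT.nd (nat_lit 702) (nat_lit 380) (nat_lit 0) (XT.nd (nat_lit 312) (nat_lit 532) (nat_lit 0) (XT.nd (nat_lit 156) (nat_lit 152) (nat_lit 0) (XT.nd (nat_lit 78) (nat_lit 0) (nat_lit 0) (XT.lf (nat_lit 0) (nat_lit 24120675468) (nat_lit 304) (nat_lit 55035324410) (nat_lit 76) (nat_lit 3186759513) (nat_lit 22) (nat_lit 5) (nat_lit 26) (nat_lit 5) (nat_lit 23) (nat_lit 5) (nat_lit 287) (nat_lit 266) (nat_lit 167)) (XT.lf (nat_lit 0) (nat_lit 40615299036) (nat_lit 304) (nat_lit 9229226071) (nat_lit 76) (nat_lit 37249561266) (nat_lit 22) (nat_lit 5) (nat_lit 26) (nat_lit 5) (nat_lit 23) (nat_lit 5) (nat_lit 288) (nat_lit 266) (nat_lit 166))) (XT.nd (nat_lit 78)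 (nat_lit 0) (nat_lit 0) (XT.lf (nat_lit 0) (nat_lit 41568365134) (nat_lit 152) (nat_lit 17507660165) (nat_lit 228) (nat_lit 33117176316) (nat_lit 20) (nat_lit 5) (nat_lit 22) (nat_lit 5) (nat_lit 23) (nat_lit 5) (nat_lit 289) (nat_lit 266) (nat_lit 165)) (XT.lf (nat_lit 0) (nat_lit 79446577752) (nat_lit 228) (nat_lit 1210824449) (nat_lit 76) (nat_lit 17021203565) (nat_lit 20) (nat_lit 5) (nat_lit 23) (nat_lit 5) (nat_lit 21) (nat_lit 5) (nat_lit 290) (nat_lit 266) (nat_lit 164)))) (XT.nd (nat_lit 156) (nat_lit 152) (nat_lit 0) (XT.nd (nat_lit 78) (nat_lit 228) (nat_lit 0) (XT.lf (nat_lit 0) (nat_lit 53572604823) (nat_lit 152) (nat_lit 49003623677) (nat_lit 228) (nat_lit 970148540) (nat_lit 18) (nat_lit 5) (nat_lit 20) (nat_lit 5) (nat_lit 21) (nat_lit 5) (nat_lit 291) (nat_lit 266) (nat_lit 163)) (XT.lf (nat_lit 0) (nat_lit 2706707138) (nat_lit 152) (nat_lit 14461932871) (nat_lit 228)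 (nat_lit 92698060866) (nat_lit 15) (nat_lit 5) (nat_lit 17) (nat_lit 5) (nat_lit 18) (nat_lit 5) (nat_lit 292) (nat_lit 266) (nat_lit 162))) (XT.nd (nat_lit 78) (nat_lit 152) (nat_lit 0) (XT.lf (nat_lit 0) (nat_lit 37964415589) (nat_lit 228) (nat_lit 55653272929) (nat_lit 76) (nat_lit 23012179356) (nat_lit 15) (nat_lit 5) (nat_lit 18) (nat_lit 5) (nat_lit 16) (nat_lit 5) (nat_lit 293) (nat_lit 266) (nat_lit 161)) (XT.nd (nat_lit 78) (nat_lit 152) (nat_lit 0) (XT.lf (nat_lit 0) (nat_lit 60665849095) (nat_lit 228) (nat_lit 272689555) (nat_lit 76) (nat_lit 62983455454) (nat_lit 15) (nat_lit 5) (nat_lit 18) (nat_lit 5) (nat_lit 16) (nat_lit 5) (nat_lit 294) (nat_lit 266) (nat_lit 160)) (XT.lf (nat_lit 0) (nat_lit 61504248990) (nat_lit 152) (nat_lit 24637680942) (nat_lit 228) (nat_lit 45607639114) (nat_lit 13) (nat_lit 5) (nat_lit 15) (nat_lit 5) (nat_lit 16) (nat_lit 5) (nat_lit 295) (nat_lit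 266) (nat_lit 159)))))) (XT.nd (nat_lit 312) (nat_lit 76) (nat_lit 0) (XT.nd (nat_lit 156) (nat_lit 228) (nat_lit 0) (XT.nd (nat_lit 78) (nat_lit 76) (nat_lit 0) (XT.lf (nat_lit 0) (nat_lit 113886714637) (nat_lit 228) (nat_lit 12200116647) (nat_lit 76) (nat_lit 14104992689) (nat_lit 13) (nat_lit 5) (nat_lit 16) (nat_lit 5) (nat_lit 14) (nat_lit 4) (nat_lit 296) (nat_lit 266) (nat_lit 158)) (XT.lf (nat_lit 0) (nat_lit 51726455754) (nat_lit 76) (nat_lit 93346133466) (nat_lit 152) (nat_lit 4175799215) (nat_lit 12) (nat_lit 5) (nat_lit 13) (nat_lit 5) (nat_lit 14) (nat_lit 4) (nat_lit 297) (nat_lit 266) (nat_lit 157))) (XT.nd (nat_lit 78) (nat_lit 152) (nat_lit 0) (XT.lf (nat_lit 0) (nat_lit 19307096675) (nat_lit 152) (nat_lit 38129794401) (nat_lit 76) (nat_lit 101566467338) (nat_lit 11) (nat_lit 5) (nat_lit 13) (nat_lit 5) (nat_lit 12) (nat_lit 5) (nat_lit 298) (nat_lit 266) (nat_lit 156))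 (XT.lf (nat_lit 0) (nat_lit 26798877503) (nat_lit 152) (nat_lit 18142443212) (nat_lit 228) (nat_lit 124573036354) (nat_lit 9) (nat_lit 5) (nat_lit 11) (nat_lit 5) (nat_lit 12) (nat_lit 5) (nat_lit 299) (nat_lit 266) (nat_lit 155)))) (XT.nd (nat_lit 156) (nat_lit 76) (nat_lit 0) (XT.nd (nat_lit 78) (nat_lit 0) (nat_lit 0) (XT.lf (nat_lit 0) (nat_lit 73679380974) (nat_lit 228) (nat_lit 82941910001) (nat_lit 76) (nat_lit 24192293127) (nat_lit 9) (nat_lit 5) (nat_lit 12) (nat_lit 5) (nat_lit 10) (nat_lit 4) (nat_lit 300) (nat_lit 266) (nat_lit 154)) (XT.lf (nat_lit 0) (nat_lit 105021189326) (nat_lit 228) (nat_lit 18694332355) (nat_lit 76) (nat_lit 69285995605) (nat_lit 9) (nat_lit 5) (nat_lit 12) (nat_lit 5) (nat_lit 10) (nat_lit 4) (nat_lit 301) (nat_lit 266) (nat_lit 153))) (XT.nd (nat_lit 78) (nat_lit 0) (nat_lit 0) (XT.lf (nat_lit 0) (nat_lit 52367315270) (nat_lit 76) (nat_lit 87319505903)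 (nat_lit 152) (nat_lit 66436842923) (nat_lit 8) (nat_lit 5) (nat_lit 9) (nat_lit 5) (nat_lit 10) (nat_lit 4) (nat_lit 302) (nat_lit 266) (nat_lit 152)) (XT.nd (nat_lit 78) (nat_lit 0) (nat_lit 0) (XT.lf (nat_lit 0) (nat_lit 129779724904) (nat_lit 76) (nat_lit 47670556100) (nat_lit 152) (nat_lit 42829075476) (nat_lit 8) (nat_lit 5) (nat_lit 9) (nat_lit 5) (nat_lit 10) (nat_lit 4) (nat_lit 303) (nat_lit 266) (nat_lit 151)) (XT.lf (nat_lit 0) (nat_lit 213383517696) (nat_lit 76) (nat_lit 4850313098) (nat_lit 152) (nat_lit 17333725301) (nat_lit 8) (nat_lit 5) (nat_lit 9) (nat_lit 5) (nat_lit 10) (nat_lit 4) (nat_lit 304) (nat_lit 266) (nat_lit 150))))))))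
noncomputable def xc100 : XT := (XT.nd (nat_lit 34866) (nat_lit 0) (nat_lit 1444) (XT.nd (nat_lit 624) (nat_lit 152) (nat_lit 0) (XT.nd (nat_lit 312) (nat_lit 0) (nat_lit 0) (XT.nd (nat_lit 156) (nat_lit 76) (nat_lit 0) (XT.nd (nat_lit 78) (nat_lit 0) (nat_lit 0) (XT.lf (nat_lit 0) (nat_lit 11365933668) (nat_lit 152) (nat_lit 199555203303) (nat_lit 76) (nat_lit 41075154176) (nat_lit 6) (nat_lit 5) (nat_lit 8) (nat_lit 5) (nat_lit 7) (nat_lit 4) (nat_lit 305) (nat_lit 266) (nat_lit 149)) (XT.lf (nat_lit 0) (nat_lit 42236052942) (nat_lit 152) (nat_lit 136273487238) (nat_lit 76) (nat_lit 91191490050) (nat_lit 6) (nat_lit 5) (nat_lit 8) (nat_lit 5) (nat_lit 7) (nat_lit 4) (nat_lit 306) (nat_lit 266) (nat_lit 148))) (XT.nd (nat_lit 78) (nat_lit 76) (nat_lit 0) (XT.lf (nat_lit 0) (nat_lit 75574954279) (nat_lit 152) (nat_lit 67930617687) (nat_lit 76) (nat_lit 145316619736) (nat_lit 6) (nat_lit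 5) (nat_lit 8) (nat_lit 5) (nat_lit 7) (nat_lit 4) (nat_lit 307) (nat_lit 266) (nat_lit 147)) (XT.lf (nat_lit 0) (nat_lit 6072766586) (nat_lit 76) (nat_lit 105602247857) (nat_lit 152) (nat_lit 197793331062) (nat_lit 5) (nat_lit 5) (nat_lit 6) (nat_lit 5) (nat_lit 7) (nat_lit 4) (nat_lit 308) (nat_lit 266) (nat_lit 146)))) (XT.nd (nat_lit 156) (nat_lit 0) (nat_lit 0) (XT.nd (nat_lit 78) (nat_lit 0) (nat_lit 0) (XT.lf (nat_lit 0) (nat_lit 88420976434) (nat_lit 76) (nat_lit 63424681957) (nat_lit 152) (nat_lit 179861405894) (nat_lit 5) (nat_lit 5) (nat_lit 6) (nat_lit 5) (nat_lit 7) (nat_lit 4) (nat_lit 309) (nat_lit 266) (nat_lit 145)) (XT.lf (nat_lit 0) (nat_lit 177355908243) (nat_lit 76) (nat_lit 17873371015) (nat_lit 152) (nat_lit 160495636540) (nat_lit 5) (nat_lit 5) (nat_lit 6) (nat_lit 5) (nat_lit 7) (nat_lit 4) (nat_lit 310) (nat_lit 266) (nat_lit 144))) (XT.nd (nat_lit 78) (nat_lit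 0) (nat_lit 0) (XT.lf (nat_lit 0) (nat_lit 242571983414) (nat_lit 152) (nat_lit 108748662467) (nat_lit 0) (nat_lit 30319131258) (nat_lit 5) (nat_lit 5) (nat_lit 7) (nat_lit 4) (nat_lit 5) (nat_lit 4) (nat_lit 311) (nat_lit 266) (nat_lit 143)) (XT.lf (nat_lit 0) (nat_lit 294002897067) (nat_lit 152) (nat_lit 33861064431) (nat_lit 0) (nat_lit 81748827517) (nat_lit 5) (nat_lit 5) (nat_lit 7) (nat_lit 4) (nat_lit 5) (nat_lit 4) (nat_lit 312) (nat_lit 266) (nat_lit 142))))) (XT.nd (nat_lit 312) (nat_lit 0) (nat_lit 0) (XT.nd (nat_lit 156) (nat_lit 76) (nat_lit 0) (XT.nd (nat_lit 78) (nat_lit 0) (nat_lit 0) (XT.lf (nat_lit 0) (nat_lit 48571200056) (nat_lit 76) (nat_lit 301734875089) (nat_lit 76) (nat_lit 89479678321) (nat_lit 4) (nat_lit 4) (nat_lit 5) (nat_lit 5) (nat_lit 5) (nat_lit 4) (nat_lit 313) (nat_lit 266) (nat_lit 141)) (XT.lf (nat_lit 0) (nat_lit 138806330385) (nat_lit 76) (nat_lit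 272896500065) (nat_lit 76) (nat_lit 60640259577) (nat_lit 4) (nat_lit 4) (nat_lit 5) (nat_lit 5) (nat_lit 5) (nat_lit 4) (nat_lit 314) (nat_lit 266) (nat_lit 140))) (XT.nd (nat_lit 78) (nat_lit 76) (nat_lit 0) (XT.lf (nat_lit 0) (nat_lit 236259453541) (nat_lit 76) (nat_lit 241751395863) (nat_lit 76) (nat_lit 29494188968) (nat_lit 4) (nat_lit 4) (nat_lit 5) (nat_lit 5) (nat_lit 5) (nat_lit 4) (nat_lit 315) (nat_lit 266) (nat_lit 139)) (XT.lf (nat_lit 0) (nat_lit 4010497648) (nat_lit 152) (nat_lit 204036581537) (nat_lit 76) (nat_lit 337429652147) (nat_lit 3) (nat_lit 5) (nat_lit 5) (nat_lit 5) (nat_lit 4) (nat_lit 4) (nat_lit 316) (nat_lit 266) (nat_lit 138)))) (XT.nd (nat_lit 33696) (nat_lit 0) (nat_lit 3952) (XT.nd (nat_lit 33618) (nat_lit 0) (nat_lit 4636) (XT.lf (nat_lit 0) (nat_lit 39175624787) (nat_lit 152) (nat_lit 131948899439) (nat_lit 76) (nat_lit 415336790854) (nat_lit 3) (nat_lit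 5) (nat_lit 5) (nat_lit 5) (nat_lit 4) (nat_lit 4) (nat_lit 317) (nat_lit 266) (nat_lit 137)) (XT.lf (nat_lit 0) (nat_lit 16325864365) (nat_lit 684) (nat_lit 85624225) (nat_lit 684) (nat_lit 85624225) (nat_lit 64) (nat_lit 3) (nat_lit 73) (nat_lit 3) (nat_lit 73) (nat_lit 5) (nat_lit 267) (nat_lit 267) (nat_lit 186))) (XT.nd (nat_lit 78) (nat_lit 0) (nat_lit 76) (XT.lf (nat_lit 0) (nat_lit 80327299) (nat_lit 684) (nat_lit 12720942150) (nat_lit 760) (nat_lit 21491331334) (nat_lit 55) (nat_lit 5) (nat_lit 64) (nat_lit 3) (nat_lit 65) (nat_lit 5) (nat_lit 268) (nat_lit 267) (nat_lit 185)) (XT.nd (nat_lit 78) (nat_lit 0) (nat_lit 0) (XT.lf (nat_lit 0) (nat_lit 811115563) (nat_lit 684) (nat_lit 26163564853) (nat_lit 760) (nat_lit 8705619514) (nat_lit 56) (nat_lit 5) (nat_lit 65) (nat_lit 5) (nat_lit 66) (nat_lit 5) (nat_lit 269) (nat_lit 267) (nat_lit 184)) (XT.lf (nat_lit 0) (nat_lit 2033689203)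 (nat_lit 684) (nat_lit 3404745140) (nat_lit 760) (nat_lit 31718953066) (nat_lit 56) (nat_lit 5) (nat_lit 65) (nat_lit 5) (nat_lit 66) (nat_lit 5) (nat_lit 270) (nat_lit 267) (nat_lit 183))))))) (XT.nd (nat_lit 702) (nat_lit 1520) (nat_lit 0) (XT.nd (nat_lit 312) (nat_lit 1140) (nat_lit 0) (XT.nd (nat_lit 156) (nat_lit 0) (nat_lit 76) (XT.nd (nat_lit 78) (nat_lit 0) (nat_lit 76) (XT.lf (nat_lit 0) (nat_lit 3972211737) (nat_lit 684) (nat_lit 17149711979) (nat_lit 760) (nat_lit 17599846679) (nat_lit 57) (nat_lit 5) (nat_lit 66) (nat_lit 5) (nat_lit 67) (nat_lit 5) (nat_lit 271) (nat_lit 267) (nat_lit 182)) (XT.lf (nat_lit 0) (nat_lit 6375402935) (nat_lit 684) (nat_lit 31997488028) (nat_lit 760) (nat_lit 2022966735) (nat_lit 58) (nat_lit 5) (nat_lit 67) (nat_lit 5) (nat_lit 68) (nat_lit 5) (nat_lit 272) (nat_lit 267) (nat_lit 181))) (XT.nd (nat_lit 78) (nat_lit 0) (nat_lit 76) (XT.lf (nat_lit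 0) (nat_lit 9624404578) (nat_lit 684) (nat_lit 5952279594) (nat_lit 760) (nat_lit 26594540630) (nat_lit 58) (nat_lit 5) (nat_lit 67) (nat_lit 5) (nat_lit 68) (nat_lit 5) (nat_lit 273) (nat_lit 267) (nat_lit 180)) (XT.lf (nat_lit 0) (nat_lit 13632236578) (nat_lit 684) (nat_lit 21313109704) (nat_lit 76) (nat_lit 9118357792) (nat_lit 59) (nat_lit 5) (nat_lit 68) (nat_lit 5) (nat_lit 60) (nat_lit 5) (nat_lit 274) (nat_lit 267) (nat_lit 179)))) (XT.nd (nat_lit 156) (nat_lit 608) (nat_lit 0) (XT.nd (nat_lit 78) (nat_lit 0) (nat_lit 0) (XT.lf (nat_lit 0) (nat_lit 7841746615) (nat_lit 684) (nat_lit 10604018268) (nat_lit 760) (nat_lit 27637589528) (nat_lit 50) (nat_lit 5) (nat_lit 59) (nat_lit 5) (nat_lit 60) (nat_lit 5) (nat_lit 275) (nat_lit 267) (nat_lit 178)) (XT.lf (nat_lit 0) (nat_lit 24261542604) (nat_lit 760) (nat_lit 8411726980) (nat_lit 76) (nat_lit 15560473105) (nat_lit 50) (nat_lit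 5) (nat_lit 60) (nat_lit 5) (nat_lit 51) (nat_lit 5) (nat_lit 276) (nat_lit 267) (nat_lit 177))) (XT.nd (nat_lit 78) (nat_lit 304) (nat_lit 0) (XT.lf (nat_lit 0) (nat_lit 24402302541) (nat_lit 304) (nat_lit 6695385782) (nat_lit 380) (nat_lit 19430740889) (nat_lit 46) (nat_lit 5) (nat_lit 50) (nat_lit 5) (nat_lit 51) (nat_lit 5) (nat_lit 277) (nat_lit 267) (nat_lit 176)) (XT.nd (nat_lit 78) (nat_lit 0) (nat_lit 0) (XT.lf (nat_lit 0) (nat_lit 7026959992) (nat_lit 304) (nat_lit 32041502866) (nat_lit 380) (nat_lit 13908861751) (nat_lit 42) (nat_lit 5) (nat_lit 46) (nat_lit 5) (nat_lit 47) (nat_lit 5) (nat_lit 278) (nat_lit 267) (nat_lit 175)) (XT.lf (nat_lit 0) (nat_lit 43644302151) (nat_lit 304) (nat_lit 4594628590) (nat_lit 380) (nat_lit 7355118592) (nat_lit 42) (nat_lit 5) (nat_lit 46) (nat_lit 5) (nat_lit 47) (nat_lit 5) (nat_lit 279) (nat_lit 267) (nat_lit 174)))))) (XT.nd (nat_lit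 312) (nat_lit 684) (nat_lit 0) (XT.nd (nat_lit 156) (nat_lit 228) (nat_lit 0) (XT.nd (nat_lit 78) (nat_lit 304) (nat_lit 0) (XT.lf (nat_lit 0) (nat_lit 524953164) (nat_lit 304) (nat_lit 33207963530) (nat_lit 76) (nat_lit 24647770580) (nat_lit 38) (nat_lit 5) (nat_lit 42) (nat_lit 5) (nat_lit 39) (nat_lit 5) (nat_lit 280) (nat_lit 267) (nat_lit 173)) (XT.lf (nat_lit 0) (nat_lit 4238455447) (nat_lit 304) (nat_lit 4894256412) (nat_lit 380) (nat_lit 52233782899) (nat_lit 34) (nat_lit 5) (nat_lit 38) (nat_lit 5) (nat_lit 39) (nat_lit 5) (nat_lit 281) (nat_lit 267) (nat_lit 172))) (XT.nd (nat_lit 78) (nat_lit 228) (nat_lit 0) (XT.lf (nat_lit 0) (nat_lit 19423405076) (nat_lit 380) (nat_lit 19119312868) (nat_lit 76) (nat_lit 25998747774) (nat_lit 34) (nat_lit 5) (nat_lit 39) (nat_lit 5) (nat_lit 35) (nat_lit 5) (nat_lit 282) (nat_lit 267) (nat_lit 171)) (XT.lf (nat_lit 0) (nat_lit 22565985942)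 (nat_lit 228) (nat_lit 8402980820) (nat_lit 304) (nat_lit 36979900429) (nat_lit 31) (nat_lit 5) (nat_lit 34) (nat_lit 5) (nat_lit 35) (nat_lit 5) (nat_lit 283) (nat_lit 267) (nat_lit 170)))) (XT.nd (nat_lit 156) (nat_lit 456) (nat_lit 0) (XT.nd (nat_lit 78) (nat_lit 228) (nat_lit 0) (XT.lf (nat_lit 0) (nat_lit 44150636740) (nat_lit 304) (nat_lit 3729671803) (nat_lit 76) (nat_lit 23712941559) (nat_lit 31) (nat_lit 5) (nat_lit 35) (nat_lit 5) (nat_lit 32) (nat_lit 5) (nat_lit 284) (nat_lit 267) (nat_lit 169)) (XT.lf (nat_lit 0) (nat_lit 42469849882) (nat_lit 228) (nat_lit 16718920587) (nat_lit 304) (nat_lit 16300328233) (nat_lit 28) (nat_lit 5) (nat_lit 31) (nat_lit 5) (nat_lit 32) (nat_lit 5) (nat_lit 285) (nat_lit 267) (nat_lit 168))) (XT.nd (nat_lit 78) (nat_lit 304) (nat_lit 0) (XT.lf (nat_lit 0) (nat_lit 12950645655) (nat_lit 152) (nat_lit 63009259964) (nat_lit 228) (nat_lit 3710222741)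 (nat_lit 26) (nat_lit 5) (nat_lit 28) (nat_lit 5) (nat_lit 29) (nat_lit 5) (nat_lit 286) (nat_lit 267) (nat_lit 167)) (XT.nd (nat_lit 78) (nat_lit 228) (nat_lit 0) (XT.lf (nat_lit 0) (nat_lit 10434564793) (nat_lit 228) (nat_lit 20828824695) (nat_lit 76) (nat_lit 52871345970) (nat_lit 25) (nat_lit 5) (nat_lit 28) (nat_lit 5) (nat_lit 26) (nat_lit 5) (nat_lit 287) (nat_lit 267) (nat_lit 166)) (XT.lf (nat_lit 0) (nat_lit 26098437581) (nat_lit 304) (nat_lit 59370992728) (nat_lit 76) (nat_lit 3458173874) (nat_lit 22) (nat_lit 5) (nat_lit 26) (nat_lit 5) (nat_lit 23) (nat_lit 5) (nat_lit 288) (nat_lit 267) (nat_lit 165))))))))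
noncomputable def xc101 : XT := (XT.nd (nat_lit 1326) (nat_lit 380) (nat_lit 0) (XT.nd (nat_lit 624) (nat_lit 380) (nat_lit 0) (XT.nd (nat_lit 312) (nat_lit 380) (nat_lit 0) (XT.nd (nat_lit 156) (nat_lit 152) (nat_lit 0) (XT.nd (nat_lit 78) (nat_lit 152) (nat_lit 0) (XT.lf (nat_lit 0) (nat_lit 43909067473) (nat_lit 304) (nat_lit 9905381161) (nat_lit 76) (nat_lit 40244779500) (nat_lit 22) (nat_lit 5) (nat_lit 26) (nat_lit 5) (nat_lit 23) (nat_lit 5) (nat_lit 289) (nat_lit 267) (nat_lit 164)) (XT.lf (nat_lit 0) (nat_lit 44953314943) (nat_lit 152) (nat_lit 18890965959) (nat_lit 228) (nat_lit 35722121938) (nat_lit 20) (nat_lit 5) (nat_lit 22) (nat_lit 5) (nat_lit 23) (nat_lit 5) (nat_lit 290) (nat_lit 267) (nat_lit 163))) (XT.nd (nat_lit 78) (nat_lit 152) (nat_lit 0) (XT.lf (nat_lit 0) (nat_lit 85841603779) (nat_lit 228) (nat_lit 1250778099) (nat_lit 76) (nat_lit 18398411966) (nat_lit 20)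 (nat_lit 5) (nat_lit 23) (nat_lit 5) (nat_lit 21) (nat_lit 5) (nat_lit 291) (nat_lit 267) (nat_lit 162)) (XT.lf (nat_lit 0) (nat_lit 57912852175) (nat_lit 152) (nat_lit 52906713259) (nat_lit 228) (nat_lit 1008534472) (nat_lit 18) (nat_lit 5) (nat_lit 20) (nat_lit 5) (nat_lit 21) (nat_lit 5) (nat_lit 292) (nat_lit 267) (nat_lit 161)))) (XT.nd (nat_lit 156) (nat_lit 152) (nat_lit 0) (XT.nd (nat_lit 78) (nat_lit 0) (nat_lit 0) (XT.lf (nat_lit 0) (nat_lit 2976631944) (nat_lit 152) (nat_lit 15601490654) (nat_lit 228) (nat_lit 100076004228) (nat_lit 15) (nat_lit 5) (nat_lit 17) (nat_lit 5) (nat_lit 18) (nat_lit 5) (nat_lit 293) (nat_lit 267) (nat_lit 160)) (XT.lf (nat_lit 0) (nat_lit 41035145688) (nat_lit 228) (nat_lit 60054584077) (nat_lit 76) (nat_lit 24868746333) (nat_lit 15) (nat_lit 5) (nat_lit 18) (nat_lit 5) (nat_lit 16) (nat_lit 5) (nat_lit 294) (nat_lit 267) (nat_lit 159))) (XT.nd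 (nat_lit 78) (nat_lit 152) (nat_lit 0) (XT.lf (nat_lit 0) (nat_lit 65550206701) (nat_lit 228) (nat_lit 247328158) (nat_lit 76) (nat_lit 68036569510) (nat_lit 15) (nat_lit 5) (nat_lit 18) (nat_lit 5) (nat_lit 16) (nat_lit 5) (nat_lit 295) (nat_lit 267) (nat_lit 158)) (XT.lf (nat_lit 0) (nat_lit 66469715234) (nat_lit 152) (nat_lit 26593060380) (nat_lit 228) (nat_lit 49225196633) (nat_lit 13) (nat_lit 5) (nat_lit 15) (nat_lit 5) (nat_lit 16) (nat_lit 5) (nat_lit 296) (nat_lit 267) (nat_lit 157))))) (XT.nd (nat_lit 312) (nat_lit 76) (nat_lit 0) (XT.nd (nat_lit 156) (nat_lit 228) (nat_lit 0) (XT.nd (nat_lit 78) (nat_lit 76) (nat_lit 0) (XT.lf (nat_lit 0) (nat_lit 123025184580) (nat_lit 228) (nat_lit 13133121774) (nat_lit 76) (nat_lit 15247405640) (nat_lit 13) (nat_lit 5) (nat_lit 16) (nat_lit 5) (nat_lit 14) (nat_lit 4) (nat_lit 297) (nat_lit 267) (nat_lit 156)) (XT.lf (nat_lit 0) (nat_lit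 55905707508) (nat_lit 76) (nat_lit 100798824395) (nat_lit 152) (nat_lit 4482345592) (nat_lit 12) (nat_lit 5) (nat_lit 13) (nat_lit 5) (nat_lit 14) (nat_lit 4) (nat_lit 298) (nat_lit 267) (nat_lit 155))) (XT.nd (nat_lit 78) (nat_lit 152) (nat_lit 0) (XT.lf (nat_lit 0) (nat_lit 20876328138) (nat_lit 152) (nat_lit 41141207875) (nat_lit 76) (nat_lit 109704791539) (nat_lit 11) (nat_lit 5) (nat_lit 13) (nat_lit 5) (nat_lit 12) (nat_lit 5) (nat_lit 299) (nat_lit 267) (nat_lit 154)) (XT.lf (nat_lit 0) (nat_lit 28980064189) (nat_lit 152) (nat_lit 19579980960) (nat_lit 228) (nat_lit 134514228114) (nat_lit 9) (nat_lit 5) (nat_lit 11) (nat_lit 5) (nat_lit 12) (nat_lit 5) (nat_lit 300) (nat_lit 267) (nat_lit 153)))) (XT.nd (nat_lit 156) (nat_lit 76) (nat_lit 0) (XT.nd (nat_lit 78) (nat_lit 0) (nat_lit 0) (XT.lf (nat_lit 0) (nat_lit 79595615836) (nat_lit 228) (nat_lit 89541806783) (nat_lit 76) (nat_lit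 26140097111) (nat_lit 9) (nat_lit 5) (nat_lit 12) (nat_lit 5) (nat_lit 10) (nat_lit 4) (nat_lit 301) (nat_lit 267) (nat_lit 152)) (XT.lf (nat_lit 0) (nat_lit 113443147790) (nat_lit 228) (nat_lit 20157049296) (nat_lit 76) (nat_lit 74840375747) (nat_lit 9) (nat_lit 5) (nat_lit 12) (nat_lit 5) (nat_lit 10) (nat_lit 4) (nat_lit 302) (nat_lit 267) (nat_lit 151))) (XT.nd (nat_lit 78) (nat_lit 0) (nat_lit 0) (XT.lf (nat_lit 0) (nat_lit 56588103402) (nat_lit 76) (nat_lit 94292916084) (nat_lit 152) (nat_lit 71731526339) (nat_lit 8) (nat_lit 5) (nat_lit 9) (nat_lit 5) (nat_lit 10) (nat_lit 4) (nat_lit 303) (nat_lit 267) (nat_lit 150)) (XT.nd (nat_lit 78) (nat_lit 0) (nat_lit 0) (XT.lf (nat_lit 0) (nat_lit 140191179665) (nat_lit 76) (nat_lit 51472950318) (nat_lit 152) (nat_lit 46236638535) (nat_lit 8) (nat_lit 5) (nat_lit 9) (nat_lit 5) (nat_lit 10) (nat_lit 4) (nat_lit 304) (nat_lit 267) (nat_lit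 149)) (XT.lf (nat_lit 0) (nat_lit 230481122045) (nat_lit 76) (nat_lit 5227921230) (nat_lit 152) (nat_lit 18703050197) (nat_lit 8) (nat_lit 5) (nat_lit 9) (nat_lit 5) (nat_lit 10) (nat_lit 4) (nat_lit 305) (nat_lit 267) (nat_lit 148))))))) (XT.nd (nat_lit 702) (nat_lit 76) (nat_lit 0) (XT.nd (nat_lit 312) (nat_lit 76) (nat_lit 0) (XT.nd (nat_lit 156) (nat_lit 76) (nat_lit 0) (XT.nd (nat_lit 78) (nat_lit 0) (nat_lit 0) (XT.lf (nat_lit 0) (nat_lit 12291352150) (nat_lit 152) (nat_lit 215492622157) (nat_lit 76) (nat_lit 44371176073) (nat_lit 6) (nat_lit 5) (nat_lit 8) (nat_lit 5) (nat_lit 7) (nat_lit 4) (nat_lit 306) (nat_lit 267) (nat_lit 147)) (XT.lf (nat_lit 0) (nat_lit 45629885130) (nat_lit 152) (nat_lit 147150368614) (nat_lit 76) (nat_lit 98496077368) (nat_lit 6) (nat_lit 5) (nat_lit 8) (nat_lit 5) (nat_lit 7) (nat_lit 4) (nat_lit 307) (nat_lit 267) (nat_lit 146))) (XT.nd (nat_lit 78)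 (nat_lit 76) (nat_lit 0) (XT.lf (nat_lit 0) (nat_lit 81634791318) (nat_lit 152) (nat_lit 73341921173) (nat_lit 76) (nat_lit 156950530902) (nat_lit 6) (nat_lit 5) (nat_lit 8) (nat_lit 5) (nat_lit 7) (nat_lit 4) (nat_lit 308) (nat_lit 267) (nat_lit 145)) (XT.lf (nat_lit 0) (nat_lit 6580727948) (nat_lit 76) (nat_lit 114041448779) (nat_lit 152) (nat_lit 213602949094) (nat_lit 5) (nat_lit 5) (nat_lit 6) (nat_lit 5) (nat_lit 7) (nat_lit 4) (nat_lit 309) (nat_lit 267) (nat_lit 144)))) (XT.nd (nat_lit 156) (nat_lit 76) (nat_lit 0) (XT.nd (nat_lit 78) (nat_lit 0) (nat_lit 0) (XT.lf (nat_lit 0) (nat_lit 95515154581) (nat_lit 76) (nat_lit 68490342711) (nat_lit 152) (nat_lit 194237495724) (nat_lit 5) (nat_lit 5) (nat_lit 6) (nat_lit 5) (nat_lit 7) (nat_lit 4) (nat_lit 310) (nat_lit 267) (nat_lit 143)) (XT.lf (nat_lit 0) (nat_lit 191563362413) (nat_lit 76) (nat_lit 19295542731) (nat_lit 152) (nat_lit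 173323414646) (nat_lit 5) (nat_lit 5) (nat_lit 6) (nat_lit 5) (nat_lit 7) (nat_lit 4) (nat_lit 311) (nat_lit 267) (nat_lit 142))) (XT.nd (nat_lit 78) (nat_lit 76) (nat_lit 0) (XT.lf (nat_lit 0) (nat_lit 261988301099) (nat_lit 152) (nat_lit 117430545655) (nat_lit 0) (nat_lit 32751561372) (nat_lit 5) (nat_lit 5) (nat_lit 7) (nat_lit 4) (nat_lit 5) (nat_lit 4) (nat_lit 312) (nat_lit 267) (nat_lit 141)) (XT.nd (nat_lit 78) (nat_lit 76) (nat_lit 0) (XT.lf (nat_lit 0) (nat_lit 317532905695) (nat_lit 152) (nat_lit 36553273836) (nat_lit 0) (nat_lit 88295122249) (nat_lit 5) (nat_lit 5) (nat_lit 7) (nat_lit 4) (nat_lit 5) (nat_lit 4) (nat_lit 313) (nat_lit 267) (nat_lit 140)) (XT.lf (nat_lit 0) (nat_lit 52472847103) (nat_lit 76) (nat_lit 325867015745) (nat_lit 76) (nat_lit 96628265891) (nat_lit 4) (nat_lit 4) (nat_lit 5) (nat_lit 5) (nat_lit 5) (nat_lit 4) (nat_lit 314) (nat_lit 267) (nat_lit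 139)))))) (XT.nd (nat_lit 33930) (nat_lit 0) (nat_lit 3952) (XT.nd (nat_lit 156) (nat_lit 76) (nat_lit 0) (XT.nd (nat_lit 78) (nat_lit 0) (nat_lit 0) (XT.lf (nat_lit 0) (nat_lit 149925606299) (nat_lit 76) (nat_lit 294722063264) (nat_lit 76) (nat_lit 65482418588) (nat_lit 4) (nat_lit 4) (nat_lit 5) (nat_lit 5) (nat_lit 5) (nat_lit 4) (nat_lit 315) (nat_lit 267) (nat_lit 138)) (XT.lf (nat_lit 0) (nat_lit 255173885272) (nat_lit 76) (nat_lit 261085806786) (nat_lit 76) (nat_lit 31845333572) (nat_lit 4) (nat_lit 4) (nat_lit 5) (nat_lit 5) (nat_lit 5) (nat_lit 4) (nat_lit 316) (nat_lit 267) (nat_lit 137))) (XT.nd (nat_lit 33696) (nat_lit 0) (nat_lit 4636) (XT.lf (nat_lit 0) (nat_lit 4338857798) (nat_lit 152) (nat_lit 220346581892) (nat_lit 76) (nat_lit 364429039071) (nat_lit 3) (nat_lit 5) (nat_lit 5) (nat_lit 5) (nat_lit 4) (nat_lit 4) (nat_lit 317) (nat_lit 267) (nat_lit 136)) (XT.lf (nat_lit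 0) (nat_lit 17711020286) (nat_lit 684) (nat_lit 50740585) (nat_lit 684) (nat_lit 50740585) (nat_lit 64) (nat_lit 3) (nat_lit 73) (nat_lit 3) (nat_lit 73) (nat_lit 5) (nat_lit 268) (nat_lit 268) (nat_lit 184)))) (XT.nd (nat_lit 156) (nat_lit 0) (nat_lit 76) (XT.nd (nat_lit 78) (nat_lit 0) (nat_lit 76) (XT.lf (nat_lit 0) (nat_lit 237642080) (nat_lit 684) (nat_lit 13653037285) (nat_lit 760) (nat_lit 23137033647) (nat_lit 55) (nat_lit 5) (nat_lit 64) (nat_lit 3) (nat_lit 65) (nat_lit 5) (nat_lit 269) (nat_lit 268) (nat_lit 183)) (XT.lf (nat_lit 0) (nat_lit 1016071387) (nat_lit 684) (nat_lit 28166120621) (nat_lit 760) (nat_lit 9344832844) (nat_lit 56) (nat_lit 5) (nat_lit 65) (nat_lit 5) (nat_lit 66) (nat_lit 5) (nat_lit 270) (nat_lit 268) (nat_lit 182))) (XT.nd (nat_lit 78) (nat_lit 0) (nat_lit 76) (XT.lf (nat_lit 0) (nat_lit 2326075616) (nat_lit 684) (nat_lit 3593301213) (nat_lit 760) (nat_lit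 34203472800) (nat_lit 56) (nat_lit 5) (nat_lit 65) (nat_lit 5) (nat_lit 66) (nat_lit 5) (nat_lit 271) (nat_lit 268) (nat_lit 181)) (XT.nd (nat_lit 78) (nat_lit 0) (nat_lit 76) (XT.lf (nat_lit 0) (nat_lit 4410682481) (nat_lit 684) (nat_lit 18434202407) (nat_lit 760) (nat_lit 18967995961) (nat_lit 57) (nat_lit 5) (nat_lit 66) (nat_lit 5) (nat_lit 67) (nat_lit 5) (nat_lit 272) (nat_lit 268) (nat_lit 180)) (XT.lf (nat_lit 0) (nat_lit 6998036607) (nat_lit 684) (nat_lit 34466938654) (nat_lit 760) (nat_lit 2156368677) (nat_lit 58) (nat_lit 5) (nat_lit 67) (nat_lit 5) (nat_lit 68) (nat_lit 5) (nat_lit 273) (nat_lit 268) (nat_lit 179))))))))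
noncomputable def xc102 : XT := (XT.nd (nat_lit 1326) (nat_lit 1216) (nat_lit 0) (XT.nd (nat_lit 624) (nat_lit 1216) (nat_lit 0) (XT.nd (nat_lit 312) (nat_lit 912) (nat_lit 0) (XT.nd (nat_lit 156) (nat_lit 608) (nat_lit 0) (XT.nd (nat_lit 78) (nat_lit 0) (nat_lit 76) (XT.lf (nat_lit 0) (nat_lit 10498617534) (nat_lit 684) (nat_lit 6344806021) (nat_lit 760) (nat_lit 28695774810) (nat_lit 58) (nat_lit 5) (nat_lit 67) (nat_lit 5) (nat_lit 68) (nat_lit 5) (nat_lit 274) (nat_lit 268) (nat_lit 178)) (XT.lf (nat_lit 0) (nat_lit 14820325043) (nat_lit 684) (nat_lit 22932497880) (nat_lit 76) (nat_lit 9830628487) (nat_lit 59) (nat_lit 5) (nat_lit 68) (nat_lit 5) (nat_lit 60) (nat_lit 5) (nat_lit 275) (nat_lit 268) (nat_lit 177))) (XT.nd (nat_lit 78) (nat_lit 0) (nat_lit 0) (XT.lf (nat_lit 0) (nat_lit 8551024239) (nat_lit 684) (nat_lit 11461967725) (nat_lit 760) (nat_lit 29752014069) (nat_lit 50)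 (nat_lit 5) (nat_lit 59) (nat_lit 5) (nat_lit 60) (nat_lit 5) (nat_lit 276) (nat_lit 268) (nat_lit 176)) (XT.lf (nat_lit 0) (nat_lit 26287110059) (nat_lit 760) (nat_lit 9004012410) (nat_lit 76) (nat_lit 16796681472) (nat_lit 50) (nat_lit 5) (nat_lit 60) (nat_lit 5) (nat_lit 51) (nat_lit 5) (nat_lit 277) (nat_lit 268) (nat_lit 175)))) (XT.nd (nat_lit 156) (nat_lit 304) (nat_lit 0) (XT.nd (nat_lit 78) (nat_lit 304) (nat_lit 0) (XT.lf (nat_lit 0) (nat_lit 26431634403) (nat_lit 304) (nat_lit 7233447595) (nat_lit 380) (nat_lit 20901266732) (nat_lit 46) (nat_lit 5) (nat_lit 50) (nat_lit 5) (nat_lit 51) (nat_lit 5) (nat_lit 278) (nat_lit 268) (nat_lit 174)) (XT.lf (nat_lit 0) (nat_lit 7667113575) (nat_lit 304) (nat_lit 34601692813) (nat_lit 380) (nat_lit 14942612818) (nat_lit 42) (nat_lit 5) (nat_lit 46) (nat_lit 5) (nat_lit 47) (nat_lit 5) (nat_lit 279) (nat_lit 268) (nat_lit 173))) (XT.nd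 (nat_lit 78) (nat_lit 304) (nat_lit 0) (XT.lf (nat_lit 0) (nat_lit 47208065567) (nat_lit 304) (nat_lit 4959300468) (nat_lit 380) (nat_lit 7870418938) (nat_lit 42) (nat_lit 5) (nat_lit 46) (nat_lit 5) (nat_lit 47) (nat_lit 5) (nat_lit 280) (nat_lit 268) (nat_lit 172)) (XT.lf (nat_lit 0) (nat_lit 633672074) (nat_lit 304) (nat_lit 35789449207) (nat_lit 76) (nat_lit 26624400658) (nat_lit 38) (nat_lit 5) (nat_lit 42) (nat_lit 5) (nat_lit 39) (nat_lit 5) (nat_lit 281) (nat_lit 268) (nat_lit 171))))) (XT.nd (nat_lit 312) (nat_lit 684) (nat_lit 0) (XT.nd (nat_lit 156) (nat_lit 228) (nat_lit 0) (XT.nd (nat_lit 78) (nat_lit 0) (nat_lit 0) (XT.lf (nat_lit 0) (nat_lit 4649417300) (nat_lit 304) (nat_lit 5276814080) (nat_lit 380) (nat_lit 56346174699) (nat_lit 34) (nat_lit 5) (nat_lit 38) (nat_lit 5) (nat_lit 39) (nat_lit 5) (nat_lit 282) (nat_lit 268) (nat_lit 170)) (XT.lf (nat_lit 0) (nat_lit 21035650462)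 (nat_lit 380) (nat_lit 20579271387) (nat_lit 76) (nat_lit 28086698835) (nat_lit 34) (nat_lit 5) (nat_lit 39) (nat_lit 5) (nat_lit 35) (nat_lit 5) (nat_lit 283) (nat_lit 268) (nat_lit 169))) (XT.nd (nat_lit 78) (nat_lit 0) (nat_lit 0) (XT.lf (nat_lit 0) (nat_lit 24437827183) (nat_lit 228) (nat_lit 9063745202) (nat_lit 304) (nat_lit 39880224174) (nat_lit 31) (nat_lit 5) (nat_lit 34) (nat_lit 5) (nat_lit 35) (nat_lit 5) (nat_lit 284) (nat_lit 268) (nat_lit 168)) (XT.lf (nat_lit 0) (nat_lit 47733861219) (nat_lit 304) (nat_lit 3963820334) (nat_lit 76) (nat_lit 25620260997) (nat_lit 31) (nat_lit 5) (nat_lit 35) (nat_lit 5) (nat_lit 32) (nat_lit 5) (nat_lit 285) (nat_lit 268) (nat_lit 167)))) (XT.nd (nat_lit 156) (nat_lit 304) (nat_lit 0) (XT.nd (nat_lit 78) (nat_lit 152) (nat_lit 0) (XT.lf (nat_lit 0) (nat_lit 45928871936) (nat_lit 228) (nat_lit 18043342236) (nat_lit 304) (nat_lit 17553401912)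 (nat_lit 28) (nat_lit 5) (nat_lit 31) (nat_lit 5) (nat_lit 32) (nat_lit 5) (nat_lit 286) (nat_lit 268) (nat_lit 166)) (XT.lf (nat_lit 0) (nat_lit 14047763067) (nat_lit 152) (nat_lit 68034838843) (nat_lit 228) (nat_lit 3958662443) (nat_lit 26) (nat_lit 5) (nat_lit 28) (nat_lit 5) (nat_lit 29) (nat_lit 5) (nat_lit 287) (nat_lit 268) (nat_lit 165))) (XT.nd (nat_lit 78) (nat_lit 228) (nat_lit 0) (XT.lf (nat_lit 0) (nat_lit 11312690825) (nat_lit 228) (nat_lit 22436996674) (nat_lit 76) (nat_lit 57113500832) (nat_lit 25) (nat_lit 5) (nat_lit 28) (nat_lit 5) (nat_lit 26) (nat_lit 5) (nat_lit 288) (nat_lit 268) (nat_lit 164)) (XT.nd (nat_lit 78) (nat_lit 0) (nat_lit 0) (XT.lf (nat_lit 0) (nat_lit 28227557508) (nat_lit 304) (nat_lit 64063095298) (nat_lit 76) (nat_lit 3748951240) (nat_lit 22) (nat_lit 5) (nat_lit 26) (nat_lit 5) (nat_lit 23) (nat_lit 5) (nat_lit 289) (nat_lit 268) (nat_lit 163))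 (XT.lf (nat_lit 0) (nat_lit 47459982612) (nat_lit 304) (nat_lit 10644499758) (nat_lit 76) (nat_lit 43477439135) (nat_lit 22) (nat_lit 5) (nat_lit 26) (nat_lit 5) (nat_lit 23) (nat_lit 5) (nat_lit 290) (nat_lit 268) (nat_lit 162))))))) (XT.nd (nat_lit 702) (nat_lit 456) (nat_lit 0) (XT.nd (nat_lit 312) (nat_lit 228) (nat_lit 0) (XT.nd (nat_lit 156) (nat_lit 380) (nat_lit 0) (XT.nd (nat_lit 78) (nat_lit 0) (nat_lit 0) (XT.lf (nat_lit 0) (nat_lit 48600575164) (nat_lit 152) (nat_lit 20387405257) (nat_lit 228) (nat_lit 38541801430) (nat_lit 20) (nat_lit 5) (nat_lit 22) (nat_lit 5) (nat_lit 23) (nat_lit 5) (nat_lit 291) (nat_lit 268) (nat_lit 161)) (XT.lf (nat_lit 0) (nat_lit 92742625330) (nat_lit 228) (nat_lit 1302047217) (nat_lit 76) (nat_lit 19883584063) (nat_lit 20) (nat_lit 5) (nat_lit 23) (nat_lit 5) (nat_lit 21) (nat_lit 5) (nat_lit 292) (nat_lit 268) (nat_lit 160))) (XT.nd (nat_lit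 78) (nat_lit 228) (nat_lit 0) (XT.lf (nat_lit 0) (nat_lit 62592552988) (nat_lit 152) (nat_lit 57124503824) (nat_lit 228) (nat_lit 1055587300) (nat_lit 18) (nat_lit 5) (nat_lit 20) (nat_lit 5) (nat_lit 21) (nat_lit 5) (nat_lit 293) (nat_lit 268) (nat_lit 159)) (XT.lf (nat_lit 0) (nat_lit 3260534306) (nat_lit 152) (nat_lit 16834694914) (nat_lit 228) (nat_lit 108049590133) (nat_lit 15) (nat_lit 5) (nat_lit 17) (nat_lit 5) (nat_lit 18) (nat_lit 5) (nat_lit 294) (nat_lit 268) (nat_lit 158)))) (XT.nd (nat_lit 156) (nat_lit 228) (nat_lit 0) (XT.nd (nat_lit 78) (nat_lit 0) (nat_lit 0) (XT.lf (nat_lit 0) (nat_lit 44346744083) (nat_lit 228) (nat_lit 64815268803) (nat_lit 76) (nat_lit 26871614206) (nat_lit 15) (nat_lit 5) (nat_lit 18) (nat_lit 5) (nat_lit 16) (nat_lit 5) (nat_lit 295) (nat_lit 268) (nat_lit 157)) (XT.lf (nat_lit 0) (nat_lit 70820877625) (nat_lit 228) (nat_lit 226668114) (nat_lit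 76) (nat_lit 73491873003) (nat_lit 15) (nat_lit 5) (nat_lit 18) (nat_lit 5) (nat_lit 16) (nat_lit 5) (nat_lit 296) (nat_lit 268) (nat_lit 156))) (XT.nd (nat_lit 78) (nat_lit 76) (nat_lit 0) (XT.lf (nat_lit 0) (nat_lit 71825981003) (nat_lit 152) (nat_lit 28707100686) (nat_lit 228) (nat_lit 53136588898) (nat_lit 13) (nat_lit 5) (nat_lit 15) (nat_lit 5) (nat_lit 16) (nat_lit 5) (nat_lit 297) (nat_lit 268) (nat_lit 155)) (XT.nd (nat_lit 78) (nat_lit 76) (nat_lit 0) (XT.lf (nat_lit 0) (nat_lit 132890804262) (nat_lit 228) (nat_lit 14146902342) (nat_lit 76) (nat_lit 16479212439) (nat_lit 13) (nat_lit 5) (nat_lit 16) (nat_lit 5) (nat_lit 14) (nat_lit 4) (nat_lit 298) (nat_lit 268) (nat_lit 154)) (XT.lf (nat_lit 0) (nat_lit 60413430994) (nat_lit 76) (nat_lit 108849870479) (nat_lit 152) (nat_lit 4817341366) (nat_lit 12) (nat_lit 5) (nat_lit 13) (nat_lit 5) (nat_lit 14) (nat_lit 4) (nat_lit 299)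 (nat_lit 268) (nat_lit 153)))))) (XT.nd (nat_lit 312) (nat_lit 228) (nat_lit 0) (XT.nd (nat_lit 156) (nat_lit 0) (nat_lit 0) (XT.nd (nat_lit 78) (nat_lit 152) (nat_lit 0) (XT.lf (nat_lit 0) (nat_lit 22567579561) (nat_lit 152) (nat_lit 44399093945) (nat_lit 76) (nat_lit 118492326109) (nat_lit 11) (nat_lit 5) (nat_lit 13) (nat_lit 5) (nat_lit 12) (nat_lit 5) (nat_lit 300) (nat_lit 268) (nat_lit 152)) (XT.lf (nat_lit 0) (nat_lit 31330427902) (nat_lit 152) (nat_lit 21134498685) (nat_lit 228) (nat_lit 145254231976) (nat_lit 9) (nat_lit 5) (nat_lit 11) (nat_lit 5) (nat_lit 12) (nat_lit 5) (nat_lit 301) (nat_lit 268) (nat_lit 151))) (XT.nd (nat_lit 78) (nat_lit 0) (nat_lit 0) (XT.lf (nat_lit 0) (nat_lit 85982027434) (nat_lit 228) (nat_lit 96674753505) (nat_lit 76) (nat_lit 28241953485) (nat_lit 9) (nat_lit 5) (nat_lit 12) (nat_lit 5) (nat_lit 10) (nat_lit 4) (nat_lit 302) (nat_lit 268) (nat_lit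 150)) (XT.lf (nat_lit 0) (nat_lit 122535972143) (nat_lit 228) (nat_lit 21741467110) (nat_lit 76) (nat_lit 80837465626) (nat_lit 9) (nat_lit 5) (nat_lit 12) (nat_lit 5) (nat_lit 10) (nat_lit 4) (nat_lit 303) (nat_lit 268) (nat_lit 149)))) (XT.nd (nat_lit 156) (nat_lit 152) (nat_lit 0) (XT.nd (nat_lit 78) (nat_lit 0) (nat_lit 0) (XT.lf (nat_lit 0) (nat_lit 61142074609) (nat_lit 76) (nat_lit 101825932454) (nat_lit 152) (nat_lit 77452675318) (nat_lit 8) (nat_lit 5) (nat_lit 9) (nat_lit 5) (nat_lit 10) (nat_lit 4) (nat_lit 304) (nat_lit 268) (nat_lit 148)) (XT.lf (nat_lit 0) (nat_lit 151431402681) (nat_lit 76) (nat_lit 55581141051) (nat_lit 152) (nat_lit 49919483387) (nat_lit 8) (nat_lit 5) (nat_lit 9) (nat_lit 5) (nat_lit 10) (nat_lit 4) (nat_lit 305) (nat_lit 268) (nat_lit 147))) (XT.nd (nat_lit 78) (nat_lit 152) (nat_lit 0) (XT.lf (nat_lit 0) (nat_lit 248942693886) (nat_lit 76) (nat_lit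 5637224101) (nat_lit 152) (nat_lit 20184399555) (nat_lit 8) (nat_lit 5) (nat_lit 9) (nat_lit 5) (nat_lit 10) (nat_lit 4) (nat_lit 306) (nat_lit 268) (nat_lit 146)) (XT.nd (nat_lit 78) (nat_lit 0) (nat_lit 0) (XT.lf (nat_lit 0) (nat_lit 13288501019) (nat_lit 152) (nat_lit 232708886001) (nat_lit 76) (nat_lit 47929451746) (nat_lit 6) (nat_lit 5) (nat_lit 8) (nat_lit 5) (nat_lit 7) (nat_lit 4) (nat_lit 307) (nat_lit 268) (nat_lit 145)) (XT.lf (nat_lit 0) (nat_lit 49293091400) (nat_lit 152) (nat_lit 158900966688) (nat_lit 76) (nat_lit 106383709471) (nat_lit 6) (nat_lit 5) (nat_lit 8) (nat_lit 5) (nat_lit 7) (nat_lit 4) (nat_lit 308) (nat_lit 268) (nat_lit 144))))))))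
noncomputable def xc103 : XT := (XT.nd (nat_lit 35100) (nat_lit 0) (nat_lit 836) (XT.nd (nat_lit 34398) (nat_lit 0) (nat_lit 3496) (XT.nd (nat_lit 312) (nat_lit 76) (nat_lit 0) (XT.nd (nat_lit 156) (nat_lit 0) (nat_lit 0) (XT.nd (nat_lit 78) (nat_lit 76) (nat_lit 0) (XT.lf (nat_lit 0) (nat_lit 88177440790) (nat_lit 152) (nat_lit 79189430964) (nat_lit 76) (nat_lit 169513930702) (nat_lit 6) (nat_lit 5) (nat_lit 8) (nat_lit 5) (nat_lit 7) (nat_lit 4) (nat_lit 309) (nat_lit 268) (nat_lit 143)) (XT.lf (nat_lit 0) (nat_lit 7126167695) (nat_lit 76) (nat_lit 123157066716) (nat_lit 152) (nat_lit 230679312205) (nat_lit 5) (nat_lit 5) (nat_lit 6) (nat_lit 5) (nat_lit 7) (nat_lit 4) (nat_lit 310) (nat_lit 268) (nat_lit 142))) (XT.nd (nat_lit 78) (nat_lit 0) (nat_lit 0) (XT.lf (nat_lit 0) (nat_lit 103173942421) (nat_lit 76) (nat_lit 73962442383) (nat_lit 152) (nat_lit 209765502033) (nat_lit 5) (nat_lit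 5) (nat_lit 6) (nat_lit 5) (nat_lit 7) (nat_lit 4) (nat_lit 311) (nat_lit 268) (nat_lit 141)) (XT.lf (nat_lit 0) (nat_lit 206904704993) (nat_lit 76) (nat_lit 20832586385) (nat_lit 152) (nat_lit 187179108792) (nat_lit 5) (nat_lit 5) (nat_lit 6) (nat_lit 5) (nat_lit 7) (nat_lit 4) (nat_lit 312) (nat_lit 268) (nat_lit 140)))) (XT.nd (nat_lit 156) (nat_lit 76) (nat_lit 0) (XT.nd (nat_lit 78) (nat_lit 0) (nat_lit 0) (XT.lf (nat_lit 0) (nat_lit 282956417837) (nat_lit 152) (nat_lit 126809548798) (nat_lit 0) (nat_lit 35377601588) (nat_lit 5) (nat_lit 5) (nat_lit 7) (nat_lit 4) (nat_lit 5) (nat_lit 4) (nat_lit 313) (nat_lit 268) (nat_lit 139)) (XT.lf (nat_lit 0) (nat_lit 342943920235) (nat_lit 152) (nat_lit 39463238975) (nat_lit 0) (nat_lit 95364209164) (nat_lit 5) (nat_lit 5) (nat_lit 7) (nat_lit 4) (nat_lit 5) (nat_lit 4) (nat_lit 314) (nat_lit 268) (nat_lit 138))) (XT.nd (nat_lit 78) (nat_lit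 0) (nat_lit 0) (XT.lf (nat_lit 0) (nat_lit 56684350319) (nat_lit 76) (nat_lit 351930676258) (nat_lit 76) (nat_lit 104350136649) (nat_lit 4) (nat_lit 4) (nat_lit 5) (nat_lit 5) (nat_lit 5) (nat_lit 4) (nat_lit 315) (nat_lit 268) (nat_lit 137)) (XT.nd (nat_lit 78) (nat_lit 0) (nat_lit 0) (XT.lf (nat_lit 0) (nat_lit 161932317255) (nat_lit 76) (nat_lit 318294549856) (nat_lit 76) (nat_lit 70713243081) (nat_lit 4) (nat_lit 4) (nat_lit 5) (nat_lit 5) (nat_lit 5) (nat_lit 4) (nat_lit 316) (nat_lit 268) (nat_lit 136)) (XT.lf (nat_lit 0) (nat_lit 275599520586) (nat_lit 76) (nat_lit 281967783857) (nat_lit 76) (nat_lit 34385766744) (nat_lit 4) (nat_lit 4) (nat_lit 5) (nat_lit 5) (nat_lit 5) (nat_lit 4) (nat_lit 317) (nat_lit 268) (nat_lit 135)))))) (XT.nd (nat_lit 312) (nat_lit 380) (nat_lit 0) (XT.nd (nat_lit 156) (nat_lit 0) (nat_lit 76) (XT.nd (nat_lit 78) (nat_lit 684) (nat_lit 0) (XT.lf (nat_lit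 0) (nat_lit 19195706067) (nat_lit 684) (nat_lit 19020015) (nat_lit 684) (nat_lit 19020015) (nat_lit 64) (nat_lit 3) (nat_lit 73) (nat_lit 3) (nat_lit 73) (nat_lit 5) (nat_lit 269) (nat_lit 269) (nat_lit 182)) (XT.lf (nat_lit 0) (nat_lit 386016098) (nat_lit 684) (nat_lit 14671909009) (nat_lit 760) (nat_lit 24924892606) (nat_lit 55) (nat_lit 5) (nat_lit 64) (nat_lit 3) (nat_lit 65) (nat_lit 5) (nat_lit 270) (nat_lit 269) (nat_lit 181))) (XT.nd (nat_lit 78) (nat_lit 0) (nat_lit 0) (XT.lf (nat_lit 0) (nat_lit 1217441613) (nat_lit 684) (nat_lit 30341795884) (nat_lit 760) (nat_lit 10043348629) (nat_lit 56) (nat_lit 5) (nat_lit 65) (nat_lit 5) (nat_lit 66) (nat_lit 5) (nat_lit 271) (nat_lit 269) (nat_lit 180)) (XT.lf (nat_lit 0) (nat_lit 2623351031) (nat_lit 684) (nat_lit 3808900137) (nat_lit 760) (nat_lit 36894314659) (nat_lit 56) (nat_lit 5) (nat_lit 65) (nat_lit 5) (nat_lit 66) (nat_lit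 5) (nat_lit 272) (nat_lit 269) (nat_lit 179)))) (XT.nd (nat_lit 156) (nat_lit 532) (nat_lit 0) (XT.nd (nat_lit 78) (nat_lit 0) (nat_lit 76) (XT.lf (nat_lit 0) (nat_lit 4867012563) (nat_lit 684) (nat_lit 19833933000) (nat_lit 760) (nat_lit 20451280586) (nat_lit 57) (nat_lit 5) (nat_lit 66) (nat_lit 5) (nat_lit 67) (nat_lit 5) (nat_lit 273) (nat_lit 269) (nat_lit 178)) (XT.lf (nat_lit 0) (nat_lit 7654417118) (nat_lit 684) (nat_lit 37146834542) (nat_lit 760) (nat_lit 2304499403) (nat_lit 58) (nat_lit 5) (nat_lit 67) (nat_lit 5) (nat_lit 68) (nat_lit 5) (nat_lit 274) (nat_lit 269) (nat_lit 177))) (XT.nd (nat_lit 78) (nat_lit 608) (nat_lit 0) (XT.lf (nat_lit 0) (nat_lit 11427893588) (nat_lit 684) (nat_lit 6780669016) (nat_lit 760) (nat_lit 30968863861) (nat_lit 58) (nat_lit 5) (nat_lit 67) (nat_lit 5) (nat_lit 68) (nat_lit 5) (nat_lit 275) (nat_lit 269) (nat_lit 176)) (XT.nd (nat_lit 78)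 (nat_lit 684) (nat_lit 0) (XT.lf (nat_lit 0) (nat_lit 16089549760) (nat_lit 684) (nat_lit 24693657553) (nat_lit 76) (nat_lit 10602334315) (nat_lit 59) (nat_lit 5) (nat_lit 68) (nat_lit 5) (nat_lit 60) (nat_lit 5) (nat_lit 276) (nat_lit 269) (nat_lit 175)) (XT.lf (nat_lit 0) (nat_lit 9305354716) (nat_lit 684) (nat_lit 12387179597) (nat_lit 760) (nat_lit 32049371163) (nat_lit 50) (nat_lit 5) (nat_lit 59) (nat_lit 5) (nat_lit 60) (nat_lit 5) (nat_lit 277) (nat_lit 269) (nat_lit 174))))))) (XT.nd (nat_lit 702) (nat_lit 1216) (nat_lit 0) (XT.nd (nat_lit 312) (nat_lit 836) (nat_lit 0) (XT.nd (nat_lit 156) (nat_lit 304) (nat_lit 0) (XT.nd (nat_lit 78) (nat_lit 304) (nat_lit 0) (XT.lf (nat_lit 0) (nat_lit 28462647491) (nat_lit 760) (nat_lit 9655186688) (nat_lit 76) (nat_lit 18133017601) (nat_lit 50) (nat_lit 5) (nat_lit 60) (nat_lit 5) (nat_lit 51) (nat_lit 5) (nat_lit 278) (nat_lit 269) (nat_lit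 173)) (XT.lf (nat_lit 0) (nat_lit 28612306838) (nat_lit 304) (nat_lit 7814207550) (nat_lit 380) (nat_lit 22501408685) (nat_lit 46) (nat_lit 5) (nat_lit 50) (nat_lit 5) (nat_lit 51) (nat_lit 5) (nat_lit 279) (nat_lit 269) (nat_lit 172))) (XT.nd (nat_lit 78) (nat_lit 0) (nat_lit 0) (XT.lf (nat_lit 0) (nat_lit 8347352332) (nat_lit 304) (nat_lit 37367144526) (nat_lit 380) (nat_lit 16070328194) (nat_lit 42) (nat_lit 5) (nat_lit 46) (nat_lit 5) (nat_lit 47) (nat_lit 5) (nat_lit 280) (nat_lit 269) (nat_lit 171)) (XT.lf (nat_lit 0) (nat_lit 51046627175) (nat_lit 304) (nat_lit 5353559587) (nat_lit 380) (nat_lit 8437373148) (nat_lit 42) (nat_lit 5) (nat_lit 46) (nat_lit 5) (nat_lit 47) (nat_lit 5) (nat_lit 281) (nat_lit 269) (nat_lit 170)))) (XT.nd (nat_lit 156) (nat_lit 228) (nat_lit 0) (XT.nd (nat_lit 78) (nat_lit 304) (nat_lit 0) (XT.lf (nat_lit 0) (nat_lit 741569765) (nat_lit 304) (nat_lit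 38588174926) (nat_lit 76) (nat_lit 28758475166) (nat_lit 38) (nat_lit 5) (nat_lit 42) (nat_lit 5) (nat_lit 39) (nat_lit 5) (nat_lit 282) (nat_lit 269) (nat_lit 169)) (XT.lf (nat_lit 0) (nat_lit 5083000842) (nat_lit 304) (nat_lit 5691257864) (nat_lit 380) (nat_lit 60797017823) (nat_lit 34) (nat_lit 5) (nat_lit 38) (nat_lit 5) (nat_lit 39) (nat_lit 5) (nat_lit 283) (nat_lit 269) (nat_lit 168))) (XT.nd (nat_lit 78) (nat_lit 228) (nat_lit 0) (XT.lf (nat_lit 0) (nat_lit 22768547922) (nat_lit 380) (nat_lit 22165953882) (nat_lit 76) (nat_lit 30340537382) (nat_lit 34) (nat_lit 5) (nat_lit 39) (nat_lit 5) (nat_lit 35) (nat_lit 5) (nat_lit 284) (nat_lit 269) (nat_lit 167)) (XT.nd (nat_lit 78) (nat_lit 0) (nat_lit 0) (XT.lf (nat_lit 0) (nat_lit 26449919857) (nat_lit 228) (nat_lit 9779007640) (nat_lit 304) (nat_lit 43020857909) (nat_lit 31) (nat_lit 5) (nat_lit 34) (nat_lit 5) (nat_lit 35) (nat_lit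 5) (nat_lit 285) (nat_lit 269) (nat_lit 166)) (XT.lf (nat_lit 0) (nat_lit 51596443179) (nat_lit 304) (nat_lit 4225863191) (nat_lit 76) (nat_lit 27678698846) (nat_lit 31) (nat_lit 5) (nat_lit 35) (nat_lit 5) (nat_lit 32) (nat_lit 5) (nat_lit 286) (nat_lit 269) (nat_lit 165)))))) (XT.nd (nat_lit 312) (nat_lit 532) (nat_lit 0) (XT.nd (nat_lit 156) (nat_lit 304) (nat_lit 0) (XT.nd (nat_lit 78) (nat_lit 152) (nat_lit 0) (XT.lf (nat_lit 0) (nat_lit 49655851499) (nat_lit 228) (nat_lit 19475585336) (nat_lit 304) (nat_lit 18913990441) (nat_lit 28) (nat_lit 5) (nat_lit 31) (nat_lit 5) (nat_lit 32) (nat_lit 5) (nat_lit 287) (nat_lit 269) (nat_lit 164)) (XT.lf (nat_lit 0) (nat_lit 15223938158) (nat_lit 152) (nat_lit 73464627050) (nat_lit 228) (nat_lit 4233879000) (nat_lit 26) (nat_lit 5) (nat_lit 28) (nat_lit 5) (nat_lit 29) (nat_lit 5) (nat_lit 288) (nat_lit 269) (nat_lit 163))) (XT.nd (nat_lit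 78) (nat_lit 228) (nat_lit 0) (XT.lf (nat_lit 0) (nat_lit 12254881029) (nat_lit 228) (nat_lit 24182115875) (nat_lit 76) (nat_lit 61693252354) (nat_lit 25) (nat_lit 5) (nat_lit 28) (nat_lit 5) (nat_lit 26) (nat_lit 5) (nat_lit 289) (nat_lit 269) (nat_lit 162)) (XT.lf (nat_lit 0) (nat_lit 30521122980) (nat_lit 304) (nat_lit 69138780056) (nat_lit 76) (nat_lit 4060975927) (nat_lit 22) (nat_lit 5) (nat_lit 26) (nat_lit 5) (nat_lit 23) (nat_lit 5) (nat_lit 290) (nat_lit 269) (nat_lit 161)))) (XT.nd (nat_lit 156) (nat_lit 380) (nat_lit 0) (XT.nd (nat_lit 78) (nat_lit 152) (nat_lit 0) (XT.lf (nat_lit 0) (nat_lit 51289522769) (nat_lit 304) (nat_lit 11450353381) (nat_lit 76) (nat_lit 46966845920) (nat_lit 22) (nat_lit 5) (nat_lit 26) (nat_lit 5) (nat_lit 23) (nat_lit 5) (nat_lit 291) (nat_lit 269) (nat_lit 160)) (XT.lf (nat_lit 0) (nat_lit 52532341193) (nat_lit 152) (nat_lit 22005676502) (nat_lit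 228) (nat_lit 41592489284) (nat_lit 20) (nat_lit 5) (nat_lit 22) (nat_lit 5) (nat_lit 23) (nat_lit 5) (nat_lit 292) (nat_lit 269) (nat_lit 159))) (XT.nd (nat_lit 78) (nat_lit 380) (nat_lit 0) (XT.lf (nat_lit 0) (nat_lit 100190921887) (nat_lit 228) (nat_lit 1364378751) (nat_lit 76) (nat_lit 21485672657) (nat_lit 20) (nat_lit 5) (nat_lit 23) (nat_lit 5) (nat_lit 21) (nat_lit 5) (nat_lit 293) (nat_lit 269) (nat_lit 158)) (XT.nd (nat_lit 78) (nat_lit 228) (nat_lit 0) (XT.lf (nat_lit 0) (nat_lit 67639971492) (nat_lit 152) (nat_lit 61681821387) (nat_lit 228) (nat_lit 1111202039) (nat_lit 18) (nat_lit 5) (nat_lit 20) (nat_lit 5) (nat_lit 21) (nat_lit 5) (nat_lit 294) (nat_lit 269) (nat_lit 157)) (XT.lf (nat_lit 0) (nat_lit 3560618996) (nat_lit 152) (nat_lit 18168683305) (nat_lit 228) (nat_lit 116665698605) (nat_lit 15) (nat_lit 5) (nat_lit 17) (nat_lit 5) (nat_lit 18) (nat_lit 5) (nat_lit 295)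 (nat_lit 269) (nat_lit 156))))))))
noncomputable def xc104 : XT := (XT.nd (nat_lit 1326) (nat_lit 76) (nat_lit 0) (XT.nd (nat_lit 624) (nat_lit 304) (nat_lit 0) (XT.nd (nat_lit 312) (nat_lit 304) (nat_lit 0) (XT.nd (nat_lit 156) (nat_lit 152) (nat_lit 0) (XT.nd (nat_lit 78) (nat_lit 0) (nat_lit 0) (XT.lf (nat_lit 0) (nat_lit 47919163599) (nat_lit 228) (nat_lit 69963040032) (nat_lit 76) (nat_lit 29032804391) (nat_lit 15) (nat_lit 5) (nat_lit 18) (nat_lit 5) (nat_lit 16) (nat_lit 5) (nat_lit 296) (nat_lit 269) (nat_lit 155)) (XT.lf (nat_lit 0) (nat_lit 76509399677) (nat_lit 228) (nat_lit 210125383) (nat_lit 76) (nat_lit 79381834924) (nat_lit 15) (nat_lit 5) (nat_lit 18) (nat_lit 5) (nat_lit 16) (nat_lit 5) (nat_lit 297) (nat_lit 269) (nat_lit 154))) (XT.nd (nat_lit 78) (nat_lit 0) (nat_lit 0) (XT.lf (nat_lit 0) (nat_lit 77605228679) (nat_lit 152) (nat_lit 30992176522) (nat_lit 228) (nat_lit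 57364690679) (nat_lit 13) (nat_lit 5) (nat_lit 15) (nat_lit 5) (nat_lit 16) (nat_lit 5) (nat_lit 298) (nat_lit 269) (nat_lit 153)) (XT.lf (nat_lit 0) (nat_lit 143542306012) (nat_lit 228) (nat_lit 15247045155) (nat_lit 76) (nat_lit 17807849801) (nat_lit 13) (nat_lit 5) (nat_lit 16) (nat_lit 5) (nat_lit 14) (nat_lit 4) (nat_lit 299) (nat_lit 269) (nat_lit 152)))) (XT.nd (nat_lit 156) (nat_lit 152) (nat_lit 0) (XT.nd (nat_lit 78) (nat_lit 76) (nat_lit 0) (XT.lf (nat_lit 0) (nat_lit 65276741142) (nat_lit 76) (nat_lit 117546834854) (nat_lit 152) (nat_lit 5182502446) (nat_lit 12) (nat_lit 5) (nat_lit 13) (nat_lit 5) (nat_lit 14) (nat_lit 4) (nat_lit 300) (nat_lit 269) (nat_lit 151)) (XT.lf (nat_lit 0) (nat_lit 24391114503) (nat_lit 152) (nat_lit 47922377290) (nat_lit 76) (nat_lit 127981272595) (nat_lit 11) (nat_lit 5) (nat_lit 13) (nat_lit 5) (nat_lit 12) (nat_lit 5) (nat_lit 301) (nat_lit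 269) (nat_lit 150))) (XT.nd (nat_lit 78) (nat_lit 0) (nat_lit 0) (XT.lf (nat_lit 0) (nat_lit 33864261464) (nat_lit 152) (nat_lit 22815072750) (nat_lit 228) (nat_lit 156856451204) (nat_lit 9) (nat_lit 5) (nat_lit 11) (nat_lit 5) (nat_lit 12) (nat_lit 5) (nat_lit 302) (nat_lit 269) (nat_lit 149)) (XT.lf (nat_lit 0) (nat_lit 92876675304) (nat_lit 228) (nat_lit 104382672553) (nat_lit 76) (nat_lit 30510439226) (nat_lit 9) (nat_lit 5) (nat_lit 12) (nat_lit 5) (nat_lit 10) (nat_lit 4) (nat_lit 303) (nat_lit 269) (nat_lit 148))))) (XT.nd (nat_lit 312) (nat_lit 228) (nat_lit 0) (XT.nd (nat_lit 156) (nat_lit 0) (nat_lit 0) (XT.nd (nat_lit 78) (nat_lit 76) (nat_lit 0) (XT.lf (nat_lit 0) (nat_lit 132353744058) (nat_lit 228) (nat_lit 23456653708) (nat_lit 76) (nat_lit 87312916082) (nat_lit 9) (nat_lit 5) (nat_lit 12) (nat_lit 5) (nat_lit 10) (nat_lit 4) (nat_lit 304) (nat_lit 269) (nat_lit 147))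 (XT.lf (nat_lit 0) (nat_lit 66056522654) (nat_lit 76) (nat_lit 109963076223) (nat_lit 152) (nat_lit 83633994685) (nat_lit 8) (nat_lit 5) (nat_lit 9) (nat_lit 5) (nat_lit 10) (nat_lit 4) (nat_lit 305) (nat_lit 269) (nat_lit 146))) (XT.nd (nat_lit 78) (nat_lit 0) (nat_lit 0) (XT.lf (nat_lit 0) (nat_lit 163567287188) (nat_lit 76) (nat_lit 60019363051) (nat_lit 152) (nat_lit 53899250708) (nat_lit 8) (nat_lit 5) (nat_lit 9) (nat_lit 5) (nat_lit 10) (nat_lit 4) (nat_lit 306) (nat_lit 269) (nat_lit 145)) (XT.lf (nat_lit 0) (nat_lit 268877898557) (nat_lit 76) (nat_lit 6080545285) (nat_lit 152) (nat_lit 21786381751) (nat_lit 8) (nat_lit 5) (nat_lit 9) (nat_lit 5) (nat_lit 10) (nat_lit 4) (nat_lit 307) (nat_lit 269) (nat_lit 144)))) (XT.nd (nat_lit 156) (nat_lit 76) (nat_lit 0) (XT.nd (nat_lit 78) (nat_lit 0) (nat_lit 0) (XT.lf (nat_lit 0) (nat_lit 14363447268) (nat_lit 152) (nat_lit 251305752978)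 (nat_lit 76) (nat_lit 51771165213) (nat_lit 6) (nat_lit 5) (nat_lit 8) (nat_lit 5) (nat_lit 7) (nat_lit 4) (nat_lit 308) (nat_lit 269) (nat_lit 143)) (XT.lf (nat_lit 0) (nat_lit 53247525904) (nat_lit 152) (nat_lit 171594670038) (nat_lit 76) (nat_lit 114901218569) (nat_lit 6) (nat_lit 5) (nat_lit 8) (nat_lit 5) (nat_lit 7) (nat_lit 4) (nat_lit 309) (nat_lit 269) (nat_lit 142))) (XT.nd (nat_lit 78) (nat_lit 76) (nat_lit 0) (XT.lf (nat_lit 0) (nat_lit 95241809379) (nat_lit 152) (nat_lit 85507572493) (nat_lit 76) (nat_lit 183081352880) (nat_lit 6) (nat_lit 5) (nat_lit 8) (nat_lit 5) (nat_lit 7) (nat_lit 4) (nat_lit 310) (nat_lit 269) (nat_lit 141)) (XT.nd (nat_lit 78) (nat_lit 0) (nat_lit 0) (XT.lf (nat_lit 0) (nat_lit 7712534697) (nat_lit 76) (nat_lit 133003032289) (nat_lit 152) (nat_lit 249123478155) (nat_lit 5) (nat_lit 5) (nat_lit 6) (nat_lit 5) (nat_lit 7) (nat_lit 4) (nat_lit 311)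 (nat_lit 269) (nat_lit 140)) (XT.lf (nat_lit 0) (nat_lit 111442925950) (nat_lit 76) (nat_lit 79873326881) (nat_lit 152) (nat_lit 226537317172) (nat_lit 5) (nat_lit 5) (nat_lit 6) (nat_lit 5) (nat_lit 7) (nat_lit 4) (nat_lit 312) (nat_lit 269) (nat_lit 139))))))) (XT.nd (nat_lit 34476) (nat_lit 0) (nat_lit 2888) (XT.nd (nat_lit 312) (nat_lit 0) (nat_lit 0) (XT.nd (nat_lit 156) (nat_lit 76) (nat_lit 0) (XT.nd (nat_lit 78) (nat_lit 0) (nat_lit 0) (XT.lf (nat_lit 0) (nat_lit 223471033370) (nat_lit 76) (nat_lit 22493535062) (nat_lit 152) (nat_lit 202144710621) (nat_lit 5) (nat_lit 5) (nat_lit 6) (nat_lit 5) (nat_lit 7) (nat_lit 4) (nat_lit 313) (nat_lit 269) (nat_lit 138)) (XT.lf (nat_lit 0) (nat_lit 305600692453) (nat_lit 152) (nat_lit 136941074954) (nat_lit 0) (nat_lit 38212881137) (nat_lit 5) (nat_lit 5) (nat_lit 7) (nat_lit 4) (nat_lit 5) (nat_lit 4) (nat_lit 314) (nat_lit 269) (nat_lit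 137))) (XT.nd (nat_lit 78) (nat_lit 76) (nat_lit 0) (XT.lf (nat_lit 0) (nat_lit 370386620140) (nat_lit 152) (nat_lit 42608040919) (nat_lit 0) (nat_lit 102998041658) (nat_lit 5) (nat_lit 5) (nat_lit 7) (nat_lit 4) (nat_lit 5) (nat_lit 4) (nat_lit 315) (nat_lit 269) (nat_lit 136)) (XT.lf (nat_lit 0) (nat_lit 61230822836) (nat_lit 76) (nat_lit 380080242888) (nat_lit 76) (nat_lit 112690954067) (nat_lit 4) (nat_lit 4) (nat_lit 5) (nat_lit 5) (nat_lit 5) (nat_lit 4) (nat_lit 316) (nat_lit 269) (nat_lit 135)))) (XT.nd (nat_lit 33930) (nat_lit 0) (nat_lit 3876) (XT.nd (nat_lit 33852) (nat_lit 0) (nat_lit 3876) (XT.lf (nat_lit 0) (nat_lit 174897758646) (nat_lit 76) (nat_lit 343753588408) (nat_lit 76) (nat_lit 76363641867) (nat_lit 4) (nat_lit 4) (nat_lit 5) (nat_lit 5) (nat_lit 5) (nat_lit 4) (nat_lit 317) (nat_lit 269) (nat_lit 134)) (XT.lf (nat_lit 0) (nat_lit 9970359) (nat_lit 0) (nat_lit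 9970359) (nat_lit 684) (nat_lit 20749253443) (nat_lit 55) (nat_lit 5) (nat_lit 55) (nat_lit 3) (nat_lit 64) (nat_lit 3) (nat_lit 270) (nat_lit 270) (nat_lit 180))) (XT.nd (nat_lit 78) (nat_lit 0) (nat_lit 76) (XT.lf (nat_lit 0) (nat_lit 527805009) (nat_lit 684) (nat_lit 15782757701) (nat_lit 760) (nat_lit 26864782735) (nat_lit 55) (nat_lit 5) (nat_lit 64) (nat_lit 3) (nat_lit 65) (nat_lit 5) (nat_lit 271) (nat_lit 270) (nat_lit 179)) (XT.nd (nat_lit 78) (nat_lit 0) (nat_lit 0) (XT.lf (nat_lit 0) (nat_lit 1417790059) (nat_lit 684) (nat_lit 32702597727) (nat_lit 760) (nat_lit 10804746180) (nat_lit 56) (nat_lit 5) (nat_lit 65) (nat_lit 5) (nat_lit 66) (nat_lit 5) (nat_lit 272) (nat_lit 270) (nat_lit 178)) (XT.lf (nat_lit 0) (nat_lit 2928546074) (nat_lit 684) (nat_lit 4051999346) (nat_lit 760) (nat_lit 39806905814) (nat_lit 56) (nat_lit 5) (nat_lit 65) (nat_lit 5) (nat_lit 66) (nat_lit 5)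 (nat_lit 273) (nat_lit 270) (nat_lit 177)))))) (XT.nd (nat_lit 312) (nat_lit 1140) (nat_lit 0) (XT.nd (nat_lit 156) (nat_lit 0) (nat_lit 76) (XT.nd (nat_lit 78) (nat_lit 0) (nat_lit 76) (XT.lf (nat_lit 0) (nat_lit 5345087118) (nat_lit 684) (nat_lit 21356342427) (nat_lit 760) (nat_lit 22058100581) (nat_lit 57) (nat_lit 5) (nat_lit 66) (nat_lit 5) (nat_lit 67) (nat_lit 5) (nat_lit 274) (nat_lit 270) (nat_lit 176)) (XT.lf (nat_lit 0) (nat_lit 8349535905) (nat_lit 684) (nat_lit 40052172522) (nat_lit 760) (nat_lit 2467958490) (nat_lit 58) (nat_lit 5) (nat_lit 67) (nat_lit 5) (nat_lit 68) (nat_lit 5) (nat_lit 275) (nat_lit 270) (nat_lit 175))) (XT.nd (nat_lit 78) (nat_lit 0) (nat_lit 76) (XT.lf (nat_lit 0) (nat_lit 12418759721) (nat_lit 684) (nat_lit 7261632924) (nat_lit 760) (nat_lit 33427020317) (nat_lit 58) (nat_lit 5) (nat_lit 67) (nat_lit 5) (nat_lit 68) (nat_lit 5) (nat_lit 276) (nat_lit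 270) (nat_lit 174)) (XT.lf (nat_lit 0) (nat_lit 17448386163) (nat_lit 684) (nat_lit 26606187059) (nat_lit 76) (nat_lit 11437880070) (nat_lit 59) (nat_lit 5) (nat_lit 68) (nat_lit 5) (nat_lit 60) (nat_lit 5) (nat_lit 277) (nat_lit 270) (nat_lit 173)))) (XT.nd (nat_lit 156) (nat_lit 608) (nat_lit 0) (XT.nd (nat_lit 78) (nat_lit 0) (nat_lit 0) (XT.lf (nat_lit 0) (nat_lit 10110009892) (nat_lit 684) (nat_lit 13385230829) (nat_lit 760) (nat_lit 34542329746) (nat_lit 50) (nat_lit 5) (nat_lit 59) (nat_lit 5) (nat_lit 60) (nat_lit 5) (nat_lit 278) (nat_lit 270) (nat_lit 172)) (XT.lf (nat_lit 0) (nat_lit 30801875192) (nat_lit 760) (nat_lit 10368319461) (nat_lit 76) (nat_lit 19577316082) (nat_lit 50) (nat_lit 5) (nat_lit 60) (nat_lit 5) (nat_lit 51) (nat_lit 5) (nat_lit 279) (nat_lit 270) (nat_lit 171))) (XT.nd (nat_lit 78) (nat_lit 304) (nat_lit 0) (XT.lf (nat_lit 0) (nat_lit 30957997217) (nat_lit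 304) (nat_lit 8441130974) (nat_lit 380) (nat_lit 24239827804) (nat_lit 46) (nat_lit 5) (nat_lit 50) (nat_lit 5) (nat_lit 51) (nat_lit 5) (nat_lit 280) (nat_lit 270) (nat_lit 170)) (XT.nd (nat_lit 78) (nat_lit 0) (nat_lit 0) (XT.lf (nat_lit 0) (nat_lit 9072470484) (nat_lit 304) (nat_lit 40354215238) (nat_lit 380) (nat_lit 17297918055) (nat_lit 42) (nat_lit 5) (nat_lit 46) (nat_lit 5) (nat_lit 47) (nat_lit 5) (nat_lit 281) (nat_lit 270) (nat_lit 169)) (XT.lf (nat_lit 0) (nat_lit 55183440650) (nat_lit 304) (nat_lit 5779713937) (nat_lit 380) (nat_lit 9058625598) (nat_lit 42) (nat_lit 5) (nat_lit 46) (nat_lit 5) (nat_lit 47) (nat_lit 5) (nat_lit 282) (nat_lit 270) (nat_lit 168))))))))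
noncomputable def xc105 : XT := (XT.nd (nat_lit 1326) (nat_lit 608) (nat_lit 0) (XT.nd (nat_lit 624) (nat_lit 912) (nat_lit 0) (XT.nd (nat_lit 312) (nat_lit 456) (nat_lit 0) (XT.nd (nat_lit 156) (nat_lit 228) (nat_lit 0) (XT.nd (nat_lit 78) (nat_lit 304) (nat_lit 0) (XT.lf (nat_lit 0) (nat_lit 849938491) (nat_lit 304) (nat_lit 41619990393) (nat_lit 76) (nat_lit 31062687520) (nat_lit 38) (nat_lit 5) (nat_lit 42) (nat_lit 5) (nat_lit 39) (nat_lit 5) (nat_lit 283) (nat_lit 270) (nat_lit 167)) (XT.lf (nat_lit 0) (nat_lit 5542478837) (nat_lit 304) (nat_lit 6139955834) (nat_lit 380) (nat_lit 65612038807) (nat_lit 34) (nat_lit 5) (nat_lit 38) (nat_lit 5) (nat_lit 39) (nat_lit 5) (nat_lit 284) (nat_lit 270) (nat_lit 166))) (XT.nd (nat_lit 78) (nat_lit 228) (nat_lit 0) (XT.lf (nat_lit 0) (nat_lit 24632937638) (nat_lit 380) (nat_lit 23888082030) (nat_lit 76) (nat_lit 32773698274) (nat_lit 34)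 (nat_lit 5) (nat_lit 39) (nat_lit 5) (nat_lit 35) (nat_lit 5) (nat_lit 285) (nat_lit 270) (nat_lit 165)) (XT.lf (nat_lit 0) (nat_lit 28614838771) (nat_lit 228) (nat_lit 10552894457) (nat_lit 304) (nat_lit 46419844616) (nat_lit 31) (nat_lit 5) (nat_lit 34) (nat_lit 5) (nat_lit 35) (nat_lit 5) (nat_lit 286) (nat_lit 270) (nat_lit 164)))) (XT.nd (nat_lit 156) (nat_lit 228) (nat_lit 0) (XT.nd (nat_lit 78) (nat_lit 228) (nat_lit 0) (XT.lf (nat_lit 0) (nat_lit 55761772714) (nat_lit 304) (nat_lit 4516724797) (nat_lit 76) (nat_lit 29900553884) (nat_lit 31) (nat_lit 5) (nat_lit 35) (nat_lit 5) (nat_lit 32) (nat_lit 5) (nat_lit 287) (nat_lit 270) (nat_lit 163)) (XT.lf (nat_lit 0) (nat_lit 53673475491) (nat_lit 228) (nat_lit 21024009153) (nat_lit 304) (nat_lit 20389658009) (nat_lit 28) (nat_lit 5) (nat_lit 31) (nat_lit 5) (nat_lit 32) (nat_lit 5) (nat_lit 288) (nat_lit 270) (nat_lit 162))) (XT.nd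 (nat_lit 78) (nat_lit 76) (nat_lit 0) (XT.lf (nat_lit 0) (nat_lit 16486738367) (nat_lit 152) (nat_lit 79330652752) (nat_lit 228) (nat_lit 4537029960) (nat_lit 26) (nat_lit 5) (nat_lit 28) (nat_lit 5) (nat_lit 29) (nat_lit 5) (nat_lit 289) (nat_lit 270) (nat_lit 161)) (XT.lf (nat_lit 0) (nat_lit 13267143028) (nat_lit 228) (nat_lit 26073954922) (nat_lit 76) (nat_lit 66637861595) (nat_lit 25) (nat_lit 5) (nat_lit 28) (nat_lit 5) (nat_lit 26) (nat_lit 5) (nat_lit 290) (nat_lit 270) (nat_lit 160))))) (XT.nd (nat_lit 312) (nat_lit 532) (nat_lit 0) (XT.nd (nat_lit 156) (nat_lit 152) (nat_lit 0) (XT.nd (nat_lit 78) (nat_lit 0) (nat_lit 0) (XT.lf (nat_lit 0) (nat_lit 32993129067) (nat_lit 304) (nat_lit 74627561759) (nat_lit 76) (nat_lit 4396235163) (nat_lit 22) (nat_lit 5) (nat_lit 26) (nat_lit 5) (nat_lit 23) (nat_lit 5) (nat_lit 291) (nat_lit 270) (nat_lit 159)) (XT.lf (nat_lit 0) (nat_lit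 55420755190) (nat_lit 304) (nat_lit 12327195817) (nat_lit 76) (nat_lit 50733805781) (nat_lit 22) (nat_lit 5) (nat_lit 26) (nat_lit 5) (nat_lit 23) (nat_lit 5) (nat_lit 292) (nat_lit 270) (nat_lit 158))) (XT.nd (nat_lit 78) (nat_lit 0) (nat_lit 0) (XT.lf (nat_lit 0) (nat_lit 56772411354) (nat_lit 152) (nat_lit 23755224265) (nat_lit 228) (nat_lit 44891890946) (nat_lit 20) (nat_lit 5) (nat_lit 22) (nat_lit 5) (nat_lit 23) (nat_lit 5) (nat_lit 293) (nat_lit 270) (nat_lit 157)) (XT.lf (nat_lit 0) (nat_lit 108230961182) (nat_lit 228) (nat_lit 1437664645) (nat_lit 76) (nat_lit 23214301735) (nat_lit 20) (nat_lit 5) (nat_lit 23) (nat_lit 5) (nat_lit 21) (nat_lit 5) (nat_lit 294) (nat_lit 270) (nat_lit 156)))) (XT.nd (nat_lit 156) (nat_lit 152) (nat_lit 0) (XT.nd (nat_lit 78) (nat_lit 228) (nat_lit 0) (XT.lf (nat_lit 0) (nat_lit 73085474995) (nat_lit 152) (nat_lit 66605527984) (nat_lit 228) (nat_lit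 1175379200) (nat_lit 18) (nat_lit 5) (nat_lit 20) (nat_lit 5) (nat_lit 21) (nat_lit 5) (nat_lit 295) (nat_lit 270) (nat_lit 155)) (XT.lf (nat_lit 0) (nat_lit 3879112160) (nat_lit 152) (nat_lit 19611215004) (nat_lit 228) (nat_lit 125975070115) (nat_lit 15) (nat_lit 5) (nat_lit 17) (nat_lit 5) (nat_lit 18) (nat_lit 5) (nat_lit 296) (nat_lit 270) (nat_lit 154))) (XT.nd (nat_lit 78) (nat_lit 152) (nat_lit 0) (XT.lf (nat_lit 0) (nat_lit 51773855799) (nat_lit 228) (nat_lit 75527975660) (nat_lit 76) (nat_lit 31365254743) (nat_lit 15) (nat_lit 5) (nat_lit 18) (nat_lit 5) (nat_lit 16) (nat_lit 5) (nat_lit 297) (nat_lit 270) (nat_lit 153)) (XT.nd (nat_lit 78) (nat_lit 152) (nat_lit 0) (XT.lf (nat_lit 0) (nat_lit 82649743422) (nat_lit 228) (nat_lit 197206177) (nat_lit 76) (nat_lit 85741479867) (nat_lit 15) (nat_lit 5) (nat_lit 18) (nat_lit 5) (nat_lit 16) (nat_lit 5) (nat_lit 298) (nat_lit 270)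 (nat_lit 152)) (XT.lf (nat_lit 0) (nat_lit 83842084213) (nat_lit 152) (nat_lit 33461697918) (nat_lit 228) (nat_lit 61934296892) (nat_lit 13) (nat_lit 5) (nat_lit 15) (nat_lit 5) (nat_lit 16) (nat_lit 5) (nat_lit 299) (nat_lit 270) (nat_lit 151))))))) (XT.nd (nat_lit 702) (nat_lit 228) (nat_lit 0) (XT.nd (nat_lit 312) (nat_lit 76) (nat_lit 0) (XT.nd (nat_lit 156) (nat_lit 228) (nat_lit 0) (XT.nd (nat_lit 78) (nat_lit 76) (nat_lit 0) (XT.lf (nat_lit 0) (nat_lit 155043040810) (nat_lit 228) (nat_lit 16439708824) (nat_lit 76) (nat_lit 19241308690) (nat_lit 13) (nat_lit 5) (nat_lit 16) (nat_lit 5) (nat_lit 14) (nat_lit 4) (nat_lit 300) (nat_lit 270) (nat_lit 150)) (XT.lf (nat_lit 0) (nat_lit 70524802647) (nat_lit 76) (nat_lit 126941129257) (nat_lit 152) (nat_lit 5579761911) (nat_lit 12) (nat_lit 5) (nat_lit 13) (nat_lit 5) (nat_lit 14) (nat_lit 4) (nat_lit 301) (nat_lit 270) (nat_lit 149)))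 (XT.nd (nat_lit 78) (nat_lit 152) (nat_lit 0) (XT.lf (nat_lit 0) (nat_lit 26357945996) (nat_lit 152) (nat_lit 51731609714) (nat_lit 76) (nat_lit 138227970902) (nat_lit 11) (nat_lit 5) (nat_lit 13) (nat_lit 5) (nat_lit 12) (nat_lit 5) (nat_lit 302) (nat_lit 270) (nat_lit 148)) (XT.lf (nat_lit 0) (nat_lit 36596892890) (nat_lit 152) (nat_lit 24631545863) (nat_lit 228) (nat_lit 169389432895) (nat_lit 9) (nat_lit 5) (nat_lit 11) (nat_lit 5) (nat_lit 12) (nat_lit 5) (nat_lit 303) (nat_lit 270) (nat_lit 147)))) (XT.nd (nat_lit 156) (nat_lit 76) (nat_lit 0) (XT.nd (nat_lit 78) (nat_lit 0) (nat_lit 0) (XT.lf (nat_lit 0) (nat_lit 100320600202) (nat_lit 228) (nat_lit 112710943052) (nat_lit 76) (nat_lit 32959101407) (nat_lit 9) (nat_lit 5) (nat_lit 12) (nat_lit 5) (nat_lit 10) (nat_lit 4) (nat_lit 304) (nat_lit 270) (nat_lit 146)) (XT.lf (nat_lit 0) (nat_lit 142954812910) (nat_lit 228) (nat_lit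 25312497759) (nat_lit 76) (nat_lit 94305196631) (nat_lit 9) (nat_lit 5) (nat_lit 12) (nat_lit 5) (nat_lit 10) (nat_lit 4) (nat_lit 305) (nat_lit 270) (nat_lit 145))) (XT.nd (nat_lit 78) (nat_lit 0) (nat_lit 0) (XT.lf (nat_lit 0) (nat_lit 71360833626) (nat_lit 76) (nat_lit 118752465577) (nat_lit 152) (nat_lit 90311944492) (nat_lit 8) (nat_lit 5) (nat_lit 9) (nat_lit 5) (nat_lit 10) (nat_lit 4) (nat_lit 306) (nat_lit 270) (nat_lit 144)) (XT.nd (nat_lit 78) (nat_lit 0) (nat_lit 0) (XT.lf (nat_lit 0) (nat_lit 176670993460) (nat_lit 76) (nat_lit 64813822517) (nat_lit 152) (nat_lit 58199366906) (nat_lit 8) (nat_lit 5) (nat_lit 9) (nat_lit 5) (nat_lit 10) (nat_lit 4) (nat_lit 307) (nat_lit 270) (nat_lit 143)) (XT.lf (nat_lit 0) (nat_lit 290405096456) (nat_lit 76) (nat_lit 6560424483) (nat_lit 152) (nat_lit 23518344272) (nat_lit 8) (nat_lit 5) (nat_lit 9) (nat_lit 5) (nat_lit 10) (nat_lit 4)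 (nat_lit 308) (nat_lit 270) (nat_lit 142)))))) (XT.nd (nat_lit 312) (nat_lit 0) (nat_lit 0) (XT.nd (nat_lit 156) (nat_lit 76) (nat_lit 0) (XT.nd (nat_lit 78) (nat_lit 0) (nat_lit 0) (XT.lf (nat_lit 0) (nat_lit 15522696375) (nat_lit 152) (nat_lit 271393200268) (nat_lit 76) (nat_lit 55919166153) (nat_lit 6) (nat_lit 5) (nat_lit 8) (nat_lit 5) (nat_lit 7) (nat_lit 4) (nat_lit 309) (nat_lit 270) (nat_lit 141)) (XT.lf (nat_lit 0) (nat_lit 57516747722) (nat_lit 152) (nat_lit 185306490912) (nat_lit 76) (nat_lit 124099156539) (nat_lit 6) (nat_lit 5) (nat_lit 8) (nat_lit 5) (nat_lit 7) (nat_lit 4) (nat_lit 310) (nat_lit 270) (nat_lit 140))) (XT.nd (nat_lit 78) (nat_lit 76) (nat_lit 0) (XT.lf (nat_lit 0) (nat_lit 102869876116) (nat_lit 152) (nat_lit 92333592431) (nat_lit 76) (nat_lit 197733268966) (nat_lit 6) (nat_lit 5) (nat_lit 8) (nat_lit 5) (nat_lit 7) (nat_lit 4) (nat_lit 311) (nat_lit 270)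 (nat_lit 139)) (XT.lf (nat_lit 0) (nat_lit 8343489450) (nat_lit 76) (nat_lit 143637616638) (nat_lit 152) (nat_lit 269044629533) (nat_lit 5) (nat_lit 5) (nat_lit 6) (nat_lit 5) (nat_lit 7) (nat_lit 4) (nat_lit 312) (nat_lit 270) (nat_lit 138)))) (XT.nd (nat_lit 156) (nat_lit 0) (nat_lit 0) (XT.nd (nat_lit 78) (nat_lit 0) (nat_lit 0) (XT.lf (nat_lit 0) (nat_lit 120371278524) (nat_lit 76) (nat_lit 86257953925) (nat_lit 152) (nat_lit 244652222106) (nat_lit 5) (nat_lit 5) (nat_lit 6) (nat_lit 5) (nat_lit 7) (nat_lit 4) (nat_lit 313) (nat_lit 270) (nat_lit 137)) (XT.lf (nat_lit 0) (nat_lit 241360677611) (nat_lit 76) (nat_lit 24288166843) (nat_lit 152) (nat_lit 218308805582) (nat_lit 5) (nat_lit 5) (nat_lit 6) (nat_lit 5) (nat_lit 7) (nat_lit 4) (nat_lit 314) (nat_lit 270) (nat_lit 136))) (XT.nd (nat_lit 78) (nat_lit 0) (nat_lit 0) (XT.lf (nat_lit 0) (nat_lit 330055401818) (nat_lit 152) (nat_lit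 147885011715) (nat_lit 0) (nat_lit 41274259554) (nat_lit 5) (nat_lit 5) (nat_lit 7) (nat_lit 4) (nat_lit 5) (nat_lit 4) (nat_lit 315) (nat_lit 270) (nat_lit 135)) (XT.nd (nat_lit 34008) (nat_lit 0) (nat_lit 3800) (XT.lf (nat_lit 0) (nat_lit 400023710833) (nat_lit 152) (nat_lit 46006175642) (nat_lit 0) (nat_lit 111241910849) (nat_lit 5) (nat_lit 5) (nat_lit 7) (nat_lit 4) (nat_lit 5) (nat_lit 4) (nat_lit 316) (nat_lit 270) (nat_lit 134)) (XT.lf (nat_lit 0) (nat_lit 36643040) (nat_lit 0) (nat_lit 36643040) (nat_lit 684) (nat_lit 22354600413) (nat_lit 55) (nat_lit 5) (nat_lit 55) (nat_lit 3) (nat_lit 64) (nat_lit 3) (nat_lit 271) (nat_lit 271) (nat_lit 178))))))))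
noncomputable def xc106 : XT := (XT.nd (nat_lit 1326) (nat_lit 1672) (nat_lit 0) (XT.nd (nat_lit 624) (nat_lit 1444) (nat_lit 0) (XT.nd (nat_lit 312) (nat_lit 380) (nat_lit 0) (XT.nd (nat_lit 156) (nat_lit 0) (nat_lit 76) (XT.nd (nat_lit 78) (nat_lit 0) (nat_lit 76) (XT.lf (nat_lit 0) (nat_lit 665114820) (nat_lit 684) (nat_lit 16991448251) (nat_lit 760) (nat_lit 28967582227) (nat_lit 55) (nat_lit 5) (nat_lit 64) (nat_lit 3) (nat_lit 65) (nat_lit 5) (nat_lit 272) (nat_lit 271) (nat_lit 177)) (XT.lf (nat_lit 0) (nat_lit 1619478968) (nat_lit 684) (nat_lit 35261756654) (nat_lit 760) (nat_lit 11633057340) (nat_lit 56) (nat_lit 5) (nat_lit 65) (nat_lit 5) (nat_lit 66) (nat_lit 5) (nat_lit 273) (nat_lit 271) (nat_lit 176))) (XT.nd (nat_lit 78) (nat_lit 0) (nat_lit 76) (XT.lf (nat_lit 0) (nat_lit 3244557263) (nat_lit 684) (nat_lit 4323336246) (nat_lit 760) (nat_lit 42958061488) (nat_lit 56)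 (nat_lit 5) (nat_lit 65) (nat_lit 5) (nat_lit 66) (nat_lit 5) (nat_lit 274) (nat_lit 271) (nat_lit 175)) (XT.lf (nat_lit 0) (nat_lit 5848751657) (nat_lit 684) (nat_lit 23009718467) (nat_lit 760) (nat_lit 23797643645) (nat_lit 57) (nat_lit 5) (nat_lit 66) (nat_lit 5) (nat_lit 67) (nat_lit 5) (nat_lit 275) (nat_lit 271) (nat_lit 174)))) (XT.nd (nat_lit 156) (nat_lit 608) (nat_lit 0) (XT.nd (nat_lit 78) (nat_lit 0) (nat_lit 0) (XT.lf (nat_lit 0) (nat_lit 9088456783) (nat_lit 684) (nat_lit 43199411496) (nat_lit 760) (nat_lit 2647476046) (nat_lit 58) (nat_lit 5) (nat_lit 67) (nat_lit 5) (nat_lit 68) (nat_lit 5) (nat_lit 276) (nat_lit 271) (nat_lit 173)) (XT.lf (nat_lit 0) (nat_lit 13477962355) (nat_lit 684) (nat_lit 7789846124) (nat_lit 760) (nat_lit 36084590162) (nat_lit 58) (nat_lit 5) (nat_lit 67) (nat_lit 5) (nat_lit 68) (nat_lit 5) (nat_lit 277) (nat_lit 271) (nat_lit 172))) (XT.nd (nat_lit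 78) (nat_lit 684) (nat_lit 0) (XT.lf (nat_lit 0) (nat_lit 18905704605) (nat_lit 684) (nat_lit 28680701316) (nat_lit 76) (nat_lit 12342072864) (nat_lit 59) (nat_lit 5) (nat_lit 68) (nat_lit 5) (nat_lit 60) (nat_lit 5) (nat_lit 278) (nat_lit 271) (nat_lit 171)) (XT.lf (nat_lit 0) (nat_lit 10970445456) (nat_lit 684) (nat_lit 14462116566) (nat_lit 760) (nat_lit 37244852691) (nat_lit 50) (nat_lit 5) (nat_lit 59) (nat_lit 5) (nat_lit 60) (nat_lit 5) (nat_lit 279) (nat_lit 271) (nat_lit 170))))) (XT.nd (nat_lit 312) (nat_lit 836) (nat_lit 0) (XT.nd (nat_lit 156) (nat_lit 304) (nat_lit 0) (XT.nd (nat_lit 78) (nat_lit 304) (nat_lit 0) (XT.lf (nat_lit 0) (nat_lit 33319365314) (nat_lit 760) (nat_lit 11146960118) (nat_lit 76) (nat_lit 21138063332) (nat_lit 50) (nat_lit 5) (nat_lit 60) (nat_lit 5) (nat_lit 51) (nat_lit 5) (nat_lit 280) (nat_lit 271) (nat_lit 169)) (XT.lf (nat_lit 0) (nat_lit 33483253106)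 (nat_lit 304) (nat_lit 9117953363) (nat_lit 380) (nat_lit 26126121732) (nat_lit 46) (nat_lit 5) (nat_lit 50) (nat_lit 5) (nat_lit 51) (nat_lit 5) (nat_lit 281) (nat_lit 271) (nat_lit 168))) (XT.nd (nat_lit 78) (nat_lit 0) (nat_lit 0) (XT.lf (nat_lit 0) (nat_lit 9847419327) (nat_lit 304) (nat_lit 43580579849) (nat_lit 380) (nat_lit 18631994646) (nat_lit 42) (nat_lit 5) (nat_lit 46) (nat_lit 5) (nat_lit 47) (nat_lit 5) (nat_lit 282) (nat_lit 271) (nat_lit 167)) (XT.lf (nat_lit 0) (nat_lit 59643626276) (nat_lit 304) (nat_lit 6240264562) (nat_lit 380) (nat_lit 9737244486) (nat_lit 42) (nat_lit 5) (nat_lit 46) (nat_lit 5) (nat_lit 47) (nat_lit 5) (nat_lit 283) (nat_lit 271) (nat_lit 166)))) (XT.nd (nat_lit 156) (nat_lit 228) (nat_lit 0) (XT.nd (nat_lit 78) (nat_lit 304) (nat_lit 0) (XT.lf (nat_lit 0) (nat_lit 959980163) (nat_lit 304) (nat_lit 44902231492) (nat_lit 76) (nat_lit 33550732648)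 (nat_lit 38) (nat_lit 5) (nat_lit 42) (nat_lit 5) (nat_lit 39) (nat_lit 5) (nat_lit 284) (nat_lit 271) (nat_lit 165)) (XT.lf (nat_lit 0) (nat_lit 6031177150) (nat_lit 304) (nat_lit 6625491584) (nat_lit 380) (nat_lit 70819214839) (nat_lit 34) (nat_lit 5) (nat_lit 38) (nat_lit 5) (nat_lit 39) (nat_lit 5) (nat_lit 285) (nat_lit 271) (nat_lit 164))) (XT.nd (nat_lit 78) (nat_lit 228) (nat_lit 0) (XT.lf (nat_lit 0) (nat_lit 26640357529) (nat_lit 380) (nat_lit 25755277287) (nat_lit 76) (nat_lit 35400667782) (nat_lit 34) (nat_lit 5) (nat_lit 39) (nat_lit 5) (nat_lit 35) (nat_lit 5) (nat_lit 286) (nat_lit 271) (nat_lit 163)) (XT.nd (nat_lit 78) (nat_lit 0) (nat_lit 0) (XT.lf (nat_lit 0) (nat_lit 30945971454) (nat_lit 228) (nat_lit 11389895394) (nat_lit 304) (nat_lit 50096839314) (nat_lit 31) (nat_lit 5) (nat_lit 34) (nat_lit 5) (nat_lit 35) (nat_lit 5) (nat_lit 287) (nat_lit 271) (nat_lit 162))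 (XT.lf (nat_lit 0) (nat_lit 60254962542) (nat_lit 304) (nat_lit 4837590002) (nat_lit 76) (nat_lit 32299078931) (nat_lit 31) (nat_lit 5) (nat_lit 35) (nat_lit 5) (nat_lit 32) (nat_lit 5) (nat_lit 288) (nat_lit 271) (nat_lit 161))))))) (XT.nd (nat_lit 702) (nat_lit 456) (nat_lit 0) (XT.nd (nat_lit 312) (nat_lit 532) (nat_lit 0) (XT.nd (nat_lit 156) (nat_lit 304) (nat_lit 0) (XT.nd (nat_lit 78) (nat_lit 152) (nat_lit 0) (XT.lf (nat_lit 0) (nat_lit 58006067411) (nat_lit 228) (nat_lit 22697679705) (nat_lit 304) (nat_lit 21988721882) (nat_lit 28) (nat_lit 5) (nat_lit 31) (nat_lit 5) (nat_lit 32) (nat_lit 5) (nat_lit 289) (nat_lit 271) (nat_lit 160)) (XT.lf (nat_lit 0) (nat_lit 17844159223) (nat_lit 152) (nat_lit 85667550392) (nat_lit 228) (nat_lit 4869505937) (nat_lit 26) (nat_lit 5) (nat_lit 28) (nat_lit 5) (nat_lit 29) (nat_lit 5) (nat_lit 290) (nat_lit 271) (nat_lit 159))) (XT.nd (nat_lit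 78) (nat_lit 228) (nat_lit 0) (XT.lf (nat_lit 0) (nat_lit 14355839160) (nat_lit 228) (nat_lit 28123237036) (nat_lit 76) (nat_lit 71976734360) (nat_lit 25) (nat_lit 5) (nat_lit 28) (nat_lit 5) (nat_lit 26) (nat_lit 5) (nat_lit 291) (nat_lit 271) (nat_lit 158)) (XT.lf (nat_lit 0) (nat_lit 35658570688) (nat_lit 304) (nat_lit 80561483519) (nat_lit 76) (nat_lit 4756834149) (nat_lit 22) (nat_lit 5) (nat_lit 26) (nat_lit 5) (nat_lit 23) (nat_lit 5) (nat_lit 292) (nat_lit 271) (nat_lit 157)))) (XT.nd (nat_lit 156) (nat_lit 380) (nat_lit 0) (XT.nd (nat_lit 78) (nat_lit 152) (nat_lit 0) (XT.lf (nat_lit 0) (nat_lit 59878481621) (nat_lit 304) (nat_lit 13279775945) (nat_lit 76) (nat_lit 54800751145) (nat_lit 22) (nat_lit 5) (nat_lit 26) (nat_lit 5) (nat_lit 23) (nat_lit 5) (nat_lit 293) (nat_lit 271) (nat_lit 156)) (XT.lf (nat_lit 0) (nat_lit 61346339779) (nat_lit 152) (nat_lit 25646291763) (nat_lit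 228) (nat_lit 48459238895) (nat_lit 20) (nat_lit 5) (nat_lit 22) (nat_lit 5) (nat_lit 23) (nat_lit 5) (nat_lit 294) (nat_lit 271) (nat_lit 155))) (XT.nd (nat_lit 78) (nat_lit 380) (nat_lit 0) (XT.lf (nat_lit 0) (nat_lit 116910670539) (nat_lit 228) (nat_lit 1521929868) (nat_lit 76) (nat_lit 25079826588) (nat_lit 20) (nat_lit 5) (nat_lit 23) (nat_lit 5) (nat_lit 21) (nat_lit 5) (nat_lit 295) (nat_lit 271) (nat_lit 154)) (XT.nd (nat_lit 78) (nat_lit 228) (nat_lit 0) (XT.lf (nat_lit 0) (nat_lit 78961724674) (nat_lit 152) (nat_lit 71924677429) (nat_lit 228) (nat_lit 1248216975) (nat_lit 18) (nat_lit 5) (nat_lit 20) (nat_lit 5) (nat_lit 21) (nat_lit 5) (nat_lit 296) (nat_lit 271) (nat_lit 153)) (XT.lf (nat_lit 0) (nat_lit 4218285135) (nat_lit 152) (nat_lit 21170713230) (nat_lit 228) (nat_lit 136032598719) (nat_lit 15) (nat_lit 5) (nat_lit 17) (nat_lit 5) (nat_lit 18) (nat_lit 5) (nat_lit 297)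 (nat_lit 271) (nat_lit 152)))))) (XT.nd (nat_lit 312) (nat_lit 304) (nat_lit 0) (XT.nd (nat_lit 156) (nat_lit 152) (nat_lit 0) (XT.nd (nat_lit 78) (nat_lit 0) (nat_lit 0) (XT.lf (nat_lit 0) (nat_lit 55933904792) (nat_lit 228) (nat_lit 81542686643) (nat_lit 76) (nat_lit 33882899335) (nat_lit 15) (nat_lit 5) (nat_lit 18) (nat_lit 5) (nat_lit 16) (nat_lit 5) (nat_lit 298) (nat_lit 271) (nat_lit 151)) (XT.lf (nat_lit 0) (nat_lit 89278519682) (nat_lit 228) (nat_lit 187494644) (nat_lit 76) (nat_lit 92608598453) (nat_lit 15) (nat_lit 5) (nat_lit 18) (nat_lit 5) (nat_lit 16) (nat_lit 5) (nat_lit 299) (nat_lit 271) (nat_lit 150))) (XT.nd (nat_lit 78) (nat_lit 0) (nat_lit 0) (XT.lf (nat_lit 0) (nat_lit 90573831299) (nat_lit 152) (nat_lit 36130186628) (nat_lit 228) (nat_lit 66872263344) (nat_lit 13) (nat_lit 5) (nat_lit 15) (nat_lit 5) (nat_lit 16) (nat_lit 5) (nat_lit 300) (nat_lit 271) (nat_lit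 149)) (XT.lf (nat_lit 0) (nat_lit 167461359176) (nat_lit 228) (nat_lit 17731651697) (nat_lit 76) (nat_lit 20788184462) (nat_lit 13) (nat_lit 5) (nat_lit 16) (nat_lit 5) (nat_lit 14) (nat_lit 4) (nat_lit 301) (nat_lit 271) (nat_lit 148)))) (XT.nd (nat_lit 156) (nat_lit 152) (nat_lit 0) (XT.nd (nat_lit 78) (nat_lit 76) (nat_lit 0) (XT.lf (nat_lit 0) (nat_lit 76189010978) (nat_lit 76) (nat_lit 137088315700) (nat_lit 152) (nat_lit 6011275982) (nat_lit 12) (nat_lit 5) (nat_lit 13) (nat_lit 5) (nat_lit 14) (nat_lit 4) (nat_lit 302) (nat_lit 271) (nat_lit 147)) (XT.lf (nat_lit 0) (nat_lit 28479906721) (nat_lit 152) (nat_lit 55849084171) (nat_lit 76) (nat_lit 149293235751) (nat_lit 11) (nat_lit 5) (nat_lit 13) (nat_lit 5) (nat_lit 12) (nat_lit 5) (nat_lit 303) (nat_lit 271) (nat_lit 146))) (XT.nd (nat_lit 78) (nat_lit 0) (nat_lit 0) (XT.lf (nat_lit 0) (nat_lit 39544783647) (nat_lit 152) (nat_lit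 26594582643) (nat_lit 228) (nat_lit 182927269279) (nat_lit 9) (nat_lit 5) (nat_lit 11) (nat_lit 5) (nat_lit 12) (nat_lit 5) (nat_lit 304) (nat_lit 271) (nat_lit 145)) (XT.nd (nat_lit 78) (nat_lit 0) (nat_lit 0) (XT.lf (nat_lit 0) (nat_lit 108358071670) (nat_lit 228) (nat_lit 121708662713) (nat_lit 76) (nat_lit 35602539947) (nat_lit 9) (nat_lit 5) (nat_lit 12) (nat_lit 5) (nat_lit 10) (nat_lit 4) (nat_lit 305) (nat_lit 271) (nat_lit 144)) (XT.lf (nat_lit 0) (nat_lit 154402145583) (nat_lit 228) (nat_lit 27319760743) (nat_lit 76) (nat_lit 101855825720) (nat_lit 9) (nat_lit 5) (nat_lit 12) (nat_lit 5) (nat_lit 10) (nat_lit 4) (nat_lit 306) (nat_lit 271) (nat_lit 143))))))))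
noncomputable def xc107 : XT := (XT.nd (nat_lit 35412) (nat_lit 0) (nat_lit 988) (XT.nd (nat_lit 702) (nat_lit 0) (nat_lit 0) (XT.nd (nat_lit 312) (nat_lit 76) (nat_lit 0) (XT.nd (nat_lit 156) (nat_lit 152) (nat_lit 0) (XT.nd (nat_lit 78) (nat_lit 0) (nat_lit 0) (XT.lf (nat_lit 0) (nat_lit 77086666332) (nat_lit 76) (nat_lit 128246098399) (nat_lit 152) (nat_lit 97525952033) (nat_lit 8) (nat_lit 5) (nat_lit 9) (nat_lit 5) (nat_lit 10) (nat_lit 4) (nat_lit 307) (nat_lit 271) (nat_lit 142)) (XT.lf (nat_lit 0) (nat_lit 190820382210) (nat_lit 76) (nat_lit 69992850148) (nat_lit 152) (nat_lit 62845179204) (nat_lit 8) (nat_lit 5) (nat_lit 9) (nat_lit 5) (nat_lit 10) (nat_lit 4) (nat_lit 308) (nat_lit 271) (nat_lit 141))) (XT.nd (nat_lit 78) (nat_lit 152) (nat_lit 0) (XT.lf (nat_lit 0) (nat_lit 313652049796) (nat_lit 76) (nat_lit 7079630506) (nat_lit 152) (nat_lit 25390425653) (nat_lit 8) (nat_lit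 5) (nat_lit 9) (nat_lit 5) (nat_lit 10) (nat_lit 4) (nat_lit 309) (nat_lit 271) (nat_lit 140)) (XT.lf (nat_lit 0) (nat_lit 16773234071) (nat_lit 152) (nat_lit 293090070428) (nat_lit 76) (nat_lit 60398107300) (nat_lit 6) (nat_lit 5) (nat_lit 8) (nat_lit 5) (nat_lit 7) (nat_lit 4) (nat_lit 310) (nat_lit 271) (nat_lit 139)))) (XT.nd (nat_lit 156) (nat_lit 76) (nat_lit 0) (XT.nd (nat_lit 78) (nat_lit 0) (nat_lit 0) (XT.lf (nat_lit 0) (nat_lit 62126163453) (nat_lit 152) (nat_lit 200117504757) (nat_lit 76) (nat_lit 134032096335) (nat_lit 6) (nat_lit 5) (nat_lit 8) (nat_lit 5) (nat_lit 7) (nat_lit 4) (nat_lit 311) (nat_lit 271) (nat_lit 138)) (XT.lf (nat_lit 0) (nat_lit 111106943903) (nat_lit 152) (nat_lit 99707774801) (nat_lit 76) (nat_lit 213556566848) (nat_lit 6) (nat_lit 5) (nat_lit 8) (nat_lit 5) (nat_lit 7) (nat_lit 4) (nat_lit 312) (nat_lit 271) (nat_lit 137))) (XT.nd (nat_lit 78) (nat_lit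 0) (nat_lit 0) (XT.lf (nat_lit 0) (nat_lit 9022930178) (nat_lit 76) (nat_lit 155123774946) (nat_lit 152) (nat_lit 290560718008) (nat_lit 5) (nat_lit 5) (nat_lit 6) (nat_lit 5) (nat_lit 7) (nat_lit 4) (nat_lit 313) (nat_lit 271) (nat_lit 136)) (XT.nd (nat_lit 78) (nat_lit 0) (nat_lit 0) (XT.lf (nat_lit 0) (nat_lit 130012056335) (nat_lit 76) (nat_lit 93154098551) (nat_lit 152) (nat_lit 264217472200) (nat_lit 5) (nat_lit 5) (nat_lit 6) (nat_lit 5) (nat_lit 7) (nat_lit 4) (nat_lit 314) (nat_lit 271) (nat_lit 135)) (XT.lf (nat_lit 0) (nat_lit 260679786940) (nat_lit 76) (nat_lit 26227061220) (nat_lit 152) (nat_lit 235767095516) (nat_lit 5) (nat_lit 5) (nat_lit 6) (nat_lit 5) (nat_lit 7) (nat_lit 4) (nat_lit 315) (nat_lit 271) (nat_lit 134)))))) (XT.nd (nat_lit 34320) (nat_lit 0) (nat_lit 3876) (XT.nd (nat_lit 34164) (nat_lit 0) (nat_lit 3800) (XT.nd (nat_lit 34086) (nat_lit 0) (nat_lit 3800)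 (XT.lf (nat_lit 0) (nat_lit 356465538669) (nat_lit 152) (nat_lit 159706082512) (nat_lit 0) (nat_lit 44579927965) (nat_lit 5) (nat_lit 5) (nat_lit 7) (nat_lit 4) (nat_lit 5) (nat_lit 4) (nat_lit 316) (nat_lit 271) (nat_lit 133)) (XT.lf (nat_lit 0) (nat_lit 61758170) (nat_lit 0) (nat_lit 61758170) (nat_lit 684) (nat_lit 24096163486) (nat_lit 55) (nat_lit 5) (nat_lit 55) (nat_lit 3) (nat_lit 64) (nat_lit 3) (nat_lit 272) (nat_lit 272) (nat_lit 176))) (XT.nd (nat_lit 78) (nat_lit 0) (nat_lit 76) (XT.lf (nat_lit 0) (nat_lit 799844420) (nat_lit 684) (nat_lit 18304527772) (nat_lit 760) (nat_lit 31245222749) (nat_lit 55) (nat_lit 5) (nat_lit 64) (nat_lit 3) (nat_lit 65) (nat_lit 5) (nat_lit 273) (nat_lit 272) (nat_lit 175)) (XT.lf (nat_lit 0) (nat_lit 1824710899) (nat_lit 684) (nat_lit 38033786958) (nat_lit 760) (nat_lit 12532778973) (nat_lit 56) (nat_lit 5) (nat_lit 65) (nat_lit 5) (nat_lit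 66) (nat_lit 5) (nat_lit 274) (nat_lit 272) (nat_lit 174)))) (XT.nd (nat_lit 156) (nat_lit 0) (nat_lit 152) (XT.nd (nat_lit 78) (nat_lit 0) (nat_lit 76) (XT.lf (nat_lit 0) (nat_lit 3574190006) (nat_lit 684) (nat_lit 4623915896) (nat_lit 760) (nat_lit 46366074041) (nat_lit 56) (nat_lit 5) (nat_lit 65) (nat_lit 5) (nat_lit 66) (nat_lit 5) (nat_lit 275) (nat_lit 272) (nat_lit 173)) (XT.lf (nat_lit 0) (nat_lit 6381858897) (nat_lit 684) (nat_lit 24803229694) (nat_lit 760) (nat_lit 25679931661) (nat_lit 57) (nat_lit 5) (nat_lit 66) (nat_lit 5) (nat_lit 67) (nat_lit 5) (nat_lit 276) (nat_lit 272) (nat_lit 172))) (XT.nd (nat_lit 78) (nat_lit 0) (nat_lit 0) (XT.lf (nat_lit 0) (nat_lit 9876368378) (nat_lit 684) (nat_lit 46606551977) (nat_lit 760) (nat_lit 2843911370) (nat_lit 58) (nat_lit 5) (nat_lit 67) (nat_lit 5) (nat_lit 68) (nat_lit 5) (nat_lit 277) (nat_lit 272) (nat_lit 171)) (XT.nd (nat_lit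 78) (nat_lit 0) (nat_lit 76) (XT.lf (nat_lit 0) (nat_lit 14612528096) (nat_lit 684) (nat_lit 8367837112) (nat_lit 760) (nat_lit 38957132597) (nat_lit 58) (nat_lit 5) (nat_lit 67) (nat_lit 5) (nat_lit 68) (nat_lit 5) (nat_lit 278) (nat_lit 272) (nat_lit 170)) (XT.lf (nat_lit 0) (nat_lit 20470842344) (nat_lit 684) (nat_lit 30928877664) (nat_lit 76) (nat_lit 13320147188) (nat_lit 59) (nat_lit 5) (nat_lit 68) (nat_lit 5) (nat_lit 60) (nat_lit 5) (nat_lit 279) (nat_lit 272) (nat_lit 169))))))) (XT.nd (nat_lit 702) (nat_lit 988) (nat_lit 0) (XT.nd (nat_lit 312) (nat_lit 836) (nat_lit 0) (XT.nd (nat_lit 156) (nat_lit 608) (nat_lit 0) (XT.nd (nat_lit 78) (nat_lit 0) (nat_lit 0) (XT.lf (nat_lit 0) (nat_lit 11892349587) (nat_lit 684) (nat_lit 15624287598) (nat_lit 760) (nat_lit 40172260321) (nat_lit 50) (nat_lit 5) (nat_lit 59) (nat_lit 5) (nat_lit 60) (nat_lit 5) (nat_lit 280) (nat_lit 272) (nat_lit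 168)) (XT.lf (nat_lit 0) (nat_lit 36030645084) (nat_lit 760) (nat_lit 11995142768) (nat_lit 76) (nat_lit 22824446159) (nat_lit 50) (nat_lit 5) (nat_lit 60) (nat_lit 5) (nat_lit 51) (nat_lit 5) (nat_lit 281) (nat_lit 272) (nat_lit 167))) (XT.nd (nat_lit 78) (nat_lit 304) (nat_lit 0) (XT.lf (nat_lit 0) (nat_lit 36203593834) (nat_lit 304) (nat_lit 9848702999) (nat_lit 380) (nat_lit 28170864851) (nat_lit 46) (nat_lit 5) (nat_lit 50) (nat_lit 5) (nat_lit 51) (nat_lit 5) (nat_lit 282) (nat_lit 272) (nat_lit 166)) (XT.lf (nat_lit 0) (nat_lit 10677352108) (nat_lit 304) (nat_lit 47065335043) (nat_lit 380) (nat_lit 20079895736) (nat_lit 42) (nat_lit 5) (nat_lit 46) (nat_lit 5) (nat_lit 47) (nat_lit 5) (nat_lit 283) (nat_lit 272) (nat_lit 165)))) (XT.nd (nat_lit 156) (nat_lit 532) (nat_lit 0) (XT.nd (nat_lit 78) (nat_lit 304) (nat_lit 0) (XT.lf (nat_lit 0) (nat_lit 64454134189) (nat_lit 304) (nat_lit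 6737919807) (nat_lit 380) (nat_lit 10476725450) (nat_lit 42) (nat_lit 5) (nat_lit 46) (nat_lit 5) (nat_lit 47) (nat_lit 5) (nat_lit 284) (nat_lit 272) (nat_lit 164)) (XT.lf (nat_lit 0) (nat_lit 1072826752) (nat_lit 304) (nat_lit 48453808045) (nat_lit 76) (nat_lit 36237389106) (nat_lit 38) (nat_lit 5) (nat_lit 42) (nat_lit 5) (nat_lit 39) (nat_lit 5) (nat_lit 285) (nat_lit 272) (nat_lit 163))) (XT.nd (nat_lit 78) (nat_lit 228) (nat_lit 0) (XT.lf (nat_lit 0) (nat_lit 6552508777) (nat_lit 304) (nat_lit 7150677759) (nat_lit 380) (nat_lit 76448926347) (nat_lit 34) (nat_lit 5) (nat_lit 38) (nat_lit 5) (nat_lit 39) (nat_lit 5) (nat_lit 286) (nat_lit 272) (nat_lit 162)) (XT.nd (nat_lit 78) (nat_lit 228) (nat_lit 0) (XT.lf (nat_lit 0) (nat_lit 28803123236) (nat_lit 380) (nat_lit 27778104044) (nat_lit 76) (nat_lit 38237071039) (nat_lit 34) (nat_lit 5) (nat_lit 39) (nat_lit 5) (nat_lit 35) (nat_lit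 5) (nat_lit 287) (nat_lit 272) (nat_lit 161)) (XT.lf (nat_lit 0) (nat_lit 33457610745) (nat_lit 228) (nat_lit 12294887934) (nat_lit 304) (nat_lit 54073213969) (nat_lit 31) (nat_lit 5) (nat_lit 34) (nat_lit 5) (nat_lit 35) (nat_lit 5) (nat_lit 288) (nat_lit 272) (nat_lit 160)))))) (XT.nd (nat_lit 312) (nat_lit 532) (nat_lit 0) (XT.nd (nat_lit 156) (nat_lit 228) (nat_lit 0) (XT.nd (nat_lit 78) (nat_lit 228) (nat_lit 0) (XT.lf (nat_lit 0) (nat_lit 65103007016) (nat_lit 304) (nat_lit 5189898318) (nat_lit 76) (nat_lit 34888561431) (nat_lit 31) (nat_lit 5) (nat_lit 35) (nat_lit 5) (nat_lit 32) (nat_lit 5) (nat_lit 289) (nat_lit 272) (nat_lit 159)) (XT.lf (nat_lit 0) (nat_lit 62679743718) (nat_lit 228) (nat_lit 24506420882) (nat_lit 304) (nat_lit 23720291539) (nat_lit 28) (nat_lit 5) (nat_lit 31) (nat_lit 5) (nat_lit 32) (nat_lit 5) (nat_lit 290) (nat_lit 272) (nat_lit 158))) (XT.nd (nat_lit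 78) (nat_lit 76) (nat_lit 0) (XT.lf (nat_lit 0) (nat_lit 19304683890) (nat_lit 152) (nat_lit 92512762911) (nat_lit 228) (nat_lit 5232929220) (nat_lit 26) (nat_lit 5) (nat_lit 28) (nat_lit 5) (nat_lit 29) (nat_lit 5) (nat_lit 291) (nat_lit 272) (nat_lit 157)) (XT.lf (nat_lit 0) (nat_lit 15527732809) (nat_lit 228) (nat_lit 30341688009) (nat_lit 76) (nat_lit 77741597936) (nat_lit 25) (nat_lit 5) (nat_lit 28) (nat_lit 5) (nat_lit 26) (nat_lit 5) (nat_lit 292) (nat_lit 272) (nat_lit 156)))) (XT.nd (nat_lit 156) (nat_lit 304) (nat_lit 0) (XT.nd (nat_lit 78) (nat_lit 0) (nat_lit 0) (XT.lf (nat_lit 0) (nat_lit 38533539691) (nat_lit 304) (nat_lit 86975295221) (nat_lit 76) (nat_lit 5145011345) (nat_lit 22) (nat_lit 5) (nat_lit 26) (nat_lit 5) (nat_lit 23) (nat_lit 5) (nat_lit 293) (nat_lit 272) (nat_lit 155)) (XT.lf (nat_lit 0) (nat_lit 64689392879) (nat_lit 304) (nat_lit 14313355262) (nat_lit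 76) (nat_lit 59191876481) (nat_lit 22) (nat_lit 5) (nat_lit 26) (nat_lit 5) (nat_lit 23) (nat_lit 5) (nat_lit 294) (nat_lit 272) (nat_lit 154))) (XT.nd (nat_lit 78) (nat_lit 152) (nat_lit 0) (XT.lf (nat_lit 0) (nat_lit 66281597987) (nat_lit 152) (nat_lit 27689978605) (nat_lit 228) (nat_lit 52315399023) (nat_lit 20) (nat_lit 5) (nat_lit 22) (nat_lit 5) (nat_lit 23) (nat_lit 5) (nat_lit 295) (nat_lit 272) (nat_lit 153)) (XT.nd (nat_lit 78) (nat_lit 152) (nat_lit 0) (XT.lf (nat_lit 0) (nat_lit 126281727597) (nat_lit 228) (nat_lit 1617322848) (nat_lit 76) (nat_lit 27093397826) (nat_lit 20) (nat_lit 5) (nat_lit 23) (nat_lit 5) (nat_lit 21) (nat_lit 5) (nat_lit 296) (nat_lit 272) (nat_lit 152)) (XT.lf (nat_lit 0) (nat_lit 85303878423) (nat_lit 152) (nat_lit 77670684551) (nat_lit 228) (nat_lit 1329905128) (nat_lit 18) (nat_lit 5) (nat_lit 20) (nat_lit 5) (nat_lit 21) (nat_lit 5) (nat_lit 297)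 (nat_lit 272) (nat_lit 151))))))))
noncomputable def xc108 : XT := (XT.nd (nat_lit 1326) (nat_lit 0) (nat_lit 0) (XT.nd (nat_lit 624) (nat_lit 304) (nat_lit 0) (XT.nd (nat_lit 312) (nat_lit 304) (nat_lit 0) (XT.nd (nat_lit 156) (nat_lit 152) (nat_lit 0) (XT.nd (nat_lit 78) (nat_lit 0) (nat_lit 0) (XT.lf (nat_lit 0) (nat_lit 4580477028) (nat_lit 152) (nat_lit 22856312182) (nat_lit 228) (nat_lit 146897650886) (nat_lit 15) (nat_lit 5) (nat_lit 17) (nat_lit 5) (nat_lit 18) (nat_lit 5) (nat_lit 298) (nat_lit 272) (nat_lit 150)) (XT.lf (nat_lit 0) (nat_lit 60424169755) (nat_lit 228) (nat_lit 88042501549) (nat_lit 76) (nat_lit 36600753686) (nat_lit 15) (nat_lit 5) (nat_lit 18) (nat_lit 5) (nat_lit 16) (nat_lit 5) (nat_lit 299) (nat_lit 272) (nat_lit 149))) (XT.nd (nat_lit 78) (nat_lit 152) (nat_lit 0) (XT.lf (nat_lit 0) (nat_lit 96435201793) (nat_lit 228) (nat_lit 180642340) (nat_lit 76) (nat_lit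 100023973741) (nat_lit 15) (nat_lit 5) (nat_lit 18) (nat_lit 5) (nat_lit 16) (nat_lit 5) (nat_lit 300) (nat_lit 272) (nat_lit 148)) (XT.lf (nat_lit 0) (nat_lit 97840640023) (nat_lit 152) (nat_lit 39013359510) (nat_lit 228) (nat_lit 72207660581) (nat_lit 13) (nat_lit 5) (nat_lit 15) (nat_lit 5) (nat_lit 16) (nat_lit 5) (nat_lit 301) (nat_lit 272) (nat_lit 147)))) (XT.nd (nat_lit 156) (nat_lit 228) (nat_lit 0) (XT.nd (nat_lit 78) (nat_lit 76) (nat_lit 0) (XT.lf (nat_lit 0) (nat_lit 180871020911) (nat_lit 228) (nat_lit 19130264565) (nat_lit 76) (nat_lit 22457730198) (nat_lit 13) (nat_lit 5) (nat_lit 16) (nat_lit 5) (nat_lit 14) (nat_lit 4) (nat_lit 302) (nat_lit 272) (nat_lit 146)) (XT.lf (nat_lit 0) (nat_lit 82303185457) (nat_lit 76) (nat_lit 148048433170) (nat_lit 152) (nat_lit 6479432105) (nat_lit 12) (nat_lit 5) (nat_lit 13) (nat_lit 5) (nat_lit 14) (nat_lit 4) (nat_lit 303) (nat_lit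 272) (nat_lit 145))) (XT.nd (nat_lit 78) (nat_lit 152) (nat_lit 0) (XT.lf (nat_lit 0) (nat_lit 30769723338) (nat_lit 152) (nat_lit 60298960219) (nat_lit 76) (nat_lit 161242719283) (nat_lit 11) (nat_lit 5) (nat_lit 13) (nat_lit 5) (nat_lit 12) (nat_lit 5) (nat_lit 304) (nat_lit 272) (nat_lit 144)) (XT.lf (nat_lit 0) (nat_lit 42725632564) (nat_lit 152) (nat_lit 28715730454) (nat_lit 228) (nat_lit 197550032570) (nat_lit 9) (nat_lit 5) (nat_lit 11) (nat_lit 5) (nat_lit 12) (nat_lit 5) (nat_lit 305) (nat_lit 272) (nat_lit 143))))) (XT.nd (nat_lit 312) (nat_lit 228) (nat_lit 0) (XT.nd (nat_lit 156) (nat_lit 76) (nat_lit 0) (XT.nd (nat_lit 78) (nat_lit 0) (nat_lit 0) (XT.lf (nat_lit 0) (nat_lit 117036854107) (nat_lit 228) (nat_lit 131428932733) (nat_lit 76) (nat_lit 38456496253) (nat_lit 9) (nat_lit 5) (nat_lit 12) (nat_lit 5) (nat_lit 10) (nat_lit 4) (nat_lit 306) (nat_lit 272) (nat_lit 142))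 (XT.lf (nat_lit 0) (nat_lit 166763703066) (nat_lit 228) (nat_lit 29490135124) (nat_lit 76) (nat_lit 110009618731) (nat_lit 9) (nat_lit 5) (nat_lit 12) (nat_lit 5) (nat_lit 10) (nat_lit 4) (nat_lit 307) (nat_lit 272) (nat_lit 141))) (XT.nd (nat_lit 78) (nat_lit 0) (nat_lit 0) (XT.lf (nat_lit 0) (nat_lit 83268145262) (nat_lit 76) (nat_lit 138500158335) (nat_lit 152) (nat_lit 105318642035) (nat_lit 8) (nat_lit 5) (nat_lit 9) (nat_lit 5) (nat_lit 10) (nat_lit 4) (nat_lit 308) (nat_lit 272) (nat_lit 140)) (XT.lf (nat_lit 0) (nat_lit 206099480957) (nat_lit 76) (nat_lit 75587067108) (nat_lit 152) (nat_lit 67864102651) (nat_lit 8) (nat_lit 5) (nat_lit 9) (nat_lit 5) (nat_lit 10) (nat_lit 4) (nat_lit 309) (nat_lit 272) (nat_lit 139)))) (XT.nd (nat_lit 156) (nat_lit 76) (nat_lit 0) (XT.nd (nat_lit 78) (nat_lit 152) (nat_lit 0) (XT.lf (nat_lit 0) (nat_lit 338756684308) (nat_lit 76) (nat_lit 7641175899)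 (nat_lit 152) (nat_lit 27413612585) (nat_lit 8) (nat_lit 5) (nat_lit 9) (nat_lit 5) (nat_lit 10) (nat_lit 4) (nat_lit 310) (nat_lit 272) (nat_lit 138)) (XT.lf (nat_lit 0) (nat_lit 18122570495) (nat_lit 152) (nat_lit 316524771037) (nat_lit 76) (nat_lit 65234592249) (nat_lit 6) (nat_lit 5) (nat_lit 8) (nat_lit 5) (nat_lit 7) (nat_lit 4) (nat_lit 311) (nat_lit 272) (nat_lit 137))) (XT.nd (nat_lit 78) (nat_lit 76) (nat_lit 0) (XT.lf (nat_lit 0) (nat_lit 67103180324) (nat_lit 152) (nat_lit 216115326411) (nat_lit 76) (nat_lit 144758956972) (nat_lit 6) (nat_lit 5) (nat_lit 8) (nat_lit 5) (nat_lit 7) (nat_lit 4) (nat_lit 312) (nat_lit 272) (nat_lit 136)) (XT.nd (nat_lit 78) (nat_lit 76) (nat_lit 0) (XT.lf (nat_lit 0) (nat_lit 120001910336) (nat_lit 152) (nat_lit 107673675742) (nat_lit 76) (nat_lit 230645067131) (nat_lit 6) (nat_lit 5) (nat_lit 8) (nat_lit 5) (nat_lit 7) (nat_lit 4) (nat_lit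 313) (nat_lit 272) (nat_lit 135)) (XT.lf (nat_lit 0) (nat_lit 9755019712) (nat_lit 76) (nat_lit 167529517970) (nat_lit 152) (nat_lit 313799160935) (nat_lit 5) (nat_lit 5) (nat_lit 6) (nat_lit 5) (nat_lit 7) (nat_lit 4) (nat_lit 314) (nat_lit 272) (nat_lit 134))))))) (XT.nd (nat_lit 34788) (nat_lit 0) (nat_lit 2204) (XT.nd (nat_lit 34398) (nat_lit 0) (nat_lit 3876) (XT.nd (nat_lit 34242) (nat_lit 0) (nat_lit 3800) (XT.nd (nat_lit 78) (nat_lit 0) (nat_lit 0) (XT.lf (nat_lit 0) (nat_lit 140422516323) (nat_lit 76) (nat_lit 100602575536) (nat_lit 152) (nat_lit 285348930612) (nat_lit 5) (nat_lit 5) (nat_lit 6) (nat_lit 5) (nat_lit 7) (nat_lit 4) (nat_lit 315) (nat_lit 272) (nat_lit 133)) (XT.lf (nat_lit 0) (nat_lit 281542962008) (nat_lit 76) (nat_lit 28321660470) (nat_lit 152) (nat_lit 254622963746) (nat_lit 5) (nat_lit 5) (nat_lit 6) (nat_lit 5) (nat_lit 7) (nat_lit 4) (nat_lit 316) (nat_lit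 272) (nat_lit 132))) (XT.nd (nat_lit 78) (nat_lit 0) (nat_lit 0) (XT.lf (nat_lit 0) (nat_lit 85717759) (nat_lit 0) (nat_lit 85717759) (nat_lit 684) (nat_lit 25983728855) (nat_lit 55) (nat_lit 5) (nat_lit 55) (nat_lit 3) (nat_lit 64) (nat_lit 3) (nat_lit 273) (nat_lit 273) (nat_lit 174)) (XT.lf (nat_lit 0) (nat_lit 933722589) (nat_lit 684) (nat_lit 19729249785) (nat_lit 760) (nat_lit 33710747586) (nat_lit 55) (nat_lit 5) (nat_lit 64) (nat_lit 3) (nat_lit 65) (nat_lit 5) (nat_lit 274) (nat_lit 273) (nat_lit 173)))) (XT.nd (nat_lit 156) (nat_lit 0) (nat_lit 76) (XT.nd (nat_lit 78) (nat_lit 0) (nat_lit 0) (XT.lf (nat_lit 0) (nat_lit 2035565699) (nat_lit 684) (nat_lit 41034557276) (nat_lit 760) (nat_lit 13508889841) (nat_lit 56) (nat_lit 5) (nat_lit 65) (nat_lit 5) (nat_lit 66) (nat_lit 5) (nat_lit 275) (nat_lit 273) (nat_lit 172)) (XT.lf (nat_lit 0) (nat_lit 3920197361) (nat_lit 684) (nat_lit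 4955002651) (nat_lit 760) (nat_lit 50050812326) (nat_lit 56) (nat_lit 5) (nat_lit 65) (nat_lit 5) (nat_lit 66) (nat_lit 5) (nat_lit 276) (nat_lit 273) (nat_lit 171))) (XT.nd (nat_lit 78) (nat_lit 0) (nat_lit 76) (XT.lf (nat_lit 0) (nat_lit 6948312194) (nat_lit 684) (nat_lit 26746964878) (nat_lit 760) (nat_lit 27715873282) (nat_lit 57) (nat_lit 5) (nat_lit 66) (nat_lit 5) (nat_lit 67) (nat_lit 5) (nat_lit 277) (nat_lit 273) (nat_lit 170)) (XT.nd (nat_lit 78) (nat_lit 0) (nat_lit 0) (XT.lf (nat_lit 0) (nat_lit 10718634101) (nat_lit 684) (nat_lit 50293227337) (nat_lit 760) (nat_lit 3058253189) (nat_lit 58) (nat_lit 5) (nat_lit 67) (nat_lit 5) (nat_lit 68) (nat_lit 5) (nat_lit 278) (nat_lit 273) (nat_lit 169)) (XT.lf (nat_lit 0) (nat_lit 15829823170) (nat_lit 684) (nat_lit 8998515194) (nat_lit 760) (nat_lit 42061507751) (nat_lit 58) (nat_lit 5) (nat_lit 67) (nat_lit 5) (nat_lit 68) (nat_lit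 5) (nat_lit 279) (nat_lit 273) (nat_lit 168)))))) (XT.nd (nat_lit 312) (nat_lit 912) (nat_lit 0) (XT.nd (nat_lit 156) (nat_lit 304) (nat_lit 0) (XT.nd (nat_lit 78) (nat_lit 684) (nat_lit 0) (XT.lf (nat_lit 0) (nat_lit 22153675515) (nat_lit 684) (nat_lit 33363510445) (nat_lit 76) (nat_lit 14377792995) (nat_lit 59) (nat_lit 5) (nat_lit 68) (nat_lit 5) (nat_lit 60) (nat_lit 5) (nat_lit 280) (nat_lit 273) (nat_lit 167)) (XT.lf (nat_lit 0) (nat_lit 12881690654) (nat_lit 684) (nat_lit 16878690231) (nat_lit 760) (nat_lit 43341304706) (nat_lit 50) (nat_lit 5) (nat_lit 59) (nat_lit 5) (nat_lit 60) (nat_lit 5) (nat_lit 281) (nat_lit 273) (nat_lit 166))) (XT.nd (nat_lit 78) (nat_lit 304) (nat_lit 0) (XT.lf (nat_lit 0) (nat_lit 38952303262) (nat_lit 760) (nat_lit 12917396372) (nat_lit 76) (nat_lit 24646404732) (nat_lit 50) (nat_lit 5) (nat_lit 60) (nat_lit 5) (nat_lit 51) (nat_lit 5) (nat_lit 282)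 (nat_lit 273) (nat_lit 165)) (XT.lf (nat_lit 0) (nat_lit 39135615634) (nat_lit 304) (nat_lit 10637725239) (nat_lit 380) (nat_lit 30385656622) (nat_lit 46) (nat_lit 5) (nat_lit 50) (nat_lit 5) (nat_lit 51) (nat_lit 5) (nat_lit 283) (nat_lit 273) (nat_lit 164)))) (XT.nd (nat_lit 156) (nat_lit 608) (nat_lit 0) (XT.nd (nat_lit 78) (nat_lit 0) (nat_lit 0) (XT.lf (nat_lit 0) (nat_lit 11567667880) (nat_lit 304) (nat_lit 50829111920) (nat_lit 380) (nat_lit 21649714623) (nat_lit 42) (nat_lit 5) (nat_lit 46) (nat_lit 5) (nat_lit 47) (nat_lit 5) (nat_lit 284) (nat_lit 273) (nat_lit 163)) (XT.lf (nat_lit 0) (nat_lit 69643916408) (nat_lit 304) (nat_lit 7275610868) (nat_lit 380) (nat_lit 11280999808) (nat_lit 42) (nat_lit 5) (nat_lit 46) (nat_lit 5) (nat_lit 47) (nat_lit 5) (nat_lit 285) (nat_lit 273) (nat_lit 162))) (XT.nd (nat_lit 78) (nat_lit 304) (nat_lit 0) (XT.lf (nat_lit 0) (nat_lit 1189558392)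 (nat_lit 304) (nat_lit 52295303047) (nat_lit 76) (nat_lit 39138607469) (nat_lit 38) (nat_lit 5) (nat_lit 42) (nat_lit 5) (nat_lit 39) (nat_lit 5) (nat_lit 286) (nat_lit 273) (nat_lit 161)) (XT.nd (nat_lit 78) (nat_lit 0) (nat_lit 0) (XT.lf (nat_lit 0) (nat_lit 7110006336) (nat_lit 304) (nat_lit 7718571184) (nat_lit 380) (nat_lit 82534125708) (nat_lit 34) (nat_lit 5) (nat_lit 38) (nat_lit 5) (nat_lit 39) (nat_lit 5) (nat_lit 287) (nat_lit 273) (nat_lit 160)) (XT.lf (nat_lit 0) (nat_lit 31134411079) (nat_lit 380) (nat_lit 29968120349) (nat_lit 76) (nat_lit 41299766004) (nat_lit 34) (nat_lit 5) (nat_lit 39) (nat_lit 5) (nat_lit 35) (nat_lit 5) (nat_lit 288) (nat_lit 273) (nat_lit 159))))))))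
noncomputable def xc109 : XT := (XT.nd (nat_lit 1326) (nat_lit 456) (nat_lit 0) (XT.nd (nat_lit 624) (nat_lit 684) (nat_lit 0) (XT.nd (nat_lit 312) (nat_lit 456) (nat_lit 0) (XT.nd (nat_lit 156) (nat_lit 380) (nat_lit 0) (XT.nd (nat_lit 78) (nat_lit 0) (nat_lit 0) (XT.lf (nat_lit 0) (nat_lit 36165050859) (nat_lit 228) (nat_lit 13273164248) (nat_lit 304) (nat_lit 58372174233) (nat_lit 31) (nat_lit 5) (nat_lit 34) (nat_lit 5) (nat_lit 35) (nat_lit 5) (nat_lit 289) (nat_lit 273) (nat_lit 158)) (XT.lf (nat_lit 0) (nat_lit 70334950828) (nat_lit 304) (nat_lit 5575341483) (nat_lit 76) (nat_lit 37684409880) (nat_lit 31) (nat_lit 5) (nat_lit 35) (nat_lit 5) (nat_lit 32) (nat_lit 5) (nat_lit 290) (nat_lit 273) (nat_lit 157))) (XT.nd (nat_lit 78) (nat_lit 152) (nat_lit 0) (XT.lf (nat_lit 0) (nat_lit 67722579074) (nat_lit 228) (nat_lit 26460870424) (nat_lit 304) (nat_lit 25594313960) (nat_lit 28)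 (nat_lit 5) (nat_lit 31) (nat_lit 5) (nat_lit 32) (nat_lit 5) (nat_lit 291) (nat_lit 273) (nat_lit 156)) (XT.lf (nat_lit 0) (nat_lit 20877343863) (nat_lit 152) (nat_lit 99906761042) (nat_lit 228) (nat_lit 5629155129) (nat_lit 26) (nat_lit 5) (nat_lit 28) (nat_lit 5) (nat_lit 29) (nat_lit 5) (nat_lit 292) (nat_lit 273) (nat_lit 155)))) (XT.nd (nat_lit 156) (nat_lit 152) (nat_lit 0) (XT.nd (nat_lit 78) (nat_lit 228) (nat_lit 0) (XT.lf (nat_lit 0) (nat_lit 16790035896) (nat_lit 228) (nat_lit 32742095761) (nat_lit 76) (nat_lit 83966691226) (nat_lit 25) (nat_lit 5) (nat_lit 28) (nat_lit 5) (nat_lit 26) (nat_lit 5) (nat_lit 293) (nat_lit 273) (nat_lit 154)) (XT.lf (nat_lit 0) (nat_lit 41635327245) (nat_lit 304) (nat_lit 93906649618) (nat_lit 76) (nat_lit 5563154146) (nat_lit 22) (nat_lit 5) (nat_lit 26) (nat_lit 5) (nat_lit 23) (nat_lit 5) (nat_lit 294) (nat_lit 273) (nat_lit 153))) (XT.nd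 (nat_lit 78) (nat_lit 152) (nat_lit 0) (XT.lf (nat_lit 0) (nat_lit 69882233549) (nat_lit 304) (nat_lit 15433729960) (nat_lit 76) (nat_lit 63933283908) (nat_lit 22) (nat_lit 5) (nat_lit 26) (nat_lit 5) (nat_lit 23) (nat_lit 5) (nat_lit 295) (nat_lit 273) (nat_lit 152)) (XT.lf (nat_lit 0) (nat_lit 71607746390) (nat_lit 152) (nat_lit 29898304039) (nat_lit 228) (nat_lit 56482987783) (nat_lit 20) (nat_lit 5) (nat_lit 22) (nat_lit 5) (nat_lit 23) (nat_lit 5) (nat_lit 296) (nat_lit 273) (nat_lit 151))))) (XT.nd (nat_lit 312) (nat_lit 304) (nat_lit 0) (XT.nd (nat_lit 156) (nat_lit 228) (nat_lit 0) (XT.nd (nat_lit 78) (nat_lit 152) (nat_lit 0) (XT.lf (nat_lit 0) (nat_lit 136399872298) (nat_lit 228) (nat_lit 1724108017) (nat_lit 76) (nat_lit 29267029727) (nat_lit 20) (nat_lit 5) (nat_lit 23) (nat_lit 5) (nat_lit 21) (nat_lit 5) (nat_lit 297) (nat_lit 273) (nat_lit 150)) (XT.lf (nat_lit 0) (nat_lit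 92149807159) (nat_lit 152) (nat_lit 83877508834) (nat_lit 228) (nat_lit 1420720374) (nat_lit 18) (nat_lit 5) (nat_lit 20) (nat_lit 5) (nat_lit 21) (nat_lit 5) (nat_lit 298) (nat_lit 273) (nat_lit 149))) (XT.nd (nat_lit 78) (nat_lit 0) (nat_lit 0) (XT.lf (nat_lit 0) (nat_lit 4968116393) (nat_lit 152) (nat_lit 24677908629) (nat_lit 228) (nat_lit 158634411747) (nat_lit 15) (nat_lit 5) (nat_lit 17) (nat_lit 5) (nat_lit 18) (nat_lit 5) (nat_lit 299) (nat_lit 273) (nat_lit 148)) (XT.lf (nat_lit 0) (nat_lit 65271437166) (nat_lit 228) (nat_lit 95065668454) (nat_lit 76) (nat_lit 39535006029) (nat_lit 15) (nat_lit 5) (nat_lit 18) (nat_lit 5) (nat_lit 16) (nat_lit 5) (nat_lit 300) (nat_lit 273) (nat_lit 147)))) (XT.nd (nat_lit 156) (nat_lit 152) (nat_lit 0) (XT.nd (nat_lit 78) (nat_lit 152) (nat_lit 0) (XT.lf (nat_lit 0) (nat_lit 104162364076) (nat_lit 228) (nat_lit 176359265) (nat_lit 76) (nat_lit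 108031625018) (nat_lit 15) (nat_lit 5) (nat_lit 18) (nat_lit 5) (nat_lit 16) (nat_lit 5) (nat_lit 301) (nat_lit 273) (nat_lit 146)) (XT.lf (nat_lit 0) (nat_lit 105685811510) (nat_lit 152) (nat_lit 42128219383) (nat_lit 228) (nat_lit 77971941612) (nat_lit 13) (nat_lit 5) (nat_lit 15) (nat_lit 5) (nat_lit 16) (nat_lit 5) (nat_lit 302) (nat_lit 273) (nat_lit 145))) (XT.nd (nat_lit 78) (nat_lit 152) (nat_lit 0) (XT.lf (nat_lit 0) (nat_lit 195351636226) (nat_lit 228) (nat_lit 20643608169) (nat_lit 76) (nat_lit 24259913582) (nat_lit 13) (nat_lit 5) (nat_lit 16) (nat_lit 5) (nat_lit 14) (nat_lit 4) (nat_lit 303) (nat_lit 273) (nat_lit 144)) (XT.nd (nat_lit 78) (nat_lit 76) (nat_lit 0) (XT.lf (nat_lit 0) (nat_lit 88903775685) (nat_lit 76) (nat_lit 159886351216) (nat_lit 152) (nat_lit 6986859072) (nat_lit 12) (nat_lit 5) (nat_lit 13) (nat_lit 5) (nat_lit 14) (nat_lit 4) (nat_lit 304) (nat_lit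 273) (nat_lit 143)) (XT.lf (nat_lit 0) (nat_lit 33241095511) (nat_lit 152) (nat_lit 65107401482) (nat_lit 76) (nat_lit 174147302010) (nat_lit 11) (nat_lit 5) (nat_lit 13) (nat_lit 5) (nat_lit 12) (nat_lit 5) (nat_lit 305) (nat_lit 273) (nat_lit 142))))))) (XT.nd (nat_lit 702) (nat_lit 76) (nat_lit 0) (XT.nd (nat_lit 312) (nat_lit 152) (nat_lit 0) (XT.nd (nat_lit 156) (nat_lit 76) (nat_lit 0) (XT.nd (nat_lit 78) (nat_lit 0) (nat_lit 0) (XT.lf (nat_lit 0) (nat_lit 46158486174) (nat_lit 152) (nat_lit 31007485803) (nat_lit 228) (nat_lit 213344245865) (nat_lit 9) (nat_lit 5) (nat_lit 11) (nat_lit 5) (nat_lit 12) (nat_lit 5) (nat_lit 306) (nat_lit 273) (nat_lit 141)) (XT.lf (nat_lit 0) (nat_lit 126408493026) (nat_lit 228) (nat_lit 141929167279) (nat_lit 76) (nat_lit 41537948318) (nat_lit 9) (nat_lit 5) (nat_lit 12) (nat_lit 5) (nat_lit 10) (nat_lit 4) (nat_lit 307) (nat_lit 273) (nat_lit 140)))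 (XT.nd (nat_lit 78) (nat_lit 76) (nat_lit 0) (XT.lf (nat_lit 0) (nat_lit 180112846154) (nat_lit 228) (nat_lit 31836308829) (nat_lit 76) (nat_lit 118814955234) (nat_lit 9) (nat_lit 5) (nat_lit 12) (nat_lit 5) (nat_lit 10) (nat_lit 4) (nat_lit 308) (nat_lit 273) (nat_lit 139)) (XT.lf (nat_lit 0) (nat_lit 89942067410) (nat_lit 76) (nat_lit 149575345954) (nat_lit 152) (nat_lit 113736086277) (nat_lit 8) (nat_lit 5) (nat_lit 9) (nat_lit 5) (nat_lit 10) (nat_lit 4) (nat_lit 309) (nat_lit 273) (nat_lit 138)))) (XT.nd (nat_lit 156) (nat_lit 152) (nat_lit 0) (XT.nd (nat_lit 78) (nat_lit 0) (nat_lit 0) (XT.lf (nat_lit 0) (nat_lit 222598986218) (nat_lit 76) (nat_lit 81629564840) (nat_lit 152) (nat_lit 73285779826) (nat_lit 8) (nat_lit 5) (nat_lit 9) (nat_lit 5) (nat_lit 10) (nat_lit 4) (nat_lit 310) (nat_lit 273) (nat_lit 137)) (XT.lf (nat_lit 0) (nat_lit 365867910520) (nat_lit 76) (nat_lit 8248333270)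 (nat_lit 152) (nat_lit 29599802484) (nat_lit 8) (nat_lit 5) (nat_lit 9) (nat_lit 5) (nat_lit 10) (nat_lit 4) (nat_lit 311) (nat_lit 273) (nat_lit 136))) (XT.nd (nat_lit 78) (nat_lit 0) (nat_lit 0) (XT.lf (nat_lit 0) (nat_lit 19578787055) (nat_lit 152) (nat_lit 341836031677) (nat_lit 76) (nat_lit 70457334564) (nat_lit 6) (nat_lit 5) (nat_lit 8) (nat_lit 5) (nat_lit 7) (nat_lit 4) (nat_lit 312) (nat_lit 273) (nat_lit 135)) (XT.nd (nat_lit 78) (nat_lit 0) (nat_lit 0) (XT.lf (nat_lit 0) (nat_lit 72477370788) (nat_lit 152) (nat_lit 233394625632) (nat_lit 76) (nat_lit 156343354025) (nat_lit 6) (nat_lit 5) (nat_lit 8) (nat_lit 5) (nat_lit 7) (nat_lit 4) (nat_lit 313) (nat_lit 273) (nat_lit 134)) (XT.lf (nat_lit 0) (nat_lit 129607559494) (nat_lit 152) (nat_lit 116278378234) (nat_lit 76) (nat_lit 249100080367) (nat_lit 6) (nat_lit 5) (nat_lit 8) (nat_lit 5) (nat_lit 7) (nat_lit 4) (nat_lit 314)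 (nat_lit 273) (nat_lit 133)))))) (XT.nd (nat_lit 34476) (nat_lit 0) (nat_lit 3876) (XT.nd (nat_lit 34320) (nat_lit 0) (nat_lit 3800) (XT.nd (nat_lit 78) (nat_lit 0) (nat_lit 0) (XT.lf (nat_lit 0) (nat_lit 10544213402) (nat_lit 76) (nat_lit 180928313761) (nat_lit 152) (nat_lit 338897594399) (nat_lit 5) (nat_lit 5) (nat_lit 6) (nat_lit 5) (nat_lit 7) (nat_lit 4) (nat_lit 315) (nat_lit 273) (nat_lit 132)) (XT.lf (nat_lit 0) (nat_lit 151664458474) (nat_lit 76) (nat_lit 108647480053) (nat_lit 152) (nat_lit 308171753014) (nat_lit 5) (nat_lit 5) (nat_lit 6) (nat_lit 5) (nat_lit 7) (nat_lit 4) (nat_lit 316) (nat_lit 273) (nat_lit 131))) (XT.nd (nat_lit 78) (nat_lit 0) (nat_lit 0) (XT.lf (nat_lit 0) (nat_lit 108880852) (nat_lit 0) (nat_lit 108880852) (nat_lit 684) (nat_lit 28028024121) (nat_lit 55) (nat_lit 5) (nat_lit 55) (nat_lit 3) (nat_lit 64) (nat_lit 3) (nat_lit 274) (nat_lit 274) (nat_lit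 172)) (XT.lf (nat_lit 0) (nat_lit 1068340334) (nat_lit 684) (nat_lit 21273604678) (nat_lit 760) (nat_lit 36378378155) (nat_lit 55) (nat_lit 5) (nat_lit 64) (nat_lit 3) (nat_lit 65) (nat_lit 5) (nat_lit 275) (nat_lit 274) (nat_lit 171)))) (XT.nd (nat_lit 156) (nat_lit 0) (nat_lit 76) (XT.nd (nat_lit 78) (nat_lit 0) (nat_lit 0) (XT.lf (nat_lit 0) (nat_lit 2254033320) (nat_lit 684) (nat_lit 44281371380) (nat_lit 760) (nat_lit 14566871733) (nat_lit 56) (nat_lit 5) (nat_lit 65) (nat_lit 5) (nat_lit 66) (nat_lit 5) (nat_lit 276) (nat_lit 274) (nat_lit 170)) (XT.lf (nat_lit 0) (nat_lit 4285315340) (nat_lit 684) (nat_lit 5318115383) (nat_lit 760) (nat_lit 54033831669) (nat_lit 56) (nat_lit 5) (nat_lit 65) (nat_lit 5) (nat_lit 66) (nat_lit 5) (nat_lit 277) (nat_lit 274) (nat_lit 169))) (XT.nd (nat_lit 78) (nat_lit 0) (nat_lit 76) (XT.lf (nat_lit 0) (nat_lit 7552106340) (nat_lit 684) (nat_lit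 28851979963) (nat_lit 760) (nat_lit 29917322747) (nat_lit 57) (nat_lit 5) (nat_lit 66) (nat_lit 5) (nat_lit 67) (nat_lit 5) (nat_lit 278) (nat_lit 274) (nat_lit 168)) (XT.nd (nat_lit 78) (nat_lit 0) (nat_lit 0) (XT.lf (nat_lit 0) (nat_lit 11620840409) (nat_lit 684) (nat_lit 54280806925) (nat_lit 760) (nat_lit 3291621357) (nat_lit 58) (nat_lit 5) (nat_lit 67) (nat_lit 5) (nat_lit 68) (nat_lit 5) (nat_lit 279) (nat_lit 274) (nat_lit 167)) (XT.lf (nat_lit 0) (nat_lit 17137612338) (nat_lit 684) (nat_lit 9685175484) (nat_lit 760) (nat_lit 45415972735) (nat_lit 58) (nat_lit 5) (nat_lit 67) (nat_lit 5) (nat_lit 68) (nat_lit 5) (nat_lit 280) (nat_lit 274) (nat_lit 166))))))))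
noncomputable def xc110 : XT := (XT.nd (nat_lit 1326) (nat_lit 1064) (nat_lit 0) (XT.nd (nat_lit 624) (nat_lit 1064) (nat_lit 0) (XT.nd (nat_lit 312) (nat_lit 912) (nat_lit 0) (XT.nd (nat_lit 156) (nat_lit 304) (nat_lit 0) (XT.nd (nat_lit 78) (nat_lit 684) (nat_lit 0) (XT.lf (nat_lit 0) (nat_lit 23964691935) (nat_lit 684) (nat_lit 35998574278) (nat_lit 76) (nat_lit 15521186901) (nat_lit 59) (nat_lit 5) (nat_lit 68) (nat_lit 5) (nat_lit 60) (nat_lit 5) (nat_lit 281) (nat_lit 274) (nat_lit 165)) (XT.lf (nat_lit 0) (nat_lit 13944764571) (nat_lit 684) (nat_lit 18232808859) (nat_lit 760) (nat_lit 46770254794) (nat_lit 50) (nat_lit 5) (nat_lit 59) (nat_lit 5) (nat_lit 60) (nat_lit 5) (nat_lit 282) (nat_lit 274) (nat_lit 164))) (XT.nd (nat_lit 78) (nat_lit 304) (nat_lit 0) (XT.lf (nat_lit 0) (nat_lit 42102100838) (nat_lit 760) (nat_lit 13918759773) (nat_lit 76) (nat_lit 26614690225) (nat_lit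 50) (nat_lit 5) (nat_lit 60) (nat_lit 5) (nat_lit 51) (nat_lit 5) (nat_lit 283) (nat_lit 274) (nat_lit 163)) (XT.lf (nat_lit 0) (nat_lit 42297101281) (nat_lit 304) (nat_lit 11489708621) (nat_lit 380) (nat_lit 32783178033) (nat_lit 46) (nat_lit 5) (nat_lit 50) (nat_lit 5) (nat_lit 51) (nat_lit 5) (nat_lit 284) (nat_lit 274) (nat_lit 162)))) (XT.nd (nat_lit 156) (nat_lit 608) (nat_lit 0) (XT.nd (nat_lit 78) (nat_lit 0) (nat_lit 0) (XT.lf (nat_lit 0) (nat_lit 12524054906) (nat_lit 304) (nat_lit 54894197796) (nat_lit 380) (nat_lit 23350336535) (nat_lit 42) (nat_lit 5) (nat_lit 46) (nat_lit 5) (nat_lit 47) (nat_lit 5) (nat_lit 285) (nat_lit 274) (nat_lit 161)) (XT.lf (nat_lit 0) (nat_lit 75244108976) (nat_lit 304) (nat_lit 7856508739) (nat_lit 380) (nat_lit 12154447147) (nat_lit 42) (nat_lit 5) (nat_lit 46) (nat_lit 5) (nat_lit 47) (nat_lit 5) (nat_lit 286) (nat_lit 274) (nat_lit 160))) (XT.nd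 (nat_lit 78) (nat_lit 304) (nat_lit 0) (XT.lf (nat_lit 0) (nat_lit 1311219549) (nat_lit 304) (nat_lit 56449083634) (nat_lit 76) (nat_lit 42271605561) (nat_lit 38) (nat_lit 5) (nat_lit 42) (nat_lit 5) (nat_lit 39) (nat_lit 5) (nat_lit 287) (nat_lit 274) (nat_lit 159)) (XT.lf (nat_lit 0) (nat_lit 7707353531) (nat_lit 304) (nat_lit 8332489667) (nat_lit 380) (nat_lit 89110522821) (nat_lit 34) (nat_lit 5) (nat_lit 38) (nat_lit 5) (nat_lit 39) (nat_lit 5) (nat_lit 288) (nat_lit 274) (nat_lit 158))))) (XT.nd (nat_lit 312) (nat_lit 608) (nat_lit 0) (XT.nd (nat_lit 156) (nat_lit 228) (nat_lit 0) (XT.nd (nat_lit 78) (nat_lit 228) (nat_lit 0) (XT.lf (nat_lit 0) (nat_lit 33648344679) (nat_lit 380) (nat_lit 32337936217) (nat_lit 76) (nat_lit 44606944542) (nat_lit 34) (nat_lit 5) (nat_lit 39) (nat_lit 5) (nat_lit 35) (nat_lit 5) (nat_lit 289) (nat_lit 274) (nat_lit 157)) (XT.lf (nat_lit 0) (nat_lit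 39084687759) (nat_lit 228) (nat_lit 14330460871) (nat_lit 304) (nat_lit 63018888455) (nat_lit 31) (nat_lit 5) (nat_lit 34) (nat_lit 5) (nat_lit 35) (nat_lit 5) (nat_lit 290) (nat_lit 274) (nat_lit 156))) (XT.nd (nat_lit 78) (nat_lit 228) (nat_lit 0) (XT.lf (nat_lit 0) (nat_lit 75982068612) (nat_lit 304) (nat_lit 5995864085) (nat_lit 76) (nat_lit 40703246633) (nat_lit 31) (nat_lit 5) (nat_lit 35) (nat_lit 5) (nat_lit 32) (nat_lit 5) (nat_lit 291) (nat_lit 274) (nat_lit 155)) (XT.lf (nat_lit 0) (nat_lit 73164781712) (nat_lit 228) (nat_lit 28572541045) (nat_lit 304) (nat_lit 27621625106) (nat_lit 28) (nat_lit 5) (nat_lit 31) (nat_lit 5) (nat_lit 32) (nat_lit 5) (nat_lit 292) (nat_lit 274) (nat_lit 154)))) (XT.nd (nat_lit 156) (nat_lit 380) (nat_lit 0) (XT.nd (nat_lit 78) (nat_lit 76) (nat_lit 0) (XT.lf (nat_lit 0) (nat_lit 22571781426) (nat_lit 152) (nat_lit 107893280920) (nat_lit 228)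 (nat_lit 6060275923) (nat_lit 26) (nat_lit 5) (nat_lit 28) (nat_lit 5) (nat_lit 29) (nat_lit 5) (nat_lit 293) (nat_lit 274) (nat_lit 153)) (XT.lf (nat_lit 0) (nat_lit 18150457957) (nat_lit 228) (nat_lit 35338377612) (nat_lit 76) (nat_lit 90688969473) (nat_lit 25) (nat_lit 5) (nat_lit 28) (nat_lit 5) (nat_lit 26) (nat_lit 5) (nat_lit 294) (nat_lit 274) (nat_lit 152))) (XT.nd (nat_lit 78) (nat_lit 152) (nat_lit 0) (XT.lf (nat_lit 0) (nat_lit 44982532350) (nat_lit 304) (nat_lit 101396317030) (nat_lit 76) (nat_lit 6013815097) (nat_lit 22) (nat_lit 5) (nat_lit 26) (nat_lit 5) (nat_lit 23) (nat_lit 5) (nat_lit 295) (nat_lit 274) (nat_lit 151)) (XT.nd (nat_lit 78) (nat_lit 152) (nat_lit 0) (XT.lf (nat_lit 0) (nat_lit 75487977905) (nat_lit 304) (nat_lit 16647257470) (nat_lit 76) (nat_lit 69053139786) (nat_lit 22) (nat_lit 5) (nat_lit 26) (nat_lit 5) (nat_lit 23) (nat_lit 5) (nat_lit 296) (nat_lit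 274) (nat_lit 150)) (XT.lf (nat_lit 0) (nat_lit 77356616927) (nat_lit 152) (nat_lit 32284275996) (nat_lit 228) (nat_lit 60986500638) (nat_lit 20) (nat_lit 5) (nat_lit 22) (nat_lit 5) (nat_lit 23) (nat_lit 5) (nat_lit 297) (nat_lit 274) (nat_lit 149))))))) (XT.nd (nat_lit 702) (nat_lit 380) (nat_lit 0) (XT.nd (nat_lit 312) (nat_lit 304) (nat_lit 0) (XT.nd (nat_lit 156) (nat_lit 228) (nat_lit 0) (XT.nd (nat_lit 78) (nat_lit 152) (nat_lit 0) (XT.lf (nat_lit 0) (nat_lit 147325242135) (nat_lit 228) (nat_lit 1842660235) (nat_lit 76) (nat_lit 31613673377) (nat_lit 20) (nat_lit 5) (nat_lit 23) (nat_lit 5) (nat_lit 21) (nat_lit 5) (nat_lit 298) (nat_lit 274) (nat_lit 148)) (XT.lf (nat_lit 0) (nat_lit 99540326079) (nat_lit 152) (nat_lit 90581853505) (nat_lit 228) (nat_lit 1521023096) (nat_lit 18) (nat_lit 5) (nat_lit 20) (nat_lit 5) (nat_lit 21) (nat_lit 5) (nat_lit 299) (nat_lit 274) (nat_lit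 147))) (XT.nd (nat_lit 78) (nat_lit 0) (nat_lit 0) (XT.lf (nat_lit 0) (nat_lit 5383742318) (nat_lit 152) (nat_lit 26646218371) (nat_lit 228) (nat_lit 171312260700) (nat_lit 15) (nat_lit 5) (nat_lit 17) (nat_lit 5) (nat_lit 18) (nat_lit 5) (nat_lit 300) (nat_lit 274) (nat_lit 146)) (XT.lf (nat_lit 0) (nat_lit 70504583749) (nat_lit 228) (nat_lit 102653575207) (nat_lit 76) (nat_lit 42703115194) (nat_lit 15) (nat_lit 5) (nat_lit 18) (nat_lit 5) (nat_lit 16) (nat_lit 5) (nat_lit 301) (nat_lit 274) (nat_lit 145)))) (XT.nd (nat_lit 156) (nat_lit 152) (nat_lit 0) (XT.nd (nat_lit 78) (nat_lit 152) (nat_lit 0) (XT.lf (nat_lit 0) (nat_lit 112505938026) (nat_lit 228) (nat_lit 174406226) (nat_lit 76) (nat_lit 116679070466) (nat_lit 15) (nat_lit 5) (nat_lit 18) (nat_lit 5) (nat_lit 16) (nat_lit 5) (nat_lit 302) (nat_lit 274) (nat_lit 144)) (XT.lf (nat_lit 0) (nat_lit 114156040186) (nat_lit 152) (nat_lit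 45493153813) (nat_lit 228) (nat_lit 84199124396) (nat_lit 13) (nat_lit 5) (nat_lit 15) (nat_lit 5) (nat_lit 16) (nat_lit 5) (nat_lit 303) (nat_lit 274) (nat_lit 143))) (XT.nd (nat_lit 78) (nat_lit 152) (nat_lit 0) (XT.lf (nat_lit 0) (nat_lit 210989140961) (nat_lit 228) (nat_lit 22280455566) (nat_lit 76) (nat_lit 26205477731) (nat_lit 13) (nat_lit 5) (nat_lit 16) (nat_lit 5) (nat_lit 14) (nat_lit 4) (nat_lit 304) (nat_lit 274) (nat_lit 142)) (XT.nd (nat_lit 78) (nat_lit 76) (nat_lit 0) (XT.lf (nat_lit 0) (nat_lit 96030082704) (nat_lit 76) (nat_lit 172672152484) (nat_lit 152) (nat_lit 7536439140) (nat_lit 12) (nat_lit 5) (nat_lit 13) (nat_lit 5) (nat_lit 14) (nat_lit 4) (nat_lit 305) (nat_lit 274) (nat_lit 141)) (XT.lf (nat_lit 0) (nat_lit 35908780191) (nat_lit 152) (nat_lit 70302725808) (nat_lit 76) (nat_lit 188083514485) (nat_lit 11) (nat_lit 5) (nat_lit 13) (nat_lit 5) (nat_lit 12)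 (nat_lit 5) (nat_lit 306) (nat_lit 274) (nat_lit 140)))))) (XT.nd (nat_lit 312) (nat_lit 152) (nat_lit 0) (XT.nd (nat_lit 156) (nat_lit 76) (nat_lit 0) (XT.nd (nat_lit 78) (nat_lit 0) (nat_lit 0) (XT.lf (nat_lit 0) (nat_lit 49863856259) (nat_lit 152) (nat_lit 33483366658) (nat_lit 228) (nat_lit 230403392778) (nat_lit 9) (nat_lit 5) (nat_lit 11) (nat_lit 5) (nat_lit 12) (nat_lit 5) (nat_lit 307) (nat_lit 274) (nat_lit 139)) (XT.lf (nat_lit 0) (nat_lit 136528623248) (nat_lit 228) (nat_lit 153271429268) (nat_lit 76) (nat_lit 44865212891) (nat_lit 9) (nat_lit 5) (nat_lit 12) (nat_lit 5) (nat_lit 10) (nat_lit 4) (nat_lit 308) (nat_lit 274) (nat_lit 138))) (XT.nd (nat_lit 78) (nat_lit 76) (nat_lit 0) (XT.lf (nat_lit 0) (nat_lit 194528772717) (nat_lit 228) (nat_lit 34372036320) (nat_lit 76) (nat_lit 128324067123) (nat_lit 9) (nat_lit 5) (nat_lit 12) (nat_lit 5) (nat_lit 10) (nat_lit 4) (nat_lit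 309) (nat_lit 274) (nat_lit 137)) (XT.lf (nat_lit 0) (nat_lit 97148124271) (nat_lit 76) (nat_lit 161537236929) (nat_lit 152) (nat_lit 122828074071) (nat_lit 8) (nat_lit 5) (nat_lit 9) (nat_lit 5) (nat_lit 10) (nat_lit 4) (nat_lit 310) (nat_lit 274) (nat_lit 136)))) (XT.nd (nat_lit 156) (nat_lit 152) (nat_lit 0) (XT.nd (nat_lit 78) (nat_lit 0) (nat_lit 0) (XT.lf (nat_lit 0) (nat_lit 240416804622) (nat_lit 76) (nat_lit 88156099748) (nat_lit 152) (nat_lit 79142254148) (nat_lit 8) (nat_lit 5) (nat_lit 9) (nat_lit 5) (nat_lit 10) (nat_lit 4) (nat_lit 311) (nat_lit 274) (nat_lit 135)) (XT.lf (nat_lit 0) (nat_lit 395146509572) (nat_lit 76) (nat_lit 8904653377) (nat_lit 152) (nat_lit 31961871809) (nat_lit 8) (nat_lit 5) (nat_lit 9) (nat_lit 5) (nat_lit 10) (nat_lit 4) (nat_lit 312) (nat_lit 274) (nat_lit 134))) (XT.nd (nat_lit 78) (nat_lit 0) (nat_lit 0) (XT.lf (nat_lit 0) (nat_lit 21150586351)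 (nat_lit 152) (nat_lit 369173722644) (nat_lit 76) (nat_lit 76097329195) (nat_lit 6) (nat_lit 5) (nat_lit 8) (nat_lit 5) (nat_lit 7) (nat_lit 4) (nat_lit 313) (nat_lit 274) (nat_lit 133)) (XT.nd (nat_lit 78) (nat_lit 0) (nat_lit 0) (XT.lf (nat_lit 0) (nat_lit 78280649646) (nat_lit 152) (nat_lit 252057684973) (nat_lit 76) (nat_lit 168853977779) (nat_lit 6) (nat_lit 5) (nat_lit 8) (nat_lit 5) (nat_lit 7) (nat_lit 4) (nat_lit 314) (nat_lit 274) (nat_lit 132)) (XT.lf (nat_lit 0) (nat_lit 139980876472) (nat_lit 152) (nat_lit 125572768206) (nat_lit 76) (nat_lit 269031008493) (nat_lit 6) (nat_lit 5) (nat_lit 8) (nat_lit 5) (nat_lit 7) (nat_lit 4) (nat_lit 315) (nat_lit 274) (nat_lit 131))))))))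
noncomputable def xc111 : XT := (XT.nd (nat_lit 35646) (nat_lit 0) (nat_lit 304) (XT.nd (nat_lit 34944) (nat_lit 0) (nat_lit 1976) (XT.nd (nat_lit 34554) (nat_lit 0) (nat_lit 3876) (XT.nd (nat_lit 34398) (nat_lit 0) (nat_lit 3800) (XT.nd (nat_lit 34320) (nat_lit 0) (nat_lit 3800) (XT.lf (nat_lit 0) (nat_lit 11395288293) (nat_lit 76) (nat_lit 195399521894) (nat_lit 152) (nat_lit 366004687092) (nat_lit 5) (nat_lit 5) (nat_lit 6) (nat_lit 5) (nat_lit 7) (nat_lit 4) (nat_lit 316) (nat_lit 274) (nat_lit 130)) (XT.lf (nat_lit 0) (nat_lit 131570805) (nat_lit 0) (nat_lit 131570805) (nat_lit 684) (nat_lit 30240770986) (nat_lit 55) (nat_lit 5) (nat_lit 55) (nat_lit 3) (nat_lit 64) (nat_lit 3) (nat_lit 275) (nat_lit 275) (nat_lit 170))) (XT.nd (nat_lit 78) (nat_lit 0) (nat_lit 76) (XT.lf (nat_lit 0) (nat_lit 1205179250) (nat_lit 684) (nat_lit 22946356316) (nat_lit 760) (nat_lit 39263589047) (nat_lit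 55) (nat_lit 5) (nat_lit 64) (nat_lit 3) (nat_lit 65) (nat_lit 5) (nat_lit 276) (nat_lit 275) (nat_lit 169)) (XT.lf (nat_lit 0) (nat_lit 2482043199) (nat_lit 684) (nat_lit 47793059349) (nat_lit 760) (nat_lit 15712734765) (nat_lit 56) (nat_lit 5) (nat_lit 65) (nat_lit 5) (nat_lit 66) (nat_lit 5) (nat_lit 277) (nat_lit 275) (nat_lit 168)))) (XT.nd (nat_lit 156) (nat_lit 0) (nat_lit 152) (XT.nd (nat_lit 78) (nat_lit 0) (nat_lit 76) (XT.lf (nat_lit 0) (nat_lit 4672295395) (nat_lit 684) (nat_lit 5715025965) (nat_lit 760) (nat_lit 58338494955) (nat_lit 56) (nat_lit 5) (nat_lit 65) (nat_lit 5) (nat_lit 66) (nat_lit 5) (nat_lit 278) (nat_lit 275) (nat_lit 167)) (XT.lf (nat_lit 0) (nat_lit 8197366385) (nat_lit 684) (nat_lit 31130352604) (nat_lit 760) (nat_lit 32297145126) (nat_lit 57) (nat_lit 5) (nat_lit 66) (nat_lit 5) (nat_lit 67) (nat_lit 5) (nat_lit 279) (nat_lit 275) (nat_lit 166))) (XT.nd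 (nat_lit 78) (nat_lit 0) (nat_lit 0) (XT.lf (nat_lit 0) (nat_lit 12588844044) (nat_lit 684) (nat_lit 58592511363) (nat_lit 760) (nat_lit 3545269921) (nat_lit 58) (nat_lit 5) (nat_lit 67) (nat_lit 5) (nat_lit 68) (nat_lit 5) (nat_lit 280) (nat_lit 275) (nat_lit 165)) (XT.nd (nat_lit 78) (nat_lit 0) (nat_lit 76) (XT.lf (nat_lit 0) (nat_lit 18544117994) (nat_lit 684) (nat_lit 10431507934) (nat_lit 760) (nat_lit 49040286531) (nat_lit 58) (nat_lit 5) (nat_lit 67) (nat_lit 5) (nat_lit 68) (nat_lit 5) (nat_lit 281) (nat_lit 275) (nat_lit 164)) (XT.lf (nat_lit 0) (nat_lit 25915065489) (nat_lit 684) (nat_lit 38849296123) (nat_lit 76) (nat_lit 16757026628) (nat_lit 59) (nat_lit 5) (nat_lit 68) (nat_lit 5) (nat_lit 60) (nat_lit 5) (nat_lit 282) (nat_lit 275) (nat_lit 163)))))) (XT.nd (nat_lit 312) (nat_lit 836) (nat_lit 0) (XT.nd (nat_lit 156) (nat_lit 608) (nat_lit 0) (XT.nd (nat_lit 78) (nat_lit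 0) (nat_lit 0) (XT.lf (nat_lit 0) (nat_lit 15088242398) (nat_lit 684) (nat_lit 19694711525) (nat_lit 760) (nat_lit 50478992558) (nat_lit 50) (nat_lit 5) (nat_lit 59) (nat_lit 5) (nat_lit 60) (nat_lit 5) (nat_lit 283) (nat_lit 275) (nat_lit 162)) (XT.lf (nat_lit 0) (nat_lit 45499086906) (nat_lit 760) (nat_lit 15004801444) (nat_lit 76) (nat_lit 28740927441) (nat_lit 50) (nat_lit 5) (nat_lit 60) (nat_lit 5) (nat_lit 51) (nat_lit 5) (nat_lit 284) (nat_lit 275) (nat_lit 161))) (XT.nd (nat_lit 78) (nat_lit 304) (nat_lit 0) (XT.lf (nat_lit 0) (nat_lit 45707135156) (nat_lit 304) (nat_lit 12409712955) (nat_lit 380) (nat_lit 35377256213) (nat_lit 46) (nat_lit 5) (nat_lit 50) (nat_lit 5) (nat_lit 51) (nat_lit 5) (nat_lit 285) (nat_lit 275) (nat_lit 160)) (XT.lf (nat_lit 0) (nat_lit 13552534165) (nat_lit 304) (nat_lit 59284667881) (nat_lit 380) (nat_lit 25191481378) (nat_lit 42) (nat_lit 5) (nat_lit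 46) (nat_lit 5) (nat_lit 47) (nat_lit 5) (nat_lit 286) (nat_lit 275) (nat_lit 159)))) (XT.nd (nat_lit 156) (nat_lit 532) (nat_lit 0) (XT.nd (nat_lit 78) (nat_lit 304) (nat_lit 0) (XT.lf (nat_lit 0) (nat_lit 81288225534) (nat_lit 304) (nat_lit 8484042643) (nat_lit 380) (nat_lit 13101912104) (nat_lit 42) (nat_lit 5) (nat_lit 46) (nat_lit 5) (nat_lit 47) (nat_lit 5) (nat_lit 287) (nat_lit 275) (nat_lit 158)) (XT.lf (nat_lit 0) (nat_lit 1438833579) (nat_lit 304) (nat_lit 60939424199) (nat_lit 76) (nat_lit 45654971089) (nat_lit 38) (nat_lit 5) (nat_lit 42) (nat_lit 5) (nat_lit 39) (nat_lit 5) (nat_lit 288) (nat_lit 275) (nat_lit 157))) (XT.nd (nat_lit 78) (nat_lit 228) (nat_lit 0) (XT.lf (nat_lit 0) (nat_lit 8348415997) (nat_lit 304) (nat_lit 8996030532) (nat_lit 380) (nat_lit 96216788391) (nat_lit 34) (nat_lit 5) (nat_lit 38) (nat_lit 5) (nat_lit 39) (nat_lit 5) (nat_lit 289) (nat_lit 275)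 (nat_lit 156)) (XT.nd (nat_lit 78) (nat_lit 228) (nat_lit 0) (XT.lf (nat_lit 0) (nat_lit 36360085980) (nat_lit 380) (nat_lit 34901279618) (nat_lit 76) (nat_lit 48178241239) (nat_lit 34) (nat_lit 5) (nat_lit 39) (nat_lit 5) (nat_lit 35) (nat_lit 5) (nat_lit 290) (nat_lit 275) (nat_lit 155)) (XT.lf (nat_lit 0) (nat_lit 42234124672) (nat_lit 228) (nat_lit 15472991262) (nat_lit 304) (nat_lit 68040629541) (nat_lit 31) (nat_lit 5) (nat_lit 34) (nat_lit 5) (nat_lit 35) (nat_lit 5) (nat_lit 291) (nat_lit 275) (nat_lit 154))))))) (XT.nd (nat_lit 702) (nat_lit 684) (nat_lit 0) (XT.nd (nat_lit 312) (nat_lit 532) (nat_lit 0) (XT.nd (nat_lit 156) (nat_lit 228) (nat_lit 0) (XT.nd (nat_lit 78) (nat_lit 228) (nat_lit 0) (XT.lf (nat_lit 0) (nat_lit 82078056697) (nat_lit 304) (nat_lit 6453667029) (nat_lit 76) (nat_lit 43963007704) (nat_lit 31) (nat_lit 5) (nat_lit 35) (nat_lit 5) (nat_lit 32) (nat_lit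 5) (nat_lit 292) (nat_lit 275) (nat_lit 153)) (XT.lf (nat_lit 0) (nat_lit 79038880154) (nat_lit 228) (nat_lit 30853887014) (nat_lit 304) (nat_lit 29814007746) (nat_lit 28) (nat_lit 5) (nat_lit 31) (nat_lit 5) (nat_lit 32) (nat_lit 5) (nat_lit 293) (nat_lit 275) (nat_lit 152))) (XT.nd (nat_lit 78) (nat_lit 76) (nat_lit 0) (XT.lf (nat_lit 0) (nat_lit 24398314452) (nat_lit 152) (nat_lit 116519581351) (nat_lit 228) (nat_lit 6528627133) (nat_lit 26) (nat_lit 5) (nat_lit 28) (nat_lit 5) (nat_lit 29) (nat_lit 5) (nat_lit 294) (nat_lit 275) (nat_lit 151)) (XT.lf (nat_lit 0) (nat_lit 19617257273) (nat_lit 228) (nat_lit 38145655459) (nat_lit 76) (nat_lit 97948324812) (nat_lit 25) (nat_lit 5) (nat_lit 28) (nat_lit 5) (nat_lit 26) (nat_lit 5) (nat_lit 295) (nat_lit 275) (nat_lit 150)))) (XT.nd (nat_lit 156) (nat_lit 304) (nat_lit 0) (XT.nd (nat_lit 78) (nat_lit 0) (nat_lit 0) (XT.lf (nat_lit 0)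 (nat_lit 48595177226) (nat_lit 304) (nat_lit 109488419719) (nat_lit 76) (nat_lit 6499728791) (nat_lit 22) (nat_lit 5) (nat_lit 26) (nat_lit 5) (nat_lit 23) (nat_lit 5) (nat_lit 296) (nat_lit 275) (nat_lit 149)) (XT.lf (nat_lit 0) (nat_lit 81540018256) (nat_lit 304) (nat_lit 17960887444) (nat_lit 76) (nat_lit 74581843272) (nat_lit 22) (nat_lit 5) (nat_lit 26) (nat_lit 5) (nat_lit 23) (nat_lit 5) (nat_lit 297) (nat_lit 275) (nat_lit 148))) (XT.nd (nat_lit 78) (nat_lit 152) (nat_lit 0) (XT.lf (nat_lit 0) (nat_lit 83562508101) (nat_lit 152) (nat_lit 34861966322) (nat_lit 228) (nat_lit 65852452438) (nat_lit 20) (nat_lit 5) (nat_lit 22) (nat_lit 5) (nat_lit 23) (nat_lit 5) (nat_lit 298) (nat_lit 275) (nat_lit 147)) (XT.nd (nat_lit 78) (nat_lit 152) (nat_lit 0) (XT.lf (nat_lit 0) (nat_lit 159122732745) (nat_lit 228) (nat_lit 1973460894) (nat_lit 76) (nat_lit 34147295086) (nat_lit 20) (nat_lit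 5) (nat_lit 23) (nat_lit 5) (nat_lit 21) (nat_lit 5) (nat_lit 299) (nat_lit 275) (nat_lit 146)) (XT.lf (nat_lit 0) (nat_lit 107519442381) (nat_lit 152) (nat_lit 97823381178) (nat_lit 228) (nat_lit 1631255262) (nat_lit 18) (nat_lit 5) (nat_lit 20) (nat_lit 5) (nat_lit 21) (nat_lit 5) (nat_lit 300) (nat_lit 275) (nat_lit 145)))))) (XT.nd (nat_lit 312) (nat_lit 304) (nat_lit 0) (XT.nd (nat_lit 156) (nat_lit 152) (nat_lit 0) (XT.nd (nat_lit 78) (nat_lit 0) (nat_lit 0) (XT.lf (nat_lit 0) (nat_lit 5830025220) (nat_lit 152) (nat_lit 28772837866) (nat_lit 228) (nat_lit 185006178468) (nat_lit 15) (nat_lit 5) (nat_lit 17) (nat_lit 5) (nat_lit 18) (nat_lit 5) (nat_lit 301) (nat_lit 275) (nat_lit 144)) (XT.lf (nat_lit 0) (nat_lit 76154751212) (nat_lit 228) (nat_lit 110850989204) (nat_lit 76) (nat_lit 46123915749) (nat_lit 15) (nat_lit 5) (nat_lit 18) (nat_lit 5) (nat_lit 16) (nat_lit 5) (nat_lit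 302) (nat_lit 275) (nat_lit 143))) (XT.nd (nat_lit 78) (nat_lit 152) (nat_lit 0) (XT.lf (nat_lit 0) (nat_lit 121515487849) (nat_lit 228) (nat_lit 174588335) (nat_lit 76) (nat_lit 126017610307) (nat_lit 15) (nat_lit 5) (nat_lit 18) (nat_lit 5) (nat_lit 16) (nat_lit 5) (nat_lit 303) (nat_lit 275) (nat_lit 142)) (XT.lf (nat_lit 0) (nat_lit 123301695345) (nat_lit 152) (nat_lit 49128042399) (nat_lit 228) (nat_lit 90925990095) (nat_lit 13) (nat_lit 5) (nat_lit 15) (nat_lit 5) (nat_lit 16) (nat_lit 5) (nat_lit 304) (nat_lit 275) (nat_lit 141)))) (XT.nd (nat_lit 156) (nat_lit 228) (nat_lit 0) (XT.nd (nat_lit 78) (nat_lit 76) (nat_lit 0) (XT.lf (nat_lit 0) (nat_lit 227876308792) (nat_lit 228) (nat_lit 24050339494) (nat_lit 76) (nat_lit 28306006367) (nat_lit 13) (nat_lit 5) (nat_lit 16) (nat_lit 5) (nat_lit 14) (nat_lit 4) (nat_lit 305) (nat_lit 275) (nat_lit 140)) (XT.lf (nat_lit 0) (nat_lit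 103724496321) (nat_lit 76) (nat_lit 186481546399) (nat_lit 152) (nat_lit 8131322158) (nat_lit 12) (nat_lit 5) (nat_lit 13) (nat_lit 5) (nat_lit 14) (nat_lit 4) (nat_lit 306) (nat_lit 275) (nat_lit 139))) (XT.nd (nat_lit 78) (nat_lit 152) (nat_lit 0) (XT.lf (nat_lit 0) (nat_lit 38788681713) (nat_lit 152) (nat_lit 75915568878) (nat_lit 76) (nat_lit 203133992209) (nat_lit 11) (nat_lit 5) (nat_lit 13) (nat_lit 5) (nat_lit 12) (nat_lit 5) (nat_lit 307) (nat_lit 275) (nat_lit 138)) (XT.nd (nat_lit 78) (nat_lit 0) (nat_lit 0) (XT.lf (nat_lit 0) (nat_lit 53863845411) (nat_lit 152) (nat_lit 36157991057) (nat_lit 228) (nat_lit 248828468765) (nat_lit 9) (nat_lit 5) (nat_lit 11) (nat_lit 5) (nat_lit 12) (nat_lit 5) (nat_lit 308) (nat_lit 275) (nat_lit 137)) (XT.lf (nat_lit 0) (nat_lit 147457300951) (nat_lit 228) (nat_lit 165522794336) (nat_lit 76) (nat_lit 48458055358) (nat_lit 9) (nat_lit 5) (nat_lit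 12) (nat_lit 5) (nat_lit 10) (nat_lit 4) (nat_lit 309) (nat_lit 275) (nat_lit 136))))))))
noncomputable def xc112 : XT := (XT.nd (nat_lit 35724) (nat_lit 0) (nat_lit 684) (XT.nd (nat_lit 35022) (nat_lit 0) (nat_lit 3040) (XT.nd (nat_lit 312) (nat_lit 152) (nat_lit 0) (XT.nd (nat_lit 156) (nat_lit 0) (nat_lit 0) (XT.nd (nat_lit 78) (nat_lit 76) (nat_lit 0) (XT.lf (nat_lit 0) (nat_lit 210096989204) (nat_lit 228) (nat_lit 37112216565) (nat_lit 76) (nat_lit 138593349377) (nat_lit 9) (nat_lit 5) (nat_lit 12) (nat_lit 5) (nat_lit 10) (nat_lit 4) (nat_lit 310) (nat_lit 275) (nat_lit 135)) (XT.lf (nat_lit 0) (nat_lit 104929140423) (nat_lit 76) (nat_lit 174456669330) (nat_lit 152) (nat_lit 132648405123) (nat_lit 8) (nat_lit 5) (nat_lit 9) (nat_lit 5) (nat_lit 10) (nat_lit 4) (nat_lit 311) (nat_lit 275) (nat_lit 134))) (XT.nd (nat_lit 78) (nat_lit 0) (nat_lit 0) (XT.lf (nat_lit 0) (nat_lit 259658636224)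 (nat_lit 76) (nat_lit 95205303882) (nat_lit 152) (nat_lit 85468157746) (nat_lit 8) (nat_lit 5) (nat_lit 9) (nat_lit 5) (nat_lit 10) (nat_lit 4) (nat_lit 312) (nat_lit 275) (nat_lit 133)) (XT.lf (nat_lit 0) (nat_lit 426766088885) (nat_lit 76) (nat_lit 9613985049) (nat_lit 152) (nat_lit 34513750503) (nat_lit 8) (nat_lit 5) (nat_lit 9) (nat_lit 5) (nat_lit 10) (nat_lit 4) (nat_lit 313) (nat_lit 275) (nat_lit 132)))) (XT.nd (nat_lit 34554) (nat_lit 0) (nat_lit 3724) (XT.nd (nat_lit 78) (nat_lit 0) (nat_lit 0) (XT.lf (nat_lit 0) (nat_lit 22847345477) (nat_lit 152) (nat_lit 398699740169) (nat_lit 76) (nat_lit 82188037226) (nat_lit 6) (nat_lit 5) (nat_lit 8) (nat_lit 5) (nat_lit 7) (nat_lit 4) (nat_lit 314) (nat_lit 275) (nat_lit 131)) (XT.lf (nat_lit 0) (nat_lit 84547464783) (nat_lit 152) (nat_lit 272215003209) (nat_lit 76) (nat_lit 182365001275) (nat_lit 6) (nat_lit 5) (nat_lit 8) (nat_lit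 5) (nat_lit 7) (nat_lit 4) (nat_lit 315) (nat_lit 275) (nat_lit 130))) (XT.nd (nat_lit 78) (nat_lit 0) (nat_lit 0) (XT.lf (nat_lit 0) (nat_lit 154081625) (nat_lit 0) (nat_lit 154081625) (nat_lit 684) (nat_lit 32634745402) (nat_lit 55) (nat_lit 5) (nat_lit 55) (nat_lit 3) (nat_lit 64) (nat_lit 3) (nat_lit 276) (nat_lit 276) (nat_lit 168)) (XT.lf (nat_lit 0) (nat_lit 1345636533) (nat_lit 684) (nat_lit 24757084766) (nat_lit 760) (nat_lit 42383191809) (nat_lit 55) (nat_lit 5) (nat_lit 64) (nat_lit 3) (nat_lit 65) (nat_lit 5) (nat_lit 277) (nat_lit 276) (nat_lit 167))))) (XT.nd (nat_lit 312) (nat_lit 760) (nat_lit 0) (XT.nd (nat_lit 156) (nat_lit 0) (nat_lit 76) (XT.nd (nat_lit 78) (nat_lit 0) (nat_lit 0) (XT.lf (nat_lit 0) (nat_lit 2721490754) (nat_lit 684) (nat_lit 51590079422) (nat_lit 760) (nat_lit 16953046836) (nat_lit 56) (nat_lit 5) (nat_lit 65) (nat_lit 5) (nat_lit 66) (nat_lit 5)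 (nat_lit 278) (nat_lit 276) (nat_lit 166)) (XT.lf (nat_lit 0) (nat_lit 5083934674) (nat_lit 684) (nat_lit 6147760751) (nat_lit 760) (nat_lit 62990105375) (nat_lit 56) (nat_lit 5) (nat_lit 65) (nat_lit 5) (nat_lit 66) (nat_lit 5) (nat_lit 279) (nat_lit 276) (nat_lit 165))) (XT.nd (nat_lit 78) (nat_lit 0) (nat_lit 76) (XT.lf (nat_lit 0) (nat_lit 8888385067) (nat_lit 684) (nat_lit 33595244328) (nat_lit 760) (nat_lit 34869288271) (nat_lit 57) (nat_lit 5) (nat_lit 66) (nat_lit 5) (nat_lit 67) (nat_lit 5) (nat_lit 280) (nat_lit 276) (nat_lit 164)) (XT.lf (nat_lit 0) (nat_lit 13628818853) (nat_lit 684) (nat_lit 63253540431) (nat_lit 760) (nat_lit 3820591494) (nat_lit 58) (nat_lit 5) (nat_lit 67) (nat_lit 5) (nat_lit 68) (nat_lit 5) (nat_lit 281) (nat_lit 276) (nat_lit 163)))) (XT.nd (nat_lit 156) (nat_lit 912) (nat_lit 0) (XT.nd (nat_lit 78) (nat_lit 0) (nat_lit 76) (XT.lf (nat_lit 0) (nat_lit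 20058080106) (nat_lit 684) (nat_lit 11241610197) (nat_lit 760) (nat_lit 52955824248) (nat_lit 58) (nat_lit 5) (nat_lit 67) (nat_lit 5) (nat_lit 68) (nat_lit 5) (nat_lit 282) (nat_lit 276) (nat_lit 162)) (XT.lf (nat_lit 0) (nat_lit 28016732834) (nat_lit 684) (nat_lit 41932236301) (nat_lit 76) (nat_lit 18092568847) (nat_lit 59) (nat_lit 5) (nat_lit 68) (nat_lit 5) (nat_lit 60) (nat_lit 5) (nat_lit 283) (nat_lit 276) (nat_lit 161))) (XT.nd (nat_lit 78) (nat_lit 304) (nat_lit 0) (XT.lf (nat_lit 0) (nat_lit 16319218680) (nat_lit 684) (nat_lit 21273098767) (nat_lit 760) (nat_lit 54489120416) (nat_lit 50) (nat_lit 5) (nat_lit 59) (nat_lit 5) (nat_lit 60) (nat_lit 5) (nat_lit 284) (nat_lit 276) (nat_lit 160)) (XT.nd (nat_lit 78) (nat_lit 304) (nat_lit 0) (XT.lf (nat_lit 0) (nat_lit 49163720649) (nat_lit 760) (nat_lit 16181643797) (nat_lit 76) (nat_lit 31037682773) (nat_lit 50) (nat_lit 5) (nat_lit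 60) (nat_lit 5) (nat_lit 51) (nat_lit 5) (nat_lit 285) (nat_lit 276) (nat_lit 159)) (XT.lf (nat_lit 0) (nat_lit 49386224635) (nat_lit 304) (nat_lit 13403199562) (nat_lit 380) (nat_lit 38182937343) (nat_lit 46) (nat_lit 5) (nat_lit 50) (nat_lit 5) (nat_lit 51) (nat_lit 5) (nat_lit 286) (nat_lit 276) (nat_lit 158))))))) (XT.nd (nat_lit 702) (nat_lit 836) (nat_lit 0) (XT.nd (nat_lit 312) (nat_lit 608) (nat_lit 0) (XT.nd (nat_lit 156) (nat_lit 608) (nat_lit 0) (XT.nd (nat_lit 78) (nat_lit 0) (nat_lit 0) (XT.lf (nat_lit 0) (nat_lit 14659503416) (nat_lit 304) (nat_lit 64026527612) (nat_lit 380) (nat_lit 27183752838) (nat_lit 42) (nat_lit 5) (nat_lit 46) (nat_lit 5) (nat_lit 47) (nat_lit 5) (nat_lit 287) (nat_lit 276) (nat_lit 157)) (XT.lf (nat_lit 0) (nat_lit 87812363685) (nat_lit 304) (nat_lit 9161920037) (nat_lit 380) (nat_lit 14128725211) (nat_lit 42) (nat_lit 5) (nat_lit 46) (nat_lit 5)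 (nat_lit 47) (nat_lit 5) (nat_lit 288) (nat_lit 276) (nat_lit 156))) (XT.nd (nat_lit 78) (nat_lit 304) (nat_lit 0) (XT.lf (nat_lit 0) (nat_lit 1573415973) (nat_lit 304) (nat_lit 65792642156) (nat_lit 76) (nat_lit 49308772311) (nat_lit 38) (nat_lit 5) (nat_lit 42) (nat_lit 5) (nat_lit 39) (nat_lit 5) (nat_lit 289) (nat_lit 276) (nat_lit 155)) (XT.lf (nat_lit 0) (nat_lit 9037271945) (nat_lit 304) (nat_lit 9713090967) (nat_lit 380) (nat_lit 103894775963) (nat_lit 34) (nat_lit 5) (nat_lit 38) (nat_lit 5) (nat_lit 39) (nat_lit 5) (nat_lit 290) (nat_lit 276) (nat_lit 154)))) (XT.nd (nat_lit 156) (nat_lit 380) (nat_lit 0) (XT.nd (nat_lit 78) (nat_lit 228) (nat_lit 0) (XT.lf (nat_lit 0) (nat_lit 39285931374) (nat_lit 380) (nat_lit 37673070349) (nat_lit 76) (nat_lit 52034850618) (nat_lit 34) (nat_lit 5) (nat_lit 39) (nat_lit 5) (nat_lit 35) (nat_lit 5) (nat_lit 291) (nat_lit 276) (nat_lit 153))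 (XT.lf (nat_lit 0) (nat_lit 45632283565) (nat_lit 228) (nat_lit 16707481387) (nat_lit 304) (nat_lit 73466930325) (nat_lit 31) (nat_lit 5) (nat_lit 34) (nat_lit 5) (nat_lit 35) (nat_lit 5) (nat_lit 292) (nat_lit 276) (nat_lit 152))) (XT.nd (nat_lit 78) (nat_lit 380) (nat_lit 0) (XT.lf (nat_lit 0) (nat_lit 88659238302) (nat_lit 304) (nat_lit 6951213664) (nat_lit 76) (nat_lit 47483050155) (nat_lit 31) (nat_lit 5) (nat_lit 35) (nat_lit 5) (nat_lit 32) (nat_lit 5) (nat_lit 293) (nat_lit 276) (nat_lit 151)) (XT.nd (nat_lit 78) (nat_lit 152) (nat_lit 0) (XT.lf (nat_lit 0) (nat_lit 85379922584) (nat_lit 228) (nat_lit 33318376545) (nat_lit 304) (nat_lit 32184255794) (nat_lit 28) (nat_lit 5) (nat_lit 31) (nat_lit 5) (nat_lit 32) (nat_lit 5) (nat_lit 294) (nat_lit 276) (nat_lit 150)) (XT.lf (nat_lit 0) (nat_lit 26368004121) (nat_lit 152) (nat_lit 125836722240) (nat_lit 228) (nat_lit 7036796193)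 (nat_lit 26) (nat_lit 5) (nat_lit 28) (nat_lit 5) (nat_lit 29) (nat_lit 5) (nat_lit 295) (nat_lit 276) (nat_lit 149)))))) (XT.nd (nat_lit 312) (nat_lit 380) (nat_lit 0) (XT.nd (nat_lit 156) (nat_lit 152) (nat_lit 0) (XT.nd (nat_lit 78) (nat_lit 228) (nat_lit 0) (XT.lf (nat_lit 0) (nat_lit 21199294473) (nat_lit 228) (nat_lit 41180339137) (nat_lit 76) (nat_lit 105787824012) (nat_lit 25) (nat_lit 5) (nat_lit 28) (nat_lit 5) (nat_lit 26) (nat_lit 5) (nat_lit 296) (nat_lit 276) (nat_lit 148)) (XT.lf (nat_lit 0) (nat_lit 52494830404) (nat_lit 304) (nat_lit 118230687163) (nat_lit 76) (nat_lit 7023829597) (nat_lit 22) (nat_lit 5) (nat_lit 26) (nat_lit 5) (nat_lit 23) (nat_lit 5) (nat_lit 297) (nat_lit 276) (nat_lit 147))) (XT.nd (nat_lit 78) (nat_lit 152) (nat_lit 0) (XT.lf (nat_lit 0) (nat_lit 88074366938) (nat_lit 304) (nat_lit 19382197205) (nat_lit 76) (nat_lit 80552207865) (nat_lit 22) (nat_lit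 5) (nat_lit 26) (nat_lit 5) (nat_lit 23) (nat_lit 5) (nat_lit 298) (nat_lit 276) (nat_lit 146)) (XT.lf (nat_lit 0) (nat_lit 90262393711) (nat_lit 152) (nat_lit 37646592563) (nat_lit 228) (nat_lit 71109530449) (nat_lit 20) (nat_lit 5) (nat_lit 22) (nat_lit 5) (nat_lit 23) (nat_lit 5) (nat_lit 299) (nat_lit 276) (nat_lit 145)))) (XT.nd (nat_lit 156) (nat_lit 228) (nat_lit 0) (XT.nd (nat_lit 78) (nat_lit 152) (nat_lit 0) (XT.lf (nat_lit 0) (nat_lit 171862386103) (nat_lit 228) (nat_lit 2117095517) (nat_lit 76) (nat_lit 36882960585) (nat_lit 20) (nat_lit 5) (nat_lit 23) (nat_lit 5) (nat_lit 21) (nat_lit 5) (nat_lit 300) (nat_lit 276) (nat_lit 144)) (XT.lf (nat_lit 0) (nat_lit 116134621070) (nat_lit 152) (nat_lit 105644947311) (nat_lit 228) (nat_lit 1751939427) (nat_lit 18) (nat_lit 5) (nat_lit 20) (nat_lit 5) (nat_lit 21) (nat_lit 5) (nat_lit 301) (nat_lit 276) (nat_lit 143))) (XT.nd (nat_lit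 78) (nat_lit 0) (nat_lit 0) (XT.lf (nat_lit 0) (nat_lit 6309787592) (nat_lit 152) (nat_lit 31070311352) (nat_lit 228) (nat_lit 199797187930) (nat_lit 15) (nat_lit 5) (nat_lit 17) (nat_lit 5) (nat_lit 18) (nat_lit 5) (nat_lit 302) (nat_lit 276) (nat_lit 142)) (XT.nd (nat_lit 78) (nat_lit 0) (nat_lit 0) (XT.lf (nat_lit 0) (nat_lit 82255533884) (nat_lit 228) (nat_lit 119706317981) (nat_lit 76) (nat_lit 49817731050) (nat_lit 15) (nat_lit 5) (nat_lit 18) (nat_lit 5) (nat_lit 16) (nat_lit 5) (nat_lit 303) (nat_lit 276) (nat_lit 141)) (XT.lf (nat_lit 0) (nat_lit 131244507039) (nat_lit 228) (nat_lit 176749514) (nat_lit 76) (nat_lit 136102632132) (nat_lit 15) (nat_lit 5) (nat_lit 18) (nat_lit 5) (nat_lit 16) (nat_lit 5) (nat_lit 304) (nat_lit 276) (nat_lit 140))))))))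
noncomputable def xc113 : XT := (XT.nd (nat_lit 35880) (nat_lit 0) (nat_lit 1064) (XT.nd (nat_lit 624) (nat_lit 152) (nat_lit 0) (XT.nd (nat_lit 312) (nat_lit 228) (nat_lit 0) (XT.nd (nat_lit 156) (nat_lit 152) (nat_lit 0) (XT.nd (nat_lit 78) (nat_lit 0) (nat_lit 0) (XT.lf (nat_lit 0) (nat_lit 133177123792) (nat_lit 152) (nat_lit 53054373138) (nat_lit 228) (nat_lit 98192298167) (nat_lit 13) (nat_lit 5) (nat_lit 15) (nat_lit 5) (nat_lit 16) (nat_lit 5) (nat_lit 305) (nat_lit 276) (nat_lit 139)) (XT.lf (nat_lit 0) (nat_lit 246113303545) (nat_lit 228) (nat_lit 25963604893) (nat_lit 76) (nat_lit 30573993750) (nat_lit 13) (nat_lit 5) (nat_lit 16) (nat_lit 5) (nat_lit 14) (nat_lit 4) (nat_lit 306) (nat_lit 276) (nat_lit 138))) (XT.nd (nat_lit 78) (nat_lit 76) (nat_lit 0) (XT.lf (nat_lit 0) (nat_lit 112032750094) (nat_lit 76) (nat_lit 201396316438) (nat_lit 152) (nat_lit 8774941687) (nat_lit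 12) (nat_lit 5) (nat_lit 13) (nat_lit 5) (nat_lit 14) (nat_lit 4) (nat_lit 307) (nat_lit 276) (nat_lit 137)) (XT.lf (nat_lit 0) (nat_lit 41897948325) (nat_lit 152) (nat_lit 81979062165) (nat_lit 76) (nat_lit 219387966528) (nat_lit 11) (nat_lit 5) (nat_lit 13) (nat_lit 5) (nat_lit 12) (nat_lit 5) (nat_lit 308) (nat_lit 276) (nat_lit 136)))) (XT.nd (nat_lit 156) (nat_lit 76) (nat_lit 0) (XT.nd (nat_lit 78) (nat_lit 0) (nat_lit 0) (XT.lf (nat_lit 0) (nat_lit 58182281448) (nat_lit 152) (nat_lit 39047162464) (nat_lit 228) (nat_lit 268728577341) (nat_lit 9) (nat_lit 5) (nat_lit 11) (nat_lit 5) (nat_lit 12) (nat_lit 5) (nat_lit 309) (nat_lit 276) (nat_lit 135)) (XT.lf (nat_lit 0) (nat_lit 159259361572) (nat_lit 228) (nat_lit 178755745049) (nat_lit 76) (nat_lit 52337808013) (nat_lit 9) (nat_lit 5) (nat_lit 12) (nat_lit 5) (nat_lit 10) (nat_lit 4) (nat_lit 310) (nat_lit 276) (nat_lit 134))) (XT.nd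 (nat_lit 78) (nat_lit 76) (nat_lit 0) (XT.lf (nat_lit 0) (nat_lit 226909819216) (nat_lit 228) (nat_lit 40072978303) (nat_lit 76) (nat_lit 149683695315) (nat_lit 9) (nat_lit 5) (nat_lit 12) (nat_lit 5) (nat_lit 10) (nat_lit 4) (nat_lit 311) (nat_lit 276) (nat_lit 133)) (XT.lf (nat_lit 0) (nat_lit 113331330204) (nat_lit 76) (nat_lit 188410162277) (nat_lit 152) (nat_lit 143255206483) (nat_lit 8) (nat_lit 5) (nat_lit 9) (nat_lit 5) (nat_lit 10) (nat_lit 4) (nat_lit 312) (nat_lit 276) (nat_lit 132))))) (XT.nd (nat_lit 34866) (nat_lit 0) (nat_lit 3800) (XT.nd (nat_lit 34710) (nat_lit 0) (nat_lit 3724) (XT.nd (nat_lit 156) (nat_lit 152) (nat_lit 0) (XT.lf (nat_lit 0) (nat_lit 280438603555) (nat_lit 76) (nat_lit 102818912823) (nat_lit 152) (nat_lit 92300914948) (nat_lit 8) (nat_lit 5) (nat_lit 9) (nat_lit 5) (nat_lit 10) (nat_lit 4) (nat_lit 313) (nat_lit 276) (nat_lit 131)) (XT.lf (nat_lit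 0) (nat_lit 24679173083) (nat_lit 152) (nat_lit 430588963307) (nat_lit 76) (nat_lit 88765585088) (nat_lit 6) (nat_lit 5) (nat_lit 8) (nat_lit 5) (nat_lit 7) (nat_lit 4) (nat_lit 315) (nat_lit 276) (nat_lit 129))) (XT.nd (nat_lit 78) (nat_lit 0) (nat_lit 0) (XT.lf (nat_lit 0) (nat_lit 176683495) (nat_lit 0) (nat_lit 176683495) (nat_lit 684) (nat_lit 35223845281) (nat_lit 55) (nat_lit 5) (nat_lit 55) (nat_lit 3) (nat_lit 64) (nat_lit 3) (nat_lit 277) (nat_lit 277) (nat_lit 166)) (XT.lf (nat_lit 0) (nat_lit 1491047181) (nat_lit 684) (nat_lit 26716235176) (nat_lit 760) (nat_lit 45755427775) (nat_lit 55) (nat_lit 5) (nat_lit 64) (nat_lit 3) (nat_lit 65) (nat_lit 5) (nat_lit 278) (nat_lit 277) (nat_lit 165)))) (XT.nd (nat_lit 156) (nat_lit 0) (nat_lit 76) (XT.nd (nat_lit 78) (nat_lit 0) (nat_lit 0) (XT.lf (nat_lit 0) (nat_lit 2974261540) (nat_lit 684) (nat_lit 55694630876) (nat_lit 760) (nat_lit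 18294967271) (nat_lit 56) (nat_lit 5) (nat_lit 65) (nat_lit 5) (nat_lit 66) (nat_lit 5) (nat_lit 279) (nat_lit 277) (nat_lit 164)) (XT.lf (nat_lit 0) (nat_lit 5523104564) (nat_lit 684) (nat_lit 6618604852) (nat_lit 760) (nat_lit 68016051480) (nat_lit 56) (nat_lit 5) (nat_lit 65) (nat_lit 5) (nat_lit 66) (nat_lit 5) (nat_lit 280) (nat_lit 277) (nat_lit 163))) (XT.nd (nat_lit 78) (nat_lit 0) (nat_lit 76) (XT.lf (nat_lit 0) (nat_lit 9629659380) (nat_lit 684) (nat_lit 36260970455) (nat_lit 760) (nat_lit 37648861799) (nat_lit 57) (nat_lit 5) (nat_lit 66) (nat_lit 5) (nat_lit 67) (nat_lit 5) (nat_lit 281) (nat_lit 277) (nat_lit 162)) (XT.nd (nat_lit 78) (nat_lit 0) (nat_lit 0) (XT.lf (nat_lit 0) (nat_lit 14747302762) (nat_lit 684) (nat_lit 68291214062) (nat_lit 760) (nat_lit 4119122883) (nat_lit 58) (nat_lit 5) (nat_lit 67) (nat_lit 5) (nat_lit 68) (nat_lit 5) (nat_lit 282) (nat_lit 277) (nat_lit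 161)) (XT.lf (nat_lit 0) (nat_lit 21688817625) (nat_lit 684) (nat_lit 12120004195) (nat_lit 760) (nat_lit 57185701364) (nat_lit 58) (nat_lit 5) (nat_lit 67) (nat_lit 5) (nat_lit 68) (nat_lit 5) (nat_lit 283) (nat_lit 277) (nat_lit 160))))))) (XT.nd (nat_lit 702) (nat_lit 1064) (nat_lit 0) (XT.nd (nat_lit 312) (nat_lit 912) (nat_lit 0) (XT.nd (nat_lit 156) (nat_lit 304) (nat_lit 0) (XT.nd (nat_lit 78) (nat_lit 684) (nat_lit 0) (XT.lf (nat_lit 0) (nat_lit 30282473128) (nat_lit 684) (nat_lit 45265378723) (nat_lit 76) (nat_lit 19535670590) (nat_lit 59) (nat_lit 5) (nat_lit 68) (nat_lit 5) (nat_lit 60) (nat_lit 5) (nat_lit 284) (nat_lit 277) (nat_lit 159)) (XT.lf (nat_lit 0) (nat_lit 17645261053) (nat_lit 684) (nat_lit 22977356065) (nat_lit 760) (nat_lit 58824080342) (nat_lit 50) (nat_lit 5) (nat_lit 59) (nat_lit 5) (nat_lit 60) (nat_lit 5) (nat_lit 285) (nat_lit 277) (nat_lit 158))) (XT.nd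 (nat_lit 78) (nat_lit 304) (nat_lit 0) (XT.lf (nat_lit 0) (nat_lit 53118000391) (nat_lit 760) (nat_lit 17455992034) (nat_lit 76) (nat_lit 33518537875) (nat_lit 50) (nat_lit 5) (nat_lit 60) (nat_lit 5) (nat_lit 51) (nat_lit 5) (nat_lit 286) (nat_lit 277) (nat_lit 157)) (XT.lf (nat_lit 0) (nat_lit 53356428732) (nat_lit 304) (nat_lit 14476063870) (nat_lit 380) (nat_lit 41216568072) (nat_lit 46) (nat_lit 5) (nat_lit 50) (nat_lit 5) (nat_lit 51) (nat_lit 5) (nat_lit 287) (nat_lit 277) (nat_lit 156)))) (XT.nd (nat_lit 156) (nat_lit 608) (nat_lit 0) (XT.nd (nat_lit 78) (nat_lit 0) (nat_lit 0) (XT.lf (nat_lit 0) (nat_lit 15851782309) (nat_lit 304) (nat_lit 69147866471) (nat_lit 380) (nat_lit 29338693934) (nat_lit 42) (nat_lit 5) (nat_lit 46) (nat_lit 5) (nat_lit 47) (nat_lit 5) (nat_lit 288) (nat_lit 277) (nat_lit 155)) (XT.lf (nat_lit 0) (nat_lit 94855425576) (nat_lit 304) (nat_lit 9894148315)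 (nat_lit 380) (nat_lit 15240727736) (nat_lit 42) (nat_lit 5) (nat_lit 46) (nat_lit 5) (nat_lit 47) (nat_lit 5) (nat_lit 289) (nat_lit 277) (nat_lit 154))) (XT.nd (nat_lit 78) (nat_lit 304) (nat_lit 0) (XT.lf (nat_lit 0) (nat_lit 1715986531) (nat_lit 304) (nat_lit 71037246963) (nat_lit 76) (nat_lit 53254677402) (nat_lit 38) (nat_lit 5) (nat_lit 42) (nat_lit 5) (nat_lit 39) (nat_lit 5) (nat_lit 290) (nat_lit 277) (nat_lit 153)) (XT.nd (nat_lit 78) (nat_lit 0) (nat_lit 0) (XT.lf (nat_lit 0) (nat_lit 9778242956) (nat_lit 304) (nat_lit 10487890296) (nat_lit 380) (nat_lit 112189763818) (nat_lit 34) (nat_lit 5) (nat_lit 38) (nat_lit 5) (nat_lit 39) (nat_lit 5) (nat_lit 291) (nat_lit 277) (nat_lit 152)) (XT.lf (nat_lit 0) (nat_lit 42443413666) (nat_lit 380) (nat_lit 40669502020) (nat_lit 76) (nat_lit 56199653482) (nat_lit 34) (nat_lit 5) (nat_lit 39) (nat_lit 5) (nat_lit 35) (nat_lit 5) (nat_lit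 292) (nat_lit 277) (nat_lit 151)))))) (XT.nd (nat_lit 312) (nat_lit 456) (nat_lit 0) (XT.nd (nat_lit 156) (nat_lit 380) (nat_lit 0) (XT.nd (nat_lit 78) (nat_lit 0) (nat_lit 0) (XT.lf (nat_lit 0) (nat_lit 49299523418) (nat_lit 228) (nat_lit 18041208520) (nat_lit 304) (nat_lit 79329753218) (nat_lit 31) (nat_lit 5) (nat_lit 34) (nat_lit 5) (nat_lit 35) (nat_lit 5) (nat_lit 293) (nat_lit 277) (nat_lit 150)) (XT.lf (nat_lit 0) (nat_lit 95764783495) (nat_lit 304) (nat_lit 7491238459) (nat_lit 76) (nat_lit 51284267756) (nat_lit 31) (nat_lit 5) (nat_lit 35) (nat_lit 5) (nat_lit 32) (nat_lit 5) (nat_lit 294) (nat_lit 277) (nat_lit 149))) (XT.nd (nat_lit 78) (nat_lit 152) (nat_lit 0) (XT.lf (nat_lit 0) (nat_lit 92225690206) (nat_lit 228) (nat_lit 35980570409) (nat_lit 304) (nat_lit 34746245424) (nat_lit 28) (nat_lit 5) (nat_lit 31) (nat_lit 5) (nat_lit 32) (nat_lit 5) (nat_lit 295) (nat_lit 277)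 (nat_lit 148)) (XT.lf (nat_lit 0) (nat_lit 28492726097) (nat_lit 152) (nat_lit 135899865764) (nat_lit 228) (nat_lit 7587633311) (nat_lit 26) (nat_lit 5) (nat_lit 28) (nat_lit 5) (nat_lit 29) (nat_lit 5) (nat_lit 296) (nat_lit 277) (nat_lit 147)))) (XT.nd (nat_lit 156) (nat_lit 152) (nat_lit 0) (XT.nd (nat_lit 78) (nat_lit 228) (nat_lit 0) (XT.lf (nat_lit 0) (nat_lit 22906089041) (nat_lit 228) (nat_lit 44460218291) (nat_lit 76) (nat_lit 114253964829) (nat_lit 25) (nat_lit 5) (nat_lit 28) (nat_lit 5) (nat_lit 26) (nat_lit 5) (nat_lit 297) (nat_lit 277) (nat_lit 146)) (XT.lf (nat_lit 0) (nat_lit 56704738337) (nat_lit 304) (nat_lit 127674733586) (nat_lit 76) (nat_lit 7589270346) (nat_lit 22) (nat_lit 5) (nat_lit 26) (nat_lit 5) (nat_lit 23) (nat_lit 5) (nat_lit 298) (nat_lit 277) (nat_lit 145))) (XT.nd (nat_lit 78) (nat_lit 152) (nat_lit 0) (XT.lf (nat_lit 0) (nat_lit 95129873239) (nat_lit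 304) (nat_lit 20919431731) (nat_lit 76) (nat_lit 86999657070) (nat_lit 22) (nat_lit 5) (nat_lit 26) (nat_lit 5) (nat_lit 23) (nat_lit 5) (nat_lit 299) (nat_lit 277) (nat_lit 144)) (XT.nd (nat_lit 78) (nat_lit 0) (nat_lit 0) (XT.lf (nat_lit 0) (nat_lit 97496146664) (nat_lit 152) (nat_lit 40654606779) (nat_lit 228) (nat_lit 76788760833) (nat_lit 20) (nat_lit 5) (nat_lit 22) (nat_lit 5) (nat_lit 23) (nat_lit 5) (nat_lit 300) (nat_lit 277) (nat_lit 143)) (XT.lf (nat_lit 0) (nat_lit 185619808694) (nat_lit 228) (nat_lit 2274252725) (nat_lit 76) (nat_lit 39836925528) (nat_lit 20) (nat_lit 5) (nat_lit 23) (nat_lit 5) (nat_lit 21) (nat_lit 5) (nat_lit 301) (nat_lit 277) (nat_lit 142))))))))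
noncomputable def xc114 : XT := (XT.nd (nat_lit 35958) (nat_lit 0) (nat_lit 1064) (XT.nd (nat_lit 624) (nat_lit 228) (nat_lit 0) (XT.nd (nat_lit 312) (nat_lit 304) (nat_lit 0) (XT.nd (nat_lit 156) (nat_lit 0) (nat_lit 0) (XT.nd (nat_lit 78) (nat_lit 228) (nat_lit 0) (XT.lf (nat_lit 0) (nat_lit 125437070538) (nat_lit 152) (nat_lit 114092852800) (nat_lit 228) (nat_lit 1883678724) (nat_lit 18) (nat_lit 5) (nat_lit 20) (nat_lit 5) (nat_lit 21) (nat_lit 5) (nat_lit 302) (nat_lit 277) (nat_lit 141)) (XT.lf (nat_lit 0) (nat_lit 6826024949) (nat_lit 152) (nat_lit 33552203797) (nat_lit 228) (nat_lit 215772831264) (nat_lit 15) (nat_lit 5) (nat_lit 17) (nat_lit 5) (nat_lit 18) (nat_lit 5) (nat_lit 303) (nat_lit 277) (nat_lit 140))) (XT.nd (nat_lit 78) (nat_lit 0) (nat_lit 0) (XT.lf (nat_lit 0) (nat_lit 88843180448) (nat_lit 228) (nat_lit 129271892042) (nat_lit 76) (nat_lit 53806494904) (nat_lit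 15) (nat_lit 5) (nat_lit 18) (nat_lit 5) (nat_lit 16) (nat_lit 5) (nat_lit 304) (nat_lit 277) (nat_lit 139)) (XT.lf (nat_lit 0) (nat_lit 141750737837) (nat_lit 228) (nat_lit 180767828) (nat_lit 76) (nat_lit 146993940268) (nat_lit 15) (nat_lit 5) (nat_lit 18) (nat_lit 5) (nat_lit 16) (nat_lit 5) (nat_lit 305) (nat_lit 277) (nat_lit 138)))) (XT.nd (nat_lit 156) (nat_lit 152) (nat_lit 0) (XT.nd (nat_lit 78) (nat_lit 0) (nat_lit 0) (XT.lf (nat_lit 0) (nat_lit 143840975467) (nat_lit 152) (nat_lit 57295368520) (nat_lit 228) (nat_lit 106041019524) (nat_lit 13) (nat_lit 5) (nat_lit 15) (nat_lit 5) (nat_lit 16) (nat_lit 5) (nat_lit 306) (nat_lit 277) (nat_lit 137)) (XT.lf (nat_lit 0) (nat_lit 265808274935) (nat_lit 228) (nat_lit 28031466810) (nat_lit 76) (nat_lit 33022919829) (nat_lit 13) (nat_lit 5) (nat_lit 16) (nat_lit 5) (nat_lit 14) (nat_lit 4) (nat_lit 307) (nat_lit 277) (nat_lit 136)))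 (XT.nd (nat_lit 78) (nat_lit 76) (nat_lit 0) (XT.lf (nat_lit 0) (nat_lit 121004195605) (nat_lit 76) (nat_lit 217504803584) (nat_lit 152) (nat_lit 9471033179) (nat_lit 12) (nat_lit 5) (nat_lit 13) (nat_lit 5) (nat_lit 14) (nat_lit 4) (nat_lit 308) (nat_lit 277) (nat_lit 135)) (XT.lf (nat_lit 0) (nat_lit 45255075749) (nat_lit 152) (nat_lit 88529026178) (nat_lit 76) (nat_lit 236941794439) (nat_lit 11) (nat_lit 5) (nat_lit 13) (nat_lit 5) (nat_lit 12) (nat_lit 5) (nat_lit 309) (nat_lit 277) (nat_lit 134))))) (XT.nd (nat_lit 390) (nat_lit 0) (nat_lit 0) (XT.nd (nat_lit 156) (nat_lit 76) (nat_lit 0) (XT.nd (nat_lit 78) (nat_lit 0) (nat_lit 0) (XT.lf (nat_lit 0) (nat_lit 62844861567) (nat_lit 152) (nat_lit 42167962314) (nat_lit 228) (nat_lit 290221574668) (nat_lit 9) (nat_lit 5) (nat_lit 11) (nat_lit 5) (nat_lit 12) (nat_lit 5) (nat_lit 310) (nat_lit 277) (nat_lit 133)) (XT.lf (nat_lit 0) (nat_lit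 172004805753) (nat_lit 228) (nat_lit 193048597627) (nat_lit 76) (nat_lit 56527497457) (nat_lit 9) (nat_lit 5) (nat_lit 12) (nat_lit 5) (nat_lit 10) (nat_lit 4) (nat_lit 311) (nat_lit 277) (nat_lit 132))) (XT.nd (nat_lit 78) (nat_lit 76) (nat_lit 0) (XT.lf (nat_lit 0) (nat_lit 245066952212) (nat_lit 228) (nat_lit 43271773025) (nat_lit 76) (nat_lit 161660858351) (nat_lit 9) (nat_lit 5) (nat_lit 12) (nat_lit 5) (nat_lit 10) (nat_lit 4) (nat_lit 312) (nat_lit 277) (nat_lit 131)) (XT.lf (nat_lit 0) (nat_lit 122404574059) (nat_lit 76) (nat_lit 203480368436) (nat_lit 152) (nat_lit 154711275393) (nat_lit 8) (nat_lit 5) (nat_lit 9) (nat_lit 5) (nat_lit 10) (nat_lit 4) (nat_lit 313) (nat_lit 277) (nat_lit 130)))) (XT.nd (nat_lit 34710) (nat_lit 0) (nat_lit 3572) (XT.nd (nat_lit 34632) (nat_lit 0) (nat_lit 3572) (XT.lf (nat_lit 0) (nat_lit 497793018776) (nat_lit 76) (nat_lit 11208701862) (nat_lit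 152) (nat_lit 40248415796) (nat_lit 8) (nat_lit 5) (nat_lit 9) (nat_lit 5) (nat_lit 10) (nat_lit 4) (nat_lit 315) (nat_lit 277) (nat_lit 128)) (XT.lf (nat_lit 0) (nat_lit 199627621) (nat_lit 0) (nat_lit 199627621) (nat_lit 684) (nat_lit 38023166010) (nat_lit 55) (nat_lit 5) (nat_lit 55) (nat_lit 3) (nat_lit 64) (nat_lit 3) (nat_lit 278) (nat_lit 278) (nat_lit 164))) (XT.nd (nat_lit 78) (nat_lit 0) (nat_lit 76) (XT.lf (nat_lit 0) (nat_lit 1642703833) (nat_lit 684) (nat_lit 28835172903) (nat_lit 760) (nat_lit 49400070349) (nat_lit 55) (nat_lit 5) (nat_lit 64) (nat_lit 3) (nat_lit 65) (nat_lit 5) (nat_lit 279) (nat_lit 278) (nat_lit 163)) (XT.nd (nat_lit 78) (nat_lit 0) (nat_lit 0) (XT.lf (nat_lit 0) (nat_lit 3242253497) (nat_lit 684) (nat_lit 60130778422) (nat_lit 760) (nat_lit 19746284722) (nat_lit 56) (nat_lit 5) (nat_lit 65) (nat_lit 5) (nat_lit 66) (nat_lit 5) (nat_lit 280) (nat_lit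 278) (nat_lit 162)) (XT.lf (nat_lit 0) (nat_lit 5992777960) (nat_lit 684) (nat_lit 7130109050) (nat_lit 760) (nat_lit 73445965292) (nat_lit 56) (nat_lit 5) (nat_lit 65) (nat_lit 5) (nat_lit 66) (nat_lit 5) (nat_lit 281) (nat_lit 278) (nat_lit 161))))))) (XT.nd (nat_lit 702) (nat_lit 1520) (nat_lit 0) (XT.nd (nat_lit 312) (nat_lit 1140) (nat_lit 0) (XT.nd (nat_lit 156) (nat_lit 0) (nat_lit 76) (XT.nd (nat_lit 78) (nat_lit 0) (nat_lit 76) (XT.lf (nat_lit 0) (nat_lit 10425926770) (nat_lit 684) (nat_lit 39143078013) (nat_lit 760) (nat_lit 40652223475) (nat_lit 57) (nat_lit 5) (nat_lit 66) (nat_lit 5) (nat_lit 67) (nat_lit 5) (nat_lit 282) (nat_lit 278) (nat_lit 160)) (XT.lf (nat_lit 0) (nat_lit 15951245419) (nat_lit 684) (nat_lit 73735127096) (nat_lit 760) (nat_lit 4442551950) (nat_lit 58) (nat_lit 5) (nat_lit 67) (nat_lit 5) (nat_lit 68) (nat_lit 5) (nat_lit 283) (nat_lit 278) (nat_lit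 159))) (XT.nd (nat_lit 78) (nat_lit 0) (nat_lit 76) (XT.lf (nat_lit 0) (nat_lit 23446291958) (nat_lit 684) (nat_lit 13071656298) (nat_lit 760) (nat_lit 61754908618) (nat_lit 58) (nat_lit 5) (nat_lit 67) (nat_lit 5) (nat_lit 68) (nat_lit 5) (nat_lit 284) (nat_lit 278) (nat_lit 158)) (XT.lf (nat_lit 0) (nat_lit 32725991475) (nat_lit 684) (nat_lit 48868230693) (nat_lit 76) (nat_lit 21094834453) (nat_lit 59) (nat_lit 5) (nat_lit 68) (nat_lit 5) (nat_lit 60) (nat_lit 5) (nat_lit 285) (nat_lit 278) (nat_lit 157)))) (XT.nd (nat_lit 156) (nat_lit 608) (nat_lit 0) (XT.nd (nat_lit 78) (nat_lit 0) (nat_lit 0) (XT.lf (nat_lit 0) (nat_lit 19074461566) (nat_lit 684) (nat_lit 24817610220) (nat_lit 760) (nat_lit 63509285141) (nat_lit 50) (nat_lit 5) (nat_lit 59) (nat_lit 5) (nat_lit 60) (nat_lit 5) (nat_lit 286) (nat_lit 278) (nat_lit 156)) (XT.lf (nat_lit 0) (nat_lit 57385600651) (nat_lit 760) (nat_lit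 18835167498) (nat_lit 76) (nat_lit 36198169465) (nat_lit 50) (nat_lit 5) (nat_lit 60) (nat_lit 5) (nat_lit 51) (nat_lit 5) (nat_lit 287) (nat_lit 278) (nat_lit 155))) (XT.nd (nat_lit 78) (nat_lit 304) (nat_lit 0) (XT.lf (nat_lit 0) (nat_lit 57641494923) (nat_lit 304) (nat_lit 15634670536) (nat_lit 380) (nat_lit 44495885751) (nat_lit 46) (nat_lit 5) (nat_lit 50) (nat_lit 5) (nat_lit 51) (nat_lit 5) (nat_lit 288) (nat_lit 278) (nat_lit 154)) (XT.nd (nat_lit 78) (nat_lit 0) (nat_lit 0) (XT.lf (nat_lit 0) (nat_lit 17136658964) (nat_lit 304) (nat_lit 74679024192) (nat_lit 380) (nat_lit 31668849178) (nat_lit 42) (nat_lit 5) (nat_lit 46) (nat_lit 5) (nat_lit 47) (nat_lit 5) (nat_lit 289) (nat_lit 278) (nat_lit 153)) (XT.lf (nat_lit 0) (nat_lit 102459354132) (nat_lit 304) (nat_lit 10685058332) (nat_lit 380) (nat_lit 16444300519) (nat_lit 42) (nat_lit 5) (nat_lit 46) (nat_lit 5) (nat_lit 47)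 (nat_lit 5) (nat_lit 290) (nat_lit 278) (nat_lit 152)))))) (XT.nd (nat_lit 312) (nat_lit 684) (nat_lit 0) (XT.nd (nat_lit 156) (nat_lit 228) (nat_lit 0) (XT.nd (nat_lit 78) (nat_lit 304) (nat_lit 0) (XT.lf (nat_lit 0) (nat_lit 1867580680) (nat_lit 304) (nat_lit 76704103120) (nat_lit 76) (nat_lit 57516083234) (nat_lit 38) (nat_lit 5) (nat_lit 42) (nat_lit 5) (nat_lit 39) (nat_lit 5) (nat_lit 291) (nat_lit 278) (nat_lit 151)) (XT.lf (nat_lit 0) (nat_lit 10575925280) (nat_lit 304) (nat_lit 11324994266) (nat_lit 380) (nat_lit 121150718054) (nat_lit 34) (nat_lit 5) (nat_lit 38) (nat_lit 5) (nat_lit 39) (nat_lit 5) (nat_lit 292) (nat_lit 278) (nat_lit 150))) (XT.nd (nat_lit 78) (nat_lit 228) (nat_lit 0) (XT.lf (nat_lit 0) (nat_lit 45851410578) (nat_lit 380) (nat_lit 43908132521) (nat_lit 76) (nat_lit 60697353140) (nat_lit 34) (nat_lit 5) (nat_lit 39) (nat_lit 5) (nat_lit 35) (nat_lit 5) (nat_lit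 293) (nat_lit 278) (nat_lit 149)) (XT.lf (nat_lit 0) (nat_lit 53257766128) (nat_lit 228) (nat_lit 19482043457) (nat_lit 304) (nat_lit 85663675028) (nat_lit 31) (nat_lit 5) (nat_lit 34) (nat_lit 5) (nat_lit 35) (nat_lit 5) (nat_lit 294) (nat_lit 278) (nat_lit 148)))) (XT.nd (nat_lit 156) (nat_lit 456) (nat_lit 0) (XT.nd (nat_lit 78) (nat_lit 228) (nat_lit 0) (XT.lf (nat_lit 0) (nat_lit 103436945366) (nat_lit 304) (nat_lit 8076758132) (nat_lit 76) (nat_lit 55389215615) (nat_lit 31) (nat_lit 5) (nat_lit 35) (nat_lit 5) (nat_lit 32) (nat_lit 5) (nat_lit 295) (nat_lit 278) (nat_lit 147)) (XT.lf (nat_lit 0) (nat_lit 99616925991) (nat_lit 228) (nat_lit 38856207177) (nat_lit 304) (nat_lit 37515013273) (nat_lit 28) (nat_lit 5) (nat_lit 31) (nat_lit 5) (nat_lit 32) (nat_lit 5) (nat_lit 296) (nat_lit 278) (nat_lit 146))) (XT.nd (nat_lit 78) (nat_lit 304) (nat_lit 0) (XT.lf (nat_lit 0) (nat_lit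 30785245734) (nat_lit 152) (nat_lit 146768602062) (nat_lit 228) (nat_lit 8184264538) (nat_lit 26) (nat_lit 5) (nat_lit 28) (nat_lit 5) (nat_lit 29) (nat_lit 5) (nat_lit 297) (nat_lit 278) (nat_lit 145)) (XT.nd (nat_lit 78) (nat_lit 228) (nat_lit 0) (XT.lf (nat_lit 0) (nat_lit 24747879157) (nat_lit 228) (nat_lit 48004563210) (nat_lit 76) (nat_lit 123396952536) (nat_lit 25) (nat_lit 5) (nat_lit 28) (nat_lit 5) (nat_lit 26) (nat_lit 5) (nat_lit 298) (nat_lit 278) (nat_lit 144)) (XT.lf (nat_lit 0) (nat_lit 61249966428) (nat_lit 304) (nat_lit 137876359264) (nat_lit 76) (nat_lit 8199442136) (nat_lit 22) (nat_lit 5) (nat_lit 26) (nat_lit 5) (nat_lit 23) (nat_lit 5) (nat_lit 299) (nat_lit 278) (nat_lit 143))))))))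
noncomputable def xc115 : XT := (XT.nd (nat_lit 36114) (nat_lit 0) (nat_lit 1216) (XT.nd (nat_lit 624) (nat_lit 304) (nat_lit 0) (XT.nd (nat_lit 312) (nat_lit 380) (nat_lit 0) (XT.nd (nat_lit 156) (nat_lit 152) (nat_lit 0) (XT.nd (nat_lit 78) (nat_lit 152) (nat_lit 0) (XT.lf (nat_lit 0) (nat_lit 102748456639) (nat_lit 304) (nat_lit 22581548298) (nat_lit 76) (nat_lit 93962435341) (nat_lit 22) (nat_lit 5) (nat_lit 26) (nat_lit 5) (nat_lit 23) (nat_lit 5) (nat_lit 300) (nat_lit 278) (nat_lit 142)) (XT.lf (nat_lit 0) (nat_lit 105306779288) (nat_lit 152) (nat_lit 43903791859) (nat_lit 228) (nat_lit 82923689502) (nat_lit 20) (nat_lit 5) (nat_lit 22) (nat_lit 5) (nat_lit 23) (nat_lit 5) (nat_lit 301) (nat_lit 278) (nat_lit 141))) (XT.nd (nat_lit 78) (nat_lit 152) (nat_lit 0) (XT.lf (nat_lit 0) (nat_lit 200476622216) (nat_lit 228) (nat_lit 2445724465) (nat_lit 76) (nat_lit 43026732877) (nat_lit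 20) (nat_lit 5) (nat_lit 23) (nat_lit 5) (nat_lit 21) (nat_lit 5) (nat_lit 302) (nat_lit 278) (nat_lit 140)) (XT.lf (nat_lit 0) (nat_lit 135482049713) (nat_lit 152) (nat_lit 123217117189) (nat_lit 228) (nat_lit 2027157781) (nat_lit 18) (nat_lit 5) (nat_lit 20) (nat_lit 5) (nat_lit 21) (nat_lit 5) (nat_lit 303) (nat_lit 278) (nat_lit 139)))) (XT.nd (nat_lit 156) (nat_lit 152) (nat_lit 0) (XT.nd (nat_lit 78) (nat_lit 0) (nat_lit 0) (XT.lf (nat_lit 0) (nat_lit 7381927204) (nat_lit 152) (nat_lit 36233180116) (nat_lit 228) (nat_lit 233027686143) (nat_lit 15) (nat_lit 5) (nat_lit 17) (nat_lit 5) (nat_lit 18) (nat_lit 5) (nat_lit 304) (nat_lit 278) (nat_lit 138)) (XT.lf (nat_lit 0) (nat_lit 95956811028) (nat_lit 228) (nat_lit 139604271510) (nat_lit 76) (nat_lit 58113882613) (nat_lit 15) (nat_lit 5) (nat_lit 18) (nat_lit 5) (nat_lit 16) (nat_lit 5) (nat_lit 305) (nat_lit 278) (nat_lit 137)))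 (XT.nd (nat_lit 78) (nat_lit 152) (nat_lit 0) (XT.lf (nat_lit 0) (nat_lit 153096515515) (nat_lit 228) (nat_lit 186551574) (nat_lit 76) (nat_lit 158756111153) (nat_lit 15) (nat_lit 5) (nat_lit 18) (nat_lit 5) (nat_lit 16) (nat_lit 5) (nat_lit 306) (nat_lit 278) (nat_lit 136)) (XT.lf (nat_lit 0) (nat_lit 155356554064) (nat_lit 152) (nat_lit 61876122085) (nat_lit 228) (nat_lit 114518589069) (nat_lit 13) (nat_lit 5) (nat_lit 15) (nat_lit 5) (nat_lit 16) (nat_lit 5) (nat_lit 307) (nat_lit 278) (nat_lit 135))))) (XT.nd (nat_lit 312) (nat_lit 0) (nat_lit 0) (XT.nd (nat_lit 156) (nat_lit 228) (nat_lit 0) (XT.nd (nat_lit 78) (nat_lit 76) (nat_lit 0) (XT.lf (nat_lit 0) (nat_lit 287078001322) (nat_lit 228) (nat_lit 30266073939) (nat_lit 76) (nat_lit 35667331072) (nat_lit 13) (nat_lit 5) (nat_lit 16) (nat_lit 5) (nat_lit 14) (nat_lit 4) (nat_lit 308) (nat_lit 278) (nat_lit 134)) (XT.lf (nat_lit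 0) (nat_lit 130692097701) (nat_lit 76) (nat_lit 234902428809) (nat_lit 152) (nat_lit 10223654239) (nat_lit 12) (nat_lit 5) (nat_lit 13) (nat_lit 5) (nat_lit 14) (nat_lit 4) (nat_lit 309) (nat_lit 278) (nat_lit 133))) (XT.nd (nat_lit 78) (nat_lit 152) (nat_lit 0) (XT.lf (nat_lit 0) (nat_lit 48880018468) (nat_lit 152) (nat_lit 95604180096) (nat_lit 76) (nat_lit 255899530474) (nat_lit 11) (nat_lit 5) (nat_lit 13) (nat_lit 5) (nat_lit 12) (nat_lit 5) (nat_lit 310) (nat_lit 278) (nat_lit 132)) (XT.lf (nat_lit 0) (nat_lit 67879307148) (nat_lit 152) (nat_lit 45538850305) (nat_lit 228) (nat_lit 313434766297) (nat_lit 9) (nat_lit 5) (nat_lit 11) (nat_lit 5) (nat_lit 12) (nat_lit 5) (nat_lit 311) (nat_lit 278) (nat_lit 131)))) (XT.nd (nat_lit 34944) (nat_lit 0) (nat_lit 3496) (XT.nd (nat_lit 78) (nat_lit 0) (nat_lit 0) (XT.lf (nat_lit 0) (nat_lit 185769215638) (nat_lit 228) (nat_lit 208485963640)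 (nat_lit 76) (nat_lit 61051981893) (nat_lit 9) (nat_lit 5) (nat_lit 12) (nat_lit 5) (nat_lit 10) (nat_lit 4) (nat_lit 312) (nat_lit 278) (nat_lit 130)) (XT.lf (nat_lit 0) (nat_lit 264676035633) (nat_lit 228) (nat_lit 46727476166) (nat_lit 76) (nat_lit 174595842425) (nat_lit 9) (nat_lit 5) (nat_lit 12) (nat_lit 5) (nat_lit 10) (nat_lit 4) (nat_lit 313) (nat_lit 278) (nat_lit 129))) (XT.nd (nat_lit 78) (nat_lit 0) (nat_lit 0) (XT.lf (nat_lit 0) (nat_lit 223150512) (nat_lit 0) (nat_lit 223150512) (nat_lit 684) (nat_lit 41049084025) (nat_lit 55) (nat_lit 5) (nat_lit 55) (nat_lit 3) (nat_lit 64) (nat_lit 3) (nat_lit 279) (nat_lit 279) (nat_lit 162)) (XT.nd (nat_lit 78) (nat_lit 0) (nat_lit 76) (XT.lf (nat_lit 0) (nat_lit 1801874665) (nat_lit 684) (nat_lit 31126245063) (nat_lit 760) (nat_lit 53338537185) (nat_lit 55) (nat_lit 5) (nat_lit 64) (nat_lit 3) (nat_lit 65) (nat_lit 5) (nat_lit 280)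 (nat_lit 279) (nat_lit 161)) (XT.lf (nat_lit 0) (nat_lit 3527397694) (nat_lit 684) (nat_lit 64924588668) (nat_lit 760) (nat_lit 21315459439) (nat_lit 56) (nat_lit 5) (nat_lit 65) (nat_lit 5) (nat_lit 66) (nat_lit 5) (nat_lit 281) (nat_lit 279) (nat_lit 160))))))) (XT.nd (nat_lit 702) (nat_lit 1292) (nat_lit 0) (XT.nd (nat_lit 312) (nat_lit 1064) (nat_lit 0) (XT.nd (nat_lit 156) (nat_lit 0) (nat_lit 152) (XT.nd (nat_lit 78) (nat_lit 0) (nat_lit 76) (XT.lf (nat_lit 0) (nat_lit 6496055676) (nat_lit 684) (nat_lit 7685099230) (nat_lit 760) (nat_lit 79311894311) (nat_lit 56) (nat_lit 5) (nat_lit 65) (nat_lit 5) (nat_lit 66) (nat_lit 5) (nat_lit 282) (nat_lit 279) (nat_lit 159)) (XT.lf (nat_lit 0) (nat_lit 11282201391) (nat_lit 684) (nat_lit 42258431937) (nat_lit 760) (nat_lit 43897073447) (nat_lit 57) (nat_lit 5) (nat_lit 66) (nat_lit 5) (nat_lit 67) (nat_lit 5) (nat_lit 283) (nat_lit 279)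 (nat_lit 158))) (XT.nd (nat_lit 78) (nat_lit 0) (nat_lit 0) (XT.lf (nat_lit 0) (nat_lit 17248057018) (nat_lit 684) (nat_lit 79617318530) (nat_lit 760) (nat_lit 4792725685) (nat_lit 58) (nat_lit 5) (nat_lit 67) (nat_lit 5) (nat_lit 68) (nat_lit 5) (nat_lit 284) (nat_lit 279) (nat_lit 157)) (XT.lf (nat_lit 0) (nat_lit 25341173060) (nat_lit 684) (nat_lit 14102001086) (nat_lit 760) (nat_lit 66690458325) (nat_lit 58) (nat_lit 5) (nat_lit 67) (nat_lit 5) (nat_lit 68) (nat_lit 5) (nat_lit 285) (nat_lit 279) (nat_lit 156)))) (XT.nd (nat_lit 156) (nat_lit 608) (nat_lit 0) (XT.nd (nat_lit 78) (nat_lit 684) (nat_lit 0) (XT.lf (nat_lit 0) (nat_lit 35362006747) (nat_lit 684) (nat_lit 52761932694) (nat_lit 76) (nat_lit 22779257814) (nat_lit 59) (nat_lit 5) (nat_lit 68) (nat_lit 5) (nat_lit 60) (nat_lit 5) (nat_lit 286) (nat_lit 279) (nat_lit 155)) (XT.lf (nat_lit 0) (nat_lit 20615490189) (nat_lit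 684) (nat_lit 26804790016) (nat_lit 760) (nat_lit 68572262496) (nat_lit 50) (nat_lit 5) (nat_lit 59) (nat_lit 5) (nat_lit 60) (nat_lit 5) (nat_lit 287) (nat_lit 279) (nat_lit 154))) (XT.nd (nat_lit 78) (nat_lit 608) (nat_lit 0) (XT.lf (nat_lit 0) (nat_lit 61992018172) (nat_lit 760) (nat_lit 20327145594) (nat_lit 76) (nat_lit 39092435712) (nat_lit 50) (nat_lit 5) (nat_lit 60) (nat_lit 5) (nat_lit 51) (nat_lit 5) (nat_lit 288) (nat_lit 279) (nat_lit 153)) (XT.nd (nat_lit 78) (nat_lit 304) (nat_lit 0) (XT.lf (nat_lit 0) (nat_lit 62267005096) (nat_lit 304) (nat_lit 16885891329) (nat_lit 380) (nat_lit 48040117854) (nat_lit 46) (nat_lit 5) (nat_lit 50) (nat_lit 5) (nat_lit 51) (nat_lit 5) (nat_lit 289) (nat_lit 279) (nat_lit 152)) (XT.lf (nat_lit 0) (nat_lit 18521938449) (nat_lit 304) (nat_lit 80652770342) (nat_lit 380) (nat_lit 34187833561) (nat_lit 42) (nat_lit 5) (nat_lit 46) (nat_lit 5)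 (nat_lit 47) (nat_lit 5) (nat_lit 290) (nat_lit 279) (nat_lit 151)))))) (XT.nd (nat_lit 312) (nat_lit 684) (nat_lit 0) (XT.nd (nat_lit 156) (nat_lit 304) (nat_lit 0) (XT.nd (nat_lit 78) (nat_lit 304) (nat_lit 0) (XT.lf (nat_lit 0) (nat_lit 110669386507) (nat_lit 304) (nat_lit 11539329864) (nat_lit 380) (nat_lit 17746396828) (nat_lit 42) (nat_lit 5) (nat_lit 46) (nat_lit 5) (nat_lit 47) (nat_lit 5) (nat_lit 291) (nat_lit 279) (nat_lit 150)) (XT.lf (nat_lit 0) (nat_lit 2029260134) (nat_lit 304) (nat_lit 82826607982) (nat_lit 76) (nat_lit 62118254358) (nat_lit 38) (nat_lit 5) (nat_lit 42) (nat_lit 5) (nat_lit 39) (nat_lit 5) (nat_lit 292) (nat_lit 279) (nat_lit 149))) (XT.nd (nat_lit 78) (nat_lit 0) (nat_lit 0) (XT.lf (nat_lit 0) (nat_lit 11435221943) (nat_lit 304) (nat_lit 12229341499) (nat_lit 380) (nat_lit 130830578250) (nat_lit 34) (nat_lit 5) (nat_lit 38) (nat_lit 5) (nat_lit 39) (nat_lit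 5) (nat_lit 293) (nat_lit 279) (nat_lit 148)) (XT.lf (nat_lit 0) (nat_lit 49530260580) (nat_lit 380) (nat_lit 47407983344) (nat_lit 76) (nat_lit 65554622340) (nat_lit 34) (nat_lit 5) (nat_lit 39) (nat_lit 5) (nat_lit 35) (nat_lit 5) (nat_lit 294) (nat_lit 279) (nat_lit 147)))) (XT.nd (nat_lit 156) (nat_lit 456) (nat_lit 0) (XT.nd (nat_lit 78) (nat_lit 0) (nat_lit 0) (XT.lf (nat_lit 0) (nat_lit 57530630933) (nat_lit 228) (nat_lit 21038496385) (nat_lit 304) (nat_lit 92506087920) (nat_lit 31) (nat_lit 5) (nat_lit 34) (nat_lit 5) (nat_lit 35) (nat_lit 5) (nat_lit 295) (nat_lit 279) (nat_lit 146)) (XT.lf (nat_lit 0) (nat_lit 111721313882) (nat_lit 304) (nat_lit 8711085164) (nat_lit 76) (nat_lit 59822244529) (nat_lit 31) (nat_lit 5) (nat_lit 35) (nat_lit 5) (nat_lit 32) (nat_lit 5) (nat_lit 296) (nat_lit 279) (nat_lit 145))) (XT.nd (nat_lit 78) (nat_lit 228) (nat_lit 0) (XT.lf (nat_lit 0)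 (nat_lit 107597580283) (nat_lit 228) (nat_lit 41962295602) (nat_lit 304) (nat_lit 40506842092) (nat_lit 28) (nat_lit 5) (nat_lit 31) (nat_lit 5) (nat_lit 32) (nat_lit 5) (nat_lit 297) (nat_lit 279) (nat_lit 144)) (XT.nd (nat_lit 78) (nat_lit 76) (nat_lit 0) (XT.lf (nat_lit 0) (nat_lit 33259297860) (nat_lit 152) (nat_lit 158507301337) (nat_lit 228) (nat_lit 8830107005) (nat_lit 26) (nat_lit 5) (nat_lit 28) (nat_lit 5) (nat_lit 29) (nat_lit 5) (nat_lit 298) (nat_lit 279) (nat_lit 143)) (XT.lf (nat_lit 0) (nat_lit 26735685305) (nat_lit 228) (nat_lit 51834235069) (nat_lit 76) (nat_lit 133270998281) (nat_lit 25) (nat_lit 5) (nat_lit 28) (nat_lit 5) (nat_lit 26) (nat_lit 5) (nat_lit 299) (nat_lit 279) (nat_lit 142))))))))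
noncomputable def xc116 : XT := (XT.nd (nat_lit 36192) (nat_lit 0) (nat_lit 1216) (XT.nd (nat_lit 624) (nat_lit 456) (nat_lit 0) (XT.nd (nat_lit 312) (nat_lit 380) (nat_lit 0) (XT.nd (nat_lit 156) (nat_lit 152) (nat_lit 0) (XT.nd (nat_lit 78) (nat_lit 0) (nat_lit 0) (XT.lf (nat_lit 0) (nat_lit 66157550354) (nat_lit 304) (nat_lit 148895877290) (nat_lit 76) (nat_lit 8857995383) (nat_lit 22) (nat_lit 5) (nat_lit 26) (nat_lit 5) (nat_lit 23) (nat_lit 5) (nat_lit 300) (nat_lit 279) (nat_lit 141)) (XT.lf (nat_lit 0) (nat_lit 110975357810) (nat_lit 304) (nat_lit 24378265945) (nat_lit 76) (nat_lit 101481835609) (nat_lit 22) (nat_lit 5) (nat_lit 26) (nat_lit 5) (nat_lit 23) (nat_lit 5) (nat_lit 301) (nat_lit 279) (nat_lit 140))) (XT.nd (nat_lit 78) (nat_lit 0) (nat_lit 0) (XT.lf (nat_lit 0) (nat_lit 113740701682) (nat_lit 152) (nat_lit 47413365902) (nat_lit 228) (nat_lit 89550578320) (nat_lit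 20) (nat_lit 5) (nat_lit 22) (nat_lit 5) (nat_lit 23) (nat_lit 5) (nat_lit 302) (nat_lit 279) (nat_lit 139)) (XT.lf (nat_lit 0) (nat_lit 216520949546) (nat_lit 228) (nat_lit 2632407389) (nat_lit 76) (nat_lit 46471317758) (nat_lit 20) (nat_lit 5) (nat_lit 23) (nat_lit 5) (nat_lit 21) (nat_lit 5) (nat_lit 303) (nat_lit 279) (nat_lit 138)))) (XT.nd (nat_lit 156) (nat_lit 0) (nat_lit 0) (XT.nd (nat_lit 78) (nat_lit 228) (nat_lit 0) (XT.lf (nat_lit 0) (nat_lit 146329198679) (nat_lit 152) (nat_lit 133071774087) (nat_lit 228) (nat_lit 2183144497) (nat_lit 18) (nat_lit 5) (nat_lit 20) (nat_lit 5) (nat_lit 21) (nat_lit 5) (nat_lit 304) (nat_lit 279) (nat_lit 137)) (XT.lf (nat_lit 0) (nat_lit 7980900670) (nat_lit 152) (nat_lit 39129091054) (nat_lit 228) (nat_lit 251663923992) (nat_lit 15) (nat_lit 5) (nat_lit 17) (nat_lit 5) (nat_lit 18) (nat_lit 5) (nat_lit 305) (nat_lit 279) (nat_lit 136)))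 (XT.nd (nat_lit 78) (nat_lit 0) (nat_lit 0) (XT.lf (nat_lit 0) (nat_lit 103638650957) (nat_lit 228) (nat_lit 150764578341) (nat_lit 76) (nat_lit 62765452169) (nat_lit 15) (nat_lit 5) (nat_lit 18) (nat_lit 5) (nat_lit 16) (nat_lit 5) (nat_lit 306) (nat_lit 279) (nat_lit 135)) (XT.lf (nat_lit 0) (nat_lit 165349139578) (nat_lit 228) (nat_lit 194035988) (nat_lit 76) (nat_lit 171458876848) (nat_lit 15) (nat_lit 5) (nat_lit 18) (nat_lit 5) (nat_lit 16) (nat_lit 5) (nat_lit 307) (nat_lit 279) (nat_lit 134))))) (XT.nd (nat_lit 312) (nat_lit 152) (nat_lit 0) (XT.nd (nat_lit 156) (nat_lit 152) (nat_lit 0) (XT.nd (nat_lit 78) (nat_lit 0) (nat_lit 0) (XT.lf (nat_lit 0) (nat_lit 167792194780) (nat_lit 152) (nat_lit 66823746217) (nat_lit 228) (nat_lit 123675179061) (nat_lit 13) (nat_lit 5) (nat_lit 15) (nat_lit 5) (nat_lit 16) (nat_lit 5) (nat_lit 308) (nat_lit 279) (nat_lit 133)) (XT.lf (nat_lit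 0) (nat_lit 310048583328) (nat_lit 228) (nat_lit 32680578120) (nat_lit 76) (nat_lit 38522927483) (nat_lit 13) (nat_lit 5) (nat_lit 16) (nat_lit 5) (nat_lit 14) (nat_lit 4) (nat_lit 309) (nat_lit 279) (nat_lit 132))) (XT.nd (nat_lit 78) (nat_lit 76) (nat_lit 0) (XT.lf (nat_lit 0) (nat_lit 141153952526) (nat_lit 76) (nat_lit 253692257663) (nat_lit 152) (nat_lit 11037207077) (nat_lit 12) (nat_lit 5) (nat_lit 13) (nat_lit 5) (nat_lit 14) (nat_lit 4) (nat_lit 310) (nat_lit 279) (nat_lit 131)) (XT.lf (nat_lit 0) (nat_lit 52794309399) (nat_lit 152) (nat_lit 103246368948) (nat_lit 76) (nat_lit 276373544078) (nat_lit 11) (nat_lit 5) (nat_lit 13) (nat_lit 5) (nat_lit 12) (nat_lit 5) (nat_lit 311) (nat_lit 279) (nat_lit 130)))) (XT.nd (nat_lit 35022) (nat_lit 0) (nat_lit 3496) (XT.nd (nat_lit 78) (nat_lit 0) (nat_lit 0) (XT.lf (nat_lit 0) (nat_lit 73315530197) (nat_lit 152) (nat_lit 49179772978)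 (nat_lit 228) (nat_lit 338505660131) (nat_lit 9) (nat_lit 5) (nat_lit 11) (nat_lit 5) (nat_lit 12) (nat_lit 5) (nat_lit 312) (nat_lit 279) (nat_lit 129)) (XT.lf (nat_lit 0) (nat_lit 200634204042) (nat_lit 228) (nat_lit 225159249340) (nat_lit 76) (nat_lit 65938099154) (nat_lit 9) (nat_lit 5) (nat_lit 12) (nat_lit 5) (nat_lit 10) (nat_lit 4) (nat_lit 313) (nat_lit 279) (nat_lit 128))) (XT.nd (nat_lit 78) (nat_lit 0) (nat_lit 0) (XT.lf (nat_lit 0) (nat_lit 247477760) (nat_lit 0) (nat_lit 247477760) (nat_lit 684) (nat_lit 44319348826) (nat_lit 55) (nat_lit 5) (nat_lit 55) (nat_lit 3) (nat_lit 64) (nat_lit 3) (nat_lit 280) (nat_lit 280) (nat_lit 160)) (XT.nd (nat_lit 78) (nat_lit 0) (nat_lit 76) (XT.lf (nat_lit 0) (nat_lit 1969819670) (nat_lit 684) (nat_lit 33602848722) (nat_lit 760) (nat_lit 57594012827) (nat_lit 55) (nat_lit 5) (nat_lit 64) (nat_lit 3) (nat_lit 65) (nat_lit 5) (nat_lit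 281) (nat_lit 280) (nat_lit 159)) (XT.lf (nat_lit 0) (nat_lit 3831677916) (nat_lit 684) (nat_lit 70104279332) (nat_lit 760) (nat_lit 23011670078) (nat_lit 56) (nat_lit 5) (nat_lit 65) (nat_lit 5) (nat_lit 66) (nat_lit 5) (nat_lit 282) (nat_lit 280) (nat_lit 158))))))) (XT.nd (nat_lit 702) (nat_lit 1292) (nat_lit 0) (XT.nd (nat_lit 312) (nat_lit 1064) (nat_lit 0) (XT.nd (nat_lit 156) (nat_lit 0) (nat_lit 152) (XT.nd (nat_lit 78) (nat_lit 0) (nat_lit 76) (XT.lf (nat_lit 0) (nat_lit 7036192359) (nat_lit 684) (nat_lit 8286688252) (nat_lit 760) (nat_lit 85648488341) (nat_lit 56) (nat_lit 5) (nat_lit 65) (nat_lit 5) (nat_lit 66) (nat_lit 5) (nat_lit 283) (nat_lit 280) (nat_lit 157)) (XT.lf (nat_lit 0) (nat_lit 12203810836) (nat_lit 684) (nat_lit 45625309924) (nat_lit 760) (nat_lit 47402556826) (nat_lit 57) (nat_lit 5) (nat_lit 66) (nat_lit 5) (nat_lit 67) (nat_lit 5) (nat_lit 284) (nat_lit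 280) (nat_lit 156))) (XT.nd (nat_lit 78) (nat_lit 0) (nat_lit 0) (XT.lf (nat_lit 0) (nat_lit 18645658752) (nat_lit 684) (nat_lit 85972456127) (nat_lit 760) (nat_lit 5171659497) (nat_lit 58) (nat_lit 5) (nat_lit 67) (nat_lit 5) (nat_lit 68) (nat_lit 5) (nat_lit 285) (nat_lit 280) (nat_lit 155)) (XT.lf (nat_lit 0) (nat_lit 27384908731) (nat_lit 684) (nat_lit 15216968687) (nat_lit 760) (nat_lit 72021542914) (nat_lit 58) (nat_lit 5) (nat_lit 67) (nat_lit 5) (nat_lit 68) (nat_lit 5) (nat_lit 286) (nat_lit 280) (nat_lit 154)))) (XT.nd (nat_lit 156) (nat_lit 608) (nat_lit 0) (XT.nd (nat_lit 78) (nat_lit 684) (nat_lit 0) (XT.lf (nat_lit 0) (nat_lit 38206344476) (nat_lit 684) (nat_lit 56969378690) (nat_lit 76) (nat_lit 24598886337) (nat_lit 59) (nat_lit 5) (nat_lit 68) (nat_lit 5) (nat_lit 60) (nat_lit 5) (nat_lit 287) (nat_lit 280) (nat_lit 153)) (XT.lf (nat_lit 0) (nat_lit 22277650956) (nat_lit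 684) (nat_lit 28950691545) (nat_lit 760) (nat_lit 74042812480) (nat_lit 50) (nat_lit 5) (nat_lit 59) (nat_lit 5) (nat_lit 60) (nat_lit 5) (nat_lit 288) (nat_lit 280) (nat_lit 152))) (XT.nd (nat_lit 78) (nat_lit 608) (nat_lit 0) (XT.lf (nat_lit 0) (nat_lit 66964727935) (nat_lit 760) (nat_lit 21940598360) (nat_lit 76) (nat_lit 42218469705) (nat_lit 50) (nat_lit 5) (nat_lit 60) (nat_lit 5) (nat_lit 51) (nat_lit 5) (nat_lit 289) (nat_lit 280) (nat_lit 151)) (XT.nd (nat_lit 78) (nat_lit 304) (nat_lit 0) (XT.lf (nat_lit 0) (nat_lit 67260531638) (nat_lit 304) (nat_lit 18237145994) (nat_lit 380) (nat_lit 51870091036) (nat_lit 46) (nat_lit 5) (nat_lit 50) (nat_lit 5) (nat_lit 51) (nat_lit 5) (nat_lit 290) (nat_lit 280) (nat_lit 150)) (XT.lf (nat_lit 0) (nat_lit 20015993566) (nat_lit 304) (nat_lit 87104498326) (nat_lit 380) (nat_lit 36910408642) (nat_lit 42) (nat_lit 5) (nat_lit 46) (nat_lit 5)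 (nat_lit 47) (nat_lit 5) (nat_lit 291) (nat_lit 280) (nat_lit 149)))))) (XT.nd (nat_lit 312) (nat_lit 684) (nat_lit 0) (XT.nd (nat_lit 156) (nat_lit 304) (nat_lit 0) (XT.nd (nat_lit 78) (nat_lit 304) (nat_lit 0) (XT.lf (nat_lit 0) (nat_lit 119534326354) (nat_lit 304) (nat_lit 12462019176) (nat_lit 380) (nat_lit 19154579312) (nat_lit 42) (nat_lit 5) (nat_lit 46) (nat_lit 5) (nat_lit 47) (nat_lit 5) (nat_lit 292) (nat_lit 280) (nat_lit 148)) (XT.lf (nat_lit 0) (nat_lit 2202123064) (nat_lit 304) (nat_lit 89440885294) (nat_lit 76) (nat_lit 67088472993) (nat_lit 38) (nat_lit 5) (nat_lit 42) (nat_lit 5) (nat_lit 39) (nat_lit 5) (nat_lit 293) (nat_lit 280) (nat_lit 147))) (XT.nd (nat_lit 78) (nat_lit 0) (nat_lit 0) (XT.lf (nat_lit 0) (nat_lit 12361375981) (nat_lit 304) (nat_lit 13206272230) (nat_lit 380) (nat_lit 141286567335) (nat_lit 34) (nat_lit 5) (nat_lit 38) (nat_lit 5) (nat_lit 39) (nat_lit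 5) (nat_lit 294) (nat_lit 280) (nat_lit 146)) (XT.lf (nat_lit 0) (nat_lit 53501886806) (nat_lit 380) (nat_lit 51189648265) (nat_lit 76) (nat_lit 70800261802) (nat_lit 34) (nat_lit 5) (nat_lit 39) (nat_lit 5) (nat_lit 35) (nat_lit 5) (nat_lit 295) (nat_lit 280) (nat_lit 145)))) (XT.nd (nat_lit 156) (nat_lit 456) (nat_lit 0) (XT.nd (nat_lit 78) (nat_lit 0) (nat_lit 0) (XT.lf (nat_lit 0) (nat_lit 62143578249) (nat_lit 228) (nat_lit 22719766640) (nat_lit 304) (nat_lit 99897417623) (nat_lit 31) (nat_lit 5) (nat_lit 34) (nat_lit 5) (nat_lit 35) (nat_lit 5) (nat_lit 296) (nat_lit 280) (nat_lit 144)) (XT.lf (nat_lit 0) (nat_lit 120667089026) (nat_lit 304) (nat_lit 9397843703) (nat_lit 76) (nat_lit 64609645889) (nat_lit 31) (nat_lit 5) (nat_lit 35) (nat_lit 5) (nat_lit 32) (nat_lit 5) (nat_lit 297) (nat_lit 280) (nat_lit 143))) (XT.nd (nat_lit 78) (nat_lit 228) (nat_lit 0) (XT.lf (nat_lit 0)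 (nat_lit 116215074817) (nat_lit 228) (nat_lit 45317214651) (nat_lit 304) (nat_lit 43739354271) (nat_lit 28) (nat_lit 5) (nat_lit 31) (nat_lit 5) (nat_lit 32) (nat_lit 5) (nat_lit 298) (nat_lit 280) (nat_lit 142)) (XT.nd (nat_lit 78) (nat_lit 76) (nat_lit 0) (XT.lf (nat_lit 0) (nat_lit 35929671718) (nat_lit 152) (nat_lit 171185494419) (nat_lit 228) (nat_lit 9528886369) (nat_lit 26) (nat_lit 5) (nat_lit 28) (nat_lit 5) (nat_lit 29) (nat_lit 5) (nat_lit 299) (nat_lit 280) (nat_lit 141)) (XT.lf (nat_lit 0) (nat_lit 28881378107) (nat_lit 228) (nat_lit 55971806182) (nat_lit 76) (nat_lit 143934641056) (nat_lit 25) (nat_lit 5) (nat_lit 28) (nat_lit 5) (nat_lit 26) (nat_lit 5) (nat_lit 300) (nat_lit 280) (nat_lit 140))))))))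
noncomputable def xc117 : XT := (XT.nd (nat_lit 36348) (nat_lit 0) (nat_lit 836) (XT.nd (nat_lit 624) (nat_lit 304) (nat_lit 0) (XT.nd (nat_lit 312) (nat_lit 380) (nat_lit 0) (XT.nd (nat_lit 156) (nat_lit 152) (nat_lit 0) (XT.nd (nat_lit 78) (nat_lit 0) (nat_lit 0) (XT.lf (nat_lit 0) (nat_lit 71456658679) (nat_lit 304) (nat_lit 160798467643) (nat_lit 76) (nat_lit 9568862273) (nat_lit 22) (nat_lit 5) (nat_lit 26) (nat_lit 5) (nat_lit 23) (nat_lit 5) (nat_lit 301) (nat_lit 280) (nat_lit 139)) (XT.lf (nat_lit 0) (nat_lit 119859408932) (nat_lit 304) (nat_lit 26320119970) (nat_lit 76) (nat_lit 109602444736) (nat_lit 22) (nat_lit 5) (nat_lit 26) (nat_lit 5) (nat_lit 23) (nat_lit 5) (nat_lit 302) (nat_lit 280) (nat_lit 138))) (XT.nd (nat_lit 78) (nat_lit 0) (nat_lit 0) (XT.lf (nat_lit 0) (nat_lit 122847999699) (nat_lit 152) (nat_lit 51204095235) (nat_lit 228) (nat_lit 96708617777) (nat_lit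 20) (nat_lit 5) (nat_lit 22) (nat_lit 5) (nat_lit 23) (nat_lit 5) (nat_lit 303) (nat_lit 280) (nat_lit 137)) (XT.lf (nat_lit 0) (nat_lit 233847938913) (nat_lit 228) (nat_lit 2835305336) (nat_lit 76) (nat_lit 50191120444) (nat_lit 20) (nat_lit 5) (nat_lit 23) (nat_lit 5) (nat_lit 21) (nat_lit 5) (nat_lit 304) (nat_lit 280) (nat_lit 136)))) (XT.nd (nat_lit 156) (nat_lit 0) (nat_lit 0) (XT.nd (nat_lit 78) (nat_lit 228) (nat_lit 0) (XT.lf (nat_lit 0) (nat_lit 158042894817) (nat_lit 152) (nat_lit 143715190501) (nat_lit 228) (nat_lit 2352492639) (nat_lit 18) (nat_lit 5) (nat_lit 20) (nat_lit 5) (nat_lit 21) (nat_lit 5) (nat_lit 305) (nat_lit 280) (nat_lit 135)) (XT.lf (nat_lit 0) (nat_lit 8626590907) (nat_lit 152) (nat_lit 42257066254) (nat_lit 228) (nat_lit 271791913560) (nat_lit 15) (nat_lit 5) (nat_lit 17) (nat_lit 5) (nat_lit 18) (nat_lit 5) (nat_lit 306) (nat_lit 280) (nat_lit 134)))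 (XT.nd (nat_lit 78) (nat_lit 0) (nat_lit 0) (XT.lf (nat_lit 0) (nat_lit 111934282684) (nat_lit 228) (nat_lit 162818855986) (nat_lit 76) (nat_lit 67788796494) (nat_lit 15) (nat_lit 5) (nat_lit 18) (nat_lit 5) (nat_lit 16) (nat_lit 5) (nat_lit 307) (nat_lit 280) (nat_lit 133)) (XT.lf (nat_lit 0) (nat_lit 178581274123) (nat_lit 228) (nat_lit 203180513) (nat_lit 76) (nat_lit 185177538987) (nat_lit 15) (nat_lit 5) (nat_lit 18) (nat_lit 5) (nat_lit 16) (nat_lit 5) (nat_lit 308) (nat_lit 280) (nat_lit 132))))) (XT.nd (nat_lit 35334) (nat_lit 0) (nat_lit 3344) (XT.nd (nat_lit 156) (nat_lit 152) (nat_lit 0) (XT.nd (nat_lit 78) (nat_lit 0) (nat_lit 0) (XT.lf (nat_lit 0) (nat_lit 181221671521) (nat_lit 152) (nat_lit 72167532030) (nat_lit 228) (nat_lit 133564994883) (nat_lit 13) (nat_lit 5) (nat_lit 15) (nat_lit 5) (nat_lit 16) (nat_lit 5) (nat_lit 309) (nat_lit 280) (nat_lit 131)) (XT.lf (nat_lit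 0) (nat_lit 334856192474) (nat_lit 228) (nat_lit 35289210125) (nat_lit 76) (nat_lit 41606656337) (nat_lit 13) (nat_lit 5) (nat_lit 16) (nat_lit 5) (nat_lit 14) (nat_lit 4) (nat_lit 310) (nat_lit 280) (nat_lit 130))) (XT.nd (nat_lit 78) (nat_lit 76) (nat_lit 0) (XT.lf (nat_lit 0) (nat_lit 152451830292) (nat_lit 76) (nat_lit 273985610284) (nat_lit 152) (nat_lit 11916463221) (nat_lit 12) (nat_lit 5) (nat_lit 13) (nat_lit 5) (nat_lit 14) (nat_lit 4) (nat_lit 311) (nat_lit 280) (nat_lit 129)) (XT.lf (nat_lit 0) (nat_lit 57021188731) (nat_lit 152) (nat_lit 111500809641) (nat_lit 76) (nat_lit 298485186148) (nat_lit 11) (nat_lit 5) (nat_lit 13) (nat_lit 5) (nat_lit 12) (nat_lit 5) (nat_lit 312) (nat_lit 280) (nat_lit 128)))) (XT.nd (nat_lit 156) (nat_lit 0) (nat_lit 76) (XT.nd (nat_lit 78) (nat_lit 0) (nat_lit 0) (XT.lf (nat_lit 0) (nat_lit 272827427) (nat_lit 0) (nat_lit 272827427) (nat_lit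 684) (nat_lit 47853183836) (nat_lit 55) (nat_lit 5) (nat_lit 55) (nat_lit 3) (nat_lit 64) (nat_lit 3) (nat_lit 281) (nat_lit 281) (nat_lit 158)) (XT.lf (nat_lit 0) (nat_lit 2147805648) (nat_lit 684) (nat_lit 36279506021) (nat_lit 760) (nat_lit 62191582436) (nat_lit 55) (nat_lit 5) (nat_lit 64) (nat_lit 3) (nat_lit 65) (nat_lit 5) (nat_lit 282) (nat_lit 281) (nat_lit 157))) (XT.nd (nat_lit 78) (nat_lit 0) (nat_lit 0) (XT.lf (nat_lit 0) (nat_lit 4157149398) (nat_lit 684) (nat_lit 75700381941) (nat_lit 760) (nat_lit 24844865245) (nat_lit 56) (nat_lit 5) (nat_lit 65) (nat_lit 5) (nat_lit 66) (nat_lit 5) (nat_lit 283) (nat_lit 281) (nat_lit 156)) (XT.nd (nat_lit 78) (nat_lit 0) (nat_lit 76) (XT.lf (nat_lit 0) (nat_lit 7616622237) (nat_lit 684) (nat_lit 8938290222) (nat_lit 760) (nat_lit 92493202187) (nat_lit 56) (nat_lit 5) (nat_lit 65) (nat_lit 5) (nat_lit 66) (nat_lit 5) (nat_lit 284) (nat_lit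 281) (nat_lit 155)) (XT.lf (nat_lit 0) (nat_lit 13196433718) (nat_lit 684) (nat_lit 49263506385) (nat_lit 760) (nat_lit 51189375143) (nat_lit 57) (nat_lit 5) (nat_lit 66) (nat_lit 5) (nat_lit 67) (nat_lit 5) (nat_lit 285) (nat_lit 281) (nat_lit 154))))))) (XT.nd (nat_lit 702) (nat_lit 1216) (nat_lit 0) (XT.nd (nat_lit 312) (nat_lit 912) (nat_lit 0) (XT.nd (nat_lit 156) (nat_lit 608) (nat_lit 0) (XT.nd (nat_lit 78) (nat_lit 0) (nat_lit 0) (XT.lf (nat_lit 0) (nat_lit 20152535365) (nat_lit 684) (nat_lit 92838037352) (nat_lit 760) (nat_lit 5581547741) (nat_lit 58) (nat_lit 5) (nat_lit 67) (nat_lit 5) (nat_lit 68) (nat_lit 5) (nat_lit 286) (nat_lit 281) (nat_lit 153)) (XT.lf (nat_lit 0) (nat_lit 29589797645) (nat_lit 684) (nat_lit 16423015751) (nat_lit 760) (nat_lit 77779706611) (nat_lit 58) (nat_lit 5) (nat_lit 67) (nat_lit 5) (nat_lit 68) (nat_lit 5) (nat_lit 287) (nat_lit 281) (nat_lit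 152))) (XT.nd (nat_lit 78) (nat_lit 684) (nat_lit 0) (XT.lf (nat_lit 0) (nat_lit 41276035496) (nat_lit 684) (nat_lit 61515347521) (nat_lit 76) (nat_lit 26564472054) (nat_lit 59) (nat_lit 5) (nat_lit 68) (nat_lit 5) (nat_lit 60) (nat_lit 5) (nat_lit 288) (nat_lit 281) (nat_lit 151)) (XT.lf (nat_lit 0) (nat_lit 24070941181) (nat_lit 684) (nat_lit 31268048591) (nat_lit 760) (nat_lit 79953179337) (nat_lit 50) (nat_lit 5) (nat_lit 59) (nat_lit 5) (nat_lit 60) (nat_lit 5) (nat_lit 289) (nat_lit 281) (nat_lit 150)))) (XT.nd (nat_lit 156) (nat_lit 608) (nat_lit 0) (XT.nd (nat_lit 78) (nat_lit 304) (nat_lit 0) (XT.lf (nat_lit 0) (nat_lit 72333350195) (nat_lit 760) (nat_lit 23684941838) (nat_lit 76) (nat_lit 45594780560) (nat_lit 50) (nat_lit 5) (nat_lit 60) (nat_lit 5) (nat_lit 51) (nat_lit 5) (nat_lit 290) (nat_lit 281) (nat_lit 149)) (XT.lf (nat_lit 0) (nat_lit 72651804669) (nat_lit 304) (nat_lit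 19696446342) (nat_lit 380) (nat_lit 56008350372) (nat_lit 46) (nat_lit 5) (nat_lit 50) (nat_lit 5) (nat_lit 51) (nat_lit 5) (nat_lit 291) (nat_lit 281) (nat_lit 148))) (XT.nd (nat_lit 78) (nat_lit 304) (nat_lit 0) (XT.lf (nat_lit 0) (nat_lit 21627818354) (nat_lit 304) (nat_lit 94072434972) (nat_lit 380) (nat_lit 39852566090) (nat_lit 42) (nat_lit 5) (nat_lit 46) (nat_lit 5) (nat_lit 47) (nat_lit 5) (nat_lit 292) (nat_lit 281) (nat_lit 147)) (XT.nd (nat_lit 78) (nat_lit 304) (nat_lit 0) (XT.lf (nat_lit 0) (nat_lit 129106836632) (nat_lit 304) (nat_lit 13458588840) (nat_lit 380) (nat_lit 20677061172) (nat_lit 42) (nat_lit 5) (nat_lit 46) (nat_lit 5) (nat_lit 47) (nat_lit 5) (nat_lit 293) (nat_lit 281) (nat_lit 146)) (XT.lf (nat_lit 0) (nat_lit 2387313930) (nat_lit 304) (nat_lit 96585995515) (nat_lit 76) (nat_lit 72456200941) (nat_lit 38) (nat_lit 5) (nat_lit 42) (nat_lit 5) (nat_lit 39)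 (nat_lit 5) (nat_lit 294) (nat_lit 281) (nat_lit 145)))))) (XT.nd (nat_lit 312) (nat_lit 684) (nat_lit 0) (XT.nd (nat_lit 156) (nat_lit 228) (nat_lit 0) (XT.nd (nat_lit 78) (nat_lit 0) (nat_lit 0) (XT.lf (nat_lit 0) (nat_lit 13360005094) (nat_lit 304) (nat_lit 14261559512) (nat_lit 380) (nat_lit 152580527380) (nat_lit 34) (nat_lit 5) (nat_lit 38) (nat_lit 5) (nat_lit 39) (nat_lit 5) (nat_lit 295) (nat_lit 281) (nat_lit 144)) (XT.lf (nat_lit 0) (nat_lit 57789929881) (nat_lit 380) (nat_lit 55275411908) (nat_lit 76) (nat_lit 76465371288) (nat_lit 34) (nat_lit 5) (nat_lit 39) (nat_lit 5) (nat_lit 35) (nat_lit 5) (nat_lit 296) (nat_lit 281) (nat_lit 143))) (XT.nd (nat_lit 78) (nat_lit 0) (nat_lit 0) (XT.lf (nat_lit 0) (nat_lit 67124063858) (nat_lit 228) (nat_lit 24535796655) (nat_lit 304) (nat_lit 107881360097) (nat_lit 31) (nat_lit 5) (nat_lit 34) (nat_lit 5) (nat_lit 35) (nat_lit 5) (nat_lit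 297) (nat_lit 281) (nat_lit 142)) (XT.lf (nat_lit 0) (nat_lit 130327374901) (nat_lit 304) (nat_lit 10140987837) (nat_lit 76) (nat_lit 69779807991) (nat_lit 31) (nat_lit 5) (nat_lit 35) (nat_lit 5) (nat_lit 32) (nat_lit 5) (nat_lit 298) (nat_lit 281) (nat_lit 141)))) (XT.nd (nat_lit 156) (nat_lit 304) (nat_lit 0) (XT.nd (nat_lit 78) (nat_lit 152) (nat_lit 0) (XT.lf (nat_lit 0) (nat_lit 125520586796) (nat_lit 228) (nat_lit 48940821762) (nat_lit 304) (nat_lit 47231613734) (nat_lit 28) (nat_lit 5) (nat_lit 31) (nat_lit 5) (nat_lit 32) (nat_lit 5) (nat_lit 299) (nat_lit 281) (nat_lit 140)) (XT.lf (nat_lit 0) (nat_lit 38812301654) (nat_lit 152) (nat_lit 184878284055) (nat_lit 228) (nat_lit 10284656471) (nat_lit 26) (nat_lit 5) (nat_lit 28) (nat_lit 5) (nat_lit 29) (nat_lit 5) (nat_lit 300) (nat_lit 281) (nat_lit 139))) (XT.nd (nat_lit 78) (nat_lit 228) (nat_lit 0) (XT.lf (nat_lit 0) (nat_lit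 31197750818) (nat_lit 228) (nat_lit 60441690858) (nat_lit 76) (nat_lit 155451095222) (nat_lit 25) (nat_lit 5) (nat_lit 28) (nat_lit 5) (nat_lit 26) (nat_lit 5) (nat_lit 301) (nat_lit 281) (nat_lit 138)) (XT.nd (nat_lit 78) (nat_lit 0) (nat_lit 0) (XT.lf (nat_lit 0) (nat_lit 77178767759) (nat_lit 304) (nat_lit 173654560563) (nat_lit 76) (nat_lit 10336280771) (nat_lit 22) (nat_lit 5) (nat_lit 26) (nat_lit 5) (nat_lit 23) (nat_lit 5) (nat_lit 302) (nat_lit 281) (nat_lit 137)) (XT.lf (nat_lit 0) (nat_lit 129453324967) (nat_lit 304) (nat_lit 28418521705) (nat_lit 76) (nat_lit 118372408385) (nat_lit 22) (nat_lit 5) (nat_lit 26) (nat_lit 5) (nat_lit 23) (nat_lit 5) (nat_lit 303) (nat_lit 281) (nat_lit 136))))))))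
noncomputable def xc118 : XT := (XT.nd (nat_lit 36426) (nat_lit 0) (nat_lit 456) (XT.nd (nat_lit 624) (nat_lit 76) (nat_lit 0) (XT.nd (nat_lit 312) (nat_lit 152) (nat_lit 0) (XT.nd (nat_lit 156) (nat_lit 380) (nat_lit 0) (XT.nd (nat_lit 78) (nat_lit 0) (nat_lit 0) (XT.lf (nat_lit 0) (nat_lit 132682734292) (nat_lit 152) (nat_lit 55298416733) (nat_lit 228) (nat_lit 104440157328) (nat_lit 20) (nat_lit 5) (nat_lit 22) (nat_lit 5) (nat_lit 23) (nat_lit 5) (nat_lit 304) (nat_lit 281) (nat_lit 135)) (XT.lf (nat_lit 0) (nat_lit 252560329413) (nat_lit 228) (nat_lit 3055532846) (nat_lit 76) (nat_lit 54208208147) (nat_lit 20) (nat_lit 5) (nat_lit 23) (nat_lit 5) (nat_lit 21) (nat_lit 5) (nat_lit 305) (nat_lit 281) (nat_lit 134))) (XT.nd (nat_lit 78) (nat_lit 228) (nat_lit 0) (XT.lf (nat_lit 0) (nat_lit 170692636626) (nat_lit 152) (nat_lit 155210411989) (nat_lit 228) (nat_lit 2536145224) (nat_lit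 18) (nat_lit 5) (nat_lit 20) (nat_lit 5) (nat_lit 21) (nat_lit 5) (nat_lit 306) (nat_lit 281) (nat_lit 133)) (XT.lf (nat_lit 0) (nat_lit 9322906609) (nat_lit 152) (nat_lit 45635615021) (nat_lit 228) (nat_lit 293530873341) (nat_lit 15) (nat_lit 5) (nat_lit 17) (nat_lit 5) (nat_lit 18) (nat_lit 5) (nat_lit 307) (nat_lit 281) (nat_lit 132)))) (XT.nd (nat_lit 156) (nat_lit 152) (nat_lit 0) (XT.nd (nat_lit 78) (nat_lit 0) (nat_lit 0) (XT.lf (nat_lit 0) (nat_lit 120892917316) (nat_lit 228) (nat_lit 175838458582) (nat_lit 76) (nat_lit 73213707613) (nat_lit 15) (nat_lit 5) (nat_lit 18) (nat_lit 5) (nat_lit 16) (nat_lit 5) (nat_lit 308) (nat_lit 281) (nat_lit 131)) (XT.lf (nat_lit 0) (nat_lit 192871379773) (nat_lit 228) (nat_lit 213966543) (nat_lit 76) (nat_lit 199993415625) (nat_lit 15) (nat_lit 5) (nat_lit 18) (nat_lit 5) (nat_lit 16) (nat_lit 5) (nat_lit 309) (nat_lit 281) (nat_lit 130)))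 (XT.nd (nat_lit 78) (nat_lit 0) (nat_lit 0) (XT.lf (nat_lit 0) (nat_lit 195724636003) (nat_lit 152) (nat_lit 77939122277) (nat_lit 228) (nat_lit 144246594934) (nat_lit 13) (nat_lit 5) (nat_lit 15) (nat_lit 5) (nat_lit 16) (nat_lit 5) (nat_lit 310) (nat_lit 281) (nat_lit 129)) (XT.lf (nat_lit 0) (nat_lit 361647879298) (nat_lit 228) (nat_lit 38107362158) (nat_lit 76) (nat_lit 44936813205) (nat_lit 13) (nat_lit 5) (nat_lit 16) (nat_lit 5) (nat_lit 14) (nat_lit 4) (nat_lit 311) (nat_lit 281) (nat_lit 128))))) (XT.nd (nat_lit 35412) (nat_lit 0) (nat_lit 3344) (XT.nd (nat_lit 35256) (nat_lit 0) (nat_lit 3268) (XT.nd (nat_lit 35178) (nat_lit 0) (nat_lit 3268) (XT.lf (nat_lit 0) (nat_lit 164652744860) (nat_lit 76) (nat_lit 295902720430) (nat_lit 152) (nat_lit 12866590616) (nat_lit 12) (nat_lit 5) (nat_lit 13) (nat_lit 5) (nat_lit 14) (nat_lit 4) (nat_lit 312) (nat_lit 281) (nat_lit 127)) (XT.lf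 (nat_lit 0) (nat_lit 299413091) (nat_lit 0) (nat_lit 299413091) (nat_lit 684) (nat_lit 51671396622) (nat_lit 55) (nat_lit 5) (nat_lit 55) (nat_lit 3) (nat_lit 64) (nat_lit 3) (nat_lit 282) (nat_lit 282) (nat_lit 156))) (XT.nd (nat_lit 78) (nat_lit 0) (nat_lit 76) (XT.lf (nat_lit 0) (nat_lit 2337120159) (nat_lit 684) (nat_lit 39171946579) (nat_lit 760) (nat_lit 67158377295) (nat_lit 55) (nat_lit 5) (nat_lit 64) (nat_lit 3) (nat_lit 65) (nat_lit 5) (nat_lit 283) (nat_lit 282) (nat_lit 155)) (XT.lf (nat_lit 0) (nat_lit 4505956988) (nat_lit 684) (nat_lit 81745918894) (nat_lit 760) (nat_lit 26825820000) (nat_lit 56) (nat_lit 5) (nat_lit 65) (nat_lit 5) (nat_lit 66) (nat_lit 5) (nat_lit 284) (nat_lit 282) (nat_lit 154)))) (XT.nd (nat_lit 156) (nat_lit 0) (nat_lit 152) (XT.nd (nat_lit 78) (nat_lit 0) (nat_lit 76) (XT.lf (nat_lit 0) (nat_lit 8240985014) (nat_lit 684) (nat_lit 9643637142) (nat_lit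 760) (nat_lit 99886515339) (nat_lit 56) (nat_lit 5) (nat_lit 65) (nat_lit 5) (nat_lit 66) (nat_lit 5) (nat_lit 285) (nat_lit 282) (nat_lit 153)) (XT.lf (nat_lit 0) (nat_lit 14266138483) (nat_lit 684) (nat_lit 53194446006) (nat_lit 760) (nat_lit 55279907331) (nat_lit 57) (nat_lit 5) (nat_lit 66) (nat_lit 5) (nat_lit 67) (nat_lit 5) (nat_lit 286) (nat_lit 282) (nat_lit 152))) (XT.nd (nat_lit 78) (nat_lit 0) (nat_lit 0) (XT.lf (nat_lit 0) (nat_lit 21777790245) (nat_lit 684) (nat_lit 100254607720) (nat_lit 760) (nat_lit 6024775507) (nat_lit 58) (nat_lit 5) (nat_lit 67) (nat_lit 5) (nat_lit 68) (nat_lit 5) (nat_lit 287) (nat_lit 282) (nat_lit 151)) (XT.nd (nat_lit 78) (nat_lit 0) (nat_lit 76) (XT.lf (nat_lit 0) (nat_lit 31969066690) (nat_lit 684) (nat_lit 17727160139) (nat_lit 760) (nat_lit 83999031239) (nat_lit 58) (nat_lit 5) (nat_lit 67) (nat_lit 5) (nat_lit 68) (nat_lit 5) (nat_lit 288)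 (nat_lit 282) (nat_lit 150)) (XT.lf (nat_lit 0) (nat_lit 44589421029) (nat_lit 684) (nat_lit 66426646083) (nat_lit 76) (nat_lit 28687636343) (nat_lit 59) (nat_lit 5) (nat_lit 68) (nat_lit 5) (nat_lit 60) (nat_lit 5) (nat_lit 289) (nat_lit 282) (nat_lit 149))))))) (XT.nd (nat_lit 702) (nat_lit 988) (nat_lit 0) (XT.nd (nat_lit 312) (nat_lit 836) (nat_lit 0) (XT.nd (nat_lit 156) (nat_lit 608) (nat_lit 0) (XT.nd (nat_lit 78) (nat_lit 0) (nat_lit 0) (XT.lf (nat_lit 0) (nat_lit 26006114201) (nat_lit 684) (nat_lit 33770608495) (nat_lit 760) (nat_lit 86338238433) (nat_lit 50) (nat_lit 5) (nat_lit 59) (nat_lit 5) (nat_lit 60) (nat_lit 5) (nat_lit 290) (nat_lit 282) (nat_lit 148)) (XT.lf (nat_lit 0) (nat_lit 78129829617) (nat_lit 760) (nat_lit 25570388427) (nat_lit 76) (nat_lit 49241362730) (nat_lit 50) (nat_lit 5) (nat_lit 60) (nat_lit 5) (nat_lit 51) (nat_lit 5) (nat_lit 291) (nat_lit 282) (nat_lit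 147))) (XT.nd (nat_lit 78) (nat_lit 304) (nat_lit 0) (XT.lf (nat_lit 0) (nat_lit 78472891515) (nat_lit 304) (nat_lit 21272443830) (nat_lit 380) (nat_lit 60479289366) (nat_lit 46) (nat_lit 5) (nat_lit 50) (nat_lit 5) (nat_lit 51) (nat_lit 5) (nat_lit 292) (nat_lit 282) (nat_lit 146)) (XT.lf (nat_lit 0) (nat_lit 23367084720) (nat_lit 304) (nat_lit 101597866928) (nat_lit 380) (nat_lit 43031619076) (nat_lit 42) (nat_lit 5) (nat_lit 46) (nat_lit 5) (nat_lit 47) (nat_lit 5) (nat_lit 293) (nat_lit 282) (nat_lit 145)))) (XT.nd (nat_lit 156) (nat_lit 532) (nat_lit 0) (XT.nd (nat_lit 78) (nat_lit 304) (nat_lit 0) (XT.lf (nat_lit 0) (nat_lit 139443754764) (nat_lit 304) (nat_lit 14534939982) (nat_lit 380) (nat_lit 22322751713) (nat_lit 42) (nat_lit 5) (nat_lit 46) (nat_lit 5) (nat_lit 47) (nat_lit 5) (nat_lit 294) (nat_lit 282) (nat_lit 144)) (XT.lf (nat_lit 0) (nat_lit 2586033116) (nat_lit 304)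 (nat_lit 104304164077) (nat_lit 76) (nat_lit 78253254380) (nat_lit 38) (nat_lit 5) (nat_lit 42) (nat_lit 5) (nat_lit 39) (nat_lit 5) (nat_lit 295) (nat_lit 282) (nat_lit 143))) (XT.nd (nat_lit 78) (nat_lit 228) (nat_lit 0) (XT.lf (nat_lit 0) (nat_lit 14437138008) (nat_lit 304) (nat_lit 15401443038) (nat_lit 380) (nat_lit 164779283236) (nat_lit 34) (nat_lit 5) (nat_lit 38) (nat_lit 5) (nat_lit 39) (nat_lit 5) (nat_lit 296) (nat_lit 282) (nat_lit 142)) (XT.nd (nat_lit 78) (nat_lit 228) (nat_lit 0) (XT.lf (nat_lit 0) (nat_lit 62419890501) (nat_lit 380) (nat_lit 59689378829) (nat_lit 76) (nat_lit 82583534240) (nat_lit 34) (nat_lit 5) (nat_lit 39) (nat_lit 5) (nat_lit 35) (nat_lit 5) (nat_lit 297) (nat_lit 282) (nat_lit 141)) (XT.lf (nat_lit 0) (nat_lit 72501704458) (nat_lit 228) (nat_lit 26497330384) (nat_lit 304) (nat_lit 116505137994) (nat_lit 31) (nat_lit 5) (nat_lit 34) (nat_lit 5) (nat_lit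 35) (nat_lit 5) (nat_lit 298) (nat_lit 282) (nat_lit 140)))))) (XT.nd (nat_lit 312) (nat_lit 532) (nat_lit 0) (XT.nd (nat_lit 156) (nat_lit 228) (nat_lit 0) (XT.nd (nat_lit 78) (nat_lit 228) (nat_lit 0) (XT.lf (nat_lit 0) (nat_lit 140759496609) (nat_lit 304) (nat_lit 10944822281) (nat_lit 76) (nat_lit 75363384700) (nat_lit 31) (nat_lit 5) (nat_lit 35) (nat_lit 5) (nat_lit 32) (nat_lit 5) (nat_lit 299) (nat_lit 282) (nat_lit 139)) (XT.lf (nat_lit 0) (nat_lit 135569354791) (nat_lit 228) (nat_lit 52854569960) (nat_lit 304) (nat_lit 51004236730) (nat_lit 28) (nat_lit 5) (nat_lit 31) (nat_lit 5) (nat_lit 32) (nat_lit 5) (nat_lit 300) (nat_lit 282) (nat_lit 138))) (XT.nd (nat_lit 78) (nat_lit 76) (nat_lit 0) (XT.lf (nat_lit 0) (nat_lit 41924364146) (nat_lit 152) (nat_lit 199666789305) (nat_lit 228) (nat_lit 11101821302) (nat_lit 26) (nat_lit 5) (nat_lit 28) (nat_lit 5) (nat_lit 29) (nat_lit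 5) (nat_lit 301) (nat_lit 282) (nat_lit 137)) (XT.lf (nat_lit 0) (nat_lit 33698597001) (nat_lit 228) (nat_lit 65270287599) (nat_lit 76) (nat_lit 167888625639) (nat_lit 25) (nat_lit 5) (nat_lit 28) (nat_lit 5) (nat_lit 26) (nat_lit 5) (nat_lit 302) (nat_lit 282) (nat_lit 136)))) (XT.nd (nat_lit 156) (nat_lit 304) (nat_lit 0) (XT.nd (nat_lit 78) (nat_lit 0) (nat_lit 0) (XT.lf (nat_lit 0) (nat_lit 83357850032) (nat_lit 304) (nat_lit 187540251462) (nat_lit 76) (nat_lit 11164820335) (nat_lit 22) (nat_lit 5) (nat_lit 26) (nat_lit 5) (nat_lit 23) (nat_lit 5) (nat_lit 303) (nat_lit 282) (nat_lit 135)) (XT.lf (nat_lit 0) (nat_lit 139814017680) (nat_lit 304) (nat_lit 30685823862) (nat_lit 76) (nat_lit 127843716891) (nat_lit 22) (nat_lit 5) (nat_lit 26) (nat_lit 5) (nat_lit 23) (nat_lit 5) (nat_lit 304) (nat_lit 282) (nat_lit 134))) (XT.nd (nat_lit 78) (nat_lit 152) (nat_lit 0) (XT.lf (nat_lit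 0) (nat_lit 143303264059) (nat_lit 152) (nat_lit 59720570147) (nat_lit 228) (nat_lit 112790954730) (nat_lit 20) (nat_lit 5) (nat_lit 22) (nat_lit 5) (nat_lit 23) (nat_lit 5) (nat_lit 305) (nat_lit 282) (nat_lit 133)) (XT.nd (nat_lit 78) (nat_lit 152) (nat_lit 0) (XT.lf (nat_lit 0) (nat_lit 272769061276) (nat_lit 228) (nat_lit 3294319680) (nat_lit 76) (nat_lit 58546406352) (nat_lit 20) (nat_lit 5) (nat_lit 23) (nat_lit 5) (nat_lit 21) (nat_lit 5) (nat_lit 306) (nat_lit 282) (nat_lit 132)) (XT.lf (nat_lit 0) (nat_lit 184353457555) (nat_lit 152) (nat_lit 167625535627) (nat_lit 228) (nat_lit 2735138672) (nat_lit 18) (nat_lit 5) (nat_lit 20) (nat_lit 5) (nat_lit 21) (nat_lit 5) (nat_lit 307) (nat_lit 282) (nat_lit 131))))))))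
noncomputable def xc119 : XT := (XT.nd (nat_lit 36582) (nat_lit 0) (nat_lit 152) (XT.nd (nat_lit 35880) (nat_lit 0) (nat_lit 2204) (XT.nd (nat_lit 312) (nat_lit 0) (nat_lit 0) (XT.nd (nat_lit 156) (nat_lit 152) (nat_lit 0) (XT.nd (nat_lit 78) (nat_lit 0) (nat_lit 0) (XT.lf (nat_lit 0) (nat_lit 10074044718) (nat_lit 152) (nat_lit 49284735371) (nat_lit 228) (nat_lit 317009576657) (nat_lit 15) (nat_lit 5) (nat_lit 17) (nat_lit 5) (nat_lit 18) (nat_lit 5) (nat_lit 308) (nat_lit 282) (nat_lit 130)) (XT.lf (nat_lit 0) (nat_lit 130567687480) (nat_lit 228) (nat_lit 189900471925) (nat_lit 76) (nat_lit 79072353776) (nat_lit 15) (nat_lit 5) (nat_lit 18) (nat_lit 5) (nat_lit 16) (nat_lit 5) (nat_lit 309) (nat_lit 282) (nat_lit 129))) (XT.nd (nat_lit 78) (nat_lit 152) (nat_lit 0) (XT.lf (nat_lit 0) (nat_lit 208304179765) (nat_lit 228) (nat_lit 226395586) (nat_lit 76) (nat_lit 215994323647) (nat_lit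 15) (nat_lit 5) (nat_lit 18) (nat_lit 5) (nat_lit 16) (nat_lit 5) (nat_lit 310) (nat_lit 282) (nat_lit 128)) (XT.lf (nat_lit 0) (nat_lit 211387091417) (nat_lit 152) (nat_lit 84172698291) (nat_lit 228) (nat_lit 155783236504) (nat_lit 13) (nat_lit 5) (nat_lit 15) (nat_lit 5) (nat_lit 16) (nat_lit 5) (nat_lit 311) (nat_lit 282) (nat_lit 127)))) (XT.nd (nat_lit 35334) (nat_lit 0) (nat_lit 3192) (XT.nd (nat_lit 35256) (nat_lit 0) (nat_lit 3192) (XT.lf (nat_lit 0) (nat_lit 390582445775) (nat_lit 228) (nat_lit 41151677488) (nat_lit 76) (nat_lit 48533150889) (nat_lit 13) (nat_lit 5) (nat_lit 16) (nat_lit 5) (nat_lit 14) (nat_lit 4) (nat_lit 312) (nat_lit 282) (nat_lit 126)) (XT.lf (nat_lit 0) (nat_lit 327446617) (nat_lit 0) (nat_lit 327446617) (nat_lit 684) (nat_lit 55796499024) (nat_lit 55) (nat_lit 5) (nat_lit 55) (nat_lit 3) (nat_lit 64) (nat_lit 3) (nat_lit 283) (nat_lit 283) (nat_lit 154)))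 (XT.nd (nat_lit 78) (nat_lit 0) (nat_lit 76) (XT.lf (nat_lit 0) (nat_lit 2539084678) (nat_lit 684) (nat_lit 42297197569) (nat_lit 760) (nat_lit 72523732891) (nat_lit 55) (nat_lit 5) (nat_lit 64) (nat_lit 3) (nat_lit 65) (nat_lit 5) (nat_lit 284) (nat_lit 283) (nat_lit 153)) (XT.nd (nat_lit 78) (nat_lit 0) (nat_lit 0) (XT.lf (nat_lit 0) (nat_lit 4880352990) (nat_lit 684) (nat_lit 88276595834) (nat_lit 760) (nat_lit 28966197616) (nat_lit 56) (nat_lit 5) (nat_lit 65) (nat_lit 5) (nat_lit 66) (nat_lit 5) (nat_lit 285) (nat_lit 283) (nat_lit 152)) (XT.lf (nat_lit 0) (nat_lit 8913152188) (nat_lit 684) (nat_lit 10406797954) (nat_lit 760) (nat_lit 107872169914) (nat_lit 56) (nat_lit 5) (nat_lit 65) (nat_lit 5) (nat_lit 66) (nat_lit 5) (nat_lit 286) (nat_lit 283) (nat_lit 151)))))) (XT.nd (nat_lit 312) (nat_lit 1140) (nat_lit 0) (XT.nd (nat_lit 156) (nat_lit 0) (nat_lit 76) (XT.nd (nat_lit 78)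 (nat_lit 0) (nat_lit 76) (XT.lf (nat_lit 0) (nat_lit 15419423790) (nat_lit 684) (nat_lit 57441307509) (nat_lit 760) (nat_lit 59698340878) (nat_lit 57) (nat_lit 5) (nat_lit 66) (nat_lit 5) (nat_lit 67) (nat_lit 5) (nat_lit 287) (nat_lit 283) (nat_lit 150)) (XT.lf (nat_lit 0) (nat_lit 23531203496) (nat_lit 684) (nat_lit 108265997753) (nat_lit 760) (nat_lit 6503931714) (nat_lit 58) (nat_lit 5) (nat_lit 67) (nat_lit 5) (nat_lit 68) (nat_lit 5) (nat_lit 288) (nat_lit 283) (nat_lit 149))) (XT.nd (nat_lit 78) (nat_lit 0) (nat_lit 76) (XT.lf (nat_lit 0) (nat_lit 34536953164) (nat_lit 684) (nat_lit 19137019446) (nat_lit 760) (nat_lit 90716337225) (nat_lit 58) (nat_lit 5) (nat_lit 67) (nat_lit 5) (nat_lit 68) (nat_lit 5) (nat_lit 289) (nat_lit 283) (nat_lit 148)) (XT.lf (nat_lit 0) (nat_lit 48166264950) (nat_lit 684) (nat_lit 71732265048) (nat_lit 76) (nat_lit 30980938166) (nat_lit 59) (nat_lit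 5) (nat_lit 68) (nat_lit 5) (nat_lit 60) (nat_lit 5) (nat_lit 290) (nat_lit 283) (nat_lit 147)))) (XT.nd (nat_lit 156) (nat_lit 608) (nat_lit 0) (XT.nd (nat_lit 78) (nat_lit 0) (nat_lit 0) (XT.lf (nat_lit 0) (nat_lit 28094746107) (nat_lit 684) (nat_lit 36473213979) (nat_lit 760) (nat_lit 93235699385) (nat_lit 50) (nat_lit 5) (nat_lit 59) (nat_lit 5) (nat_lit 60) (nat_lit 5) (nat_lit 291) (nat_lit 283) (nat_lit 146)) (XT.lf (nat_lit 0) (nat_lit 84388627686) (nat_lit 760) (nat_lit 27608004449) (nat_lit 76) (nat_lit 53179814174) (nat_lit 50) (nat_lit 5) (nat_lit 60) (nat_lit 5) (nat_lit 51) (nat_lit 5) (nat_lit 292) (nat_lit 283) (nat_lit 145))) (XT.nd (nat_lit 78) (nat_lit 304) (nat_lit 0) (XT.lf (nat_lit 0) (nat_lit 84758389565) (nat_lit 304) (nat_lit 22974480918) (nat_lit 380) (nat_lit 65309291435) (nat_lit 46) (nat_lit 5) (nat_lit 50) (nat_lit 5) (nat_lit 51) (nat_lit 5) (nat_lit 293)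 (nat_lit 283) (nat_lit 144)) (XT.nd (nat_lit 78) (nat_lit 0) (nat_lit 0) (XT.lf (nat_lit 0) (nat_lit 25244202610) (nat_lit 304) (nat_lit 109725385203) (nat_lit 380) (nat_lit 46466301980) (nat_lit 42) (nat_lit 5) (nat_lit 46) (nat_lit 5) (nat_lit 47) (nat_lit 5) (nat_lit 294) (nat_lit 283) (nat_lit 143)) (XT.lf (nat_lit 0) (nat_lit 150606432101) (nat_lit 304) (nat_lit 15697447145) (nat_lit 380) (nat_lit 24101306458) (nat_lit 42) (nat_lit 5) (nat_lit 46) (nat_lit 5) (nat_lit 47) (nat_lit 5) (nat_lit 295) (nat_lit 283) (nat_lit 142))))))) (XT.nd (nat_lit 702) (nat_lit 532) (nat_lit 0) (XT.nd (nat_lit 312) (nat_lit 684) (nat_lit 0) (XT.nd (nat_lit 156) (nat_lit 228) (nat_lit 0) (XT.nd (nat_lit 78) (nat_lit 304) (nat_lit 0) (XT.lf (nat_lit 0) (nat_lit 2799546485) (nat_lit 304) (nat_lit 112641028857) (nat_lit 76) (nat_lit 84513992579) (nat_lit 38) (nat_lit 5) (nat_lit 42) (nat_lit 5) (nat_lit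 39) (nat_lit 5) (nat_lit 296) (nat_lit 283) (nat_lit 141)) (XT.lf (nat_lit 0) (nat_lit 15599252830) (nat_lit 304) (nat_lit 16632665789) (nat_lit 380) (nat_lit 177955036101) (nat_lit 34) (nat_lit 5) (nat_lit 38) (nat_lit 5) (nat_lit 39) (nat_lit 5) (nat_lit 297) (nat_lit 283) (nat_lit 140))) (XT.nd (nat_lit 78) (nat_lit 228) (nat_lit 0) (XT.lf (nat_lit 0) (nat_lit 67419282692) (nat_lit 380) (nat_lit 64457613814) (nat_lit 76) (nat_lit 89191017090) (nat_lit 34) (nat_lit 5) (nat_lit 39) (nat_lit 5) (nat_lit 35) (nat_lit 5) (nat_lit 298) (nat_lit 283) (nat_lit 139)) (XT.lf (nat_lit 0) (nat_lit 78308455605) (nat_lit 228) (nat_lit 28615976551) (nat_lit 304) (nat_lit 125819778362) (nat_lit 31) (nat_lit 5) (nat_lit 34) (nat_lit 5) (nat_lit 35) (nat_lit 5) (nat_lit 299) (nat_lit 283) (nat_lit 138)))) (XT.nd (nat_lit 156) (nat_lit 456) (nat_lit 0) (XT.nd (nat_lit 78) (nat_lit 228) (nat_lit 0) (XT.lf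 (nat_lit 0) (nat_lit 152025341827) (nat_lit 304) (nat_lit 11814025533) (nat_lit 76) (nat_lit 81393477483) (nat_lit 31) (nat_lit 5) (nat_lit 35) (nat_lit 5) (nat_lit 32) (nat_lit 5) (nat_lit 300) (nat_lit 283) (nat_lit 137)) (XT.lf (nat_lit 0) (nat_lit 146421008328) (nat_lit 228) (nat_lit 57081634509) (nat_lit 304) (nat_lit 55079512137) (nat_lit 28) (nat_lit 5) (nat_lit 31) (nat_lit 5) (nat_lit 32) (nat_lit 5) (nat_lit 301) (nat_lit 283) (nat_lit 136))) (XT.nd (nat_lit 78) (nat_lit 304) (nat_lit 0) (XT.lf (nat_lit 0) (nat_lit 45284381830) (nat_lit 152) (nat_lit 215638625698) (nat_lit 228) (nat_lit 11985159318) (nat_lit 26) (nat_lit 5) (nat_lit 28) (nat_lit 5) (nat_lit 29) (nat_lit 5) (nat_lit 302) (nat_lit 283) (nat_lit 135)) (XT.nd (nat_lit 78) (nat_lit 228) (nat_lit 0) (XT.lf (nat_lit 0) (nat_lit 36398793847) (nat_lit 228) (nat_lit 70486133405) (nat_lit 76) (nat_lit 181320952658) (nat_lit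 25) (nat_lit 5) (nat_lit 28) (nat_lit 5) (nat_lit 26) (nat_lit 5) (nat_lit 303) (nat_lit 283) (nat_lit 134)) (XT.lf (nat_lit 0) (nat_lit 90030576845) (nat_lit 304) (nat_lit 202537749745) (nat_lit 76) (nat_lit 12059409514) (nat_lit 22) (nat_lit 5) (nat_lit 26) (nat_lit 5) (nat_lit 23) (nat_lit 5) (nat_lit 304) (nat_lit 283) (nat_lit 133)))))) (XT.nd (nat_lit 312) (nat_lit 228) (nat_lit 0) (XT.nd (nat_lit 156) (nat_lit 152) (nat_lit 0) (XT.nd (nat_lit 78) (nat_lit 152) (nat_lit 0) (XT.lf (nat_lit 0) (nat_lit 151002934289) (nat_lit 304) (nat_lit 33135391777) (nat_lit 76) (nat_lit 138072513827) (nat_lit 22) (nat_lit 5) (nat_lit 26) (nat_lit 5) (nat_lit 23) (nat_lit 5) (nat_lit 305) (nat_lit 283) (nat_lit 132)) (XT.lf (nat_lit 0) (nat_lit 154772592933) (nat_lit 152) (nat_lit 64496741200) (nat_lit 228) (nat_lit 121810445800) (nat_lit 20) (nat_lit 5) (nat_lit 22) (nat_lit 5) (nat_lit 23) (nat_lit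 5) (nat_lit 306) (nat_lit 283) (nat_lit 131))) (XT.nd (nat_lit 78) (nat_lit 152) (nat_lit 0) (XT.lf (nat_lit 0) (nat_lit 294593934523) (nat_lit 228) (nat_lit 3553016324) (nat_lit 76) (nat_lit 63231440493) (nat_lit 20) (nat_lit 5) (nat_lit 23) (nat_lit 5) (nat_lit 21) (nat_lit 5) (nat_lit 307) (nat_lit 283) (nat_lit 130)) (XT.lf (nat_lit 0) (nat_lit 199106372362) (nat_lit 152) (nat_lit 181034113010) (nat_lit 228) (nat_lit 2950607713) (nat_lit 18) (nat_lit 5) (nat_lit 20) (nat_lit 5) (nat_lit 21) (nat_lit 5) (nat_lit 308) (nat_lit 283) (nat_lit 129)))) (XT.nd (nat_lit 156) (nat_lit 0) (nat_lit 0) (XT.nd (nat_lit 78) (nat_lit 0) (nat_lit 0) (XT.lf (nat_lit 0) (nat_lit 10884516975) (nat_lit 152) (nat_lit 53226031988) (nat_lit 228) (nat_lit 342367113580) (nat_lit 15) (nat_lit 5) (nat_lit 17) (nat_lit 5) (nat_lit 18) (nat_lit 5) (nat_lit 309) (nat_lit 283) (nat_lit 128)) (XT.lf (nat_lit 0)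 (nat_lit 141015963227) (nat_lit 228) (nat_lit 205088168678) (nat_lit 76) (nat_lit 85399470571) (nat_lit 15) (nat_lit 5) (nat_lit 18) (nat_lit 5) (nat_lit 16) (nat_lit 5) (nat_lit 310) (nat_lit 283) (nat_lit 127))) (XT.nd (nat_lit 35412) (nat_lit 0) (nat_lit 3040) (XT.lf (nat_lit 0) (nat_lit 224971162988) (nat_lit 228) (nat_lit 240487787) (nat_lit 76) (nat_lit 233275099624) (nat_lit 15) (nat_lit 5) (nat_lit 18) (nat_lit 5) (nat_lit 16) (nat_lit 5) (nat_lit 311) (nat_lit 283) (nat_lit 126)) (XT.nd (nat_lit 78) (nat_lit 0) (nat_lit 0) (XT.lf (nat_lit 0) (nat_lit 357140699) (nat_lit 0) (nat_lit 357140699) (nat_lit 684) (nat_lit 60252837835) (nat_lit 55) (nat_lit 5) (nat_lit 55) (nat_lit 3) (nat_lit 64) (nat_lit 3) (nat_lit 284) (nat_lit 284) (nat_lit 152)) (XT.lf (nat_lit 0) (nat_lit 2755067167) (nat_lit 684) (nat_lit 45673681935) (nat_lit 760) (nat_lit 78319360441) (nat_lit 55) (nat_lit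 5) (nat_lit 64) (nat_lit 3) (nat_lit 65) (nat_lit 5) (nat_lit 285) (nat_lit 284) (nat_lit 151))))))))
noncomputable def xc120 : XT := (XT.nd (nat_lit 1326) (nat_lit 988) (nat_lit 0) (XT.nd (nat_lit 624) (nat_lit 1672) (nat_lit 0) (XT.nd (nat_lit 312) (nat_lit 456) (nat_lit 0) (XT.nd (nat_lit 156) (nat_lit 0) (nat_lit 76) (XT.nd (nat_lit 78) (nat_lit 0) (nat_lit 0) (XT.lf (nat_lit 0) (nat_lit 5282714908) (nat_lit 684) (nat_lit 95331010389) (nat_lit 760) (nat_lit 31278616896) (nat_lit 56) (nat_lit 5) (nat_lit 65) (nat_lit 5) (nat_lit 66) (nat_lit 5) (nat_lit 286) (nat_lit 284) (nat_lit 150)) (XT.lf (nat_lit 0) (nat_lit 9637254066) (nat_lit 684) (nat_lit 11232200021) (nat_lit 760) (nat_lit 116497428202) (nat_lit 56) (nat_lit 5) (nat_lit 65) (nat_lit 5) (nat_lit 66) (nat_lit 5) (nat_lit 287) (nat_lit 284) (nat_lit 149))) (XT.nd (nat_lit 78) (nat_lit 0) (nat_lit 76) (XT.lf (nat_lit 0) (nat_lit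 16663260811) (nat_lit 684) (nat_lit 62029158253) (nat_lit 760) (nat_lit 64470813911) (nat_lit 57) (nat_lit 5) (nat_lit 66) (nat_lit 5) (nat_lit 67) (nat_lit 5) (nat_lit 288) (nat_lit 284) (nat_lit 148)) (XT.lf (nat_lit 0) (nat_lit 25423293423) (nat_lit 684) (nat_lit 116919579884) (nat_lit 760) (nat_lit 7021823554) (nat_lit 58) (nat_lit 5) (nat_lit 67) (nat_lit 5) (nat_lit 68) (nat_lit 5) (nat_lit 289) (nat_lit 284) (nat_lit 147)))) (XT.nd (nat_lit 156) (nat_lit 608) (nat_lit 0) (XT.nd (nat_lit 78) (nat_lit 0) (nat_lit 76) (XT.lf (nat_lit 0) (nat_lit 37308792424) (nat_lit 684) (nat_lit 20660853512) (nat_lit 760) (nat_lit 97971400965) (nat_lit 58) (nat_lit 5) (nat_lit 67) (nat_lit 5) (nat_lit 68) (nat_lit 5) (nat_lit 290) (nat_lit 284) (nat_lit 146)) (XT.lf (nat_lit 0) (nat_lit 52027873963) (nat_lit 684) (nat_lit 77463547965) (nat_lit 76) (nat_lit 33457947955) (nat_lit 59) (nat_lit 5)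 (nat_lit 68) (nat_lit 5) (nat_lit 60) (nat_lit 5) (nat_lit 291) (nat_lit 284) (nat_lit 145))) (XT.nd (nat_lit 78) (nat_lit 0) (nat_lit 0) (XT.lf (nat_lit 0) (nat_lit 30349306908) (nat_lit 684) (nat_lit 39391891403) (nat_lit 760) (nat_lit 100686326492) (nat_lit 50) (nat_lit 5) (nat_lit 59) (nat_lit 5) (nat_lit 60) (nat_lit 5) (nat_lit 292) (nat_lit 284) (nat_lit 144)) (XT.lf (nat_lit 0) (nat_lit 91146929577) (nat_lit 760) (nat_lit 29809773189) (nat_lit 76) (nat_lit 57433464075) (nat_lit 50) (nat_lit 5) (nat_lit 60) (nat_lit 5) (nat_lit 51) (nat_lit 5) (nat_lit 293) (nat_lit 284) (nat_lit 143))))) (XT.nd (nat_lit 312) (nat_lit 760) (nat_lit 0) (XT.nd (nat_lit 156) (nat_lit 304) (nat_lit 0) (XT.nd (nat_lit 78) (nat_lit 304) (nat_lit 0) (XT.lf (nat_lit 0) (nat_lit 91545633714) (nat_lit 304) (nat_lit 24812646509) (nat_lit 380) (nat_lit 70526883618) (nat_lit 46) (nat_lit 5) (nat_lit 50) (nat_lit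 5) (nat_lit 51) (nat_lit 5) (nat_lit 294) (nat_lit 284) (nat_lit 142)) (XT.lf (nat_lit 0) (nat_lit 27270384149) (nat_lit 304) (nat_lit 118503149319) (nat_lit 380) (nat_lit 50176878924) (nat_lit 42) (nat_lit 5) (nat_lit 46) (nat_lit 5) (nat_lit 47) (nat_lit 5) (nat_lit 295) (nat_lit 284) (nat_lit 141))) (XT.nd (nat_lit 78) (nat_lit 304) (nat_lit 0) (XT.lf (nat_lit 0) (nat_lit 162661099752) (nat_lit 304) (nat_lit 16952995972) (nat_lit 380) (nat_lit 26023182073) (nat_lit 42) (nat_lit 5) (nat_lit 46) (nat_lit 5) (nat_lit 47) (nat_lit 5) (nat_lit 296) (nat_lit 284) (nat_lit 140)) (XT.lf (nat_lit 0) (nat_lit 3029194977) (nat_lit 304) (nat_lit 121645908263) (nat_lit 76) (nat_lit 91275521664) (nat_lit 38) (nat_lit 5) (nat_lit 42) (nat_lit 5) (nat_lit 39) (nat_lit 5) (nat_lit 297) (nat_lit 284) (nat_lit 139)))) (XT.nd (nat_lit 156) (nat_lit 456) (nat_lit 0) (XT.nd (nat_lit 78) (nat_lit 0) (nat_lit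 0) (XT.lf (nat_lit 0) (nat_lit 16853317697) (nat_lit 304) (nat_lit 17962513714) (nat_lit 380) (nat_lit 192185789303) (nat_lit 34) (nat_lit 5) (nat_lit 38) (nat_lit 5) (nat_lit 39) (nat_lit 5) (nat_lit 298) (nat_lit 284) (nat_lit 138)) (XT.lf (nat_lit 0) (nat_lit 72817798688) (nat_lit 380) (nat_lit 69608294145) (nat_lit 76) (nat_lit 96326984424) (nat_lit 34) (nat_lit 5) (nat_lit 39) (nat_lit 5) (nat_lit 35) (nat_lit 5) (nat_lit 299) (nat_lit 284) (nat_lit 137))) (XT.nd (nat_lit 78) (nat_lit 228) (nat_lit 0) (XT.lf (nat_lit 0) (nat_lit 84578803170) (nat_lit 228) (nat_lit 30904277082) (nat_lit 304) (nat_lit 135880413210) (nat_lit 31) (nat_lit 5) (nat_lit 34) (nat_lit 5) (nat_lit 35) (nat_lit 5) (nat_lit 300) (nat_lit 284) (nat_lit 136)) (XT.nd (nat_lit 78) (nat_lit 228) (nat_lit 0) (XT.lf (nat_lit 0) (nat_lit 164191729162) (nat_lit 304) (nat_lit 12753675584) (nat_lit 76) (nat_lit 87905831889)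 (nat_lit 31) (nat_lit 5) (nat_lit 35) (nat_lit 5) (nat_lit 32) (nat_lit 5) (nat_lit 301) (nat_lit 284) (nat_lit 135)) (XT.lf (nat_lit 0) (nat_lit 158139923179) (nat_lit 228) (nat_lit 61647049831) (nat_lit 304) (nat_lit 59481531946) (nat_lit 28) (nat_lit 5) (nat_lit 31) (nat_lit 5) (nat_lit 32) (nat_lit 5) (nat_lit 302) (nat_lit 284) (nat_lit 134))))))) (XT.nd (nat_lit 36114) (nat_lit 0) (nat_lit 2660) (XT.nd (nat_lit 312) (nat_lit 532) (nat_lit 0) (XT.nd (nat_lit 156) (nat_lit 228) (nat_lit 0) (XT.nd (nat_lit 78) (nat_lit 76) (nat_lit 0) (XT.lf (nat_lit 0) (nat_lit 48912335182) (nat_lit 152) (nat_lit 232888423958) (nat_lit 228) (nat_lit 12939850245) (nat_lit 26) (nat_lit 5) (nat_lit 28) (nat_lit 5) (nat_lit 29) (nat_lit 5) (nat_lit 303) (nat_lit 284) (nat_lit 133)) (XT.lf (nat_lit 0) (nat_lit 39314391701) (nat_lit 228) (nat_lit 76120071058) (nat_lit 76) (nat_lit 195827689372) (nat_lit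 25) (nat_lit 5) (nat_lit 28) (nat_lit 5) (nat_lit 26) (nat_lit 5) (nat_lit 304) (nat_lit 284) (nat_lit 132))) (XT.nd (nat_lit 78) (nat_lit 0) (nat_lit 0) (XT.lf (nat_lit 0) (nat_lit 97236537062) (nat_lit 304) (nat_lit 218735864175) (nat_lit 76) (nat_lit 13025365594) (nat_lit 22) (nat_lit 5) (nat_lit 26) (nat_lit 5) (nat_lit 23) (nat_lit 5) (nat_lit 305) (nat_lit 284) (nat_lit 131)) (XT.lf (nat_lit 0) (nat_lit 163086422799) (nat_lit 304) (nat_lit 35781680943) (nat_lit 76) (nat_lit 149119429118) (nat_lit 22) (nat_lit 5) (nat_lit 26) (nat_lit 5) (nat_lit 23) (nat_lit 5) (nat_lit 306) (nat_lit 284) (nat_lit 130)))) (XT.nd (nat_lit 156) (nat_lit 380) (nat_lit 0) (XT.nd (nat_lit 78) (nat_lit 0) (nat_lit 0) (XT.lf (nat_lit 0) (nat_lit 167158745146) (nat_lit 152) (nat_lit 69655216299) (nat_lit 228) (nat_lit 131552036172) (nat_lit 20) (nat_lit 5) (nat_lit 22) (nat_lit 5) (nat_lit 23) (nat_lit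 5) (nat_lit 307) (nat_lit 284) (nat_lit 129)) (XT.lf (nat_lit 0) (nat_lit 318164319951) (nat_lit 228) (nat_lit 3833100453) (nat_lit 76) (nat_lit 68291088819) (nat_lit 20) (nat_lit 5) (nat_lit 23) (nat_lit 5) (nat_lit 21) (nat_lit 5) (nat_lit 308) (nat_lit 284) (nat_lit 128))) (XT.nd (nat_lit 78) (nat_lit 228) (nat_lit 0) (XT.lf (nat_lit 0) (nat_lit 215038858662) (nat_lit 152) (nat_lit 195515585649) (nat_lit 228) (nat_lit 3183791059) (nat_lit 18) (nat_lit 5) (nat_lit 20) (nat_lit 5) (nat_lit 21) (nat_lit 5) (nat_lit 309) (nat_lit 284) (nat_lit 127)) (XT.nd (nat_lit 78) (nat_lit 0) (nat_lit 0) (XT.lf (nat_lit 0) (nat_lit 11759178093) (nat_lit 152) (nat_lit 57482843790) (nat_lit 228) (nat_lit 369753714139) (nat_lit 15) (nat_lit 5) (nat_lit 17) (nat_lit 5) (nat_lit 18) (nat_lit 5) (nat_lit 310) (nat_lit 284) (nat_lit 126)) (XT.lf (nat_lit 0) (nat_lit 152299692917) (nat_lit 228) (nat_lit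 221491500464) (nat_lit 76) (nat_lit 92232567185) (nat_lit 15) (nat_lit 5) (nat_lit 18) (nat_lit 5) (nat_lit 16) (nat_lit 5) (nat_lit 311) (nat_lit 284) (nat_lit 125)))))) (XT.nd (nat_lit 312) (nat_lit 380) (nat_lit 0) (XT.nd (nat_lit 156) (nat_lit 0) (nat_lit 76) (XT.nd (nat_lit 78) (nat_lit 0) (nat_lit 0) (XT.lf (nat_lit 0) (nat_lit 388711228) (nat_lit 0) (nat_lit 388711228) (nat_lit 684) (nat_lit 65066736749) (nat_lit 55) (nat_lit 5) (nat_lit 55) (nat_lit 3) (nat_lit 64) (nat_lit 3) (nat_lit 285) (nat_lit 285) (nat_lit 150)) (XT.lf (nat_lit 0) (nat_lit 2986494245) (nat_lit 684) (nat_lit 49321325255) (nat_lit 760) (nat_lit 84579532836) (nat_lit 55) (nat_lit 5) (nat_lit 64) (nat_lit 3) (nat_lit 65) (nat_lit 5) (nat_lit 286) (nat_lit 285) (nat_lit 149))) (XT.nd (nat_lit 78) (nat_lit 0) (nat_lit 0) (XT.lf (nat_lit 0) (nat_lit 5715563307) (nat_lit 684) (nat_lit 102950878471) (nat_lit 760)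 (nat_lit 33776725409) (nat_lit 56) (nat_lit 5) (nat_lit 65) (nat_lit 5) (nat_lit 66) (nat_lit 5) (nat_lit 287) (nat_lit 285) (nat_lit 148)) (XT.lf (nat_lit 0) (nat_lit 10417707730) (nat_lit 684) (nat_lit 12124653107) (nat_lit 760) (nat_lit 125813351312) (nat_lit 56) (nat_lit 5) (nat_lit 65) (nat_lit 5) (nat_lit 66) (nat_lit 5) (nat_lit 288) (nat_lit 285) (nat_lit 147)))) (XT.nd (nat_lit 156) (nat_lit 532) (nat_lit 0) (XT.nd (nat_lit 78) (nat_lit 0) (nat_lit 76) (XT.lf (nat_lit 0) (nat_lit 18005137792) (nat_lit 684) (nat_lit 66985100433) (nat_lit 760) (nat_lit 69625569012) (nat_lit 57) (nat_lit 5) (nat_lit 66) (nat_lit 5) (nat_lit 67) (nat_lit 5) (nat_lit 289) (nat_lit 285) (nat_lit 146)) (XT.lf (nat_lit 0) (nat_lit 27465381903) (nat_lit 684) (nat_lit 126266546747) (nat_lit 760) (nat_lit 7581492366) (nat_lit 58) (nat_lit 5) (nat_lit 67) (nat_lit 5) (nat_lit 68) (nat_lit 5) (nat_lit 290)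 (nat_lit 285) (nat_lit 145))) (XT.nd (nat_lit 78) (nat_lit 608) (nat_lit 0) (XT.lf (nat_lit 0) (nat_lit 40301111565) (nat_lit 684) (nat_lit 22307611119) (nat_lit 760) (nat_lit 105807189828) (nat_lit 58) (nat_lit 5) (nat_lit 67) (nat_lit 5) (nat_lit 68) (nat_lit 5) (nat_lit 291) (nat_lit 285) (nat_lit 144)) (XT.nd (nat_lit 78) (nat_lit 684) (nat_lit 0) (XT.lf (nat_lit 0) (nat_lit 56197226494) (nat_lit 684) (nat_lit 83654374698) (nat_lit 76) (nat_lit 36133327564) (nat_lit 59) (nat_lit 5) (nat_lit 68) (nat_lit 5) (nat_lit 60) (nat_lit 5) (nat_lit 292) (nat_lit 285) (nat_lit 143)) (XT.lf (nat_lit 0) (nat_lit 32783236639) (nat_lit 684) (nat_lit 42543945996) (nat_lit 760) (nat_lit 108734177704) (nat_lit 50) (nat_lit 5) (nat_lit 59) (nat_lit 5) (nat_lit 60) (nat_lit 5) (nat_lit 293) (nat_lit 285) (nat_lit 142))))))))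
noncomputable def xc121 : XT := (XT.nd (nat_lit 1326) (nat_lit 228) (nat_lit 0) (XT.nd (nat_lit 624) (nat_lit 988) (nat_lit 0) (XT.nd (nat_lit 312) (nat_lit 836) (nat_lit 0) (XT.nd (nat_lit 156) (nat_lit 304) (nat_lit 0) (XT.nd (nat_lit 78) (nat_lit 304) (nat_lit 0) (XT.lf (nat_lit 0) (nat_lit 98444866794) (nat_lit 760) (nat_lit 32188663741) (nat_lit 76) (nat_lit 62027510858) (nat_lit 50) (nat_lit 5) (nat_lit 60) (nat_lit 5) (nat_lit 51) (nat_lit 5) (nat_lit 294) (nat_lit 285) (nat_lit 141)) (XT.lf (nat_lit 0) (nat_lit 98874919685) (nat_lit 304) (nat_lit 26797835799) (nat_lit 380) (nat_lit 76162903364) (nat_lit 46) (nat_lit 5) (nat_lit 50) (nat_lit 5) (nat_lit 51) (nat_lit 5) (nat_lit 295) (nat_lit 285) (nat_lit 140))) (XT.nd (nat_lit 78) (nat_lit 0) (nat_lit 0) (XT.lf (nat_lit 0) (nat_lit 29457712179) (nat_lit 304) (nat_lit 127983172612) (nat_lit 380) (nat_lit 54185261736) (nat_lit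 42) (nat_lit 5) (nat_lit 46) (nat_lit 5) (nat_lit 47) (nat_lit 5) (nat_lit 296) (nat_lit 285) (nat_lit 139)) (XT.lf (nat_lit 0) (nat_lit 175679263009) (nat_lit 304) (nat_lit 18309023934) (nat_lit 380) (nat_lit 28099696359) (nat_lit 42) (nat_lit 5) (nat_lit 46) (nat_lit 5) (nat_lit 47) (nat_lit 5) (nat_lit 297) (nat_lit 285) (nat_lit 138)))) (XT.nd (nat_lit 156) (nat_lit 228) (nat_lit 0) (XT.nd (nat_lit 78) (nat_lit 304) (nat_lit 0) (XT.lf (nat_lit 0) (nat_lit 3276404352) (nat_lit 304) (nat_lit 131372091466) (nat_lit 76) (nat_lit 98577914630) (nat_lit 38) (nat_lit 5) (nat_lit 42) (nat_lit 5) (nat_lit 39) (nat_lit 5) (nat_lit 298) (nat_lit 285) (nat_lit 137)) (XT.lf (nat_lit 0) (nat_lit 18206834005) (nat_lit 304) (nat_lit 19398858656) (nat_lit 380) (nat_lit 207555808752) (nat_lit 34) (nat_lit 5) (nat_lit 38) (nat_lit 5) (nat_lit 39) (nat_lit 5) (nat_lit 299) (nat_lit 285) (nat_lit 136)))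 (XT.nd (nat_lit 78) (nat_lit 228) (nat_lit 0) (XT.lf (nat_lit 0) (nat_lit 78647486455) (nat_lit 380) (nat_lit 75171874709) (nat_lit 76) (nat_lit 104033731283) (nat_lit 34) (nat_lit 5) (nat_lit 39) (nat_lit 5) (nat_lit 35) (nat_lit 5) (nat_lit 300) (nat_lit 285) (nat_lit 135)) (XT.lf (nat_lit 0) (nat_lit 91349969492) (nat_lit 228) (nat_lit 33375781121) (nat_lit 304) (nat_lit 146746604651) (nat_lit 31) (nat_lit 5) (nat_lit 34) (nat_lit 5) (nat_lit 35) (nat_lit 5) (nat_lit 301) (nat_lit 285) (nat_lit 134))))) (XT.nd (nat_lit 312) (nat_lit 532) (nat_lit 0) (XT.nd (nat_lit 156) (nat_lit 228) (nat_lit 0) (XT.nd (nat_lit 78) (nat_lit 228) (nat_lit 0) (XT.lf (nat_lit 0) (nat_lit 177330805481) (nat_lit 304) (nat_lit 13769278281) (nat_lit 76) (nat_lit 94939049646) (nat_lit 31) (nat_lit 5) (nat_lit 35) (nat_lit 5) (nat_lit 32) (nat_lit 5) (nat_lit 302) (nat_lit 285) (nat_lit 133)) (XT.lf (nat_lit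 0) (nat_lit 170795604503) (nat_lit 228) (nat_lit 66577857509) (nat_lit 304) (nat_lit 64236332655) (nat_lit 28) (nat_lit 5) (nat_lit 31) (nat_lit 5) (nat_lit 32) (nat_lit 5) (nat_lit 303) (nat_lit 285) (nat_lit 132))) (XT.nd (nat_lit 78) (nat_lit 76) (nat_lit 0) (XT.lf (nat_lit 0) (nat_lit 52829782563) (nat_lit 152) (nat_lit 251518390368) (nat_lit 228) (nat_lit 13971504470) (nat_lit 26) (nat_lit 5) (nat_lit 28) (nat_lit 5) (nat_lit 29) (nat_lit 5) (nat_lit 304) (nat_lit 285) (nat_lit 131)) (XT.lf (nat_lit 0) (nat_lit 42462710343) (nat_lit 228) (nat_lit 82205430327) (nat_lit 76) (nat_lit 211494813730) (nat_lit 25) (nat_lit 5) (nat_lit 28) (nat_lit 5) (nat_lit 26) (nat_lit 5) (nat_lit 305) (nat_lit 285) (nat_lit 130)))) (XT.nd (nat_lit 156) (nat_lit 304) (nat_lit 0) (XT.nd (nat_lit 78) (nat_lit 0) (nat_lit 0) (XT.lf (nat_lit 0) (nat_lit 105018472775) (nat_lit 304) (nat_lit 236230527590)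 (nat_lit 76) (nat_lit 14068426494) (nat_lit 22) (nat_lit 5) (nat_lit 26) (nat_lit 5) (nat_lit 23) (nat_lit 5) (nat_lit 306) (nat_lit 285) (nat_lit 129)) (XT.lf (nat_lit 0) (nat_lit 176136126205) (nat_lit 304) (nat_lit 38640321235) (nat_lit 76) (nat_lit 161049938681) (nat_lit 22) (nat_lit 5) (nat_lit 26) (nat_lit 5) (nat_lit 23) (nat_lit 5) (nat_lit 307) (nat_lit 285) (nat_lit 128))) (XT.nd (nat_lit 78) (nat_lit 152) (nat_lit 0) (XT.lf (nat_lit 0) (nat_lit 180535169705) (nat_lit 152) (nat_lit 75226549758) (nat_lit 228) (nat_lit 142073416751) (nat_lit 20) (nat_lit 5) (nat_lit 22) (nat_lit 5) (nat_lit 23) (nat_lit 5) (nat_lit 308) (nat_lit 285) (nat_lit 127)) (XT.nd (nat_lit 78) (nat_lit 152) (nat_lit 0) (XT.lf (nat_lit 0) (nat_lit 343619926681) (nat_lit 228) (nat_lit 4136184380) (nat_lit 76) (nat_lit 73755347365) (nat_lit 20) (nat_lit 5) (nat_lit 23) (nat_lit 5) (nat_lit 21) (nat_lit 5)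 (nat_lit 309) (nat_lit 285) (nat_lit 126)) (XT.lf (nat_lit 0) (nat_lit 232245376572) (nat_lit 152) (nat_lit 211155755338) (nat_lit 228) (nat_lit 3436037835) (nat_lit 18) (nat_lit 5) (nat_lit 20) (nat_lit 5) (nat_lit 21) (nat_lit 5) (nat_lit 310) (nat_lit 285) (nat_lit 125))))))) (XT.nd (nat_lit 36192) (nat_lit 0) (nat_lit 1216) (XT.nd (nat_lit 35802) (nat_lit 0) (nat_lit 3116) (XT.nd (nat_lit 35646) (nat_lit 0) (nat_lit 3040) (XT.nd (nat_lit 35568) (nat_lit 0) (nat_lit 3040) (XT.lf (nat_lit 0) (nat_lit 12703255756) (nat_lit 152) (nat_lit 62080381823) (nat_lit 228) (nat_lit 399331637704) (nat_lit 15) (nat_lit 5) (nat_lit 17) (nat_lit 5) (nat_lit 18) (nat_lit 5) (nat_lit 311) (nat_lit 285) (nat_lit 124)) (XT.lf (nat_lit 0) (nat_lit 422379520) (nat_lit 0) (nat_lit 422379520) (nat_lit 684) (nat_lit 70266650351) (nat_lit 55) (nat_lit 5) (nat_lit 55) (nat_lit 3) (nat_lit 64) (nat_lit 3) (nat_lit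 286) (nat_lit 286) (nat_lit 148))) (XT.nd (nat_lit 78) (nat_lit 0) (nat_lit 76) (XT.lf (nat_lit 0) (nat_lit 3234863119) (nat_lit 684) (nat_lit 53261671849) (nat_lit 760) (nat_lit 91341286031) (nat_lit 55) (nat_lit 5) (nat_lit 64) (nat_lit 3) (nat_lit 65) (nat_lit 5) (nat_lit 287) (nat_lit 286) (nat_lit 147)) (XT.lf (nat_lit 0) (nat_lit 6181579982) (nat_lit 684) (nat_lit 111181279383) (nat_lit 760) (nat_lit 36475279047) (nat_lit 56) (nat_lit 5) (nat_lit 65) (nat_lit 5) (nat_lit 66) (nat_lit 5) (nat_lit 288) (nat_lit 286) (nat_lit 146)))) (XT.nd (nat_lit 156) (nat_lit 0) (nat_lit 152) (XT.nd (nat_lit 78) (nat_lit 0) (nat_lit 76) (XT.lf (nat_lit 0) (nat_lit 11259246210) (nat_lit 684) (nat_lit 13089375942) (nat_lit 760) (nat_lit 135875100533) (nat_lit 56) (nat_lit 5) (nat_lit 65) (nat_lit 5) (nat_lit 66) (nat_lit 5) (nat_lit 289) (nat_lit 286) (nat_lit 145)) (XT.lf (nat_lit 0) (nat_lit 19453107214)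 (nat_lit 684) (nat_lit 72338429660) (nat_lit 760) (nat_lit 75193119667) (nat_lit 57) (nat_lit 5) (nat_lit 66) (nat_lit 5) (nat_lit 67) (nat_lit 5) (nat_lit 290) (nat_lit 286) (nat_lit 144))) (XT.nd (nat_lit 78) (nat_lit 0) (nat_lit 0) (XT.lf (nat_lit 0) (nat_lit 29669664073) (nat_lit 684) (nat_lit 136362212455) (nat_lit 760) (nat_lit 8186231001) (nat_lit 58) (nat_lit 5) (nat_lit 67) (nat_lit 5) (nat_lit 68) (nat_lit 5) (nat_lit 291) (nat_lit 286) (nat_lit 143)) (XT.nd (nat_lit 78) (nat_lit 0) (nat_lit 76) (XT.lf (nat_lit 0) (nat_lit 43531729765) (nat_lit 684) (nat_lit 24086981091) (nat_lit 760) (nat_lit 114270116167) (nat_lit 58) (nat_lit 5) (nat_lit 67) (nat_lit 5) (nat_lit 68) (nat_lit 5) (nat_lit 292) (nat_lit 286) (nat_lit 142)) (XT.lf (nat_lit 0) (nat_lit 60699111107) (nat_lit 684) (nat_lit 90341360215) (nat_lit 76) (nat_lit 39022916756) (nat_lit 59) (nat_lit 5) (nat_lit 68) (nat_lit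 5) (nat_lit 60) (nat_lit 5) (nat_lit 293) (nat_lit 286) (nat_lit 141)))))) (XT.nd (nat_lit 312) (nat_lit 836) (nat_lit 0) (XT.nd (nat_lit 156) (nat_lit 608) (nat_lit 0) (XT.nd (nat_lit 78) (nat_lit 0) (nat_lit 0) (XT.lf (nat_lit 0) (nat_lit 35411026896) (nat_lit 684) (nat_lit 45948064625) (nat_lit 760) (nat_lit 117426863475) (nat_lit 50) (nat_lit 5) (nat_lit 59) (nat_lit 5) (nat_lit 60) (nat_lit 5) (nat_lit 294) (nat_lit 286) (nat_lit 140)) (XT.lf (nat_lit 0) (nat_lit 106325756935) (nat_lit 760) (nat_lit 34758705997) (nat_lit 76) (nat_lit 66989171310) (nat_lit 50) (nat_lit 5) (nat_lit 60) (nat_lit 5) (nat_lit 51) (nat_lit 5) (nat_lit 295) (nat_lit 286) (nat_lit 139))) (XT.nd (nat_lit 78) (nat_lit 304) (nat_lit 0) (XT.lf (nat_lit 0) (nat_lit 106789744600) (nat_lit 304) (nat_lit 28941814900) (nat_lit 380) (nat_lit 82250679338) (nat_lit 46) (nat_lit 5) (nat_lit 50) (nat_lit 5) (nat_lit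 51) (nat_lit 5) (nat_lit 296) (nat_lit 286) (nat_lit 138)) (XT.lf (nat_lit 0) (nat_lit 31819213669) (nat_lit 304) (nat_lit 138221630389) (nat_lit 380) (nat_lit 58515137971) (nat_lit 42) (nat_lit 5) (nat_lit 46) (nat_lit 5) (nat_lit 47) (nat_lit 5) (nat_lit 297) (nat_lit 286) (nat_lit 137)))) (XT.nd (nat_lit 156) (nat_lit 532) (nat_lit 0) (XT.nd (nat_lit 78) (nat_lit 304) (nat_lit 0) (XT.lf (nat_lit 0) (nat_lit 189738126749) (nat_lit 304) (nat_lit 19773564337) (nat_lit 380) (nat_lit 30343093639) (nat_lit 42) (nat_lit 5) (nat_lit 46) (nat_lit 5) (nat_lit 47) (nat_lit 5) (nat_lit 298) (nat_lit 286) (nat_lit 136)) (XT.lf (nat_lit 0) (nat_lit 3542695178) (nat_lit 304) (nat_lit 141877152459) (nat_lit 76) (nat_lit 106464448927) (nat_lit 38) (nat_lit 5) (nat_lit 42) (nat_lit 5) (nat_lit 39) (nat_lit 5) (nat_lit 299) (nat_lit 286) (nat_lit 135))) (XT.nd (nat_lit 78) (nat_lit 228) (nat_lit 0)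 (XT.lf (nat_lit 0) (nat_lit 19667882519) (nat_lit 304) (nat_lit 20950204802) (nat_lit 380) (nat_lit 224156120765) (nat_lit 34) (nat_lit 5) (nat_lit 38) (nat_lit 5) (nat_lit 39) (nat_lit 5) (nat_lit 300) (nat_lit 286) (nat_lit 134)) (XT.nd (nat_lit 78) (nat_lit 228) (nat_lit 0) (XT.lf (nat_lit 0) (nat_lit 84942940955) (nat_lit 380) (nat_lit 81181266860) (nat_lit 76) (nat_lit 112356933991) (nat_lit 34) (nat_lit 5) (nat_lit 39) (nat_lit 5) (nat_lit 35) (nat_lit 5) (nat_lit 301) (nat_lit 286) (nat_lit 133)) (XT.lf (nat_lit 0) (nat_lit 98662135491) (nat_lit 228) (nat_lit 36045125051) (nat_lit 304) (nat_lit 158482696521) (nat_lit 31) (nat_lit 5) (nat_lit 34) (nat_lit 5) (nat_lit 35) (nat_lit 5) (nat_lit 302) (nat_lit 286) (nat_lit 132))))))))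
noncomputable def xc122 : XT := (XT.nd (nat_lit 36972) (nat_lit 0) (nat_lit 0) (XT.nd (nat_lit 36270) (nat_lit 0) (nat_lit 2280) (XT.nd (nat_lit 312) (nat_lit 380) (nat_lit 0) (XT.nd (nat_lit 156) (nat_lit 228) (nat_lit 0) (XT.nd (nat_lit 78) (nat_lit 228) (nat_lit 0) (XT.lf (nat_lit 0) (nat_lit 191520474641) (nat_lit 304) (nat_lit 14866798467) (nat_lit 76) (nat_lit 102534817656) (nat_lit 31) (nat_lit 5) (nat_lit 35) (nat_lit 5) (nat_lit 32) (nat_lit 5) (nat_lit 303) (nat_lit 286) (nat_lit 131)) (XT.lf (nat_lit 0) (nat_lit 184463100146) (nat_lit 228) (nat_lit 71903266229) (nat_lit 304) (nat_lit 69372048383) (nat_lit 28) (nat_lit 5) (nat_lit 31) (nat_lit 5) (nat_lit 32) (nat_lit 5) (nat_lit 304) (nat_lit 286) (nat_lit 130))) (XT.nd (nat_lit 78) (nat_lit 76) (nat_lit 0) (XT.lf (nat_lit 0) (nat_lit 57059989386) (nat_lit 152) (nat_lit 271638912089) (nat_lit 228) (nat_lit 15086195169) (nat_lit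 26) (nat_lit 5) (nat_lit 28) (nat_lit 5) (nat_lit 29) (nat_lit 5) (nat_lit 305) (nat_lit 286) (nat_lit 129)) (XT.lf (nat_lit 0) (nat_lit 45862442625) (nat_lit 228) (nat_lit 88778224136) (nat_lit 76) (nat_lit 228415178328) (nat_lit 25) (nat_lit 5) (nat_lit 28) (nat_lit 5) (nat_lit 26) (nat_lit 5) (nat_lit 306) (nat_lit 286) (nat_lit 128)))) (XT.nd (nat_lit 156) (nat_lit 152) (nat_lit 0) (XT.nd (nat_lit 78) (nat_lit 0) (nat_lit 0) (XT.lf (nat_lit 0) (nat_lit 113422533543) (nat_lit 304) (nat_lit 255125364072) (nat_lit 76) (nat_lit 15194785089) (nat_lit 22) (nat_lit 5) (nat_lit 26) (nat_lit 5) (nat_lit 23) (nat_lit 5) (nat_lit 307) (nat_lit 286) (nat_lit 127)) (XT.lf (nat_lit 0) (nat_lit 190229407918) (nat_lit 304) (nat_lit 41728208298) (nat_lit 76) (nat_lit 173934752734) (nat_lit 22) (nat_lit 5) (nat_lit 26) (nat_lit 5) (nat_lit 23) (nat_lit 5) (nat_lit 308) (nat_lit 286) (nat_lit 126)))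 (XT.nd (nat_lit 78) (nat_lit 0) (nat_lit 0) (XT.lf (nat_lit 0) (nat_lit 194981176824) (nat_lit 152) (nat_lit 81243744517) (nat_lit 228) (nat_lit 153436904704) (nat_lit 20) (nat_lit 5) (nat_lit 22) (nat_lit 5) (nat_lit 23) (nat_lit 5) (nat_lit 309) (nat_lit 286) (nat_lit 125)) (XT.lf (nat_lit 0) (nat_lit 371111630841) (nat_lit 228) (nat_lit 4464023481) (nat_lit 76) (nat_lit 79656608007) (nat_lit 20) (nat_lit 5) (nat_lit 23) (nat_lit 5) (nat_lit 21) (nat_lit 5) (nat_lit 310) (nat_lit 286) (nat_lit 124))))) (XT.nd (nat_lit 312) (nat_lit 380) (nat_lit 0) (XT.nd (nat_lit 156) (nat_lit 0) (nat_lit 76) (XT.nd (nat_lit 78) (nat_lit 0) (nat_lit 0) (XT.lf (nat_lit 0) (nat_lit 458374438) (nat_lit 0) (nat_lit 458374438) (nat_lit 684) (nat_lit 75883331027) (nat_lit 55) (nat_lit 5) (nat_lit 55) (nat_lit 3) (nat_lit 64) (nat_lit 3) (nat_lit 287) (nat_lit 287) (nat_lit 146)) (XT.lf (nat_lit 0) (nat_lit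 3501753450) (nat_lit 684) (nat_lit 57518010753) (nat_lit 760) (nat_lit 98644637069) (nat_lit 55) (nat_lit 5) (nat_lit 64) (nat_lit 3) (nat_lit 65) (nat_lit 5) (nat_lit 288) (nat_lit 287) (nat_lit 145))) (XT.nd (nat_lit 78) (nat_lit 0) (nat_lit 0) (XT.lf (nat_lit 0) (nat_lit 6683626623) (nat_lit 684) (nat_lit 120070921165) (nat_lit 760) (nat_lit 39390228331) (nat_lit 56) (nat_lit 5) (nat_lit 65) (nat_lit 5) (nat_lit 66) (nat_lit 5) (nat_lit 289) (nat_lit 287) (nat_lit 144)) (XT.lf (nat_lit 0) (nat_lit 12166949094) (nat_lit 684) (nat_lit 14132025491) (nat_lit 760) (nat_lit 146742263168) (nat_lit 56) (nat_lit 5) (nat_lit 65) (nat_lit 5) (nat_lit 66) (nat_lit 5) (nat_lit 290) (nat_lit 287) (nat_lit 143)))) (XT.nd (nat_lit 156) (nat_lit 532) (nat_lit 0) (XT.nd (nat_lit 78) (nat_lit 0) (nat_lit 76) (XT.lf (nat_lit 0) (nat_lit 21015835899) (nat_lit 684) (nat_lit 78120806839) (nat_lit 760) (nat_lit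 81206430294) (nat_lit 57) (nat_lit 5) (nat_lit 66) (nat_lit 5) (nat_lit 67) (nat_lit 5) (nat_lit 291) (nat_lit 287) (nat_lit 142)) (XT.lf (nat_lit 0) (nat_lit 32049282824) (nat_lit 684) (nat_lit 147266338602) (nat_lit 760) (nat_lit 8839602771) (nat_lit 58) (nat_lit 5) (nat_lit 67) (nat_lit 5) (nat_lit 68) (nat_lit 5) (nat_lit 292) (nat_lit 287) (nat_lit 141))) (XT.nd (nat_lit 78) (nat_lit 608) (nat_lit 0) (XT.lf (nat_lit 0) (nat_lit 47019865948) (nat_lit 684) (nat_lit 26009448051) (nat_lit 760) (nat_lit 123410311840) (nat_lit 58) (nat_lit 5) (nat_lit 67) (nat_lit 5) (nat_lit 68) (nat_lit 5) (nat_lit 293) (nat_lit 287) (nat_lit 140)) (XT.nd (nat_lit 78) (nat_lit 684) (nat_lit 0) (XT.lf (nat_lit 0) (nat_lit 65560275330) (nat_lit 684) (nat_lit 97564069873) (nat_lit 76) (nat_lit 42143826731) (nat_lit 59) (nat_lit 5) (nat_lit 68) (nat_lit 5) (nat_lit 60) (nat_lit 5) (nat_lit 294) (nat_lit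 287) (nat_lit 139)) (XT.lf (nat_lit 0) (nat_lit 38248308333) (nat_lit 684) (nat_lit 49624426726) (nat_lit 760) (nat_lit 126815826985) (nat_lit 50) (nat_lit 5) (nat_lit 59) (nat_lit 5) (nat_lit 60) (nat_lit 5) (nat_lit 295) (nat_lit 287) (nat_lit 138))))))) (XT.nd (nat_lit 702) (nat_lit 836) (nat_lit 0) (XT.nd (nat_lit 312) (nat_lit 836) (nat_lit 0) (XT.nd (nat_lit 156) (nat_lit 304) (nat_lit 0) (XT.nd (nat_lit 78) (nat_lit 304) (nat_lit 0) (XT.lf (nat_lit 0) (nat_lit 114836362069) (nat_lit 760) (nat_lit 37535072193) (nat_lit 76) (nat_lit 72347841693) (nat_lit 50) (nat_lit 5) (nat_lit 60) (nat_lit 5) (nat_lit 51) (nat_lit 5) (nat_lit 296) (nat_lit 287) (nat_lit 137)) (XT.lf (nat_lit 0) (nat_lit 115337066262) (nat_lit 304) (nat_lit 31257290611) (nat_lit 380) (nat_lit 88826227259) (nat_lit 46) (nat_lit 5) (nat_lit 50) (nat_lit 5) (nat_lit 51) (nat_lit 5) (nat_lit 297) (nat_lit 287) (nat_lit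 136))) (XT.nd (nat_lit 78) (nat_lit 0) (nat_lit 0) (XT.lf (nat_lit 0) (nat_lit 34368938448) (nat_lit 304) (nat_lit 149279192753) (nat_lit 380) (nat_lit 63192109723) (nat_lit 42) (nat_lit 5) (nat_lit 46) (nat_lit 5) (nat_lit 47) (nat_lit 5) (nat_lit 298) (nat_lit 287) (nat_lit 135)) (XT.lf (nat_lit 0) (nat_lit 204921054375) (nat_lit 304) (nat_lit 21355293867) (nat_lit 380) (nat_lit 32766615865) (nat_lit 42) (nat_lit 5) (nat_lit 46) (nat_lit 5) (nat_lit 47) (nat_lit 5) (nat_lit 299) (nat_lit 287) (nat_lit 134)))) (XT.nd (nat_lit 156) (nat_lit 228) (nat_lit 0) (XT.nd (nat_lit 78) (nat_lit 304) (nat_lit 0) (XT.lf (nat_lit 0) (nat_lit 3829693164) (nat_lit 304) (nat_lit 153223289741) (nat_lit 76) (nat_lit 114981863008) (nat_lit 38) (nat_lit 5) (nat_lit 42) (nat_lit 5) (nat_lit 39) (nat_lit 5) (nat_lit 300) (nat_lit 287) (nat_lit 133)) (XT.lf (nat_lit 0) (nat_lit 21245172683) (nat_lit 304)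 (nat_lit 22625738893) (nat_lit 380) (nat_lit 242085050165) (nat_lit 34) (nat_lit 5) (nat_lit 38) (nat_lit 5) (nat_lit 39) (nat_lit 5) (nat_lit 301) (nat_lit 287) (nat_lit 132))) (XT.nd (nat_lit 78) (nat_lit 228) (nat_lit 0) (XT.lf (nat_lit 0) (nat_lit 91741510304) (nat_lit 380) (nat_lit 87672032075) (nat_lit 76) (nat_lit 121345920985) (nat_lit 34) (nat_lit 5) (nat_lit 39) (nat_lit 5) (nat_lit 35) (nat_lit 5) (nat_lit 302) (nat_lit 287) (nat_lit 131)) (XT.nd (nat_lit 78) (nat_lit 0) (nat_lit 0) (XT.lf (nat_lit 0) (nat_lit 106558680096) (nat_lit 228) (nat_lit 38928119006) (nat_lit 304) (nat_lit 171158194528) (nat_lit 31) (nat_lit 5) (nat_lit 34) (nat_lit 5) (nat_lit 35) (nat_lit 5) (nat_lit 303) (nat_lit 287) (nat_lit 130)) (XT.lf (nat_lit 0) (nat_lit 206844860145) (nat_lit 304) (nat_lit 16052694061) (nat_lit 76) (nat_lit 110738155228) (nat_lit 31) (nat_lit 5) (nat_lit 35) (nat_lit 5)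 (nat_lit 32) (nat_lit 5) (nat_lit 304) (nat_lit 287) (nat_lit 129)))))) (XT.nd (nat_lit 312) (nat_lit 152) (nat_lit 0) (XT.nd (nat_lit 156) (nat_lit 304) (nat_lit 0) (XT.nd (nat_lit 78) (nat_lit 152) (nat_lit 0) (XT.lf (nat_lit 0) (nat_lit 199223446582) (nat_lit 228) (nat_lit 77654824611) (nat_lit 304) (nat_lit 74919076585) (nat_lit 28) (nat_lit 5) (nat_lit 31) (nat_lit 5) (nat_lit 32) (nat_lit 5) (nat_lit 305) (nat_lit 287) (nat_lit 128)) (XT.lf (nat_lit 0) (nat_lit 61628067187) (nat_lit 152) (nat_lit 293369211005) (nat_lit 228) (nat_lit 16290493338) (nat_lit 26) (nat_lit 5) (nat_lit 28) (nat_lit 5) (nat_lit 29) (nat_lit 5) (nat_lit 306) (nat_lit 287) (nat_lit 127))) (XT.nd (nat_lit 78) (nat_lit 228) (nat_lit 0) (XT.lf (nat_lit 0) (nat_lit 49533766100) (nat_lit 228) (nat_lit 95877360825) (nat_lit 76) (nat_lit 246689060890) (nat_lit 25) (nat_lit 5) (nat_lit 28) (nat_lit 5) (nat_lit 26)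 (nat_lit 5) (nat_lit 307) (nat_lit 287) (nat_lit 126)) (XT.lf (nat_lit 0) (nat_lit 122498550686) (nat_lit 304) (nat_lit 275532301869) (nat_lit 76) (nat_lit 16411126191) (nat_lit 22) (nat_lit 5) (nat_lit 26) (nat_lit 5) (nat_lit 23) (nat_lit 5) (nat_lit 308) (nat_lit 287) (nat_lit 125)))) (XT.nd (nat_lit 35880) (nat_lit 0) (nat_lit 2660) (XT.nd (nat_lit 78) (nat_lit 152) (nat_lit 0) (XT.lf (nat_lit 0) (nat_lit 205449810977) (nat_lit 304) (nat_lit 45063602621) (nat_lit 76) (nat_lit 187850235078) (nat_lit 22) (nat_lit 5) (nat_lit 26) (nat_lit 5) (nat_lit 23) (nat_lit 5) (nat_lit 309) (nat_lit 287) (nat_lit 124)) (XT.lf (nat_lit 0) (nat_lit 210582408917) (nat_lit 152) (nat_lit 87742447420) (nat_lit 228) (nat_lit 165709811996) (nat_lit 20) (nat_lit 5) (nat_lit 22) (nat_lit 5) (nat_lit 23) (nat_lit 5) (nat_lit 310) (nat_lit 287) (nat_lit 123))) (XT.nd (nat_lit 78) (nat_lit 0) (nat_lit 0) (XT.lf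 (nat_lit 0) (nat_lit 496934444) (nat_lit 0) (nat_lit 496934444) (nat_lit 684) (nat_lit 81950009725) (nat_lit 55) (nat_lit 5) (nat_lit 55) (nat_lit 3) (nat_lit 64) (nat_lit 3) (nat_lit 288) (nat_lit 288) (nat_lit 144)) (XT.nd (nat_lit 78) (nat_lit 0) (nat_lit 76) (XT.lf (nat_lit 0) (nat_lit 3788839268) (nat_lit 684) (nat_lit 62115512275) (nat_lit 760) (nat_lit 106532819965) (nat_lit 55) (nat_lit 5) (nat_lit 64) (nat_lit 3) (nat_lit 65) (nat_lit 5) (nat_lit 289) (nat_lit 288) (nat_lit 143)) (XT.lf (nat_lit 0) (nat_lit 7224764148) (nat_lit 684) (nat_lit 129672427705) (nat_lit 760) (nat_lit 42538811960) (nat_lit 56) (nat_lit 5) (nat_lit 65) (nat_lit 5) (nat_lit 66) (nat_lit 5) (nat_lit 290) (nat_lit 288) (nat_lit 142))))))))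
noncomputable def xc123 : XT := (XT.nd (nat_lit 1404) (nat_lit 228) (nat_lit 0) (XT.nd (nat_lit 702) (nat_lit 1292) (nat_lit 0) (XT.nd (nat_lit 312) (nat_lit 1064) (nat_lit 0) (XT.nd (nat_lit 156) (nat_lit 0) (nat_lit 152) (XT.nd (nat_lit 78) (nat_lit 0) (nat_lit 76) (XT.lf (nat_lit 0) (nat_lit 13146274832) (nat_lit 684) (nat_lit 15258729055) (nat_lit 760) (nat_lit 158479204742) (nat_lit 56) (nat_lit 5) (nat_lit 65) (nat_lit 5) (nat_lit 66) (nat_lit 5) (nat_lit 291) (nat_lit 288) (nat_lit 141)) (XT.lf (nat_lit 0) (nat_lit 22702658420) (nat_lit 684) (nat_lit 84366444300) (nat_lit 760) (nat_lit 87701110917) (nat_lit 57) (nat_lit 5) (nat_lit 66) (nat_lit 5) (nat_lit 67) (nat_lit 5) (nat_lit 292) (nat_lit 288) (nat_lit 140))) (XT.nd (nat_lit 78) (nat_lit 0) (nat_lit 0) (XT.lf (nat_lit 0) (nat_lit 34618408599) (nat_lit 684) (nat_lit 159043486868) (nat_lit 760) (nat_lit 9545462085) (nat_lit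 58) (nat_lit 5) (nat_lit 67) (nat_lit 5) (nat_lit 68) (nat_lit 5) (nat_lit 293) (nat_lit 288) (nat_lit 139)) (XT.lf (nat_lit 0) (nat_lit 50786254436) (nat_lit 684) (nat_lit 28086353134) (nat_lit 760) (nat_lit 133281924835) (nat_lit 58) (nat_lit 5) (nat_lit 67) (nat_lit 5) (nat_lit 68) (nat_lit 5) (nat_lit 294) (nat_lit 288) (nat_lit 138)))) (XT.nd (nat_lit 156) (nat_lit 608) (nat_lit 0) (XT.nd (nat_lit 78) (nat_lit 684) (nat_lit 0) (XT.lf (nat_lit 0) (nat_lit 70809585811) (nat_lit 684) (nat_lit 105365252426) (nat_lit 76) (nat_lit 45514541233) (nat_lit 59) (nat_lit 5) (nat_lit 68) (nat_lit 5) (nat_lit 60) (nat_lit 5) (nat_lit 295) (nat_lit 288) (nat_lit 137)) (XT.lf (nat_lit 0) (nat_lit 41311944677) (nat_lit 684) (nat_lit 53594824050) (nat_lit 760) (nat_lit 136956647356) (nat_lit 50) (nat_lit 5) (nat_lit 59) (nat_lit 5) (nat_lit 60) (nat_lit 5) (nat_lit 296) (nat_lit 288) (nat_lit 136)))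 (XT.nd (nat_lit 78) (nat_lit 608) (nat_lit 0) (XT.lf (nat_lit 0) (nat_lit 124027167279) (nat_lit 760) (nat_lit 40534165448) (nat_lit 76) (nat_lit 78135271806) (nat_lit 50) (nat_lit 5) (nat_lit 60) (nat_lit 5) (nat_lit 51) (nat_lit 5) (nat_lit 297) (nat_lit 288) (nat_lit 135)) (XT.nd (nat_lit 78) (nat_lit 304) (nat_lit 0) (XT.lf (nat_lit 0) (nat_lit 124567582742) (nat_lit 304) (nat_lit 33757985759) (nat_lit 380) (nat_lit 95928461906) (nat_lit 46) (nat_lit 5) (nat_lit 50) (nat_lit 5) (nat_lit 51) (nat_lit 5) (nat_lit 298) (nat_lit 288) (nat_lit 134)) (XT.lf (nat_lit 0) (nat_lit 37122043788) (nat_lit 304) (nat_lit 161221384084) (nat_lit 380) (nat_lit 68243843996) (nat_lit 42) (nat_lit 5) (nat_lit 46) (nat_lit 5) (nat_lit 47) (nat_lit 5) (nat_lit 299) (nat_lit 288) (nat_lit 133)))))) (XT.nd (nat_lit 312) (nat_lit 684) (nat_lit 0) (XT.nd (nat_lit 156) (nat_lit 304) (nat_lit 0) (XT.nd (nat_lit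 78) (nat_lit 304) (nat_lit 0) (XT.lf (nat_lit 0) (nat_lit 221318063045) (nat_lit 304) (nat_lit 23063583960) (nat_lit 380) (nat_lit 35384579852) (nat_lit 42) (nat_lit 5) (nat_lit 46) (nat_lit 5) (nat_lit 47) (nat_lit 5) (nat_lit 300) (nat_lit 288) (nat_lit 132)) (XT.lf (nat_lit 0) (nat_lit 4139139924) (nat_lit 304) (nat_lit 165477693631) (nat_lit 76) (nat_lit 124180633385) (nat_lit 38) (nat_lit 5) (nat_lit 42) (nat_lit 5) (nat_lit 39) (nat_lit 5) (nat_lit 301) (nat_lit 288) (nat_lit 131))) (XT.nd (nat_lit 78) (nat_lit 0) (nat_lit 0) (XT.lf (nat_lit 0) (nat_lit 22948095451) (nat_lit 304) (nat_lit 24435384515) (nat_lit 380) (nat_lit 261448801829) (nat_lit 34) (nat_lit 5) (nat_lit 38) (nat_lit 5) (nat_lit 39) (nat_lit 5) (nat_lit 302) (nat_lit 288) (nat_lit 130)) (XT.lf (nat_lit 0) (nat_lit 99083518091) (nat_lit 380) (nat_lit 94682591509) (nat_lit 76) (nat_lit 131053965270) (nat_lit 34)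 (nat_lit 5) (nat_lit 39) (nat_lit 5) (nat_lit 35) (nat_lit 5) (nat_lit 303) (nat_lit 288) (nat_lit 129)))) (XT.nd (nat_lit 156) (nat_lit 456) (nat_lit 0) (XT.nd (nat_lit 78) (nat_lit 0) (nat_lit 0) (XT.lf (nat_lit 0) (nat_lit 115086438431) (nat_lit 228) (nat_lit 42041840364) (nat_lit 304) (nat_lit 184848177153) (nat_lit 31) (nat_lit 5) (nat_lit 34) (nat_lit 5) (nat_lit 35) (nat_lit 5) (nat_lit 304) (nat_lit 288) (nat_lit 128)) (XT.lf (nat_lit 0) (nat_lit 223394804522) (nat_lit 304) (nat_lit 17333953240) (nat_lit 76) (nat_lit 119597681033) (nat_lit 31) (nat_lit 5) (nat_lit 35) (nat_lit 5) (nat_lit 32) (nat_lit 5) (nat_lit 305) (nat_lit 288) (nat_lit 127))) (XT.nd (nat_lit 78) (nat_lit 228) (nat_lit 0) (XT.lf (nat_lit 0) (nat_lit 215164150176) (nat_lit 228) (nat_lit 83866607943) (nat_lit 304) (nat_lit 80910257318) (nat_lit 28) (nat_lit 5) (nat_lit 31) (nat_lit 5) (nat_lit 32) (nat_lit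 5) (nat_lit 306) (nat_lit 288) (nat_lit 126)) (XT.nd (nat_lit 78) (nat_lit 76) (nat_lit 0) (XT.lf (nat_lit 0) (nat_lit 66561123476) (nat_lit 152) (nat_lit 316838049969) (nat_lit 228) (nat_lit 17591505915) (nat_lit 26) (nat_lit 5) (nat_lit 28) (nat_lit 5) (nat_lit 29) (nat_lit 5) (nat_lit 307) (nat_lit 288) (nat_lit 125)) (XT.lf (nat_lit 0) (nat_lit 53498463328) (nat_lit 228) (nat_lit 103544873729) (nat_lit 76) (nat_lit 266424758717) (nat_lit 25) (nat_lit 5) (nat_lit 28) (nat_lit 5) (nat_lit 26) (nat_lit 5) (nat_lit 308) (nat_lit 288) (nat_lit 124))))))) (XT.nd (nat_lit 36582) (nat_lit 0) (nat_lit 684) (XT.nd (nat_lit 36192) (nat_lit 0) (nat_lit 2584) (XT.nd (nat_lit 36036) (nat_lit 0) (nat_lit 2508) (XT.nd (nat_lit 35958) (nat_lit 0) (nat_lit 2508) (XT.lf (nat_lit 0) (nat_lit 132300333283) (nat_lit 304) (nat_lit 297572235703) (nat_lit 76) (nat_lit 17724666402) (nat_lit 22) (nat_lit 5)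 (nat_lit 26) (nat_lit 5) (nat_lit 23) (nat_lit 5) (nat_lit 309) (nat_lit 288) (nat_lit 123)) (XT.lf (nat_lit 0) (nat_lit 538309613) (nat_lit 0) (nat_lit 538309613) (nat_lit 684) (nat_lit 88502591620) (nat_lit 55) (nat_lit 5) (nat_lit 55) (nat_lit 3) (nat_lit 64) (nat_lit 3) (nat_lit 289) (nat_lit 289) (nat_lit 142))) (XT.nd (nat_lit 78) (nat_lit 0) (nat_lit 76) (XT.lf (nat_lit 0) (nat_lit 4097901094) (nat_lit 684) (nat_lit 67081375910) (nat_lit 760) (nat_lit 115052540839) (nat_lit 55) (nat_lit 5) (nat_lit 64) (nat_lit 3) (nat_lit 65) (nat_lit 5) (nat_lit 290) (nat_lit 289) (nat_lit 141)) (XT.lf (nat_lit 0) (nat_lit 7808272882) (nat_lit 684) (nat_lit 140042649258) (nat_lit 760) (nat_lit 45939658140) (nat_lit 56) (nat_lit 5) (nat_lit 65) (nat_lit 5) (nat_lit 66) (nat_lit 5) (nat_lit 291) (nat_lit 289) (nat_lit 140)))) (XT.nd (nat_lit 156) (nat_lit 0) (nat_lit 152) (XT.nd (nat_lit 78) (nat_lit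 0) (nat_lit 76) (XT.lf (nat_lit 0) (nat_lit 14203094969) (nat_lit 684) (nat_lit 16476119358) (nat_lit 760) (nat_lit 171155449662) (nat_lit 56) (nat_lit 5) (nat_lit 65) (nat_lit 5) (nat_lit 66) (nat_lit 5) (nat_lit 292) (nat_lit 289) (nat_lit 139)) (XT.lf (nat_lit 0) (nat_lit 24523634166) (nat_lit 684) (nat_lit 91112307266) (nat_lit 760) (nat_lit 94715627601) (nat_lit 57) (nat_lit 5) (nat_lit 66) (nat_lit 5) (nat_lit 67) (nat_lit 5) (nat_lit 293) (nat_lit 289) (nat_lit 138))) (XT.nd (nat_lit 78) (nat_lit 0) (nat_lit 0) (XT.lf (nat_lit 0) (nat_lit 37392325002) (nat_lit 684) (nat_lit 171763400298) (nat_lit 760) (nat_lit 10307976874) (nat_lit 58) (nat_lit 5) (nat_lit 67) (nat_lit 5) (nat_lit 68) (nat_lit 5) (nat_lit 294) (nat_lit 289) (nat_lit 137)) (XT.nd (nat_lit 78) (nat_lit 0) (nat_lit 76) (XT.lf (nat_lit 0) (nat_lit 54853269342) (nat_lit 684) (nat_lit 30329959977) (nat_lit 760) (nat_lit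 143943439769) (nat_lit 58) (nat_lit 5) (nat_lit 67) (nat_lit 5) (nat_lit 68) (nat_lit 5) (nat_lit 295) (nat_lit 289) (nat_lit 136)) (XT.lf (nat_lit 0) (nat_lit 76478200803) (nat_lit 684) (nat_lit 113791092101) (nat_lit 76) (nat_lit 49155025831) (nat_lit 59) (nat_lit 5) (nat_lit 68) (nat_lit 5) (nat_lit 60) (nat_lit 5) (nat_lit 296) (nat_lit 289) (nat_lit 135)))))) (XT.nd (nat_lit 312) (nat_lit 836) (nat_lit 0) (XT.nd (nat_lit 156) (nat_lit 608) (nat_lit 0) (XT.nd (nat_lit 78) (nat_lit 0) (nat_lit 0) (XT.lf (nat_lit 0) (nat_lit 44620133857) (nat_lit 684) (nat_lit 57882789934) (nat_lit 760) (nat_lit 147909367598) (nat_lit 50) (nat_lit 5) (nat_lit 59) (nat_lit 5) (nat_lit 60) (nat_lit 5) (nat_lit 297) (nat_lit 289) (nat_lit 134)) (XT.lf (nat_lit 0) (nat_lit 133952681063) (nat_lit 760) (nat_lit 43773715796) (nat_lit 76) (nat_lit 84385752996) (nat_lit 50) (nat_lit 5) (nat_lit 60) (nat_lit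 5) (nat_lit 51) (nat_lit 5) (nat_lit 298) (nat_lit 289) (nat_lit 133))) (XT.nd (nat_lit 78) (nat_lit 304) (nat_lit 0) (XT.lf (nat_lit 0) (nat_lit 134536033925) (nat_lit 304) (nat_lit 36458720555) (nat_lit 380) (nat_lit 103599426501) (nat_lit 46) (nat_lit 5) (nat_lit 50) (nat_lit 5) (nat_lit 51) (nat_lit 5) (nat_lit 299) (nat_lit 289) (nat_lit 132)) (XT.lf (nat_lit 0) (nat_lit 40094885365) (nat_lit 304) (nat_lit 174118971277) (nat_lit 380) (nat_lit 73700235514) (nat_lit 42) (nat_lit 5) (nat_lit 46) (nat_lit 5) (nat_lit 47) (nat_lit 5) (nat_lit 300) (nat_lit 289) (nat_lit 131)))) (XT.nd (nat_lit 156) (nat_lit 532) (nat_lit 0) (XT.nd (nat_lit 78) (nat_lit 304) (nat_lit 0) (XT.lf (nat_lit 0) (nat_lit 239026358156) (nat_lit 304) (nat_lit 24908556294) (nat_lit 380) (nat_lit 38212461054) (nat_lit 42) (nat_lit 5) (nat_lit 46) (nat_lit 5) (nat_lit 47) (nat_lit 5) (nat_lit 301) (nat_lit 289) (nat_lit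 130)) (XT.lf (nat_lit 0) (nat_lit 4472904268) (nat_lit 304) (nat_lit 178712943338) (nat_lit 76) (nat_lit 134115273817) (nat_lit 38) (nat_lit 5) (nat_lit 42) (nat_lit 5) (nat_lit 39) (nat_lit 5) (nat_lit 302) (nat_lit 289) (nat_lit 129))) (XT.nd (nat_lit 78) (nat_lit 228) (nat_lit 0) (XT.lf (nat_lit 0) (nat_lit 24786779981) (nat_lit 304) (nat_lit 26389860777) (nat_lit 380) (nat_lit 282362089078) (nat_lit 34) (nat_lit 5) (nat_lit 38) (nat_lit 5) (nat_lit 39) (nat_lit 5) (nat_lit 303) (nat_lit 289) (nat_lit 128)) (XT.nd (nat_lit 78) (nat_lit 228) (nat_lit 0) (XT.lf (nat_lit 0) (nat_lit 107012503176) (nat_lit 380) (nat_lit 102254452661) (nat_lit 76) (nat_lit 141538600226) (nat_lit 34) (nat_lit 5) (nat_lit 39) (nat_lit 5) (nat_lit 35) (nat_lit 5) (nat_lit 304) (nat_lit 289) (nat_lit 127)) (XT.lf (nat_lit 0) (nat_lit 124295980330) (nat_lit 228) (nat_lit 45404734778) (nat_lit 304) (nat_lit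 199633739712) (nat_lit 31) (nat_lit 5) (nat_lit 34) (nat_lit 5) (nat_lit 35) (nat_lit 5) (nat_lit 305) (nat_lit 289) (nat_lit 126))))))))
noncomputable def xc124 : XT := (XT.nd (nat_lit 37284) (nat_lit 0) (nat_lit 76) (XT.nd (nat_lit 36582) (nat_lit 0) (nat_lit 1292) (XT.nd (nat_lit 36270) (nat_lit 0) (nat_lit 2280) (XT.nd (nat_lit 156) (nat_lit 228) (nat_lit 0) (XT.nd (nat_lit 78) (nat_lit 228) (nat_lit 0) (XT.lf (nat_lit 0) (nat_lit 241268408402) (nat_lit 304) (nat_lit 18718134908) (nat_lit 76) (nat_lit 129165901370) (nat_lit 31) (nat_lit 5) (nat_lit 35) (nat_lit 5) (nat_lit 32) (nat_lit 5) (nat_lit 306) (nat_lit 289) (nat_lit 125)) (XT.lf (nat_lit 0) (nat_lit 232379706630) (nat_lit 228) (nat_lit 90575419915) (nat_lit 304) (nat_lit 87381067105) (nat_lit 28) (nat_lit 5) (nat_lit 31) (nat_lit 5) (nat_lit 32) (nat_lit 5) (nat_lit 307) (nat_lit 289) (nat_lit 124))) (XT.nd (nat_lit 78)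 (nat_lit 76) (nat_lit 0) (XT.lf (nat_lit 0) (nat_lit 71888423259) (nat_lit 152) (nat_lit 342184495615) (nat_lit 228) (nat_lit 18996917190) (nat_lit 26) (nat_lit 5) (nat_lit 28) (nat_lit 5) (nat_lit 29) (nat_lit 5) (nat_lit 308) (nat_lit 289) (nat_lit 123)) (XT.lf (nat_lit 0) (nat_lit 57780051592) (nat_lit 228) (nat_lit 111826169421) (nat_lit 76) (nat_lit 287739230631) (nat_lit 25) (nat_lit 5) (nat_lit 28) (nat_lit 5) (nat_lit 26) (nat_lit 5) (nat_lit 309) (nat_lit 289) (nat_lit 122)))) (XT.nd (nat_lit 156) (nat_lit 0) (nat_lit 76) (XT.nd (nat_lit 78) (nat_lit 0) (nat_lit 0) (XT.lf (nat_lit 0) (nat_lit 582763627) (nat_lit 0) (nat_lit 582763627) (nat_lit 684) (nat_lit 95579867809) (nat_lit 55) (nat_lit 5) (nat_lit 55) (nat_lit 3) (nat_lit 64) (nat_lit 3) (nat_lit 290) (nat_lit 290) (nat_lit 140)) (XT.lf (nat_lit 0) (nat_lit 4430838363) (nat_lit 684) (nat_lit 72444990452) (nat_lit 760)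 (nat_lit 124254253773) (nat_lit 55) (nat_lit 5) (nat_lit 64) (nat_lit 3) (nat_lit 65) (nat_lit 5) (nat_lit 291) (nat_lit 290) (nat_lit 139))) (XT.nd (nat_lit 78) (nat_lit 0) (nat_lit 0) (XT.lf (nat_lit 0) (nat_lit 8437673741) (nat_lit 684) (nat_lit 151242998217) (nat_lit 760) (nat_lit 49612894254) (nat_lit 56) (nat_lit 5) (nat_lit 65) (nat_lit 5) (nat_lit 66) (nat_lit 5) (nat_lit 292) (nat_lit 290) (nat_lit 138)) (XT.lf (nat_lit 0) (nat_lit 15343730556) (nat_lit 684) (nat_lit 17791372812) (nat_lit 760) (nat_lit 184846092545) (nat_lit 56) (nat_lit 5) (nat_lit 65) (nat_lit 5) (nat_lit 66) (nat_lit 5) (nat_lit 293) (nat_lit 290) (nat_lit 137))))) (XT.nd (nat_lit 312) (nat_lit 1140) (nat_lit 0) (XT.nd (nat_lit 156) (nat_lit 0) (nat_lit 76) (XT.nd (nat_lit 78) (nat_lit 0) (nat_lit 76) (XT.lf (nat_lit 0) (nat_lit 26489608467) (nat_lit 684) (nat_lit 98398331819) (nat_lit 760) (nat_lit 102291529911)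 (nat_lit 57) (nat_lit 5) (nat_lit 66) (nat_lit 5) (nat_lit 67) (nat_lit 5) (nat_lit 294) (nat_lit 290) (nat_lit 136)) (XT.lf (nat_lit 0) (nat_lit 40387520771) (nat_lit 684) (nat_lit 185501415463) (nat_lit 760) (nat_lit 11131652938) (nat_lit 58) (nat_lit 5) (nat_lit 67) (nat_lit 5) (nat_lit 68) (nat_lit 5) (nat_lit 295) (nat_lit 290) (nat_lit 135))) (XT.nd (nat_lit 78) (nat_lit 0) (nat_lit 76) (XT.lf (nat_lit 0) (nat_lit 59245058454) (nat_lit 684) (nat_lit 32753526351) (nat_lit 760) (nat_lit 155458024130) (nat_lit 58) (nat_lit 5) (nat_lit 67) (nat_lit 5) (nat_lit 68) (nat_lit 5) (nat_lit 296) (nat_lit 290) (nat_lit 134)) (XT.lf (nat_lit 0) (nat_lit 82599756016) (nat_lit 684) (nat_lit 122891481219) (nat_lit 76) (nat_lit 53086846021) (nat_lit 59) (nat_lit 5) (nat_lit 68) (nat_lit 5) (nat_lit 60) (nat_lit 5) (nat_lit 297) (nat_lit 290) (nat_lit 133)))) (XT.nd (nat_lit 156) (nat_lit 608)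 (nat_lit 0) (XT.nd (nat_lit 78) (nat_lit 0) (nat_lit 0) (XT.lf (nat_lit 0) (nat_lit 48192516861) (nat_lit 684) (nat_lit 62513738884) (nat_lit 760) (nat_lit 159738849219) (nat_lit 50) (nat_lit 5) (nat_lit 59) (nat_lit 5) (nat_lit 60) (nat_lit 5) (nat_lit 298) (nat_lit 290) (nat_lit 132)) (XT.lf (nat_lit 0) (nat_lit 144671759404) (nat_lit 760) (nat_lit 47272884247) (nat_lit 76) (nat_lit 91136321264) (nat_lit 50) (nat_lit 5) (nat_lit 60) (nat_lit 5) (nat_lit 51) (nat_lit 5) (nat_lit 299) (nat_lit 290) (nat_lit 131))) (XT.nd (nat_lit 78) (nat_lit 304) (nat_lit 0) (XT.lf (nat_lit 0) (nat_lit 145301526861) (nat_lit 304) (nat_lit 39375500448) (nat_lit 380) (nat_lit 111884540808) (nat_lit 46) (nat_lit 5) (nat_lit 50) (nat_lit 5) (nat_lit 51) (nat_lit 5) (nat_lit 300) (nat_lit 290) (nat_lit 130)) (XT.nd (nat_lit 78) (nat_lit 0) (nat_lit 0) (XT.lf (nat_lit 0) (nat_lit 43305115146) (nat_lit 304)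 (nat_lit 188048383069) (nat_lit 380) (nat_lit 79593582886) (nat_lit 42) (nat_lit 5) (nat_lit 46) (nat_lit 5) (nat_lit 47) (nat_lit 5) (nat_lit 301) (nat_lit 290) (nat_lit 129)) (XT.lf (nat_lit 0) (nat_lit 258150910283) (nat_lit 304) (nat_lit 26901142733) (nat_lit 380) (nat_lit 41266984355) (nat_lit 42) (nat_lit 5) (nat_lit 46) (nat_lit 5) (nat_lit 47) (nat_lit 5) (nat_lit 302) (nat_lit 290) (nat_lit 128))))))) (XT.nd (nat_lit 36738) (nat_lit 0) (nat_lit 1520) (XT.nd (nat_lit 312) (nat_lit 380) (nat_lit 0) (XT.nd (nat_lit 156) (nat_lit 228) (nat_lit 0) (XT.nd (nat_lit 78) (nat_lit 304) (nat_lit 0) (XT.lf (nat_lit 0) (nat_lit 4832994111) (nat_lit 304) (nat_lit 193007436124) (nat_lit 76) (nat_lit 144844658411) (nat_lit 38) (nat_lit 5) (nat_lit 42) (nat_lit 5) (nat_lit 39) (nat_lit 5) (nat_lit 303) (nat_lit 290) (nat_lit 127)) (XT.lf (nat_lit 0) (nat_lit 26772154558) (nat_lit 304) (nat_lit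 28500745712) (nat_lit 380) (nat_lit 304948812636) (nat_lit 34) (nat_lit 5) (nat_lit 38) (nat_lit 5) (nat_lit 39) (nat_lit 5) (nat_lit 304) (nat_lit 290) (nat_lit 126))) (XT.nd (nat_lit 78) (nat_lit 228) (nat_lit 0) (XT.lf (nat_lit 0) (nat_lit 115575478428) (nat_lit 380) (nat_lit 110432454476) (nat_lit 76) (nat_lit 152861960651) (nat_lit 34) (nat_lit 5) (nat_lit 39) (nat_lit 5) (nat_lit 35) (nat_lit 5) (nat_lit 305) (nat_lit 290) (nat_lit 125)) (XT.lf (nat_lit 0) (nat_lit 134241910835) (nat_lit 228) (nat_lit 49036725345) (nat_lit 304) (nat_lit 215602474200) (nat_lit 31) (nat_lit 5) (nat_lit 34) (nat_lit 5) (nat_lit 35) (nat_lit 5) (nat_lit 306) (nat_lit 290) (nat_lit 124)))) (XT.nd (nat_lit 156) (nat_lit 152) (nat_lit 0) (XT.nd (nat_lit 78) (nat_lit 228) (nat_lit 0) (XT.lf (nat_lit 0) (nat_lit 260571612485) (nat_lit 304) (nat_lit 20213412698) (nat_lit 76) (nat_lit 139499521433) (nat_lit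 31) (nat_lit 5) (nat_lit 35) (nat_lit 5) (nat_lit 32) (nat_lit 5) (nat_lit 307) (nat_lit 290) (nat_lit 123)) (XT.lf (nat_lit 0) (nat_lit 250972161728) (nat_lit 228) (nat_lit 97821010552) (nat_lit 304) (nat_lit 94369828538) (nat_lit 28) (nat_lit 5) (nat_lit 31) (nat_lit 5) (nat_lit 32) (nat_lit 5) (nat_lit 308) (nat_lit 290) (nat_lit 122))) (XT.nd (nat_lit 36114) (nat_lit 0) (nat_lit 2204) (XT.lf (nat_lit 0) (nat_lit 77641563226) (nat_lit 152) (nat_lit 369558742274) (nat_lit 228) (nat_lit 20515033734) (nat_lit 26) (nat_lit 5) (nat_lit 28) (nat_lit 5) (nat_lit 29) (nat_lit 5) (nat_lit 309) (nat_lit 290) (nat_lit 121)) (XT.nd (nat_lit 78) (nat_lit 0) (nat_lit 0) (XT.lf (nat_lit 0) (nat_lit 630575770) (nat_lit 0) (nat_lit 630575770) (nat_lit 684) (nat_lit 103223744253) (nat_lit 55) (nat_lit 5) (nat_lit 55) (nat_lit 3) (nat_lit 64) (nat_lit 3) (nat_lit 291) (nat_lit 291) (nat_lit 138)) (XT.lf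 (nat_lit 0) (nat_lit 4789682302) (nat_lit 684) (nat_lit 78238107236) (nat_lit 760) (nat_lit 134192459017) (nat_lit 55) (nat_lit 5) (nat_lit 64) (nat_lit 3) (nat_lit 65) (nat_lit 5) (nat_lit 292) (nat_lit 291) (nat_lit 137)))))) (XT.nd (nat_lit 312) (nat_lit 760) (nat_lit 0) (XT.nd (nat_lit 156) (nat_lit 0) (nat_lit 76) (XT.nd (nat_lit 78) (nat_lit 0) (nat_lit 0) (XT.lf (nat_lit 0) (nat_lit 9116750593) (nat_lit 684) (nat_lit 163339812060) (nat_lit 760) (nat_lit 53580265526) (nat_lit 56) (nat_lit 5) (nat_lit 65) (nat_lit 5) (nat_lit 66) (nat_lit 5) (nat_lit 293) (nat_lit 291) (nat_lit 136)) (XT.lf (nat_lit 0) (nat_lit 16574990993) (nat_lit 684) (nat_lit 19212251143) (nat_lit 760) (nat_lit 199632242663) (nat_lit 56) (nat_lit 5) (nat_lit 65) (nat_lit 5) (nat_lit 66) (nat_lit 5) (nat_lit 294) (nat_lit 291) (nat_lit 135))) (XT.nd (nat_lit 78) (nat_lit 0) (nat_lit 76) (XT.lf (nat_lit 0) (nat_lit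 28612278146) (nat_lit 684) (nat_lit 106267660616) (nat_lit 760) (nat_lit 110473696698) (nat_lit 57) (nat_lit 5) (nat_lit 66) (nat_lit 5) (nat_lit 67) (nat_lit 5) (nat_lit 295) (nat_lit 291) (nat_lit 134)) (XT.lf (nat_lit 0) (nat_lit 43621788696) (nat_lit 684) (nat_lit 200338907937) (nat_lit 760) (nat_lit 12021360339) (nat_lit 58) (nat_lit 5) (nat_lit 67) (nat_lit 5) (nat_lit 68) (nat_lit 5) (nat_lit 296) (nat_lit 291) (nat_lit 133)))) (XT.nd (nat_lit 156) (nat_lit 912) (nat_lit 0) (XT.nd (nat_lit 78) (nat_lit 0) (nat_lit 76) (XT.lf (nat_lit 0) (nat_lit 63987687448) (nat_lit 684) (nat_lit 35371381827) (nat_lit 760) (nat_lit 167893902325) (nat_lit 58) (nat_lit 5) (nat_lit 67) (nat_lit 5) (nat_lit 68) (nat_lit 5) (nat_lit 297) (nat_lit 291) (nat_lit 132)) (XT.lf (nat_lit 0) (nat_lit 89210564985) (nat_lit 684) (nat_lit 132720314934) (nat_lit 76) (nat_lit 57333294837) (nat_lit 59) (nat_lit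 5) (nat_lit 68) (nat_lit 5) (nat_lit 60) (nat_lit 5) (nat_lit 298) (nat_lit 291) (nat_lit 131))) (XT.nd (nat_lit 78) (nat_lit 304) (nat_lit 0) (XT.lf (nat_lit 0) (nat_lit 52050295007) (nat_lit 684) (nat_lit 67515117277) (nat_lit 760) (nat_lit 172515155555) (nat_lit 50) (nat_lit 5) (nat_lit 59) (nat_lit 5) (nat_lit 60) (nat_lit 5) (nat_lit 299) (nat_lit 291) (nat_lit 130)) (XT.nd (nat_lit 78) (nat_lit 304) (nat_lit 0) (XT.lf (nat_lit 0) (nat_lit 156247955452) (nat_lit 760) (nat_lit 51052375469) (nat_lit 76) (nat_lit 98426976648) (nat_lit 50) (nat_lit 5) (nat_lit 60) (nat_lit 5) (nat_lit 51) (nat_lit 5) (nat_lit 300) (nat_lit 291) (nat_lit 129)) (XT.lf (nat_lit 0) (nat_lit 156927886855) (nat_lit 304) (nat_lit 42525610999) (nat_lit 380) (nat_lit 120832869391) (nat_lit 46) (nat_lit 5) (nat_lit 50) (nat_lit 5) (nat_lit 51) (nat_lit 5) (nat_lit 301) (nat_lit 291) (nat_lit 128))))))))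
noncomputable def xc125 : XT := (XT.nd (nat_lit 37518) (nat_lit 0) (nat_lit 0) (XT.nd (nat_lit 36816) (nat_lit 0) (nat_lit 1444) (XT.nd (nat_lit 312) (nat_lit 228) (nat_lit 0) (XT.nd (nat_lit 156) (nat_lit 608) (nat_lit 0) (XT.nd (nat_lit 78) (nat_lit 0) (nat_lit 0) (XT.lf (nat_lit 0) (nat_lit 46771786834) (nat_lit 304) (nat_lit 203092162913) (nat_lit 380) (nat_lit 85958779162) (nat_lit 42) (nat_lit 5) (nat_lit 46) (nat_lit 5) (nat_lit 47) (nat_lit 5) (nat_lit 302) (nat_lit 291) (nat_lit 127)) (XT.lf (nat_lit 0) (nat_lit 278805077990) (nat_lit 304) (nat_lit 29053150076) (nat_lit 380) (nat_lit 44566222405) (nat_lit 42) (nat_lit 5) (nat_lit 46) (nat_lit 5) (nat_lit 47) (nat_lit 5) (nat_lit 303) (nat_lit 291) (nat_lit 126))) (XT.nd (nat_lit 78) (nat_lit 304) (nat_lit 0) (XT.lf (nat_lit 0) (nat_lit 5221569084) (nat_lit 304) (nat_lit 208445851075) (nat_lit 76) (nat_lit 156432370564) (nat_lit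 38) (nat_lit 5) (nat_lit 42) (nat_lit 5) (nat_lit 39) (nat_lit 5) (nat_lit 304) (nat_lit 291) (nat_lit 125)) (XT.lf (nat_lit 0) (nat_lit 28916012125) (nat_lit 304) (nat_lit 30780544801) (nat_lit 380) (nat_lit 329342794149) (nat_lit 34) (nat_lit 5) (nat_lit 38) (nat_lit 5) (nat_lit 39) (nat_lit 5) (nat_lit 305) (nat_lit 291) (nat_lit 124)))) (XT.nd (nat_lit 156) (nat_lit 0) (nat_lit 0) (XT.nd (nat_lit 78) (nat_lit 228) (nat_lit 0) (XT.lf (nat_lit 0) (nat_lit 124823209945) (nat_lit 380) (nat_lit 119265032317) (nat_lit 76) (nat_lit 165091151048) (nat_lit 34) (nat_lit 5) (nat_lit 39) (nat_lit 5) (nat_lit 35) (nat_lit 5) (nat_lit 306) (nat_lit 291) (nat_lit 123)) (XT.lf (nat_lit 0) (nat_lit 144983194496) (nat_lit 228) (nat_lit 52959330541) (nat_lit 304) (nat_lit 232848987732) (nat_lit 31) (nat_lit 5) (nat_lit 34) (nat_lit 5) (nat_lit 35) (nat_lit 5) (nat_lit 307) (nat_lit 291) (nat_lit 122)))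 (XT.nd (nat_lit 36270) (nat_lit 0) (nat_lit 1824) (XT.lf (nat_lit 0) (nat_lit 281418825890) (nat_lit 304) (nat_lit 21828622714) (nat_lit 76) (nat_lit 150659781462) (nat_lit 31) (nat_lit 5) (nat_lit 35) (nat_lit 5) (nat_lit 32) (nat_lit 5) (nat_lit 308) (nat_lit 291) (nat_lit 121)) (XT.lf (nat_lit 0) (nat_lit 682042967) (nat_lit 0) (nat_lit 682042967) (nat_lit 684) (nat_lit 111479489317) (nat_lit 55) (nat_lit 5) (nat_lit 55) (nat_lit 3) (nat_lit 64) (nat_lit 3) (nat_lit 292) (nat_lit 292) (nat_lit 136))))) (XT.nd (nat_lit 312) (nat_lit 380) (nat_lit 0) (XT.nd (nat_lit 156) (nat_lit 0) (nat_lit 76) (XT.nd (nat_lit 78) (nat_lit 0) (nat_lit 76) (XT.lf (nat_lit 0) (nat_lit 5176609347) (nat_lit 684) (nat_lit 84495027514) (nat_lit 760) (nat_lit 144926025269) (nat_lit 55) (nat_lit 5) (nat_lit 64) (nat_lit 3) (nat_lit 65) (nat_lit 5) (nat_lit 293) (nat_lit 292) (nat_lit 135)) (XT.lf (nat_lit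 0) (nat_lit 9849573967) (nat_lit 684) (nat_lit 176404745642) (nat_lit 760) (nat_lit 57865263356) (nat_lit 56) (nat_lit 5) (nat_lit 65) (nat_lit 5) (nat_lit 66) (nat_lit 5) (nat_lit 294) (nat_lit 292) (nat_lit 134))) (XT.nd (nat_lit 78) (nat_lit 0) (nat_lit 76) (XT.lf (nat_lit 0) (nat_lit 17904215576) (nat_lit 684) (nat_lit 20747146620) (nat_lit 760) (nat_lit 215601504102) (nat_lit 56) (nat_lit 5) (nat_lit 65) (nat_lit 5) (nat_lit 66) (nat_lit 5) (nat_lit 295) (nat_lit 292) (nat_lit 133)) (XT.lf (nat_lit 0) (nat_lit 30904261941) (nat_lit 684) (nat_lit 114766897756) (nat_lit 760) (nat_lit 119310601688) (nat_lit 57) (nat_lit 5) (nat_lit 66) (nat_lit 5) (nat_lit 67) (nat_lit 5) (nat_lit 296) (nat_lit 292) (nat_lit 132)))) (XT.nd (nat_lit 156) (nat_lit 608) (nat_lit 0) (XT.nd (nat_lit 78) (nat_lit 0) (nat_lit 0) (XT.lf (nat_lit 0) (nat_lit 47114332086) (nat_lit 684) (nat_lit 216363773690)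 (nat_lit 760) (nat_lit 12982362004) (nat_lit 58) (nat_lit 5) (nat_lit 67) (nat_lit 5) (nat_lit 68) (nat_lit 5) (nat_lit 297) (nat_lit 292) (nat_lit 131)) (XT.lf (nat_lit 0) (nat_lit 69109295309) (nat_lit 684) (nat_lit 38199011927) (nat_lit 760) (nat_lit 181324759731) (nat_lit 58) (nat_lit 5) (nat_lit 67) (nat_lit 5) (nat_lit 68) (nat_lit 5) (nat_lit 298) (nat_lit 292) (nat_lit 130))) (XT.nd (nat_lit 78) (nat_lit 684) (nat_lit 0) (XT.lf (nat_lit 0) (nat_lit 96349835156) (nat_lit 684) (nat_lit 143335809828) (nat_lit 76) (nat_lit 61919530728) (nat_lit 59) (nat_lit 5) (nat_lit 68) (nat_lit 5) (nat_lit 60) (nat_lit 5) (nat_lit 299) (nat_lit 292) (nat_lit 129)) (XT.nd (nat_lit 78) (nat_lit 0) (nat_lit 0) (XT.lf (nat_lit 0) (nat_lit 56216356328) (nat_lit 684) (nat_lit 72916566098) (nat_lit 760) (nat_lit 186313966079) (nat_lit 50) (nat_lit 5) (nat_lit 59) (nat_lit 5) (nat_lit 60) (nat_lit 5)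 (nat_lit 300) (nat_lit 292) (nat_lit 128)) (XT.lf (nat_lit 0) (nat_lit 168749896907) (nat_lit 760) (nat_lit 55134559747) (nat_lit 76) (nat_lit 106300920172) (nat_lit 50) (nat_lit 5) (nat_lit 60) (nat_lit 5) (nat_lit 51) (nat_lit 5) (nat_lit 301) (nat_lit 292) (nat_lit 127))))))) (XT.nd (nat_lit 36972) (nat_lit 0) (nat_lit 1140) (XT.nd (nat_lit 312) (nat_lit 532) (nat_lit 0) (XT.nd (nat_lit 156) (nat_lit 304) (nat_lit 0) (XT.nd (nat_lit 78) (nat_lit 304) (nat_lit 0) (XT.lf (nat_lit 0) (nat_lit 169484036395) (nat_lit 304) (nat_lit 45927720335) (nat_lit 380) (nat_lit 130497411595) (nat_lit 46) (nat_lit 5) (nat_lit 50) (nat_lit 5) (nat_lit 51) (nat_lit 5) (nat_lit 302) (nat_lit 292) (nat_lit 126)) (XT.lf (nat_lit 0) (nat_lit 50515469489) (nat_lit 304) (nat_lit 219339458099) (nat_lit 380) (nat_lit 92833517886) (nat_lit 42) (nat_lit 5) (nat_lit 46) (nat_lit 5) (nat_lit 47) (nat_lit 5) (nat_lit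 303) (nat_lit 292) (nat_lit 125))) (XT.nd (nat_lit 78) (nat_lit 304) (nat_lit 0) (XT.lf (nat_lit 0) (nat_lit 301111280256) (nat_lit 304) (nat_lit 31377330002) (nat_lit 380) (nat_lit 48129702041) (nat_lit 42) (nat_lit 5) (nat_lit 46) (nat_lit 5) (nat_lit 47) (nat_lit 5) (nat_lit 304) (nat_lit 292) (nat_lit 124)) (XT.lf (nat_lit 0) (nat_lit 5640953942) (nat_lit 304) (nat_lit 225119650215) (nat_lit 76) (nat_lit 168947079790) (nat_lit 38) (nat_lit 5) (nat_lit 42) (nat_lit 5) (nat_lit 39) (nat_lit 5) (nat_lit 305) (nat_lit 292) (nat_lit 123)))) (XT.nd (nat_lit 156) (nat_lit 228) (nat_lit 0) (XT.nd (nat_lit 78) (nat_lit 0) (nat_lit 0) (XT.lf (nat_lit 0) (nat_lit 31231080819) (nat_lit 304) (nat_lit 33242764990) (nat_lit 380) (nat_lit 355688568591) (nat_lit 34) (nat_lit 5) (nat_lit 38) (nat_lit 5) (nat_lit 39) (nat_lit 5) (nat_lit 306) (nat_lit 292) (nat_lit 122)) (XT.lf (nat_lit 0) (nat_lit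 134810518423) (nat_lit 380) (nat_lit 128804504350) (nat_lit 76) (nat_lit 178298643359) (nat_lit 34) (nat_lit 5) (nat_lit 39) (nat_lit 5) (nat_lit 35) (nat_lit 5) (nat_lit 307) (nat_lit 292) (nat_lit 121))) (XT.nd (nat_lit 36348) (nat_lit 0) (nat_lit 1824) (XT.lf (nat_lit 0) (nat_lit 156583505401) (nat_lit 228) (nat_lit 57195791634) (nat_lit 304) (nat_lit 251475462646) (nat_lit 31) (nat_lit 5) (nat_lit 34) (nat_lit 5) (nat_lit 35) (nat_lit 5) (nat_lit 308) (nat_lit 292) (nat_lit 120)) (XT.nd (nat_lit 78) (nat_lit 0) (nat_lit 0) (XT.lf (nat_lit 0) (nat_lit 737481864) (nat_lit 0) (nat_lit 737481864) (nat_lit 684) (nat_lit 120396001347) (nat_lit 55) (nat_lit 5) (nat_lit 55) (nat_lit 3) (nat_lit 64) (nat_lit 3) (nat_lit 293) (nat_lit 293) (nat_lit 134)) (XT.lf (nat_lit 0) (nat_lit 5593955225) (nat_lit 684) (nat_lit 91252805039) (nat_lit 760) (nat_lit 156518537959) (nat_lit 55) (nat_lit 5)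 (nat_lit 64) (nat_lit 3) (nat_lit 65) (nat_lit 5) (nat_lit 294) (nat_lit 293) (nat_lit 133)))))) (XT.nd (nat_lit 312) (nat_lit 760) (nat_lit 0) (XT.nd (nat_lit 156) (nat_lit 0) (nat_lit 76) (XT.nd (nat_lit 78) (nat_lit 0) (nat_lit 0) (XT.lf (nat_lit 0) (nat_lit 10640526276) (nat_lit 684) (nat_lit 190515195095) (nat_lit 760) (nat_lit 62493264078) (nat_lit 56) (nat_lit 5) (nat_lit 65) (nat_lit 5) (nat_lit 66) (nat_lit 5) (nat_lit 295) (nat_lit 293) (nat_lit 132)) (XT.lf (nat_lit 0) (nat_lit 19339317999) (nat_lit 684) (nat_lit 22405131129) (nat_lit 760) (nat_lit 232848494479) (nat_lit 56) (nat_lit 5) (nat_lit 65) (nat_lit 5) (nat_lit 66) (nat_lit 5) (nat_lit 296) (nat_lit 293) (nat_lit 131))) (XT.nd (nat_lit 78) (nat_lit 0) (nat_lit 76) (XT.lf (nat_lit 0) (nat_lit 33379176237) (nat_lit 684) (nat_lit 123946384256) (nat_lit 760) (nat_lit 128854600418) (nat_lit 57) (nat_lit 5) (nat_lit 66)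 (nat_lit 5) (nat_lit 67) (nat_lit 5) (nat_lit 297) (nat_lit 293) (nat_lit 130)) (XT.lf (nat_lit 0) (nat_lit 50885879454) (nat_lit 684) (nat_lit 233670949246) (nat_lit 760) (nat_lit 14020344687) (nat_lit 58) (nat_lit 5) (nat_lit 67) (nat_lit 5) (nat_lit 68) (nat_lit 5) (nat_lit 298) (nat_lit 293) (nat_lit 129)))) (XT.nd (nat_lit 156) (nat_lit 912) (nat_lit 0) (XT.nd (nat_lit 78) (nat_lit 0) (nat_lit 76) (XT.lf (nat_lit 0) (nat_lit 74640261897) (nat_lit 684) (nat_lit 41253149233) (nat_lit 760) (nat_lit 195830179142) (nat_lit 58) (nat_lit 5) (nat_lit 67) (nat_lit 5) (nat_lit 68) (nat_lit 5) (nat_lit 299) (nat_lit 293) (nat_lit 128)) (XT.lf (nat_lit 0) (nat_lit 104059900992) (nat_lit 684) (nat_lit 154800848225) (nat_lit 76) (nat_lit 66872726505) (nat_lit 59) (nat_lit 5) (nat_lit 68) (nat_lit 5) (nat_lit 60) (nat_lit 5) (nat_lit 300) (nat_lit 293) (nat_lit 127))) (XT.nd (nat_lit 78) (nat_lit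 304) (nat_lit 0) (XT.lf (nat_lit 0) (nat_lit 60715411851) (nat_lit 684) (nat_lit 78750096667) (nat_lit 760) (nat_lit 201217024105) (nat_lit 50) (nat_lit 5) (nat_lit 59) (nat_lit 5) (nat_lit 60) (nat_lit 5) (nat_lit 301) (nat_lit 293) (nat_lit 126)) (XT.nd (nat_lit 78) (nat_lit 304) (nat_lit 0) (XT.lf (nat_lit 0) (nat_lit 182251693375) (nat_lit 760) (nat_lit 59543604912) (nat_lit 76) (nat_lit 114804809795) (nat_lit 50) (nat_lit 5) (nat_lit 60) (nat_lit 5) (nat_lit 51) (nat_lit 5) (nat_lit 302) (nat_lit 293) (nat_lit 125)) (XT.lf (nat_lit 0) (nat_lit 183044404190) (nat_lit 304) (nat_lit 49601989792) (nat_lit 380) (nat_lit 140935414959) (nat_lit 46) (nat_lit 5) (nat_lit 50) (nat_lit 5) (nat_lit 51) (nat_lit 5) (nat_lit 303) (nat_lit 293) (nat_lit 124))))))))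
noncomputable def xc126 : XT := (XT.nd (nat_lit 37752) (nat_lit 0) (nat_lit 304) (XT.nd (nat_lit 37050) (nat_lit 0) (nat_lit 608) (XT.nd (nat_lit 36738) (nat_lit 0) (nat_lit 1596) (XT.nd (nat_lit 156) (nat_lit 608) (nat_lit 0) (XT.nd (nat_lit 78) (nat_lit 0) (nat_lit 0) (XT.lf (nat_lit 0) (nat_lit 54558370035) (nat_lit 304) (nat_lit 236886548006) (nat_lit 380) (nat_lit 100258515838) (nat_lit 42) (nat_lit 5) (nat_lit 46) (nat_lit 5) (nat_lit 47) (nat_lit 5) (nat_lit 304) (nat_lit 293) (nat_lit 123)) (XT.lf (nat_lit 0) (nat_lit 325201722479) (nat_lit 304) (nat_lit 33887454604) (nat_lit 380) (nat_lit 51978519427) (nat_lit 42) (nat_lit 5) (nat_lit 46) (nat_lit 5) (nat_lit 47) (nat_lit 5) (nat_lit 305) (nat_lit 293) (nat_lit 122))) (XT.nd (nat_lit 78) (nat_lit 304) (nat_lit 0) (XT.lf (nat_lit 0) (nat_lit 6093652866) (nat_lit 304) (nat_lit 243127619912) (nat_lit 76) (nat_lit 182462948695)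 (nat_lit 38) (nat_lit 5) (nat_lit 42) (nat_lit 5) (nat_lit 39) (nat_lit 5) (nat_lit 306) (nat_lit 293) (nat_lit 121)) (XT.lf (nat_lit 0) (nat_lit 33731099970) (nat_lit 304) (nat_lit 35901994664) (nat_lit 380) (nat_lit 384142240250) (nat_lit 34) (nat_lit 5) (nat_lit 38) (nat_lit 5) (nat_lit 39) (nat_lit 5) (nat_lit 307) (nat_lit 293) (nat_lit 120)))) (XT.nd (nat_lit 156) (nat_lit 0) (nat_lit 76) (XT.nd (nat_lit 78) (nat_lit 0) (nat_lit 0) (XT.lf (nat_lit 0) (nat_lit 797230978) (nat_lit 0) (nat_lit 797230978) (nat_lit 684) (nat_lit 130026097851) (nat_lit 55) (nat_lit 5) (nat_lit 55) (nat_lit 3) (nat_lit 64) (nat_lit 3) (nat_lit 294) (nat_lit 294) (nat_lit 132)) (XT.lf (nat_lit 0) (nat_lit 6044229813) (nat_lit 684) (nat_lit 98551465077) (nat_lit 760) (nat_lit 169038675547) (nat_lit 55) (nat_lit 5) (nat_lit 64) (nat_lit 3) (nat_lit 65) (nat_lit 5) (nat_lit 295) (nat_lit 294) (nat_lit 131)))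 (XT.nd (nat_lit 78) (nat_lit 0) (nat_lit 0) (XT.lf (nat_lit 0) (nat_lit 11494328728) (nat_lit 684) (nat_lit 205754755868) (nat_lit 760) (nat_lit 67491678953) (nat_lit 56) (nat_lit 5) (nat_lit 65) (nat_lit 5) (nat_lit 66) (nat_lit 5) (nat_lit 296) (nat_lit 294) (nat_lit 130)) (XT.lf (nat_lit 0) (nat_lit 20888834133) (nat_lit 684) (nat_lit 24196009365) (nat_lit 760) (nat_lit 251475405287) (nat_lit 56) (nat_lit 5) (nat_lit 65) (nat_lit 5) (nat_lit 66) (nat_lit 5) (nat_lit 297) (nat_lit 294) (nat_lit 129))))) (XT.nd (nat_lit 312) (nat_lit 1140) (nat_lit 0) (XT.nd (nat_lit 156) (nat_lit 0) (nat_lit 76) (XT.nd (nat_lit 78) (nat_lit 0) (nat_lit 76) (XT.lf (nat_lit 0) (nat_lit 36051716560) (nat_lit 684) (nat_lit 133860495785) (nat_lit 760) (nat_lit 139162240224) (nat_lit 57) (nat_lit 5) (nat_lit 66) (nat_lit 5) (nat_lit 67) (nat_lit 5) (nat_lit 298) (nat_lit 294) (nat_lit 128)) (XT.lf (nat_lit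 0) (nat_lit 54958808110) (nat_lit 684) (nat_lit 252362973661) (nat_lit 760) (nat_lit 15141452477) (nat_lit 58) (nat_lit 5) (nat_lit 67) (nat_lit 5) (nat_lit 68) (nat_lit 5) (nat_lit 299) (nat_lit 294) (nat_lit 127))) (XT.nd (nat_lit 78) (nat_lit 0) (nat_lit 76) (XT.lf (nat_lit 0) (nat_lit 80613388682) (nat_lit 684) (nat_lit 44551871982) (nat_lit 760) (nat_lit 211496112191) (nat_lit 58) (nat_lit 5) (nat_lit 67) (nat_lit 5) (nat_lit 68) (nat_lit 5) (nat_lit 300) (nat_lit 294) (nat_lit 126)) (XT.lf (nat_lit 0) (nat_lit 112386475499) (nat_lit 684) (nat_lit 167183350249) (nat_lit 76) (nat_lit 72222230255) (nat_lit 59) (nat_lit 5) (nat_lit 68) (nat_lit 5) (nat_lit 60) (nat_lit 5) (nat_lit 301) (nat_lit 294) (nat_lit 125)))) (XT.nd (nat_lit 156) (nat_lit 608) (nat_lit 0) (XT.nd (nat_lit 78) (nat_lit 0) (nat_lit 0) (XT.lf (nat_lit 0) (nat_lit 65574142584) (nat_lit 684) (nat_lit 85050280395)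 (nat_lit 760) (nat_lit 217312620550) (nat_lit 50) (nat_lit 5) (nat_lit 59) (nat_lit 5) (nat_lit 60) (nat_lit 5) (nat_lit 302) (nat_lit 294) (nat_lit 124)) (XT.lf (nat_lit 0) (nat_lit 196833376097) (nat_lit 760) (nat_lit 64305619012) (nat_lit 76) (nat_lit 123989036836) (nat_lit 50) (nat_lit 5) (nat_lit 60) (nat_lit 5) (nat_lit 51) (nat_lit 5) (nat_lit 303) (nat_lit 294) (nat_lit 123))) (XT.nd (nat_lit 78) (nat_lit 304) (nat_lit 0) (XT.lf (nat_lit 0) (nat_lit 197689366747) (nat_lit 304) (nat_lit 53570193412) (nat_lit 380) (nat_lit 152208713893) (nat_lit 46) (nat_lit 5) (nat_lit 50) (nat_lit 5) (nat_lit 51) (nat_lit 5) (nat_lit 304) (nat_lit 294) (nat_lit 122)) (XT.nd (nat_lit 78) (nat_lit 0) (nat_lit 0) (XT.lf (nat_lit 0) (nat_lit 58924465381) (nat_lit 304) (nat_lit 255837414626) (nat_lit 380) (nat_lit 108277753793) (nat_lit 42) (nat_lit 5) (nat_lit 46) (nat_lit 5) (nat_lit 47) (nat_lit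 5) (nat_lit 305) (nat_lit 294) (nat_lit 121)) (XT.lf (nat_lit 0) (nat_lit 351219180410) (nat_lit 304) (nat_lit 36598397991) (nat_lit 380) (nat_lit 56135464582) (nat_lit 42) (nat_lit 5) (nat_lit 46) (nat_lit 5) (nat_lit 47) (nat_lit 5) (nat_lit 306) (nat_lit 294) (nat_lit 120))))))) (XT.nd (nat_lit 37206) (nat_lit 0) (nat_lit 304) (XT.nd (nat_lit 36816) (nat_lit 0) (nat_lit 1368) (XT.nd (nat_lit 36660) (nat_lit 0) (nat_lit 1292) (XT.nd (nat_lit 36582) (nat_lit 0) (nat_lit 1292) (XT.lf (nat_lit 0) (nat_lit 6582364753) (nat_lit 304) (nat_lit 262576455773) (nat_lit 76) (nat_lit 197060072486) (nat_lit 38) (nat_lit 5) (nat_lit 42) (nat_lit 5) (nat_lit 39) (nat_lit 5) (nat_lit 307) (nat_lit 294) (nat_lit 119)) (XT.lf (nat_lit 0) (nat_lit 861652945) (nat_lit 0) (nat_lit 861652945) (nat_lit 684) (nat_lit 140426827993) (nat_lit 55) (nat_lit 5) (nat_lit 55) (nat_lit 3) (nat_lit 64) (nat_lit 3)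 (nat_lit 295) (nat_lit 295) (nat_lit 130))) (XT.nd (nat_lit 78) (nat_lit 0) (nat_lit 76) (XT.lf (nat_lit 0) (nat_lit 6530132885) (nat_lit 684) (nat_lit 106434241092) (nat_lit 760) (nat_lit 182560616085) (nat_lit 55) (nat_lit 5) (nat_lit 64) (nat_lit 3) (nat_lit 65) (nat_lit 5) (nat_lit 296) (nat_lit 295) (nat_lit 129)) (XT.lf (nat_lit 0) (nat_lit 12416070113) (nat_lit 684) (nat_lit 222213717584) (nat_lit 760) (nat_lit 72890116278) (nat_lit 56) (nat_lit 5) (nat_lit 65) (nat_lit 5) (nat_lit 66) (nat_lit 5) (nat_lit 297) (nat_lit 295) (nat_lit 128)))) (XT.nd (nat_lit 156) (nat_lit 0) (nat_lit 152) (XT.nd (nat_lit 78) (nat_lit 0) (nat_lit 76) (XT.lf (nat_lit 0) (nat_lit 22561973352) (nat_lit 684) (nat_lit 26130376454) (nat_lit 760) (nat_lit 271592607162) (nat_lit 56) (nat_lit 5) (nat_lit 65) (nat_lit 5) (nat_lit 66) (nat_lit 5) (nat_lit 298) (nat_lit 295) (nat_lit 127)) (XT.lf (nat_lit 0)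 (nat_lit 38937745367) (nat_lit 684) (nat_lit 144567964382) (nat_lit 760) (nat_lit 150294595104) (nat_lit 57) (nat_lit 5) (nat_lit 66) (nat_lit 5) (nat_lit 67) (nat_lit 5) (nat_lit 299) (nat_lit 295) (nat_lit 126))) (XT.nd (nat_lit 78) (nat_lit 0) (nat_lit 0) (XT.lf (nat_lit 0) (nat_lit 59357277420) (nat_lit 684) (nat_lit 272550595637) (nat_lit 760) (nat_lit 16352323043) (nat_lit 58) (nat_lit 5) (nat_lit 67) (nat_lit 5) (nat_lit 68) (nat_lit 5) (nat_lit 300) (nat_lit 295) (nat_lit 125)) (XT.nd (nat_lit 78) (nat_lit 0) (nat_lit 76) (XT.lf (nat_lit 0) (nat_lit 87064093722) (nat_lit 684) (nat_lit 48114710706) (nat_lit 760) (nat_lit 228415388543) (nat_lit 58) (nat_lit 5) (nat_lit 67) (nat_lit 5) (nat_lit 68) (nat_lit 5) (nat_lit 301) (nat_lit 295) (nat_lit 124)) (XT.lf (nat_lit 0) (nat_lit 121378921683) (nat_lit 684) (nat_lit 180556675818) (nat_lit 76) (nat_lit 77999739154) (nat_lit 59) (nat_lit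 5) (nat_lit 68) (nat_lit 5) (nat_lit 60) (nat_lit 5) (nat_lit 302) (nat_lit 295) (nat_lit 123)))))) (XT.nd (nat_lit 36972) (nat_lit 0) (nat_lit 988) (XT.nd (nat_lit 156) (nat_lit 608) (nat_lit 0) (XT.nd (nat_lit 78) (nat_lit 0) (nat_lit 0) (XT.lf (nat_lit 0) (nat_lit 70821358100) (nat_lit 684) (nat_lit 91854453714) (nat_lit 760) (nat_lit 234696116576) (nat_lit 50) (nat_lit 5) (nat_lit 59) (nat_lit 5) (nat_lit 60) (nat_lit 5) (nat_lit 303) (nat_lit 295) (nat_lit 122)) (XT.lf (nat_lit 0) (nat_lit 212581372705) (nat_lit 760) (nat_lit 69448804564) (nat_lit 76) (nat_lit 133908024544) (nat_lit 50) (nat_lit 5) (nat_lit 60) (nat_lit 5) (nat_lit 51) (nat_lit 5) (nat_lit 304) (nat_lit 295) (nat_lit 121))) (XT.nd (nat_lit 78) (nat_lit 304) (nat_lit 0) (XT.lf (nat_lit 0) (nat_lit 213505725125) (nat_lit 304) (nat_lit 57855846983) (nat_lit 380) (nat_lit 164384095622) (nat_lit 46) (nat_lit 5) (nat_lit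 50) (nat_lit 5) (nat_lit 51) (nat_lit 5) (nat_lit 305) (nat_lit 295) (nat_lit 120)) (XT.lf (nat_lit 0) (nat_lit 63639644957) (nat_lit 304) (nat_lit 276304358739) (nat_lit 380) (nat_lit 116938736689) (nat_lit 42) (nat_lit 5) (nat_lit 46) (nat_lit 5) (nat_lit 47) (nat_lit 5) (nat_lit 306) (nat_lit 295) (nat_lit 119)))) (XT.nd (nat_lit 156) (nat_lit 0) (nat_lit 76) (XT.nd (nat_lit 78) (nat_lit 0) (nat_lit 0) (XT.lf (nat_lit 0) (nat_lit 931136869) (nat_lit 0) (nat_lit 931136869) (nat_lit 684) (nat_lit 151659810236) (nat_lit 55) (nat_lit 5) (nat_lit 55) (nat_lit 3) (nat_lit 64) (nat_lit 3) (nat_lit 296) (nat_lit 296) (nat_lit 128)) (XT.lf (nat_lit 0) (nat_lit 7054570854) (nat_lit 684) (nat_lit 114947830524) (nat_lit 760) (nat_lit 197164476426) (nat_lit 55) (nat_lit 5) (nat_lit 64) (nat_lit 3) (nat_lit 65) (nat_lit 5) (nat_lit 297) (nat_lit 296) (nat_lit 127))) (XT.nd (nat_lit 78) (nat_lit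 0) (nat_lit 0) (XT.lf (nat_lit 0) (nat_lit 13411237655) (nat_lit 684) (nat_lit 239989598638) (nat_lit 760) (nat_lit 78720556555) (nat_lit 56) (nat_lit 5) (nat_lit 65) (nat_lit 5) (nat_lit 66) (nat_lit 5) (nat_lit 298) (nat_lit 296) (nat_lit 126)) (XT.nd (nat_lit 78) (nat_lit 0) (nat_lit 76) (XT.lf (nat_lit 0) (nat_lit 24368673751) (nat_lit 684) (nat_lit 28219680318) (nat_lit 760) (nat_lit 293319303675) (nat_lit 56) (nat_lit 5) (nat_lit 65) (nat_lit 5) (nat_lit 66) (nat_lit 5) (nat_lit 299) (nat_lit 296) (nat_lit 125)) (XT.lf (nat_lit 0) (nat_lit 42054386637) (nat_lit 684) (nat_lit 156132226065) (nat_lit 760) (nat_lit 162317627444) (nat_lit 57) (nat_lit 5) (nat_lit 66) (nat_lit 5) (nat_lit 67) (nat_lit 5) (nat_lit 300) (nat_lit 296) (nat_lit 124))))))))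
noncomputable def xc127 : XT := (XT.nd (nat_lit 75036) (nat_lit 0) (nat_lit 684) (XT.nd (nat_lit 37440) (nat_lit 0) (nat_lit 304) (XT.nd (nat_lit 312) (nat_lit 304) (nat_lit 0) (XT.nd (nat_lit 156) (nat_lit 608) (nat_lit 0) (XT.nd (nat_lit 78) (nat_lit 0) (nat_lit 0) (XT.lf (nat_lit 0) (nat_lit 64107372525) (nat_lit 684) (nat_lit 294353429367) (nat_lit 760) (nat_lit 17660126829) (nat_lit 58) (nat_lit 5) (nat_lit 67) (nat_lit 5) (nat_lit 68) (nat_lit 5) (nat_lit 301) (nat_lit 296) (nat_lit 123)) (XT.lf (nat_lit 0) (nat_lit 94030622064) (nat_lit 684) (nat_lit 51962763562) (nat_lit 760) (nat_lit 246688265870) (nat_lit 58) (nat_lit 5) (nat_lit 67) (nat_lit 5) (nat_lit 68) (nat_lit 5) (nat_lit 302) (nat_lit 296) (nat_lit 122))) (XT.nd (nat_lit 78) (nat_lit 684) (nat_lit 0) (XT.lf (nat_lit 0) (nat_lit 131090545555) (nat_lit 684) (nat_lit 195000058949) (nat_lit 76) (nat_lit 84239487216) (nat_lit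 59) (nat_lit 5) (nat_lit 68) (nat_lit 5) (nat_lit 60) (nat_lit 5) (nat_lit 303) (nat_lit 296) (nat_lit 121)) (XT.lf (nat_lit 0) (nat_lit 76488167665) (nat_lit 684) (nat_lit 99202939373) (nat_lit 760) (nat_lit 253470508219) (nat_lit 50) (nat_lit 5) (nat_lit 59) (nat_lit 5) (nat_lit 60) (nat_lit 5) (nat_lit 304) (nat_lit 296) (nat_lit 120)))) (XT.nd (nat_lit 36894) (nat_lit 0) (nat_lit 684) (XT.nd (nat_lit 78) (nat_lit 304) (nat_lit 0) (XT.lf (nat_lit 0) (nat_lit 229589019798) (nat_lit 760) (nat_lit 75003625280) (nat_lit 76) (nat_lit 144620550562) (nat_lit 50) (nat_lit 5) (nat_lit 60) (nat_lit 5) (nat_lit 51) (nat_lit 5) (nat_lit 305) (nat_lit 296) (nat_lit 119)) (XT.lf (nat_lit 0) (nat_lit 230587219690) (nat_lit 304) (nat_lit 62484347403) (nat_lit 380) (nat_lit 177533695543) (nat_lit 46) (nat_lit 5) (nat_lit 50) (nat_lit 5) (nat_lit 51) (nat_lit 5) (nat_lit 306) (nat_lit 296) (nat_lit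 118))) (XT.nd (nat_lit 78) (nat_lit 0) (nat_lit 0) (XT.lf (nat_lit 0) (nat_lit 1006100802) (nat_lit 0) (nat_lit 1006100802) (nat_lit 684) (nat_lit 163791597116) (nat_lit 55) (nat_lit 5) (nat_lit 55) (nat_lit 3) (nat_lit 64) (nat_lit 3) (nat_lit 297) (nat_lit 297) (nat_lit 126)) (XT.nd (nat_lit 78) (nat_lit 0) (nat_lit 76) (XT.lf (nat_lit 0) (nat_lit 7620674638) (nat_lit 684) (nat_lit 124142671150) (nat_lit 760) (nat_lit 212936786679) (nat_lit 55) (nat_lit 5) (nat_lit 64) (nat_lit 3) (nat_lit 65) (nat_lit 5) (nat_lit 298) (nat_lit 297) (nat_lit 125)) (XT.lf (nat_lit 0) (nat_lit 14485750122) (nat_lit 684) (nat_lit 259187723703) (nat_lit 760) (nat_lit 85017541764) (nat_lit 56) (nat_lit 5) (nat_lit 65) (nat_lit 5) (nat_lit 66) (nat_lit 5) (nat_lit 299) (nat_lit 297) (nat_lit 124)))))) (XT.nd (nat_lit 312) (nat_lit 456) (nat_lit 0) (XT.nd (nat_lit 156) (nat_lit 0) (nat_lit 152) (XT.nd (nat_lit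 78) (nat_lit 0) (nat_lit 76) (XT.lf (nat_lit 0) (nat_lit 26319661590) (nat_lit 684) (nat_lit 30476289164) (nat_lit 760) (nat_lit 316784237492) (nat_lit 56) (nat_lit 5) (nat_lit 65) (nat_lit 5) (nat_lit 66) (nat_lit 5) (nat_lit 300) (nat_lit 297) (nat_lit 123)) (XT.lf (nat_lit 0) (nat_lit 45420127864) (nat_lit 684) (nat_lit 168621796375) (nat_lit 760) (nat_lit 175302578732) (nat_lit 57) (nat_lit 5) (nat_lit 66) (nat_lit 5) (nat_lit 67) (nat_lit 5) (nat_lit 301) (nat_lit 297) (nat_lit 122))) (XT.nd (nat_lit 78) (nat_lit 0) (nat_lit 0) (XT.lf (nat_lit 0) (nat_lit 69237259405) (nat_lit 684) (nat_lit 317900662975) (nat_lit 760) (nat_lit 19072609422) (nat_lit 58) (nat_lit 5) (nat_lit 67) (nat_lit 5) (nat_lit 68) (nat_lit 5) (nat_lit 302) (nat_lit 297) (nat_lit 121)) (XT.lf (nat_lit 0) (nat_lit 101554272827) (nat_lit 684) (nat_lit 56118820998) (nat_lit 760) (nat_lit 266423023850) (nat_lit 58)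 (nat_lit 5) (nat_lit 67) (nat_lit 5) (nat_lit 68) (nat_lit 5) (nat_lit 303) (nat_lit 297) (nat_lit 120)))) (XT.nd (nat_lit 37050) (nat_lit 0) (nat_lit 380) (XT.nd (nat_lit 78) (nat_lit 684) (nat_lit 0) (XT.lf (nat_lit 0) (nat_lit 141578912431) (nat_lit 684) (nat_lit 210599076924) (nat_lit 76) (nat_lit 90978448087) (nat_lit 59) (nat_lit 5) (nat_lit 68) (nat_lit 5) (nat_lit 60) (nat_lit 5) (nat_lit 304) (nat_lit 297) (nat_lit 119)) (XT.lf (nat_lit 0) (nat_lit 82608164937) (nat_lit 684) (nat_lit 107139285430) (nat_lit 760) (nat_lit 273747036322) (nat_lit 50) (nat_lit 5) (nat_lit 59) (nat_lit 5) (nat_lit 60) (nat_lit 5) (nat_lit 305) (nat_lit 297) (nat_lit 118))) (XT.nd (nat_lit 78) (nat_lit 0) (nat_lit 0) (XT.lf (nat_lit 0) (nat_lit 1086994373) (nat_lit 0) (nat_lit 1086994373) (nat_lit 684) (nat_lit 176894069313) (nat_lit 55) (nat_lit 5) (nat_lit 55) (nat_lit 3) (nat_lit 64) (nat_lit 3)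 (nat_lit 298) (nat_lit 298) (nat_lit 124)) (XT.nd (nat_lit 78) (nat_lit 0) (nat_lit 76) (XT.lf (nat_lit 0) (nat_lit 8231818763) (nat_lit 684) (nat_lit 134073239664) (nat_lit 760) (nat_lit 229971002710) (nat_lit 55) (nat_lit 5) (nat_lit 64) (nat_lit 3) (nat_lit 65) (nat_lit 5) (nat_lit 299) (nat_lit 298) (nat_lit 123)) (XT.lf (nat_lit 0) (nat_lit 15645993409) (nat_lit 684) (nat_lit 279921847544) (nat_lit 760) (nat_lit 91818379849) (nat_lit 56) (nat_lit 5) (nat_lit 65) (nat_lit 5) (nat_lit 66) (nat_lit 5) (nat_lit 300) (nat_lit 298) (nat_lit 122))))))) (XT.nd (nat_lit 37674) (nat_lit 0) (nat_lit 0) (XT.nd (nat_lit 312) (nat_lit 76) (nat_lit 0) (XT.nd (nat_lit 156) (nat_lit 0) (nat_lit 152) (XT.nd (nat_lit 78) (nat_lit 0) (nat_lit 76) (XT.lf (nat_lit 0) (nat_lit 28426515329) (nat_lit 684) (nat_lit 32913564468) (nat_lit 760) (nat_lit 342126453105) (nat_lit 56) (nat_lit 5) (nat_lit 65) (nat_lit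 5) (nat_lit 66) (nat_lit 5) (nat_lit 301) (nat_lit 298) (nat_lit 121)) (XT.lf (nat_lit 0) (nat_lit 49054930047) (nat_lit 684) (nat_lit 182110676081) (nat_lit 760) (nat_lit 189326391592) (nat_lit 57) (nat_lit 5) (nat_lit 66) (nat_lit 5) (nat_lit 67) (nat_lit 5) (nat_lit 302) (nat_lit 298) (nat_lit 120))) (XT.nd (nat_lit 78) (nat_lit 0) (nat_lit 0) (XT.lf (nat_lit 0) (nat_lit 74777352193) (nat_lit 684) (nat_lit 343331823746) (nat_lit 760) (nat_lit 20598137352) (nat_lit 58) (nat_lit 5) (nat_lit 67) (nat_lit 5) (nat_lit 68) (nat_lit 5) (nat_lit 303) (nat_lit 298) (nat_lit 119)) (XT.lf (nat_lit 0) (nat_lit 109679644316) (nat_lit 684) (nat_lit 60607500504) (nat_lit 760) (nat_lit 287736605736) (nat_lit 58) (nat_lit 5) (nat_lit 67) (nat_lit 5) (nat_lit 68) (nat_lit 5) (nat_lit 304) (nat_lit 298) (nat_lit 118)))) (XT.nd (nat_lit 37128) (nat_lit 0) (nat_lit 0) (XT.nd (nat_lit 37050) (nat_lit 304)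 (nat_lit 0) (XT.lf (nat_lit 0) (nat_lit 152906188415) (nat_lit 684) (nat_lit 227446157106) (nat_lit 76) (nat_lit 98256554089) (nat_lit 59) (nat_lit 5) (nat_lit 68) (nat_lit 5) (nat_lit 60) (nat_lit 5) (nat_lit 305) (nat_lit 298) (nat_lit 117)) (XT.lf (nat_lit 0) (nat_lit 1174301580) (nat_lit 0) (nat_lit 1174301580) (nat_lit 684) (nat_lit 191044861343) (nat_lit 55) (nat_lit 5) (nat_lit 55) (nat_lit 3) (nat_lit 64) (nat_lit 3) (nat_lit 299) (nat_lit 299) (nat_lit 122))) (XT.nd (nat_lit 78) (nat_lit 0) (nat_lit 76) (XT.lf (nat_lit 0) (nat_lit 8891641830) (nat_lit 684) (nat_lit 144798374234) (nat_lit 760) (nat_lit 248368059723) (nat_lit 55) (nat_lit 5) (nat_lit 64) (nat_lit 3) (nat_lit 65) (nat_lit 5) (nat_lit 300) (nat_lit 299) (nat_lit 121)) (XT.nd (nat_lit 78) (nat_lit 0) (nat_lit 0) (XT.lf (nat_lit 0) (nat_lit 16898858819) (nat_lit 684) (nat_lit 302314828840) (nat_lit 760) (nat_lit 99163365620)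 (nat_lit 56) (nat_lit 5) (nat_lit 65) (nat_lit 5) (nat_lit 66) (nat_lit 5) (nat_lit 301) (nat_lit 299) (nat_lit 120)) (XT.lf (nat_lit 0) (nat_lit 30701734646) (nat_lit 684) (nat_lit 35545939895) (nat_lit 760) (nat_lit 369496120635) (nat_lit 56) (nat_lit 5) (nat_lit 65) (nat_lit 5) (nat_lit 66) (nat_lit 5) (nat_lit 302) (nat_lit 299) (nat_lit 119)))))) (XT.nd (nat_lit 37440) (nat_lit 0) (nat_lit 0) (XT.nd (nat_lit 37284) (nat_lit 152) (nat_lit 0) (XT.nd (nat_lit 78) (nat_lit 0) (nat_lit 76) (XT.lf (nat_lit 0) (nat_lit 52980346360) (nat_lit 684) (nat_lit 196678789423) (nat_lit 760) (nat_lit 204472165609) (nat_lit 57) (nat_lit 5) (nat_lit 66) (nat_lit 5) (nat_lit 67) (nat_lit 5) (nat_lit 303) (nat_lit 299) (nat_lit 118)) (XT.lf (nat_lit 0) (nat_lit 80760493760) (nat_lit 684) (nat_lit 370797604669) (nat_lit 760) (nat_lit 22245747579) (nat_lit 58) (nat_lit 5) (nat_lit 67) (nat_lit 5) (nat_lit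 68) (nat_lit 5) (nat_lit 304) (nat_lit 299) (nat_lit 117))) (XT.nd (nat_lit 78) (nat_lit 0) (nat_lit 0) (XT.lf (nat_lit 0) (nat_lit 1268543766) (nat_lit 0) (nat_lit 1268543766) (nat_lit 684) (nat_lit 206327821380) (nat_lit 55) (nat_lit 5) (nat_lit 55) (nat_lit 3) (nat_lit 64) (nat_lit 3) (nat_lit 300) (nat_lit 300) (nat_lit 120)) (XT.lf (nat_lit 0) (nat_lit 9604068484) (nat_lit 684) (nat_lit 156381622941) (nat_lit 760) (nat_lit 268236970205) (nat_lit 55) (nat_lit 5) (nat_lit 64) (nat_lit 3) (nat_lit 65) (nat_lit 5) (nat_lit 301) (nat_lit 300) (nat_lit 119)))) (XT.nd (nat_lit 37440) (nat_lit 76) (nat_lit 0) (XT.nd (nat_lit 78) (nat_lit 0) (nat_lit 0) (XT.lf (nat_lit 0) (nat_lit 18251784275) (nat_lit 684) (nat_lit 326499357989) (nat_lit 760) (nat_lit 107096019389) (nat_lit 56) (nat_lit 5) (nat_lit 65) (nat_lit 5) (nat_lit 66) (nat_lit 5) (nat_lit 302) (nat_lit 300) (nat_lit 118)) (XT.lf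 (nat_lit 0) (nat_lit 33158814853) (nat_lit 684) (nat_lit 38389006608) (nat_lit 760) (nat_lit 399055425581) (nat_lit 56) (nat_lit 5) (nat_lit 65) (nat_lit 5) (nat_lit 66) (nat_lit 5) (nat_lit 303) (nat_lit 300) (nat_lit 117))) (XT.nd (nat_lit 78) (nat_lit 0) (nat_lit 0) (XT.lf (nat_lit 0) (nat_lit 1370282806) (nat_lit 0) (nat_lit 1370282806) (nat_lit 684) (nat_lit 222833507935) (nat_lit 55) (nat_lit 5) (nat_lit 55) (nat_lit 3) (nat_lit 64) (nat_lit 3) (nat_lit 301) (nat_lit 301) (nat_lit 118)) (XT.nd (nat_lit 78) (nat_lit 0) (nat_lit 76) (XT.lf (nat_lit 0) (nat_lit 10373333013) (nat_lit 684) (nat_lit 168891620171) (nat_lit 760) (nat_lit 289695469748) (nat_lit 55) (nat_lit 5) (nat_lit 64) (nat_lit 3) (nat_lit 65) (nat_lit 5) (nat_lit 302) (nat_lit 301) (nat_lit 117)) (XT.lf (nat_lit 0) (nat_lit 19712798716) (nat_lit 684) (nat_lit 352618743222) (nat_lit 760) (nat_lit 115663344733) (nat_lit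 56) (nat_lit 5) (nat_lit 65) (nat_lit 5) (nat_lit 66) (nat_lit 5) (nat_lit 303) (nat_lit 301) (nat_lit 116))))))))

set_option maxRecDepth 10000000 in
noncomputable def Tp : PT := (PT.nd (nat_lit 4586088) (PT.nd (nat_lit 4361682) (PT.nd (nat_lit 4174248) pc0 pc1) (PT.nd (nat_lit 112554) pc2 pc3)) (PT.nd (nat_lit 113256) (PT.nd (nat_lit 74802) pc4 pc5) (PT.nd (nat_lit 73866) pc6 pc7)))

set_option maxRecDepth 10000000 in
noncomputable def Tx : XT := (XT.nd (nat_lit 7491198) (nat_lit 0) (nat_lit 76) XT.nil (XT.nd (nat_lit 3825432) (nat_lit 0) (nat_lit 0) (XT.nd (nat_lit 1762566) (nat_lit 0) (nat_lit 0) (XT.nd (nat_lit 1233570) (nat_lit 0) (nat_lit 0) (XT.nd (nat_lit 860184) (nat_lit 0) (nat_lit 0) (XT.nd (nat_lit 598494) (nat_lit 0) (nat_lit 0) (XT.nd (nat_lit 411606) (nat_lit 0) (nat_lit 0) (XT.nd (nat_lit 262626) (nat_lit 0) (nat_lit 0) (XT.nd (nat_lit 187200) (nat_lit 0) (nat_lit 0)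 xc0 xc1) (XT.nd (nat_lit 74802) (nat_lit 0) (nat_lit 0) xc2 xc3)) (XT.nd (nat_lit 111462) (nat_lit 0) (nat_lit 0) (XT.nd (nat_lit 38220) (nat_lit 0) (nat_lit 0) xc4 xc5) (XT.nd (nat_lit 37752) (nat_lit 0) (nat_lit 0) xc6 xc7))) (XT.nd (nat_lit 148902) (nat_lit 0) (nat_lit 0) (XT.nd (nat_lit 74724) (nat_lit 0) (nat_lit 0) (XT.nd (nat_lit 37440) (nat_lit 0) (nat_lit 0) xc8 xc9) (XT.nd (nat_lit 37128) (nat_lit 0) (nat_lit 0) xc10 xc11)) (XT.nd (nat_lit 39546) (nat_lit 0) (nat_lit 0) (XT.nd (nat_lit 2730) (nat_lit 0) (nat_lit 0) xc12 xc13) (XT.nd (nat_lit 36660) (nat_lit 0) (nat_lit 0) xc14 xc15)))) (XT.nd (nat_lit 188448) (nat_lit 0) (nat_lit 0) (XT.nd (nat_lit 111306) (nat_lit 0) (nat_lit 0) (XT.nd (nat_lit 39078) (nat_lit 0) (nat_lit 0) (XT.nd (nat_lit 2730) (nat_lit 0) (nat_lit 0) xc16 xc17) (XT.nd (nat_lit 36192) (nat_lit 0) (nat_lit 0) xc18 xc19)) (XT.nd (nat_lit 38610) (nat_lit 0)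 (nat_lit 0) (XT.nd (nat_lit 2730) (nat_lit 0) (nat_lit 0) xc20 xc21) (XT.nd (nat_lit 2730) (nat_lit 0) (nat_lit 0) xc22 xc23))) (XT.nd (nat_lit 76596) (nat_lit 0) (nat_lit 0) (XT.nd (nat_lit 38298) (nat_lit 0) (nat_lit 0) (XT.nd (nat_lit 35568) (nat_lit 0) (nat_lit 0) xc24 xc25) (XT.nd (nat_lit 35490) (nat_lit 0) (nat_lit 0) xc26 xc27)) (XT.nd (nat_lit 70512) (nat_lit 0) (nat_lit 0) (XT.nd (nat_lit 35334) (nat_lit 0) (nat_lit 0) xc28 xc29) (XT.nd (nat_lit 2730) (nat_lit 76) (nat_lit 0) xc30 xc31))))) (XT.nd (nat_lit 265590) (nat_lit 0) (nat_lit 0) (XT.nd (nat_lit 149526) (nat_lit 0) (nat_lit 0) (XT.nd (nat_lit 75036) (nat_lit 0) (nat_lit 0) (XT.nd (nat_lit 37596) (nat_lit 0) (nat_lit 0) (XT.nd (nat_lit 2730) (nat_lit 0) (nat_lit 0) xc32 xc33) (XT.nd (nat_lit 2730) (nat_lit 0) (nat_lit 0) xc34 xc35)) (XT.nd (nat_lit 37284) (nat_lit 0) (nat_lit 0) (XT.nd (nat_lit 2730) (nat_lit 0) (nat_lit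 0) xc36 xc37) (XT.nd (nat_lit 2730) (nat_lit 76) (nat_lit 0) xc38 xc39))) (XT.nd (nat_lit 42510) (nat_lit 0) (nat_lit 0) (XT.nd (nat_lit 36972) (nat_lit 0) (nat_lit 0) (XT.nd (nat_lit 2730) (nat_lit 76) (nat_lit 0) xc40 xc41) (XT.nd (nat_lit 2730) (nat_lit 304) (nat_lit 0) xc42 xc43)) (XT.nd (nat_lit 36816) (nat_lit 0) (nat_lit 0) (XT.nd (nat_lit 34086) (nat_lit 0) (nat_lit 0) xc44 xc45) (XT.nd (nat_lit 33930) (nat_lit 0) (nat_lit 76) xc46 xc47)))) (XT.nd (nat_lit 146874) (nat_lit 0) (nat_lit 0) (XT.nd (nat_lit 73242) (nat_lit 0) (nat_lit 0) (XT.nd (nat_lit 36582) (nat_lit 0) (nat_lit 0) (XT.nd (nat_lit 33852) (nat_lit 0) (nat_lit 228) xc48 xc49) (XT.nd (nat_lit 33930) (nat_lit 0) (nat_lit 532) xc50 xc51)) (XT.nd (nat_lit 36738) (nat_lit 0) (nat_lit 0) (XT.nd (nat_lit 2730) (nat_lit 0) (nat_lit 0) xc52 xc53) (XT.nd (nat_lit 2730) (nat_lit 76) (nat_lit 0) xc54 xc55))) (XT.nd (nat_lit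 73944) (nat_lit 0) (nat_lit 0) (XT.nd (nat_lit 36894) (nat_lit 0) (nat_lit 0) (XT.nd (nat_lit 2730) (nat_lit 152) (nat_lit 0) xc56 xc57) (XT.nd (nat_lit 2730) (nat_lit 304) (nat_lit 0) xc58 xc59)) (XT.nd (nat_lit 5460) (nat_lit 0) (nat_lit 0) (XT.nd (nat_lit 2730) (nat_lit 532) (nat_lit 0) xc60 xc61) (XT.nd (nat_lit 34320) (nat_lit 0) (nat_lit 0) xc62 xc63)))))) (XT.nd (nat_lit 672204) (nat_lit 0) (nat_lit 76) (XT.nd (nat_lit 299988) (nat_lit 0) (nat_lit 0) (XT.nd (nat_lit 149292) (nat_lit 0) (nat_lit 0) (XT.nd (nat_lit 74412) (nat_lit 0) (nat_lit 0) (XT.nd (nat_lit 37128) (nat_lit 0) (nat_lit 0) (XT.nd (nat_lit 34398) (nat_lit 0) (nat_lit 76) xc64 xc65) (XT.nd (nat_lit 34554) (nat_lit 0) (nat_lit 76) xc66 xc67)) (XT.nd (nat_lit 37362) (nat_lit 0) (nat_lit 0) (XT.nd (nat_lit 34632) (nat_lit 0) (nat_lit 152) xc68 xc69) (XT.nd (nat_lit 34710) (nat_lit 0) (nat_lit 152) xc70 xc71))) (XT.nd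 (nat_lit 75192) (nat_lit 0) (nat_lit 0) (XT.nd (nat_lit 37518) (nat_lit 0) (nat_lit 0) (XT.nd (nat_lit 34788) (nat_lit 0) (nat_lit 152) xc72 xc73) (XT.nd (nat_lit 34866) (nat_lit 0) (nat_lit 152) xc74 xc75)) (XT.nd (nat_lit 37674) (nat_lit 0) (nat_lit 0) (XT.nd (nat_lit 34944) (nat_lit 0) (nat_lit 152) xc76 xc77) (XT.nd (nat_lit 35022) (nat_lit 0) (nat_lit 76) xc78 xc79)))) (XT.nd (nat_lit 184938) (nat_lit 0) (nat_lit 76) (XT.nd (nat_lit 108498) (nat_lit 0) (nat_lit 76) (XT.nd (nat_lit 37908) (nat_lit 0) (nat_lit 0) (XT.nd (nat_lit 35178) (nat_lit 0) (nat_lit 76) xc80 xc81) (XT.nd (nat_lit 35256) (nat_lit 0) (nat_lit 76) xc82 xc83)) (XT.nd (nat_lit 38142) (nat_lit 0) (nat_lit 0) (XT.nd (nat_lit 2730) (nat_lit 532) (nat_lit 0) xc84 xc85) (XT.nd (nat_lit 2730) (nat_lit 228) (nat_lit 0) xc86 xc87))) (XT.nd (nat_lit 76830) (nat_lit 0) (nat_lit 0) (XT.nd (nat_lit 38298) (nat_lit 0) (nat_lit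 0) (XT.nd (nat_lit 2730) (nat_lit 76) (nat_lit 0) xc88 xc89) (XT.nd (nat_lit 35724) (nat_lit 0) (nat_lit 456) xc90 xc91)) (XT.nd (nat_lit 38532) (nat_lit 0) (nat_lit 0) (XT.nd (nat_lit 35802) (nat_lit 0) (nat_lit 152) xc92 xc93) (XT.nd (nat_lit 35880) (nat_lit 0) (nat_lit 0) xc94 xc95))))) (XT.nd (nat_lit 415662) (nat_lit 0) (nat_lit 304) (XT.nd (nat_lit 189462) (nat_lit 0) (nat_lit 152) (XT.nd (nat_lit 77610) (nat_lit 0) (nat_lit 76) (XT.nd (nat_lit 38766) (nat_lit 0) (nat_lit 0) (XT.nd (nat_lit 2730) (nat_lit 228) (nat_lit 0) xc96 xc97) (XT.nd (nat_lit 36114) (nat_lit 0) (nat_lit 456) xc98 xc99)) (XT.nd (nat_lit 72618) (nat_lit 0) (nat_lit 76) (XT.nd (nat_lit 36270) (nat_lit 0) (nat_lit 0) xc100 xc101) (XT.nd (nat_lit 2730) (nat_lit 152) (nat_lit 0) xc102 xc103))) (XT.nd (nat_lit 112710) (nat_lit 0) (nat_lit 76) (XT.nd (nat_lit 73164) (nat_lit 0) (nat_lit 76) (XT.nd (nat_lit 36504)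 (nat_lit 0) (nat_lit 76) xc104 xc105) (XT.nd (nat_lit 2730) (nat_lit 304) (nat_lit 0) xc106 xc107)) (XT.nd (nat_lit 73710) (nat_lit 0) (nat_lit 0) (XT.nd (nat_lit 36816) (nat_lit 0) (nat_lit 0) xc108 xc109) (XT.nd (nat_lit 2730) (nat_lit 76) (nat_lit 0) xc110 xc111)))) (XT.nd (nat_lit 335790) (nat_lit 0) (nat_lit 684) (XT.nd (nat_lit 149292) (nat_lit 0) (nat_lit 228) (XT.nd (nat_lit 74412) (nat_lit 0) (nat_lit 152) (XT.nd (nat_lit 37128) (nat_lit 0) (nat_lit 0) xc112 xc113) (XT.nd (nat_lit 37362) (nat_lit 0) (nat_lit 76) xc114 xc115)) (XT.nd (nat_lit 75348) (nat_lit 0) (nat_lit 228) (XT.nd (nat_lit 37596) (nat_lit 0) (nat_lit 152) xc116 xc117) (XT.nd (nat_lit 37830) (nat_lit 0) (nat_lit 76) xc118 xc119))) (XT.nd (nat_lit 189150) (nat_lit 0) (nat_lit 760) (XT.nd (nat_lit 76362) (nat_lit 0) (nat_lit 380) (XT.nd (nat_lit 38142) (nat_lit 0) (nat_lit 0) xc120 xc121) (XT.nd (nat_lit 74100)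 (nat_lit 0) (nat_lit 152) xc122 xc123)) (XT.nd (nat_lit 149916) (nat_lit 0) (nat_lit 684) (XT.nd (nat_lit 74724) (nat_lit 0) (nat_lit 456) xc124 xc125) (XT.nd (nat_lit 112320) (nat_lit 0) (nat_lit 912) xc126 xc127))))))) XT.nil))

set_option maxRecDepth 10000000 in
noncomputable def Te : XT := XT.nil

set_option maxRecDepth 10000000 in
noncomputable def Tz : ZL := (ZL.cons (nat_lit 76) (nat_lit 6) (nat_lit 161949193601428196370) (ZL.cons (nat_lit 152) (nat_lit 6) (nat_lit 157170105162382593364) (ZL.cons (nat_lit 228) (nat_lit 3) (nat_lit 78366533311512146131) (ZL.cons (nat_lit 304) (nat_lit 6) (nat_lit 152008689648213342118) (ZL.cons (nat_lit 380) (nat_lit 6) (nat_lit 147748066368996466234) (ZL.cons (nat_lit 456) (nat_lit 3) (nat_lit 73671700527387908532) (ZL.cons (nat_lit 532) (nat_lit 6) (nat_lit 143146593227442240276) (ZL.cons (nat_lit 608) (nat_lit 6) (nat_lit 139393396193902486856)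 (ZL.cons (nat_lit 684) (nat_lit 3) (nat_lit 69509353044071313258) (ZL.cons (nat_lit 760) (nat_lit 6) (nat_lit 136061568786550395298) (ZL.cons (nat_lit 836) (nat_lit 6) (nat_lit 135339943397679553162) (ZL.cons (nat_lit 912) (nat_lit 6) (nat_lit 132088505080850276076) (ZL.cons (nat_lit 988) (nat_lit 3) (nat_lit 65870784898869647140) (ZL.cons (nat_lit 1064) (nat_lit 6) (nat_lit 129245123355036547696) (ZL.cons (nat_lit 1140) (nat_lit 6) (nat_lit 128576951698674656826) (ZL.cons (nat_lit 1216) (nat_lit 6) (nat_lit 126792948550752064442) (ZL.cons (nat_lit 1292) (nat_lit 6) (nat_lit 125827335808046739248) (ZL.cons (nat_lit 1368) (nat_lit 3) (nat_lit 62753049717397915087) (ZL.cons (nat_lit 1444) (nat_lit 6) (nat_lit 123476428105762931658) (ZL.cons (nat_lit 1520) (nat_lit 6) (nat_lit 122857750646168588260) (ZL.cons (nat_lit 1596) (nat_lit 6) (nat_lit 121510297286920811494) (ZL.cons (nat_lit 1672)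 (nat_lit 6) (nat_lit 120616211414045510388) (ZL.cons (nat_lit 1748) (nat_lit 3) (nat_lit 60159385163851038032) (ZL.cons (nat_lit 1824) (nat_lit 6) (nat_lit 119917292205927240270) (ZL.cons (nat_lit 1900) (nat_lit 6) (nat_lit 118768198542976978320) (ZL.cons (nat_lit 1976) (nat_lit 6) (nat_lit 118195349043352586288) (ZL.cons (nat_lit 2052) (nat_lit 3) (nat_lit 58559904887605864442) (ZL.cons (nat_lit 2128) (nat_lit 6) (nat_lit 117293363792249457920) (ZL.cons (nat_lit 2204) (nat_lit 6) (nat_lit 117815054311611757506) (ZL.cons (nat_lit 2280) (nat_lit 6) (nat_lit 118687972832672626450) (ZL.cons (nat_lit 2356) (nat_lit 6) (nat_lit 117302760845578882240) (ZL.cons (nat_lit 2432) (nat_lit 6) (nat_lit 116474903555879529364) (ZL.cons (nat_lit 2508) (nat_lit 3) (nat_lit 58099747571299285828) (ZL.cons (nat_lit 2584) (nat_lit 6) (nat_lit 115126097966333798438) (ZL.cons (nat_lit 2660) (nat_lit 6) (nat_lit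 115487090321772274838) (ZL.cons (nat_lit 2736) (nat_lit 6) (nat_lit 116211214246607381574) (ZL.cons (nat_lit 2812) (nat_lit 6) (nat_lit 115147238632764546438) (ZL.cons (nat_lit 2888) (nat_lit 6) (nat_lit 114616822429408627886) (ZL.cons (nat_lit 2964) (nat_lit 3) (nat_lit 56726811265353388533) (ZL.cons (nat_lit 3040) (nat_lit 6) (nat_lit 113641060869107524430) (ZL.cons (nat_lit 3116) (nat_lit 6) (nat_lit 114204486630018807980) (ZL.cons (nat_lit 3192) (nat_lit 6) (nat_lit 113437952102519407168) (ZL.cons (nat_lit 3268) (nat_lit 3) (nat_lit 56591472156222223162) (ZL.cons (nat_lit 3344) (nat_lit 6) (nat_lit 112266026519823937382) (ZL.cons (nat_lit 3420) (nat_lit 6) (nat_lit 112655898263697491896) (ZL.cons (nat_lit 3496) (nat_lit 6) (nat_lit 112164772149479048792) (ZL.cons (nat_lit 3572) (nat_lit 3) (nat_lit 55676919461111027703) (ZL.cons (nat_lit 3648) (nat_lit 6) (nat_lit 111556272327694862556)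 (ZL.cons (nat_lit 3724) (nat_lit 3) (nat_lit 55660077001775690148) (ZL.cons (nat_lit 3800) (nat_lit 6) (nat_lit 110899092520167941424) (ZL.cons (nat_lit 3876) (nat_lit 1) (nat_lit 18446744073709551617) ZL.nil)))))))))))))))))))))))))))))))))))))))))))))))))))

noncomputable def vl : XL := ⟨(nat_lit 0), (nat_lit 76), (nat_lit 613179573), (nat_lit 152), (nat_lit 61583082), (nat_lit 152), (nat_lit 61583082), (nat_lit 1), (nat_lit 4), (nat_lit 2), (nat_lit 5), (nat_lit 2), (nat_lit 4), (nat_lit 0), (nat_lit 0), (nat_lit 0)⟩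

noncomputable def cp0 : Nat := (nat_lit 1212796259699616378511230894592110413832194807971768881654182616427804148376868291291836787877968843688572836581713689547927853434021204904090717440341304945510017496365810779273696256733040144879874757391103252173380284716600701240007891440432232440984319895658038637889350122708886843515141876007779664255608722757059181422725896006008168477622608627849201193513403291066800672216431545571576340147342021776656587057518720455625441728531769908833134332689622502128087862291066428993651287218704975880681225192559109570694531603798121914988725624960357822166843435498908358243487906488400171687376366685786281839593350616096847481139759572651231665829561079207020438242467870974670273461176795792920099767664149019982009539273878855488634872694911726020511505301085589543263646879512495443810522170077841218888754568904072585667193187216747672984914507104842812921551875096513463462355704648229982930578982699957175011675297819750172787478496902944180644296099867319162443935725255726010327760983649108488145894039087397143315569516449413205901116676085277077862575082725586103797606381426124557350975791929437240515685458040882983070680199037516616503445990139589830805237645178830848)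

noncomputable def cp1 : Nat := (nat_lit 32927255890647966273655031697699727914417764972373020797335651511664191691967384479726109981707666945835149498398851356311611587485817845117193230434410502090197293827490013788061232330092710785246120357226358808024502744921850449107082894152530200933062595819510119243483925005242512638805367009518429753134652444755521084952775818673159629300189084826277036658236526953536970404916596814965144877688269456932304719720826242241157382004342194694197933553691966494917522200371934401707169691308685657385162065168307133074450216026766669860736664248654213691617628434079741864405221820446790406760301721965651551503492587664971047791955907382762152965580266534966819327494103075600640344305132788756578596822856342405438050341812394054191482822955218840123882881931529268186014459521906104653979202228956830521028592395046093111925246541816170106216438811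87205556769594053940303136840257288276223536098176399648487417033207123821402105776359533275273901546586360028420058082308647333728244828296338672504443786027700849596988749941423846782992139873278709556716908230576311513997111388521749800796834989293958061827481356295966135091067355385485338259937185816881695673518790413900793121994638977840006125097954740448731519991194094590348818469438170136248122129984385057907376564185570772730117083338564355450438683925748553748754677443565006769513554474072990527779854275495443617508303585122534415265960455105551486681410219698101276857829822702913795491374636880020640870881708229757867972120890726566391163885128295626434881493255162290181134779241474530967782880076402246416106302059975003686608493715774824029119432584226482587041304437001035879643048952145837055383040030457093569907377642445430631125513710482934419933392586499787524977838328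260028317749196218592608778653144133239556524574687849983815026533165837535195608648919219043172691283859330031175447252555779562832550312820351624189537905456495087018336704536005528523343315534582613046531576999160584823121074710201118116085273770270352641530608166035305845775246845767663529218182282194746191538186413498214308004374139142452996057840742071951063874366714624624125857394965920730363705102194349324695984854851991122898288455175867394350454640359781182387849461462184628094490704581101427619381207543392205653626880763718887417294008589544346244990240744355644940894399372623654240678356495563226999193233700522402628830454874112)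

noncomputable def rc0 : Nat := (nat_lit 32927255890647966273655031697699727914417764972373020797335651511664191691967384479726109981707666945835149498398851356311611587485817845117193230434410502090197293827490013788061232330092710785246120357226358808024502744921850449107082894152530200933062595819510119243483925005242512638805367009518429753134652444755521084952775818673159629300189084826277036658236526953536970404916596814965144877688269456932304719720826242241157382004342194694197933553691966494917522200371934401707169691308685657385162065168307133074450216026766669860736664248654213691617628434079741864405221820446790406760301721965651551503492587664971047791955907382762152965580266534966819327494103075600640344305132788756578596822856342405438050341812394054191482822955218840123882881931529268186014459521906104653979202228956830521028592395046093111925246541816170106216438811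87205556769594053940303136840257288276223536098176399648487417033207123821402105776359533275273901546586360028420058082308647333728244828296338672504443786027700849596988749941423846782992139873278709556716908230576311513997111388521749800796834989293958061827481356295966135091067355385485338259937185816881695673518790413900793121994638977840006125097954740448731519991194094590348818469438170136248122129984385057907376564185570772730117083338564355450438683925748553748754677443565006769513554474072990527779854275495443617508303585122534415265960455105551486681410219698101276857829822702913795491374636880020640870881708229757867972120890726566391163885128295626434881493255162290181134779241474530967782880076402246416106302059975003686608493715774824029119432584226482587041304437001035879643048952145837055383040030457093569907377642445430631125513710482934419933392586499787524977838328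260028317749196218592608778653144133239556524574687849983815026533165837535195608648919219043172691283859330031175447252555779562832550312820351624189537905456495087018336704536005528523343315534582613046531576999160584823121074710201118116085273770270352641530608166035305845775246845767663529218182282194746191538186413498214308004374139142452996057840742071951063874366714624624125857394965920730363705102194349324695984854851991122898288455175867394350454640359781182387849461462184628094490704581101427619381207543392205653626880763718887417294008589544346244990240744355644940894399372623654240678356495563226999193233700522402628830454874112)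

end Vale.Agent.Lib.P154.PChain.BW.S3
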