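import Vale.Agent.Lib.P154.PChain.BW.R3_0

set_option linter.all false

namespace Vale.Agent.Lib.P154.PChain.BW.S4

open Vale.Agent.Lib.P154.Chain

noncomputable def pc0 : PT := (PT.nd (nat_lit 3649464) (PT.nd (nat_lit 3536988) (PT.nd (nat_lit 3462108) (PT.nd (nat_lit 3424668) (PT.nd (nat_lit 3424590) (PT.nd (nat_lit 3387150) PT.nil (PT.lf (nat_lit 76) (nat_lit 3) (nat_lit 1) (nat_lit 1) (nat_lit 135) (nat_lit 90) (nat_lit 135))) (PT.lf (nat_lit 152) (nat_lit 6) (nat_lit 2) (nat_lit 3) (nat_lit 134) (nat_lit 91) (nat_lit 135))) (PT.nd (nat_lit 37362) (PT.lf (nat_lit 152) (nat_lit 6) (nat_lit 2) (nat_lit 1) (nat_lit 135) (nat_lit 91) (nat_lit 134)) (PT.lf (nat_lit 228) (nat_lit 6) (nat_lit 3) (nat_lit 3) (nat_lit 133) (nat_lit 92) (nat_lit 135)))) (PT.nd (nat_lit 37440) (PT.nd (nat_lit 78) (PT.lf (nat_lit 304) (nat_lit 3) (nat_lit 4) (nat_lit 1) (nat_lit 134) (nat_lit 92) (nat_lit 134))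 (PT.lf (nat_lit 228) (nat_lit 6) (nat_lit 3) (nat_lit 1) (nat_lit 135) (nat_lit 92) (nat_lit 133))) (PT.nd (nat_lit 78) (PT.lf (nat_lit 380) (nat_lit 6) (nat_lit 5) (nat_lit 3) (nat_lit 133) (nat_lit 93) (nat_lit 134)) (PT.lf (nat_lit 380) (nat_lit 6) (nat_lit 5) (nat_lit 1) (nat_lit 134) (nat_lit 93) (nat_lit 133))))) (PT.nd (nat_lit 37596) (PT.nd (nat_lit 156) (PT.nd (nat_lit 78) (PT.lf (nat_lit 456) (nat_lit 6) (nat_lit 6) (nat_lit 3) (nat_lit 132) (nat_lit 94) (nat_lit 134)) (PT.lf (nat_lit 532) (nat_lit 3) (nat_lit 7) (nat_lit 1) (nat_lit 133) (nat_lit 94) (nat_lit 133))) (PT.nd (nat_lit 37362) (PT.lf (nat_lit 456) (nat_lit 6) (nat_lit 6) (nat_lit 1) (nat_lit 134) (nat_lit 94) (nat_lit 132)) (PT.lf (nat_lit 608) (nat_lit 6) (nat_lit 8) (nat_lit 3) (nat_lit 132) (nat_lit 95) (nat_lit 133)))) (PT.nd (nat_lit 37440) (PT.nd (nat_lit 37362) (PT.lf (nat_lit 608) (nat_lit 6) (nat_lit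 8) (nat_lit 1) (nat_lit 133) (nat_lit 95) (nat_lit 132)) (PT.lf (nat_lit 684) (nat_lit 6) (nat_lit 9) (nat_lit 3) (nat_lit 131) (nat_lit 96) (nat_lit 133))) (PT.nd (nat_lit 78) (PT.lf (nat_lit 760) (nat_lit 3) (nat_lit 10) (nat_lit 1) (nat_lit 132) (nat_lit 96) (nat_lit 132)) (PT.nd (nat_lit 37284) (PT.lf (nat_lit 684) (nat_lit 6) (nat_lit 9) (nat_lit 1) (nat_lit 133) (nat_lit 96) (nat_lit 131)) (PT.lf (nat_lit 836) (nat_lit 6) (nat_lit 11) (nat_lit 3) (nat_lit 130) (nat_lit 97) (nat_lit 133))))))) (PT.nd (nat_lit 75114) (PT.nd (nat_lit 37518) (PT.nd (nat_lit 156) (PT.nd (nat_lit 78) (PT.lf (nat_lit 912) (nat_lit 6) (nat_lit 12) (nat_lit 3) (nat_lit 131) (nat_lit 97) (nat_lit 132)) (PT.lf (nat_lit 912) (nat_lit 6) (nat_lit 12) (nat_lit 1) (nat_lit 132) (nat_lit 97) (nat_lit 131))) (PT.nd (nat_lit 37284) (PT.lf (nat_lit 836) (nat_lit 6) (nat_lit 11) (nat_lit 1) (nat_lit 133) (nat_lit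 97) (nat_lit 130)) (PT.lf (nat_lit 988) (nat_lit 6) (nat_lit 13) (nat_lit 3) (nat_lit 130) (nat_lit 98) (nat_lit 132)))) (PT.nd (nat_lit 37362) (PT.nd (nat_lit 78) (PT.lf (nat_lit 1064) (nat_lit 3) (nat_lit 14) (nat_lit 1) (nat_lit 131) (nat_lit 98) (nat_lit 131)) (PT.lf (nat_lit 988) (nat_lit 6) (nat_lit 13) (nat_lit 1) (nat_lit 132) (nat_lit 98) (nat_lit 130))) (PT.nd (nat_lit 78) (PT.lf (nat_lit 1140) (nat_lit 6) (nat_lit 15) (nat_lit 3) (nat_lit 129) (nat_lit 99) (nat_lit 132)) (PT.nd (nat_lit 78) (PT.lf (nat_lit 1216) (nat_lit 6) (nat_lit 16) (nat_lit 3) (nat_lit 130) (nat_lit 99) (nat_lit 131)) (PT.lf (nat_lit 1216) (nat_lit 6) (nat_lit 16) (nat_lit 1) (nat_lit 131) (nat_lit 99) (nat_lit 130)))))) (PT.nd (nat_lit 37440) (PT.nd (nat_lit 37284) (PT.nd (nat_lit 37206) (PT.lf (nat_lit 1140) (nat_lit 6) (nat_lit 15) (nat_lit 1) (nat_lit 132) (nat_lit 99) (nat_lit 129)) (PT.lf (nat_lit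 1292) (nat_lit 6) (nat_lit 17) (nat_lit 3) (nat_lit 128) (nat_lit 100) (nat_lit 132))) (PT.nd (nat_lit 78) (PT.lf (nat_lit 1368) (nat_lit 6) (nat_lit 18) (nat_lit 3) (nat_lit 129) (nat_lit 100) (nat_lit 131)) (PT.lf (nat_lit 1444) (nat_lit 3) (nat_lit 19) (nat_lit 1) (nat_lit 130) (nat_lit 100) (nat_lit 130)))) (PT.nd (nat_lit 37284) (PT.nd (nat_lit 78) (PT.lf (nat_lit 1368) (nat_lit 6) (nat_lit 18) (nat_lit 1) (nat_lit 131) (nat_lit 100) (nat_lit 129)) (PT.lf (nat_lit 1292) (nat_lit 6) (nat_lit 17) (nat_lit 1) (nat_lit 132) (nat_lit 100) (nat_lit 128))) (PT.nd (nat_lit 78) (PT.lf (nat_lit 1520) (nat_lit 6) (nat_lit 20) (nat_lit 3) (nat_lit 128) (nat_lit 101) (nat_lit 131)) (PT.nd (nat_lit 78) (PT.lf (nat_lit 1596) (nat_lit 6) (nat_lit 21) (nat_lit 3) (nat_lit 129) (nat_lit 101) (nat_lit 130)) (PT.lf (nat_lit 1596) (nat_lit 6) (nat_lit 21) (nat_lit 1) (nat_lit 130) (nat_lit 101) (nat_lit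 129))))))))
noncomputable def pc1 : PT := (PT.nd (nat_lit 149604) (PT.nd (nat_lit 74802) (PT.nd (nat_lit 37440) (PT.nd (nat_lit 37284) (PT.nd (nat_lit 37206) (PT.lf (nat_lit 1520) (nat_lit 6) (nat_lit 20) (nat_lit 1) (nat_lit 131) (nat_lit 101) (nat_lit 128)) (PT.lf (nat_lit 1672) (nat_lit 6) (nat_lit 22) (nat_lit 3) (nat_lit 127) (nat_lit 102) (nat_lit 131))) (PT.nd (nat_lit 78) (PT.lf (nat_lit 1748) (nat_lit 6) (nat_lit 23) (nat_lit 3) (nat_lit 128) (nat_lit 102) (nat_lit 130)) (PT.lf (nat_lit 1824) (nat_lit 3) (nat_lit 24) (nat_lit 1) (nat_lit 129) (nat_lit 102) (nat_lit 129)))) (PT.nd (nat_lit 37206) (PT.nd (nat_lit 78) (PT.lf (nat_lit 1748) (nat_lit 6) (nat_lit 23) (nat_lit 1) (nat_lit 130) (nat_lit 102) (nat_lit 128)) (PT.lf (nat_lit 1672) (nat_lit 6) (nat_lit 22) (nat_lit 1) (nat_lit 131) (nat_lit 102) (nat_lit 127))) (PT.nd (nat_lit 78) (PT.lf (nat_lit 1900) (nat_lit 6) (nat_lit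 25) (nat_lit 3) (nat_lit 126) (nat_lit 103) (nat_lit 131)) (PT.lf (nat_lit 1976) (nat_lit 6) (nat_lit 26) (nat_lit 3) (nat_lit 127) (nat_lit 103) (nat_lit 130))))) (PT.nd (nat_lit 37362) (PT.nd (nat_lit 156) (PT.nd (nat_lit 78) (PT.lf (nat_lit 2052) (nat_lit 6) (nat_lit 27) (nat_lit 3) (nat_lit 128) (nat_lit 103) (nat_lit 129)) (PT.lf (nat_lit 2052) (nat_lit 6) (nat_lit 27) (nat_lit 1) (nat_lit 129) (nat_lit 103) (nat_lit 128))) (PT.nd (nat_lit 78) (PT.lf (nat_lit 1976) (nat_lit 6) (nat_lit 26) (nat_lit 1) (nat_lit 130) (nat_lit 103) (nat_lit 127)) (PT.lf (nat_lit 1900) (nat_lit 6) (nat_lit 25) (nat_lit 1) (nat_lit 131) (nat_lit 103) (nat_lit 126)))) (PT.nd (nat_lit 156) (PT.nd (nat_lit 78) (PT.lf (nat_lit 2128) (nat_lit 6) (nat_lit 28) (nat_lit 3) (nat_lit 126) (nat_lit 104) (nat_lit 130)) (PT.lf (nat_lit 2204) (nat_lit 6) (nat_lit 29) (nat_lit 3) (nat_lit 127) (nat_lit 104) (nat_lit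 129))) (PT.nd (nat_lit 78) (PT.lf (nat_lit 2280) (nat_lit 3) (nat_lit 30) (nat_lit 1) (nat_lit 128) (nat_lit 104) (nat_lit 128)) (PT.nd (nat_lit 78) (PT.lf (nat_lit 2204) (nat_lit 6) (nat_lit 29) (nat_lit 1) (nat_lit 129) (nat_lit 104) (nat_lit 127)) (PT.lf (nat_lit 2128) (nat_lit 6) (nat_lit 28) (nat_lit 1) (nat_lit 130) (nat_lit 104) (nat_lit 126))))))) (PT.nd (nat_lit 37674) (PT.nd (nat_lit 312) (PT.nd (nat_lit 156) (PT.nd (nat_lit 78) (PT.lf (nat_lit 2356) (nat_lit 6) (nat_lit 31) (nat_lit 3) (nat_lit 125) (nat_lit 105) (nat_lit 130)) (PT.lf (nat_lit 2432) (nat_lit 6) (nat_lit 32) (nat_lit 3) (nat_lit 126) (nat_lit 105) (nat_lit 129))) (PT.nd (nat_lit 78) (PT.lf (nat_lit 2508) (nat_lit 6) (nat_lit 33) (nat_lit 3) (nat_lit 127) (nat_lit 105) (nat_lit 128)) (PT.lf (nat_lit 2508) (nat_lit 6) (nat_lit 33) (nat_lit 1) (nat_lit 128) (nat_lit 105) (nat_lit 127)))) (PT.nd (nat_lit 37128)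 (PT.nd (nat_lit 78) (PT.lf (nat_lit 2432) (nat_lit 6) (nat_lit 32) (nat_lit 1) (nat_lit 129) (nat_lit 105) (nat_lit 126)) (PT.lf (nat_lit 2356) (nat_lit 6) (nat_lit 31) (nat_lit 1) (nat_lit 130) (nat_lit 105) (nat_lit 125))) (PT.nd (nat_lit 78) (PT.lf (nat_lit 2584) (nat_lit 6) (nat_lit 34) (nat_lit 3) (nat_lit 124) (nat_lit 106) (nat_lit 130)) (PT.nd (nat_lit 78) (PT.lf (nat_lit 2660) (nat_lit 6) (nat_lit 35) (nat_lit 3) (nat_lit 125) (nat_lit 106) (nat_lit 129)) (PT.lf (nat_lit 2736) (nat_lit 6) (nat_lit 36) (nat_lit 3) (nat_lit 126) (nat_lit 106) (nat_lit 128)))))) (PT.nd (nat_lit 37206) (PT.nd (nat_lit 156) (PT.nd (nat_lit 78) (PT.lf (nat_lit 2812) (nat_lit 3) (nat_lit 37) (nat_lit 1) (nat_lit 127) (nat_lit 106) (nat_lit 127)) (PT.lf (nat_lit 2736) (nat_lit 6) (nat_lit 36) (nat_lit 1) (nat_lit 128) (nat_lit 106) (nat_lit 126))) (PT.nd (nat_lit 78) (PT.lf (nat_lit 2660) (nat_lit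 6) (nat_lit 35) (nat_lit 1) (nat_lit 129) (nat_lit 106) (nat_lit 125)) (PT.lf (nat_lit 2584) (nat_lit 6) (nat_lit 34) (nat_lit 1) (nat_lit 130) (nat_lit 106) (nat_lit 124)))) (PT.nd (nat_lit 156) (PT.nd (nat_lit 78) (PT.lf (nat_lit 2888) (nat_lit 6) (nat_lit 38) (nat_lit 3) (nat_lit 123) (nat_lit 107) (nat_lit 130)) (PT.lf (nat_lit 2964) (nat_lit 6) (nat_lit 39) (nat_lit 3) (nat_lit 124) (nat_lit 107) (nat_lit 129))) (PT.nd (nat_lit 78) (PT.lf (nat_lit 3040) (nat_lit 6) (nat_lit 40) (nat_lit 3) (nat_lit 125) (nat_lit 107) (nat_lit 128)) (PT.nd (nat_lit 78) (PT.lf (nat_lit 3116) (nat_lit 6) (nat_lit 41) (nat_lit 3) (nat_lit 126) (nat_lit 107) (nat_lit 127)) (PT.lf (nat_lit 3116) (nat_lit 6) (nat_lit 41) (nat_lit 1) (nat_lit 127) (nat_lit 107) (nat_lit 126))))))))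
noncomputable def pc2 : PT := (PT.nd (nat_lit 75114) (PT.nd (nat_lit 37518) (PT.nd (nat_lit 37206) (PT.nd (nat_lit 156) (PT.nd (nat_lit 78) (PT.lf (nat_lit 3040) (nat_lit 6) (nat_lit 40) (nat_lit 1) (nat_lit 128) (nat_lit 107) (nat_lit 125)) (PT.lf (nat_lit 2964) (nat_lit 6) (nat_lit 39) (nat_lit 1) (nat_lit 129) (nat_lit 107) (nat_lit 124))) (PT.nd (nat_lit 36972) (PT.lf (nat_lit 2888) (nat_lit 6) (nat_lit 38) (nat_lit 1) (nat_lit 130) (nat_lit 107) (nat_lit 123)) (PT.lf (nat_lit 3192) (nat_lit 6) (nat_lit 42) (nat_lit 3) (nat_lit 123) (nat_lit 108) (nat_lit 129)))) (PT.nd (nat_lit 156) (PT.nd (nat_lit 78) (PT.lf (nat_lit 3268) (nat_lit 6) (nat_lit 43) (nat_lit 3) (nat_lit 124) (nat_lit 108) (nat_lit 128)) (PT.lf (nat_lit 3344) (nat_lit 6) (nat_lit 44) (nat_lit 3) (nat_lit 125) (nat_lit 108) (nat_lit 127))) (PT.nd (nat_lit 78) (PT.lf (nat_lit 3420) (nat_lit 3) (nat_lit 45) (nat_lit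 1) (nat_lit 126) (nat_lit 108) (nat_lit 126)) (PT.lf (nat_lit 3344) (nat_lit 6) (nat_lit 44) (nat_lit 1) (nat_lit 127) (nat_lit 108) (nat_lit 125))))) (PT.nd (nat_lit 37206) (PT.nd (nat_lit 37050) (PT.nd (nat_lit 78) (PT.lf (nat_lit 3268) (nat_lit 6) (nat_lit 43) (nat_lit 1) (nat_lit 128) (nat_lit 108) (nat_lit 124)) (PT.lf (nat_lit 3192) (nat_lit 6) (nat_lit 42) (nat_lit 1) (nat_lit 129) (nat_lit 108) (nat_lit 123))) (PT.nd (nat_lit 78) (PT.lf (nat_lit 3496) (nat_lit 6) (nat_lit 46) (nat_lit 3) (nat_lit 122) (nat_lit 109) (nat_lit 129)) (PT.lf (nat_lit 3572) (nat_lit 6) (nat_lit 47) (nat_lit 3) (nat_lit 123) (nat_lit 109) (nat_lit 128)))) (PT.nd (nat_lit 156) (PT.nd (nat_lit 78) (PT.lf (nat_lit 3648) (nat_lit 6) (nat_lit 48) (nat_lit 3) (nat_lit 124) (nat_lit 109) (nat_lit 127)) (PT.lf (nat_lit 3724) (nat_lit 6) (nat_lit 49) (nat_lit 3) (nat_lit 125) (nat_lit 109) (nat_lit 126)))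 (PT.nd (nat_lit 78) (PT.lf (nat_lit 3724) (nat_lit 6) (nat_lit 49) (nat_lit 1) (nat_lit 126) (nat_lit 109) (nat_lit 125)) (PT.nd (nat_lit 78) (PT.lf (nat_lit 3648) (nat_lit 6) (nat_lit 48) (nat_lit 1) (nat_lit 127) (nat_lit 109) (nat_lit 124)) (PT.lf (nat_lit 3572) (nat_lit 6) (nat_lit 47) (nat_lit 1) (nat_lit 128) (nat_lit 109) (nat_lit 123))))))) (PT.nd (nat_lit 37518) (PT.nd (nat_lit 37128) (PT.nd (nat_lit 36972) (PT.nd (nat_lit 36894) (PT.lf (nat_lit 3496) (nat_lit 6) (nat_lit 46) (nat_lit 1) (nat_lit 129) (nat_lit 109) (nat_lit 122)) (PT.lf (nat_lit 3800) (nat_lit 6) (nat_lit 50) (nat_lit 3) (nat_lit 121) (nat_lit 110) (nat_lit 129))) (PT.nd (nat_lit 78) (PT.lf (nat_lit 3876) (nat_lit 6) (nat_lit 51) (nat_lit 3) (nat_lit 122) (nat_lit 110) (nat_lit 128)) (PT.lf (nat_lit 3952) (nat_lit 6) (nat_lit 52) (nat_lit 3) (nat_lit 123) (nat_lit 110) (nat_lit 127)))) (PT.nd (nat_lit 156)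 (PT.nd (nat_lit 78) (PT.lf (nat_lit 4028) (nat_lit 6) (nat_lit 53) (nat_lit 3) (nat_lit 124) (nat_lit 110) (nat_lit 126)) (PT.lf (nat_lit 4104) (nat_lit 3) (nat_lit 54) (nat_lit 1) (nat_lit 125) (nat_lit 110) (nat_lit 125))) (PT.nd (nat_lit 78) (PT.lf (nat_lit 4028) (nat_lit 6) (nat_lit 53) (nat_lit 1) (nat_lit 126) (nat_lit 110) (nat_lit 124)) (PT.nd (nat_lit 78) (PT.lf (nat_lit 3952) (nat_lit 6) (nat_lit 52) (nat_lit 1) (nat_lit 127) (nat_lit 110) (nat_lit 123)) (PT.lf (nat_lit 3876) (nat_lit 6) (nat_lit 51) (nat_lit 1) (nat_lit 128) (nat_lit 110) (nat_lit 122)))))) (PT.nd (nat_lit 37050) (PT.nd (nat_lit 36894) (PT.nd (nat_lit 36816) (PT.lf (nat_lit 3800) (nat_lit 6) (nat_lit 50) (nat_lit 1) (nat_lit 129) (nat_lit 110) (nat_lit 121)) (PT.lf (nat_lit 4484) (nat_lit 6) (nat_lit 59) (nat_lit 3) (nat_lit 120) (nat_lit 111) (nat_lit 129))) (PT.nd (nat_lit 78) (PT.lf (nat_lit 4560) (nat_lit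 6) (nat_lit 60) (nat_lit 3) (nat_lit 121) (nat_lit 111) (nat_lit 128)) (PT.lf (nat_lit 4636) (nat_lit 6) (nat_lit 61) (nat_lit 3) (nat_lit 122) (nat_lit 111) (nat_lit 127)))) (PT.nd (nat_lit 156) (PT.nd (nat_lit 78) (PT.lf (nat_lit 4712) (nat_lit 6) (nat_lit 62) (nat_lit 3) (nat_lit 123) (nat_lit 111) (nat_lit 126)) (PT.lf (nat_lit 4788) (nat_lit 6) (nat_lit 63) (nat_lit 3) (nat_lit 124) (nat_lit 111) (nat_lit 125))) (PT.nd (nat_lit 78) (PT.lf (nat_lit 4788) (nat_lit 6) (nat_lit 63) (nat_lit 1) (nat_lit 125) (nat_lit 111) (nat_lit 124)) (PT.nd (nat_lit 78) (PT.lf (nat_lit 4712) (nat_lit 6) (nat_lit 62) (nat_lit 1) (nat_lit 126) (nat_lit 111) (nat_lit 123)) (PT.lf (nat_lit 4636) (nat_lit 6) (nat_lit 61) (nat_lit 1) (nat_lit 127) (nat_lit 111) (nat_lit 122))))))))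
noncomputable def pc3 : PT := (PT.nd (nat_lit 74568) (PT.nd (nat_lit 37284) (PT.nd (nat_lit 36972) (PT.nd (nat_lit 36816) (PT.nd (nat_lit 78) (PT.lf (nat_lit 4560) (nat_lit 6) (nat_lit 60) (nat_lit 1) (nat_lit 128) (nat_lit 111) (nat_lit 121)) (PT.lf (nat_lit 4484) (nat_lit 6) (nat_lit 59) (nat_lit 1) (nat_lit 129) (nat_lit 111) (nat_lit 120))) (PT.nd (nat_lit 78) (PT.lf (nat_lit 4408) (nat_lit 6) (nat_lit 58) (nat_lit 3) (nat_lit 119) (nat_lit 112) (nat_lit 129)) (PT.lf (nat_lit 5168) (nat_lit 6) (nat_lit 68) (nat_lit 3) (nat_lit 120) (nat_lit 112) (nat_lit 128)))) (PT.nd (nat_lit 156) (PT.nd (nat_lit 78) (PT.lf (nat_lit 5244) (nat_lit 6) (nat_lit 69) (nat_lit 3) (nat_lit 121) (nat_lit 112) (nat_lit 127)) (PT.lf (nat_lit 5320) (nat_lit 6) (nat_lit 70) (nat_lit 3) (nat_lit 122) (nat_lit 112) (nat_lit 126))) (PT.nd (nat_lit 78) (PT.lf (nat_lit 5396) (nat_lit 6) (nat_lit 71) (nat_lit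 3) (nat_lit 123) (nat_lit 112) (nat_lit 125)) (PT.lf (nat_lit 5472) (nat_lit 3) (nat_lit 72) (nat_lit 1) (nat_lit 124) (nat_lit 112) (nat_lit 124))))) (PT.nd (nat_lit 312) (PT.nd (nat_lit 156) (PT.nd (nat_lit 78) (PT.lf (nat_lit 5396) (nat_lit 6) (nat_lit 71) (nat_lit 1) (nat_lit 125) (nat_lit 112) (nat_lit 123)) (PT.lf (nat_lit 5320) (nat_lit 6) (nat_lit 70) (nat_lit 1) (nat_lit 126) (nat_lit 112) (nat_lit 122))) (PT.nd (nat_lit 78) (PT.lf (nat_lit 5244) (nat_lit 6) (nat_lit 69) (nat_lit 1) (nat_lit 127) (nat_lit 112) (nat_lit 121)) (PT.lf (nat_lit 5168) (nat_lit 6) (nat_lit 68) (nat_lit 1) (nat_lit 128) (nat_lit 112) (nat_lit 120)))) (PT.nd (nat_lit 36738) (PT.nd (nat_lit 36660) (PT.lf (nat_lit 4408) (nat_lit 6) (nat_lit 58) (nat_lit 1) (nat_lit 129) (nat_lit 112) (nat_lit 119)) (PT.lf (nat_lit 4332) (nat_lit 6) (nat_lit 57) (nat_lit 3) (nat_lit 118) (nat_lit 113) (nat_lit 129)))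 (PT.nd (nat_lit 78) (PT.lf (nat_lit 5092) (nat_lit 6) (nat_lit 67) (nat_lit 3) (nat_lit 119) (nat_lit 113) (nat_lit 128)) (PT.nd (nat_lit 78) (PT.lf (nat_lit 5776) (nat_lit 6) (nat_lit 76) (nat_lit 3) (nat_lit 120) (nat_lit 113) (nat_lit 127)) (PT.lf (nat_lit 5852) (nat_lit 6) (nat_lit 77) (nat_lit 3) (nat_lit 121) (nat_lit 113) (nat_lit 126))))))) (PT.nd (nat_lit 37206) (PT.nd (nat_lit 312) (PT.nd (nat_lit 156) (PT.nd (nat_lit 78) (PT.lf (nat_lit 5928) (nat_lit 6) (nat_lit 78) (nat_lit 3) (nat_lit 122) (nat_lit 113) (nat_lit 125)) (PT.lf (nat_lit 6004) (nat_lit 6) (nat_lit 79) (nat_lit 3) (nat_lit 123) (nat_lit 113) (nat_lit 124))) (PT.nd (nat_lit 78) (PT.lf (nat_lit 6004) (nat_lit 6) (nat_lit 79) (nat_lit 1) (nat_lit 124) (nat_lit 113) (nat_lit 123)) (PT.lf (nat_lit 5928) (nat_lit 6) (nat_lit 78) (nat_lit 1) (nat_lit 125) (nat_lit 113) (nat_lit 122)))) (PT.nd (nat_lit 156) (PT.nd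 (nat_lit 78) (PT.lf (nat_lit 5852) (nat_lit 6) (nat_lit 77) (nat_lit 1) (nat_lit 126) (nat_lit 113) (nat_lit 121)) (PT.lf (nat_lit 5776) (nat_lit 6) (nat_lit 76) (nat_lit 1) (nat_lit 127) (nat_lit 113) (nat_lit 120))) (PT.nd (nat_lit 78) (PT.lf (nat_lit 5092) (nat_lit 6) (nat_lit 67) (nat_lit 1) (nat_lit 128) (nat_lit 113) (nat_lit 119)) (PT.nd (nat_lit 36582) (PT.lf (nat_lit 4332) (nat_lit 6) (nat_lit 57) (nat_lit 1) (nat_lit 129) (nat_lit 113) (nat_lit 118)) (PT.lf (nat_lit 4256) (nat_lit 6) (nat_lit 56) (nat_lit 3) (nat_lit 117) (nat_lit 114) (nat_lit 129)))))) (PT.nd (nat_lit 312) (PT.nd (nat_lit 156) (PT.nd (nat_lit 78) (PT.lf (nat_lit 5016) (nat_lit 6) (nat_lit 66) (nat_lit 3) (nat_lit 118) (nat_lit 114) (nat_lit 128)) (PT.lf (nat_lit 5700) (nat_lit 6) (nat_lit 75) (nat_lit 3) (nat_lit 119) (nat_lit 114) (nat_lit 127))) (PT.nd (nat_lit 78) (PT.lf (nat_lit 6308) (nat_lit 6) (nat_lit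 83) (nat_lit 3) (nat_lit 120) (nat_lit 114) (nat_lit 126)) (PT.lf (nat_lit 6384) (nat_lit 6) (nat_lit 84) (nat_lit 3) (nat_lit 121) (nat_lit 114) (nat_lit 125)))) (PT.nd (nat_lit 156) (PT.nd (nat_lit 78) (PT.lf (nat_lit 6460) (nat_lit 6) (nat_lit 85) (nat_lit 3) (nat_lit 122) (nat_lit 114) (nat_lit 124)) (PT.lf (nat_lit 6536) (nat_lit 3) (nat_lit 86) (nat_lit 1) (nat_lit 123) (nat_lit 114) (nat_lit 123))) (PT.nd (nat_lit 78) (PT.lf (nat_lit 6460) (nat_lit 6) (nat_lit 85) (nat_lit 1) (nat_lit 124) (nat_lit 114) (nat_lit 122)) (PT.nd (nat_lit 78) (PT.lf (nat_lit 6384) (nat_lit 6) (nat_lit 84) (nat_lit 1) (nat_lit 125) (nat_lit 114) (nat_lit 121)) (PT.lf (nat_lit 6308) (nat_lit 6) (nat_lit 83) (nat_lit 1) (nat_lit 126) (nat_lit 114) (nat_lit 120))))))))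
noncomputable def pc4 : PT := (PT.nd (nat_lit 74100) (PT.nd (nat_lit 37050) (PT.nd (nat_lit 36738) (PT.nd (nat_lit 156) (PT.nd (nat_lit 78) (PT.lf (nat_lit 5700) (nat_lit 6) (nat_lit 75) (nat_lit 1) (nat_lit 127) (nat_lit 114) (nat_lit 119)) (PT.lf (nat_lit 5016) (nat_lit 6) (nat_lit 66) (nat_lit 1) (nat_lit 128) (nat_lit 114) (nat_lit 118))) (PT.nd (nat_lit 36504) (PT.lf (nat_lit 4256) (nat_lit 6) (nat_lit 56) (nat_lit 1) (nat_lit 129) (nat_lit 114) (nat_lit 117)) (PT.lf (nat_lit 4180) (nat_lit 6) (nat_lit 55) (nat_lit 3) (nat_lit 116) (nat_lit 115) (nat_lit 129)))) (PT.nd (nat_lit 156) (PT.nd (nat_lit 78) (PT.lf (nat_lit 4940) (nat_lit 6) (nat_lit 65) (nat_lit 3) (nat_lit 117) (nat_lit 115) (nat_lit 128)) (PT.lf (nat_lit 5624) (nat_lit 6) (nat_lit 74) (nat_lit 3) (nat_lit 118) (nat_lit 115) (nat_lit 127))) (PT.nd (nat_lit 78) (PT.lf (nat_lit 6232) (nat_lit 6) (nat_lit 82) (nat_lit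 3) (nat_lit 119) (nat_lit 115) (nat_lit 126)) (PT.lf (nat_lit 6764) (nat_lit 6) (nat_lit 89) (nat_lit 3) (nat_lit 120) (nat_lit 115) (nat_lit 125))))) (PT.nd (nat_lit 312) (PT.nd (nat_lit 156) (PT.nd (nat_lit 78) (PT.lf (nat_lit 6840) (nat_lit 6) (nat_lit 90) (nat_lit 3) (nat_lit 121) (nat_lit 115) (nat_lit 124)) (PT.lf (nat_lit 6916) (nat_lit 6) (nat_lit 91) (nat_lit 3) (nat_lit 122) (nat_lit 115) (nat_lit 123))) (PT.nd (nat_lit 78) (PT.lf (nat_lit 6916) (nat_lit 6) (nat_lit 91) (nat_lit 1) (nat_lit 123) (nat_lit 115) (nat_lit 122)) (PT.lf (nat_lit 6840) (nat_lit 6) (nat_lit 90) (nat_lit 1) (nat_lit 124) (nat_lit 115) (nat_lit 121)))) (PT.nd (nat_lit 156) (PT.nd (nat_lit 78) (PT.lf (nat_lit 6764) (nat_lit 6) (nat_lit 89) (nat_lit 1) (nat_lit 125) (nat_lit 115) (nat_lit 120)) (PT.lf (nat_lit 6232) (nat_lit 6) (nat_lit 82) (nat_lit 1) (nat_lit 126) (nat_lit 115) (nat_lit 119))) (PT.nd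 (nat_lit 78) (PT.lf (nat_lit 5624) (nat_lit 6) (nat_lit 74) (nat_lit 1) (nat_lit 127) (nat_lit 115) (nat_lit 118)) (PT.nd (nat_lit 78) (PT.lf (nat_lit 4940) (nat_lit 6) (nat_lit 65) (nat_lit 1) (nat_lit 128) (nat_lit 115) (nat_lit 117)) (PT.lf (nat_lit 4180) (nat_lit 6) (nat_lit 55) (nat_lit 1) (nat_lit 129) (nat_lit 115) (nat_lit 116))))))) (PT.nd (nat_lit 702) (PT.nd (nat_lit 312) (PT.nd (nat_lit 156) (PT.nd (nat_lit 78) (PT.lf (nat_lit 4180) (nat_lit 6) (nat_lit 55) (nat_lit 5) (nat_lit 115) (nat_lit 116) (nat_lit 129)) (PT.lf (nat_lit 4864) (nat_lit 3) (nat_lit 64) (nat_lit 3) (nat_lit 116) (nat_lit 116) (nat_lit 128))) (PT.nd (nat_lit 78) (PT.lf (nat_lit 5548) (nat_lit 6) (nat_lit 73) (nat_lit 3) (nat_lit 117) (nat_lit 116) (nat_lit 127)) (PT.lf (nat_lit 6156) (nat_lit 6) (nat_lit 81) (nat_lit 3) (nat_lit 118) (nat_lit 116) (nat_lit 126)))) (PT.nd (nat_lit 156) (PT.nd (nat_lit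 78) (PT.lf (nat_lit 6688) (nat_lit 6) (nat_lit 88) (nat_lit 3) (nat_lit 119) (nat_lit 116) (nat_lit 125)) (PT.lf (nat_lit 7144) (nat_lit 6) (nat_lit 94) (nat_lit 3) (nat_lit 120) (nat_lit 116) (nat_lit 124))) (PT.nd (nat_lit 78) (PT.lf (nat_lit 7220) (nat_lit 6) (nat_lit 95) (nat_lit 3) (nat_lit 121) (nat_lit 116) (nat_lit 123)) (PT.nd (nat_lit 78) (PT.lf (nat_lit 7296) (nat_lit 3) (nat_lit 96) (nat_lit 1) (nat_lit 122) (nat_lit 116) (nat_lit 122)) (PT.lf (nat_lit 7220) (nat_lit 6) (nat_lit 95) (nat_lit 1) (nat_lit 123) (nat_lit 116) (nat_lit 121)))))) (PT.nd (nat_lit 312) (PT.nd (nat_lit 156) (PT.nd (nat_lit 78) (PT.lf (nat_lit 7144) (nat_lit 6) (nat_lit 94) (nat_lit 1) (nat_lit 124) (nat_lit 116) (nat_lit 120)) (PT.lf (nat_lit 6688) (nat_lit 6) (nat_lit 88) (nat_lit 1) (nat_lit 125) (nat_lit 116) (nat_lit 119))) (PT.nd (nat_lit 78) (PT.lf (nat_lit 6156) (nat_lit 6) (nat_lit 81) (nat_lit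 1) (nat_lit 126) (nat_lit 116) (nat_lit 118)) (PT.lf (nat_lit 5548) (nat_lit 6) (nat_lit 73) (nat_lit 1) (nat_lit 127) (nat_lit 116) (nat_lit 117)))) (PT.nd (nat_lit 36426) (PT.nd (nat_lit 78) (PT.lf (nat_lit 4864) (nat_lit 3) (nat_lit 64) (nat_lit 0) (nat_lit 128) (nat_lit 116) (nat_lit 116)) (PT.lf (nat_lit 4180) (nat_lit 6) (nat_lit 55) (nat_lit 0) (nat_lit 129) (nat_lit 116) (nat_lit 115))) (PT.nd (nat_lit 78) (PT.lf (nat_lit 4256) (nat_lit 6) (nat_lit 56) (nat_lit 5) (nat_lit 114) (nat_lit 117) (nat_lit 129)) (PT.nd (nat_lit 78) (PT.lf (nat_lit 4940) (nat_lit 6) (nat_lit 65) (nat_lit 5) (nat_lit 115) (nat_lit 117) (nat_lit 128)) (PT.lf (nat_lit 5548) (nat_lit 6) (nat_lit 73) (nat_lit 5) (nat_lit 116) (nat_lit 117) (nat_lit 127))))))))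
noncomputable def pc5 : PT := (PT.nd (nat_lit 37518) (PT.nd (nat_lit 624) (PT.nd (nat_lit 312) (PT.nd (nat_lit 156) (PT.nd (nat_lit 78) (PT.lf (nat_lit 6080) (nat_lit 3) (nat_lit 80) (nat_lit 3) (nat_lit 117) (nat_lit 117) (nat_lit 126)) (PT.lf (nat_lit 6612) (nat_lit 6) (nat_lit 87) (nat_lit 3) (nat_lit 118) (nat_lit 117) (nat_lit 125))) (PT.nd (nat_lit 78) (PT.lf (nat_lit 7068) (nat_lit 6) (nat_lit 93) (nat_lit 3) (nat_lit 119) (nat_lit 117) (nat_lit 124)) (PT.lf (nat_lit 7448) (nat_lit 6) (nat_lit 98) (nat_lit 3) (nat_lit 120) (nat_lit 117) (nat_lit 123)))) (PT.nd (nat_lit 156) (PT.nd (nat_lit 78) (PT.lf (nat_lit 7524) (nat_lit 6) (nat_lit 99) (nat_lit 3) (nat_lit 121) (nat_lit 117) (nat_lit 122)) (PT.lf (nat_lit 7524) (nat_lit 6) (nat_lit 99) (nat_lit 1) (nat_lit 122) (nat_lit 117) (nat_lit 121))) (PT.nd (nat_lit 78) (PT.lf (nat_lit 7448) (nat_lit 6) (nat_lit 98) (nat_lit 1) (nat_lit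 123) (nat_lit 117) (nat_lit 120)) (PT.lf (nat_lit 7068) (nat_lit 6) (nat_lit 93) (nat_lit 1) (nat_lit 124) (nat_lit 117) (nat_lit 119))))) (PT.nd (nat_lit 312) (PT.nd (nat_lit 156) (PT.nd (nat_lit 78) (PT.lf (nat_lit 6612) (nat_lit 6) (nat_lit 87) (nat_lit 1) (nat_lit 125) (nat_lit 117) (nat_lit 118)) (PT.lf (nat_lit 6080) (nat_lit 3) (nat_lit 80) (nat_lit 0) (nat_lit 126) (nat_lit 117) (nat_lit 117))) (PT.nd (nat_lit 78) (PT.lf (nat_lit 5548) (nat_lit 6) (nat_lit 73) (nat_lit 0) (nat_lit 127) (nat_lit 117) (nat_lit 116)) (PT.lf (nat_lit 4940) (nat_lit 6) (nat_lit 65) (nat_lit 0) (nat_lit 128) (nat_lit 117) (nat_lit 115)))) (PT.nd (nat_lit 36348) (PT.nd (nat_lit 36270) (PT.lf (nat_lit 4256) (nat_lit 6) (nat_lit 56) (nat_lit 0) (nat_lit 129) (nat_lit 117) (nat_lit 114)) (PT.lf (nat_lit 4332) (nat_lit 6) (nat_lit 57) (nat_lit 5) (nat_lit 113) (nat_lit 118) (nat_lit 129))) (PT.nd (nat_lit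 78) (PT.lf (nat_lit 5016) (nat_lit 6) (nat_lit 66) (nat_lit 5) (nat_lit 114) (nat_lit 118) (nat_lit 128)) (PT.nd (nat_lit 78) (PT.lf (nat_lit 5624) (nat_lit 6) (nat_lit 74) (nat_lit 5) (nat_lit 115) (nat_lit 118) (nat_lit 127)) (PT.lf (nat_lit 6156) (nat_lit 6) (nat_lit 81) (nat_lit 5) (nat_lit 116) (nat_lit 118) (nat_lit 126))))))) (PT.nd (nat_lit 702) (PT.nd (nat_lit 312) (PT.nd (nat_lit 156) (PT.nd (nat_lit 78) (PT.lf (nat_lit 6612) (nat_lit 6) (nat_lit 87) (nat_lit 5) (nat_lit 117) (nat_lit 118) (nat_lit 125)) (PT.lf (nat_lit 6992) (nat_lit 3) (nat_lit 92) (nat_lit 3) (nat_lit 118) (nat_lit 118) (nat_lit 124))) (PT.nd (nat_lit 78) (PT.lf (nat_lit 7372) (nat_lit 6) (nat_lit 97) (nat_lit 3) (nat_lit 119) (nat_lit 118) (nat_lit 123)) (PT.lf (nat_lit 7676) (nat_lit 6) (nat_lit 101) (nat_lit 3) (nat_lit 120) (nat_lit 118) (nat_lit 122)))) (PT.nd (nat_lit 156) (PT.nd (nat_lit 78) (PT.lf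 (nat_lit 7752) (nat_lit 3) (nat_lit 102) (nat_lit 1) (nat_lit 121) (nat_lit 118) (nat_lit 121)) (PT.lf (nat_lit 7676) (nat_lit 6) (nat_lit 101) (nat_lit 1) (nat_lit 122) (nat_lit 118) (nat_lit 120))) (PT.nd (nat_lit 78) (PT.lf (nat_lit 7372) (nat_lit 6) (nat_lit 97) (nat_lit 1) (nat_lit 123) (nat_lit 118) (nat_lit 119)) (PT.nd (nat_lit 78) (PT.lf (nat_lit 6992) (nat_lit 3) (nat_lit 92) (nat_lit 0) (nat_lit 124) (nat_lit 118) (nat_lit 118)) (PT.lf (nat_lit 6612) (nat_lit 6) (nat_lit 87) (nat_lit 0) (nat_lit 125) (nat_lit 118) (nat_lit 117)))))) (PT.nd (nat_lit 36426) (PT.nd (nat_lit 156) (PT.nd (nat_lit 78) (PT.lf (nat_lit 6156) (nat_lit 6) (nat_lit 81) (nat_lit 0) (nat_lit 126) (nat_lit 118) (nat_lit 116)) (PT.lf (nat_lit 5624) (nat_lit 6) (nat_lit 74) (nat_lit 0) (nat_lit 127) (nat_lit 118) (nat_lit 115))) (PT.nd (nat_lit 78) (PT.lf (nat_lit 5016) (nat_lit 6) (nat_lit 66) (nat_lit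 0) (nat_lit 128) (nat_lit 118) (nat_lit 114)) (PT.lf (nat_lit 4332) (nat_lit 6) (nat_lit 57) (nat_lit 0) (nat_lit 129) (nat_lit 118) (nat_lit 113)))) (PT.nd (nat_lit 156) (PT.nd (nat_lit 78) (PT.lf (nat_lit 4408) (nat_lit 6) (nat_lit 58) (nat_lit 5) (nat_lit 112) (nat_lit 119) (nat_lit 129)) (PT.lf (nat_lit 5092) (nat_lit 6) (nat_lit 67) (nat_lit 5) (nat_lit 113) (nat_lit 119) (nat_lit 128))) (PT.nd (nat_lit 78) (PT.lf (nat_lit 5700) (nat_lit 6) (nat_lit 75) (nat_lit 5) (nat_lit 114) (nat_lit 119) (nat_lit 127)) (PT.nd (nat_lit 78) (PT.lf (nat_lit 6232) (nat_lit 6) (nat_lit 82) (nat_lit 5) (nat_lit 115) (nat_lit 119) (nat_lit 126)) (PT.lf (nat_lit 6688) (nat_lit 6) (nat_lit 88) (nat_lit 5) (nat_lit 116) (nat_lit 119) (nat_lit 125))))))))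
noncomputable def pc6 : PT := (PT.nd (nat_lit 37362) (PT.nd (nat_lit 624) (PT.nd (nat_lit 312) (PT.nd (nat_lit 156) (PT.nd (nat_lit 78) (PT.lf (nat_lit 7068) (nat_lit 6) (nat_lit 93) (nat_lit 5) (nat_lit 117) (nat_lit 119) (nat_lit 124)) (PT.lf (nat_lit 7372) (nat_lit 6) (nat_lit 97) (nat_lit 5) (nat_lit 118) (nat_lit 119) (nat_lit 123))) (PT.nd (nat_lit 78) (PT.lf (nat_lit 7600) (nat_lit 3) (nat_lit 100) (nat_lit 3) (nat_lit 119) (nat_lit 119) (nat_lit 122)) (PT.lf (nat_lit 7828) (nat_lit 6) (nat_lit 103) (nat_lit 3) (nat_lit 120) (nat_lit 119) (nat_lit 121)))) (PT.nd (nat_lit 156) (PT.nd (nat_lit 78) (PT.lf (nat_lit 7828) (nat_lit 6) (nat_lit 103) (nat_lit 1) (nat_lit 121) (nat_lit 119) (nat_lit 120)) (PT.lf (nat_lit 7600) (nat_lit 3) (nat_lit 100) (nat_lit 0) (nat_lit 122) (nat_lit 119) (nat_lit 119))) (PT.nd (nat_lit 78) (PT.lf (nat_lit 7372) (nat_lit 6) (nat_lit 97) (nat_lit 0)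 (nat_lit 123) (nat_lit 119) (nat_lit 118)) (PT.lf (nat_lit 7068) (nat_lit 6) (nat_lit 93) (nat_lit 0) (nat_lit 124) (nat_lit 119) (nat_lit 117))))) (PT.nd (nat_lit 312) (PT.nd (nat_lit 156) (PT.nd (nat_lit 78) (PT.lf (nat_lit 6688) (nat_lit 6) (nat_lit 88) (nat_lit 0) (nat_lit 125) (nat_lit 119) (nat_lit 116)) (PT.lf (nat_lit 6232) (nat_lit 6) (nat_lit 82) (nat_lit 0) (nat_lit 126) (nat_lit 119) (nat_lit 115))) (PT.nd (nat_lit 78) (PT.lf (nat_lit 5700) (nat_lit 6) (nat_lit 75) (nat_lit 0) (nat_lit 127) (nat_lit 119) (nat_lit 114)) (PT.lf (nat_lit 5092) (nat_lit 6) (nat_lit 67) (nat_lit 0) (nat_lit 128) (nat_lit 119) (nat_lit 113)))) (PT.nd (nat_lit 36192) (PT.nd (nat_lit 36114) (PT.lf (nat_lit 4408) (nat_lit 6) (nat_lit 58) (nat_lit 0) (nat_lit 129) (nat_lit 119) (nat_lit 112)) (PT.lf (nat_lit 4484) (nat_lit 6) (nat_lit 59) (nat_lit 5) (nat_lit 111) (nat_lit 120) (nat_lit 129))) (PT.nd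 (nat_lit 78) (PT.lf (nat_lit 5168) (nat_lit 6) (nat_lit 68) (nat_lit 5) (nat_lit 112) (nat_lit 120) (nat_lit 128)) (PT.nd (nat_lit 78) (PT.lf (nat_lit 5776) (nat_lit 6) (nat_lit 76) (nat_lit 5) (nat_lit 113) (nat_lit 120) (nat_lit 127)) (PT.lf (nat_lit 6308) (nat_lit 6) (nat_lit 83) (nat_lit 5) (nat_lit 114) (nat_lit 120) (nat_lit 126))))))) (PT.nd (nat_lit 702) (PT.nd (nat_lit 312) (PT.nd (nat_lit 156) (PT.nd (nat_lit 78) (PT.lf (nat_lit 6764) (nat_lit 6) (nat_lit 89) (nat_lit 5) (nat_lit 115) (nat_lit 120) (nat_lit 125)) (PT.lf (nat_lit 7144) (nat_lit 6) (nat_lit 94) (nat_lit 5) (nat_lit 116) (nat_lit 120) (nat_lit 124))) (PT.nd (nat_lit 78) (PT.lf (nat_lit 7448) (nat_lit 6) (nat_lit 98) (nat_lit 5) (nat_lit 117) (nat_lit 120) (nat_lit 123)) (PT.lf (nat_lit 7676) (nat_lit 6) (nat_lit 101) (nat_lit 5) (nat_lit 118) (nat_lit 120) (nat_lit 122)))) (PT.nd (nat_lit 156) (PT.nd (nat_lit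 78) (PT.lf (nat_lit 7828) (nat_lit 6) (nat_lit 103) (nat_lit 5) (nat_lit 119) (nat_lit 120) (nat_lit 121)) (PT.lf (nat_lit 7904) (nat_lit 1) (nat_lit 104) (nat_lit 0) (nat_lit 120) (nat_lit 120) (nat_lit 120))) (PT.nd (nat_lit 78) (PT.lf (nat_lit 7828) (nat_lit 6) (nat_lit 103) (nat_lit 0) (nat_lit 121) (nat_lit 120) (nat_lit 119)) (PT.nd (nat_lit 78) (PT.lf (nat_lit 7676) (nat_lit 6) (nat_lit 101) (nat_lit 0) (nat_lit 122) (nat_lit 120) (nat_lit 118)) (PT.lf (nat_lit 7448) (nat_lit 6) (nat_lit 98) (nat_lit 0) (nat_lit 123) (nat_lit 120) (nat_lit 117)))))) (PT.nd (nat_lit 312) (PT.nd (nat_lit 156) (PT.nd (nat_lit 78) (PT.lf (nat_lit 7144) (nat_lit 6) (nat_lit 94) (nat_lit 0) (nat_lit 124) (nat_lit 120) (nat_lit 116)) (PT.lf (nat_lit 6764) (nat_lit 6) (nat_lit 89) (nat_lit 0) (nat_lit 125) (nat_lit 120) (nat_lit 115))) (PT.nd (nat_lit 78) (PT.lf (nat_lit 6308) (nat_lit 6) (nat_lit 83)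 (nat_lit 0) (nat_lit 126) (nat_lit 120) (nat_lit 114)) (PT.lf (nat_lit 5776) (nat_lit 6) (nat_lit 76) (nat_lit 0) (nat_lit 127) (nat_lit 120) (nat_lit 113)))) (PT.nd (nat_lit 36114) (PT.nd (nat_lit 78) (PT.lf (nat_lit 5168) (nat_lit 6) (nat_lit 68) (nat_lit 0) (nat_lit 128) (nat_lit 120) (nat_lit 112)) (PT.lf (nat_lit 4484) (nat_lit 6) (nat_lit 59) (nat_lit 0) (nat_lit 129) (nat_lit 120) (nat_lit 111))) (PT.nd (nat_lit 78) (PT.lf (nat_lit 3800) (nat_lit 6) (nat_lit 50) (nat_lit 5) (nat_lit 110) (nat_lit 121) (nat_lit 129)) (PT.nd (nat_lit 78) (PT.lf (nat_lit 4560) (nat_lit 6) (nat_lit 60) (nat_lit 5) (nat_lit 111) (nat_lit 121) (nat_lit 128)) (PT.lf (nat_lit 5244) (nat_lit 6) (nat_lit 69) (nat_lit 5) (nat_lit 112) (nat_lit 121) (nat_lit 127))))))))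
noncomputable def pc7 : PT := (PT.nd (nat_lit 37284) (PT.nd (nat_lit 702) (PT.nd (nat_lit 312) (PT.nd (nat_lit 156) (PT.nd (nat_lit 78) (PT.lf (nat_lit 5852) (nat_lit 6) (nat_lit 77) (nat_lit 5) (nat_lit 113) (nat_lit 121) (nat_lit 126)) (PT.lf (nat_lit 6384) (nat_lit 6) (nat_lit 84) (nat_lit 5) (nat_lit 114) (nat_lit 121) (nat_lit 125))) (PT.nd (nat_lit 78) (PT.lf (nat_lit 6840) (nat_lit 6) (nat_lit 90) (nat_lit 5) (nat_lit 115) (nat_lit 121) (nat_lit 124)) (PT.lf (nat_lit 7220) (nat_lit 6) (nat_lit 95) (nat_lit 5) (nat_lit 116) (nat_lit 121) (nat_lit 123)))) (PT.nd (nat_lit 156) (PT.nd (nat_lit 78) (PT.lf (nat_lit 7524) (nat_lit 6) (nat_lit 99) (nat_lit 5) (nat_lit 117) (nat_lit 121) (nat_lit 122)) (PT.lf (nat_lit 7752) (nat_lit 3) (nat_lit 102) (nat_lit 4) (nat_lit 118) (nat_lit 121) (nat_lit 121))) (PT.nd (nat_lit 78) (PT.lf (nat_lit 7828) (nat_lit 6) (nat_lit 103) (nat_lit 4)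 (nat_lit 119) (nat_lit 121) (nat_lit 120)) (PT.nd (nat_lit 78) (PT.lf (nat_lit 7828) (nat_lit 6) (nat_lit 103) (nat_lit 2) (nat_lit 120) (nat_lit 121) (nat_lit 119)) (PT.lf (nat_lit 7752) (nat_lit 3) (nat_lit 102) (nat_lit 0) (nat_lit 121) (nat_lit 121) (nat_lit 118)))))) (PT.nd (nat_lit 312) (PT.nd (nat_lit 156) (PT.nd (nat_lit 78) (PT.lf (nat_lit 7524) (nat_lit 6) (nat_lit 99) (nat_lit 0) (nat_lit 122) (nat_lit 121) (nat_lit 117)) (PT.lf (nat_lit 7220) (nat_lit 6) (nat_lit 95) (nat_lit 0) (nat_lit 123) (nat_lit 121) (nat_lit 116))) (PT.nd (nat_lit 78) (PT.lf (nat_lit 6840) (nat_lit 6) (nat_lit 90) (nat_lit 0) (nat_lit 124) (nat_lit 121) (nat_lit 115)) (PT.lf (nat_lit 6384) (nat_lit 6) (nat_lit 84) (nat_lit 0) (nat_lit 125) (nat_lit 121) (nat_lit 114)))) (PT.nd (nat_lit 156) (PT.nd (nat_lit 78) (PT.lf (nat_lit 5852) (nat_lit 6) (nat_lit 77) (nat_lit 0) (nat_lit 126) (nat_lit 121)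 (nat_lit 113)) (PT.lf (nat_lit 5244) (nat_lit 6) (nat_lit 69) (nat_lit 0) (nat_lit 127) (nat_lit 121) (nat_lit 112))) (PT.nd (nat_lit 78) (PT.lf (nat_lit 4560) (nat_lit 6) (nat_lit 60) (nat_lit 0) (nat_lit 128) (nat_lit 121) (nat_lit 111)) (PT.nd (nat_lit 35958) (PT.lf (nat_lit 3800) (nat_lit 6) (nat_lit 50) (nat_lit 0) (nat_lit 129) (nat_lit 121) (nat_lit 110)) (PT.lf (nat_lit 3496) (nat_lit 6) (nat_lit 46) (nat_lit 5) (nat_lit 109) (nat_lit 122) (nat_lit 129))))))) (PT.nd (nat_lit 702) (PT.nd (nat_lit 312) (PT.nd (nat_lit 156) (PT.nd (nat_lit 78) (PT.lf (nat_lit 3876) (nat_lit 6) (nat_lit 51) (nat_lit 5) (nat_lit 110) (nat_lit 122) (nat_lit 128)) (PT.lf (nat_lit 4636) (nat_lit 6) (nat_lit 61) (nat_lit 5) (nat_lit 111) (nat_lit 122) (nat_lit 127))) (PT.nd (nat_lit 78) (PT.lf (nat_lit 5320) (nat_lit 6) (nat_lit 70) (nat_lit 5) (nat_lit 112) (nat_lit 122) (nat_lit 126)) (PT.lf (nat_lit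 5928) (nat_lit 6) (nat_lit 78) (nat_lit 5) (nat_lit 113) (nat_lit 122) (nat_lit 125)))) (PT.nd (nat_lit 156) (PT.nd (nat_lit 78) (PT.lf (nat_lit 6460) (nat_lit 6) (nat_lit 85) (nat_lit 5) (nat_lit 114) (nat_lit 122) (nat_lit 124)) (PT.lf (nat_lit 6916) (nat_lit 6) (nat_lit 91) (nat_lit 5) (nat_lit 115) (nat_lit 122) (nat_lit 123))) (PT.nd (nat_lit 78) (PT.lf (nat_lit 7296) (nat_lit 3) (nat_lit 96) (nat_lit 4) (nat_lit 116) (nat_lit 122) (nat_lit 122)) (PT.nd (nat_lit 78) (PT.lf (nat_lit 7524) (nat_lit 6) (nat_lit 99) (nat_lit 4) (nat_lit 117) (nat_lit 122) (nat_lit 121)) (PT.lf (nat_lit 7676) (nat_lit 6) (nat_lit 101) (nat_lit 4) (nat_lit 118) (nat_lit 122) (nat_lit 120)))))) (PT.nd (nat_lit 312) (PT.nd (nat_lit 156) (PT.nd (nat_lit 78) (PT.lf (nat_lit 7600) (nat_lit 3) (nat_lit 100) (nat_lit 2) (nat_lit 119) (nat_lit 122) (nat_lit 119)) (PT.lf (nat_lit 7676) (nat_lit 6) (nat_lit 101)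 (nat_lit 2) (nat_lit 120) (nat_lit 122) (nat_lit 118))) (PT.nd (nat_lit 78) (PT.lf (nat_lit 7524) (nat_lit 6) (nat_lit 99) (nat_lit 2) (nat_lit 121) (nat_lit 122) (nat_lit 117)) (PT.lf (nat_lit 7296) (nat_lit 3) (nat_lit 96) (nat_lit 0) (nat_lit 122) (nat_lit 122) (nat_lit 116)))) (PT.nd (nat_lit 156) (PT.nd (nat_lit 78) (PT.lf (nat_lit 6916) (nat_lit 6) (nat_lit 91) (nat_lit 0) (nat_lit 123) (nat_lit 122) (nat_lit 115)) (PT.lf (nat_lit 6460) (nat_lit 6) (nat_lit 85) (nat_lit 0) (nat_lit 124) (nat_lit 122) (nat_lit 114))) (PT.nd (nat_lit 78) (PT.lf (nat_lit 5928) (nat_lit 6) (nat_lit 78) (nat_lit 0) (nat_lit 125) (nat_lit 122) (nat_lit 113)) (PT.nd (nat_lit 78) (PT.lf (nat_lit 5320) (nat_lit 6) (nat_lit 70) (nat_lit 0) (nat_lit 126) (nat_lit 122) (nat_lit 112)) (PT.lf (nat_lit 4636) (nat_lit 6) (nat_lit 61) (nat_lit 0) (nat_lit 127) (nat_lit 122) (nat_lit 111))))))))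
noncomputable def pc8 : PT := (PT.nd (nat_lit 37050) (PT.nd (nat_lit 36348) (PT.nd (nat_lit 36036) (PT.nd (nat_lit 35880) (PT.nd (nat_lit 78) (PT.lf (nat_lit 3876) (nat_lit 6) (nat_lit 51) (nat_lit 0) (nat_lit 128) (nat_lit 122) (nat_lit 110)) (PT.lf (nat_lit 3496) (nat_lit 6) (nat_lit 46) (nat_lit 0) (nat_lit 129) (nat_lit 122) (nat_lit 109))) (PT.nd (nat_lit 78) (PT.lf (nat_lit 2888) (nat_lit 6) (nat_lit 38) (nat_lit 5) (nat_lit 107) (nat_lit 123) (nat_lit 130)) (PT.lf (nat_lit 3192) (nat_lit 6) (nat_lit 42) (nat_lit 5) (nat_lit 108) (nat_lit 123) (nat_lit 129)))) (PT.nd (nat_lit 156) (PT.nd (nat_lit 78) (PT.lf (nat_lit 3572) (nat_lit 6) (nat_lit 47) (nat_lit 5) (nat_lit 109) (nat_lit 123) (nat_lit 128)) (PT.lf (nat_lit 3952) (nat_lit 6) (nat_lit 52) (nat_lit 5) (nat_lit 110) (nat_lit 123) (nat_lit 127))) (PT.nd (nat_lit 78) (PT.lf (nat_lit 4712) (nat_lit 6) (nat_lit 62) (nat_lit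 5) (nat_lit 111) (nat_lit 123) (nat_lit 126)) (PT.lf (nat_lit 5396) (nat_lit 6) (nat_lit 71) (nat_lit 5) (nat_lit 112) (nat_lit 123) (nat_lit 125))))) (PT.nd (nat_lit 312) (PT.nd (nat_lit 156) (PT.nd (nat_lit 78) (PT.lf (nat_lit 6004) (nat_lit 6) (nat_lit 79) (nat_lit 5) (nat_lit 113) (nat_lit 123) (nat_lit 124)) (PT.lf (nat_lit 6536) (nat_lit 3) (nat_lit 86) (nat_lit 4) (nat_lit 114) (nat_lit 123) (nat_lit 123))) (PT.nd (nat_lit 78) (PT.lf (nat_lit 6916) (nat_lit 6) (nat_lit 91) (nat_lit 4) (nat_lit 115) (nat_lit 123) (nat_lit 122)) (PT.lf (nat_lit 7220) (nat_lit 6) (nat_lit 95) (nat_lit 4) (nat_lit 116) (nat_lit 123) (nat_lit 121)))) (PT.nd (nat_lit 156) (PT.nd (nat_lit 78) (PT.lf (nat_lit 7448) (nat_lit 6) (nat_lit 98) (nat_lit 4) (nat_lit 117) (nat_lit 123) (nat_lit 120)) (PT.lf (nat_lit 7372) (nat_lit 6) (nat_lit 97) (nat_lit 4) (nat_lit 118) (nat_lit 123) (nat_lit 119))) (PT.nd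 (nat_lit 78) (PT.lf (nat_lit 7372) (nat_lit 6) (nat_lit 97) (nat_lit 2) (nat_lit 119) (nat_lit 123) (nat_lit 118)) (PT.nd (nat_lit 78) (PT.lf (nat_lit 7448) (nat_lit 6) (nat_lit 98) (nat_lit 2) (nat_lit 120) (nat_lit 123) (nat_lit 117)) (PT.lf (nat_lit 7220) (nat_lit 6) (nat_lit 95) (nat_lit 2) (nat_lit 121) (nat_lit 123) (nat_lit 116))))))) (PT.nd (nat_lit 36270) (PT.nd (nat_lit 312) (PT.nd (nat_lit 156) (PT.nd (nat_lit 78) (PT.lf (nat_lit 6916) (nat_lit 6) (nat_lit 91) (nat_lit 2) (nat_lit 122) (nat_lit 123) (nat_lit 115)) (PT.lf (nat_lit 6536) (nat_lit 3) (nat_lit 86) (nat_lit 0) (nat_lit 123) (nat_lit 123) (nat_lit 114))) (PT.nd (nat_lit 78) (PT.lf (nat_lit 6004) (nat_lit 6) (nat_lit 79) (nat_lit 0) (nat_lit 124) (nat_lit 123) (nat_lit 113)) (PT.lf (nat_lit 5396) (nat_lit 6) (nat_lit 71) (nat_lit 0) (nat_lit 125) (nat_lit 123) (nat_lit 112)))) (PT.nd (nat_lit 156) (PT.nd (nat_lit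 78) (PT.lf (nat_lit 4712) (nat_lit 6) (nat_lit 62) (nat_lit 0) (nat_lit 126) (nat_lit 123) (nat_lit 111)) (PT.lf (nat_lit 3952) (nat_lit 6) (nat_lit 52) (nat_lit 0) (nat_lit 127) (nat_lit 123) (nat_lit 110))) (PT.nd (nat_lit 78) (PT.lf (nat_lit 3572) (nat_lit 6) (nat_lit 47) (nat_lit 0) (nat_lit 128) (nat_lit 123) (nat_lit 109)) (PT.nd (nat_lit 78) (PT.lf (nat_lit 3192) (nat_lit 6) (nat_lit 42) (nat_lit 0) (nat_lit 129) (nat_lit 123) (nat_lit 108)) (PT.lf (nat_lit 2888) (nat_lit 6) (nat_lit 38) (nat_lit 0) (nat_lit 130) (nat_lit 123) (nat_lit 107)))))) (PT.nd (nat_lit 312) (PT.nd (nat_lit 156) (PT.nd (nat_lit 78) (PT.lf (nat_lit 2584) (nat_lit 6) (nat_lit 34) (nat_lit 5) (nat_lit 106) (nat_lit 124) (nat_lit 130)) (PT.lf (nat_lit 2964) (nat_lit 6) (nat_lit 39) (nat_lit 5) (nat_lit 107) (nat_lit 124) (nat_lit 129))) (PT.nd (nat_lit 78) (PT.lf (nat_lit 3268) (nat_lit 6) (nat_lit 43) (nat_lit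 5) (nat_lit 108) (nat_lit 124) (nat_lit 128)) (PT.lf (nat_lit 3648) (nat_lit 6) (nat_lit 48) (nat_lit 5) (nat_lit 109) (nat_lit 124) (nat_lit 127)))) (PT.nd (nat_lit 156) (PT.nd (nat_lit 78) (PT.lf (nat_lit 4028) (nat_lit 6) (nat_lit 53) (nat_lit 5) (nat_lit 110) (nat_lit 124) (nat_lit 126)) (PT.lf (nat_lit 4788) (nat_lit 6) (nat_lit 63) (nat_lit 5) (nat_lit 111) (nat_lit 124) (nat_lit 125))) (PT.nd (nat_lit 78) (PT.lf (nat_lit 5472) (nat_lit 3) (nat_lit 72) (nat_lit 4) (nat_lit 112) (nat_lit 124) (nat_lit 124)) (PT.nd (nat_lit 78) (PT.lf (nat_lit 6004) (nat_lit 6) (nat_lit 79) (nat_lit 4) (nat_lit 113) (nat_lit 124) (nat_lit 123)) (PT.lf (nat_lit 6460) (nat_lit 6) (nat_lit 85) (nat_lit 4) (nat_lit 114) (nat_lit 124) (nat_lit 122))))))))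
noncomputable def pc9 : PT := (PT.nd (nat_lit 36816) (PT.nd (nat_lit 624) (PT.nd (nat_lit 312) (PT.nd (nat_lit 156) (PT.nd (nat_lit 78) (PT.lf (nat_lit 6840) (nat_lit 6) (nat_lit 90) (nat_lit 4) (nat_lit 115) (nat_lit 124) (nat_lit 121)) (PT.lf (nat_lit 7144) (nat_lit 6) (nat_lit 94) (nat_lit 4) (nat_lit 116) (nat_lit 124) (nat_lit 120))) (PT.nd (nat_lit 78) (PT.lf (nat_lit 7068) (nat_lit 6) (nat_lit 93) (nat_lit 4) (nat_lit 117) (nat_lit 124) (nat_lit 119)) (PT.lf (nat_lit 6992) (nat_lit 3) (nat_lit 92) (nat_lit 2) (nat_lit 118) (nat_lit 124) (nat_lit 118)))) (PT.nd (nat_lit 156) (PT.nd (nat_lit 78) (PT.lf (nat_lit 7068) (nat_lit 6) (nat_lit 93) (nat_lit 2) (nat_lit 119) (nat_lit 124) (nat_lit 117)) (PT.lf (nat_lit 7144) (nat_lit 6) (nat_lit 94) (nat_lit 2) (nat_lit 120) (nat_lit 124) (nat_lit 116))) (PT.nd (nat_lit 78) (PT.lf (nat_lit 6840) (nat_lit 6) (nat_lit 90) (nat_lit 2) (nat_lit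 121) (nat_lit 124) (nat_lit 115)) (PT.lf (nat_lit 6460) (nat_lit 6) (nat_lit 85) (nat_lit 2) (nat_lit 122) (nat_lit 124) (nat_lit 114))))) (PT.nd (nat_lit 312) (PT.nd (nat_lit 156) (PT.nd (nat_lit 78) (PT.lf (nat_lit 6004) (nat_lit 6) (nat_lit 79) (nat_lit 2) (nat_lit 123) (nat_lit 124) (nat_lit 113)) (PT.lf (nat_lit 5472) (nat_lit 3) (nat_lit 72) (nat_lit 0) (nat_lit 124) (nat_lit 124) (nat_lit 112))) (PT.nd (nat_lit 78) (PT.lf (nat_lit 4788) (nat_lit 6) (nat_lit 63) (nat_lit 0) (nat_lit 125) (nat_lit 124) (nat_lit 111)) (PT.lf (nat_lit 4028) (nat_lit 6) (nat_lit 53) (nat_lit 0) (nat_lit 126) (nat_lit 124) (nat_lit 110)))) (PT.nd (nat_lit 156) (PT.nd (nat_lit 78) (PT.lf (nat_lit 3648) (nat_lit 6) (nat_lit 48) (nat_lit 0) (nat_lit 127) (nat_lit 124) (nat_lit 109)) (PT.lf (nat_lit 3268) (nat_lit 6) (nat_lit 43) (nat_lit 0) (nat_lit 128) (nat_lit 124) (nat_lit 108))) (PT.nd (nat_lit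 78) (PT.lf (nat_lit 2964) (nat_lit 6) (nat_lit 39) (nat_lit 0) (nat_lit 129) (nat_lit 124) (nat_lit 107)) (PT.nd (nat_lit 35568) (PT.lf (nat_lit 2584) (nat_lit 6) (nat_lit 34) (nat_lit 0) (nat_lit 130) (nat_lit 124) (nat_lit 106)) (PT.lf (nat_lit 2356) (nat_lit 6) (nat_lit 31) (nat_lit 5) (nat_lit 105) (nat_lit 125) (nat_lit 130))))))) (PT.nd (nat_lit 702) (PT.nd (nat_lit 312) (PT.nd (nat_lit 156) (PT.nd (nat_lit 78) (PT.lf (nat_lit 2660) (nat_lit 6) (nat_lit 35) (nat_lit 5) (nat_lit 106) (nat_lit 125) (nat_lit 129)) (PT.lf (nat_lit 3040) (nat_lit 6) (nat_lit 40) (nat_lit 5) (nat_lit 107) (nat_lit 125) (nat_lit 128))) (PT.nd (nat_lit 78) (PT.lf (nat_lit 3344) (nat_lit 6) (nat_lit 44) (nat_lit 5) (nat_lit 108) (nat_lit 125) (nat_lit 127)) (PT.lf (nat_lit 3724) (nat_lit 6) (nat_lit 49) (nat_lit 5) (nat_lit 109) (nat_lit 125) (nat_lit 126)))) (PT.nd (nat_lit 156) (PT.nd (nat_lit 78) (PT.lf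 (nat_lit 4104) (nat_lit 3) (nat_lit 54) (nat_lit 4) (nat_lit 110) (nat_lit 125) (nat_lit 125)) (PT.lf (nat_lit 4788) (nat_lit 6) (nat_lit 63) (nat_lit 4) (nat_lit 111) (nat_lit 125) (nat_lit 124))) (PT.nd (nat_lit 78) (PT.lf (nat_lit 5396) (nat_lit 6) (nat_lit 71) (nat_lit 4) (nat_lit 112) (nat_lit 125) (nat_lit 123)) (PT.nd (nat_lit 78) (PT.lf (nat_lit 5928) (nat_lit 6) (nat_lit 78) (nat_lit 4) (nat_lit 113) (nat_lit 125) (nat_lit 122)) (PT.lf (nat_lit 6384) (nat_lit 6) (nat_lit 84) (nat_lit 4) (nat_lit 114) (nat_lit 125) (nat_lit 121)))))) (PT.nd (nat_lit 312) (PT.nd (nat_lit 156) (PT.nd (nat_lit 78) (PT.lf (nat_lit 6764) (nat_lit 6) (nat_lit 89) (nat_lit 4) (nat_lit 115) (nat_lit 125) (nat_lit 120)) (PT.lf (nat_lit 6688) (nat_lit 6) (nat_lit 88) (nat_lit 4) (nat_lit 116) (nat_lit 125) (nat_lit 119))) (PT.nd (nat_lit 78) (PT.lf (nat_lit 6612) (nat_lit 6) (nat_lit 87) (nat_lit 4)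 (nat_lit 117) (nat_lit 125) (nat_lit 118)) (PT.lf (nat_lit 6612) (nat_lit 6) (nat_lit 87) (nat_lit 2) (nat_lit 118) (nat_lit 125) (nat_lit 117)))) (PT.nd (nat_lit 156) (PT.nd (nat_lit 78) (PT.lf (nat_lit 6688) (nat_lit 6) (nat_lit 88) (nat_lit 2) (nat_lit 119) (nat_lit 125) (nat_lit 116)) (PT.lf (nat_lit 6764) (nat_lit 6) (nat_lit 89) (nat_lit 2) (nat_lit 120) (nat_lit 125) (nat_lit 115))) (PT.nd (nat_lit 78) (PT.lf (nat_lit 6384) (nat_lit 6) (nat_lit 84) (nat_lit 2) (nat_lit 121) (nat_lit 125) (nat_lit 114)) (PT.nd (nat_lit 78) (PT.lf (nat_lit 5928) (nat_lit 6) (nat_lit 78) (nat_lit 2) (nat_lit 122) (nat_lit 125) (nat_lit 113)) (PT.lf (nat_lit 5396) (nat_lit 6) (nat_lit 71) (nat_lit 2) (nat_lit 123) (nat_lit 125) (nat_lit 112))))))))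
noncomputable def pc10 : PT := (PT.nd (nat_lit 36660) (PT.nd (nat_lit 35958) (PT.nd (nat_lit 312) (PT.nd (nat_lit 156) (PT.nd (nat_lit 78) (PT.lf (nat_lit 4788) (nat_lit 6) (nat_lit 63) (nat_lit 2) (nat_lit 124) (nat_lit 125) (nat_lit 111)) (PT.lf (nat_lit 4104) (nat_lit 3) (nat_lit 54) (nat_lit 0) (nat_lit 125) (nat_lit 125) (nat_lit 110))) (PT.nd (nat_lit 78) (PT.lf (nat_lit 3724) (nat_lit 6) (nat_lit 49) (nat_lit 0) (nat_lit 126) (nat_lit 125) (nat_lit 109)) (PT.lf (nat_lit 3344) (nat_lit 6) (nat_lit 44) (nat_lit 0) (nat_lit 127) (nat_lit 125) (nat_lit 108)))) (PT.nd (nat_lit 156) (PT.nd (nat_lit 78) (PT.lf (nat_lit 3040) (nat_lit 6) (nat_lit 40) (nat_lit 0) (nat_lit 128) (nat_lit 125) (nat_lit 107)) (PT.lf (nat_lit 2660) (nat_lit 6) (nat_lit 35) (nat_lit 0) (nat_lit 129) (nat_lit 125) (nat_lit 106))) (PT.nd (nat_lit 35412) (PT.lf (nat_lit 2356) (nat_lit 6) (nat_lit 31) (nat_lit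 0) (nat_lit 130) (nat_lit 125) (nat_lit 105)) (PT.lf (nat_lit 1900) (nat_lit 6) (nat_lit 25) (nat_lit 5) (nat_lit 103) (nat_lit 126) (nat_lit 131))))) (PT.nd (nat_lit 312) (PT.nd (nat_lit 156) (PT.nd (nat_lit 78) (PT.lf (nat_lit 2128) (nat_lit 6) (nat_lit 28) (nat_lit 5) (nat_lit 104) (nat_lit 126) (nat_lit 130)) (PT.lf (nat_lit 2432) (nat_lit 6) (nat_lit 32) (nat_lit 5) (nat_lit 105) (nat_lit 126) (nat_lit 129))) (PT.nd (nat_lit 78) (PT.lf (nat_lit 2736) (nat_lit 6) (nat_lit 36) (nat_lit 5) (nat_lit 106) (nat_lit 126) (nat_lit 128)) (PT.lf (nat_lit 3116) (nat_lit 6) (nat_lit 41) (nat_lit 5) (nat_lit 107) (nat_lit 126) (nat_lit 127)))) (PT.nd (nat_lit 156) (PT.nd (nat_lit 78) (PT.lf (nat_lit 3420) (nat_lit 3) (nat_lit 45) (nat_lit 4) (nat_lit 108) (nat_lit 126) (nat_lit 126)) (PT.lf (nat_lit 3724) (nat_lit 6) (nat_lit 49) (nat_lit 4) (nat_lit 109) (nat_lit 126) (nat_lit 125))) (PT.nd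 (nat_lit 78) (PT.lf (nat_lit 4028) (nat_lit 6) (nat_lit 53) (nat_lit 4) (nat_lit 110) (nat_lit 126) (nat_lit 124)) (PT.nd (nat_lit 78) (PT.lf (nat_lit 4712) (nat_lit 6) (nat_lit 62) (nat_lit 4) (nat_lit 111) (nat_lit 126) (nat_lit 123)) (PT.lf (nat_lit 5320) (nat_lit 6) (nat_lit 70) (nat_lit 4) (nat_lit 112) (nat_lit 126) (nat_lit 122))))))) (PT.nd (nat_lit 702) (PT.nd (nat_lit 312) (PT.nd (nat_lit 156) (PT.nd (nat_lit 78) (PT.lf (nat_lit 5852) (nat_lit 6) (nat_lit 77) (nat_lit 4) (nat_lit 113) (nat_lit 126) (nat_lit 121)) (PT.lf (nat_lit 6308) (nat_lit 6) (nat_lit 83) (nat_lit 4) (nat_lit 114) (nat_lit 126) (nat_lit 120))) (PT.nd (nat_lit 78) (PT.lf (nat_lit 6232) (nat_lit 6) (nat_lit 82) (nat_lit 4) (nat_lit 115) (nat_lit 126) (nat_lit 119)) (PT.lf (nat_lit 6156) (nat_lit 6) (nat_lit 81) (nat_lit 4) (nat_lit 116) (nat_lit 126) (nat_lit 118)))) (PT.nd (nat_lit 156) (PT.nd (nat_lit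 78) (PT.lf (nat_lit 6080) (nat_lit 3) (nat_lit 80) (nat_lit 2) (nat_lit 117) (nat_lit 126) (nat_lit 117)) (PT.lf (nat_lit 6156) (nat_lit 6) (nat_lit 81) (nat_lit 2) (nat_lit 118) (nat_lit 126) (nat_lit 116))) (PT.nd (nat_lit 78) (PT.lf (nat_lit 6232) (nat_lit 6) (nat_lit 82) (nat_lit 2) (nat_lit 119) (nat_lit 126) (nat_lit 115)) (PT.nd (nat_lit 78) (PT.lf (nat_lit 6308) (nat_lit 6) (nat_lit 83) (nat_lit 2) (nat_lit 120) (nat_lit 126) (nat_lit 114)) (PT.lf (nat_lit 5852) (nat_lit 6) (nat_lit 77) (nat_lit 2) (nat_lit 121) (nat_lit 126) (nat_lit 113)))))) (PT.nd (nat_lit 312) (PT.nd (nat_lit 156) (PT.nd (nat_lit 78) (PT.lf (nat_lit 5320) (nat_lit 6) (nat_lit 70) (nat_lit 2) (nat_lit 122) (nat_lit 126) (nat_lit 112)) (PT.lf (nat_lit 4712) (nat_lit 6) (nat_lit 62) (nat_lit 2) (nat_lit 123) (nat_lit 126) (nat_lit 111))) (PT.nd (nat_lit 78) (PT.lf (nat_lit 4028) (nat_lit 6) (nat_lit 53) (nat_lit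 2) (nat_lit 124) (nat_lit 126) (nat_lit 110)) (PT.lf (nat_lit 3724) (nat_lit 6) (nat_lit 49) (nat_lit 2) (nat_lit 125) (nat_lit 126) (nat_lit 109)))) (PT.nd (nat_lit 156) (PT.nd (nat_lit 78) (PT.lf (nat_lit 3420) (nat_lit 3) (nat_lit 45) (nat_lit 0) (nat_lit 126) (nat_lit 126) (nat_lit 108)) (PT.lf (nat_lit 3116) (nat_lit 6) (nat_lit 41) (nat_lit 0) (nat_lit 127) (nat_lit 126) (nat_lit 107))) (PT.nd (nat_lit 78) (PT.lf (nat_lit 2736) (nat_lit 6) (nat_lit 36) (nat_lit 0) (nat_lit 128) (nat_lit 126) (nat_lit 106)) (PT.nd (nat_lit 78) (PT.lf (nat_lit 2432) (nat_lit 6) (nat_lit 32) (nat_lit 0) (nat_lit 129) (nat_lit 126) (nat_lit 105)) (PT.lf (nat_lit 2128) (nat_lit 6) (nat_lit 28) (nat_lit 0) (nat_lit 130) (nat_lit 126) (nat_lit 104))))))))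
noncomputable def pc11 : PT := (PT.nd (nat_lit 36504) (PT.nd (nat_lit 35802) (PT.nd (nat_lit 35490) (PT.nd (nat_lit 35334) (PT.nd (nat_lit 35256) (PT.lf (nat_lit 1900) (nat_lit 6) (nat_lit 25) (nat_lit 0) (nat_lit 131) (nat_lit 126) (nat_lit 103)) (PT.lf (nat_lit 1672) (nat_lit 6) (nat_lit 22) (nat_lit 5) (nat_lit 102) (nat_lit 127) (nat_lit 131))) (PT.nd (nat_lit 78) (PT.lf (nat_lit 1976) (nat_lit 6) (nat_lit 26) (nat_lit 5) (nat_lit 103) (nat_lit 127) (nat_lit 130)) (PT.lf (nat_lit 2204) (nat_lit 6) (nat_lit 29) (nat_lit 5) (nat_lit 104) (nat_lit 127) (nat_lit 129)))) (PT.nd (nat_lit 156) (PT.nd (nat_lit 78) (PT.lf (nat_lit 2508) (nat_lit 6) (nat_lit 33) (nat_lit 5) (nat_lit 105) (nat_lit 127) (nat_lit 128)) (PT.lf (nat_lit 2812) (nat_lit 3) (nat_lit 37) (nat_lit 4) (nat_lit 106) (nat_lit 127) (nat_lit 127))) (PT.nd (nat_lit 78) (PT.lf (nat_lit 3116) (nat_lit 6) (nat_lit 41) (nat_lit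 4) (nat_lit 107) (nat_lit 127) (nat_lit 126)) (PT.lf (nat_lit 3344) (nat_lit 6) (nat_lit 44) (nat_lit 4) (nat_lit 108) (nat_lit 127) (nat_lit 125))))) (PT.nd (nat_lit 312) (PT.nd (nat_lit 156) (PT.nd (nat_lit 78) (PT.lf (nat_lit 3648) (nat_lit 6) (nat_lit 48) (nat_lit 4) (nat_lit 109) (nat_lit 127) (nat_lit 124)) (PT.lf (nat_lit 3952) (nat_lit 6) (nat_lit 52) (nat_lit 4) (nat_lit 110) (nat_lit 127) (nat_lit 123))) (PT.nd (nat_lit 78) (PT.lf (nat_lit 4636) (nat_lit 6) (nat_lit 61) (nat_lit 4) (nat_lit 111) (nat_lit 127) (nat_lit 122)) (PT.lf (nat_lit 5244) (nat_lit 6) (nat_lit 69) (nat_lit 4) (nat_lit 112) (nat_lit 127) (nat_lit 121)))) (PT.nd (nat_lit 156) (PT.nd (nat_lit 78) (PT.lf (nat_lit 5776) (nat_lit 6) (nat_lit 76) (nat_lit 4) (nat_lit 113) (nat_lit 127) (nat_lit 120)) (PT.lf (nat_lit 5700) (nat_lit 6) (nat_lit 75) (nat_lit 4) (nat_lit 114) (nat_lit 127) (nat_lit 119))) (PT.nd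 (nat_lit 78) (PT.lf (nat_lit 5624) (nat_lit 6) (nat_lit 74) (nat_lit 4) (nat_lit 115) (nat_lit 127) (nat_lit 118)) (PT.nd (nat_lit 78) (PT.lf (nat_lit 5548) (nat_lit 6) (nat_lit 73) (nat_lit 4) (nat_lit 116) (nat_lit 127) (nat_lit 117)) (PT.lf (nat_lit 5548) (nat_lit 6) (nat_lit 73) (nat_lit 2) (nat_lit 117) (nat_lit 127) (nat_lit 116))))))) (PT.nd (nat_lit 702) (PT.nd (nat_lit 312) (PT.nd (nat_lit 156) (PT.nd (nat_lit 78) (PT.lf (nat_lit 5624) (nat_lit 6) (nat_lit 74) (nat_lit 2) (nat_lit 118) (nat_lit 127) (nat_lit 115)) (PT.lf (nat_lit 5700) (nat_lit 6) (nat_lit 75) (nat_lit 2) (nat_lit 119) (nat_lit 127) (nat_lit 114))) (PT.nd (nat_lit 78) (PT.lf (nat_lit 5776) (nat_lit 6) (nat_lit 76) (nat_lit 2) (nat_lit 120) (nat_lit 127) (nat_lit 113)) (PT.lf (nat_lit 5244) (nat_lit 6) (nat_lit 69) (nat_lit 2) (nat_lit 121) (nat_lit 127) (nat_lit 112)))) (PT.nd (nat_lit 156) (PT.nd (nat_lit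 78) (PT.lf (nat_lit 4636) (nat_lit 6) (nat_lit 61) (nat_lit 2) (nat_lit 122) (nat_lit 127) (nat_lit 111)) (PT.lf (nat_lit 3952) (nat_lit 6) (nat_lit 52) (nat_lit 2) (nat_lit 123) (nat_lit 127) (nat_lit 110))) (PT.nd (nat_lit 78) (PT.lf (nat_lit 3648) (nat_lit 6) (nat_lit 48) (nat_lit 2) (nat_lit 124) (nat_lit 127) (nat_lit 109)) (PT.nd (nat_lit 78) (PT.lf (nat_lit 3344) (nat_lit 6) (nat_lit 44) (nat_lit 2) (nat_lit 125) (nat_lit 127) (nat_lit 108)) (PT.lf (nat_lit 3116) (nat_lit 6) (nat_lit 41) (nat_lit 2) (nat_lit 126) (nat_lit 127) (nat_lit 107)))))) (PT.nd (nat_lit 312) (PT.nd (nat_lit 156) (PT.nd (nat_lit 78) (PT.lf (nat_lit 2812) (nat_lit 3) (nat_lit 37) (nat_lit 0) (nat_lit 127) (nat_lit 127) (nat_lit 106)) (PT.lf (nat_lit 2508) (nat_lit 6) (nat_lit 33) (nat_lit 0) (nat_lit 128) (nat_lit 127) (nat_lit 105))) (PT.nd (nat_lit 78) (PT.lf (nat_lit 2204) (nat_lit 6) (nat_lit 29) (nat_lit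 0) (nat_lit 129) (nat_lit 127) (nat_lit 104)) (PT.lf (nat_lit 1976) (nat_lit 6) (nat_lit 26) (nat_lit 0) (nat_lit 130) (nat_lit 127) (nat_lit 103)))) (PT.nd (nat_lit 35178) (PT.nd (nat_lit 35100) (PT.lf (nat_lit 1672) (nat_lit 6) (nat_lit 22) (nat_lit 0) (nat_lit 131) (nat_lit 127) (nat_lit 102)) (PT.lf (nat_lit 1292) (nat_lit 6) (nat_lit 17) (nat_lit 5) (nat_lit 100) (nat_lit 128) (nat_lit 132))) (PT.nd (nat_lit 78) (PT.lf (nat_lit 1520) (nat_lit 6) (nat_lit 20) (nat_lit 5) (nat_lit 101) (nat_lit 128) (nat_lit 131)) (PT.nd (nat_lit 78) (PT.lf (nat_lit 1748) (nat_lit 6) (nat_lit 23) (nat_lit 5) (nat_lit 102) (nat_lit 128) (nat_lit 130)) (PT.lf (nat_lit 2052) (nat_lit 6) (nat_lit 27) (nat_lit 5) (nat_lit 103) (nat_lit 128) (nat_lit 129))))))))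
noncomputable def pc12 : PT := (PT.nd (nat_lit 1326) (PT.nd (nat_lit 624) (PT.nd (nat_lit 312) (PT.nd (nat_lit 156) (PT.nd (nat_lit 78) (PT.lf (nat_lit 2280) (nat_lit 3) (nat_lit 30) (nat_lit 4) (nat_lit 104) (nat_lit 128) (nat_lit 128)) (PT.lf (nat_lit 2508) (nat_lit 6) (nat_lit 33) (nat_lit 4) (nat_lit 105) (nat_lit 128) (nat_lit 127))) (PT.nd (nat_lit 78) (PT.lf (nat_lit 2736) (nat_lit 6) (nat_lit 36) (nat_lit 4) (nat_lit 106) (nat_lit 128) (nat_lit 126)) (PT.lf (nat_lit 3040) (nat_lit 6) (nat_lit 40) (nat_lit 4) (nat_lit 107) (nat_lit 128) (nat_lit 125)))) (PT.nd (nat_lit 156) (PT.nd (nat_lit 78) (PT.lf (nat_lit 3268) (nat_lit 6) (nat_lit 43) (nat_lit 4) (nat_lit 108) (nat_lit 128) (nat_lit 124)) (PT.lf (nat_lit 3572) (nat_lit 6) (nat_lit 47) (nat_lit 4) (nat_lit 109) (nat_lit 128) (nat_lit 123))) (PT.nd (nat_lit 78) (PT.lf (nat_lit 3876) (nat_lit 6) (nat_lit 51) (nat_lit 4) (nat_lit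 110) (nat_lit 128) (nat_lit 122)) (PT.lf (nat_lit 4560) (nat_lit 6) (nat_lit 60) (nat_lit 4) (nat_lit 111) (nat_lit 128) (nat_lit 121))))) (PT.nd (nat_lit 312) (PT.nd (nat_lit 156) (PT.nd (nat_lit 78) (PT.lf (nat_lit 5168) (nat_lit 6) (nat_lit 68) (nat_lit 4) (nat_lit 112) (nat_lit 128) (nat_lit 120)) (PT.lf (nat_lit 5092) (nat_lit 6) (nat_lit 67) (nat_lit 4) (nat_lit 113) (nat_lit 128) (nat_lit 119))) (PT.nd (nat_lit 78) (PT.lf (nat_lit 5016) (nat_lit 6) (nat_lit 66) (nat_lit 4) (nat_lit 114) (nat_lit 128) (nat_lit 118)) (PT.lf (nat_lit 4940) (nat_lit 6) (nat_lit 65) (nat_lit 4) (nat_lit 115) (nat_lit 128) (nat_lit 117)))) (PT.nd (nat_lit 156) (PT.nd (nat_lit 78) (PT.lf (nat_lit 4864) (nat_lit 3) (nat_lit 64) (nat_lit 2) (nat_lit 116) (nat_lit 128) (nat_lit 116)) (PT.lf (nat_lit 4940) (nat_lit 6) (nat_lit 65) (nat_lit 2) (nat_lit 117) (nat_lit 128) (nat_lit 115))) (PT.nd (nat_lit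 78) (PT.lf (nat_lit 5016) (nat_lit 6) (nat_lit 66) (nat_lit 2) (nat_lit 118) (nat_lit 128) (nat_lit 114)) (PT.nd (nat_lit 78) (PT.lf (nat_lit 5092) (nat_lit 6) (nat_lit 67) (nat_lit 2) (nat_lit 119) (nat_lit 128) (nat_lit 113)) (PT.lf (nat_lit 5168) (nat_lit 6) (nat_lit 68) (nat_lit 2) (nat_lit 120) (nat_lit 128) (nat_lit 112))))))) (PT.nd (nat_lit 702) (PT.nd (nat_lit 312) (PT.nd (nat_lit 156) (PT.nd (nat_lit 78) (PT.lf (nat_lit 4560) (nat_lit 6) (nat_lit 60) (nat_lit 2) (nat_lit 121) (nat_lit 128) (nat_lit 111)) (PT.lf (nat_lit 3876) (nat_lit 6) (nat_lit 51) (nat_lit 2) (nat_lit 122) (nat_lit 128) (nat_lit 110))) (PT.nd (nat_lit 78) (PT.lf (nat_lit 3572) (nat_lit 6) (nat_lit 47) (nat_lit 2) (nat_lit 123) (nat_lit 128) (nat_lit 109)) (PT.lf (nat_lit 3268) (nat_lit 6) (nat_lit 43) (nat_lit 2) (nat_lit 124) (nat_lit 128) (nat_lit 108)))) (PT.nd (nat_lit 156) (PT.nd (nat_lit 78) (PT.lf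 (nat_lit 3040) (nat_lit 6) (nat_lit 40) (nat_lit 2) (nat_lit 125) (nat_lit 128) (nat_lit 107)) (PT.lf (nat_lit 2736) (nat_lit 6) (nat_lit 36) (nat_lit 2) (nat_lit 126) (nat_lit 128) (nat_lit 106))) (PT.nd (nat_lit 78) (PT.lf (nat_lit 2508) (nat_lit 6) (nat_lit 33) (nat_lit 2) (nat_lit 127) (nat_lit 128) (nat_lit 105)) (PT.nd (nat_lit 78) (PT.lf (nat_lit 2280) (nat_lit 3) (nat_lit 30) (nat_lit 0) (nat_lit 128) (nat_lit 128) (nat_lit 104)) (PT.lf (nat_lit 2052) (nat_lit 6) (nat_lit 27) (nat_lit 0) (nat_lit 129) (nat_lit 128) (nat_lit 103)))))) (PT.nd (nat_lit 35178) (PT.nd (nat_lit 156) (PT.nd (nat_lit 78) (PT.lf (nat_lit 1748) (nat_lit 6) (nat_lit 23) (nat_lit 0) (nat_lit 130) (nat_lit 128) (nat_lit 102)) (PT.lf (nat_lit 1520) (nat_lit 6) (nat_lit 20) (nat_lit 0) (nat_lit 131) (nat_lit 128) (nat_lit 101))) (PT.nd (nat_lit 34944) (PT.lf (nat_lit 1292) (nat_lit 6) (nat_lit 17) (nat_lit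 0) (nat_lit 132) (nat_lit 128) (nat_lit 100)) (PT.lf (nat_lit 1140) (nat_lit 6) (nat_lit 15) (nat_lit 5) (nat_lit 99) (nat_lit 129) (nat_lit 132)))) (PT.nd (nat_lit 156) (PT.nd (nat_lit 78) (PT.lf (nat_lit 1368) (nat_lit 6) (nat_lit 18) (nat_lit 5) (nat_lit 100) (nat_lit 129) (nat_lit 131)) (PT.lf (nat_lit 1596) (nat_lit 6) (nat_lit 21) (nat_lit 5) (nat_lit 101) (nat_lit 129) (nat_lit 130))) (PT.nd (nat_lit 78) (PT.lf (nat_lit 1824) (nat_lit 3) (nat_lit 24) (nat_lit 4) (nat_lit 102) (nat_lit 129) (nat_lit 129)) (PT.nd (nat_lit 78) (PT.lf (nat_lit 2052) (nat_lit 6) (nat_lit 27) (nat_lit 4) (nat_lit 103) (nat_lit 129) (nat_lit 128)) (PT.lf (nat_lit 2204) (nat_lit 6) (nat_lit 29) (nat_lit 4) (nat_lit 104) (nat_lit 129) (nat_lit 127))))))))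
noncomputable def pc13 : PT := (PT.nd (nat_lit 1326) (PT.nd (nat_lit 624) (PT.nd (nat_lit 312) (PT.nd (nat_lit 156) (PT.nd (nat_lit 78) (PT.lf (nat_lit 2432) (nat_lit 6) (nat_lit 32) (nat_lit 4) (nat_lit 105) (nat_lit 129) (nat_lit 126)) (PT.lf (nat_lit 2660) (nat_lit 6) (nat_lit 35) (nat_lit 4) (nat_lit 106) (nat_lit 129) (nat_lit 125))) (PT.nd (nat_lit 78) (PT.lf (nat_lit 2964) (nat_lit 6) (nat_lit 39) (nat_lit 4) (nat_lit 107) (nat_lit 129) (nat_lit 124)) (PT.lf (nat_lit 3192) (nat_lit 6) (nat_lit 42) (nat_lit 4) (nat_lit 108) (nat_lit 129) (nat_lit 123)))) (PT.nd (nat_lit 156) (PT.nd (nat_lit 78) (PT.lf (nat_lit 3496) (nat_lit 6) (nat_lit 46) (nat_lit 4) (nat_lit 109) (nat_lit 129) (nat_lit 122)) (PT.lf (nat_lit 3800) (nat_lit 6) (nat_lit 50) (nat_lit 4) (nat_lit 110) (nat_lit 129) (nat_lit 121))) (PT.nd (nat_lit 78) (PT.lf (nat_lit 4484) (nat_lit 6) (nat_lit 59) (nat_lit 4) (nat_lit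 111) (nat_lit 129) (nat_lit 120)) (PT.lf (nat_lit 4408) (nat_lit 6) (nat_lit 58) (nat_lit 4) (nat_lit 112) (nat_lit 129) (nat_lit 119))))) (PT.nd (nat_lit 312) (PT.nd (nat_lit 156) (PT.nd (nat_lit 78) (PT.lf (nat_lit 4332) (nat_lit 6) (nat_lit 57) (nat_lit 4) (nat_lit 113) (nat_lit 129) (nat_lit 118)) (PT.lf (nat_lit 4256) (nat_lit 6) (nat_lit 56) (nat_lit 4) (nat_lit 114) (nat_lit 129) (nat_lit 117))) (PT.nd (nat_lit 78) (PT.lf (nat_lit 4180) (nat_lit 6) (nat_lit 55) (nat_lit 4) (nat_lit 115) (nat_lit 129) (nat_lit 116)) (PT.lf (nat_lit 4180) (nat_lit 6) (nat_lit 55) (nat_lit 2) (nat_lit 116) (nat_lit 129) (nat_lit 115)))) (PT.nd (nat_lit 156) (PT.nd (nat_lit 78) (PT.lf (nat_lit 4256) (nat_lit 6) (nat_lit 56) (nat_lit 2) (nat_lit 117) (nat_lit 129) (nat_lit 114)) (PT.lf (nat_lit 4332) (nat_lit 6) (nat_lit 57) (nat_lit 2) (nat_lit 118) (nat_lit 129) (nat_lit 113))) (PT.nd (nat_lit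 78) (PT.lf (nat_lit 4408) (nat_lit 6) (nat_lit 58) (nat_lit 2) (nat_lit 119) (nat_lit 129) (nat_lit 112)) (PT.nd (nat_lit 78) (PT.lf (nat_lit 4484) (nat_lit 6) (nat_lit 59) (nat_lit 2) (nat_lit 120) (nat_lit 129) (nat_lit 111)) (PT.lf (nat_lit 3800) (nat_lit 6) (nat_lit 50) (nat_lit 2) (nat_lit 121) (nat_lit 129) (nat_lit 110))))))) (PT.nd (nat_lit 702) (PT.nd (nat_lit 312) (PT.nd (nat_lit 156) (PT.nd (nat_lit 78) (PT.lf (nat_lit 3496) (nat_lit 6) (nat_lit 46) (nat_lit 2) (nat_lit 122) (nat_lit 129) (nat_lit 109)) (PT.lf (nat_lit 3192) (nat_lit 6) (nat_lit 42) (nat_lit 2) (nat_lit 123) (nat_lit 129) (nat_lit 108))) (PT.nd (nat_lit 78) (PT.lf (nat_lit 2964) (nat_lit 6) (nat_lit 39) (nat_lit 2) (nat_lit 124) (nat_lit 129) (nat_lit 107)) (PT.lf (nat_lit 2660) (nat_lit 6) (nat_lit 35) (nat_lit 2) (nat_lit 125) (nat_lit 129) (nat_lit 106)))) (PT.nd (nat_lit 156) (PT.nd (nat_lit 78) (PT.lf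 (nat_lit 2432) (nat_lit 6) (nat_lit 32) (nat_lit 2) (nat_lit 126) (nat_lit 129) (nat_lit 105)) (PT.lf (nat_lit 2204) (nat_lit 6) (nat_lit 29) (nat_lit 2) (nat_lit 127) (nat_lit 129) (nat_lit 104))) (PT.nd (nat_lit 78) (PT.lf (nat_lit 2052) (nat_lit 6) (nat_lit 27) (nat_lit 2) (nat_lit 128) (nat_lit 129) (nat_lit 103)) (PT.nd (nat_lit 78) (PT.lf (nat_lit 1824) (nat_lit 3) (nat_lit 24) (nat_lit 0) (nat_lit 129) (nat_lit 129) (nat_lit 102)) (PT.lf (nat_lit 1596) (nat_lit 6) (nat_lit 21) (nat_lit 0) (nat_lit 130) (nat_lit 129) (nat_lit 101)))))) (PT.nd (nat_lit 35022) (PT.nd (nat_lit 34866) (PT.nd (nat_lit 78) (PT.lf (nat_lit 1368) (nat_lit 6) (nat_lit 18) (nat_lit 0) (nat_lit 131) (nat_lit 129) (nat_lit 100)) (PT.lf (nat_lit 1140) (nat_lit 6) (nat_lit 15) (nat_lit 0) (nat_lit 132) (nat_lit 129) (nat_lit 99))) (PT.nd (nat_lit 78) (PT.lf (nat_lit 836) (nat_lit 6) (nat_lit 11) (nat_lit 5)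 (nat_lit 97) (nat_lit 130) (nat_lit 133)) (PT.lf (nat_lit 988) (nat_lit 6) (nat_lit 13) (nat_lit 5) (nat_lit 98) (nat_lit 130) (nat_lit 132)))) (PT.nd (nat_lit 156) (PT.nd (nat_lit 78) (PT.lf (nat_lit 1216) (nat_lit 6) (nat_lit 16) (nat_lit 5) (nat_lit 99) (nat_lit 130) (nat_lit 131)) (PT.lf (nat_lit 1444) (nat_lit 3) (nat_lit 19) (nat_lit 4) (nat_lit 100) (nat_lit 130) (nat_lit 130))) (PT.nd (nat_lit 78) (PT.lf (nat_lit 1596) (nat_lit 6) (nat_lit 21) (nat_lit 4) (nat_lit 101) (nat_lit 130) (nat_lit 129)) (PT.nd (nat_lit 78) (PT.lf (nat_lit 1748) (nat_lit 6) (nat_lit 23) (nat_lit 4) (nat_lit 102) (nat_lit 130) (nat_lit 128)) (PT.lf (nat_lit 1976) (nat_lit 6) (nat_lit 26) (nat_lit 4) (nat_lit 103) (nat_lit 130) (nat_lit 127))))))))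
noncomputable def pc14 : PT := (PT.nd (nat_lit 37050) (PT.nd (nat_lit 1794) (PT.nd (nat_lit 1482) (PT.nd (nat_lit 156) (PT.nd (nat_lit 78) (PT.lf (nat_lit 2128) (nat_lit 6) (nat_lit 28) (nat_lit 4) (nat_lit 104) (nat_lit 130) (nat_lit 126)) (PT.lf (nat_lit 2356) (nat_lit 6) (nat_lit 31) (nat_lit 4) (nat_lit 105) (nat_lit 130) (nat_lit 125))) (PT.nd (nat_lit 78) (PT.lf (nat_lit 2584) (nat_lit 6) (nat_lit 34) (nat_lit 4) (nat_lit 106) (nat_lit 130) (nat_lit 124)) (PT.lf (nat_lit 2888) (nat_lit 6) (nat_lit 38) (nat_lit 4) (nat_lit 107) (nat_lit 130) (nat_lit 123)))) (PT.nd (nat_lit 156) (PT.nd (nat_lit 78) (PT.lf (nat_lit 2888) (nat_lit 6) (nat_lit 38) (nat_lit 2) (nat_lit 123) (nat_lit 130) (nat_lit 107)) (PT.lf (nat_lit 2584) (nat_lit 6) (nat_lit 34) (nat_lit 2) (nat_lit 124) (nat_lit 130) (nat_lit 106))) (PT.nd (nat_lit 78) (PT.lf (nat_lit 2356) (nat_lit 6) (nat_lit 31) (nat_lit 2)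 (nat_lit 125) (nat_lit 130) (nat_lit 105)) (PT.lf (nat_lit 2128) (nat_lit 6) (nat_lit 28) (nat_lit 2) (nat_lit 126) (nat_lit 130) (nat_lit 104))))) (PT.nd (nat_lit 312) (PT.nd (nat_lit 156) (PT.nd (nat_lit 78) (PT.lf (nat_lit 1976) (nat_lit 6) (nat_lit 26) (nat_lit 2) (nat_lit 127) (nat_lit 130) (nat_lit 103)) (PT.lf (nat_lit 1748) (nat_lit 6) (nat_lit 23) (nat_lit 2) (nat_lit 128) (nat_lit 130) (nat_lit 102))) (PT.nd (nat_lit 78) (PT.lf (nat_lit 1596) (nat_lit 6) (nat_lit 21) (nat_lit 2) (nat_lit 129) (nat_lit 130) (nat_lit 101)) (PT.lf (nat_lit 1444) (nat_lit 3) (nat_lit 19) (nat_lit 0) (nat_lit 130) (nat_lit 130) (nat_lit 100)))) (PT.nd (nat_lit 156) (PT.nd (nat_lit 78) (PT.lf (nat_lit 1216) (nat_lit 6) (nat_lit 16) (nat_lit 0) (nat_lit 131) (nat_lit 130) (nat_lit 99)) (PT.lf (nat_lit 988) (nat_lit 6) (nat_lit 13) (nat_lit 0) (nat_lit 132) (nat_lit 130) (nat_lit 98))) (PT.nd (nat_lit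 34632) (PT.lf (nat_lit 836) (nat_lit 6) (nat_lit 11) (nat_lit 0) (nat_lit 133) (nat_lit 130) (nat_lit 97)) (PT.nd (nat_lit 78) (PT.lf (nat_lit 684) (nat_lit 6) (nat_lit 9) (nat_lit 5) (nat_lit 96) (nat_lit 131) (nat_lit 133)) (PT.lf (nat_lit 912) (nat_lit 6) (nat_lit 12) (nat_lit 5) (nat_lit 97) (nat_lit 131) (nat_lit 132))))))) (PT.nd (nat_lit 2418) (PT.nd (nat_lit 312) (PT.nd (nat_lit 156) (PT.nd (nat_lit 78) (PT.lf (nat_lit 1064) (nat_lit 3) (nat_lit 14) (nat_lit 4) (nat_lit 98) (nat_lit 131) (nat_lit 131)) (PT.lf (nat_lit 1216) (nat_lit 6) (nat_lit 16) (nat_lit 4) (nat_lit 99) (nat_lit 131) (nat_lit 130))) (PT.nd (nat_lit 78) (PT.lf (nat_lit 1368) (nat_lit 6) (nat_lit 18) (nat_lit 4) (nat_lit 100) (nat_lit 131) (nat_lit 129)) (PT.lf (nat_lit 1520) (nat_lit 6) (nat_lit 20) (nat_lit 4) (nat_lit 101) (nat_lit 131) (nat_lit 128)))) (PT.nd (nat_lit 1872) (PT.nd (nat_lit 78) (PT.lf (nat_lit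 1672) (nat_lit 6) (nat_lit 22) (nat_lit 4) (nat_lit 102) (nat_lit 131) (nat_lit 127)) (PT.lf (nat_lit 1900) (nat_lit 6) (nat_lit 25) (nat_lit 4) (nat_lit 103) (nat_lit 131) (nat_lit 126))) (PT.nd (nat_lit 78) (PT.lf (nat_lit 1900) (nat_lit 6) (nat_lit 25) (nat_lit 2) (nat_lit 126) (nat_lit 131) (nat_lit 103)) (PT.nd (nat_lit 78) (PT.lf (nat_lit 1672) (nat_lit 6) (nat_lit 22) (nat_lit 2) (nat_lit 127) (nat_lit 131) (nat_lit 102)) (PT.lf (nat_lit 1520) (nat_lit 6) (nat_lit 20) (nat_lit 2) (nat_lit 128) (nat_lit 131) (nat_lit 101)))))) (PT.nd (nat_lit 312) (PT.nd (nat_lit 156) (PT.nd (nat_lit 78) (PT.lf (nat_lit 1368) (nat_lit 6) (nat_lit 18) (nat_lit 2) (nat_lit 129) (nat_lit 131) (nat_lit 100)) (PT.lf (nat_lit 1216) (nat_lit 6) (nat_lit 16) (nat_lit 2) (nat_lit 130) (nat_lit 131) (nat_lit 99))) (PT.nd (nat_lit 78) (PT.lf (nat_lit 1064) (nat_lit 3) (nat_lit 14) (nat_lit 0) (nat_lit 131)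 (nat_lit 131) (nat_lit 98)) (PT.lf (nat_lit 912) (nat_lit 6) (nat_lit 12) (nat_lit 0) (nat_lit 132) (nat_lit 131) (nat_lit 97)))) (PT.nd (nat_lit 34554) (PT.nd (nat_lit 34476) (PT.lf (nat_lit 684) (nat_lit 6) (nat_lit 9) (nat_lit 0) (nat_lit 133) (nat_lit 131) (nat_lit 96)) (PT.lf (nat_lit 456) (nat_lit 6) (nat_lit 6) (nat_lit 5) (nat_lit 94) (nat_lit 132) (nat_lit 134))) (PT.nd (nat_lit 78) (PT.lf (nat_lit 608) (nat_lit 6) (nat_lit 8) (nat_lit 5) (nat_lit 95) (nat_lit 132) (nat_lit 133)) (PT.nd (nat_lit 78) (PT.lf (nat_lit 760) (nat_lit 3) (nat_lit 10) (nat_lit 4) (nat_lit 96) (nat_lit 132) (nat_lit 132)) (PT.lf (nat_lit 912) (nat_lit 6) (nat_lit 12) (nat_lit 4) (nat_lit 97) (nat_lit 132) (nat_lit 131))))))))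
noncomputable def pc15 : PT := (PT.nd (nat_lit 40170) (PT.nd (nat_lit 2808) (PT.nd (nat_lit 2418) (PT.nd (nat_lit 156) (PT.nd (nat_lit 78) (PT.lf (nat_lit 988) (nat_lit 6) (nat_lit 13) (nat_lit 4) (nat_lit 98) (nat_lit 132) (nat_lit 130)) (PT.lf (nat_lit 1140) (nat_lit 6) (nat_lit 15) (nat_lit 4) (nat_lit 99) (nat_lit 132) (nat_lit 129))) (PT.nd (nat_lit 2184) (PT.lf (nat_lit 1292) (nat_lit 6) (nat_lit 17) (nat_lit 4) (nat_lit 100) (nat_lit 132) (nat_lit 128)) (PT.lf (nat_lit 1292) (nat_lit 6) (nat_lit 17) (nat_lit 2) (nat_lit 128) (nat_lit 132) (nat_lit 100)))) (PT.nd (nat_lit 156) (PT.nd (nat_lit 78) (PT.lf (nat_lit 1140) (nat_lit 6) (nat_lit 15) (nat_lit 2) (nat_lit 129) (nat_lit 132) (nat_lit 99)) (PT.lf (nat_lit 988) (nat_lit 6) (nat_lit 13) (nat_lit 2) (nat_lit 130) (nat_lit 132) (nat_lit 98))) (PT.nd (nat_lit 78) (PT.lf (nat_lit 912) (nat_lit 6) (nat_lit 12) (nat_lit 2) (nat_lit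 131) (nat_lit 132) (nat_lit 97)) (PT.nd (nat_lit 78) (PT.lf (nat_lit 760) (nat_lit 3) (nat_lit 10) (nat_lit 0) (nat_lit 132) (nat_lit 132) (nat_lit 96)) (PT.lf (nat_lit 608) (nat_lit 6) (nat_lit 8) (nat_lit 0) (nat_lit 133) (nat_lit 132) (nat_lit 95)))))) (PT.nd (nat_lit 34476) (PT.nd (nat_lit 34320) (PT.nd (nat_lit 34242) (PT.lf (nat_lit 456) (nat_lit 6) (nat_lit 6) (nat_lit 0) (nat_lit 134) (nat_lit 132) (nat_lit 94)) (PT.lf (nat_lit 228) (nat_lit 6) (nat_lit 3) (nat_lit 5) (nat_lit 92) (nat_lit 133) (nat_lit 135))) (PT.nd (nat_lit 78) (PT.lf (nat_lit 380) (nat_lit 6) (nat_lit 5) (nat_lit 5) (nat_lit 93) (nat_lit 133) (nat_lit 134)) (PT.lf (nat_lit 532) (nat_lit 3) (nat_lit 7) (nat_lit 4) (nat_lit 94) (nat_lit 133) (nat_lit 133)))) (PT.nd (nat_lit 156) (PT.nd (nat_lit 78) (PT.lf (nat_lit 608) (nat_lit 6) (nat_lit 8) (nat_lit 4) (nat_lit 95) (nat_lit 133) (nat_lit 132)) (PT.lf (nat_lit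 684) (nat_lit 6) (nat_lit 9) (nat_lit 4) (nat_lit 96) (nat_lit 133) (nat_lit 131))) (PT.nd (nat_lit 2574) (PT.lf (nat_lit 836) (nat_lit 6) (nat_lit 11) (nat_lit 4) (nat_lit 97) (nat_lit 133) (nat_lit 130)) (PT.nd (nat_lit 78) (PT.lf (nat_lit 836) (nat_lit 6) (nat_lit 11) (nat_lit 2) (nat_lit 130) (nat_lit 133) (nat_lit 97)) (PT.lf (nat_lit 684) (nat_lit 6) (nat_lit 9) (nat_lit 2) (nat_lit 131) (nat_lit 133) (nat_lit 96))))))) (PT.nd (nat_lit 37596) (PT.nd (nat_lit 34320) (PT.nd (nat_lit 156) (PT.nd (nat_lit 78) (PT.lf (nat_lit 608) (nat_lit 6) (nat_lit 8) (nat_lit 2) (nat_lit 132) (nat_lit 133) (nat_lit 95)) (PT.lf (nat_lit 532) (nat_lit 3) (nat_lit 7) (nat_lit 0) (nat_lit 133) (nat_lit 133) (nat_lit 94))) (PT.nd (nat_lit 78) (PT.lf (nat_lit 380) (nat_lit 6) (nat_lit 5) (nat_lit 0) (nat_lit 134) (nat_lit 133) (nat_lit 93)) (PT.lf (nat_lit 228) (nat_lit 6) (nat_lit 3) (nat_lit 0) (nat_lit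 135) (nat_lit 133) (nat_lit 92)))) (PT.nd (nat_lit 156) (PT.nd (nat_lit 78) (PT.lf (nat_lit 152) (nat_lit 6) (nat_lit 2) (nat_lit 5) (nat_lit 91) (nat_lit 134) (nat_lit 135)) (PT.lf (nat_lit 304) (nat_lit 3) (nat_lit 4) (nat_lit 4) (nat_lit 92) (nat_lit 134) (nat_lit 134))) (PT.nd (nat_lit 78) (PT.lf (nat_lit 380) (nat_lit 6) (nat_lit 5) (nat_lit 4) (nat_lit 93) (nat_lit 134) (nat_lit 133)) (PT.nd (nat_lit 2964) (PT.lf (nat_lit 456) (nat_lit 6) (nat_lit 6) (nat_lit 4) (nat_lit 94) (nat_lit 134) (nat_lit 132)) (PT.lf (nat_lit 456) (nat_lit 6) (nat_lit 6) (nat_lit 2) (nat_lit 132) (nat_lit 134) (nat_lit 94)))))) (PT.nd (nat_lit 34242) (PT.nd (nat_lit 156) (PT.nd (nat_lit 78) (PT.lf (nat_lit 380) (nat_lit 6) (nat_lit 5) (nat_lit 2) (nat_lit 133) (nat_lit 134) (nat_lit 93)) (PT.lf (nat_lit 304) (nat_lit 3) (nat_lit 4) (nat_lit 0) (nat_lit 134) (nat_lit 134) (nat_lit 92))) (PT.nd (nat_lit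 34008) (PT.lf (nat_lit 152) (nat_lit 6) (nat_lit 2) (nat_lit 0) (nat_lit 135) (nat_lit 134) (nat_lit 91)) (PT.lf (nat_lit 76) (nat_lit 3) (nat_lit 1) (nat_lit 4) (nat_lit 90) (nat_lit 135) (nat_lit 135)))) (PT.nd (nat_lit 3276) (PT.nd (nat_lit 78) (PT.lf (nat_lit 152) (nat_lit 6) (nat_lit 2) (nat_lit 4) (nat_lit 91) (nat_lit 135) (nat_lit 134)) (PT.lf (nat_lit 228) (nat_lit 6) (nat_lit 3) (nat_lit 4) (nat_lit 92) (nat_lit 135) (nat_lit 133))) (PT.nd (nat_lit 78) (PT.lf (nat_lit 228) (nat_lit 6) (nat_lit 3) (nat_lit 2) (nat_lit 133) (nat_lit 135) (nat_lit 92)) (PT.nd (nat_lit 78) (PT.lf (nat_lit 152) (nat_lit 6) (nat_lit 2) (nat_lit 2) (nat_lit 134) (nat_lit 135) (nat_lit 91)) (PT.lf (nat_lit 76) (nat_lit 3) (nat_lit 1) (nat_lit 0) (nat_lit 135) (nat_lit 135) (nat_lit 90))))))))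
noncomputable def xc0 : XT := (XT.nd (nat_lit 112398) (nat_lit 0) (nat_lit 0) (XT.nd (nat_lit 74880) (nat_lit 0) (nat_lit 0) (XT.nd (nat_lit 37518) (nat_lit 0) (nat_lit 0) (XT.nd (nat_lit 37362) (nat_lit 0) (nat_lit 0) (XT.nd (nat_lit 37284) (nat_lit 0) (nat_lit 0) (XT.lf (nat_lit 0) (nat_lit 479141913448) (nat_lit 76) (nat_lit 58118187382) (nat_lit 76) (nat_lit 58051826266) (nat_lit 1) (nat_lit 4) (nat_lit 2) (nat_lit 5) (nat_lit 2) (nat_lit 4) (nat_lit 363) (nat_lit 179) (nat_lit 178)) (XT.lf (nat_lit 0) (nat_lit 205235482287) (nat_lit 76) (nat_lit 25970784497) (nat_lit 76) (nat_lit 25970784497) (nat_lit 1) (nat_lit 4) (nat_lit 2) (nat_lit 5) (nat_lit 2) (nat_lit 4) (nat_lit 360) (nat_lit 180) (nat_lit 180))) (XT.nd (nat_lit 78) (nat_lit 0) (nat_lit 0) (XT.lf (nat_lit 0) (nat_lit 432280307233) (nat_lit 76) (nat_lit 53911606176) (nat_lit 76) (nat_lit 53841927004) (nat_lit 1) (nat_lit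 4) (nat_lit 2) (nat_lit 5) (nat_lit 2) (nat_lit 4) (nat_lit 361) (nat_lit 180) (nat_lit 179)) (XT.lf (nat_lit 0) (nat_lit 455139627338) (nat_lit 76) (nat_lit 55997586848) (nat_lit 76) (nat_lit 55861546560) (nat_lit 1) (nat_lit 4) (nat_lit 2) (nat_lit 5) (nat_lit 2) (nat_lit 4) (nat_lit 362) (nat_lit 180) (nat_lit 178)))) (XT.nd (nat_lit 37206) (nat_lit 0) (nat_lit 0) (XT.nd (nat_lit 37128) (nat_lit 0) (nat_lit 0) (XT.lf (nat_lit 0) (nat_lit 479103351842) (nat_lit 76) (nat_lit 58204477631) (nat_lit 76) (nat_lit 58005236280) (nat_lit 1) (nat_lit 4) (nat_lit 2) (nat_lit 5) (nat_lit 2) (nat_lit 4) (nat_lit 363) (nat_lit 180) (nat_lit 177)) (XT.lf (nat_lit 0) (nat_lit 184909327717) (nat_lit 76) (nat_lit 24197305332) (nat_lit 76) (nat_lit 24197305332) (nat_lit 1) (nat_lit 4) (nat_lit 2) (nat_lit 5) (nat_lit 2) (nat_lit 4) (nat_lit 358) (nat_lit 181) (nat_lit 181))) (XT.nd (nat_lit 78) (nat_lit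 0) (nat_lit 0) (XT.lf (nat_lit 0) (nat_lit 389659672357) (nat_lit 76) (nat_lit 50155947867) (nat_lit 76) (nat_lit 50082784737) (nat_lit 1) (nat_lit 4) (nat_lit 2) (nat_lit 5) (nat_lit 2) (nat_lit 4) (nat_lit 359) (nat_lit 181) (nat_lit 180)) (XT.lf (nat_lit 0) (nat_lit 410450225955) (nat_lit 76) (nat_lit 52023665643) (nat_lit 76) (nat_lit 51880823340) (nat_lit 1) (nat_lit 4) (nat_lit 2) (nat_lit 5) (nat_lit 2) (nat_lit 4) (nat_lit 360) (nat_lit 181) (nat_lit 179))))) (XT.nd (nat_lit 37206) (nat_lit 0) (nat_lit 0) (XT.nd (nat_lit 156) (nat_lit 0) (nat_lit 0) (XT.nd (nat_lit 78) (nat_lit 0) (nat_lit 0) (XT.lf (nat_lit 0) (nat_lit 432239817547) (nat_lit 76) (nat_lit 54002210937) (nat_lit 76) (nat_lit 53793007519) (nat_lit 1) (nat_lit 4) (nat_lit 2) (nat_lit 5) (nat_lit 2) (nat_lit 4) (nat_lit 361) (nat_lit 181) (nat_lit 178)) (XT.lf (nat_lit 0) (nat_lit 455080327112) (nat_lit 76) (nat_lit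 56096294574) (nat_lit 76) (nat_lit 55823890093) (nat_lit 1) (nat_lit 4) (nat_lit 2) (nat_lit 5) (nat_lit 2) (nat_lit 4) (nat_lit 362) (nat_lit 181) (nat_lit 177))) (XT.nd (nat_lit 36972) (nat_lit 0) (nat_lit 0) (XT.lf (nat_lit 0) (nat_lit 479026136816) (nat_lit 76) (nat_lit 58310902466) (nat_lit 76) (nat_lit 57978306496) (nat_lit 1) (nat_lit 4) (nat_lit 2) (nat_lit 5) (nat_lit 2) (nat_lit 4) (nat_lit 363) (nat_lit 181) (nat_lit 176)) (XT.lf (nat_lit 0) (nat_lit 166410641101) (nat_lit 76) (nat_lit 22620759362) (nat_lit 76) (nat_lit 22620759362) (nat_lit 1) (nat_lit 4) (nat_lit 2) (nat_lit 5) (nat_lit 2) (nat_lit 4) (nat_lit 356) (nat_lit 182) (nat_lit 182)))) (XT.nd (nat_lit 156) (nat_lit 0) (nat_lit 0) (XT.nd (nat_lit 78) (nat_lit 0) (nat_lit 0) (XT.lf (nat_lit 0) (nat_lit 350879934671) (nat_lit 76) (nat_lit 46812281663) (nat_lit 76) (nat_lit 46735460376) (nat_lit 1) (nat_lit 4) (nat_lit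 2) (nat_lit 5) (nat_lit 2) (nat_lit 4) (nat_lit 357) (nat_lit 182) (nat_lit 181)) (XT.lf (nat_lit 0) (nat_lit 369796879884) (nat_lit 76) (nat_lit 48480812146) (nat_lit 76) (nat_lit 48330827729) (nat_lit 1) (nat_lit 4) (nat_lit 2) (nat_lit 5) (nat_lit 2) (nat_lit 4) (nat_lit 358) (nat_lit 182) (nat_lit 180))) (XT.nd (nat_lit 78) (nat_lit 0) (nat_lit 0) (XT.lf (nat_lit 0) (nat_lit 389617158187) (nat_lit 76) (nat_lit 50251082867) (nat_lit 76) (nat_lit 50031419278) (nat_lit 1) (nat_lit 4) (nat_lit 2) (nat_lit 5) (nat_lit 2) (nat_lit 4) (nat_lit 359) (nat_lit 182) (nat_lit 179)) (XT.lf (nat_lit 0) (nat_lit 410387960718) (nat_lit 76) (nat_lit 52127308755) (nat_lit 76) (nat_lit 51841284049) (nat_lit 1) (nat_lit 4) (nat_lit 2) (nat_lit 5) (nat_lit 2) (nat_lit 4) (nat_lit 360) (nat_lit 182) (nat_lit 178)))))) (XT.nd (nat_lit 37362) (nat_lit 0) (nat_lit 0) (XT.nd (nat_lit 37050) (nat_lit 0)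 (nat_lit 0) (XT.nd (nat_lit 156) (nat_lit 0) (nat_lit 0) (XT.nd (nat_lit 78) (nat_lit 0) (nat_lit 0) (XT.lf (nat_lit 0) (nat_lit 432158741770) (nat_lit 76) (nat_lit 54113957014) (nat_lit 76) (nat_lit 53764731246) (nat_lit 1) (nat_lit 4) (nat_lit 2) (nat_lit 5) (nat_lit 2) (nat_lit 4) (nat_lit 361) (nat_lit 182) (nat_lit 177)) (XT.lf (nat_lit 0) (nat_lit 454981336536) (nat_lit 76) (nat_lit 56215757760) (nat_lit 76) (nat_lit 55806340503) (nat_lit 1) (nat_lit 4) (nat_lit 2) (nat_lit 5) (nat_lit 2) (nat_lit 4) (nat_lit 362) (nat_lit 182) (nat_lit 176))) (XT.nd (nat_lit 36816) (nat_lit 0) (nat_lit 0) (XT.lf (nat_lit 0) (nat_lit 478910084526) (nat_lit 76) (nat_lit 58437715280) (nat_lit 76) (nat_lit 57970972796) (nat_lit 1) (nat_lit 4) (nat_lit 2) (nat_lit 5) (nat_lit 2) (nat_lit 4) (nat_lit 363) (nat_lit 182) (nat_lit 175)) (XT.lf (nat_lit 0) (nat_lit 149566408529) (nat_lit 76) (nat_lit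 21224440198) (nat_lit 76) (nat_lit 21224440198) (nat_lit 1) (nat_lit 4) (nat_lit 2) (nat_lit 5) (nat_lit 2) (nat_lit 4) (nat_lit 354) (nat_lit 183) (nat_lit 183)))) (XT.nd (nat_lit 156) (nat_lit 0) (nat_lit 0) (XT.nd (nat_lit 78) (nat_lit 0) (nat_lit 0) (XT.lf (nat_lit 0) (nat_lit 315577925687) (nat_lit 76) (nat_lit 43845445770) (nat_lit 76) (nat_lit 43764783418) (nat_lit 1) (nat_lit 4) (nat_lit 2) (nat_lit 5) (nat_lit 2) (nat_lit 4) (nat_lit 355) (nat_lit 183) (nat_lit 182)) (XT.lf (nat_lit 0) (nat_lit 332798417874) (nat_lit 76) (nat_lit 45332030279) (nat_lit 76) (nat_lit 45174546641) (nat_lit 1) (nat_lit 4) (nat_lit 2) (nat_lit 5) (nat_lit 2) (nat_lit 4) (nat_lit 356) (nat_lit 183) (nat_lit 181))) (XT.nd (nat_lit 78) (nat_lit 0) (nat_lit 0) (XT.lf (nat_lit 0) (nat_lit 350835294792) (nat_lit 76) (nat_lit 46912173412) (nat_lit 76) (nat_lit 46681526643) (nat_lit 1) (nat_lit 4) (nat_lit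 2) (nat_lit 5) (nat_lit 2) (nat_lit 4) (nat_lit 357) (nat_lit 183) (nat_lit 180)) (XT.lf (nat_lit 0) (nat_lit 369731501385) (nat_lit 76) (nat_lit 48589637414) (nat_lit 76) (nat_lit 48289311474) (nat_lit 1) (nat_lit 4) (nat_lit 2) (nat_lit 5) (nat_lit 2) (nat_lit 4) (nat_lit 358) (nat_lit 183) (nat_lit 179))))) (XT.nd (nat_lit 312) (nat_lit 0) (nat_lit 0) (XT.nd (nat_lit 156) (nat_lit 0) (nat_lit 0) (XT.nd (nat_lit 78) (nat_lit 0) (nat_lit 0) (XT.lf (nat_lit 0) (nat_lit 389532028621) (nat_lit 76) (nat_lit 50368416248) (nat_lit 76) (nat_lit 50001729191) (nat_lit 1) (nat_lit 4) (nat_lit 2) (nat_lit 5) (nat_lit 2) (nat_lit 4) (nat_lit 359) (nat_lit 183) (nat_lit 178)) (XT.lf (nat_lit 0) (nat_lit 410284020613) (nat_lit 76) (nat_lit 52252745100) (nat_lit 76) (nat_lit 51822856980) (nat_lit 1) (nat_lit 4) (nat_lit 2) (nat_lit 5) (nat_lit 2) (nat_lit 4) (nat_lit 360) (nat_lit 183) (nat_lit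 177))) (XT.nd (nat_lit 78) (nat_lit 0) (nat_lit 0) (XT.lf (nat_lit 0) (nat_lit 432036886866) (nat_lit 76) (nat_lit 54247110468) (nat_lit 76) (nat_lit 53757030860) (nat_lit 1) (nat_lit 4) (nat_lit 2) (nat_lit 5) (nat_lit 2) (nat_lit 4) (nat_lit 361) (nat_lit 183) (nat_lit 176)) (XT.lf (nat_lit 0) (nat_lit 454842419917) (nat_lit 76) (nat_lit 56356260842) (nat_lit 76) (nat_lit 55808856006) (nat_lit 1) (nat_lit 4) (nat_lit 2) (nat_lit 5) (nat_lit 2) (nat_lit 4) (nat_lit 362) (nat_lit 183) (nat_lit 175)))) (XT.nd (nat_lit 36738) (nat_lit 0) (nat_lit 0) (XT.nd (nat_lit 36660) (nat_lit 0) (nat_lit 0) (XT.lf (nat_lit 0) (nat_lit 478754918657) (nat_lit 76) (nat_lit 58585218007) (nat_lit 76) (nat_lit 57983217717) (nat_lit 1) (nat_lit 4) (nat_lit 2) (nat_lit 5) (nat_lit 2) (nat_lit 4) (nat_lit 363) (nat_lit 183) (nat_lit 174)) (XT.lf (nat_lit 0) (nat_lit 134219545619) (nat_lit 76) (nat_lit 19993274788)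 (nat_lit 76) (nat_lit 19993274788) (nat_lit 1) (nat_lit 4) (nat_lit 2) (nat_lit 5) (nat_lit 2) (nat_lit 4) (nat_lit 352) (nat_lit 184) (nat_lit 184))) (XT.nd (nat_lit 78) (nat_lit 0) (nat_lit 0) (XT.lf (nat_lit 0) (nat_lit 283423936966) (nat_lit 76) (nat_lit 41223704475) (nat_lit 76) (nat_lit 41139009006) (nat_lit 1) (nat_lit 4) (nat_lit 2) (nat_lit 5) (nat_lit 2) (nat_lit 4) (nat_lit 353) (nat_lit 184) (nat_lit 183)) (XT.nd (nat_lit 78) (nat_lit 0) (nat_lit 0) (XT.lf (nat_lit 0) (nat_lit 299108809513) (nat_lit 76) (nat_lit 42543917530) (nat_lit 76) (nat_lit 42378559710) (nat_lit 1) (nat_lit 4) (nat_lit 2) (nat_lit 5) (nat_lit 2) (nat_lit 4) (nat_lit 354) (nat_lit 184) (nat_lit 182)) (XT.lf (nat_lit 0) (nat_lit 315531053814) (nat_lit 76) (nat_lit 43950332107) (nat_lit 76) (nat_lit 43708153000) (nat_lit 1) (nat_lit 4) (nat_lit 2) (nat_lit 5) (nat_lit 2) (nat_lit 4) (nat_lit 355) (nat_lit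 184) (nat_lit 181))))))))
noncomputable def xc1 : XT := (XT.nd (nat_lit 37752) (nat_lit 0) (nat_lit 0) (XT.nd (nat_lit 37050) (nat_lit 0) (nat_lit 0) (XT.nd (nat_lit 312) (nat_lit 0) (nat_lit 0) (XT.nd (nat_lit 156) (nat_lit 0) (nat_lit 0) (XT.nd (nat_lit 78) (nat_lit 0) (nat_lit 0) (XT.lf (nat_lit 0) (nat_lit 332729770450) (nat_lit 76) (nat_lit 45446296810) (nat_lit 76) (nat_lit 45130954573) (nat_lit 1) (nat_lit 4) (nat_lit 2) (nat_lit 5) (nat_lit 2) (nat_lit 4) (nat_lit 356) (nat_lit 184) (nat_lit 180)) (XT.lf (nat_lit 0) (nat_lit 350745908748) (nat_lit 76) (nat_lit 47035373462) (nat_lit 76) (nat_lit 46650352052) (nat_lit 1) (nat_lit 4) (nat_lit 2) (nat_lit 5) (nat_lit 2) (nat_lit 4) (nat_lit 357) (nat_lit 184) (nat_lit 179))) (XT.nd (nat_lit 78) (nat_lit 0) (nat_lit 0) (XT.lf (nat_lit 0) (nat_lit 369622364275) (nat_lit 76) (nat_lit 48721345577) (nat_lit 76) (nat_lit 48269963051)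 (nat_lit 1) (nat_lit 4) (nat_lit 2) (nat_lit 5) (nat_lit 2) (nat_lit 4) (nat_lit 358) (nat_lit 184) (nat_lit 178)) (XT.lf (nat_lit 0) (nat_lit 389404080971) (nat_lit 76) (nat_lit 50508227374) (nat_lit 76) (nat_lit 49993643786) (nat_lit 1) (nat_lit 4) (nat_lit 2) (nat_lit 5) (nat_lit 2) (nat_lit 4) (nat_lit 359) (nat_lit 184) (nat_lit 177)))) (XT.nd (nat_lit 156) (nat_lit 0) (nat_lit 0) (XT.nd (nat_lit 78) (nat_lit 0) (nat_lit 0) (XT.lf (nat_lit 0) (nat_lit 410138158164) (nat_lit 76) (nat_lit 52400273336) (nat_lit 76) (nat_lit 51825498259) (nat_lit 1) (nat_lit 4) (nat_lit 2) (nat_lit 5) (nat_lit 2) (nat_lit 4) (nat_lit 360) (nat_lit 184) (nat_lit 176)) (XT.lf (nat_lit 0) (nat_lit 431873962702) (nat_lit 76) (nat_lit 54401988332) (nat_lit 76) (nat_lit 53769888028) (nat_lit 1) (nat_lit 4) (nat_lit 2) (nat_lit 5) (nat_lit 2) (nat_lit 4) (nat_lit 361) (nat_lit 184) (nat_lit 175))) (XT.nd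 (nat_lit 78) (nat_lit 0) (nat_lit 0) (XT.lf (nat_lit 0) (nat_lit 454663246503) (nat_lit 76) (nat_lit 56518138351) (nat_lit 76) (nat_lit 55831442592) (nat_lit 1) (nat_lit 4) (nat_lit 2) (nat_lit 5) (nat_lit 2) (nat_lit 4) (nat_lit 362) (nat_lit 184) (nat_lit 174)) (XT.lf (nat_lit 0) (nat_lit 478560269765) (nat_lit 76) (nat_lit 58753761845) (nat_lit 76) (nat_lit 58015070415) (nat_lit 1) (nat_lit 4) (nat_lit 2) (nat_lit 5) (nat_lit 2) (nat_lit 4) (nat_lit 363) (nat_lit 184) (nat_lit 173))))) (XT.nd (nat_lit 312) (nat_lit 0) (nat_lit 0) (XT.nd (nat_lit 156) (nat_lit 0) (nat_lit 0) (XT.nd (nat_lit 78) (nat_lit 0) (nat_lit 0) (XT.lf (nat_lit 0) (nat_lit 120227408764) (nat_lit 76) (nat_lit 18913675560) (nat_lit 76) (nat_lit 18913675560) (nat_lit 1) (nat_lit 4) (nat_lit 2) (nat_lit 5) (nat_lit 2) (nat_lit 4) (nat_lit 350) (nat_lit 185) (nat_lit 185)) (XT.lf (nat_lit 0) (nat_lit 254118594128)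 (nat_lit 76) (nat_lit 38918437469) (nat_lit 76) (nat_lit 38829507226) (nat_lit 1) (nat_lit 4) (nat_lit 2) (nat_lit 5) (nat_lit 2) (nat_lit 4) (nat_lit 351) (nat_lit 185) (nat_lit 184))) (XT.nd (nat_lit 78) (nat_lit 0) (nat_lit 0) (XT.lf (nat_lit 0) (nat_lit 268413883317) (nat_lit 76) (nat_lit 40086338565) (nat_lit 76) (nat_lit 39912712854) (nat_lit 1) (nat_lit 4) (nat_lit 2) (nat_lit 5) (nat_lit 2) (nat_lit 4) (nat_lit 352) (nat_lit 185) (nat_lit 183)) (XT.lf (nat_lit 0) (nat_lit 283374721499) (nat_lit 76) (nat_lit 41333835129) (nat_lit 76) (nat_lit 41079547066) (nat_lit 1) (nat_lit 4) (nat_lit 2) (nat_lit 5) (nat_lit 2) (nat_lit 4) (nat_lit 353) (nat_lit 185) (nat_lit 182)))) (XT.nd (nat_lit 156) (nat_lit 0) (nat_lit 0) (XT.nd (nat_lit 78) (nat_lit 0) (nat_lit 0) (XT.lf (nat_lit 0) (nat_lit 299036729718) (nat_lit 76) (nat_lit 42663897388) (nat_lit 76) (nat_lit 42332788039) (nat_lit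 1) (nat_lit 4) (nat_lit 2) (nat_lit 5) (nat_lit 2) (nat_lit 4) (nat_lit 354) (nat_lit 185) (nat_lit 181)) (XT.lf (nat_lit 0) (nat_lit 315437198468) (nat_lit 76) (nat_lit 44079692159) (nat_lit 76) (nat_lit 43675419679) (nat_lit 1) (nat_lit 4) (nat_lit 2) (nat_lit 5) (nat_lit 2) (nat_lit 4) (nat_lit 355) (nat_lit 185) (nat_lit 180))) (XT.nd (nat_lit 78) (nat_lit 0) (nat_lit 0) (XT.lf (nat_lit 0) (nat_lit 332615176484) (nat_lit 76) (nat_lit 45584590381) (nat_lit 76) (nat_lit 45110638729) (nat_lit 1) (nat_lit 4) (nat_lit 2) (nat_lit 5) (nat_lit 2) (nat_lit 4) (nat_lit 356) (nat_lit 185) (nat_lit 179)) (XT.nd (nat_lit 78) (nat_lit 0) (nat_lit 0) (XT.lf (nat_lit 0) (nat_lit 350611563716) (nat_lit 76) (nat_lit 47182175145) (nat_lit 76) (nat_lit 46641862377) (nat_lit 1) (nat_lit 4) (nat_lit 2) (nat_lit 5) (nat_lit 2) (nat_lit 4) (nat_lit 357) (nat_lit 185) (nat_lit 178)) (XT.lf (nat_lit 0)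 (nat_lit 369469208703) (nat_lit 76) (nat_lit 48876250224) (nat_lit 76) (nat_lit 48272736393) (nat_lit 1) (nat_lit 4) (nat_lit 2) (nat_lit 5) (nat_lit 2) (nat_lit 4) (nat_lit 358) (nat_lit 185) (nat_lit 177))))))) (XT.nd (nat_lit 36894) (nat_lit 0) (nat_lit 0) (XT.nd (nat_lit 312) (nat_lit 0) (nat_lit 0) (XT.nd (nat_lit 156) (nat_lit 0) (nat_lit 0) (XT.nd (nat_lit 78) (nat_lit 0) (nat_lit 0) (XT.lf (nat_lit 0) (nat_lit 389233010600) (nat_lit 76) (nat_lit 50670849131) (nat_lit 76) (nat_lit 50007143812) (nat_lit 1) (nat_lit 4) (nat_lit 2) (nat_lit 5) (nat_lit 2) (nat_lit 4) (nat_lit 359) (nat_lit 185) (nat_lit 176)) (XT.lf (nat_lit 0) (nat_lit 409950026079) (nat_lit 76) (nat_lit 52570244720) (nat_lit 76) (nat_lit 51849214174) (nat_lit 1) (nat_lit 4) (nat_lit 2) (nat_lit 5) (nat_lit 2) (nat_lit 4) (nat_lit 360) (nat_lit 185) (nat_lit 175))) (XT.nd (nat_lit 78) (nat_lit 0) (nat_lit 0) (XT.lf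 (nat_lit 0) (nat_lit 431669581366) (nat_lit 76) (nat_lit 54578959361) (nat_lit 76) (nat_lit 53803333361) (nat_lit 1) (nat_lit 4) (nat_lit 2) (nat_lit 5) (nat_lit 2) (nat_lit 4) (nat_lit 361) (nat_lit 185) (nat_lit 174)) (XT.lf (nat_lit 0) (nat_lit 454443389689) (nat_lit 76) (nat_lit 56701775709) (nat_lit 76) (nat_lit 55874154037) (nat_lit 1) (nat_lit 4) (nat_lit 2) (nat_lit 5) (nat_lit 2) (nat_lit 4) (nat_lit 362) (nat_lit 185) (nat_lit 173)))) (XT.nd (nat_lit 36426) (nat_lit 0) (nat_lit 0) (XT.nd (nat_lit 36348) (nat_lit 0) (nat_lit 0) (XT.lf (nat_lit 0) (nat_lit 478325674401) (nat_lit 76) (nat_lit 58943748088) (nat_lit 76) (nat_lit 58066606730) (nat_lit 1) (nat_lit 4) (nat_lit 2) (nat_lit 5) (nat_lit 2) (nat_lit 4) (nat_lit 363) (nat_lit 185) (nat_lit 172)) (XT.lf (nat_lit 0) (nat_lit 107460444384) (nat_lit 76) (nat_lit 17973406534) (nat_lit 76) (nat_lit 17973406534) (nat_lit 1)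 (nat_lit 4) (nat_lit 2) (nat_lit 5) (nat_lit 2) (nat_lit 4) (nat_lit 348) (nat_lit 186) (nat_lit 186))) (XT.nd (nat_lit 78) (nat_lit 0) (nat_lit 0) (XT.lf (nat_lit 0) (nat_lit 227390020716) (nat_lit 76) (nat_lit 36903858453) (nat_lit 76) (nat_lit 36810481699) (nat_lit 1) (nat_lit 4) (nat_lit 2) (nat_lit 5) (nat_lit 2) (nat_lit 4) (nat_lit 349) (nat_lit 186) (nat_lit 185)) (XT.lf (nat_lit 0) (nat_lit 240428349210) (nat_lit 76) (nat_lit 37932129560) (nat_lit 76) (nat_lit 37749822564) (nat_lit 1) (nat_lit 4) (nat_lit 2) (nat_lit 5) (nat_lit 2) (nat_lit 4) (nat_lit 350) (nat_lit 186) (nat_lit 184))))) (XT.nd (nat_lit 312) (nat_lit 0) (nat_lit 0) (XT.nd (nat_lit 156) (nat_lit 0) (nat_lit 0) (XT.nd (nat_lit 78) (nat_lit 0) (nat_lit 0) (XT.lf (nat_lit 0) (nat_lit 254066917887) (nat_lit 76) (nat_lit 39034074655) (nat_lit 76) (nat_lit 38767072189) (nat_lit 1) (nat_lit 4) (nat_lit 2) (nat_lit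 5) (nat_lit 2) (nat_lit 4) (nat_lit 351) (nat_lit 186) (nat_lit 183)) (XT.lf (nat_lit 0) (nat_lit 268338199532) (nat_lit 76) (nat_lit 40212317416) (nat_lit 76) (nat_lit 39864652599) (nat_lit 1) (nat_lit 4) (nat_lit 2) (nat_lit 5) (nat_lit 2) (nat_lit 4) (nat_lit 352) (nat_lit 186) (nat_lit 182))) (XT.nd (nat_lit 78) (nat_lit 0) (nat_lit 0) (XT.lf (nat_lit 0) (nat_lit 283276173386) (nat_lit 76) (nat_lit 41469663183) (nat_lit 76) (nat_lit 41045177079) (nat_lit 1) (nat_lit 4) (nat_lit 2) (nat_lit 5) (nat_lit 2) (nat_lit 4) (nat_lit 353) (nat_lit 186) (nat_lit 181)) (XT.lf (nat_lit 0) (nat_lit 298916406054) (nat_lit 76) (nat_lit 42809105637) (nat_lit 76) (nat_lit 42311456403) (nat_lit 1) (nat_lit 4) (nat_lit 2) (nat_lit 5) (nat_lit 2) (nat_lit 4) (nat_lit 354) (nat_lit 186) (nat_lit 180)))) (XT.nd (nat_lit 156) (nat_lit 0) (nat_lit 0) (XT.nd (nat_lit 78) (nat_lit 0) (nat_lit 0) (XT.lf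 (nat_lit 0) (nat_lit 315296136184) (nat_lit 76) (nat_lit 44233833926) (nat_lit 76) (nat_lit 43666505520) (nat_lit 1) (nat_lit 4) (nat_lit 2) (nat_lit 5) (nat_lit 2) (nat_lit 4) (nat_lit 355) (nat_lit 186) (nat_lit 179)) (XT.lf (nat_lit 0) (nat_lit 332454363134) (nat_lit 76) (nat_lit 45747240261) (nat_lit 76) (nat_lit 45113550738) (nat_lit 1) (nat_lit 4) (nat_lit 2) (nat_lit 5) (nat_lit 2) (nat_lit 4) (nat_lit 356) (nat_lit 186) (nat_lit 178))) (XT.nd (nat_lit 78) (nat_lit 0) (nat_lit 0) (XT.lf (nat_lit 0) (nat_lit 350431939826) (nat_lit 76) (nat_lit 47352927989) (nat_lit 76) (nat_lit 46656037404) (nat_lit 1) (nat_lit 4) (nat_lit 2) (nat_lit 5) (nat_lit 2) (nat_lit 4) (nat_lit 357) (nat_lit 186) (nat_lit 177)) (XT.nd (nat_lit 78) (nat_lit 0) (nat_lit 0) (XT.lf (nat_lit 0) (nat_lit 369271670013) (nat_lit 76) (nat_lit 49054720178) (nat_lit 76) (nat_lit 48297638104) (nat_lit 1) (nat_lit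 4) (nat_lit 2) (nat_lit 5) (nat_lit 2) (nat_lit 4) (nat_lit 358) (nat_lit 186) (nat_lit 176)) (XT.lf (nat_lit 0) (nat_lit 389018410197) (nat_lit 76) (nat_lit 50856668712) (nat_lit 76) (nat_lit 50042261411) (nat_lit 1) (nat_lit 4) (nat_lit 2) (nat_lit 5) (nat_lit 2) (nat_lit 4) (nat_lit 359) (nat_lit 186) (nat_lit 175))))))))
noncomputable def xc2 : XT := (XT.nd (nat_lit 37440) (nat_lit 0) (nat_lit 0) (XT.nd (nat_lit 36738) (nat_lit 0) (nat_lit 0) (XT.nd (nat_lit 36426) (nat_lit 0) (nat_lit 0) (XT.nd (nat_lit 156) (nat_lit 0) (nat_lit 0) (XT.nd (nat_lit 78) (nat_lit 0) (nat_lit 0) (XT.lf (nat_lit 0) (nat_lit 409719176424) (nat_lit 76) (nat_lit 52763063947) (nat_lit 76) (nat_lit 51894061191) (nat_lit 1) (nat_lit 4) (nat_lit 2) (nat_lit 5) (nat_lit 2) (nat_lit 4) (nat_lit 360) (nat_lit 186) (nat_lit 174)) (XT.lf (nat_lit 0) (nat_lit 431423256234) (nat_lit 76) (nat_lit 54778444917) (nat_lit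 76) (nat_lit 53857446491) (nat_lit 1) (nat_lit 4) (nat_lit 2) (nat_lit 5) (nat_lit 2) (nat_lit 4) (nat_lit 361) (nat_lit 186) (nat_lit 173))) (XT.nd (nat_lit 78) (nat_lit 0) (nat_lit 0) (XT.lf (nat_lit 0) (nat_lit 454182326007) (nat_lit 76) (nat_lit 56907610149) (nat_lit 76) (nat_lit 55937092037) (nat_lit 1) (nat_lit 4) (nat_lit 2) (nat_lit 5) (nat_lit 2) (nat_lit 4) (nat_lit 362) (nat_lit 186) (nat_lit 172)) (XT.lf (nat_lit 0) (nat_lit 478050574005) (nat_lit 76) (nat_lit 59155629085) (nat_lit 76) (nat_lit 58137949366) (nat_lit 1) (nat_lit 4) (nat_lit 2) (nat_lit 5) (nat_lit 2) (nat_lit 4) (nat_lit 363) (nat_lit 186) (nat_lit 171)))) (XT.nd (nat_lit 156) (nat_lit 0) (nat_lit 0) (XT.nd (nat_lit 78) (nat_lit 0) (nat_lit 0) (XT.lf (nat_lit 0) (nat_lit 95800963367) (nat_lit 76) (nat_lit 17161462073) (nat_lit 76) (nat_lit 17161462073) (nat_lit 1) (nat_lit 4) (nat_lit 2) (nat_lit 5) (nat_lit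 2) (nat_lit 4) (nat_lit 346) (nat_lit 187) (nat_lit 187)) (XT.lf (nat_lit 0) (nat_lit 202991264956) (nat_lit 76) (nat_lit 35156760320) (nat_lit 76) (nat_lit 35058714728) (nat_lit 1) (nat_lit 4) (nat_lit 2) (nat_lit 5) (nat_lit 2) (nat_lit 4) (nat_lit 347) (nat_lit 187) (nat_lit 186))) (XT.nd (nat_lit 78) (nat_lit 0) (nat_lit 0) (XT.lf (nat_lit 0) (nat_lit 214893097034) (nat_lit 76) (nat_lit 36056830430) (nat_lit 76) (nat_lit 35865408083) (nat_lit 1) (nat_lit 4) (nat_lit 2) (nat_lit 5) (nat_lit 2) (nat_lit 4) (nat_lit 348) (nat_lit 187) (nat_lit 185)) (XT.lf (nat_lit 0) (nat_lit 227335760664) (nat_lit 76) (nat_lit 37025277499) (nat_lit 76) (nat_lit 36744924910) (nat_lit 1) (nat_lit 4) (nat_lit 2) (nat_lit 5) (nat_lit 2) (nat_lit 4) (nat_lit 349) (nat_lit 187) (nat_lit 184))))) (XT.nd (nat_lit 312) (nat_lit 0) (nat_lit 0) (XT.nd (nat_lit 156) (nat_lit 0) (nat_lit 0) (XT.nd (nat_lit 78)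 (nat_lit 0) (nat_lit 0) (XT.lf (nat_lit 0) (nat_lit 240348881235) (nat_lit 76) (nat_lit 38064407354) (nat_lit 76) (nat_lit 37699359296) (nat_lit 1) (nat_lit 4) (nat_lit 2) (nat_lit 5) (nat_lit 2) (nat_lit 4) (nat_lit 350) (nat_lit 187) (nat_lit 183)) (XT.lf (nat_lit 0) (nat_lit 253963442368) (nat_lit 76) (nat_lit 39176694113) (nat_lit 76) (nat_lit 38730983703) (nat_lit 1) (nat_lit 4) (nat_lit 2) (nat_lit 5) (nat_lit 2) (nat_lit 4) (nat_lit 351) (nat_lit 187) (nat_lit 182))) (XT.nd (nat_lit 78) (nat_lit 0) (nat_lit 0) (XT.lf (nat_lit 0) (nat_lit 268211859685) (nat_lit 76) (nat_lit 40364786078) (nat_lit 76) (nat_lit 39842254381) (nat_lit 1) (nat_lit 4) (nat_lit 2) (nat_lit 5) (nat_lit 2) (nat_lit 4) (nat_lit 352) (nat_lit 187) (nat_lit 181)) (XT.lf (nat_lit 0) (nat_lit 283128057988) (nat_lit 76) (nat_lit 41631512039) (nat_lit 76) (nat_lit 41035817212) (nat_lit 1) (nat_lit 4) (nat_lit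 2) (nat_lit 5) (nat_lit 2) (nat_lit 4) (nat_lit 353) (nat_lit 187) (nat_lit 180)))) (XT.nd (nat_lit 156) (nat_lit 0) (nat_lit 0) (XT.nd (nat_lit 78) (nat_lit 0) (nat_lit 0) (XT.lf (nat_lit 0) (nat_lit 298747552036) (nat_lit 76) (nat_lit 42979888011) (nat_lit 76) (nat_lit 42314514013) (nat_lit 1) (nat_lit 4) (nat_lit 2) (nat_lit 5) (nat_lit 2) (nat_lit 4) (nat_lit 354) (nat_lit 187) (nat_lit 179)) (XT.lf (nat_lit 0) (nat_lit 315107531099) (nat_lit 76) (nat_lit 44413124413) (nat_lit 76) (nat_lit 43681389298) (nat_lit 1) (nat_lit 4) (nat_lit 2) (nat_lit 5) (nat_lit 2) (nat_lit 4) (nat_lit 355) (nat_lit 187) (nat_lit 178))) (XT.nd (nat_lit 78) (nat_lit 0) (nat_lit 0) (XT.lf (nat_lit 0) (nat_lit 332246947510) (nat_lit 76) (nat_lit 45934633712) (nat_lit 76) (nat_lit 45139697535) (nat_lit 1) (nat_lit 4) (nat_lit 2) (nat_lit 5) (nat_lit 2) (nat_lit 4) (nat_lit 356) (nat_lit 187) (nat_lit 177))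 (XT.nd (nat_lit 78) (nat_lit 0) (nat_lit 0) (XT.lf (nat_lit 0) (nat_lit 350206609402) (nat_lit 76) (nat_lit 47548038550) (nat_lit 76) (nat_lit 46692910884) (nat_lit 1) (nat_lit 4) (nat_lit 2) (nat_lit 5) (nat_lit 2) (nat_lit 4) (nat_lit 357) (nat_lit 187) (nat_lit 176)) (XT.lf (nat_lit 0) (nat_lit 369029277876) (nat_lit 76) (nat_lit 49257180366) (nat_lit 76) (nat_lit 48344727473) (nat_lit 1) (nat_lit 4) (nat_lit 2) (nat_lit 5) (nat_lit 2) (nat_lit 4) (nat_lit 358) (nat_lit 187) (nat_lit 175))))))) (XT.nd (nat_lit 36582) (nat_lit 0) (nat_lit 0) (XT.nd (nat_lit 312) (nat_lit 0) (nat_lit 0) (XT.nd (nat_lit 156) (nat_lit 0) (nat_lit 0) (XT.nd (nat_lit 78) (nat_lit 0) (nat_lit 0) (XT.lf (nat_lit 0) (nat_lit 388759768808) (nat_lit 76) (nat_lit 51066128546) (nat_lit 76) (nat_lit 50099080198) (nat_lit 1) (nat_lit 4) (nat_lit 2) (nat_lit 5) (nat_lit 2) (nat_lit 4) (nat_lit 359) (nat_lit 187)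 (nat_lit 174)) (XT.lf (nat_lit 0) (nat_lit 409445059558) (nat_lit 76) (nat_lit 52979190109) (nat_lit 76) (nat_lit 51960146090) (nat_lit 1) (nat_lit 4) (nat_lit 2) (nat_lit 5) (nat_lit 2) (nat_lit 4) (nat_lit 360) (nat_lit 187) (nat_lit 173))) (XT.nd (nat_lit 78) (nat_lit 0) (nat_lit 0) (XT.lf (nat_lit 0) (nat_lit 431134400818) (nat_lit 76) (nat_lit 55000919964) (nat_lit 76) (nat_lit 53932356259) (nat_lit 1) (nat_lit 4) (nat_lit 2) (nat_lit 5) (nat_lit 2) (nat_lit 4) (nat_lit 361) (nat_lit 187) (nat_lit 172)) (XT.lf (nat_lit 0) (nat_lit 453879433877) (nat_lit 76) (nat_lit 57136131753) (nat_lit 76) (nat_lit 56020406442) (nat_lit 1) (nat_lit 4) (nat_lit 2) (nat_lit 5) (nat_lit 2) (nat_lit 4) (nat_lit 362) (nat_lit 187) (nat_lit 171)))) (XT.nd (nat_lit 36114) (nat_lit 0) (nat_lit 0) (XT.nd (nat_lit 36036) (nat_lit 0) (nat_lit 0) (XT.lf (nat_lit 0) (nat_lit 477734313575) (nat_lit 76) (nat_lit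 59389909314) (nat_lit 76) (nat_lit 58229268188) (nat_lit 1) (nat_lit 4) (nat_lit 2) (nat_lit 5) (nat_lit 2) (nat_lit 4) (nat_lit 363) (nat_lit 187) (nat_lit 170)) (XT.lf (nat_lit 0) (nat_lit 85142029008) (nat_lit 76) (nat_lit 16467957137) (nat_lit 76) (nat_lit 16467957137) (nat_lit 1) (nat_lit 4) (nat_lit 2) (nat_lit 5) (nat_lit 2) (nat_lit 4) (nat_lit 344) (nat_lit 188) (nat_lit 188))) (XT.nd (nat_lit 78) (nat_lit 0) (nat_lit 0) (XT.lf (nat_lit 0) (nat_lit 180697964897) (nat_lit 76) (nat_lit 33656284454) (nat_lit 76) (nat_lit 33553336582) (nat_lit 1) (nat_lit 4) (nat_lit 2) (nat_lit 5) (nat_lit 2) (nat_lit 4) (nat_lit 345) (nat_lit 188) (nat_lit 187)) (XT.lf (nat_lit 0) (nat_lit 191572745414) (nat_lit 76) (nat_lit 34438442375) (nat_lit 76) (nat_lit 34237448911) (nat_lit 1) (nat_lit 4) (nat_lit 2) (nat_lit 5) (nat_lit 2) (nat_lit 4) (nat_lit 346) (nat_lit 188) (nat_lit 186))))) (XT.nd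 (nat_lit 312) (nat_lit 0) (nat_lit 0) (XT.nd (nat_lit 156) (nat_lit 0) (nat_lit 0) (XT.nd (nat_lit 78) (nat_lit 0) (nat_lit 0) (XT.lf (nat_lit 0) (nat_lit 202934291902) (nat_lit 76) (nat_lit 35284250318) (nat_lit 76) (nat_lit 34989880100) (nat_lit 1) (nat_lit 4) (nat_lit 2) (nat_lit 5) (nat_lit 2) (nat_lit 4) (nat_lit 347) (nat_lit 188) (nat_lit 185)) (XT.lf (nat_lit 0) (nat_lit 214809655662) (nat_lit 76) (nat_lit 36195722113) (nat_lit 76) (nat_lit 35812421652) (nat_lit 1) (nat_lit 4) (nat_lit 2) (nat_lit 5) (nat_lit 2) (nat_lit 4) (nat_lit 348) (nat_lit 188) (nat_lit 184))) (XT.nd (nat_lit 78) (nat_lit 0) (nat_lit 0) (XT.lf (nat_lit 0) (nat_lit 227227111369) (nat_lit 76) (nat_lit 37175027929) (nat_lit 76) (nat_lit 36707032000) (nat_lit 1) (nat_lit 4) (nat_lit 2) (nat_lit 5) (nat_lit 2) (nat_lit 4) (nat_lit 349) (nat_lit 188) (nat_lit 183)) (XT.lf (nat_lit 0) (nat_lit 240216224396)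 (nat_lit 76) (nat_lit 38224499448) (nat_lit 76) (nat_lit 37675841167) (nat_lit 1) (nat_lit 4) (nat_lit 2) (nat_lit 5) (nat_lit 2) (nat_lit 4) (nat_lit 350) (nat_lit 188) (nat_lit 182)))) (XT.nd (nat_lit 156) (nat_lit 0) (nat_lit 0) (XT.nd (nat_lit 78) (nat_lit 0) (nat_lit 0) (XT.lf (nat_lit 0) (nat_lit 253807921200) (nat_lit 76) (nat_lit 39346635411) (nat_lit 76) (nat_lit 38721155843) (nat_lit 1) (nat_lit 4) (nat_lit 2) (nat_lit 5) (nat_lit 2) (nat_lit 4) (nat_lit 351) (nat_lit 188) (nat_lit 181)) (XT.lf (nat_lit 0) (nat_lit 268034562966) (nat_lit 76) (nat_lit 40544107570) (nat_lit 76) (nat_lit 39845464872) (nat_lit 1) (nat_lit 4) (nat_lit 2) (nat_lit 5) (nat_lit 2) (nat_lit 4) (nat_lit 352) (nat_lit 188) (nat_lit 180))) (XT.nd (nat_lit 78) (nat_lit 0) (nat_lit 0) (XT.lf (nat_lit 0) (nat_lit 282930022649) (nat_lit 76) (nat_lit 41819767050) (nat_lit 76) (nat_lit 41051445180) (nat_lit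 1) (nat_lit 4) (nat_lit 2) (nat_lit 5) (nat_lit 2) (nat_lit 4) (nat_lit 353) (nat_lit 188) (nat_lit 179)) (XT.nd (nat_lit 78) (nat_lit 0) (nat_lit 0) (XT.lf (nat_lit 0) (nat_lit 298529765630) (nat_lit 76) (nat_lit 43176651135) (nat_lit 76) (nat_lit 42341968149) (nat_lit 1) (nat_lit 4) (nat_lit 2) (nat_lit 5) (nat_lit 2) (nat_lit 4) (nat_lit 354) (nat_lit 188) (nat_lit 178)) (XT.lf (nat_lit 0) (nat_lit 314870934155) (nat_lit 76) (nat_lit 44617990501) (nat_lit 76) (nat_lit 43720106452) (nat_lit 1) (nat_lit 4) (nat_lit 2) (nat_lit 5) (nat_lit 2) (nat_lit 4) (nat_lit 355) (nat_lit 188) (nat_lit 177))))))))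
noncomputable def xc3 : XT := (XT.nd (nat_lit 37128) (nat_lit 0) (nat_lit 0) (XT.nd (nat_lit 36426) (nat_lit 0) (nat_lit 0) (XT.nd (nat_lit 312) (nat_lit 0) (nat_lit 0) (XT.nd (nat_lit 156) (nat_lit 0) (nat_lit 0) (XT.nd (nat_lit 78) (nat_lit 0) (nat_lit 0) (XT.lf (nat_lit 0) (nat_lit 331992435766) (nat_lit 76) (nat_lit 46147216909) (nat_lit 76) (nat_lit 45189141372) (nat_lit 1) (nat_lit 4) (nat_lit 2) (nat_lit 5) (nat_lit 2) (nat_lit 4) (nat_lit 356) (nat_lit 188) (nat_lit 176)) (XT.lf (nat_lit 0) (nat_lit 349935035944) (nat_lit 76) (nat_lit 47767971375) (nat_lit 76) (nat_lit 46752570610) (nat_lit 1) (nat_lit 4) (nat_lit 2) (nat_lit 5) (nat_lit 2) (nat_lit 4) (nat_lit 357) (nat_lit 188) (nat_lit 175))) (XT.nd (nat_lit 78) (nat_lit 0) (nat_lit 0) (XT.lf (nat_lit 0) (nat_lit 368741455166) (nat_lit 76) (nat_lit 49484112836) (nat_lit 76) (nat_lit 48414116617) (nat_lit 1) (nat_lit 4) (nat_lit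 2) (nat_lit 5) (nat_lit 2) (nat_lit 4) (nat_lit 358) (nat_lit 188) (nat_lit 174)) (XT.lf (nat_lit 0) (nat_lit 388456470621) (nat_lit 76) (nat_lit 51299727345) (nat_lit 76) (nat_lit 50177735455) (nat_lit 1) (nat_lit 4) (nat_lit 2) (nat_lit 5) (nat_lit 2) (nat_lit 4) (nat_lit 359) (nat_lit 188) (nat_lit 173)))) (XT.nd (nat_lit 156) (nat_lit 0) (nat_lit 0) (XT.nd (nat_lit 78) (nat_lit 0) (nat_lit 0) (XT.lf (nat_lit 0) (nat_lit 409127022821) (nat_lit 76) (nat_lit 53219137793) (nat_lit 76) (nat_lit 52047626216) (nat_lit 1) (nat_lit 4) (nat_lit 2) (nat_lit 5) (nat_lit 2) (nat_lit 4) (nat_lit 360) (nat_lit 188) (nat_lit 172)) (XT.lf (nat_lit 0) (nat_lit 430802327367) (nat_lit 76) (nat_lit 55246914205) (nat_lit 76) (nat_lit 54028241022) (nat_lit 1) (nat_lit 4) (nat_lit 2) (nat_lit 5) (nat_lit 2) (nat_lit 4) (nat_lit 361) (nat_lit 188) (nat_lit 171))) (XT.nd (nat_lit 78) (nat_lit 0) (nat_lit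 0) (XT.lf (nat_lit 0) (nat_lit 453533992127) (nat_lit 76) (nat_lit 57387884619) (nat_lit 76) (nat_lit 56124295621) (nat_lit 1) (nat_lit 4) (nat_lit 2) (nat_lit 5) (nat_lit 2) (nat_lit 4) (nat_lit 362) (nat_lit 188) (nat_lit 170)) (XT.lf (nat_lit 0) (nat_lit 477376140111) (nat_lit 76) (nat_lit 59647146586) (nat_lit 76) (nat_lit 58340780620) (nat_lit 1) (nat_lit 4) (nat_lit 2) (nat_lit 5) (nat_lit 2) (nat_lit 4) (nat_lit 363) (nat_lit 188) (nat_lit 169))))) (XT.nd (nat_lit 312) (nat_lit 0) (nat_lit 0) (XT.nd (nat_lit 156) (nat_lit 0) (nat_lit 0) (XT.nd (nat_lit 78) (nat_lit 0) (nat_lit 0) (XT.lf (nat_lit 0) (nat_lit 75386447895) (nat_lit 76) (nat_lit 15884027974) (nat_lit 76) (nat_lit 15884027974) (nat_lit 1) (nat_lit 4) (nat_lit 2) (nat_lit 5) (nat_lit 2) (nat_lit 4) (nat_lit 342) (nat_lit 189) (nat_lit 189)) (XT.lf (nat_lit 0) (nat_lit 160306229757) (nat_lit 76) (nat_lit 32383711935)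 (nat_lit 76) (nat_lit 32275616669) (nat_lit 1) (nat_lit 4) (nat_lit 2) (nat_lit 5) (nat_lit 2) (nat_lit 4) (nat_lit 343) (nat_lit 189) (nat_lit 188))) (XT.nd (nat_lit 78) (nat_lit 0) (nat_lit 0) (XT.lf (nat_lit 0) (nat_lit 170253417630) (nat_lit 76) (nat_lit 33057208415) (nat_lit 76) (nat_lit 32846165278) (nat_lit 1) (nat_lit 4) (nat_lit 2) (nat_lit 5) (nat_lit 2) (nat_lit 4) (nat_lit 344) (nat_lit 189) (nat_lit 187)) (XT.lf (nat_lit 0) (nat_lit 180638143190) (nat_lit 76) (nat_lit 33790148952) (nat_lit 76) (nat_lit 33481060222) (nat_lit 1) (nat_lit 4) (nat_lit 2) (nat_lit 5) (nat_lit 2) (nat_lit 4) (nat_lit 345) (nat_lit 189) (nat_lit 186)))) (XT.nd (nat_lit 156) (nat_lit 0) (nat_lit 0) (XT.nd (nat_lit 78) (nat_lit 0) (nat_lit 0) (XT.lf (nat_lit 0) (nat_lit 191485131972) (nat_lit 76) (nat_lit 34584278642) (nat_lit 76) (nat_lit 34181813158) (nat_lit 1) (nat_lit 4) (nat_lit 2) (nat_lit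 5) (nat_lit 2) (nat_lit 4) (nat_lit 346) (nat_lit 189) (nat_lit 185)) (XT.lf (nat_lit 0) (nat_lit 202820210142) (nat_lit 76) (nat_lit 35441488270) (nat_lit 76) (nat_lit 34950092544) (nat_lit 1) (nat_lit 4) (nat_lit 2) (nat_lit 5) (nat_lit 2) (nat_lit 4) (nat_lit 347) (nat_lit 189) (nat_lit 184))) (XT.nd (nat_lit 78) (nat_lit 0) (nat_lit 0) (XT.lf (nat_lit 0) (nat_lit 214670365980) (nat_lit 76) (nat_lit 36363818812) (nat_lit 76) (nat_lit 35787727617) (nat_lit 1) (nat_lit 4) (nat_lit 2) (nat_lit 5) (nat_lit 2) (nat_lit 4) (nat_lit 348) (nat_lit 189) (nat_lit 183)) (XT.nd (nat_lit 78) (nat_lit 0) (nat_lit 0) (XT.lf (nat_lit 0) (nat_lit 227063814143) (nat_lit 76) (nat_lit 37353466293) (nat_lit 76) (nat_lit 36696712746) (nat_lit 1) (nat_lit 4) (nat_lit 2) (nat_lit 5) (nat_lit 2) (nat_lit 4) (nat_lit 349) (nat_lit 189) (nat_lit 182)) (XT.lf (nat_lit 0) (nat_lit 240030062841) (nat_lit 76)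 (nat_lit 38412787016) (nat_lit 76) (nat_lit 37679212182) (nat_lit 1) (nat_lit 4) (nat_lit 2) (nat_lit 5) (nat_lit 2) (nat_lit 4) (nat_lit 350) (nat_lit 189) (nat_lit 181))))))) (XT.nd (nat_lit 624) (nat_lit 0) (nat_lit 0) (XT.nd (nat_lit 312) (nat_lit 0) (nat_lit 0) (XT.nd (nat_lit 156) (nat_lit 0) (nat_lit 0) (XT.nd (nat_lit 78) (nat_lit 0) (nat_lit 0) (XT.lf (nat_lit 0) (nat_lit 253599984095) (nat_lit 76) (nat_lit 39544303173) (nat_lit 76) (nat_lit 38737565209) (nat_lit 1) (nat_lit 4) (nat_lit 2) (nat_lit 5) (nat_lit 2) (nat_lit 4) (nat_lit 351) (nat_lit 189) (nat_lit 180)) (XT.lf (nat_lit 0) (nat_lit 267805887241) (nat_lit 76) (nat_lit 40750708850) (nat_lit 76) (nat_lit 39874291715) (nat_lit 1) (nat_lit 4) (nat_lit 2) (nat_lit 5) (nat_lit 2) (nat_lit 4) (nat_lit 352) (nat_lit 189) (nat_lit 179))) (XT.nd (nat_lit 78) (nat_lit 0) (nat_lit 0) (XT.lf (nat_lit 0) (nat_lit 282681595857)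 (nat_lit 76) (nat_lit 42034876443) (nat_lit 76) (nat_lit 41092098191) (nat_lit 1) (nat_lit 4) (nat_lit 2) (nat_lit 5) (nat_lit 2) (nat_lit 4) (nat_lit 353) (nat_lit 189) (nat_lit 178)) (XT.lf (nat_lit 0) (nat_lit 298262528299) (nat_lit 76) (nat_lit 43399863492) (nat_lit 76) (nat_lit 42393884177) (nat_lit 1) (nat_lit 4) (nat_lit 2) (nat_lit 5) (nat_lit 2) (nat_lit 4) (nat_lit 354) (nat_lit 189) (nat_lit 177)))) (XT.nd (nat_lit 156) (nat_lit 0) (nat_lit 0) (XT.nd (nat_lit 78) (nat_lit 0) (nat_lit 0) (XT.lf (nat_lit 0) (nat_lit 314585782024) (nat_lit 76) (nat_lit 44848919967) (nat_lit 76) (nat_lit 43782749164) (nat_lit 1) (nat_lit 4) (nat_lit 2) (nat_lit 5) (nat_lit 2) (nat_lit 4) (nat_lit 355) (nat_lit 189) (nat_lit 176)) (XT.lf (nat_lit 0) (nat_lit 331690221921) (nat_lit 76) (nat_lit 46385496003) (nat_lit 76) (nat_lit 45261999973) (nat_lit 1) (nat_lit 4) (nat_lit 2) (nat_lit 5) (nat_lit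 2) (nat_lit 4) (nat_lit 356) (nat_lit 189) (nat_lit 175))) (XT.nd (nat_lit 78) (nat_lit 0) (nat_lit 0) (XT.lf (nat_lit 0) (nat_lit 349616572848) (nat_lit 76) (nat_lit 48013250114) (nat_lit 76) (nat_lit 46835158629) (nat_lit 1) (nat_lit 4) (nat_lit 2) (nat_lit 5) (nat_lit 2) (nat_lit 4) (nat_lit 357) (nat_lit 189) (nat_lit 174)) (XT.lf (nat_lit 0) (nat_lit 368407516593) (nat_lit 76) (nat_lit 49736057904) (nat_lit 76) (nat_lit 48505970749) (nat_lit 1) (nat_lit 4) (nat_lit 2) (nat_lit 5) (nat_lit 2) (nat_lit 4) (nat_lit 358) (nat_lit 189) (nat_lit 173))))) (XT.nd (nat_lit 312) (nat_lit 0) (nat_lit 0) (XT.nd (nat_lit 156) (nat_lit 0) (nat_lit 0) (XT.nd (nat_lit 78) (nat_lit 0) (nat_lit 0) (XT.lf (nat_lit 0) (nat_lit 388107793498) (nat_lit 76) (nat_lit 51558021298) (nat_lit 76) (nat_lit 50278414456) (nat_lit 1) (nat_lit 4) (nat_lit 2) (nat_lit 5) (nat_lit 2) (nat_lit 4) (nat_lit 359) (nat_lit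 189) (nat_lit 172)) (XT.lf (nat_lit 0) (nat_lit 408764308983) (nat_lit 76) (nat_lit 53483478302) (nat_lit 76) (nat_lit 52156709854) (nat_lit 1) (nat_lit 4) (nat_lit 2) (nat_lit 5) (nat_lit 2) (nat_lit 4) (nat_lit 360) (nat_lit 189) (nat_lit 171))) (XT.nd (nat_lit 78) (nat_lit 0) (nat_lit 0) (XT.lf (nat_lit 0) (nat_lit 430426245230) (nat_lit 76) (nat_lit 55517013340) (nat_lit 76) (nat_lit 54145329076) (nat_lit 1) (nat_lit 4) (nat_lit 2) (nat_lit 5) (nat_lit 2) (nat_lit 4) (nat_lit 361) (nat_lit 189) (nat_lit 170)) (XT.lf (nat_lit 0) (nat_lit 453145178276) (nat_lit 76) (nat_lit 57663468160) (nat_lit 76) (nat_lit 56249006929) (nat_lit 1) (nat_lit 4) (nat_lit 2) (nat_lit 5) (nat_lit 2) (nat_lit 4) (nat_lit 362) (nat_lit 189) (nat_lit 169)))) (XT.nd (nat_lit 35802) (nat_lit 0) (nat_lit 0) (XT.nd (nat_lit 35724) (nat_lit 0) (nat_lit 0) (XT.lf (nat_lit 0) (nat_lit 476975200819) (nat_lit 76)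 (nat_lit 59927953370) (nat_lit 76) (nat_lit 58472752170) (nat_lit 1) (nat_lit 4) (nat_lit 2) (nat_lit 5) (nat_lit 2) (nat_lit 4) (nat_lit 363) (nat_lit 189) (nat_lit 168)) (XT.lf (nat_lit 0) (nat_lit 66445854131) (nat_lit 76) (nat_lit 15401742280) (nat_lit 76) (nat_lit 15401742280) (nat_lit 1) (nat_lit 4) (nat_lit 2) (nat_lit 5) (nat_lit 2) (nat_lit 4) (nat_lit 340) (nat_lit 190) (nat_lit 190))) (XT.nd (nat_lit 78) (nat_lit 0) (nat_lit 0) (XT.lf (nat_lit 0) (nat_lit 141630717313) (nat_lit 76) (nat_lit 31322274637) (nat_lit 76) (nat_lit 31208774608) (nat_lit 1) (nat_lit 4) (nat_lit 2) (nat_lit 5) (nat_lit 2) (nat_lit 4) (nat_lit 341) (nat_lit 190) (nat_lit 189)) (XT.nd (nat_lit 78) (nat_lit 0) (nat_lit 0) (XT.lf (nat_lit 0) (nat_lit 150740723383) (nat_lit 76) (nat_lit 31895414796) (nat_lit 76) (nat_lit 31673819502) (nat_lit 1) (nat_lit 4) (nat_lit 2) (nat_lit 5) (nat_lit 2) (nat_lit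 4) (nat_lit 342) (nat_lit 190) (nat_lit 188)) (XT.lf (nat_lit 0) (nat_lit 160243416964) (nat_lit 76) (nat_lit 32524269658) (nat_lit 76) (nat_lit 32199726492) (nat_lit 1) (nat_lit 4) (nat_lit 2) (nat_lit 5) (nat_lit 2) (nat_lit 4) (nat_lit 343) (nat_lit 190) (nat_lit 187))))))))
noncomputable def xc4 : XT := (XT.nd (nat_lit 1248) (nat_lit 0) (nat_lit 0) (XT.nd (nat_lit 624) (nat_lit 0) (nat_lit 0) (XT.nd (nat_lit 312) (nat_lit 0) (nat_lit 0) (XT.nd (nat_lit 156) (nat_lit 0) (nat_lit 0) (XT.nd (nat_lit 78) (nat_lit 0) (nat_lit 0) (XT.lf (nat_lit 0) (nat_lit 170161423517) (nat_lit 76) (nat_lit 33210336495) (nat_lit 76) (nat_lit 32787747737) (nat_lit 1) (nat_lit 4) (nat_lit 2) (nat_lit 5) (nat_lit 2) (nat_lit 4) (nat_lit 344) (nat_lit 190) (nat_lit 186)) (XT.lf (nat_lit 0) (nat_lit 180518357342) (nat_lit 76) (nat_lit 33955248801) (nat_lit 76) (nat_lit 33439283289) (nat_lit 1) (nat_lit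 4) (nat_lit 2) (nat_lit 5) (nat_lit 2) (nat_lit 4) (nat_lit 345) (nat_lit 190) (nat_lit 185))) (XT.nd (nat_lit 78) (nat_lit 0) (nat_lit 0) (XT.lf (nat_lit 0) (nat_lit 191338877807) (nat_lit 76) (nat_lit 34760780176) (nat_lit 76) (nat_lit 34155884421) (nat_lit 1) (nat_lit 4) (nat_lit 2) (nat_lit 5) (nat_lit 2) (nat_lit 4) (nat_lit 346) (nat_lit 190) (nat_lit 184)) (XT.lf (nat_lit 0) (nat_lit 202648748054) (nat_lit 76) (nat_lit 35628848552) (nat_lit 76) (nat_lit 34939257328) (nat_lit 1) (nat_lit 4) (nat_lit 2) (nat_lit 5) (nat_lit 2) (nat_lit 4) (nat_lit 347) (nat_lit 190) (nat_lit 183)))) (XT.nd (nat_lit 156) (nat_lit 0) (nat_lit 0) (XT.nd (nat_lit 78) (nat_lit 0) (nat_lit 0) (XT.lf (nat_lit 0) (nat_lit 214474896347) (nat_lit 76) (nat_lit 36561520758) (nat_lit 76) (nat_lit 35791267183) (nat_lit 1) (nat_lit 4) (nat_lit 2) (nat_lit 5) (nat_lit 2) (nat_lit 4) (nat_lit 348) (nat_lit 190)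 (nat_lit 182)) (XT.lf (nat_lit 0) (nat_lit 226845480182) (nat_lit 76) (nat_lit 37561017443) (nat_lit 76) (nat_lit 36713942581) (nat_lit 1) (nat_lit 4) (nat_lit 2) (nat_lit 5) (nat_lit 2) (nat_lit 4) (nat_lit 349) (nat_lit 190) (nat_lit 181))) (XT.nd (nat_lit 78) (nat_lit 0) (nat_lit 0) (XT.lf (nat_lit 0) (nat_lit 239789953329) (nat_lit 76) (nat_lit 38629718360) (nat_lit 76) (nat_lit 37709480367) (nat_lit 1) (nat_lit 4) (nat_lit 2) (nat_lit 5) (nat_lit 2) (nat_lit 4) (nat_lit 350) (nat_lit 190) (nat_lit 180)) (XT.lf (nat_lit 0) (nat_lit 253339135963) (nat_lit 76) (nat_lit 39770168035) (nat_lit 76) (nat_lit 38780250871) (nat_lit 1) (nat_lit 4) (nat_lit 2) (nat_lit 5) (nat_lit 2) (nat_lit 4) (nat_lit 351) (nat_lit 190) (nat_lit 179))))) (XT.nd (nat_lit 312) (nat_lit 0) (nat_lit 0) (XT.nd (nat_lit 156) (nat_lit 0) (nat_lit 0) (XT.nd (nat_lit 78) (nat_lit 0) (nat_lit 0) (XT.lf (nat_lit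 0) (nat_lit 267525288043) (nat_lit 76) (nat_lit 40985081825) (nat_lit 76) (nat_lit 39928803545) (nat_lit 1) (nat_lit 4) (nat_lit 2) (nat_lit 5) (nat_lit 2) (nat_lit 4) (nat_lit 352) (nat_lit 190) (nat_lit 178)) (XT.lf (nat_lit 0) (nat_lit 282382186120) (nat_lit 76) (nat_lit 42277352382) (nat_lit 76) (nat_lit 41157873039) (nat_lit 1) (nat_lit 4) (nat_lit 2) (nat_lit 5) (nat_lit 2) (nat_lit 4) (nat_lit 353) (nat_lit 190) (nat_lit 177))) (XT.nd (nat_lit 78) (nat_lit 0) (nat_lit 0) (XT.lf (nat_lit 0) (nat_lit 297945203762) (nat_lit 76) (nat_lit 43650056541) (nat_lit 76) (nat_lit 42470385709) (nat_lit 1) (nat_lit 4) (nat_lit 2) (nat_lit 5) (nat_lit 2) (nat_lit 4) (nat_lit 354) (nat_lit 190) (nat_lit 176)) (XT.lf (nat_lit 0) (nat_lit 314251395773) (nat_lit 76) (nat_lit 45106462644) (nat_lit 76) (nat_lit 43869466585) (nat_lit 1) (nat_lit 4) (nat_lit 2) (nat_lit 5) (nat_lit 2) (nat_lit 4)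 (nat_lit 355) (nat_lit 190) (nat_lit 175)))) (XT.nd (nat_lit 156) (nat_lit 0) (nat_lit 0) (XT.nd (nat_lit 78) (nat_lit 0) (nat_lit 0) (XT.lf (nat_lit 0) (nat_lit 331339586419) (nat_lit 76) (nat_lit 46650038325) (nat_lit 76) (nat_lit 45358446811) (nat_lit 1) (nat_lit 4) (nat_lit 2) (nat_lit 5) (nat_lit 2) (nat_lit 4) (nat_lit 356) (nat_lit 190) (nat_lit 174)) (XT.lf (nat_lit 0) (nat_lit 349250461868) (nat_lit 76) (nat_lit 48284458764) (nat_lit 76) (nat_lit 46940871580) (nat_lit 1) (nat_lit 4) (nat_lit 2) (nat_lit 5) (nat_lit 2) (nat_lit 4) (nat_lit 357) (nat_lit 190) (nat_lit 173))) (XT.nd (nat_lit 78) (nat_lit 0) (nat_lit 0) (XT.lf (nat_lit 0) (nat_lit 368026667063) (nat_lit 76) (nat_lit 50013615439) (nat_lit 76) (nat_lit 48620508569) (nat_lit 1) (nat_lit 4) (nat_lit 2) (nat_lit 5) (nat_lit 2) (nat_lit 4) (nat_lit 358) (nat_lit 190) (nat_lit 172)) (XT.lf (nat_lit 0) (nat_lit 387712907254)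 (nat_lit 76) (nat_lit 51841625390) (nat_lit 76) (nat_lit 50401356913) (nat_lit 1) (nat_lit 4) (nat_lit 2) (nat_lit 5) (nat_lit 2) (nat_lit 4) (nat_lit 359) (nat_lit 190) (nat_lit 171)))))) (XT.nd (nat_lit 36114) (nat_lit 0) (nat_lit 0) (XT.nd (nat_lit 35802) (nat_lit 0) (nat_lit 0) (XT.nd (nat_lit 156) (nat_lit 0) (nat_lit 0) (XT.nd (nat_lit 78) (nat_lit 0) (nat_lit 0) (XT.lf (nat_lit 0) (nat_lit 408356054440) (nat_lit 76) (nat_lit 53772841020) (nat_lit 76) (nat_lit 52287656728) (nat_lit 1) (nat_lit 4) (nat_lit 2) (nat_lit 5) (nat_lit 2) (nat_lit 4) (nat_lit 360) (nat_lit 190) (nat_lit 170)) (XT.lf (nat_lit 0) (nat_lit 430005258973) (nat_lit 76) (nat_lit 55811860463) (nat_lit 76) (nat_lit 54283899203) (nat_lit 1) (nat_lit 4) (nat_lit 2) (nat_lit 5) (nat_lit 2) (nat_lit 4) (nat_lit 361) (nat_lit 190) (nat_lit 169))) (XT.nd (nat_lit 78) (nat_lit 0) (nat_lit 0) (XT.lf (nat_lit 0) (nat_lit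 452712066578) (nat_lit 76) (nat_lit 57963538526) (nat_lit 76) (nat_lit 56394837298) (nat_lit 1) (nat_lit 4) (nat_lit 2) (nat_lit 5) (nat_lit 2) (nat_lit 4) (nat_lit 362) (nat_lit 190) (nat_lit 168)) (XT.lf (nat_lit 0) (nat_lit 476530541082) (nat_lit 76) (nat_lit 60232998253) (nat_lit 76) (nat_lit 58625497055) (nat_lit 1) (nat_lit 4) (nat_lit 2) (nat_lit 5) (nat_lit 2) (nat_lit 4) (nat_lit 363) (nat_lit 190) (nat_lit 167)))) (XT.nd (nat_lit 156) (nat_lit 0) (nat_lit 0) (XT.nd (nat_lit 78) (nat_lit 0) (nat_lit 0) (XT.lf (nat_lit 0) (nat_lit 58239878214) (nat_lit 76) (nat_lit 15014017972) (nat_lit 76) (nat_lit 15014017972) (nat_lit 1) (nat_lit 4) (nat_lit 2) (nat_lit 5) (nat_lit 2) (nat_lit 4) (nat_lit 338) (nat_lit 191) (nat_lit 191)) (XT.lf (nat_lit 0) (nat_lit 124502889068) (nat_lit 76) (nat_lit 30456984382) (nat_lit 76) (nat_lit 30337809352) (nat_lit 1) (nat_lit 4) (nat_lit 2) (nat_lit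 5) (nat_lit 2) (nat_lit 4) (nat_lit 339) (nat_lit 191) (nat_lit 190))) (XT.nd (nat_lit 78) (nat_lit 0) (nat_lit 0) (XT.lf (nat_lit 0) (nat_lit 132857927237) (nat_lit 76) (nat_lit 30937211350) (nat_lit 76) (nat_lit 30704536291) (nat_lit 1) (nat_lit 4) (nat_lit 2) (nat_lit 5) (nat_lit 2) (nat_lit 4) (nat_lit 340) (nat_lit 191) (nat_lit 189)) (XT.lf (nat_lit 0) (nat_lit 141564763881) (nat_lit 76) (nat_lit 31469860246) (nat_lit 76) (nat_lit 31129089922) (nat_lit 1) (nat_lit 4) (nat_lit 2) (nat_lit 5) (nat_lit 2) (nat_lit 4) (nat_lit 341) (nat_lit 191) (nat_lit 188))))) (XT.nd (nat_lit 312) (nat_lit 0) (nat_lit 0) (XT.nd (nat_lit 156) (nat_lit 0) (nat_lit 0) (XT.nd (nat_lit 78) (nat_lit 0) (nat_lit 0) (XT.lf (nat_lit 0) (nat_lit 150644129564) (nat_lit 76) (nat_lit 32056199280) (nat_lit 76) (nat_lit 31612481085) (nat_lit 1) (nat_lit 4) (nat_lit 2) (nat_lit 5) (nat_lit 2) (nat_lit 4) (nat_lit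 342) (nat_lit 191) (nat_lit 187)) (XT.lf (nat_lit 0) (nat_lit 160117641824) (nat_lit 76) (nat_lit 32697624500) (nat_lit 76) (nat_lit 32155860712) (nat_lit 1) (nat_lit 4) (nat_lit 2) (nat_lit 5) (nat_lit 2) (nat_lit 4) (nat_lit 343) (nat_lit 191) (nat_lit 186))) (XT.nd (nat_lit 78) (nat_lit 0) (nat_lit 0) (XT.lf (nat_lit 0) (nat_lit 170007856643) (nat_lit 76) (nat_lit 33395663106) (nat_lit 76) (nat_lit 32760522564) (nat_lit 1) (nat_lit 4) (nat_lit 2) (nat_lit 5) (nat_lit 2) (nat_lit 4) (nat_lit 344) (nat_lit 191) (nat_lit 185)) (XT.lf (nat_lit 0) (nat_lit 180338322150) (nat_lit 76) (nat_lit 34151977097) (nat_lit 76) (nat_lit 33427906312) (nat_lit 1) (nat_lit 4) (nat_lit 2) (nat_lit 5) (nat_lit 2) (nat_lit 4) (nat_lit 345) (nat_lit 191) (nat_lit 184)))) (XT.nd (nat_lit 156) (nat_lit 0) (nat_lit 0) (XT.nd (nat_lit 78) (nat_lit 0) (nat_lit 0) (XT.lf (nat_lit 0) (nat_lit 191133634693) (nat_lit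 76) (nat_lit 34968367219) (nat_lit 76) (nat_lit 34159600965) (nat_lit 1) (nat_lit 4) (nat_lit 2) (nat_lit 5) (nat_lit 2) (nat_lit 4) (nat_lit 346) (nat_lit 191) (nat_lit 183)) (XT.lf (nat_lit 0) (nat_lit 202419497395) (nat_lit 76) (nat_lit 35846777259) (nat_lit 76) (nat_lit 34957348654) (nat_lit 1) (nat_lit 4) (nat_lit 2) (nat_lit 5) (nat_lit 2) (nat_lit 4) (nat_lit 347) (nat_lit 191) (nat_lit 182))) (XT.nd (nat_lit 78) (nat_lit 0) (nat_lit 0) (XT.lf (nat_lit 0) (nat_lit 214222781360) (nat_lit 76) (nat_lit 36789298669) (nat_lit 76) (nat_lit 35823048777) (nat_lit 1) (nat_lit 4) (nat_lit 2) (nat_lit 5) (nat_lit 2) (nat_lit 4) (nat_lit 348) (nat_lit 191) (nat_lit 181)) (XT.nd (nat_lit 78) (nat_lit 0) (nat_lit 0) (XT.lf (nat_lit 0) (nat_lit 226571589644) (nat_lit 76) (nat_lit 37798175548) (nat_lit 76) (nat_lit 36758762525) (nat_lit 1) (nat_lit 4) (nat_lit 2) (nat_lit 5) (nat_lit 2) (nat_lit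 4) (nat_lit 349) (nat_lit 191) (nat_lit 180)) (XT.lf (nat_lit 0) (nat_lit 239495324171) (nat_lit 76) (nat_lit 38875809983) (nat_lit 76) (nat_lit 37766717789) (nat_lit 1) (nat_lit 4) (nat_lit 2) (nat_lit 5) (nat_lit 2) (nat_lit 4) (nat_lit 350) (nat_lit 191) (nat_lit 179))))))))
noncomputable def xc5 : XT := (XT.nd (nat_lit 36660) (nat_lit 0) (nat_lit 0) (XT.nd (nat_lit 624) (nat_lit 0) (nat_lit 0) (XT.nd (nat_lit 312) (nat_lit 0) (nat_lit 0) (XT.nd (nat_lit 156) (nat_lit 0) (nat_lit 0) (XT.nd (nat_lit 78) (nat_lit 0) (nat_lit 0) (XT.lf (nat_lit 0) (nat_lit 253024755739) (nat_lit 76) (nat_lit 40024767772) (nat_lit 76) (nat_lit 38849314461) (nat_lit 1) (nat_lit 4) (nat_lit 2) (nat_lit 5) (nat_lit 2) (nat_lit 4) (nat_lit 351) (nat_lit 191) (nat_lit 178)) (XT.lf (nat_lit 0) (nat_lit 267192097279) (nat_lit 76) (nat_lit 41247784526) (nat_lit 76) (nat_lit 40009130153) (nat_lit 1) (nat_lit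 4) (nat_lit 2) (nat_lit 5) (nat_lit 2) (nat_lit 4) (nat_lit 352) (nat_lit 191) (nat_lit 177))) (XT.nd (nat_lit 78) (nat_lit 0) (nat_lit 0) (XT.lf (nat_lit 0) (nat_lit 282031080556) (nat_lit 76) (nat_lit 42547772192) (nat_lit 76) (nat_lit 41248926330) (nat_lit 1) (nat_lit 4) (nat_lit 2) (nat_lit 5) (nat_lit 2) (nat_lit 4) (nat_lit 353) (nat_lit 191) (nat_lit 176)) (XT.lf (nat_lit 0) (nat_lit 297577036484) (nat_lit 76) (nat_lit 43927825978) (nat_lit 76) (nat_lit 42571654889) (nat_lit 1) (nat_lit 4) (nat_lit 2) (nat_lit 5) (nat_lit 2) (nat_lit 4) (nat_lit 354) (nat_lit 191) (nat_lit 175)))) (XT.nd (nat_lit 156) (nat_lit 0) (nat_lit 0) (XT.nd (nat_lit 78) (nat_lit 0) (nat_lit 0) (XT.lf (nat_lit 0) (nat_lit 313866979244) (nat_lit 76) (nat_lit 45391231727) (nat_lit 76) (nat_lit 43980465183) (nat_lit 1) (nat_lit 4) (nat_lit 2) (nat_lit 5) (nat_lit 2) (nat_lit 4) (nat_lit 355) (nat_lit 191)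 (nat_lit 174)) (XT.lf (nat_lit 0) (nat_lit 330939694413) (nat_lit 76) (nat_lit 46941473737) (nat_lit 76) (nat_lit 45478711522) (nat_lit 1) (nat_lit 4) (nat_lit 2) (nat_lit 5) (nat_lit 2) (nat_lit 4) (nat_lit 356) (nat_lit 191) (nat_lit 173))) (XT.nd (nat_lit 78) (nat_lit 0) (nat_lit 0) (XT.lf (nat_lit 0) (nat_lit 348835831312) (nat_lit 76) (nat_lit 48582243061) (nat_lit 76) (nat_lit 47069961160) (nat_lit 1) (nat_lit 4) (nat_lit 2) (nat_lit 5) (nat_lit 2) (nat_lit 4) (nat_lit 357) (nat_lit 191) (nat_lit 172)) (XT.lf (nat_lit 0) (nat_lit 367597999793) (nat_lit 76) (nat_lit 50317446293) (nat_lit 76) (nat_lit 48758002786) (nat_lit 1) (nat_lit 4) (nat_lit 2) (nat_lit 5) (nat_lit 2) (nat_lit 4) (nat_lit 358) (nat_lit 191) (nat_lit 171))))) (XT.nd (nat_lit 312) (nat_lit 0) (nat_lit 0) (XT.nd (nat_lit 156) (nat_lit 0) (nat_lit 0) (XT.nd (nat_lit 78) (nat_lit 0) (nat_lit 0) (XT.lf (nat_lit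 0) (nat_lit 387270871684) (nat_lit 76) (nat_lit 52151214869) (nat_lit 76) (nat_lit 50546855546) (nat_lit 1) (nat_lit 4) (nat_lit 2) (nat_lit 5) (nat_lit 2) (nat_lit 4) (nat_lit 359) (nat_lit 191) (nat_lit 170)) (XT.lf (nat_lit 0) (nat_lit 407901287157) (nat_lit 76) (nat_lit 54087914904) (nat_lit 76) (nat_lit 52440778615) (nat_lit 1) (nat_lit 4) (nat_lit 2) (nat_lit 5) (nat_lit 2) (nat_lit 4) (nat_lit 360) (nat_lit 191) (nat_lit 169))) (XT.nd (nat_lit 78) (nat_lit 0) (nat_lit 0) (XT.lf (nat_lit 0) (nat_lit 429538366249) (nat_lit 76) (nat_lit 56132157590) (nat_lit 76) (nat_lit 54444281332) (nat_lit 1) (nat_lit 4) (nat_lit 2) (nat_lit 5) (nat_lit 2) (nat_lit 4) (nat_lit 361) (nat_lit 191) (nat_lit 168)) (XT.lf (nat_lit 0) (nat_lit 452233625814) (nat_lit 76) (nat_lit 58288810171) (nat_lit 76) (nat_lit 56562133942) (nat_lit 1) (nat_lit 4) (nat_lit 2) (nat_lit 5) (nat_lit 2) (nat_lit 4)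 (nat_lit 362) (nat_lit 191) (nat_lit 167)))) (XT.nd (nat_lit 35490) (nat_lit 0) (nat_lit 0) (XT.nd (nat_lit 35412) (nat_lit 0) (nat_lit 0) (XT.lf (nat_lit 0) (nat_lit 476041102185) (nat_lit 76) (nat_lit 60563007533) (nat_lit 76) (nat_lit 58799378952) (nat_lit 1) (nat_lit 4) (nat_lit 2) (nat_lit 5) (nat_lit 2) (nat_lit 4) (nat_lit 363) (nat_lit 191) (nat_lit 166)) (XT.lf (nat_lit 0) (nat_lit 50695392647) (nat_lit 76) (nat_lit 14714549780) (nat_lit 76) (nat_lit 14714549780) (nat_lit 1) (nat_lit 4) (nat_lit 2) (nat_lit 5) (nat_lit 2) (nat_lit 4) (nat_lit 336) (nat_lit 192) (nat_lit 192))) (XT.nd (nat_lit 78) (nat_lit 0) (nat_lit 0) (XT.lf (nat_lit 0) (nat_lit 108769426619) (nat_lit 76) (nat_lit 29774478512) (nat_lit 76) (nat_lit 29649344730) (nat_lit 1) (nat_lit 4) (nat_lit 2) (nat_lit 5) (nat_lit 2) (nat_lit 4) (nat_lit 337) (nat_lit 192) (nat_lit 191)) (XT.nd (nat_lit 78) (nat_lit 0)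 (nat_lit 0) (XT.lf (nat_lit 0) (nat_lit 116444286350) (nat_lit 76) (nat_lit 30168449074) (nat_lit 76) (nat_lit 29924140262) (nat_lit 1) (nat_lit 4) (nat_lit 2) (nat_lit 5) (nat_lit 2) (nat_lit 4) (nat_lit 338) (nat_lit 192) (nat_lit 190)) (XT.lf (nat_lit 0) (nat_lit 124433637964) (nat_lit 76) (nat_lit 30611949272) (nat_lit 76) (nat_lit 30254140431) (nat_lit 1) (nat_lit 4) (nat_lit 2) (nat_lit 5) (nat_lit 2) (nat_lit 4) (nat_lit 339) (nat_lit 192) (nat_lit 189))))))) (XT.nd (nat_lit 624) (nat_lit 0) (nat_lit 0) (XT.nd (nat_lit 312) (nat_lit 0) (nat_lit 0) (XT.nd (nat_lit 156) (nat_lit 0) (nat_lit 0) (XT.nd (nat_lit 78) (nat_lit 0) (nat_lit 0) (XT.lf (nat_lit 0) (nat_lit 132756503726) (nat_lit 76) (nat_lit 31106035059) (nat_lit 76) (nat_lit 30640130953) (nat_lit 1) (nat_lit 4) (nat_lit 2) (nat_lit 5) (nat_lit 2) (nat_lit 4) (nat_lit 340) (nat_lit 192) (nat_lit 188)) (XT.lf (nat_lit 0)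 (nat_lit 141432699984) (nat_lit 76) (nat_lit 31651882830) (nat_lit 76) (nat_lit 31083030852) (nat_lit 1) (nat_lit 4) (nat_lit 2) (nat_lit 5) (nat_lit 2) (nat_lit 4) (nat_lit 341) (nat_lit 192) (nat_lit 187))) (XT.nd (nat_lit 78) (nat_lit 0) (nat_lit 0) (XT.lf (nat_lit 0) (nat_lit 150482884346) (nat_lit 76) (nat_lit 32250792222) (nat_lit 76) (nat_lit 31583894652) (nat_lit 1) (nat_lit 4) (nat_lit 2) (nat_lit 5) (nat_lit 2) (nat_lit 4) (nat_lit 342) (nat_lit 192) (nat_lit 186)) (XT.lf (nat_lit 0) (nat_lit 159928604873) (nat_lit 76) (nat_lit 32904189210) (nat_lit 76) (nat_lit 32143914886) (nat_lit 1) (nat_lit 4) (nat_lit 2) (nat_lit 5) (nat_lit 2) (nat_lit 4) (nat_lit 343) (nat_lit 192) (nat_lit 185)))) (XT.nd (nat_lit 156) (nat_lit 0) (nat_lit 0) (XT.nd (nat_lit 78) (nat_lit 0) (nat_lit 0) (XT.lf (nat_lit 0) (nat_lit 169792351373) (nat_lit 76) (nat_lit 33613629501) (nat_lit 76) (nat_lit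 32764424935) (nat_lit 1) (nat_lit 4) (nat_lit 2) (nat_lit 5) (nat_lit 2) (nat_lit 4) (nat_lit 344) (nat_lit 192) (nat_lit 184)) (XT.lf (nat_lit 0) (nat_lit 180097608958) (nat_lit 76) (nat_lit 34380802239) (nat_lit 76) (nat_lit 33446902204) (nat_lit 1) (nat_lit 4) (nat_lit 2) (nat_lit 5) (nat_lit 2) (nat_lit 4) (nat_lit 345) (nat_lit 192) (nat_lit 183))) (XT.nd (nat_lit 78) (nat_lit 0) (nat_lit 0) (XT.lf (nat_lit 0) (nat_lit 190868913956) (nat_lit 76) (nat_lit 35207534026) (nat_lit 76) (nat_lit 34192971639) (nat_lit 1) (nat_lit 4) (nat_lit 2) (nat_lit 5) (nat_lit 2) (nat_lit 4) (nat_lit 346) (nat_lit 192) (nat_lit 182)) (XT.lf (nat_lit 0) (nat_lit 202131912330) (nat_lit 76) (nat_lit 36095793270) (nat_lit 76) (nat_lit 35004409596) (nat_lit 1) (nat_lit 4) (nat_lit 2) (nat_lit 5) (nat_lit 2) (nat_lit 4) (nat_lit 347) (nat_lit 192) (nat_lit 181))))) (XT.nd (nat_lit 312) (nat_lit 0) (nat_lit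 0) (XT.nd (nat_lit 156) (nat_lit 0) (nat_lit 0) (XT.nd (nat_lit 78) (nat_lit 0) (nat_lit 0) (XT.lf (nat_lit 0) (nat_lit 213913420744) (nat_lit 76) (nat_lit 37047694874) (nat_lit 76) (nat_lit 35883148070) (nat_lit 1) (nat_lit 4) (nat_lit 2) (nat_lit 5) (nat_lit 2) (nat_lit 4) (nat_lit 348) (nat_lit 192) (nat_lit 180)) (XT.lf (nat_lit 0) (nat_lit 226241490408) (nat_lit 76) (nat_lit 38065505271) (nat_lit 76) (nat_lit 36831279295) (nat_lit 1) (nat_lit 4) (nat_lit 2) (nat_lit 5) (nat_lit 2) (nat_lit 4) (nat_lit 349) (nat_lit 192) (nat_lit 179))) (XT.nd (nat_lit 78) (nat_lit 0) (nat_lit 0) (XT.lf (nat_lit 0) (nat_lit 239145473869) (nat_lit 76) (nat_lit 39151647819) (nat_lit 76) (nat_lit 37851060727) (nat_lit 1) (nat_lit 4) (nat_lit 2) (nat_lit 5) (nat_lit 2) (nat_lit 4) (nat_lit 350) (nat_lit 192) (nat_lit 178)) (XT.lf (nat_lit 0) (nat_lit 252656094897) (nat_lit 76) (nat_lit 40308708572)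 (nat_lit 76) (nat_lit 38944920417) (nat_lit 1) (nat_lit 4) (nat_lit 2) (nat_lit 5) (nat_lit 2) (nat_lit 4) (nat_lit 351) (nat_lit 192) (nat_lit 177)))) (XT.nd (nat_lit 156) (nat_lit 0) (nat_lit 0) (XT.nd (nat_lit 78) (nat_lit 0) (nat_lit 0) (XT.lf (nat_lit 0) (nat_lit 266805521637) (nat_lit 76) (nat_lit 41539442436) (nat_lit 76) (nat_lit 40115462792) (nat_lit 1) (nat_lit 4) (nat_lit 2) (nat_lit 5) (nat_lit 2) (nat_lit 4) (nat_lit 352) (nat_lit 192) (nat_lit 176)) (XT.lf (nat_lit 0) (nat_lit 281627443201) (nat_lit 76) (nat_lit 42846779729) (nat_lit 76) (nat_lit 41365474859) (nat_lit 1) (nat_lit 4) (nat_lit 2) (nat_lit 5) (nat_lit 2) (nat_lit 4) (nat_lit 353) (nat_lit 192) (nat_lit 175))) (XT.nd (nat_lit 78) (nat_lit 0) (nat_lit 0) (XT.lf (nat_lit 0) (nat_lit 297157149878) (nat_lit 76) (nat_lit 44233833161) (nat_lit 76) (nat_lit 42697932836) (nat_lit 1) (nat_lit 4) (nat_lit 2) (nat_lit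 5) (nat_lit 2) (nat_lit 4) (nat_lit 354) (nat_lit 192) (nat_lit 174)) (XT.nd (nat_lit 78) (nat_lit 0) (nat_lit 0) (XT.lf (nat_lit 0) (nat_lit 313431617160) (nat_lit 76) (nat_lit 45703905238) (nat_lit 76) (nat_lit 44116009242) (nat_lit 1) (nat_lit 4) (nat_lit 2) (nat_lit 5) (nat_lit 2) (nat_lit 4) (nat_lit 355) (nat_lit 192) (nat_lit 173)) (XT.lf (nat_lit 0) (nat_lit 330489593779) (nat_lit 76) (nat_lit 47260496133) (nat_lit 76) (nat_lit 45623080450) (nat_lit 1) (nat_lit 4) (nat_lit 2) (nat_lit 5) (nat_lit 2) (nat_lit 4) (nat_lit 356) (nat_lit 192) (nat_lit 172))))))))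
noncomputable def xc6 : XT := (XT.nd (nat_lit 36504) (nat_lit 0) (nat_lit 0) (XT.nd (nat_lit 35802) (nat_lit 0) (nat_lit 0) (XT.nd (nat_lit 312) (nat_lit 0) (nat_lit 0) (XT.nd (nat_lit 156) (nat_lit 0) (nat_lit 0) (XT.nd (nat_lit 78) (nat_lit 0) (nat_lit 0) (XT.lf (nat_lit 0) (nat_lit 348371693964) (nat_lit 76) (nat_lit 48907312014) (nat_lit 76) (nat_lit 47222734725) (nat_lit 1) (nat_lit 4) (nat_lit 2) (nat_lit 5) (nat_lit 2) (nat_lit 4) (nat_lit 357) (nat_lit 192) (nat_lit 171)) (XT.lf (nat_lit 0) (nat_lit 367120494146) (nat_lit 76) (nat_lit 50648273871) (nat_lit 76) (nat_lit 48918780767) (nat_lit 1) (nat_lit 4) (nat_lit 2) (nat_lit 5) (nat_lit 2) (nat_lit 4) (nat_lit 358) (nat_lit 192) (nat_lit 170))) (XT.nd (nat_lit 78) (nat_lit 0) (nat_lit 0) (XT.lf (nat_lit 0) (nat_lit 386780634323) (nat_lit 76) (nat_lit 52487526853) (nat_lit 76) (nat_lit 50715256781) (nat_lit 1) (nat_lit 4) (nat_lit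 2) (nat_lit 5) (nat_lit 2) (nat_lit 4) (nat_lit 359) (nat_lit 192) (nat_lit 169)) (XT.lf (nat_lit 0) (nat_lit 407398924355) (nat_lit 76) (nat_lit 54429450131) (nat_lit 76) (nat_lit 52616440092) (nat_lit 1) (nat_lit 4) (nat_lit 2) (nat_lit 5) (nat_lit 2) (nat_lit 4) (nat_lit 360) (nat_lit 192) (nat_lit 168)))) (XT.nd (nat_lit 156) (nat_lit 0) (nat_lit 0) (XT.nd (nat_lit 78) (nat_lit 0) (nat_lit 0) (XT.lf (nat_lit 0) (nat_lit 429024455407) (nat_lit 76) (nat_lit 56478667335) (nat_lit 76) (nat_lit 54626857325) (nat_lit 1) (nat_lit 4) (nat_lit 2) (nat_lit 5) (nat_lit 2) (nat_lit 4) (nat_lit 361) (nat_lit 192) (nat_lit 167)) (XT.lf (nat_lit 0) (nat_lit 451708716839) (nat_lit 76) (nat_lit 58640057551) (nat_lit 76) (nat_lit 56751295188) (nat_lit 1) (nat_lit 4) (nat_lit 2) (nat_lit 5) (nat_lit 2) (nat_lit 4) (nat_lit 362) (nat_lit 192) (nat_lit 166))) (XT.nd (nat_lit 35256) (nat_lit 0) (nat_lit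 0) (XT.lf (nat_lit 0) (nat_lit 475505718798) (nat_lit 76) (nat_lit 60918766947) (nat_lit 76) (nat_lit 58994811868) (nat_lit 1) (nat_lit 4) (nat_lit 2) (nat_lit 5) (nat_lit 2) (nat_lit 4) (nat_lit 363) (nat_lit 192) (nat_lit 165)) (XT.lf (nat_lit 0) (nat_lit 43745827152) (nat_lit 76) (nat_lit 14497742947) (nat_lit 76) (nat_lit 14497742947) (nat_lit 1) (nat_lit 4) (nat_lit 2) (nat_lit 5) (nat_lit 2) (nat_lit 4) (nat_lit 334) (nat_lit 193) (nat_lit 193))))) (XT.nd (nat_lit 312) (nat_lit 0) (nat_lit 0) (XT.nd (nat_lit 156) (nat_lit 0) (nat_lit 0) (XT.nd (nat_lit 78) (nat_lit 0) (nat_lit 0) (XT.lf (nat_lit 0) (nat_lit 94290794183) (nat_lit 76) (nat_lit 29262880360) (nat_lit 76) (nat_lit 29131489890) (nat_lit 1) (nat_lit 4) (nat_lit 2) (nat_lit 5) (nat_lit 2) (nat_lit 4) (nat_lit 335) (nat_lit 193) (nat_lit 192)) (XT.lf (nat_lit 0) (nat_lit 101353541712) (nat_lit 76) (nat_lit 29576533347)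 (nat_lit 76) (nat_lit 29320009094) (nat_lit 1) (nat_lit 4) (nat_lit 2) (nat_lit 5) (nat_lit 2) (nat_lit 4) (nat_lit 336) (nat_lit 193) (nat_lit 191))) (XT.nd (nat_lit 78) (nat_lit 0) (nat_lit 0) (XT.lf (nat_lit 0) (nat_lit 108696712959) (nat_lit 76) (nat_lit 29937191646) (nat_lit 76) (nat_lit 29561492363) (nat_lit 1) (nat_lit 4) (nat_lit 2) (nat_lit 5) (nat_lit 2) (nat_lit 4) (nat_lit 337) (nat_lit 193) (nat_lit 190)) (XT.lf (nat_lit 0) (nat_lit 116337791664) (nat_lit 76) (nat_lit 30345713968) (nat_lit 76) (nat_lit 29856514657) (nat_lit 1) (nat_lit 4) (nat_lit 2) (nat_lit 5) (nat_lit 2) (nat_lit 4) (nat_lit 338) (nat_lit 193) (nat_lit 189)))) (XT.nd (nat_lit 156) (nat_lit 0) (nat_lit 0) (XT.nd (nat_lit 78) (nat_lit 0) (nat_lit 0) (XT.lf (nat_lit 0) (nat_lit 124294970872) (nat_lit 76) (nat_lit 30803072985) (nat_lit 76) (nat_lit 30205778409) (nat_lit 1) (nat_lit 4) (nat_lit 2) (nat_lit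 5) (nat_lit 2) (nat_lit 4) (nat_lit 339) (nat_lit 193) (nat_lit 188)) (XT.lf (nat_lit 0) (nat_lit 132587196248) (nat_lit 76) (nat_lit 31310357647) (nat_lit 76) (nat_lit 30610115199) (nat_lit 1) (nat_lit 4) (nat_lit 2) (nat_lit 5) (nat_lit 2) (nat_lit 4) (nat_lit 340) (nat_lit 193) (nat_lit 187))) (XT.nd (nat_lit 78) (nat_lit 0) (nat_lit 0) (XT.lf (nat_lit 0) (nat_lit 141234211184) (nat_lit 76) (nat_lit 31868775776) (nat_lit 76) (nat_lit 31070487735) (nat_lit 1) (nat_lit 4) (nat_lit 2) (nat_lit 5) (nat_lit 2) (nat_lit 4) (nat_lit 341) (nat_lit 193) (nat_lit 186)) (XT.nd (nat_lit 78) (nat_lit 0) (nat_lit 0) (XT.lf (nat_lit 0) (nat_lit 150256603813) (nat_lit 76) (nat_lit 32479656937) (nat_lit 76) (nat_lit 31587992142) (nat_lit 1) (nat_lit 4) (nat_lit 2) (nat_lit 5) (nat_lit 2) (nat_lit 4) (nat_lit 342) (nat_lit 193) (nat_lit 185)) (XT.lf (nat_lit 0) (nat_lit 159675856021) (nat_lit 76)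 (nat_lit 33144455610) (nat_lit 76) (nat_lit 32163860573) (nat_lit 1) (nat_lit 4) (nat_lit 2) (nat_lit 5) (nat_lit 2) (nat_lit 4) (nat_lit 343) (nat_lit 193) (nat_lit 184))))))) (XT.nd (nat_lit 624) (nat_lit 0) (nat_lit 0) (XT.nd (nat_lit 312) (nat_lit 0) (nat_lit 0) (XT.nd (nat_lit 156) (nat_lit 0) (nat_lit 0) (XT.nd (nat_lit 78) (nat_lit 0) (nat_lit 0) (XT.lf (nat_lit 0) (nat_lit 169514394599) (nat_lit 76) (nat_lit 33864754648) (nat_lit 76) (nat_lit 32799464142) (nat_lit 1) (nat_lit 4) (nat_lit 2) (nat_lit 5) (nat_lit 2) (nat_lit 4) (nat_lit 344) (nat_lit 193) (nat_lit 183)) (XT.lf (nat_lit 0) (nat_lit 179795644640) (nat_lit 76) (nat_lit 34642269051) (nat_lit 76) (nat_lit 33496316193) (nat_lit 1) (nat_lit 4) (nat_lit 2) (nat_lit 5) (nat_lit 2) (nat_lit 4) (nat_lit 345) (nat_lit 193) (nat_lit 182))) (XT.nd (nat_lit 78) (nat_lit 0) (nat_lit 0) (XT.lf (nat_lit 0) (nat_lit 190544085309)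 (nat_lit 76) (nat_lit 35478850041) (nat_lit 76) (nat_lit 34256075897) (nat_lit 1) (nat_lit 4) (nat_lit 2) (nat_lit 5) (nat_lit 2) (nat_lit 4) (nat_lit 346) (nat_lit 193) (nat_lit 181)) (XT.lf (nat_lit 0) (nat_lit 201785308133) (nat_lit 76) (nat_lit 36376489479) (nat_lit 76) (nat_lit 35080552204) (nat_lit 1) (nat_lit 4) (nat_lit 2) (nat_lit 5) (nat_lit 2) (nat_lit 4) (nat_lit 347) (nat_lit 193) (nat_lit 180)))) (XT.nd (nat_lit 156) (nat_lit 0) (nat_lit 0) (XT.nd (nat_lit 78) (nat_lit 0) (nat_lit 0) (XT.lf (nat_lit 0) (nat_lit 213546077927) (nat_lit 76) (nat_lit 37337324602) (nat_lit 76) (nat_lit 35971708155) (nat_lit 1) (nat_lit 4) (nat_lit 2) (nat_lit 5) (nat_lit 2) (nat_lit 4) (nat_lit 348) (nat_lit 193) (nat_lit 179)) (XT.lf (nat_lit 0) (nat_lit 225854396525) (nat_lit 76) (nat_lit 38363643112) (nat_lit 76) (nat_lit 36931665549) (nat_lit 1) (nat_lit 4) (nat_lit 2) (nat_lit 5) (nat_lit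 2) (nat_lit 4) (nat_lit 349) (nat_lit 193) (nat_lit 178))) (XT.nd (nat_lit 78) (nat_lit 0) (nat_lit 0) (XT.lf (nat_lit 0) (nat_lit 238739569446) (nat_lit 76) (nat_lit 39457888624) (nat_lit 76) (nat_lit 37962709999) (nat_lit 1) (nat_lit 4) (nat_lit 2) (nat_lit 5) (nat_lit 2) (nat_lit 4) (nat_lit 350) (nat_lit 193) (nat_lit 177)) (XT.lf (nat_lit 0) (nat_lit 252232275674) (nat_lit 76) (nat_lit 40622666486) (nat_lit 76) (nat_lit 39067296372) (nat_lit 1) (nat_lit 4) (nat_lit 2) (nat_lit 5) (nat_lit 2) (nat_lit 4) (nat_lit 351) (nat_lit 193) (nat_lit 176))))) (XT.nd (nat_lit 312) (nat_lit 0) (nat_lit 0) (XT.nd (nat_lit 156) (nat_lit 0) (nat_lit 0) (XT.nd (nat_lit 78) (nat_lit 0) (nat_lit 0) (XT.lf (nat_lit 0) (nat_lit 266364640701) (nat_lit 76) (nat_lit 41860749977) (nat_lit 76) (nat_lit 40248054636) (nat_lit 1) (nat_lit 4) (nat_lit 2) (nat_lit 5) (nat_lit 2) (nat_lit 4) (nat_lit 352) (nat_lit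 193) (nat_lit 175)) (XT.lf (nat_lit 0) (nat_lit 281170313013) (nat_lit 76) (nat_lit 43175086916) (nat_lit 76) (nat_lit 41507796121) (nat_lit 1) (nat_lit 4) (nat_lit 2) (nat_lit 5) (nat_lit 2) (nat_lit 4) (nat_lit 353) (nat_lit 193) (nat_lit 174))) (XT.nd (nat_lit 78) (nat_lit 0) (nat_lit 0) (XT.lf (nat_lit 0) (nat_lit 296684544213) (nat_lit 76) (nat_lit 44568806677) (nat_lit 76) (nat_lit 42849520210) (nat_lit 1) (nat_lit 4) (nat_lit 2) (nat_lit 5) (nat_lit 2) (nat_lit 4) (nat_lit 354) (nat_lit 193) (nat_lit 173)) (XT.lf (nat_lit 0) (nat_lit 312944272945) (nat_lit 76) (nat_lit 46045227639) (nat_lit 76) (nat_lit 44276421486) (nat_lit 1) (nat_lit 4) (nat_lit 2) (nat_lit 5) (nat_lit 2) (nat_lit 4) (nat_lit 355) (nat_lit 193) (nat_lit 172)))) (XT.nd (nat_lit 156) (nat_lit 0) (nat_lit 0) (XT.nd (nat_lit 78) (nat_lit 0) (nat_lit 0) (XT.lf (nat_lit 0) (nat_lit 329988212849) (nat_lit 76) (nat_lit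 47607865090) (nat_lit 76) (nat_lit 45791897331) (nat_lit 1) (nat_lit 4) (nat_lit 2) (nat_lit 5) (nat_lit 2) (nat_lit 4) (nat_lit 356) (nat_lit 193) (nat_lit 171)) (XT.lf (nat_lit 0) (nat_lit 347856944736) (nat_lit 76) (nat_lit 49260439597) (nat_lit 76) (nat_lit 47399556022) (nat_lit 1) (nat_lit 4) (nat_lit 2) (nat_lit 5) (nat_lit 2) (nat_lit 4) (nat_lit 357) (nat_lit 193) (nat_lit 170))) (XT.nd (nat_lit 78) (nat_lit 0) (nat_lit 0) (XT.lf (nat_lit 0) (nat_lit 366593013203) (nat_lit 76) (nat_lit 51006885860) (nat_lit 76) (nat_lit 49103225318) (nat_lit 1) (nat_lit 4) (nat_lit 2) (nat_lit 5) (nat_lit 2) (nat_lit 4) (nat_lit 358) (nat_lit 193) (nat_lit 169)) (XT.nd (nat_lit 78) (nat_lit 0) (nat_lit 0) (XT.lf (nat_lit 0) (nat_lit 386241027940) (nat_lit 76) (nat_lit 52851362084) (nat_lit 76) (nat_lit 50906961574) (nat_lit 1) (nat_lit 4) (nat_lit 2) (nat_lit 5) (nat_lit 2) (nat_lit 4) (nat_lit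 359) (nat_lit 193) (nat_lit 168)) (XT.lf (nat_lit 0) (nat_lit 406847769932) (nat_lit 76) (nat_lit 54798259880) (nat_lit 76) (nat_lit 52815059400) (nat_lit 1) (nat_lit 4) (nat_lit 2) (nat_lit 5) (nat_lit 2) (nat_lit 4) (nat_lit 360) (nat_lit 193) (nat_lit 167))))))))
noncomputable def xc7 : XT := (XT.nd (nat_lit 36348) (nat_lit 0) (nat_lit 0) (XT.nd (nat_lit 35646) (nat_lit 0) (nat_lit 0) (XT.nd (nat_lit 35334) (nat_lit 0) (nat_lit 0) (XT.nd (nat_lit 156) (nat_lit 0) (nat_lit 0) (XT.nd (nat_lit 78) (nat_lit 0) (nat_lit 0) (XT.lf (nat_lit 0) (nat_lit 428462302851) (nat_lit 76) (nat_lit 56852214719) (nat_lit 76) (nat_lit 54832061886) (nat_lit 1) (nat_lit 4) (nat_lit 2) (nat_lit 5) (nat_lit 2) (nat_lit 4) (nat_lit 361) (nat_lit 193) (nat_lit 166)) (XT.lf (nat_lit 0) (nat_lit 451136089871) (nat_lit 76) (nat_lit 59018116969) (nat_lit 76) (nat_lit 56962771419) (nat_lit 1) (nat_lit 4) (nat_lit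 2) (nat_lit 5) (nat_lit 2) (nat_lit 4) (nat_lit 362) (nat_lit 193) (nat_lit 165))) (XT.nd (nat_lit 35100) (nat_lit 0) (nat_lit 0) (XT.lf (nat_lit 0) (nat_lit 474923116198) (nat_lit 76) (nat_lit 61301123540) (nat_lit 76) (nat_lit 59212261117) (nat_lit 1) (nat_lit 4) (nat_lit 2) (nat_lit 5) (nat_lit 2) (nat_lit 4) (nat_lit 363) (nat_lit 193) (nat_lit 164)) (XT.lf (nat_lit 0) (nat_lit 37330546966) (nat_lit 76) (nat_lit 14358653385) (nat_lit 76) (nat_lit 14358653385) (nat_lit 1) (nat_lit 4) (nat_lit 2) (nat_lit 5) (nat_lit 2) (nat_lit 4) (nat_lit 332) (nat_lit 194) (nat_lit 194)))) (XT.nd (nat_lit 156) (nat_lit 0) (nat_lit 0) (XT.nd (nat_lit 78) (nat_lit 0) (nat_lit 0) (XT.lf (nat_lit 0) (nat_lit 80939933650) (nat_lit 76) (nat_lit 28911673288) (nat_lit 76) (nat_lit 28773713294) (nat_lit 1) (nat_lit 4) (nat_lit 2) (nat_lit 5) (nat_lit 2) (nat_lit 4) (nat_lit 333) (nat_lit 194) (nat_lit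 193)) (XT.lf (nat_lit 0) (nat_lit 87452548544) (nat_lit 76) (nat_lit 29150291369) (nat_lit 76) (nat_lit 28880940905) (nat_lit 1) (nat_lit 4) (nat_lit 2) (nat_lit 5) (nat_lit 2) (nat_lit 4) (nat_lit 334) (nat_lit 194) (nat_lit 192))) (XT.nd (nat_lit 78) (nat_lit 0) (nat_lit 0) (XT.lf (nat_lit 0) (nat_lit 94214444840) (nat_lit 76) (nat_lit 29433729151) (nat_lit 76) (nat_lit 29039244905) (nat_lit 1) (nat_lit 4) (nat_lit 2) (nat_lit 5) (nat_lit 2) (nat_lit 4) (nat_lit 335) (nat_lit 194) (nat_lit 191)) (XT.lf (nat_lit 0) (nat_lit 101241722292) (nat_lit 76) (nat_lit 29762661485) (nat_lit 76) (nat_lit 29249002209) (nat_lit 1) (nat_lit 4) (nat_lit 2) (nat_lit 5) (nat_lit 2) (nat_lit 4) (nat_lit 336) (nat_lit 194) (nat_lit 190))))) (XT.nd (nat_lit 312) (nat_lit 0) (nat_lit 0) (XT.nd (nat_lit 156) (nat_lit 0) (nat_lit 0) (XT.nd (nat_lit 78) (nat_lit 0) (nat_lit 0) (XT.lf (nat_lit 0) (nat_lit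 108551112513) (nat_lit 76) (nat_lit 30137871545) (nat_lit 76) (nat_lit 29510712239) (nat_lit 1) (nat_lit 4) (nat_lit 2) (nat_lit 5) (nat_lit 2) (nat_lit 4) (nat_lit 337) (nat_lit 194) (nat_lit 189)) (XT.lf (nat_lit 0) (nat_lit 116160018812) (nat_lit 76) (nat_lit 30560252686) (nat_lit 76) (nat_lit 29824998115) (nat_lit 1) (nat_lit 4) (nat_lit 2) (nat_lit 5) (nat_lit 2) (nat_lit 4) (nat_lit 338) (nat_lit 194) (nat_lit 188))) (XT.nd (nat_lit 78) (nat_lit 0) (nat_lit 0) (XT.lf (nat_lit 0) (nat_lit 124086557633) (nat_lit 76) (nat_lit 31030810578) (nat_lit 76) (nat_lit 30192608136) (nat_lit 1) (nat_lit 4) (nat_lit 2) (nat_lit 5) (nat_lit 2) (nat_lit 4) (nat_lit 339) (nat_lit 194) (nat_lit 187)) (XT.lf (nat_lit 0) (nat_lit 132349601688) (nat_lit 76) (nat_lit 31550665598) (nat_lit 76) (nat_lit 30614417563) (nat_lit 1) (nat_lit 4) (nat_lit 2) (nat_lit 5) (nat_lit 2) (nat_lit 4) (nat_lit 340)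 (nat_lit 194) (nat_lit 186)))) (XT.nd (nat_lit 156) (nat_lit 0) (nat_lit 0) (XT.nd (nat_lit 78) (nat_lit 0) (nat_lit 0) (XT.lf (nat_lit 0) (nat_lit 140968824890) (nat_lit 76) (nat_lit 32121055495) (nat_lit 76) (nat_lit 31091430706) (nat_lit 1) (nat_lit 4) (nat_lit 2) (nat_lit 5) (nat_lit 2) (nat_lit 4) (nat_lit 341) (nat_lit 194) (nat_lit 185)) (XT.lf (nat_lit 0) (nat_lit 149964749201) (nat_lit 76) (nat_lit 32743338341) (nat_lit 76) (nat_lit 31624783310) (nat_lit 1) (nat_lit 4) (nat_lit 2) (nat_lit 5) (nat_lit 2) (nat_lit 4) (nat_lit 342) (nat_lit 194) (nat_lit 184))) (XT.nd (nat_lit 78) (nat_lit 0) (nat_lit 0) (XT.lf (nat_lit 0) (nat_lit 159358793487) (nat_lit 76) (nat_lit 33418995761) (nat_lit 76) (nat_lit 32215745261) (nat_lit 1) (nat_lit 4) (nat_lit 2) (nat_lit 5) (nat_lit 2) (nat_lit 4) (nat_lit 343) (nat_lit 194) (nat_lit 183)) (XT.nd (nat_lit 78) (nat_lit 0) (nat_lit 0) (XT.lf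 (nat_lit 0) (nat_lit 169173324521) (nat_lit 76) (nat_lit 34149636464) (nat_lit 76) (nat_lit 32865723613) (nat_lit 1) (nat_lit 4) (nat_lit 2) (nat_lit 5) (nat_lit 2) (nat_lit 4) (nat_lit 344) (nat_lit 194) (nat_lit 182)) (XT.lf (nat_lit 0) (nat_lit 179431710233) (nat_lit 76) (nat_lit 34937000071) (nat_lit 76) (nat_lit 33576265932) (nat_lit 1) (nat_lit 4) (nat_lit 2) (nat_lit 5) (nat_lit 2) (nat_lit 4) (nat_lit 345) (nat_lit 194) (nat_lit 181))))))) (XT.nd (nat_lit 624) (nat_lit 0) (nat_lit 0) (XT.nd (nat_lit 312) (nat_lit 0) (nat_lit 0) (XT.nd (nat_lit 156) (nat_lit 0) (nat_lit 0) (XT.nd (nat_lit 78) (nat_lit 0) (nat_lit 0) (XT.lf (nat_lit 0) (nat_lit 190158375351) (nat_lit 76) (nat_lit 35782961255) (nat_lit 76) (nat_lit 34349063986) (nat_lit 1) (nat_lit 4) (nat_lit 2) (nat_lit 5) (nat_lit 2) (nat_lit 4) (nat_lit 346) (nat_lit 194) (nat_lit 180)) (XT.lf (nat_lit 0) (nat_lit 201378859555)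 (nat_lit 76) (nat_lit 36689534212) (nat_lit 76) (nat_lit 35185957771) (nat_lit 1) (nat_lit 4) (nat_lit 2) (nat_lit 5) (nat_lit 2) (nat_lit 4) (nat_lit 347) (nat_lit 194) (nat_lit 179))) (XT.nd (nat_lit 78) (nat_lit 0) (nat_lit 0) (XT.lf (nat_lit 0) (nat_lit 213119878283) (nat_lit 76) (nat_lit 37658877447) (nat_lit 76) (nat_lit 36088939890) (nat_lit 1) (nat_lit 4) (nat_lit 2) (nat_lit 5) (nat_lit 2) (nat_lit 4) (nat_lit 348) (nat_lit 194) (nat_lit 178)) (XT.lf (nat_lit 0) (nat_lit 225409386341) (nat_lit 76) (nat_lit 38693298921) (nat_lit 76) (nat_lit 37060160302) (nat_lit 1) (nat_lit 4) (nat_lit 2) (nat_lit 5) (nat_lit 2) (nat_lit 4) (nat_lit 349) (nat_lit 194) (nat_lit 177)))) (XT.nd (nat_lit 156) (nat_lit 0) (nat_lit 0) (XT.nd (nat_lit 78) (nat_lit 0) (nat_lit 0) (XT.lf (nat_lit 0) (nat_lit 238276644462) (nat_lit 76) (nat_lit 39795261543) (nat_lit 76) (nat_lit 38101931435) (nat_lit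 1) (nat_lit 4) (nat_lit 2) (nat_lit 5) (nat_lit 2) (nat_lit 4) (nat_lit 350) (nat_lit 194) (nat_lit 176)) (XT.lf (nat_lit 0) (nat_lit 251752288977) (nat_lit 76) (nat_lit 40967389032) (nat_lit 76) (nat_lit 39216733697) (nat_lit 1) (nat_lit 4) (nat_lit 2) (nat_lit 5) (nat_lit 2) (nat_lit 4) (nat_lit 351) (nat_lit 194) (nat_lit 175))) (XT.nd (nat_lit 78) (nat_lit 0) (nat_lit 0) (XT.lf (nat_lit 0) (nat_lit 265868404752) (nat_lit 76) (nat_lit 42212472169) (nat_lit 76) (nat_lit 40407221379) (nat_lit 1) (nat_lit 4) (nat_lit 2) (nat_lit 5) (nat_lit 2) (nat_lit 4) (nat_lit 352) (nat_lit 194) (nat_lit 174)) (XT.lf (nat_lit 0) (nat_lit 280658601587) (nat_lit 76) (nat_lit 43533475437) (nat_lit 76) (nat_lit 41676228976) (nat_lit 1) (nat_lit 4) (nat_lit 2) (nat_lit 5) (nat_lit 2) (nat_lit 4) (nat_lit 353) (nat_lit 194) (nat_lit 173))))) (XT.nd (nat_lit 312) (nat_lit 0) (nat_lit 0) (XT.nd (nat_lit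 156) (nat_lit 0) (nat_lit 0) (XT.nd (nat_lit 78) (nat_lit 0) (nat_lit 0) (XT.lf (nat_lit 0) (nat_lit 296158094237) (nat_lit 76) (nat_lit 44933544082) (nat_lit 76) (nat_lit 43026777935) (nat_lit 1) (nat_lit 4) (nat_lit 2) (nat_lit 5) (nat_lit 2) (nat_lit 4) (nat_lit 354) (nat_lit 194) (nat_lit 172)) (XT.lf (nat_lit 0) (nat_lit 312403786255) (nat_lit 76) (nat_lit 46416011601) (nat_lit 76) (nat_lit 44462083847) (nat_lit 1) (nat_lit 4) (nat_lit 2) (nat_lit 5) (nat_lit 2) (nat_lit 4) (nat_lit 355) (nat_lit 194) (nat_lit 171))) (XT.nd (nat_lit 78) (nat_lit 0) (nat_lit 0) (XT.lf (nat_lit 0) (nat_lit 329434357860) (nat_lit 76) (nat_lit 47984407678) (nat_lit 76) (nat_lit 45985564109) (nat_lit 1) (nat_lit 4) (nat_lit 2) (nat_lit 5) (nat_lit 2) (nat_lit 4) (nat_lit 356) (nat_lit 194) (nat_lit 170)) (XT.lf (nat_lit 0) (nat_lit 347290358033) (nat_lit 76) (nat_lit 49642466590) (nat_lit 76) (nat_lit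 47600846054) (nat_lit 1) (nat_lit 4) (nat_lit 2) (nat_lit 5) (nat_lit 2) (nat_lit 4) (nat_lit 357) (nat_lit 194) (nat_lit 169)))) (XT.nd (nat_lit 156) (nat_lit 0) (nat_lit 0) (XT.nd (nat_lit 78) (nat_lit 0) (nat_lit 0) (XT.lf (nat_lit 0) (nat_lit 366014301059) (nat_lit 76) (nat_lit 51394136096) (nat_lit 76) (nat_lit 49311775591) (nat_lit 1) (nat_lit 4) (nat_lit 2) (nat_lit 5) (nat_lit 2) (nat_lit 4) (nat_lit 358) (nat_lit 194) (nat_lit 168)) (XT.lf (nat_lit 0) (nat_lit 385650767755) (nat_lit 76) (nat_lit 53243586838) (nat_lit 76) (nat_lit 51122426363) (nat_lit 1) (nat_lit 4) (nat_lit 2) (nat_lit 5) (nat_lit 2) (nat_lit 4) (nat_lit 359) (nat_lit 194) (nat_lit 167))) (XT.nd (nat_lit 78) (nat_lit 0) (nat_lit 0) (XT.lf (nat_lit 0) (nat_lit 406246511615) (nat_lit 76) (nat_lit 55195222269) (nat_lit 76) (nat_lit 53037109442) (nat_lit 1) (nat_lit 4) (nat_lit 2) (nat_lit 5) (nat_lit 2) (nat_lit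 4) (nat_lit 360) (nat_lit 194) (nat_lit 166)) (XT.nd (nat_lit 78) (nat_lit 0) (nat_lit 0) (XT.lf (nat_lit 0) (nat_lit 427850570121) (nat_lit 76) (nat_lit 57253689142) (nat_lit 76) (nat_lit 55060383598) (nat_lit 1) (nat_lit 4) (nat_lit 2) (nat_lit 5) (nat_lit 2) (nat_lit 4) (nat_lit 361) (nat_lit 194) (nat_lit 165)) (XT.lf (nat_lit 0) (nat_lit 450514381511) (nat_lit 76) (nat_lit 59423888567) (nat_lit 76) (nat_lit 57197066150) (nat_lit 1) (nat_lit 4) (nat_lit 2) (nat_lit 5) (nat_lit 2) (nat_lit 4) (nat_lit 362) (nat_lit 194) (nat_lit 164))))))))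
noncomputable def xc8 : XT := (XT.nd (nat_lit 36114) (nat_lit 0) (nat_lit 0) (XT.nd (nat_lit 35490) (nat_lit 0) (nat_lit 0) (XT.nd (nat_lit 35178) (nat_lit 0) (nat_lit 0) (XT.nd (nat_lit 35022) (nat_lit 0) (nat_lit 0) (XT.nd (nat_lit 34944) (nat_lit 0) (nat_lit 0) (XT.lf (nat_lit 0) (nat_lit 474291907238) (nat_lit 76) (nat_lit 61710987686) (nat_lit 76) (nat_lit 59452244437) (nat_lit 1) (nat_lit 4) (nat_lit 2) (nat_lit 5) (nat_lit 2) (nat_lit 4) (nat_lit 363) (nat_lit 194) (nat_lit 163)) (XT.lf (nat_lit 0) (nat_lit 31394288333) (nat_lit 76) (nat_lit 14292933710) (nat_lit 76) (nat_lit 14292933710) (nat_lit 1) (nat_lit 4) (nat_lit 2) (nat_lit 5) (nat_lit 2) (nat_lit 4) (nat_lit 330) (nat_lit 195) (nat_lit 195))) (XT.nd (nat_lit 78) (nat_lit 0) (nat_lit 0) (XT.lf (nat_lit 0) (nat_lit 68601079772) (nat_lit 76) (nat_lit 28711587030) (nat_lit 76) (nat_lit 28566729036) (nat_lit 1) (nat_lit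 4) (nat_lit 2) (nat_lit 5) (nat_lit 2) (nat_lit 4) (nat_lit 331) (nat_lit 195) (nat_lit 194)) (XT.lf (nat_lit 0) (nat_lit 74620032883) (nat_lit 76) (nat_lit 28879852519) (nat_lit 76) (nat_lit 28597034531) (nat_lit 1) (nat_lit 4) (nat_lit 2) (nat_lit 5) (nat_lit 2) (nat_lit 4) (nat_lit 332) (nat_lit 195) (nat_lit 193)))) (XT.nd (nat_lit 156) (nat_lit 0) (nat_lit 0) (XT.nd (nat_lit 78) (nat_lit 0) (nat_lit 0) (XT.lf (nat_lit 0) (nat_lit 80859766840) (nat_lit 76) (nat_lit 29091064519) (nat_lit 76) (nat_lit 28676856060) (nat_lit 1) (nat_lit 4) (nat_lit 2) (nat_lit 5) (nat_lit 2) (nat_lit 4) (nat_lit 333) (nat_lit 195) (nat_lit 192)) (XT.lf (nat_lit 0) (nat_lit 87335138153) (nat_lit 76) (nat_lit 29345725915) (nat_lit 76) (nat_lit 28806383675) (nat_lit 1) (nat_lit 4) (nat_lit 2) (nat_lit 5) (nat_lit 2) (nat_lit 4) (nat_lit 334) (nat_lit 195) (nat_lit 191))) (XT.nd (nat_lit 78) (nat_lit 0)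 (nat_lit 0) (XT.lf (nat_lit 0) (nat_lit 94061564372) (nat_lit 76) (nat_lit 29644443045) (nat_lit 76) (nat_lit 28985925775) (nat_lit 1) (nat_lit 4) (nat_lit 2) (nat_lit 5) (nat_lit 2) (nat_lit 4) (nat_lit 335) (nat_lit 195) (nat_lit 190)) (XT.lf (nat_lit 0) (nat_lit 101055060797) (nat_lit 76) (nat_lit 29987927139) (nat_lit 76) (nat_lit 29215909840) (nat_lit 1) (nat_lit 4) (nat_lit 2) (nat_lit 5) (nat_lit 2) (nat_lit 4) (nat_lit 336) (nat_lit 195) (nat_lit 189))))) (XT.nd (nat_lit 312) (nat_lit 0) (nat_lit 0) (XT.nd (nat_lit 156) (nat_lit 0) (nat_lit 0) (XT.nd (nat_lit 78) (nat_lit 0) (nat_lit 0) (XT.lf (nat_lit 0) (nat_lit 108332278612) (nat_lit 76) (nat_lit 30376996017) (nat_lit 76) (nat_lit 29496883453) (nat_lit 1) (nat_lit 4) (nat_lit 2) (nat_lit 5) (nat_lit 2) (nat_lit 4) (nat_lit 337) (nat_lit 195) (nat_lit 188)) (XT.lf (nat_lit 0) (nat_lit 115910544524) (nat_lit 76) (nat_lit 30812576034)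 (nat_lit 76) (nat_lit 29829515598) (nat_lit 1) (nat_lit 4) (nat_lit 2) (nat_lit 5) (nat_lit 2) (nat_lit 4) (nat_lit 338) (nat_lit 195) (nat_lit 187))) (XT.nd (nat_lit 78) (nat_lit 0) (nat_lit 0) (XT.lf (nat_lit 0) (nat_lit 123807902024) (nat_lit 76) (nat_lit 31295704284) (nat_lit 76) (nat_lit 30214598255) (nat_lit 1) (nat_lit 4) (nat_lit 2) (nat_lit 5) (nat_lit 2) (nat_lit 4) (nat_lit 339) (nat_lit 195) (nat_lit 186)) (XT.lf (nat_lit 0) (nat_lit 132043154345) (nat_lit 76) (nat_lit 31827531073) (nat_lit 76) (nat_lit 30653048290) (nat_lit 1) (nat_lit 4) (nat_lit 2) (nat_lit 5) (nat_lit 2) (nat_lit 4) (nat_lit 340) (nat_lit 195) (nat_lit 185)))) (XT.nd (nat_lit 156) (nat_lit 0) (nat_lit 0) (XT.nd (nat_lit 78) (nat_lit 0) (nat_lit 0) (XT.lf (nat_lit 0) (nat_lit 140635909229) (nat_lit 76) (nat_lit 32409322655) (nat_lit 76) (nat_lit 31145909629) (nat_lit 1) (nat_lit 4) (nat_lit 2) (nat_lit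 5) (nat_lit 2) (nat_lit 4) (nat_lit 341) (nat_lit 195) (nat_lit 184)) (XT.lf (nat_lit 0) (nat_lit 149606625618) (nat_lit 76) (nat_lit 33042464248) (nat_lit 76) (nat_lit 31694355754) (nat_lit 1) (nat_lit 4) (nat_lit 2) (nat_lit 5) (nat_lit 2) (nat_lit 4) (nat_lit 342) (nat_lit 195) (nat_lit 183))) (XT.nd (nat_lit 78) (nat_lit 0) (nat_lit 0) (XT.lf (nat_lit 0) (nat_lit 158976662359) (nat_lit 76) (nat_lit 33728463332) (nat_lit 76) (nat_lit 32299692487) (nat_lit 1) (nat_lit 4) (nat_lit 2) (nat_lit 5) (nat_lit 2) (nat_lit 4) (nat_lit 343) (nat_lit 195) (nat_lit 182)) (XT.lf (nat_lit 0) (nat_lit 168768329064) (nat_lit 76) (nat_lit 34468953239) (nat_lit 76) (nat_lit 32963361107) (nat_lit 1) (nat_lit 4) (nat_lit 2) (nat_lit 5) (nat_lit 2) (nat_lit 4) (nat_lit 344) (nat_lit 195) (nat_lit 181)))))) (XT.nd (nat_lit 624) (nat_lit 0) (nat_lit 0) (XT.nd (nat_lit 312) (nat_lit 0) (nat_lit 0) (XT.nd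 (nat_lit 156) (nat_lit 0) (nat_lit 0) (XT.nd (nat_lit 78) (nat_lit 0) (nat_lit 0) (XT.lf (nat_lit 0) (nat_lit 179004939226) (nat_lit 76) (nat_lit 35265697040) (nat_lit 76) (nat_lit 33686941777) (nat_lit 1) (nat_lit 4) (nat_lit 2) (nat_lit 5) (nat_lit 2) (nat_lit 4) (nat_lit 345) (nat_lit 195) (nat_lit 180)) (XT.lf (nat_lit 0) (nat_lit 189710865724) (nat_lit 76) (nat_lit 36120591743) (nat_lit 76) (nat_lit 34472157308) (nat_lit 1) (nat_lit 4) (nat_lit 2) (nat_lit 5) (nat_lit 2) (nat_lit 4) (nat_lit 346) (nat_lit 195) (nat_lit 179))) (XT.nd (nat_lit 78) (nat_lit 0) (nat_lit 0) (XT.lf (nat_lit 0) (nat_lit 200911598862) (nat_lit 76) (nat_lit 37035672812) (nat_lit 76) (nat_lit 35320877261) (nat_lit 1) (nat_lit 4) (nat_lit 2) (nat_lit 5) (nat_lit 2) (nat_lit 4) (nat_lit 347) (nat_lit 195) (nat_lit 178)) (XT.lf (nat_lit 0) (nat_lit 212633807050) (nat_lit 76) (nat_lit 38013119012) (nat_lit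 76) (nat_lit 36235122398) (nat_lit 1) (nat_lit 4) (nat_lit 2) (nat_lit 5) (nat_lit 2) (nat_lit 4) (nat_lit 348) (nat_lit 195) (nat_lit 177)))) (XT.nd (nat_lit 156) (nat_lit 0) (nat_lit 0) (XT.nd (nat_lit 78) (nat_lit 0) (nat_lit 0) (XT.lf (nat_lit 0) (nat_lit 224905400308) (nat_lit 76) (nat_lit 39055257595) (nat_lit 76) (nat_lit 37217069493) (nat_lit 1) (nat_lit 4) (nat_lit 2) (nat_lit 5) (nat_lit 2) (nat_lit 4) (nat_lit 349) (nat_lit 195) (nat_lit 176)) (XT.lf (nat_lit 0) (nat_lit 237755596716) (nat_lit 76) (nat_lit 40164569844) (nat_lit 76) (nat_lit 38269056515) (nat_lit 1) (nat_lit 4) (nat_lit 2) (nat_lit 5) (nat_lit 2) (nat_lit 4) (nat_lit 350) (nat_lit 195) (nat_lit 175))) (XT.nd (nat_lit 78) (nat_lit 0) (nat_lit 0) (XT.lf (nat_lit 0) (nat_lit 251214991979) (nat_lit 76) (nat_lit 41343696979) (nat_lit 76) (nat_lit 39393588195) (nat_lit 1) (nat_lit 4) (nat_lit 2) (nat_lit 5) (nat_lit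 2) (nat_lit 4) (nat_lit 351) (nat_lit 195) (nat_lit 174)) (XT.lf (nat_lit 0) (nat_lit 265315632277) (nat_lit 76) (nat_lit 42595446445) (nat_lit 76) (nat_lit 40593341990) (nat_lit 1) (nat_lit 4) (nat_lit 2) (nat_lit 5) (nat_lit 2) (nat_lit 4) (nat_lit 352) (nat_lit 195) (nat_lit 173))))) (XT.nd (nat_lit 312) (nat_lit 0) (nat_lit 0) (XT.nd (nat_lit 156) (nat_lit 0) (nat_lit 0) (XT.nd (nat_lit 78) (nat_lit 0) (nat_lit 0) (XT.lf (nat_lit 0) (nat_lit 280091090562) (nat_lit 76) (nat_lit 43922798598) (nat_lit 76) (nat_lit 41871174456) (nat_lit 1) (nat_lit 4) (nat_lit 2) (nat_lit 5) (nat_lit 2) (nat_lit 4) (nat_lit 353) (nat_lit 195) (nat_lit 172)) (XT.lf (nat_lit 0) (nat_lit 295576546498) (nat_lit 76) (nat_lit 45328913799) (nat_lit 76) (nat_lit 43230128052) (nat_lit 1) (nat_lit 4) (nat_lit 2) (nat_lit 5) (nat_lit 2) (nat_lit 4) (nat_lit 354) (nat_lit 195) (nat_lit 171))) (XT.nd (nat_lit 78)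 (nat_lit 0) (nat_lit 0) (XT.lf (nat_lit 0) (nat_lit 311808870216) (nat_lit 76) (nat_lit 46817139944) (nat_lit 76) (nat_lit 44673438381) (nat_lit 1) (nat_lit 4) (nat_lit 2) (nat_lit 5) (nat_lit 2) (nat_lit 4) (nat_lit 355) (nat_lit 195) (nat_lit 170)) (XT.lf (nat_lit 0) (nat_lit 328826710108) (nat_lit 76) (nat_lit 48391020426) (nat_lit 76) (nat_lit 46204541896) (nat_lit 1) (nat_lit 4) (nat_lit 2) (nat_lit 5) (nat_lit 2) (nat_lit 4) (nat_lit 356) (nat_lit 195) (nat_lit 169)))) (XT.nd (nat_lit 156) (nat_lit 0) (nat_lit 0) (XT.nd (nat_lit 78) (nat_lit 0) (nat_lit 0) (XT.lf (nat_lit 0) (nat_lit 346670584839) (nat_lit 76) (nat_lit 50054302581) (nat_lit 76) (nat_lit 47827084083) (nat_lit 1) (nat_lit 4) (nat_lit 2) (nat_lit 5) (nat_lit 2) (nat_lit 4) (nat_lit 357) (nat_lit 195) (nat_lit 168)) (XT.lf (nat_lit 0) (nat_lit 365382979826) (nat_lit 76) (nat_lit 51810946605) (nat_lit 76) (nat_lit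 49544928136) (nat_lit 1) (nat_lit 4) (nat_lit 2) (nat_lit 5) (nat_lit 2) (nat_lit 4) (nat_lit 358) (nat_lit 195) (nat_lit 167))) (XT.nd (nat_lit 78) (nat_lit 0) (nat_lit 0) (XT.lf (nat_lit 0) (nat_lit 385008448390) (nat_lit 76) (nat_lit 53665134982) (nat_lit 76) (nat_lit 51362164160) (nat_lit 1) (nat_lit 4) (nat_lit 2) (nat_lit 5) (nat_lit 2) (nat_lit 4) (nat_lit 359) (nat_lit 195) (nat_lit 166)) (XT.nd (nat_lit 78) (nat_lit 0) (nat_lit 0) (XT.lf (nat_lit 0) (nat_lit 405593717837) (nat_lit 76) (nat_lit 55621282447) (nat_lit 76) (nat_lit 53283118909) (nat_lit 1) (nat_lit 4) (nat_lit 2) (nat_lit 5) (nat_lit 2) (nat_lit 4) (nat_lit 360) (nat_lit 195) (nat_lit 165)) (XT.lf (nat_lit 0) (nat_lit 427187800713) (nat_lit 76) (nat_lit 57684046495) (nat_lit 76) (nat_lit 55312366084) (nat_lit 1) (nat_lit 4) (nat_lit 2) (nat_lit 5) (nat_lit 2) (nat_lit 4) (nat_lit 361) (nat_lit 195) (nat_lit 164))))))))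
noncomputable def xc9 : XT := (XT.nd (nat_lit 36036) (nat_lit 0) (nat_lit 0) (XT.nd (nat_lit 35334) (nat_lit 0) (nat_lit 0) (XT.nd (nat_lit 35022) (nat_lit 0) (nat_lit 0) (XT.nd (nat_lit 34866) (nat_lit 0) (nat_lit 0) (XT.nd (nat_lit 78) (nat_lit 0) (nat_lit 0) (XT.lf (nat_lit 0) (nat_lit 449842111501) (nat_lit 76) (nat_lit 59858338468) (nat_lit 76) (nat_lit 57454737225) (nat_lit 1) (nat_lit 4) (nat_lit 2) (nat_lit 5) (nat_lit 2) (nat_lit 4) (nat_lit 362) (nat_lit 195) (nat_lit 163)) (XT.lf (nat_lit 0) (nat_lit 473610589037) (nat_lit 76) (nat_lit 62149335251) (nat_lit 76) (nat_lit 59715333217) (nat_lit 1) (nat_lit 4) (nat_lit 2) (nat_lit 5) (nat_lit 2) (nat_lit 4) (nat_lit 363) (nat_lit 195) (nat_lit 162))) (XT.nd (nat_lit 78) (nat_lit 0) (nat_lit 0) (XT.lf (nat_lit 0) (nat_lit 25886645851) (nat_lit 76) (nat_lit 14296784618) (nat_lit 76) (nat_lit 14296784618) (nat_lit 1) (nat_lit 4)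 (nat_lit 2) (nat_lit 5) (nat_lit 2) (nat_lit 4) (nat_lit 328) (nat_lit 196) (nat_lit 196)) (XT.lf (nat_lit 0) (nat_lit 57168684274) (nat_lit 76) (nat_lit 28654495249) (nat_lit 76) (nat_lit 28502394356) (nat_lit 1) (nat_lit 4) (nat_lit 2) (nat_lit 5) (nat_lit 2) (nat_lit 4) (nat_lit 329) (nat_lit 196) (nat_lit 195)))) (XT.nd (nat_lit 156) (nat_lit 0) (nat_lit 0) (XT.nd (nat_lit 78) (nat_lit 0) (nat_lit 0) (XT.lf (nat_lit 0) (nat_lit 62745462566) (nat_lit 76) (nat_lit 28756540456) (nat_lit 76) (nat_lit 28459581569) (nat_lit 1) (nat_lit 4) (nat_lit 2) (nat_lit 5) (nat_lit 2) (nat_lit 4) (nat_lit 330) (nat_lit 196) (nat_lit 194)) (XT.lf (nat_lit 0) (nat_lit 68516904623) (nat_lit 76) (nat_lit 28899947822) (nat_lit 76) (nat_lit 28465028940) (nat_lit 1) (nat_lit 4) (nat_lit 2) (nat_lit 5) (nat_lit 2) (nat_lit 4) (nat_lit 331) (nat_lit 196) (nat_lit 193))) (XT.nd (nat_lit 78) (nat_lit 0) (nat_lit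 0) (XT.lf (nat_lit 0) (nat_lit 74496751973) (nat_lit 76) (nat_lit 29085058792) (nat_lit 76) (nat_lit 28518749440) (nat_lit 1) (nat_lit 4) (nat_lit 2) (nat_lit 5) (nat_lit 2) (nat_lit 4) (nat_lit 332) (nat_lit 196) (nat_lit 192)) (XT.lf (nat_lit 0) (nat_lit 80699242348) (nat_lit 76) (nat_lit 29312314107) (nat_lit 76) (nat_lit 28620870973) (nat_lit 1) (nat_lit 4) (nat_lit 2) (nat_lit 5) (nat_lit 2) (nat_lit 4) (nat_lit 333) (nat_lit 196) (nat_lit 191))))) (XT.nd (nat_lit 312) (nat_lit 0) (nat_lit 0) (XT.nd (nat_lit 156) (nat_lit 0) (nat_lit 0) (XT.nd (nat_lit 78) (nat_lit 0) (nat_lit 0) (XT.lf (nat_lit 0) (nat_lit 87139143583) (nat_lit 76) (nat_lit 29582254852) (nat_lit 76) (nat_lit 28771636688) (nat_lit 1) (nat_lit 4) (nat_lit 2) (nat_lit 5) (nat_lit 2) (nat_lit 4) (nat_lit 334) (nat_lit 196) (nat_lit 190)) (XT.lf (nat_lit 0) (nat_lit 93831788775) (nat_lit 76) (nat_lit 29895523742)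 (nat_lit 76) (nat_lit 28971405549) (nat_lit 1) (nat_lit 4) (nat_lit 2) (nat_lit 5) (nat_lit 2) (nat_lit 4) (nat_lit 335) (nat_lit 196) (nat_lit 189))) (XT.nd (nat_lit 78) (nat_lit 0) (nat_lit 0) (XT.lf (nat_lit 0) (nat_lit 100793112795) (nat_lit 76) (nat_lit 30252866655) (nat_lit 76) (nat_lit 29220653197) (nat_lit 1) (nat_lit 4) (nat_lit 2) (nat_lit 5) (nat_lit 2) (nat_lit 4) (nat_lit 336) (nat_lit 196) (nat_lit 188)) (XT.lf (nat_lit 0) (nat_lit 108039690222) (nat_lit 76) (nat_lit 30655134408) (nat_lit 76) (nat_lit 29519973078) (nat_lit 1) (nat_lit 4) (nat_lit 2) (nat_lit 5) (nat_lit 2) (nat_lit 4) (nat_lit 337) (nat_lit 196) (nat_lit 187)))) (XT.nd (nat_lit 156) (nat_lit 0) (nat_lit 0) (XT.nd (nat_lit 78) (nat_lit 0) (nat_lit 0) (XT.lf (nat_lit 0) (nat_lit 115588774814) (nat_lit 76) (nat_lit 31103284782) (nat_lit 76) (nat_lit 29870077860) (nat_lit 1) (nat_lit 4) (nat_lit 2) (nat_lit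 5) (nat_lit 2) (nat_lit 4) (nat_lit 338) (nat_lit 196) (nat_lit 186)) (XT.lf (nat_lit 0) (nat_lit 123458340580) (nat_lit 76) (nat_lit 31598384801) (nat_lit 76) (nat_lit 30271801125) (nat_lit 1) (nat_lit 4) (nat_lit 2) (nat_lit 5) (nat_lit 2) (nat_lit 4) (nat_lit 339) (nat_lit 196) (nat_lit 185))) (XT.nd (nat_lit 78) (nat_lit 0) (nat_lit 0) (XT.lf (nat_lit 0) (nat_lit 131667124583) (nat_lit 76) (nat_lit 32141613275) (nat_lit 76) (nat_lit 30726099356) (nat_lit 1) (nat_lit 4) (nat_lit 2) (nat_lit 5) (nat_lit 2) (nat_lit 4) (nat_lit 340) (nat_lit 196) (nat_lit 184)) (XT.nd (nat_lit 78) (nat_lit 0) (nat_lit 0) (XT.lf (nat_lit 0) (nat_lit 140234671545) (nat_lit 76) (nat_lit 32734263604) (nat_lit 76) (nat_lit 31234054216) (nat_lit 1) (nat_lit 4) (nat_lit 2) (nat_lit 5) (nat_lit 2) (nat_lit 4) (nat_lit 341) (nat_lit 196) (nat_lit 183)) (XT.lf (nat_lit 0) (nat_lit 149181380389) (nat_lit 76)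 (nat_lit 33377746862) (nat_lit 76) (nat_lit 31796875123) (nat_lit 1) (nat_lit 4) (nat_lit 2) (nat_lit 5) (nat_lit 2) (nat_lit 4) (nat_lit 342) (nat_lit 196) (nat_lit 182))))))) (XT.nd (nat_lit 624) (nat_lit 0) (nat_lit 0) (XT.nd (nat_lit 312) (nat_lit 0) (nat_lit 0) (XT.nd (nat_lit 156) (nat_lit 0) (nat_lit 0) (XT.nd (nat_lit 78) (nat_lit 0) (nat_lit 0) (XT.lf (nat_lit 0) (nat_lit 158528552802) (nat_lit 76) (nat_lit 34073595150) (nat_lit 76) (nat_lit 32415902124) (nat_lit 1) (nat_lit 4) (nat_lit 2) (nat_lit 5) (nat_lit 2) (nat_lit 4) (nat_lit 343) (nat_lit 196) (nat_lit 181)) (XT.lf (nat_lit 0) (nat_lit 168298443956) (nat_lit 76) (nat_lit 34823465251) (nat_lit 76) (nat_lit 33092609095) (nat_lit 1) (nat_lit 4) (nat_lit 2) (nat_lit 5) (nat_lit 2) (nat_lit 4) (nat_lit 344) (nat_lit 196) (nat_lit 180))) (XT.nd (nat_lit 78) (nat_lit 0) (nat_lit 0) (XT.lf (nat_lit 0) (nat_lit 178514315498)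 (nat_lit 76) (nat_lit 35629142570) (nat_lit 76) (nat_lit 33828607241) (nat_lit 1) (nat_lit 4) (nat_lit 2) (nat_lit 5) (nat_lit 2) (nat_lit 4) (nat_lit 345) (nat_lit 196) (nat_lit 179)) (XT.lf (nat_lit 0) (nat_lit 189200490930) (nat_lit 76) (nat_lit 36492545386) (nat_lit 76) (nat_lit 34625648941) (nat_lit 1) (nat_lit 4) (nat_lit 2) (nat_lit 5) (nat_lit 2) (nat_lit 4) (nat_lit 346) (nat_lit 196) (nat_lit 178)))) (XT.nd (nat_lit 156) (nat_lit 0) (nat_lit 0) (XT.nd (nat_lit 78) (nat_lit 0) (nat_lit 0) (XT.lf (nat_lit 0) (nat_lit 200382413528) (nat_lit 76) (nat_lit 37415729419) (nat_lit 76) (nat_lit 35485631912) (nat_lit 1) (nat_lit 4) (nat_lit 2) (nat_lit 5) (nat_lit 2) (nat_lit 4) (nat_lit 347) (nat_lit 196) (nat_lit 177)) (XT.lf (nat_lit 0) (nat_lit 212086706916) (nat_lit 76) (nat_lit 38400892728) (nat_lit 76) (nat_lit 36410603732) (nat_lit 1) (nat_lit 4) (nat_lit 2) (nat_lit 5) (nat_lit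 2) (nat_lit 4) (nat_lit 348) (nat_lit 196) (nat_lit 176))) (XT.nd (nat_lit 78) (nat_lit 0) (nat_lit 0) (XT.lf (nat_lit 0) (nat_lit 224341238461) (nat_lit 76) (nat_lit 39450380939) (nat_lit 76) (nat_lit 37402766716) (nat_lit 1) (nat_lit 4) (nat_lit 2) (nat_lit 5) (nat_lit 2) (nat_lit 4) (nat_lit 349) (nat_lit 196) (nat_lit 175)) (XT.lf (nat_lit 0) (nat_lit 237175185618) (nat_lit 76) (nat_lit 40566692834) (nat_lit 76) (nat_lit 38464483156) (nat_lit 1) (nat_lit 4) (nat_lit 2) (nat_lit 5) (nat_lit 2) (nat_lit 4) (nat_lit 350) (nat_lit 196) (nat_lit 174))))) (XT.nd (nat_lit 312) (nat_lit 0) (nat_lit 0) (XT.nd (nat_lit 156) (nat_lit 0) (nat_lit 0) (XT.nd (nat_lit 78) (nat_lit 0) (nat_lit 0) (XT.lf (nat_lit 0) (nat_lit 250619105403) (nat_lit 76) (nat_lit 41752486297) (nat_lit 76) (nat_lit 39598280949) (nat_lit 1) (nat_lit 4) (nat_lit 2) (nat_lit 5) (nat_lit 2) (nat_lit 4) (nat_lit 351) (nat_lit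 196) (nat_lit 173)) (XT.lf (nat_lit 0) (nat_lit 264705007151) (nat_lit 76) (nat_lit 43010584648) (nat_lit 76) (nat_lit 40806859613) (nat_lit 1) (nat_lit 4) (nat_lit 2) (nat_lit 5) (nat_lit 2) (nat_lit 4) (nat_lit 352) (nat_lit 196) (nat_lit 172))) (XT.nd (nat_lit 78) (nat_lit 0) (nat_lit 0) (XT.lf (nat_lit 0) (nat_lit 279466428722) (nat_lit 76) (nat_lit 44343983357) (nat_lit 76) (nat_lit 42093096716) (nat_lit 1) (nat_lit 4) (nat_lit 2) (nat_lit 5) (nat_lit 2) (nat_lit 4) (nat_lit 353) (nat_lit 196) (nat_lit 171)) (XT.lf (nat_lit 0) (nat_lit 294938516358) (nat_lit 76) (nat_lit 45755857185) (nat_lit 76) (nat_lit 43460054728) (nat_lit 1) (nat_lit 4) (nat_lit 2) (nat_lit 5) (nat_lit 2) (nat_lit 4) (nat_lit 354) (nat_lit 196) (nat_lit 170)))) (XT.nd (nat_lit 156) (nat_lit 0) (nat_lit 0) (XT.nd (nat_lit 78) (nat_lit 0) (nat_lit 0) (XT.lf (nat_lit 0) (nat_lit 311158108363) (nat_lit 76) (nat_lit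 47249567735) (nat_lit 76) (nat_lit 44910988311) (nat_lit 1) (nat_lit 4) (nat_lit 2) (nat_lit 5) (nat_lit 2) (nat_lit 4) (nat_lit 355) (nat_lit 196) (nat_lit 169)) (XT.lf (nat_lit 0) (nat_lit 328163822814) (nat_lit 76) (nat_lit 48828671460) (nat_lit 76) (nat_lit 46449352068) (nat_lit 1) (nat_lit 4) (nat_lit 2) (nat_lit 5) (nat_lit 2) (nat_lit 4) (nat_lit 356) (nat_lit 196) (nat_lit 168))) (XT.nd (nat_lit 78) (nat_lit 0) (nat_lit 0) (XT.lf (nat_lit 0) (nat_lit 345996149505) (nat_lit 76) (nat_lit 50496928133) (nat_lit 76) (nat_lit 48078808770) (nat_lit 1) (nat_lit 4) (nat_lit 2) (nat_lit 5) (nat_lit 2) (nat_lit 4) (nat_lit 357) (nat_lit 196) (nat_lit 167)) (XT.nd (nat_lit 78) (nat_lit 0) (nat_lit 0) (XT.lf (nat_lit 0) (nat_lit 364697546359) (nat_lit 76) (nat_lit 52258309791) (nat_lit 76) (nat_lit 49803238076) (nat_lit 1) (nat_lit 4) (nat_lit 2) (nat_lit 5) (nat_lit 2) (nat_lit 4) (nat_lit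 358) (nat_lit 196) (nat_lit 166)) (XT.lf (nat_lit 0) (nat_lit 384312540511) (nat_lit 76) (nat_lit 54117010202) (nat_lit 76) (nat_lit 51626745771) (nat_lit 1) (nat_lit 4) (nat_lit 2) (nat_lit 5) (nat_lit 2) (nat_lit 4) (nat_lit 359) (nat_lit 196) (nat_lit 165))))))))
noncomputable def xc10 : XT := (XT.nd (nat_lit 35880) (nat_lit 0) (nat_lit 0) (XT.nd (nat_lit 35178) (nat_lit 0) (nat_lit 0) (XT.nd (nat_lit 34866) (nat_lit 0) (nat_lit 0) (XT.nd (nat_lit 156) (nat_lit 0) (nat_lit 0) (XT.nd (nat_lit 78) (nat_lit 0) (nat_lit 0) (XT.lf (nat_lit 0) (nat_lit 404887834327) (nat_lit 76) (nat_lit 56077454843) (nat_lit 76) (nat_lit 53553673538) (nat_lit 1) (nat_lit 4) (nat_lit 2) (nat_lit 5) (nat_lit 2) (nat_lit 4) (nat_lit 360) (nat_lit 196) (nat_lit 164)) (XT.lf (nat_lit 0) (nat_lit 426472416602) (nat_lit 76) (nat_lit 58144311438) (nat_lit 76) (nat_lit 55588609302) (nat_lit 1) (nat_lit 4) (nat_lit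 2) (nat_lit 5) (nat_lit 2) (nat_lit 4) (nat_lit 361) (nat_lit 196) (nat_lit 163))) (XT.nd (nat_lit 78) (nat_lit 0) (nat_lit 0) (XT.lf (nat_lit 0) (nat_lit 449117679200) (nat_lit 76) (nat_lit 60322501075) (nat_lit 76) (nat_lit 57736398147) (nat_lit 1) (nat_lit 4) (nat_lit 2) (nat_lit 5) (nat_lit 2) (nat_lit 4) (nat_lit 362) (nat_lit 196) (nat_lit 162)) (XT.lf (nat_lit 0) (nat_lit 472877539411) (nat_lit 76) (nat_lit 62617209920) (nat_lit 76) (nat_lit 60002153857) (nat_lit 1) (nat_lit 4) (nat_lit 2) (nat_lit 5) (nat_lit 2) (nat_lit 4) (nat_lit 363) (nat_lit 196) (nat_lit 161)))) (XT.nd (nat_lit 156) (nat_lit 0) (nat_lit 0) (XT.nd (nat_lit 78) (nat_lit 0) (nat_lit 0) (XT.lf (nat_lit 0) (nat_lit 20761606807) (nat_lit 76) (nat_lit 14366911126) (nat_lit 76) (nat_lit 14366911126) (nat_lit 1) (nat_lit 4) (nat_lit 2) (nat_lit 5) (nat_lit 2) (nat_lit 4) (nat_lit 326) (nat_lit 197) (nat_lit 197))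 (XT.lf (nat_lit 0) (nat_lit 46546438680) (nat_lit 76) (nat_lit 28733323294) (nat_lit 76) (nat_lit 28573617355) (nat_lit 1) (nat_lit 4) (nat_lit 2) (nat_lit 5) (nat_lit 2) (nat_lit 4) (nat_lit 327) (nat_lit 197) (nat_lit 196))) (XT.nd (nat_lit 78) (nat_lit 0) (nat_lit 0) (XT.lf (nat_lit 0) (nat_lit 51728021897) (nat_lit 76) (nat_lit 28772775925) (nat_lit 76) (nat_lit 28460969093) (nat_lit 1) (nat_lit 4) (nat_lit 2) (nat_lit 5) (nat_lit 2) (nat_lit 4) (nat_lit 328) (nat_lit 197) (nat_lit 195)) (XT.lf (nat_lit 0) (nat_lit 57080300366) (nat_lit 76) (nat_lit 28852274081) (nat_lit 76) (nat_lit 28395609255) (nat_lit 1) (nat_lit 4) (nat_lit 2) (nat_lit 5) (nat_lit 2) (nat_lit 4) (nat_lit 329) (nat_lit 197) (nat_lit 194))))) (XT.nd (nat_lit 312) (nat_lit 0) (nat_lit 0) (XT.nd (nat_lit 156) (nat_lit 0) (nat_lit 0) (XT.nd (nat_lit 78) (nat_lit 0) (nat_lit 0) (XT.lf (nat_lit 0) (nat_lit 62616017610)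 (nat_lit 76) (nat_lit 28972007043) (nat_lit 76) (nat_lit 28377382223) (nat_lit 1) (nat_lit 4) (nat_lit 2) (nat_lit 5) (nat_lit 2) (nat_lit 4) (nat_lit 330) (nat_lit 197) (nat_lit 193)) (XT.lf (nat_lit 0) (nat_lit 68348353906) (nat_lit 76) (nat_lit 29132259890) (nat_lit 76) (nat_lit 28406244599) (nat_lit 1) (nat_lit 4) (nat_lit 2) (nat_lit 5) (nat_lit 2) (nat_lit 4) (nat_lit 331) (nat_lit 197) (nat_lit 192))) (XT.nd (nat_lit 78) (nat_lit 0) (nat_lit 0) (XT.lf (nat_lit 0) (nat_lit 74290957674) (nat_lit 76) (nat_lit 29333414175) (nat_lit 76) (nat_lit 28482265103) (nat_lit 1) (nat_lit 4) (nat_lit 2) (nat_lit 5) (nat_lit 2) (nat_lit 4) (nat_lit 332) (nat_lit 197) (nat_lit 191)) (XT.lf (nat_lit 0) (nat_lit 80457977972) (nat_lit 76) (nat_lit 29575948839) (nat_lit 76) (nat_lit 28605624736) (nat_lit 1) (nat_lit 4) (nat_lit 2) (nat_lit 5) (nat_lit 2) (nat_lit 4) (nat_lit 333) (nat_lit 197) (nat_lit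 190)))) (XT.nd (nat_lit 156) (nat_lit 0) (nat_lit 0) (XT.nd (nat_lit 78) (nat_lit 0) (nat_lit 0) (XT.lf (nat_lit 0) (nat_lit 86864098180) (nat_lit 76) (nat_lit 29860441343) (nat_lit 76) (nat_lit 28776617212) (nat_lit 1) (nat_lit 4) (nat_lit 2) (nat_lit 5) (nat_lit 2) (nat_lit 4) (nat_lit 334) (nat_lit 197) (nat_lit 189)) (XT.lf (nat_lit 0) (nat_lit 93524570967) (nat_lit 76) (nat_lit 30187569052) (nat_lit 76) (nat_lit 28995649656) (nat_lit 1) (nat_lit 4) (nat_lit 2) (nat_lit 5) (nat_lit 2) (nat_lit 4) (nat_lit 335) (nat_lit 197) (nat_lit 188))) (XT.nd (nat_lit 78) (nat_lit 0) (nat_lit 0) (XT.lf (nat_lit 0) (nat_lit 100455254599) (nat_lit 76) (nat_lit 30558110841) (nat_lit 76) (nat_lit 29263243573) (nat_lit 1) (nat_lit 4) (nat_lit 2) (nat_lit 5) (nat_lit 2) (nat_lit 4) (nat_lit 336) (nat_lit 197) (nat_lit 187)) (XT.nd (nat_lit 78) (nat_lit 0) (nat_lit 0) (XT.lf (nat_lit 0) (nat_lit 107672650706)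 (nat_lit 76) (nat_lit 30972948952) (nat_lit 76) (nat_lit 29580036091) (nat_lit 1) (nat_lit 4) (nat_lit 2) (nat_lit 5) (nat_lit 2) (nat_lit 4) (nat_lit 337) (nat_lit 197) (nat_lit 186)) (XT.lf (nat_lit 0) (nat_lit 115193943564) (nat_lit 76) (nat_lit 31433071094) (nat_lit 76) (nat_lit 29946781480) (nat_lit 1) (nat_lit 4) (nat_lit 2) (nat_lit 5) (nat_lit 2) (nat_lit 4) (nat_lit 338) (nat_lit 197) (nat_lit 185))))))) (XT.nd (nat_lit 624) (nat_lit 0) (nat_lit 0) (XT.nd (nat_lit 312) (nat_lit 0) (nat_lit 0) (XT.nd (nat_lit 156) (nat_lit 0) (nat_lit 0) (XT.nd (nat_lit 78) (nat_lit 0) (nat_lit 0) (XT.lf (nat_lit 0) (nat_lit 123037041012) (nat_lit 76) (nat_lit 31939572798) (nat_lit 76) (nat_lit 30364352941) (nat_lit 1) (nat_lit 4) (nat_lit 2) (nat_lit 5) (nat_lit 2) (nat_lit 4) (nat_lit 339) (nat_lit 197) (nat_lit 184)) (XT.lf (nat_lit 0) (nat_lit 131220617093) (nat_lit 76) (nat_lit 32493660019)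 (nat_lit 76) (nat_lit 30833744693) (nat_lit 1) (nat_lit 4) (nat_lit 2) (nat_lit 5) (nat_lit 2) (nat_lit 4) (nat_lit 340) (nat_lit 197) (nat_lit 183))) (XT.nd (nat_lit 78) (nat_lit 0) (nat_lit 0) (XT.lf (nat_lit 0) (nat_lit 139764156510) (nat_lit 76) (nat_lit 33096652013) (nat_lit 76) (nat_lit 31356074335) (nat_lit 1) (nat_lit 4) (nat_lit 2) (nat_lit 5) (nat_lit 2) (nat_lit 4) (nat_lit 341) (nat_lit 197) (nat_lit 182)) (XT.lf (nat_lit 0) (nat_lit 148688001026) (nat_lit 76) (nat_lit 33749984474) (nat_lit 76) (nat_lit 31932585510) (nat_lit 1) (nat_lit 4) (nat_lit 2) (nat_lit 5) (nat_lit 2) (nat_lit 4) (nat_lit 342) (nat_lit 197) (nat_lit 181)))) (XT.nd (nat_lit 156) (nat_lit 0) (nat_lit 0) (XT.nd (nat_lit 78) (nat_lit 0) (nat_lit 0) (XT.lf (nat_lit 0) (nat_lit 158013397888) (nat_lit 76) (nat_lit 34455212957) (nat_lit 76) (nat_lit 32564650862) (nat_lit 1) (nat_lit 4) (nat_lit 2) (nat_lit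 5) (nat_lit 2) (nat_lit 4) (nat_lit 343) (nat_lit 197) (nat_lit 180)) (XT.lf (nat_lit 0) (nat_lit 167762550422) (nat_lit 76) (nat_lit 35214016576) (nat_lit 76) (nat_lit 33253775310) (nat_lit 1) (nat_lit 4) (nat_lit 2) (nat_lit 5) (nat_lit 2) (nat_lit 4) (nat_lit 344) (nat_lit 197) (nat_lit 179))) (XT.nd (nat_lit 78) (nat_lit 0) (nat_lit 0) (XT.lf (nat_lit 0) (nat_lit 177958670897) (nat_lit 76) (nat_lit 36028202008) (nat_lit 76) (nat_lit 34001599625) (nat_lit 1) (nat_lit 4) (nat_lit 2) (nat_lit 5) (nat_lit 2) (nat_lit 4) (nat_lit 345) (nat_lit 197) (nat_lit 178)) (XT.lf (nat_lit 0) (nat_lit 188626035790) (nat_lit 76) (nat_lit 36899707788) (nat_lit 76) (nat_lit 34809904342) (nat_lit 1) (nat_lit 4) (nat_lit 2) (nat_lit 5) (nat_lit 2) (nat_lit 4) (nat_lit 346) (nat_lit 197) (nat_lit 177))))) (XT.nd (nat_lit 312) (nat_lit 0) (nat_lit 0) (XT.nd (nat_lit 156) (nat_lit 0) (nat_lit 0) (XT.nd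 (nat_lit 78) (nat_lit 0) (nat_lit 0) (XT.lf (nat_lit 0) (nat_lit 199790043588) (nat_lit 76) (nat_lit 37830608931) (nat_lit 76) (nat_lit 35680613996) (nat_lit 1) (nat_lit 4) (nat_lit 2) (nat_lit 5) (nat_lit 2) (nat_lit 4) (nat_lit 347) (nat_lit 197) (nat_lit 176)) (XT.lf (nat_lit 0) (nat_lit 211477275263) (nat_lit 76) (nat_lit 38823121867) (nat_lit 76) (nat_lit 36615801706) (nat_lit 1) (nat_lit 4) (nat_lit 2) (nat_lit 5) (nat_lit 2) (nat_lit 4) (nat_lit 348) (nat_lit 197) (nat_lit 175))) (XT.nd (nat_lit 78) (nat_lit 0) (nat_lit 0) (XT.lf (nat_lit 0) (nat_lit 223715557556) (nat_lit 76) (nat_lit 39879609724) (nat_lit 76) (nat_lit 37617694108) (nat_lit 1) (nat_lit 4) (nat_lit 2) (nat_lit 5) (nat_lit 2) (nat_lit 4) (nat_lit 349) (nat_lit 197) (nat_lit 174)) (XT.lf (nat_lit 0) (nat_lit 236534029235) (nat_lit 76) (nat_lit 41002587947) (nat_lit 76) (nat_lit 38688676661) (nat_lit 1) (nat_lit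 4) (nat_lit 2) (nat_lit 5) (nat_lit 2) (nat_lit 4) (nat_lit 350) (nat_lit 197) (nat_lit 173)))) (XT.nd (nat_lit 156) (nat_lit 0) (nat_lit 0) (XT.nd (nat_lit 78) (nat_lit 0) (nat_lit 0) (XT.lf (nat_lit 0) (nat_lit 249963210471) (nat_lit 76) (nat_lit 42194730295) (nat_lit 76) (nat_lit 39831299322) (nat_lit 1) (nat_lit 4) (nat_lit 2) (nat_lit 5) (nat_lit 2) (nat_lit 4) (nat_lit 351) (nat_lit 197) (nat_lit 172)) (XT.lf (nat_lit 0) (nat_lit 264035075505) (nat_lit 76) (nat_lit 43458875203) (nat_lit 76) (nat_lit 41048282623) (nat_lit 1) (nat_lit 4) (nat_lit 2) (nat_lit 5) (nat_lit 2) (nat_lit 4) (nat_lit 352) (nat_lit 197) (nat_lit 171))) (XT.nd (nat_lit 78) (nat_lit 0) (nat_lit 0) (XT.lf (nat_lit 0) (nat_lit 278783128777) (nat_lit 76) (nat_lit 44798032538) (nat_lit 76) (nat_lit 42342524143) (nat_lit 1) (nat_lit 4) (nat_lit 2) (nat_lit 5) (nat_lit 2) (nat_lit 4) (nat_lit 353) (nat_lit 197)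 (nat_lit 170)) (XT.nd (nat_lit 78) (nat_lit 0) (nat_lit 0) (XT.lf (nat_lit 0) (nat_lit 294242484699) (nat_lit 76) (nat_lit 46215390771) (nat_lit 76) (nat_lit 43717105409) (nat_lit 1) (nat_lit 4) (nat_lit 2) (nat_lit 5) (nat_lit 2) (nat_lit 4) (nat_lit 354) (nat_lit 197) (nat_lit 169)) (XT.lf (nat_lit 0) (nat_lit 310449951263) (nat_lit 76) (nat_lit 47714324563) (nat_lit 76) (nat_lit 45175299233) (nat_lit 1) (nat_lit 4) (nat_lit 2) (nat_lit 5) (nat_lit 2) (nat_lit 4) (nat_lit 355) (nat_lit 197) (nat_lit 168))))))))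
noncomputable def xc11 : XT := (XT.nd (nat_lit 35724) (nat_lit 0) (nat_lit 0) (XT.nd (nat_lit 35022) (nat_lit 0) (nat_lit 0) (XT.nd (nat_lit 312) (nat_lit 0) (nat_lit 0) (XT.nd (nat_lit 156) (nat_lit 0) (nat_lit 0) (XT.nd (nat_lit 78) (nat_lit 0) (nat_lit 0) (XT.lf (nat_lit 0) (nat_lit 327444117673) (nat_lit 76) (nat_lit 49298402806) (nat_lit 76) (nat_lit 46720577506) (nat_lit 1) (nat_lit 4) (nat_lit 2) (nat_lit 5) (nat_lit 2) (nat_lit 4) (nat_lit 356) (nat_lit 197) (nat_lit 167)) (XT.lf (nat_lit 0) (nat_lit 345265446232) (nat_lit 76) (nat_lit 50971397114) (nat_lit 76) (nat_lit 48356619461) (nat_lit 1) (nat_lit 4) (nat_lit 2) (nat_lit 5) (nat_lit 2) (nat_lit 4) (nat_lit 357) (nat_lit 197) (nat_lit 166))) (XT.nd (nat_lit 78) (nat_lit 0) (nat_lit 0) (XT.lf (nat_lit 0) (nat_lit 363956368674) (nat_lit 76) (nat_lit 52737290807) (nat_lit 76) (nat_lit 50087320437) (nat_lit 1) (nat_lit 4)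 (nat_lit 2) (nat_lit 5) (nat_lit 2) (nat_lit 4) (nat_lit 358) (nat_lit 197) (nat_lit 165)) (XT.lf (nat_lit 0) (nat_lit 383561387195) (nat_lit 76) (nat_lit 54600288393) (nat_lit 76) (nat_lit 51916801150) (nat_lit 1) (nat_lit 4) (nat_lit 2) (nat_lit 5) (nat_lit 2) (nat_lit 4) (nat_lit 359) (nat_lit 197) (nat_lit 164)))) (XT.nd (nat_lit 156) (nat_lit 0) (nat_lit 0) (XT.nd (nat_lit 78) (nat_lit 0) (nat_lit 0) (XT.lf (nat_lit 0) (nat_lit 404127180410) (nat_lit 76) (nat_lit 56564825581) (nat_lit 76) (nat_lit 53849417507) (nat_lit 1) (nat_lit 4) (nat_lit 2) (nat_lit 5) (nat_lit 2) (nat_lit 4) (nat_lit 360) (nat_lit 197) (nat_lit 163)) (XT.lf (nat_lit 0) (nat_lit 425702714494) (nat_lit 76) (nat_lit 58635579841) (nat_lit 76) (nat_lit 55889770974) (nat_lit 1) (nat_lit 4) (nat_lit 2) (nat_lit 5) (nat_lit 2) (nat_lit 4) (nat_lit 361) (nat_lit 197) (nat_lit 162))) (XT.nd (nat_lit 78) (nat_lit 0)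 (nat_lit 0) (XT.lf (nat_lit 0) (nat_lit 448339359767) (nat_lit 76) (nat_lit 60817481539) (nat_lit 76) (nat_lit 58042719538) (nat_lit 1) (nat_lit 4) (nat_lit 2) (nat_lit 5) (nat_lit 2) (nat_lit 4) (nat_lit 362) (nat_lit 197) (nat_lit 161)) (XT.lf (nat_lit 0) (nat_lit 472091013002) (nat_lit 76) (nat_lit 63115725681) (nat_lit 76) (nat_lit 60313389265) (nat_lit 1) (nat_lit 4) (nat_lit 2) (nat_lit 5) (nat_lit 2) (nat_lit 4) (nat_lit 363) (nat_lit 197) (nat_lit 160))))) (XT.nd (nat_lit 312) (nat_lit 0) (nat_lit 0) (XT.nd (nat_lit 156) (nat_lit 0) (nat_lit 0) (XT.nd (nat_lit 78) (nat_lit 0) (nat_lit 0) (XT.lf (nat_lit 0) (nat_lit 15977128112) (nat_lit 76) (nat_lit 14500483237) (nat_lit 76) (nat_lit 14500483237) (nat_lit 1) (nat_lit 4) (nat_lit 2) (nat_lit 5) (nat_lit 2) (nat_lit 4) (nat_lit 324) (nat_lit 198) (nat_lit 198)) (XT.lf (nat_lit 0) (nat_lit 36646386640) (nat_lit 76) (nat_lit 28941965224)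 (nat_lit 76) (nat_lit 28774273989) (nat_lit 1) (nat_lit 4) (nat_lit 2) (nat_lit 5) (nat_lit 2) (nat_lit 4) (nat_lit 325) (nat_lit 198) (nat_lit 197))) (XT.nd (nat_lit 78) (nat_lit 0) (nat_lit 0) (XT.lf (nat_lit 0) (nat_lit 41475680318) (nat_lit 76) (nat_lit 28921989275) (nat_lit 76) (nat_lit 28594592102) (nat_lit 1) (nat_lit 4) (nat_lit 2) (nat_lit 5) (nat_lit 2) (nat_lit 4) (nat_lit 326) (nat_lit 198) (nat_lit 196)) (XT.lf (nat_lit 0) (nat_lit 46453635578) (nat_lit 76) (nat_lit 28940991067) (nat_lit 76) (nat_lit 28461493000) (nat_lit 1) (nat_lit 4) (nat_lit 2) (nat_lit 5) (nat_lit 2) (nat_lit 4) (nat_lit 327) (nat_lit 198) (nat_lit 195)))) (XT.nd (nat_lit 156) (nat_lit 0) (nat_lit 0) (XT.nd (nat_lit 78) (nat_lit 0) (nat_lit 0) (XT.lf (nat_lit 0) (nat_lit 51592104693) (nat_lit 76) (nat_lit 28999015841) (nat_lit 76) (nat_lit 28374659780) (nat_lit 1) (nat_lit 4) (nat_lit 2) (nat_lit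 5) (nat_lit 2) (nat_lit 4) (nat_lit 328) (nat_lit 198) (nat_lit 194)) (XT.lf (nat_lit 0) (nat_lit 56903322114) (nat_lit 76) (nat_lit 29096201752) (nat_lit 76) (nat_lit 28333885697) (nat_lit 1) (nat_lit 4) (nat_lit 2) (nat_lit 5) (nat_lit 2) (nat_lit 4) (nat_lit 329) (nat_lit 198) (nat_lit 193))) (XT.nd (nat_lit 78) (nat_lit 0) (nat_lit 0) (XT.lf (nat_lit 0) (nat_lit 62399933596) (nat_lit 76) (nat_lit 29232780196) (nat_lit 76) (nat_lit 28339073670) (nat_lit 1) (nat_lit 4) (nat_lit 2) (nat_lit 5) (nat_lit 2) (nat_lit 4) (nat_lit 330) (nat_lit 198) (nat_lit 192)) (XT.nd (nat_lit 78) (nat_lit 0) (nat_lit 0) (XT.lf (nat_lit 0) (nat_lit 68095026311) (nat_lit 76) (nat_lit 29409076358) (nat_lit 76) (nat_lit 28390236050) (nat_lit 1) (nat_lit 4) (nat_lit 2) (nat_lit 5) (nat_lit 2) (nat_lit 4) (nat_lit 331) (nat_lit 198) (nat_lit 191)) (XT.lf (nat_lit 0) (nat_lit 74002160002) (nat_lit 76) (nat_lit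 29625509991) (nat_lit 76) (nat_lit 28487494654) (nat_lit 1) (nat_lit 4) (nat_lit 2) (nat_lit 5) (nat_lit 2) (nat_lit 4) (nat_lit 332) (nat_lit 198) (nat_lit 190))))))) (XT.nd (nat_lit 624) (nat_lit 0) (nat_lit 0) (XT.nd (nat_lit 312) (nat_lit 0) (nat_lit 0) (XT.nd (nat_lit 156) (nat_lit 0) (nat_lit 0) (XT.nd (nat_lit 78) (nat_lit 0) (nat_lit 0) (XT.lf (nat_lit 0) (nat_lit 80135399273) (nat_lit 76) (nat_lit 29882596415) (nat_lit 76) (nat_lit 28631081048) (nat_lit 1) (nat_lit 4) (nat_lit 2) (nat_lit 5) (nat_lit 2) (nat_lit 4) (nat_lit 333) (nat_lit 198) (nat_lit 189)) (XT.lf (nat_lit 0) (nat_lit 86509347075) (nat_lit 76) (nat_lit 30180947738) (nat_lit 76) (nat_lit 28821337107) (nat_lit 1) (nat_lit 4) (nat_lit 2) (nat_lit 5) (nat_lit 2) (nat_lit 4) (nat_lit 334) (nat_lit 198) (nat_lit 188))) (XT.nd (nat_lit 78) (nat_lit 0) (nat_lit 0) (XT.lf (nat_lit 0) (nat_lit 93139179475) (nat_lit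 76) (nat_lit 30521274322) (nat_lit 76) (nat_lit 29058715819) (nat_lit 1) (nat_lit 4) (nat_lit 2) (nat_lit 5) (nat_lit 2) (nat_lit 4) (nat_lit 335) (nat_lit 198) (nat_lit 187)) (XT.lf (nat_lit 0) (nat_lit 100040681787) (nat_lit 76) (nat_lit 30904386468) (nat_lit 76) (nat_lit 29343782373) (nat_lit 1) (nat_lit 4) (nat_lit 2) (nat_lit 5) (nat_lit 2) (nat_lit 4) (nat_lit 336) (nat_lit 198) (nat_lit 186)))) (XT.nd (nat_lit 156) (nat_lit 0) (nat_lit 0) (XT.nd (nat_lit 78) (nat_lit 0) (nat_lit 0) (XT.lf (nat_lit 0) (nat_lit 107230286160) (nat_lit 76) (nat_lit 31331196348) (nat_lit 76) (nat_lit 29677215498) (nat_lit 1) (nat_lit 4) (nat_lit 2) (nat_lit 5) (nat_lit 2) (nat_lit 4) (nat_lit 337) (nat_lit 198) (nat_lit 185)) (XT.lf (nat_lit 0) (nat_lit 114725110699) (nat_lit 76) (nat_lit 31802720176) (nat_lit 76) (nat_lit 30059809084) (nat_lit 1) (nat_lit 4) (nat_lit 2) (nat_lit 5) (nat_lit 2) (nat_lit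 4) (nat_lit 338) (nat_lit 198) (nat_lit 184))) (XT.nd (nat_lit 78) (nat_lit 0) (nat_lit 0) (XT.lf (nat_lit 0) (nat_lit 122543000225) (nat_lit 76) (nat_lit 32320080627) (nat_lit 76) (nat_lit 30492474066) (nat_lit 1) (nat_lit 4) (nat_lit 2) (nat_lit 5) (nat_lit 2) (nat_lit 4) (nat_lit 339) (nat_lit 198) (nat_lit 183)) (XT.lf (nat_lit 0) (nat_lit 130702568761) (nat_lit 76) (nat_lit 32884509512) (nat_lit 76) (nat_lit 30976240600) (nat_lit 1) (nat_lit 4) (nat_lit 2) (nat_lit 5) (nat_lit 2) (nat_lit 4) (nat_lit 340) (nat_lit 198) (nat_lit 182))))) (XT.nd (nat_lit 312) (nat_lit 0) (nat_lit 0) (XT.nd (nat_lit 156) (nat_lit 0) (nat_lit 0) (XT.nd (nat_lit 78) (nat_lit 0) (nat_lit 0) (XT.lf (nat_lit 0) (nat_lit 139223243850) (nat_lit 76) (nat_lit 33497350710) (nat_lit 76) (nat_lit 31512260510) (nat_lit 1) (nat_lit 4) (nat_lit 2) (nat_lit 5) (nat_lit 2) (nat_lit 4) (nat_lit 341) (nat_lit 198)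 (nat_lit 181)) (XT.lf (nat_lit 0) (nat_lit 148125312815) (nat_lit 76) (nat_lit 34160063365) (nat_lit 76) (nat_lit 32101810035) (nat_lit 1) (nat_lit 4) (nat_lit 2) (nat_lit 5) (nat_lit 2) (nat_lit 4) (nat_lit 342) (nat_lit 198) (nat_lit 180))) (XT.nd (nat_lit 78) (nat_lit 0) (nat_lit 0) (XT.lf (nat_lit 0) (nat_lit 157429971057) (nat_lit 76) (nat_lit 34874225366) (nat_lit 76) (nat_lit 32746292865) (nat_lit 1) (nat_lit 4) (nat_lit 2) (nat_lit 5) (nat_lit 2) (nat_lit 4) (nat_lit 343) (nat_lit 198) (nat_lit 179)) (XT.lf (nat_lit 0) (nat_lit 167159372525) (nat_lit 76) (nat_lit 35641537099) (nat_lit 76) (nat_lit 33447243481) (nat_lit 1) (nat_lit 4) (nat_lit 2) (nat_lit 5) (nat_lit 2) (nat_lit 4) (nat_lit 344) (nat_lit 198) (nat_lit 178)))) (XT.nd (nat_lit 156) (nat_lit 0) (nat_lit 0) (XT.nd (nat_lit 78) (nat_lit 0) (nat_lit 0) (XT.lf (nat_lit 0) (nat_lit 177336682461) (nat_lit 76) (nat_lit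 36463825494) (nat_lit 76) (nat_lit 34206330814) (nat_lit 1) (nat_lit 4) (nat_lit 2) (nat_lit 5) (nat_lit 2) (nat_lit 4) (nat_lit 345) (nat_lit 198) (nat_lit 177)) (XT.lf (nat_lit 0) (nat_lit 187986132554) (nat_lit 76) (nat_lit 37343048384) (nat_lit 76) (nat_lit 35025362214) (nat_lit 1) (nat_lit 4) (nat_lit 2) (nat_lit 5) (nat_lit 2) (nat_lit 4) (nat_lit 346) (nat_lit 198) (nat_lit 176))) (XT.nd (nat_lit 78) (nat_lit 0) (nat_lit 0) (XT.lf (nat_lit 0) (nat_lit 199133078638) (nat_lit 76) (nat_lit 38281299154) (nat_lit 76) (nat_lit 35906287758) (nat_lit 1) (nat_lit 4) (nat_lit 2) (nat_lit 5) (nat_lit 2) (nat_lit 4) (nat_lit 347) (nat_lit 198) (nat_lit 175)) (XT.nd (nat_lit 78) (nat_lit 0) (nat_lit 0) (XT.lf (nat_lit 0) (nat_lit 210804061062) (nat_lit 76) (nat_lit 39280811736) (nat_lit 76) (nat_lit 36851204885) (nat_lit 1) (nat_lit 4) (nat_lit 2) (nat_lit 5) (nat_lit 2) (nat_lit 4) (nat_lit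 348) (nat_lit 198) (nat_lit 174)) (XT.lf (nat_lit 0) (nat_lit 223026867877) (nat_lit 76) (nat_lit 40343965921) (nat_lit 76) (nat_lit 37862363400) (nat_lit 1) (nat_lit 4) (nat_lit 2) (nat_lit 5) (nat_lit 2) (nat_lit 4) (nat_lit 349) (nat_lit 198) (nat_lit 173))))))))
noncomputable def xc12 : XT := (XT.nd (nat_lit 35490) (nat_lit 0) (nat_lit 0) (XT.nd (nat_lit 624) (nat_lit 0) (nat_lit 0) (XT.nd (nat_lit 312) (nat_lit 0) (nat_lit 0) (XT.nd (nat_lit 156) (nat_lit 0) (nat_lit 0) (XT.nd (nat_lit 78) (nat_lit 0) (nat_lit 0) (XT.lf (nat_lit 0) (nat_lit 235830601007) (nat_lit 76) (nat_lit 41473293030) (nat_lit 76) (nat_lit 38942170821) (nat_lit 1) (nat_lit 4) (nat_lit 2) (nat_lit 5) (nat_lit 2) (nat_lit 4) (nat_lit 350) (nat_lit 198) (nat_lit 172)) (XT.lf (nat_lit 0) (nat_lit 249245745528) (nat_lit 76) (nat_lit 42671481935) (nat_lit 76) (nat_lit 40093198120) (nat_lit 1) (nat_lit 4) (nat_lit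 2) (nat_lit 5) (nat_lit 2) (nat_lit 4) (nat_lit 351) (nat_lit 198) (nat_lit 171))) (XT.nd (nat_lit 78) (nat_lit 0) (nat_lit 0) (XT.lf (nat_lit 0) (nat_lit 263304242263) (nat_lit 76) (nat_lit 43941385468) (nat_lit 76) (nat_lit 41318185838) (nat_lit 1) (nat_lit 4) (nat_lit 2) (nat_lit 5) (nat_lit 2) (nat_lit 4) (nat_lit 352) (nat_lit 198) (nat_lit 170)) (XT.lf (nat_lit 0) (nat_lit 278039563821) (nat_lit 76) (nat_lit 45286027208) (nat_lit 76) (nat_lit 42620050611) (nat_lit 1) (nat_lit 4) (nat_lit 2) (nat_lit 5) (nat_lit 2) (nat_lit 4) (nat_lit 353) (nat_lit 198) (nat_lit 169)))) (XT.nd (nat_lit 156) (nat_lit 0) (nat_lit 0) (XT.nd (nat_lit 78) (nat_lit 0) (nat_lit 0) (XT.lf (nat_lit 0) (nat_lit 293486794302) (nat_lit 76) (nat_lit 46708608684) (nat_lit 76) (nat_lit 44001892118) (nat_lit 1) (nat_lit 4) (nat_lit 2) (nat_lit 5) (nat_lit 2) (nat_lit 4) (nat_lit 354) (nat_lit 198) (nat_lit 168))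 (XT.lf (nat_lit 0) (nat_lit 309682712826) (nat_lit 76) (nat_lit 48212516994) (nat_lit 76) (nat_lit 45467000458) (nat_lit 1) (nat_lit 4) (nat_lit 2) (nat_lit 5) (nat_lit 2) (nat_lit 4) (nat_lit 355) (nat_lit 198) (nat_lit 167))) (XT.nd (nat_lit 78) (nat_lit 0) (nat_lit 0) (XT.lf (nat_lit 0) (nat_lit 326665881104) (nat_lit 76) (nat_lit 49801332873) (nat_lit 76) (nat_lit 47018863984) (nat_lit 1) (nat_lit 4) (nat_lit 2) (nat_lit 5) (nat_lit 2) (nat_lit 4) (nat_lit 356) (nat_lit 198) (nat_lit 166)) (XT.lf (nat_lit 0) (nat_lit 344476735250) (nat_lit 76) (nat_lit 51478839214) (nat_lit 76) (nat_lit 48661177609) (nat_lit 1) (nat_lit 4) (nat_lit 2) (nat_lit 5) (nat_lit 2) (nat_lit 4) (nat_lit 357) (nat_lit 198) (nat_lit 165))))) (XT.nd (nat_lit 312) (nat_lit 0) (nat_lit 0) (XT.nd (nat_lit 156) (nat_lit 0) (nat_lit 0) (XT.nd (nat_lit 78) (nat_lit 0) (nat_lit 0) (XT.lf (nat_lit 0) (nat_lit 363157682061)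 (nat_lit 76) (nat_lit 53249030082) (nat_lit 76) (nat_lit 50397851604) (nat_lit 1) (nat_lit 4) (nat_lit 2) (nat_lit 5) (nat_lit 2) (nat_lit 4) (nat_lit 358) (nat_lit 198) (nat_lit 164)) (XT.lf (nat_lit 0) (nat_lit 382753199981) (nat_lit 76) (nat_lit 55116120216) (nat_lit 76) (nat_lit 52233020906) (nat_lit 1) (nat_lit 4) (nat_lit 2) (nat_lit 5) (nat_lit 2) (nat_lit 4) (nat_lit 359) (nat_lit 198) (nat_lit 163))) (XT.nd (nat_lit 78) (nat_lit 0) (nat_lit 0) (XT.lf (nat_lit 0) (nat_lit 403309945006) (nat_lit 76) (nat_lit 57084555068) (nat_lit 76) (nat_lit 54171054967) (nat_lit 1) (nat_lit 4) (nat_lit 2) (nat_lit 5) (nat_lit 2) (nat_lit 4) (nat_lit 360) (nat_lit 198) (nat_lit 162)) (XT.lf (nat_lit 0) (nat_lit 424876861765) (nat_lit 76) (nat_lit 59159021389) (nat_lit 76) (nat_lit 56216568153) (nat_lit 1) (nat_lit 4) (nat_lit 2) (nat_lit 5) (nat_lit 2) (nat_lit 4) (nat_lit 361) (nat_lit 198)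 (nat_lit 161)))) (XT.nd (nat_lit 34398) (nat_lit 0) (nat_lit 0) (XT.nd (nat_lit 78) (nat_lit 0) (nat_lit 0) (XT.lf (nat_lit 0) (nat_lit 447505300061) (nat_lit 76) (nat_lit 61344458385) (nat_lit 76) (nat_lit 58374430734) (nat_lit 1) (nat_lit 4) (nat_lit 2) (nat_lit 5) (nat_lit 2) (nat_lit 4) (nat_lit 362) (nat_lit 198) (nat_lit 160)) (XT.lf (nat_lit 0) (nat_lit 471249137129) (nat_lit 76) (nat_lit 63646069475) (nat_lit 76) (nat_lit 60649780477) (nat_lit 1) (nat_lit 4) (nat_lit 2) (nat_lit 5) (nat_lit 2) (nat_lit 4) (nat_lit 363) (nat_lit 198) (nat_lit 159))) (XT.nd (nat_lit 78) (nat_lit 0) (nat_lit 0) (XT.lf (nat_lit 0) (nat_lit 11494751832) (nat_lit 76) (nat_lit 14695100646) (nat_lit 76) (nat_lit 14695100646) (nat_lit 1) (nat_lit 4) (nat_lit 2) (nat_lit 5) (nat_lit 2) (nat_lit 4) (nat_lit 322) (nat_lit 199) (nat_lit 199)) (XT.lf (nat_lit 0) (nat_lit 27388117333) (nat_lit 76) (nat_lit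 29275209305) (nat_lit 76) (nat_lit 29099133508) (nat_lit 1) (nat_lit 4) (nat_lit 2) (nat_lit 5) (nat_lit 2) (nat_lit 4) (nat_lit 323) (nat_lit 199) (nat_lit 198)))))) (XT.nd (nat_lit 624) (nat_lit 0) (nat_lit 0) (XT.nd (nat_lit 312) (nat_lit 0) (nat_lit 0) (XT.nd (nat_lit 156) (nat_lit 0) (nat_lit 0) (XT.nd (nat_lit 78) (nat_lit 0) (nat_lit 0) (XT.lf (nat_lit 0) (nat_lit 31904346263) (nat_lit 76) (nat_lit 29198541849) (nat_lit 76) (nat_lit 28854774817) (nat_lit 1) (nat_lit 4) (nat_lit 2) (nat_lit 5) (nat_lit 2) (nat_lit 4) (nat_lit 324) (nat_lit 199) (nat_lit 197)) (XT.lf (nat_lit 0) (nat_lit 36548943382) (nat_lit 76) (nat_lit 29160016386) (nat_lit 76) (nat_lit 28656543415) (nat_lit 1) (nat_lit 4) (nat_lit 2) (nat_lit 5) (nat_lit 2) (nat_lit 4) (nat_lit 325) (nat_lit 199) (nat_lit 196))) (XT.nd (nat_lit 78) (nat_lit 0) (nat_lit 0) (XT.lf (nat_lit 0) (nat_lit 41332967254) (nat_lit 76)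 (nat_lit 29159541187) (nat_lit 76) (nat_lit 28503967323) (nat_lit 1) (nat_lit 4) (nat_lit 2) (nat_lit 5) (nat_lit 2) (nat_lit 4) (nat_lit 326) (nat_lit 199) (nat_lit 195)) (XT.lf (nat_lit 0) (nat_lit 46267808412) (nat_lit 76) (nat_lit 29197115122) (nat_lit 76) (nat_lit 28396683264) (nat_lit 1) (nat_lit 4) (nat_lit 2) (nat_lit 5) (nat_lit 2) (nat_lit 4) (nat_lit 327) (nat_lit 199) (nat_lit 194)))) (XT.nd (nat_lit 156) (nat_lit 0) (nat_lit 0) (XT.nd (nat_lit 78) (nat_lit 0) (nat_lit 0) (XT.lf (nat_lit 0) (nat_lit 51365216479) (nat_lit 76) (nat_lit 29272827651) (nat_lit 76) (nat_lit 28334435799) (nat_lit 1) (nat_lit 4) (nat_lit 2) (nat_lit 5) (nat_lit 2) (nat_lit 4) (nat_lit 328) (nat_lit 199) (nat_lit 193)) (XT.lf (nat_lit 0) (nat_lit 56637328139) (nat_lit 76) (nat_lit 29386859044) (nat_lit 76) (nat_lit 28317076721) (nat_lit 1) (nat_lit 4) (nat_lit 2) (nat_lit 5) (nat_lit 2) (nat_lit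 4) (nat_lit 329) (nat_lit 199) (nat_lit 192))) (XT.nd (nat_lit 78) (nat_lit 0) (nat_lit 0) (XT.lf (nat_lit 0) (nat_lit 62096696040) (nat_lit 76) (nat_lit 29539480802) (nat_lit 76) (nat_lit 28344564698) (nat_lit 1) (nat_lit 4) (nat_lit 2) (nat_lit 5) (nat_lit 2) (nat_lit 4) (nat_lit 330) (nat_lit 199) (nat_lit 191)) (XT.lf (nat_lit 0) (nat_lit 67756318677) (nat_lit 76) (nat_lit 29731056312) (nat_lit 76) (nat_lit 28416965178) (nat_lit 1) (nat_lit 4) (nat_lit 2) (nat_lit 5) (nat_lit 2) (nat_lit 4) (nat_lit 331) (nat_lit 199) (nat_lit 190))))) (XT.nd (nat_lit 312) (nat_lit 0) (nat_lit 0) (XT.nd (nat_lit 156) (nat_lit 0) (nat_lit 0) (XT.nd (nat_lit 78) (nat_lit 0) (nat_lit 0) (XT.lf (nat_lit 0) (nat_lit 73629671341) (nat_lit 76) (nat_lit 29962041706) (nat_lit 76) (nat_lit 28534450543) (nat_lit 1) (nat_lit 4) (nat_lit 2) (nat_lit 5) (nat_lit 2) (nat_lit 4) (nat_lit 332) (nat_lit 199) (nat_lit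 189)) (XT.lf (nat_lit 0) (nat_lit 79730738206) (nat_lit 76) (nat_lit 30232986948) (nat_lit 76) (nat_lit 28697300520) (nat_lit 1) (nat_lit 4) (nat_lit 2) (nat_lit 5) (nat_lit 2) (nat_lit 4) (nat_lit 333) (nat_lit 199) (nat_lit 188))) (XT.nd (nat_lit 78) (nat_lit 0) (nat_lit 0) (XT.lf (nat_lit 0) (nat_lit 86074045622) (nat_lit 76) (nat_lit 30544537147) (nat_lit 76) (nat_lit 28905902847) (nat_lit 1) (nat_lit 4) (nat_lit 2) (nat_lit 5) (nat_lit 2) (nat_lit 4) (nat_lit 334) (nat_lit 199) (nat_lit 187)) (XT.lf (nat_lit 0) (nat_lit 92674696701) (nat_lit 76) (nat_lit 30897434089) (nat_lit 76) (nat_lit 29160754197) (nat_lit 1) (nat_lit 4) (nat_lit 2) (nat_lit 5) (nat_lit 2) (nat_lit 4) (nat_lit 335) (nat_lit 199) (nat_lit 186)))) (XT.nd (nat_lit 156) (nat_lit 0) (nat_lit 0) (XT.nd (nat_lit 78) (nat_lit 0) (nat_lit 0) (XT.lf (nat_lit 0) (nat_lit 99548407279) (nat_lit 76) (nat_lit 31292518004)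 (nat_lit 76) (nat_lit 29462461357) (nat_lit 1) (nat_lit 4) (nat_lit 2) (nat_lit 5) (nat_lit 2) (nat_lit 4) (nat_lit 336) (nat_lit 199) (nat_lit 185)) (XT.lf (nat_lit 0) (nat_lit 106711543333) (nat_lit 76) (nat_lit 31730729569) (nat_lit 76) (nat_lit 29811742679) (nat_lit 1) (nat_lit 4) (nat_lit 2) (nat_lit 5) (nat_lit 2) (nat_lit 4) (nat_lit 337) (nat_lit 199) (nat_lit 184))) (XT.nd (nat_lit 78) (nat_lit 0) (nat_lit 0) (XT.lf (nat_lit 0) (nat_lit 114181159951) (nat_lit 76) (nat_lit 32213112144) (nat_lit 76) (nat_lit 30209429785) (nat_lit 1) (nat_lit 4) (nat_lit 2) (nat_lit 5) (nat_lit 2) (nat_lit 4) (nat_lit 338) (nat_lit 199) (nat_lit 183)) (XT.nd (nat_lit 78) (nat_lit 0) (nat_lit 0) (XT.lf (nat_lit 0) (nat_lit 121975041932) (nat_lit 76) (nat_lit 32740814259) (nat_lit 76) (nat_lit 30656469549) (nat_lit 1) (nat_lit 4) (nat_lit 2) (nat_lit 5) (nat_lit 2) (nat_lit 4) (nat_lit 339) (nat_lit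 199) (nat_lit 182)) (XT.lf (nat_lit 0) (nat_lit 130111746140) (nat_lit 76) (nat_lit 33315092348) (nat_lit 76) (nat_lit 31153926351) (nat_lit 1) (nat_lit 4) (nat_lit 2) (nat_lit 5) (nat_lit 2) (nat_lit 4) (nat_lit 340) (nat_lit 199) (nat_lit 181))))))))
noncomputable def xc13 : XT := (XT.nd (nat_lit 1326) (nat_lit 0) (nat_lit 0) (XT.nd (nat_lit 624) (nat_lit 0) (nat_lit 0) (XT.nd (nat_lit 312) (nat_lit 0) (nat_lit 0) (XT.nd (nat_lit 156) (nat_lit 0) (nat_lit 0) (XT.nd (nat_lit 78) (nat_lit 0) (nat_lit 0) (XT.lf (nat_lit 0) (nat_lit 138610645678) (nat_lit 76) (nat_lit 33937313740) (nat_lit 76) (nat_lit 31702984613) (nat_lit 1) (nat_lit 4) (nat_lit 2) (nat_lit 5) (nat_lit 2) (nat_lit 4) (nat_lit 341) (nat_lit 199) (nat_lit 180)) (XT.lf (nat_lit 0) (nat_lit 147491976023) (nat_lit 76) (nat_lit 34608959914) (nat_lit 76) (nat_lit 32304951615) (nat_lit 1) (nat_lit 4) (nat_lit 2) (nat_lit 5)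 (nat_lit 2) (nat_lit 4) (nat_lit 342) (nat_lit 199) (nat_lit 179))) (XT.nd (nat_lit 78) (nat_lit 0) (nat_lit 0) (XT.lf (nat_lit 0) (nat_lit 156776883199) (nat_lit 76) (nat_lit 35331630028) (nat_lit 76) (nat_lit 32961260613) (nat_lit 1) (nat_lit 4) (nat_lit 2) (nat_lit 5) (nat_lit 2) (nat_lit 4) (nat_lit 343) (nat_lit 199) (nat_lit 178)) (XT.lf (nat_lit 0) (nat_lit 166487474127) (nat_lit 76) (nat_lit 36107044724) (nat_lit 76) (nat_lit 33673474246) (nat_lit 1) (nat_lit 4) (nat_lit 2) (nat_lit 5) (nat_lit 2) (nat_lit 4) (nat_lit 344) (nat_lit 199) (nat_lit 177)))) (XT.nd (nat_lit 156) (nat_lit 0) (nat_lit 0) (XT.nd (nat_lit 78) (nat_lit 0) (nat_lit 0) (XT.lf (nat_lit 0) (nat_lit 176646869263) (nat_lit 76) (nat_lit 36937050229) (nat_lit 76) (nat_lit 34443288263) (nat_lit 1) (nat_lit 4) (nat_lit 2) (nat_lit 5) (nat_lit 2) (nat_lit 4) (nat_lit 345) (nat_lit 199) (nat_lit 176)) (XT.lf (nat_lit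 0) (nat_lit 187279257642) (nat_lit 76) (nat_lit 37823622746) (nat_lit 76) (nat_lit 35272535553) (nat_lit 1) (nat_lit 4) (nat_lit 2) (nat_lit 5) (nat_lit 2) (nat_lit 4) (nat_lit 346) (nat_lit 199) (nat_lit 175))) (XT.nd (nat_lit 78) (nat_lit 0) (nat_lit 0) (XT.lf (nat_lit 0) (nat_lit 198409954475) (nat_lit 76) (nat_lit 38768873162) (nat_lit 76) (nat_lit 36163190514) (nat_lit 1) (nat_lit 4) (nat_lit 2) (nat_lit 5) (nat_lit 2) (nat_lit 4) (nat_lit 347) (nat_lit 199) (nat_lit 174)) (XT.lf (nat_lit 0) (nat_lit 210065461421) (nat_lit 76) (nat_lit 39775052073) (nat_lit 76) (nat_lit 37117373754) (nat_lit 1) (nat_lit 4) (nat_lit 2) (nat_lit 5) (nat_lit 2) (nat_lit 4) (nat_lit 348) (nat_lit 199) (nat_lit 173))))) (XT.nd (nat_lit 312) (nat_lit 0) (nat_lit 0) (XT.nd (nat_lit 156) (nat_lit 0) (nat_lit 0) (XT.nd (nat_lit 78) (nat_lit 0) (nat_lit 0) (XT.lf (nat_lit 0) (nat_lit 222273529687) (nat_lit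 76) (nat_lit 40844555143) (nat_lit 76) (nat_lit 38137357137) (nat_lit 1) (nat_lit 4) (nat_lit 2) (nat_lit 5) (nat_lit 2) (nat_lit 4) (nat_lit 349) (nat_lit 199) (nat_lit 172)) (XT.lf (nat_lit 0) (nat_lit 235063226103) (nat_lit 76) (nat_lit 41979928808) (nat_lit 76) (nat_lit 39225569196) (nat_lit 1) (nat_lit 4) (nat_lit 2) (nat_lit 5) (nat_lit 2) (nat_lit 4) (nat_lit 350) (nat_lit 199) (nat_lit 171))) (XT.nd (nat_lit 78) (nat_lit 0) (nat_lit 0) (XT.lf (nat_lit 0) (nat_lit 248465002325) (nat_lit 76) (nat_lit 43183876339) (nat_lit 76) (nat_lit 40384600912) (nat_lit 1) (nat_lit 4) (nat_lit 2) (nat_lit 5) (nat_lit 2) (nat_lit 4) (nat_lit 351) (nat_lit 199) (nat_lit 170)) (XT.lf (nat_lit 0) (nat_lit 262510767346) (nat_lit 76) (nat_lit 44459264277) (nat_lit 76) (nat_lit 41617211883) (nat_lit 1) (nat_lit 4) (nat_lit 2) (nat_lit 5) (nat_lit 2) (nat_lit 4) (nat_lit 352) (nat_lit 199) (nat_lit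 169)))) (XT.nd (nat_lit 156) (nat_lit 0) (nat_lit 0) (XT.nd (nat_lit 78) (nat_lit 0) (nat_lit 0) (XT.lf (nat_lit 0) (nat_lit 277233963462) (nat_lit 76) (nat_lit 45809129260) (nat_lit 76) (nat_lit 42926336898) (nat_lit 1) (nat_lit 4) (nat_lit 2) (nat_lit 5) (nat_lit 2) (nat_lit 4) (nat_lit 353) (nat_lit 199) (nat_lit 168)) (XT.lf (nat_lit 0) (nat_lit 292669645904) (nat_lit 76) (nat_lit 47236685253) (nat_lit 76) (nat_lit 44315092921) (nat_lit 1) (nat_lit 4) (nat_lit 2) (nat_lit 5) (nat_lit 2) (nat_lit 4) (nat_lit 354) (nat_lit 199) (nat_lit 167))) (XT.nd (nat_lit 78) (nat_lit 0) (nat_lit 0) (XT.lf (nat_lit 0) (nat_lit 308854566295) (nat_lit 76) (nat_lit 48745331199) (nat_lit 76) (nat_lit 45786786514) (nat_lit 1) (nat_lit 4) (nat_lit 2) (nat_lit 5) (nat_lit 2) (nat_lit 4) (nat_lit 355) (nat_lit 199) (nat_lit 166)) (XT.nd (nat_lit 78) (nat_lit 0) (nat_lit 0) (XT.lf (nat_lit 0) (nat_lit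 325827260161) (nat_lit 76) (nat_lit 50338659111) (nat_lit 76) (nat_lit 47344921709) (nat_lit 1) (nat_lit 4) (nat_lit 2) (nat_lit 5) (nat_lit 2) (nat_lit 4) (nat_lit 356) (nat_lit 199) (nat_lit 165)) (XT.lf (nat_lit 0) (nat_lit 343628138676) (nat_lit 76) (nat_lit 52020462628) (nat_lit 76) (nat_lit 48993208353) (nat_lit 1) (nat_lit 4) (nat_lit 2) (nat_lit 5) (nat_lit 2) (nat_lit 4) (nat_lit 357) (nat_lit 199) (nat_lit 164))))))) (XT.nd (nat_lit 34710) (nat_lit 0) (nat_lit 0) (XT.nd (nat_lit 312) (nat_lit 0) (nat_lit 0) (XT.nd (nat_lit 156) (nat_lit 0) (nat_lit 0) (XT.nd (nat_lit 78) (nat_lit 0) (nat_lit 0) (XT.lf (nat_lit 0) (nat_lit 362299584887) (nat_lit 76) (nat_lit 53794746044) (nat_lit 76) (nat_lit 50735570937) (nat_lit 1) (nat_lit 4) (nat_lit 2) (nat_lit 5) (nat_lit 2) (nat_lit 4) (nat_lit 358) (nat_lit 199) (nat_lit 163)) (XT.lf (nat_lit 0) (nat_lit 381886054615) (nat_lit 76)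 (nat_lit 55665733842) (nat_lit 76) (nat_lit 52576157943) (nat_lit 1) (nat_lit 4) (nat_lit 2) (nat_lit 5) (nat_lit 2) (nat_lit 4) (nat_lit 359) (nat_lit 199) (nat_lit 162))) (XT.nd (nat_lit 78) (nat_lit 0) (nat_lit 0) (XT.lf (nat_lit 0) (nat_lit 402434182315) (nat_lit 76) (nat_lit 57637880756) (nat_lit 76) (nat_lit 54519351722) (nat_lit 1) (nat_lit 4) (nat_lit 2) (nat_lit 5) (nat_lit 2) (nat_lit 4) (nat_lit 360) (nat_lit 199) (nat_lit 161)) (XT.lf (nat_lit 0) (nat_lit 423992892098) (nat_lit 76) (nat_lit 59715882373) (nat_lit 76) (nat_lit 56569778925) (nat_lit 1) (nat_lit 4) (nat_lit 2) (nat_lit 5) (nat_lit 2) (nat_lit 4) (nat_lit 361) (nat_lit 199) (nat_lit 160)))) (XT.nd (nat_lit 34242) (nat_lit 0) (nat_lit 0) (XT.nd (nat_lit 78) (nat_lit 0) (nat_lit 0) (XT.lf (nat_lit 0) (nat_lit 446613514227) (nat_lit 76) (nat_lit 61904686318) (nat_lit 76) (nat_lit 58732321523) (nat_lit 1) (nat_lit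 4) (nat_lit 2) (nat_lit 5) (nat_lit 2) (nat_lit 4) (nat_lit 362) (nat_lit 199) (nat_lit 159)) (XT.lf (nat_lit 0) (nat_lit 470349907325) (nat_lit 76) (nat_lit 64209504026) (nat_lit 76) (nat_lit 61012128425) (nat_lit 1) (nat_lit 4) (nat_lit 2) (nat_lit 5) (nat_lit 2) (nat_lit 4) (nat_lit 363) (nat_lit 199) (nat_lit 158))) (XT.nd (nat_lit 78) (nat_lit 0) (nat_lit 0) (XT.lf (nat_lit 0) (nat_lit 7279255696) (nat_lit 76) (nat_lit 14948761119) (nat_lit 76) (nat_lit 14948761119) (nat_lit 1) (nat_lit 4) (nat_lit 2) (nat_lit 5) (nat_lit 2) (nat_lit 4) (nat_lit 320) (nat_lit 200) (nat_lit 200)) (XT.lf (nat_lit 0) (nat_lit 18698032370) (nat_lit 76) (nat_lit 29728671193) (nat_lit 76) (nat_lit 29543791606) (nat_lit 1) (nat_lit 4) (nat_lit 2) (nat_lit 5) (nat_lit 2) (nat_lit 4) (nat_lit 321) (nat_lit 200) (nat_lit 199))))) (XT.nd (nat_lit 312) (nat_lit 0) (nat_lit 0) (XT.nd (nat_lit 156) (nat_lit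 0) (nat_lit 0) (XT.nd (nat_lit 78) (nat_lit 0) (nat_lit 0) (XT.lf (nat_lit 0) (nat_lit 22937098206) (nat_lit 76) (nat_lit 29597655436) (nat_lit 76) (nat_lit 29236700052) (nat_lit 1) (nat_lit 4) (nat_lit 2) (nat_lit 5) (nat_lit 2) (nat_lit 4) (nat_lit 322) (nat_lit 200) (nat_lit 198)) (XT.lf (nat_lit 0) (nat_lit 27285801912) (nat_lit 76) (nat_lit 29504163024) (nat_lit 76) (nat_lit 28975516405) (nat_lit 1) (nat_lit 4) (nat_lit 2) (nat_lit 5) (nat_lit 2) (nat_lit 4) (nat_lit 323) (nat_lit 200) (nat_lit 197))) (XT.nd (nat_lit 78) (nat_lit 0) (nat_lit 0) (XT.lf (nat_lit 0) (nat_lit 31754497546) (nat_lit 76) (nat_lit 29447971357) (nat_lit 76) (nat_lit 28759618799) (nat_lit 1) (nat_lit 4) (nat_lit 2) (nat_lit 5) (nat_lit 2) (nat_lit 4) (nat_lit 324) (nat_lit 200) (nat_lit 196)) (XT.lf (nat_lit 0) (nat_lit 36353824858) (nat_lit 76) (nat_lit 29428946643) (nat_lit 76) (nat_lit 28588493193) (nat_lit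 1) (nat_lit 4) (nat_lit 2) (nat_lit 5) (nat_lit 2) (nat_lit 4) (nat_lit 325) (nat_lit 200) (nat_lit 195)))) (XT.nd (nat_lit 156) (nat_lit 0) (nat_lit 0) (XT.nd (nat_lit 78) (nat_lit 0) (nat_lit 0) (XT.lf (nat_lit 0) (nat_lit 41094734629) (nat_lit 76) (nat_lit 29447043588) (nat_lit 76) (nat_lit 28461732143) (nat_lit 1) (nat_lit 4) (nat_lit 2) (nat_lit 5) (nat_lit 2) (nat_lit 4) (nat_lit 326) (nat_lit 200) (nat_lit 194)) (XT.lf (nat_lit 0) (nat_lit 45988514739) (nat_lit 76) (nat_lit 29502305278) (nat_lit 76) (nat_lit 28379033839) (nat_lit 1) (nat_lit 4) (nat_lit 2) (nat_lit 5) (nat_lit 2) (nat_lit 4) (nat_lit 327) (nat_lit 200) (nat_lit 193))) (XT.nd (nat_lit 78) (nat_lit 0) (nat_lit 0) (XT.lf (nat_lit 0) (nat_lit 51046817045) (nat_lit 76) (nat_lit 29594863288) (nat_lit 76) (nat_lit 28340201379) (nat_lit 1) (nat_lit 4) (nat_lit 2) (nat_lit 5) (nat_lit 2) (nat_lit 4) (nat_lit 328) (nat_lit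 200) (nat_lit 192)) (XT.nd (nat_lit 78) (nat_lit 0) (nat_lit 0) (XT.lf (nat_lit 0) (nat_lit 56281685123) (nat_lit 76) (nat_lit 29724937996) (nat_lit 76) (nat_lit 28345142305) (nat_lit 1) (nat_lit 4) (nat_lit 2) (nat_lit 5) (nat_lit 2) (nat_lit 4) (nat_lit 329) (nat_lit 200) (nat_lit 191)) (XT.lf (nat_lit 0) (nat_lit 61705582947) (nat_lit 76) (nat_lit 29892839103) (nat_lit 76) (nat_lit 28393868382) (nat_lit 1) (nat_lit 4) (nat_lit 2) (nat_lit 5) (nat_lit 2) (nat_lit 4) (nat_lit 330) (nat_lit 200) (nat_lit 190))))))))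
noncomputable def xc14 : XT := (XT.nd (nat_lit 1326) (nat_lit 0) (nat_lit 0) (XT.nd (nat_lit 624) (nat_lit 0) (nat_lit 0) (XT.nd (nat_lit 312) (nat_lit 0) (nat_lit 0) (XT.nd (nat_lit 156) (nat_lit 0) (nat_lit 0) (XT.nd (nat_lit 78) (nat_lit 0) (nat_lit 0) (XT.lf (nat_lit 0) (nat_lit 67331424557) (nat_lit 76) (nat_lit 30098966373) (nat_lit 76) (nat_lit 28486495623) (nat_lit 1) (nat_lit 4) (nat_lit 2) (nat_lit 5) (nat_lit 2) (nat_lit 4) (nat_lit 331) (nat_lit 200) (nat_lit 189)) (XT.lf (nat_lit 0) (nat_lit 73172604815) (nat_lit 76) (nat_lit 30343810586) (nat_lit 76) (nat_lit 28623244570) (nat_lit 1) (nat_lit 4) (nat_lit 2) (nat_lit 5) (nat_lit 2) (nat_lit 4) (nat_lit 332) (nat_lit 200) (nat_lit 188))) (XT.nd (nat_lit 78) (nat_lit 0) (nat_lit 0) (XT.lf (nat_lit 0) (nat_lit 79243031294) (nat_lit 76) (nat_lit 30627954703) (nat_lit 76) (nat_lit 28804440816) (nat_lit 1) (nat_lit 4) (nat_lit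 2) (nat_lit 5) (nat_lit 2) (nat_lit 4) (nat_lit 333) (nat_lit 200) (nat_lit 187)) (XT.lf (nat_lit 0) (nat_lit 85557157388) (nat_lit 76) (nat_lit 30952075260) (nat_lit 76) (nat_lit 29030515781) (nat_lit 1) (nat_lit 4) (nat_lit 2) (nat_lit 5) (nat_lit 2) (nat_lit 4) (nat_lit 334) (nat_lit 200) (nat_lit 186)))) (XT.nd (nat_lit 156) (nat_lit 0) (nat_lit 0) (XT.nd (nat_lit 78) (nat_lit 0) (nat_lit 0) (XT.lf (nat_lit 0) (nat_lit 92130016733) (nat_lit 76) (nat_lit 31316943970) (nat_lit 76) (nat_lit 29302007737) (nat_lit 1) (nat_lit 4) (nat_lit 2) (nat_lit 5) (nat_lit 2) (nat_lit 4) (nat_lit 335) (nat_lit 200) (nat_lit 185)) (XT.lf (nat_lit 0) (nat_lit 98977258993) (nat_lit 76) (nat_lit 31723429570) (nat_lit 76) (nat_lit 29619563094) (nat_lit 1) (nat_lit 4) (nat_lit 2) (nat_lit 5) (nat_lit 2) (nat_lit 4) (nat_lit 336) (nat_lit 200) (nat_lit 184))) (XT.nd (nat_lit 78) (nat_lit 0) (nat_lit 0)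 (XT.lf (nat_lit 0) (nat_lit 106115187126) (nat_lit 76) (nat_lit 32172499882) (nat_lit 76) (nat_lit 29983937937) (nat_lit 1) (nat_lit 4) (nat_lit 2) (nat_lit 5) (nat_lit 2) (nat_lit 4) (nat_lit 337) (nat_lit 200) (nat_lit 183)) (XT.lf (nat_lit 0) (nat_lit 113560796198) (nat_lit 76) (nat_lit 32665224121) (nat_lit 76) (nat_lit 30395999825) (nat_lit 1) (nat_lit 4) (nat_lit 2) (nat_lit 5) (nat_lit 2) (nat_lit 4) (nat_lit 338) (nat_lit 200) (nat_lit 182))))) (XT.nd (nat_lit 312) (nat_lit 0) (nat_lit 0) (XT.nd (nat_lit 156) (nat_lit 0) (nat_lit 0) (XT.nd (nat_lit 78) (nat_lit 0) (nat_lit 0) (XT.lf (nat_lit 0) (nat_lit 121331813852) (nat_lit 76) (nat_lit 33202775440) (nat_lit 76) (nat_lit 30856729857) (nat_lit 1) (nat_lit 4) (nat_lit 2) (nat_lit 5) (nat_lit 2) (nat_lit 4) (nat_lit 339) (nat_lit 200) (nat_lit 181)) (XT.lf (nat_lit 0) (nat_lit 129446742508) (nat_lit 76) (nat_lit 33786433724)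 (nat_lit 76) (nat_lit 31367225010) (nat_lit 1) (nat_lit 4) (nat_lit 2) (nat_lit 5) (nat_lit 2) (nat_lit 4) (nat_lit 340) (nat_lit 200) (nat_lit 180))) (XT.nd (nat_lit 78) (nat_lit 0) (nat_lit 0) (XT.lf (nat_lit 0) (nat_lit 137924903427) (nat_lit 76) (nat_lit 34417588634) (nat_lit 76) (nat_lit 31928700748) (nat_lit 1) (nat_lit 4) (nat_lit 2) (nat_lit 5) (nat_lit 2) (nat_lit 4) (nat_lit 341) (nat_lit 200) (nat_lit 179)) (XT.lf (nat_lit 0) (nat_lit 146786482705) (nat_lit 76) (nat_lit 35097742921) (nat_lit 76) (nat_lit 32542493919) (nat_lit 1) (nat_lit 4) (nat_lit 2) (nat_lit 5) (nat_lit 2) (nat_lit 4) (nat_lit 342) (nat_lit 200) (nat_lit 178)))) (XT.nd (nat_lit 156) (nat_lit 0) (nat_lit 0) (XT.nd (nat_lit 78) (nat_lit 0) (nat_lit 0) (XT.lf (nat_lit 0) (nat_lit 156052579341) (nat_lit 76) (nat_lit 35828515999) (nat_lit 76) (nat_lit 33210065934) (nat_lit 1) (nat_lit 4) (nat_lit 2) (nat_lit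 5) (nat_lit 2) (nat_lit 4) (nat_lit 343) (nat_lit 200) (nat_lit 177)) (XT.lf (nat_lit 0) (nat_lit 165745255470) (nat_lit 76) (nat_lit 36611647805) (nat_lit 76) (nat_lit 33933006252) (nat_lit 1) (nat_lit 4) (nat_lit 2) (nat_lit 5) (nat_lit 2) (nat_lit 4) (nat_lit 344) (nat_lit 200) (nat_lit 176))) (XT.nd (nat_lit 78) (nat_lit 0) (nat_lit 0) (XT.lf (nat_lit 0) (nat_lit 175887588892) (nat_lit 76) (nat_lit 37449002937) (nat_lit 76) (nat_lit 34713036157) (nat_lit 1) (nat_lit 4) (nat_lit 2) (nat_lit 5) (nat_lit 2) (nat_lit 4) (nat_lit 345) (nat_lit 200) (nat_lit 175)) (XT.nd (nat_lit 78) (nat_lit 0) (nat_lit 0) (XT.lf (nat_lit 0) (nat_lit 186503728020) (nat_lit 76) (nat_lit 38342575100) (nat_lit 76) (nat_lit 35552012865) (nat_lit 1) (nat_lit 4) (nat_lit 2) (nat_lit 5) (nat_lit 2) (nat_lit 4) (nat_lit 346) (nat_lit 200) (nat_lit 174)) (XT.lf (nat_lit 0) (nat_lit 197618949376) (nat_lit 76)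 (nat_lit 39294491844) (nat_lit 76) (nat_lit 36451933939) (nat_lit 1) (nat_lit 4) (nat_lit 2) (nat_lit 5) (nat_lit 2) (nat_lit 4) (nat_lit 347) (nat_lit 200) (nat_lit 173))))))) (XT.nd (nat_lit 624) (nat_lit 0) (nat_lit 0) (XT.nd (nat_lit 312) (nat_lit 0) (nat_lit 0) (XT.nd (nat_lit 156) (nat_lit 0) (nat_lit 0) (XT.nd (nat_lit 78) (nat_lit 0) (nat_lit 0) (XT.lf (nat_lit 0) (nat_lit 209259717772) (nat_lit 76) (nat_lit 40307019640) (nat_lit 76) (nat_lit 37414942048) (nat_lit 1) (nat_lit 4) (nat_lit 2) (nat_lit 5) (nat_lit 2) (nat_lit 4) (nat_lit 348) (nat_lit 200) (nat_lit 172)) (XT.lf (nat_lit 0) (nat_lit 221453749324) (nat_lit 76) (nat_lit 41382569267) (nat_lit 76) (nat_lit 38443330068) (nat_lit 1) (nat_lit 4) (nat_lit 2) (nat_lit 5) (nat_lit 2) (nat_lit 4) (nat_lit 349) (nat_lit 200) (nat_lit 171))) (XT.nd (nat_lit 78) (nat_lit 0) (nat_lit 0) (XT.lf (nat_lit 0) (nat_lit 234230077440)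 (nat_lit 76) (nat_lit 42523701557) (nat_lit 76) (nat_lit 39539546544) (nat_lit 1) (nat_lit 4) (nat_lit 2) (nat_lit 5) (nat_lit 2) (nat_lit 4) (nat_lit 350) (nat_lit 200) (nat_lit 170)) (XT.lf (nat_lit 0) (nat_lit 247619121948) (nat_lit 76) (nat_lit 43733133493) (nat_lit 76) (nat_lit 40706201513) (nat_lit 1) (nat_lit 4) (nat_lit 2) (nat_lit 5) (nat_lit 2) (nat_lit 4) (nat_lit 351) (nat_lit 200) (nat_lit 169)))) (XT.nd (nat_lit 156) (nat_lit 0) (nat_lit 0) (XT.nd (nat_lit 78) (nat_lit 0) (nat_lit 0) (XT.lf (nat_lit 0) (nat_lit 261652761528) (nat_lit 76) (nat_lit 45013744675) (nat_lit 76) (nat_lit 41946072725) (nat_lit 1) (nat_lit 4) (nat_lit 2) (nat_lit 5) (nat_lit 2) (nat_lit 4) (nat_lit 352) (nat_lit 200) (nat_lit 168)) (XT.lf (nat_lit 0) (nat_lit 276364409605) (nat_lit 76) (nat_lit 46368584176) (nat_lit 76) (nat_lit 43262112256) (nat_lit 1) (nat_lit 4) (nat_lit 2) (nat_lit 5) (nat_lit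 2) (nat_lit 4) (nat_lit 353) (nat_lit 200) (nat_lit 167))) (XT.nd (nat_lit 78) (nat_lit 0) (nat_lit 0) (XT.lf (nat_lit 0) (nat_lit 291789093913) (nat_lit 76) (nat_lit 47800877804) (nat_lit 76) (nat_lit 44657453532) (nat_lit 1) (nat_lit 4) (nat_lit 2) (nat_lit 5) (nat_lit 2) (nat_lit 4) (nat_lit 354) (nat_lit 200) (nat_lit 166)) (XT.lf (nat_lit 0) (nat_lit 307963539892) (nat_lit 76) (nat_lit 49314035784) (nat_lit 76) (nat_lit 46135418795) (nat_lit 1) (nat_lit 4) (nat_lit 2) (nat_lit 5) (nat_lit 2) (nat_lit 4) (nat_lit 355) (nat_lit 200) (nat_lit 165))))) (XT.nd (nat_lit 312) (nat_lit 0) (nat_lit 0) (XT.nd (nat_lit 156) (nat_lit 0) (nat_lit 0) (XT.nd (nat_lit 78) (nat_lit 0) (nat_lit 0) (XT.lf (nat_lit 0) (nat_lit 324926258127) (nat_lit 76) (nat_lit 50911660871) (nat_lit 76) (nat_lit 47699527009) (nat_lit 1) (nat_lit 4) (nat_lit 2) (nat_lit 5) (nat_lit 2) (nat_lit 4) (nat_lit 356) (nat_lit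 200) (nat_lit 164)) (XT.lf (nat_lit 0) (nat_lit 342717636042) (nat_lit 76) (nat_lit 52597556936) (nat_lit 76) (nat_lit 49353502242) (nat_lit 1) (nat_lit 4) (nat_lit 2) (nat_lit 5) (nat_lit 2) (nat_lit 4) (nat_lit 357) (nat_lit 200) (nat_lit 163))) (XT.nd (nat_lit 78) (nat_lit 0) (nat_lit 0) (XT.lf (nat_lit 0) (nat_lit 361380034061) (nat_lit 76) (nat_lit 54375738015) (nat_lit 76) (nat_lit 51101282530) (nat_lit 1) (nat_lit 4) (nat_lit 2) (nat_lit 5) (nat_lit 2) (nat_lit 4) (nat_lit 358) (nat_lit 200) (nat_lit 162)) (XT.lf (nat_lit 0) (nat_lit 380957886465) (nat_lit 76) (nat_lit 56250437875) (nat_lit 76) (nat_lit 52947029255) (nat_lit 1) (nat_lit 4) (nat_lit 2) (nat_lit 5) (nat_lit 2) (nat_lit 4) (nat_lit 359) (nat_lit 200) (nat_lit 161)))) (XT.nd (nat_lit 156) (nat_lit 0) (nat_lit 0) (XT.nd (nat_lit 78) (nat_lit 0) (nat_lit 0) (XT.lf (nat_lit 0) (nat_lit 401497807189) (nat_lit 76) (nat_lit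 58226120086) (nat_lit 76) (nat_lit 54895137051) (nat_lit 1) (nat_lit 4) (nat_lit 2) (nat_lit 5) (nat_lit 2) (nat_lit 4) (nat_lit 360) (nat_lit 200) (nat_lit 160)) (XT.lf (nat_lit 0) (nat_lit 423048700804) (nat_lit 76) (nat_lit 60307488652) (nat_lit 76) (nat_lit 56950244271) (nat_lit 1) (nat_lit 4) (nat_lit 2) (nat_lit 5) (nat_lit 2) (nat_lit 4) (nat_lit 361) (nat_lit 200) (nat_lit 159))) (XT.nd (nat_lit 78) (nat_lit 0) (nat_lit 0) (XT.lf (nat_lit 0) (nat_lit 445661878964) (nat_lit 76) (nat_lit 62499499215) (nat_lit 76) (nat_lit 59117244026) (nat_lit 1) (nat_lit 4) (nat_lit 2) (nat_lit 5) (nat_lit 2) (nat_lit 4) (nat_lit 362) (nat_lit 200) (nat_lit 158)) (XT.nd (nat_lit 34008) (nat_lit 0) (nat_lit 0) (XT.lf (nat_lit 0) (nat_lit 469391182567) (nat_lit 76) (nat_lit 64807370846) (nat_lit 76) (nat_lit 61401295841) (nat_lit 1) (nat_lit 4) (nat_lit 2) (nat_lit 5) (nat_lit 2) (nat_lit 4) (nat_lit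 363) (nat_lit 200) (nat_lit 157)) (XT.lf (nat_lit 0) (nat_lit 3298335280) (nat_lit 76) (nat_lit 15259832226) (nat_lit 76) (nat_lit 15259832226) (nat_lit 1) (nat_lit 4) (nat_lit 2) (nat_lit 5) (nat_lit 2) (nat_lit 4) (nat_lit 318) (nat_lit 201) (nat_lit 201))))))))
noncomputable def xc15 : XT := (XT.nd (nat_lit 1326) (nat_lit 0) (nat_lit 0) (XT.nd (nat_lit 624) (nat_lit 0) (nat_lit 0) (XT.nd (nat_lit 312) (nat_lit 0) (nat_lit 0) (XT.nd (nat_lit 156) (nat_lit 0) (nat_lit 0) (XT.nd (nat_lit 78) (nat_lit 0) (nat_lit 0) (XT.lf (nat_lit 0) (nat_lit 10508679268) (nat_lit 76) (nat_lit 30298734162) (nat_lit 76) (nat_lit 30104610596) (nat_lit 1) (nat_lit 4) (nat_lit 2) (nat_lit 5) (nat_lit 2) (nat_lit 4) (nat_lit 319) (nat_lit 201) (nat_lit 200)) (XT.lf (nat_lit 0) (nat_lit 14503485660) (nat_lit 76) (nat_lit 30115349087) (nat_lit 76) (nat_lit 29736345934) (nat_lit 1) (nat_lit 4) (nat_lit 2)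 (nat_lit 5) (nat_lit 2) (nat_lit 4) (nat_lit 320) (nat_lit 201) (nat_lit 199))) (XT.nd (nat_lit 78) (nat_lit 0) (nat_lit 0) (XT.lf (nat_lit 0) (nat_lit 18590601178) (nat_lit 76) (nat_lit 29969072599) (nat_lit 76) (nat_lit 29413993649) (nat_lit 1) (nat_lit 4) (nat_lit 2) (nat_lit 5) (nat_lit 2) (nat_lit 4) (nat_lit 321) (nat_lit 201) (nat_lit 198)) (XT.lf (nat_lit 0) (nat_lit 22779757052) (nat_lit 76) (nat_lit 29859556419) (nat_lit 76) (nat_lit 29136786234) (nat_lit 1) (nat_lit 4) (nat_lit 2) (nat_lit 5) (nat_lit 2) (nat_lit 4) (nat_lit 322) (nat_lit 201) (nat_lit 197)))) (XT.nd (nat_lit 156) (nat_lit 0) (nat_lit 0) (XT.nd (nat_lit 78) (nat_lit 0) (nat_lit 0) (XT.lf (nat_lit 0) (nat_lit 27080927462) (nat_lit 76) (nat_lit 29786539795) (nat_lit 76) (nat_lit 28904063672) (nat_lit 1) (nat_lit 4) (nat_lit 2) (nat_lit 5) (nat_lit 2) (nat_lit 4) (nat_lit 323) (nat_lit 201) (nat_lit 196)) (XT.lf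 (nat_lit 0) (nat_lit 31504353290) (nat_lit 76) (nat_lit 29749848877) (nat_lit 76) (nat_lit 28715271860) (nat_lit 1) (nat_lit 4) (nat_lit 2) (nat_lit 5) (nat_lit 2) (nat_lit 4) (nat_lit 324) (nat_lit 201) (nat_lit 195))) (XT.nd (nat_lit 78) (nat_lit 0) (nat_lit 0) (XT.lf (nat_lit 0) (nat_lit 36060566501) (nat_lit 76) (nat_lit 29749396307) (nat_lit 76) (nat_lit 28569961296) (nat_lit 1) (nat_lit 4) (nat_lit 2) (nat_lit 5) (nat_lit 2) (nat_lit 4) (nat_lit 325) (nat_lit 201) (nat_lit 194)) (XT.lf (nat_lit 0) (nat_lit 40760415224) (nat_lit 76) (nat_lit 29785181007) (nat_lit 76) (nat_lit 28467786002) (nat_lit 1) (nat_lit 4) (nat_lit 2) (nat_lit 5) (nat_lit 2) (nat_lit 4) (nat_lit 326) (nat_lit 201) (nat_lit 193))))) (XT.nd (nat_lit 312) (nat_lit 0) (nat_lit 0) (XT.nd (nat_lit 156) (nat_lit 0) (nat_lit 0) (XT.nd (nat_lit 78) (nat_lit 0) (nat_lit 0) (XT.lf (nat_lit 0) (nat_lit 45615089572)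 (nat_lit 76) (nat_lit 29857288178) (nat_lit 76) (nat_lit 28408502702) (nat_lit 1) (nat_lit 4) (nat_lit 2) (nat_lit 5) (nat_lit 2) (nat_lit 4) (nat_lit 327) (nat_lit 201) (nat_lit 192)) (XT.lf (nat_lit 0) (nat_lit 50636148297) (nat_lit 76) (nat_lit 29965889504) (nat_lit 76) (nat_lit 28391970246) (nat_lit 1) (nat_lit 4) (nat_lit 2) (nat_lit 5) (nat_lit 2) (nat_lit 4) (nat_lit 328) (nat_lit 201) (nat_lit 191))) (XT.nd (nat_lit 78) (nat_lit 0) (nat_lit 0) (XT.lf (nat_lit 0) (nat_lit 55835546298) (nat_lit 76) (nat_lit 30111243560) (nat_lit 76) (nat_lit 28418149272) (nat_lit 1) (nat_lit 4) (nat_lit 2) (nat_lit 5) (nat_lit 2) (nat_lit 4) (nat_lit 329) (nat_lit 201) (nat_lit 190)) (XT.lf (nat_lit 0) (nat_lit 61225663094) (nat_lit 76) (nat_lit 30293696427) (nat_lit 76) (nat_lit 28487102110) (nat_lit 1) (nat_lit 4) (nat_lit 2) (nat_lit 5) (nat_lit 2) (nat_lit 4) (nat_lit 330) (nat_lit 201) (nat_lit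 189)))) (XT.nd (nat_lit 156) (nat_lit 0) (nat_lit 0) (XT.nd (nat_lit 78) (nat_lit 0) (nat_lit 0) (XT.lf (nat_lit 0) (nat_lit 66819332299) (nat_lit 76) (nat_lit 30513682516) (nat_lit 76) (nat_lit 28598992934) (nat_lit 1) (nat_lit 4) (nat_lit 2) (nat_lit 5) (nat_lit 2) (nat_lit 4) (nat_lit 331) (nat_lit 201) (nat_lit 188)) (XT.lf (nat_lit 0) (nat_lit 72629872170) (nat_lit 76) (nat_lit 30771725604) (nat_lit 76) (nat_lit 28754088150) (nat_lit 1) (nat_lit 4) (nat_lit 2) (nat_lit 5) (nat_lit 2) (nat_lit 4) (nat_lit 332) (nat_lit 201) (nat_lit 187))) (XT.nd (nat_lit 78) (nat_lit 0) (nat_lit 0) (XT.lf (nat_lit 0) (nat_lit 78671117328) (nat_lit 76) (nat_lit 31068440079) (nat_lit 76) (nat_lit 28952757033) (nat_lit 1) (nat_lit 4) (nat_lit 2) (nat_lit 5) (nat_lit 2) (nat_lit 4) (nat_lit 333) (nat_lit 201) (nat_lit 186)) (XT.nd (nat_lit 78) (nat_lit 0) (nat_lit 0) (XT.lf (nat_lit 0) (nat_lit 84957451689)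 (nat_lit 76) (nat_lit 31404532404) (nat_lit 76) (nat_lit 29195472604) (nat_lit 1) (nat_lit 4) (nat_lit 2) (nat_lit 5) (nat_lit 2) (nat_lit 4) (nat_lit 334) (nat_lit 201) (nat_lit 185)) (XT.lf (nat_lit 0) (nat_lit 91503842715) (nat_lit 76) (nat_lit 31780802800) (nat_lit 76) (nat_lit 29482812757) (nat_lit 1) (nat_lit 4) (nat_lit 2) (nat_lit 5) (nat_lit 2) (nat_lit 4) (nat_lit 335) (nat_lit 201) (nat_lit 184))))))) (XT.nd (nat_lit 624) (nat_lit 0) (nat_lit 0) (XT.nd (nat_lit 312) (nat_lit 0) (nat_lit 0) (XT.nd (nat_lit 156) (nat_lit 0) (nat_lit 0) (XT.nd (nat_lit 78) (nat_lit 0) (nat_lit 0) (XT.lf (nat_lit 0) (nat_lit 98325877053) (nat_lit 76) (nat_lit 32198147147) (nat_lit 76) (nat_lit 29815461636) (nat_lit 1) (nat_lit 4) (nat_lit 2) (nat_lit 5) (nat_lit 2) (nat_lit 4) (nat_lit 336) (nat_lit 201) (nat_lit 183)) (XT.lf (nat_lit 0) (nat_lit 105439797641) (nat_lit 76) (nat_lit 32657559123)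 (nat_lit 76) (nat_lit 30194211260) (nat_lit 1) (nat_lit 4) (nat_lit 2) (nat_lit 5) (nat_lit 2) (nat_lit 4) (nat_lit 337) (nat_lit 201) (nat_lit 182))) (XT.nd (nat_lit 78) (nat_lit 0) (nat_lit 0) (XT.lf (nat_lit 0) (nat_lit 112862542385) (nat_lit 76) (nat_lit 33160132566) (nat_lit 76) (nat_lit 30619963417) (nat_lit 1) (nat_lit 4) (nat_lit 2) (nat_lit 5) (nat_lit 2) (nat_lit 4) (nat_lit 338) (nat_lit 201) (nat_lit 181)) (XT.lf (nat_lit 0) (nat_lit 120611784488) (nat_lit 76) (nat_lit 33707064079) (nat_lit 76) (nat_lit 31093731800) (nat_lit 1) (nat_lit 4) (nat_lit 2) (nat_lit 5) (nat_lit 2) (nat_lit 4) (nat_lit 339) (nat_lit 201) (nat_lit 180)))) (XT.nd (nat_lit 156) (nat_lit 0) (nat_lit 0) (XT.nd (nat_lit 78) (nat_lit 0) (nat_lit 0) (XT.lf (nat_lit 0) (nat_lit 128705974524) (nat_lit 76) (nat_lit 34299655881) (nat_lit 76) (nat_lit 31616644429) (nat_lit 1) (nat_lit 4) (nat_lit 2) (nat_lit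 5) (nat_lit 2) (nat_lit 4) (nat_lit 340) (nat_lit 201) (nat_lit 179)) (XT.lf (nat_lit 0) (nat_lit 137164384377) (nat_lit 76) (nat_lit 34939318904) (nat_lit 76) (nat_lit 32189946336) (nat_lit 1) (nat_lit 4) (nat_lit 2) (nat_lit 5) (nat_lit 2) (nat_lit 4) (nat_lit 341) (nat_lit 201) (nat_lit 178))) (XT.nd (nat_lit 78) (nat_lit 0) (nat_lit 0) (XT.lf (nat_lit 0) (nat_lit 146007153115) (nat_lit 76) (nat_lit 35627576155) (nat_lit 76) (nat_lit 32815002524) (nat_lit 1) (nat_lit 4) (nat_lit 2) (nat_lit 5) (nat_lit 2) (nat_lit 4) (nat_lit 342) (nat_lit 201) (nat_lit 177)) (XT.lf (nat_lit 0) (nat_lit 155255334952) (nat_lit 76) (nat_lit 36366066342) (nat_lit 76) (nat_lit 33493301223) (nat_lit 1) (nat_lit 4) (nat_lit 2) (nat_lit 5) (nat_lit 2) (nat_lit 4) (nat_lit 343) (nat_lit 201) (nat_lit 176))))) (XT.nd (nat_lit 312) (nat_lit 0) (nat_lit 0) (XT.nd (nat_lit 156) (nat_lit 0) (nat_lit 0) (XT.nd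 (nat_lit 78) (nat_lit 0) (nat_lit 0) (XT.lf (nat_lit 0) (nat_lit 164930949367) (nat_lit 76) (nat_lit 37156547776) (nat_lit 76) (nat_lit 34226457429) (nat_lit 1) (nat_lit 4) (nat_lit 2) (nat_lit 5) (nat_lit 2) (nat_lit 4) (nat_lit 344) (nat_lit 201) (nat_lit 175)) (XT.lf (nat_lit 0) (nat_lit 175057033538) (nat_lit 76) (nat_lit 38000902554) (nat_lit 76) (nat_lit 35016216753) (nat_lit 1) (nat_lit 4) (nat_lit 2) (nat_lit 5) (nat_lit 2) (nat_lit 4) (nat_lit 345) (nat_lit 201) (nat_lit 174))) (XT.nd (nat_lit 78) (nat_lit 0) (nat_lit 0) (XT.lf (nat_lit 0) (nat_lit 185657697188) (nat_lit 76) (nat_lit 38901141045) (nat_lit 76) (nat_lit 35864459573) (nat_lit 1) (nat_lit 4) (nat_lit 2) (nat_lit 5) (nat_lit 2) (nat_lit 4) (nat_lit 346) (nat_lit 201) (nat_lit 173)) (XT.lf (nat_lit 0) (nat_lit 196758179994) (nat_lit 76) (nat_lit 39859406674) (nat_lit 76) (nat_lit 36773205516) (nat_lit 1) (nat_lit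 4) (nat_lit 2) (nat_lit 5) (nat_lit 2) (nat_lit 4) (nat_lit 347) (nat_lit 201) (nat_lit 172)))) (XT.nd (nat_lit 156) (nat_lit 0) (nat_lit 0) (XT.nd (nat_lit 78) (nat_lit 0) (nat_lit 0) (XT.lf (nat_lit 0) (nat_lit 208384911676) (nat_lit 76) (nat_lit 40877981027) (nat_lit 76) (nat_lit 37744618262) (nat_lit 1) (nat_lit 4) (nat_lit 2) (nat_lit 5) (nat_lit 2) (nat_lit 4) (nat_lit 348) (nat_lit 201) (nat_lit 171)) (XT.lf (nat_lit 0) (nat_lit 220565574928) (nat_lit 76) (nat_lit 41959289279) (nat_lit 76) (nat_lit 38781010699) (nat_lit 1) (nat_lit 4) (nat_lit 2) (nat_lit 5) (nat_lit 2) (nat_lit 4) (nat_lit 349) (nat_lit 201) (nat_lit 170))) (XT.nd (nat_lit 78) (nat_lit 0) (nat_lit 0) (XT.lf (nat_lit 0) (nat_lit 233329171331) (nat_lit 76) (nat_lit 43105905975) (nat_lit 76) (nat_lit 39884850428) (nat_lit 1) (nat_lit 4) (nat_lit 2) (nat_lit 5) (nat_lit 2) (nat_lit 4) (nat_lit 350) (nat_lit 201)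 (nat_lit 169)) (XT.nd (nat_lit 78) (nat_lit 0) (nat_lit 0) (XT.lf (nat_lit 0) (nat_lit 246706090398) (nat_lit 76) (nat_lit 44320561154) (nat_lit 76) (nat_lit 41058765639) (nat_lit 1) (nat_lit 4) (nat_lit 2) (nat_lit 5) (nat_lit 2) (nat_lit 4) (nat_lit 351) (nat_lit 201) (nat_lit 168)) (XT.lf (nat_lit 0) (nat_lit 260728181938) (nat_lit 76) (nat_lit 45606146853) (nat_lit 76) (nat_lit 42305551367) (nat_lit 1) (nat_lit 4) (nat_lit 2) (nat_lit 5) (nat_lit 2) (nat_lit 4) (nat_lit 352) (nat_lit 201) (nat_lit 167))))))))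
noncomputable def xc16 : XT := (XT.nd (nat_lit 35100) (nat_lit 0) (nat_lit 0) (XT.nd (nat_lit 624) (nat_lit 0) (nat_lit 0) (XT.nd (nat_lit 312) (nat_lit 0) (nat_lit 0) (XT.nd (nat_lit 156) (nat_lit 0) (nat_lit 0) (XT.nd (nat_lit 78) (nat_lit 0) (nat_lit 0) (XT.lf (nat_lit 0) (nat_lit 275428831882) (nat_lit 76) (nat_lit 46965723989) (nat_lit 76) (nat_lit 43628176151) (nat_lit 1) (nat_lit 4) (nat_lit 2) (nat_lit 5) (nat_lit 2) (nat_lit 4) (nat_lit 353) (nat_lit 201) (nat_lit 166)) (XT.lf (nat_lit 0) (nat_lit 290843041778) (nat_lit 76) (nat_lit 48402529652) (nat_lit 76) (nat_lit 45029789097) (nat_lit 1) (nat_lit 4) (nat_lit 2) (nat_lit 5) (nat_lit 2) (nat_lit 4) (nat_lit 354) (nat_lit 201) (nat_lit 165))) (XT.nd (nat_lit 78) (nat_lit 0) (nat_lit 0) (XT.lf (nat_lit 0) (nat_lit 307007512126) (nat_lit 76) (nat_lit 49919984806) (nat_lit 76) (nat_lit 46513727378) (nat_lit 1) (nat_lit 4) (nat_lit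 2) (nat_lit 5) (nat_lit 2) (nat_lit 4) (nat_lit 355) (nat_lit 201) (nat_lit 164)) (XT.lf (nat_lit 0) (nat_lit 323960729761) (nat_lit 76) (nat_lit 51521702442) (nat_lit 76) (nat_lit 48083524182) (nat_lit 1) (nat_lit 4) (nat_lit 2) (nat_lit 5) (nat_lit 2) (nat_lit 4) (nat_lit 356) (nat_lit 201) (nat_lit 163)))) (XT.nd (nat_lit 156) (nat_lit 0) (nat_lit 0) (XT.nd (nat_lit 78) (nat_lit 0) (nat_lit 0) (XT.lf (nat_lit 0) (nat_lit 341743059485) (nat_lit 76) (nat_lit 53211496170) (nat_lit 76) (nat_lit 49742917119) (nat_lit 1) (nat_lit 4) (nat_lit 2) (nat_lit 5) (nat_lit 2) (nat_lit 4) (nat_lit 357) (nat_lit 201) (nat_lit 162)) (XT.lf (nat_lit 0) (nat_lit 360396840179) (nat_lit 76) (nat_lit 54993389312) (nat_lit 76) (nat_lit 51495857125) (nat_lit 1) (nat_lit 4) (nat_lit 2) (nat_lit 5) (nat_lit 2) (nat_lit 4) (nat_lit 358) (nat_lit 201) (nat_lit 161))) (XT.nd (nat_lit 78) (nat_lit 0) (nat_lit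 0) (XT.lf (nat_lit 0) (nat_lit 379966485607) (nat_lit 76) (nat_lit 56871624468) (nat_lit 76) (nat_lit 53346517867) (nat_lit 1) (nat_lit 4) (nat_lit 2) (nat_lit 5) (nat_lit 2) (nat_lit 4) (nat_lit 359) (nat_lit 201) (nat_lit 160)) (XT.lf (nat_lit 0) (nat_lit 400498590162) (nat_lit 76) (nat_lit 58850673628) (nat_lit 76) (nat_lit 55299305680) (nat_lit 1) (nat_lit 4) (nat_lit 2) (nat_lit 5) (nat_lit 2) (nat_lit 4) (nat_lit 360) (nat_lit 201) (nat_lit 159))))) (XT.nd (nat_lit 34164) (nat_lit 0) (nat_lit 0) (XT.nd (nat_lit 34008) (nat_lit 0) (nat_lit 0) (XT.nd (nat_lit 78) (nat_lit 0) (nat_lit 0) (XT.lf (nat_lit 0) (nat_lit 422042039809) (nat_lit 76) (nat_lit 60935248813) (nat_lit 76) (nat_lit 57358870058) (nat_lit 1) (nat_lit 4) (nat_lit 2) (nat_lit 5) (nat_lit 2) (nat_lit 4) (nat_lit 361) (nat_lit 201) (nat_lit 158)) (XT.lf (nat_lit 0) (nat_lit 444648128474) (nat_lit 76) (nat_lit 63130313297)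 (nat_lit 76) (nat_lit 59530114726) (nat_lit 1) (nat_lit 4) (nat_lit 2) (nat_lit 5) (nat_lit 2) (nat_lit 4) (nat_lit 362) (nat_lit 201) (nat_lit 157))) (XT.nd (nat_lit 78) (nat_lit 76) (nat_lit 0) (XT.lf (nat_lit 0) (nat_lit 15156799057) (nat_lit 152) (nat_lit 462396191) (nat_lit 0) (nat_lit 15156799057) (nat_lit 2) (nat_lit 5) (nat_lit 4) (nat_lit 4) (nat_lit 2) (nat_lit 4) (nat_lit 316) (nat_lit 202) (nat_lit 202)) (XT.lf (nat_lit 0) (nat_lit 2758145232) (nat_lit 76) (nat_lit 30982495731) (nat_lit 76) (nat_lit 30778665986) (nat_lit 1) (nat_lit 4) (nat_lit 2) (nat_lit 5) (nat_lit 2) (nat_lit 4) (nat_lit 317) (nat_lit 202) (nat_lit 201)))) (XT.nd (nat_lit 156) (nat_lit 0) (nat_lit 0) (XT.nd (nat_lit 78) (nat_lit 0) (nat_lit 0) (XT.lf (nat_lit 0) (nat_lit 6538893542) (nat_lit 76) (nat_lit 30748382646) (nat_lit 76) (nat_lit 30350429335) (nat_lit 1) (nat_lit 4) (nat_lit 2) (nat_lit 5)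 (nat_lit 2) (nat_lit 4) (nat_lit 318) (nat_lit 202) (nat_lit 200)) (XT.lf (nat_lit 0) (nat_lit 10395876517) (nat_lit 76) (nat_lit 30551155638) (nat_lit 76) (nat_lit 29968322740) (nat_lit 1) (nat_lit 4) (nat_lit 2) (nat_lit 5) (nat_lit 2) (nat_lit 4) (nat_lit 319) (nat_lit 202) (nat_lit 199))) (XT.nd (nat_lit 78) (nat_lit 0) (nat_lit 0) (XT.lf (nat_lit 0) (nat_lit 14338277449) (nat_lit 76) (nat_lit 30390345119) (nat_lit 76) (nat_lit 29631436425) (nat_lit 1) (nat_lit 4) (nat_lit 2) (nat_lit 5) (nat_lit 2) (nat_lit 4) (nat_lit 320) (nat_lit 202) (nat_lit 198)) (XT.lf (nat_lit 0) (nat_lit 18375483006) (nat_lit 76) (nat_lit 30265568208) (nat_lit 76) (nat_lit 29338968278) (nat_lit 1) (nat_lit 4) (nat_lit 2) (nat_lit 5) (nat_lit 2) (nat_lit 4) (nat_lit 321) (nat_lit 202) (nat_lit 197)))))) (XT.nd (nat_lit 624) (nat_lit 0) (nat_lit 0) (XT.nd (nat_lit 312) (nat_lit 0) (nat_lit 0) (XT.nd (nat_lit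 156) (nat_lit 0) (nat_lit 0) (XT.nd (nat_lit 78) (nat_lit 0) (nat_lit 0) (XT.lf (nat_lit 0) (nat_lit 22517105584) (nat_lit 76) (nat_lit 30176527816) (nat_lit 76) (nat_lit 29090221948) (nat_lit 1) (nat_lit 4) (nat_lit 2) (nat_lit 5) (nat_lit 2) (nat_lit 4) (nat_lit 322) (nat_lit 202) (nat_lit 196)) (XT.lf (nat_lit 0) (nat_lit 26773006187) (nat_lit 76) (nat_lit 30123011942) (nat_lit 76) (nat_lit 28884605180) (nat_lit 1) (nat_lit 4) (nat_lit 2) (nat_lit 5) (nat_lit 2) (nat_lit 4) (nat_lit 323) (nat_lit 202) (nat_lit 195))) (XT.nd (nat_lit 78) (nat_lit 0) (nat_lit 0) (XT.lf (nat_lit 0) (nat_lit 31153317914) (nat_lit 76) (nat_lit 30104893167) (nat_lit 76) (nat_lit 28721628412) (nat_lit 1) (nat_lit 4) (nat_lit 2) (nat_lit 5) (nat_lit 2) (nat_lit 4) (nat_lit 324) (nat_lit 202) (nat_lit 194)) (XT.lf (nat_lit 0) (nat_lit 35668470076) (nat_lit 76) (nat_lit 30122128352) (nat_lit 76) (nat_lit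 28600903603) (nat_lit 1) (nat_lit 4) (nat_lit 2) (nat_lit 5) (nat_lit 2) (nat_lit 4) (nat_lit 325) (nat_lit 202) (nat_lit 193)))) (XT.nd (nat_lit 156) (nat_lit 0) (nat_lit 0) (XT.nd (nat_lit 78) (nat_lit 0) (nat_lit 0) (XT.lf (nat_lit 0) (nat_lit 40329213038) (nat_lit 76) (nat_lit 30174758533) (nat_lit 76) (nat_lit 28522143313) (nat_lit 1) (nat_lit 4) (nat_lit 2) (nat_lit 5) (nat_lit 2) (nat_lit 4) (nat_lit 326) (nat_lit 202) (nat_lit 192)) (XT.lf (nat_lit 0) (nat_lit 45146643805) (nat_lit 76) (nat_lit 30262909019) (nat_lit 76) (nat_lit 28485160018) (nat_lit 1) (nat_lit 4) (nat_lit 2) (nat_lit 5) (nat_lit 2) (nat_lit 4) (nat_lit 327) (nat_lit 202) (nat_lit 191))) (XT.nd (nat_lit 78) (nat_lit 0) (nat_lit 0) (XT.lf (nat_lit 0) (nat_lit 50132232452) (nat_lit 76) (nat_lit 30386789694) (nat_lit 76) (nat_lit 28489865662) (nat_lit 1) (nat_lit 4) (nat_lit 2) (nat_lit 5) (nat_lit 2) (nat_lit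 4) (nat_lit 328) (nat_lit 202) (nat_lit 190)) (XT.lf (nat_lit 0) (nat_lit 55297849426) (nat_lit 76) (nat_lit 30546695510) (nat_lit 76) (nat_lit 28536271449) (nat_lit 1) (nat_lit 4) (nat_lit 2) (nat_lit 5) (nat_lit 2) (nat_lit 4) (nat_lit 329) (nat_lit 202) (nat_lit 189))))) (XT.nd (nat_lit 312) (nat_lit 0) (nat_lit 0) (XT.nd (nat_lit 156) (nat_lit 0) (nat_lit 0) (XT.nd (nat_lit 78) (nat_lit 0) (nat_lit 0) (XT.lf (nat_lit 0) (nat_lit 60655793817) (nat_lit 76) (nat_lit 30743007195) (nat_lit 76) (nat_lit 28624487870) (nat_lit 1) (nat_lit 4) (nat_lit 2) (nat_lit 5) (nat_lit 2) (nat_lit 4) (nat_lit 330) (nat_lit 202) (nat_lit 188)) (XT.lf (nat_lit 0) (nat_lit 66218822634) (nat_lit 76) (nat_lit 30976192160) (nat_lit 76) (nat_lit 28754724962) (nat_lit 1) (nat_lit 4) (nat_lit 2) (nat_lit 5) (nat_lit 2) (nat_lit 4) (nat_lit 331) (nat_lit 202) (nat_lit 187))) (XT.nd (nat_lit 78) (nat_lit 0)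 (nat_lit 0) (XT.lf (nat_lit 0) (nat_lit 72000181185) (nat_lit 76) (nat_lit 31246805605) (nat_lit 76) (nat_lit 28927292815) (nat_lit 1) (nat_lit 4) (nat_lit 2) (nat_lit 5) (nat_lit 2) (nat_lit 4) (nat_lit 332) (nat_lit 202) (nat_lit 186)) (XT.lf (nat_lit 0) (nat_lit 78013634609) (nat_lit 76) (nat_lit 31555491850) (nat_lit 76) (nat_lit 29142602305) (nat_lit 1) (nat_lit 4) (nat_lit 2) (nat_lit 5) (nat_lit 2) (nat_lit 4) (nat_lit 333) (nat_lit 202) (nat_lit 185)))) (XT.nd (nat_lit 156) (nat_lit 0) (nat_lit 0) (XT.nd (nat_lit 78) (nat_lit 0) (nat_lit 0) (XT.lf (nat_lit 0) (nat_lit 84273500652) (nat_lit 76) (nat_lit 31902985860) (nat_lit 76) (nat_lit 29401166073) (nat_lit 1) (nat_lit 4) (nat_lit 2) (nat_lit 5) (nat_lit 2) (nat_lit 4) (nat_lit 334) (nat_lit 202) (nat_lit 184)) (XT.lf (nat_lit 0) (nat_lit 90794683756) (nat_lit 76) (nat_lit 32290115002) (nat_lit 76) (nat_lit 29703599747) (nat_lit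 1) (nat_lit 4) (nat_lit 2) (nat_lit 5) (nat_lit 2) (nat_lit 4) (nat_lit 335) (nat_lit 202) (nat_lit 183))) (XT.nd (nat_lit 78) (nat_lit 0) (nat_lit 0) (XT.lf (nat_lit 0) (nat_lit 97592710549) (nat_lit 76) (nat_lit 32717801014) (nat_lit 76) (nat_lit 30050623407) (nat_lit 1) (nat_lit 4) (nat_lit 2) (nat_lit 5) (nat_lit 2) (nat_lit 4) (nat_lit 336) (nat_lit 202) (nat_lit 182)) (XT.nd (nat_lit 78) (nat_lit 0) (nat_lit 0) (XT.lf (nat_lit 0) (nat_lit 104683766809) (nat_lit 76) (nat_lit 33187062194) (nat_lit 76) (nat_lit 30443063300) (nat_lit 1) (nat_lit 4) (nat_lit 2) (nat_lit 5) (nat_lit 2) (nat_lit 4) (nat_lit 337) (nat_lit 202) (nat_lit 181)) (XT.lf (nat_lit 0) (nat_lit 112084736002) (nat_lit 76) (nat_lit 33699015831) (nat_lit 76) (nat_lit 30881853807) (nat_lit 1) (nat_lit 4) (nat_lit 2) (nat_lit 5) (nat_lit 2) (nat_lit 4) (nat_lit 338) (nat_lit 202) (nat_lit 180))))))))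
noncomputable def xc17 : XT := (XT.nd (nat_lit 1326) (nat_lit 0) (nat_lit 0) (XT.nd (nat_lit 624) (nat_lit 0) (nat_lit 0) (XT.nd (nat_lit 312) (nat_lit 0) (nat_lit 0) (XT.nd (nat_lit 156) (nat_lit 0) (nat_lit 0) (XT.nd (nat_lit 78) (nat_lit 0) (nat_lit 0) (XT.lf (nat_lit 0) (nat_lit 119813239485) (nat_lit 76) (nat_lit 34254880863) (nat_lit 76) (nat_lit 31368039667) (nat_lit 1) (nat_lit 4) (nat_lit 2) (nat_lit 5) (nat_lit 2) (nat_lit 4) (nat_lit 339) (nat_lit 202) (nat_lit 179)) (XT.lf (nat_lit 0) (nat_lit 127887678455) (nat_lit 76) (nat_lit 34855980777) (nat_lit 76) (nat_lit 31902778465) (nat_lit 1) (nat_lit 4) (nat_lit 2) (nat_lit 5) (nat_lit 2) (nat_lit 4) (nat_lit 340) (nat_lit 202) (nat_lit 178))) (XT.nd (nat_lit 78) (nat_lit 0) (nat_lit 0) (XT.lf (nat_lit 0) (nat_lit 136327277768) (nat_lit 76) (nat_lit 35503746765) (nat_lit 76) (nat_lit 32487343390) (nat_lit 1) (nat_lit 4) (nat_lit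 2) (nat_lit 5) (nat_lit 2) (nat_lit 4) (nat_lit 341) (nat_lit 202) (nat_lit 177)) (XT.lf (nat_lit 0) (nat_lit 145152131707) (nat_lit 76) (nat_lit 36199721125) (nat_lit 76) (nat_lit 33123126261) (nat_lit 1) (nat_lit 4) (nat_lit 2) (nat_lit 5) (nat_lit 2) (nat_lit 4) (nat_lit 342) (nat_lit 202) (nat_lit 176)))) (XT.nd (nat_lit 156) (nat_lit 0) (nat_lit 0) (XT.nd (nat_lit 78) (nat_lit 0) (nat_lit 0) (XT.lf (nat_lit 0) (nat_lit 154383251830) (nat_lit 76) (nat_lit 36945560940) (nat_lit 76) (nat_lit 33811640849) (nat_lit 1) (nat_lit 4) (nat_lit 2) (nat_lit 5) (nat_lit 2) (nat_lit 4) (nat_lit 343) (nat_lit 202) (nat_lit 175)) (XT.lf (nat_lit 0) (nat_lit 164042616994) (nat_lit 76) (nat_lit 37743042019) (nat_lit 76) (nat_lit 34554526473) (nat_lit 1) (nat_lit 4) (nat_lit 2) (nat_lit 5) (nat_lit 2) (nat_lit 4) (nat_lit 344) (nat_lit 202) (nat_lit 174))) (XT.nd (nat_lit 78) (nat_lit 0) (nat_lit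 0) (XT.lf (nat_lit 0) (nat_lit 174153225687) (nat_lit 76) (nat_lit 38594063125) (nat_lit 76) (nat_lit 35353551909) (nat_lit 1) (nat_lit 4) (nat_lit 2) (nat_lit 5) (nat_lit 2) (nat_lit 4) (nat_lit 345) (nat_lit 202) (nat_lit 173)) (XT.lf (nat_lit 0) (nat_lit 184739150787) (nat_lit 76) (nat_lit 39500650501) (nat_lit 76) (nat_lit 36210619599) (nat_lit 1) (nat_lit 4) (nat_lit 2) (nat_lit 5) (nat_lit 2) (nat_lit 4) (nat_lit 346) (nat_lit 202) (nat_lit 172))))) (XT.nd (nat_lit 312) (nat_lit 0) (nat_lit 0) (XT.nd (nat_lit 156) (nat_lit 0) (nat_lit 0) (XT.nd (nat_lit 78) (nat_lit 0) (nat_lit 0) (XT.lf (nat_lit 0) (nat_lit 195825596879) (nat_lit 76) (nat_lit 40464962688) (nat_lit 76) (nat_lit 37127770179) (nat_lit 1) (nat_lit 4) (nat_lit 2) (nat_lit 5) (nat_lit 2) (nat_lit 4) (nat_lit 347) (nat_lit 202) (nat_lit 171)) (XT.lf (nat_lit 0) (nat_lit 207438960262) (nat_lit 76) (nat_lit 41489295666)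 (nat_lit 76) (nat_lit 38107187341) (nat_lit 1) (nat_lit 4) (nat_lit 2) (nat_lit 5) (nat_lit 2) (nat_lit 4) (nat_lit 348) (nat_lit 202) (nat_lit 170))) (XT.nd (nat_lit 78) (nat_lit 0) (nat_lit 0) (XT.lf (nat_lit 0) (nat_lit 219606891800) (nat_lit 76) (nat_lit 42576088323) (nat_lit 76) (nat_lit 39151203032) (nat_lit 1) (nat_lit 4) (nat_lit 2) (nat_lit 5) (nat_lit 2) (nat_lit 4) (nat_lit 349) (nat_lit 202) (nat_lit 169)) (XT.lf (nat_lit 0) (nat_lit 232358362761) (nat_lit 76) (nat_lit 43727928262) (nat_lit 76) (nat_lit 40262303002) (nat_lit 1) (nat_lit 4) (nat_lit 2) (nat_lit 5) (nat_lit 2) (nat_lit 4) (nat_lit 350) (nat_lit 202) (nat_lit 168)))) (XT.nd (nat_lit 156) (nat_lit 0) (nat_lit 0) (XT.nd (nat_lit 78) (nat_lit 0) (nat_lit 0) (XT.lf (nat_lit 0) (nat_lit 245723733789) (nat_lit 76) (nat_lit 44947557959) (nat_lit 76) (nat_lit 41443132729) (nat_lit 1) (nat_lit 4) (nat_lit 2) (nat_lit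 5) (nat_lit 2) (nat_lit 4) (nat_lit 351) (nat_lit 202) (nat_lit 167)) (XT.lf (nat_lit 0) (nat_lit 259734827196) (nat_lit 76) (nat_lit 46237881293) (nat_lit 76) (nat_lit 42696503710) (nat_lit 1) (nat_lit 4) (nat_lit 2) (nat_lit 5) (nat_lit 2) (nat_lit 4) (nat_lit 352) (nat_lit 202) (nat_lit 166))) (XT.nd (nat_lit 78) (nat_lit 0) (nat_lit 0) (XT.lf (nat_lit 0) (nat_lit 274425002728) (nat_lit 76) (nat_lit 47601970463) (nat_lit 76) (nat_lit 44025400164) (nat_lit 1) (nat_lit 4) (nat_lit 2) (nat_lit 5) (nat_lit 2) (nat_lit 4) (nat_lit 353) (nat_lit 202) (nat_lit 165)) (XT.nd (nat_lit 78) (nat_lit 0) (nat_lit 0) (XT.lf (nat_lit 0) (nat_lit 289829236994) (nat_lit 76) (nat_lit 49043073301) (nat_lit 76) (nat_lit 45432986128) (nat_lit 1) (nat_lit 4) (nat_lit 2) (nat_lit 5) (nat_lit 2) (nat_lit 4) (nat_lit 354) (nat_lit 202) (nat_lit 164)) (XT.lf (nat_lit 0) (nat_lit 305984206741) (nat_lit 76)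 (nat_lit 50564621003) (nat_lit 76) (nat_lit 46922612999) (nat_lit 1) (nat_lit 4) (nat_lit 2) (nat_lit 5) (nat_lit 2) (nat_lit 4) (nat_lit 355) (nat_lit 202) (nat_lit 163))))))) (XT.nd (nat_lit 34320) (nat_lit 0) (nat_lit 0) (XT.nd (nat_lit 312) (nat_lit 0) (nat_lit 0) (XT.nd (nat_lit 156) (nat_lit 0) (nat_lit 0) (XT.nd (nat_lit 78) (nat_lit 0) (nat_lit 0) (XT.lf (nat_lit 0) (nat_lit 322928376184) (nat_lit 76) (nat_lit 52170236303) (nat_lit 76) (nat_lit 48497827507) (nat_lit 1) (nat_lit 4) (nat_lit 2) (nat_lit 5) (nat_lit 2) (nat_lit 4) (nat_lit 356) (nat_lit 202) (nat_lit 162)) (XT.lf (nat_lit 0) (nat_lit 340702088583) (nat_lit 76) (nat_lit 53863742093) (nat_lit 76) (nat_lit 50162380162) (nat_lit 1) (nat_lit 4) (nat_lit 2) (nat_lit 5) (nat_lit 2) (nat_lit 4) (nat_lit 357) (nat_lit 202) (nat_lit 161))) (XT.nd (nat_lit 78) (nat_lit 0) (nat_lit 0) (XT.lf (nat_lit 0) (nat_lit 359347662301)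 (nat_lit 76) (nat_lit 55649170531) (nat_lit 76) (nat_lit 51920234185) (nat_lit 1) (nat_lit 4) (nat_lit 2) (nat_lit 5) (nat_lit 2) (nat_lit 4) (nat_lit 358) (nat_lit 202) (nat_lit 160)) (XT.lf (nat_lit 0) (nat_lit 378909491561) (nat_lit 76) (nat_lit 57530772636) (nat_lit 76) (nat_lit 53775574944) (nat_lit 1) (nat_lit 4) (nat_lit 2) (nat_lit 5) (nat_lit 2) (nat_lit 4) (nat_lit 359) (nat_lit 202) (nat_lit 159)))) (XT.nd (nat_lit 156) (nat_lit 0) (nat_lit 0) (XT.nd (nat_lit 78) (nat_lit 0) (nat_lit 0) (XT.lf (nat_lit 0) (nat_lit 399434152148) (nat_lit 76) (nat_lit 59513028414) (nat_lit 76) (nat_lit 55732819915) (nat_lit 1) (nat_lit 4) (nat_lit 2) (nat_lit 5) (nat_lit 2) (nat_lit 4) (nat_lit 360) (nat_lit 202) (nat_lit 158)) (XT.lf (nat_lit 0) (nat_lit 420970512300) (nat_lit 76) (nat_lit 61600657521) (nat_lit 76) (nat_lit 57796629206) (nat_lit 1) (nat_lit 4) (nat_lit 2) (nat_lit 5) (nat_lit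 2) (nat_lit 4) (nat_lit 361) (nat_lit 202) (nat_lit 157))) (XT.nd (nat_lit 33774) (nat_lit 0) (nat_lit 76) (XT.lf (nat_lit 0) (nat_lit 443569849065) (nat_lit 76) (nat_lit 63798630503) (nat_lit 76) (nat_lit 59971916649) (nat_lit 1) (nat_lit 4) (nat_lit 2) (nat_lit 5) (nat_lit 2) (nat_lit 4) (nat_lit 362) (nat_lit 202) (nat_lit 156)) (XT.lf (nat_lit 0) (nat_lit 12036901364) (nat_lit 152) (nat_lit 3945654362) (nat_lit 0) (nat_lit 12036901364) (nat_lit 2) (nat_lit 5) (nat_lit 4) (nat_lit 4) (nat_lit 2) (nat_lit 4) (nat_lit 314) (nat_lit 203) (nat_lit 203))))) (XT.nd (nat_lit 312) (nat_lit 0) (nat_lit 0) (XT.nd (nat_lit 156) (nat_lit 76) (nat_lit 0) (XT.nd (nat_lit 78) (nat_lit 0) (nat_lit 0) (XT.lf (nat_lit 0) (nat_lit 27239208458) (nat_lit 152) (nat_lit 4462929830) (nat_lit 0) (nat_lit 27025187226) (nat_lit 2) (nat_lit 5) (nat_lit 4) (nat_lit 4) (nat_lit 2) (nat_lit 4) (nat_lit 315) (nat_lit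 203) (nat_lit 202)) (XT.lf (nat_lit 0) (nat_lit 30494033511) (nat_lit 152) (nat_lit 983516566) (nat_lit 0) (nat_lit 30076182535) (nat_lit 2) (nat_lit 5) (nat_lit 4) (nat_lit 4) (nat_lit 2) (nat_lit 4) (nat_lit 316) (nat_lit 203) (nat_lit 201))) (XT.nd (nat_lit 78) (nat_lit 0) (nat_lit 0) (XT.lf (nat_lit 0) (nat_lit 2639702343) (nat_lit 76) (nat_lit 31247538281) (nat_lit 76) (nat_lit 30635563738) (nat_lit 1) (nat_lit 4) (nat_lit 2) (nat_lit 5) (nat_lit 2) (nat_lit 4) (nat_lit 317) (nat_lit 203) (nat_lit 200)) (XT.lf (nat_lit 0) (nat_lit 6365424921) (nat_lit 76) (nat_lit 31037128479) (nat_lit 76) (nat_lit 30240274350) (nat_lit 1) (nat_lit 4) (nat_lit 2) (nat_lit 5) (nat_lit 2) (nat_lit 4) (nat_lit 318) (nat_lit 203) (nat_lit 199)))) (XT.nd (nat_lit 156) (nat_lit 0) (nat_lit 0) (XT.nd (nat_lit 78) (nat_lit 0) (nat_lit 0) (XT.lf (nat_lit 0) (nat_lit 10170002436) (nat_lit 76) (nat_lit 30862476027)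 (nat_lit 76) (nat_lit 29889546101) (nat_lit 1) (nat_lit 4) (nat_lit 2) (nat_lit 5) (nat_lit 2) (nat_lit 4) (nat_lit 319) (nat_lit 203) (nat_lit 198)) (XT.lf (nat_lit 0) (nat_lit 14062493407) (nat_lit 76) (nat_lit 30723165086) (nat_lit 76) (nat_lit 29582543925) (nat_lit 1) (nat_lit 4) (nat_lit 2) (nat_lit 5) (nat_lit 2) (nat_lit 4) (nat_lit 320) (nat_lit 203) (nat_lit 197))) (XT.nd (nat_lit 78) (nat_lit 0) (nat_lit 0) (XT.lf (nat_lit 0) (nat_lit 18052165667) (nat_lit 76) (nat_lit 30618863962) (nat_lit 76) (nat_lit 29318536863) (nat_lit 1) (nat_lit 4) (nat_lit 2) (nat_lit 5) (nat_lit 2) (nat_lit 4) (nat_lit 321) (nat_lit 203) (nat_lit 196)) (XT.nd (nat_lit 78) (nat_lit 0) (nat_lit 0) (XT.lf (nat_lit 0) (nat_lit 22148518439) (nat_lit 76) (nat_lit 30549324320) (nat_lit 76) (nat_lit 29096896327) (nat_lit 1) (nat_lit 4) (nat_lit 2) (nat_lit 5) (nat_lit 2) (nat_lit 4) (nat_lit 322) (nat_lit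 203) (nat_lit 195)) (XT.lf (nat_lit 0) (nat_lit 26361304941) (nat_lit 76) (nat_lit 30514380589) (nat_lit 76) (nat_lit 28917094602) (nat_lit 1) (nat_lit 4) (nat_lit 2) (nat_lit 5) (nat_lit 2) (nat_lit 4) (nat_lit 323) (nat_lit 203) (nat_lit 194))))))))
noncomputable def xc18 : XT := (XT.nd (nat_lit 1326) (nat_lit 0) (nat_lit 0) (XT.nd (nat_lit 624) (nat_lit 0) (nat_lit 0) (XT.nd (nat_lit 312) (nat_lit 0) (nat_lit 0) (XT.nd (nat_lit 156) (nat_lit 0) (nat_lit 0) (XT.nd (nat_lit 78) (nat_lit 0) (nat_lit 0) (XT.lf (nat_lit 0) (nat_lit 30700555619) (nat_lit 76) (nat_lit 30513949570) (nat_lit 76) (nat_lit 28778703589) (nat_lit 1) (nat_lit 4) (nat_lit 2) (nat_lit 5) (nat_lit 2) (nat_lit 4) (nat_lit 324) (nat_lit 203) (nat_lit 193)) (XT.lf (nat_lit 0) (nat_lit 35176602021) (nat_lit 76) (nat_lit 30548030236) (nat_lit 76) (nat_lit 28681393784) (nat_lit 1) (nat_lit 4) (nat_lit 2) (nat_lit 5) (nat_lit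 2) (nat_lit 4) (nat_lit 325) (nat_lit 203) (nat_lit 192))) (XT.nd (nat_lit 78) (nat_lit 0) (nat_lit 0) (XT.lf (nat_lit 0) (nat_lit 39800101401) (nat_lit 76) (nat_lit 30616703732) (nat_lit 76) (nat_lit 28624933499) (nat_lit 1) (nat_lit 4) (nat_lit 2) (nat_lit 5) (nat_lit 2) (nat_lit 4) (nat_lit 326) (nat_lit 203) (nat_lit 191)) (XT.lf (nat_lit 0) (nat_lit 44582062091) (nat_lit 76) (nat_lit 30720133567) (nat_lit 76) (nat_lit 28609188303) (nat_lit 1) (nat_lit 4) (nat_lit 2) (nat_lit 5) (nat_lit 2) (nat_lit 4) (nat_lit 327) (nat_lit 203) (nat_lit 190)))) (XT.nd (nat_lit 156) (nat_lit 0) (nat_lit 0) (XT.nd (nat_lit 78) (nat_lit 0) (nat_lit 0) (XT.lf (nat_lit 0) (nat_lit 49533869710) (nat_lit 76) (nat_lit 30858566001) (nat_lit 76) (nat_lit 28634120709) (nat_lit 1) (nat_lit 4) (nat_lit 2) (nat_lit 5) (nat_lit 2) (nat_lit 4) (nat_lit 328) (nat_lit 203) (nat_lit 189)) (XT.lf (nat_lit 0) (nat_lit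 54667314279) (nat_lit 76) (nat_lit 31032330636) (nat_lit 76) (nat_lit 28699790078) (nat_lit 1) (nat_lit 4) (nat_lit 2) (nat_lit 5) (nat_lit 2) (nat_lit 4) (nat_lit 329) (nat_lit 203) (nat_lit 188))) (XT.nd (nat_lit 78) (nat_lit 0) (nat_lit 0) (XT.lf (nat_lit 0) (nat_lit 59994618283) (nat_lit 76) (nat_lit 31241841197) (nat_lit 76) (nat_lit 28806352768) (nat_lit 1) (nat_lit 4) (nat_lit 2) (nat_lit 5) (nat_lit 2) (nat_lit 4) (nat_lit 330) (nat_lit 203) (nat_lit 187)) (XT.lf (nat_lit 0) (nat_lit 65528465780) (nat_lit 76) (nat_lit 31487596519) (nat_lit 76) (nat_lit 28954062498) (nat_lit 1) (nat_lit 4) (nat_lit 2) (nat_lit 5) (nat_lit 2) (nat_lit 4) (nat_lit 331) (nat_lit 203) (nat_lit 186))))) (XT.nd (nat_lit 312) (nat_lit 0) (nat_lit 0) (XT.nd (nat_lit 156) (nat_lit 0) (nat_lit 0) (XT.nd (nat_lit 78) (nat_lit 0) (nat_lit 0) (XT.lf (nat_lit 0) (nat_lit 71282032596) (nat_lit 76) (nat_lit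 31770181734) (nat_lit 76) (nat_lit 29143270957) (nat_lit 1) (nat_lit 4) (nat_lit 2) (nat_lit 5) (nat_lit 2) (nat_lit 4) (nat_lit 332) (nat_lit 203) (nat_lit 185)) (XT.lf (nat_lit 0) (nat_lit 77269017702) (nat_lit 76) (nat_lit 32090269662) (nat_lit 76) (nat_lit 29374428644) (nat_lit 1) (nat_lit 4) (nat_lit 2) (nat_lit 5) (nat_lit 2) (nat_lit 4) (nat_lit 333) (nat_lit 203) (nat_lit 184))) (XT.nd (nat_lit 78) (nat_lit 0) (nat_lit 0) (XT.lf (nat_lit 0) (nat_lit 83503675823) (nat_lit 76) (nat_lit 32448622420) (nat_lit 76) (nat_lit 29648085933) (nat_lit 1) (nat_lit 4) (nat_lit 2) (nat_lit 5) (nat_lit 2) (nat_lit 4) (nat_lit 334) (nat_lit 203) (nat_lit 183)) (XT.lf (nat_lit 0) (nat_lit 90000851382) (nat_lit 76) (nat_lit 32846093227) (nat_lit 76) (nat_lit 29964894388) (nat_lit 1) (nat_lit 4) (nat_lit 2) (nat_lit 5) (nat_lit 2) (nat_lit 4) (nat_lit 335) (nat_lit 203) (nat_lit 182)))) (XT.nd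 (nat_lit 156) (nat_lit 0) (nat_lit 0) (XT.nd (nat_lit 78) (nat_lit 0) (nat_lit 0) (XT.lf (nat_lit 0) (nat_lit 96776013847) (nat_lit 76) (nat_lit 33283628442) (nat_lit 76) (nat_lit 30325608317) (nat_lit 1) (nat_lit 4) (nat_lit 2) (nat_lit 5) (nat_lit 2) (nat_lit 4) (nat_lit 336) (nat_lit 203) (nat_lit 181)) (XT.lf (nat_lit 0) (nat_lit 103845294556) (nat_lit 76) (nat_lit 33762269816) (nat_lit 76) (nat_lit 30731086560) (nat_lit 1) (nat_lit 4) (nat_lit 2) (nat_lit 5) (nat_lit 2) (nat_lit 4) (nat_lit 337) (nat_lit 203) (nat_lit 180))) (XT.nd (nat_lit 78) (nat_lit 0) (nat_lit 0) (XT.lf (nat_lit 0) (nat_lit 111225525130) (nat_lit 76) (nat_lit 34283156972) (nat_lit 76) (nat_lit 31182294544) (nat_lit 1) (nat_lit 4) (nat_lit 2) (nat_lit 5) (nat_lit 2) (nat_lit 4) (nat_lit 338) (nat_lit 203) (nat_lit 179)) (XT.nd (nat_lit 78) (nat_lit 0) (nat_lit 0) (XT.lf (nat_lit 0) (nat_lit 118934277545) (nat_lit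 76) (nat_lit 34847530117) (nat_lit 76) (nat_lit 31680306573) (nat_lit 1) (nat_lit 4) (nat_lit 2) (nat_lit 5) (nat_lit 2) (nat_lit 4) (nat_lit 339) (nat_lit 203) (nat_lit 178)) (XT.lf (nat_lit 0) (nat_lit 126989905976) (nat_lit 76) (nat_lit 35456732996) (nat_lit 76) (nat_lit 32226308389) (nat_lit 1) (nat_lit 4) (nat_lit 2) (nat_lit 5) (nat_lit 2) (nat_lit 4) (nat_lit 340) (nat_lit 203) (nat_lit 177))))))) (XT.nd (nat_lit 624) (nat_lit 0) (nat_lit 0) (XT.nd (nat_lit 312) (nat_lit 0) (nat_lit 0) (XT.nd (nat_lit 156) (nat_lit 0) (nat_lit 0) (XT.nd (nat_lit 78) (nat_lit 0) (nat_lit 0) (XT.lf (nat_lit 0) (nat_lit 135411590489) (nat_lit 76) (nat_lit 36112216092) (nat_lit 76) (nat_lit 32821599997) (nat_lit 1) (nat_lit 4) (nat_lit 2) (nat_lit 5) (nat_lit 2) (nat_lit 4) (nat_lit 341) (nat_lit 203) (nat_lit 176)) (XT.lf (nat_lit 0) (nat_lit 144219382715) (nat_lit 76) (nat_lit 36815540080) (nat_lit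 76) (nat_lit 33467598757) (nat_lit 1) (nat_lit 4) (nat_lit 2) (nat_lit 5) (nat_lit 2) (nat_lit 4) (nat_lit 342) (nat_lit 203) (nat_lit 175))) (XT.nd (nat_lit 78) (nat_lit 0) (nat_lit 0) (XT.lf (nat_lit 0) (nat_lit 153434253586) (nat_lit 76) (nat_lit 37568379540) (nat_lit 76) (nat_lit 34165842763) (nat_lit 1) (nat_lit 4) (nat_lit 2) (nat_lit 5) (nat_lit 2) (nat_lit 4) (nat_lit 343) (nat_lit 203) (nat_lit 174)) (XT.lf (nat_lit 0) (nat_lit 163078143273) (nat_lit 76) (nat_lit 38372526948) (nat_lit 76) (nat_lit 34917994500) (nat_lit 1) (nat_lit 4) (nat_lit 2) (nat_lit 5) (nat_lit 2) (nat_lit 4) (nat_lit 344) (nat_lit 203) (nat_lit 173)))) (XT.nd (nat_lit 156) (nat_lit 0) (nat_lit 0) (XT.nd (nat_lit 78) (nat_lit 0) (nat_lit 0) (XT.lf (nat_lit 0) (nat_lit 173174013416) (nat_lit 76) (nat_lit 39229896939) (nat_lit 76) (nat_lit 35725844805) (nat_lit 1) (nat_lit 4) (nat_lit 2) (nat_lit 5) (nat_lit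 2) (nat_lit 4) (nat_lit 345) (nat_lit 203) (nat_lit 172)) (XT.lf (nat_lit 0) (nat_lit 183745901802) (nat_lit 76) (nat_lit 40142530872) (nat_lit 76) (nat_lit 36591317132) (nat_lit 1) (nat_lit 4) (nat_lit 2) (nat_lit 5) (nat_lit 2) (nat_lit 4) (nat_lit 346) (nat_lit 203) (nat_lit 171))) (XT.nd (nat_lit 78) (nat_lit 0) (nat_lit 0) (XT.lf (nat_lit 0) (nat_lit 194818979595) (nat_lit 76) (nat_lit 41112601684) (nat_lit 76) (nat_lit 37516472128) (nat_lit 1) (nat_lit 4) (nat_lit 2) (nat_lit 5) (nat_lit 2) (nat_lit 4) (nat_lit 347) (nat_lit 203) (nat_lit 170)) (XT.lf (nat_lit 0) (nat_lit 206419611264) (nat_lit 76) (nat_lit 42142419067) (nat_lit 76) (nat_lit 38503512544) (nat_lit 1) (nat_lit 4) (nat_lit 2) (nat_lit 5) (nat_lit 2) (nat_lit 4) (nat_lit 348) (nat_lit 203) (nat_lit 169))))) (XT.nd (nat_lit 312) (nat_lit 0) (nat_lit 0) (XT.nd (nat_lit 156) (nat_lit 0) (nat_lit 0) (XT.nd (nat_lit 78)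 (nat_lit 0) (nat_lit 0) (XT.lf (nat_lit 0) (nat_lit 218575417361) (nat_lit 76) (nat_lit 43234434968) (nat_lit 76) (nat_lit 39554788476) (nat_lit 1) (nat_lit 4) (nat_lit 2) (nat_lit 5) (nat_lit 2) (nat_lit 4) (nat_lit 349) (nat_lit 203) (nat_lit 168)) (XT.lf (nat_lit 0) (nat_lit 231315340282) (nat_lit 76) (nat_lit 44391249425) (nat_lit 76) (nat_lit 40672802963) (nat_lit 1) (nat_lit 4) (nat_lit 2) (nat_lit 5) (nat_lit 2) (nat_lit 4) (nat_lit 350) (nat_lit 203) (nat_lit 167))) (XT.nd (nat_lit 78) (nat_lit 0) (nat_lit 0) (XT.lf (nat_lit 0) (nat_lit 244669713177) (nat_lit 76) (nat_lit 45615616757) (nat_lit 76) (nat_lit 41860217942) (nat_lit 1) (nat_lit 4) (nat_lit 2) (nat_lit 5) (nat_lit 2) (nat_lit 4) (nat_lit 351) (nat_lit 203) (nat_lit 166)) (XT.lf (nat_lit 0) (nat_lit 258670332172) (nat_lit 76) (nat_lit 46910452125) (nat_lit 76) (nat_lit 43119860593) (nat_lit 1) (nat_lit 4) (nat_lit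 2) (nat_lit 5) (nat_lit 2) (nat_lit 4) (nat_lit 352) (nat_lit 203) (nat_lit 165)))) (XT.nd (nat_lit 156) (nat_lit 0) (nat_lit 0) (XT.nd (nat_lit 78) (nat_lit 0) (nat_lit 0) (XT.lf (nat_lit 0) (nat_lit 273350532073) (nat_lit 76) (nat_lit 48278838470) (nat_lit 76) (nat_lit 44454730066) (nat_lit 1) (nat_lit 4) (nat_lit 2) (nat_lit 5) (nat_lit 2) (nat_lit 4) (nat_lit 353) (nat_lit 203) (nat_lit 164)) (XT.lf (nat_lit 0) (nat_lit 288745265738) (nat_lit 76) (nat_lit 49724033855) (nat_lit 76) (nat_lit 45868004619) (nat_lit 1) (nat_lit 4) (nat_lit 2) (nat_lit 5) (nat_lit 2) (nat_lit 4) (nat_lit 354) (nat_lit 203) (nat_lit 163))) (XT.nd (nat_lit 78) (nat_lit 0) (nat_lit 0) (XT.lf (nat_lit 0) (nat_lit 304891187294) (nat_lit 76) (nat_lit 51249479222) (nat_lit 76) (nat_lit 47363049194) (nat_lit 1) (nat_lit 4) (nat_lit 2) (nat_lit 5) (nat_lit 2) (nat_lit 4) (nat_lit 355) (nat_lit 203) (nat_lit 162))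 (XT.nd (nat_lit 78) (nat_lit 0) (nat_lit 0) (XT.lf (nat_lit 0) (nat_lit 321826739412) (nat_lit 76) (nat_lit 52858806583) (nat_lit 76) (nat_lit 48943423420) (nat_lit 1) (nat_lit 4) (nat_lit 2) (nat_lit 5) (nat_lit 2) (nat_lit 4) (nat_lit 356) (nat_lit 203) (nat_lit 161)) (XT.lf (nat_lit 0) (nat_lit 339592244836) (nat_lit 76) (nat_lit 54555847669) (nat_lit 76) (nat_lit 50612890092) (nat_lit 1) (nat_lit 4) (nat_lit 2) (nat_lit 5) (nat_lit 2) (nat_lit 4) (nat_lit 357) (nat_lit 203) (nat_lit 160))))))))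
noncomputable def xc19 : XT := (XT.nd (nat_lit 34866) (nat_lit 0) (nat_lit 0) (XT.nd (nat_lit 34164) (nat_lit 0) (nat_lit 0) (XT.nd (nat_lit 312) (nat_lit 0) (nat_lit 0) (XT.nd (nat_lit 156) (nat_lit 0) (nat_lit 0) (XT.nd (nat_lit 78) (nat_lit 0) (nat_lit 0) (XT.lf (nat_lit 0) (nat_lit 358230002386) (nat_lit 76) (nat_lit 56344643056) (nat_lit 76) (nat_lit 52375424132) (nat_lit 1) (nat_lit 4) (nat_lit 2) (nat_lit 5) (nat_lit 2) (nat_lit 4) (nat_lit 358) (nat_lit 203) (nat_lit 159)) (XT.lf (nat_lit 0) (nat_lit 377784387677) (nat_lit 76) (nat_lit 58229451780) (nat_lit 76) (nat_lit 54235222049) (nat_lit 1) (nat_lit 4) (nat_lit 2) (nat_lit 5) (nat_lit 2) (nat_lit 4) (nat_lit 359) (nat_lit 203) (nat_lit 158))) (XT.nd (nat_lit 78) (nat_lit 0) (nat_lit 0) (XT.lf (nat_lit 0) (nat_lit 398301958769) (nat_lit 76) (nat_lit 60214761480) (nat_lit 76) (nat_lit 56196711933) (nat_lit 1) (nat_lit 4)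 (nat_lit 2) (nat_lit 5) (nat_lit 2) (nat_lit 4) (nat_lit 360) (nat_lit 203) (nat_lit 157)) (XT.lf (nat_lit 0) (nat_lit 419831567021) (nat_lit 76) (nat_lit 62305299084) (nat_lit 76) (nat_lit 58264563998) (nat_lit 1) (nat_lit 4) (nat_lit 2) (nat_lit 5) (nat_lit 2) (nat_lit 4) (nat_lit 361) (nat_lit 203) (nat_lit 156)))) (XT.nd (nat_lit 33696) (nat_lit 0) (nat_lit 76) (XT.nd (nat_lit 33618) (nat_lit 0) (nat_lit 76) (XT.lf (nat_lit 0) (nat_lit 442424473406) (nat_lit 76) (nat_lit 64506042063) (nat_lit 76) (nat_lit 60443701702) (nat_lit 1) (nat_lit 4) (nat_lit 2) (nat_lit 5) (nat_lit 2) (nat_lit 4) (nat_lit 362) (nat_lit 203) (nat_lit 155)) (XT.lf (nat_lit 0) (nat_lit 9121524077) (nat_lit 152) (nat_lit 7281384573) (nat_lit 0) (nat_lit 9121524077) (nat_lit 2) (nat_lit 5) (nat_lit 4) (nat_lit 4) (nat_lit 2) (nat_lit 4) (nat_lit 312) (nat_lit 204) (nat_lit 204))) (XT.nd (nat_lit 78) (nat_lit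 0) (nat_lit 0) (XT.lf (nat_lit 0) (nat_lit 21215001935) (nat_lit 152) (nat_lit 11276816056) (nat_lit 0) (nat_lit 20990279642) (nat_lit 2) (nat_lit 5) (nat_lit 4) (nat_lit 4) (nat_lit 2) (nat_lit 4) (nat_lit 313) (nat_lit 204) (nat_lit 203)) (XT.lf (nat_lit 0) (nat_lit 24263259894) (nat_lit 152) (nat_lit 7952969116) (nat_lit 0) (nat_lit 23824516369) (nat_lit 2) (nat_lit 5) (nat_lit 4) (nat_lit 4) (nat_lit 2) (nat_lit 4) (nat_lit 314) (nat_lit 204) (nat_lit 202))))) (XT.nd (nat_lit 312) (nat_lit 0) (nat_lit 0) (XT.nd (nat_lit 156) (nat_lit 76) (nat_lit 0) (XT.nd (nat_lit 78) (nat_lit 0) (nat_lit 0) (XT.lf (nat_lit 0) (nat_lit 27395079789) (nat_lit 152) (nat_lit 4583314405) (nat_lit 0) (nat_lit 26752506519) (nat_lit 2) (nat_lit 5) (nat_lit 4) (nat_lit 4) (nat_lit 2) (nat_lit 4) (nat_lit 315) (nat_lit 204) (nat_lit 201)) (XT.lf (nat_lit 0) (nat_lit 30617918332) (nat_lit 152) (nat_lit 1159828936)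 (nat_lit 0) (nat_lit 29781221497) (nat_lit 2) (nat_lit 5) (nat_lit 4) (nat_lit 4) (nat_lit 2) (nat_lit 4) (nat_lit 316) (nat_lit 204) (nat_lit 200))) (XT.nd (nat_lit 78) (nat_lit 0) (nat_lit 0) (XT.lf (nat_lit 0) (nat_lit 2402534558) (nat_lit 76) (nat_lit 31574424689) (nat_lit 76) (nat_lit 30552848267) (nat_lit 1) (nat_lit 4) (nat_lit 2) (nat_lit 5) (nat_lit 2) (nat_lit 4) (nat_lit 317) (nat_lit 204) (nat_lit 199)) (XT.lf (nat_lit 0) (nat_lit 6075851677) (nat_lit 76) (nat_lit 31386589444) (nat_lit 76) (nat_lit 30188937225) (nat_lit 1) (nat_lit 4) (nat_lit 2) (nat_lit 5) (nat_lit 2) (nat_lit 4) (nat_lit 318) (nat_lit 204) (nat_lit 198)))) (XT.nd (nat_lit 156) (nat_lit 0) (nat_lit 0) (XT.nd (nat_lit 78) (nat_lit 0) (nat_lit 0) (XT.lf (nat_lit 0) (nat_lit 9830519231) (nat_lit 76) (nat_lit 31233436569) (nat_lit 76) (nat_lit 29868093115) (nat_lit 1) (nat_lit 4) (nat_lit 2) (nat_lit 5) (nat_lit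 2) (nat_lit 4) (nat_lit 319) (nat_lit 204) (nat_lit 197)) (XT.lf (nat_lit 0) (nat_lit 13675476904) (nat_lit 76) (nat_lit 31114601416) (nat_lit 76) (nat_lit 29589552023) (nat_lit 1) (nat_lit 4) (nat_lit 2) (nat_lit 5) (nat_lit 2) (nat_lit 4) (nat_lit 320) (nat_lit 204) (nat_lit 196))) (XT.nd (nat_lit 78) (nat_lit 0) (nat_lit 0) (XT.lf (nat_lit 0) (nat_lit 17619879359) (nat_lit 76) (nat_lit 31029801042) (nat_lit 76) (nat_lit 29352650756) (nat_lit 1) (nat_lit 4) (nat_lit 2) (nat_lit 5) (nat_lit 2) (nat_lit 4) (nat_lit 321) (nat_lit 204) (nat_lit 195)) (XT.nd (nat_lit 78) (nat_lit 0) (nat_lit 0) (XT.lf (nat_lit 0) (nat_lit 21673118029) (nat_lit 76) (nat_lit 30978833543) (nat_lit 76) (nat_lit 29156825263) (nat_lit 1) (nat_lit 4) (nat_lit 2) (nat_lit 5) (nat_lit 2) (nat_lit 4) (nat_lit 322) (nat_lit 204) (nat_lit 194)) (XT.lf (nat_lit 0) (nat_lit 25844843483) (nat_lit 76) (nat_lit 30961577567)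 (nat_lit 76) (nat_lit 29001609293) (nat_lit 1) (nat_lit 4) (nat_lit 2) (nat_lit 5) (nat_lit 2) (nat_lit 4) (nat_lit 323) (nat_lit 204) (nat_lit 193))))))) (XT.nd (nat_lit 624) (nat_lit 0) (nat_lit 0) (XT.nd (nat_lit 312) (nat_lit 0) (nat_lit 0) (XT.nd (nat_lit 156) (nat_lit 0) (nat_lit 0) (XT.nd (nat_lit 78) (nat_lit 0) (nat_lit 0) (XT.lf (nat_lit 0) (nat_lit 30144988400) (nat_lit 76) (nat_lit 30977992029) (nat_lit 76) (nat_lit 28886633284) (nat_lit 1) (nat_lit 4) (nat_lit 2) (nat_lit 5) (nat_lit 2) (nat_lit 4) (nat_lit 324) (nat_lit 204) (nat_lit 192)) (XT.lf (nat_lit 0) (nat_lit 34583791220) (nat_lit 76) (nat_lit 31028116011) (nat_lit 76) (nat_lit 28811623484) (nat_lit 1) (nat_lit 4) (nat_lit 2) (nat_lit 5) (nat_lit 2) (nat_lit 4) (nat_lit 325) (nat_lit 204) (nat_lit 191))) (XT.nd (nat_lit 78) (nat_lit 0) (nat_lit 0) (XT.lf (nat_lit 0) (nat_lit 39171820523) (nat_lit 76) (nat_lit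 31112068855) (nat_lit 76) (nat_lit 28776401298) (nat_lit 1) (nat_lit 4) (nat_lit 2) (nat_lit 5) (nat_lit 2) (nat_lit 4) (nat_lit 326) (nat_lit 204) (nat_lit 190)) (XT.lf (nat_lit 0) (nat_lit 43920000186) (nat_lit 76) (nat_lit 31230050450) (nat_lit 76) (nat_lit 28780882864) (nat_lit 1) (nat_lit 4) (nat_lit 2) (nat_lit 5) (nat_lit 2) (nat_lit 4) (nat_lit 327) (nat_lit 204) (nat_lit 189)))) (XT.nd (nat_lit 156) (nat_lit 0) (nat_lit 0) (XT.nd (nat_lit 78) (nat_lit 0) (nat_lit 0) (XT.lf (nat_lit 0) (nat_lit 48839635400) (nat_lit 76) (nat_lit 31382341703) (nat_lit 76) (nat_lit 28825078852) (nat_lit 1) (nat_lit 4) (nat_lit 2) (nat_lit 5) (nat_lit 2) (nat_lit 4) (nat_lit 328) (nat_lit 204) (nat_lit 188)) (XT.lf (nat_lit 0) (nat_lit 53942439581) (nat_lit 76) (nat_lit 31569305213) (nat_lit 76) (nat_lit 28909094490) (nat_lit 1) (nat_lit 4) (nat_lit 2) (nat_lit 5) (nat_lit 2) (nat_lit 4) (nat_lit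 329) (nat_lit 204) (nat_lit 187))) (XT.nd (nat_lit 78) (nat_lit 0) (nat_lit 0) (XT.lf (nat_lit 0) (nat_lit 59240562265) (nat_lit 76) (nat_lit 31791386132) (nat_lit 76) (nat_lit 29033129817) (nat_lit 1) (nat_lit 4) (nat_lit 2) (nat_lit 5) (nat_lit 2) (nat_lit 4) (nat_lit 330) (nat_lit 204) (nat_lit 186)) (XT.lf (nat_lit 0) (nat_lit 64746618027) (nat_lit 76) (nat_lit 32049113223) (nat_lit 76) (nat_lit 29197480153) (nat_lit 1) (nat_lit 4) (nat_lit 2) (nat_lit 5) (nat_lit 2) (nat_lit 4) (nat_lit 331) (nat_lit 204) (nat_lit 185))))) (XT.nd (nat_lit 312) (nat_lit 0) (nat_lit 0) (XT.nd (nat_lit 156) (nat_lit 0) (nat_lit 0) (XT.nd (nat_lit 78) (nat_lit 0) (nat_lit 0) (XT.lf (nat_lit 0) (nat_lit 70473716526) (nat_lit 76) (nat_lit 32343100122) (nat_lit 76) (nat_lit 29402536810) (nat_lit 1) (nat_lit 4) (nat_lit 2) (nat_lit 5) (nat_lit 2) (nat_lit 4) (nat_lit 332) (nat_lit 204) (nat_lit 184))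 (XT.lf (nat_lit 0) (nat_lit 76435493709) (nat_lit 76) (nat_lit 32674046798) (nat_lit 76) (nat_lit 29648788018) (nat_lit 1) (nat_lit 4) (nat_lit 2) (nat_lit 5) (nat_lit 2) (nat_lit 4) (nat_lit 333) (nat_lit 204) (nat_lit 183))) (XT.nd (nat_lit 78) (nat_lit 0) (nat_lit 0) (XT.lf (nat_lit 0) (nat_lit 82646144285) (nat_lit 76) (nat_lit 33042741220) (nat_lit 76) (nat_lit 29936820088) (nat_lit 1) (nat_lit 4) (nat_lit 2) (nat_lit 5) (nat_lit 2) (nat_lit 4) (nat_lit 334) (nat_lit 204) (nat_lit 182)) (XT.lf (nat_lit 0) (nat_lit 89120455517) (nat_lit 76) (nat_lit 33450061231) (nat_lit 76) (nat_lit 30267318812) (nat_lit 1) (nat_lit 4) (nat_lit 2) (nat_lit 5) (nat_lit 2) (nat_lit 4) (nat_lit 335) (nat_lit 204) (nat_lit 181)))) (XT.nd (nat_lit 156) (nat_lit 0) (nat_lit 0) (XT.nd (nat_lit 78) (nat_lit 0) (nat_lit 0) (XT.lf (nat_lit 0) (nat_lit 95873842431) (nat_lit 76) (nat_lit 33896976640) (nat_lit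 76) (nat_lit 30641071091) (nat_lit 1) (nat_lit 4) (nat_lit 2) (nat_lit 5) (nat_lit 2) (nat_lit 4) (nat_lit 336) (nat_lit 204) (nat_lit 180)) (XT.lf (nat_lit 0) (nat_lit 102922384520) (nat_lit 76) (nat_lit 34384551533) (nat_lit 76) (nat_lit 31058966812) (nat_lit 1) (nat_lit 4) (nat_lit 2) (nat_lit 5) (nat_lit 2) (nat_lit 4) (nat_lit 337) (nat_lit 204) (nat_lit 179))) (XT.nd (nat_lit 78) (nat_lit 0) (nat_lit 0) (XT.lf (nat_lit 0) (nat_lit 110282864027) (nat_lit 76) (nat_lit 34913946801) (nat_lit 76) (nat_lit 31522000964) (nat_lit 1) (nat_lit 4) (nat_lit 2) (nat_lit 5) (nat_lit 2) (nat_lit 4) (nat_lit 338) (nat_lit 204) (nat_lit 178)) (XT.nd (nat_lit 78) (nat_lit 0) (nat_lit 0) (XT.lf (nat_lit 0) (nat_lit 117972805903) (nat_lit 76) (nat_lit 35486422910) (nat_lit 76) (nat_lit 32031276010) (nat_lit 1) (nat_lit 4) (nat_lit 2) (nat_lit 5) (nat_lit 2) (nat_lit 4) (nat_lit 339) (nat_lit 204)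 (nat_lit 177)) (XT.lf (nat_lit 0) (nat_lit 126010519534) (nat_lit 76) (nat_lit 36103342898) (nat_lit 76) (nat_lit 32588004510) (nat_lit 1) (nat_lit 4) (nat_lit 2) (nat_lit 5) (nat_lit 2) (nat_lit 4) (nat_lit 340) (nat_lit 204) (nat_lit 176))))))))
noncomputable def xc20 : XT := (XT.nd (nat_lit 1248) (nat_lit 0) (nat_lit 0) (XT.nd (nat_lit 624) (nat_lit 0) (nat_lit 0) (XT.nd (nat_lit 312) (nat_lit 0) (nat_lit 0) (XT.nd (nat_lit 156) (nat_lit 0) (nat_lit 0) (XT.nd (nat_lit 78) (nat_lit 0) (nat_lit 0) (XT.lf (nat_lit 0) (nat_lit 134415142334) (nat_lit 76) (nat_lit 36766175622) (nat_lit 76) (nat_lit 33193512006) (nat_lit 1) (nat_lit 4) (nat_lit 2) (nat_lit 5) (nat_lit 2) (nat_lit 4) (nat_lit 341) (nat_lit 204) (nat_lit 175)) (XT.lf (nat_lit 0) (nat_lit 143206685308) (nat_lit 76) (nat_lit 37476499255) (nat_lit 76) (nat_lit 33849240185) (nat_lit 1) (nat_lit 4) (nat_lit 2) (nat_lit 5) (nat_lit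 2) (nat_lit 4) (nat_lit 342) (nat_lit 204) (nat_lit 174))) (XT.nd (nat_lit 78) (nat_lit 0) (nat_lit 0) (XT.lf (nat_lit 0) (nat_lit 152406080702) (nat_lit 76) (nat_lit 38236005045) (nat_lit 76) (nat_lit 34556750304) (nat_lit 1) (nat_lit 4) (nat_lit 2) (nat_lit 5) (nat_lit 2) (nat_lit 4) (nat_lit 343) (nat_lit 204) (nat_lit 173)) (XT.lf (nat_lit 0) (nat_lit 162035231838) (nat_lit 76) (nat_lit 39046501337) (nat_lit 76) (nat_lit 35317726909) (nat_lit 1) (nat_lit 4) (nat_lit 2) (nat_lit 5) (nat_lit 2) (nat_lit 4) (nat_lit 344) (nat_lit 204) (nat_lit 172)))) (XT.nd (nat_lit 156) (nat_lit 0) (nat_lit 0) (XT.nd (nat_lit 78) (nat_lit 0) (nat_lit 0) (XT.lf (nat_lit 0) (nat_lit 172117065267) (nat_lit 76) (nat_lit 39909917885) (nat_lit 76) (nat_lit 36133981852) (nat_lit 1) (nat_lit 4) (nat_lit 2) (nat_lit 5) (nat_lit 2) (nat_lit 4) (nat_lit 345) (nat_lit 204) (nat_lit 171)) (XT.lf (nat_lit 0)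 (nat_lit 182675585355) (nat_lit 76) (nat_lit 40828310444) (nat_lit 76) (nat_lit 37007458594) (nat_lit 1) (nat_lit 4) (nat_lit 2) (nat_lit 5) (nat_lit 2) (nat_lit 4) (nat_lit 346) (nat_lit 204) (nat_lit 170))) (XT.nd (nat_lit 78) (nat_lit 0) (nat_lit 0) (XT.lf (nat_lit 0) (nat_lit 193735931433) (nat_lit 76) (nat_lit 41803865661) (nat_lit 76) (nat_lit 37940236845) (nat_lit 1) (nat_lit 4) (nat_lit 2) (nat_lit 5) (nat_lit 2) (nat_lit 4) (nat_lit 347) (nat_lit 204) (nat_lit 169)) (XT.lf (nat_lit 0) (nat_lit 205324437661) (nat_lit 76) (nat_lit 42838906287) (nat_lit 76) (nat_lit 38934537502) (nat_lit 1) (nat_lit 4) (nat_lit 2) (nat_lit 5) (nat_lit 2) (nat_lit 4) (nat_lit 348) (nat_lit 204) (nat_lit 168))))) (XT.nd (nat_lit 312) (nat_lit 0) (nat_lit 0) (XT.nd (nat_lit 156) (nat_lit 0) (nat_lit 0) (XT.nd (nat_lit 78) (nat_lit 0) (nat_lit 0) (XT.lf (nat_lit 0) (nat_lit 217468695719) (nat_lit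 76) (nat_lit 43935896706) (nat_lit 76) (nat_lit 39992727950) (nat_lit 1) (nat_lit 4) (nat_lit 2) (nat_lit 5) (nat_lit 2) (nat_lit 4) (nat_lit 349) (nat_lit 204) (nat_lit 167)) (XT.lf (nat_lit 0) (nat_lit 230197620507) (nat_lit 76) (nat_lit 45097448797) (nat_lit 76) (nat_lit 41117327690) (nat_lit 1) (nat_lit 4) (nat_lit 2) (nat_lit 5) (nat_lit 2) (nat_lit 4) (nat_lit 350) (nat_lit 204) (nat_lit 166))) (XT.nd (nat_lit 78) (nat_lit 0) (nat_lit 0) (XT.lf (nat_lit 0) (nat_lit 243541518990) (nat_lit 76) (nat_lit 46326328163) (nat_lit 76) (nat_lit 42311014339) (nat_lit 1) (nat_lit 4) (nat_lit 2) (nat_lit 5) (nat_lit 2) (nat_lit 4) (nat_lit 351) (nat_lit 204) (nat_lit 165)) (XT.lf (nat_lit 0) (nat_lit 257532162354) (nat_lit 76) (nat_lit 47625460706) (nat_lit 76) (nat_lit 43576630009) (nat_lit 1) (nat_lit 4) (nat_lit 2) (nat_lit 5) (nat_lit 2) (nat_lit 4) (nat_lit 352) (nat_lit 204) (nat_lit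 164)))) (XT.nd (nat_lit 156) (nat_lit 0) (nat_lit 0) (XT.nd (nat_lit 78) (nat_lit 0) (nat_lit 0) (XT.lf (nat_lit 0) (nat_lit 272202861654) (nat_lit 76) (nat_lit 48997939599) (nat_lit 76) (nat_lit 44917188070) (nat_lit 1) (nat_lit 4) (nat_lit 2) (nat_lit 5) (nat_lit 2) (nat_lit 4) (nat_lit 353) (nat_lit 204) (nat_lit 163)) (XT.lf (nat_lit 0) (nat_lit 287588547128) (nat_lit 76) (nat_lit 50447032649) (nat_lit 76) (nat_lit 46335880328) (nat_lit 1) (nat_lit 4) (nat_lit 2) (nat_lit 5) (nat_lit 2) (nat_lit 4) (nat_lit 354) (nat_lit 204) (nat_lit 162))) (XT.nd (nat_lit 78) (nat_lit 0) (nat_lit 0) (XT.lf (nat_lit 0) (nat_lit 303725851359) (nat_lit 76) (nat_lit 51976190077) (nat_lit 76) (nat_lit 47836084621) (nat_lit 1) (nat_lit 4) (nat_lit 2) (nat_lit 5) (nat_lit 2) (nat_lit 4) (nat_lit 355) (nat_lit 204) (nat_lit 161)) (XT.lf (nat_lit 0) (nat_lit 320653196501) (nat_lit 76) (nat_lit 53589052735)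 (nat_lit 76) (nat_lit 49421372864) (nat_lit 1) (nat_lit 4) (nat_lit 2) (nat_lit 5) (nat_lit 2) (nat_lit 4) (nat_lit 356) (nat_lit 204) (nat_lit 160)))))) (XT.nd (nat_lit 34008) (nat_lit 0) (nat_lit 0) (XT.nd (nat_lit 312) (nat_lit 0) (nat_lit 0) (XT.nd (nat_lit 156) (nat_lit 0) (nat_lit 0) (XT.nd (nat_lit 78) (nat_lit 0) (nat_lit 0) (XT.lf (nat_lit 0) (nat_lit 338410885757) (nat_lit 76) (nat_lit 55289460771) (nat_lit 76) (nat_lit 51095519553) (nat_lit 1) (nat_lit 4) (nat_lit 2) (nat_lit 5) (nat_lit 2) (nat_lit 4) (nat_lit 357) (nat_lit 204) (nat_lit 159)) (XT.lf (nat_lit 0) (nat_lit 357041199338) (nat_lit 76) (nat_lit 57081462776) (nat_lit 76) (nat_lit 52862510751) (nat_lit 1) (nat_lit 4) (nat_lit 2) (nat_lit 5) (nat_lit 2) (nat_lit 4) (nat_lit 358) (nat_lit 204) (nat_lit 158))) (XT.nd (nat_lit 78) (nat_lit 0) (nat_lit 0) (XT.lf (nat_lit 0) (nat_lit 376588495134) (nat_lit 76) (nat_lit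 58969325421) (nat_lit 76) (nat_lit 54726553581) (nat_lit 1) (nat_lit 4) (nat_lit 2) (nat_lit 5) (nat_lit 2) (nat_lit 4) (nat_lit 359) (nat_lit 204) (nat_lit 157)) (XT.lf (nat_lit 0) (nat_lit 397099314327) (nat_lit 76) (nat_lit 60957543618) (nat_lit 76) (nat_lit 56692086239) (nat_lit 1) (nat_lit 4) (nat_lit 2) (nat_lit 5) (nat_lit 2) (nat_lit 4) (nat_lit 360) (nat_lit 204) (nat_lit 156)))) (XT.nd (nat_lit 33540) (nat_lit 0) (nat_lit 76) (XT.nd (nat_lit 78) (nat_lit 0) (nat_lit 0) (XT.lf (nat_lit 0) (nat_lit 418622492198) (nat_lit 76) (nat_lit 63050851220) (nat_lit 76) (nat_lit 58763788566) (nat_lit 1) (nat_lit 4) (nat_lit 2) (nat_lit 5) (nat_lit 2) (nat_lit 4) (nat_lit 361) (nat_lit 204) (nat_lit 155)) (XT.lf (nat_lit 0) (nat_lit 441209274411) (nat_lit 76) (nat_lit 65254232292) (nat_lit 76) (nat_lit 60946593185) (nat_lit 1) (nat_lit 4) (nat_lit 2) (nat_lit 5) (nat_lit 2) (nat_lit 4)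 (nat_lit 362) (nat_lit 204) (nat_lit 154))) (XT.nd (nat_lit 78) (nat_lit 0) (nat_lit 0) (XT.lf (nat_lit 0) (nat_lit 6387375923) (nat_lit 152) (nat_lit 10492118194) (nat_lit 0) (nat_lit 6387375923) (nat_lit 2) (nat_lit 5) (nat_lit 4) (nat_lit 4) (nat_lit 2) (nat_lit 4) (nat_lit 310) (nat_lit 205) (nat_lit 205)) (XT.lf (nat_lit 0) (nat_lit 15576280880) (nat_lit 152) (nat_lit 17818652083) (nat_lit 0) (nat_lit 15340322472) (nat_lit 2) (nat_lit 5) (nat_lit 4) (nat_lit 4) (nat_lit 2) (nat_lit 4) (nat_lit 311) (nat_lit 205) (nat_lit 204))))) (XT.nd (nat_lit 312) (nat_lit 76) (nat_lit 0) (XT.nd (nat_lit 156) (nat_lit 0) (nat_lit 0) (XT.nd (nat_lit 78) (nat_lit 0) (nat_lit 0) (XT.lf (nat_lit 0) (nat_lit 18441978179) (nat_lit 152) (nat_lit 14627512558) (nat_lit 0) (nat_lit 17981297478) (nat_lit 2) (nat_lit 5) (nat_lit 4) (nat_lit 4) (nat_lit 2) (nat_lit 4) (nat_lit 312) (nat_lit 205) (nat_lit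 203)) (XT.lf (nat_lit 0) (nat_lit 21378666833) (nat_lit 152) (nat_lit 11403219860) (nat_lit 0) (nat_lit 20703964900) (nat_lit 2) (nat_lit 5) (nat_lit 4) (nat_lit 4) (nat_lit 2) (nat_lit 4) (nat_lit 313) (nat_lit 205) (nat_lit 202))) (XT.nd (nat_lit 78) (nat_lit 0) (nat_lit 0) (XT.lf (nat_lit 0) (nat_lit 24393338956) (nat_lit 152) (nat_lit 8138097104) (nat_lit 0) (nat_lit 23514807279) (nat_lit 2) (nat_lit 5) (nat_lit 4) (nat_lit 4) (nat_lit 2) (nat_lit 4) (nat_lit 314) (nat_lit 205) (nat_lit 201)) (XT.lf (nat_lit 0) (nat_lit 27493172340) (nat_lit 152) (nat_lit 4824370187) (nat_lit 0) (nat_lit 26420517097) (nat_lit 2) (nat_lit 5) (nat_lit 4) (nat_lit 4) (nat_lit 2) (nat_lit 4) (nat_lit 315) (nat_lit 205) (nat_lit 200)))) (XT.nd (nat_lit 156) (nat_lit 0) (nat_lit 0) (XT.nd (nat_lit 78) (nat_lit 76) (nat_lit 0) (XT.lf (nat_lit 0) (nat_lit 30685547541) (nat_lit 152) (nat_lit 1454149282)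 (nat_lit 0) (nat_lit 29428012711) (nat_lit 2) (nat_lit 5) (nat_lit 4) (nat_lit 4) (nat_lit 2) (nat_lit 4) (nat_lit 316) (nat_lit 205) (nat_lit 199)) (XT.lf (nat_lit 0) (nat_lit 2046077192) (nat_lit 76) (nat_lit 31963933259) (nat_lit 76) (nat_lit 30530322631) (nat_lit 1) (nat_lit 4) (nat_lit 2) (nat_lit 5) (nat_lit 2) (nat_lit 4) (nat_lit 317) (nat_lit 205) (nat_lit 198))) (XT.nd (nat_lit 78) (nat_lit 0) (nat_lit 0) (XT.lf (nat_lit 0) (nat_lit 5669484349) (nat_lit 76) (nat_lit 31797597590) (nat_lit 76) (nat_lit 30196295728) (nat_lit 1) (nat_lit 4) (nat_lit 2) (nat_lit 5) (nat_lit 2) (nat_lit 4) (nat_lit 318) (nat_lit 205) (nat_lit 197)) (XT.nd (nat_lit 78) (nat_lit 0) (nat_lit 0) (XT.lf (nat_lit 0) (nat_lit 9376618607) (nat_lit 76) (nat_lit 31664920503) (nat_lit 76) (nat_lit 29903912702) (nat_lit 1) (nat_lit 4) (nat_lit 2) (nat_lit 5) (nat_lit 2) (nat_lit 4) (nat_lit 319) (nat_lit 205)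 (nat_lit 196)) (XT.lf (nat_lit 0) (nat_lit 13176306474) (nat_lit 76) (nat_lit 31565586100) (nat_lit 76) (nat_lit 29652477405) (nat_lit 1) (nat_lit 4) (nat_lit 2) (nat_lit 5) (nat_lit 2) (nat_lit 4) (nat_lit 320) (nat_lit 205) (nat_lit 195))))))))
noncomputable def xc21 : XT := (XT.nd (nat_lit 1326) (nat_lit 0) (nat_lit 0) (XT.nd (nat_lit 624) (nat_lit 0) (nat_lit 0) (XT.nd (nat_lit 312) (nat_lit 0) (nat_lit 0) (XT.nd (nat_lit 156) (nat_lit 0) (nat_lit 0) (XT.nd (nat_lit 78) (nat_lit 0) (nat_lit 0) (XT.lf (nat_lit 0) (nat_lit 17077594828) (nat_lit 76) (nat_lit 31499357869) (nat_lit 76) (nat_lit 29441391181) (nat_lit 1) (nat_lit 4) (nat_lit 2) (nat_lit 5) (nat_lit 2) (nat_lit 4) (nat_lit 321) (nat_lit 205) (nat_lit 194)) (XT.lf (nat_lit 0) (nat_lit 21089772449) (nat_lit 76) (nat_lit 31466078125) (nat_lit 76) (nat_lit 29270151443) (nat_lit 1) (nat_lit 4) (nat_lit 2) (nat_lit 5) (nat_lit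 2) (nat_lit 4) (nat_lit 322) (nat_lit 205) (nat_lit 193))) (XT.nd (nat_lit 78) (nat_lit 0) (nat_lit 0) (XT.lf (nat_lit 0) (nat_lit 25222392142) (nat_lit 76) (nat_lit 31465667631) (nat_lit 76) (nat_lit 29138350478) (nat_lit 1) (nat_lit 4) (nat_lit 2) (nat_lit 5) (nat_lit 2) (nat_lit 4) (nat_lit 323) (nat_lit 205) (nat_lit 192)) (XT.lf (nat_lit 0) (nat_lit 29485293478) (nat_lit 76) (nat_lit 31498125408) (nat_lit 76) (nat_lit 29045674473) (nat_lit 1) (nat_lit 4) (nat_lit 2) (nat_lit 5) (nat_lit 2) (nat_lit 4) (nat_lit 324) (nat_lit 205) (nat_lit 191)))) (XT.nd (nat_lit 156) (nat_lit 0) (nat_lit 0) (XT.nd (nat_lit 78) (nat_lit 0) (nat_lit 0) (XT.lf (nat_lit 0) (nat_lit 33888626220) (nat_lit 76) (nat_lit 31563528738) (nat_lit 76) (nat_lit 28991902773) (nat_lit 1) (nat_lit 4) (nat_lit 2) (nat_lit 5) (nat_lit 2) (nat_lit 4) (nat_lit 325) (nat_lit 205) (nat_lit 190)) (XT.lf (nat_lit 0) (nat_lit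 38442874496) (nat_lit 76) (nat_lit 31662033342) (nat_lit 76) (nat_lit 28976907349) (nat_lit 1) (nat_lit 4) (nat_lit 2) (nat_lit 5) (nat_lit 2) (nat_lit 4) (nat_lit 326) (nat_lit 205) (nat_lit 189))) (XT.nd (nat_lit 78) (nat_lit 0) (nat_lit 0) (XT.lf (nat_lit 0) (nat_lit 43158881753) (nat_lit 76) (nat_lit 31793873756) (nat_lit 76) (nat_lit 29000652497) (nat_lit 1) (nat_lit 4) (nat_lit 2) (nat_lit 5) (nat_lit 2) (nat_lit 4) (nat_lit 327) (nat_lit 205) (nat_lit 188)) (XT.lf (nat_lit 0) (nat_lit 48047876580) (nat_lit 76) (nat_lit 31959363884) (nat_lit 76) (nat_lit 29063194754) (nat_lit 1) (nat_lit 4) (nat_lit 2) (nat_lit 5) (nat_lit 2) (nat_lit 4) (nat_lit 328) (nat_lit 205) (nat_lit 187))))) (XT.nd (nat_lit 312) (nat_lit 0) (nat_lit 0) (XT.nd (nat_lit 156) (nat_lit 0) (nat_lit 0) (XT.nd (nat_lit 78) (nat_lit 0) (nat_lit 0) (XT.lf (nat_lit 0) (nat_lit 53121499441) (nat_lit 76) (nat_lit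 32158897752) (nat_lit 76) (nat_lit 29164683029) (nat_lit 1) (nat_lit 4) (nat_lit 2) (nat_lit 5) (nat_lit 2) (nat_lit 4) (nat_lit 329) (nat_lit 205) (nat_lit 186)) (XT.lf (nat_lit 0) (nat_lit 58391830391) (nat_lit 76) (nat_lit 32392950439) (nat_lit 76) (nat_lit 29305358962) (nat_lit 1) (nat_lit 4) (nat_lit 2) (nat_lit 5) (nat_lit 2) (nat_lit 4) (nat_lit 330) (nat_lit 205) (nat_lit 185))) (XT.nd (nat_lit 78) (nat_lit 0) (nat_lit 0) (XT.lf (nat_lit 0) (nat_lit 63871417835) (nat_lit 76) (nat_lit 32662079215) (nat_lit 76) (nat_lit 29485557496) (nat_lit 1) (nat_lit 4) (nat_lit 2) (nat_lit 5) (nat_lit 2) (nat_lit 4) (nat_lit 331) (nat_lit 205) (nat_lit 184)) (XT.lf (nat_lit 0) (nat_lit 69573308412) (nat_lit 76) (nat_lit 32966924862) (nat_lit 76) (nat_lit 29705707673) (nat_lit 1) (nat_lit 4) (nat_lit 2) (nat_lit 5) (nat_lit 2) (nat_lit 4) (nat_lit 332) (nat_lit 205) (nat_lit 183)))) (XT.nd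 (nat_lit 156) (nat_lit 0) (nat_lit 0) (XT.nd (nat_lit 78) (nat_lit 0) (nat_lit 0) (XT.lf (nat_lit 0) (nat_lit 75511078051) (nat_lit 76) (nat_lit 33308213202) (nat_lit 76) (nat_lit 29966333662) (nat_lit 1) (nat_lit 4) (nat_lit 2) (nat_lit 5) (nat_lit 2) (nat_lit 4) (nat_lit 333) (nat_lit 205) (nat_lit 182)) (XT.lf (nat_lit 0) (nat_lit 81698864298) (nat_lit 76) (nat_lit 33686756828) (nat_lit 76) (nat_lit 30268056001) (nat_lit 1) (nat_lit 4) (nat_lit 2) (nat_lit 5) (nat_lit 2) (nat_lit 4) (nat_lit 334) (nat_lit 205) (nat_lit 181))) (XT.nd (nat_lit 78) (nat_lit 0) (nat_lit 0) (XT.lf (nat_lit 0) (nat_lit 88151399979) (nat_lit 76) (nat_lit 34103457033) (nat_lit 76) (nat_lit 30611593076) (nat_lit 1) (nat_lit 4) (nat_lit 2) (nat_lit 5) (nat_lit 2) (nat_lit 4) (nat_lit 335) (nat_lit 205) (nat_lit 180)) (XT.nd (nat_lit 78) (nat_lit 0) (nat_lit 0) (XT.lf (nat_lit 0) (nat_lit 94884048273) (nat_lit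 76) (nat_lit 34559305961) (nat_lit 76) (nat_lit 30997762832) (nat_lit 1) (nat_lit 4) (nat_lit 2) (nat_lit 5) (nat_lit 2) (nat_lit 4) (nat_lit 336) (nat_lit 205) (nat_lit 179)) (XT.lf (nat_lit 0) (nat_lit 101912839295) (nat_lit 76) (nat_lit 35055388966) (nat_lit 76) (nat_lit 31427484721) (nat_lit 1) (nat_lit 4) (nat_lit 2) (nat_lit 5) (nat_lit 2) (nat_lit 4) (nat_lit 337) (nat_lit 205) (nat_lit 178))))))) (XT.nd (nat_lit 624) (nat_lit 0) (nat_lit 0) (XT.nd (nat_lit 312) (nat_lit 0) (nat_lit 0) (XT.nd (nat_lit 156) (nat_lit 0) (nat_lit 0) (XT.nd (nat_lit 78) (nat_lit 0) (nat_lit 0) (XT.lf (nat_lit 0) (nat_lit 109254508263) (nat_lit 76) (nat_lit 35592887199) (nat_lit 76) (nat_lit 31901781891) (nat_lit 1) (nat_lit 4) (nat_lit 2) (nat_lit 5) (nat_lit 2) (nat_lit 4) (nat_lit 338) (nat_lit 205) (nat_lit 177)) (XT.lf (nat_lit 0) (nat_lit 116926535340) (nat_lit 76) (nat_lit 36173080417) (nat_lit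 76) (nat_lit 32421783620) (nat_lit 1) (nat_lit 4) (nat_lit 2) (nat_lit 5) (nat_lit 2) (nat_lit 4) (nat_lit 339) (nat_lit 205) (nat_lit 176))) (XT.nd (nat_lit 78) (nat_lit 0) (nat_lit 0) (XT.lf (nat_lit 0) (nat_lit 124947187257) (nat_lit 76) (nat_lit 36797350033) (nat_lit 76) (nat_lit 32988728009) (nat_lit 1) (nat_lit 4) (nat_lit 2) (nat_lit 5) (nat_lit 2) (nat_lit 4) (nat_lit 340) (nat_lit 205) (nat_lit 175)) (XT.lf (nat_lit 0) (nat_lit 133335560805) (nat_lit 76) (nat_lit 37467182402) (nat_lit 76) (nat_lit 33603964924) (nat_lit 1) (nat_lit 4) (nat_lit 2) (nat_lit 5) (nat_lit 2) (nat_lit 4) (nat_lit 341) (nat_lit 205) (nat_lit 174)))) (XT.nd (nat_lit 156) (nat_lit 0) (nat_lit 0) (XT.nd (nat_lit 78) (nat_lit 0) (nat_lit 0) (XT.lf (nat_lit 0) (nat_lit 142111628302) (nat_lit 76) (nat_lit 38184172364) (nat_lit 76) (nat_lit 34268959215) (nat_lit 1) (nat_lit 4) (nat_lit 2) (nat_lit 5) (nat_lit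 2) (nat_lit 4) (nat_lit 342) (nat_lit 205) (nat_lit 173)) (XT.lf (nat_lit 0) (nat_lit 151296285146) (nat_lit 76) (nat_lit 38950027038) (nat_lit 76) (nat_lit 34985294203) (nat_lit 1) (nat_lit 4) (nat_lit 2) (nat_lit 5) (nat_lit 2) (nat_lit 4) (nat_lit 343) (nat_lit 205) (nat_lit 172))) (XT.nd (nat_lit 78) (nat_lit 0) (nat_lit 0) (XT.lf (nat_lit 0) (nat_lit 160911399568) (nat_lit 76) (nat_lit 39766569887) (nat_lit 76) (nat_lit 35754675446) (nat_lit 1) (nat_lit 4) (nat_lit 2) (nat_lit 5) (nat_lit 2) (nat_lit 4) (nat_lit 344) (nat_lit 205) (nat_lit 171)) (XT.lf (nat_lit 0) (nat_lit 170979864698) (nat_lit 76) (nat_lit 40635745061) (nat_lit 76) (nat_lit 36578934804) (nat_lit 1) (nat_lit 4) (nat_lit 2) (nat_lit 5) (nat_lit 2) (nat_lit 4) (nat_lit 345) (nat_lit 205) (nat_lit 170))))) (XT.nd (nat_lit 312) (nat_lit 0) (nat_lit 0) (XT.nd (nat_lit 156) (nat_lit 0) (nat_lit 0) (XT.nd (nat_lit 78)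 (nat_lit 0) (nat_lit 0) (XT.lf (nat_lit 0) (nat_lit 181525653072) (nat_lit 76) (nat_lit 41559622025) (nat_lit 76) (nat_lit 37460034801) (nat_lit 1) (nat_lit 4) (nat_lit 2) (nat_lit 5) (nat_lit 2) (nat_lit 4) (nat_lit 346) (nat_lit 205) (nat_lit 169)) (XT.lf (nat_lit 0) (nat_lit 192573873709) (nat_lit 76) (nat_lit 42540400485) (nat_lit 76) (nat_lit 38400073292) (nat_lit 1) (nat_lit 4) (nat_lit 2) (nat_lit 5) (nat_lit 2) (nat_lit 4) (nat_lit 347) (nat_lit 205) (nat_lit 168))) (XT.nd (nat_lit 78) (nat_lit 0) (nat_lit 0) (XT.lf (nat_lit 0) (nat_lit 204150831897) (nat_lit 76) (nat_lit 43580415629) (nat_lit 76) (nat_lit 39401288466) (nat_lit 1) (nat_lit 4) (nat_lit 2) (nat_lit 5) (nat_lit 2) (nat_lit 4) (nat_lit 348) (nat_lit 205) (nat_lit 167)) (XT.lf (nat_lit 0) (nat_lit 216284091822) (nat_lit 76) (nat_lit 44682143683) (nat_lit 76) (nat_lit 40466064167) (nat_lit 1) (nat_lit 4) (nat_lit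 2) (nat_lit 5) (nat_lit 2) (nat_lit 4) (nat_lit 349) (nat_lit 205) (nat_lit 166)))) (XT.nd (nat_lit 156) (nat_lit 0) (nat_lit 0) (XT.nd (nat_lit 78) (nat_lit 0) (nat_lit 0) (XT.lf (nat_lit 0) (nat_lit 229002542198) (nat_lit 76) (nat_lit 45848207808) (nat_lit 76) (nat_lit 41596935576) (nat_lit 1) (nat_lit 4) (nat_lit 2) (nat_lit 5) (nat_lit 2) (nat_lit 4) (nat_lit 350) (nat_lit 205) (nat_lit 165)) (XT.lf (nat_lit 0) (nat_lit 242336465050) (nat_lit 76) (nat_lit 47081384349) (nat_lit 76) (nat_lit 42796595244) (nat_lit 1) (nat_lit 4) (nat_lit 2) (nat_lit 5) (nat_lit 2) (nat_lit 4) (nat_lit 351) (nat_lit 205) (nat_lit 164))) (XT.nd (nat_lit 78) (nat_lit 0) (nat_lit 0) (XT.lf (nat_lit 0) (nat_lit 256317607813) (nat_lit 76) (nat_lit 48384609440) (nat_lit 76) (nat_lit 44067899503) (nat_lit 1) (nat_lit 4) (nat_lit 2) (nat_lit 5) (nat_lit 2) (nat_lit 4) (nat_lit 352) (nat_lit 205) (nat_lit 163))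 (XT.nd (nat_lit 78) (nat_lit 0) (nat_lit 0) (XT.lf (nat_lit 0) (nat_lit 270979258922) (nat_lit 76) (nat_lit 49760985997) (nat_lit 76) (nat_lit 45413875269) (nat_lit 1) (nat_lit 4) (nat_lit 2) (nat_lit 5) (nat_lit 2) (nat_lit 4) (nat_lit 353) (nat_lit 205) (nat_lit 162)) (XT.lf (nat_lit 0) (nat_lit 286356327071) (nat_lit 76) (nat_lit 51213791109) (nat_lit 76) (nat_lit 46837727245) (nat_lit 1) (nat_lit 4) (nat_lit 2) (nat_lit 5) (nat_lit 2) (nat_lit 4) (nat_lit 354) (nat_lit 205) (nat_lit 161))))))))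
noncomputable def xc22 : XT := (XT.nd (nat_lit 34554) (nat_lit 0) (nat_lit 0) (XT.nd (nat_lit 33852) (nat_lit 0) (nat_lit 76) (XT.nd (nat_lit 312) (nat_lit 0) (nat_lit 0) (XT.nd (nat_lit 156) (nat_lit 0) (nat_lit 0) (XT.nd (nat_lit 78) (nat_lit 0) (nat_lit 0) (XT.lf (nat_lit 0) (nat_lit 302485424327) (nat_lit 76) (nat_lit 52746483833) (nat_lit 76) (nat_lit 48342845555) (nat_lit 1) (nat_lit 4) (nat_lit 2) (nat_lit 5) (nat_lit 2) (nat_lit 4) (nat_lit 355) (nat_lit 205) (nat_lit 160)) (XT.lf (nat_lit 0) (nat_lit 319404953301) (nat_lit 76) (nat_lit 54362713440) (nat_lit 76) (nat_lit 49932813814) (nat_lit 1) (nat_lit 4) (nat_lit 2) (nat_lit 5) (nat_lit 2) (nat_lit 4) (nat_lit 356) (nat_lit 205) (nat_lit 159))) (XT.nd (nat_lit 78) (nat_lit 0) (nat_lit 0) (XT.lf (nat_lit 0) (nat_lit 337155198587) (nat_lit 76) (nat_lit 56066328094) (nat_lit 76) (nat_lit 51611417662) (nat_lit 1) (nat_lit 4)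 (nat_lit 2) (nat_lit 5) (nat_lit 2) (nat_lit 4) (nat_lit 357) (nat_lit 205) (nat_lit 158)) (XT.lf (nat_lit 0) (nat_lit 355778422674) (nat_lit 76) (nat_lit 57861384021) (nat_lit 76) (nat_lit 53382653773) (nat_lit 1) (nat_lit 4) (nat_lit 2) (nat_lit 5) (nat_lit 2) (nat_lit 4) (nat_lit 358) (nat_lit 205) (nat_lit 157)))) (XT.nd (nat_lit 156) (nat_lit 0) (nat_lit 0) (XT.nd (nat_lit 78) (nat_lit 0) (nat_lit 0) (XT.lf (nat_lit 0) (nat_lit 375318966571) (nat_lit 76) (nat_lit 59752155164) (nat_lit 76) (nat_lit 55250739377) (nat_lit 1) (nat_lit 4) (nat_lit 2) (nat_lit 5) (nat_lit 2) (nat_lit 4) (nat_lit 359) (nat_lit 205) (nat_lit 156)) (XT.lf (nat_lit 0) (nat_lit 395823355382) (nat_lit 76) (nat_lit 61743143359) (nat_lit 76) (nat_lit 57220122296) (nat_lit 1) (nat_lit 4) (nat_lit 2) (nat_lit 5) (nat_lit 2) (nat_lit 4) (nat_lit 360) (nat_lit 205) (nat_lit 155))) (XT.nd (nat_lit 78) (nat_lit 0)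 (nat_lit 0) (XT.lf (nat_lit 0) (nat_lit 417340409082) (nat_lit 76) (nat_lit 63839089053) (nat_lit 76) (nat_lit 59295491538) (nat_lit 1) (nat_lit 4) (nat_lit 2) (nat_lit 5) (nat_lit 2) (nat_lit 4) (nat_lit 361) (nat_lit 205) (nat_lit 154)) (XT.lf (nat_lit 0) (nat_lit 439921358751) (nat_lit 76) (nat_lit 66044982594) (nat_lit 76) (nat_lit 61481788458) (nat_lit 1) (nat_lit 4) (nat_lit 2) (nat_lit 5) (nat_lit 2) (nat_lit 4) (nat_lit 362) (nat_lit 205) (nat_lit 153))))) (XT.nd (nat_lit 312) (nat_lit 0) (nat_lit 0) (XT.nd (nat_lit 156) (nat_lit 0) (nat_lit 0) (XT.nd (nat_lit 78) (nat_lit 0) (nat_lit 0) (XT.lf (nat_lit 0) (nat_lit 3813117183) (nat_lit 152) (nat_lit 13598732623) (nat_lit 0) (nat_lit 3813117183) (nat_lit 2) (nat_lit 5) (nat_lit 4) (nat_lit 4) (nat_lit 2) (nat_lit 4) (nat_lit 308) (nat_lit 206) (nat_lit 206)) (XT.lf (nat_lit 0) (nat_lit 10278477099) (nat_lit 152) (nat_lit 24131802578)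 (nat_lit 0) (nat_lit 10030720770) (nat_lit 2) (nat_lit 5) (nat_lit 4) (nat_lit 4) (nat_lit 2) (nat_lit 4) (nat_lit 309) (nat_lit 206) (nat_lit 205))) (XT.nd (nat_lit 78) (nat_lit 0) (nat_lit 0) (XT.lf (nat_lit 0) (nat_lit 12983628372) (nat_lit 152) (nat_lit 21052216971) (nat_lit 0) (nat_lit 12499913635) (nat_lit 2) (nat_lit 5) (nat_lit 4) (nat_lit 4) (nat_lit 2) (nat_lit 4) (nat_lit 310) (nat_lit 206) (nat_lit 204)) (XT.lf (nat_lit 0) (nat_lit 15748129022) (nat_lit 152) (nat_lit 17951376078) (nat_lit 0) (nat_lit 15039691992) (nat_lit 2) (nat_lit 5) (nat_lit 4) (nat_lit 4) (nat_lit 2) (nat_lit 4) (nat_lit 311) (nat_lit 206) (nat_lit 203)))) (XT.nd (nat_lit 156) (nat_lit 0) (nat_lit 0) (XT.nd (nat_lit 78) (nat_lit 0) (nat_lit 0) (XT.lf (nat_lit 0) (nat_lit 18578561194) (nat_lit 152) (nat_lit 14821896945) (nat_lit 0) (nat_lit 17656102933) (nat_lit 2) (nat_lit 5) (nat_lit 4) (nat_lit 4)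 (nat_lit 2) (nat_lit 4) (nat_lit 312) (nat_lit 206) (nat_lit 202)) (XT.lf (nat_lit 0) (nat_lit 21481664012) (nat_lit 152) (nat_lit 11656328431) (nat_lit 0) (nat_lit 20355376006) (nat_lit 2) (nat_lit 5) (nat_lit 4) (nat_lit 4) (nat_lit 2) (nat_lit 4) (nat_lit 313) (nat_lit 206) (nat_lit 201))) (XT.nd (nat_lit 78) (nat_lit 0) (nat_lit 0) (XT.lf (nat_lit 0) (nat_lit 24464349626) (nat_lit 152) (nat_lit 8447133468) (nat_lit 0) (nat_lit 23143938054) (nat_lit 2) (nat_lit 5) (nat_lit 4) (nat_lit 4) (nat_lit 2) (nat_lit 4) (nat_lit 314) (nat_lit 206) (nat_lit 200)) (XT.nd (nat_lit 78) (nat_lit 0) (nat_lit 0) (XT.lf (nat_lit 0) (nat_lit 27533719667) (nat_lit 152) (nat_lit 5186671116) (nat_lit 0) (nat_lit 26028428508) (nat_lit 2) (nat_lit 5) (nat_lit 4) (nat_lit 4) (nat_lit 2) (nat_lit 4) (nat_lit 315) (nat_lit 206) (nat_lit 199)) (XT.lf (nat_lit 0) (nat_lit 30697082160) (nat_lit 152) (nat_lit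 1867178369) (nat_lit 0) (nat_lit 29015715205) (nat_lit 2) (nat_lit 5) (nat_lit 4) (nat_lit 4) (nat_lit 2) (nat_lit 4) (nat_lit 316) (nat_lit 206) (nat_lit 198))))))) (XT.nd (nat_lit 624) (nat_lit 0) (nat_lit 0) (XT.nd (nat_lit 312) (nat_lit 0) (nat_lit 0) (XT.nd (nat_lit 156) (nat_lit 0) (nat_lit 0) (XT.nd (nat_lit 78) (nat_lit 0) (nat_lit 0) (XT.lf (nat_lit 0) (nat_lit 1569481537) (nat_lit 76) (nat_lit 32416991389) (nat_lit 76) (nat_lit 30567933198) (nat_lit 1) (nat_lit 4) (nat_lit 2) (nat_lit 5) (nat_lit 2) (nat_lit 4) (nat_lit 317) (nat_lit 206) (nat_lit 197)) (XT.lf (nat_lit 0) (nat_lit 5145355398) (nat_lit 76) (nat_lit 32271131508) (nat_lit 76) (nat_lit 30262367379) (nat_lit 1) (nat_lit 4) (nat_lit 2) (nat_lit 5) (nat_lit 2) (nat_lit 4) (nat_lit 318) (nat_lit 206) (nat_lit 196))) (XT.nd (nat_lit 78) (nat_lit 0) (nat_lit 0) (XT.lf (nat_lit 0) (nat_lit 8807219849) (nat_lit 76) (nat_lit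 32157955171) (nat_lit 76) (nat_lit 29997090149) (nat_lit 1) (nat_lit 4) (nat_lit 2) (nat_lit 5) (nat_lit 2) (nat_lit 4) (nat_lit 319) (nat_lit 206) (nat_lit 195)) (XT.lf (nat_lit 0) (nat_lit 12563793615) (nat_lit 76) (nat_lit 32077192911) (nat_lit 76) (nat_lit 29771469894) (nat_lit 1) (nat_lit 4) (nat_lit 2) (nat_lit 5) (nat_lit 2) (nat_lit 4) (nat_lit 320) (nat_lit 206) (nat_lit 194)))) (XT.nd (nat_lit 156) (nat_lit 0) (nat_lit 0) (XT.nd (nat_lit 78) (nat_lit 0) (nat_lit 0) (XT.lf (nat_lit 0) (nat_lit 16424020920) (nat_lit 76) (nat_lit 32028652436) (nat_lit 76) (nat_lit 29584969425) (nat_lit 1) (nat_lit 4) (nat_lit 2) (nat_lit 5) (nat_lit 2) (nat_lit 4) (nat_lit 321) (nat_lit 206) (nat_lit 193)) (XT.lf (nat_lit 0) (nat_lit 20397092781) (nat_lit 76) (nat_lit 32012218173) (nat_lit 76) (nat_lit 29437144692) (nat_lit 1) (nat_lit 4) (nat_lit 2) (nat_lit 5) (nat_lit 2) (nat_lit 4) (nat_lit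 322) (nat_lit 206) (nat_lit 192))) (XT.nd (nat_lit 78) (nat_lit 0) (nat_lit 0) (XT.lf (nat_lit 0) (nat_lit 24492468892) (nat_lit 76) (nat_lit 32027850994) (nat_lit 76) (nat_lit 29327643731) (nat_lit 1) (nat_lit 4) (nat_lit 2) (nat_lit 5) (nat_lit 2) (nat_lit 4) (nat_lit 323) (nat_lit 206) (nat_lit 191)) (XT.lf (nat_lit 0) (nat_lit 28719900150) (nat_lit 76) (nat_lit 32075588119) (nat_lit 76) (nat_lit 29256205826) (nat_lit 1) (nat_lit 4) (nat_lit 2) (nat_lit 5) (nat_lit 2) (nat_lit 4) (nat_lit 324) (nat_lit 206) (nat_lit 190))))) (XT.nd (nat_lit 312) (nat_lit 0) (nat_lit 0) (XT.nd (nat_lit 156) (nat_lit 0) (nat_lit 0) (XT.nd (nat_lit 78) (nat_lit 0) (nat_lit 0) (XT.lf (nat_lit 0) (nat_lit 33089451866) (nat_lit 76) (nat_lit 32155543209) (nat_lit 76) (nat_lit 29222660887) (nat_lit 1) (nat_lit 4) (nat_lit 2) (nat_lit 5) (nat_lit 2) (nat_lit 4) (nat_lit 325) (nat_lit 206) (nat_lit 189))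 (XT.lf (nat_lit 0) (nat_lit 37611527736) (nat_lit 76) (nat_lit 32267906632) (nat_lit 76) (nat_lit 29226929045) (nat_lit 1) (nat_lit 4) (nat_lit 2) (nat_lit 5) (nat_lit 2) (nat_lit 4) (nat_lit 326) (nat_lit 206) (nat_lit 188))) (XT.nd (nat_lit 78) (nat_lit 0) (nat_lit 0) (XT.lf (nat_lit 0) (nat_lit 42296894606) (nat_lit 76) (nat_lit 32412945921) (nat_lit 76) (nat_lit 29269020462) (nat_lit 1) (nat_lit 4) (nat_lit 2) (nat_lit 5) (nat_lit 2) (nat_lit 4) (nat_lit 327) (nat_lit 206) (nat_lit 187)) (XT.lf (nat_lit 0) (nat_lit 47156708113) (nat_lit 76) (nat_lit 32591006407) (nat_lit 76) (nat_lit 29349035356) (nat_lit 1) (nat_lit 4) (nat_lit 2) (nat_lit 5) (nat_lit 2) (nat_lit 4) (nat_lit 328) (nat_lit 206) (nat_lit 186)))) (XT.nd (nat_lit 156) (nat_lit 0) (nat_lit 0) (XT.nd (nat_lit 78) (nat_lit 0) (nat_lit 0) (XT.lf (nat_lit 0) (nat_lit 52202539240) (nat_lit 76) (nat_lit 32802512044) (nat_lit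 76) (nat_lit 29467164238) (nat_lit 1) (nat_lit 4) (nat_lit 2) (nat_lit 5) (nat_lit 2) (nat_lit 4) (nat_lit 329) (nat_lit 206) (nat_lit 185)) (XT.lf (nat_lit 0) (nat_lit 57446401871) (nat_lit 76) (nat_lit 33047966416) (nat_lit 76) (nat_lit 29623688368) (nat_lit 1) (nat_lit 4) (nat_lit 2) (nat_lit 5) (nat_lit 2) (nat_lit 4) (nat_lit 330) (nat_lit 206) (nat_lit 184))) (XT.nd (nat_lit 78) (nat_lit 0) (nat_lit 0) (XT.lf (nat_lit 0) (nat_lit 62900781393) (nat_lit 76) (nat_lit 33327953939) (nat_lit 76) (nat_lit 29818980422) (nat_lit 1) (nat_lit 4) (nat_lit 2) (nat_lit 5) (nat_lit 2) (nat_lit 4) (nat_lit 331) (nat_lit 206) (nat_lit 183)) (XT.nd (nat_lit 78) (nat_lit 0) (nat_lit 0) (XT.lf (nat_lit 0) (nat_lit 68578664425) (nat_lit 76) (nat_lit 33643141250) (nat_lit 76) (nat_lit 30053505382) (nat_lit 1) (nat_lit 4) (nat_lit 2) (nat_lit 5) (nat_lit 2) (nat_lit 4) (nat_lit 332) (nat_lit 206) (nat_lit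 182)) (XT.lf (nat_lit 0) (nat_lit 74493569736) (nat_lit 76) (nat_lit 33994278794) (nat_lit 76) (nat_lit 30327821639) (nat_lit 1) (nat_lit 4) (nat_lit 2) (nat_lit 5) (nat_lit 2) (nat_lit 4) (nat_lit 333) (nat_lit 206) (nat_lit 181))))))))
noncomputable def xc23 : XT := (XT.nd (nat_lit 1326) (nat_lit 0) (nat_lit 0) (XT.nd (nat_lit 624) (nat_lit 0) (nat_lit 0) (XT.nd (nat_lit 312) (nat_lit 0) (nat_lit 0) (XT.nd (nat_lit 156) (nat_lit 0) (nat_lit 0) (XT.nd (nat_lit 78) (nat_lit 0) (nat_lit 0) (XT.lf (nat_lit 0) (nat_lit 80659580432) (nat_lit 76) (nat_lit 34382202614) (nat_lit 76) (nat_lit 30642582329) (nat_lit 1) (nat_lit 4) (nat_lit 2) (nat_lit 5) (nat_lit 2) (nat_lit 4) (nat_lit 334) (nat_lit 206) (nat_lit 180)) (XT.lf (nat_lit 0) (nat_lit 87091377493) (nat_lit 76) (nat_lit 34807836338) (nat_lit 76) (nat_lit 30998536880) (nat_lit 1) (nat_lit 4) (nat_lit 2) (nat_lit 5) (nat_lit 2) (nat_lit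 4) (nat_lit 335) (nat_lit 206) (nat_lit 179))) (XT.nd (nat_lit 78) (nat_lit 0) (nat_lit 0) (XT.lf (nat_lit 0) (nat_lit 93804274721) (nat_lit 76) (nat_lit 35272193378) (nat_lit 76) (nat_lit 31396532805) (nat_lit 1) (nat_lit 4) (nat_lit 2) (nat_lit 5) (nat_lit 2) (nat_lit 4) (nat_lit 336) (nat_lit 206) (nat_lit 178)) (XT.lf (nat_lit 0) (nat_lit 100814255204) (nat_lit 76) (nat_lit 35776379348) (nat_lit 76) (nat_lit 31837517712) (nat_lit 1) (nat_lit 4) (nat_lit 2) (nat_lit 5) (nat_lit 2) (nat_lit 4) (nat_lit 337) (nat_lit 206) (nat_lit 177)))) (XT.nd (nat_lit 156) (nat_lit 0) (nat_lit 0) (XT.nd (nat_lit 78) (nat_lit 0) (nat_lit 0) (XT.lf (nat_lit 0) (nat_lit 108138009372) (nat_lit 76) (nat_lit 36321594690) (nat_lit 76) (nat_lit 32322541565) (nat_lit 1) (nat_lit 4) (nat_lit 2) (nat_lit 5) (nat_lit 2) (nat_lit 4) (nat_lit 338) (nat_lit 206) (nat_lit 176)) (XT.lf (nat_lit 0) (nat_lit 115792974735)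 (nat_lit 76) (nat_lit 36909137536) (nat_lit 76) (nat_lit 32852759184) (nat_lit 1) (nat_lit 4) (nat_lit 2) (nat_lit 5) (nat_lit 2) (nat_lit 4) (nat_lit 339) (nat_lit 206) (nat_lit 175))) (XT.nd (nat_lit 78) (nat_lit 0) (nat_lit 0) (XT.lf (nat_lit 0) (nat_lit 123797377401) (nat_lit 76) (nat_lit 37540406797) (nat_lit 76) (nat_lit 33429432990) (nat_lit 1) (nat_lit 4) (nat_lit 2) (nat_lit 5) (nat_lit 2) (nat_lit 4) (nat_lit 340) (nat_lit 206) (nat_lit 174)) (XT.lf (nat_lit 0) (nat_lit 132170275471) (nat_lit 76) (nat_lit 38216905495) (nat_lit 76) (nat_lit 34053936018) (nat_lit 1) (nat_lit 4) (nat_lit 2) (nat_lit 5) (nat_lit 2) (nat_lit 4) (nat_lit 341) (nat_lit 206) (nat_lit 173))))) (XT.nd (nat_lit 312) (nat_lit 0) (nat_lit 0) (XT.nd (nat_lit 156) (nat_lit 0) (nat_lit 0) (XT.nd (nat_lit 78) (nat_lit 0) (nat_lit 0) (XT.lf (nat_lit 0) (nat_lit 140931604418) (nat_lit 76) (nat_lit 38940244342)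 (nat_lit 76) (nat_lit 34727755178) (nat_lit 1) (nat_lit 4) (nat_lit 2) (nat_lit 5) (nat_lit 2) (nat_lit 4) (nat_lit 342) (nat_lit 206) (nat_lit 172)) (XT.lf (nat_lit 0) (nat_lit 150102224548) (nat_lit 76) (nat_lit 39712145573) (nat_lit 76) (nat_lit 35452494803) (nat_lit 1) (nat_lit 4) (nat_lit 2) (nat_lit 5) (nat_lit 2) (nat_lit 4) (nat_lit 343) (nat_lit 206) (nat_lit 171))) (XT.nd (nat_lit 78) (nat_lit 0) (nat_lit 0) (XT.lf (nat_lit 0) (nat_lit 159703970671) (nat_lit 76) (nat_lit 40534447047) (nat_lit 76) (nat_lit 36229880462) (nat_lit 1) (nat_lit 4) (nat_lit 2) (nat_lit 5) (nat_lit 2) (nat_lit 4) (nat_lit 344) (nat_lit 206) (nat_lit 170)) (XT.lf (nat_lit 0) (nat_lit 169759704087) (nat_lit 76) (nat_lit 41409106627) (nat_lit 76) (nat_lit 37061763074) (nat_lit 1) (nat_lit 4) (nat_lit 2) (nat_lit 5) (nat_lit 2) (nat_lit 4) (nat_lit 345) (nat_lit 206) (nat_lit 169)))) (XT.nd (nat_lit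 156) (nat_lit 0) (nat_lit 0) (XT.nd (nat_lit 78) (nat_lit 0) (nat_lit 0) (XT.lf (nat_lit 0) (nat_lit 180293367019) (nat_lit 76) (nat_lit 42338206834) (nat_lit 76) (nat_lit 37950123312) (nat_lit 1) (nat_lit 4) (nat_lit 2) (nat_lit 5) (nat_lit 2) (nat_lit 4) (nat_lit 346) (nat_lit 206) (nat_lit 168)) (XT.lf (nat_lit 0) (nat_lit 191330039617) (nat_lit 76) (nat_lit 43323959811) (nat_lit 76) (nat_lit 38897076320) (nat_lit 1) (nat_lit 4) (nat_lit 2) (nat_lit 5) (nat_lit 2) (nat_lit 4) (nat_lit 347) (nat_lit 206) (nat_lit 167))) (XT.nd (nat_lit 78) (nat_lit 0) (nat_lit 0) (XT.lf (nat_lit 0) (nat_lit 202895999672) (nat_lit 76) (nat_lit 44368712590) (nat_lit 76) (nat_lit 39904876746) (nat_lit 1) (nat_lit 4) (nat_lit 2) (nat_lit 5) (nat_lit 2) (nat_lit 4) (nat_lit 348) (nat_lit 206) (nat_lit 166)) (XT.nd (nat_lit 78) (nat_lit 0) (nat_lit 0) (XT.lf (nat_lit 0) (nat_lit 215018785185) (nat_lit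 76) (nat_lit 45474952678) (nat_lit 76) (nat_lit 40975924117) (nat_lit 1) (nat_lit 4) (nat_lit 2) (nat_lit 5) (nat_lit 2) (nat_lit 4) (nat_lit 349) (nat_lit 206) (nat_lit 165)) (XT.lf (nat_lit 0) (nat_lit 227727259930) (nat_lit 76) (nat_lit 46645313979) (nat_lit 76) (nat_lit 42112768545) (nat_lit 1) (nat_lit 4) (nat_lit 2) (nat_lit 5) (nat_lit 2) (nat_lit 4) (nat_lit 350) (nat_lit 206) (nat_lit 164))))))) (XT.nd (nat_lit 624) (nat_lit 0) (nat_lit 0) (XT.nd (nat_lit 312) (nat_lit 0) (nat_lit 0) (XT.nd (nat_lit 156) (nat_lit 0) (nat_lit 0) (XT.nd (nat_lit 78) (nat_lit 0) (nat_lit 0) (XT.lf (nat_lit 0) (nat_lit 241051682182) (nat_lit 76) (nat_lit 47882583067) (nat_lit 76) (nat_lit 43318116802) (nat_lit 1) (nat_lit 4) (nat_lit 2) (nat_lit 5) (nat_lit 2) (nat_lit 4) (nat_lit 351) (nat_lit 206) (nat_lit 163)) (XT.lf (nat_lit 0) (nat_lit 255023776754) (nat_lit 76) (nat_lit 49189705823) (nat_lit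 76) (nat_lit 44594838766) (nat_lit 1) (nat_lit 4) (nat_lit 2) (nat_lit 5) (nat_lit 2) (nat_lit 4) (nat_lit 352) (nat_lit 206) (nat_lit 162))) (XT.nd (nat_lit 78) (nat_lit 0) (nat_lit 0) (XT.lf (nat_lit 0) (nat_lit 269676810538) (nat_lit 76) (nat_lit 50569794441) (nat_lit 76) (nat_lit 45945974249) (nat_lit 1) (nat_lit 4) (nat_lit 2) (nat_lit 5) (nat_lit 2) (nat_lit 4) (nat_lit 353) (nat_lit 206) (nat_lit 161)) (XT.lf (nat_lit 0) (nat_lit 285045671711) (nat_lit 76) (nat_lit 52026134849) (nat_lit 76) (nat_lit 47374740242) (nat_lit 1) (nat_lit 4) (nat_lit 2) (nat_lit 5) (nat_lit 2) (nat_lit 4) (nat_lit 354) (nat_lit 206) (nat_lit 160)))) (XT.nd (nat_lit 156) (nat_lit 0) (nat_lit 0) (XT.nd (nat_lit 78) (nat_lit 0) (nat_lit 0) (XT.lf (nat_lit 0) (nat_lit 301166952799) (nat_lit 76) (nat_lit 53562194523) (nat_lit 76) (nat_lit 48884538569) (nat_lit 1) (nat_lit 4) (nat_lit 2) (nat_lit 5) (nat_lit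 2) (nat_lit 4) (nat_lit 355) (nat_lit 206) (nat_lit 159)) (XT.lf (nat_lit 0) (nat_lit 318079037804) (nat_lit 76) (nat_lit 55181630748) (nat_lit 76) (nat_lit 50478963987) (nat_lit 1) (nat_lit 4) (nat_lit 2) (nat_lit 5) (nat_lit 2) (nat_lit 4) (nat_lit 356) (nat_lit 206) (nat_lit 158))) (XT.nd (nat_lit 78) (nat_lit 0) (nat_lit 0) (XT.lf (nat_lit 0) (nat_lit 335822193595) (nat_lit 76) (nat_lit 56888299324) (nat_lit 76) (nat_lit 52161812748) (nat_lit 1) (nat_lit 4) (nat_lit 2) (nat_lit 5) (nat_lit 2) (nat_lit 4) (nat_lit 357) (nat_lit 206) (nat_lit 157)) (XT.lf (nat_lit 0) (nat_lit 354438665782) (nat_lit 76) (nat_lit 58686263748) (nat_lit 76) (nat_lit 53937091633) (nat_lit 1) (nat_lit 4) (nat_lit 2) (nat_lit 5) (nat_lit 2) (nat_lit 4) (nat_lit 358) (nat_lit 206) (nat_lit 156))))) (XT.nd (nat_lit 33384) (nat_lit 0) (nat_lit 76) (XT.nd (nat_lit 156) (nat_lit 0) (nat_lit 0) (XT.nd (nat_lit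 78) (nat_lit 0) (nat_lit 0) (XT.lf (nat_lit 0) (nat_lit 373972779299) (nat_lit 76) (nat_lit 60579804888) (nat_lit 76) (nat_lit 55809027498) (nat_lit 1) (nat_lit 4) (nat_lit 2) (nat_lit 5) (nat_lit 2) (nat_lit 4) (nat_lit 359) (nat_lit 206) (nat_lit 155)) (XT.lf (nat_lit 0) (nat_lit 394471043939) (nat_lit 76) (nat_lit 62573431176) (nat_lit 76) (nat_lit 57782077333) (nat_lit 1) (nat_lit 4) (nat_lit 2) (nat_lit 5) (nat_lit 2) (nat_lit 4) (nat_lit 360) (nat_lit 206) (nat_lit 154))) (XT.nd (nat_lit 78) (nat_lit 0) (nat_lit 0) (XT.lf (nat_lit 0) (nat_lit 415982265094) (nat_lit 76) (nat_lit 64671889339) (nat_lit 76) (nat_lit 59860938875) (nat_lit 1) (nat_lit 4) (nat_lit 2) (nat_lit 5) (nat_lit 2) (nat_lit 4) (nat_lit 361) (nat_lit 206) (nat_lit 153)) (XT.lf (nat_lit 0) (nat_lit 438557659958) (nat_lit 76) (nat_lit 66880175708) (nat_lit 76) (nat_lit 62050561795) (nat_lit 1) (nat_lit 4) (nat_lit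 2) (nat_lit 5) (nat_lit 2) (nat_lit 4) (nat_lit 362) (nat_lit 206) (nat_lit 152)))) (XT.nd (nat_lit 156) (nat_lit 0) (nat_lit 0) (XT.nd (nat_lit 78) (nat_lit 0) (nat_lit 0) (XT.lf (nat_lit 0) (nat_lit 1379167568) (nat_lit 152) (nat_lit 16620627095) (nat_lit 0) (nat_lit 1379167568) (nat_lit 2) (nat_lit 5) (nat_lit 4) (nat_lit 4) (nat_lit 2) (nat_lit 4) (nat_lit 306) (nat_lit 207) (nat_lit 207)) (XT.lf (nat_lit 0) (nat_lit 5280729457) (nat_lit 152) (nat_lit 30256504172) (nat_lit 0) (nat_lit 5020585312) (nat_lit 2) (nat_lit 5) (nat_lit 4) (nat_lit 4) (nat_lit 2) (nat_lit 4) (nat_lit 307) (nat_lit 207) (nat_lit 206))) (XT.nd (nat_lit 78) (nat_lit 0) (nat_lit 0) (XT.lf (nat_lit 0) (nat_lit 7845554719) (nat_lit 152) (nat_lit 27268844858) (nat_lit 0) (nat_lit 7337654246) (nat_lit 2) (nat_lit 5) (nat_lit 4) (nat_lit 4) (nat_lit 2) (nat_lit 4) (nat_lit 308) (nat_lit 207) (nat_lit 205)) (XT.nd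 (nat_lit 78) (nat_lit 0) (nat_lit 0) (XT.lf (nat_lit 0) (nat_lit 10458917648) (nat_lit 152) (nat_lit 24271162772) (nat_lit 0) (nat_lit 9715058767) (nat_lit 2) (nat_lit 5) (nat_lit 4) (nat_lit 4) (nat_lit 2) (nat_lit 4) (nat_lit 309) (nat_lit 207) (nat_lit 204)) (XT.lf (nat_lit 0) (nat_lit 13127040537) (nat_lit 152) (nat_lit 21256320577) (nat_lit 0) (nat_lit 12158459363) (nat_lit 2) (nat_lit 5) (nat_lit 4) (nat_lit 4) (nat_lit 2) (nat_lit 4) (nat_lit 310) (nat_lit 207) (nat_lit 203))))))))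
noncomputable def xc24 : XT := (XT.nd (nat_lit 1248) (nat_lit 0) (nat_lit 0) (XT.nd (nat_lit 624) (nat_lit 0) (nat_lit 0) (XT.nd (nat_lit 312) (nat_lit 76) (nat_lit 0) (XT.nd (nat_lit 156) (nat_lit 0) (nat_lit 0) (XT.nd (nat_lit 78) (nat_lit 0) (nat_lit 0) (XT.lf (nat_lit 0) (nat_lit 15856276060) (nat_lit 152) (nat_lit 18217140077) (nat_lit 0) (nat_lit 14673673654) (nat_lit 2) (nat_lit 5) (nat_lit 4) (nat_lit 4) (nat_lit 2) (nat_lit 4) (nat_lit 311) (nat_lit 207) (nat_lit 202)) (XT.lf (nat_lit 0) (nat_lit 18653122397) (nat_lit 152) (nat_lit 15146385127) (nat_lit 0) (nat_lit 17266690247) (nat_lit 2) (nat_lit 5) (nat_lit 4) (nat_lit 4) (nat_lit 2) (nat_lit 4) (nat_lit 312) (nat_lit 207) (nat_lit 201))) (XT.nd (nat_lit 78) (nat_lit 0) (nat_lit 0) (XT.lf (nat_lit 0) (nat_lit 21524238705) (nat_lit 152) (nat_lit 12036744407) (nat_lit 0) (nat_lit 19943682988) (nat_lit 2) (nat_lit 5) (nat_lit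 4) (nat_lit 4) (nat_lit 2) (nat_lit 4) (nat_lit 313) (nat_lit 207) (nat_lit 200)) (XT.lf (nat_lit 0) (nat_lit 24476460976) (nat_lit 152) (nat_lit 8880814009) (nat_lit 0) (nat_lit 22711025672) (nat_lit 2) (nat_lit 5) (nat_lit 4) (nat_lit 4) (nat_lit 2) (nat_lit 4) (nat_lit 314) (nat_lit 207) (nat_lit 199)))) (XT.nd (nat_lit 156) (nat_lit 76) (nat_lit 0) (XT.nd (nat_lit 78) (nat_lit 0) (nat_lit 0) (XT.lf (nat_lit 0) (nat_lit 27516818310) (nat_lit 152) (nat_lit 5671079814) (nat_lit 0) (nat_lit 25575307210) (nat_lit 2) (nat_lit 5) (nat_lit 4) (nat_lit 4) (nat_lit 2) (nat_lit 4) (nat_lit 315) (nat_lit 207) (nat_lit 198)) (XT.lf (nat_lit 0) (nat_lit 30652549653) (nat_lit 152) (nat_lit 2399899598) (nat_lit 0) (nat_lit 28543347318) (nat_lit 2) (nat_lit 5) (nat_lit 4) (nat_lit 4) (nat_lit 2) (nat_lit 4) (nat_lit 316) (nat_lit 207) (nat_lit 197))) (XT.nd (nat_lit 78) (nat_lit 0) (nat_lit 0)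 (XT.lf (nat_lit 0) (nat_lit 971612841) (nat_lit 76) (nat_lit 32934677791) (nat_lit 76) (nat_lit 30665769517) (nat_lit 1) (nat_lit 4) (nat_lit 2) (nat_lit 5) (nat_lit 2) (nat_lit 4) (nat_lit 317) (nat_lit 207) (nat_lit 196)) (XT.lf (nat_lit 0) (nat_lit 4502216896) (nat_lit 76) (nat_lit 32808318660) (nat_lit 76) (nat_lit 30387309493) (nat_lit 1) (nat_lit 4) (nat_lit 2) (nat_lit 5) (nat_lit 2) (nat_lit 4) (nat_lit 318) (nat_lit 207) (nat_lit 195))))) (XT.nd (nat_lit 312) (nat_lit 0) (nat_lit 0) (XT.nd (nat_lit 156) (nat_lit 0) (nat_lit 0) (XT.nd (nat_lit 78) (nat_lit 0) (nat_lit 0) (XT.lf (nat_lit 0) (nat_lit 8120967246) (nat_lit 76) (nat_lit 32713714466) (nat_lit 76) (nat_lit 30147847305) (nat_lit 1) (nat_lit 4) (nat_lit 2) (nat_lit 5) (nat_lit 2) (nat_lit 4) (nat_lit 319) (nat_lit 207) (nat_lit 194)) (XT.lf (nat_lit 0) (nat_lit 11836479964) (nat_lit 76) (nat_lit 32650639961) (nat_lit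 76) (nat_lit 29946812806) (nat_lit 1) (nat_lit 4) (nat_lit 2) (nat_lit 5) (nat_lit 2) (nat_lit 4) (nat_lit 320) (nat_lit 207) (nat_lit 193))) (XT.nd (nat_lit 78) (nat_lit 0) (nat_lit 0) (XT.lf (nat_lit 0) (nat_lit 15657601508) (nat_lit 76) (nat_lit 32618944967) (nat_lit 76) (nat_lit 29783727341) (nat_lit 1) (nat_lit 4) (nat_lit 2) (nat_lit 5) (nat_lit 2) (nat_lit 4) (nat_lit 321) (nat_lit 207) (nat_lit 192)) (XT.lf (nat_lit 0) (nat_lit 19593429787) (nat_lit 76) (nat_lit 32618554020) (nat_lit 76) (nat_lit 29658202612) (nat_lit 1) (nat_lit 4) (nat_lit 2) (nat_lit 5) (nat_lit 2) (nat_lit 4) (nat_lit 322) (nat_lit 207) (nat_lit 191)))) (XT.nd (nat_lit 156) (nat_lit 0) (nat_lit 0) (XT.nd (nat_lit 78) (nat_lit 0) (nat_lit 0) (XT.lf (nat_lit 0) (nat_lit 23653335821) (nat_lit 76) (nat_lit 32649466189) (nat_lit 76) (nat_lit 29569939751) (nat_lit 1) (nat_lit 4) (nat_lit 2) (nat_lit 5) (nat_lit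 2) (nat_lit 4) (nat_lit 323) (nat_lit 207) (nat_lit 190)) (XT.lf (nat_lit 0) (nat_lit 27846986052) (nat_lit 76) (nat_lit 32711755074) (nat_lit 76) (nat_lit 29518728608) (nat_lit 1) (nat_lit 4) (nat_lit 2) (nat_lit 5) (nat_lit 2) (nat_lit 4) (nat_lit 324) (nat_lit 207) (nat_lit 189))) (XT.nd (nat_lit 78) (nat_lit 0) (nat_lit 0) (XT.lf (nat_lit 0) (nat_lit 32184365362) (nat_lit 76) (nat_lit 32805568983) (nat_lit 76) (nat_lit 29504447251) (nat_lit 1) (nat_lit 4) (nat_lit 2) (nat_lit 5) (nat_lit 2) (nat_lit 4) (nat_lit 325) (nat_lit 207) (nat_lit 188)) (XT.lf (nat_lit 0) (nat_lit 36675800845) (nat_lit 76) (nat_lit 32931131282) (nat_lit 76) (nat_lit 29527061678) (nat_lit 1) (nat_lit 4) (nat_lit 2) (nat_lit 5) (nat_lit 2) (nat_lit 4) (nat_lit 326) (nat_lit 207) (nat_lit 187)))))) (XT.nd (nat_lit 624) (nat_lit 0) (nat_lit 0) (XT.nd (nat_lit 312) (nat_lit 0) (nat_lit 0) (XT.nd (nat_lit 156)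 (nat_lit 0) (nat_lit 0) (XT.nd (nat_lit 78) (nat_lit 0) (nat_lit 0) (XT.lf (nat_lit 0) (nat_lit 41331986395) (nat_lit 76) (nat_lit 33088740928) (nat_lit 76) (nat_lit 29586625732) (nat_lit 1) (nat_lit 4) (nat_lit 2) (nat_lit 5) (nat_lit 2) (nat_lit 4) (nat_lit 327) (nat_lit 207) (nat_lit 186)) (XT.lf (nat_lit 0) (nat_lit 46164008167) (nat_lit 76) (nat_lit 33278773183) (nat_lit 76) (nat_lit 29683281233) (nat_lit 1) (nat_lit 4) (nat_lit 2) (nat_lit 5) (nat_lit 2) (nat_lit 4) (nat_lit 328) (nat_lit 207) (nat_lit 185))) (XT.nd (nat_lit 78) (nat_lit 0) (nat_lit 0) (XT.lf (nat_lit 0) (nat_lit 51183370976) (nat_lit 76) (nat_lit 33501680504) (nat_lit 76) (nat_lit 29817258312) (nat_lit 1) (nat_lit 4) (nat_lit 2) (nat_lit 5) (nat_lit 2) (nat_lit 4) (nat_lit 329) (nat_lit 207) (nat_lit 184)) (XT.lf (nat_lit 0) (nat_lit 56402025685) (nat_lit 76) (nat_lit 33757993624) (nat_lit 76) (nat_lit 29988875962)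 (nat_lit 1) (nat_lit 4) (nat_lit 2) (nat_lit 5) (nat_lit 2) (nat_lit 4) (nat_lit 330) (nat_lit 207) (nat_lit 183)))) (XT.nd (nat_lit 156) (nat_lit 0) (nat_lit 0) (XT.nd (nat_lit 78) (nat_lit 0) (nat_lit 0) (XT.lf (nat_lit 0) (nat_lit 61832397663) (nat_lit 76) (nat_lit 34048322811) (nat_lit 76) (nat_lit 30198542798) (nat_lit 1) (nat_lit 4) (nat_lit 2) (nat_lit 5) (nat_lit 2) (nat_lit 4) (nat_lit 331) (nat_lit 207) (nat_lit 182)) (XT.lf (nat_lit 0) (nat_lit 67487416366) (nat_lit 76) (nat_lit 34373359326) (nat_lit 76) (nat_lit 30446758026) (nat_lit 1) (nat_lit 4) (nat_lit 2) (nat_lit 5) (nat_lit 2) (nat_lit 4) (nat_lit 332) (nat_lit 207) (nat_lit 181))) (XT.nd (nat_lit 78) (nat_lit 0) (nat_lit 0) (XT.lf (nat_lit 0) (nat_lit 73380546126) (nat_lit 76) (nat_lit 34733877065) (nat_lit 76) (nat_lit 30734112634) (nat_lit 1) (nat_lit 4) (nat_lit 2) (nat_lit 5) (nat_lit 2) (nat_lit 4) (nat_lit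 333) (nat_lit 207) (nat_lit 180)) (XT.lf (nat_lit 0) (nat_lit 79525818203) (nat_lit 76) (nat_lit 35130734403) (nat_lit 76) (nat_lit 31061290801) (nat_lit 1) (nat_lit 4) (nat_lit 2) (nat_lit 5) (nat_lit 2) (nat_lit 4) (nat_lit 334) (nat_lit 207) (nat_lit 179))))) (XT.nd (nat_lit 312) (nat_lit 0) (nat_lit 0) (XT.nd (nat_lit 156) (nat_lit 0) (nat_lit 0) (XT.nd (nat_lit 78) (nat_lit 0) (nat_lit 0) (XT.lf (nat_lit 0) (nat_lit 85937864197) (nat_lit 76) (nat_lit 35564876239) (nat_lit 76) (nat_lit 31429071521) (nat_lit 1) (nat_lit 4) (nat_lit 2) (nat_lit 5) (nat_lit 2) (nat_lit 4) (nat_lit 335) (nat_lit 207) (nat_lit 178)) (XT.lf (nat_lit 0) (nat_lit 92631950885) (nat_lit 76) (nat_lit 36037336244) (nat_lit 76) (nat_lit 31838330463) (nat_lit 1) (nat_lit 4) (nat_lit 2) (nat_lit 5) (nat_lit 2) (nat_lit 4) (nat_lit 336) (nat_lit 207) (nat_lit 177))) (XT.nd (nat_lit 78) (nat_lit 0) (nat_lit 0)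 (XT.lf (nat_lit 0) (nat_lit 99624016568) (nat_lit 76) (nat_lit 36549239323) (nat_lit 76) (nat_lit 32290042053) (nat_lit 1) (nat_lit 4) (nat_lit 2) (nat_lit 5) (nat_lit 2) (nat_lit 4) (nat_lit 337) (nat_lit 207) (nat_lit 176)) (XT.lf (nat_lit 0) (nat_lit 106930709023) (nat_lit 76) (nat_lit 37101804292) (nat_lit 76) (nat_lit 32785281796) (nat_lit 1) (nat_lit 4) (nat_lit 2) (nat_lit 5) (nat_lit 2) (nat_lit 4) (nat_lit 338) (nat_lit 207) (nat_lit 175)))) (XT.nd (nat_lit 156) (nat_lit 0) (nat_lit 0) (XT.nd (nat_lit 78) (nat_lit 0) (nat_lit 0) (XT.lf (nat_lit 0) (nat_lit 114569425134) (nat_lit 76) (nat_lit 37696346784) (nat_lit 76) (nat_lit 33325228832) (nat_lit 1) (nat_lit 4) (nat_lit 2) (nat_lit 5) (nat_lit 2) (nat_lit 4) (nat_lit 339) (nat_lit 207) (nat_lit 174)) (XT.lf (nat_lit 0) (nat_lit 122558352323) (nat_lit 76) (nat_lit 38334282373) (nat_lit 76) (nat_lit 33911168751) (nat_lit 1)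 (nat_lit 4) (nat_lit 2) (nat_lit 5) (nat_lit 2) (nat_lit 4) (nat_lit 340) (nat_lit 207) (nat_lit 173))) (XT.nd (nat_lit 78) (nat_lit 0) (nat_lit 0) (XT.lf (nat_lit 0) (nat_lit 130916511843) (nat_lit 76) (nat_lit 39017129956) (nat_lit 76) (nat_lit 34544496648) (nat_lit 1) (nat_lit 4) (nat_lit 2) (nat_lit 5) (nat_lit 2) (nat_lit 4) (nat_lit 341) (nat_lit 207) (nat_lit 172)) (XT.nd (nat_lit 78) (nat_lit 0) (nat_lit 0) (XT.lf (nat_lit 0) (nat_lit 139663804076) (nat_lit 76) (nat_lit 39746515360) (nat_lit 76) (nat_lit 35226720445) (nat_lit 1) (nat_lit 4) (nat_lit 2) (nat_lit 5) (nat_lit 2) (nat_lit 4) (nat_lit 342) (nat_lit 207) (nat_lit 171)) (XT.lf (nat_lit 0) (nat_lit 148821055907) (nat_lit 76) (nat_lit 40524175217) (nat_lit 76) (nat_lit 35959464486) (nat_lit 1) (nat_lit 4) (nat_lit 2) (nat_lit 5) (nat_lit 2) (nat_lit 4) (nat_lit 343) (nat_lit 207) (nat_lit 170))))))))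
noncomputable def xc25 : XT := (XT.nd (nat_lit 1326) (nat_lit 0) (nat_lit 0) (XT.nd (nat_lit 624) (nat_lit 0) (nat_lit 0) (XT.nd (nat_lit 312) (nat_lit 0) (nat_lit 0) (XT.nd (nat_lit 156) (nat_lit 0) (nat_lit 0) (XT.nd (nat_lit 78) (nat_lit 0) (nat_lit 0) (XT.lf (nat_lit 0) (nat_lit 158410070316) (nat_lit 76) (nat_lit 41351961097) (nat_lit 76) (nat_lit 36744473399) (nat_lit 1) (nat_lit 4) (nat_lit 2) (nat_lit 5) (nat_lit 2) (nat_lit 4) (nat_lit 344) (nat_lit 207) (nat_lit 169)) (XT.lf (nat_lit 0) (nat_lit 168453678291) (nat_lit 76) (nat_lit 42231843919) (nat_lit 76) (nat_lit 37583616253) (nat_lit 1) (nat_lit 4) (nat_lit 2) (nat_lit 5) (nat_lit 2) (nat_lit 4) (nat_lit 345) (nat_lit 207) (nat_lit 168))) (XT.nd (nat_lit 78) (nat_lit 0) (nat_lit 0) (XT.lf (nat_lit 0) (nat_lit 178975793184) (nat_lit 76) (nat_lit 43165918643) (nat_lit 76) (nat_lit 38478891007) (nat_lit 1) (nat_lit 4) (nat_lit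 2) (nat_lit 5) (nat_lit 2) (nat_lit 4) (nat_lit 346) (nat_lit 207) (nat_lit 167)) (XT.lf (nat_lit 0) (nat_lit 190001467648) (nat_lit 76) (nat_lit 44156409256) (nat_lit 76) (nat_lit 39432429268) (nat_lit 1) (nat_lit 4) (nat_lit 2) (nat_lit 5) (nat_lit 2) (nat_lit 4) (nat_lit 347) (nat_lit 207) (nat_lit 166)))) (XT.nd (nat_lit 156) (nat_lit 0) (nat_lit 0) (XT.nd (nat_lit 78) (nat_lit 0) (nat_lit 0) (XT.lf (nat_lit 0) (nat_lit 201556953291) (nat_lit 76) (nat_lit 45205674069) (nat_lit 76) (nat_lit 40446501364) (nat_lit 1) (nat_lit 4) (nat_lit 2) (nat_lit 5) (nat_lit 2) (nat_lit 4) (nat_lit 348) (nat_lit 207) (nat_lit 165)) (XT.lf (nat_lit 0) (nat_lit 213669763173) (nat_lit 76) (nat_lit 46316211332) (nat_lit 76) (nat_lit 41523521753) (nat_lit 1) (nat_lit 4) (nat_lit 2) (nat_lit 5) (nat_lit 2) (nat_lit 4) (nat_lit 349) (nat_lit 207) (nat_lit 164))) (XT.nd (nat_lit 78) (nat_lit 0) (nat_lit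 0) (XT.lf (nat_lit 0) (nat_lit 226368737318) (nat_lit 76) (nat_lit 47490665180) (nat_lit 76) (nat_lit 42666054771) (nat_lit 1) (nat_lit 4) (nat_lit 2) (nat_lit 5) (nat_lit 2) (nat_lit 4) (nat_lit 350) (nat_lit 207) (nat_lit 163)) (XT.lf (nat_lit 0) (nat_lit 239684111378) (nat_lit 76) (nat_lit 48731831934) (nat_lit 76) (nat_lit 43876820732) (nat_lit 1) (nat_lit 4) (nat_lit 2) (nat_lit 5) (nat_lit 2) (nat_lit 4) (nat_lit 351) (nat_lit 207) (nat_lit 162))))) (XT.nd (nat_lit 312) (nat_lit 0) (nat_lit 0) (XT.nd (nat_lit 156) (nat_lit 0) (nat_lit 0) (XT.nd (nat_lit 78) (nat_lit 0) (nat_lit 0) (XT.lf (nat_lit 0) (nat_lit 253647588625) (nat_lit 76) (nat_lit 50042666750) (nat_lit 76) (nat_lit 45158702413) (nat_lit 1) (nat_lit 4) (nat_lit 2) (nat_lit 5) (nat_lit 2) (nat_lit 4) (nat_lit 352) (nat_lit 207) (nat_lit 161)) (XT.lf (nat_lit 0) (nat_lit 268292415434) (nat_lit 76) (nat_lit 51426290665)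 (nat_lit 76) (nat_lit 46514751914) (nat_lit 1) (nat_lit 4) (nat_lit 2) (nat_lit 5) (nat_lit 2) (nat_lit 4) (nat_lit 353) (nat_lit 207) (nat_lit 160))) (XT.nd (nat_lit 78) (nat_lit 0) (nat_lit 0) (XT.lf (nat_lit 0) (nat_lit 283653460439) (nat_lit 76) (nat_lit 52885998022) (nat_lit 76) (nat_lit 47948197924) (nat_lit 1) (nat_lit 4) (nat_lit 2) (nat_lit 5) (nat_lit 2) (nat_lit 4) (nat_lit 354) (nat_lit 207) (nat_lit 159)) (XT.lf (nat_lit 0) (nat_lit 299767297557) (nat_lit 76) (nat_lit 54425264314) (nat_lit 76) (nat_lit 49462453409) (nat_lit 1) (nat_lit 4) (nat_lit 2) (nat_lit 5) (nat_lit 2) (nat_lit 4) (nat_lit 355) (nat_lit 207) (nat_lit 158)))) (XT.nd (nat_lit 156) (nat_lit 0) (nat_lit 0) (XT.nd (nat_lit 78) (nat_lit 0) (nat_lit 0) (XT.lf (nat_lit 0) (nat_lit 316672293068) (nat_lit 76) (nat_lit 56047754461) (nat_lit 76) (nat_lit 51061123740) (nat_lit 1) (nat_lit 4) (nat_lit 2) (nat_lit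 5) (nat_lit 2) (nat_lit 4) (nat_lit 356) (nat_lit 207) (nat_lit 157)) (XT.lf (nat_lit 0) (nat_lit 334408696960) (nat_lit 76) (nat_lit 57757331534) (nat_lit 76) (nat_lit 52748015274) (nat_lit 1) (nat_lit 4) (nat_lit 2) (nat_lit 5) (nat_lit 2) (nat_lit 4) (nat_lit 357) (nat_lit 207) (nat_lit 156))) (XT.nd (nat_lit 78) (nat_lit 0) (nat_lit 0) (XT.lf (nat_lit 0) (nat_lit 353018738766) (nat_lit 76) (nat_lit 59558065956) (nat_lit 76) (nat_lit 54527144421) (nat_lit 1) (nat_lit 4) (nat_lit 2) (nat_lit 5) (nat_lit 2) (nat_lit 4) (nat_lit 358) (nat_lit 207) (nat_lit 155)) (XT.nd (nat_lit 78) (nat_lit 0) (nat_lit 0) (XT.lf (nat_lit 0) (nat_lit 372546728111) (nat_lit 76) (nat_lit 61454245189) (nat_lit 76) (nat_lit 56402747201) (nat_lit 1) (nat_lit 4) (nat_lit 2) (nat_lit 5) (nat_lit 2) (nat_lit 4) (nat_lit 359) (nat_lit 207) (nat_lit 154)) (XT.lf (nat_lit 0) (nat_lit 393039160206) (nat_lit 76)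 (nat_lit 63450383946) (nat_lit 76) (nat_lit 58379289336) (nat_lit 1) (nat_lit 4) (nat_lit 2) (nat_lit 5) (nat_lit 2) (nat_lit 4) (nat_lit 360) (nat_lit 207) (nat_lit 153))))))) (XT.nd (nat_lit 33540) (nat_lit 0) (nat_lit 0) (XT.nd (nat_lit 33228) (nat_lit 0) (nat_lit 76) (XT.nd (nat_lit 33072) (nat_lit 0) (nat_lit 76) (XT.nd (nat_lit 78) (nat_lit 0) (nat_lit 0) (XT.lf (nat_lit 0) (nat_lit 414544826557) (nat_lit 76) (nat_lit 65551234937) (nat_lit 76) (nat_lit 60461476879) (nat_lit 1) (nat_lit 4) (nat_lit 2) (nat_lit 5) (nat_lit 2) (nat_lit 4) (nat_lit 361) (nat_lit 207) (nat_lit 152)) (XT.lf (nat_lit 0) (nat_lit 437114931131) (nat_lit 76) (nat_lit 67761800190) (nat_lit 76) (nat_lit 62654267418) (nat_lit 1) (nat_lit 4) (nat_lit 2) (nat_lit 5) (nat_lit 2) (nat_lit 4) (nat_lit 362) (nat_lit 207) (nat_lit 151))) (XT.nd (nat_lit 78) (nat_lit 152) (nat_lit 0) (XT.lf (nat_lit 0) (nat_lit 15873152182)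 (nat_lit 76) (nat_lit 917428772) (nat_lit 76) (nat_lit 917428772) (nat_lit 4) (nat_lit 4) (nat_lit 5) (nat_lit 5) (nat_lit 5) (nat_lit 4) (nat_lit 304) (nat_lit 208) (nat_lit 208)) (XT.lf (nat_lit 0) (nat_lit 545517406) (nat_lit 152) (nat_lit 36230201458) (nat_lit 0) (nat_lit 272366055) (nat_lit 2) (nat_lit 5) (nat_lit 4) (nat_lit 4) (nat_lit 2) (nat_lit 4) (nat_lit 305) (nat_lit 208) (nat_lit 207)))) (XT.nd (nat_lit 156) (nat_lit 0) (nat_lit 0) (XT.nd (nat_lit 78) (nat_lit 0) (nat_lit 0) (XT.lf (nat_lit 0) (nat_lit 2988621505) (nat_lit 152) (nat_lit 33316202782) (nat_lit 0) (nat_lit 2455326008) (nat_lit 2) (nat_lit 5) (nat_lit 4) (nat_lit 4) (nat_lit 2) (nat_lit 4) (nat_lit 306) (nat_lit 208) (nat_lit 206)) (XT.lf (nat_lit 0) (nat_lit 5470192033) (nat_lit 152) (nat_lit 30402832376) (nat_lit 0) (nat_lit 4689140208) (nat_lit 2) (nat_lit 5) (nat_lit 4) (nat_lit 4) (nat_lit 2) (nat_lit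 4) (nat_lit 307) (nat_lit 208) (nat_lit 205))) (XT.nd (nat_lit 78) (nat_lit 0) (nat_lit 0) (XT.lf (nat_lit 0) (nat_lit 7996137492) (nat_lit 152) (nat_lit 27483153645) (nat_lit 0) (nat_lit 6979127259) (nat_lit 2) (nat_lit 5) (nat_lit 4) (nat_lit 4) (nat_lit 2) (nat_lit 4) (nat_lit 308) (nat_lit 208) (nat_lit 204)) (XT.lf (nat_lit 0) (nat_lit 10572472038) (nat_lit 152) (nat_lit 24550214971) (nat_lit 0) (nat_lit 9330739512) (nat_lit 2) (nat_lit 5) (nat_lit 4) (nat_lit 4) (nat_lit 2) (nat_lit 4) (nat_lit 309) (nat_lit 208) (nat_lit 203))))) (XT.nd (nat_lit 312) (nat_lit 76) (nat_lit 0) (XT.nd (nat_lit 156) (nat_lit 0) (nat_lit 0) (XT.nd (nat_lit 78) (nat_lit 0) (nat_lit 0) (XT.lf (nat_lit 0) (nat_lit 13205329800) (nat_lit 152) (nat_lit 21597033168) (nat_lit 0) (nat_lit 11749576042) (nat_lit 2) (nat_lit 5) (nat_lit 4) (nat_lit 4) (nat_lit 2) (nat_lit 4) (nat_lit 310) (nat_lit 208) (nat_lit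 202)) (XT.lf (nat_lit 0) (nat_lit 15900979488) (nat_lit 152) (nat_lit 18616576851) (nat_lit 0) (nat_lit 14241395986) (nat_lit 2) (nat_lit 5) (nat_lit 4) (nat_lit 4) (nat_lit 2) (nat_lit 4) (nat_lit 311) (nat_lit 208) (nat_lit 201))) (XT.nd (nat_lit 78) (nat_lit 0) (nat_lit 0) (XT.lf (nat_lit 0) (nat_lit 18665839315) (nat_lit 152) (nat_lit 15601749695) (nat_lit 0) (nat_lit 16812132246) (nat_lit 2) (nat_lit 5) (nat_lit 4) (nat_lit 4) (nat_lit 2) (nat_lit 4) (nat_lit 312) (nat_lit 208) (nat_lit 200)) (XT.lf (nat_lit 0) (nat_lit 21506492280) (nat_lit 152) (nat_lit 12545373540) (nat_lit 0) (nat_lit 19467905625) (nat_lit 2) (nat_lit 5) (nat_lit 4) (nat_lit 4) (nat_lit 2) (nat_lit 4) (nat_lit 313) (nat_lit 208) (nat_lit 199)))) (XT.nd (nat_lit 156) (nat_lit 76) (nat_lit 0) (XT.nd (nat_lit 78) (nat_lit 0) (nat_lit 0) (XT.lf (nat_lit 0) (nat_lit 24429701843) (nat_lit 152) (nat_lit 9440171300)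 (nat_lit 0) (nat_lit 22215039391) (nat_lit 2) (nat_lit 5) (nat_lit 4) (nat_lit 4) (nat_lit 2) (nat_lit 4) (nat_lit 314) (nat_lit 208) (nat_lit 198)) (XT.lf (nat_lit 0) (nat_lit 27442428027) (nat_lit 152) (nat_lit 6278749636) (nat_lit 0) (nat_lit 25060074340) (nat_lit 2) (nat_lit 5) (nat_lit 4) (nat_lit 4) (nat_lit 2) (nat_lit 4) (nat_lit 315) (nat_lit 208) (nat_lit 197))) (XT.nd (nat_lit 78) (nat_lit 76) (nat_lit 0) (XT.lf (nat_lit 0) (nat_lit 30551843990) (nat_lit 152) (nat_lit 3053581354) (nat_lit 0) (nat_lit 28009784364) (nat_lit 2) (nat_lit 5) (nat_lit 4) (nat_lit 4) (nat_lit 2) (nat_lit 4) (nat_lit 316) (nat_lit 208) (nat_lit 196)) (XT.nd (nat_lit 78) (nat_lit 0) (nat_lit 0) (XT.lf (nat_lit 0) (nat_lit 251047608) (nat_lit 76) (nat_lit 33518225050) (nat_lit 76) (nat_lit 30824064531) (nat_lit 1) (nat_lit 4) (nat_lit 2) (nat_lit 5) (nat_lit 2) (nat_lit 4) (nat_lit 317) (nat_lit 208)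 (nat_lit 195)) (XT.lf (nat_lit 0) (nat_lit 3738537562) (nat_lit 76) (nat_lit 33410438063) (nat_lit 76) (nat_lit 30571419550) (nat_lit 1) (nat_lit 4) (nat_lit 2) (nat_lit 5) (nat_lit 2) (nat_lit 4) (nat_lit 318) (nat_lit 208) (nat_lit 194))))))))
noncomputable def xc26 : XT := (XT.nd (nat_lit 1326) (nat_lit 0) (nat_lit 0) (XT.nd (nat_lit 624) (nat_lit 0) (nat_lit 0) (XT.nd (nat_lit 312) (nat_lit 0) (nat_lit 0) (XT.nd (nat_lit 156) (nat_lit 0) (nat_lit 0) (XT.nd (nat_lit 78) (nat_lit 0) (nat_lit 0) (XT.lf (nat_lit 0) (nat_lit 7316226863) (nat_lit 76) (nat_lit 33333521624) (nat_lit 76) (nat_lit 30356543117) (nat_lit 1) (nat_lit 4) (nat_lit 2) (nat_lit 5) (nat_lit 2) (nat_lit 4) (nat_lit 319) (nat_lit 208) (nat_lit 193)) (XT.lf (nat_lit 0) (nat_lit 10992633820) (nat_lit 76) (nat_lit 33287292600) (nat_lit 76) (nat_lit 30178923622) (nat_lit 1) (nat_lit 4) (nat_lit 2) (nat_lit 5) (nat_lit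 2) (nat_lit 4) (nat_lit 320) (nat_lit 208) (nat_lit 192))) (XT.nd (nat_lit 78) (nat_lit 0) (nat_lit 0) (XT.lf (nat_lit 0) (nat_lit 14776511782) (nat_lit 76) (nat_lit 33271640922) (nat_lit 76) (nat_lit 30038138162) (nat_lit 1) (nat_lit 4) (nat_lit 2) (nat_lit 5) (nat_lit 2) (nat_lit 4) (nat_lit 321) (nat_lit 208) (nat_lit 191)) (XT.lf (nat_lit 0) (nat_lit 18676869984) (nat_lit 76) (nat_lit 33286529322) (nat_lit 76) (nat_lit 29933851533) (nat_lit 1) (nat_lit 4) (nat_lit 2) (nat_lit 5) (nat_lit 2) (nat_lit 4) (nat_lit 322) (nat_lit 208) (nat_lit 190)))) (XT.nd (nat_lit 156) (nat_lit 0) (nat_lit 0) (XT.nd (nat_lit 78) (nat_lit 0) (nat_lit 0) (XT.lf (nat_lit 0) (nat_lit 22702994991) (nat_lit 76) (nat_lit 33331993251) (nat_lit 76) (nat_lit 29865815433) (nat_lit 1) (nat_lit 4) (nat_lit 2) (nat_lit 5) (nat_lit 2) (nat_lit 4) (nat_lit 323) (nat_lit 208) (nat_lit 189)) (XT.lf (nat_lit 0) (nat_lit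 26864472816) (nat_lit 76) (nat_lit 33408140956) (nat_lit 76) (nat_lit 29833867872) (nat_lit 1) (nat_lit 4) (nat_lit 2) (nat_lit 5) (nat_lit 2) (nat_lit 4) (nat_lit 324) (nat_lit 208) (nat_lit 188))) (XT.nd (nat_lit 78) (nat_lit 0) (nat_lit 0) (XT.lf (nat_lit 0) (nat_lit 31171211740) (nat_lit 76) (nat_lit 33515153740) (nat_lit 76) (nat_lit 29837932784) (nat_lit 1) (nat_lit 4) (nat_lit 2) (nat_lit 5) (nat_lit 2) (nat_lit 4) (nat_lit 325) (nat_lit 208) (nat_lit 187)) (XT.lf (nat_lit 0) (nat_lit 35633465902) (nat_lit 76) (nat_lit 33653286396) (nat_lit 76) (nat_lit 29878019848) (nat_lit 1) (nat_lit 4) (nat_lit 2) (nat_lit 5) (nat_lit 2) (nat_lit 4) (nat_lit 326) (nat_lit 208) (nat_lit 186))))) (XT.nd (nat_lit 312) (nat_lit 0) (nat_lit 0) (XT.nd (nat_lit 156) (nat_lit 0) (nat_lit 0) (XT.nd (nat_lit 78) (nat_lit 0) (nat_lit 0) (XT.lf (nat_lit 0) (nat_lit 40261859718) (nat_lit 76) (nat_lit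 33822867811) (nat_lit 76) (nat_lit 29954224509) (nat_lit 1) (nat_lit 4) (nat_lit 2) (nat_lit 5) (nat_lit 2) (nat_lit 4) (nat_lit 327) (nat_lit 208) (nat_lit 185)) (XT.lf (nat_lit 0) (nat_lit 45067413172) (nat_lit 76) (nat_lit 34024301751) (nat_lit 76) (nat_lit 30066728206) (nat_lit 1) (nat_lit 4) (nat_lit 2) (nat_lit 5) (nat_lit 2) (nat_lit 4) (nat_lit 328) (nat_lit 208) (nat_lit 184))) (XT.nd (nat_lit 78) (nat_lit 0) (nat_lit 0) (XT.lf (nat_lit 0) (nat_lit 50061568059) (nat_lit 76) (nat_lit 34258067820) (nat_lit 76) (nat_lit 30215798806) (nat_lit 1) (nat_lit 4) (nat_lit 2) (nat_lit 5) (nat_lit 2) (nat_lit 4) (nat_lit 329) (nat_lit 208) (nat_lit 183)) (XT.lf (nat_lit 0) (nat_lit 55256215223) (nat_lit 76) (nat_lit 34524722604) (nat_lit 76) (nat_lit 30401791239) (nat_lit 1) (nat_lit 4) (nat_lit 2) (nat_lit 5) (nat_lit 2) (nat_lit 4) (nat_lit 330) (nat_lit 208) (nat_lit 182)))) (XT.nd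 (nat_lit 156) (nat_lit 0) (nat_lit 0) (XT.nd (nat_lit 78) (nat_lit 0) (nat_lit 0) (XT.lf (nat_lit 0) (nat_lit 60663722872) (nat_lit 76) (nat_lit 34824900995) (nat_lit 76) (nat_lit 30625148343) (nat_lit 1) (nat_lit 4) (nat_lit 2) (nat_lit 5) (nat_lit 2) (nat_lit 4) (nat_lit 331) (nat_lit 208) (nat_lit 181)) (XT.lf (nat_lit 0) (nat_lit 66296966025) (nat_lit 76) (nat_lit 35159317704) (nat_lit 76) (nat_lit 30886401922) (nat_lit 1) (nat_lit 4) (nat_lit 2) (nat_lit 5) (nat_lit 2) (nat_lit 4) (nat_lit 332) (nat_lit 208) (nat_lit 180))) (XT.nd (nat_lit 78) (nat_lit 0) (nat_lit 0) (XT.lf (nat_lit 0) (nat_lit 72169357165) (nat_lit 76) (nat_lit 35528768961) (nat_lit 76) (nat_lit 31186174007) (nat_lit 1) (nat_lit 4) (nat_lit 2) (nat_lit 5) (nat_lit 2) (nat_lit 4) (nat_lit 333) (nat_lit 208) (nat_lit 179)) (XT.nd (nat_lit 78) (nat_lit 0) (nat_lit 0) (XT.lf (nat_lit 0) (nat_lit 78294878175) (nat_lit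 76) (nat_lit 35934134412) (nat_lit 76) (nat_lit 31525178342) (nat_lit 1) (nat_lit 4) (nat_lit 2) (nat_lit 5) (nat_lit 2) (nat_lit 4) (nat_lit 334) (nat_lit 208) (nat_lit 178)) (XT.lf (nat_lit 0) (nat_lit 84688113630) (nat_lit 76) (nat_lit 36376379212) (nat_lit 76) (nat_lit 31904222079) (nat_lit 1) (nat_lit 4) (nat_lit 2) (nat_lit 5) (nat_lit 2) (nat_lit 4) (nat_lit 335) (nat_lit 208) (nat_lit 177))))))) (XT.nd (nat_lit 624) (nat_lit 0) (nat_lit 0) (XT.nd (nat_lit 312) (nat_lit 0) (nat_lit 0) (XT.nd (nat_lit 156) (nat_lit 0) (nat_lit 0) (XT.nd (nat_lit 78) (nat_lit 0) (nat_lit 0) (XT.lf (nat_lit 0) (nat_lit 91364285518) (nat_lit 76) (nat_lit 36856556327) (nat_lit 76) (nat_lit 32324207705) (nat_lit 1) (nat_lit 4) (nat_lit 2) (nat_lit 5) (nat_lit 2) (nat_lit 4) (nat_lit 336) (nat_lit 208) (nat_lit 176)) (XT.lf (nat_lit 0) (nat_lit 98339289488) (nat_lit 76) (nat_lit 37375809033) (nat_lit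 76) (nat_lit 32786135184) (nat_lit 1) (nat_lit 4) (nat_lit 2) (nat_lit 5) (nat_lit 2) (nat_lit 4) (nat_lit 337) (nat_lit 208) (nat_lit 175))) (XT.nd (nat_lit 78) (nat_lit 0) (nat_lit 0) (XT.lf (nat_lit 0) (nat_lit 105629732691) (nat_lit 76) (nat_lit 37935373648) (nat_lit 76) (nat_lit 33291104345) (nat_lit 1) (nat_lit 4) (nat_lit 2) (nat_lit 5) (nat_lit 2) (nat_lit 4) (nat_lit 338) (nat_lit 208) (nat_lit 174)) (XT.lf (nat_lit 0) (nat_lit 113252973325) (nat_lit 76) (nat_lit 38536582468) (nat_lit 76) (nat_lit 33840317494) (nat_lit 1) (nat_lit 4) (nat_lit 2) (nat_lit 5) (nat_lit 2) (nat_lit 4) (nat_lit 339) (nat_lit 208) (nat_lit 173)))) (XT.nd (nat_lit 156) (nat_lit 0) (nat_lit 0) (XT.nd (nat_lit 78) (nat_lit 0) (nat_lit 0) (XT.lf (nat_lit 0) (nat_lit 121227161964) (nat_lit 76) (nat_lit 39180866943) (nat_lit 76) (nat_lit 34435082282) (nat_lit 1) (nat_lit 4) (nat_lit 2) (nat_lit 5) (nat_lit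 2) (nat_lit 4) (nat_lit 340) (nat_lit 208) (nat_lit 172)) (XT.lf (nat_lit 0) (nat_lit 129571284770) (nat_lit 76) (nat_lit 39869761082) (nat_lit 76) (nat_lit 35076814816) (nat_lit 1) (nat_lit 4) (nat_lit 2) (nat_lit 5) (nat_lit 2) (nat_lit 4) (nat_lit 341) (nat_lit 208) (nat_lit 171))) (XT.nd (nat_lit 78) (nat_lit 0) (nat_lit 0) (XT.lf (nat_lit 0) (nat_lit 138305208703) (nat_lit 76) (nat_lit 40604905112) (nat_lit 76) (nat_lit 35767043030) (nat_lit 1) (nat_lit 4) (nat_lit 2) (nat_lit 5) (nat_lit 2) (nat_lit 4) (nat_lit 342) (nat_lit 208) (nat_lit 170)) (XT.lf (nat_lit 0) (nat_lit 147449728821) (nat_lit 76) (nat_lit 41388049373) (nat_lit 76) (nat_lit 36507410324) (nat_lit 1) (nat_lit 4) (nat_lit 2) (nat_lit 5) (nat_lit 2) (nat_lit 4) (nat_lit 343) (nat_lit 208) (nat_lit 169))))) (XT.nd (nat_lit 312) (nat_lit 0) (nat_lit 0) (XT.nd (nat_lit 156) (nat_lit 0) (nat_lit 0) (XT.nd (nat_lit 78)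 (nat_lit 0) (nat_lit 0) (XT.lf (nat_lit 0) (nat_lit 157026617789) (nat_lit 76) (nat_lit 42221058497) (nat_lit 76) (nat_lit 37299679479) (nat_lit 1) (nat_lit 4) (nat_lit 2) (nat_lit 5) (nat_lit 2) (nat_lit 4) (nat_lit 344) (nat_lit 208) (nat_lit 168)) (XT.lf (nat_lit 0) (nat_lit 167058677724) (nat_lit 76) (nat_lit 43105915836) (nat_lit 76) (nat_lit 38145736848) (nat_lit 1) (nat_lit 4) (nat_lit 2) (nat_lit 5) (nat_lit 2) (nat_lit 4) (nat_lit 345) (nat_lit 208) (nat_lit 167))) (XT.nd (nat_lit 78) (nat_lit 0) (nat_lit 0) (XT.lf (nat_lit 0) (nat_lit 177569794484) (nat_lit 76) (nat_lit 44044728196) (nat_lit 76) (nat_lit 39047596855) (nat_lit 1) (nat_lit 4) (nat_lit 2) (nat_lit 5) (nat_lit 2) (nat_lit 4) (nat_lit 346) (nat_lit 208) (nat_lit 166)) (XT.lf (nat_lit 0) (nat_lit 188584994536) (nat_lit 76) (nat_lit 45039730843) (nat_lit 76) (nat_lit 40007406786) (nat_lit 1) (nat_lit 4) (nat_lit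 2) (nat_lit 5) (nat_lit 2) (nat_lit 4) (nat_lit 347) (nat_lit 208) (nat_lit 165)))) (XT.nd (nat_lit 156) (nat_lit 0) (nat_lit 0) (XT.nd (nat_lit 78) (nat_lit 0) (nat_lit 0) (XT.lf (nat_lit 0) (nat_lit 200130504548) (nat_lit 76) (nat_lit 46093292831) (nat_lit 76) (nat_lit 41027451901) (nat_lit 1) (nat_lit 4) (nat_lit 2) (nat_lit 5) (nat_lit 2) (nat_lit 4) (nat_lit 348) (nat_lit 208) (nat_lit 164)) (XT.lf (nat_lit 0) (nat_lit 212233813830) (nat_lit 76) (nat_lit 47207922641) (nat_lit 76) (nat_lit 42110160879) (nat_lit 1) (nat_lit 4) (nat_lit 2) (nat_lit 5) (nat_lit 2) (nat_lit 4) (nat_lit 349) (nat_lit 208) (nat_lit 163))) (XT.nd (nat_lit 78) (nat_lit 0) (nat_lit 0) (XT.lf (nat_lit 0) (nat_lit 224923739783) (nat_lit 76) (nat_lit 48386274154) (nat_lit 76) (nat_lit 43258111601) (nat_lit 1) (nat_lit 4) (nat_lit 2) (nat_lit 5) (nat_lit 2) (nat_lit 4) (nat_lit 350) (nat_lit 208) (nat_lit 162))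 (XT.nd (nat_lit 78) (nat_lit 0) (nat_lit 0) (XT.lf (nat_lit 0) (nat_lit 238230496518) (nat_lit 76) (nat_lit 49631152969) (nat_lit 76) (nat_lit 44474037280) (nat_lit 1) (nat_lit 4) (nat_lit 2) (nat_lit 5) (nat_lit 2) (nat_lit 4) (nat_lit 351) (nat_lit 208) (nat_lit 161)) (XT.lf (nat_lit 0) (nat_lit 252185766789) (nat_lit 76) (nat_lit 50945523082) (nat_lit 76) (nat_lit 45760832979) (nat_lit 1) (nat_lit 4) (nat_lit 2) (nat_lit 5) (nat_lit 2) (nat_lit 4) (nat_lit 352) (nat_lit 208) (nat_lit 160))))))))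
noncomputable def xc27 : XT := (XT.nd (nat_lit 34086) (nat_lit 0) (nat_lit 0) (XT.nd (nat_lit 624) (nat_lit 0) (nat_lit 0) (XT.nd (nat_lit 312) (nat_lit 0) (nat_lit 0) (XT.nd (nat_lit 156) (nat_lit 0) (nat_lit 0) (XT.nd (nat_lit 78) (nat_lit 0) (nat_lit 0) (XT.lf (nat_lit 0) (nat_lit 266822777430) (nat_lit 76) (nat_lit 52332513946) (nat_lit 76) (nat_lit 47121562496) (nat_lit 1) (nat_lit 4) (nat_lit 2) (nat_lit 5) (nat_lit 2) (nat_lit 4) (nat_lit 353) (nat_lit 208) (nat_lit 159)) (XT.lf (nat_lit 0) (nat_lit 282176378466) (nat_lit 76) (nat_lit 53795427921) (nat_lit 76) (nat_lit 48559465664) (nat_lit 1) (nat_lit 4) (nat_lit 2) (nat_lit 5) (nat_lit 2) (nat_lit 4) (nat_lit 354) (nat_lit 208) (nat_lit 158))) (XT.nd (nat_lit 78) (nat_lit 0) (nat_lit 0) (XT.lf (nat_lit 0) (nat_lit 298283126090) (nat_lit 76) (nat_lit 55337748135) (nat_lit 76) (nat_lit 50077966062) (nat_lit 1) (nat_lit 4) (nat_lit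 2) (nat_lit 5) (nat_lit 2) (nat_lit 4) (nat_lit 355) (nat_lit 208) (nat_lit 157)) (XT.lf (nat_lit 0) (nat_lit 315181369701) (nat_lit 76) (nat_lit 56963146779) (nat_lit 76) (nat_lit 51680679167) (nat_lit 1) (nat_lit 4) (nat_lit 2) (nat_lit 5) (nat_lit 2) (nat_lit 4) (nat_lit 356) (nat_lit 208) (nat_lit 156)))) (XT.nd (nat_lit 156) (nat_lit 0) (nat_lit 0) (XT.nd (nat_lit 78) (nat_lit 0) (nat_lit 0) (XT.lf (nat_lit 0) (nat_lit 332911343212) (nat_lit 76) (nat_lit 58675493850) (nat_lit 76) (nat_lit 53371420963) (nat_lit 1) (nat_lit 4) (nat_lit 2) (nat_lit 5) (nat_lit 2) (nat_lit 4) (nat_lit 357) (nat_lit 208) (nat_lit 155)) (XT.lf (nat_lit 0) (nat_lit 351515260847) (nat_lit 76) (nat_lit 60478866365) (nat_lit 76) (nat_lit 55154217025) (nat_lit 1) (nat_lit 4) (nat_lit 2) (nat_lit 5) (nat_lit 2) (nat_lit 4) (nat_lit 358) (nat_lit 208) (nat_lit 154))) (XT.nd (nat_lit 78) (nat_lit 0) (nat_lit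 0) (XT.lf (nat_lit 0) (nat_lit 371037417647) (nat_lit 76) (nat_lit 62377558067) (nat_lit 76) (nat_lit 57033312106) (nat_lit 1) (nat_lit 4) (nat_lit 2) (nat_lit 5) (nat_lit 2) (nat_lit 4) (nat_lit 359) (nat_lit 208) (nat_lit 153)) (XT.lf (nat_lit 0) (nat_lit 391524294938) (nat_lit 76) (nat_lit 64376089651) (nat_lit 76) (nat_lit 59013180241) (nat_lit 1) (nat_lit 4) (nat_lit 2) (nat_lit 5) (nat_lit 2) (nat_lit 4) (nat_lit 360) (nat_lit 208) (nat_lit 152))))) (XT.nd (nat_lit 33072) (nat_lit 0) (nat_lit 76) (XT.nd (nat_lit 32916) (nat_lit 0) (nat_lit 228) (XT.nd (nat_lit 78) (nat_lit 0) (nat_lit 0) (XT.lf (nat_lit 0) (nat_lit 413024670998) (nat_lit 76) (nat_lit 66479219527) (nat_lit 76) (nat_lit 61098535403) (nat_lit 1) (nat_lit 4) (nat_lit 2) (nat_lit 5) (nat_lit 2) (nat_lit 4) (nat_lit 361) (nat_lit 208) (nat_lit 151)) (XT.lf (nat_lit 0) (nat_lit 435589737201) (nat_lit 76) (nat_lit 68691955145)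 (nat_lit 76) (nat_lit 63294342723) (nat_lit 1) (nat_lit 4) (nat_lit 2) (nat_lit 5) (nat_lit 2) (nat_lit 4) (nat_lit 362) (nat_lit 208) (nat_lit 150))) (XT.nd (nat_lit 78) (nat_lit 0) (nat_lit 0) (XT.lf (nat_lit 0) (nat_lit 10019320934) (nat_lit 76) (nat_lit 3087742704) (nat_lit 76) (nat_lit 3087742704) (nat_lit 4) (nat_lit 4) (nat_lit 5) (nat_lit 5) (nat_lit 5) (nat_lit 4) (nat_lit 302) (nat_lit 209) (nat_lit 209)) (XT.lf (nat_lit 0) (nat_lit 25787041097) (nat_lit 76) (nat_lit 4189440727) (nat_lit 76) (nat_lit 3888291361) (nat_lit 4) (nat_lit 4) (nat_lit 5) (nat_lit 5) (nat_lit 5) (nat_lit 4) (nat_lit 303) (nat_lit 209) (nat_lit 208)))) (XT.nd (nat_lit 156) (nat_lit 0) (nat_lit 0) (XT.nd (nat_lit 78) (nat_lit 152) (nat_lit 0) (XT.lf (nat_lit 0) (nat_lit 31673393963) (nat_lit 76) (nat_lit 2166400337) (nat_lit 76) (nat_lit 1578442052) (nat_lit 4) (nat_lit 4) (nat_lit 5) (nat_lit 5) (nat_lit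 5) (nat_lit 4) (nat_lit 304) (nat_lit 209) (nat_lit 207)) (XT.lf (nat_lit 0) (nat_lit 667520617) (nat_lit 76) (nat_lit 78152677) (nat_lit 152) (nat_lit 36306913577) (nat_lit 2) (nat_lit 5) (nat_lit 3) (nat_lit 5) (nat_lit 4) (nat_lit 4) (nat_lit 305) (nat_lit 209) (nat_lit 206))) (XT.nd (nat_lit 78) (nat_lit 0) (nat_lit 0) (XT.lf (nat_lit 0) (nat_lit 3146733418) (nat_lit 152) (nat_lit 33541227008) (nat_lit 0) (nat_lit 2078872673) (nat_lit 2) (nat_lit 5) (nat_lit 4) (nat_lit 4) (nat_lit 2) (nat_lit 4) (nat_lit 306) (nat_lit 209) (nat_lit 205)) (XT.nd (nat_lit 78) (nat_lit 0) (nat_lit 0) (XT.lf (nat_lit 0) (nat_lit 5589424143) (nat_lit 152) (nat_lit 30695837185) (nat_lit 0) (nat_lit 4285604991) (nat_lit 2) (nat_lit 5) (nat_lit 4) (nat_lit 4) (nat_lit 2) (nat_lit 4) (nat_lit 307) (nat_lit 209) (nat_lit 204)) (XT.lf (nat_lit 0) (nat_lit 8078341219) (nat_lit 152) (nat_lit 27840901866) (nat_lit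 0) (nat_lit 6549799773) (nat_lit 2) (nat_lit 5) (nat_lit 4) (nat_lit 4) (nat_lit 2) (nat_lit 4) (nat_lit 308) (nat_lit 209) (nat_lit 203))))))) (XT.nd (nat_lit 624) (nat_lit 76) (nat_lit 0) (XT.nd (nat_lit 312) (nat_lit 0) (nat_lit 0) (XT.nd (nat_lit 156) (nat_lit 0) (nat_lit 0) (XT.nd (nat_lit 78) (nat_lit 0) (nat_lit 0) (XT.lf (nat_lit 0) (nat_lit 10619410637) (nat_lit 152) (nat_lit 24969623584) (nat_lit 0) (nat_lit 8876847960) (nat_lit 2) (nat_lit 5) (nat_lit 4) (nat_lit 4) (nat_lit 2) (nat_lit 4) (nat_lit 309) (nat_lit 209) (nat_lit 202)) (XT.lf (nat_lit 0) (nat_lit 13218682564) (nat_lit 152) (nat_lit 22075165965) (nat_lit 0) (nat_lit 11272290142) (nat_lit 2) (nat_lit 5) (nat_lit 4) (nat_lit 4) (nat_lit 2) (nat_lit 4) (nat_lit 310) (nat_lit 209) (nat_lit 201))) (XT.nd (nat_lit 78) (nat_lit 0) (nat_lit 0) (XT.lf (nat_lit 0) (nat_lit 15882345742) (nat_lit 152) (nat_lit 19150637441)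 (nat_lit 0) (nat_lit 13741829754) (nat_lit 2) (nat_lit 5) (nat_lit 4) (nat_lit 4) (nat_lit 2) (nat_lit 4) (nat_lit 311) (nat_lit 209) (nat_lit 200)) (XT.lf (nat_lit 0) (nat_lit 18616742225) (nat_lit 152) (nat_lit 16189074851) (nat_lit 0) (nat_lit 16291346651) (nat_lit 2) (nat_lit 5) (nat_lit 4) (nat_lit 4) (nat_lit 2) (nat_lit 4) (nat_lit 312) (nat_lit 209) (nat_lit 199)))) (XT.nd (nat_lit 156) (nat_lit 0) (nat_lit 0) (XT.nd (nat_lit 78) (nat_lit 0) (nat_lit 0) (XT.lf (nat_lit 0) (nat_lit 21428382483) (nat_lit 152) (nat_lit 13183426853) (nat_lit 0) (nat_lit 18926911111) (nat_lit 2) (nat_lit 5) (nat_lit 4) (nat_lit 4) (nat_lit 2) (nat_lit 4) (nat_lit 313) (nat_lit 209) (nat_lit 198)) (XT.lf (nat_lit 0) (nat_lit 24323960897) (nat_lit 152) (nat_lit 10126537144) (nat_lit 0) (nat_lit 21654798290) (nat_lit 2) (nat_lit 5) (nat_lit 4) (nat_lit 4) (nat_lit 2) (nat_lit 4) (nat_lit 314) (nat_lit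 209) (nat_lit 197))) (XT.nd (nat_lit 78) (nat_lit 0) (nat_lit 0) (XT.lf (nat_lit 0) (nat_lit 27310371700) (nat_lit 152) (nat_lit 7011127414) (nat_lit 0) (nat_lit 24481503155) (nat_lit 2) (nat_lit 5) (nat_lit 4) (nat_lit 4) (nat_lit 2) (nat_lit 4) (nat_lit 315) (nat_lit 209) (nat_lit 196)) (XT.lf (nat_lit 0) (nat_lit 30394725395) (nat_lit 152) (nat_lit 3829780022) (nat_lit 0) (nat_lit 27413755956) (nat_lit 2) (nat_lit 5) (nat_lit 4) (nat_lit 4) (nat_lit 2) (nat_lit 4) (nat_lit 316) (nat_lit 209) (nat_lit 195))))) (XT.nd (nat_lit 312) (nat_lit 0) (nat_lit 0) (XT.nd (nat_lit 156) (nat_lit 0) (nat_lit 0) (XT.nd (nat_lit 78) (nat_lit 76) (nat_lit 0) (XT.lf (nat_lit 0) (nat_lit 33584365681) (nat_lit 152) (nat_lit 574920331) (nat_lit 0) (nat_lit 30458538248) (nat_lit 2) (nat_lit 5) (nat_lit 4) (nat_lit 4) (nat_lit 2) (nat_lit 4) (nat_lit 317) (nat_lit 209) (nat_lit 194)) (XT.lf (nat_lit 0)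 (nat_lit 2852499111) (nat_lit 76) (nat_lit 34078923334) (nat_lit 76) (nat_lit 30815135907) (nat_lit 1) (nat_lit 4) (nat_lit 2) (nat_lit 5) (nat_lit 2) (nat_lit 4) (nat_lit 318) (nat_lit 209) (nat_lit 193))) (XT.nd (nat_lit 78) (nat_lit 0) (nat_lit 0) (XT.lf (nat_lit 0) (nat_lit 6391082651) (nat_lit 76) (nat_lit 34018852377) (nat_lit 76) (nat_lit 30623674479) (nat_lit 1) (nat_lit 4) (nat_lit 2) (nat_lit 5) (nat_lit 2) (nat_lit 4) (nat_lit 319) (nat_lit 209) (nat_lit 192)) (XT.lf (nat_lit 0) (nat_lit 10030246027) (nat_lit 76) (nat_lit 33988666668) (nat_lit 76) (nat_lit 30468354989) (nat_lit 1) (nat_lit 4) (nat_lit 2) (nat_lit 5) (nat_lit 2) (nat_lit 4) (nat_lit 320) (nat_lit 209) (nat_lit 191)))) (XT.nd (nat_lit 156) (nat_lit 0) (nat_lit 0) (XT.nd (nat_lit 78) (nat_lit 0) (nat_lit 0) (XT.lf (nat_lit 0) (nat_lit 13778653911) (nat_lit 76) (nat_lit 33988294337) (nat_lit 76) (nat_lit 30348807628)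 (nat_lit 1) (nat_lit 4) (nat_lit 2) (nat_lit 5) (nat_lit 2) (nat_lit 4) (nat_lit 321) (nat_lit 209) (nat_lit 190)) (XT.lf (nat_lit 0) (nat_lit 17645231086) (nat_lit 76) (nat_lit 34017734498) (nat_lit 76) (nat_lit 30264747760) (nat_lit 1) (nat_lit 4) (nat_lit 2) (nat_lit 5) (nat_lit 2) (nat_lit 4) (nat_lit 322) (nat_lit 209) (nat_lit 189))) (XT.nd (nat_lit 78) (nat_lit 0) (nat_lit 0) (XT.lf (nat_lit 0) (nat_lit 21639183688) (nat_lit 76) (nat_lit 34077057246) (nat_lit 76) (nat_lit 30215975243) (nat_lit 1) (nat_lit 4) (nat_lit 2) (nat_lit 5) (nat_lit 2) (nat_lit 4) (nat_lit 323) (nat_lit 209) (nat_lit 188)) (XT.nd (nat_lit 78) (nat_lit 0) (nat_lit 0) (XT.lf (nat_lit 0) (nat_lit 25770021126) (nat_lit 76) (nat_lit 34166403826) (nat_lit 76) (nat_lit 30202373951) (nat_lit 1) (nat_lit 4) (nat_lit 2) (nat_lit 5) (nat_lit 2) (nat_lit 4) (nat_lit 324) (nat_lit 209) (nat_lit 187)) (XT.lf (nat_lit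 0) (nat_lit 30047578729) (nat_lit 76) (nat_lit 34285986968) (nat_lit 76) (nat_lit 30223911500) (nat_lit 1) (nat_lit 4) (nat_lit 2) (nat_lit 5) (nat_lit 2) (nat_lit 4) (nat_lit 325) (nat_lit 209) (nat_lit 186))))))))
noncomputable def xc28 : XT := (XT.nd (nat_lit 1248) (nat_lit 0) (nat_lit 0) (XT.nd (nat_lit 624) (nat_lit 0) (nat_lit 0) (XT.nd (nat_lit 312) (nat_lit 0) (nat_lit 0) (XT.nd (nat_lit 156) (nat_lit 0) (nat_lit 0) (XT.nd (nat_lit 78) (nat_lit 0) (nat_lit 0) (XT.lf (nat_lit 0) (nat_lit 34482041157) (nat_lit 76) (nat_lit 34436091393) (nat_lit 76) (nat_lit 30280639171) (nat_lit 1) (nat_lit 4) (nat_lit 2) (nat_lit 5) (nat_lit 2) (nat_lit 4) (nat_lit 326) (nat_lit 209) (nat_lit 185)) (XT.lf (nat_lit 0) (nat_lit 39083966654) (nat_lit 76) (nat_lit 34617074493) (nat_lit 76) (nat_lit 30372692028) (nat_lit 1) (nat_lit 4) (nat_lit 2) (nat_lit 5) (nat_lit 2) (nat_lit 4) (nat_lit 327)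 (nat_lit 209) (nat_lit 184))) (XT.nd (nat_lit 78) (nat_lit 0) (nat_lit 0) (XT.lf (nat_lit 0) (nat_lit 43864312187) (nat_lit 76) (nat_lit 34829367180) (nat_lit 76) (nat_lit 30500289247) (nat_lit 1) (nat_lit 4) (nat_lit 2) (nat_lit 5) (nat_lit 2) (nat_lit 4) (nat_lit 328) (nat_lit 209) (nat_lit 183)) (XT.lf (nat_lit 0) (nat_lit 48834459529) (nat_lit 76) (nat_lit 35073474913) (nat_lit 76) (nat_lit 30663734628) (nat_lit 1) (nat_lit 4) (nat_lit 2) (nat_lit 5) (nat_lit 2) (nat_lit 4) (nat_lit 329) (nat_lit 209) (nat_lit 182)))) (XT.nd (nat_lit 156) (nat_lit 0) (nat_lit 0) (XT.nd (nat_lit 78) (nat_lit 0) (nat_lit 0) (XT.lf (nat_lit 0) (nat_lit 54006242365) (nat_lit 76) (nat_lit 35349978901) (nat_lit 76) (nat_lit 30863417329) (nat_lit 1) (nat_lit 4) (nat_lit 2) (nat_lit 5) (nat_lit 2) (nat_lit 4) (nat_lit 330) (nat_lit 209) (nat_lit 181)) (XT.lf (nat_lit 0) (nat_lit 59391974463) (nat_lit 76)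 (nat_lit 35659537486) (nat_lit 76) (nat_lit 31099812784) (nat_lit 1) (nat_lit 4) (nat_lit 2) (nat_lit 5) (nat_lit 2) (nat_lit 4) (nat_lit 331) (nat_lit 209) (nat_lit 180))) (XT.nd (nat_lit 78) (nat_lit 0) (nat_lit 0) (XT.lf (nat_lit 0) (nat_lit 65004478996) (nat_lit 76) (nat_lit 36002887713) (nat_lit 76) (nat_lit 31373483840) (nat_lit 1) (nat_lit 4) (nat_lit 2) (nat_lit 5) (nat_lit 2) (nat_lit 4) (nat_lit 332) (nat_lit 209) (nat_lit 179)) (XT.lf (nat_lit 0) (nat_lit 70857119069) (nat_lit 76) (nat_lit 36380847083) (nat_lit 76) (nat_lit 31685082093) (nat_lit 1) (nat_lit 4) (nat_lit 2) (nat_lit 5) (nat_lit 2) (nat_lit 4) (nat_lit 333) (nat_lit 209) (nat_lit 178))))) (XT.nd (nat_lit 312) (nat_lit 0) (nat_lit 0) (XT.nd (nat_lit 156) (nat_lit 0) (nat_lit 0) (XT.nd (nat_lit 78) (nat_lit 0) (nat_lit 0) (XT.lf (nat_lit 0) (nat_lit 76963829540) (nat_lit 76) (nat_lit 36794315498) (nat_lit 76)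 (nat_lit 32035349446) (nat_lit 1) (nat_lit 4) (nat_lit 2) (nat_lit 5) (nat_lit 2) (nat_lit 4) (nat_lit 334) (nat_lit 209) (nat_lit 177)) (XT.lf (nat_lit 0) (nat_lit 83339150195) (nat_lit 76) (nat_lit 37244277408) (nat_lit 76) (nat_lit 32425119867) (nat_lit 1) (nat_lit 4) (nat_lit 2) (nat_lit 5) (nat_lit 2) (nat_lit 4) (nat_lit 335) (nat_lit 209) (nat_lit 176))) (XT.nd (nat_lit 78) (nat_lit 0) (nat_lit 0) (XT.lf (nat_lit 0) (nat_lit 89998260370) (nat_lit 76) (nat_lit 37731804150) (nat_lit 76) (nat_lit 32855321382) (nat_lit 1) (nat_lit 4) (nat_lit 2) (nat_lit 5) (nat_lit 2) (nat_lit 4) (nat_lit 336) (nat_lit 209) (nat_lit 175)) (XT.lf (nat_lit 0) (nat_lit 96957015088) (nat_lit 76) (nat_lit 38258056502) (nat_lit 76) (nat_lit 33326978279) (nat_lit 1) (nat_lit 4) (nat_lit 2) (nat_lit 5) (nat_lit 2) (nat_lit 4) (nat_lit 337) (nat_lit 209) (nat_lit 174)))) (XT.nd (nat_lit 156) (nat_lit 0)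 (nat_lit 0) (XT.nd (nat_lit 78) (nat_lit 0) (nat_lit 0) (XT.lf (nat_lit 0) (nat_lit 104231982814) (nat_lit 76) (nat_lit 38824287446) (nat_lit 76) (nat_lit 33841213552) (nat_lit 1) (nat_lit 4) (nat_lit 2) (nat_lit 5) (nat_lit 2) (nat_lit 4) (nat_lit 338) (nat_lit 209) (nat_lit 173)) (XT.lf (nat_lit 0) (nat_lit 111840484898) (nat_lit 76) (nat_lit 39431845150) (nat_lit 76) (nat_lit 34399251570) (nat_lit 1) (nat_lit 4) (nat_lit 2) (nat_lit 5) (nat_lit 2) (nat_lit 4) (nat_lit 339) (nat_lit 209) (nat_lit 172))) (XT.nd (nat_lit 78) (nat_lit 0) (nat_lit 0) (XT.lf (nat_lit 0) (nat_lit 119800636823) (nat_lit 76) (nat_lit 40082176182) (nat_lit 76) (nat_lit 35002420995) (nat_lit 1) (nat_lit 4) (nat_lit 2) (nat_lit 5) (nat_lit 2) (nat_lit 4) (nat_lit 340) (nat_lit 209) (nat_lit 171)) (XT.lf (nat_lit 0) (nat_lit 128131391330) (nat_lit 76) (nat_lit 40776828947) (nat_lit 76) (nat_lit 35652157945)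 (nat_lit 1) (nat_lit 4) (nat_lit 2) (nat_lit 5) (nat_lit 2) (nat_lit 4) (nat_lit 341) (nat_lit 209) (nat_lit 170)))))) (XT.nd (nat_lit 624) (nat_lit 0) (nat_lit 0) (XT.nd (nat_lit 312) (nat_lit 0) (nat_lit 0) (XT.nd (nat_lit 156) (nat_lit 0) (nat_lit 0) (XT.nd (nat_lit 78) (nat_lit 0) (nat_lit 0) (XT.lf (nat_lit 0) (nat_lit 136852583549) (nat_lit 76) (nat_lit 41517457382) (nat_lit 76) (nat_lit 36350009413) (nat_lit 1) (nat_lit 4) (nat_lit 2) (nat_lit 5) (nat_lit 2) (nat_lit 4) (nat_lit 342) (nat_lit 209) (nat_lit 169)) (XT.lf (nat_lit 0) (nat_lit 145984978225) (nat_lit 76) (nat_lit 42305824887) (nat_lit 76) (nat_lit 37097636949) (nat_lit 1) (nat_lit 4) (nat_lit 2) (nat_lit 5) (nat_lit 2) (nat_lit 4) (nat_lit 343) (nat_lit 209) (nat_lit 168))) (XT.nd (nat_lit 78) (nat_lit 0) (nat_lit 0) (XT.lf (nat_lit 0) (nat_lit 155550319154) (nat_lit 76) (nat_lit 43143808527) (nat_lit 76) (nat_lit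 37896820619) (nat_lit 1) (nat_lit 4) (nat_lit 2) (nat_lit 5) (nat_lit 2) (nat_lit 4) (nat_lit 344) (nat_lit 209) (nat_lit 167)) (XT.lf (nat_lit 0) (nat_lit 165571380956) (nat_lit 76) (nat_lit 44033403502) (nat_lit 76) (nat_lit 38749463242) (nat_lit 1) (nat_lit 4) (nat_lit 2) (nat_lit 5) (nat_lit 2) (nat_lit 4) (nat_lit 345) (nat_lit 209) (nat_lit 166)))) (XT.nd (nat_lit 156) (nat_lit 0) (nat_lit 0) (XT.nd (nat_lit 78) (nat_lit 0) (nat_lit 0) (XT.lf (nat_lit 0) (nat_lit 176072023303) (nat_lit 76) (nat_lit 44976727896) (nat_lit 76) (nat_lit 39657594919) (nat_lit 1) (nat_lit 4) (nat_lit 2) (nat_lit 5) (nat_lit 2) (nat_lit 4) (nat_lit 346) (nat_lit 209) (nat_lit 165)) (XT.lf (nat_lit 0) (nat_lit 187077247725) (nat_lit 76) (nat_lit 45976027718) (nat_lit 76) (nat_lit 40623377868) (nat_lit 1) (nat_lit 4) (nat_lit 2) (nat_lit 5) (nat_lit 2) (nat_lit 4) (nat_lit 347) (nat_lit 209) (nat_lit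 164))) (XT.nd (nat_lit 78) (nat_lit 0) (nat_lit 0) (XT.lf (nat_lit 0) (nat_lit 198613257137) (nat_lit 76) (nat_lit 47033682254) (nat_lit 76) (nat_lit 41649111572) (nat_lit 1) (nat_lit 4) (nat_lit 2) (nat_lit 5) (nat_lit 2) (nat_lit 4) (nat_lit 348) (nat_lit 209) (nat_lit 163)) (XT.lf (nat_lit 0) (nat_lit 210707518227) (nat_lit 76) (nat_lit 48152209728) (nat_lit 76) (nat_lit 42737238255) (nat_lit 1) (nat_lit 4) (nat_lit 2) (nat_lit 5) (nat_lit 2) (nat_lit 4) (nat_lit 349) (nat_lit 209) (nat_lit 162))))) (XT.nd (nat_lit 312) (nat_lit 0) (nat_lit 0) (XT.nd (nat_lit 156) (nat_lit 0) (nat_lit 0) (XT.nd (nat_lit 78) (nat_lit 0) (nat_lit 0) (XT.lf (nat_lit 0) (nat_lit 223388826855) (nat_lit 76) (nat_lit 49334273303) (nat_lit 76) (nat_lit 43890348694) (nat_lit 1) (nat_lit 4) (nat_lit 2) (nat_lit 5) (nat_lit 2) (nat_lit 4) (nat_lit 350) (nat_lit 209) (nat_lit 161)) (XT.lf (nat_lit 0) (nat_lit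 236687376615) (nat_lit 76) (nat_lit 50582687414) (nat_lit 76) (nat_lit 45111188391) (nat_lit 1) (nat_lit 4) (nat_lit 2) (nat_lit 5) (nat_lit 2) (nat_lit 4) (nat_lit 351) (nat_lit 209) (nat_lit 160))) (XT.nd (nat_lit 78) (nat_lit 0) (nat_lit 0) (XT.lf (nat_lit 0) (nat_lit 250634830718) (nat_lit 76) (nat_lit 51900424476) (nat_lit 76) (nat_lit 46402664106) (nat_lit 1) (nat_lit 4) (nat_lit 2) (nat_lit 5) (nat_lit 2) (nat_lit 4) (nat_lit 352) (nat_lit 209) (nat_lit 159)) (XT.lf (nat_lit 0) (nat_lit 265264397389) (nat_lit 76) (nat_lit 53290621959) (nat_lit 76) (nat_lit 47767850782) (nat_lit 1) (nat_lit 4) (nat_lit 2) (nat_lit 5) (nat_lit 2) (nat_lit 4) (nat_lit 353) (nat_lit 209) (nat_lit 158)))) (XT.nd (nat_lit 156) (nat_lit 0) (nat_lit 0) (XT.nd (nat_lit 78) (nat_lit 0) (nat_lit 0) (XT.lf (nat_lit 0) (nat_lit 280610908931) (nat_lit 76) (nat_lit 54756589856) (nat_lit 76) (nat_lit 49209998863)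 (nat_lit 1) (nat_lit 4) (nat_lit 2) (nat_lit 5) (nat_lit 2) (nat_lit 4) (nat_lit 354) (nat_lit 209) (nat_lit 157)) (XT.lf (nat_lit 0) (nat_lit 296710904655) (nat_lit 76) (nat_lit 56301818567) (nat_lit 76) (nat_lit 50732542035) (nat_lit 1) (nat_lit 4) (nat_lit 2) (nat_lit 5) (nat_lit 2) (nat_lit 4) (nat_lit 355) (nat_lit 209) (nat_lit 156))) (XT.nd (nat_lit 78) (nat_lit 0) (nat_lit 0) (XT.lf (nat_lit 0) (nat_lit 313602717886) (nat_lit 76) (nat_lit 57929987208) (nat_lit 76) (nat_lit 52339105402) (nat_lit 1) (nat_lit 4) (nat_lit 2) (nat_lit 5) (nat_lit 2) (nat_lit 4) (nat_lit 356) (nat_lit 209) (nat_lit 155)) (XT.nd (nat_lit 78) (nat_lit 0) (nat_lit 0) (XT.lf (nat_lit 0) (nat_lit 331326567225) (nat_lit 76) (nat_lit 59644972372) (nat_lit 76) (nat_lit 54033514113) (nat_lit 1) (nat_lit 4) (nat_lit 2) (nat_lit 5) (nat_lit 2) (nat_lit 4) (nat_lit 357) (nat_lit 209) (nat_lit 154)) (XT.lf (nat_lit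 0) (nat_lit 349924652315) (nat_lit 76) (nat_lit 61450857356) (nat_lit 76) (nat_lit 55819802475) (nat_lit 1) (nat_lit 4) (nat_lit 2) (nat_lit 5) (nat_lit 2) (nat_lit 4) (nat_lit 358) (nat_lit 209) (nat_lit 153))))))))
noncomputable def xc29 : XT := (XT.nd (nat_lit 33930) (nat_lit 0) (nat_lit 0) (XT.nd (nat_lit 33228) (nat_lit 0) (nat_lit 76) (XT.nd (nat_lit 32916) (nat_lit 0) (nat_lit 228) (XT.nd (nat_lit 156) (nat_lit 0) (nat_lit 0) (XT.nd (nat_lit 78) (nat_lit 0) (nat_lit 0) (XT.lf (nat_lit 0) (nat_lit 369441254311) (nat_lit 76) (nat_lit 63351941886) (nat_lit 76) (nat_lit 57702223556) (nat_lit 1) (nat_lit 4) (nat_lit 2) (nat_lit 5) (nat_lit 2) (nat_lit 4) (nat_lit 359) (nat_lit 209) (nat_lit 152)) (XT.lf (nat_lit 0) (nat_lit 389922841311) (nat_lit 76) (nat_lit 65352752354) (nat_lit 76) (nat_lit 59685259311) (nat_lit 1) (nat_lit 4) (nat_lit 2) (nat_lit 5) (nat_lit 2) (nat_lit 4) (nat_lit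 360) (nat_lit 209) (nat_lit 151))) (XT.nd (nat_lit 78) (nat_lit 0) (nat_lit 0) (XT.lf (nat_lit 0) (nat_lit 411418179001) (nat_lit 76) (nat_lit 67458052595) (nat_lit 76) (nat_lit 61773631253) (nat_lit 1) (nat_lit 4) (nat_lit 2) (nat_lit 5) (nat_lit 2) (nat_lit 4) (nat_lit 361) (nat_lit 209) (nat_lit 150)) (XT.lf (nat_lit 0) (nat_lit 433978446754) (nat_lit 76) (nat_lit 69672855227) (nat_lit 76) (nat_lit 63972311697) (nat_lit 1) (nat_lit 4) (nat_lit 2) (nat_lit 5) (nat_lit 2) (nat_lit 4) (nat_lit 362) (nat_lit 209) (nat_lit 149)))) (XT.nd (nat_lit 156) (nat_lit 0) (nat_lit 0) (XT.nd (nat_lit 78) (nat_lit 0) (nat_lit 0) (XT.lf (nat_lit 0) (nat_lit 4490818630) (nat_lit 76) (nat_lit 5169061806) (nat_lit 76) (nat_lit 5169061806) (nat_lit 4) (nat_lit 4) (nat_lit 5) (nat_lit 5) (nat_lit 5) (nat_lit 4) (nat_lit 300) (nat_lit 210) (nat_lit 210)) (XT.lf (nat_lit 0) (nat_lit 14414509615) (nat_lit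 76) (nat_lit 8445469893) (nat_lit 76) (nat_lit 8129263059) (nat_lit 4) (nat_lit 4) (nat_lit 5) (nat_lit 5) (nat_lit 5) (nat_lit 4) (nat_lit 301) (nat_lit 210) (nat_lit 209))) (XT.nd (nat_lit 78) (nat_lit 0) (nat_lit 0) (XT.lf (nat_lit 0) (nat_lit 19962085948) (nat_lit 76) (nat_lit 6523605341) (nat_lit 76) (nat_lit 5906249141) (nat_lit 4) (nat_lit 4) (nat_lit 5) (nat_lit 5) (nat_lit 5) (nat_lit 4) (nat_lit 302) (nat_lit 210) (nat_lit 208)) (XT.lf (nat_lit 0) (nat_lit 25637574774) (nat_lit 76) (nat_lit 4567954086) (nat_lit 76) (nat_lit 3663788967) (nat_lit 4) (nat_lit 4) (nat_lit 5) (nat_lit 5) (nat_lit 5) (nat_lit 4) (nat_lit 303) (nat_lit 210) (nat_lit 207))))) (XT.nd (nat_lit 312) (nat_lit 0) (nat_lit 0) (XT.nd (nat_lit 156) (nat_lit 0) (nat_lit 0) (XT.nd (nat_lit 78) (nat_lit 152) (nat_lit 0) (XT.lf (nat_lit 0) (nat_lit 31454489162) (nat_lit 76) (nat_lit 2573859818) (nat_lit 76)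 (nat_lit 1396543347) (nat_lit 4) (nat_lit 4) (nat_lit 5) (nat_lit 5) (nat_lit 5) (nat_lit 4) (nat_lit 304) (nat_lit 210) (nat_lit 206)) (XT.lf (nat_lit 0) (nat_lit 361826586) (nat_lit 76) (nat_lit 515874487) (nat_lit 152) (nat_lit 36183680881) (nat_lit 2) (nat_lit 5) (nat_lit 3) (nat_lit 5) (nat_lit 4) (nat_lit 4) (nat_lit 305) (nat_lit 210) (nat_lit 205))) (XT.nd (nat_lit 78) (nat_lit 0) (nat_lit 0) (XT.lf (nat_lit 0) (nat_lit 3233047330) (nat_lit 152) (nat_lit 33916862640) (nat_lit 0) (nat_lit 1628078812) (nat_lit 2) (nat_lit 5) (nat_lit 4) (nat_lit 4) (nat_lit 2) (nat_lit 4) (nat_lit 306) (nat_lit 210) (nat_lit 204)) (XT.lf (nat_lit 0) (nat_lit 5638709672) (nat_lit 152) (nat_lit 31136216229) (nat_lit 0) (nat_lit 3809018861) (nat_lit 2) (nat_lit 5) (nat_lit 4) (nat_lit 4) (nat_lit 2) (nat_lit 4) (nat_lit 307) (nat_lit 210) (nat_lit 203)))) (XT.nd (nat_lit 156) (nat_lit 0) (nat_lit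 0) (XT.nd (nat_lit 78) (nat_lit 0) (nat_lit 0) (XT.lf (nat_lit 0) (nat_lit 8092361620) (nat_lit 152) (nat_lit 28342941302) (nat_lit 0) (nat_lit 6048649577) (nat_lit 2) (nat_lit 5) (nat_lit 4) (nat_lit 4) (nat_lit 2) (nat_lit 4) (nat_lit 308) (nat_lit 210) (nat_lit 202)) (XT.lf (nat_lit 0) (nat_lit 10599845203) (nat_lit 152) (nat_lit 25530387204) (nat_lit 0) (nat_lit 8352303416) (nat_lit 2) (nat_lit 5) (nat_lit 4) (nat_lit 4) (nat_lit 2) (nat_lit 4) (nat_lit 309) (nat_lit 210) (nat_lit 201))) (XT.nd (nat_lit 78) (nat_lit 0) (nat_lit 0) (XT.lf (nat_lit 0) (nat_lit 13167130620) (nat_lit 152) (nat_lit 22691857378) (nat_lit 0) (nat_lit 10725465267) (nat_lit 2) (nat_lit 5) (nat_lit 4) (nat_lit 4) (nat_lit 2) (nat_lit 4) (nat_lit 310) (nat_lit 210) (nat_lit 200)) (XT.nd (nat_lit 78) (nat_lit 0) (nat_lit 0) (XT.lf (nat_lit 0) (nat_lit 15800330455) (nat_lit 152) (nat_lit 19820593420) (nat_lit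 0) (nat_lit 13173785515) (nat_lit 2) (nat_lit 5) (nat_lit 4) (nat_lit 4) (nat_lit 2) (nat_lit 4) (nat_lit 311) (nat_lit 210) (nat_lit 199)) (XT.lf (nat_lit 0) (nat_lit 18505714232) (nat_lit 152) (nat_lit 16909758987) (nat_lit 0) (nat_lit 15703093494) (nat_lit 2) (nat_lit 5) (nat_lit 4) (nat_lit 4) (nat_lit 2) (nat_lit 4) (nat_lit 312) (nat_lit 210) (nat_lit 198))))))) (XT.nd (nat_lit 624) (nat_lit 0) (nat_lit 0) (XT.nd (nat_lit 312) (nat_lit 76) (nat_lit 0) (XT.nd (nat_lit 156) (nat_lit 0) (nat_lit 0) (XT.nd (nat_lit 78) (nat_lit 0) (nat_lit 0) (XT.lf (nat_lit 0) (nat_lit 21289723340) (nat_lit 152) (nat_lit 13952423520) (nat_lit 0) (nat_lit 18319411367) (nat_lit 2) (nat_lit 5) (nat_lit 4) (nat_lit 4) (nat_lit 2) (nat_lit 4) (nat_lit 313) (nat_lit 210) (nat_lit 197)) (XT.lf (nat_lit 0) (nat_lit 24158986372) (nat_lit 152) (nat_lit 10941545745) (nat_lit 0) (nat_lit 21028968461) (nat_lit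 2) (nat_lit 5) (nat_lit 4) (nat_lit 4) (nat_lit 2) (nat_lit 4) (nat_lit 314) (nat_lit 210) (nat_lit 196))) (XT.nd (nat_lit 78) (nat_lit 0) (nat_lit 0) (XT.lf (nat_lit 0) (nat_lit 27120334908) (nat_lit 152) (nat_lit 7869956905) (nat_lit 0) (nat_lit 23838216103) (nat_lit 2) (nat_lit 5) (nat_lit 4) (nat_lit 4) (nat_lit 2) (nat_lit 4) (nat_lit 315) (nat_lit 210) (nat_lit 195)) (XT.lf (nat_lit 0) (nat_lit 30180819777) (nat_lit 152) (nat_lit 4730343693) (nat_lit 0) (nat_lit 26753842978) (nat_lit 2) (nat_lit 5) (nat_lit 4) (nat_lit 4) (nat_lit 2) (nat_lit 4) (nat_lit 316) (nat_lit 210) (nat_lit 194)))) (XT.nd (nat_lit 156) (nat_lit 0) (nat_lit 0) (XT.nd (nat_lit 78) (nat_lit 76) (nat_lit 0) (XT.lf (nat_lit 0) (nat_lit 33347727847) (nat_lit 152) (nat_lit 1515230841) (nat_lit 0) (nat_lit 29782791055) (nat_lit 2) (nat_lit 5) (nat_lit 4) (nat_lit 4) (nat_lit 2) (nat_lit 4) (nat_lit 317) (nat_lit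 210) (nat_lit 193)) (XT.lf (nat_lit 0) (nat_lit 1841991928) (nat_lit 76) (nat_lit 34815366105) (nat_lit 76) (nat_lit 31119038842) (nat_lit 1) (nat_lit 4) (nat_lit 2) (nat_lit 5) (nat_lit 2) (nat_lit 4) (nat_lit 318) (nat_lit 210) (nat_lit 192))) (XT.nd (nat_lit 78) (nat_lit 0) (nat_lit 0) (XT.lf (nat_lit 0) (nat_lit 5343331887) (nat_lit 76) (nat_lit 34771338463) (nat_lit 76) (nat_lit 30949877418) (nat_lit 1) (nat_lit 4) (nat_lit 2) (nat_lit 5) (nat_lit 2) (nat_lit 4) (nat_lit 319) (nat_lit 210) (nat_lit 191)) (XT.lf (nat_lit 0) (nat_lit 8947025184) (nat_lit 76) (nat_lit 34756432103) (nat_lit 76) (nat_lit 30815796028) (nat_lit 1) (nat_lit 4) (nat_lit 2) (nat_lit 5) (nat_lit 2) (nat_lit 4) (nat_lit 320) (nat_lit 210) (nat_lit 190))))) (XT.nd (nat_lit 312) (nat_lit 0) (nat_lit 0) (XT.nd (nat_lit 156) (nat_lit 0) (nat_lit 0) (XT.nd (nat_lit 78) (nat_lit 0) (nat_lit 0) (XT.lf (nat_lit 0)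 (nat_lit 12661652043) (nat_lit 76) (nat_lit 34770611532) (nat_lit 76) (nat_lit 30716475428) (nat_lit 1) (nat_lit 4) (nat_lit 2) (nat_lit 5) (nat_lit 2) (nat_lit 4) (nat_lit 321) (nat_lit 210) (nat_lit 189)) (XT.lf (nat_lit 0) (nat_lit 16496056812) (nat_lit 76) (nat_lit 34813910512) (nat_lit 76) (nat_lit 30651679143) (nat_lit 1) (nat_lit 4) (nat_lit 2) (nat_lit 5) (nat_lit 2) (nat_lit 4) (nat_lit 322) (nat_lit 210) (nat_lit 188))) (XT.nd (nat_lit 78) (nat_lit 0) (nat_lit 0) (XT.lf (nat_lit 0) (nat_lit 20459369026) (nat_lit 76) (nat_lit 34886432135) (nat_lit 76) (nat_lit 30621252895) (nat_lit 1) (nat_lit 4) (nat_lit 2) (nat_lit 5) (nat_lit 2) (nat_lit 4) (nat_lit 323) (nat_lit 210) (nat_lit 187)) (XT.lf (nat_lit 0) (nat_lit 24561025144) (nat_lit 76) (nat_lit 34988349072) (nat_lit 76) (nat_lit 30625124240) (nat_lit 1) (nat_lit 4) (nat_lit 2) (nat_lit 5) (nat_lit 2) (nat_lit 4) (nat_lit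 324) (nat_lit 210) (nat_lit 186)))) (XT.nd (nat_lit 156) (nat_lit 0) (nat_lit 0) (XT.nd (nat_lit 78) (nat_lit 0) (nat_lit 0) (XT.lf (nat_lit 0) (nat_lit 28810791013) (nat_lit 76) (nat_lit 35119903983) (nat_lit 76) (nat_lit 30663302396) (nat_lit 1) (nat_lit 4) (nat_lit 2) (nat_lit 5) (nat_lit 2) (nat_lit 4) (nat_lit 325) (nat_lit 210) (nat_lit 185)) (XT.lf (nat_lit 0) (nat_lit 33218785123) (nat_lit 76) (nat_lit 35281410093) (nat_lit 76) (nat_lit 30735878263) (nat_lit 1) (nat_lit 4) (nat_lit 2) (nat_lit 5) (nat_lit 2) (nat_lit 4) (nat_lit 326) (nat_lit 210) (nat_lit 184))) (XT.nd (nat_lit 78) (nat_lit 0) (nat_lit 0) (XT.lf (nat_lit 0) (nat_lit 37795502698) (nat_lit 76) (nat_lit 35473251940) (nat_lit 76) (nat_lit 30843024642) (nat_lit 1) (nat_lit 4) (nat_lit 2) (nat_lit 5) (nat_lit 2) (nat_lit 4) (nat_lit 327) (nat_lit 210) (nat_lit 183)) (XT.nd (nat_lit 78) (nat_lit 0) (nat_lit 0) (XT.lf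 (nat_lit 0) (nat_lit 42551840685) (nat_lit 76) (nat_lit 35695886291) (nat_lit 76) (nat_lit 30984996641) (nat_lit 1) (nat_lit 4) (nat_lit 2) (nat_lit 5) (nat_lit 2) (nat_lit 4) (nat_lit 328) (nat_lit 210) (nat_lit 182)) (XT.lf (nat_lit 0) (nat_lit 47499123699) (nat_lit 76) (nat_lit 35949843228) (nat_lit 76) (nat_lit 31162132291) (nat_lit 1) (nat_lit 4) (nat_lit 2) (nat_lit 5) (nat_lit 2) (nat_lit 4) (nat_lit 329) (nat_lit 210) (nat_lit 181))))))))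
noncomputable def xc30 : XT := (XT.nd (nat_lit 1326) (nat_lit 0) (nat_lit 0) (XT.nd (nat_lit 624) (nat_lit 0) (nat_lit 0) (XT.nd (nat_lit 312) (nat_lit 0) (nat_lit 0) (XT.nd (nat_lit 156) (nat_lit 0) (nat_lit 0) (XT.nd (nat_lit 78) (nat_lit 0) (nat_lit 0) (XT.lf (nat_lit 0) (nat_lit 52649130984) (nat_lit 76) (nat_lit 36235727410) (nat_lit 76) (nat_lit 31374853343) (nat_lit 1) (nat_lit 4) (nat_lit 2) (nat_lit 5) (nat_lit 2) (nat_lit 4) (nat_lit 330) (nat_lit 210) (nat_lit 180)) (XT.lf (nat_lit 0) (nat_lit 58014124463) (nat_lit 76) (nat_lit 36554219514) (nat_lit 76) (nat_lit 31623666275) (nat_lit 1) (nat_lit 4) (nat_lit 2) (nat_lit 5) (nat_lit 2) (nat_lit 4) (nat_lit 331) (nat_lit 210) (nat_lit 179))) (XT.nd (nat_lit 78) (nat_lit 0) (nat_lit 0) (XT.lf (nat_lit 0) (nat_lit 63606877929) (nat_lit 76) (nat_lit 36906077854) (nat_lit 76) (nat_lit 31909163499) (nat_lit 1) (nat_lit 4) (nat_lit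 2) (nat_lit 5) (nat_lit 2) (nat_lit 4) (nat_lit 332) (nat_lit 210) (nat_lit 178)) (XT.lf (nat_lit 0) (nat_lit 69440707463) (nat_lit 76) (nat_lit 37292140188) (nat_lit 76) (nat_lit 32232024770) (nat_lit 1) (nat_lit 4) (nat_lit 2) (nat_lit 5) (nat_lit 2) (nat_lit 4) (nat_lit 333) (nat_lit 210) (nat_lit 177)))) (XT.nd (nat_lit 156) (nat_lit 0) (nat_lit 0) (XT.nd (nat_lit 78) (nat_lit 0) (nat_lit 0) (XT.lf (nat_lit 0) (nat_lit 75529503134) (nat_lit 76) (nat_lit 37713325713) (nat_lit 76) (nat_lit 32593018806) (nat_lit 1) (nat_lit 4) (nat_lit 2) (nat_lit 5) (nat_lit 2) (nat_lit 4) (nat_lit 334) (nat_lit 210) (nat_lit 176)) (XT.lf (nat_lit 0) (nat_lit 81887762076) (nat_lit 76) (nat_lit 38170637250) (nat_lit 76) (nat_lit 32993005116) (nat_lit 1) (nat_lit 4) (nat_lit 2) (nat_lit 5) (nat_lit 2) (nat_lit 4) (nat_lit 335) (nat_lit 210) (nat_lit 175))) (XT.nd (nat_lit 78) (nat_lit 0) (nat_lit 0)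 (XT.lf (nat_lit 0) (nat_lit 88530622999) (nat_lit 76) (nat_lit 38665163637) (nat_lit 76) (nat_lit 33432936049) (nat_lit 1) (nat_lit 4) (nat_lit 2) (nat_lit 5) (nat_lit 2) (nat_lit 4) (nat_lit 336) (nat_lit 210) (nat_lit 174)) (XT.lf (nat_lit 0) (nat_lit 95473902240) (nat_lit 76) (nat_lit 39198082318) (nat_lit 76) (nat_lit 33913859059) (nat_lit 1) (nat_lit 4) (nat_lit 2) (nat_lit 5) (nat_lit 2) (nat_lit 4) (nat_lit 337) (nat_lit 210) (nat_lit 173))))) (XT.nd (nat_lit 312) (nat_lit 0) (nat_lit 0) (XT.nd (nat_lit 156) (nat_lit 0) (nat_lit 0) (XT.nd (nat_lit 78) (nat_lit 0) (nat_lit 0) (XT.lf (nat_lit 0) (nat_lit 102734131415) (nat_lit 76) (nat_lit 39770662147) (nat_lit 76) (nat_lit 34436919201) (nat_lit 1) (nat_lit 4) (nat_lit 2) (nat_lit 5) (nat_lit 2) (nat_lit 4) (nat_lit 338) (nat_lit 210) (nat_lit 172)) (XT.lf (nat_lit 0) (nat_lit 110328596786) (nat_lit 76) (nat_lit 40384266408) (nat_lit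 76) (nat_lit 35003361856) (nat_lit 1) (nat_lit 4) (nat_lit 2) (nat_lit 5) (nat_lit 2) (nat_lit 4) (nat_lit 339) (nat_lit 210) (nat_lit 171))) (XT.nd (nat_lit 78) (nat_lit 0) (nat_lit 0) (XT.lf (nat_lit 0) (nat_lit 118275380411) (nat_lit 76) (nat_lit 41040356065) (nat_lit 76) (nat_lit 35614535698) (nat_lit 1) (nat_lit 4) (nat_lit 2) (nat_lit 5) (nat_lit 2) (nat_lit 4) (nat_lit 340) (nat_lit 210) (nat_lit 170)) (XT.lf (nat_lit 0) (nat_lit 126593403204) (nat_lit 76) (nat_lit 41740493236) (nat_lit 76) (nat_lit 36271895902) (nat_lit 1) (nat_lit 4) (nat_lit 2) (nat_lit 5) (nat_lit 2) (nat_lit 4) (nat_lit 341) (nat_lit 210) (nat_lit 169)))) (XT.nd (nat_lit 156) (nat_lit 0) (nat_lit 0) (XT.nd (nat_lit 78) (nat_lit 0) (nat_lit 0) (XT.lf (nat_lit 0) (nat_lit 135302469983) (nat_lit 76) (nat_lit 42486344914) (nat_lit 76) (nat_lit 36977007611) (nat_lit 1) (nat_lit 4) (nat_lit 2) (nat_lit 5) (nat_lit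 2) (nat_lit 4) (nat_lit 342) (nat_lit 210) (nat_lit 168)) (XT.lf (nat_lit 0) (nat_lit 144423316619) (nat_lit 76) (nat_lit 43279686936) (nat_lit 76) (nat_lit 37731549663) (nat_lit 1) (nat_lit 4) (nat_lit 2) (nat_lit 5) (nat_lit 2) (nat_lit 4) (nat_lit 343) (nat_lit 210) (nat_lit 167))) (XT.nd (nat_lit 78) (nat_lit 0) (nat_lit 0) (XT.lf (nat_lit 0) (nat_lit 153977659414) (nat_lit 76) (nat_lit 44122408212) (nat_lit 76) (nat_lit 38537318586) (nat_lit 1) (nat_lit 4) (nat_lit 2) (nat_lit 5) (nat_lit 2) (nat_lit 4) (nat_lit 344) (nat_lit 210) (nat_lit 166)) (XT.nd (nat_lit 78) (nat_lit 0) (nat_lit 0) (XT.lf (nat_lit 0) (nat_lit 163988246804) (nat_lit 76) (nat_lit 45016515221) (nat_lit 76) (nat_lit 39396232879) (nat_lit 1) (nat_lit 4) (nat_lit 2) (nat_lit 5) (nat_lit 2) (nat_lit 4) (nat_lit 345) (nat_lit 210) (nat_lit 165)) (XT.lf (nat_lit 0) (nat_lit 174478913521) (nat_lit 76) (nat_lit 45964136790)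 (nat_lit 76) (nat_lit 40310337574) (nat_lit 1) (nat_lit 4) (nat_lit 2) (nat_lit 5) (nat_lit 2) (nat_lit 4) (nat_lit 346) (nat_lit 210) (nat_lit 164))))))) (XT.nd (nat_lit 624) (nat_lit 0) (nat_lit 0) (XT.nd (nat_lit 312) (nat_lit 0) (nat_lit 0) (XT.nd (nat_lit 156) (nat_lit 0) (nat_lit 0) (XT.nd (nat_lit 78) (nat_lit 0) (nat_lit 0) (XT.lf (nat_lit 0) (nat_lit 185474637342) (nat_lit 76) (nat_lit 46967529159) (nat_lit 76) (nat_lit 41281809112) (nat_lit 1) (nat_lit 4) (nat_lit 2) (nat_lit 5) (nat_lit 2) (nat_lit 4) (nat_lit 347) (nat_lit 210) (nat_lit 163)) (XT.lf (nat_lit 0) (nat_lit 197001598563) (nat_lit 76) (nat_lit 48029081359) (nat_lit 76) (nat_lit 42312960521) (nat_lit 1) (nat_lit 4) (nat_lit 2) (nat_lit 5) (nat_lit 2) (nat_lit 4) (nat_lit 348) (nat_lit 210) (nat_lit 162))) (XT.nd (nat_lit 78) (nat_lit 0) (nat_lit 0) (XT.lf (nat_lit 0) (nat_lit 209087242328) (nat_lit 76) (nat_lit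 49151320896) (nat_lit 76) (nat_lit 43406246922) (nat_lit 1) (nat_lit 4) (nat_lit 2) (nat_lit 5) (nat_lit 2) (nat_lit 4) (nat_lit 349) (nat_lit 210) (nat_lit 161)) (XT.lf (nat_lit 0) (nat_lit 221760343980) (nat_lit 76) (nat_lit 50336919767) (nat_lit 76) (nat_lit 44564271378) (nat_lit 1) (nat_lit 4) (nat_lit 2) (nat_lit 5) (nat_lit 2) (nat_lit 4) (nat_lit 350) (nat_lit 210) (nat_lit 160)))) (XT.nd (nat_lit 156) (nat_lit 0) (nat_lit 0) (XT.nd (nat_lit 78) (nat_lit 0) (nat_lit 0) (XT.lf (nat_lit 0) (nat_lit 235051077572) (nat_lit 76) (nat_lit 51588700827) (nat_lit 76) (nat_lit 45789791091) (nat_lit 1) (nat_lit 4) (nat_lit 2) (nat_lit 5) (nat_lit 2) (nat_lit 4) (nat_lit 351) (nat_lit 210) (nat_lit 159)) (XT.lf (nat_lit 0) (nat_lit 248991087706) (nat_lit 76) (nat_lit 52909644507) (nat_lit 76) (nat_lit 47085723965) (nat_lit 1) (nat_lit 4) (nat_lit 2) (nat_lit 5) (nat_lit 2) (nat_lit 4) (nat_lit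 352) (nat_lit 210) (nat_lit 158))) (XT.nd (nat_lit 78) (nat_lit 0) (nat_lit 0) (XT.lf (nat_lit 0) (nat_lit 263613564883) (nat_lit 76) (nat_lit 54302895912) (nat_lit 76) (nat_lit 48455155554) (nat_lit 1) (nat_lit 4) (nat_lit 2) (nat_lit 5) (nat_lit 2) (nat_lit 4) (nat_lit 353) (nat_lit 210) (nat_lit 157)) (XT.lf (nat_lit 0) (nat_lit 278953324525) (nat_lit 76) (nat_lit 55771772306) (nat_lit 76) (nat_lit 49901346409) (nat_lit 1) (nat_lit 4) (nat_lit 2) (nat_lit 5) (nat_lit 2) (nat_lit 4) (nat_lit 354) (nat_lit 210) (nat_lit 156))))) (XT.nd (nat_lit 312) (nat_lit 0) (nat_lit 0) (XT.nd (nat_lit 156) (nat_lit 0) (nat_lit 0) (XT.nd (nat_lit 78) (nat_lit 0) (nat_lit 0) (XT.lf (nat_lit 0) (nat_lit 295046889869) (nat_lit 76) (nat_lit 57319771015) (nat_lit 76) (nat_lit 51427739843) (nat_lit 1) (nat_lit 4) (nat_lit 2) (nat_lit 5) (nat_lit 2) (nat_lit 4) (nat_lit 355) (nat_lit 210) (nat_lit 155))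 (XT.lf (nat_lit 0) (nat_lit 311932578927) (nat_lit 76) (nat_lit 58950577749) (nat_lit 76) (nat_lit 53037970124) (nat_lit 1) (nat_lit 4) (nat_lit 2) (nat_lit 5) (nat_lit 2) (nat_lit 4) (nat_lit 356) (nat_lit 210) (nat_lit 154))) (XT.nd (nat_lit 78) (nat_lit 0) (nat_lit 0) (XT.lf (nat_lit 0) (nat_lit 329650595722) (nat_lit 76) (nat_lit 60668075382) (nat_lit 76) (nat_lit 54735871135) (nat_lit 1) (nat_lit 4) (nat_lit 2) (nat_lit 5) (nat_lit 2) (nat_lit 4) (nat_lit 357) (nat_lit 210) (nat_lit 153)) (XT.lf (nat_lit 0) (nat_lit 348243126008) (nat_lit 76) (nat_lit 62476353193) (nat_lit 76) (nat_lit 56525485498) (nat_lit 1) (nat_lit 4) (nat_lit 2) (nat_lit 5) (nat_lit 2) (nat_lit 4) (nat_lit 358) (nat_lit 210) (nat_lit 152)))) (XT.nd (nat_lit 156) (nat_lit 0) (nat_lit 0) (XT.nd (nat_lit 78) (nat_lit 0) (nat_lit 0) (XT.lf (nat_lit 0) (nat_lit 367754437713) (nat_lit 76) (nat_lit 64379716607)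 (nat_lit 76) (nat_lit 58411074198) (nat_lit 1) (nat_lit 4) (nat_lit 2) (nat_lit 5) (nat_lit 2) (nat_lit 4) (nat_lit 359) (nat_lit 210) (nat_lit 151)) (XT.lf (nat_lit 0) (nat_lit 388230986342) (nat_lit 76) (nat_lit 66382697441) (nat_lit 76) (nat_lit 60397126733) (nat_lit 1) (nat_lit 4) (nat_lit 2) (nat_lit 5) (nat_lit 2) (nat_lit 4) (nat_lit 360) (nat_lit 210) (nat_lit 150))) (XT.nd (nat_lit 78) (nat_lit 0) (nat_lit 0) (XT.lf (nat_lit 0) (nat_lit 409721525583) (nat_lit 76) (nat_lit 68490064696) (nat_lit 76) (nat_lit 62488371800) (nat_lit 1) (nat_lit 4) (nat_lit 2) (nat_lit 5) (nat_lit 2) (nat_lit 4) (nat_lit 361) (nat_lit 210) (nat_lit 149)) (XT.nd (nat_lit 32526) (nat_lit 0) (nat_lit 304) (XT.lf (nat_lit 0) (nat_lit 432277223385) (nat_lit 76) (nat_lit 70706835914) (nat_lit 76) (nat_lit 64689788552) (nat_lit 1) (nat_lit 4) (nat_lit 2) (nat_lit 5) (nat_lit 2) (nat_lit 4) (nat_lit 362)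 (nat_lit 210) (nat_lit 148)) (XT.lf (nat_lit 0) (nat_lit 6433517986) (nat_lit 152) (nat_lit 729427793) (nat_lit 0) (nat_lit 6433517986) (nat_lit 5) (nat_lit 5) (nat_lit 7) (nat_lit 4) (nat_lit 5) (nat_lit 4) (nat_lit 298) (nat_lit 211) (nat_lit 211))))))))
noncomputable def xc31 : XT := (XT.nd (nat_lit 1326) (nat_lit 76) (nat_lit 0) (XT.nd (nat_lit 624) (nat_lit 0) (nat_lit 0) (XT.nd (nat_lit 312) (nat_lit 152) (nat_lit 0) (XT.nd (nat_lit 156) (nat_lit 0) (nat_lit 0) (XT.nd (nat_lit 78) (nat_lit 0) (nat_lit 0) (XT.lf (nat_lit 0) (nat_lit 3650533476) (nat_lit 76) (nat_lit 12538089991) (nat_lit 76) (nat_lit 12206072815) (nat_lit 4) (nat_lit 4) (nat_lit 5) (nat_lit 5) (nat_lit 5) (nat_lit 4) (nat_lit 299) (nat_lit 211) (nat_lit 210)) (XT.lf (nat_lit 0) (nat_lit 8901253544) (nat_lit 76) (nat_lit 10703649541) (nat_lit 76) (nat_lit 10055425532) (nat_lit 4) (nat_lit 4) (nat_lit 5) (nat_lit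 5) (nat_lit 5) (nat_lit 4) (nat_lit 300) (nat_lit 211) (nat_lit 209))) (XT.nd (nat_lit 78) (nat_lit 0) (nat_lit 0) (XT.lf (nat_lit 0) (nat_lit 14257569976) (nat_lit 76) (nat_lit 8842908921) (nat_lit 76) (nat_lit 7893535546) (nat_lit 4) (nat_lit 4) (nat_lit 5) (nat_lit 5) (nat_lit 5) (nat_lit 4) (nat_lit 301) (nat_lit 211) (nat_lit 208)) (XT.lf (nat_lit 0) (nat_lit 19732235907) (nat_lit 76) (nat_lit 6951437796) (nat_lit 76) (nat_lit 5715255501) (nat_lit 4) (nat_lit 4) (nat_lit 5) (nat_lit 5) (nat_lit 5) (nat_lit 4) (nat_lit 302) (nat_lit 211) (nat_lit 207)))) (XT.nd (nat_lit 156) (nat_lit 152) (nat_lit 0) (XT.nd (nat_lit 78) (nat_lit 0) (nat_lit 0) (XT.lf (nat_lit 0) (nat_lit 25338286255) (nat_lit 76) (nat_lit 5024732663) (nat_lit 76) (nat_lit 3515399016) (nat_lit 4) (nat_lit 4) (nat_lit 5) (nat_lit 5) (nat_lit 5) (nat_lit 4) (nat_lit 303) (nat_lit 211) (nat_lit 206)) (XT.lf (nat_lit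 0) (nat_lit 31089068760) (nat_lit 76) (nat_lit 3058206129) (nat_lit 76) (nat_lit 1288728338) (nat_lit 4) (nat_lit 4) (nat_lit 5) (nat_lit 5) (nat_lit 5) (nat_lit 4) (nat_lit 304) (nat_lit 211) (nat_lit 205))) (XT.nd (nat_lit 78) (nat_lit 76) (nat_lit 0) (XT.lf (nat_lit 0) (nat_lit 939010212) (nat_lit 152) (nat_lit 92263184) (nat_lit 76) (nat_lit 36043362957) (nat_lit 3) (nat_lit 5) (nat_lit 5) (nat_lit 5) (nat_lit 4) (nat_lit 4) (nat_lit 305) (nat_lit 211) (nat_lit 204)) (XT.lf (nat_lit 0) (nat_lit 3247768752) (nat_lit 152) (nat_lit 34444004048) (nat_lit 0) (nat_lit 1101871107) (nat_lit 2) (nat_lit 5) (nat_lit 4) (nat_lit 4) (nat_lit 2) (nat_lit 4) (nat_lit 306) (nat_lit 211) (nat_lit 203))))) (XT.nd (nat_lit 312) (nat_lit 0) (nat_lit 0) (XT.nd (nat_lit 156) (nat_lit 0) (nat_lit 0) (XT.nd (nat_lit 78) (nat_lit 0) (nat_lit 0) (XT.lf (nat_lit 0) (nat_lit 5618165967) (nat_lit 152) (nat_lit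 31725018030) (nat_lit 0) (nat_lit 3258247090) (nat_lit 2) (nat_lit 5) (nat_lit 4) (nat_lit 4) (nat_lit 2) (nat_lit 4) (nat_lit 307) (nat_lit 211) (nat_lit 202)) (XT.lf (nat_lit 0) (nat_lit 8038232080) (nat_lit 152) (nat_lit 28990467286) (nat_lit 0) (nat_lit 5474483458) (nat_lit 2) (nat_lit 5) (nat_lit 4) (nat_lit 4) (nat_lit 2) (nat_lit 4) (nat_lit 308) (nat_lit 211) (nat_lit 201))) (XT.nd (nat_lit 78) (nat_lit 0) (nat_lit 0) (XT.lf (nat_lit 0) (nat_lit 10513729153) (nat_lit 152) (nat_lit 26233840982) (nat_lit 0) (nat_lit 7755856965) (nat_lit 2) (nat_lit 5) (nat_lit 4) (nat_lit 4) (nat_lit 2) (nat_lit 4) (nat_lit 309) (nat_lit 211) (nat_lit 200)) (XT.lf (nat_lit 0) (nat_lit 13050551227) (nat_lit 152) (nat_lit 23448575721) (nat_lit 0) (nat_lit 10107799453) (nat_lit 2) (nat_lit 5) (nat_lit 4) (nat_lit 4) (nat_lit 2) (nat_lit 4) (nat_lit 310) (nat_lit 211) (nat_lit 199)))) (XT.nd (nat_lit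 156) (nat_lit 0) (nat_lit 0) (XT.nd (nat_lit 78) (nat_lit 0) (nat_lit 0) (XT.lf (nat_lit 0) (nat_lit 15654738354) (nat_lit 152) (nat_lit 20628039920) (nat_lit 0) (nat_lit 12535910783) (nat_lit 2) (nat_lit 5) (nat_lit 4) (nat_lit 4) (nat_lit 2) (nat_lit 4) (nat_lit 311) (nat_lit 211) (nat_lit 198)) (XT.lf (nat_lit 0) (nat_lit 18332490981) (nat_lit 152) (nat_lit 17765518018) (nat_lit 0) (nat_lit 15045972174) (nat_lit 2) (nat_lit 5) (nat_lit 4) (nat_lit 4) (nat_lit 2) (nat_lit 4) (nat_lit 312) (nat_lit 211) (nat_lit 197))) (XT.nd (nat_lit 78) (nat_lit 0) (nat_lit 0) (XT.lf (nat_lit 0) (nat_lit 21090184708) (nat_lit 152) (nat_lit 14854194485) (nat_lit 0) (nat_lit 17643959963) (nat_lit 2) (nat_lit 5) (nat_lit 4) (nat_lit 4) (nat_lit 2) (nat_lit 4) (nat_lit 313) (nat_lit 211) (nat_lit 196)) (XT.nd (nat_lit 78) (nat_lit 0) (nat_lit 0) (XT.lf (nat_lit 0) (nat_lit 23934385473) (nat_lit 152)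 (nat_lit 11887137600) (nat_lit 0) (nat_lit 20336059835) (nat_lit 2) (nat_lit 5) (nat_lit 4) (nat_lit 4) (nat_lit 2) (nat_lit 4) (nat_lit 314) (nat_lit 211) (nat_lit 195)) (XT.lf (nat_lit 0) (nat_lit 26871865182) (nat_lit 152) (nat_lit 8857282941) (nat_lit 0) (nat_lit 23128681550) (nat_lit 2) (nat_lit 5) (nat_lit 4) (nat_lit 4) (nat_lit 2) (nat_lit 4) (nat_lit 315) (nat_lit 211) (nat_lit 194))))))) (XT.nd (nat_lit 624) (nat_lit 0) (nat_lit 0) (XT.nd (nat_lit 312) (nat_lit 0) (nat_lit 0) (XT.nd (nat_lit 156) (nat_lit 76) (nat_lit 0) (XT.nd (nat_lit 78) (nat_lit 0) (nat_lit 0) (XT.lf (nat_lit 0) (nat_lit 29909617836) (nat_lit 152) (nat_lit 5757416568) (nat_lit 0) (nat_lit 26028474209) (nat_lit 2) (nat_lit 5) (nat_lit 4) (nat_lit 4) (nat_lit 2) (nat_lit 4) (nat_lit 316) (nat_lit 211) (nat_lit 193)) (XT.lf (nat_lit 0) (nat_lit 33054876178) (nat_lit 152) (nat_lit 2580157847) (nat_lit 0)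 (nat_lit 29042342081) (nat_lit 2) (nat_lit 5) (nat_lit 4) (nat_lit 4) (nat_lit 2) (nat_lit 4) (nat_lit 317) (nat_lit 211) (nat_lit 192))) (XT.nd (nat_lit 78) (nat_lit 0) (nat_lit 0) (XT.lf (nat_lit 0) (nat_lit 704610043) (nat_lit 76) (nat_lit 35621519811) (nat_lit 76) (nat_lit 31483851933) (nat_lit 1) (nat_lit 4) (nat_lit 2) (nat_lit 5) (nat_lit 2) (nat_lit 4) (nat_lit 318) (nat_lit 211) (nat_lit 191)) (XT.lf (nat_lit 0) (nat_lit 4170479925) (nat_lit 76) (nat_lit 35592771518) (nat_lit 76) (nat_lit 31335928609) (nat_lit 1) (nat_lit 4) (nat_lit 2) (nat_lit 5) (nat_lit 2) (nat_lit 4) (nat_lit 319) (nat_lit 211) (nat_lit 190)))) (XT.nd (nat_lit 156) (nat_lit 0) (nat_lit 0) (XT.nd (nat_lit 78) (nat_lit 0) (nat_lit 0) (XT.lf (nat_lit 0) (nat_lit 7740392196) (nat_lit 76) (nat_lit 35592416917) (nat_lit 76) (nat_lit 31222073980) (nat_lit 1) (nat_lit 4) (nat_lit 2) (nat_lit 5) (nat_lit 2) (nat_lit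 4) (nat_lit 320) (nat_lit 211) (nat_lit 189)) (XT.lf (nat_lit 0) (nat_lit 11422846648) (nat_lit 76) (nat_lit 35620455165) (nat_lit 76) (nat_lit 31142016963) (nat_lit 1) (nat_lit 4) (nat_lit 2) (nat_lit 5) (nat_lit 2) (nat_lit 4) (nat_lit 321) (nat_lit 211) (nat_lit 188))) (XT.nd (nat_lit 78) (nat_lit 0) (nat_lit 0) (XT.lf (nat_lit 0) (nat_lit 15226611030) (nat_lit 76) (nat_lit 35676953021) (nat_lit 76) (nat_lit 31095566946) (nat_lit 1) (nat_lit 4) (nat_lit 2) (nat_lit 5) (nat_lit 2) (nat_lit 4) (nat_lit 322) (nat_lit 211) (nat_lit 187)) (XT.lf (nat_lit 0) (nat_lit 19160741924) (nat_lit 76) (nat_lit 35762045001) (nat_lit 76) (nat_lit 31082613335) (nat_lit 1) (nat_lit 4) (nat_lit 2) (nat_lit 5) (nat_lit 2) (nat_lit 4) (nat_lit 323) (nat_lit 211) (nat_lit 186))))) (XT.nd (nat_lit 312) (nat_lit 0) (nat_lit 0) (XT.nd (nat_lit 156) (nat_lit 0) (nat_lit 0) (XT.nd (nat_lit 78) (nat_lit 0)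 (nat_lit 0) (XT.lf (nat_lit 0) (nat_lit 23234606308) (nat_lit 76) (nat_lit 35875933708) (nat_lit 76) (nat_lit 31103125286) (nat_lit 1) (nat_lit 4) (nat_lit 2) (nat_lit 5) (nat_lit 2) (nat_lit 4) (nat_lit 324) (nat_lit 211) (nat_lit 185)) (XT.lf (nat_lit 0) (nat_lit 27457903858) (nat_lit 76) (nat_lit 36018890303) (nat_lit 76) (nat_lit 31157151639) (nat_lit 1) (nat_lit 4) (nat_lit 2) (nat_lit 5) (nat_lit 2) (nat_lit 4) (nat_lit 325) (nat_lit 211) (nat_lit 184))) (XT.nd (nat_lit 78) (nat_lit 0) (nat_lit 0) (XT.lf (nat_lit 0) (nat_lit 31840690046) (nat_lit 76) (nat_lit 36191255160) (nat_lit 76) (nat_lit 31244821028) (nat_lit 1) (nat_lit 4) (nat_lit 2) (nat_lit 5) (nat_lit 2) (nat_lit 4) (nat_lit 326) (nat_lit 211) (nat_lit 183)) (XT.lf (nat_lit 0) (nat_lit 36393400077) (nat_lit 76) (nat_lit 36393438672) (nat_lit 76) (nat_lit 31366342188) (nat_lit 1) (nat_lit 4) (nat_lit 2) (nat_lit 5)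 (nat_lit 2) (nat_lit 4) (nat_lit 327) (nat_lit 211) (nat_lit 182)))) (XT.nd (nat_lit 156) (nat_lit 0) (nat_lit 0) (XT.nd (nat_lit 78) (nat_lit 0) (nat_lit 0) (XT.lf (nat_lit 0) (nat_lit 41126873736) (nat_lit 76) (nat_lit 36625922227) (nat_lit 76) (nat_lit 31522004456) (nat_lit 1) (nat_lit 4) (nat_lit 2) (nat_lit 5) (nat_lit 2) (nat_lit 4) (nat_lit 328) (nat_lit 211) (nat_lit 181)) (XT.lf (nat_lit 0) (nat_lit 46052381199) (nat_lit 76) (nat_lit 36889259358) (nat_lit 76) (nat_lit 31712178457) (nat_lit 1) (nat_lit 4) (nat_lit 2) (nat_lit 5) (nat_lit 2) (nat_lit 4) (nat_lit 329) (nat_lit 211) (nat_lit 180))) (XT.nd (nat_lit 78) (nat_lit 0) (nat_lit 0) (XT.lf (nat_lit 0) (nat_lit 51181649864) (nat_lit 76) (nat_lit 37184077058) (nat_lit 76) (nat_lit 31937316985) (nat_lit 1) (nat_lit 4) (nat_lit 2) (nat_lit 5) (nat_lit 2) (nat_lit 4) (nat_lit 330) (nat_lit 211) (nat_lit 179)) (XT.nd (nat_lit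 78) (nat_lit 0) (nat_lit 0) (XT.lf (nat_lit 0) (nat_lit 56526892277) (nat_lit 76) (nat_lit 37511077275) (nat_lit 76) (nat_lit 32197956086) (nat_lit 1) (nat_lit 4) (nat_lit 2) (nat_lit 5) (nat_lit 2) (nat_lit 4) (nat_lit 331) (nat_lit 211) (nat_lit 178)) (XT.lf (nat_lit 0) (nat_lit 62100835203) (nat_lit 76) (nat_lit 37871038579) (nat_lit 76) (nat_lit 32494716327) (nat_lit 1) (nat_lit 4) (nat_lit 2) (nat_lit 5) (nat_lit 2) (nat_lit 4) (nat_lit 332) (nat_lit 211) (nat_lit 177))))))))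
noncomputable def xc32 : XT := (XT.nd (nat_lit 1248) (nat_lit 0) (nat_lit 0) (XT.nd (nat_lit 624) (nat_lit 0) (nat_lit 0) (XT.nd (nat_lit 312) (nat_lit 0) (nat_lit 0) (XT.nd (nat_lit 156) (nat_lit 0) (nat_lit 0) (XT.nd (nat_lit 78) (nat_lit 0) (nat_lit 0) (XT.lf (nat_lit 0) (nat_lit 67916749938) (nat_lit 76) (nat_lit 38264818023) (nat_lit 76) (nat_lit 32828304282) (nat_lit 1) (nat_lit 4) (nat_lit 2) (nat_lit 5) (nat_lit 2) (nat_lit 4) (nat_lit 333) (nat_lit 211) (nat_lit 176)) (XT.lf (nat_lit 0) (nat_lit 73988483895) (nat_lit 76) (nat_lit 38693353175) (nat_lit 76) (nat_lit 33199514207) (nat_lit 1) (nat_lit 4) (nat_lit 2) (nat_lit 5) (nat_lit 2) (nat_lit 4) (nat_lit 334) (nat_lit 211) (nat_lit 175))) (XT.nd (nat_lit 78) (nat_lit 0) (nat_lit 0) (XT.lf (nat_lit 0) (nat_lit 80330493585) (nat_lit 76) (nat_lit 39157664357) (nat_lit 76) (nat_lit 33609229935) (nat_lit 1) (nat_lit 4) (nat_lit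 2) (nat_lit 5) (nat_lit 2) (nat_lit 4) (nat_lit 335) (nat_lit 211) (nat_lit 174)) (XT.lf (nat_lit 0) (nat_lit 86957879031) (nat_lit 76) (nat_lit 39658857073) (nat_lit 76) (nat_lit 34058426981) (nat_lit 1) (nat_lit 4) (nat_lit 2) (nat_lit 5) (nat_lit 2) (nat_lit 4) (nat_lit 336) (nat_lit 211) (nat_lit 173)))) (XT.nd (nat_lit 156) (nat_lit 0) (nat_lit 0) (XT.nd (nat_lit 78) (nat_lit 0) (nat_lit 0) (XT.lf (nat_lit 0) (nat_lit 93886419722) (nat_lit 76) (nat_lit 40198124639) (nat_lit 76) (nat_lit 34548174860) (nat_lit 1) (nat_lit 4) (nat_lit 2) (nat_lit 5) (nat_lit 2) (nat_lit 4) (nat_lit 337) (nat_lit 211) (nat_lit 172)) (XT.lf (nat_lit 0) (nat_lit 101132612183) (nat_lit 76) (nat_lit 40776751024) (nat_lit 76) (nat_lit 35079639639) (nat_lit 1) (nat_lit 4) (nat_lit 2) (nat_lit 5) (nat_lit 2) (nat_lit 4) (nat_lit 338) (nat_lit 211) (nat_lit 171))) (XT.nd (nat_lit 78) (nat_lit 0) (nat_lit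 0) (XT.lf (nat_lit 0) (nat_lit 108713709254) (nat_lit 76) (nat_lit 41396113912) (nat_lit 76) (nat_lit 35654086710) (nat_lit 1) (nat_lit 4) (nat_lit 2) (nat_lit 5) (nat_lit 2) (nat_lit 4) (nat_lit 339) (nat_lit 211) (nat_lit 170)) (XT.lf (nat_lit 0) (nat_lit 116647761166) (nat_lit 76) (nat_lit 42057687974) (nat_lit 76) (nat_lit 36272883806) (nat_lit 1) (nat_lit 4) (nat_lit 2) (nat_lit 5) (nat_lit 2) (nat_lit 4) (nat_lit 340) (nat_lit 211) (nat_lit 169))))) (XT.nd (nat_lit 312) (nat_lit 0) (nat_lit 0) (XT.nd (nat_lit 156) (nat_lit 0) (nat_lit 0) (XT.nd (nat_lit 78) (nat_lit 0) (nat_lit 0) (XT.lf (nat_lit 0) (nat_lit 124953658518) (nat_lit 76) (nat_lit 42763048388) (nat_lit 76) (nat_lit 36937504251) (nat_lit 1) (nat_lit 4) (nat_lit 2) (nat_lit 5) (nat_lit 2) (nat_lit 4) (nat_lit 341) (nat_lit 211) (nat_lit 168)) (XT.lf (nat_lit 0) (nat_lit 133651177257) (nat_lit 76) (nat_lit 43513874583)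 (nat_lit 76) (nat_lit 37649530476) (nat_lit 1) (nat_lit 4) (nat_lit 2) (nat_lit 5) (nat_lit 2) (nat_lit 4) (nat_lit 342) (nat_lit 211) (nat_lit 167))) (XT.nd (nat_lit 78) (nat_lit 0) (nat_lit 0) (XT.lf (nat_lit 0) (nat_lit 142761025760) (nat_lit 76) (nat_lit 44311954240) (nat_lit 76) (nat_lit 38410657781) (nat_lit 1) (nat_lit 4) (nat_lit 2) (nat_lit 5) (nat_lit 2) (nat_lit 4) (nat_lit 343) (nat_lit 211) (nat_lit 166)) (XT.lf (nat_lit 0) (nat_lit 152304894143) (nat_lit 76) (nat_lit 45159187550) (nat_lit 76) (nat_lit 39222698374) (nat_lit 1) (nat_lit 4) (nat_lit 2) (nat_lit 5) (nat_lit 2) (nat_lit 4) (nat_lit 344) (nat_lit 211) (nat_lit 165)))) (XT.nd (nat_lit 156) (nat_lit 0) (nat_lit 0) (XT.nd (nat_lit 78) (nat_lit 0) (nat_lit 0) (XT.lf (nat_lit 0) (nat_lit 162305505902) (nat_lit 76) (nat_lit 46057591735) (nat_lit 76) (nat_lit 40087585685) (nat_lit 1) (nat_lit 4) (nat_lit 2) (nat_lit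 5) (nat_lit 2) (nat_lit 4) (nat_lit 345) (nat_lit 211) (nat_lit 164)) (XT.lf (nat_lit 0) (nat_lit 172786672018) (nat_lit 76) (nat_lit 47009305851) (nat_lit 76) (nat_lit 41007378970) (nat_lit 1) (nat_lit 4) (nat_lit 2) (nat_lit 5) (nat_lit 2) (nat_lit 4) (nat_lit 346) (nat_lit 211) (nat_lit 163))) (XT.nd (nat_lit 78) (nat_lit 0) (nat_lit 0) (XT.lf (nat_lit 0) (nat_lit 183773347648) (nat_lit 76) (nat_lit 48016595885) (nat_lit 76) (nat_lit 41984268212) (nat_lit 1) (nat_lit 4) (nat_lit 2) (nat_lit 5) (nat_lit 2) (nat_lit 4) (nat_lit 347) (nat_lit 211) (nat_lit 162)) (XT.lf (nat_lit 0) (nat_lit 195291691544) (nat_lit 76) (nat_lit 49081860146) (nat_lit 76) (nat_lit 43020579339) (nat_lit 1) (nat_lit 4) (nat_lit 2) (nat_lit 5) (nat_lit 2) (nat_lit 4) (nat_lit 348) (nat_lit 211) (nat_lit 161)))))) (XT.nd (nat_lit 624) (nat_lit 0) (nat_lit 0) (XT.nd (nat_lit 312) (nat_lit 0) (nat_lit 0) (XT.nd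 (nat_lit 156) (nat_lit 0) (nat_lit 0) (XT.nd (nat_lit 78) (nat_lit 0) (nat_lit 0) (XT.lf (nat_lit 0) (nat_lit 207369128333) (nat_lit 76) (nat_lit 50207634979) (nat_lit 76) (nat_lit 44118779757) (nat_lit 1) (nat_lit 4) (nat_lit 2) (nat_lit 5) (nat_lit 2) (nat_lit 4) (nat_lit 349) (nat_lit 211) (nat_lit 160)) (XT.lf (nat_lit 0) (nat_lit 220034413818) (nat_lit 76) (nat_lit 51396600799) (nat_lit 76) (nat_lit 45281484230) (nat_lit 1) (nat_lit 4) (nat_lit 2) (nat_lit 5) (nat_lit 2) (nat_lit 4) (nat_lit 350) (nat_lit 211) (nat_lit 159))) (XT.nd (nat_lit 78) (nat_lit 0) (nat_lit 0) (XT.lf (nat_lit 0) (nat_lit 233317703440) (nat_lit 76) (nat_lit 52651588478) (nat_lit 76) (nat_lit 46511461102) (nat_lit 1) (nat_lit 4) (nat_lit 2) (nat_lit 5) (nat_lit 2) (nat_lit 4) (nat_lit 351) (nat_lit 211) (nat_lit 158)) (XT.lf (nat_lit 0) (nat_lit 247250624080) (nat_lit 76) (nat_lit 53975586080) (nat_lit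 76) (nat_lit 47811638888) (nat_lit 1) (nat_lit 4) (nat_lit 2) (nat_lit 5) (nat_lit 2) (nat_lit 4) (nat_lit 352) (nat_lit 211) (nat_lit 157)))) (XT.nd (nat_lit 156) (nat_lit 0) (nat_lit 0) (XT.nd (nat_lit 78) (nat_lit 0) (nat_lit 0) (XT.lf (nat_lit 0) (nat_lit 261866349357) (nat_lit 76) (nat_lit 55371745982) (nat_lit 76) (nat_lit 49185113251) (nat_lit 1) (nat_lit 4) (nat_lit 2) (nat_lit 5) (nat_lit 2) (nat_lit 4) (nat_lit 353) (nat_lit 211) (nat_lit 156)) (XT.lf (nat_lit 0) (nat_lit 277199678618) (nat_lit 76) (nat_lit 56843392374) (nat_lit 76) (nat_lit 50635154368) (nat_lit 1) (nat_lit 4) (nat_lit 2) (nat_lit 5) (nat_lit 2) (nat_lit 4) (nat_lit 354) (nat_lit 211) (nat_lit 155))) (XT.nd (nat_lit 78) (nat_lit 0) (nat_lit 0) (XT.lf (nat_lit 0) (nat_lit 293287119790) (nat_lit 76) (nat_lit 58394029175) (nat_lit 76) (nat_lit 52165214716) (nat_lit 1) (nat_lit 4) (nat_lit 2) (nat_lit 5) (nat_lit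 2) (nat_lit 4) (nat_lit 355) (nat_lit 211) (nat_lit 154)) (XT.lf (nat_lit 0) (nat_lit 310166976304) (nat_lit 76) (nat_lit 60027348378) (nat_lit 76) (nat_lit 53778937298) (nat_lit 1) (nat_lit 4) (nat_lit 2) (nat_lit 5) (nat_lit 2) (nat_lit 4) (nat_lit 356) (nat_lit 211) (nat_lit 153))))) (XT.nd (nat_lit 312) (nat_lit 0) (nat_lit 0) (XT.nd (nat_lit 156) (nat_lit 0) (nat_lit 0) (XT.nd (nat_lit 78) (nat_lit 0) (nat_lit 0) (XT.lf (nat_lit 0) (nat_lit 327879438295) (nat_lit 76) (nat_lit 61747238839) (nat_lit 76) (nat_lit 55480164310) (nat_lit 1) (nat_lit 4) (nat_lit 2) (nat_lit 5) (nat_lit 2) (nat_lit 4) (nat_lit 357) (nat_lit 211) (nat_lit 152)) (XT.lf (nat_lit 0) (nat_lit 346466678290) (nat_lit 76) (nat_lit 63557795535) (nat_lit 76) (nat_lit 57272946292) (nat_lit 1) (nat_lit 4) (nat_lit 2) (nat_lit 5) (nat_lit 2) (nat_lit 4) (nat_lit 358) (nat_lit 211) (nat_lit 151))) (XT.nd (nat_lit 78)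 (nat_lit 0) (nat_lit 0) (XT.lf (nat_lit 0) (nat_lit 365972951624) (nat_lit 76) (nat_lit 65463329314) (nat_lit 76) (nat_lit 59161551773) (nat_lit 1) (nat_lit 4) (nat_lit 2) (nat_lit 5) (nat_lit 2) (nat_lit 4) (nat_lit 359) (nat_lit 211) (nat_lit 150)) (XT.lf (nat_lit 0) (nat_lit 386444701805) (nat_lit 76) (nat_lit 67468377162) (nat_lit 76) (nat_lit 61150477432) (nat_lit 1) (nat_lit 4) (nat_lit 2) (nat_lit 5) (nat_lit 2) (nat_lit 4) (nat_lit 360) (nat_lit 211) (nat_lit 149)))) (XT.nd (nat_lit 32448) (nat_lit 0) (nat_lit 304) (XT.nd (nat_lit 78) (nat_lit 0) (nat_lit 0) (XT.lf (nat_lit 0) (nat_lit 407930671094) (nat_lit 76) (nat_lit 69577713003) (nat_lit 76) (nat_lit 63244458807) (nat_lit 1) (nat_lit 4) (nat_lit 2) (nat_lit 5) (nat_lit 2) (nat_lit 4) (nat_lit 361) (nat_lit 211) (nat_lit 148)) (XT.lf (nat_lit 0) (nat_lit 430482016561) (nat_lit 76) (nat_lit 71796359064) (nat_lit 76) (nat_lit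 65448481568) (nat_lit 1) (nat_lit 4) (nat_lit 2) (nat_lit 5) (nat_lit 2) (nat_lit 4) (nat_lit 362) (nat_lit 211) (nat_lit 147))) (XT.nd (nat_lit 78) (nat_lit 0) (nat_lit 0) (XT.lf (nat_lit 0) (nat_lit 3457473709) (nat_lit 152) (nat_lit 5567592065) (nat_lit 0) (nat_lit 3457473709) (nat_lit 5) (nat_lit 5) (nat_lit 7) (nat_lit 4) (nat_lit 5) (nat_lit 4) (nat_lit 296) (nat_lit 212) (nat_lit 212)) (XT.nd (nat_lit 78) (nat_lit 0) (nat_lit 0) (XT.lf (nat_lit 0) (nat_lit 10012997458) (nat_lit 152) (nat_lit 6373176764) (nat_lit 0) (nat_lit 9664379424) (nat_lit 5) (nat_lit 5) (nat_lit 7) (nat_lit 4) (nat_lit 5) (nat_lit 4) (nat_lit 297) (nat_lit 212) (nat_lit 211)) (XT.lf (nat_lit 0) (nat_lit 13167753061) (nat_lit 152) (nat_lit 1540557071) (nat_lit 0) (nat_lit 12487117851) (nat_lit 5) (nat_lit 5) (nat_lit 7) (nat_lit 4) (nat_lit 5) (nat_lit 4) (nat_lit 298) (nat_lit 212) (nat_lit 210))))))))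
noncomputable def xc33 : XT := (XT.nd (nat_lit 1326) (nat_lit 76) (nat_lit 0) (XT.nd (nat_lit 624) (nat_lit 0) (nat_lit 0) (XT.nd (nat_lit 312) (nat_lit 152) (nat_lit 0) (XT.nd (nat_lit 156) (nat_lit 0) (nat_lit 0) (XT.nd (nat_lit 78) (nat_lit 0) (nat_lit 0) (XT.lf (nat_lit 0) (nat_lit 3485746855) (nat_lit 76) (nat_lit 12955400970) (nat_lit 76) (nat_lit 11958558926) (nat_lit 4) (nat_lit 4) (nat_lit 5) (nat_lit 5) (nat_lit 5) (nat_lit 4) (nat_lit 299) (nat_lit 212) (nat_lit 209)) (XT.lf (nat_lit 0) (nat_lit 8659911001) (nat_lit 76) (nat_lit 11152873619) (nat_lit 76) (nat_lit 9854882210) (nat_lit 4) (nat_lit 4) (nat_lit 5) (nat_lit 5) (nat_lit 5) (nat_lit 4) (nat_lit 300) (nat_lit 212) (nat_lit 208))) (XT.nd (nat_lit 78) (nat_lit 0) (nat_lit 0) (XT.lf (nat_lit 0) (nat_lit 13943317032) (nat_lit 76) (nat_lit 9322526426) (nat_lit 76) (nat_lit 7737726097) (nat_lit 4) (nat_lit 4) (nat_lit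 5) (nat_lit 5) (nat_lit 5) (nat_lit 4) (nat_lit 301) (nat_lit 212) (nat_lit 207)) (XT.lf (nat_lit 0) (nat_lit 19348544485) (nat_lit 76) (nat_lit 7460001422) (nat_lit 76) (nat_lit 5602049741) (nat_lit 4) (nat_lit 4) (nat_lit 5) (nat_lit 5) (nat_lit 5) (nat_lit 4) (nat_lit 302) (nat_lit 212) (nat_lit 206)))) (XT.nd (nat_lit 156) (nat_lit 152) (nat_lit 0) (XT.nd (nat_lit 78) (nat_lit 0) (nat_lit 0) (XT.lf (nat_lit 0) (nat_lit 24888462951) (nat_lit 76) (nat_lit 5560864024) (nat_lit 76) (nat_lit 3442768198) (nat_lit 4) (nat_lit 4) (nat_lit 5) (nat_lit 5) (nat_lit 5) (nat_lit 4) (nat_lit 303) (nat_lit 212) (nat_lit 205)) (XT.lf (nat_lit 0) (nat_lit 30576262709) (nat_lit 76) (nat_lit 3620592475) (nat_lit 76) (nat_lit 1254740322) (nat_lit 4) (nat_lit 4) (nat_lit 5) (nat_lit 5) (nat_lit 5) (nat_lit 4) (nat_lit 304) (nat_lit 212) (nat_lit 204))) (XT.nd (nat_lit 78) (nat_lit 76) (nat_lit 0) (XT.lf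 (nat_lit 0) (nat_lit 936285646) (nat_lit 152) (nat_lit 682424985) (nat_lit 76) (nat_lit 35473344045) (nat_lit 3) (nat_lit 5) (nat_lit 5) (nat_lit 5) (nat_lit 4) (nat_lit 4) (nat_lit 305) (nat_lit 212) (nat_lit 203)) (XT.lf (nat_lit 0) (nat_lit 3190932734) (nat_lit 152) (nat_lit 35123906331) (nat_lit 0) (nat_lit 498996682) (nat_lit 2) (nat_lit 5) (nat_lit 4) (nat_lit 4) (nat_lit 2) (nat_lit 4) (nat_lit 306) (nat_lit 212) (nat_lit 202))))) (XT.nd (nat_lit 312) (nat_lit 0) (nat_lit 0) (XT.nd (nat_lit 156) (nat_lit 0) (nat_lit 0) (XT.nd (nat_lit 78) (nat_lit 0) (nat_lit 0) (XT.lf (nat_lit 0) (nat_lit 5527744114) (nat_lit 152) (nat_lit 32463644496) (nat_lit 0) (nat_lit 2631978317) (nat_lit 2) (nat_lit 5) (nat_lit 4) (nat_lit 4) (nat_lit 2) (nat_lit 4) (nat_lit 307) (nat_lit 212) (nat_lit 201)) (XT.lf (nat_lit 0) (nat_lit 7915823716) (nat_lit 152) (nat_lit 29785021546) (nat_lit 0) (nat_lit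 4825934354) (nat_lit 2) (nat_lit 5) (nat_lit 4) (nat_lit 4) (nat_lit 2) (nat_lit 4) (nat_lit 308) (nat_lit 212) (nat_lit 200))) (XT.nd (nat_lit 78) (nat_lit 0) (nat_lit 0) (XT.lf (nat_lit 0) (nat_lit 10360857447) (nat_lit 152) (nat_lit 27081659807) (nat_lit 0) (nat_lit 7086088497) (nat_lit 2) (nat_lit 5) (nat_lit 4) (nat_lit 4) (nat_lit 2) (nat_lit 4) (nat_lit 309) (nat_lit 212) (nat_lit 199)) (XT.lf (nat_lit 0) (nat_lit 12868666813) (nat_lit 152) (nat_lit 24347122704) (nat_lit 0) (nat_lit 9417822067) (nat_lit 2) (nat_lit 5) (nat_lit 4) (nat_lit 4) (nat_lit 2) (nat_lit 4) (nat_lit 310) (nat_lit 212) (nat_lit 198)))) (XT.nd (nat_lit 156) (nat_lit 0) (nat_lit 0) (XT.nd (nat_lit 78) (nat_lit 0) (nat_lit 0) (XT.lf (nat_lit 0) (nat_lit 15445222791) (nat_lit 152) (nat_lit 21574899434) (nat_lit 0) (nat_lit 11826686809) (nat_lit 2) (nat_lit 5) (nat_lit 4) (nat_lit 4) (nat_lit 2) (nat_lit 4)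 (nat_lit 311) (nat_lit 212) (nat_lit 197)) (XT.lf (nat_lit 0) (nat_lit 18096660037) (nat_lit 152) (nat_lit 18758389465) (nat_lit 0) (nat_lit 14318418116) (nat_lit 2) (nat_lit 5) (nat_lit 4) (nat_lit 4) (nat_lit 2) (nat_lit 4) (nat_lit 312) (nat_lit 212) (nat_lit 196))) (XT.nd (nat_lit 78) (nat_lit 0) (nat_lit 0) (XT.lf (nat_lit 0) (nat_lit 20829291496) (nat_lit 152) (nat_lit 15890886823) (nat_lit 0) (nat_lit 16898948682) (nat_lit 2) (nat_lit 5) (nat_lit 4) (nat_lit 4) (nat_lit 2) (nat_lit 4) (nat_lit 313) (nat_lit 212) (nat_lit 195)) (XT.nd (nat_lit 78) (nat_lit 0) (nat_lit 0) (XT.lf (nat_lit 0) (nat_lit 23649623435) (nat_lit 152) (nat_lit 12965564118) (nat_lit 0) (nat_lit 19574422627) (nat_lit 2) (nat_lit 5) (nat_lit 4) (nat_lit 4) (nat_lit 2) (nat_lit 4) (nat_lit 314) (nat_lit 212) (nat_lit 194)) (XT.lf (nat_lit 0) (nat_lit 26564370929) (nat_lit 152) (nat_lit 9975456298) (nat_lit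 0) (nat_lit 22351210127) (nat_lit 2) (nat_lit 5) (nat_lit 4) (nat_lit 4) (nat_lit 2) (nat_lit 4) (nat_lit 315) (nat_lit 212) (nat_lit 193))))))) (XT.nd (nat_lit 624) (nat_lit 0) (nat_lit 0) (XT.nd (nat_lit 312) (nat_lit 0) (nat_lit 0) (XT.nd (nat_lit 156) (nat_lit 76) (nat_lit 0) (XT.nd (nat_lit 78) (nat_lit 0) (nat_lit 0) (XT.lf (nat_lit 0) (nat_lit 29580473854) (nat_lit 152) (nat_lit 6913444057) (nat_lit 0) (nat_lit 25235922581) (nat_lit 2) (nat_lit 5) (nat_lit 4) (nat_lit 4) (nat_lit 2) (nat_lit 4) (nat_lit 316) (nat_lit 212) (nat_lit 192)) (XT.lf (nat_lit 0) (nat_lit 32705113406) (nat_lit 152) (nat_lit 3772236891) (nat_lit 0) (nat_lit 28235428352) (nat_lit 2) (nat_lit 5) (nat_lit 4) (nat_lit 4) (nat_lit 2) (nat_lit 4) (nat_lit 317) (nat_lit 212) (nat_lit 191))) (XT.nd (nat_lit 78) (nat_lit 76) (nat_lit 0) (XT.lf (nat_lit 0) (nat_lit 35945729204) (nat_lit 152) (nat_lit 544355735)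 (nat_lit 0) (nat_lit 31356869119) (nat_lit 2) (nat_lit 5) (nat_lit 4) (nat_lit 4) (nat_lit 2) (nat_lit 4) (nat_lit 318) (nat_lit 212) (nat_lit 190)) (XT.lf (nat_lit 0) (nat_lit 2869734260) (nat_lit 76) (nat_lit 36485107333) (nat_lit 76) (nat_lit 31782747220) (nat_lit 1) (nat_lit 4) (nat_lit 2) (nat_lit 5) (nat_lit 2) (nat_lit 4) (nat_lit 319) (nat_lit 212) (nat_lit 189)))) (XT.nd (nat_lit 156) (nat_lit 0) (nat_lit 0) (XT.nd (nat_lit 78) (nat_lit 0) (nat_lit 0) (XT.lf (nat_lit 0) (nat_lit 6407474126) (nat_lit 76) (nat_lit 36498611551) (nat_lit 76) (nat_lit 31688156173) (nat_lit 1) (nat_lit 4) (nat_lit 2) (nat_lit 5) (nat_lit 2) (nat_lit 4) (nat_lit 320) (nat_lit 212) (nat_lit 188)) (XT.lf (nat_lit 0) (nat_lit 10059288191) (nat_lit 76) (nat_lit 36539848675) (nat_lit 76) (nat_lit 31626445425) (nat_lit 1) (nat_lit 4) (nat_lit 2) (nat_lit 5) (nat_lit 2) (nat_lit 4) (nat_lit 321) (nat_lit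 212) (nat_lit 187))) (XT.nd (nat_lit 78) (nat_lit 0) (nat_lit 0) (XT.lf (nat_lit 0) (nat_lit 13833871252) (nat_lit 76) (nat_lit 36608916888) (nat_lit 76) (nat_lit 31597468045) (nat_lit 1) (nat_lit 4) (nat_lit 2) (nat_lit 5) (nat_lit 2) (nat_lit 4) (nat_lit 322) (nat_lit 212) (nat_lit 186)) (XT.lf (nat_lit 0) (nat_lit 17740210412) (nat_lit 76) (nat_lit 36705980637) (nat_lit 76) (nat_lit 31601155041) (nat_lit 1) (nat_lit 4) (nat_lit 2) (nat_lit 5) (nat_lit 2) (nat_lit 4) (nat_lit 323) (nat_lit 212) (nat_lit 185))))) (XT.nd (nat_lit 312) (nat_lit 0) (nat_lit 0) (XT.nd (nat_lit 156) (nat_lit 0) (nat_lit 0) (XT.nd (nat_lit 78) (nat_lit 0) (nat_lit 0) (XT.lf (nat_lit 0) (nat_lit 21787606478) (nat_lit 76) (nat_lit 36831271028) (nat_lit 76) (nat_lit 31637515189) (nat_lit 1) (nat_lit 4) (nat_lit 2) (nat_lit 5) (nat_lit 2) (nat_lit 4) (nat_lit 324) (nat_lit 212) (nat_lit 184)) (XT.lf (nat_lit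 0) (nat_lit 25985696106) (nat_lit 76) (nat_lit 36985086371) (nat_lit 76) (nat_lit 31706635063) (nat_lit 1) (nat_lit 4) (nat_lit 2) (nat_lit 5) (nat_lit 2) (nat_lit 4) (nat_lit 325) (nat_lit 212) (nat_lit 183))) (XT.nd (nat_lit 78) (nat_lit 0) (nat_lit 0) (XT.lf (nat_lit 0) (nat_lit 30344474750) (nat_lit 76) (nat_lit 37167792892) (nat_lit 76) (nat_lit 31808679233) (nat_lit 1) (nat_lit 4) (nat_lit 2) (nat_lit 5) (nat_lit 2) (nat_lit 4) (nat_lit 326) (nat_lit 212) (nat_lit 182)) (XT.lf (nat_lit 0) (nat_lit 34874320452) (nat_lit 76) (nat_lit 37379825608) (nat_lit 76) (nat_lit 31943890661) (nat_lit 1) (nat_lit 4) (nat_lit 2) (nat_lit 5) (nat_lit 2) (nat_lit 4) (nat_lit 327) (nat_lit 212) (nat_lit 181)))) (XT.nd (nat_lit 156) (nat_lit 0) (nat_lit 0) (XT.nd (nat_lit 78) (nat_lit 0) (nat_lit 0) (XT.lf (nat_lit 0) (nat_lit 39586018560) (nat_lit 76) (nat_lit 37621689357) (nat_lit 76) (nat_lit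 32112591280) (nat_lit 1) (nat_lit 4) (nat_lit 2) (nat_lit 5) (nat_lit 2) (nat_lit 4) (nat_lit 328) (nat_lit 212) (nat_lit 180)) (XT.lf (nat_lit 0) (nat_lit 44490787403) (nat_lit 76) (nat_lit 37893960007) (nat_lit 76) (nat_lit 32315182758) (nat_lit 1) (nat_lit 4) (nat_lit 2) (nat_lit 5) (nat_lit 2) (nat_lit 4) (nat_lit 329) (nat_lit 212) (nat_lit 179))) (XT.nd (nat_lit 78) (nat_lit 0) (nat_lit 0) (XT.lf (nat_lit 0) (nat_lit 49600305002) (nat_lit 76) (nat_lit 38197285820) (nat_lit 76) (nat_lit 32552147455) (nat_lit 1) (nat_lit 4) (nat_lit 2) (nat_lit 5) (nat_lit 2) (nat_lit 4) (nat_lit 330) (nat_lit 212) (nat_lit 178)) (XT.nd (nat_lit 78) (nat_lit 0) (nat_lit 0) (XT.lf (nat_lit 0) (nat_lit 54926736875) (nat_lit 76) (nat_lit 38532389001) (nat_lit 76) (nat_lit 32824049573) (nat_lit 1) (nat_lit 4) (nat_lit 2) (nat_lit 5) (nat_lit 2) (nat_lit 4) (nat_lit 331) (nat_lit 212) (nat_lit 177))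 (XT.lf (nat_lit 0) (nat_lit 60482765002) (nat_lit 76) (nat_lit 38900067414) (nat_lit 76) (nat_lit 33131536498) (nat_lit 1) (nat_lit 4) (nat_lit 2) (nat_lit 5) (nat_lit 2) (nat_lit 4) (nat_lit 332) (nat_lit 212) (nat_lit 176))))))))
noncomputable def xc34 : XT := (XT.nd (nat_lit 1326) (nat_lit 0) (nat_lit 0) (XT.nd (nat_lit 624) (nat_lit 0) (nat_lit 0) (XT.nd (nat_lit 312) (nat_lit 0) (nat_lit 0) (XT.nd (nat_lit 156) (nat_lit 0) (nat_lit 0) (XT.nd (nat_lit 78) (nat_lit 0) (nat_lit 0) (XT.lf (nat_lit 0) (nat_lit 66281618022) (nat_lit 76) (nat_lit 39301196485) (nat_lit 76) (nat_lit 33475340342) (nat_lit 1) (nat_lit 4) (nat_lit 2) (nat_lit 5) (nat_lit 2) (nat_lit 4) (nat_lit 333) (nat_lit 212) (nat_lit 175)) (XT.lf (nat_lit 0) (nat_lit 72337102728) (nat_lit 76) (nat_lit 39736731283) (nat_lit 76) (nat_lit 33856279685) (nat_lit 1) (nat_lit 4) (nat_lit 2) (nat_lit 5) (nat_lit 2) (nat_lit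 4) (nat_lit 334) (nat_lit 212) (nat_lit 174))) (XT.nd (nat_lit 78) (nat_lit 0) (nat_lit 0) (XT.lf (nat_lit 0) (nat_lit 78663636941) (nat_lit 76) (nat_lit 40207708794) (nat_lit 76) (nat_lit 34275261526) (nat_lit 1) (nat_lit 4) (nat_lit 2) (nat_lit 5) (nat_lit 2) (nat_lit 4) (nat_lit 335) (nat_lit 212) (nat_lit 173)) (XT.lf (nat_lit 0) (nat_lit 85276283837) (nat_lit 76) (nat_lit 40715250395) (nat_lit 76) (nat_lit 34733283440) (nat_lit 1) (nat_lit 4) (nat_lit 2) (nat_lit 5) (nat_lit 2) (nat_lit 4) (nat_lit 336) (nat_lit 212) (nat_lit 172)))) (XT.nd (nat_lit 156) (nat_lit 0) (nat_lit 0) (XT.nd (nat_lit 78) (nat_lit 0) (nat_lit 0) (XT.lf (nat_lit 0) (nat_lit 92190787814) (nat_lit 76) (nat_lit 41260564518) (nat_lit 76) (nat_lit 35231435956) (nat_lit 1) (nat_lit 4) (nat_lit 2) (nat_lit 5) (nat_lit 2) (nat_lit 4) (nat_lit 337) (nat_lit 212) (nat_lit 171)) (XT.lf (nat_lit 0) (nat_lit 99423611976)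 (nat_lit 76) (nat_lit 41844949529) (nat_lit 76) (nat_lit 35770905152) (nat_lit 1) (nat_lit 4) (nat_lit 2) (nat_lit 5) (nat_lit 2) (nat_lit 4) (nat_lit 338) (nat_lit 212) (nat_lit 170))) (XT.nd (nat_lit 78) (nat_lit 0) (nat_lit 0) (XT.lf (nat_lit 0) (nat_lit 106991977333) (nat_lit 76) (nat_lit 42469796821) (nat_lit 76) (nat_lit 36352975477) (nat_lit 1) (nat_lit 4) (nat_lit 2) (nat_lit 5) (nat_lit 2) (nat_lit 4) (nat_lit 339) (nat_lit 212) (nat_lit 169)) (XT.lf (nat_lit 0) (nat_lit 114913903803) (nat_lit 76) (nat_lit 43136594126) (nat_lit 76) (nat_lit 36979032814) (nat_lit 1) (nat_lit 4) (nat_lit 2) (nat_lit 5) (nat_lit 2) (nat_lit 4) (nat_lit 340) (nat_lit 212) (nat_lit 168))))) (XT.nd (nat_lit 312) (nat_lit 0) (nat_lit 0) (XT.nd (nat_lit 156) (nat_lit 0) (nat_lit 0) (XT.nd (nat_lit 78) (nat_lit 0) (nat_lit 0) (XT.lf (nat_lit 0) (nat_lit 123208253116) (nat_lit 76) (nat_lit 43846929058)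 (nat_lit 76) (nat_lit 37650567775) (nat_lit 1) (nat_lit 4) (nat_lit 2) (nat_lit 5) (nat_lit 2) (nat_lit 4) (nat_lit 341) (nat_lit 212) (nat_lit 167)) (XT.lf (nat_lit 0) (nat_lit 131894773722) (nat_lit 76) (nat_lit 44602492888) (nat_lit 76) (nat_lit 38369179253) (nat_lit 1) (nat_lit 4) (nat_lit 2) (nat_lit 5) (nat_lit 2) (nat_lit 4) (nat_lit 342) (nat_lit 212) (nat_lit 166))) (XT.nd (nat_lit 78) (nat_lit 0) (nat_lit 0) (XT.lf (nat_lit 0) (nat_lit 140994147813) (nat_lit 76) (nat_lit 45405084580) (nat_lit 76) (nat_lit 39136578228) (nat_lit 1) (nat_lit 4) (nat_lit 2) (nat_lit 5) (nat_lit 2) (nat_lit 4) (nat_lit 343) (nat_lit 212) (nat_lit 165)) (XT.lf (nat_lit 0) (nat_lit 150528040565) (nat_lit 76) (nat_lit 46256615064) (nat_lit 76) (nat_lit 39954591840) (nat_lit 1) (nat_lit 4) (nat_lit 2) (nat_lit 5) (nat_lit 2) (nat_lit 4) (nat_lit 344) (nat_lit 212) (nat_lit 164)))) (XT.nd (nat_lit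 156) (nat_lit 0) (nat_lit 0) (XT.nd (nat_lit 78) (nat_lit 0) (nat_lit 0) (XT.lf (nat_lit 0) (nat_lit 160519151724) (nat_lit 76) (nat_lit 47159111796) (nat_lit 76) (nat_lit 40825167740) (nat_lit 1) (nat_lit 4) (nat_lit 2) (nat_lit 5) (nat_lit 2) (nat_lit 4) (nat_lit 345) (nat_lit 212) (nat_lit 163)) (XT.lf (nat_lit 0) (nat_lit 170991269649) (nat_lit 76) (nat_lit 48114723577) (nat_lit 76) (nat_lit 41750378729) (nat_lit 1) (nat_lit 4) (nat_lit 2) (nat_lit 5) (nat_lit 2) (nat_lit 4) (nat_lit 346) (nat_lit 212) (nat_lit 162))) (XT.nd (nat_lit 78) (nat_lit 0) (nat_lit 0) (XT.lf (nat_lit 0) (nat_lit 181969327954) (nat_lit 76) (nat_lit 49125725673) (nat_lit 76) (nat_lit 42732427689) (nat_lit 1) (nat_lit 4) (nat_lit 2) (nat_lit 5) (nat_lit 2) (nat_lit 4) (nat_lit 347) (nat_lit 212) (nat_lit 161)) (XT.nd (nat_lit 78) (nat_lit 0) (nat_lit 0) (XT.lf (nat_lit 0) (nat_lit 193479464873) (nat_lit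 76) (nat_lit 50194525231) (nat_lit 76) (nat_lit 43773652833) (nat_lit 1) (nat_lit 4) (nat_lit 2) (nat_lit 5) (nat_lit 2) (nat_lit 4) (nat_lit 348) (nat_lit 212) (nat_lit 160)) (XT.lf (nat_lit 0) (nat_lit 205549085495) (nat_lit 76) (nat_lit 51323667013) (nat_lit 76) (nat_lit 44876533268) (nat_lit 1) (nat_lit 4) (nat_lit 2) (nat_lit 5) (nat_lit 2) (nat_lit 4) (nat_lit 349) (nat_lit 212) (nat_lit 159))))))) (XT.nd (nat_lit 624) (nat_lit 0) (nat_lit 0) (XT.nd (nat_lit 312) (nat_lit 0) (nat_lit 0) (XT.nd (nat_lit 156) (nat_lit 0) (nat_lit 0) (XT.nd (nat_lit 78) (nat_lit 0) (nat_lit 0) (XT.lf (nat_lit 0) (nat_lit 218206927010) (nat_lit 76) (nat_lit 52515839451) (nat_lit 76) (nat_lit 46043694899) (nat_lit 1) (nat_lit 4) (nat_lit 2) (nat_lit 5) (nat_lit 2) (nat_lit 4) (nat_lit 350) (nat_lit 212) (nat_lit 158)) (XT.lf (nat_lit 0) (nat_lit 231483127138) (nat_lit 76) (nat_lit 53773881051) (nat_lit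 76) (nat_lit 47277916684) (nat_lit 1) (nat_lit 4) (nat_lit 2) (nat_lit 5) (nat_lit 2) (nat_lit 4) (nat_lit 351) (nat_lit 212) (nat_lit 157))) (XT.nd (nat_lit 78) (nat_lit 0) (nat_lit 0) (XT.lf (nat_lit 0) (nat_lit 245409295878) (nat_lit 76) (nat_lit 55100787151) (nat_lit 76) (nat_lit 48582137245) (nat_lit 1) (nat_lit 4) (nat_lit 2) (nat_lit 5) (nat_lit 2) (nat_lit 4) (nat_lit 352) (nat_lit 212) (nat_lit 156)) (XT.lf (nat_lit 0) (nat_lit 260018590775) (nat_lit 76) (nat_lit 56499717050) (nat_lit 76) (nat_lit 49959461869) (nat_lit 1) (nat_lit 4) (nat_lit 2) (nat_lit 5) (nat_lit 2) (nat_lit 4) (nat_lit 353) (nat_lit 212) (nat_lit 155)))) (XT.nd (nat_lit 156) (nat_lit 0) (nat_lit 0) (XT.nd (nat_lit 78) (nat_lit 0) (nat_lit 0) (XT.lf (nat_lit 0) (nat_lit 275345795864) (nat_lit 76) (nat_lit 57974001535) (nat_lit 76) (nat_lit 51413169901) (nat_lit 1) (nat_lit 4) (nat_lit 2) (nat_lit 5) (nat_lit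 2) (nat_lit 4) (nat_lit 354) (nat_lit 212) (nat_lit 154)) (XT.lf (nat_lit 0) (nat_lit 291427404492) (nat_lit 76) (nat_lit 59527150805) (nat_lit 76) (nat_lit 52946722550) (nat_lit 1) (nat_lit 4) (nat_lit 2) (nat_lit 5) (nat_lit 2) (nat_lit 4) (nat_lit 355) (nat_lit 212) (nat_lit 153))) (XT.nd (nat_lit 78) (nat_lit 0) (nat_lit 0) (XT.lf (nat_lit 0) (nat_lit 308301706201) (nat_lit 76) (nat_lit 61162862837) (nat_lit 76) (nat_lit 54563771132) (nat_lit 1) (nat_lit 4) (nat_lit 2) (nat_lit 5) (nat_lit 2) (nat_lit 4) (nat_lit 356) (nat_lit 212) (nat_lit 152)) (XT.lf (nat_lit 0) (nat_lit 326008877902) (nat_lit 76) (nat_lit 62885032181) (nat_lit 76) (nat_lit 56268165763) (nat_lit 1) (nat_lit 4) (nat_lit 2) (nat_lit 5) (nat_lit 2) (nat_lit 4) (nat_lit 357) (nat_lit 212) (nat_lit 151))))) (XT.nd (nat_lit 312) (nat_lit 0) (nat_lit 0) (XT.nd (nat_lit 156) (nat_lit 0) (nat_lit 0) (XT.nd (nat_lit 78)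 (nat_lit 0) (nat_lit 0) (XT.lf (nat_lit 0) (nat_lit 344591079526) (nat_lit 76) (nat_lit 64697759242) (nat_lit 76) (nat_lit 58063964525) (nat_lit 1) (nat_lit 4) (nat_lit 2) (nat_lit 5) (nat_lit 2) (nat_lit 4) (nat_lit 358) (nat_lit 212) (nat_lit 150)) (XT.lf (nat_lit 0) (nat_lit 364092554411) (nat_lit 76) (nat_lit 66605360036) (nat_lit 76) (nat_lit 59955443130) (nat_lit 1) (nat_lit 4) (nat_lit 2) (nat_lit 5) (nat_lit 2) (nat_lit 4) (nat_lit 359) (nat_lit 212) (nat_lit 149))) (XT.nd (nat_lit 78) (nat_lit 0) (nat_lit 0) (XT.lf (nat_lit 0) (nat_lit 384559734640) (nat_lit 76) (nat_lit 68612376469) (nat_lit 76) (nat_lit 61947105098) (nat_lit 1) (nat_lit 4) (nat_lit 2) (nat_lit 5) (nat_lit 2) (nat_lit 4) (nat_lit 360) (nat_lit 212) (nat_lit 148)) (XT.lf (nat_lit 0) (nat_lit 406041351594) (nat_lit 76) (nat_lit 70723587153) (nat_lit 76) (nat_lit 64043692481) (nat_lit 1) (nat_lit 4) (nat_lit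 2) (nat_lit 5) (nat_lit 2) (nat_lit 4) (nat_lit 361) (nat_lit 212) (nat_lit 147)))) (XT.nd (nat_lit 32292) (nat_lit 0) (nat_lit 304) (XT.nd (nat_lit 32214) (nat_lit 0) (nat_lit 304) (XT.lf (nat_lit 0) (nat_lit 428588551981) (nat_lit 76) (nat_lit 72944018780) (nat_lit 76) (nat_lit 66250197155) (nat_lit 1) (nat_lit 4) (nat_lit 2) (nat_lit 5) (nat_lit 2) (nat_lit 4) (nat_lit 362) (nat_lit 212) (nat_lit 146)) (XT.lf (nat_lit 0) (nat_lit 639217982) (nat_lit 152) (nat_lit 10201248659) (nat_lit 0) (nat_lit 639217982) (nat_lit 5) (nat_lit 5) (nat_lit 7) (nat_lit 4) (nat_lit 5) (nat_lit 4) (nat_lit 294) (nat_lit 213) (nat_lit 213))) (XT.nd (nat_lit 78) (nat_lit 0) (nat_lit 0) (XT.lf (nat_lit 0) (nat_lit 4232275566) (nat_lit 152) (nat_lit 15837917283) (nat_lit 0) (nat_lit 3866226630) (nat_lit 5) (nat_lit 5) (nat_lit 7) (nat_lit 4) (nat_lit 5) (nat_lit 4) (nat_lit 295) (nat_lit 213) (nat_lit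 212)) (XT.nd (nat_lit 78) (nat_lit 0) (nat_lit 0) (XT.lf (nat_lit 0) (nat_lit 7230700360) (nat_lit 152) (nat_lit 11220970688) (nat_lit 0) (nat_lit 6516033390) (nat_lit 5) (nat_lit 5) (nat_lit 7) (nat_lit 4) (nat_lit 5) (nat_lit 4) (nat_lit 296) (nat_lit 213) (nat_lit 211)) (XT.lf (nat_lit 0) (nat_lit 10280849454) (nat_lit 152) (nat_lit 6540664806) (nat_lit 0) (nat_lit 9234165309) (nat_lit 5) (nat_lit 5) (nat_lit 7) (nat_lit 4) (nat_lit 5) (nat_lit 4) (nat_lit 297) (nat_lit 213) (nat_lit 210))))))))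
noncomputable def xc35 : XT := (XT.nd (nat_lit 1326) (nat_lit 76) (nat_lit 0) (XT.nd (nat_lit 624) (nat_lit 76) (nat_lit 0) (XT.nd (nat_lit 312) (nat_lit 76) (nat_lit 0) (XT.nd (nat_lit 156) (nat_lit 0) (nat_lit 0) (XT.nd (nat_lit 78) (nat_lit 76) (nat_lit 0) (XT.lf (nat_lit 0) (nat_lit 13389985108) (nat_lit 152) (nat_lit 1785856049) (nat_lit 0) (nat_lit 12027094128) (nat_lit 5) (nat_lit 5) (nat_lit 7) (nat_lit 4) (nat_lit 5) (nat_lit 4) (nat_lit 298) (nat_lit 213) (nat_lit 209)) (XT.lf (nat_lit 0) (nat_lit 3155781263) (nat_lit 76) (nat_lit 13458999350) (nat_lit 76) (nat_lit 11794959005) (nat_lit 4) (nat_lit 4) (nat_lit 5) (nat_lit 5) (nat_lit 5) (nat_lit 4) (nat_lit 299) (nat_lit 213) (nat_lit 208))) (XT.nd (nat_lit 78) (nat_lit 0) (nat_lit 0) (XT.lf (nat_lit 0) (nat_lit 8257035008) (nat_lit 76) (nat_lit 11686865427) (nat_lit 76) (nat_lit 9736016162) (nat_lit 4) (nat_lit 4) (nat_lit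 5) (nat_lit 5) (nat_lit 5) (nat_lit 4) (nat_lit 300) (nat_lit 213) (nat_lit 207)) (XT.lf (nat_lit 0) (nat_lit 13471002562) (nat_lit 76) (nat_lit 9885464355) (nat_lit 76) (nat_lit 7661463738) (nat_lit 4) (nat_lit 4) (nat_lit 5) (nat_lit 5) (nat_lit 5) (nat_lit 4) (nat_lit 301) (nat_lit 213) (nat_lit 206)))) (XT.nd (nat_lit 156) (nat_lit 76) (nat_lit 0) (XT.nd (nat_lit 78) (nat_lit 0) (nat_lit 0) (XT.lf (nat_lit 0) (nat_lit 18810098132) (nat_lit 76) (nat_lit 8050507086) (nat_lit 76) (nat_lit 5566362324) (nat_lit 4) (nat_lit 4) (nat_lit 5) (nat_lit 5) (nat_lit 5) (nat_lit 4) (nat_lit 302) (nat_lit 213) (nat_lit 205)) (XT.lf (nat_lit 0) (nat_lit 24287033851) (nat_lit 76) (nat_lit 6177624673) (nat_lit 76) (nat_lit 3445723583) (nat_lit 4) (nat_lit 4) (nat_lit 5) (nat_lit 5) (nat_lit 5) (nat_lit 4) (nat_lit 303) (nat_lit 213) (nat_lit 204))) (XT.nd (nat_lit 78) (nat_lit 76) (nat_lit 0) (XT.lf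 (nat_lit 0) (nat_lit 29914850042) (nat_lit 76) (nat_lit 4262357872) (nat_lit 76) (nat_lit 1294498374) (nat_lit 4) (nat_lit 4) (nat_lit 5) (nat_lit 5) (nat_lit 5) (nat_lit 4) (nat_lit 304) (nat_lit 213) (nat_lit 203)) (XT.lf (nat_lit 0) (nat_lit 863871763) (nat_lit 152) (nat_lit 1421644675) (nat_lit 76) (nat_lit 34828444418) (nat_lit 3) (nat_lit 5) (nat_lit 5) (nat_lit 5) (nat_lit 4) (nat_lit 4) (nat_lit 305) (nat_lit 213) (nat_lit 202))))) (XT.nd (nat_lit 312) (nat_lit 0) (nat_lit 0) (XT.nd (nat_lit 156) (nat_lit 0) (nat_lit 0) (XT.nd (nat_lit 78) (nat_lit 0) (nat_lit 0) (XT.lf (nat_lit 0) (nat_lit 2877342158) (nat_lit 76) (nat_lit 187996954) (nat_lit 152) (nat_lit 35773126509) (nat_lit 2) (nat_lit 5) (nat_lit 3) (nat_lit 5) (nat_lit 4) (nat_lit 4) (nat_lit 306) (nat_lit 213) (nat_lit 201)) (XT.lf (nat_lit 0) (nat_lit 5367228822) (nat_lit 152) (nat_lit 33353854263) (nat_lit 0) (nat_lit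 1928721425) (nat_lit 2) (nat_lit 5) (nat_lit 4) (nat_lit 4) (nat_lit 2) (nat_lit 4) (nat_lit 307) (nat_lit 213) (nat_lit 200))) (XT.nd (nat_lit 78) (nat_lit 0) (nat_lit 0) (XT.lf (nat_lit 0) (nat_lit 7724845082) (nat_lit 152) (nat_lit 30728495878) (nat_lit 0) (nat_lit 4101458098) (nat_lit 2) (nat_lit 5) (nat_lit 4) (nat_lit 4) (nat_lit 2) (nat_lit 4) (nat_lit 308) (nat_lit 213) (nat_lit 199)) (XT.lf (nat_lit 0) (nat_lit 10140866105) (nat_lit 152) (nat_lit 28075862296) (nat_lit 0) (nat_lit 6341403324) (nat_lit 2) (nat_lit 5) (nat_lit 4) (nat_lit 4) (nat_lit 2) (nat_lit 4) (nat_lit 309) (nat_lit 213) (nat_lit 198)))) (XT.nd (nat_lit 156) (nat_lit 0) (nat_lit 0) (XT.nd (nat_lit 78) (nat_lit 0) (nat_lit 0) (XT.lf (nat_lit 0) (nat_lit 12621044322) (nat_lit 152) (nat_lit 25389637724) (nat_lit 0) (nat_lit 8653890306) (nat_lit 2) (nat_lit 5) (nat_lit 4) (nat_lit 4) (nat_lit 2) (nat_lit 4)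 (nat_lit 310) (nat_lit 213) (nat_lit 197)) (XT.lf (nat_lit 0) (nat_lit 15171284919) (nat_lit 152) (nat_lit 22663426388) (nat_lit 0) (nat_lit 11044424964) (nat_lit 2) (nat_lit 5) (nat_lit 4) (nat_lit 4) (nat_lit 2) (nat_lit 4) (nat_lit 311) (nat_lit 213) (nat_lit 196))) (XT.nd (nat_lit 78) (nat_lit 0) (nat_lit 0) (XT.lf (nat_lit 0) (nat_lit 17797659897) (nat_lit 152) (nat_lit 19890737309) (nat_lit 0) (nat_lit 13518699049) (nat_lit 2) (nat_lit 5) (nat_lit 4) (nat_lit 4) (nat_lit 2) (nat_lit 4) (nat_lit 312) (nat_lit 213) (nat_lit 195)) (XT.nd (nat_lit 78) (nat_lit 0) (nat_lit 0) (XT.lf (nat_lit 0) (nat_lit 20506422530) (nat_lit 152) (nat_lit 17064968847) (nat_lit 0) (nat_lit 16082603688) (nat_lit 2) (nat_lit 5) (nat_lit 4) (nat_lit 4) (nat_lit 2) (nat_lit 4) (nat_lit 313) (nat_lit 213) (nat_lit 194)) (XT.lf (nat_lit 0) (nat_lit 23304022254) (nat_lit 152) (nat_lit 14179392981) (nat_lit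 0) (nat_lit 18742243417) (nat_lit 2) (nat_lit 5) (nat_lit 4) (nat_lit 4) (nat_lit 2) (nat_lit 4) (nat_lit 314) (nat_lit 213) (nat_lit 193))))))) (XT.nd (nat_lit 624) (nat_lit 0) (nat_lit 0) (XT.nd (nat_lit 312) (nat_lit 76) (nat_lit 0) (XT.nd (nat_lit 156) (nat_lit 0) (nat_lit 0) (XT.nd (nat_lit 78) (nat_lit 0) (nat_lit 0) (XT.lf (nat_lit 0) (nat_lit 26197120019) (nat_lit 152) (nat_lit 11227139293) (nat_lit 0) (nat_lit 21503950712) (nat_lit 2) (nat_lit 5) (nat_lit 4) (nat_lit 4) (nat_lit 2) (nat_lit 4) (nat_lit 315) (nat_lit 213) (nat_lit 192)) (XT.lf (nat_lit 0) (nat_lit 29192604154) (nat_lit 152) (nat_lit 8201178607) (nat_lit 0) (nat_lit 24374301065) (nat_lit 2) (nat_lit 5) (nat_lit 4) (nat_lit 4) (nat_lit 2) (nat_lit 4) (nat_lit 316) (nat_lit 213) (nat_lit 191))) (XT.nd (nat_lit 78) (nat_lit 0) (nat_lit 0) (XT.lf (nat_lit 0) (nat_lit 32297606763) (nat_lit 152) (nat_lit 5094306255)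 (nat_lit 0) (nat_lit 27360128645) (nat_lit 2) (nat_lit 5) (nat_lit 4) (nat_lit 4) (nat_lit 2) (nat_lit 4) (nat_lit 317) (nat_lit 213) (nat_lit 190)) (XT.lf (nat_lit 0) (nat_lit 35519520712) (nat_lit 152) (nat_lit 1899124921) (nat_lit 0) (nat_lit 30468542564) (nat_lit 2) (nat_lit 5) (nat_lit 4) (nat_lit 4) (nat_lit 2) (nat_lit 4) (nat_lit 318) (nat_lit 213) (nat_lit 189)))) (XT.nd (nat_lit 156) (nat_lit 0) (nat_lit 0) (XT.nd (nat_lit 78) (nat_lit 0) (nat_lit 0) (XT.lf (nat_lit 0) (nat_lit 1437997880) (nat_lit 76) (nat_lit 37450470518) (nat_lit 76) (nat_lit 32291397105) (nat_lit 1) (nat_lit 4) (nat_lit 2) (nat_lit 5) (nat_lit 2) (nat_lit 4) (nat_lit 319) (nat_lit 213) (nat_lit 188)) (XT.lf (nat_lit 0) (nat_lit 4945097359) (nat_lit 76) (nat_lit 37477173611) (nat_lit 76) (nat_lit 32215152327) (nat_lit 1) (nat_lit 4) (nat_lit 2) (nat_lit 5) (nat_lit 2) (nat_lit 4) (nat_lit 320) (nat_lit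 213) (nat_lit 187))) (XT.nd (nat_lit 78) (nat_lit 0) (nat_lit 0) (XT.lf (nat_lit 0) (nat_lit 8567730104) (nat_lit 76) (nat_lit 37530981092) (nat_lit 76) (nat_lit 32170914216) (nat_lit 1) (nat_lit 4) (nat_lit 2) (nat_lit 5) (nat_lit 2) (nat_lit 4) (nat_lit 321) (nat_lit 213) (nat_lit 186)) (XT.lf (nat_lit 0) (nat_lit 12314521431) (nat_lit 76) (nat_lit 37612021074) (nat_lit 76) (nat_lit 32158577443) (nat_lit 1) (nat_lit 4) (nat_lit 2) (nat_lit 5) (nat_lit 2) (nat_lit 4) (nat_lit 322) (nat_lit 213) (nat_lit 185))))) (XT.nd (nat_lit 312) (nat_lit 0) (nat_lit 0) (XT.nd (nat_lit 156) (nat_lit 0) (nat_lit 0) (XT.nd (nat_lit 78) (nat_lit 0) (nat_lit 0) (XT.lf (nat_lit 0) (nat_lit 16194392272) (nat_lit 76) (nat_lit 37720486509) (nat_lit 76) (nat_lit 32178112635) (nat_lit 1) (nat_lit 4) (nat_lit 2) (nat_lit 5) (nat_lit 2) (nat_lit 4) (nat_lit 323) (nat_lit 213) (nat_lit 184)) (XT.lf (nat_lit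 0) (nat_lit 20216580416) (nat_lit 76) (nat_lit 37856635647) (nat_lit 76) (nat_lit 32229566305) (nat_lit 1) (nat_lit 4) (nat_lit 2) (nat_lit 5) (nat_lit 2) (nat_lit 4) (nat_lit 324) (nat_lit 213) (nat_lit 183))) (XT.nd (nat_lit 78) (nat_lit 0) (nat_lit 0) (XT.lf (nat_lit 0) (nat_lit 24390662500) (nat_lit 76) (nat_lit 38020792654) (nat_lit 76) (nat_lit 32313060960) (nat_lit 1) (nat_lit 4) (nat_lit 2) (nat_lit 5) (nat_lit 2) (nat_lit 4) (nat_lit 325) (nat_lit 213) (nat_lit 182)) (XT.lf (nat_lit 0) (nat_lit 28726576815) (nat_lit 76) (nat_lit 38213348379) (nat_lit 76) (nat_lit 32428795399) (nat_lit 1) (nat_lit 4) (nat_lit 2) (nat_lit 5) (nat_lit 2) (nat_lit 4) (nat_lit 326) (nat_lit 213) (nat_lit 181)))) (XT.nd (nat_lit 156) (nat_lit 0) (nat_lit 0) (XT.nd (nat_lit 78) (nat_lit 0) (nat_lit 0) (XT.lf (nat_lit 0) (nat_lit 33234646966) (nat_lit 76) (nat_lit 38434761289) (nat_lit 76) (nat_lit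 32577045178) (nat_lit 1) (nat_lit 4) (nat_lit 2) (nat_lit 5) (nat_lit 2) (nat_lit 4) (nat_lit 327) (nat_lit 213) (nat_lit 180)) (XT.lf (nat_lit 0) (nat_lit 37925606455) (nat_lit 76) (nat_lit 38685558557) (nat_lit 76) (nat_lit 32758163274) (nat_lit 1) (nat_lit 4) (nat_lit 2) (nat_lit 5) (nat_lit 2) (nat_lit 4) (nat_lit 328) (nat_lit 213) (nat_lit 179))) (XT.nd (nat_lit 78) (nat_lit 0) (nat_lit 0) (XT.lf (nat_lit 0) (nat_lit 42810624231) (nat_lit 76) (nat_lit 38966337319) (nat_lit 76) (nat_lit 32972580920) (nat_lit 1) (nat_lit 4) (nat_lit 2) (nat_lit 5) (nat_lit 2) (nat_lit 4) (nat_lit 329) (nat_lit 213) (nat_lit 178)) (XT.nd (nat_lit 78) (nat_lit 0) (nat_lit 0) (XT.lf (nat_lit 0) (nat_lit 47901331290) (nat_lit 76) (nat_lit 39277766097) (nat_lit 76) (nat_lit 33220808635) (nat_lit 1) (nat_lit 4) (nat_lit 2) (nat_lit 5) (nat_lit 2) (nat_lit 4) (nat_lit 330) (nat_lit 213) (nat_lit 177))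 (XT.lf (nat_lit 0) (nat_lit 53209848364) (nat_lit 76) (nat_lit 39620586387) (nat_lit 76) (nat_lit 33503437436) (nat_lit 1) (nat_lit 4) (nat_lit 2) (nat_lit 5) (nat_lit 2) (nat_lit 4) (nat_lit 331) (nat_lit 213) (nat_lit 176))))))))
noncomputable def xc36 : XT := (XT.nd (nat_lit 1248) (nat_lit 0) (nat_lit 0) (XT.nd (nat_lit 624) (nat_lit 0) (nat_lit 0) (XT.nd (nat_lit 312) (nat_lit 0) (nat_lit 0) (XT.nd (nat_lit 156) (nat_lit 0) (nat_lit 0) (XT.nd (nat_lit 78) (nat_lit 0) (nat_lit 0) (XT.lf (nat_lit 0) (nat_lit 58748814777) (nat_lit 76) (nat_lit 39995614428) (nat_lit 76) (nat_lit 33821140250) (nat_lit 1) (nat_lit 4) (nat_lit 2) (nat_lit 5) (nat_lit 2) (nat_lit 4) (nat_lit 332) (nat_lit 213) (nat_lit 175)) (XT.lf (nat_lit 0) (nat_lit 64531418546) (nat_lit 76) (nat_lit 40403743144) (nat_lit 76) (nat_lit 34174673512) (nat_lit 1) (nat_lit 4) (nat_lit 2) (nat_lit 5) (nat_lit 2) (nat_lit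 4) (nat_lit 333) (nat_lit 213) (nat_lit 174))) (XT.nd (nat_lit 78) (nat_lit 0) (nat_lit 0) (XT.lf (nat_lit 0) (nat_lit 70571427775) (nat_lit 76) (nat_lit 40845944270) (nat_lit 76) (nat_lit 34564878968) (nat_lit 1) (nat_lit 4) (nat_lit 2) (nat_lit 5) (nat_lit 2) (nat_lit 4) (nat_lit 334) (nat_lit 213) (nat_lit 173)) (XT.lf (nat_lit 0) (nat_lit 76883223438) (nat_lit 76) (nat_lit 41323270667) (nat_lit 76) (nat_lit 34992685677) (nat_lit 1) (nat_lit 4) (nat_lit 2) (nat_lit 5) (nat_lit 2) (nat_lit 4) (nat_lit 335) (nat_lit 213) (nat_lit 172)))) (XT.nd (nat_lit 156) (nat_lit 0) (nat_lit 0) (XT.nd (nat_lit 78) (nat_lit 0) (nat_lit 0) (XT.lf (nat_lit 0) (nat_lit 83481833619) (nat_lit 76) (nat_lit 41836858824) (nat_lit 76) (nat_lit 35459112229) (nat_lit 1) (nat_lit 4) (nat_lit 2) (nat_lit 5) (nat_lit 2) (nat_lit 4) (nat_lit 336) (nat_lit 213) (nat_lit 171)) (XT.lf (nat_lit 0) (nat_lit 90382969297)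 (nat_lit 76) (nat_lit 42387931572) (nat_lit 76) (nat_lit 35965269161) (nat_lit 1) (nat_lit 4) (nat_lit 2) (nat_lit 5) (nat_lit 2) (nat_lit 4) (nat_lit 337) (nat_lit 213) (nat_lit 170))) (XT.nd (nat_lit 78) (nat_lit 0) (nat_lit 0) (XT.lf (nat_lit 0) (nat_lit 97603061745) (nat_lit 76) (nat_lit 42977800989) (nat_lit 76) (nat_lit 36512361611) (nat_lit 1) (nat_lit 4) (nat_lit 2) (nat_lit 5) (nat_lit 2) (nat_lit 4) (nat_lit 338) (nat_lit 213) (nat_lit 169)) (XT.lf (nat_lit 0) (nat_lit 105159301661) (nat_lit 76) (nat_lit 43607871524) (nat_lit 76) (nat_lit 37101692177) (nat_lit 1) (nat_lit 4) (nat_lit 2) (nat_lit 5) (nat_lit 2) (nat_lit 4) (nat_lit 339) (nat_lit 213) (nat_lit 168))))) (XT.nd (nat_lit 312) (nat_lit 0) (nat_lit 0) (XT.nd (nat_lit 156) (nat_lit 0) (nat_lit 0) (XT.nd (nat_lit 78) (nat_lit 0) (nat_lit 0) (XT.lf (nat_lit 0) (nat_lit 113069680092) (nat_lit 76) (nat_lit 44279643347)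 (nat_lit 76) (nat_lit 37734664030) (nat_lit 1) (nat_lit 4) (nat_lit 2) (nat_lit 5) (nat_lit 2) (nat_lit 4) (nat_lit 340) (nat_lit 213) (nat_lit 167)) (XT.lf (nat_lit 0) (nat_lit 121353031271) (nat_lit 76) (nat_lit 44994715914) (nat_lit 76) (nat_lit 38412784244) (nat_lit 1) (nat_lit 4) (nat_lit 2) (nat_lit 5) (nat_lit 2) (nat_lit 4) (nat_lit 341) (nat_lit 213) (nat_lit 166))) (XT.nd (nat_lit 78) (nat_lit 0) (nat_lit 0) (XT.lf (nat_lit 0) (nat_lit 130029077465) (nat_lit 76) (nat_lit 45754791778) (nat_lit 76) (nat_lit 39137667392) (nat_lit 1) (nat_lit 4) (nat_lit 2) (nat_lit 5) (nat_lit 2) (nat_lit 4) (nat_lit 342) (nat_lit 213) (nat_lit 165)) (XT.lf (nat_lit 0) (nat_lit 139118475925) (nat_lit 76) (nat_lit 46561680645) (nat_lit 76) (nat_lit 39911039385) (nat_lit 1) (nat_lit 4) (nat_lit 2) (nat_lit 5) (nat_lit 2) (nat_lit 4) (nat_lit 343) (nat_lit 213) (nat_lit 164)))) (XT.nd (nat_lit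 156) (nat_lit 0) (nat_lit 0) (XT.nd (nat_lit 78) (nat_lit 0) (nat_lit 0) (XT.lf (nat_lit 0) (nat_lit 148642868077) (nat_lit 76) (nat_lit 47417303677) (nat_lit 76) (nat_lit 40734741586) (nat_lit 1) (nat_lit 4) (nat_lit 2) (nat_lit 5) (nat_lit 2) (nat_lit 4) (nat_lit 344) (nat_lit 213) (nat_lit 163)) (XT.lf (nat_lit 0) (nat_lit 158624931045) (nat_lit 76) (nat_lit 48323698073) (nat_lit 76) (nat_lit 41610735191) (nat_lit 1) (nat_lit 4) (nat_lit 2) (nat_lit 5) (nat_lit 2) (nat_lit 4) (nat_lit 345) (nat_lit 213) (nat_lit 162))) (XT.nd (nat_lit 78) (nat_lit 0) (nat_lit 0) (XT.lf (nat_lit 0) (nat_lit 169088431645) (nat_lit 76) (nat_lit 49283021916) (nat_lit 76) (nat_lit 42541105898) (nat_lit 1) (nat_lit 4) (nat_lit 2) (nat_lit 5) (nat_lit 2) (nat_lit 4) (nat_lit 346) (nat_lit 213) (nat_lit 161)) (XT.lf (nat_lit 0) (nat_lit 180058282974) (nat_lit 76) (nat_lit 50297559308) (nat_lit 76) (nat_lit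 43528068876) (nat_lit 1) (nat_lit 4) (nat_lit 2) (nat_lit 5) (nat_lit 2) (nat_lit 4) (nat_lit 347) (nat_lit 213) (nat_lit 160)))))) (XT.nd (nat_lit 624) (nat_lit 0) (nat_lit 0) (XT.nd (nat_lit 312) (nat_lit 0) (nat_lit 0) (XT.nd (nat_lit 156) (nat_lit 0) (nat_lit 0) (XT.nd (nat_lit 78) (nat_lit 0) (nat_lit 0) (XT.lf (nat_lit 0) (nat_lit 191560603725) (nat_lit 76) (nat_lit 51369725815) (nat_lit 76) (nat_lit 44573974036) (nat_lit 1) (nat_lit 4) (nat_lit 2) (nat_lit 5) (nat_lit 2) (nat_lit 4) (nat_lit 348) (nat_lit 213) (nat_lit 159)) (XT.lf (nat_lit 0) (nat_lit 203622780377) (nat_lit 76) (nat_lit 52502074215) (nat_lit 76) (nat_lit 45681311629) (nat_lit 1) (nat_lit 4) (nat_lit 2) (nat_lit 5) (nat_lit 2) (nat_lit 4) (nat_lit 349) (nat_lit 213) (nat_lit 158))) (XT.nd (nat_lit 78) (nat_lit 0) (nat_lit 0) (XT.lf (nat_lit 0) (nat_lit 216273532399) (nat_lit 76) (nat_lit 53697300575) (nat_lit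 76) (nat_lit 46852718174) (nat_lit 1) (nat_lit 4) (nat_lit 2) (nat_lit 5) (nat_lit 2) (nat_lit 4) (nat_lit 350) (nat_lit 213) (nat_lit 157)) (XT.lf (nat_lit 0) (nat_lit 229542980627) (nat_lit 76) (nat_lit 54958250673) (nat_lit 76) (nat_lit 48090982732) (nat_lit 1) (nat_lit 4) (nat_lit 2) (nat_lit 5) (nat_lit 2) (nat_lit 4) (nat_lit 351) (nat_lit 213) (nat_lit 156)))) (XT.nd (nat_lit 156) (nat_lit 0) (nat_lit 0) (XT.nd (nat_lit 78) (nat_lit 0) (nat_lit 0) (XT.lf (nat_lit 0) (nat_lit 243462718986) (nat_lit 76) (nat_lit 56287926770) (nat_lit 76) (nat_lit 49399053554) (nat_lit 1) (nat_lit 4) (nat_lit 2) (nat_lit 5) (nat_lit 2) (nat_lit 4) (nat_lit 352) (nat_lit 213) (nat_lit 155)) (XT.lf (nat_lit 0) (nat_lit 258065889711) (nat_lit 76) (nat_lit 57689494762) (nat_lit 76) (nat_lit 50780045094) (nat_lit 1) (nat_lit 4) (nat_lit 2) (nat_lit 5) (nat_lit 2) (nat_lit 4) (nat_lit 353) (nat_lit 213)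 (nat_lit 154))) (XT.nd (nat_lit 78) (nat_lit 0) (nat_lit 0) (XT.lf (nat_lit 0) (nat_lit 273387262256) (nat_lit 76) (nat_lit 59166291716) (nat_lit 76) (nat_lit 52237245426) (nat_lit 1) (nat_lit 4) (nat_lit 2) (nat_lit 5) (nat_lit 2) (nat_lit 4) (nat_lit 354) (nat_lit 213) (nat_lit 153)) (XT.lf (nat_lit 0) (nat_lit 289463316079) (nat_lit 76) (nat_lit 60721833814) (nat_lit 76) (nat_lit 53774124075) (nat_lit 1) (nat_lit 4) (nat_lit 2) (nat_lit 5) (nat_lit 2) (nat_lit 4) (nat_lit 355) (nat_lit 213) (nat_lit 152))))) (XT.nd (nat_lit 312) (nat_lit 0) (nat_lit 0) (XT.nd (nat_lit 156) (nat_lit 0) (nat_lit 0) (XT.nd (nat_lit 78) (nat_lit 0) (nat_lit 0) (XT.lf (nat_lit 0) (nat_lit 306332327498) (nat_lit 76) (nat_lit 62359824729) (nat_lit 76) (nat_lit 55394340277) (nat_lit 1) (nat_lit 4) (nat_lit 2) (nat_lit 5) (nat_lit 2) (nat_lit 4) (nat_lit 356) (nat_lit 213) (nat_lit 151)) (XT.lf (nat_lit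 0) (nat_lit 324034460827) (nat_lit 76) (nat_lit 64084164439) (nat_lit 76) (nat_lit 57101751688) (nat_lit 1) (nat_lit 4) (nat_lit 2) (nat_lit 5) (nat_lit 2) (nat_lit 4) (nat_lit 357) (nat_lit 213) (nat_lit 150))) (XT.nd (nat_lit 78) (nat_lit 0) (nat_lit 0) (XT.lf (nat_lit 0) (nat_lit 342611864003) (nat_lit 76) (nat_lit 65898958514) (nat_lit 76) (nat_lit 58900423575) (nat_lit 1) (nat_lit 4) (nat_lit 2) (nat_lit 5) (nat_lit 2) (nat_lit 4) (nat_lit 358) (nat_lit 213) (nat_lit 149)) (XT.lf (nat_lit 0) (nat_lit 362108768936) (nat_lit 76) (nat_lit 67808527894) (nat_lit 76) (nat_lit 60794638488) (nat_lit 1) (nat_lit 4) (nat_lit 2) (nat_lit 5) (nat_lit 2) (nat_lit 4) (nat_lit 359) (nat_lit 213) (nat_lit 148)))) (XT.nd (nat_lit 156) (nat_lit 0) (nat_lit 0) (XT.nd (nat_lit 78) (nat_lit 0) (nat_lit 0) (XT.lf (nat_lit 0) (nat_lit 382571596831) (nat_lit 76) (nat_lit 69817419171) (nat_lit 76) (nat_lit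 62788906464) (nat_lit 1) (nat_lit 4) (nat_lit 2) (nat_lit 5) (nat_lit 2) (nat_lit 4) (nat_lit 360) (nat_lit 213) (nat_lit 147)) (XT.lf (nat_lit 0) (nat_lit 404049068705) (nat_lit 76) (nat_lit 71930415420) (nat_lit 76) (nat_lit 64887975760) (nat_lit 1) (nat_lit 4) (nat_lit 2) (nat_lit 5) (nat_lit 2) (nat_lit 4) (nat_lit 361) (nat_lit 213) (nat_lit 146))) (XT.nd (nat_lit 32058) (nat_lit 0) (nat_lit 456) (XT.lf (nat_lit 0) (nat_lit 426592321396) (nat_lit 76) (nat_lit 74152547584) (nat_lit 76) (nat_lit 67096844160) (nat_lit 1) (nat_lit 4) (nat_lit 2) (nat_lit 5) (nat_lit 2) (nat_lit 4) (nat_lit 362) (nat_lit 213) (nat_lit 145)) (XT.nd (nat_lit 78) (nat_lit 0) (nat_lit 0) (XT.lf (nat_lit 0) (nat_lit 6553657773) (nat_lit 76) (nat_lit 2008930383) (nat_lit 76) (nat_lit 2008930383) (nat_lit 7) (nat_lit 4) (nat_lit 8) (nat_lit 5) (nat_lit 8) (nat_lit 4) (nat_lit 292) (nat_lit 214) (nat_lit 214))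 (XT.lf (nat_lit 0) (nat_lit 19184958299) (nat_lit 76) (nat_lit 1624142828) (nat_lit 76) (nat_lit 1220573876) (nat_lit 7) (nat_lit 4) (nat_lit 8) (nat_lit 5) (nat_lit 8) (nat_lit 4) (nat_lit 293) (nat_lit 214) (nat_lit 213))))))))
noncomputable def xc37 : XT := (XT.nd (nat_lit 1326) (nat_lit 76) (nat_lit 0) (XT.nd (nat_lit 624) (nat_lit 152) (nat_lit 0) (XT.nd (nat_lit 312) (nat_lit 76) (nat_lit 0) (XT.nd (nat_lit 156) (nat_lit 0) (nat_lit 0) (XT.nd (nat_lit 78) (nat_lit 0) (nat_lit 0) (XT.lf (nat_lit 0) (nat_lit 1609976555) (nat_lit 152) (nat_lit 20492573204) (nat_lit 0) (nat_lit 859576236) (nat_lit 5) (nat_lit 5) (nat_lit 7) (nat_lit 4) (nat_lit 5) (nat_lit 4) (nat_lit 294) (nat_lit 214) (nat_lit 212)) (XT.lf (nat_lit 0) (nat_lit 4513520162) (nat_lit 152) (nat_lit 16013779726) (nat_lit 0) (nat_lit 3414501809) (nat_lit 5) (nat_lit 5) (nat_lit 7) (nat_lit 4) (nat_lit 5) (nat_lit 4)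 (nat_lit 295) (nat_lit 214) (nat_lit 211))) (XT.nd (nat_lit 78) (nat_lit 0) (nat_lit 0) (XT.lf (nat_lit 0) (nat_lit 7464044010) (nat_lit 152) (nat_lit 11478534615) (nat_lit 0) (nat_lit 6033008481) (nat_lit 5) (nat_lit 5) (nat_lit 7) (nat_lit 4) (nat_lit 5) (nat_lit 4) (nat_lit 296) (nat_lit 214) (nat_lit 210)) (XT.lf (nat_lit 0) (nat_lit 10468573155) (nat_lit 152) (nat_lit 6876039669) (nat_lit 0) (nat_lit 8721330793) (nat_lit 5) (nat_lit 5) (nat_lit 7) (nat_lit 4) (nat_lit 5) (nat_lit 4) (nat_lit 297) (nat_lit 214) (nat_lit 209)))) (XT.nd (nat_lit 156) (nat_lit 0) (nat_lit 0) (XT.nd (nat_lit 78) (nat_lit 76) (nat_lit 0) (XT.lf (nat_lit 0) (nat_lit 13534261238) (nat_lit 152) (nat_lit 2195336566) (nat_lit 0) (nat_lit 11485869510) (nat_lit 5) (nat_lit 5) (nat_lit 7) (nat_lit 4) (nat_lit 5) (nat_lit 4) (nat_lit 298) (nat_lit 214) (nat_lit 208)) (XT.lf (nat_lit 0) (nat_lit 2659851070) (nat_lit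 76) (nat_lit 14050084176) (nat_lit 76) (nat_lit 11714883528) (nat_lit 4) (nat_lit 4) (nat_lit 5) (nat_lit 5) (nat_lit 5) (nat_lit 4) (nat_lit 299) (nat_lit 214) (nat_lit 207))) (XT.nd (nat_lit 78) (nat_lit 0) (nat_lit 0) (XT.lf (nat_lit 0) (nat_lit 7691666337) (nat_lit 76) (nat_lit 12306896373) (nat_lit 76) (nat_lit 9698544374) (nat_lit 4) (nat_lit 4) (nat_lit 5) (nat_lit 5) (nat_lit 5) (nat_lit 4) (nat_lit 300) (nat_lit 214) (nat_lit 206)) (XT.lf (nat_lit 0) (nat_lit 12839502007) (nat_lit 76) (nat_lit 10533063036) (nat_lit 76) (nat_lit 7664566892) (nat_lit 4) (nat_lit 4) (nat_lit 5) (nat_lit 5) (nat_lit 5) (nat_lit 4) (nat_lit 301) (nat_lit 214) (nat_lit 205))))) (XT.nd (nat_lit 312) (nat_lit 76) (nat_lit 0) (XT.nd (nat_lit 156) (nat_lit 76) (nat_lit 0) (XT.nd (nat_lit 78) (nat_lit 0) (nat_lit 0) (XT.lf (nat_lit 0) (nat_lit 18115614831) (nat_lit 76) (nat_lit 8724360752) (nat_lit 76)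 (nat_lit 5608108279) (nat_lit 4) (nat_lit 4) (nat_lit 5) (nat_lit 5) (nat_lit 5) (nat_lit 4) (nat_lit 302) (nat_lit 214) (nat_lit 204)) (XT.lf (nat_lit 0) (nat_lit 23532566982) (nat_lit 76) (nat_lit 6876483087) (nat_lit 76) (nat_lit 3524272206) (nat_lit 4) (nat_lit 4) (nat_lit 5) (nat_lit 5) (nat_lit 5) (nat_lit 4) (nat_lit 303) (nat_lit 214) (nat_lit 203))) (XT.nd (nat_lit 78) (nat_lit 76) (nat_lit 0) (XT.lf (nat_lit 0) (nat_lit 29103255966) (nat_lit 76) (nat_lit 4985030332) (nat_lit 76) (nat_lit 1408097158) (nat_lit 4) (nat_lit 4) (nat_lit 5) (nat_lit 5) (nat_lit 5) (nat_lit 4) (nat_lit 304) (nat_lit 214) (nat_lit 202)) (XT.lf (nat_lit 0) (nat_lit 721596149) (nat_lit 152) (nat_lit 2311682299) (nat_lit 76) (nat_lit 34107128598) (nat_lit 3) (nat_lit 5) (nat_lit 5) (nat_lit 5) (nat_lit 4) (nat_lit 4) (nat_lit 305) (nat_lit 214) (nat_lit 201)))) (XT.nd (nat_lit 156) (nat_lit 0) (nat_lit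 0) (XT.nd (nat_lit 78) (nat_lit 0) (nat_lit 0) (XT.lf (nat_lit 0) (nat_lit 1903231701) (nat_lit 76) (nat_lit 973849201) (nat_lit 152) (nat_lit 35990191666) (nat_lit 2) (nat_lit 5) (nat_lit 3) (nat_lit 5) (nat_lit 4) (nat_lit 4) (nat_lit 306) (nat_lit 214) (nat_lit 200)) (XT.lf (nat_lit 0) (nat_lit 5136237914) (nat_lit 152) (nat_lit 34397766876) (nat_lit 0) (nat_lit 1146801994) (nat_lit 2) (nat_lit 5) (nat_lit 4) (nat_lit 4) (nat_lit 2) (nat_lit 4) (nat_lit 307) (nat_lit 214) (nat_lit 199))) (XT.nd (nat_lit 78) (nat_lit 0) (nat_lit 0) (XT.lf (nat_lit 0) (nat_lit 7464841466) (nat_lit 152) (nat_lit 31823136649) (nat_lit 0) (nat_lit 3299329749) (nat_lit 2) (nat_lit 5) (nat_lit 4) (nat_lit 4) (nat_lit 2) (nat_lit 4) (nat_lit 308) (nat_lit 214) (nat_lit 198)) (XT.nd (nat_lit 78) (nat_lit 0) (nat_lit 0) (XT.lf (nat_lit 0) (nat_lit 9853231339) (nat_lit 152) (nat_lit 29218815598) (nat_lit 0)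 (nat_lit 5520028387) (nat_lit 2) (nat_lit 5) (nat_lit 4) (nat_lit 4) (nat_lit 2) (nat_lit 4) (nat_lit 309) (nat_lit 214) (nat_lit 197)) (XT.lf (nat_lit 0) (nat_lit 12307094175) (nat_lit 152) (nat_lit 26578602960) (nat_lit 0) (nat_lit 7814185285) (nat_lit 2) (nat_lit 5) (nat_lit 4) (nat_lit 4) (nat_lit 2) (nat_lit 4) (nat_lit 310) (nat_lit 214) (nat_lit 196))))))) (XT.nd (nat_lit 624) (nat_lit 76) (nat_lit 0) (XT.nd (nat_lit 312) (nat_lit 0) (nat_lit 0) (XT.nd (nat_lit 156) (nat_lit 0) (nat_lit 0) (XT.nd (nat_lit 78) (nat_lit 0) (nat_lit 0) (XT.lf (nat_lit 0) (nat_lit 14832272504) (nat_lit 152) (nat_lit 23896212514) (nat_lit 0) (nat_lit 10187262720) (nat_lit 2) (nat_lit 5) (nat_lit 4) (nat_lit 4) (nat_lit 2) (nat_lit 4) (nat_lit 311) (nat_lit 214) (nat_lit 195)) (XT.lf (nat_lit 0) (nat_lit 17434778656) (nat_lit 152) (nat_lit 21165257616) (nat_lit 0) (nat_lit 12644910878) (nat_lit 2)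 (nat_lit 5) (nat_lit 4) (nat_lit 4) (nat_lit 2) (nat_lit 4) (nat_lit 312) (nat_lit 214) (nat_lit 194))) (XT.nd (nat_lit 78) (nat_lit 0) (nat_lit 0) (XT.lf (nat_lit 0) (nat_lit 20120809074) (nat_lit 152) (nat_lit 18379235993) (nat_lit 0) (nat_lit 15192981302) (nat_lit 2) (nat_lit 5) (nat_lit 4) (nat_lit 4) (nat_lit 2) (nat_lit 4) (nat_lit 313) (nat_lit 214) (nat_lit 193)) (XT.lf (nat_lit 0) (nat_lit 22896759069) (nat_lit 152) (nat_lit 15531514259) (nat_lit 0) (nat_lit 17837540826) (nat_lit 2) (nat_lit 5) (nat_lit 4) (nat_lit 4) (nat_lit 2) (nat_lit 4) (nat_lit 314) (nat_lit 214) (nat_lit 192)))) (XT.nd (nat_lit 156) (nat_lit 0) (nat_lit 0) (XT.nd (nat_lit 78) (nat_lit 0) (nat_lit 0) (XT.lf (nat_lit 0) (nat_lit 25769238044) (nat_lit 152) (nat_lit 12615312125) (nat_lit 0) (nat_lit 20584886020) (nat_lit 2) (nat_lit 5) (nat_lit 4) (nat_lit 4) (nat_lit 2) (nat_lit 4) (nat_lit 315) (nat_lit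 214) (nat_lit 191)) (XT.lf (nat_lit 0) (nat_lit 28745085237) (nat_lit 152) (nat_lit 9623686253) (nat_lit 0) (nat_lit 23441558182) (nat_lit 2) (nat_lit 5) (nat_lit 4) (nat_lit 4) (nat_lit 2) (nat_lit 4) (nat_lit 316) (nat_lit 214) (nat_lit 190))) (XT.nd (nat_lit 78) (nat_lit 0) (nat_lit 0) (XT.lf (nat_lit 0) (nat_lit 31831385997) (nat_lit 152) (nat_lit 6549513723) (nat_lit 0) (nat_lit 26414358914) (nat_lit 2) (nat_lit 5) (nat_lit 4) (nat_lit 4) (nat_lit 2) (nat_lit 4) (nat_lit 317) (nat_lit 214) (nat_lit 189)) (XT.lf (nat_lit 0) (nat_lit 35035488659) (nat_lit 152) (nat_lit 3385475077) (nat_lit 0) (nat_lit 29510366311) (nat_lit 2) (nat_lit 5) (nat_lit 4) (nat_lit 4) (nat_lit 2) (nat_lit 4) (nat_lit 318) (nat_lit 214) (nat_lit 188))))) (XT.nd (nat_lit 312) (nat_lit 0) (nat_lit 0) (XT.nd (nat_lit 156) (nat_lit 0) (nat_lit 0) (XT.nd (nat_lit 78) (nat_lit 76) (nat_lit 0) (XT.lf (nat_lit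 0) (nat_lit 38365022040) (nat_lit 152) (nat_lit 124036891) (nat_lit 0) (nat_lit 32736951820) (nat_lit 2) (nat_lit 5) (nat_lit 4) (nat_lit 4) (nat_lit 2) (nat_lit 4) (nat_lit 319) (nat_lit 214) (nat_lit 187)) (XT.lf (nat_lit 0) (nat_lit 3349780046) (nat_lit 76) (nat_lit 38530433007) (nat_lit 76) (nat_lit 32804317195) (nat_lit 1) (nat_lit 4) (nat_lit 2) (nat_lit 5) (nat_lit 2) (nat_lit 4) (nat_lit 320) (nat_lit 214) (nat_lit 186))) (XT.nd (nat_lit 78) (nat_lit 0) (nat_lit 0) (XT.lf (nat_lit 0) (nat_lit 6944621057) (nat_lit 76) (nat_lit 38596212257) (nat_lit 76) (nat_lit 32776719690) (nat_lit 1) (nat_lit 4) (nat_lit 2) (nat_lit 5) (nat_lit 2) (nat_lit 4) (nat_lit 321) (nat_lit 214) (nat_lit 185)) (XT.lf (nat_lit 0) (nat_lit 10664944066) (nat_lit 76) (nat_lit 38688653924) (nat_lit 76) (nat_lit 32780231115) (nat_lit 1) (nat_lit 4) (nat_lit 2) (nat_lit 5) (nat_lit 2) (nat_lit 4) (nat_lit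 322) (nat_lit 214) (nat_lit 184)))) (XT.nd (nat_lit 156) (nat_lit 0) (nat_lit 0) (XT.nd (nat_lit 78) (nat_lit 0) (nat_lit 0) (XT.lf (nat_lit 0) (nat_lit 14519606986) (nat_lit 76) (nat_lit 38807978106) (nat_lit 76) (nat_lit 32814859828) (nat_lit 1) (nat_lit 4) (nat_lit 2) (nat_lit 5) (nat_lit 2) (nat_lit 4) (nat_lit 323) (nat_lit 214) (nat_lit 183)) (XT.lf (nat_lit 0) (nat_lit 18517787584) (nat_lit 76) (nat_lit 38954468908) (nat_lit 76) (nat_lit 32880688279) (nat_lit 1) (nat_lit 4) (nat_lit 2) (nat_lit 5) (nat_lit 2) (nat_lit 4) (nat_lit 324) (nat_lit 214) (nat_lit 182))) (XT.nd (nat_lit 78) (nat_lit 0) (nat_lit 0) (XT.lf (nat_lit 0) (nat_lit 22669005340) (nat_lit 76) (nat_lit 39128475119) (nat_lit 76) (nat_lit 32977873202) (nat_lit 1) (nat_lit 4) (nat_lit 2) (nat_lit 5) (nat_lit 2) (nat_lit 4) (nat_lit 325) (nat_lit 214) (nat_lit 181)) (XT.nd (nat_lit 78) (nat_lit 0) (nat_lit 0) (XT.lf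 (nat_lit 0) (nat_lit 26983144104) (nat_lit 76) (nat_lit 39330411039) (nat_lit 76) (nat_lit 33106645992) (nat_lit 1) (nat_lit 4) (nat_lit 2) (nat_lit 5) (nat_lit 2) (nat_lit 4) (nat_lit 326) (nat_lit 214) (nat_lit 180)) (XT.lf (nat_lit 0) (nat_lit 31470475636) (nat_lit 76) (nat_lit 39560757467) (nat_lit 76) (nat_lit 33267313248) (nat_lit 1) (nat_lit 4) (nat_lit 2) (nat_lit 5) (nat_lit 2) (nat_lit 4) (nat_lit 327) (nat_lit 214) (nat_lit 179))))))))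
noncomputable def xc38 : XT := (XT.nd (nat_lit 1326) (nat_lit 0) (nat_lit 0) (XT.nd (nat_lit 624) (nat_lit 0) (nat_lit 0) (XT.nd (nat_lit 312) (nat_lit 0) (nat_lit 0) (XT.nd (nat_lit 156) (nat_lit 0) (nat_lit 0) (XT.nd (nat_lit 78) (nat_lit 0) (nat_lit 0) (XT.lf (nat_lit 0) (nat_lit 36141684058) (nat_lit 76) (nat_lit 39820062847) (nat_lit 76) (nat_lit 33460257512) (nat_lit 1) (nat_lit 4) (nat_lit 2) (nat_lit 5) (nat_lit 2) (nat_lit 4) (nat_lit 328) (nat_lit 214) (nat_lit 178)) (XT.lf (nat_lit 0) (nat_lit 41007891295) (nat_lit 76) (nat_lit 40108944574) (nat_lit 76) (nat_lit 33685938176) (nat_lit 1) (nat_lit 4) (nat_lit 2) (nat_lit 5) (nat_lit 2) (nat_lit 4) (nat_lit 329) (nat_lit 214) (nat_lit 177))) (XT.nd (nat_lit 78) (nat_lit 0) (nat_lit 0) (XT.lf (nat_lit 0) (nat_lit 46080683554) (nat_lit 76) (nat_lit 40428090461) (nat_lit 76) (nat_lit 33944892574) (nat_lit 1) (nat_lit 4) (nat_lit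 2) (nat_lit 5) (nat_lit 2) (nat_lit 4) (nat_lit 330) (nat_lit 214) (nat_lit 176)) (XT.lf (nat_lit 0) (nat_lit 51372138914) (nat_lit 76) (nat_lit 40778260378) (nat_lit 76) (nat_lit 34237737265) (nat_lit 1) (nat_lit 4) (nat_lit 2) (nat_lit 5) (nat_lit 2) (nat_lit 4) (nat_lit 331) (nat_lit 214) (nat_lit 175)))) (XT.nd (nat_lit 156) (nat_lit 0) (nat_lit 0) (XT.nd (nat_lit 78) (nat_lit 0) (nat_lit 0) (XT.lf (nat_lit 0) (nat_lit 56894856076) (nat_lit 76) (nat_lit 41160288065) (nat_lit 76) (nat_lit 34565169497) (nat_lit 1) (nat_lit 4) (nat_lit 2) (nat_lit 5) (nat_lit 2) (nat_lit 4) (nat_lit 332) (nat_lit 214) (nat_lit 174)) (XT.lf (nat_lit 0) (nat_lit 62661984367) (nat_lit 76) (nat_lit 41575083110) (nat_lit 76) (nat_lit 34927968871) (nat_lit 1) (nat_lit 4) (nat_lit 2) (nat_lit 5) (nat_lit 2) (nat_lit 4) (nat_lit 333) (nat_lit 214) (nat_lit 173))) (XT.nd (nat_lit 78) (nat_lit 0) (nat_lit 0)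 (XT.lf (nat_lit 0) (nat_lit 68687255046) (nat_lit 76) (nat_lit 42023633121) (nat_lit 76) (nat_lit 35326999196) (nat_lit 1) (nat_lit 4) (nat_lit 2) (nat_lit 5) (nat_lit 2) (nat_lit 4) (nat_lit 334) (nat_lit 214) (nat_lit 172)) (XT.lf (nat_lit 0) (nat_lit 74985013995) (nat_lit 76) (nat_lit 42507006074) (nat_lit 76) (nat_lit 35763210543) (nat_lit 1) (nat_lit 4) (nat_lit 2) (nat_lit 5) (nat_lit 2) (nat_lit 4) (nat_lit 335) (nat_lit 214) (nat_lit 171))))) (XT.nd (nat_lit 312) (nat_lit 0) (nat_lit 0) (XT.nd (nat_lit 156) (nat_lit 0) (nat_lit 0) (XT.nd (nat_lit 78) (nat_lit 0) (nat_lit 0) (XT.lf (nat_lit 0) (nat_lit 81570255877) (nat_lit 76) (nat_lit 43026352857) (nat_lit 76) (nat_lit 36237641511) (nat_lit 1) (nat_lit 4) (nat_lit 2) (nat_lit 5) (nat_lit 2) (nat_lit 4) (nat_lit 336) (nat_lit 214) (nat_lit 170)) (XT.lf (nat_lit 0) (nat_lit 88458659841) (nat_lit 76) (nat_lit 43582910011) (nat_lit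 76) (nat_lit 36751421697) (nat_lit 1) (nat_lit 4) (nat_lit 2) (nat_lit 5) (nat_lit 2) (nat_lit 4) (nat_lit 337) (nat_lit 214) (nat_lit 169))) (XT.nd (nat_lit 78) (nat_lit 0) (nat_lit 0) (XT.lf (nat_lit 0) (nat_lit 95666626848) (nat_lit 76) (nat_lit 44178002670) (nat_lit 76) (nat_lit 37305774387) (nat_lit 1) (nat_lit 4) (nat_lit 2) (nat_lit 5) (nat_lit 2) (nat_lit 4) (nat_lit 338) (nat_lit 214) (nat_lit 168)) (XT.lf (nat_lit 0) (nat_lit 103211318724) (nat_lit 76) (nat_lit 44813047723) (nat_lit 76) (nat_lit 37902019470) (nat_lit 1) (nat_lit 4) (nat_lit 2) (nat_lit 5) (nat_lit 2) (nat_lit 4) (nat_lit 339) (nat_lit 214) (nat_lit 167)))) (XT.nd (nat_lit 156) (nat_lit 0) (nat_lit 0) (XT.nd (nat_lit 78) (nat_lit 0) (nat_lit 0) (XT.lf (nat_lit 0) (nat_lit 111110699022) (nat_lit 76) (nat_lit 45489557181) (nat_lit 76) (nat_lit 38541576576) (nat_lit 1) (nat_lit 4) (nat_lit 2) (nat_lit 5) (nat_lit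 2) (nat_lit 4) (nat_lit 340) (nat_lit 214) (nat_lit 166)) (XT.lf (nat_lit 0) (nat_lit 119383575790) (nat_lit 76) (nat_lit 46209141782) (nat_lit 76) (nat_lit 39225968460) (nat_lit 1) (nat_lit 4) (nat_lit 2) (nat_lit 5) (nat_lit 2) (nat_lit 4) (nat_lit 341) (nat_lit 214) (nat_lit 165))) (XT.nd (nat_lit 78) (nat_lit 0) (nat_lit 0) (XT.lf (nat_lit 0) (nat_lit 128049646352) (nat_lit 76) (nat_lit 46973514821) (nat_lit 76) (nat_lit 39956824626) (nat_lit 1) (nat_lit 4) (nat_lit 2) (nat_lit 5) (nat_lit 2) (nat_lit 4) (nat_lit 342) (nat_lit 214) (nat_lit 164)) (XT.nd (nat_lit 78) (nat_lit 0) (nat_lit 0) (XT.lf (nat_lit 0) (nat_lit 137129544212) (nat_lit 76) (nat_lit 47784496236) (nat_lit 76) (nat_lit 40735885209) (nat_lit 1) (nat_lit 4) (nat_lit 2) (nat_lit 5) (nat_lit 2) (nat_lit 4) (nat_lit 343) (nat_lit 214) (nat_lit 163)) (XT.lf (nat_lit 0) (nat_lit 146644888173) (nat_lit 76) (nat_lit 48644016933)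 (nat_lit 76) (nat_lit 41565005114) (nat_lit 1) (nat_lit 4) (nat_lit 2) (nat_lit 5) (nat_lit 2) (nat_lit 4) (nat_lit 344) (nat_lit 214) (nat_lit 162))))))) (XT.nd (nat_lit 624) (nat_lit 0) (nat_lit 0) (XT.nd (nat_lit 312) (nat_lit 0) (nat_lit 0) (XT.nd (nat_lit 156) (nat_lit 0) (nat_lit 0) (XT.nd (nat_lit 78) (nat_lit 0) (nat_lit 0) (XT.lf (nat_lit 0) (nat_lit 156618333815) (nat_lit 76) (nat_lit 49554123390) (nat_lit 76) (nat_lit 42446158437) (nat_lit 1) (nat_lit 4) (nat_lit 2) (nat_lit 5) (nat_lit 2) (nat_lit 4) (nat_lit 345) (nat_lit 214) (nat_lit 161)) (XT.lf (nat_lit 0) (nat_lit 167073627439) (nat_lit 76) (nat_lit 50516982529) (nat_lit 76) (nat_lit 43381443161) (nat_lit 1) (nat_lit 4) (nat_lit 2) (nat_lit 5) (nat_lit 2) (nat_lit 4) (nat_lit 346) (nat_lit 214) (nat_lit 160))) (XT.nd (nat_lit 78) (nat_lit 0) (nat_lit 0) (XT.lf (nat_lit 0) (nat_lit 178035662600) (nat_lit 76) (nat_lit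 51534886870) (nat_lit 76) (nat_lit 44373086155) (nat_lit 1) (nat_lit 4) (nat_lit 2) (nat_lit 5) (nat_lit 2) (nat_lit 4) (nat_lit 347) (nat_lit 214) (nat_lit 159)) (XT.lf (nat_lit 0) (nat_lit 189530539383) (nat_lit 76) (nat_lit 52610259996) (nat_lit 76) (nat_lit 45423448474) (nat_lit 1) (nat_lit 4) (nat_lit 2) (nat_lit 5) (nat_lit 2) (nat_lit 4) (nat_lit 348) (nat_lit 214) (nat_lit 158)))) (XT.nd (nat_lit 156) (nat_lit 0) (nat_lit 0) (XT.nd (nat_lit 78) (nat_lit 0) (nat_lit 0) (XT.lf (nat_lit 0) (nat_lit 201585626541) (nat_lit 76) (nat_lit 53745662318) (nat_lit 76) (nat_lit 46535030980) (nat_lit 1) (nat_lit 4) (nat_lit 2) (nat_lit 5) (nat_lit 2) (nat_lit 4) (nat_lit 349) (nat_lit 214) (nat_lit 157)) (XT.lf (nat_lit 0) (nat_lit 214229626662) (nat_lit 76) (nat_lit 54943797175) (nat_lit 76) (nat_lit 47710480299) (nat_lit 1) (nat_lit 4) (nat_lit 2) (nat_lit 5) (nat_lit 2) (nat_lit 4) (nat_lit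 350) (nat_lit 214) (nat_lit 156))) (XT.nd (nat_lit 78) (nat_lit 0) (nat_lit 0) (XT.lf (nat_lit 0) (nat_lit 227492644510) (nat_lit 76) (nat_lit 56207517270) (nat_lit 76) (nat_lit 48952595118) (nat_lit 1) (nat_lit 4) (nat_lit 2) (nat_lit 5) (nat_lit 2) (nat_lit 4) (nat_lit 351) (nat_lit 214) (nat_lit 155)) (XT.lf (nat_lit 0) (nat_lit 241406258697) (nat_lit 76) (nat_lit 57539831460) (nat_lit 76) (nat_lit 50264332856) (nat_lit 1) (nat_lit 4) (nat_lit 2) (nat_lit 5) (nat_lit 2) (nat_lit 4) (nat_lit 352) (nat_lit 214) (nat_lit 154))))) (XT.nd (nat_lit 312) (nat_lit 0) (nat_lit 0) (XT.nd (nat_lit 156) (nat_lit 0) (nat_lit 0) (XT.nd (nat_lit 78) (nat_lit 0) (nat_lit 0) (XT.lf (nat_lit 0) (nat_lit 256003596878) (nat_lit 76) (nat_lit 58943911921) (nat_lit 76) (nat_lit 51648816695) (nat_lit 1) (nat_lit 4) (nat_lit 2) (nat_lit 5) (nat_lit 2) (nat_lit 4) (nat_lit 353) (nat_lit 214) (nat_lit 153))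 (XT.lf (nat_lit 0) (nat_lit 271319414618) (nat_lit 76) (nat_lit 60423101703) (nat_lit 76) (nat_lit 53109343028) (nat_lit 1) (nat_lit 4) (nat_lit 2) (nat_lit 5) (nat_lit 2) (nat_lit 4) (nat_lit 354) (nat_lit 214) (nat_lit 152))) (XT.nd (nat_lit 78) (nat_lit 0) (nat_lit 0) (XT.lf (nat_lit 0) (nat_lit 287390178151) (nat_lit 76) (nat_lit 61980922685) (nat_lit 76) (nat_lit 54649389297) (nat_lit 1) (nat_lit 4) (nat_lit 2) (nat_lit 5) (nat_lit 2) (nat_lit 4) (nat_lit 355) (nat_lit 214) (nat_lit 151)) (XT.lf (nat_lit 0) (nat_lit 304254151199) (nat_lit 76) (nat_lit 63621083966) (nat_lit 76) (nat_lit 56272622279) (nat_lit 1) (nat_lit 4) (nat_lit 2) (nat_lit 5) (nat_lit 2) (nat_lit 4) (nat_lit 356) (nat_lit 214) (nat_lit 150)))) (XT.nd (nat_lit 156) (nat_lit 0) (nat_lit 0) (XT.nd (nat_lit 78) (nat_lit 0) (nat_lit 0) (XT.lf (nat_lit 0) (nat_lit 321951486079) (nat_lit 76) (nat_lit 65347490690)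 (nat_lit 76) (nat_lit 57982906814) (nat_lit 1) (nat_lit 4) (nat_lit 2) (nat_lit 5) (nat_lit 2) (nat_lit 4) (nat_lit 357) (nat_lit 214) (nat_lit 149)) (XT.lf (nat_lit 0) (nat_lit 340524319303) (nat_lit 76) (nat_lit 67164253351) (nat_lit 76) (nat_lit 59784315009) (nat_lit 1) (nat_lit 4) (nat_lit 2) (nat_lit 5) (nat_lit 2) (nat_lit 4) (nat_lit 358) (nat_lit 214) (nat_lit 148))) (XT.nd (nat_lit 78) (nat_lit 0) (nat_lit 0) (XT.lf (nat_lit 0) (nat_lit 360016871902) (nat_lit 76) (nat_lit 69075697573) (nat_lit 76) (nat_lit 61681135931) (nat_lit 1) (nat_lit 4) (nat_lit 2) (nat_lit 5) (nat_lit 2) (nat_lit 4) (nat_lit 359) (nat_lit 214) (nat_lit 147)) (XT.nd (nat_lit 78) (nat_lit 0) (nat_lit 0) (XT.lf (nat_lit 0) (nat_lit 380475554716) (nat_lit 76) (nat_lit 71086374415) (nat_lit 76) (nat_lit 63677885820) (nat_lit 1) (nat_lit 4) (nat_lit 2) (nat_lit 5) (nat_lit 2) (nat_lit 4) (nat_lit 360) (nat_lit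 214) (nat_lit 146)) (XT.lf (nat_lit 0) (nat_lit 401949078894) (nat_lit 76) (nat_lit 73201071202) (nat_lit 76) (nat_lit 65779318842) (nat_lit 1) (nat_lit 4) (nat_lit 2) (nat_lit 5) (nat_lit 2) (nat_lit 4) (nat_lit 361) (nat_lit 214) (nat_lit 145))))))))
noncomputable def xc39 : XT := (XT.nd (nat_lit 33150) (nat_lit 0) (nat_lit 0) (XT.nd (nat_lit 32448) (nat_lit 0) (nat_lit 152) (XT.nd (nat_lit 32136) (nat_lit 0) (nat_lit 304) (XT.nd (nat_lit 31980) (nat_lit 0) (nat_lit 456) (XT.nd (nat_lit 31902) (nat_lit 0) (nat_lit 456) (XT.lf (nat_lit 0) (nat_lit 424488571875) (nat_lit 76) (nat_lit 75424822927) (nat_lit 76) (nat_lit 67990438410) (nat_lit 1) (nat_lit 4) (nat_lit 2) (nat_lit 5) (nat_lit 2) (nat_lit 4) (nat_lit 362) (nat_lit 214) (nat_lit 144)) (XT.lf (nat_lit 0) (nat_lit 692831403) (nat_lit 76) (nat_lit 4530495995) (nat_lit 76) (nat_lit 4530495995) (nat_lit 7) (nat_lit 4) (nat_lit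 8) (nat_lit 5) (nat_lit 8) (nat_lit 4) (nat_lit 290) (nat_lit 215) (nat_lit 215))) (XT.nd (nat_lit 78) (nat_lit 0) (nat_lit 0) (XT.lf (nat_lit 0) (nat_lit 7148336770) (nat_lit 76) (nat_lit 6789700064) (nat_lit 76) (nat_lit 6365952664) (nat_lit 7) (nat_lit 4) (nat_lit 8) (nat_lit 5) (nat_lit 8) (nat_lit 4) (nat_lit 291) (nat_lit 215) (nat_lit 214)) (XT.lf (nat_lit 0) (nat_lit 13019859467) (nat_lit 76) (nat_lit 4476622095) (nat_lit 76) (nat_lit 3649305743) (nat_lit 7) (nat_lit 4) (nat_lit 8) (nat_lit 5) (nat_lit 8) (nat_lit 4) (nat_lit 292) (nat_lit 215) (nat_lit 213)))) (XT.nd (nat_lit 156) (nat_lit 0) (nat_lit 0) (XT.nd (nat_lit 78) (nat_lit 152) (nat_lit 0) (XT.lf (nat_lit 0) (nat_lit 19014210714) (nat_lit 76) (nat_lit 2116250755) (nat_lit 76) (nat_lit 904583020) (nat_lit 7) (nat_lit 4) (nat_lit 8) (nat_lit 5) (nat_lit 8) (nat_lit 4) (nat_lit 293) (nat_lit 215) (nat_lit 212)) (XT.lf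 (nat_lit 0) (nat_lit 1854987387) (nat_lit 152) (nat_lit 20763015327) (nat_lit 0) (nat_lit 352400082) (nat_lit 5) (nat_lit 5) (nat_lit 7) (nat_lit 4) (nat_lit 5) (nat_lit 4) (nat_lit 294) (nat_lit 215) (nat_lit 211))) (XT.nd (nat_lit 78) (nat_lit 0) (nat_lit 0) (XT.lf (nat_lit 0) (nat_lit 4710630048) (nat_lit 152) (nat_lit 16365923332) (nat_lit 0) (nat_lit 2876025567) (nat_lit 5) (nat_lit 5) (nat_lit 7) (nat_lit 4) (nat_lit 5) (nat_lit 4) (nat_lit 295) (nat_lit 215) (nat_lit 210)) (XT.lf (nat_lit 0) (nat_lit 7615533947) (nat_lit 152) (nat_lit 11908489158) (nat_lit 0) (nat_lit 5464722632) (nat_lit 5) (nat_lit 5) (nat_lit 7) (nat_lit 4) (nat_lit 5) (nat_lit 4) (nat_lit 296) (nat_lit 215) (nat_lit 209))))) (XT.nd (nat_lit 312) (nat_lit 76) (nat_lit 0) (XT.nd (nat_lit 156) (nat_lit 76) (nat_lit 0) (XT.nd (nat_lit 78) (nat_lit 0) (nat_lit 0) (XT.lf (nat_lit 0) (nat_lit 10576615522) (nat_lit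 152) (nat_lit 7380099866) (nat_lit 0) (nat_lit 8124654842) (nat_lit 5) (nat_lit 5) (nat_lit 7) (nat_lit 4) (nat_lit 5) (nat_lit 4) (nat_lit 297) (nat_lit 215) (nat_lit 208)) (XT.lf (nat_lit 0) (nat_lit 13600924966) (nat_lit 152) (nat_lit 2769973576) (nat_lit 0) (nat_lit 10862155367) (nat_lit 5) (nat_lit 5) (nat_lit 7) (nat_lit 4) (nat_lit 5) (nat_lit 4) (nat_lit 298) (nat_lit 215) (nat_lit 207))) (XT.nd (nat_lit 78) (nat_lit 0) (nat_lit 0) (XT.lf (nat_lit 0) (nat_lit 1996775487) (nat_lit 76) (nat_lit 14730062791) (nat_lit 76) (nat_lit 11718141840) (nat_lit 4) (nat_lit 4) (nat_lit 5) (nat_lit 5) (nat_lit 5) (nat_lit 4) (nat_lit 299) (nat_lit 215) (nat_lit 206)) (XT.lf (nat_lit 0) (nat_lit 6962458871) (nat_lit 76) (nat_lit 13014442723) (nat_lit 76) (nat_lit 9742377627) (nat_lit 4) (nat_lit 4) (nat_lit 5) (nat_lit 5) (nat_lit 5) (nat_lit 4) (nat_lit 300) (nat_lit 215) (nat_lit 205))))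 (XT.nd (nat_lit 156) (nat_lit 76) (nat_lit 0) (XT.nd (nat_lit 78) (nat_lit 0) (nat_lit 0) (XT.lf (nat_lit 0) (nat_lit 12047311795) (nat_lit 76) (nat_lit 11266864371) (nat_lit 76) (nat_lit 7747042947) (nat_lit 4) (nat_lit 4) (nat_lit 5) (nat_lit 5) (nat_lit 5) (nat_lit 4) (nat_lit 301) (nat_lit 215) (nat_lit 204)) (XT.lf (nat_lit 0) (nat_lit 17263441051) (nat_lit 76) (nat_lit 9483166835) (nat_lit 76) (nat_lit 5727387003) (nat_lit 4) (nat_lit 4) (nat_lit 5) (nat_lit 5) (nat_lit 5) (nat_lit 4) (nat_lit 302) (nat_lit 215) (nat_lit 203))) (XT.nd (nat_lit 78) (nat_lit 76) (nat_lit 0) (XT.lf (nat_lit 0) (nat_lit 22623265995) (nat_lit 76) (nat_lit 7659103215) (nat_lit 76) (nat_lit 3678601090) (nat_lit 4) (nat_lit 4) (nat_lit 5) (nat_lit 5) (nat_lit 5) (nat_lit 4) (nat_lit 303) (nat_lit 215) (nat_lit 202)) (XT.nd (nat_lit 78) (nat_lit 76) (nat_lit 0) (XT.lf (nat_lit 0) (nat_lit 28139548115)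 (nat_lit 76) (nat_lit 5790330504) (nat_lit 76) (nat_lit 1595807146) (nat_lit 4) (nat_lit 4) (nat_lit 5) (nat_lit 5) (nat_lit 5) (nat_lit 4) (nat_lit 304) (nat_lit 215) (nat_lit 201)) (XT.lf (nat_lit 0) (nat_lit 509120051) (nat_lit 152) (nat_lit 3354656995) (nat_lit 76) (nat_lit 33307679169) (nat_lit 3) (nat_lit 5) (nat_lit 5) (nat_lit 5) (nat_lit 4) (nat_lit 4) (nat_lit 305) (nat_lit 215) (nat_lit 200))))))) (XT.nd (nat_lit 624) (nat_lit 76) (nat_lit 0) (XT.nd (nat_lit 312) (nat_lit 0) (nat_lit 0) (XT.nd (nat_lit 156) (nat_lit 0) (nat_lit 0) (XT.nd (nat_lit 78) (nat_lit 0) (nat_lit 0) (XT.lf (nat_lit 0) (nat_lit 773729484) (nat_lit 76) (nat_lit 1843932053) (nat_lit 152) (nat_lit 36283066056) (nat_lit 2) (nat_lit 5) (nat_lit 3) (nat_lit 5) (nat_lit 4) (nat_lit 4) (nat_lit 306) (nat_lit 215) (nat_lit 199)) (XT.lf (nat_lit 0) (nat_lit 4834221410) (nat_lit 152) (nat_lit 35597867843) (nat_lit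 0) (nat_lit 284358310) (nat_lit 2) (nat_lit 5) (nat_lit 4) (nat_lit 4) (nat_lit 2) (nat_lit 4) (nat_lit 307) (nat_lit 215) (nat_lit 198))) (XT.nd (nat_lit 78) (nat_lit 0) (nat_lit 0) (XT.lf (nat_lit 0) (nat_lit 7135193812) (nat_lit 152) (nat_lit 33071550147) (nat_lit 0) (nat_lit 2417639477) (nat_lit 2) (nat_lit 5) (nat_lit 4) (nat_lit 4) (nat_lit 2) (nat_lit 4) (nat_lit 308) (nat_lit 215) (nat_lit 197)) (XT.lf (nat_lit 0) (nat_lit 9497268304) (nat_lit 152) (nat_lit 30513241030) (nat_lit 0) (nat_lit 4620008031) (nat_lit 2) (nat_lit 5) (nat_lit 4) (nat_lit 4) (nat_lit 2) (nat_lit 4) (nat_lit 309) (nat_lit 215) (nat_lit 196)))) (XT.nd (nat_lit 156) (nat_lit 0) (nat_lit 0) (XT.nd (nat_lit 78) (nat_lit 0) (nat_lit 0) (XT.lf (nat_lit 0) (nat_lit 11926068873) (nat_lit 152) (nat_lit 27916849282) (nat_lit 0) (nat_lit 6896707706) (nat_lit 2) (nat_lit 5) (nat_lit 4) (nat_lit 4) (nat_lit 2) (nat_lit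 4) (nat_lit 310) (nat_lit 215) (nat_lit 195)) (XT.lf (nat_lit 0) (nat_lit 14427378376) (nat_lit 152) (nat_lit 25276193017) (nat_lit 0) (nat_lit 9253159215) (nat_lit 2) (nat_lit 5) (nat_lit 4) (nat_lit 4) (nat_lit 2) (nat_lit 4) (nat_lit 311) (nat_lit 215) (nat_lit 194))) (XT.nd (nat_lit 78) (nat_lit 0) (nat_lit 0) (XT.lf (nat_lit 0) (nat_lit 17007152312) (nat_lit 152) (nat_lit 22584984957) (nat_lit 0) (nat_lit 11694973157) (nat_lit 2) (nat_lit 5) (nat_lit 4) (nat_lit 4) (nat_lit 2) (nat_lit 4) (nat_lit 312) (nat_lit 215) (nat_lit 193)) (XT.lf (nat_lit 0) (nat_lit 19671533001) (nat_lit 152) (nat_lit 19836817466) (nat_lit 0) (nat_lit 14227963375) (nat_lit 2) (nat_lit 5) (nat_lit 4) (nat_lit 4) (nat_lit 2) (nat_lit 4) (nat_lit 313) (nat_lit 215) (nat_lit 192))))) (XT.nd (nat_lit 312) (nat_lit 76) (nat_lit 0) (XT.nd (nat_lit 156) (nat_lit 0) (nat_lit 0) (XT.nd (nat_lit 78) (nat_lit 0)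 (nat_lit 0) (XT.lf (nat_lit 0) (nat_lit 22426864206) (nat_lit 152) (nat_lit 17025147287) (nat_lit 0) (nat_lit 16858160799) (nat_lit 2) (nat_lit 5) (nat_lit 4) (nat_lit 4) (nat_lit 2) (nat_lit 4) (nat_lit 314) (nat_lit 215) (nat_lit 191)) (XT.lf (nat_lit 0) (nat_lit 25279706239) (nat_lit 152) (nat_lit 14143279967) (nat_lit 0) (nat_lit 19591827802) (nat_lit 2) (nat_lit 5) (nat_lit 4) (nat_lit 4) (nat_lit 2) (nat_lit 4) (nat_lit 315) (nat_lit 215) (nat_lit 190))) (XT.nd (nat_lit 78) (nat_lit 0) (nat_lit 0) (XT.lf (nat_lit 0) (nat_lit 28236851582) (nat_lit 152) (nat_lit 11184353917) (nat_lit 0) (nat_lit 22435473116) (nat_lit 2) (nat_lit 5) (nat_lit 4) (nat_lit 4) (nat_lit 2) (nat_lit 4) (nat_lit 316) (nat_lit 215) (nat_lit 189)) (XT.lf (nat_lit 0) (nat_lit 31305341056) (nat_lit 152) (nat_lit 8141324075) (nat_lit 0) (nat_lit 25395867325) (nat_lit 2) (nat_lit 5) (nat_lit 4) (nat_lit 4) (nat_lit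 2) (nat_lit 4) (nat_lit 317) (nat_lit 215) (nat_lit 188)))) (XT.nd (nat_lit 156) (nat_lit 76) (nat_lit 0) (XT.nd (nat_lit 78) (nat_lit 0) (nat_lit 0) (XT.lf (nat_lit 0) (nat_lit 34492480590) (nat_lit 152) (nat_lit 5006945133) (nat_lit 0) (nat_lit 28480058986) (nat_lit 2) (nat_lit 5) (nat_lit 4) (nat_lit 4) (nat_lit 2) (nat_lit 4) (nat_lit 318) (nat_lit 215) (nat_lit 187)) (XT.lf (nat_lit 0) (nat_lit 37805858609) (nat_lit 152) (nat_lit 1773754282) (nat_lit 0) (nat_lit 31695391414) (nat_lit 2) (nat_lit 5) (nat_lit 4) (nat_lit 4) (nat_lit 2) (nat_lit 4) (nat_lit 319) (nat_lit 215) (nat_lit 186))) (XT.nd (nat_lit 78) (nat_lit 0) (nat_lit 0) (XT.lf (nat_lit 0) (nat_lit 1617723813) (nat_lit 76) (nat_lit 39660897499) (nat_lit 76) (nat_lit 33457053550) (nat_lit 1) (nat_lit 4) (nat_lit 2) (nat_lit 5) (nat_lit 2) (nat_lit 4) (nat_lit 320) (nat_lit 215) (nat_lit 185)) (XT.nd (nat_lit 78) (nat_lit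 0) (nat_lit 0) (XT.lf (nat_lit 0) (nat_lit 5186096506) (nat_lit 76) (nat_lit 39738078434) (nat_lit 76) (nat_lit 33445304242) (nat_lit 1) (nat_lit 4) (nat_lit 2) (nat_lit 5) (nat_lit 2) (nat_lit 4) (nat_lit 321) (nat_lit 215) (nat_lit 184)) (XT.lf (nat_lit 0) (nat_lit 8881211593) (nat_lit 76) (nat_lit 39841378848) (nat_lit 76) (nat_lit 33463909187) (nat_lit 1) (nat_lit 4) (nat_lit 2) (nat_lit 5) (nat_lit 2) (nat_lit 4) (nat_lit 322) (nat_lit 215) (nat_lit 183))))))))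
noncomputable def xc40 : XT := (XT.nd (nat_lit 1248) (nat_lit 0) (nat_lit 0) (XT.nd (nat_lit 624) (nat_lit 0) (nat_lit 0) (XT.nd (nat_lit 312) (nat_lit 0) (nat_lit 0) (XT.nd (nat_lit 156) (nat_lit 0) (nat_lit 0) (XT.nd (nat_lit 78) (nat_lit 0) (nat_lit 0) (XT.lf (nat_lit 0) (nat_lit 12711866968) (nat_lit 76) (nat_lit 39971044694) (nat_lit 76) (nat_lit 33512912682) (nat_lit 1) (nat_lit 4) (nat_lit 2) (nat_lit 5) (nat_lit 2) (nat_lit 4) (nat_lit 323) (nat_lit 215) (nat_lit 182)) (XT.lf (nat_lit 0) (nat_lit 16687183238) (nat_lit 76) (nat_lit 40127384701) (nat_lit 76) (nat_lit 33592431401) (nat_lit 1) (nat_lit 4) (nat_lit 2) (nat_lit 5) (nat_lit 2) (nat_lit 4) (nat_lit 324) (nat_lit 215) (nat_lit 181))) (XT.nd (nat_lit 78) (nat_lit 0) (nat_lit 0) (XT.lf (nat_lit 0) (nat_lit 20816625443) (nat_lit 76) (nat_lit 40310771106) (nat_lit 76) (nat_lit 33702654676) (nat_lit 1) (nat_lit 4) (nat_lit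 2) (nat_lit 5) (nat_lit 2) (nat_lit 4) (nat_lit 325) (nat_lit 215) (nat_lit 180)) (XT.lf (nat_lit 0) (nat_lit 25110025587) (nat_lit 76) (nat_lit 40521640544) (nat_lit 76) (nat_lit 33843844942) (nat_lit 1) (nat_lit 4) (nat_lit 2) (nat_lit 5) (nat_lit 2) (nat_lit 4) (nat_lit 326) (nat_lit 215) (nat_lit 179)))) (XT.nd (nat_lit 156) (nat_lit 0) (nat_lit 0) (XT.nd (nat_lit 78) (nat_lit 0) (nat_lit 0) (XT.lf (nat_lit 0) (nat_lit 29577606052) (nat_lit 76) (nat_lit 40760495084) (nat_lit 76) (nat_lit 34016338367) (nat_lit 1) (nat_lit 4) (nat_lit 2) (nat_lit 5) (nat_lit 2) (nat_lit 4) (nat_lit 327) (nat_lit 215) (nat_lit 178)) (XT.lf (nat_lit 0) (nat_lit 34230003935) (nat_lit 76) (nat_lit 41027903429) (nat_lit 76) (nat_lit 34220545649) (nat_lit 1) (nat_lit 4) (nat_lit 2) (nat_lit 5) (nat_lit 2) (nat_lit 4) (nat_lit 328) (nat_lit 215) (nat_lit 177))) (XT.nd (nat_lit 78) (nat_lit 0) (nat_lit 0)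 (XT.lf (nat_lit 0) (nat_lit 39078296372) (nat_lit 76) (nat_lit 41324502265) (nat_lit 76) (nat_lit 34456952996) (nat_lit 1) (nat_lit 4) (nat_lit 2) (nat_lit 5) (nat_lit 2) (nat_lit 4) (nat_lit 329) (nat_lit 215) (nat_lit 176)) (XT.lf (nat_lit 0) (nat_lit 44134026918) (nat_lit 76) (nat_lit 41650997780) (nat_lit 76) (nat_lit 34726123283) (nat_lit 1) (nat_lit 4) (nat_lit 2) (nat_lit 5) (nat_lit 2) (nat_lit 4) (nat_lit 330) (nat_lit 215) (nat_lit 175))))) (XT.nd (nat_lit 312) (nat_lit 0) (nat_lit 0) (XT.nd (nat_lit 156) (nat_lit 0) (nat_lit 0) (XT.nd (nat_lit 78) (nat_lit 0) (nat_lit 0) (XT.lf (nat_lit 0) (nat_lit 49409233026) (nat_lit 76) (nat_lit 42008167343) (nat_lit 76) (nat_lit 35028697392) (nat_lit 1) (nat_lit 4) (nat_lit 2) (nat_lit 5) (nat_lit 2) (nat_lit 4) (nat_lit 331) (nat_lit 215) (nat_lit 174)) (XT.lf (nat_lit 0) (nat_lit 54916474711) (nat_lit 76) (nat_lit 42396861358) (nat_lit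 76) (nat_lit 35365395736) (nat_lit 1) (nat_lit 4) (nat_lit 2) (nat_lit 5) (nat_lit 2) (nat_lit 4) (nat_lit 332) (nat_lit 215) (nat_lit 173))) (XT.nd (nat_lit 78) (nat_lit 0) (nat_lit 0) (XT.lf (nat_lit 0) (nat_lit 60668864452) (nat_lit 76) (nat_lit 42818005288) (nat_lit 76) (nat_lit 35737019980) (nat_lit 1) (nat_lit 4) (nat_lit 2) (nat_lit 5) (nat_lit 2) (nat_lit 4) (nat_lit 333) (nat_lit 215) (nat_lit 172)) (XT.lf (nat_lit 0) (nat_lit 66680098417) (nat_lit 76) (nat_lit 43272601856) (nat_lit 76) (nat_lit 36144454942) (nat_lit 1) (nat_lit 4) (nat_lit 2) (nat_lit 5) (nat_lit 2) (nat_lit 4) (nat_lit 334) (nat_lit 215) (nat_lit 171)))) (XT.nd (nat_lit 156) (nat_lit 0) (nat_lit 0) (XT.nd (nat_lit 78) (nat_lit 0) (nat_lit 0) (XT.lf (nat_lit 0) (nat_lit 72964489066) (nat_lit 76) (nat_lit 43761733435) (nat_lit 76) (nat_lit 36588670705) (nat_lit 1) (nat_lit 4) (nat_lit 2) (nat_lit 5) (nat_lit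 2) (nat_lit 4) (nat_lit 335) (nat_lit 215) (nat_lit 170)) (XT.lf (nat_lit 0) (nat_lit 79536999235) (nat_lit 76) (nat_lit 44286564623) (nat_lit 76) (nat_lit 37070724926) (nat_lit 1) (nat_lit 4) (nat_lit 2) (nat_lit 5) (nat_lit 2) (nat_lit 4) (nat_lit 336) (nat_lit 215) (nat_lit 169))) (XT.nd (nat_lit 78) (nat_lit 0) (nat_lit 0) (XT.lf (nat_lit 0) (nat_lit 86413277758) (nat_lit 76) (nat_lit 44848345020) (nat_lit 76) (nat_lit 37591765354) (nat_lit 1) (nat_lit 4) (nat_lit 2) (nat_lit 5) (nat_lit 2) (nat_lit 4) (nat_lit 337) (nat_lit 215) (nat_lit 168)) (XT.lf (nat_lit 0) (nat_lit 93609696725) (nat_lit 76) (nat_lit 45448412196) (nat_lit 76) (nat_lit 38153032561) (nat_lit 1) (nat_lit 4) (nat_lit 2) (nat_lit 5) (nat_lit 2) (nat_lit 4) (nat_lit 338) (nat_lit 215) (nat_lit 167)))))) (XT.nd (nat_lit 624) (nat_lit 0) (nat_lit 0) (XT.nd (nat_lit 312) (nat_lit 0) (nat_lit 0) (XT.nd (nat_lit 156)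 (nat_lit 0) (nat_lit 0) (XT.nd (nat_lit 78) (nat_lit 0) (nat_lit 0) (XT.lf (nat_lit 0) (nat_lit 101143390468) (nat_lit 76) (nat_lit 46088194885) (nat_lit 76) (nat_lit 38755862896) (nat_lit 1) (nat_lit 4) (nat_lit 2) (nat_lit 5) (nat_lit 2) (nat_lit 4) (nat_lit 339) (nat_lit 215) (nat_lit 166)) (XT.lf (nat_lit 0) (nat_lit 109032296354) (nat_lit 76) (nat_lit 46769216377) (nat_lit 76) (nat_lit 39401691672) (nat_lit 1) (nat_lit 4) (nat_lit 2) (nat_lit 5) (nat_lit 2) (nat_lit 4) (nat_lit 340) (nat_lit 215) (nat_lit 165))) (XT.nd (nat_lit 78) (nat_lit 0) (nat_lit 0) (XT.lf (nat_lit 0) (nat_lit 117295197491) (nat_lit 76) (nat_lit 47493098152) (nat_lit 76) (nat_lit 40092056574) (nat_lit 1) (nat_lit 4) (nat_lit 2) (nat_lit 5) (nat_lit 2) (nat_lit 4) (nat_lit 341) (nat_lit 215) (nat_lit 164)) (XT.lf (nat_lit 0) (nat_lit 125951767453) (nat_lit 76) (nat_lit 48261563740) (nat_lit 76) (nat_lit 40828601330)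 (nat_lit 1) (nat_lit 4) (nat_lit 2) (nat_lit 5) (nat_lit 2) (nat_lit 4) (nat_lit 342) (nat_lit 215) (nat_lit 163)))) (XT.nd (nat_lit 156) (nat_lit 0) (nat_lit 0) (XT.nd (nat_lit 78) (nat_lit 0) (nat_lit 0) (XT.lf (nat_lit 0) (nat_lit 135022617121) (nat_lit 76) (nat_lit 49076442818) (nat_lit 76) (nat_lit 41613079617) (nat_lit 1) (nat_lit 4) (nat_lit 2) (nat_lit 5) (nat_lit 2) (nat_lit 4) (nat_lit 343) (nat_lit 215) (nat_lit 162)) (XT.lf (nat_lit 0) (nat_lit 144529343757) (nat_lit 76) (nat_lit 49939675577) (nat_lit 76) (nat_lit 42447359240) (nat_lit 1) (nat_lit 4) (nat_lit 2) (nat_lit 5) (nat_lit 2) (nat_lit 4) (nat_lit 344) (nat_lit 215) (nat_lit 161))) (XT.nd (nat_lit 78) (nat_lit 0) (nat_lit 0) (XT.lf (nat_lit 0) (nat_lit 154494582424) (nat_lit 76) (nat_lit 50853317331) (nat_lit 76) (nat_lit 43333426580) (nat_lit 1) (nat_lit 4) (nat_lit 2) (nat_lit 5) (nat_lit 2) (nat_lit 4) (nat_lit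 345) (nat_lit 215) (nat_lit 160)) (XT.lf (nat_lit 0) (nat_lit 164942059880) (nat_lit 76) (nat_lit 51819543419) (nat_lit 76) (nat_lit 44273391321) (nat_lit 1) (nat_lit 4) (nat_lit 2) (nat_lit 5) (nat_lit 2) (nat_lit 4) (nat_lit 346) (nat_lit 215) (nat_lit 159))))) (XT.nd (nat_lit 312) (nat_lit 0) (nat_lit 0) (XT.nd (nat_lit 156) (nat_lit 0) (nat_lit 0) (XT.nd (nat_lit 78) (nat_lit 0) (nat_lit 0) (XT.lf (nat_lit 0) (nat_lit 175896651072) (nat_lit 76) (nat_lit 52840654378) (nat_lit 76) (nat_lit 45269491473) (nat_lit 1) (nat_lit 4) (nat_lit 2) (nat_lit 5) (nat_lit 2) (nat_lit 4) (nat_lit 347) (nat_lit 215) (nat_lit 158)) (XT.lf (nat_lit 0) (nat_lit 187384438360) (nat_lit 76) (nat_lit 53919081426) (nat_lit 76) (nat_lit 46324098705) (nat_lit 1) (nat_lit 4) (nat_lit 2) (nat_lit 5) (nat_lit 2) (nat_lit 4) (nat_lit 348) (nat_lit 215) (nat_lit 157))) (XT.nd (nat_lit 78) (nat_lit 0) (nat_lit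 0) (XT.lf (nat_lit 0) (nat_lit 199432773618) (nat_lit 76) (nat_lit 55057392245) (nat_lit 76) (nat_lit 47439723985) (nat_lit 1) (nat_lit 4) (nat_lit 2) (nat_lit 5) (nat_lit 2) (nat_lit 4) (nat_lit 349) (nat_lit 215) (nat_lit 156)) (XT.lf (nat_lit 0) (nat_lit 212070343359) (nat_lit 76) (nat_lit 56258297100) (nat_lit 76) (nat_lit 48619023565) (nat_lit 1) (nat_lit 4) (nat_lit 2) (nat_lit 5) (nat_lit 2) (nat_lit 4) (nat_lit 350) (nat_lit 215) (nat_lit 155)))) (XT.nd (nat_lit 156) (nat_lit 0) (nat_lit 0) (XT.nd (nat_lit 78) (nat_lit 0) (nat_lit 0) (XT.lf (nat_lit 0) (nat_lit 225327237035) (nat_lit 76) (nat_lit 57524655288) (nat_lit 76) (nat_lit 49864805300) (nat_lit 1) (nat_lit 4) (nat_lit 2) (nat_lit 5) (nat_lit 2) (nat_lit 4) (nat_lit 351) (nat_lit 215) (nat_lit 154)) (XT.lf (nat_lit 0) (nat_lit 239235018678) (nat_lit 76) (nat_lit 58859481947) (nat_lit 76) (nat_lit 51180035338) (nat_lit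 1) (nat_lit 4) (nat_lit 2) (nat_lit 5) (nat_lit 2) (nat_lit 4) (nat_lit 352) (nat_lit 215) (nat_lit 153))) (XT.nd (nat_lit 78) (nat_lit 0) (nat_lit 0) (XT.lf (nat_lit 0) (nat_lit 253826802054) (nat_lit 76) (nat_lit 60265955236) (nat_lit 76) (nat_lit 52567845178) (nat_lit 1) (nat_lit 4) (nat_lit 2) (nat_lit 5) (nat_lit 2) (nat_lit 4) (nat_lit 353) (nat_lit 215) (nat_lit 152)) (XT.nd (nat_lit 78) (nat_lit 0) (nat_lit 0) (XT.lf (nat_lit 0) (nat_lit 269137329504) (nat_lit 76) (nat_lit 61747423901) (nat_lit 76) (nat_lit 54031539130) (nat_lit 1) (nat_lit 4) (nat_lit 2) (nat_lit 5) (nat_lit 2) (nat_lit 4) (nat_lit 354) (nat_lit 215) (nat_lit 151)) (XT.lf (nat_lit 0) (nat_lit 285203054665) (nat_lit 76) (nat_lit 63307415249) (nat_lit 76) (nat_lit 55574602179) (nat_lit 1) (nat_lit 4) (nat_lit 2) (nat_lit 5) (nat_lit 2) (nat_lit 4) (nat_lit 355) (nat_lit 215) (nat_lit 150))))))))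
noncomputable def xc41 : XT := (XT.nd (nat_lit 32994) (nat_lit 0) (nat_lit 76) (XT.nd (nat_lit 32292) (nat_lit 0) (nat_lit 304) (XT.nd (nat_lit 312) (nat_lit 0) (nat_lit 0) (XT.nd (nat_lit 156) (nat_lit 0) (nat_lit 0) (XT.nd (nat_lit 78) (nat_lit 0) (nat_lit 0) (XT.lf (nat_lit 0) (nat_lit 302062229264) (nat_lit 76) (nat_lit 64949643544) (nat_lit 76) (nat_lit 57200708285) (nat_lit 1) (nat_lit 4) (nat_lit 2) (nat_lit 5) (nat_lit 2) (nat_lit 4) (nat_lit 356) (nat_lit 215) (nat_lit 149)) (XT.lf (nat_lit 0) (nat_lit 319754994193) (nat_lit 76) (nat_lit 66678018854) (nat_lit 76) (nat_lit 58913729129) (nat_lit 1) (nat_lit 4) (nat_lit 2) (nat_lit 5) (nat_lit 2) (nat_lit 4) (nat_lit 357) (nat_lit 215) (nat_lit 148))) (XT.nd (nat_lit 78) (nat_lit 0) (nat_lit 0) (XT.lf (nat_lit 0) (nat_lit 338323475082) (nat_lit 76) (nat_lit 68496656358) (nat_lit 76) (nat_lit 60717743333) (nat_lit 1) (nat_lit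 4) (nat_lit 2) (nat_lit 5) (nat_lit 2) (nat_lit 4) (nat_lit 358) (nat_lit 215) (nat_lit 147)) (XT.lf (nat_lit 0) (nat_lit 357811882601) (nat_lit 76) (nat_lit 70409886145) (nat_lit 76) (nat_lit 62617046167) (nat_lit 1) (nat_lit 4) (nat_lit 2) (nat_lit 5) (nat_lit 2) (nat_lit 4) (nat_lit 359) (nat_lit 215) (nat_lit 146)))) (XT.nd (nat_lit 156) (nat_lit 0) (nat_lit 0) (XT.nd (nat_lit 78) (nat_lit 0) (nat_lit 0) (XT.lf (nat_lit 0) (nat_lit 378266617719) (nat_lit 76) (nat_lit 72422263525) (nat_lit 76) (nat_lit 64616159782) (nat_lit 1) (nat_lit 4) (nat_lit 2) (nat_lit 5) (nat_lit 2) (nat_lit 4) (nat_lit 360) (nat_lit 215) (nat_lit 145)) (XT.lf (nat_lit 0) (nat_lit 399736382186) (nat_lit 76) (nat_lit 74538579872) (nat_lit 76) (nat_lit 66719843973) (nat_lit 1) (nat_lit 4) (nat_lit 2) (nat_lit 5) (nat_lit 2) (nat_lit 4) (nat_lit 361) (nat_lit 215) (nat_lit 144))) (XT.nd (nat_lit 31746) (nat_lit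 0) (nat_lit 532) (XT.lf (nat_lit 0) (nat_lit 422272294491) (nat_lit 76) (nat_lit 76763874035) (nat_lit 76) (nat_lit 68933107510) (nat_lit 1) (nat_lit 4) (nat_lit 2) (nat_lit 5) (nat_lit 2) (nat_lit 4) (nat_lit 362) (nat_lit 215) (nat_lit 143)) (XT.lf (nat_lit 0) (nat_lit 2143639102) (nat_lit 152) (nat_lit 4729314845) (nat_lit 0) (nat_lit 2143639102) (nat_lit 8) (nat_lit 5) (nat_lit 10) (nat_lit 4) (nat_lit 8) (nat_lit 4) (nat_lit 288) (nat_lit 216) (nat_lit 216))))) (XT.nd (nat_lit 312) (nat_lit 152) (nat_lit 0) (XT.nd (nat_lit 156) (nat_lit 0) (nat_lit 0) (XT.nd (nat_lit 78) (nat_lit 76) (nat_lit 0) (XT.lf (nat_lit 0) (nat_lit 7525809601) (nat_lit 152) (nat_lit 4144836076) (nat_lit 0) (nat_lit 7080874831) (nat_lit 8) (nat_lit 5) (nat_lit 10) (nat_lit 4) (nat_lit 8) (nat_lit 4) (nat_lit 289) (nat_lit 216) (nat_lit 215)) (XT.lf (nat_lit 0) (nat_lit 1293833922) (nat_lit 76) (nat_lit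 9542691385) (nat_lit 76) (nat_lit 8674009216) (nat_lit 7) (nat_lit 4) (nat_lit 8) (nat_lit 5) (nat_lit 8) (nat_lit 4) (nat_lit 290) (nat_lit 216) (nat_lit 214))) (XT.nd (nat_lit 78) (nat_lit 0) (nat_lit 0) (XT.lf (nat_lit 0) (nat_lit 6969051805) (nat_lit 76) (nat_lit 7306413387) (nat_lit 76) (nat_lit 6034162266) (nat_lit 7) (nat_lit 4) (nat_lit 8) (nat_lit 5) (nat_lit 8) (nat_lit 4) (nat_lit 291) (nat_lit 216) (nat_lit 213)) (XT.lf (nat_lit 0) (nat_lit 12757282997) (nat_lit 76) (nat_lit 5026682017) (nat_lit 76) (nat_lit 3370079513) (nat_lit 7) (nat_lit 4) (nat_lit 8) (nat_lit 5) (nat_lit 8) (nat_lit 4) (nat_lit 292) (nat_lit 216) (nat_lit 212)))) (XT.nd (nat_lit 156) (nat_lit 0) (nat_lit 0) (XT.nd (nat_lit 78) (nat_lit 152) (nat_lit 0) (XT.lf (nat_lit 0) (nat_lit 18672309001) (nat_lit 76) (nat_lit 2698069342) (nat_lit 76) (nat_lit 675417902) (nat_lit 7) (nat_lit 4) (nat_lit 8) (nat_lit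 5) (nat_lit 8) (nat_lit 4) (nat_lit 293) (nat_lit 216) (nat_lit 211)) (XT.lf (nat_lit 0) (nat_lit 1765614421) (nat_lit 76) (nat_lit 252377722) (nat_lit 152) (nat_lit 20966030198) (nat_lit 5) (nat_lit 5) (nat_lit 6) (nat_lit 5) (nat_lit 7) (nat_lit 4) (nat_lit 294) (nat_lit 216) (nat_lit 210))) (XT.nd (nat_lit 78) (nat_lit 0) (nat_lit 0) (XT.lf (nat_lit 0) (nat_lit 4824074533) (nat_lit 152) (nat_lit 16895186539) (nat_lit 0) (nat_lit 2249515819) (nat_lit 5) (nat_lit 5) (nat_lit 7) (nat_lit 4) (nat_lit 5) (nat_lit 4) (nat_lit 295) (nat_lit 216) (nat_lit 209)) (XT.nd (nat_lit 78) (nat_lit 0) (nat_lit 0) (XT.lf (nat_lit 0) (nat_lit 7685530861) (nat_lit 152) (nat_lit 12511858019) (nat_lit 0) (nat_lit 4809822782) (nat_lit 5) (nat_lit 5) (nat_lit 7) (nat_lit 4) (nat_lit 5) (nat_lit 4) (nat_lit 296) (nat_lit 216) (nat_lit 208)) (XT.lf (nat_lit 0) (nat_lit 10605233798) (nat_lit 152) (nat_lit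 8054045540) (nat_lit 0) (nat_lit 7442716798) (nat_lit 5) (nat_lit 5) (nat_lit 7) (nat_lit 4) (nat_lit 5) (nat_lit 4) (nat_lit 297) (nat_lit 216) (nat_lit 207))))))) (XT.nd (nat_lit 624) (nat_lit 76) (nat_lit 0) (XT.nd (nat_lit 312) (nat_lit 76) (nat_lit 0) (XT.nd (nat_lit 156) (nat_lit 0) (nat_lit 0) (XT.nd (nat_lit 78) (nat_lit 76) (nat_lit 0) (XT.lf (nat_lit 0) (nat_lit 13590135015) (nat_lit 152) (nat_lit 3511135263) (nat_lit 0) (nat_lit 10154466664) (nat_lit 5) (nat_lit 5) (nat_lit 7) (nat_lit 4) (nat_lit 5) (nat_lit 4) (nat_lit 298) (nat_lit 216) (nat_lit 206)) (XT.lf (nat_lit 0) (nat_lit 1164975765) (nat_lit 76) (nat_lit 15500554193) (nat_lit 76) (nat_lit 11804741697) (nat_lit 4) (nat_lit 4) (nat_lit 5) (nat_lit 5) (nat_lit 5) (nat_lit 4) (nat_lit 299) (nat_lit 216) (nat_lit 205))) (XT.nd (nat_lit 78) (nat_lit 0) (nat_lit 0) (XT.lf (nat_lit 0) (nat_lit 6067676403) (nat_lit 76)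 (nat_lit 13811189110) (nat_lit 76) (nat_lit 9867620286) (nat_lit 4) (nat_lit 4) (nat_lit 5) (nat_lit 5) (nat_lit 5) (nat_lit 4) (nat_lit 300) (nat_lit 216) (nat_lit 204)) (XT.lf (nat_lit 0) (nat_lit 11092545759) (nat_lit 76) (nat_lit 12088615506) (nat_lit 76) (nat_lit 7909088274) (nat_lit 4) (nat_lit 4) (nat_lit 5) (nat_lit 5) (nat_lit 5) (nat_lit 4) (nat_lit 301) (nat_lit 216) (nat_lit 203)))) (XT.nd (nat_lit 156) (nat_lit 76) (nat_lit 0) (XT.nd (nat_lit 78) (nat_lit 0) (nat_lit 0) (XT.lf (nat_lit 0) (nat_lit 16251547808) (nat_lit 76) (nat_lit 10328732016) (nat_lit 76) (nat_lit 5924482490) (nat_lit 4) (nat_lit 4) (nat_lit 5) (nat_lit 5) (nat_lit 5) (nat_lit 4) (nat_lit 302) (nat_lit 216) (nat_lit 202)) (XT.lf (nat_lit 0) (nat_lit 21556965887) (nat_lit 76) (nat_lit 8527348439) (nat_lit 76) (nat_lit 3909077682) (nat_lit 4) (nat_lit 4) (nat_lit 5) (nat_lit 5) (nat_lit 5) (nat_lit 4)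 (nat_lit 303) (nat_lit 216) (nat_lit 201))) (XT.nd (nat_lit 78) (nat_lit 76) (nat_lit 0) (XT.lf (nat_lit 0) (nat_lit 27021431946) (nat_lit 76) (nat_lit 6680175769) (nat_lit 76) (nat_lit 1858075268) (nat_lit 4) (nat_lit 4) (nat_lit 5) (nat_lit 5) (nat_lit 5) (nat_lit 4) (nat_lit 304) (nat_lit 216) (nat_lit 200)) (XT.lf (nat_lit 0) (nat_lit 225937575) (nat_lit 152) (nat_lit 4553052037) (nat_lit 76) (nat_lit 32428192679) (nat_lit 3) (nat_lit 5) (nat_lit 5) (nat_lit 5) (nat_lit 4) (nat_lit 4) (nat_lit 305) (nat_lit 216) (nat_lit 199))))) (XT.nd (nat_lit 312) (nat_lit 0) (nat_lit 0) (XT.nd (nat_lit 156) (nat_lit 0) (nat_lit 0) (XT.nd (nat_lit 78) (nat_lit 76) (nat_lit 0) (XT.lf (nat_lit 0) (nat_lit 2294486050) (nat_lit 152) (nat_lit 497407251) (nat_lit 76) (nat_lit 36146615915) (nat_lit 3) (nat_lit 5) (nat_lit 5) (nat_lit 5) (nat_lit 4) (nat_lit 4) (nat_lit 306) (nat_lit 216) (nat_lit 198))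 (XT.lf (nat_lit 0) (nat_lit 3788608511) (nat_lit 76) (nat_lit 682507568) (nat_lit 152) (nat_lit 36285162835) (nat_lit 2) (nat_lit 5) (nat_lit 3) (nat_lit 5) (nat_lit 4) (nat_lit 4) (nat_lit 307) (nat_lit 216) (nat_lit 197))) (XT.nd (nat_lit 78) (nat_lit 0) (nat_lit 0) (XT.lf (nat_lit 0) (nat_lit 6735117245) (nat_lit 152) (nat_lit 34476708785) (nat_lit 0) (nat_lit 1454288019) (nat_lit 2) (nat_lit 5) (nat_lit 4) (nat_lit 4) (nat_lit 2) (nat_lit 4) (nat_lit 308) (nat_lit 216) (nat_lit 196)) (XT.lf (nat_lit 0) (nat_lit 9072129469) (nat_lit 152) (nat_lit 31962220558) (nat_lit 0) (nat_lit 3639199350) (nat_lit 2) (nat_lit 5) (nat_lit 4) (nat_lit 4) (nat_lit 2) (nat_lit 4) (nat_lit 309) (nat_lit 216) (nat_lit 195)))) (XT.nd (nat_lit 156) (nat_lit 0) (nat_lit 0) (XT.nd (nat_lit 78) (nat_lit 0) (nat_lit 0) (XT.lf (nat_lit 0) (nat_lit 11477061211) (nat_lit 152) (nat_lit 29407562991) (nat_lit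 0) (nat_lit 5899273099) (nat_lit 2) (nat_lit 5) (nat_lit 4) (nat_lit 4) (nat_lit 2) (nat_lit 4) (nat_lit 310) (nat_lit 216) (nat_lit 194)) (XT.lf (nat_lit 0) (nat_lit 13955638499) (nat_lit 152) (nat_lit 26806653564) (nat_lit 0) (nat_lit 8239890392) (nat_lit 2) (nat_lit 5) (nat_lit 4) (nat_lit 4) (nat_lit 2) (nat_lit 4) (nat_lit 311) (nat_lit 216) (nat_lit 193))) (XT.nd (nat_lit 78) (nat_lit 0) (nat_lit 0) (XT.lf (nat_lit 0) (nat_lit 16513762706) (nat_lit 152) (nat_lit 24153299637) (nat_lit 0) (nat_lit 10666624129) (nat_lit 2) (nat_lit 5) (nat_lit 4) (nat_lit 4) (nat_lit 2) (nat_lit 4) (nat_lit 312) (nat_lit 216) (nat_lit 192)) (XT.nd (nat_lit 78) (nat_lit 0) (nat_lit 0) (XT.lf (nat_lit 0) (nat_lit 19157524606) (nat_lit 152) (nat_lit 21441183700) (nat_lit 0) (nat_lit 13185252247) (nat_lit 2) (nat_lit 5) (nat_lit 4) (nat_lit 4) (nat_lit 2) (nat_lit 4) (nat_lit 313) (nat_lit 216) (nat_lit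 191)) (XT.lf (nat_lit 0) (nat_lit 21893218868) (nat_lit 152) (nat_lit 18663848334) (nat_lit 0) (nat_lit 15801771479) (nat_lit 2) (nat_lit 5) (nat_lit 4) (nat_lit 4) (nat_lit 2) (nat_lit 4) (nat_lit 314) (nat_lit 216) (nat_lit 190))))))))
noncomputable def xc42 : XT := (XT.nd (nat_lit 1326) (nat_lit 0) (nat_lit 0) (XT.nd (nat_lit 624) (nat_lit 0) (nat_lit 0) (XT.nd (nat_lit 312) (nat_lit 76) (nat_lit 0) (XT.nd (nat_lit 156) (nat_lit 0) (nat_lit 0) (XT.nd (nat_lit 78) (nat_lit 0) (nat_lit 0) (XT.lf (nat_lit 0) (nat_lit 24727359052) (nat_lit 152) (nat_lit 15814680837) (nat_lit 0) (nat_lit 18522411634) (nat_lit 2) (nat_lit 5) (nat_lit 4) (nat_lit 4) (nat_lit 2) (nat_lit 4) (nat_lit 315) (nat_lit 216) (nat_lit 189)) (XT.lf (nat_lit 0) (nat_lit 27666693109) (nat_lit 152) (nat_lit 12886897475) (nat_lit 0) (nat_lit 21353650426) (nat_lit 2) (nat_lit 5) (nat_lit 4) (nat_lit 4) (nat_lit 2) (nat_lit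 4) (nat_lit 316) (nat_lit 216) (nat_lit 188))) (XT.nd (nat_lit 78) (nat_lit 0) (nat_lit 0) (XT.lf (nat_lit 0) (nat_lit 30718219454) (nat_lit 152) (nat_lit 9873527336) (nat_lit 0) (nat_lit 24302228899) (nat_lit 2) (nat_lit 5) (nat_lit 4) (nat_lit 4) (nat_lit 2) (nat_lit 4) (nat_lit 317) (nat_lit 216) (nat_lit 187)) (XT.lf (nat_lit 0) (nat_lit 33889203626) (nat_lit 152) (nat_lit 6767395730) (nat_lit 0) (nat_lit 27375167479) (nat_lit 2) (nat_lit 5) (nat_lit 4) (nat_lit 4) (nat_lit 2) (nat_lit 4) (nat_lit 318) (nat_lit 216) (nat_lit 186)))) (XT.nd (nat_lit 156) (nat_lit 76) (nat_lit 0) (XT.nd (nat_lit 78) (nat_lit 0) (nat_lit 0) (XT.lf (nat_lit 0) (nat_lit 37187195588) (nat_lit 152) (nat_lit 3561107105) (nat_lit 0) (nat_lit 30579782686) (nat_lit 2) (nat_lit 5) (nat_lit 4) (nat_lit 4) (nat_lit 2) (nat_lit 4) (nat_lit 319) (nat_lit 216) (nat_lit 185)) (XT.lf (nat_lit 0) (nat_lit 40620047700)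 (nat_lit 152) (nat_lit 247027440) (nat_lit 0) (nat_lit 33923704556) (nat_lit 2) (nat_lit 5) (nat_lit 4) (nat_lit 4) (nat_lit 2) (nat_lit 4) (nat_lit 320) (nat_lit 216) (nat_lit 184))) (XT.nd (nat_lit 78) (nat_lit 0) (nat_lit 0) (XT.lf (nat_lit 0) (nat_lit 3287969487) (nat_lit 76) (nat_lit 40959298352) (nat_lit 76) (nat_lit 34178259739) (nat_lit 1) (nat_lit 4) (nat_lit 2) (nat_lit 5) (nat_lit 2) (nat_lit 4) (nat_lit 321) (nat_lit 216) (nat_lit 183)) (XT.lf (nat_lit 0) (nat_lit 6959077029) (nat_lit 76) (nat_lit 41072940430) (nat_lit 76) (nat_lit 34211239466) (nat_lit 1) (nat_lit 4) (nat_lit 2) (nat_lit 5) (nat_lit 2) (nat_lit 4) (nat_lit 322) (nat_lit 216) (nat_lit 182))))) (XT.nd (nat_lit 312) (nat_lit 0) (nat_lit 0) (XT.nd (nat_lit 156) (nat_lit 0) (nat_lit 0) (XT.nd (nat_lit 78) (nat_lit 0) (nat_lit 0) (XT.lf (nat_lit 0) (nat_lit 10766868076) (nat_lit 76) (nat_lit 41212455480) (nat_lit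 76) (nat_lit 34273933229) (nat_lit 1) (nat_lit 4) (nat_lit 2) (nat_lit 5) (nat_lit 2) (nat_lit 4) (nat_lit 323) (nat_lit 216) (nat_lit 181)) (XT.lf (nat_lit 0) (nat_lit 14720408795) (nat_lit 76) (nat_lit 41378175681) (nat_lit 76) (nat_lit 34366490299) (nat_lit 1) (nat_lit 4) (nat_lit 2) (nat_lit 5) (nat_lit 2) (nat_lit 4) (nat_lit 324) (nat_lit 216) (nat_lit 180))) (XT.nd (nat_lit 78) (nat_lit 0) (nat_lit 0) (XT.lf (nat_lit 0) (nat_lit 18829112380) (nat_lit 76) (nat_lit 41570495604) (nat_lit 76) (nat_lit 34489131051) (nat_lit 1) (nat_lit 4) (nat_lit 2) (nat_lit 5) (nat_lit 2) (nat_lit 4) (nat_lit 325) (nat_lit 216) (nat_lit 179)) (XT.lf (nat_lit 0) (nat_lit 23102761458) (nat_lit 76) (nat_lit 41789873155) (nat_lit 76) (nat_lit 34642147485) (nat_lit 1) (nat_lit 4) (nat_lit 2) (nat_lit 5) (nat_lit 2) (nat_lit 4) (nat_lit 326) (nat_lit 216) (nat_lit 178)))) (XT.nd (nat_lit 156) (nat_lit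 0) (nat_lit 0) (XT.nd (nat_lit 78) (nat_lit 0) (nat_lit 0) (XT.lf (nat_lit 0) (nat_lit 27551531384) (nat_lit 76) (nat_lit 42036830660) (nat_lit 76) (nat_lit 34825903928) (nat_lit 1) (nat_lit 4) (nat_lit 2) (nat_lit 5) (nat_lit 2) (nat_lit 4) (nat_lit 327) (nat_lit 216) (nat_lit 177)) (XT.lf (nat_lit 0) (nat_lit 32186014466) (nat_lit 76) (nat_lit 42311956114) (nat_lit 76) (nat_lit 35040837893) (nat_lit 1) (nat_lit 4) (nat_lit 2) (nat_lit 5) (nat_lit 2) (nat_lit 4) (nat_lit 328) (nat_lit 216) (nat_lit 176))) (XT.nd (nat_lit 78) (nat_lit 0) (nat_lit 0) (XT.lf (nat_lit 0) (nat_lit 37017245190) (nat_lit 76) (nat_lit 42615904578) (nat_lit 76) (nat_lit 35287461130) (nat_lit 1) (nat_lit 4) (nat_lit 2) (nat_lit 5) (nat_lit 2) (nat_lit 4) (nat_lit 329) (nat_lit 216) (nat_lit 175)) (XT.nd (nat_lit 78) (nat_lit 0) (nat_lit 0) (XT.lf (nat_lit 0) (nat_lit 42056726485) (nat_lit 76) (nat_lit 42949399737)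 (nat_lit 76) (nat_lit 35566360835) (nat_lit 1) (nat_lit 4) (nat_lit 2) (nat_lit 5) (nat_lit 2) (nat_lit 4) (nat_lit 330) (nat_lit 216) (nat_lit 174)) (XT.lf (nat_lit 0) (nat_lit 47316457115) (nat_lit 76) (nat_lit 43313235629) (nat_lit 76) (nat_lit 35878201056) (nat_lit 1) (nat_lit 4) (nat_lit 2) (nat_lit 5) (nat_lit 2) (nat_lit 4) (nat_lit 331) (nat_lit 216) (nat_lit 173))))))) (XT.nd (nat_lit 624) (nat_lit 0) (nat_lit 0) (XT.nd (nat_lit 312) (nat_lit 0) (nat_lit 0) (XT.nd (nat_lit 156) (nat_lit 0) (nat_lit 0) (XT.nd (nat_lit 78) (nat_lit 0) (nat_lit 0) (XT.lf (nat_lit 0) (nat_lit 52808960250) (nat_lit 76) (nat_lit 43708278530) (nat_lit 76) (nat_lit 36223724270) (nat_lit 1) (nat_lit 4) (nat_lit 2) (nat_lit 5) (nat_lit 2) (nat_lit 4) (nat_lit 332) (nat_lit 216) (nat_lit 172)) (XT.lf (nat_lit 0) (nat_lit 58547313277) (nat_lit 76) (nat_lit 44135469016) (nat_lit 76) (nat_lit 36603753150)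 (nat_lit 1) (nat_lit 4) (nat_lit 2) (nat_lit 5) (nat_lit 2) (nat_lit 4) (nat_lit 333) (nat_lit 216) (nat_lit 171))) (XT.nd (nat_lit 78) (nat_lit 0) (nat_lit 0) (XT.lf (nat_lit 0) (nat_lit 64545178943) (nat_lit 76) (nat_lit 44595824210) (nat_lit 76) (nat_lit 37019192528) (nat_lit 1) (nat_lit 4) (nat_lit 2) (nat_lit 5) (nat_lit 2) (nat_lit 4) (nat_lit 334) (nat_lit 216) (nat_lit 170)) (XT.lf (nat_lit 0) (nat_lit 70816837879) (nat_lit 76) (nat_lit 45090440194) (nat_lit 76) (nat_lit 37471031545) (nat_lit 1) (nat_lit 4) (nat_lit 2) (nat_lit 5) (nat_lit 2) (nat_lit 4) (nat_lit 335) (nat_lit 216) (nat_lit 169)))) (XT.nd (nat_lit 156) (nat_lit 0) (nat_lit 0) (XT.nd (nat_lit 78) (nat_lit 0) (nat_lit 0) (XT.lf (nat_lit 0) (nat_lit 77377222606) (nat_lit 76) (nat_lit 45620494626) (nat_lit 76) (nat_lit 37960346008) (nat_lit 1) (nat_lit 4) (nat_lit 2) (nat_lit 5) (nat_lit 2) (nat_lit 4) (nat_lit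 336) (nat_lit 216) (nat_lit 168)) (XT.lf (nat_lit 0) (nat_lit 84241953089) (nat_lit 76) (nat_lit 46187249539) (nat_lit 76) (nat_lit 38488300952) (nat_lit 1) (nat_lit 4) (nat_lit 2) (nat_lit 5) (nat_lit 2) (nat_lit 4) (nat_lit 337) (nat_lit 216) (nat_lit 167))) (XT.nd (nat_lit 78) (nat_lit 0) (nat_lit 0) (XT.lf (nat_lit 0) (nat_lit 91427373923) (nat_lit 76) (nat_lit 46792054352) (nat_lit 76) (nat_lit 39056153411) (nat_lit 1) (nat_lit 4) (nat_lit 2) (nat_lit 5) (nat_lit 2) (nat_lit 4) (nat_lit 338) (nat_lit 216) (nat_lit 166)) (XT.lf (nat_lit 0) (nat_lit 98950593255) (nat_lit 76) (nat_lit 47436349074) (nat_lit 76) (nat_lit 39665255417) (nat_lit 1) (nat_lit 4) (nat_lit 2) (nat_lit 5) (nat_lit 2) (nat_lit 4) (nat_lit 339) (nat_lit 216) (nat_lit 165))))) (XT.nd (nat_lit 312) (nat_lit 0) (nat_lit 0) (XT.nd (nat_lit 156) (nat_lit 0) (nat_lit 0) (XT.nd (nat_lit 78) (nat_lit 0) (nat_lit 0)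 (XT.lf (nat_lit 0) (nat_lit 106829523509) (nat_lit 76) (nat_lit 48121667741) (nat_lit 76) (nat_lit 40317057211) (nat_lit 1) (nat_lit 4) (nat_lit 2) (nat_lit 5) (nat_lit 2) (nat_lit 4) (nat_lit 340) (nat_lit 216) (nat_lit 164)) (XT.lf (nat_lit 0) (nat_lit 115082924045) (nat_lit 76) (nat_lit 48849642064) (nat_lit 76) (nat_lit 41013110703) (nat_lit 1) (nat_lit 4) (nat_lit 2) (nat_lit 5) (nat_lit 2) (nat_lit 4) (nat_lit 341) (nat_lit 216) (nat_lit 163))) (XT.nd (nat_lit 78) (nat_lit 0) (nat_lit 0) (XT.lf (nat_lit 0) (nat_lit 123730445816) (nat_lit 76) (nat_lit 49622005316) (nat_lit 76) (nat_lit 41755073163) (nat_lit 1) (nat_lit 4) (nat_lit 2) (nat_lit 5) (nat_lit 2) (nat_lit 4) (nat_lit 342) (nat_lit 216) (nat_lit 162)) (XT.lf (nat_lit 0) (nat_lit 132792678160) (nat_lit 76) (nat_lit 50440596456) (nat_lit 76) (nat_lit 42544711167) (nat_lit 1) (nat_lit 4) (nat_lit 2) (nat_lit 5) (nat_lit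 2) (nat_lit 4) (nat_lit 343) (nat_lit 216) (nat_lit 161)))) (XT.nd (nat_lit 156) (nat_lit 0) (nat_lit 0) (XT.nd (nat_lit 78) (nat_lit 0) (nat_lit 0) (XT.lf (nat_lit 0) (nat_lit 142291197820) (nat_lit 76) (nat_lit 51307364511) (nat_lit 76) (nat_lit 43383904808) (nat_lit 1) (nat_lit 4) (nat_lit 2) (nat_lit 5) (nat_lit 2) (nat_lit 4) (nat_lit 344) (nat_lit 216) (nat_lit 160)) (XT.lf (nat_lit 0) (nat_lit 152248620319) (nat_lit 76) (nat_lit 52224373214) (nat_lit 76) (nat_lit 44274652164) (nat_lit 1) (nat_lit 4) (nat_lit 2) (nat_lit 5) (nat_lit 2) (nat_lit 4) (nat_lit 345) (nat_lit 216) (nat_lit 159))) (XT.nd (nat_lit 78) (nat_lit 0) (nat_lit 0) (XT.lf (nat_lit 0) (nat_lit 162688653805) (nat_lit 76) (nat_lit 53193805920) (nat_lit 76) (nat_lit 45219074064) (nat_lit 1) (nat_lit 4) (nat_lit 2) (nat_lit 5) (nat_lit 2) (nat_lit 4) (nat_lit 346) (nat_lit 216) (nat_lit 158)) (XT.nd (nat_lit 78)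 (nat_lit 0) (nat_lit 0) (XT.lf (nat_lit 0) (nat_lit 173636155503) (nat_lit 76) (nat_lit 54217970802) (nat_lit 76) (nat_lit 46219419129) (nat_lit 1) (nat_lit 4) (nat_lit 2) (nat_lit 5) (nat_lit 2) (nat_lit 4) (nat_lit 347) (nat_lit 216) (nat_lit 157)) (XT.lf (nat_lit 0) (nat_lit 185117190891) (nat_lit 76) (nat_lit 55299306346) (nat_lit 76) (nat_lit 47278069135) (nat_lit 1) (nat_lit 4) (nat_lit 2) (nat_lit 5) (nat_lit 2) (nat_lit 4) (nat_lit 348) (nat_lit 216) (nat_lit 156))))))))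
noncomputable def xc43 : XT := (XT.nd (nat_lit 32838) (nat_lit 0) (nat_lit 228) (XT.nd (nat_lit 624) (nat_lit 0) (nat_lit 0) (XT.nd (nat_lit 312) (nat_lit 0) (nat_lit 0) (XT.nd (nat_lit 156) (nat_lit 0) (nat_lit 0) (XT.nd (nat_lit 78) (nat_lit 0) (nat_lit 0) (XT.lf (nat_lit 0) (nat_lit 197159095769) (nat_lit 76) (nat_lit 56440387163) (nat_lit 76) (nat_lit 48397544676) (nat_lit 1) (nat_lit 4) (nat_lit 2) (nat_lit 5) (nat_lit 2) (nat_lit 4) (nat_lit 349) (nat_lit 216) (nat_lit 155)) (XT.lf (nat_lit 0) (nat_lit 209790541338) (nat_lit 76) (nat_lit 57643930111) (nat_lit 76) (nat_lit 49580511172) (nat_lit 1) (nat_lit 4) (nat_lit 2) (nat_lit 5) (nat_lit 2) (nat_lit 4) (nat_lit 350) (nat_lit 216) (nat_lit 154))) (XT.nd (nat_lit 78) (nat_lit 0) (nat_lit 0) (XT.lf (nat_lit 0) (nat_lit 223041602469) (nat_lit 76) (nat_lit 58912800768) (nat_lit 76) (nat_lit 50829785207) (nat_lit 1) (nat_lit 4)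 (nat_lit 2) (nat_lit 5) (nat_lit 2) (nat_lit 4) (nat_lit 351) (nat_lit 216) (nat_lit 153)) (XT.lf (nat_lit 0) (nat_lit 236943829308) (nat_lit 76) (nat_lit 60250020255) (nat_lit 76) (nat_lit 52148341245) (nat_lit 1) (nat_lit 4) (nat_lit 2) (nat_lit 5) (nat_lit 2) (nat_lit 4) (nat_lit 352) (nat_lit 216) (nat_lit 152)))) (XT.nd (nat_lit 156) (nat_lit 0) (nat_lit 0) (XT.nd (nat_lit 78) (nat_lit 0) (nat_lit 0) (XT.lf (nat_lit 0) (nat_lit 251530322394) (nat_lit 76) (nat_lit 61658772428) (nat_lit 76) (nat_lit 53539318704) (nat_lit 1) (nat_lit 4) (nat_lit 2) (nat_lit 5) (nat_lit 2) (nat_lit 4) (nat_lit 353) (nat_lit 216) (nat_lit 151)) (XT.lf (nat_lit 0) (nat_lit 266835811472) (nat_lit 76) (nat_lit 63142411458) (nat_lit 76) (nat_lit 55006029437) (nat_lit 1) (nat_lit 4) (nat_lit 2) (nat_lit 5) (nat_lit 2) (nat_lit 4) (nat_lit 354) (nat_lit 216) (nat_lit 150))) (XT.nd (nat_lit 78) (nat_lit 0)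 (nat_lit 0) (XT.lf (nat_lit 0) (nat_lit 282896738185) (nat_lit 76) (nat_lit 64704469821) (nat_lit 76) (nat_lit 56551965610) (nat_lit 1) (nat_lit 4) (nat_lit 2) (nat_lit 5) (nat_lit 2) (nat_lit 4) (nat_lit 355) (nat_lit 216) (nat_lit 149)) (XT.lf (nat_lit 0) (nat_lit 299751342833) (nat_lit 76) (nat_lit 66348666701) (nat_lit 76) (nat_lit 58180808025) (nat_lit 1) (nat_lit 4) (nat_lit 2) (nat_lit 5) (nat_lit 2) (nat_lit 4) (nat_lit 356) (nat_lit 216) (nat_lit 148))))) (XT.nd (nat_lit 312) (nat_lit 0) (nat_lit 0) (XT.nd (nat_lit 156) (nat_lit 0) (nat_lit 0) (XT.nd (nat_lit 78) (nat_lit 0) (nat_lit 0) (XT.lf (nat_lit 0) (nat_lit 317439755427) (nat_lit 76) (nat_lit 68078916854) (nat_lit 76) (nat_lit 59896434877) (nat_lit 1) (nat_lit 4) (nat_lit 2) (nat_lit 5) (nat_lit 2) (nat_lit 4) (nat_lit 357) (nat_lit 216) (nat_lit 147)) (XT.lf (nat_lit 0) (nat_lit 336004091236) (nat_lit 76) (nat_lit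 69899339923) (nat_lit 76) (nat_lit 61702930993) (nat_lit 1) (nat_lit 4) (nat_lit 2) (nat_lit 5) (nat_lit 2) (nat_lit 4) (nat_lit 358) (nat_lit 216) (nat_lit 146))) (XT.nd (nat_lit 78) (nat_lit 0) (nat_lit 0) (XT.lf (nat_lit 0) (nat_lit 355488551058) (nat_lit 76) (nat_lit 71814270249) (nat_lit 76) (nat_lit 63604597554) (nat_lit 1) (nat_lit 4) (nat_lit 2) (nat_lit 5) (nat_lit 2) (nat_lit 4) (nat_lit 359) (nat_lit 216) (nat_lit 145)) (XT.lf (nat_lit 0) (nat_lit 375939526466) (nat_lit 76) (nat_lit 73828267189) (nat_lit 76) (nat_lit 65605962337) (nat_lit 1) (nat_lit 4) (nat_lit 2) (nat_lit 5) (nat_lit 2) (nat_lit 4) (nat_lit 360) (nat_lit 216) (nat_lit 144)))) (XT.nd (nat_lit 31668) (nat_lit 0) (nat_lit 532) (XT.nd (nat_lit 78) (nat_lit 0) (nat_lit 0) (XT.lf (nat_lit 0) (nat_lit 397405710257) (nat_lit 76) (nat_lit 75946125974) (nat_lit 76) (nat_lit 67711790497) (nat_lit 1) (nat_lit 4) (nat_lit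 2) (nat_lit 5) (nat_lit 2) (nat_lit 4) (nat_lit 361) (nat_lit 216) (nat_lit 143)) (XT.lf (nat_lit 0) (nat_lit 419938212393) (nat_lit 76) (nat_lit 78172889126) (nat_lit 76) (nat_lit 69927095910) (nat_lit 1) (nat_lit 4) (nat_lit 2) (nat_lit 5) (nat_lit 2) (nat_lit 4) (nat_lit 362) (nat_lit 216) (nat_lit 142))) (XT.nd (nat_lit 78) (nat_lit 152) (nat_lit 0) (XT.lf (nat_lit 0) (nat_lit 6839995026) (nat_lit 152) (nat_lit 756725331) (nat_lit 152) (nat_lit 756725331) (nat_lit 10) (nat_lit 4) (nat_lit 12) (nat_lit 5) (nat_lit 12) (nat_lit 4) (nat_lit 286) (nat_lit 217) (nat_lit 217)) (XT.nd (nat_lit 78) (nat_lit 0) (nat_lit 0) (XT.lf (nat_lit 0) (nat_lit 1560201463) (nat_lit 152) (nat_lit 14701609576) (nat_lit 0) (nat_lit 1093019955) (nat_lit 8) (nat_lit 5) (nat_lit 10) (nat_lit 4) (nat_lit 8) (nat_lit 4) (nat_lit 287) (nat_lit 217) (nat_lit 216)) (XT.lf (nat_lit 0) (nat_lit 4698147632) (nat_lit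 152) (nat_lit 9551963966) (nat_lit 0) (nat_lit 3786031354) (nat_lit 8) (nat_lit 5) (nat_lit 10) (nat_lit 4) (nat_lit 8) (nat_lit 4) (nat_lit 288) (nat_lit 217) (nat_lit 215))))))) (XT.nd (nat_lit 624) (nat_lit 76) (nat_lit 0) (XT.nd (nat_lit 312) (nat_lit 152) (nat_lit 0) (XT.nd (nat_lit 156) (nat_lit 0) (nat_lit 0) (XT.nd (nat_lit 78) (nat_lit 76) (nat_lit 0) (XT.lf (nat_lit 0) (nat_lit 7883048475) (nat_lit 152) (nat_lit 4327060138) (nat_lit 0) (nat_lit 6547184798) (nat_lit 8) (nat_lit 5) (nat_lit 10) (nat_lit 4) (nat_lit 8) (nat_lit 4) (nat_lit 289) (nat_lit 217) (nat_lit 214)) (XT.lf (nat_lit 0) (nat_lit 1018128629) (nat_lit 76) (nat_lit 10120254303) (nat_lit 76) (nat_lit 8380821674) (nat_lit 7) (nat_lit 4) (nat_lit 8) (nat_lit 5) (nat_lit 8) (nat_lit 4) (nat_lit 290) (nat_lit 217) (nat_lit 213))) (XT.nd (nat_lit 78) (nat_lit 0) (nat_lit 0) (XT.lf (nat_lit 0) (nat_lit 6610055007)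 (nat_lit 76) (nat_lit 7917322904) (nat_lit 76) (nat_lit 5793538892) (nat_lit 7) (nat_lit 4) (nat_lit 8) (nat_lit 5) (nat_lit 8) (nat_lit 4) (nat_lit 291) (nat_lit 217) (nat_lit 212)) (XT.lf (nat_lit 0) (nat_lit 12318960957) (nat_lit 76) (nat_lit 5669350199) (nat_lit 76) (nat_lit 3179517251) (nat_lit 7) (nat_lit 4) (nat_lit 8) (nat_lit 5) (nat_lit 8) (nat_lit 4) (nat_lit 292) (nat_lit 217) (nat_lit 211)))) (XT.nd (nat_lit 156) (nat_lit 0) (nat_lit 0) (XT.nd (nat_lit 78) (nat_lit 152) (nat_lit 0) (XT.lf (nat_lit 0) (nat_lit 18158439110) (nat_lit 76) (nat_lit 3370983873) (nat_lit 76) (nat_lit 532532890) (nat_lit 7) (nat_lit 4) (nat_lit 8) (nat_lit 5) (nat_lit 8) (nat_lit 4) (nat_lit 293) (nat_lit 217) (nat_lit 210)) (XT.lf (nat_lit 0) (nat_lit 1139820740) (nat_lit 76) (nat_lit 962759209) (nat_lit 152) (nat_lit 20900277060) (nat_lit 5) (nat_lit 5) (nat_lit 6) (nat_lit 5) (nat_lit 7) (nat_lit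 4) (nat_lit 294) (nat_lit 217) (nat_lit 209))) (XT.nd (nat_lit 78) (nat_lit 0) (nat_lit 0) (XT.lf (nat_lit 0) (nat_lit 4854123722) (nat_lit 152) (nat_lit 17602829497) (nat_lit 0) (nat_lit 1533480873) (nat_lit 5) (nat_lit 5) (nat_lit 7) (nat_lit 4) (nat_lit 5) (nat_lit 4) (nat_lit 295) (nat_lit 217) (nat_lit 208)) (XT.lf (nat_lit 0) (nat_lit 7674201413) (nat_lit 152) (nat_lit 13290077790) (nat_lit 0) (nat_lit 4066749644) (nat_lit 5) (nat_lit 5) (nat_lit 7) (nat_lit 4) (nat_lit 5) (nat_lit 4) (nat_lit 296) (nat_lit 217) (nat_lit 207))))) (XT.nd (nat_lit 312) (nat_lit 0) (nat_lit 0) (XT.nd (nat_lit 156) (nat_lit 76) (nat_lit 0) (XT.nd (nat_lit 78) (nat_lit 0) (nat_lit 0) (XT.lf (nat_lit 0) (nat_lit 10554496122) (nat_lit 152) (nat_lit 8899481323) (nat_lit 0) (nat_lit 6673893001) (nat_lit 5) (nat_lit 5) (nat_lit 7) (nat_lit 4) (nat_lit 5) (nat_lit 4) (nat_lit 297) (nat_lit 217) (nat_lit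 206)) (XT.lf (nat_lit 0) (nat_lit 13501865695) (nat_lit 152) (nat_lit 4420586296) (nat_lit 0) (nat_lit 9361118429) (nat_lit 5) (nat_lit 5) (nat_lit 7) (nat_lit 4) (nat_lit 5) (nat_lit 4) (nat_lit 298) (nat_lit 217) (nat_lit 205))) (XT.nd (nat_lit 78) (nat_lit 0) (nat_lit 0) (XT.lf (nat_lit 0) (nat_lit 162471426) (nat_lit 76) (nat_lit 16363392885) (nat_lit 76) (nat_lit 11974889291) (nat_lit 4) (nat_lit 4) (nat_lit 5) (nat_lit 5) (nat_lit 5) (nat_lit 4) (nat_lit 299) (nat_lit 217) (nat_lit 204)) (XT.lf (nat_lit 0) (nat_lit 5005188497) (nat_lit 76) (nat_lit 14699032550) (nat_lit 76) (nat_lit 10074570548) (nat_lit 4) (nat_lit 4) (nat_lit 5) (nat_lit 5) (nat_lit 5) (nat_lit 4) (nat_lit 300) (nat_lit 217) (nat_lit 203)))) (XT.nd (nat_lit 156) (nat_lit 0) (nat_lit 0) (XT.nd (nat_lit 78) (nat_lit 0) (nat_lit 0) (XT.lf (nat_lit 0) (nat_lit 9972930646) (nat_lit 76) (nat_lit 13000272991) (nat_lit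 76) (nat_lit 8151088697) (nat_lit 4) (nat_lit 4) (nat_lit 5) (nat_lit 5) (nat_lit 5) (nat_lit 4) (nat_lit 301) (nat_lit 217) (nat_lit 202)) (XT.lf (nat_lit 0) (nat_lit 15077525830) (nat_lit 76) (nat_lit 11263069544) (nat_lit 76) (nat_lit 6199864018) (nat_lit 4) (nat_lit 4) (nat_lit 5) (nat_lit 5) (nat_lit 5) (nat_lit 4) (nat_lit 302) (nat_lit 217) (nat_lit 201))) (XT.nd (nat_lit 78) (nat_lit 0) (nat_lit 0) (XT.lf (nat_lit 0) (nat_lit 20331127849) (nat_lit 76) (nat_lit 9483286009) (nat_lit 76) (nat_lit 4216250738) (nat_lit 4) (nat_lit 4) (nat_lit 5) (nat_lit 5) (nat_lit 5) (nat_lit 4) (nat_lit 303) (nat_lit 217) (nat_lit 200)) (XT.nd (nat_lit 78) (nat_lit 0) (nat_lit 0) (XT.lf (nat_lit 0) (nat_lit 25746245278) (nat_lit 76) (nat_lit 7656684807) (nat_lit 76) (nat_lit 2195525970) (nat_lit 4) (nat_lit 4) (nat_lit 5) (nat_lit 5) (nat_lit 5) (nat_lit 4) (nat_lit 304) (nat_lit 217) (nat_lit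 199)) (XT.lf (nat_lit 0) (nat_lit 31335771254) (nat_lit 76) (nat_lit 5778916887) (nat_lit 76) (nat_lit 132878463) (nat_lit 4) (nat_lit 4) (nat_lit 5) (nat_lit 5) (nat_lit 5) (nat_lit 4) (nat_lit 305) (nat_lit 217) (nat_lit 198))))))))
noncomputable def xc44 : XT := (XT.nd (nat_lit 1248) (nat_lit 0) (nat_lit 0) (XT.nd (nat_lit 624) (nat_lit 76) (nat_lit 0) (XT.nd (nat_lit 312) (nat_lit 0) (nat_lit 0) (XT.nd (nat_lit 156) (nat_lit 0) (nat_lit 0) (XT.nd (nat_lit 78) (nat_lit 76) (nat_lit 0) (XT.lf (nat_lit 0) (nat_lit 1913339212) (nat_lit 152) (nat_lit 1899768835) (nat_lit 76) (nat_lit 35167271635) (nat_lit 3) (nat_lit 5) (nat_lit 5) (nat_lit 5) (nat_lit 4) (nat_lit 4) (nat_lit 306) (nat_lit 217) (nat_lit 197)) (XT.lf (nat_lit 0) (nat_lit 2294922626) (nat_lit 76) (nat_lit 1746408145) (nat_lit 152) (nat_lit 36759301231) (nat_lit 2) (nat_lit 5) (nat_lit 3) (nat_lit 5) (nat_lit 4) (nat_lit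 4) (nat_lit 307) (nat_lit 217) (nat_lit 196))) (XT.nd (nat_lit 78) (nat_lit 0) (nat_lit 0) (XT.lf (nat_lit 0) (nat_lit 6263659200) (nat_lit 152) (nat_lit 36041958179) (nat_lit 0) (nat_lit 406981682) (nat_lit 2) (nat_lit 5) (nat_lit 4) (nat_lit 4) (nat_lit 2) (nat_lit 4) (nat_lit 308) (nat_lit 217) (nat_lit 195)) (XT.lf (nat_lit 0) (nat_lit 8576802599) (nat_lit 152) (nat_lit 33569204133) (nat_lit 0) (nat_lit 2575267086) (nat_lit 2) (nat_lit 5) (nat_lit 4) (nat_lit 4) (nat_lit 2) (nat_lit 4) (nat_lit 309) (nat_lit 217) (nat_lit 194)))) (XT.nd (nat_lit 156) (nat_lit 0) (nat_lit 0) (XT.nd (nat_lit 78) (nat_lit 0) (nat_lit 0) (XT.lf (nat_lit 0) (nat_lit 10959002125) (nat_lit 152) (nat_lit 31054293404) (nat_lit 0) (nat_lit 4819506619) (nat_lit 2) (nat_lit 5) (nat_lit 4) (nat_lit 4) (nat_lit 2) (nat_lit 4) (nat_lit 310) (nat_lit 217) (nat_lit 193)) (XT.lf (nat_lit 0) (nat_lit 13415929684)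 (nat_lit 152) (nat_lit 28491238109) (nat_lit 0) (nat_lit 7145043707) (nat_lit 2) (nat_lit 5) (nat_lit 4) (nat_lit 4) (nat_lit 2) (nat_lit 4) (nat_lit 311) (nat_lit 217) (nat_lit 192))) (XT.nd (nat_lit 78) (nat_lit 0) (nat_lit 0) (XT.lf (nat_lit 0) (nat_lit 15953435102) (nat_lit 152) (nat_lit 25873935737) (nat_lit 0) (nat_lit 9557415343) (nat_lit 2) (nat_lit 5) (nat_lit 4) (nat_lit 4) (nat_lit 2) (nat_lit 4) (nat_lit 312) (nat_lit 217) (nat_lit 191)) (XT.lf (nat_lit 0) (nat_lit 18577560059) (nat_lit 152) (nat_lit 23196154613) (nat_lit 0) (nat_lit 12062365270) (nat_lit 2) (nat_lit 5) (nat_lit 4) (nat_lit 4) (nat_lit 2) (nat_lit 4) (nat_lit 313) (nat_lit 217) (nat_lit 190))))) (XT.nd (nat_lit 312) (nat_lit 76) (nat_lit 0) (XT.nd (nat_lit 156) (nat_lit 0) (nat_lit 0) (XT.nd (nat_lit 78) (nat_lit 0) (nat_lit 0) (XT.lf (nat_lit 0) (nat_lit 21294552472) (nat_lit 152) (nat_lit 20451519070)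 (nat_lit 0) (nat_lit 14665857654) (nat_lit 2) (nat_lit 5) (nat_lit 4) (nat_lit 4) (nat_lit 2) (nat_lit 4) (nat_lit 314) (nat_lit 217) (nat_lit 189)) (XT.lf (nat_lit 0) (nat_lit 24110881369) (nat_lit 152) (nat_lit 17633494261) (nat_lit 0) (nat_lit 17374091287) (nat_lit 2) (nat_lit 5) (nat_lit 4) (nat_lit 4) (nat_lit 2) (nat_lit 4) (nat_lit 315) (nat_lit 217) (nat_lit 188))) (XT.nd (nat_lit 78) (nat_lit 0) (nat_lit 0) (XT.lf (nat_lit 0) (nat_lit 27033252297) (nat_lit 152) (nat_lit 14735370602) (nat_lit 0) (nat_lit 20193514343) (nat_lit 2) (nat_lit 5) (nat_lit 4) (nat_lit 4) (nat_lit 2) (nat_lit 4) (nat_lit 316) (nat_lit 217) (nat_lit 187)) (XT.lf (nat_lit 0) (nat_lit 30068623281) (nat_lit 152) (nat_lit 11750247800) (nat_lit 0) (nat_lit 23130839735) (nat_lit 2) (nat_lit 5) (nat_lit 4) (nat_lit 4) (nat_lit 2) (nat_lit 4) (nat_lit 317) (nat_lit 217) (nat_lit 186)))) (XT.nd (nat_lit 156)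 (nat_lit 76) (nat_lit 0) (XT.nd (nat_lit 78) (nat_lit 0) (nat_lit 0) (XT.lf (nat_lit 0) (nat_lit 33224221395) (nat_lit 152) (nat_lit 8671018419) (nat_lit 0) (nat_lit 26193061094) (nat_lit 2) (nat_lit 5) (nat_lit 4) (nat_lit 4) (nat_lit 2) (nat_lit 4) (nat_lit 318) (nat_lit 217) (nat_lit 185)) (XT.lf (nat_lit 0) (nat_lit 36507559968) (nat_lit 152) (nat_lit 5490350960) (nat_lit 0) (nat_lit 29387469425) (nat_lit 2) (nat_lit 5) (nat_lit 4) (nat_lit 4) (nat_lit 2) (nat_lit 4) (nat_lit 319) (nat_lit 217) (nat_lit 184))) (XT.nd (nat_lit 78) (nat_lit 76) (nat_lit 0) (XT.lf (nat_lit 0) (nat_lit 39926456472) (nat_lit 152) (nat_lit 2200672406) (nat_lit 0) (nat_lit 32721670460) (nat_lit 2) (nat_lit 5) (nat_lit 4) (nat_lit 4) (nat_lit 2) (nat_lit 4) (nat_lit 320) (nat_lit 217) (nat_lit 183)) (XT.lf (nat_lit 0) (nat_lit 1245720650) (nat_lit 76) (nat_lit 42262779678) (nat_lit 76) (nat_lit 34977331314)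 (nat_lit 1) (nat_lit 4) (nat_lit 2) (nat_lit 5) (nat_lit 2) (nat_lit 4) (nat_lit 321) (nat_lit 217) (nat_lit 182)))))) (XT.nd (nat_lit 624) (nat_lit 0) (nat_lit 0) (XT.nd (nat_lit 312) (nat_lit 0) (nat_lit 0) (XT.nd (nat_lit 156) (nat_lit 0) (nat_lit 0) (XT.nd (nat_lit 78) (nat_lit 0) (nat_lit 0) (XT.lf (nat_lit 0) (nat_lit 4893963864) (nat_lit 76) (nat_lit 42386270960) (nat_lit 76) (nat_lit 35024001309) (nat_lit 1) (nat_lit 4) (nat_lit 2) (nat_lit 5) (nat_lit 2) (nat_lit 4) (nat_lit 322) (nat_lit 217) (nat_lit 181)) (XT.lf (nat_lit 0) (nat_lit 8679979360) (nat_lit 76) (nat_lit 42535166204) (nat_lit 76) (nat_lit 35099733423) (nat_lit 1) (nat_lit 4) (nat_lit 2) (nat_lit 5) (nat_lit 2) (nat_lit 4) (nat_lit 323) (nat_lit 217) (nat_lit 180))) (XT.nd (nat_lit 78) (nat_lit 0) (nat_lit 0) (XT.lf (nat_lit 0) (nat_lit 12612781460) (nat_lit 76) (nat_lit 42709819923) (nat_lit 76) (nat_lit 35204707970)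 (nat_lit 1) (nat_lit 4) (nat_lit 2) (nat_lit 5) (nat_lit 2) (nat_lit 4) (nat_lit 324) (nat_lit 217) (nat_lit 179)) (XT.lf (nat_lit 0) (nat_lit 16701733978) (nat_lit 76) (nat_lit 42910647959) (nat_lit 76) (nat_lit 35339174890) (nat_lit 1) (nat_lit 4) (nat_lit 2) (nat_lit 5) (nat_lit 2) (nat_lit 4) (nat_lit 325) (nat_lit 217) (nat_lit 178)))) (XT.nd (nat_lit 156) (nat_lit 0) (nat_lit 0) (XT.nd (nat_lit 78) (nat_lit 0) (nat_lit 0) (XT.lf (nat_lit 0) (nat_lit 20956572516) (nat_lit 76) (nat_lit 43138128474) (nat_lit 76) (nat_lit 35503454342) (nat_lit 1) (nat_lit 4) (nat_lit 2) (nat_lit 5) (nat_lit 2) (nat_lit 4) (nat_lit 326) (nat_lit 217) (nat_lit 177)) (XT.lf (nat_lit 0) (nat_lit 25387427642) (nat_lit 76) (nat_lit 43392803088) (nat_lit 76) (nat_lit 35697937468) (nat_lit 1) (nat_lit 4) (nat_lit 2) (nat_lit 5) (nat_lit 2) (nat_lit 4) (nat_lit 327) (nat_lit 217) (nat_lit 176))) (XT.nd (nat_lit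 78) (nat_lit 0) (nat_lit 0) (XT.lf (nat_lit 0) (nat_lit 30004849011) (nat_lit 76) (nat_lit 43675278170) (nat_lit 76) (nat_lit 35923087322) (nat_lit 1) (nat_lit 4) (nat_lit 2) (nat_lit 5) (nat_lit 2) (nat_lit 4) (nat_lit 328) (nat_lit 217) (nat_lit 175)) (XT.lf (nat_lit 0) (nat_lit 34819830484) (nat_lit 76) (nat_lit 43986226279) (nat_lit 76) (nat_lit 36179439977) (nat_lit 1) (nat_lit 4) (nat_lit 2) (nat_lit 5) (nat_lit 2) (nat_lit 4) (nat_lit 329) (nat_lit 217) (nat_lit 174))))) (XT.nd (nat_lit 312) (nat_lit 0) (nat_lit 0) (XT.nd (nat_lit 156) (nat_lit 0) (nat_lit 0) (XT.nd (nat_lit 78) (nat_lit 0) (nat_lit 0) (XT.lf (nat_lit 0) (nat_lit 39843836301) (nat_lit 76) (nat_lit 44326387768) (nat_lit 76) (nat_lit 36467605795) (nat_lit 1) (nat_lit 4) (nat_lit 2) (nat_lit 5) (nat_lit 2) (nat_lit 4) (nat_lit 330) (nat_lit 217) (nat_lit 173)) (XT.lf (nat_lit 0) (nat_lit 45088828382) (nat_lit 76)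 (nat_lit 44696572544) (nat_lit 76) (nat_lit 36788270885) (nat_lit 1) (nat_lit 4) (nat_lit 2) (nat_lit 5) (nat_lit 2) (nat_lit 4) (nat_lit 331) (nat_lit 217) (nat_lit 172))) (XT.nd (nat_lit 78) (nat_lit 0) (nat_lit 0) (XT.lf (nat_lit 0) (nat_lit 50567294802) (nat_lit 76) (nat_lit 45097662001) (nat_lit 76) (nat_lit 37142198735) (nat_lit 1) (nat_lit 4) (nat_lit 2) (nat_lit 5) (nat_lit 2) (nat_lit 4) (nat_lit 332) (nat_lit 217) (nat_lit 171)) (XT.lf (nat_lit 0) (nat_lit 56292279530) (nat_lit 76) (nat_lit 45530611114) (nat_lit 76) (nat_lit 37530232032) (nat_lit 1) (nat_lit 4) (nat_lit 2) (nat_lit 5) (nat_lit 2) (nat_lit 4) (nat_lit 333) (nat_lit 217) (nat_lit 170)))) (XT.nd (nat_lit 156) (nat_lit 0) (nat_lit 0) (XT.nd (nat_lit 78) (nat_lit 0) (nat_lit 0) (XT.lf (nat_lit 0) (nat_lit 62277413482) (nat_lit 76) (nat_lit 45996450712) (nat_lit 76) (nat_lit 37953294664) (nat_lit 1) (nat_lit 4)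 (nat_lit 2) (nat_lit 5) (nat_lit 2) (nat_lit 4) (nat_lit 334) (nat_lit 217) (nat_lit 169)) (XT.lf (nat_lit 0) (nat_lit 68536946976) (nat_lit 76) (nat_lit 46496289940) (nat_lit 76) (nat_lit 38412393923) (nat_lit 1) (nat_lit 4) (nat_lit 2) (nat_lit 5) (nat_lit 2) (nat_lit 4) (nat_lit 335) (nat_lit 217) (nat_lit 168))) (XT.nd (nat_lit 78) (nat_lit 0) (nat_lit 0) (XT.lf (nat_lit 0) (nat_lit 75085783664) (nat_lit 76) (nat_lit 47031318889) (nat_lit 76) (nat_lit 38908622901) (nat_lit 1) (nat_lit 4) (nat_lit 2) (nat_lit 5) (nat_lit 2) (nat_lit 4) (nat_lit 336) (nat_lit 217) (nat_lit 167)) (XT.nd (nat_lit 78) (nat_lit 0) (nat_lit 0) (XT.lf (nat_lit 0) (nat_lit 81939516014) (nat_lit 76) (nat_lit 47602811438) (nat_lit 76) (nat_lit 39443163098) (nat_lit 1) (nat_lit 4) (nat_lit 2) (nat_lit 5) (nat_lit 2) (nat_lit 4) (nat_lit 337) (nat_lit 217) (nat_lit 166)) (XT.lf (nat_lit 0) (nat_lit 89114462437)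 (nat_lit 76) (nat_lit 48212128284) (nat_lit 76) (nat_lit 40017287227) (nat_lit 1) (nat_lit 4) (nat_lit 2) (nat_lit 5) (nat_lit 2) (nat_lit 4) (nat_lit 338) (nat_lit 217) (nat_lit 165))))))))
noncomputable def xc45 : XT := (XT.nd (nat_lit 1326) (nat_lit 0) (nat_lit 0) (XT.nd (nat_lit 624) (nat_lit 0) (nat_lit 0) (XT.nd (nat_lit 312) (nat_lit 0) (nat_lit 0) (XT.nd (nat_lit 156) (nat_lit 0) (nat_lit 0) (XT.nd (nat_lit 78) (nat_lit 0) (nat_lit 0) (XT.lf (nat_lit 0) (nat_lit 96627706137) (nat_lit 76) (nat_lit 48860720181) (nat_lit 76) (nat_lit 40632362252) (nat_lit 1) (nat_lit 4) (nat_lit 2) (nat_lit 5) (nat_lit 2) (nat_lit 4) (nat_lit 339) (nat_lit 217) (nat_lit 164)) (XT.lf (nat_lit 0) (nat_lit 104497135791) (nat_lit 76) (nat_lit 49550131396) (nat_lit 76) (nat_lit 41289852635) (nat_lit 1) (nat_lit 4) (nat_lit 2) (nat_lit 5) (nat_lit 2) (nat_lit 4) (nat_lit 340) (nat_lit 217) (nat_lit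 163))) (XT.nd (nat_lit 78) (nat_lit 0) (nat_lit 0) (XT.lf (nat_lit 0) (nat_lit 112741488136) (nat_lit 76) (nat_lit 50282003384) (nat_lit 76) (nat_lit 41991323831) (nat_lit 1) (nat_lit 4) (nat_lit 2) (nat_lit 5) (nat_lit 2) (nat_lit 4) (nat_lit 341) (nat_lit 217) (nat_lit 162)) (XT.lf (nat_lit 0) (nat_lit 121380392582) (nat_lit 76) (nat_lit 51058078697) (nat_lit 76) (nat_lit 42738446009) (nat_lit 1) (nat_lit 4) (nat_lit 2) (nat_lit 5) (nat_lit 2) (nat_lit 4) (nat_lit 342) (nat_lit 217) (nat_lit 161)))) (XT.nd (nat_lit 156) (nat_lit 0) (nat_lit 0) (XT.nd (nat_lit 78) (nat_lit 0) (nat_lit 0) (XT.lf (nat_lit 0) (nat_lit 130434417949) (nat_lit 76) (nat_lit 51880205133) (nat_lit 76) (nat_lit 43532998031) (nat_lit 1) (nat_lit 4) (nat_lit 2) (nat_lit 5) (nat_lit 2) (nat_lit 4) (nat_lit 343) (nat_lit 217) (nat_lit 160)) (XT.lf (nat_lit 0) (nat_lit 139925121442) (nat_lit 76) (nat_lit 52750340137)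 (nat_lit 76) (nat_lit 44376871688) (nat_lit 1) (nat_lit 4) (nat_lit 2) (nat_lit 5) (nat_lit 2) (nat_lit 4) (nat_lit 344) (nat_lit 217) (nat_lit 159))) (XT.nd (nat_lit 78) (nat_lit 0) (nat_lit 0) (XT.lf (nat_lit 0) (nat_lit 149875099971) (nat_lit 76) (nat_lit 53670555459) (nat_lit 76) (nat_lit 45272076203) (nat_lit 1) (nat_lit 4) (nat_lit 2) (nat_lit 5) (nat_lit 2) (nat_lit 4) (nat_lit 345) (nat_lit 217) (nat_lit 158)) (XT.lf (nat_lit 0) (nat_lit 160308043964) (nat_lit 76) (nat_lit 54643042087) (nat_lit 76) (nat_lit 46220743015) (nat_lit 1) (nat_lit 4) (nat_lit 2) (nat_lit 5) (nat_lit 2) (nat_lit 4) (nat_lit 346) (nat_lit 217) (nat_lit 157))))) (XT.nd (nat_lit 312) (nat_lit 0) (nat_lit 0) (XT.nd (nat_lit 156) (nat_lit 0) (nat_lit 0) (XT.nd (nat_lit 78) (nat_lit 0) (nat_lit 0) (XT.lf (nat_lit 0) (nat_lit 171248793762) (nat_lit 76) (nat_lit 55670115466) (nat_lit 76) (nat_lit 47225130855)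 (nat_lit 1) (nat_lit 4) (nat_lit 2) (nat_lit 5) (nat_lit 2) (nat_lit 4) (nat_lit 347) (nat_lit 217) (nat_lit 156)) (XT.lf (nat_lit 0) (nat_lit 182723398769) (nat_lit 76) (nat_lit 56754221008) (nat_lit 76) (nat_lit 48287631122) (nat_lit 1) (nat_lit 4) (nat_lit 2) (nat_lit 5) (nat_lit 2) (nat_lit 4) (nat_lit 348) (nat_lit 217) (nat_lit 155))) (XT.nd (nat_lit 78) (nat_lit 0) (nat_lit 0) (XT.lf (nat_lit 0) (nat_lit 194759179475) (nat_lit 76) (nat_lit 57897939917) (nat_lit 76) (nat_lit 49410773579) (nat_lit 1) (nat_lit 4) (nat_lit 2) (nat_lit 5) (nat_lit 2) (nat_lit 4) (nat_lit 349) (nat_lit 217) (nat_lit 154)) (XT.lf (nat_lit 0) (nat_lit 207384792500) (nat_lit 76) (nat_lit 59103995334) (nat_lit 76) (nat_lit 50597232374) (nat_lit 1) (nat_lit 4) (nat_lit 2) (nat_lit 5) (nat_lit 2) (nat_lit 4) (nat_lit 350) (nat_lit 217) (nat_lit 153)))) (XT.nd (nat_lit 156) (nat_lit 0) (nat_lit 0) (XT.nd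 (nat_lit 78) (nat_lit 0) (nat_lit 0) (XT.lf (nat_lit 0) (nat_lit 220630298826) (nat_lit 76) (nat_lit 60375258819) (nat_lit 76) (nat_lit 51849832410) (nat_lit 1) (nat_lit 4) (nat_lit 2) (nat_lit 5) (nat_lit 2) (nat_lit 4) (nat_lit 351) (nat_lit 217) (nat_lit 152)) (XT.lf (nat_lit 0) (nat_lit 234527235375) (nat_lit 76) (nat_lit 61714757190) (nat_lit 76) (nat_lit 53171556067) (nat_lit 1) (nat_lit 4) (nat_lit 2) (nat_lit 5) (nat_lit 2) (nat_lit 4) (nat_lit 352) (nat_lit 217) (nat_lit 151))) (XT.nd (nat_lit 78) (nat_lit 0) (nat_lit 0) (XT.lf (nat_lit 0) (nat_lit 249108690089) (nat_lit 76) (nat_lit 63125679728) (nat_lit 76) (nat_lit 54565550307) (nat_lit 1) (nat_lit 4) (nat_lit 2) (nat_lit 5) (nat_lit 2) (nat_lit 4) (nat_lit 353) (nat_lit 217) (nat_lit 150)) (XT.nd (nat_lit 78) (nat_lit 0) (nat_lit 0) (XT.lf (nat_lit 0) (nat_lit 264409380719) (nat_lit 76) (nat_lit 64611385773) (nat_lit 76)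 (nat_lit 56035134163) (nat_lit 1) (nat_lit 4) (nat_lit 2) (nat_lit 5) (nat_lit 2) (nat_lit 4) (nat_lit 354) (nat_lit 217) (nat_lit 149)) (XT.lf (nat_lit 0) (nat_lit 280465737480) (nat_lit 76) (nat_lit 66175412721) (nat_lit 76) (nat_lit 57583806645) (nat_lit 1) (nat_lit 4) (nat_lit 2) (nat_lit 5) (nat_lit 2) (nat_lit 4) (nat_lit 355) (nat_lit 217) (nat_lit 148))))))) (XT.nd (nat_lit 31980) (nat_lit 0) (nat_lit 456) (XT.nd (nat_lit 312) (nat_lit 0) (nat_lit 0) (XT.nd (nat_lit 156) (nat_lit 0) (nat_lit 0) (XT.nd (nat_lit 78) (nat_lit 0) (nat_lit 0) (XT.lf (nat_lit 0) (nat_lit 297315989793) (nat_lit 76) (nat_lit 67821484445) (nat_lit 76) (nat_lit 59215255068) (nat_lit 1) (nat_lit 4) (nat_lit 2) (nat_lit 5) (nat_lit 2) (nat_lit 4) (nat_lit 356) (nat_lit 217) (nat_lit 147)) (XT.lf (nat_lit 0) (nat_lit 315000257307) (nat_lit 76) (nat_lit 69553520163) (nat_lit 76) (nat_lit 60933363833) (nat_lit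 1) (nat_lit 4) (nat_lit 2) (nat_lit 5) (nat_lit 2) (nat_lit 4) (nat_lit 357) (nat_lit 217) (nat_lit 146))) (XT.nd (nat_lit 78) (nat_lit 0) (nat_lit 0) (XT.lf (nat_lit 0) (nat_lit 333560645420) (nat_lit 76) (nat_lit 71375643770) (nat_lit 76) (nat_lit 62742223676) (nat_lit 1) (nat_lit 4) (nat_lit 2) (nat_lit 5) (nat_lit 2) (nat_lit 4) (nat_lit 358) (nat_lit 217) (nat_lit 145)) (XT.lf (nat_lit 0) (nat_lit 353041345532) (nat_lit 76) (nat_lit 73292193656) (nat_lit 76) (nat_lit 64646141404) (nat_lit 1) (nat_lit 4) (nat_lit 2) (nat_lit 5) (nat_lit 2) (nat_lit 4) (nat_lit 359) (nat_lit 217) (nat_lit 144)))) (XT.nd (nat_lit 156) (nat_lit 0) (nat_lit 0) (XT.nd (nat_lit 78) (nat_lit 0) (nat_lit 0) (XT.lf (nat_lit 0) (nat_lit 373488740263) (nat_lit 76) (nat_lit 75307733034) (nat_lit 76) (nat_lit 66649650157) (nat_lit 1) (nat_lit 4) (nat_lit 2) (nat_lit 5) (nat_lit 2) (nat_lit 4) (nat_lit 360)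 (nat_lit 217) (nat_lit 143)) (XT.lf (nat_lit 0) (nat_lit 394951513886) (nat_lit 76) (nat_lit 77427060808) (nat_lit 76) (nat_lit 68757520192) (nat_lit 1) (nat_lit 4) (nat_lit 2) (nat_lit 5) (nat_lit 2) (nat_lit 4) (nat_lit 361) (nat_lit 217) (nat_lit 142))) (XT.nd (nat_lit 31434) (nat_lit 0) (nat_lit 684) (XT.lf (nat_lit 0) (nat_lit 417480768243) (nat_lit 76) (nat_lit 79655222997) (nat_lit 76) (nat_lit 70974770249) (nat_lit 1) (nat_lit 4) (nat_lit 2) (nat_lit 5) (nat_lit 2) (nat_lit 4) (nat_lit 362) (nat_lit 217) (nat_lit 141)) (XT.lf (nat_lit 0) (nat_lit 775146252) (nat_lit 152) (nat_lit 3489566427) (nat_lit 152) (nat_lit 3489566427) (nat_lit 10) (nat_lit 4) (nat_lit 12) (nat_lit 5) (nat_lit 12) (nat_lit 4) (nat_lit 284) (nat_lit 218) (nat_lit 218))))) (XT.nd (nat_lit 312) (nat_lit 76) (nat_lit 0) (XT.nd (nat_lit 156) (nat_lit 152) (nat_lit 0) (XT.nd (nat_lit 78) (nat_lit 0) (nat_lit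 0) (XT.lf (nat_lit 0) (nat_lit 7513525917) (nat_lit 152) (nat_lit 4546569496) (nat_lit 152) (nat_lit 4031501883) (nat_lit 10) (nat_lit 4) (nat_lit 12) (nat_lit 5) (nat_lit 12) (nat_lit 4) (nat_lit 285) (nat_lit 218) (nat_lit 217)) (XT.lf (nat_lit 0) (nat_lit 13589579625) (nat_lit 152) (nat_lit 2062937616) (nat_lit 152) (nat_lit 1057329420) (nat_lit 10) (nat_lit 4) (nat_lit 12) (nat_lit 5) (nat_lit 12) (nat_lit 4) (nat_lit 286) (nat_lit 218) (nat_lit 216))) (XT.nd (nat_lit 78) (nat_lit 0) (nat_lit 0) (XT.lf (nat_lit 0) (nat_lit 1935302281) (nat_lit 152) (nat_lit 14892944841) (nat_lit 0) (nat_lit 532645420) (nat_lit 8) (nat_lit 5) (nat_lit 10) (nat_lit 4) (nat_lit 8) (nat_lit 4) (nat_lit 287) (nat_lit 218) (nat_lit 215)) (XT.lf (nat_lit 0) (nat_lit 5019617897) (nat_lit 152) (nat_lit 9832189018) (nat_lit 0) (nat_lit 3193213637) (nat_lit 8) (nat_lit 5) (nat_lit 10) (nat_lit 4) (nat_lit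 8) (nat_lit 4) (nat_lit 288) (nat_lit 218) (nat_lit 214)))) (XT.nd (nat_lit 156) (nat_lit 0) (nat_lit 0) (XT.nd (nat_lit 78) (nat_lit 76) (nat_lit 0) (XT.lf (nat_lit 0) (nat_lit 8153442024) (nat_lit 152) (nat_lit 4691942129) (nat_lit 0) (nat_lit 5923468811) (nat_lit 8) (nat_lit 5) (nat_lit 10) (nat_lit 4) (nat_lit 8) (nat_lit 4) (nat_lit 289) (nat_lit 218) (nat_lit 213)) (XT.lf (nat_lit 0) (nat_lit 557890486) (nat_lit 76) (nat_lit 10795055894) (nat_lit 76) (nat_lit 8180731299) (nat_lit 7) (nat_lit 4) (nat_lit 8) (nat_lit 5) (nat_lit 8) (nat_lit 4) (nat_lit 290) (nat_lit 218) (nat_lit 212))) (XT.nd (nat_lit 78) (nat_lit 0) (nat_lit 0) (XT.lf (nat_lit 0) (nat_lit 6070491622) (nat_lit 76) (nat_lit 8623883161) (nat_lit 76) (nat_lit 5643509630) (nat_lit 7) (nat_lit 4) (nat_lit 8) (nat_lit 5) (nat_lit 8) (nat_lit 4) (nat_lit 291) (nat_lit 218) (nat_lit 211)) (XT.nd (nat_lit 78) (nat_lit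 0) (nat_lit 0) (XT.lf (nat_lit 0) (nat_lit 11703849721) (nat_lit 76) (nat_lit 6406156804) (nat_lit 76) (nat_lit 3077165239) (nat_lit 7) (nat_lit 4) (nat_lit 8) (nat_lit 5) (nat_lit 8) (nat_lit 4) (nat_lit 292) (nat_lit 218) (nat_lit 210)) (XT.lf (nat_lit 0) (nat_lit 17471377541) (nat_lit 76) (nat_lit 4136596523) (nat_lit 76) (nat_lit 475587782) (nat_lit 7) (nat_lit 4) (nat_lit 8) (nat_lit 5) (nat_lit 8) (nat_lit 4) (nat_lit 293) (nat_lit 218) (nat_lit 209))))))))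
noncomputable def xc46 : XT := (XT.nd (nat_lit 1326) (nat_lit 76) (nat_lit 0) (XT.nd (nat_lit 624) (nat_lit 152) (nat_lit 0) (XT.nd (nat_lit 312) (nat_lit 76) (nat_lit 0) (XT.nd (nat_lit 156) (nat_lit 0) (nat_lit 0) (XT.nd (nat_lit 78) (nat_lit 0) (nat_lit 0) (XT.lf (nat_lit 0) (nat_lit 334484506) (nat_lit 76) (nat_lit 1768783825) (nat_lit 152) (nat_lit 20923967507) (nat_lit 5) (nat_lit 5) (nat_lit 6) (nat_lit 5) (nat_lit 7) (nat_lit 4) (nat_lit 294) (nat_lit 218) (nat_lit 208)) (XT.lf (nat_lit 0) (nat_lit 4800849163) (nat_lit 152) (nat_lit 18490537069) (nat_lit 0) (nat_lit 726215886) (nat_lit 5) (nat_lit 5) (nat_lit 7) (nat_lit 4) (nat_lit 5) (nat_lit 4) (nat_lit 295) (nat_lit 218) (nat_lit 207))) (XT.nd (nat_lit 78) (nat_lit 0) (nat_lit 0) (XT.lf (nat_lit 0) (nat_lit 7581518626) (nat_lit 152) (nat_lit 14245001375) (nat_lit 0) (nat_lit 3233733997) (nat_lit 5) (nat_lit 5) (nat_lit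 7) (nat_lit 4) (nat_lit 5) (nat_lit 4) (nat_lit 296) (nat_lit 218) (nat_lit 206)) (XT.lf (nat_lit 0) (nat_lit 10424281690) (nat_lit 152) (nat_lit 9918420159) (nat_lit 0) (nat_lit 5816352917) (nat_lit 5) (nat_lit 5) (nat_lit 7) (nat_lit 4) (nat_lit 5) (nat_lit 4) (nat_lit 297) (nat_lit 218) (nat_lit 205)))) (XT.nd (nat_lit 156) (nat_lit 76) (nat_lit 0) (XT.nd (nat_lit 78) (nat_lit 0) (nat_lit 0) (XT.lf (nat_lit 0) (nat_lit 13335906839) (nat_lit 152) (nat_lit 5500492037) (nat_lit 0) (nat_lit 8480221738) (nat_lit 5) (nat_lit 5) (nat_lit 7) (nat_lit 4) (nat_lit 5) (nat_lit 4) (nat_lit 298) (nat_lit 218) (nat_lit 204)) (XT.lf (nat_lit 0) (nat_lit 16323326514) (nat_lit 152) (nat_lit 980698132) (nat_lit 0) (nat_lit 11231683005) (nat_lit 5) (nat_lit 5) (nat_lit 7) (nat_lit 4) (nat_lit 5) (nat_lit 4) (nat_lit 299) (nat_lit 218) (nat_lit 203))) (XT.nd (nat_lit 78) (nat_lit 0) (nat_lit 0) (XT.lf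 (nat_lit 0) (nat_lit 3772465421) (nat_lit 76) (nat_lit 15680086955) (nat_lit 76) (nat_lit 10363721152) (nat_lit 4) (nat_lit 4) (nat_lit 5) (nat_lit 5) (nat_lit 5) (nat_lit 4) (nat_lit 300) (nat_lit 218) (nat_lit 202)) (XT.lf (nat_lit 0) (nat_lit 8685800705) (nat_lit 76) (nat_lit 14004007440) (nat_lit 76) (nat_lit 8473620405) (nat_lit 4) (nat_lit 4) (nat_lit 5) (nat_lit 5) (nat_lit 5) (nat_lit 4) (nat_lit 301) (nat_lit 218) (nat_lit 201))))) (XT.nd (nat_lit 312) (nat_lit 152) (nat_lit 0) (XT.nd (nat_lit 156) (nat_lit 0) (nat_lit 0) (XT.nd (nat_lit 78) (nat_lit 0) (nat_lit 0) (XT.lf (nat_lit 0) (nat_lit 13738579829) (nat_lit 76) (nat_lit 12288404034) (nat_lit 76) (nat_lit 6554187255) (nat_lit 4) (nat_lit 4) (nat_lit 5) (nat_lit 5) (nat_lit 5) (nat_lit 4) (nat_lit 302) (nat_lit 218) (nat_lit 200)) (XT.lf (nat_lit 0) (nat_lit 18942833218) (nat_lit 76) (nat_lit 10529191967) (nat_lit 76)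 (nat_lit 4600851622) (nat_lit 4) (nat_lit 4) (nat_lit 5) (nat_lit 5) (nat_lit 5) (nat_lit 4) (nat_lit 303) (nat_lit 218) (nat_lit 199))) (XT.nd (nat_lit 78) (nat_lit 0) (nat_lit 0) (XT.lf (nat_lit 0) (nat_lit 24310951952) (nat_lit 76) (nat_lit 8722182639) (nat_lit 76) (nat_lit 2608962707) (nat_lit 4) (nat_lit 4) (nat_lit 5) (nat_lit 5) (nat_lit 5) (nat_lit 4) (nat_lit 304) (nat_lit 218) (nat_lit 198)) (XT.lf (nat_lit 0) (nat_lit 29855717266) (nat_lit 76) (nat_lit 6863073647) (nat_lit 76) (nat_lit 573777918) (nat_lit 4) (nat_lit 4) (nat_lit 5) (nat_lit 5) (nat_lit 5) (nat_lit 4) (nat_lit 305) (nat_lit 218) (nat_lit 197)))) (XT.nd (nat_lit 156) (nat_lit 0) (nat_lit 0) (XT.nd (nat_lit 78) (nat_lit 76) (nat_lit 0) (XT.lf (nat_lit 0) (nat_lit 1461233446) (nat_lit 152) (nat_lit 3461458398) (nat_lit 76) (nat_lit 34104350841) (nat_lit 3) (nat_lit 5) (nat_lit 5) (nat_lit 5) (nat_lit 4) (nat_lit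 4) (nat_lit 306) (nat_lit 218) (nat_lit 196)) (XT.lf (nat_lit 0) (nat_lit 638781416) (nat_lit 76) (nat_lit 2900474348) (nat_lit 152) (nat_lit 37310585989) (nat_lit 2) (nat_lit 5) (nat_lit 3) (nat_lit 5) (nat_lit 4) (nat_lit 4) (nat_lit 307) (nat_lit 218) (nat_lit 195))) (XT.nd (nat_lit 78) (nat_lit 0) (nat_lit 0) (XT.lf (nat_lit 0) (nat_lit 4980615784) (nat_lit 76) (nat_lit 750803522) (nat_lit 152) (nat_lit 37031943737) (nat_lit 2) (nat_lit 5) (nat_lit 3) (nat_lit 5) (nat_lit 4) (nat_lit 4) (nat_lit 308) (nat_lit 218) (nat_lit 194)) (XT.nd (nat_lit 78) (nat_lit 0) (nat_lit 0) (XT.lf (nat_lit 0) (nat_lit 8010108343) (nat_lit 152) (nat_lit 35338017905) (nat_lit 0) (nat_lit 1425678067) (nat_lit 2) (nat_lit 5) (nat_lit 4) (nat_lit 4) (nat_lit 2) (nat_lit 4) (nat_lit 309) (nat_lit 218) (nat_lit 193)) (XT.lf (nat_lit 0) (nat_lit 10370658141) (nat_lit 152) (nat_lit 32860961309) (nat_lit 0)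 (nat_lit 3654837394) (nat_lit 2) (nat_lit 5) (nat_lit 4) (nat_lit 4) (nat_lit 2) (nat_lit 4) (nat_lit 310) (nat_lit 218) (nat_lit 192))))))) (XT.nd (nat_lit 624) (nat_lit 76) (nat_lit 0) (XT.nd (nat_lit 312) (nat_lit 0) (nat_lit 0) (XT.nd (nat_lit 156) (nat_lit 0) (nat_lit 0) (XT.nd (nat_lit 78) (nat_lit 0) (nat_lit 0) (XT.lf (nat_lit 0) (nat_lit 12806966910) (nat_lit 152) (nat_lit 30333957569) (nat_lit 0) (nat_lit 5966012381) (nat_lit 2) (nat_lit 5) (nat_lit 4) (nat_lit 4) (nat_lit 2) (nat_lit 4) (nat_lit 311) (nat_lit 218) (nat_lit 191)) (XT.lf (nat_lit 0) (nat_lit 15324835385) (nat_lit 152) (nat_lit 27750990010) (nat_lit 0) (nat_lit 8364705827) (nat_lit 2) (nat_lit 5) (nat_lit 4) (nat_lit 4) (nat_lit 2) (nat_lit 4) (nat_lit 312) (nat_lit 218) (nat_lit 190))) (XT.nd (nat_lit 78) (nat_lit 0) (nat_lit 0) (XT.lf (nat_lit 0) (nat_lit 17930258493) (nat_lit 152) (nat_lit 25105908709) (nat_lit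 0) (nat_lit 10856628906) (nat_lit 2) (nat_lit 5) (nat_lit 4) (nat_lit 4) (nat_lit 2) (nat_lit 4) (nat_lit 313) (nat_lit 218) (nat_lit 189)) (XT.lf (nat_lit 0) (nat_lit 20629439620) (nat_lit 152) (nat_lit 22392415854) (nat_lit 0) (nat_lit 13447714767) (nat_lit 2) (nat_lit 5) (nat_lit 4) (nat_lit 4) (nat_lit 2) (nat_lit 4) (nat_lit 314) (nat_lit 218) (nat_lit 188)))) (XT.nd (nat_lit 156) (nat_lit 0) (nat_lit 0) (XT.nd (nat_lit 78) (nat_lit 0) (nat_lit 0) (XT.lf (nat_lit 0) (nat_lit 23428805388) (nat_lit 152) (nat_lit 19604050748) (nat_lit 0) (nat_lit 16144132664) (nat_lit 2) (nat_lit 5) (nat_lit 4) (nat_lit 4) (nat_lit 2) (nat_lit 4) (nat_lit 315) (nat_lit 218) (nat_lit 187)) (XT.lf (nat_lit 0) (nat_lit 26335020955) (nat_lit 152) (nat_lit 16734174425) (nat_lit 0) (nat_lit 18952302639) (nat_lit 2) (nat_lit 5) (nat_lit 4) (nat_lit 4) (nat_lit 2) (nat_lit 4) (nat_lit 316) (nat_lit 218)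 (nat_lit 186))) (XT.nd (nat_lit 78) (nat_lit 0) (nat_lit 0) (XT.lf (nat_lit 0) (nat_lit 29355005881) (nat_lit 152) (nat_lit 13775953848) (nat_lit 0) (nat_lit 21878910810) (nat_lit 2) (nat_lit 5) (nat_lit 4) (nat_lit 4) (nat_lit 2) (nat_lit 4) (nat_lit 317) (nat_lit 218) (nat_lit 185)) (XT.lf (nat_lit 0) (nat_lit 32495950606) (nat_lit 152) (nat_lit 10722345633) (nat_lit 0) (nat_lit 24930925293) (nat_lit 2) (nat_lit 5) (nat_lit 4) (nat_lit 4) (nat_lit 2) (nat_lit 4) (nat_lit 318) (nat_lit 218) (nat_lit 184))))) (XT.nd (nat_lit 312) (nat_lit 0) (nat_lit 0) (XT.nd (nat_lit 156) (nat_lit 76) (nat_lit 0) (XT.nd (nat_lit 78) (nat_lit 0) (nat_lit 0) (XT.lf (nat_lit 0) (nat_lit 35765333571) (nat_lit 152) (nat_lit 7566079286) (nat_lit 0) (nat_lit 28115612789) (nat_lit 2) (nat_lit 5) (nat_lit 4) (nat_lit 4) (nat_lit 2) (nat_lit 4) (nat_lit 319) (nat_lit 218) (nat_lit 183)) (XT.lf (nat_lit 0)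 (nat_lit 39170939019) (nat_lit 152) (nat_lit 4299639885) (nat_lit 0) (nat_lit 31440555886) (nat_lit 2) (nat_lit 5) (nat_lit 4) (nat_lit 4) (nat_lit 2) (nat_lit 4) (nat_lit 320) (nat_lit 218) (nat_lit 182))) (XT.nd (nat_lit 78) (nat_lit 76) (nat_lit 0) (XT.lf (nat_lit 0) (nat_lit 42720875537) (nat_lit 152) (nat_lit 915250195) (nat_lit 0) (nat_lit 34913671116) (nat_lit 2) (nat_lit 5) (nat_lit 4) (nat_lit 4) (nat_lit 2) (nat_lit 4) (nat_lit 321) (nat_lit 218) (nat_lit 181)) (XT.lf (nat_lit 0) (nat_lit 2680955162) (nat_lit 76) (nat_lit 43784497414) (nat_lit 76) (nat_lit 35904129863) (nat_lit 1) (nat_lit 4) (nat_lit 2) (nat_lit 5) (nat_lit 2) (nat_lit 4) (nat_lit 322) (nat_lit 218) (nat_lit 180)))) (XT.nd (nat_lit 156) (nat_lit 0) (nat_lit 0) (XT.nd (nat_lit 78) (nat_lit 0) (nat_lit 0) (XT.lf (nat_lit 0) (nat_lit 6446232038) (nat_lit 76) (nat_lit 43942326176) (nat_lit 76) (nat_lit 35992279454)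 (nat_lit 1) (nat_lit 4) (nat_lit 2) (nat_lit 5) (nat_lit 2) (nat_lit 4) (nat_lit 323) (nat_lit 218) (nat_lit 179)) (XT.lf (nat_lit 0) (nat_lit 10359283071) (nat_lit 76) (nat_lit 44125488008) (nat_lit 76) (nat_lit 36109080169) (nat_lit 1) (nat_lit 4) (nat_lit 2) (nat_lit 5) (nat_lit 2) (nat_lit 4) (nat_lit 324) (nat_lit 218) (nat_lit 178))) (XT.nd (nat_lit 78) (nat_lit 0) (nat_lit 0) (XT.lf (nat_lit 0) (nat_lit 14429425050) (nat_lit 76) (nat_lit 44334419009) (nat_lit 76) (nat_lit 36254810107) (nat_lit 1) (nat_lit 4) (nat_lit 2) (nat_lit 5) (nat_lit 2) (nat_lit 4) (nat_lit 325) (nat_lit 218) (nat_lit 177)) (XT.nd (nat_lit 78) (nat_lit 0) (nat_lit 0) (XT.lf (nat_lit 0) (nat_lit 18666348789) (nat_lit 76) (nat_lit 44569616633) (nat_lit 76) (nat_lit 36429816243) (nat_lit 1) (nat_lit 4) (nat_lit 2) (nat_lit 5) (nat_lit 2) (nat_lit 4) (nat_lit 326) (nat_lit 218) (nat_lit 176)) (XT.lf (nat_lit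 0) (nat_lit 23080142201) (nat_lit 76) (nat_lit 44831640875) (nat_lit 76) (nat_lit 36634515257) (nat_lit 1) (nat_lit 4) (nat_lit 2) (nat_lit 5) (nat_lit 2) (nat_lit 4) (nat_lit 327) (nat_lit 218) (nat_lit 175))))))))
noncomputable def xc47 : XT := (XT.nd (nat_lit 1326) (nat_lit 0) (nat_lit 0) (XT.nd (nat_lit 624) (nat_lit 0) (nat_lit 0) (XT.nd (nat_lit 312) (nat_lit 0) (nat_lit 0) (XT.nd (nat_lit 156) (nat_lit 0) (nat_lit 0) (XT.nd (nat_lit 78) (nat_lit 0) (nat_lit 0) (XT.lf (nat_lit 0) (nat_lit 27681314319) (nat_lit 76) (nat_lit 45121115602) (nat_lit 76) (nat_lit 36869394530) (nat_lit 1) (nat_lit 4) (nat_lit 2) (nat_lit 5) (nat_lit 2) (nat_lit 4) (nat_lit 328) (nat_lit 218) (nat_lit 174)) (XT.lf (nat_lit 0) (nat_lit 32480820313) (nat_lit 76) (nat_lit 45438730040) (nat_lit 76) (nat_lit 37135013297) (nat_lit 1) (nat_lit 4) (nat_lit 2) (nat_lit 5) (nat_lit 2) (nat_lit 4) (nat_lit 329)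 (nat_lit 218) (nat_lit 173))) (XT.nd (nat_lit 78) (nat_lit 0) (nat_lit 0) (XT.lf (nat_lit 0) (nat_lit 37490087581) (nat_lit 76) (nat_lit 45785240413) (nat_lit 76) (nat_lit 37432003984) (nat_lit 1) (nat_lit 4) (nat_lit 2) (nat_lit 5) (nat_lit 2) (nat_lit 4) (nat_lit 330) (nat_lit 218) (nat_lit 172)) (XT.lf (nat_lit 0) (nat_lit 42721042947) (nat_lit 76) (nat_lit 46161471746) (nat_lit 76) (nat_lit 37761073711) (nat_lit 1) (nat_lit 4) (nat_lit 2) (nat_lit 5) (nat_lit 2) (nat_lit 4) (nat_lit 331) (nat_lit 218) (nat_lit 171)))) (XT.nd (nat_lit 156) (nat_lit 0) (nat_lit 0) (XT.nd (nat_lit 78) (nat_lit 0) (nat_lit 0) (XT.lf (nat_lit 0) (nat_lit 48186141068) (nat_lit 76) (nat_lit 46568319829) (nat_lit 76) (nat_lit 38123005978) (nat_lit 1) (nat_lit 4) (nat_lit 2) (nat_lit 5) (nat_lit 2) (nat_lit 4) (nat_lit 332) (nat_lit 218) (nat_lit 170)) (XT.lf (nat_lit 0) (nat_lit 53898394083) (nat_lit 76)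 (nat_lit 47006753347) (nat_lit 76) (nat_lit 38518662529) (nat_lit 1) (nat_lit 4) (nat_lit 2) (nat_lit 5) (nat_lit 2) (nat_lit 4) (nat_lit 333) (nat_lit 218) (nat_lit 169))) (XT.nd (nat_lit 78) (nat_lit 0) (nat_lit 0) (XT.lf (nat_lit 0) (nat_lit 59871402593) (nat_lit 76) (nat_lit 47477816188) (nat_lit 76) (nat_lit 38948985402) (nat_lit 1) (nat_lit 4) (nat_lit 2) (nat_lit 5) (nat_lit 2) (nat_lit 4) (nat_lit 334) (nat_lit 218) (nat_lit 168)) (XT.lf (nat_lit 0) (nat_lit 66119388048) (nat_lit 76) (nat_lit 47982629933) (nat_lit 76) (nat_lit 39414999176) (nat_lit 1) (nat_lit 4) (nat_lit 2) (nat_lit 5) (nat_lit 2) (nat_lit 4) (nat_lit 335) (nat_lit 218) (nat_lit 167))))) (XT.nd (nat_lit 312) (nat_lit 0) (nat_lit 0) (XT.nd (nat_lit 156) (nat_lit 0) (nat_lit 0) (XT.nd (nat_lit 78) (nat_lit 0) (nat_lit 0) (XT.lf (nat_lit 0) (nat_lit 72657226603) (nat_lit 76) (nat_lit 48522396517) (nat_lit 76)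 (nat_lit 39917813408) (nat_lit 1) (nat_lit 4) (nat_lit 2) (nat_lit 5) (nat_lit 2) (nat_lit 4) (nat_lit 336) (nat_lit 218) (nat_lit 166)) (XT.lf (nat_lit 0) (nat_lit 79500484541) (nat_lit 76) (nat_lit 49098401101) (nat_lit 76) (nat_lit 40458625275) (nat_lit 1) (nat_lit 4) (nat_lit 2) (nat_lit 5) (nat_lit 2) (nat_lit 4) (nat_lit 337) (nat_lit 218) (nat_lit 165))) (XT.nd (nat_lit 78) (nat_lit 0) (nat_lit 0) (XT.lf (nat_lit 0) (nat_lit 86665455332) (nat_lit 76) (nat_lit 49712015122) (nat_lit 76) (nat_lit 41038722423) (nat_lit 1) (nat_lit 4) (nat_lit 2) (nat_lit 5) (nat_lit 2) (nat_lit 4) (nat_lit 338) (nat_lit 218) (nat_lit 164)) (XT.lf (nat_lit 0) (nat_lit 94169198432) (nat_lit 76) (nat_lit 50364699567) (nat_lit 76) (nat_lit 41659486036) (nat_lit 1) (nat_lit 4) (nat_lit 2) (nat_lit 5) (nat_lit 2) (nat_lit 4) (nat_lit 339) (nat_lit 218) (nat_lit 163)))) (XT.nd (nat_lit 156) (nat_lit 0)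 (nat_lit 0) (XT.nd (nat_lit 78) (nat_lit 0) (nat_lit 0) (XT.lf (nat_lit 0) (nat_lit 102029579895) (nat_lit 76) (nat_lit 51058008446) (nat_lit 76) (nat_lit 42322394124) (nat_lit 1) (nat_lit 4) (nat_lit 2) (nat_lit 5) (nat_lit 2) (nat_lit 4) (nat_lit 340) (nat_lit 218) (nat_lit 162)) (XT.lf (nat_lit 0) (nat_lit 110265314915) (nat_lit 76) (nat_lit 51793592495) (nat_lit 76) (nat_lit 43029025038) (nat_lit 1) (nat_lit 4) (nat_lit 2) (nat_lit 5) (nat_lit 2) (nat_lit 4) (nat_lit 341) (nat_lit 218) (nat_lit 161))) (XT.nd (nat_lit 78) (nat_lit 0) (nat_lit 0) (XT.lf (nat_lit 0) (nat_lit 118896012385) (nat_lit 76) (nat_lit 52573203105) (nat_lit 76) (nat_lit 43781061233) (nat_lit 1) (nat_lit 4) (nat_lit 2) (nat_lit 5) (nat_lit 2) (nat_lit 4) (nat_lit 342) (nat_lit 218) (nat_lit 160)) (XT.nd (nat_lit 78) (nat_lit 0) (nat_lit 0) (XT.lf (nat_lit 0) (nat_lit 127942221585) (nat_lit 76) (nat_lit 53398696490)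 (nat_lit 76) (nat_lit 44580293271) (nat_lit 1) (nat_lit 4) (nat_lit 2) (nat_lit 5) (nat_lit 2) (nat_lit 4) (nat_lit 343) (nat_lit 218) (nat_lit 159)) (XT.lf (nat_lit 0) (nat_lit 137425481108) (nat_lit 76) (nat_lit 54272038113) (nat_lit 76) (nat_lit 45428624087) (nat_lit 1) (nat_lit 4) (nat_lit 2) (nat_lit 5) (nat_lit 2) (nat_lit 4) (nat_lit 344) (nat_lit 218) (nat_lit 158))))))) (XT.nd (nat_lit 624) (nat_lit 0) (nat_lit 0) (XT.nd (nat_lit 312) (nat_lit 0) (nat_lit 0) (XT.nd (nat_lit 156) (nat_lit 0) (nat_lit 0) (XT.nd (nat_lit 78) (nat_lit 0) (nat_lit 0) (XT.lf (nat_lit 0) (nat_lit 147368370143) (nat_lit 76) (nat_lit 55195307356) (nat_lit 76) (nat_lit 46328073515) (nat_lit 1) (nat_lit 4) (nat_lit 2) (nat_lit 5) (nat_lit 2) (nat_lit 4) (nat_lit 345) (nat_lit 218) (nat_lit 157)) (XT.lf (nat_lit 0) (nat_lit 157794562236) (nat_lit 76) (nat_lit 56170702482) (nat_lit 76) (nat_lit 47280783101)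 (nat_lit 1) (nat_lit 4) (nat_lit 2) (nat_lit 5) (nat_lit 2) (nat_lit 4) (nat_lit 346) (nat_lit 218) (nat_lit 156))) (XT.nd (nat_lit 78) (nat_lit 0) (nat_lit 0) (XT.lf (nat_lit 0) (nat_lit 168728881653) (nat_lit 76) (nat_lit 57200545858) (nat_lit 76) (nat_lit 48289021202) (nat_lit 1) (nat_lit 4) (nat_lit 2) (nat_lit 5) (nat_lit 2) (nat_lit 4) (nat_lit 347) (nat_lit 218) (nat_lit 155)) (XT.lf (nat_lit 0) (nat_lit 180197362489) (nat_lit 76) (nat_lit 58287289493) (nat_lit 76) (nat_lit 49355188384) (nat_lit 1) (nat_lit 4) (nat_lit 2) (nat_lit 5) (nat_lit 2) (nat_lit 4) (nat_lit 348) (nat_lit 218) (nat_lit 154)))) (XT.nd (nat_lit 156) (nat_lit 0) (nat_lit 0) (XT.nd (nat_lit 78) (nat_lit 0) (nat_lit 0) (XT.lf (nat_lit 0) (nat_lit 192227310650) (nat_lit 76) (nat_lit 59433520871) (nat_lit 76) (nat_lit 50481823141) (nat_lit 1) (nat_lit 4) (nat_lit 2) (nat_lit 5) (nat_lit 2) (nat_lit 4) (nat_lit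 349) (nat_lit 218) (nat_lit 153)) (XT.lf (nat_lit 0) (nat_lit 204847368870) (nat_lit 76) (nat_lit 60641969116) (nat_lit 76) (nat_lit 51671607937) (nat_lit 1) (nat_lit 4) (nat_lit 2) (nat_lit 5) (nat_lit 2) (nat_lit 4) (nat_lit 350) (nat_lit 218) (nat_lit 152))) (XT.nd (nat_lit 78) (nat_lit 0) (nat_lit 0) (XT.lf (nat_lit 0) (nat_lit 218087584907) (nat_lit 76) (nat_lit 61915511485) (nat_lit 76) (nat_lit 52927375592) (nat_lit 1) (nat_lit 4) (nat_lit 2) (nat_lit 5) (nat_lit 2) (nat_lit 4) (nat_lit 351) (nat_lit 218) (nat_lit 151)) (XT.lf (nat_lit 0) (nat_lit 231979483084) (nat_lit 76) (nat_lit 63257180221) (nat_lit 76) (nat_lit 54252116030) (nat_lit 1) (nat_lit 4) (nat_lit 2) (nat_lit 5) (nat_lit 2) (nat_lit 4) (nat_lit 352) (nat_lit 218) (nat_lit 150))))) (XT.nd (nat_lit 312) (nat_lit 0) (nat_lit 0) (XT.nd (nat_lit 156) (nat_lit 0) (nat_lit 0) (XT.nd (nat_lit 78) (nat_lit 0) (nat_lit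 0) (XT.lf (nat_lit 0) (nat_lit 246556139349) (nat_lit 76) (nat_lit 64670169774) (nat_lit 76) (nat_lit 55648983394) (nat_lit 1) (nat_lit 4) (nat_lit 2) (nat_lit 5) (nat_lit 2) (nat_lit 4) (nat_lit 353) (nat_lit 218) (nat_lit 149)) (XT.lf (nat_lit 0) (nat_lit 261852260028) (nat_lit 76) (nat_lit 66157844404) (nat_lit 76) (nat_lit 57121303559) (nat_lit 1) (nat_lit 4) (nat_lit 2) (nat_lit 5) (nat_lit 2) (nat_lit 4) (nat_lit 354) (nat_lit 218) (nat_lit 148))) (XT.nd (nat_lit 78) (nat_lit 0) (nat_lit 0) (XT.lf (nat_lit 0) (nat_lit 277904264454) (nat_lit 76) (nat_lit 67723746195) (nat_lit 76) (nat_lit 58672582049) (nat_lit 1) (nat_lit 4) (nat_lit 2) (nat_lit 5) (nat_lit 2) (nat_lit 4) (nat_lit 355) (nat_lit 218) (nat_lit 147)) (XT.lf (nat_lit 0) (nat_lit 294750371687) (nat_lit 76) (nat_lit 69371603484) (nat_lit 76) (nat_lit 60306512385) (nat_lit 1) (nat_lit 4) (nat_lit 2) (nat_lit 5) (nat_lit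 2) (nat_lit 4) (nat_lit 356) (nat_lit 218) (nat_lit 146)))) (XT.nd (nat_lit 156) (nat_lit 0) (nat_lit 0) (XT.nd (nat_lit 78) (nat_lit 0) (nat_lit 0) (XT.lf (nat_lit 0) (nat_lit 312430691505) (nat_lit 76) (nat_lit 71105339740) (nat_lit 76) (nat_lit 62026984876) (nat_lit 1) (nat_lit 4) (nat_lit 2) (nat_lit 5) (nat_lit 2) (nat_lit 4) (nat_lit 357) (nat_lit 218) (nat_lit 145)) (XT.lf (nat_lit 0) (nat_lit 330987319907) (nat_lit 76) (nat_lit 72929082908) (nat_lit 76) (nat_lit 63838095887) (nat_lit 1) (nat_lit 4) (nat_lit 2) (nat_lit 5) (nat_lit 2) (nat_lit 4) (nat_lit 358) (nat_lit 218) (nat_lit 144))) (XT.nd (nat_lit 78) (nat_lit 0) (nat_lit 0) (XT.lf (nat_lit 0) (nat_lit 350464439343) (nat_lit 76) (nat_lit 74847175231) (nat_lit 76) (nat_lit 65744157585) (nat_lit 1) (nat_lit 4) (nat_lit 2) (nat_lit 5) (nat_lit 2) (nat_lit 4) (nat_lit 359) (nat_lit 218) (nat_lit 143)) (XT.nd (nat_lit 78)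 (nat_lit 0) (nat_lit 0) (XT.lf (nat_lit 0) (nat_lit 370908423906) (nat_lit 76) (nat_lit 76864183598) (nat_lit 76) (nat_lit 67749708213) (nat_lit 1) (nat_lit 4) (nat_lit 2) (nat_lit 5) (nat_lit 2) (nat_lit 4) (nat_lit 360) (nat_lit 218) (nat_lit 142)) (XT.lf (nat_lit 0) (nat_lit 392367949750) (nat_lit 76) (nat_lit 78984910409) (nat_lit 76) (nat_lit 69859522892) (nat_lit 1) (nat_lit 4) (nat_lit 2) (nat_lit 5) (nat_lit 2) (nat_lit 4) (nat_lit 361) (nat_lit 218) (nat_lit 141))))))))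
noncomputable def xc48 : XT := (XT.nd (nat_lit 1248) (nat_lit 228) (nat_lit 0) (XT.nd (nat_lit 624) (nat_lit 228) (nat_lit 0) (XT.nd (nat_lit 312) (nat_lit 152) (nat_lit 0) (XT.nd (nat_lit 156) (nat_lit 152) (nat_lit 0) (XT.nd (nat_lit 78) (nat_lit 0) (nat_lit 0) (XT.lf (nat_lit 0) (nat_lit 1189218471) (nat_lit 152) (nat_lit 4837352201) (nat_lit 0) (nat_lit 1189218471) (nat_lit 12) (nat_lit 5) (nat_lit 14) (nat_lit 4) (nat_lit 12) (nat_lit 4) (nat_lit 282) (nat_lit 219) (nat_lit 219)) (XT.lf (nat_lit 0) (nat_lit 5660280322) (nat_lit 152) (nat_lit 4176233642) (nat_lit 0) (nat_lit 5119459329) (nat_lit 12) (nat_lit 5) (nat_lit 14) (nat_lit 4) (nat_lit 12) (nat_lit 4) (nat_lit 283) (nat_lit 219) (nat_lit 218))) (XT.nd (nat_lit 78) (nat_lit 0) (nat_lit 0) (XT.lf (nat_lit 0) (nat_lit 1455361556) (nat_lit 152) (nat_lit 7556094154) (nat_lit 152) (nat_lit 6500205549) (nat_lit 10) (nat_lit 4)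 (nat_lit 12) (nat_lit 5) (nat_lit 12) (nat_lit 4) (nat_lit 284) (nat_lit 219) (nat_lit 217)) (XT.lf (nat_lit 0) (nat_lit 7328184542) (nat_lit 152) (nat_lit 5157950135) (nat_lit 152) (nat_lit 3611520946) (nat_lit 10) (nat_lit 4) (nat_lit 12) (nat_lit 5) (nat_lit 12) (nat_lit 4) (nat_lit 285) (nat_lit 219) (nat_lit 216)))) (XT.nd (nat_lit 156) (nat_lit 0) (nat_lit 0) (XT.nd (nat_lit 78) (nat_lit 152) (nat_lit 0) (XT.lf (nat_lit 0) (nat_lit 13318133082) (nat_lit 152) (nat_lit 2707098578) (nat_lit 152) (nat_lit 693487881) (nat_lit 10) (nat_lit 4) (nat_lit 12) (nat_lit 5) (nat_lit 12) (nat_lit 4) (nat_lit 286) (nat_lit 219) (nat_lit 215)) (XT.lf (nat_lit 0) (nat_lit 2094888671) (nat_lit 76) (nat_lit 126298713) (nat_lit 152) (nat_lit 15151744096) (nat_lit 8) (nat_lit 5) (nat_lit 9) (nat_lit 5) (nat_lit 10) (nat_lit 4) (nat_lit 287) (nat_lit 219) (nat_lit 214))) (XT.nd (nat_lit 78) (nat_lit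 0) (nat_lit 0) (XT.lf (nat_lit 0) (nat_lit 5252454406) (nat_lit 152) (nat_lit 10299972048) (nat_lit 0) (nat_lit 2507413581) (nat_lit 8) (nat_lit 5) (nat_lit 10) (nat_lit 4) (nat_lit 8) (nat_lit 4) (nat_lit 288) (nat_lit 219) (nat_lit 213)) (XT.lf (nat_lit 0) (nat_lit 8337634040) (nat_lit 152) (nat_lit 5240350816) (nat_lit 0) (nat_lit 5208241832) (nat_lit 8) (nat_lit 5) (nat_lit 10) (nat_lit 4) (nat_lit 8) (nat_lit 4) (nat_lit 289) (nat_lit 219) (nat_lit 212))))) (XT.nd (nat_lit 312) (nat_lit 152) (nat_lit 0) (XT.nd (nat_lit 156) (nat_lit 0) (nat_lit 0) (XT.nd (nat_lit 78) (nat_lit 76) (nat_lit 0) (XT.lf (nat_lit 0) (nat_lit 11482100075) (nat_lit 152) (nat_lit 85160519) (nat_lit 0) (nat_lit 7986658931) (nat_lit 8) (nat_lit 5) (nat_lit 10) (nat_lit 4) (nat_lit 8) (nat_lit 4) (nat_lit 290) (nat_lit 219) (nat_lit 211)) (XT.lf (nat_lit 0) (nat_lit 5349076973) (nat_lit 76) (nat_lit 9427776444)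 (nat_lit 76) (nat_lit 5583717266) (nat_lit 7) (nat_lit 4) (nat_lit 8) (nat_lit 5) (nat_lit 8) (nat_lit 4) (nat_lit 291) (nat_lit 219) (nat_lit 210))) (XT.nd (nat_lit 78) (nat_lit 0) (nat_lit 0) (XT.lf (nat_lit 0) (nat_lit 10910484739) (nat_lit 76) (nat_lit 7238856133) (nat_lit 76) (nat_lit 3062779780) (nat_lit 7) (nat_lit 4) (nat_lit 8) (nat_lit 5) (nat_lit 8) (nat_lit 4) (nat_lit 292) (nat_lit 219) (nat_lit 209)) (XT.lf (nat_lit 0) (nat_lit 16609488432) (nat_lit 76) (nat_lit 4996730182) (nat_lit 76) (nat_lit 504446994) (nat_lit 7) (nat_lit 4) (nat_lit 8) (nat_lit 5) (nat_lit 8) (nat_lit 4) (nat_lit 293) (nat_lit 219) (nat_lit 208)))) (XT.nd (nat_lit 156) (nat_lit 0) (nat_lit 0) (XT.nd (nat_lit 78) (nat_lit 76) (nat_lit 0) (XT.lf (nat_lit 0) (nat_lit 2030243344) (nat_lit 152) (nat_lit 631433697) (nat_lit 76) (nat_lit 20395030611) (nat_lit 6) (nat_lit 5) (nat_lit 8) (nat_lit 5) (nat_lit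 7) (nat_lit 4) (nat_lit 294) (nat_lit 219) (nat_lit 207)) (XT.lf (nat_lit 0) (nat_lit 4486972627) (nat_lit 76) (nat_lit 179961079) (nat_lit 152) (nat_lit 19383271463) (nat_lit 5) (nat_lit 5) (nat_lit 6) (nat_lit 5) (nat_lit 7) (nat_lit 4) (nat_lit 295) (nat_lit 219) (nat_lit 206))) (XT.nd (nat_lit 78) (nat_lit 0) (nat_lit 0) (XT.lf (nat_lit 0) (nat_lit 7407261828) (nat_lit 152) (nat_lit 15378902402) (nat_lit 0) (nat_lit 2308792471) (nat_lit 5) (nat_lit 5) (nat_lit 7) (nat_lit 4) (nat_lit 5) (nat_lit 4) (nat_lit 296) (nat_lit 219) (nat_lit 205)) (XT.lf (nat_lit 0) (nat_lit 10214280469) (nat_lit 152) (nat_lit 11113288091) (nat_lit 0) (nat_lit 4868054784) (nat_lit 5) (nat_lit 5) (nat_lit 7) (nat_lit 4) (nat_lit 5) (nat_lit 4) (nat_lit 297) (nat_lit 219) (nat_lit 204)))))) (XT.nd (nat_lit 624) (nat_lit 152) (nat_lit 0) (XT.nd (nat_lit 312) (nat_lit 0) (nat_lit 0) (XT.nd (nat_lit 156) (nat_lit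 76) (nat_lit 0) (XT.nd (nat_lit 78) (nat_lit 0) (nat_lit 0) (XT.lf (nat_lit 0) (nat_lit 13091863310) (nat_lit 152) (nat_lit 6753423688) (nat_lit 0) (nat_lit 7509679217) (nat_lit 5) (nat_lit 5) (nat_lit 7) (nat_lit 4) (nat_lit 5) (nat_lit 4) (nat_lit 298) (nat_lit 219) (nat_lit 203)) (XT.lf (nat_lit 0) (nat_lit 16046861738) (nat_lit 152) (nat_lit 2288928563) (nat_lit 0) (nat_lit 10239955352) (nat_lit 5) (nat_lit 5) (nat_lit 7) (nat_lit 4) (nat_lit 5) (nat_lit 4) (nat_lit 299) (nat_lit 219) (nat_lit 202))) (XT.nd (nat_lit 78) (nat_lit 0) (nat_lit 0) (XT.lf (nat_lit 0) (nat_lit 2366572119) (nat_lit 76) (nat_lit 16756688169) (nat_lit 76) (nat_lit 10735760551) (nat_lit 4) (nat_lit 4) (nat_lit 5) (nat_lit 5) (nat_lit 5) (nat_lit 4) (nat_lit 300) (nat_lit 219) (nat_lit 201)) (XT.lf (nat_lit 0) (nat_lit 7228091343) (nat_lit 76) (nat_lit 15102208695) (nat_lit 76) (nat_lit 8877451333) (nat_lit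 4) (nat_lit 4) (nat_lit 5) (nat_lit 5) (nat_lit 5) (nat_lit 4) (nat_lit 301) (nat_lit 219) (nat_lit 200)))) (XT.nd (nat_lit 156) (nat_lit 0) (nat_lit 0) (XT.nd (nat_lit 78) (nat_lit 0) (nat_lit 0) (XT.lf (nat_lit 0) (nat_lit 12231521837) (nat_lit 76) (nat_lit 13407176757) (nat_lit 76) (nat_lit 6988295829) (nat_lit 4) (nat_lit 4) (nat_lit 5) (nat_lit 5) (nat_lit 5) (nat_lit 4) (nat_lit 302) (nat_lit 219) (nat_lit 199)) (XT.lf (nat_lit 0) (nat_lit 17388776531) (nat_lit 76) (nat_lit 11667556565) (nat_lit 76) (nat_lit 5063796050) (nat_lit 4) (nat_lit 4) (nat_lit 5) (nat_lit 5) (nat_lit 5) (nat_lit 4) (nat_lit 303) (nat_lit 219) (nat_lit 198))) (XT.nd (nat_lit 78) (nat_lit 0) (nat_lit 0) (XT.lf (nat_lit 0) (nat_lit 22712134603) (nat_lit 76) (nat_lit 9879206165) (nat_lit 76) (nat_lit 3099369852) (nat_lit 4) (nat_lit 4) (nat_lit 5) (nat_lit 5) (nat_lit 5) (nat_lit 4) (nat_lit 304) (nat_lit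 219) (nat_lit 197)) (XT.lf (nat_lit 0) (nat_lit 28214270716) (nat_lit 76) (nat_lit 8037867580) (nat_lit 76) (nat_lit 1090340032) (nat_lit 4) (nat_lit 4) (nat_lit 5) (nat_lit 5) (nat_lit 5) (nat_lit 4) (nat_lit 305) (nat_lit 219) (nat_lit 196))))) (XT.nd (nat_lit 312) (nat_lit 0) (nat_lit 0) (XT.nd (nat_lit 156) (nat_lit 76) (nat_lit 0) (XT.nd (nat_lit 78) (nat_lit 0) (nat_lit 0) (XT.lf (nat_lit 0) (nat_lit 937092310) (nat_lit 152) (nat_lit 5186194248) (nat_lit 76) (nat_lit 32955322770) (nat_lit 3) (nat_lit 5) (nat_lit 5) (nat_lit 5) (nat_lit 4) (nat_lit 4) (nat_lit 306) (nat_lit 219) (nat_lit 195)) (XT.lf (nat_lit 0) (nat_lit 2982177427) (nat_lit 152) (nat_lit 1145870652) (nat_lit 76) (nat_lit 36775053166) (nat_lit 3) (nat_lit 5) (nat_lit 5) (nat_lit 5) (nat_lit 4) (nat_lit 4) (nat_lit 307) (nat_lit 219) (nat_lit 194))) (XT.nd (nat_lit 78) (nat_lit 0) (nat_lit 0) (XT.lf (nat_lit 0)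 (nat_lit 3119241465) (nat_lit 76) (nat_lit 2014140894) (nat_lit 152) (nat_lit 37685331902) (nat_lit 2) (nat_lit 5) (nat_lit 3) (nat_lit 5) (nat_lit 4) (nat_lit 4) (nat_lit 308) (nat_lit 219) (nat_lit 193)) (XT.lf (nat_lit 0) (nat_lit 7370697430) (nat_lit 152) (nat_lit 37272873338) (nat_lit 0) (nat_lit 187695175) (nat_lit 2) (nat_lit 5) (nat_lit 4) (nat_lit 4) (nat_lit 2) (nat_lit 4) (nat_lit 309) (nat_lit 219) (nat_lit 192)))) (XT.nd (nat_lit 156) (nat_lit 0) (nat_lit 0) (XT.nd (nat_lit 78) (nat_lit 0) (nat_lit 0) (XT.lf (nat_lit 0) (nat_lit 9710628438) (nat_lit 152) (nat_lit 34831868295) (nat_lit 0) (nat_lit 2402492402) (nat_lit 2) (nat_lit 5) (nat_lit 4) (nat_lit 4) (nat_lit 2) (nat_lit 4) (nat_lit 310) (nat_lit 219) (nat_lit 191)) (XT.lf (nat_lit 0) (nat_lit 12127300265) (nat_lit 152) (nat_lit 32339199369) (nat_lit 0) (nat_lit 4699989199) (nat_lit 2) (nat_lit 5) (nat_lit 4) (nat_lit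 4) (nat_lit 2) (nat_lit 4) (nat_lit 311) (nat_lit 219) (nat_lit 190))) (XT.nd (nat_lit 78) (nat_lit 0) (nat_lit 0) (XT.lf (nat_lit 0) (nat_lit 14626466891) (nat_lit 152) (nat_lit 29788931632) (nat_lit 0) (nat_lit 7085655796) (nat_lit 2) (nat_lit 5) (nat_lit 4) (nat_lit 4) (nat_lit 2) (nat_lit 4) (nat_lit 312) (nat_lit 219) (nat_lit 189)) (XT.nd (nat_lit 78) (nat_lit 0) (nat_lit 0) (XT.lf (nat_lit 0) (nat_lit 17214078712) (nat_lit 152) (nat_lit 27174993020) (nat_lit 0) (nat_lit 9565172352) (nat_lit 2) (nat_lit 5) (nat_lit 4) (nat_lit 4) (nat_lit 2) (nat_lit 4) (nat_lit 313) (nat_lit 219) (nat_lit 188)) (XT.lf (nat_lit 0) (nat_lit 19896296710) (nat_lit 152) (nat_lit 24491159868) (nat_lit 0) (nat_lit 12144442478) (nat_lit 2) (nat_lit 5) (nat_lit 4) (nat_lit 4) (nat_lit 2) (nat_lit 4) (nat_lit 314) (nat_lit 219) (nat_lit 187))))))))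
noncomputable def xc49 : XT := (XT.nd (nat_lit 1326) (nat_lit 0) (nat_lit 0) (XT.nd (nat_lit 624) (nat_lit 0) (nat_lit 0) (XT.nd (nat_lit 312) (nat_lit 76) (nat_lit 0) (XT.nd (nat_lit 156) (nat_lit 0) (nat_lit 0) (XT.nd (nat_lit 78) (nat_lit 0) (nat_lit 0) (XT.lf (nat_lit 0) (nat_lit 22679507118) (nat_lit 152) (nat_lit 21731042098) (nat_lit 0) (nat_lit 14829607293) (nat_lit 2) (nat_lit 5) (nat_lit 4) (nat_lit 4) (nat_lit 2) (nat_lit 4) (nat_lit 315) (nat_lit 219) (nat_lit 186)) (XT.lf (nat_lit 0) (nat_lit 25570336626) (nat_lit 152) (nat_lit 18888068001) (nat_lit 0) (nat_lit 17627060047) (nat_lit 2) (nat_lit 5) (nat_lit 4) (nat_lit 4) (nat_lit 2) (nat_lit 4) (nat_lit 316) (nat_lit 219) (nat_lit 185))) (XT.nd (nat_lit 78) (nat_lit 0) (nat_lit 0) (XT.lf (nat_lit 0) (nat_lit 28575668163) (nat_lit 152) (nat_lit 15955468590) (nat_lit 0) (nat_lit 20543461342) (nat_lit 2) (nat_lit 5) (nat_lit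 4) (nat_lit 4) (nat_lit 2) (nat_lit 4) (nat_lit 317) (nat_lit 219) (nat_lit 184)) (XT.lf (nat_lit 0) (nat_lit 31702657280) (nat_lit 152) (nat_lit 12926261486) (nat_lit 0) (nat_lit 23585754990) (nat_lit 2) (nat_lit 5) (nat_lit 4) (nat_lit 4) (nat_lit 2) (nat_lit 4) (nat_lit 318) (nat_lit 219) (nat_lit 183)))) (XT.nd (nat_lit 156) (nat_lit 76) (nat_lit 0) (XT.nd (nat_lit 78) (nat_lit 0) (nat_lit 0) (XT.lf (nat_lit 0) (nat_lit 34958749189) (nat_lit 152) (nat_lit 9793234292) (nat_lit 0) (nat_lit 26761184548) (nat_lit 2) (nat_lit 5) (nat_lit 4) (nat_lit 4) (nat_lit 2) (nat_lit 4) (nat_lit 319) (nat_lit 219) (nat_lit 182)) (XT.lf (nat_lit 0) (nat_lit 38351696490) (nat_lit 152) (nat_lit 6548927419) (nat_lit 0) (nat_lit 30077310561) (nat_lit 2) (nat_lit 5) (nat_lit 4) (nat_lit 4) (nat_lit 2) (nat_lit 4) (nat_lit 320) (nat_lit 219) (nat_lit 181))) (XT.nd (nat_lit 78) (nat_lit 76) (nat_lit 0)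 (XT.lf (nat_lit 0) (nat_lit 41889577628) (nat_lit 152) (nat_lit 3185616326) (nat_lit 0) (nat_lit 33542028569) (nat_lit 2) (nat_lit 5) (nat_lit 4) (nat_lit 4) (nat_lit 2) (nat_lit 4) (nat_lit 321) (nat_lit 219) (nat_lit 180)) (XT.lf (nat_lit 0) (nat_lit 314781854) (nat_lit 76) (nat_lit 45270948903) (nat_lit 76) (nat_lit 36853720672) (nat_lit 1) (nat_lit 4) (nat_lit 2) (nat_lit 5) (nat_lit 2) (nat_lit 4) (nat_lit 322) (nat_lit 219) (nat_lit 179))))) (XT.nd (nat_lit 312) (nat_lit 0) (nat_lit 0) (XT.nd (nat_lit 156) (nat_lit 0) (nat_lit 0) (XT.nd (nat_lit 78) (nat_lit 0) (nat_lit 0) (XT.lf (nat_lit 0) (nat_lit 4060307663) (nat_lit 76) (nat_lit 45437285778) (nat_lit 76) (nat_lit 36953696432) (nat_lit 1) (nat_lit 4) (nat_lit 2) (nat_lit 5) (nat_lit 2) (nat_lit 4) (nat_lit 323) (nat_lit 219) (nat_lit 178)) (XT.lf (nat_lit 0) (nat_lit 7954548157) (nat_lit 76) (nat_lit 45628550575) (nat_lit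 76) (nat_lit 37081760165) (nat_lit 1) (nat_lit 4) (nat_lit 2) (nat_lit 5) (nat_lit 2) (nat_lit 4) (nat_lit 324) (nat_lit 219) (nat_lit 177))) (XT.nd (nat_lit 78) (nat_lit 0) (nat_lit 0) (XT.lf (nat_lit 0) (nat_lit 12006775336) (nat_lit 76) (nat_lit 45845198684) (nat_lit 76) (nat_lit 37238216786) (nat_lit 1) (nat_lit 4) (nat_lit 2) (nat_lit 5) (nat_lit 2) (nat_lit 4) (nat_lit 325) (nat_lit 219) (nat_lit 176)) (XT.lf (nat_lit 0) (nat_lit 16226637361) (nat_lit 76) (nat_lit 46087745936) (nat_lit 76) (nat_lit 37423438811) (nat_lit 1) (nat_lit 4) (nat_lit 2) (nat_lit 5) (nat_lit 2) (nat_lit 4) (nat_lit 326) (nat_lit 219) (nat_lit 175)))) (XT.nd (nat_lit 156) (nat_lit 0) (nat_lit 0) (XT.nd (nat_lit 78) (nat_lit 0) (nat_lit 0) (XT.lf (nat_lit 0) (nat_lit 20624181522) (nat_lit 76) (nat_lit 46356769823) (nat_lit 76) (nat_lit 37637867244) (nat_lit 1) (nat_lit 4) (nat_lit 2) (nat_lit 5) (nat_lit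 2) (nat_lit 4) (nat_lit 327) (nat_lit 219) (nat_lit 174)) (XT.lf (nat_lit 0) (nat_lit 25209878162) (nat_lit 76) (nat_lit 46652910879) (nat_lit 76) (nat_lit 37882012629) (nat_lit 1) (nat_lit 4) (nat_lit 2) (nat_lit 5) (nat_lit 2) (nat_lit 4) (nat_lit 328) (nat_lit 219) (nat_lit 173))) (XT.nd (nat_lit 78) (nat_lit 0) (nat_lit 0) (XT.lf (nat_lit 0) (nat_lit 29994645607) (nat_lit 76) (nat_lit 46976874202) (nat_lit 76) (nat_lit 38156456265) (nat_lit 1) (nat_lit 4) (nat_lit 2) (nat_lit 5) (nat_lit 2) (nat_lit 4) (nat_lit 329) (nat_lit 219) (nat_lit 172)) (XT.nd (nat_lit 78) (nat_lit 0) (nat_lit 0) (XT.lf (nat_lit 0) (nat_lit 34989876160) (nat_lit 76) (nat_lit 47329431132) (nat_lit 76) (nat_lit 38461851589) (nat_lit 1) (nat_lit 4) (nat_lit 2) (nat_lit 5) (nat_lit 2) (nat_lit 4) (nat_lit 330) (nat_lit 219) (nat_lit 171)) (XT.lf (nat_lit 0) (nat_lit 40207463228) (nat_lit 76) (nat_lit 47711421091)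 (nat_lit 76) (nat_lit 38798925732) (nat_lit 1) (nat_lit 4) (nat_lit 2) (nat_lit 5) (nat_lit 2) (nat_lit 4) (nat_lit 331) (nat_lit 219) (nat_lit 170))))))) (XT.nd (nat_lit 624) (nat_lit 0) (nat_lit 0) (XT.nd (nat_lit 312) (nat_lit 0) (nat_lit 0) (XT.nd (nat_lit 156) (nat_lit 0) (nat_lit 0) (XT.nd (nat_lit 78) (nat_lit 0) (nat_lit 0) (XT.lf (nat_lit 0) (nat_lit 45659829635) (nat_lit 76) (nat_lit 48123753579) (nat_lit 76) (nat_lit 39168481253) (nat_lit 1) (nat_lit 4) (nat_lit 2) (nat_lit 5) (nat_lit 2) (nat_lit 4) (nat_lit 332) (nat_lit 219) (nat_lit 169)) (XT.lf (nat_lit 0) (nat_lit 51359957208) (nat_lit 76) (nat_lit 48567410340) (nat_lit 76) (nat_lit 39571398045) (nat_lit 1) (nat_lit 4) (nat_lit 2) (nat_lit 5) (nat_lit 2) (nat_lit 4) (nat_lit 333) (nat_lit 219) (nat_lit 168))) (XT.nd (nat_lit 78) (nat_lit 0) (nat_lit 0) (XT.lf (nat_lit 0) (nat_lit 57321417679) (nat_lit 76) (nat_lit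 49043447699) (nat_lit 76) (nat_lit 40008635434) (nat_lit 1) (nat_lit 4) (nat_lit 2) (nat_lit 5) (nat_lit 2) (nat_lit 4) (nat_lit 334) (nat_lit 219) (nat_lit 167)) (XT.lf (nat_lit 0) (nat_lit 63558405001) (nat_lit 76) (nat_lit 49552999079) (nat_lit 76) (nat_lit 40481234462) (nat_lit 1) (nat_lit 4) (nat_lit 2) (nat_lit 5) (nat_lit 2) (nat_lit 4) (nat_lit 335) (nat_lit 219) (nat_lit 166)))) (XT.nd (nat_lit 156) (nat_lit 0) (nat_lit 0) (XT.nd (nat_lit 78) (nat_lit 0) (nat_lit 0) (XT.lf (nat_lit 0) (nat_lit 70085769144) (nat_lit 76) (nat_lit 50097277697) (nat_lit 76) (nat_lit 40990320363) (nat_lit 1) (nat_lit 4) (nat_lit 2) (nat_lit 5) (nat_lit 2) (nat_lit 4) (nat_lit 336) (nat_lit 219) (nat_lit 165)) (XT.lf (nat_lit 0) (nat_lit 76919051451) (nat_lit 76) (nat_lit 50677579455) (nat_lit 76) (nat_lit 41537105248) (nat_lit 1) (nat_lit 4) (nat_lit 2) (nat_lit 5) (nat_lit 2) (nat_lit 4) (nat_lit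 337) (nat_lit 219) (nat_lit 164))) (XT.nd (nat_lit 78) (nat_lit 0) (nat_lit 0) (XT.lf (nat_lit 0) (nat_lit 84074521642) (nat_lit 76) (nat_lit 51295286024) (nat_lit 76) (nat_lit 42122890986) (nat_lit 1) (nat_lit 4) (nat_lit 2) (nat_lit 5) (nat_lit 2) (nat_lit 4) (nat_lit 338) (nat_lit 219) (nat_lit 163)) (XT.lf (nat_lit 0) (nat_lit 91569216550) (nat_lit 76) (nat_lit 51951868134) (nat_lit 76) (nat_lit 42749072303) (nat_lit 1) (nat_lit 4) (nat_lit 2) (nat_lit 5) (nat_lit 2) (nat_lit 4) (nat_lit 339) (nat_lit 219) (nat_lit 162))))) (XT.nd (nat_lit 312) (nat_lit 0) (nat_lit 0) (XT.nd (nat_lit 156) (nat_lit 0) (nat_lit 0) (XT.nd (nat_lit 78) (nat_lit 0) (nat_lit 0) (XT.lf (nat_lit 0) (nat_lit 99420980688) (nat_lit 76) (nat_lit 52648889074) (nat_lit 76) (nat_lit 43417140109) (nat_lit 1) (nat_lit 4) (nat_lit 2) (nat_lit 5) (nat_lit 2) (nat_lit 4) (nat_lit 340) (nat_lit 219) (nat_lit 161))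 (XT.lf (nat_lit 0) (nat_lit 107648508732) (nat_lit 76) (nat_lit 53388008420) (nat_lit 76) (nat_lit 44128685040) (nat_lit 1) (nat_lit 4) (nat_lit 2) (nat_lit 5) (nat_lit 2) (nat_lit 4) (nat_lit 341) (nat_lit 219) (nat_lit 160))) (XT.nd (nat_lit 78) (nat_lit 0) (nat_lit 0) (XT.lf (nat_lit 0) (nat_lit 116271390034) (nat_lit 76) (nat_lit 54170985979) (nat_lit 76) (nat_lit 44885401252) (nat_lit 1) (nat_lit 4) (nat_lit 2) (nat_lit 5) (nat_lit 2) (nat_lit 4) (nat_lit 342) (nat_lit 219) (nat_lit 159)) (XT.lf (nat_lit 0) (nat_lit 125310155265) (nat_lit 76) (nat_lit 54999685983) (nat_lit 76) (nat_lit 45689090449) (nat_lit 1) (nat_lit 4) (nat_lit 2) (nat_lit 5) (nat_lit 2) (nat_lit 4) (nat_lit 343) (nat_lit 219) (nat_lit 158)))) (XT.nd (nat_lit 156) (nat_lit 0) (nat_lit 0) (XT.nd (nat_lit 78) (nat_lit 0) (nat_lit 0) (XT.lf (nat_lit 0) (nat_lit 134786325293) (nat_lit 76) (nat_lit 55876081527)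 (nat_lit 76) (nat_lit 46541666177) (nat_lit 1) (nat_lit 4) (nat_lit 2) (nat_lit 5) (nat_lit 2) (nat_lit 4) (nat_lit 344) (nat_lit 219) (nat_lit 157)) (XT.lf (nat_lit 0) (nat_lit 144722462429) (nat_lit 76) (nat_lit 56802259268) (nat_lit 76) (nat_lit 47445158379) (nat_lit 1) (nat_lit 4) (nat_lit 2) (nat_lit 5) (nat_lit 2) (nat_lit 4) (nat_lit 345) (nat_lit 219) (nat_lit 156))) (XT.nd (nat_lit 78) (nat_lit 0) (nat_lit 0) (XT.lf (nat_lit 0) (nat_lit 155142224141) (nat_lit 76) (nat_lit 57780424390) (nat_lit 76) (nat_lit 48401718227) (nat_lit 1) (nat_lit 4) (nat_lit 2) (nat_lit 5) (nat_lit 2) (nat_lit 4) (nat_lit 346) (nat_lit 219) (nat_lit 155)) (XT.nd (nat_lit 78) (nat_lit 0) (nat_lit 0) (XT.lf (nat_lit 0) (nat_lit 166070419387) (nat_lit 76) (nat_lit 58812905859) (nat_lit 76) (nat_lit 49413623243) (nat_lit 1) (nat_lit 4) (nat_lit 2) (nat_lit 5) (nat_lit 2) (nat_lit 4) (nat_lit 347) (nat_lit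 219) (nat_lit 154)) (XT.lf (nat_lit 0) (nat_lit 177533067678) (nat_lit 76) (nat_lit 59902161963) (nat_lit 76) (nat_lit 50483282726) (nat_lit 1) (nat_lit 4) (nat_lit 2) (nat_lit 5) (nat_lit 2) (nat_lit 4) (nat_lit 348) (nat_lit 219) (nat_lit 153))))))))
noncomputable def xc50 : XT := (XT.nd (nat_lit 32448) (nat_lit 0) (nat_lit 228) (XT.nd (nat_lit 624) (nat_lit 0) (nat_lit 0) (XT.nd (nat_lit 312) (nat_lit 0) (nat_lit 0) (XT.nd (nat_lit 156) (nat_lit 0) (nat_lit 0) (XT.nd (nat_lit 78) (nat_lit 0) (nat_lit 0) (XT.lf (nat_lit 0) (nat_lit 189557461035) (nat_lit 76) (nat_lit 61050786170) (nat_lit 76) (nat_lit 51613243483) (nat_lit 1) (nat_lit 4) (nat_lit 2) (nat_lit 5) (nat_lit 2) (nat_lit 4) (nat_lit 349) (nat_lit 219) (nat_lit 152)) (XT.lf (nat_lit 0) (nat_lit 202172228965) (nat_lit 76) (nat_lit 62261513298) (nat_lit 76) (nat_lit 52806195898) (nat_lit 1) (nat_lit 4) (nat_lit 2) (nat_lit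 5) (nat_lit 2) (nat_lit 4) (nat_lit 350) (nat_lit 219) (nat_lit 151))) (XT.nd (nat_lit 78) (nat_lit 0) (nat_lit 0) (XT.lf (nat_lit 0) (nat_lit 215407406630) (nat_lit 76) (nat_lit 63537226032) (nat_lit 76) (nat_lit 54064980334) (nat_lit 1) (nat_lit 4) (nat_lit 2) (nat_lit 5) (nat_lit 2) (nat_lit 4) (nat_lit 351) (nat_lit 219) (nat_lit 150)) (XT.lf (nat_lit 0) (nat_lit 229294506358) (nat_lit 76) (nat_lit 64880961783) (nat_lit 76) (nat_lit 55392593895) (nat_lit 1) (nat_lit 4) (nat_lit 2) (nat_lit 5) (nat_lit 2) (nat_lit 4) (nat_lit 352) (nat_lit 219) (nat_lit 149)))) (XT.nd (nat_lit 156) (nat_lit 0) (nat_lit 0) (XT.nd (nat_lit 78) (nat_lit 0) (nat_lit 0) (XT.lf (nat_lit 0) (nat_lit 243866592672) (nat_lit 76) (nat_lit 66295919922) (nat_lit 76) (nat_lit 56792197568) (nat_lit 1) (nat_lit 4) (nat_lit 2) (nat_lit 5) (nat_lit 2) (nat_lit 4) (nat_lit 353) (nat_lit 219) (nat_lit 148)) (XT.lf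 (nat_lit 0) (nat_lit 259158361016) (nat_lit 76) (nat_lit 67785469396) (nat_lit 76) (nat_lit 58267123741) (nat_lit 1) (nat_lit 4) (nat_lit 2) (nat_lit 5) (nat_lit 2) (nat_lit 4) (nat_lit 354) (nat_lit 219) (nat_lit 147))) (XT.nd (nat_lit 78) (nat_lit 0) (nat_lit 0) (XT.lf (nat_lit 0) (nat_lit 275206220362) (nat_lit 76) (nat_lit 69353156752) (nat_lit 76) (nat_lit 59820884144) (nat_lit 1) (nat_lit 4) (nat_lit 2) (nat_lit 5) (nat_lit 2) (nat_lit 4) (nat_lit 355) (nat_lit 219) (nat_lit 146)) (XT.lf (nat_lit 0) (nat_lit 292048379899) (nat_lit 76) (nat_lit 71002714578) (nat_lit 76) (nat_lit 61457178206) (nat_lit 1) (nat_lit 4) (nat_lit 2) (nat_lit 5) (nat_lit 2) (nat_lit 4) (nat_lit 356) (nat_lit 219) (nat_lit 145))))) (XT.nd (nat_lit 312) (nat_lit 0) (nat_lit 0) (XT.nd (nat_lit 156) (nat_lit 0) (nat_lit 0) (XT.nd (nat_lit 78) (nat_lit 0) (nat_lit 0) (XT.lf (nat_lit 0) (nat_lit 309724940006)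 (nat_lit 76) (nat_lit 72738070395) (nat_lit 76) (nat_lit 63179901866) (nat_lit 1) (nat_lit 4) (nat_lit 2) (nat_lit 5) (nat_lit 2) (nat_lit 4) (nat_lit 357) (nat_lit 219) (nat_lit 144)) (XT.lf (nat_lit 0) (nat_lit 328277987732) (nat_lit 76) (nat_lit 74563356000) (nat_lit 76) (nat_lit 64993156846) (nat_lit 1) (nat_lit 4) (nat_lit 2) (nat_lit 5) (nat_lit 2) (nat_lit 4) (nat_lit 358) (nat_lit 219) (nat_lit 143))) (XT.nd (nat_lit 78) (nat_lit 0) (nat_lit 0) (XT.lf (nat_lit 0) (nat_lit 347751697000) (nat_lit 76) (nat_lit 76482917313) (nat_lit 76) (nat_lit 66901260419) (nat_lit 1) (nat_lit 4) (nat_lit 2) (nat_lit 5) (nat_lit 2) (nat_lit 4) (nat_lit 359) (nat_lit 219) (nat_lit 142)) (XT.lf (nat_lit 0) (nat_lit 368192433784) (nat_lit 76) (nat_lit 78501324717) (nat_lit 76) (nat_lit 68908755691) (nat_lit 1) (nat_lit 4) (nat_lit 2) (nat_lit 5) (nat_lit 2) (nat_lit 4) (nat_lit 360) (nat_lit 219)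 (nat_lit 141)))) (XT.nd (nat_lit 31278) (nat_lit 0) (nat_lit 836) (XT.nd (nat_lit 31200) (nat_lit 0) (nat_lit 988) (XT.lf (nat_lit 0) (nat_lit 389648866505) (nat_lit 76) (nat_lit 80623383944) (nat_lit 76) (nat_lit 71020422411) (nat_lit 1) (nat_lit 4) (nat_lit 2) (nat_lit 5) (nat_lit 2) (nat_lit 4) (nat_lit 361) (nat_lit 219) (nat_lit 140)) (XT.lf (nat_lit 0) (nat_lit 3340517040) (nat_lit 152) (nat_lit 1694983002) (nat_lit 152) (nat_lit 1694983002) (nat_lit 14) (nat_lit 4) (nat_lit 16) (nat_lit 5) (nat_lit 16) (nat_lit 4) (nat_lit 280) (nat_lit 220) (nat_lit 220))) (XT.nd (nat_lit 78) (nat_lit 152) (nat_lit 0) (XT.lf (nat_lit 0) (nat_lit 12793907655) (nat_lit 152) (nat_lit 869441363) (nat_lit 152) (nat_lit 273186218) (nat_lit 14) (nat_lit 4) (nat_lit 16) (nat_lit 5) (nat_lit 16) (nat_lit 4) (nat_lit 281) (nat_lit 220) (nat_lit 219)) (XT.nd (nat_lit 78) (nat_lit 0) (nat_lit 0) (XT.lf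 (nat_lit 0) (nat_lit 2886125057) (nat_lit 152) (nat_lit 9771191596) (nat_lit 0) (nat_lit 1777442020) (nat_lit 12) (nat_lit 5) (nat_lit 14) (nat_lit 4) (nat_lit 12) (nat_lit 4) (nat_lit 282) (nat_lit 220) (nat_lit 218)) (XT.lf (nat_lit 0) (nat_lit 6110659933) (nat_lit 152) (nat_lit 4364613401) (nat_lit 0) (nat_lit 4486909284) (nat_lit 12) (nat_lit 5) (nat_lit 14) (nat_lit 4) (nat_lit 12) (nat_lit 4) (nat_lit 283) (nat_lit 220) (nat_lit 217))))))) (XT.nd (nat_lit 624) (nat_lit 228) (nat_lit 0) (XT.nd (nat_lit 312) (nat_lit 76) (nat_lit 0) (XT.nd (nat_lit 156) (nat_lit 152) (nat_lit 0) (XT.nd (nat_lit 78) (nat_lit 0) (nat_lit 0) (XT.lf (nat_lit 0) (nat_lit 1170342685) (nat_lit 152) (nat_lit 8232463165) (nat_lit 152) (nat_lit 6118171933) (nat_lit 10) (nat_lit 4) (nat_lit 12) (nat_lit 5) (nat_lit 12) (nat_lit 4) (nat_lit 284) (nat_lit 220) (nat_lit 216)) (XT.lf (nat_lit 0) (nat_lit 6957060503)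 (nat_lit 152) (nat_lit 5867099470) (nat_lit 152) (nat_lit 3285626730) (nat_lit 10) (nat_lit 4) (nat_lit 12) (nat_lit 5) (nat_lit 12) (nat_lit 4) (nat_lit 285) (nat_lit 220) (nat_lit 215))) (XT.nd (nat_lit 78) (nat_lit 152) (nat_lit 0) (XT.lf (nat_lit 0) (nat_lit 12865004121) (nat_lit 152) (nat_lit 3447467268) (nat_lit 152) (nat_lit 421059759) (nat_lit 10) (nat_lit 4) (nat_lit 12) (nat_lit 5) (nat_lit 12) (nat_lit 4) (nat_lit 286) (nat_lit 220) (nat_lit 214)) (XT.lf (nat_lit 0) (nat_lit 1524583609) (nat_lit 76) (nat_lit 902118106) (nat_lit 152) (nat_lit 14963866538) (nat_lit 8) (nat_lit 5) (nat_lit 9) (nat_lit 5) (nat_lit 10) (nat_lit 4) (nat_lit 287) (nat_lit 220) (nat_lit 213)))) (XT.nd (nat_lit 156) (nat_lit 76) (nat_lit 0) (XT.nd (nat_lit 78) (nat_lit 0) (nat_lit 0) (XT.lf (nat_lit 0) (nat_lit 5397211530) (nat_lit 152) (nat_lit 10956426826) (nat_lit 0) (nat_lit 1726998329) (nat_lit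 8) (nat_lit 5) (nat_lit 10) (nat_lit 4) (nat_lit 8) (nat_lit 4) (nat_lit 288) (nat_lit 220) (nat_lit 212)) (XT.lf (nat_lit 0) (nat_lit 8436063076) (nat_lit 152) (nat_lit 5973591934) (nat_lit 0) (nat_lit 4399800939) (nat_lit 8) (nat_lit 5) (nat_lit 10) (nat_lit 4) (nat_lit 8) (nat_lit 4) (nat_lit 289) (nat_lit 220) (nat_lit 211))) (XT.nd (nat_lit 78) (nat_lit 76) (nat_lit 0) (XT.lf (nat_lit 0) (nat_lit 11536407123) (nat_lit 152) (nat_lit 891531484) (nat_lit 0) (nat_lit 7151526952) (nat_lit 8) (nat_lit 5) (nat_lit 10) (nat_lit 4) (nat_lit 8) (nat_lit 4) (nat_lit 290) (nat_lit 220) (nat_lit 210)) (XT.lf (nat_lit 0) (nat_lit 4444093409) (nat_lit 76) (nat_lit 10330916785) (nat_lit 76) (nat_lit 5614019439) (nat_lit 7) (nat_lit 4) (nat_lit 8) (nat_lit 5) (nat_lit 8) (nat_lit 4) (nat_lit 291) (nat_lit 220) (nat_lit 209))))) (XT.nd (nat_lit 312) (nat_lit 76) (nat_lit 0) (XT.nd (nat_lit 156)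 (nat_lit 152) (nat_lit 0) (XT.nd (nat_lit 78) (nat_lit 0) (nat_lit 0) (XT.lf (nat_lit 0) (nat_lit 9936977047) (nat_lit 76) (nat_lit 8169430804) (nat_lit 76) (nat_lit 3136326623) (nat_lit 7) (nat_lit 4) (nat_lit 8) (nat_lit 5) (nat_lit 8) (nat_lit 4) (nat_lit 292) (nat_lit 220) (nat_lit 208)) (XT.lf (nat_lit 0) (nat_lit 15570719666) (nat_lit 76) (nat_lit 5953432785) (nat_lit 76) (nat_lit 619179239) (nat_lit 7) (nat_lit 4) (nat_lit 8) (nat_lit 5) (nat_lit 8) (nat_lit 4) (nat_lit 293) (nat_lit 220) (nat_lit 207))) (XT.nd (nat_lit 78) (nat_lit 76) (nat_lit 0) (XT.lf (nat_lit 0) (nat_lit 1881214475) (nat_lit 152) (nat_lit 1764572790) (nat_lit 76) (nat_lit 19445661186) (nat_lit 6) (nat_lit 5) (nat_lit 8) (nat_lit 5) (nat_lit 7) (nat_lit 4) (nat_lit 294) (nat_lit 220) (nat_lit 206)) (XT.lf (nat_lit 0) (nat_lit 3253895422) (nat_lit 76) (nat_lit 1208596889) (nat_lit 152) (nat_lit 19625306870)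 (nat_lit 5) (nat_lit 5) (nat_lit 6) (nat_lit 5) (nat_lit 7) (nat_lit 4) (nat_lit 295) (nat_lit 220) (nat_lit 205)))) (XT.nd (nat_lit 156) (nat_lit 76) (nat_lit 0) (XT.nd (nat_lit 78) (nat_lit 0) (nat_lit 0) (XT.lf (nat_lit 0) (nat_lit 7151016122) (nat_lit 152) (nat_lit 16694480636) (nat_lit 0) (nat_lit 1289722824) (nat_lit 5) (nat_lit 5) (nat_lit 7) (nat_lit 4) (nat_lit 5) (nat_lit 4) (nat_lit 296) (nat_lit 220) (nat_lit 204)) (XT.lf (nat_lit 0) (nat_lit 9923992454) (nat_lit 152) (nat_lit 12486930044) (nat_lit 0) (nat_lit 3826740749) (nat_lit 5) (nat_lit 5) (nat_lit 7) (nat_lit 4) (nat_lit 5) (nat_lit 4) (nat_lit 297) (nat_lit 220) (nat_lit 203))) (XT.nd (nat_lit 78) (nat_lit 76) (nat_lit 0) (XT.lf (nat_lit 0) (nat_lit 12769154049) (nat_lit 152) (nat_lit 8182364420) (nat_lit 0) (nat_lit 6447180051) (nat_lit 5) (nat_lit 5) (nat_lit 7) (nat_lit 4) (nat_lit 5) (nat_lit 4) (nat_lit 298)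 (nat_lit 220) (nat_lit 202)) (XT.nd (nat_lit 78) (nat_lit 76) (nat_lit 0) (XT.lf (nat_lit 0) (nat_lit 15693275101) (nat_lit 152) (nat_lit 3770534801) (nat_lit 0) (nat_lit 9157279870) (nat_lit 5) (nat_lit 5) (nat_lit 7) (nat_lit 4) (nat_lit 5) (nat_lit 4) (nat_lit 299) (nat_lit 220) (nat_lit 201)) (XT.lf (nat_lit 0) (nat_lit 784161227) (nat_lit 76) (nat_lit 17931399529) (nat_lit 76) (nat_lit 11191574554) (nat_lit 4) (nat_lit 4) (nat_lit 5) (nat_lit 5) (nat_lit 5) (nat_lit 4) (nat_lit 300) (nat_lit 220) (nat_lit 200))))))))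
noncomputable def xc51 : XT := (XT.nd (nat_lit 1326) (nat_lit 76) (nat_lit 0) (XT.nd (nat_lit 624) (nat_lit 0) (nat_lit 0) (XT.nd (nat_lit 312) (nat_lit 152) (nat_lit 0) (XT.nd (nat_lit 156) (nat_lit 0) (nat_lit 0) (XT.nd (nat_lit 78) (nat_lit 0) (nat_lit 0) (XT.lf (nat_lit 0) (nat_lit 5596331821) (nat_lit 76) (nat_lit 16297491523) (nat_lit 76) (nat_lit 9363542982) (nat_lit 4) (nat_lit 4) (nat_lit 5) (nat_lit 5) (nat_lit 5) (nat_lit 4) (nat_lit 301) (nat_lit 220) (nat_lit 199)) (XT.lf (nat_lit 0) (nat_lit 10552763621) (nat_lit 76) (nat_lit 14622051459) (nat_lit 76) (nat_lit 7503223332) (nat_lit 4) (nat_lit 4) (nat_lit 5) (nat_lit 5) (nat_lit 5) (nat_lit 4) (nat_lit 302) (nat_lit 220) (nat_lit 198))) (XT.nd (nat_lit 78) (nat_lit 0) (nat_lit 0) (XT.lf (nat_lit 0) (nat_lit 15665257653) (nat_lit 76) (nat_lit 12901090195) (nat_lit 76) (nat_lit 5606186270) (nat_lit 4) (nat_lit 4) (nat_lit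 5) (nat_lit 5) (nat_lit 5) (nat_lit 4) (nat_lit 303) (nat_lit 220) (nat_lit 197)) (XT.lf (nat_lit 0) (nat_lit 20945986524) (nat_lit 76) (nat_lit 11130510202) (nat_lit 76) (nat_lit 3667915042) (nat_lit 4) (nat_lit 4) (nat_lit 5) (nat_lit 5) (nat_lit 5) (nat_lit 4) (nat_lit 304) (nat_lit 220) (nat_lit 196)))) (XT.nd (nat_lit 156) (nat_lit 76) (nat_lit 0) (XT.nd (nat_lit 78) (nat_lit 76) (nat_lit 0) (XT.lf (nat_lit 0) (nat_lit 26407523397) (nat_lit 76) (nat_lit 9306095815) (nat_lit 76) (nat_lit 1683794716) (nat_lit 4) (nat_lit 4) (nat_lit 5) (nat_lit 5) (nat_lit 5) (nat_lit 4) (nat_lit 305) (nat_lit 220) (nat_lit 195)) (XT.lf (nat_lit 0) (nat_lit 339667849) (nat_lit 152) (nat_lit 7078082900) (nat_lit 76) (nat_lit 31717451642) (nat_lit 3) (nat_lit 5) (nat_lit 5) (nat_lit 5) (nat_lit 4) (nat_lit 4) (nat_lit 306) (nat_lit 220) (nat_lit 194))) (XT.nd (nat_lit 78) (nat_lit 76) (nat_lit 0)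 (XT.lf (nat_lit 0) (nat_lit 2362882458) (nat_lit 152) (nat_lit 3075350945) (nat_lit 76) (nat_lit 35522598226) (nat_lit 3) (nat_lit 5) (nat_lit 5) (nat_lit 5) (nat_lit 4) (nat_lit 4) (nat_lit 307) (nat_lit 220) (nat_lit 193)) (XT.lf (nat_lit 0) (nat_lit 1088978514) (nat_lit 76) (nat_lit 3372581726) (nat_lit 152) (nat_lit 38417552474) (nat_lit 2) (nat_lit 5) (nat_lit 3) (nat_lit 5) (nat_lit 4) (nat_lit 4) (nat_lit 308) (nat_lit 220) (nat_lit 192))))) (XT.nd (nat_lit 312) (nat_lit 0) (nat_lit 0) (XT.nd (nat_lit 156) (nat_lit 0) (nat_lit 0) (XT.nd (nat_lit 78) (nat_lit 0) (nat_lit 0) (XT.lf (nat_lit 0) (nat_lit 5496084244) (nat_lit 76) (nat_lit 1179376582) (nat_lit 152) (nat_lit 38217414019) (nat_lit 2) (nat_lit 5) (nat_lit 3) (nat_lit 5) (nat_lit 4) (nat_lit 4) (nat_lit 309) (nat_lit 220) (nat_lit 191)) (XT.lf (nat_lit 0) (nat_lit 8977341519) (nat_lit 152) (nat_lit 36971706999) (nat_lit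 0) (nat_lit 1059489869) (nat_lit 2) (nat_lit 5) (nat_lit 4) (nat_lit 4) (nat_lit 2) (nat_lit 4) (nat_lit 310) (nat_lit 220) (nat_lit 190))) (XT.nd (nat_lit 78) (nat_lit 0) (nat_lit 0) (XT.lf (nat_lit 0) (nat_lit 11375311496) (nat_lit 152) (nat_lit 34511737895) (nat_lit 0) (nat_lit 3343959817) (nat_lit 2) (nat_lit 5) (nat_lit 4) (nat_lit 4) (nat_lit 2) (nat_lit 4) (nat_lit 311) (nat_lit 220) (nat_lit 189)) (XT.lf (nat_lit 0) (nat_lit 13856666836) (nat_lit 152) (nat_lit 31992612847) (nat_lit 0) (nat_lit 5717219892) (nat_lit 2) (nat_lit 5) (nat_lit 4) (nat_lit 4) (nat_lit 2) (nat_lit 4) (nat_lit 312) (nat_lit 220) (nat_lit 188)))) (XT.nd (nat_lit 156) (nat_lit 0) (nat_lit 0) (XT.nd (nat_lit 78) (nat_lit 0) (nat_lit 0) (XT.lf (nat_lit 0) (nat_lit 16427315528) (nat_lit 152) (nat_lit 29408333938) (nat_lit 0) (nat_lit 8184920713) (nat_lit 2) (nat_lit 5) (nat_lit 4) (nat_lit 4) (nat_lit 2)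 (nat_lit 4) (nat_lit 313) (nat_lit 220) (nat_lit 187)) (XT.lf (nat_lit 0) (nat_lit 19093378165) (nat_lit 152) (nat_lit 26752748122) (nat_lit 0) (nat_lit 10752937757) (nat_lit 2) (nat_lit 5) (nat_lit 4) (nat_lit 4) (nat_lit 2) (nat_lit 4) (nat_lit 314) (nat_lit 220) (nat_lit 186))) (XT.nd (nat_lit 78) (nat_lit 0) (nat_lit 0) (XT.lf (nat_lit 0) (nat_lit 21861202514) (nat_lit 152) (nat_lit 24019532577) (nat_lit 0) (nat_lit 13427385352) (nat_lit 2) (nat_lit 5) (nat_lit 4) (nat_lit 4) (nat_lit 2) (nat_lit 4) (nat_lit 315) (nat_lit 220) (nat_lit 185)) (XT.nd (nat_lit 78) (nat_lit 0) (nat_lit 0) (XT.lf (nat_lit 0) (nat_lit 24737378634) (nat_lit 152) (nat_lit 21202179646) (nat_lit 0) (nat_lit 16214631230) (nat_lit 2) (nat_lit 5) (nat_lit 4) (nat_lit 4) (nat_lit 2) (nat_lit 4) (nat_lit 316) (nat_lit 220) (nat_lit 184)) (XT.lf (nat_lit 0) (nat_lit 27728754563) (nat_lit 152) (nat_lit 18293981347)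 (nat_lit 0) (nat_lit 19121311690) (nat_lit 2) (nat_lit 5) (nat_lit 4) (nat_lit 4) (nat_lit 2) (nat_lit 4) (nat_lit 317) (nat_lit 220) (nat_lit 183))))))) (XT.nd (nat_lit 624) (nat_lit 0) (nat_lit 0) (XT.nd (nat_lit 312) (nat_lit 76) (nat_lit 0) (XT.nd (nat_lit 156) (nat_lit 0) (nat_lit 0) (XT.nd (nat_lit 78) (nat_lit 0) (nat_lit 0) (XT.lf (nat_lit 0) (nat_lit 30842452624) (nat_lit 152) (nat_lit 15288013397) (nat_lit 0) (nat_lit 22154347400) (nat_lit 2) (nat_lit 5) (nat_lit 4) (nat_lit 4) (nat_lit 2) (nat_lit 4) (nat_lit 318) (nat_lit 220) (nat_lit 182)) (XT.lf (nat_lit 0) (nat_lit 34085886385) (nat_lit 152) (nat_lit 12177118729) (nat_lit 0) (nat_lit 25320959873) (nat_lit 2) (nat_lit 5) (nat_lit 4) (nat_lit 4) (nat_lit 2) (nat_lit 4) (nat_lit 319) (nat_lit 220) (nat_lit 181))) (XT.nd (nat_lit 78) (nat_lit 0) (nat_lit 0) (XT.lf (nat_lit 0) (nat_lit 37466778306) (nat_lit 152) (nat_lit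 8953890453) (nat_lit 0) (nat_lit 28628688664) (nat_lit 2) (nat_lit 5) (nat_lit 4) (nat_lit 4) (nat_lit 2) (nat_lit 4) (nat_lit 320) (nat_lit 220) (nat_lit 180)) (XT.lf (nat_lit 0) (nat_lit 40993178131) (nat_lit 152) (nat_lit 5610654215) (nat_lit 0) (nat_lit 32085409317) (nat_lit 2) (nat_lit 5) (nat_lit 4) (nat_lit 4) (nat_lit 2) (nat_lit 4) (nat_lit 321) (nat_lit 220) (nat_lit 179)))) (XT.nd (nat_lit 156) (nat_lit 0) (nat_lit 0) (XT.nd (nat_lit 78) (nat_lit 76) (nat_lit 0) (XT.lf (nat_lit 0) (nat_lit 44673482049) (nat_lit 152) (nat_lit 2139449928) (nat_lit 0) (nat_lit 35699352119) (nat_lit 2) (nat_lit 5) (nat_lit 4) (nat_lit 4) (nat_lit 2) (nat_lit 4) (nat_lit 322) (nat_lit 220) (nat_lit 178)) (XT.lf (nat_lit 0) (nat_lit 1516525464) (nat_lit 76) (nat_lit 47023604438) (nat_lit 76) (nat_lit 37986273445) (nat_lit 1) (nat_lit 4) (nat_lit 2) (nat_lit 5) (nat_lit 2) (nat_lit 4) (nat_lit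 323) (nat_lit 220) (nat_lit 177))) (XT.nd (nat_lit 78) (nat_lit 0) (nat_lit 0) (XT.lf (nat_lit 0) (nat_lit 5392851158) (nat_lit 76) (nat_lit 47222586343) (nat_lit 76) (nat_lit 38125063861) (nat_lit 1) (nat_lit 4) (nat_lit 2) (nat_lit 5) (nat_lit 2) (nat_lit 4) (nat_lit 324) (nat_lit 220) (nat_lit 176)) (XT.lf (nat_lit 0) (nat_lit 9428016623) (nat_lit 76) (nat_lit 47446584080) (nat_lit 76) (nat_lit 38291736371) (nat_lit 1) (nat_lit 4) (nat_lit 2) (nat_lit 5) (nat_lit 2) (nat_lit 4) (nat_lit 325) (nat_lit 220) (nat_lit 175))))) (XT.nd (nat_lit 312) (nat_lit 0) (nat_lit 0) (XT.nd (nat_lit 156) (nat_lit 0) (nat_lit 0) (XT.nd (nat_lit 78) (nat_lit 0) (nat_lit 0) (XT.lf (nat_lit 0) (nat_lit 13631629397) (nat_lit 76) (nat_lit 47696130977) (nat_lit 76) (nat_lit 38486687814) (nat_lit 1) (nat_lit 4) (nat_lit 2) (nat_lit 5) (nat_lit 2) (nat_lit 4) (nat_lit 326) (nat_lit 220) (nat_lit 174)) (XT.lf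 (nat_lit 0) (nat_lit 18013698081) (nat_lit 76) (nat_lit 47971821194) (nat_lit 76) (nat_lit 38710382360) (nat_lit 1) (nat_lit 4) (nat_lit 2) (nat_lit 5) (nat_lit 2) (nat_lit 4) (nat_lit 327) (nat_lit 220) (nat_lit 173))) (XT.nd (nat_lit 78) (nat_lit 0) (nat_lit 0) (XT.lf (nat_lit 0) (nat_lit 22584656171) (nat_lit 76) (nat_lit 48274311134) (nat_lit 76) (nat_lit 38963352614) (nat_lit 1) (nat_lit 4) (nat_lit 2) (nat_lit 5) (nat_lit 2) (nat_lit 4) (nat_lit 328) (nat_lit 220) (nat_lit 172)) (XT.lf (nat_lit 0) (nat_lit 27355386902) (nat_lit 76) (nat_lit 48604321014) (nat_lit 76) (nat_lit 39246200887) (nat_lit 1) (nat_lit 4) (nat_lit 2) (nat_lit 5) (nat_lit 2) (nat_lit 4) (nat_lit 329) (nat_lit 220) (nat_lit 171)))) (XT.nd (nat_lit 156) (nat_lit 0) (nat_lit 0) (XT.nd (nat_lit 78) (nat_lit 0) (nat_lit 0) (XT.lf (nat_lit 0) (nat_lit 32337249155) (nat_lit 76) (nat_lit 48962636569) (nat_lit 76)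 (nat_lit 39559600627) (nat_lit 1) (nat_lit 4) (nat_lit 2) (nat_lit 5) (nat_lit 2) (nat_lit 4) (nat_lit 330) (nat_lit 220) (nat_lit 170)) (XT.lf (nat_lit 0) (nat_lit 37542104509) (nat_lit 76) (nat_lit 49350110934) (nat_lit 76) (nat_lit 39904298024) (nat_lit 1) (nat_lit 4) (nat_lit 2) (nat_lit 5) (nat_lit 2) (nat_lit 4) (nat_lit 331) (nat_lit 220) (nat_lit 169))) (XT.nd (nat_lit 78) (nat_lit 0) (nat_lit 0) (XT.lf (nat_lit 0) (nat_lit 42982345475) (nat_lit 76) (nat_lit 49767666665) (nat_lit 76) (nat_lit 40281113787) (nat_lit 1) (nat_lit 4) (nat_lit 2) (nat_lit 5) (nat_lit 2) (nat_lit 4) (nat_lit 332) (nat_lit 220) (nat_lit 168)) (XT.nd (nat_lit 78) (nat_lit 0) (nat_lit 0) (XT.lf (nat_lit 0) (nat_lit 48670925009) (nat_lit 76) (nat_lit 50216297943) (nat_lit 76) (nat_lit 40690945095) (nat_lit 1) (nat_lit 4) (nat_lit 2) (nat_lit 5) (nat_lit 2) (nat_lit 4) (nat_lit 333) (nat_lit 220) (nat_lit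 167)) (XT.lf (nat_lit 0) (nat_lit 54621387347) (nat_lit 76) (nat_lit 50697072938) (nat_lit 76) (nat_lit 41134767737) (nat_lit 1) (nat_lit 4) (nat_lit 2) (nat_lit 5) (nat_lit 2) (nat_lit 4) (nat_lit 334) (nat_lit 220) (nat_lit 166))))))))
noncomputable def xc52 : XT := (XT.nd (nat_lit 1248) (nat_lit 0) (nat_lit 0) (XT.nd (nat_lit 624) (nat_lit 0) (nat_lit 0) (XT.nd (nat_lit 312) (nat_lit 0) (nat_lit 0) (XT.nd (nat_lit 156) (nat_lit 0) (nat_lit 0) (XT.nd (nat_lit 78) (nat_lit 0) (nat_lit 0) (XT.lf (nat_lit 0) (nat_lit 60847900256) (nat_lit 76) (nat_lit 51211136351) (nat_lit 76) (nat_lit 41613638434) (nat_lit 1) (nat_lit 4) (nat_lit 2) (nat_lit 5) (nat_lit 2) (nat_lit 4) (nat_lit 335) (nat_lit 220) (nat_lit 165)) (XT.lf (nat_lit 0) (nat_lit 67365288768) (nat_lit 76) (nat_lit 51759712145) (nat_lit 76) (nat_lit 42128697354) (nat_lit 1) (nat_lit 4) (nat_lit 2) (nat_lit 5) (nat_lit 2) (nat_lit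 4) (nat_lit 336) (nat_lit 220) (nat_lit 164))) (XT.nd (nat_lit 78) (nat_lit 0) (nat_lit 0) (XT.lf (nat_lit 0) (nat_lit 74189070475) (nat_lit 76) (nat_lit 52344106451) (nat_lit 76) (nat_lit 42681170829) (nat_lit 1) (nat_lit 4) (nat_lit 2) (nat_lit 5) (nat_lit 2) (nat_lit 4) (nat_lit 337) (nat_lit 220) (nat_lit 163)) (XT.lf (nat_lit 0) (nat_lit 81335492474) (nat_lit 76) (nat_lit 52965710684) (nat_lit 76) (nat_lit 43272374270) (nat_lit 1) (nat_lit 4) (nat_lit 2) (nat_lit 5) (nat_lit 2) (nat_lit 4) (nat_lit 338) (nat_lit 220) (nat_lit 162)))) (XT.nd (nat_lit 156) (nat_lit 0) (nat_lit 0) (XT.nd (nat_lit 78) (nat_lit 0) (nat_lit 0) (XT.lf (nat_lit 0) (nat_lit 88821570058) (nat_lit 76) (nat_lit 53626004855) (nat_lit 76) (nat_lit 43903715306) (nat_lit 1) (nat_lit 4) (nat_lit 2) (nat_lit 5) (nat_lit 2) (nat_lit 4) (nat_lit 339) (nat_lit 220) (nat_lit 161)) (XT.lf (nat_lit 0) (nat_lit 96665127220)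 (nat_lit 76) (nat_lit 54326561092) (nat_lit 76) (nat_lit 44576697129) (nat_lit 1) (nat_lit 4) (nat_lit 2) (nat_lit 5) (nat_lit 2) (nat_lit 4) (nat_lit 340) (nat_lit 220) (nat_lit 160))) (XT.nd (nat_lit 78) (nat_lit 0) (nat_lit 0) (XT.lf (nat_lit 0) (nat_lit 104884839096) (nat_lit 76) (nat_lit 55069047387) (nat_lit 76) (nat_lit 45292922076) (nat_lit 1) (nat_lit 4) (nat_lit 2) (nat_lit 5) (nat_lit 2) (nat_lit 4) (nat_lit 341) (nat_lit 220) (nat_lit 159)) (XT.lf (nat_lit 0) (nat_lit 113500276429) (nat_lit 76) (nat_lit 55855231564) (nat_lit 76) (nat_lit 46054095447) (nat_lit 1) (nat_lit 4) (nat_lit 2) (nat_lit 5) (nat_lit 2) (nat_lit 4) (nat_lit 342) (nat_lit 220) (nat_lit 158))))) (XT.nd (nat_lit 312) (nat_lit 0) (nat_lit 0) (XT.nd (nat_lit 156) (nat_lit 0) (nat_lit 0) (XT.nd (nat_lit 78) (nat_lit 0) (nat_lit 0) (XT.lf (nat_lit 0) (nat_lit 122531952165) (nat_lit 76) (nat_lit 56686985490)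 (nat_lit 76) (nat_lit 46862029557) (nat_lit 1) (nat_lit 4) (nat_lit 2) (nat_lit 5) (nat_lit 2) (nat_lit 4) (nat_lit 343) (nat_lit 220) (nat_lit 157)) (XT.lf (nat_lit 0) (nat_lit 132001370294) (nat_lit 76) (nat_lit 57566289531) (nat_lit 76) (nat_lit 47718648059) (nat_lit 1) (nat_lit 4) (nat_lit 2) (nat_lit 5) (nat_lit 2) (nat_lit 4) (nat_lit 344) (nat_lit 220) (nat_lit 156))) (XT.nd (nat_lit 78) (nat_lit 0) (nat_lit 0) (XT.lf (nat_lit 0) (nat_lit 141931077049) (nat_lit 76) (nat_lit 58495237270) (nat_lit 76) (nat_lit 48625990522) (nat_lit 1) (nat_lit 4) (nat_lit 2) (nat_lit 5) (nat_lit 2) (nat_lit 4) (nat_lit 345) (nat_lit 220) (nat_lit 155)) (XT.lf (nat_lit 0) (nat_lit 152344714590) (nat_lit 76) (nat_lit 59476040485) (nat_lit 76) (nat_lit 49586217285) (nat_lit 1) (nat_lit 4) (nat_lit 2) (nat_lit 5) (nat_lit 2) (nat_lit 4) (nat_lit 346) (nat_lit 220) (nat_lit 154)))) (XT.nd (nat_lit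 156) (nat_lit 0) (nat_lit 0) (XT.nd (nat_lit 78) (nat_lit 0) (nat_lit 0) (XT.lf (nat_lit 0) (nat_lit 163267077291) (nat_lit 76) (nat_lit 60511034423) (nat_lit 76) (nat_lit 50601614602) (nat_lit 1) (nat_lit 4) (nat_lit 2) (nat_lit 5) (nat_lit 2) (nat_lit 4) (nat_lit 347) (nat_lit 220) (nat_lit 153)) (XT.lf (nat_lit 0) (nat_lit 174724170777) (nat_lit 76) (nat_lit 61602683355) (nat_lit 76) (nat_lit 51674600085) (nat_lit 1) (nat_lit 4) (nat_lit 2) (nat_lit 5) (nat_lit 2) (nat_lit 4) (nat_lit 348) (nat_lit 220) (nat_lit 152))) (XT.nd (nat_lit 78) (nat_lit 0) (nat_lit 0) (XT.lf (nat_lit 0) (nat_lit 186743273844) (nat_lit 76) (nat_lit 62753586445) (nat_lit 76) (nat_lit 52807728462) (nat_lit 1) (nat_lit 4) (nat_lit 2) (nat_lit 5) (nat_lit 2) (nat_lit 4) (nat_lit 349) (nat_lit 220) (nat_lit 151)) (XT.lf (nat_lit 0) (nat_lit 199353003403) (nat_lit 76) (nat_lit 63966483939) (nat_lit 76) (nat_lit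 54003697657) (nat_lit 1) (nat_lit 4) (nat_lit 2) (nat_lit 5) (nat_lit 2) (nat_lit 4) (nat_lit 350) (nat_lit 220) (nat_lit 150)))))) (XT.nd (nat_lit 624) (nat_lit 0) (nat_lit 0) (XT.nd (nat_lit 312) (nat_lit 0) (nat_lit 0) (XT.nd (nat_lit 156) (nat_lit 0) (nat_lit 0) (XT.nd (nat_lit 78) (nat_lit 0) (nat_lit 0) (XT.lf (nat_lit 0) (nat_lit 212583382619) (nat_lit 76) (nat_lit 65244263688) (nat_lit 76) (nat_lit 55265355217) (nat_lit 1) (nat_lit 4) (nat_lit 2) (nat_lit 5) (nat_lit 2) (nat_lit 4) (nat_lit 351) (nat_lit 220) (nat_lit 149)) (XT.lf (nat_lit 0) (nat_lit 226465912396) (nat_lit 76) (nat_lit 66589968024) (nat_lit 76) (nat_lit 56595705087) (nat_lit 1) (nat_lit 4) (nat_lit 2) (nat_lit 5) (nat_lit 2) (nat_lit 4) (nat_lit 352) (nat_lit 220) (nat_lit 148))) (XT.nd (nat_lit 78) (nat_lit 0) (nat_lit 0) (XT.lf (nat_lit 0) (nat_lit 241033646375) (nat_lit 76) (nat_lit 68006801006) (nat_lit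 76) (nat_lit 57997914768) (nat_lit 1) (nat_lit 4) (nat_lit 2) (nat_lit 5) (nat_lit 2) (nat_lit 4) (nat_lit 353) (nat_lit 220) (nat_lit 147)) (XT.lf (nat_lit 0) (nat_lit 256321269639) (nat_lit 76) (nat_lit 69498136045) (nat_lit 76) (nat_lit 59475322854) (nat_lit 1) (nat_lit 4) (nat_lit 2) (nat_lit 5) (nat_lit 2) (nat_lit 4) (nat_lit 354) (nat_lit 220) (nat_lit 146)))) (XT.nd (nat_lit 156) (nat_lit 0) (nat_lit 0) (XT.nd (nat_lit 78) (nat_lit 0) (nat_lit 0) (XT.lf (nat_lit 0) (nat_lit 272365181289) (nat_lit 76) (nat_lit 71067523939) (nat_lit 76) (nat_lit 61031446983) (nat_lit 1) (nat_lit 4) (nat_lit 2) (nat_lit 5) (nat_lit 2) (nat_lit 4) (nat_lit 355) (nat_lit 220) (nat_lit 145)) (XT.lf (nat_lit 0) (nat_lit 289203581115) (nat_lit 76) (nat_lit 72718701326) (nat_lit 76) (nat_lit 62669992213) (nat_lit 1) (nat_lit 4) (nat_lit 2) (nat_lit 5) (nat_lit 2) (nat_lit 4) (nat_lit 356) (nat_lit 220)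 (nat_lit 144))) (XT.nd (nat_lit 78) (nat_lit 0) (nat_lit 0) (XT.lf (nat_lit 0) (nat_lit 306876560546) (nat_lit 76) (nat_lit 74455599580) (nat_lit 76) (nat_lit 64394859842) (nat_lit 1) (nat_lit 4) (nat_lit 2) (nat_lit 5) (nat_lit 2) (nat_lit 4) (nat_lit 357) (nat_lit 220) (nat_lit 143)) (XT.lf (nat_lit 0) (nat_lit 325426198104) (nat_lit 76) (nat_lit 76282354174) (nat_lit 76) (nat_lit 66210156697) (nat_lit 1) (nat_lit 4) (nat_lit 2) (nat_lit 5) (nat_lit 2) (nat_lit 4) (nat_lit 358) (nat_lit 220) (nat_lit 142))))) (XT.nd (nat_lit 31278) (nat_lit 0) (nat_lit 836) (XT.nd (nat_lit 156) (nat_lit 0) (nat_lit 0) (XT.nd (nat_lit 78) (nat_lit 0) (nat_lit 0) (XT.lf (nat_lit 0) (nat_lit 344896659593) (nat_lit 76) (nat_lit 78203314524) (nat_lit 76) (nat_lit 68120204915) (nat_lit 1) (nat_lit 4) (nat_lit 2) (nat_lit 5) (nat_lit 2) (nat_lit 4) (nat_lit 359) (nat_lit 220) (nat_lit 141)) (XT.lf (nat_lit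 0) (nat_lit 365334303253) (nat_lit 76) (nat_lit 80223054344) (nat_lit 76) (nat_lit 70129552228) (nat_lit 1) (nat_lit 4) (nat_lit 2) (nat_lit 5) (nat_lit 2) (nat_lit 4) (nat_lit 360) (nat_lit 220) (nat_lit 140))) (XT.nd (nat_lit 31044) (nat_lit 0) (nat_lit 1140) (XT.lf (nat_lit 0) (nat_lit 386787790143) (nat_lit 76) (nat_lit 82346382539) (nat_lit 76) (nat_lit 72242982797) (nat_lit 1) (nat_lit 4) (nat_lit 2) (nat_lit 5) (nat_lit 2) (nat_lit 4) (nat_lit 361) (nat_lit 220) (nat_lit 139)) (XT.lf (nat_lit 0) (nat_lit 1904630396) (nat_lit 228) (nat_lit 2484742444) (nat_lit 0) (nat_lit 1904630396) (nat_lit 16) (nat_lit 5) (nat_lit 19) (nat_lit 4) (nat_lit 16) (nat_lit 4) (nat_lit 278) (nat_lit 221) (nat_lit 221)))) (XT.nd (nat_lit 156) (nat_lit 152) (nat_lit 0) (XT.nd (nat_lit 78) (nat_lit 0) (nat_lit 0) (XT.lf (nat_lit 0) (nat_lit 677274535) (nat_lit 152) (nat_lit 6481527540) (nat_lit 152)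 (nat_lit 5855459638) (nat_lit 14) (nat_lit 4) (nat_lit 16) (nat_lit 5) (nat_lit 16) (nat_lit 4) (nat_lit 279) (nat_lit 221) (nat_lit 220)) (XT.lf (nat_lit 0) (nat_lit 6587827277) (nat_lit 152) (nat_lit 4049323504) (nat_lit 152) (nat_lit 2827000457) (nat_lit 14) (nat_lit 4) (nat_lit 16) (nat_lit 5) (nat_lit 16) (nat_lit 4) (nat_lit 280) (nat_lit 221) (nat_lit 219))) (XT.nd (nat_lit 78) (nat_lit 76) (nat_lit 0) (XT.lf (nat_lit 0) (nat_lit 222330594) (nat_lit 228) (nat_lit 1334407371) (nat_lit 76) (nat_lit 12385836595) (nat_lit 13) (nat_lit 5) (nat_lit 16) (nat_lit 5) (nat_lit 14) (nat_lit 4) (nat_lit 281) (nat_lit 221) (nat_lit 218)) (XT.nd (nat_lit 78) (nat_lit 0) (nat_lit 0) (XT.lf (nat_lit 0) (nat_lit 3301715144) (nat_lit 152) (nat_lit 10060882908) (nat_lit 0) (nat_lit 1081709351) (nat_lit 12) (nat_lit 5) (nat_lit 14) (nat_lit 4) (nat_lit 12) (nat_lit 4) (nat_lit 282) (nat_lit 221)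 (nat_lit 217)) (XT.lf (nat_lit 0) (nat_lit 6471670493) (nat_lit 152) (nat_lit 4741821440) (nat_lit 0) (nat_lit 3761124116) (nat_lit 12) (nat_lit 5) (nat_lit 14) (nat_lit 4) (nat_lit 12) (nat_lit 4) (nat_lit 283) (nat_lit 221) (nat_lit 216))))))))
noncomputable def xc53 : XT := (XT.nd (nat_lit 1326) (nat_lit 228) (nat_lit 0) (XT.nd (nat_lit 624) (nat_lit 152) (nat_lit 0) (XT.nd (nat_lit 312) (nat_lit 76) (nat_lit 0) (XT.nd (nat_lit 156) (nat_lit 152) (nat_lit 0) (XT.nd (nat_lit 78) (nat_lit 0) (nat_lit 0) (XT.lf (nat_lit 0) (nat_lit 694557276) (nat_lit 152) (nat_lit 9009850290) (nat_lit 152) (nat_lit 5832122405) (nat_lit 10) (nat_lit 4) (nat_lit 12) (nat_lit 5) (nat_lit 12) (nat_lit 4) (nat_lit 284) (nat_lit 221) (nat_lit 215)) (XT.lf (nat_lit 0) (nat_lit 6399270171) (nat_lit 152) (nat_lit 6675705950) (nat_lit 152) (nat_lit 3053043295) (nat_lit 10) (nat_lit 4) (nat_lit 12) (nat_lit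 5) (nat_lit 12) (nat_lit 4) (nat_lit 285) (nat_lit 221) (nat_lit 214))) (XT.nd (nat_lit 78) (nat_lit 152) (nat_lit 0) (XT.lf (nat_lit 0) (nat_lit 12229113863) (nat_lit 152) (nat_lit 4285806468) (nat_lit 152) (nat_lit 239396414) (nat_lit 10) (nat_lit 4) (nat_lit 12) (nat_lit 5) (nat_lit 12) (nat_lit 4) (nat_lit 286) (nat_lit 221) (nat_lit 213)) (XT.lf (nat_lit 0) (nat_lit 764695256) (nat_lit 76) (nat_lit 1779048286) (nat_lit 152) (nat_lit 14870530870) (nat_lit 8) (nat_lit 5) (nat_lit 9) (nat_lit 5) (nat_lit 10) (nat_lit 4) (nat_lit 287) (nat_lit 221) (nat_lit 212)))) (XT.nd (nat_lit 156) (nat_lit 76) (nat_lit 0) (XT.nd (nat_lit 78) (nat_lit 0) (nat_lit 0) (XT.lf (nat_lit 0) (nat_lit 5454233931) (nat_lit 152) (nat_lit 11803116340) (nat_lit 0) (nat_lit 850109751) (nat_lit 8) (nat_lit 5) (nat_lit 10) (nat_lit 4) (nat_lit 8) (nat_lit 4) (nat_lit 288) (nat_lit 221) (nat_lit 211)) (XT.lf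 (nat_lit 0) (nat_lit 8448963488) (nat_lit 152) (nat_lit 6893411295) (nat_lit 0) (nat_lit 3496221274) (nat_lit 8) (nat_lit 5) (nat_lit 10) (nat_lit 4) (nat_lit 8) (nat_lit 4) (nat_lit 289) (nat_lit 221) (nat_lit 210))) (XT.nd (nat_lit 78) (nat_lit 76) (nat_lit 0) (XT.lf (nat_lit 0) (nat_lit 11507286593) (nat_lit 152) (nat_lit 1880998319) (nat_lit 0) (nat_lit 6222527204) (nat_lit 8) (nat_lit 5) (nat_lit 10) (nat_lit 4) (nat_lit 8) (nat_lit 4) (nat_lit 290) (nat_lit 221) (nat_lit 209)) (XT.lf (nat_lit 0) (nat_lit 3353386205) (nat_lit 76) (nat_lit 11335454519) (nat_lit 76) (nat_lit 5734488295) (nat_lit 7) (nat_lit 4) (nat_lit 8) (nat_lit 5) (nat_lit 8) (nat_lit 4) (nat_lit 291) (nat_lit 221) (nat_lit 208))))) (XT.nd (nat_lit 312) (nat_lit 0) (nat_lit 0) (XT.nd (nat_lit 156) (nat_lit 152) (nat_lit 0) (XT.nd (nat_lit 78) (nat_lit 0) (nat_lit 0) (XT.lf (nat_lit 0) (nat_lit 8781008770) (nat_lit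 76) (nat_lit 9200096470) (nat_lit 76) (nat_lit 3297980881) (nat_lit 7) (nat_lit 4) (nat_lit 8) (nat_lit 5) (nat_lit 8) (nat_lit 4) (nat_lit 292) (nat_lit 221) (nat_lit 207)) (XT.lf (nat_lit 0) (nat_lit 14352597986) (nat_lit 76) (nat_lit 7008982196) (nat_lit 76) (nat_lit 820057688) (nat_lit 7) (nat_lit 4) (nat_lit 8) (nat_lit 5) (nat_lit 8) (nat_lit 4) (nat_lit 293) (nat_lit 221) (nat_lit 206))) (XT.nd (nat_lit 78) (nat_lit 76) (nat_lit 0) (XT.lf (nat_lit 0) (nat_lit 1650604655) (nat_lit 152) (nat_lit 3078336315) (nat_lit 76) (nat_lit 18402861097) (nat_lit 6) (nat_lit 5) (nat_lit 8) (nat_lit 5) (nat_lit 7) (nat_lit 4) (nat_lit 294) (nat_lit 221) (nat_lit 205)) (XT.lf (nat_lit 0) (nat_lit 1837196355) (nat_lit 76) (nat_lit 2338128698) (nat_lit 152) (nat_lit 19955734269) (nat_lit 5) (nat_lit 5) (nat_lit 6) (nat_lit 5) (nat_lit 7) (nat_lit 4) (nat_lit 295) (nat_lit 221) (nat_lit 204))))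 (XT.nd (nat_lit 156) (nat_lit 0) (nat_lit 0) (XT.nd (nat_lit 78) (nat_lit 0) (nat_lit 0) (XT.lf (nat_lit 0) (nat_lit 6812171399) (nat_lit 152) (nat_lit 18194868405) (nat_lit 0) (nat_lit 174098700) (nat_lit 5) (nat_lit 5) (nat_lit 7) (nat_lit 4) (nat_lit 5) (nat_lit 4) (nat_lit 296) (nat_lit 221) (nat_lit 203)) (XT.lf (nat_lit 0) (nat_lit 9552726485) (nat_lit 152) (nat_lit 14042616593) (nat_lit 0) (nat_lit 2689931493) (nat_lit 5) (nat_lit 5) (nat_lit 7) (nat_lit 4) (nat_lit 5) (nat_lit 4) (nat_lit 297) (nat_lit 221) (nat_lit 202))) (XT.nd (nat_lit 78) (nat_lit 0) (nat_lit 0) (XT.lf (nat_lit 0) (nat_lit 12367010703) (nat_lit 152) (nat_lit 9790716474) (nat_lit 0) (nat_lit 5290194479) (nat_lit 5) (nat_lit 5) (nat_lit 7) (nat_lit 4) (nat_lit 5) (nat_lit 4) (nat_lit 298) (nat_lit 221) (nat_lit 201)) (XT.nd (nat_lit 78) (nat_lit 0) (nat_lit 0) (XT.lf (nat_lit 0) (nat_lit 15261724729) (nat_lit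 152) (nat_lit 5429044478) (nat_lit 0) (nat_lit 7981078761) (nat_lit 5) (nat_lit 5) (nat_lit 7) (nat_lit 4) (nat_lit 5) (nat_lit 4) (nat_lit 299) (nat_lit 221) (nat_lit 200)) (XT.lf (nat_lit 0) (nat_lit 18243760739) (nat_lit 152) (nat_lit 947215671) (nat_lit 0) (nat_lit 10768991204) (nat_lit 5) (nat_lit 5) (nat_lit 7) (nat_lit 4) (nat_lit 5) (nat_lit 4) (nat_lit 300) (nat_lit 221) (nat_lit 199))))))) (XT.nd (nat_lit 624) (nat_lit 76) (nat_lit 0) (XT.nd (nat_lit 312) (nat_lit 76) (nat_lit 0) (XT.nd (nat_lit 156) (nat_lit 0) (nat_lit 0) (XT.nd (nat_lit 78) (nat_lit 0) (nat_lit 0) (XT.lf (nat_lit 0) (nat_lit 3786636999) (nat_lit 76) (nat_lit 17592701834) (nat_lit 76) (nat_lit 9933052713) (nat_lit 4) (nat_lit 4) (nat_lit 5) (nat_lit 5) (nat_lit 5) (nat_lit 4) (nat_lit 301) (nat_lit 221) (nat_lit 198)) (XT.lf (nat_lit 0) (nat_lit 8698308137) (nat_lit 76) (nat_lit 15935920698) (nat_lit 76)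 (nat_lit 8100195780) (nat_lit 4) (nat_lit 4) (nat_lit 5) (nat_lit 5) (nat_lit 5) (nat_lit 4) (nat_lit 302) (nat_lit 221) (nat_lit 197))) (XT.nd (nat_lit 78) (nat_lit 0) (nat_lit 0) (XT.lf (nat_lit 0) (nat_lit 13768172968) (nat_lit 76) (nat_lit 14232729841) (nat_lit 76) (nat_lit 6229313688) (nat_lit 4) (nat_lit 4) (nat_lit 5) (nat_lit 5) (nat_lit 5) (nat_lit 4) (nat_lit 303) (nat_lit 221) (nat_lit 196)) (XT.lf (nat_lit 0) (nat_lit 19008302599) (nat_lit 76) (nat_lit 12479074046) (nat_lit 76) (nat_lit 4315951955) (nat_lit 4) (nat_lit 4) (nat_lit 5) (nat_lit 5) (nat_lit 5) (nat_lit 4) (nat_lit 304) (nat_lit 221) (nat_lit 195)))) (XT.nd (nat_lit 156) (nat_lit 76) (nat_lit 0) (XT.nd (nat_lit 78) (nat_lit 0) (nat_lit 0) (XT.lf (nat_lit 0) (nat_lit 24431173529) (nat_lit 76) (nat_lit 10670777942) (nat_lit 76) (nat_lit 2355554957) (nat_lit 4) (nat_lit 4) (nat_lit 5) (nat_lit 5) (nat_lit 5) (nat_lit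 4) (nat_lit 305) (nat_lit 221) (nat_lit 194)) (XT.lf (nat_lit 0) (nat_lit 30049697356) (nat_lit 76) (nat_lit 8803536063) (nat_lit 76) (nat_lit 343455084) (nat_lit 4) (nat_lit 4) (nat_lit 5) (nat_lit 5) (nat_lit 5) (nat_lit 4) (nat_lit 306) (nat_lit 221) (nat_lit 193))) (XT.nd (nat_lit 78) (nat_lit 0) (nat_lit 0) (XT.lf (nat_lit 0) (nat_lit 1669923177) (nat_lit 152) (nat_lit 5174698459) (nat_lit 76) (nat_lit 34179047383) (nat_lit 3) (nat_lit 5) (nat_lit 5) (nat_lit 5) (nat_lit 4) (nat_lit 4) (nat_lit 307) (nat_lit 221) (nat_lit 192)) (XT.lf (nat_lit 0) (nat_lit 3731761758) (nat_lit 152) (nat_lit 1079319839) (nat_lit 76) (nat_lit 38132750193) (nat_lit 3) (nat_lit 5) (nat_lit 5) (nat_lit 5) (nat_lit 4) (nat_lit 4) (nat_lit 308) (nat_lit 221) (nat_lit 191))))) (XT.nd (nat_lit 312) (nat_lit 0) (nat_lit 0) (XT.nd (nat_lit 156) (nat_lit 0) (nat_lit 0) (XT.nd (nat_lit 78) (nat_lit 0) (nat_lit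 0) (XT.lf (nat_lit 0) (nat_lit 3258551922) (nat_lit 76) (nat_lit 2650285710) (nat_lit 152) (nat_lit 39050635357) (nat_lit 2) (nat_lit 5) (nat_lit 3) (nat_lit 5) (nat_lit 4) (nat_lit 4) (nat_lit 309) (nat_lit 221) (nat_lit 190)) (XT.lf (nat_lit 0) (nat_lit 7785292725) (nat_lit 76) (nat_lit 389845314) (nat_lit 152) (nat_lit 38901813539) (nat_lit 2) (nat_lit 5) (nat_lit 3) (nat_lit 5) (nat_lit 4) (nat_lit 4) (nat_lit 310) (nat_lit 221) (nat_lit 189))) (XT.nd (nat_lit 78) (nat_lit 0) (nat_lit 0) (XT.lf (nat_lit 0) (nat_lit 10549210152) (nat_lit 152) (nat_lit 36856745859) (nat_lit 0) (nat_lit 1894695596) (nat_lit 2) (nat_lit 5) (nat_lit 4) (nat_lit 4) (nat_lit 2) (nat_lit 4) (nat_lit 311) (nat_lit 221) (nat_lit 188)) (XT.lf (nat_lit 0) (nat_lit 13013602363) (nat_lit 152) (nat_lit 34367280514) (nat_lit 0) (nat_lit 4256139935) (nat_lit 2) (nat_lit 5) (nat_lit 4) (nat_lit 4) (nat_lit 2) (nat_lit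 4) (nat_lit 312) (nat_lit 221) (nat_lit 187)))) (XT.nd (nat_lit 156) (nat_lit 0) (nat_lit 0) (XT.nd (nat_lit 78) (nat_lit 0) (nat_lit 0) (XT.lf (nat_lit 0) (nat_lit 15568095695) (nat_lit 152) (nat_lit 31811248941) (nat_lit 0) (nat_lit 6712587674) (nat_lit 2) (nat_lit 5) (nat_lit 4) (nat_lit 4) (nat_lit 2) (nat_lit 4) (nat_lit 313) (nat_lit 221) (nat_lit 186)) (XT.lf (nat_lit 0) (nat_lit 18218772273) (nat_lit 152) (nat_lit 29182565350) (nat_lit 0) (nat_lit 9269887498) (nat_lit 2) (nat_lit 5) (nat_lit 4) (nat_lit 4) (nat_lit 2) (nat_lit 4) (nat_lit 314) (nat_lit 221) (nat_lit 185))) (XT.nd (nat_lit 78) (nat_lit 0) (nat_lit 0) (XT.lf (nat_lit 0) (nat_lit 20971943234) (nat_lit 152) (nat_lit 26474970972) (nat_lit 0) (nat_lit 11934128217) (nat_lit 2) (nat_lit 5) (nat_lit 4) (nat_lit 4) (nat_lit 2) (nat_lit 4) (nat_lit 315) (nat_lit 221) (nat_lit 184)) (XT.nd (nat_lit 78) (nat_lit 0) (nat_lit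 0) (XT.lf (nat_lit 0) (nat_lit 23834163745) (nat_lit 152) (nat_lit 23682019152) (nat_lit 0) (nat_lit 14711653259) (nat_lit 2) (nat_lit 5) (nat_lit 4) (nat_lit 4) (nat_lit 2) (nat_lit 4) (nat_lit 316) (nat_lit 221) (nat_lit 183)) (XT.lf (nat_lit 0) (nat_lit 26812248619) (nat_lit 152) (nat_lit 20797060006) (nat_lit 0) (nat_lit 17609075781) (nat_lit 2) (nat_lit 5) (nat_lit 4) (nat_lit 4) (nat_lit 2) (nat_lit 4) (nat_lit 317) (nat_lit 221) (nat_lit 182))))))))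
noncomputable def xc54 : XT := (XT.nd (nat_lit 1326) (nat_lit 0) (nat_lit 0) (XT.nd (nat_lit 624) (nat_lit 0) (nat_lit 0) (XT.nd (nat_lit 312) (nat_lit 76) (nat_lit 0) (XT.nd (nat_lit 156) (nat_lit 0) (nat_lit 0) (XT.nd (nat_lit 78) (nat_lit 0) (nat_lit 0) (XT.lf (nat_lit 0) (nat_lit 29913288532) (nat_lit 152) (nat_lit 17813224583) (nat_lit 0) (nat_lit 20633294407) (nat_lit 2) (nat_lit 5) (nat_lit 4) (nat_lit 4) (nat_lit 2) (nat_lit 4) (nat_lit 318) (nat_lit 221) (nat_lit 181)) (XT.lf (nat_lit 0) (nat_lit 33144666913) (nat_lit 152) (nat_lit 14723408513) (nat_lit 0) (nat_lit 23791509659) (nat_lit 2) (nat_lit 5) (nat_lit 4) (nat_lit 4) (nat_lit 2) (nat_lit 4) (nat_lit 319) (nat_lit 221) (nat_lit 180))) (XT.nd (nat_lit 78) (nat_lit 0) (nat_lit 0) (XT.lf (nat_lit 0) (nat_lit 36514077521) (nat_lit 152) (nat_lit 11520255091) (nat_lit 0) (nat_lit 27091241095) (nat_lit 2) (nat_lit 5) (nat_lit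 4) (nat_lit 4) (nat_lit 2) (nat_lit 4) (nat_lit 320) (nat_lit 221) (nat_lit 179)) (XT.lf (nat_lit 0) (nat_lit 40029542762) (nat_lit 152) (nat_lit 8196137762) (nat_lit 0) (nat_lit 30540345219) (nat_lit 2) (nat_lit 5) (nat_lit 4) (nat_lit 4) (nat_lit 2) (nat_lit 4) (nat_lit 321) (nat_lit 221) (nat_lit 178)))) (XT.nd (nat_lit 156) (nat_lit 76) (nat_lit 0) (XT.nd (nat_lit 78) (nat_lit 0) (nat_lit 0) (XT.lf (nat_lit 0) (nat_lit 43699432790) (nat_lit 152) (nat_lit 4743141960) (nat_lit 0) (nat_lit 34147034185) (nat_lit 2) (nat_lit 5) (nat_lit 4) (nat_lit 4) (nat_lit 2) (nat_lit 4) (nat_lit 322) (nat_lit 221) (nat_lit 177)) (XT.lf (nat_lit 0) (nat_lit 47532485440) (nat_lit 152) (nat_lit 1153046267) (nat_lit 0) (nat_lit 37919895346) (nat_lit 2) (nat_lit 5) (nat_lit 4) (nat_lit 4) (nat_lit 2) (nat_lit 4) (nat_lit 323) (nat_lit 221) (nat_lit 176))) (XT.nd (nat_lit 78) (nat_lit 0) (nat_lit 0)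 (XT.lf (nat_lit 0) (nat_lit 2668092796) (nat_lit 76) (nat_lit 48911390636) (nat_lit 76) (nat_lit 39241475315) (nat_lit 1) (nat_lit 4) (nat_lit 2) (nat_lit 5) (nat_lit 2) (nat_lit 4) (nat_lit 324) (nat_lit 221) (nat_lit 175)) (XT.lf (nat_lit 0) (nat_lit 6687009010) (nat_lit 76) (nat_lit 49142388019) (nat_lit 76) (nat_lit 39417877243) (nat_lit 1) (nat_lit 4) (nat_lit 2) (nat_lit 5) (nat_lit 2) (nat_lit 4) (nat_lit 325) (nat_lit 221) (nat_lit 174))))) (XT.nd (nat_lit 312) (nat_lit 0) (nat_lit 0) (XT.nd (nat_lit 156) (nat_lit 0) (nat_lit 0) (XT.nd (nat_lit 78) (nat_lit 0) (nat_lit 0) (XT.lf (nat_lit 0) (nat_lit 10875146306) (nat_lit 76) (nat_lit 49398601245) (nat_lit 76) (nat_lit 39622094798) (nat_lit 1) (nat_lit 4) (nat_lit 2) (nat_lit 5) (nat_lit 2) (nat_lit 4) (nat_lit 326) (nat_lit 221) (nat_lit 173)) (XT.lf (nat_lit 0) (nat_lit 15242476440) (nat_lit 76) (nat_lit 49680640346) (nat_lit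 76) (nat_lit 39854614213) (nat_lit 1) (nat_lit 4) (nat_lit 2) (nat_lit 5) (nat_lit 2) (nat_lit 4) (nat_lit 327) (nat_lit 221) (nat_lit 172))) (XT.nd (nat_lit 78) (nat_lit 0) (nat_lit 0) (XT.lf (nat_lit 0) (nat_lit 19799397816) (nat_lit 76) (nat_lit 49989176844) (nat_lit 76) (nat_lit 40115989104) (nat_lit 1) (nat_lit 4) (nat_lit 2) (nat_lit 5) (nat_lit 2) (nat_lit 4) (nat_lit 328) (nat_lit 221) (nat_lit 171)) (XT.lf (nat_lit 0) (nat_lit 24556760247) (nat_lit 76) (nat_lit 50324945348) (nat_lit 76) (nat_lit 40406841794) (nat_lit 1) (nat_lit 4) (nat_lit 2) (nat_lit 5) (nat_lit 2) (nat_lit 4) (nat_lit 329) (nat_lit 221) (nat_lit 170)))) (XT.nd (nat_lit 156) (nat_lit 0) (nat_lit 0) (XT.nd (nat_lit 78) (nat_lit 0) (nat_lit 0) (XT.lf (nat_lit 0) (nat_lit 29525890787) (nat_lit 76) (nat_lit 50688745309) (nat_lit 76) (nat_lit 40727864788) (nat_lit 1) (nat_lit 4) (nat_lit 2) (nat_lit 5) (nat_lit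 2) (nat_lit 4) (nat_lit 330) (nat_lit 221) (nat_lit 169)) (XT.lf (nat_lit 0) (nat_lit 34718620700) (nat_lit 76) (nat_lit 51081442917) (nat_lit 76) (nat_lit 41079822426) (nat_lit 1) (nat_lit 4) (nat_lit 2) (nat_lit 5) (nat_lit 2) (nat_lit 4) (nat_lit 331) (nat_lit 221) (nat_lit 168))) (XT.nd (nat_lit 78) (nat_lit 0) (nat_lit 0) (XT.lf (nat_lit 0) (nat_lit 40147313626) (nat_lit 76) (nat_lit 51503973165) (nat_lit 76) (nat_lit 41463552705) (nat_lit 1) (nat_lit 4) (nat_lit 2) (nat_lit 5) (nat_lit 2) (nat_lit 4) (nat_lit 332) (nat_lit 221) (nat_lit 167)) (XT.nd (nat_lit 78) (nat_lit 0) (nat_lit 0) (XT.lf (nat_lit 0) (nat_lit 45824895027) (nat_lit 76) (nat_lit 51957342079) (nat_lit 76) (nat_lit 41879969266) (nat_lit 1) (nat_lit 4) (nat_lit 2) (nat_lit 5) (nat_lit 2) (nat_lit 4) (nat_lit 333) (nat_lit 221) (nat_lit 166)) (XT.lf (nat_lit 0) (nat_lit 51764882953) (nat_lit 76) (nat_lit 52442629108)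 (nat_lit 76) (nat_lit 42330063578) (nat_lit 1) (nat_lit 4) (nat_lit 2) (nat_lit 5) (nat_lit 2) (nat_lit 4) (nat_lit 334) (nat_lit 221) (nat_lit 165))))))) (XT.nd (nat_lit 624) (nat_lit 0) (nat_lit 0) (XT.nd (nat_lit 312) (nat_lit 0) (nat_lit 0) (XT.nd (nat_lit 156) (nat_lit 0) (nat_lit 0) (XT.nd (nat_lit 78) (nat_lit 0) (nat_lit 0) (XT.lf (nat_lit 0) (nat_lit 57981420232) (nat_lit 76) (nat_lit 52960989696) (nat_lit 76) (nat_lit 42814907293) (nat_lit 1) (nat_lit 4) (nat_lit 2) (nat_lit 5) (nat_lit 2) (nat_lit 4) (nat_lit 335) (nat_lit 221) (nat_lit 164)) (XT.lf (nat_lit 0) (nat_lit 64489308143) (nat_lit 76) (nat_lit 53513658038) (nat_lit 76) (nat_lit 43335654803) (nat_lit 1) (nat_lit 4) (nat_lit 2) (nat_lit 5) (nat_lit 2) (nat_lit 4) (nat_lit 336) (nat_lit 221) (nat_lit 163))) (XT.nd (nat_lit 78) (nat_lit 0) (nat_lit 0) (XT.lf (nat_lit 0) (nat_lit 71304041658) (nat_lit 76) (nat_lit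 54101950008) (nat_lit 76) (nat_lit 43893545981) (nat_lit 1) (nat_lit 4) (nat_lit 2) (nat_lit 5) (nat_lit 2) (nat_lit 4) (nat_lit 337) (nat_lit 221) (nat_lit 162)) (XT.lf (nat_lit 0) (nat_lit 78441846333) (nat_lit 76) (nat_lit 54727266302) (nat_lit 76) (nat_lit 44489909141) (nat_lit 1) (nat_lit 4) (nat_lit 2) (nat_lit 5) (nat_lit 2) (nat_lit 4) (nat_lit 338) (nat_lit 221) (nat_lit 161)))) (XT.nd (nat_lit 156) (nat_lit 0) (nat_lit 0) (XT.nd (nat_lit 78) (nat_lit 0) (nat_lit 0) (XT.lf (nat_lit 0) (nat_lit 85919716941) (nat_lit 76) (nat_lit 55391095770) (nat_lit 76) (nat_lit 45126164194) (nat_lit 1) (nat_lit 4) (nat_lit 2) (nat_lit 5) (nat_lit 2) (nat_lit 4) (nat_lit 339) (nat_lit 221) (nat_lit 160)) (XT.lf (nat_lit 0) (nat_lit 93755457935) (nat_lit 76) (nat_lit 56095018956) (nat_lit 76) (nat_lit 45803826033) (nat_lit 1) (nat_lit 4) (nat_lit 2) (nat_lit 5) (nat_lit 2) (nat_lit 4) (nat_lit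 340) (nat_lit 221) (nat_lit 159))) (XT.nd (nat_lit 78) (nat_lit 0) (nat_lit 0) (XT.lf (nat_lit 0) (nat_lit 101967725842) (nat_lit 76) (nat_lit 56840711869) (nat_lit 76) (nat_lit 46524508140) (nat_lit 1) (nat_lit 4) (nat_lit 2) (nat_lit 5) (nat_lit 2) (nat_lit 4) (nat_lit 341) (nat_lit 221) (nat_lit 158)) (XT.lf (nat_lit 0) (nat_lit 110576073680) (nat_lit 76) (nat_lit 57629949968) (nat_lit 76) (nat_lit 47289926423) (nat_lit 1) (nat_lit 4) (nat_lit 2) (nat_lit 5) (nat_lit 2) (nat_lit 4) (nat_lit 342) (nat_lit 221) (nat_lit 157))))) (XT.nd (nat_lit 312) (nat_lit 0) (nat_lit 0) (XT.nd (nat_lit 156) (nat_lit 0) (nat_lit 0) (XT.nd (nat_lit 78) (nat_lit 0) (nat_lit 0) (XT.lf (nat_lit 0) (nat_lit 119600997517) (nat_lit 76) (nat_lit 58464612391) (nat_lit 76) (nat_lit 48101903307) (nat_lit 1) (nat_lit 4) (nat_lit 2) (nat_lit 5) (nat_lit 2) (nat_lit 4) (nat_lit 343) (nat_lit 221) (nat_lit 156))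 (XT.lf (nat_lit 0) (nat_lit 129063985265) (nat_lit 76) (nat_lit 59346686430) (nat_lit 76) (nat_lit 48962372071) (nat_lit 1) (nat_lit 4) (nat_lit 2) (nat_lit 5) (nat_lit 2) (nat_lit 4) (nat_lit 344) (nat_lit 221) (nat_lit 155))) (XT.nd (nat_lit 78) (nat_lit 0) (nat_lit 0) (XT.lf (nat_lit 0) (nat_lit 138987567848) (nat_lit 76) (nat_lit 60278272261) (nat_lit 76) (nat_lit 49873381449) (nat_lit 1) (nat_lit 4) (nat_lit 2) (nat_lit 5) (nat_lit 2) (nat_lit 4) (nat_lit 345) (nat_lit 221) (nat_lit 154)) (XT.lf (nat_lit 0) (nat_lit 149395372844) (nat_lit 76) (nat_lit 61261587946) (nat_lit 76) (nat_lit 50837100512) (nat_lit 1) (nat_lit 4) (nat_lit 2) (nat_lit 5) (nat_lit 2) (nat_lit 4) (nat_lit 346) (nat_lit 221) (nat_lit 153)))) (XT.nd (nat_lit 156) (nat_lit 0) (nat_lit 0) (XT.nd (nat_lit 78) (nat_lit 0) (nat_lit 0) (XT.lf (nat_lit 0) (nat_lit 160312180740) (nat_lit 76) (nat_lit 62298974712)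 (nat_lit 76) (nat_lit 51855823829) (nat_lit 1) (nat_lit 4) (nat_lit 2) (nat_lit 5) (nat_lit 2) (nat_lit 4) (nat_lit 347) (nat_lit 221) (nat_lit 152)) (XT.lf (nat_lit 0) (nat_lit 171763983937) (nat_lit 76) (nat_lit 63392902528) (nat_lit 76) (nat_lit 52931976931) (nat_lit 1) (nat_lit 4) (nat_lit 2) (nat_lit 5) (nat_lit 2) (nat_lit 4) (nat_lit 348) (nat_lit 221) (nat_lit 151))) (XT.nd (nat_lit 78) (nat_lit 0) (nat_lit 0) (XT.lf (nat_lit 0) (nat_lit 183778048632) (nat_lit 76) (nat_lit 64545975983) (nat_lit 76) (nat_lit 54068122089) (nat_lit 1) (nat_lit 4) (nat_lit 2) (nat_lit 5) (nat_lit 2) (nat_lit 4) (nat_lit 349) (nat_lit 221) (nat_lit 150)) (XT.nd (nat_lit 78) (nat_lit 0) (nat_lit 0) (XT.lf (nat_lit 0) (nat_lit 196382979742) (nat_lit 76) (nat_lit 65760940492) (nat_lit 76) (nat_lit 55266964408) (nat_lit 1) (nat_lit 4) (nat_lit 2) (nat_lit 5) (nat_lit 2) (nat_lit 4) (nat_lit 350) (nat_lit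 221) (nat_lit 149)) (XT.lf (nat_lit 0) (nat_lit 209608789007) (nat_lit 76) (nat_lit 67040688826) (nat_lit 76) (nat_lit 56531358277) (nat_lit 1) (nat_lit 4) (nat_lit 2) (nat_lit 5) (nat_lit 2) (nat_lit 4) (nat_lit 351) (nat_lit 221) (nat_lit 148))))))))
noncomputable def xc55 : XT := (XT.nd (nat_lit 32136) (nat_lit 0) (nat_lit 304) (XT.nd (nat_lit 624) (nat_lit 0) (nat_lit 0) (XT.nd (nat_lit 312) (nat_lit 0) (nat_lit 0) (XT.nd (nat_lit 156) (nat_lit 0) (nat_lit 0) (XT.nd (nat_lit 78) (nat_lit 0) (nat_lit 0) (XT.lf (nat_lit 0) (nat_lit 223486966449) (nat_lit 76) (nat_lit 68388268005) (nat_lit 76) (nat_lit 57864314155) (nat_lit 1) (nat_lit 4) (nat_lit 2) (nat_lit 5) (nat_lit 2) (nat_lit 4) (nat_lit 352) (nat_lit 221) (nat_lit 147)) (XT.lf (nat_lit 0) (nat_lit 238050555348) (nat_lit 76) (nat_lit 69806886552) (nat_lit 76) (nat_lit 59269005749) (nat_lit 1) (nat_lit 4) (nat_lit 2) (nat_lit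 5) (nat_lit 2) (nat_lit 4) (nat_lit 353) (nat_lit 221) (nat_lit 146))) (XT.nd (nat_lit 78) (nat_lit 0) (nat_lit 0) (XT.lf (nat_lit 0) (nat_lit 253334230916) (nat_lit 76) (nat_lit 71299922129) (nat_lit 76) (nat_lit 60748777561) (nat_lit 1) (nat_lit 4) (nat_lit 2) (nat_lit 5) (nat_lit 2) (nat_lit 4) (nat_lit 354) (nat_lit 221) (nat_lit 145)) (XT.lf (nat_lit 0) (nat_lit 269374382855) (nat_lit 76) (nat_lit 72870929583) (nat_lit 76) (nat_lit 62307152858) (nat_lit 1) (nat_lit 4) (nat_lit 2) (nat_lit 5) (nat_lit 2) (nat_lit 4) (nat_lit 355) (nat_lit 221) (nat_lit 144)))) (XT.nd (nat_lit 156) (nat_lit 0) (nat_lit 0) (XT.nd (nat_lit 78) (nat_lit 0) (nat_lit 0) (XT.lf (nat_lit 0) (nat_lit 286209202005) (nat_lit 76) (nat_lit 74523649408) (nat_lit 76) (nat_lit 63947842058) (nat_lit 1) (nat_lit 4) (nat_lit 2) (nat_lit 5) (nat_lit 2) (nat_lit 4) (nat_lit 356) (nat_lit 221) (nat_lit 143)) (XT.lf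 (nat_lit 0) (nat_lit 303878771268) (nat_lit 76) (nat_lit 76262016652) (nat_lit 76) (nat_lit 65674751562) (nat_lit 1) (nat_lit 4) (nat_lit 2) (nat_lit 5) (nat_lit 2) (nat_lit 4) (nat_lit 357) (nat_lit 221) (nat_lit 142))) (XT.nd (nat_lit 78) (nat_lit 0) (nat_lit 0) (XT.lf (nat_lit 0) (nat_lit 322425161047) (nat_lit 76) (nat_lit 78090170283) (nat_lit 76) (nat_lit 67491993061) (nat_lit 1) (nat_lit 4) (nat_lit 2) (nat_lit 5) (nat_lit 2) (nat_lit 4) (nat_lit 358) (nat_lit 221) (nat_lit 141)) (XT.lf (nat_lit 0) (nat_lit 341892529413) (nat_lit 76) (nat_lit 80012463048) (nat_lit 76) (nat_lit 69403893320) (nat_lit 1) (nat_lit 4) (nat_lit 2) (nat_lit 5) (nat_lit 2) (nat_lit 4) (nat_lit 359) (nat_lit 221) (nat_lit 140))))) (XT.nd (nat_lit 31122) (nat_lit 0) (nat_lit 836) (XT.nd (nat_lit 30966) (nat_lit 0) (nat_lit 1140) (XT.nd (nat_lit 78) (nat_lit 0) (nat_lit 0) (XT.lf (nat_lit 0) (nat_lit 362327227242)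 (nat_lit 76) (nat_lit 82033471836) (nat_lit 76) (nat_lit 71415004482) (nat_lit 1) (nat_lit 4) (nat_lit 2) (nat_lit 5) (nat_lit 2) (nat_lit 4) (nat_lit 360) (nat_lit 221) (nat_lit 139)) (XT.lf (nat_lit 0) (nat_lit 383777908578) (nat_lit 76) (nat_lit 84158008571) (nat_lit 76) (nat_lit 73530114908) (nat_lit 1) (nat_lit 4) (nat_lit 2) (nat_lit 5) (nat_lit 2) (nat_lit 4) (nat_lit 361) (nat_lit 221) (nat_lit 138))) (XT.nd (nat_lit 78) (nat_lit 228) (nat_lit 0) (XT.lf (nat_lit 0) (nat_lit 3897483230) (nat_lit 152) (nat_lit 1002195787) (nat_lit 152) (nat_lit 1002195787) (nat_lit 19) (nat_lit 4) (nat_lit 21) (nat_lit 5) (nat_lit 21) (nat_lit 4) (nat_lit 276) (nat_lit 222) (nat_lit 222)) (XT.lf (nat_lit 0) (nat_lit 1166816320) (nat_lit 228) (nat_lit 10511664621) (nat_lit 0) (nat_lit 509445022) (nat_lit 16) (nat_lit 5) (nat_lit 19) (nat_lit 4) (nat_lit 16) (nat_lit 4) (nat_lit 277) (nat_lit 222)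 (nat_lit 221)))) (XT.nd (nat_lit 156) (nat_lit 152) (nat_lit 0) (XT.nd (nat_lit 78) (nat_lit 152) (nat_lit 0) (XT.lf (nat_lit 0) (nat_lit 4405247003) (nat_lit 228) (nat_lit 5064219673) (nat_lit 0) (nat_lit 3121807803) (nat_lit 16) (nat_lit 5) (nat_lit 19) (nat_lit 4) (nat_lit 16) (nat_lit 4) (nat_lit 278) (nat_lit 222) (nat_lit 220)) (XT.lf (nat_lit 0) (nat_lit 486200586) (nat_lit 152) (nat_lit 7207142512) (nat_lit 152) (nat_lit 5327448168) (nat_lit 14) (nat_lit 4) (nat_lit 16) (nat_lit 5) (nat_lit 16) (nat_lit 4) (nat_lit 279) (nat_lit 222) (nat_lit 219))) (XT.nd (nat_lit 78) (nat_lit 152) (nat_lit 0) (XT.lf (nat_lit 0) (nat_lit 6307984943) (nat_lit 152) (nat_lit 4806642854) (nat_lit 152) (nat_lit 2359086467) (nat_lit 14) (nat_lit 4) (nat_lit 16) (nat_lit 5) (nat_lit 16) (nat_lit 4) (nat_lit 280) (nat_lit 222) (nat_lit 218)) (XT.nd (nat_lit 78) (nat_lit 76) (nat_lit 0) (XT.lf (nat_lit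 0) (nat_lit 619864618) (nat_lit 228) (nat_lit 1717654913) (nat_lit 76) (nat_lit 11617186487) (nat_lit 13) (nat_lit 5) (nat_lit 16) (nat_lit 5) (nat_lit 14) (nat_lit 4) (nat_lit 281) (nat_lit 222) (nat_lit 217)) (XT.lf (nat_lit 0) (nat_lit 3626196706) (nat_lit 152) (nat_lit 10544468078) (nat_lit 0) (nat_lit 289582427) (nat_lit 12) (nat_lit 5) (nat_lit 14) (nat_lit 4) (nat_lit 12) (nat_lit 4) (nat_lit 282) (nat_lit 222) (nat_lit 216))))))) (XT.nd (nat_lit 624) (nat_lit 228) (nat_lit 0) (XT.nd (nat_lit 312) (nat_lit 152) (nat_lit 0) (XT.nd (nat_lit 156) (nat_lit 0) (nat_lit 0) (XT.nd (nat_lit 78) (nat_lit 152) (nat_lit 0) (XT.lf (nat_lit 0) (nat_lit 6744171553) (nat_lit 152) (nat_lit 5308755876) (nat_lit 0) (nat_lit 2940375766) (nat_lit 12) (nat_lit 5) (nat_lit 14) (nat_lit 4) (nat_lit 12) (nat_lit 4) (nat_lit 283) (nat_lit 222) (nat_lit 215)) (XT.lf (nat_lit 0) (nat_lit 26872505) (nat_lit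 152) (nat_lit 9890106450) (nat_lit 152) (nat_lit 5641375893) (nat_lit 10) (nat_lit 4) (nat_lit 12) (nat_lit 5) (nat_lit 12) (nat_lit 4) (nat_lit 284) (nat_lit 222) (nat_lit 214))) (XT.nd (nat_lit 78) (nat_lit 0) (nat_lit 0) (XT.lf (nat_lit 0) (nat_lit 5653485474) (nat_lit 152) (nat_lit 7585694829) (nat_lit 152) (nat_lit 2913216873) (nat_lit 10) (nat_lit 4) (nat_lit 12) (nat_lit 5) (nat_lit 12) (nat_lit 4) (nat_lit 285) (nat_lit 222) (nat_lit 213)) (XT.lf (nat_lit 0) (nat_lit 11408948284) (nat_lit 152) (nat_lit 5224112224) (nat_lit 152) (nat_lit 148065315) (nat_lit 10) (nat_lit 4) (nat_lit 12) (nat_lit 5) (nat_lit 12) (nat_lit 4) (nat_lit 286) (nat_lit 222) (nat_lit 212)))) (XT.nd (nat_lit 156) (nat_lit 0) (nat_lit 0) (XT.nd (nat_lit 78) (nat_lit 76) (nat_lit 0) (XT.lf (nat_lit 0) (nat_lit 2575504658) (nat_lit 228) (nat_lit 180613740) (nat_lit 76) (nat_lit 14687842341) (nat_lit 9) (nat_lit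 5) (nat_lit 12) (nat_lit 5) (nat_lit 10) (nat_lit 4) (nat_lit 287) (nat_lit 222) (nat_lit 211)) (XT.lf (nat_lit 0) (nat_lit 5296194697) (nat_lit 76) (nat_lit 129484290) (nat_lit 152) (nat_lit 12714593838) (nat_lit 8) (nat_lit 5) (nat_lit 9) (nat_lit 5) (nat_lit 10) (nat_lit 4) (nat_lit 288) (nat_lit 222) (nat_lit 210))) (XT.nd (nat_lit 78) (nat_lit 0) (nat_lit 0) (XT.lf (nat_lit 0) (nat_lit 8376365990) (nat_lit 152) (nat_lit 8001998944) (nat_lit 0) (nat_lit 2495351456) (nat_lit 8) (nat_lit 5) (nat_lit 10) (nat_lit 4) (nat_lit 8) (nat_lit 4) (nat_lit 289) (nat_lit 222) (nat_lit 209)) (XT.lf (nat_lit 0) (nat_lit 11394669151) (nat_lit 152) (nat_lit 3055916895) (nat_lit 0) (nat_lit 5197447783) (nat_lit 8) (nat_lit 5) (nat_lit 10) (nat_lit 4) (nat_lit 8) (nat_lit 4) (nat_lit 290) (nat_lit 222) (nat_lit 208))))) (XT.nd (nat_lit 312) (nat_lit 76) (nat_lit 0) (XT.nd (nat_lit 156) (nat_lit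 76) (nat_lit 0) (XT.nd (nat_lit 78) (nat_lit 0) (nat_lit 0) (XT.lf (nat_lit 0) (nat_lit 2074358441) (nat_lit 76) (nat_lit 12443781401) (nat_lit 76) (nat_lit 5945410667) (nat_lit 7) (nat_lit 4) (nat_lit 8) (nat_lit 5) (nat_lit 8) (nat_lit 4) (nat_lit 291) (nat_lit 222) (nat_lit 207)) (XT.lf (nat_lit 0) (nat_lit 7439827602) (nat_lit 76) (nat_lit 10333307097) (nat_lit 76) (nat_lit 3548127444) (nat_lit 7) (nat_lit 4) (nat_lit 8) (nat_lit 5) (nat_lit 8) (nat_lit 4) (nat_lit 292) (nat_lit 222) (nat_lit 206))) (XT.nd (nat_lit 78) (nat_lit 76) (nat_lit 0) (XT.lf (nat_lit 0) (nat_lit 12952223100) (nat_lit 76) (nat_lit 8165891629) (nat_lit 76) (nat_lit 1107560623) (nat_lit 7) (nat_lit 4) (nat_lit 8) (nat_lit 5) (nat_lit 8) (nat_lit 4) (nat_lit 293) (nat_lit 222) (nat_lit 205)) (XT.lf (nat_lit 0) (nat_lit 1337864814) (nat_lit 152) (nat_lit 4575852281) (nat_lit 76) (nat_lit 17264147484) (nat_lit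 6) (nat_lit 5) (nat_lit 8) (nat_lit 5) (nat_lit 7) (nat_lit 4) (nat_lit 294) (nat_lit 222) (nat_lit 204)))) (XT.nd (nat_lit 156) (nat_lit 0) (nat_lit 0) (XT.nd (nat_lit 78) (nat_lit 0) (nat_lit 0) (XT.lf (nat_lit 0) (nat_lit 233502333) (nat_lit 76) (nat_lit 3571245867) (nat_lit 152) (nat_lit 20375340392) (nat_lit 5) (nat_lit 5) (nat_lit 6) (nat_lit 5) (nat_lit 7) (nat_lit 4) (nat_lit 295) (nat_lit 222) (nat_lit 203)) (XT.lf (nat_lit 0) (nat_lit 5331559365) (nat_lit 76) (nat_lit 1075147586) (nat_lit 152) (nat_lit 18825276542) (nat_lit 5) (nat_lit 5) (nat_lit 6) (nat_lit 5) (nat_lit 7) (nat_lit 4) (nat_lit 296) (nat_lit 222) (nat_lit 202))) (XT.nd (nat_lit 78) (nat_lit 0) (nat_lit 0) (XT.lf (nat_lit 0) (nat_lit 9099598594) (nat_lit 152) (nat_lit 15784051754) (nat_lit 0) (nat_lit 1454920328) (nat_lit 5) (nat_lit 5) (nat_lit 7) (nat_lit 4) (nat_lit 5) (nat_lit 4) (nat_lit 297) (nat_lit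 222) (nat_lit 201)) (XT.nd (nat_lit 78) (nat_lit 0) (nat_lit 0) (XT.lf (nat_lit 0) (nat_lit 11884475786) (nat_lit 152) (nat_lit 11582309259) (nat_lit 0) (nat_lit 4035967775) (nat_lit 5) (nat_lit 5) (nat_lit 7) (nat_lit 4) (nat_lit 5) (nat_lit 4) (nat_lit 298) (nat_lit 222) (nat_lit 200)) (XT.lf (nat_lit 0) (nat_lit 14751183121) (nat_lit 152) (nat_lit 7268406428) (nat_lit 0) (nat_lit 6708551544) (nat_lit 5) (nat_lit 5) (nat_lit 7) (nat_lit 4) (nat_lit 5) (nat_lit 4) (nat_lit 299) (nat_lit 222) (nat_lit 199))))))))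
noncomputable def xc56 : XT := (XT.nd (nat_lit 1248) (nat_lit 76) (nat_lit 0) (XT.nd (nat_lit 624) (nat_lit 76) (nat_lit 0) (XT.nd (nat_lit 312) (nat_lit 76) (nat_lit 0) (XT.nd (nat_lit 156) (nat_lit 0) (nat_lit 0) (XT.nd (nat_lit 78) (nat_lit 76) (nat_lit 0) (XT.lf (nat_lit 0) (nat_lit 17706546091) (nat_lit 152) (nat_lit 2832072064) (nat_lit 0) (nat_lit 9479034928) (nat_lit 5) (nat_lit 5) (nat_lit 7) (nat_lit 4) (nat_lit 5) (nat_lit 4) (nat_lit 300) (nat_lit 222) (nat_lit 198)) (XT.lf (nat_lit 0) (nat_lit 1794698080) (nat_lit 76) (nat_lit 18990923463) (nat_lit 76) (nat_lit 10587336502) (nat_lit 4) (nat_lit 4) (nat_lit 5) (nat_lit 5) (nat_lit 5) (nat_lit 4) (nat_lit 301) (nat_lit 222) (nat_lit 197))) (XT.nd (nat_lit 78) (nat_lit 0) (nat_lit 0) (XT.lf (nat_lit 0) (nat_lit 6663740016) (nat_lit 76) (nat_lit 17351912735) (nat_lit 76) (nat_lit 8780634539) (nat_lit 4) (nat_lit 4) (nat_lit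 5) (nat_lit 5) (nat_lit 5) (nat_lit 4) (nat_lit 302) (nat_lit 222) (nat_lit 196)) (XT.lf (nat_lit 0) (nat_lit 11693005607) (nat_lit 76) (nat_lit 15665646075) (nat_lit 76) (nat_lit 6934661941) (nat_lit 4) (nat_lit 4) (nat_lit 5) (nat_lit 5) (nat_lit 5) (nat_lit 4) (nat_lit 303) (nat_lit 222) (nat_lit 195)))) (XT.nd (nat_lit 156) (nat_lit 76) (nat_lit 0) (XT.nd (nat_lit 78) (nat_lit 0) (nat_lit 0) (XT.lf (nat_lit 0) (nat_lit 16894469295) (nat_lit 76) (nat_lit 13928108563) (nat_lit 76) (nat_lit 5045023536) (nat_lit 4) (nat_lit 4) (nat_lit 5) (nat_lit 5) (nat_lit 5) (nat_lit 4) (nat_lit 304) (nat_lit 222) (nat_lit 194)) (XT.lf (nat_lit 0) (nat_lit 22280515518) (nat_lit 76) (nat_lit 12135163206) (nat_lit 76) (nat_lit 3107220184) (nat_lit 4) (nat_lit 4) (nat_lit 5) (nat_lit 5) (nat_lit 5) (nat_lit 4) (nat_lit 305) (nat_lit 222) (nat_lit 193))) (XT.nd (nat_lit 78) (nat_lit 76) (nat_lit 0)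 (XT.lf (nat_lit 0) (nat_lit 27863968196) (nat_lit 76) (nat_lit 10282541084) (nat_lit 76) (nat_lit 1116638068) (nat_lit 4) (nat_lit 4) (nat_lit 5) (nat_lit 5) (nat_lit 5) (nat_lit 4) (nat_lit 306) (nat_lit 222) (nat_lit 192)) (XT.lf (nat_lit 0) (nat_lit 901649681) (nat_lit 152) (nat_lit 7448911640) (nat_lit 76) (nat_lit 32741201707) (nat_lit 3) (nat_lit 5) (nat_lit 5) (nat_lit 5) (nat_lit 4) (nat_lit 4) (nat_lit 307) (nat_lit 222) (nat_lit 191))))) (XT.nd (nat_lit 312) (nat_lit 0) (nat_lit 0) (XT.nd (nat_lit 156) (nat_lit 0) (nat_lit 0) (XT.nd (nat_lit 78) (nat_lit 76) (nat_lit 0) (XT.lf (nat_lit 0) (nat_lit 2944595694) (nat_lit 152) (nat_lit 3386006093) (nat_lit 76) (nat_lit 36682306472) (nat_lit 3) (nat_lit 5) (nat_lit 5) (nat_lit 5) (nat_lit 4) (nat_lit 4) (nat_lit 308) (nat_lit 222) (nat_lit 190)) (XT.lf (nat_lit 0) (nat_lit 843646888) (nat_lit 76) (nat_lit 4222328324) (nat_lit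 152) (nat_lit 39965395097) (nat_lit 2) (nat_lit 5) (nat_lit 3) (nat_lit 5) (nat_lit 4) (nat_lit 4) (nat_lit 309) (nat_lit 222) (nat_lit 189))) (XT.nd (nat_lit 78) (nat_lit 0) (nat_lit 0) (XT.lf (nat_lit 0) (nat_lit 5339959773) (nat_lit 76) (nat_lit 1974704665) (nat_lit 152) (nat_lit 39835099333) (nat_lit 2) (nat_lit 5) (nat_lit 3) (nat_lit 5) (nat_lit 4) (nat_lit 4) (nat_lit 310) (nat_lit 222) (nat_lit 188)) (XT.lf (nat_lit 0) (nat_lit 9647029327) (nat_lit 152) (nat_lit 39379806612) (nat_lit 0) (nat_lit 348745906) (nat_lit 2) (nat_lit 5) (nat_lit 4) (nat_lit 4) (nat_lit 2) (nat_lit 4) (nat_lit 311) (nat_lit 222) (nat_lit 187)))) (XT.nd (nat_lit 156) (nat_lit 0) (nat_lit 0) (XT.nd (nat_lit 78) (nat_lit 0) (nat_lit 0) (XT.lf (nat_lit 0) (nat_lit 12095266177) (nat_lit 152) (nat_lit 36918588603) (nat_lit 0) (nat_lit 2698937163) (nat_lit 2) (nat_lit 5) (nat_lit 4) (nat_lit 4) (nat_lit 2)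 (nat_lit 4) (nat_lit 312) (nat_lit 222) (nat_lit 186)) (XT.lf (nat_lit 0) (nat_lit 14634373450) (nat_lit 152) (nat_lit 34389459255) (nat_lit 0) (nat_lit 5144667682) (nat_lit 2) (nat_lit 5) (nat_lit 4) (nat_lit 4) (nat_lit 2) (nat_lit 4) (nat_lit 313) (nat_lit 222) (nat_lit 185))) (XT.nd (nat_lit 78) (nat_lit 0) (nat_lit 0) (XT.lf (nat_lit 0) (nat_lit 17270396640) (nat_lit 152) (nat_lit 31786396831) (nat_lit 0) (nat_lit 7691760630) (nat_lit 2) (nat_lit 5) (nat_lit 4) (nat_lit 4) (nat_lit 2) (nat_lit 4) (nat_lit 314) (nat_lit 222) (nat_lit 184)) (XT.lf (nat_lit 0) (nat_lit 20009611992) (nat_lit 152) (nat_lit 29103203564) (nat_lit 0) (nat_lit 10346280513) (nat_lit 2) (nat_lit 5) (nat_lit 4) (nat_lit 4) (nat_lit 2) (nat_lit 4) (nat_lit 315) (nat_lit 222) (nat_lit 183)))))) (XT.nd (nat_lit 624) (nat_lit 76) (nat_lit 0) (XT.nd (nat_lit 312) (nat_lit 0) (nat_lit 0) (XT.nd (nat_lit 156) (nat_lit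 0) (nat_lit 0) (XT.nd (nat_lit 78) (nat_lit 0) (nat_lit 0) (XT.lf (nat_lit 0) (nat_lit 22858541448) (nat_lit 152) (nat_lit 26333490898) (nat_lit 0) (nat_lit 13114547618) (nat_lit 2) (nat_lit 5) (nat_lit 4) (nat_lit 4) (nat_lit 2) (nat_lit 4) (nat_lit 316) (nat_lit 222) (nat_lit 182)) (XT.lf (nat_lit 0) (nat_lit 25823968173) (nat_lit 152) (nat_lit 23470664278) (nat_lit 0) (nat_lit 16003153056) (nat_lit 2) (nat_lit 5) (nat_lit 4) (nat_lit 4) (nat_lit 2) (nat_lit 4) (nat_lit 317) (nat_lit 222) (nat_lit 181))) (XT.nd (nat_lit 78) (nat_lit 0) (nat_lit 0) (XT.lf (nat_lit 0) (nat_lit 28912952707) (nat_lit 152) (nat_lit 20507907453) (nat_lit 0) (nat_lit 19018974459) (nat_lit 2) (nat_lit 5) (nat_lit 4) (nat_lit 4) (nat_lit 2) (nat_lit 4) (nat_lit 318) (nat_lit 222) (nat_lit 180)) (XT.lf (nat_lit 0) (nat_lit 32132849775) (nat_lit 152) (nat_lit 17438166237) (nat_lit 0) (nat_lit 22169192355) (nat_lit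 2) (nat_lit 5) (nat_lit 4) (nat_lit 4) (nat_lit 2) (nat_lit 4) (nat_lit 319) (nat_lit 222) (nat_lit 179)))) (XT.nd (nat_lit 156) (nat_lit 0) (nat_lit 0) (XT.nd (nat_lit 78) (nat_lit 0) (nat_lit 0) (XT.lf (nat_lit 0) (nat_lit 35491325799) (nat_lit 152) (nat_lit 14254131724) (nat_lit 0) (nat_lit 25461307263) (nat_lit 2) (nat_lit 5) (nat_lit 4) (nat_lit 4) (nat_lit 2) (nat_lit 4) (nat_lit 320) (nat_lit 222) (nat_lit 178)) (XT.lf (nat_lit 0) (nat_lit 38996377150) (nat_lit 152) (nat_lit 10948222880) (nat_lit 0) (nat_lit 28903157551) (nat_lit 2) (nat_lit 5) (nat_lit 4) (nat_lit 4) (nat_lit 2) (nat_lit 4) (nat_lit 321) (nat_lit 222) (nat_lit 177))) (XT.nd (nat_lit 78) (nat_lit 0) (nat_lit 0) (XT.lf (nat_lit 0) (nat_lit 42656349188) (nat_lit 152) (nat_lit 7512568492) (nat_lit 0) (nat_lit 32502938100) (nat_lit 2) (nat_lit 5) (nat_lit 4) (nat_lit 4) (nat_lit 2) (nat_lit 4) (nat_lit 322) (nat_lit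 222) (nat_lit 176)) (XT.lf (nat_lit 0) (nat_lit 46479956132) (nat_lit 152) (nat_lit 3938988431) (nat_lit 0) (nat_lit 36269219818) (nat_lit 2) (nat_lit 5) (nat_lit 4) (nat_lit 4) (nat_lit 2) (nat_lit 4) (nat_lit 323) (nat_lit 222) (nat_lit 175))))) (XT.nd (nat_lit 312) (nat_lit 0) (nat_lit 0) (XT.nd (nat_lit 156) (nat_lit 0) (nat_lit 0) (XT.nd (nat_lit 78) (nat_lit 76) (nat_lit 0) (XT.lf (nat_lit 0) (nat_lit 50476301810) (nat_lit 152) (nat_lit 218974174) (nat_lit 0) (nat_lit 40210970041) (nat_lit 2) (nat_lit 5) (nat_lit 4) (nat_lit 4) (nat_lit 2) (nat_lit 4) (nat_lit 324) (nat_lit 222) (nat_lit 174)) (XT.lf (nat_lit 0) (nat_lit 3777226287) (nat_lit 76) (nat_lit 50936648129) (nat_lit 76) (nat_lit 40619320689) (nat_lit 1) (nat_lit 4) (nat_lit 2) (nat_lit 5) (nat_lit 2) (nat_lit 4) (nat_lit 325) (nat_lit 222) (nat_lit 173))) (XT.nd (nat_lit 78) (nat_lit 0) (nat_lit 0) (XT.lf (nat_lit 0)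 (nat_lit 7950625033) (nat_lit 76) (nat_lit 51199210240) (nat_lit 76) (nat_lit 40832363114) (nat_lit 1) (nat_lit 4) (nat_lit 2) (nat_lit 5) (nat_lit 2) (nat_lit 4) (nat_lit 326) (nat_lit 222) (nat_lit 172)) (XT.lf (nat_lit 0) (nat_lit 12303918453) (nat_lit 76) (nat_lit 51487295898) (nat_lit 76) (nat_lit 41073287165) (nat_lit 1) (nat_lit 4) (nat_lit 2) (nat_lit 5) (nat_lit 2) (nat_lit 4) (nat_lit 327) (nat_lit 222) (nat_lit 171)))) (XT.nd (nat_lit 156) (nat_lit 0) (nat_lit 0) (XT.nd (nat_lit 78) (nat_lit 0) (nat_lit 0) (XT.lf (nat_lit 0) (nat_lit 16847471529) (nat_lit 76) (nat_lit 51801591021) (nat_lit 76) (nat_lit 41342666473) (nat_lit 1) (nat_lit 4) (nat_lit 2) (nat_lit 5) (nat_lit 2) (nat_lit 4) (nat_lit 328) (nat_lit 222) (nat_lit 170)) (XT.lf (nat_lit 0) (nat_lit 21592102247) (nat_lit 76) (nat_lit 52142843931) (nat_lit 76) (nat_lit 41641142416) (nat_lit 1) (nat_lit 4) (nat_lit 2)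 (nat_lit 5) (nat_lit 2) (nat_lit 4) (nat_lit 329) (nat_lit 222) (nat_lit 169))) (XT.nd (nat_lit 78) (nat_lit 0) (nat_lit 0) (XT.lf (nat_lit 0) (nat_lit 26549107346) (nat_lit 76) (nat_lit 52511867135) (nat_lit 76) (nat_lit 41969425651) (nat_lit 1) (nat_lit 4) (nat_lit 2) (nat_lit 5) (nat_lit 2) (nat_lit 4) (nat_lit 330) (nat_lit 222) (nat_lit 168)) (XT.nd (nat_lit 78) (nat_lit 0) (nat_lit 0) (XT.lf (nat_lit 0) (nat_lit 31730289219) (nat_lit 76) (nat_lit 52909539260) (nat_lit 76) (nat_lit 42328297806) (nat_lit 1) (nat_lit 4) (nat_lit 2) (nat_lit 5) (nat_lit 2) (nat_lit 4) (nat_lit 331) (nat_lit 222) (nat_lit 167)) (XT.lf (nat_lit 0) (nat_lit 37147984013) (nat_lit 76) (nat_lit 53336807144) (nat_lit 76) (nat_lit 42718613337) (nat_lit 1) (nat_lit 4) (nat_lit 2) (nat_lit 5) (nat_lit 2) (nat_lit 4) (nat_lit 332) (nat_lit 222) (nat_lit 166))))))))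
noncomputable def xc57 : XT := (XT.nd (nat_lit 1326) (nat_lit 0) (nat_lit 0) (XT.nd (nat_lit 624) (nat_lit 0) (nat_lit 0) (XT.nd (nat_lit 312) (nat_lit 0) (nat_lit 0) (XT.nd (nat_lit 156) (nat_lit 0) (nat_lit 0) (XT.nd (nat_lit 78) (nat_lit 0) (nat_lit 0) (XT.lf (nat_lit 0) (nat_lit 42815091001) (nat_lit 76) (nat_lit 53794688091) (nat_lit 76) (nat_lit 43141301568) (nat_lit 1) (nat_lit 4) (nat_lit 2) (nat_lit 5) (nat_lit 2) (nat_lit 4) (nat_lit 333) (nat_lit 222) (nat_lit 165)) (XT.lf (nat_lit 0) (nat_lit 48745103296) (nat_lit 76) (nat_lit 54284272295) (nat_lit 76) (nat_lit 43597368899) (nat_lit 1) (nat_lit 4) (nat_lit 2) (nat_lit 5) (nat_lit 2) (nat_lit 4) (nat_lit 334) (nat_lit 222) (nat_lit 164))) (XT.nd (nat_lit 78) (nat_lit 0) (nat_lit 0) (XT.lf (nat_lit 0) (nat_lit 54952139974) (nat_lit 76) (nat_lit 54806725431) (nat_lit 76) (nat_lit 44087901204) (nat_lit 1) (nat_lit 4) (nat_lit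 2) (nat_lit 5) (nat_lit 2) (nat_lit 4) (nat_lit 335) (nat_lit 222) (nat_lit 163)) (XT.lf (nat_lit 0) (nat_lit 61450979694) (nat_lit 76) (nat_lit 55363291437) (nat_lit 76) (nat_lit 44614066417) (nat_lit 1) (nat_lit 4) (nat_lit 2) (nat_lit 5) (nat_lit 2) (nat_lit 4) (nat_lit 336) (nat_lit 222) (nat_lit 162)))) (XT.nd (nat_lit 156) (nat_lit 0) (nat_lit 0) (XT.nd (nat_lit 78) (nat_lit 0) (nat_lit 0) (XT.lf (nat_lit 0) (nat_lit 68257095885) (nat_lit 76) (nat_lit 55955295469) (nat_lit 76) (nat_lit 45177117314) (nat_lit 1) (nat_lit 4) (nat_lit 2) (nat_lit 5) (nat_lit 2) (nat_lit 4) (nat_lit 337) (nat_lit 222) (nat_lit 161)) (XT.lf (nat_lit 0) (nat_lit 75386693583) (nat_lit 76) (nat_lit 56584147060) (nat_lit 76) (nat_lit 45778394491) (nat_lit 1) (nat_lit 4) (nat_lit 2) (nat_lit 5) (nat_lit 2) (nat_lit 4) (nat_lit 338) (nat_lit 222) (nat_lit 160))) (XT.nd (nat_lit 78) (nat_lit 0) (nat_lit 0)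 (XT.lf (nat_lit 0) (nat_lit 82856748023) (nat_lit 76) (nat_lit 57251343476) (nat_lit 76) (nat_lit 46419329560) (nat_lit 1) (nat_lit 4) (nat_lit 2) (nat_lit 5) (nat_lit 2) (nat_lit 4) (nat_lit 339) (nat_lit 222) (nat_lit 159)) (XT.lf (nat_lit 0) (nat_lit 90685045048) (nat_lit 76) (nat_lit 57958473281) (nat_lit 76) (nat_lit 47101448558) (nat_lit 1) (nat_lit 4) (nat_lit 2) (nat_lit 5) (nat_lit 2) (nat_lit 4) (nat_lit 340) (nat_lit 222) (nat_lit 158))))) (XT.nd (nat_lit 312) (nat_lit 0) (nat_lit 0) (XT.nd (nat_lit 156) (nat_lit 0) (nat_lit 0) (XT.nd (nat_lit 78) (nat_lit 0) (nat_lit 0) (XT.lf (nat_lit 0) (nat_lit 98890223461) (nat_lit 76) (nat_lit 58707220116) (nat_lit 76) (nat_lit 47826375577) (nat_lit 1) (nat_lit 4) (nat_lit 2) (nat_lit 5) (nat_lit 2) (nat_lit 4) (nat_lit 341) (nat_lit 222) (nat_lit 157)) (XT.lf (nat_lit 0) (nat_lit 107491819400) (nat_lit 76) (nat_lit 59499366712) (nat_lit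 76) (nat_lit 48595836635) (nat_lit 1) (nat_lit 4) (nat_lit 2) (nat_lit 5) (nat_lit 2) (nat_lit 4) (nat_lit 342) (nat_lit 222) (nat_lit 156))) (XT.nd (nat_lit 78) (nat_lit 0) (nat_lit 0) (XT.lf (nat_lit 0) (nat_lit 116510312856) (nat_lit 76) (nat_lit 60336799133) (nat_lit 76) (nat_lit 49411663780) (nat_lit 1) (nat_lit 4) (nat_lit 2) (nat_lit 5) (nat_lit 2) (nat_lit 4) (nat_lit 343) (nat_lit 222) (nat_lit 155)) (XT.lf (nat_lit 0) (nat_lit 125967176432) (nat_lit 76) (nat_lit 61221511265) (nat_lit 76) (nat_lit 50275799459) (nat_lit 1) (nat_lit 4) (nat_lit 2) (nat_lit 5) (nat_lit 2) (nat_lit 4) (nat_lit 344) (nat_lit 222) (nat_lit 154)))) (XT.nd (nat_lit 156) (nat_lit 0) (nat_lit 0) (XT.nd (nat_lit 78) (nat_lit 0) (nat_lit 0) (XT.lf (nat_lit 0) (nat_lit 135884926470) (nat_lit 76) (nat_lit 62155609565) (nat_lit 76) (nat_lit 51190301138) (nat_lit 1) (nat_lit 4) (nat_lit 2) (nat_lit 5) (nat_lit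 2) (nat_lit 4) (nat_lit 345) (nat_lit 222) (nat_lit 153)) (XT.lf (nat_lit 0) (nat_lit 146287176662) (nat_lit 76) (nat_lit 63141318077) (nat_lit 76) (nat_lit 52157346201) (nat_lit 1) (nat_lit 4) (nat_lit 2) (nat_lit 5) (nat_lit 2) (nat_lit 4) (nat_lit 346) (nat_lit 222) (nat_lit 152))) (XT.nd (nat_lit 78) (nat_lit 0) (nat_lit 0) (XT.lf (nat_lit 0) (nat_lit 157198694268) (nat_lit 76) (nat_lit 64180983727) (nat_lit 76) (nat_lit 53179237137) (nat_lit 1) (nat_lit 4) (nat_lit 2) (nat_lit 5) (nat_lit 2) (nat_lit 4) (nat_lit 347) (nat_lit 222) (nat_lit 151)) (XT.nd (nat_lit 78) (nat_lit 0) (nat_lit 0) (XT.lf (nat_lit 0) (nat_lit 168645459094) (nat_lit 76) (nat_lit 65277081908) (nat_lit 76) (nat_lit 54258407020) (nat_lit 1) (nat_lit 4) (nat_lit 2) (nat_lit 5) (nat_lit 2) (nat_lit 4) (nat_lit 348) (nat_lit 222) (nat_lit 150)) (XT.lf (nat_lit 0) (nat_lit 180654725340) (nat_lit 76) (nat_lit 66432222378)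 (nat_lit 76) (nat_lit 55397425302) (nat_lit 1) (nat_lit 4) (nat_lit 2) (nat_lit 5) (nat_lit 2) (nat_lit 4) (nat_lit 349) (nat_lit 222) (nat_lit 149))))))) (XT.nd (nat_lit 624) (nat_lit 0) (nat_lit 0) (XT.nd (nat_lit 312) (nat_lit 0) (nat_lit 0) (XT.nd (nat_lit 156) (nat_lit 0) (nat_lit 0) (XT.nd (nat_lit 78) (nat_lit 0) (nat_lit 0) (XT.lf (nat_lit 0) (nat_lit 193255086498) (nat_lit 76) (nat_lit 67649155472) (nat_lit 76) (nat_lit 56599003930) (nat_lit 1) (nat_lit 4) (nat_lit 2) (nat_lit 5) (nat_lit 2) (nat_lit 4) (nat_lit 350) (nat_lit 222) (nat_lit 148)) (XT.lf (nat_lit 0) (nat_lit 206476543429) (nat_lit 76) (nat_lit 68930778650) (nat_lit 76) (nat_lit 57866003806) (nat_lit 1) (nat_lit 4) (nat_lit 2) (nat_lit 5) (nat_lit 2) (nat_lit 4) (nat_lit 351) (nat_lit 222) (nat_lit 147))) (XT.nd (nat_lit 78) (nat_lit 0) (nat_lit 0) (XT.lf (nat_lit 0) (nat_lit 220350575790) (nat_lit 76) (nat_lit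 70280143394) (nat_lit 76) (nat_lit 59201441598) (nat_lit 1) (nat_lit 4) (nat_lit 2) (nat_lit 5) (nat_lit 2) (nat_lit 4) (nat_lit 352) (nat_lit 222) (nat_lit 146)) (XT.lf (nat_lit 0) (nat_lit 234910216993) (nat_lit 76) (nat_lit 71700462479) (nat_lit 76) (nat_lit 60608496918) (nat_lit 1) (nat_lit 4) (nat_lit 2) (nat_lit 5) (nat_lit 2) (nat_lit 4) (nat_lit 353) (nat_lit 222) (nat_lit 145)))) (XT.nd (nat_lit 156) (nat_lit 0) (nat_lit 0) (XT.nd (nat_lit 78) (nat_lit 0) (nat_lit 0) (XT.lf (nat_lit 0) (nat_lit 250190132850) (nat_lit 76) (nat_lit 73195117616) (nat_lit 76) (nat_lit 62090519898) (nat_lit 1) (nat_lit 4) (nat_lit 2) (nat_lit 5) (nat_lit 2) (nat_lit 4) (nat_lit 354) (nat_lit 222) (nat_lit 144)) (XT.lf (nat_lit 0) (nat_lit 266226704114) (nat_lit 76) (nat_lit 74767667508) (nat_lit 76) (nat_lit 63651039165) (nat_lit 1) (nat_lit 4) (nat_lit 2) (nat_lit 5) (nat_lit 2) (nat_lit 4) (nat_lit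 355) (nat_lit 222) (nat_lit 143))) (XT.nd (nat_lit 78) (nat_lit 0) (nat_lit 0) (XT.lf (nat_lit 0) (nat_lit 283058113096) (nat_lit 76) (nat_lit 76421856322) (nat_lit 76) (nat_lit 65293770240) (nat_lit 1) (nat_lit 4) (nat_lit 2) (nat_lit 5) (nat_lit 2) (nat_lit 4) (nat_lit 356) (nat_lit 222) (nat_lit 142)) (XT.lf (nat_lit 0) (nat_lit 300724434579) (nat_lit 76) (nat_lit 78161622602) (nat_lit 76) (nat_lit 67022624388) (nat_lit 1) (nat_lit 4) (nat_lit 2) (nat_lit 5) (nat_lit 2) (nat_lit 4) (nat_lit 357) (nat_lit 222) (nat_lit 141))))) (XT.nd (nat_lit 30966) (nat_lit 0) (nat_lit 1140) (XT.nd (nat_lit 156) (nat_lit 0) (nat_lit 0) (XT.nd (nat_lit 78) (nat_lit 0) (nat_lit 0) (XT.lf (nat_lit 0) (nat_lit 319267731235) (nat_lit 76) (nat_lit 79991108649) (nat_lit 76) (nat_lit 68841717928) (nat_lit 1) (nat_lit 4) (nat_lit 2) (nat_lit 5) (nat_lit 2) (nat_lit 4) (nat_lit 358) (nat_lit 222) (nat_lit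 140)) (XT.lf (nat_lit 0) (nat_lit 338732153769) (nat_lit 76) (nat_lit 81914670383) (nat_lit 76) (nat_lit 70755382036) (nat_lit 1) (nat_lit 4) (nat_lit 2) (nat_lit 5) (nat_lit 2) (nat_lit 4) (nat_lit 359) (nat_lit 222) (nat_lit 139))) (XT.nd (nat_lit 78) (nat_lit 0) (nat_lit 0) (XT.lf (nat_lit 0) (nat_lit 359164046045) (nat_lit 76) (nat_lit 83936887711) (nat_lit 76) (nat_lit 72768173054) (nat_lit 1) (nat_lit 4) (nat_lit 2) (nat_lit 5) (nat_lit 2) (nat_lit 4) (nat_lit 360) (nat_lit 222) (nat_lit 138)) (XT.lf (nat_lit 0) (nat_lit 380612055425) (nat_lit 76) (nat_lit 86062575438) (nat_lit 76) (nat_lit 74884883343) (nat_lit 1) (nat_lit 4) (nat_lit 2) (nat_lit 5) (nat_lit 2) (nat_lit 4) (nat_lit 361) (nat_lit 222) (nat_lit 137)))) (XT.nd (nat_lit 156) (nat_lit 228) (nat_lit 0) (XT.nd (nat_lit 78) (nat_lit 152) (nat_lit 0) (XT.lf (nat_lit 0) (nat_lit 1834456629) (nat_lit 228) (nat_lit 1879712936)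 (nat_lit 0) (nat_lit 1834456629) (nat_lit 21) (nat_lit 5) (nat_lit 24) (nat_lit 4) (nat_lit 21) (nat_lit 4) (nat_lit 274) (nat_lit 223) (nat_lit 223)) (XT.lf (nat_lit 0) (nat_lit 1859913148) (nat_lit 152) (nat_lit 5153298329) (nat_lit 152) (nat_lit 4428546474) (nat_lit 19) (nat_lit 4) (nat_lit 21) (nat_lit 5) (nat_lit 21) (nat_lit 4) (nat_lit 275) (nat_lit 223) (nat_lit 222))) (XT.nd (nat_lit 78) (nat_lit 228) (nat_lit 0) (XT.lf (nat_lit 0) (nat_lit 7703755568) (nat_lit 152) (nat_lit 2759132974) (nat_lit 152) (nat_lit 1344141257) (nat_lit 19) (nat_lit 4) (nat_lit 21) (nat_lit 5) (nat_lit 21) (nat_lit 4) (nat_lit 276) (nat_lit 223) (nat_lit 221)) (XT.nd (nat_lit 78) (nat_lit 0) (nat_lit 0) (XT.lf (nat_lit 0) (nat_lit 1484648230) (nat_lit 152) (nat_lit 250479206) (nat_lit 228) (nat_lit 10459302406) (nat_lit 16) (nat_lit 5) (nat_lit 18) (nat_lit 5) (nat_lit 19) (nat_lit 4) (nat_lit 277)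 (nat_lit 223) (nat_lit 220)) (XT.lf (nat_lit 0) (nat_lit 4911185449) (nat_lit 228) (nat_lit 5348649587) (nat_lit 0) (nat_lit 2341251242) (nat_lit 16) (nat_lit 5) (nat_lit 19) (nat_lit 4) (nat_lit 16) (nat_lit 4) (nat_lit 278) (nat_lit 223) (nat_lit 219))))))))
noncomputable def xc58 : XT := (XT.nd (nat_lit 1326) (nat_lit 304) (nat_lit 0) (XT.nd (nat_lit 624) (nat_lit 304) (nat_lit 0) (XT.nd (nat_lit 312) (nat_lit 152) (nat_lit 0) (XT.nd (nat_lit 156) (nat_lit 152) (nat_lit 0) (XT.nd (nat_lit 78) (nat_lit 0) (nat_lit 0) (XT.lf (nat_lit 0) (nat_lit 103597751) (nat_lit 152) (nat_lit 8034032209) (nat_lit 152) (nat_lit 4896235959) (nat_lit 14) (nat_lit 4) (nat_lit 16) (nat_lit 5) (nat_lit 16) (nat_lit 4) (nat_lit 279) (nat_lit 223) (nat_lit 218)) (XT.lf (nat_lit 0) (nat_lit 5840840788) (nat_lit 152) (nat_lit 5663727197) (nat_lit 152) (nat_lit 1985109954) (nat_lit 14) (nat_lit 4) (nat_lit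 16) (nat_lit 5) (nat_lit 16) (nat_lit 4) (nat_lit 280) (nat_lit 223) (nat_lit 217))) (XT.nd (nat_lit 78) (nat_lit 76) (nat_lit 0) (XT.lf (nat_lit 0) (nat_lit 929106027) (nat_lit 228) (nat_lit 2289017500) (nat_lit 76) (nat_lit 10755048228) (nat_lit 13) (nat_lit 5) (nat_lit 16) (nat_lit 5) (nat_lit 14) (nat_lit 4) (nat_lit 281) (nat_lit 223) (nat_lit 216)) (XT.lf (nat_lit 0) (nat_lit 3249342291) (nat_lit 76) (nat_lit 620690747) (nat_lit 152) (nat_lit 10612098475) (nat_lit 12) (nat_lit 5) (nat_lit 13) (nat_lit 5) (nat_lit 14) (nat_lit 4) (nat_lit 282) (nat_lit 223) (nat_lit 215)))) (XT.nd (nat_lit 156) (nat_lit 152) (nat_lit 0) (XT.nd (nat_lit 78) (nat_lit 0) (nat_lit 0) (XT.lf (nat_lit 0) (nat_lit 6928811924) (nat_lit 152) (nat_lit 6066766551) (nat_lit 0) (nat_lit 2022710069) (nat_lit 12) (nat_lit 5) (nat_lit 14) (nat_lit 4) (nat_lit 12) (nat_lit 4) (nat_lit 283) (nat_lit 223) (nat_lit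 214)) (XT.lf (nat_lit 0) (nat_lit 10054051923) (nat_lit 152) (nat_lit 807598498) (nat_lit 0) (nat_lit 4724202670) (nat_lit 12) (nat_lit 5) (nat_lit 14) (nat_lit 4) (nat_lit 12) (nat_lit 4) (nat_lit 284) (nat_lit 223) (nat_lit 213))) (XT.nd (nat_lit 78) (nat_lit 0) (nat_lit 0) (XT.lf (nat_lit 0) (nat_lit 4717930735) (nat_lit 152) (nat_lit 8599232748) (nat_lit 152) (nat_lit 2865814543) (nat_lit 10) (nat_lit 4) (nat_lit 12) (nat_lit 5) (nat_lit 12) (nat_lit 4) (nat_lit 285) (nat_lit 223) (nat_lit 212)) (XT.lf (nat_lit 0) (nat_lit 10402554610) (nat_lit 152) (nat_lit 6264618596) (nat_lit 152) (nat_lit 146849007) (nat_lit 10) (nat_lit 4) (nat_lit 12) (nat_lit 5) (nat_lit 12) (nat_lit 4) (nat_lit 286) (nat_lit 223) (nat_lit 211))))) (XT.nd (nat_lit 312) (nat_lit 152) (nat_lit 0) (XT.nd (nat_lit 156) (nat_lit 0) (nat_lit 0) (XT.nd (nat_lit 78) (nat_lit 76) (nat_lit 0) (XT.lf (nat_lit 0) (nat_lit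 2534103197) (nat_lit 228) (nat_lit 1288906968) (nat_lit 76) (nat_lit 13656085629) (nat_lit 9) (nat_lit 5) (nat_lit 12) (nat_lit 5) (nat_lit 10) (nat_lit 4) (nat_lit 287) (nat_lit 223) (nat_lit 210)) (XT.lf (nat_lit 0) (nat_lit 4083384764) (nat_lit 76) (nat_lit 1241406124) (nat_lit 152) (nat_lit 12853696725) (nat_lit 8) (nat_lit 5) (nat_lit 9) (nat_lit 5) (nat_lit 10) (nat_lit 4) (nat_lit 288) (nat_lit 223) (nat_lit 209))) (XT.nd (nat_lit 78) (nat_lit 0) (nat_lit 0) (XT.lf (nat_lit 0) (nat_lit 8218097732) (nat_lit 152) (nat_lit 9301994377) (nat_lit 0) (nat_lit 1394808461) (nat_lit 8) (nat_lit 5) (nat_lit 10) (nat_lit 4) (nat_lit 8) (nat_lit 4) (nat_lit 289) (nat_lit 223) (nat_lit 208)) (XT.lf (nat_lit 0) (nat_lit 11198286660) (nat_lit 152) (nat_lit 4419084640) (nat_lit 0) (nat_lit 4073848024) (nat_lit 8) (nat_lit 5) (nat_lit 10) (nat_lit 4) (nat_lit 8) (nat_lit 4) (nat_lit 290) (nat_lit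 223) (nat_lit 207)))) (XT.nd (nat_lit 156) (nat_lit 76) (nat_lit 0) (XT.nd (nat_lit 78) (nat_lit 0) (nat_lit 0) (XT.lf (nat_lit 0) (nat_lit 603964811) (nat_lit 76) (nat_lit 13658536305) (nat_lit 76) (nat_lit 6247288749) (nat_lit 7) (nat_lit 4) (nat_lit 8) (nat_lit 5) (nat_lit 8) (nat_lit 4) (nat_lit 291) (nat_lit 223) (nat_lit 206)) (XT.lf (nat_lit 0) (nat_lit 5910240254) (nat_lit 76) (nat_lit 11571760807) (nat_lit 76) (nat_lit 3887361899) (nat_lit 7) (nat_lit 4) (nat_lit 8) (nat_lit 5) (nat_lit 8) (nat_lit 4) (nat_lit 292) (nat_lit 223) (nat_lit 205))) (XT.nd (nat_lit 78) (nat_lit 76) (nat_lit 0) (XT.lf (nat_lit 0) (nat_lit 11366260783) (nat_lit 76) (nat_lit 9426915629) (nat_lit 76) (nat_lit 1482372576) (nat_lit 7) (nat_lit 4) (nat_lit 8) (nat_lit 5) (nat_lit 8) (nat_lit 4) (nat_lit 293) (nat_lit 223) (nat_lit 204)) (XT.nd (nat_lit 78) (nat_lit 0) (nat_lit 0) (XT.lf (nat_lit 0) (nat_lit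 942250331) (nat_lit 152) (nat_lit 6260686201) (nat_lit 76) (nat_lit 16026809127) (nat_lit 6) (nat_lit 5) (nat_lit 8) (nat_lit 5) (nat_lit 7) (nat_lit 4) (nat_lit 294) (nat_lit 223) (nat_lit 203)) (XT.lf (nat_lit 0) (nat_lit 3374251089) (nat_lit 152) (nat_lit 1511043055) (nat_lit 76) (nat_lit 19348491000) (nat_lit 6) (nat_lit 5) (nat_lit 8) (nat_lit 5) (nat_lit 7) (nat_lit 4) (nat_lit 295) (nat_lit 223) (nat_lit 202))))))) (XT.nd (nat_lit 624) (nat_lit 152) (nat_lit 0) (XT.nd (nat_lit 312) (nat_lit 76) (nat_lit 0) (XT.nd (nat_lit 156) (nat_lit 0) (nat_lit 0) (XT.nd (nat_lit 78) (nat_lit 0) (nat_lit 0) (XT.lf (nat_lit 0) (nat_lit 3485656680) (nat_lit 76) (nat_lit 2435629545) (nat_lit 152) (nat_lit 19367207944) (nat_lit 5) (nat_lit 5) (nat_lit 6) (nat_lit 5) (nat_lit 7) (nat_lit 4) (nat_lit 296) (nat_lit 223) (nat_lit 201)) (XT.lf (nat_lit 0) (nat_lit 8563529906) (nat_lit 152) (nat_lit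 17715381802) (nat_lit 0) (nat_lit 118766750) (nat_lit 5) (nat_lit 5) (nat_lit 7) (nat_lit 4) (nat_lit 5) (nat_lit 4) (nat_lit 297) (nat_lit 223) (nat_lit 200))) (XT.nd (nat_lit 78) (nat_lit 0) (nat_lit 0) (XT.lf (nat_lit 0) (nat_lit 11320400407) (nat_lit 152) (nat_lit 13561408472) (nat_lit 0) (nat_lit 2681513684) (nat_lit 5) (nat_lit 5) (nat_lit 7) (nat_lit 4) (nat_lit 5) (nat_lit 4) (nat_lit 298) (nat_lit 223) (nat_lit 199)) (XT.lf (nat_lit 0) (nat_lit 14160434702) (nat_lit 152) (nat_lit 9293000084) (nat_lit 0) (nat_lit 5336668393) (nat_lit 5) (nat_lit 5) (nat_lit 7) (nat_lit 4) (nat_lit 5) (nat_lit 4) (nat_lit 299) (nat_lit 223) (nat_lit 198)))) (XT.nd (nat_lit 156) (nat_lit 76) (nat_lit 0) (XT.nd (nat_lit 78) (nat_lit 0) (nat_lit 0) (XT.lf (nat_lit 0) (nat_lit 17090394778) (nat_lit 152) (nat_lit 4899993761) (nat_lit 0) (nat_lit 8090552672) (nat_lit 5) (nat_lit 5) (nat_lit 7) (nat_lit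 4) (nat_lit 5) (nat_lit 4) (nat_lit 300) (nat_lit 223) (nat_lit 197)) (XT.lf (nat_lit 0) (nat_lit 20117256731) (nat_lit 152) (nat_lit 371929964) (nat_lit 0) (nat_lit 10949723390) (nat_lit 5) (nat_lit 5) (nat_lit 7) (nat_lit 4) (nat_lit 5) (nat_lit 4) (nat_lit 301) (nat_lit 223) (nat_lit 196))) (XT.nd (nat_lit 78) (nat_lit 0) (nat_lit 0) (XT.lf (nat_lit 0) (nat_lit 4444215047) (nat_lit 76) (nat_lit 18873398978) (nat_lit 76) (nat_lit 9546159699) (nat_lit 4) (nat_lit 4) (nat_lit 5) (nat_lit 5) (nat_lit 5) (nat_lit 4) (nat_lit 302) (nat_lit 223) (nat_lit 195)) (XT.lf (nat_lit 0) (nat_lit 9434814695) (nat_lit 76) (nat_lit 17203250602) (nat_lit 76) (nat_lit 7723910429) (nat_lit 4) (nat_lit 4) (nat_lit 5) (nat_lit 5) (nat_lit 5) (nat_lit 4) (nat_lit 303) (nat_lit 223) (nat_lit 194))))) (XT.nd (nat_lit 312) (nat_lit 76) (nat_lit 0) (XT.nd (nat_lit 156) (nat_lit 76) (nat_lit 0) (XT.nd (nat_lit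 78) (nat_lit 0) (nat_lit 0) (XT.lf (nat_lit 0) (nat_lit 14599453677) (nat_lit 76) (nat_lit 15481063836) (nat_lit 76) (nat_lit 5856865669) (nat_lit 4) (nat_lit 4) (nat_lit 5) (nat_lit 5) (nat_lit 5) (nat_lit 4) (nat_lit 304) (nat_lit 223) (nat_lit 193)) (XT.lf (nat_lit 0) (nat_lit 19950428750) (nat_lit 76) (nat_lit 13702738237) (nat_lit 76) (nat_lit 3940580076) (nat_lit 4) (nat_lit 4) (nat_lit 5) (nat_lit 5) (nat_lit 5) (nat_lit 4) (nat_lit 305) (nat_lit 223) (nat_lit 192))) (XT.nd (nat_lit 78) (nat_lit 76) (nat_lit 0) (XT.lf (nat_lit 0) (nat_lit 25500480332) (nat_lit 76) (nat_lit 11864039695) (nat_lit 76) (nat_lit 1970491063) (nat_lit 4) (nat_lit 4) (nat_lit 5) (nat_lit 5) (nat_lit 5) (nat_lit 4) (nat_lit 306) (nat_lit 223) (nat_lit 191)) (XT.lf (nat_lit 0) (nat_lit 56232747) (nat_lit 152) (nat_lit 9903405280) (nat_lit 76) (nat_lit 31205637756) (nat_lit 3) (nat_lit 5) (nat_lit 5) (nat_lit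 5) (nat_lit 4) (nat_lit 4) (nat_lit 307) (nat_lit 223) (nat_lit 190)))) (XT.nd (nat_lit 156) (nat_lit 76) (nat_lit 0) (XT.nd (nat_lit 78) (nat_lit 0) (nat_lit 0) (XT.lf (nat_lit 0) (nat_lit 2081185840) (nat_lit 152) (nat_lit 5871426470) (nat_lit 76) (nat_lit 35134744383) (nat_lit 3) (nat_lit 5) (nat_lit 5) (nat_lit 5) (nat_lit 4) (nat_lit 4) (nat_lit 308) (nat_lit 223) (nat_lit 189)) (XT.lf (nat_lit 0) (nat_lit 4172257551) (nat_lit 152) (nat_lit 1698229492) (nat_lit 76) (nat_lit 39236881406) (nat_lit 3) (nat_lit 5) (nat_lit 5) (nat_lit 5) (nat_lit 4) (nat_lit 4) (nat_lit 309) (nat_lit 223) (nat_lit 188))) (XT.nd (nat_lit 78) (nat_lit 0) (nat_lit 0) (XT.lf (nat_lit 0) (nat_lit 2712953286) (nat_lit 76) (nat_lit 3663830139) (nat_lit 152) (nat_lit 40851219335) (nat_lit 2) (nat_lit 5) (nat_lit 3) (nat_lit 5) (nat_lit 4) (nat_lit 4) (nat_lit 310) (nat_lit 223) (nat_lit 187)) (XT.nd (nat_lit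 78) (nat_lit 0) (nat_lit 0) (XT.lf (nat_lit 0) (nat_lit 7347075907) (nat_lit 76) (nat_lit 1340473612) (nat_lit 152) (nat_lit 40767382380) (nat_lit 2) (nat_lit 5) (nat_lit 3) (nat_lit 5) (nat_lit 4) (nat_lit 4) (nat_lit 311) (nat_lit 223) (nat_lit 186)) (XT.lf (nat_lit 0) (nat_lit 11099471762) (nat_lit 152) (nat_lit 39652611659) (nat_lit 0) (nat_lit 1041903951) (nat_lit 2) (nat_lit 5) (nat_lit 4) (nat_lit 4) (nat_lit 2) (nat_lit 4) (nat_lit 312) (nat_lit 223) (nat_lit 185))))))))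
noncomputable def xc59 : XT := (XT.nd (nat_lit 1326) (nat_lit 0) (nat_lit 0) (XT.nd (nat_lit 624) (nat_lit 76) (nat_lit 0) (XT.nd (nat_lit 312) (nat_lit 0) (nat_lit 0) (XT.nd (nat_lit 156) (nat_lit 0) (nat_lit 0) (XT.nd (nat_lit 78) (nat_lit 0) (nat_lit 0) (XT.lf (nat_lit 0) (nat_lit 13623925646) (nat_lit 152) (nat_lit 37149103477) (nat_lit 0) (nat_lit 3477427593) (nat_lit 2) (nat_lit 5) (nat_lit 4) (nat_lit 4) (nat_lit 2) (nat_lit 4) (nat_lit 313) (nat_lit 223) (nat_lit 184)) (XT.lf (nat_lit 0) (nat_lit 16245993228) (nat_lit 152) (nat_lit 34570442164) (nat_lit 0) (nat_lit 6014799706) (nat_lit 2) (nat_lit 5) (nat_lit 4) (nat_lit 4) (nat_lit 2) (nat_lit 4) (nat_lit 314) (nat_lit 223) (nat_lit 183))) (XT.nd (nat_lit 78) (nat_lit 0) (nat_lit 0) (XT.lf (nat_lit 0) (nat_lit 18971917525) (nat_lit 152) (nat_lit 31910488050) (nat_lit 0) (nat_lit 8660061651) (nat_lit 2) (nat_lit 5) (nat_lit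 4) (nat_lit 4) (nat_lit 2) (nat_lit 4) (nat_lit 315) (nat_lit 223) (nat_lit 182)) (XT.lf (nat_lit 0) (nat_lit 21808188832) (nat_lit 152) (nat_lit 29162907911) (nat_lit 0) (nat_lit 11419511672) (nat_lit 2) (nat_lit 5) (nat_lit 4) (nat_lit 4) (nat_lit 2) (nat_lit 4) (nat_lit 316) (nat_lit 223) (nat_lit 181)))) (XT.nd (nat_lit 156) (nat_lit 0) (nat_lit 0) (XT.nd (nat_lit 78) (nat_lit 0) (nat_lit 0) (XT.lf (nat_lit 0) (nat_lit 24761560178) (nat_lit 152) (nat_lit 26321159889) (nat_lit 0) (nat_lit 14299719888) (nat_lit 2) (nat_lit 5) (nat_lit 4) (nat_lit 4) (nat_lit 2) (nat_lit 4) (nat_lit 317) (nat_lit 223) (nat_lit 180)) (XT.lf (nat_lit 0) (nat_lit 27839063399) (nat_lit 152) (nat_lit 23378477917) (nat_lit 0) (nat_lit 17307543936) (nat_lit 2) (nat_lit 5) (nat_lit 4) (nat_lit 4) (nat_lit 2) (nat_lit 4) (nat_lit 318) (nat_lit 223) (nat_lit 179))) (XT.nd (nat_lit 78) (nat_lit 0) (nat_lit 0)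 (XT.lf (nat_lit 0) (nat_lit 31048025883) (nat_lit 152) (nat_lit 20327855611) (nat_lit 0) (nat_lit 20450145304) (nat_lit 2) (nat_lit 5) (nat_lit 4) (nat_lit 4) (nat_lit 2) (nat_lit 4) (nat_lit 319) (nat_lit 223) (nat_lit 178)) (XT.lf (nat_lit 0) (nat_lit 34396088016) (nat_lit 152) (nat_lit 17162029583) (nat_lit 0) (nat_lit 23735006375) (nat_lit 2) (nat_lit 5) (nat_lit 4) (nat_lit 4) (nat_lit 2) (nat_lit 4) (nat_lit 320) (nat_lit 223) (nat_lit 177))))) (XT.nd (nat_lit 312) (nat_lit 76) (nat_lit 0) (XT.nd (nat_lit 156) (nat_lit 0) (nat_lit 0) (XT.nd (nat_lit 78) (nat_lit 0) (nat_lit 0) (XT.lf (nat_lit 0) (nat_lit 37891221377) (nat_lit 152) (nat_lit 13873462153) (nat_lit 0) (nat_lit 27169948247) (nat_lit 2) (nat_lit 5) (nat_lit 4) (nat_lit 4) (nat_lit 2) (nat_lit 4) (nat_lit 321) (nat_lit 223) (nat_lit 176)) (XT.lf (nat_lit 0) (nat_lit 41541747710) (nat_lit 152) (nat_lit 10454323397) (nat_lit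 0) (nat_lit 30763149353) (nat_lit 2) (nat_lit 5) (nat_lit 4) (nat_lit 4) (nat_lit 2) (nat_lit 4) (nat_lit 322) (nat_lit 223) (nat_lit 175))) (XT.nd (nat_lit 78) (nat_lit 0) (nat_lit 0) (XT.lf (nat_lit 0) (nat_lit 45356358745) (nat_lit 152) (nat_lit 6896472510) (nat_lit 0) (nat_lit 34523164933) (nat_lit 2) (nat_lit 5) (nat_lit 4) (nat_lit 4) (nat_lit 2) (nat_lit 4) (nat_lit 323) (nat_lit 223) (nat_lit 174)) (XT.lf (nat_lit 0) (nat_lit 49344136889) (nat_lit 152) (nat_lit 3191438418) (nat_lit 0) (nat_lit 38458947407) (nat_lit 2) (nat_lit 5) (nat_lit 4) (nat_lit 4) (nat_lit 2) (nat_lit 4) (nat_lit 324) (nat_lit 223) (nat_lit 173)))) (XT.nd (nat_lit 156) (nat_lit 0) (nat_lit 0) (XT.nd (nat_lit 78) (nat_lit 0) (nat_lit 0) (XT.lf (nat_lit 0) (nat_lit 691740401) (nat_lit 76) (nat_lit 52833636458) (nat_lit 76) (nat_lit 41898927289) (nat_lit 1) (nat_lit 4) (nat_lit 2) (nat_lit 5) (nat_lit 2)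 (nat_lit 4) (nat_lit 325) (nat_lit 223) (nat_lit 172)) (XT.lf (nat_lit 0) (nat_lit 4851102433) (nat_lit 76) (nat_lit 53102245126) (nat_lit 76) (nat_lit 42120374350) (nat_lit 1) (nat_lit 4) (nat_lit 2) (nat_lit 5) (nat_lit 2) (nat_lit 4) (nat_lit 326) (nat_lit 223) (nat_lit 171))) (XT.nd (nat_lit 78) (nat_lit 0) (nat_lit 0) (XT.lf (nat_lit 0) (nat_lit 9191027553) (nat_lit 76) (nat_lit 53396089409) (nat_lit 76) (nat_lit 42369302818) (nat_lit 1) (nat_lit 4) (nat_lit 2) (nat_lit 5) (nat_lit 2) (nat_lit 4) (nat_lit 327) (nat_lit 223) (nat_lit 170)) (XT.nd (nat_lit 78) (nat_lit 0) (nat_lit 0) (XT.lf (nat_lit 0) (nat_lit 13721848916) (nat_lit 76) (nat_lit 53715868938) (nat_lit 76) (nat_lit 42646305380) (nat_lit 1) (nat_lit 4) (nat_lit 2) (nat_lit 5) (nat_lit 2) (nat_lit 4) (nat_lit 328) (nat_lit 223) (nat_lit 169)) (XT.lf (nat_lit 0) (nat_lit 18454354192) (nat_lit 76) (nat_lit 54062345091)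 (nat_lit 76) (nat_lit 42952041564) (nat_lit 1) (nat_lit 4) (nat_lit 2) (nat_lit 5) (nat_lit 2) (nat_lit 4) (nat_lit 329) (nat_lit 223) (nat_lit 168))))))) (XT.nd (nat_lit 624) (nat_lit 0) (nat_lit 0) (XT.nd (nat_lit 312) (nat_lit 0) (nat_lit 0) (XT.nd (nat_lit 156) (nat_lit 0) (nat_lit 0) (XT.nd (nat_lit 78) (nat_lit 0) (nat_lit 0) (XT.lf (nat_lit 0) (nat_lit 23399811252) (nat_lit 76) (nat_lit 54436342813) (nat_lit 76) (nat_lit 43287239316) (nat_lit 1) (nat_lit 4) (nat_lit 2) (nat_lit 5) (nat_lit 2) (nat_lit 4) (nat_lit 330) (nat_lit 223) (nat_lit 167)) (XT.lf (nat_lit 0) (nat_lit 28569994991) (nat_lit 76) (nat_lit 54838752573) (nat_lit 76) (nat_lit 43652696724) (nat_lit 1) (nat_lit 4) (nat_lit 2) (nat_lit 5) (nat_lit 2) (nat_lit 4) (nat_lit 331) (nat_lit 223) (nat_lit 166))) (XT.nd (nat_lit 78) (nat_lit 0) (nat_lit 0) (XT.lf (nat_lit 0) (nat_lit 33977215373) (nat_lit 76) (nat_lit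 55270532491) (nat_lit 76) (nat_lit 44049283925) (nat_lit 1) (nat_lit 4) (nat_lit 2) (nat_lit 5) (nat_lit 2) (nat_lit 4) (nat_lit 332) (nat_lit 223) (nat_lit 165)) (XT.lf (nat_lit 0) (nat_lit 39634346731) (nat_lit 76) (nat_lit 55732710613) (nat_lit 76) (nat_lit 44477945174) (nat_lit 1) (nat_lit 4) (nat_lit 2) (nat_lit 5) (nat_lit 2) (nat_lit 4) (nat_lit 333) (nat_lit 223) (nat_lit 164)))) (XT.nd (nat_lit 156) (nat_lit 0) (nat_lit 0) (XT.nd (nat_lit 78) (nat_lit 0) (nat_lit 0) (XT.lf (nat_lit 0) (nat_lit 45554858425) (nat_lit 76) (nat_lit 56226387364) (nat_lit 76) (nat_lit 44939701094) (nat_lit 1) (nat_lit 4) (nat_lit 2) (nat_lit 5) (nat_lit 2) (nat_lit 4) (nat_lit 334) (nat_lit 223) (nat_lit 163)) (XT.lf (nat_lit 0) (nat_lit 51752846912) (nat_lit 76) (nat_lit 56752738165) (nat_lit 76) (nat_lit 45435651103) (nat_lit 1) (nat_lit 4) (nat_lit 2) (nat_lit 5) (nat_lit 2) (nat_lit 4) (nat_lit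 335) (nat_lit 223) (nat_lit 162))) (XT.nd (nat_lit 78) (nat_lit 0) (nat_lit 0) (XT.lf (nat_lit 0) (nat_lit 58243069307) (nat_lit 76) (nat_lit 57313016232) (nat_lit 76) (nat_lit 45966976035) (nat_lit 1) (nat_lit 4) (nat_lit 2) (nat_lit 5) (nat_lit 2) (nat_lit 4) (nat_lit 336) (nat_lit 223) (nat_lit 161)) (XT.lf (nat_lit 0) (nat_lit 65040978521) (nat_lit 76) (nat_lit 57908555561) (nat_lit 76) (nat_lit 46534940949) (nat_lit 1) (nat_lit 4) (nat_lit 2) (nat_lit 5) (nat_lit 2) (nat_lit 4) (nat_lit 337) (nat_lit 223) (nat_lit 160))))) (XT.nd (nat_lit 312) (nat_lit 0) (nat_lit 0) (XT.nd (nat_lit 156) (nat_lit 0) (nat_lit 0) (XT.nd (nat_lit 78) (nat_lit 0) (nat_lit 0) (XT.lf (nat_lit 0) (nat_lit 72162760052) (nat_lit 76) (nat_lit 58540774101) (nat_lit 76) (nat_lit 47140898142) (nat_lit 1) (nat_lit 4) (nat_lit 2) (nat_lit 5) (nat_lit 2) (nat_lit 4) (nat_lit 338) (nat_lit 223) (nat_lit 159))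 (XT.lf (nat_lit 0) (nat_lit 79625370523) (nat_lit 76) (nat_lit 59211177136) (nat_lit 76) (nat_lit 47786290370) (nat_lit 1) (nat_lit 4) (nat_lit 2) (nat_lit 5) (nat_lit 2) (nat_lit 4) (nat_lit 339) (nat_lit 223) (nat_lit 158))) (XT.nd (nat_lit 78) (nat_lit 0) (nat_lit 0) (XT.lf (nat_lit 0) (nat_lit 87446578054) (nat_lit 76) (nat_lit 59921360862) (nat_lit 76) (nat_lit 48472654281) (nat_lit 1) (nat_lit 4) (nat_lit 2) (nat_lit 5) (nat_lit 2) (nat_lit 4) (nat_lit 340) (nat_lit 223) (nat_lit 157)) (XT.lf (nat_lit 0) (nat_lit 95645004566) (nat_lit 76) (nat_lit 60673016195) (nat_lit 76) (nat_lit 49201624074) (nat_lit 1) (nat_lit 4) (nat_lit 2) (nat_lit 5) (nat_lit 2) (nat_lit 4) (nat_lit 341) (nat_lit 223) (nat_lit 156)))) (XT.nd (nat_lit 156) (nat_lit 0) (nat_lit 0) (XT.nd (nat_lit 78) (nat_lit 0) (nat_lit 0) (XT.lf (nat_lit 0) (nat_lit 104240170125) (nat_lit 76) (nat_lit 61467932788) (nat_lit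 76) (nat_lit 49974935392) (nat_lit 1) (nat_lit 4) (nat_lit 2) (nat_lit 5) (nat_lit 2) (nat_lit 4) (nat_lit 342) (nat_lit 223) (nat_lit 155)) (XT.lf (nat_lit 0) (nat_lit 113252539409) (nat_lit 76) (nat_lit 62308003301) (nat_lit 76) (nat_lit 50794429453) (nat_lit 1) (nat_lit 4) (nat_lit 2) (nat_lit 5) (nat_lit 2) (nat_lit 4) (nat_lit 343) (nat_lit 223) (nat_lit 154))) (XT.nd (nat_lit 78) (nat_lit 0) (nat_lit 0) (XT.lf (nat_lit 0) (nat_lit 122703570441) (nat_lit 76) (nat_lit 63195227902) (nat_lit 76) (nat_lit 51662057433) (nat_lit 1) (nat_lit 4) (nat_lit 2) (nat_lit 5) (nat_lit 2) (nat_lit 4) (nat_lit 344) (nat_lit 223) (nat_lit 153)) (XT.nd (nat_lit 78) (nat_lit 0) (nat_lit 0) (XT.lf (nat_lit 0) (nat_lit 132615765675) (nat_lit 76) (nat_lit 64131719031) (nat_lit 76) (nat_lit 52579885112) (nat_lit 1) (nat_lit 4) (nat_lit 2) (nat_lit 5) (nat_lit 2) (nat_lit 4) (nat_lit 345) (nat_lit 223)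 (nat_lit 152)) (XT.lf (nat_lit 0) (nat_lit 143012725576) (nat_lit 76) (nat_lit 65119706427) (nat_lit 76) (nat_lit 53550097794) (nat_lit 1) (nat_lit 4) (nat_lit 2) (nat_lit 5) (nat_lit 2) (nat_lit 4) (nat_lit 346) (nat_lit 223) (nat_lit 151))))))))
noncomputable def xc60 : XT := (XT.nd (nat_lit 31824) (nat_lit 0) (nat_lit 532) (XT.nd (nat_lit 624) (nat_lit 0) (nat_lit 0) (XT.nd (nat_lit 312) (nat_lit 0) (nat_lit 0) (XT.nd (nat_lit 156) (nat_lit 0) (nat_lit 0) (XT.nd (nat_lit 78) (nat_lit 0) (nat_lit 0) (XT.lf (nat_lit 0) (nat_lit 153919204811) (nat_lit 76) (nat_lit 66161542442) (nat_lit 76) (nat_lit 54575005511) (nat_lit 1) (nat_lit 4) (nat_lit 2) (nat_lit 5) (nat_lit 2) (nat_lit 4) (nat_lit 347) (nat_lit 223) (nat_lit 150)) (XT.lf (nat_lit 0) (nat_lit 165361171188) (nat_lit 76) (nat_lit 67259707638) (nat_lit 76) (nat_lit 55657048518) (nat_lit 1) (nat_lit 4) (nat_lit 2) (nat_lit 5)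 (nat_lit 2) (nat_lit 4) (nat_lit 348) (nat_lit 223) (nat_lit 149))) (XT.nd (nat_lit 78) (nat_lit 0) (nat_lit 0) (XT.lf (nat_lit 0) (nat_lit 177365867483) (nat_lit 76) (nat_lit 68416816693) (nat_lit 76) (nat_lit 56798803108) (nat_lit 1) (nat_lit 4) (nat_lit 2) (nat_lit 5) (nat_lit 2) (nat_lit 4) (nat_lit 349) (nat_lit 223) (nat_lit 148)) (XT.lf (nat_lit 0) (nat_lit 189961876306) (nat_lit 76) (nat_lit 69635624631) (nat_lit 76) (nat_lit 58002987744) (nat_lit 1) (nat_lit 4) (nat_lit 2) (nat_lit 5) (nat_lit 2) (nat_lit 4) (nat_lit 350) (nat_lit 223) (nat_lit 147)))) (XT.nd (nat_lit 156) (nat_lit 0) (nat_lit 0) (XT.nd (nat_lit 78) (nat_lit 0) (nat_lit 0) (XT.lf (nat_lit 0) (nat_lit 203179188156) (nat_lit 76) (nat_lit 70919033373) (nat_lit 76) (nat_lit 59272469534) (nat_lit 1) (nat_lit 4) (nat_lit 2) (nat_lit 5) (nat_lit 2) (nat_lit 4) (nat_lit 351) (nat_lit 223) (nat_lit 146)) (XT.lf (nat_lit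 0) (nat_lit 217049272822) (nat_lit 76) (nat_lit 72270098655) (nat_lit 76) (nat_lit 60610271051) (nat_lit 1) (nat_lit 4) (nat_lit 2) (nat_lit 5) (nat_lit 2) (nat_lit 4) (nat_lit 352) (nat_lit 223) (nat_lit 145))) (XT.nd (nat_lit 78) (nat_lit 0) (nat_lit 0) (XT.lf (nat_lit 0) (nat_lit 231605154314) (nat_lit 76) (nat_lit 73692037300) (nat_lit 76) (nat_lit 62019577539) (nat_lit 1) (nat_lit 4) (nat_lit 2) (nat_lit 5) (nat_lit 2) (nat_lit 4) (nat_lit 353) (nat_lit 223) (nat_lit 144)) (XT.lf (nat_lit 0) (nat_lit 246881489495) (nat_lit 76) (nat_lit 75188234876) (nat_lit 76) (nat_lit 63503744489) (nat_lit 1) (nat_lit 4) (nat_lit 2) (nat_lit 5) (nat_lit 2) (nat_lit 4) (nat_lit 354) (nat_lit 223) (nat_lit 143))))) (XT.nd (nat_lit 312) (nat_lit 0) (nat_lit 0) (XT.nd (nat_lit 156) (nat_lit 0) (nat_lit 0) (XT.nd (nat_lit 78) (nat_lit 0) (nat_lit 0) (XT.lf (nat_lit 0) (nat_lit 262914650590) (nat_lit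 76) (nat_lit 76762253757) (nat_lit 76) (nat_lit 65066305631) (nat_lit 1) (nat_lit 4) (nat_lit 2) (nat_lit 5) (nat_lit 2) (nat_lit 4) (nat_lit 355) (nat_lit 223) (nat_lit 142)) (XT.lf (nat_lit 0) (nat_lit 279742811793) (nat_lit 76) (nat_lit 78417841607) (nat_lit 76) (nat_lit 66710981350) (nat_lit 1) (nat_lit 4) (nat_lit 2) (nat_lit 5) (nat_lit 2) (nat_lit 4) (nat_lit 356) (nat_lit 223) (nat_lit 141))) (XT.nd (nat_lit 78) (nat_lit 0) (nat_lit 0) (XT.lf (nat_lit 0) (nat_lit 297406040154) (nat_lit 76) (nat_lit 80158940304) (nat_lit 76) (nat_lit 68441687539) (nat_lit 1) (nat_lit 4) (nat_lit 2) (nat_lit 5) (nat_lit 2) (nat_lit 4) (nat_lit 357) (nat_lit 223) (nat_lit 140)) (XT.lf (nat_lit 0) (nat_lit 315946390978) (nat_lit 76) (nat_lit 81989695318) (nat_lit 76) (nat_lit 70262544929) (nat_lit 1) (nat_lit 4) (nat_lit 2) (nat_lit 5) (nat_lit 2) (nat_lit 4) (nat_lit 358) (nat_lit 223) (nat_lit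 139)))) (XT.nd (nat_lit 156) (nat_lit 0) (nat_lit 0) (XT.nd (nat_lit 78) (nat_lit 0) (nat_lit 0) (XT.lf (nat_lit 0) (nat_lit 335408007959) (nat_lit 76) (nat_lit 83914465592) (nat_lit 76) (nat_lit 72177888893) (nat_lit 1) (nat_lit 4) (nat_lit 2) (nat_lit 5) (nat_lit 2) (nat_lit 4) (nat_lit 359) (nat_lit 223) (nat_lit 138)) (XT.lf (nat_lit 0) (nat_lit 355837228279) (nat_lit 76) (nat_lit 85937833912) (nat_lit 76) (nat_lit 74192279774) (nat_lit 1) (nat_lit 4) (nat_lit 2) (nat_lit 5) (nat_lit 2) (nat_lit 4) (nat_lit 360) (nat_lit 223) (nat_lit 137))) (XT.nd (nat_lit 30576) (nat_lit 0) (nat_lit 1520) (XT.lf (nat_lit 0) (nat_lit 377282692939) (nat_lit 76) (nat_lit 88064617821) (nat_lit 76) (nat_lit 76310513742) (nat_lit 1) (nat_lit 4) (nat_lit 2) (nat_lit 5) (nat_lit 2) (nat_lit 4) (nat_lit 361) (nat_lit 223) (nat_lit 136)) (XT.nd (nat_lit 78) (nat_lit 228) (nat_lit 0) (XT.lf (nat_lit 0)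 (nat_lit 3228092076) (nat_lit 228) (nat_lit 1001897728) (nat_lit 228) (nat_lit 1001897728) (nat_lit 24) (nat_lit 4) (nat_lit 27) (nat_lit 5) (nat_lit 27) (nat_lit 4) (nat_lit 272) (nat_lit 224) (nat_lit 224)) (XT.lf (nat_lit 0) (nat_lit 1149928013) (nat_lit 228) (nat_lit 9235480918) (nat_lit 0) (nat_lit 388938565) (nat_lit 21) (nat_lit 5) (nat_lit 24) (nat_lit 4) (nat_lit 21) (nat_lit 4) (nat_lit 273) (nat_lit 224) (nat_lit 223))))))) (XT.nd (nat_lit 624) (nat_lit 380) (nat_lit 0) (XT.nd (nat_lit 312) (nat_lit 228) (nat_lit 0) (XT.nd (nat_lit 156) (nat_lit 228) (nat_lit 0) (XT.nd (nat_lit 78) (nat_lit 152) (nat_lit 0) (XT.lf (nat_lit 0) (nat_lit 4367115552) (nat_lit 228) (nat_lit 3852132025) (nat_lit 0) (nat_lit 2881374249) (nat_lit 21) (nat_lit 5) (nat_lit 24) (nat_lit 4) (nat_lit 21) (nat_lit 4) (nat_lit 274) (nat_lit 224) (nat_lit 222)) (XT.lf (nat_lit 0) (nat_lit 1672930818) (nat_lit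 152) (nat_lit 5975766345) (nat_lit 152) (nat_lit 3799785179) (nat_lit 19) (nat_lit 4) (nat_lit 21) (nat_lit 5) (nat_lit 21) (nat_lit 4) (nat_lit 275) (nat_lit 224) (nat_lit 221))) (XT.nd (nat_lit 78) (nat_lit 228) (nat_lit 0) (XT.lf (nat_lit 0) (nat_lit 7429905722) (nat_lit 152) (nat_lit 3610162461) (nat_lit 152) (nat_lit 776809998) (nat_lit 19) (nat_lit 4) (nat_lit 21) (nat_lit 5) (nat_lit 21) (nat_lit 4) (nat_lit 276) (nat_lit 224) (nat_lit 220)) (XT.lf (nat_lit 0) (nat_lit 1094822745) (nat_lit 152) (nat_lit 1126759259) (nat_lit 228) (nat_lit 9985578553) (nat_lit 16) (nat_lit 5) (nat_lit 18) (nat_lit 5) (nat_lit 19) (nat_lit 4) (nat_lit 277) (nat_lit 224) (nat_lit 219)))) (XT.nd (nat_lit 156) (nat_lit 228) (nat_lit 0) (XT.nd (nat_lit 78) (nat_lit 0) (nat_lit 0) (XT.lf (nat_lit 0) (nat_lit 5328280747) (nat_lit 228) (nat_lit 5823451843) (nat_lit 0) (nat_lit 1465732642) (nat_lit 16)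 (nat_lit 5) (nat_lit 19) (nat_lit 4) (nat_lit 16) (nat_lit 4) (nat_lit 278) (nat_lit 224) (nat_lit 218)) (XT.lf (nat_lit 0) (nat_lit 8500081061) (nat_lit 228) (nat_lit 456355748) (nat_lit 0) (nat_lit 4096711962) (nat_lit 16) (nat_lit 5) (nat_lit 19) (nat_lit 4) (nat_lit 16) (nat_lit 4) (nat_lit 279) (nat_lit 224) (nat_lit 217))) (XT.nd (nat_lit 78) (nat_lit 76) (nat_lit 0) (XT.lf (nat_lit 0) (nat_lit 5185282564) (nat_lit 152) (nat_lit 6622617209) (nat_lit 152) (nat_lit 1704180498) (nat_lit 14) (nat_lit 4) (nat_lit 16) (nat_lit 5) (nat_lit 16) (nat_lit 4) (nat_lit 280) (nat_lit 224) (nat_lit 216)) (XT.lf (nat_lit 0) (nat_lit 1150791109) (nat_lit 228) (nat_lit 3049855519) (nat_lit 76) (nat_lit 9797369109) (nat_lit 13) (nat_lit 5) (nat_lit 16) (nat_lit 5) (nat_lit 14) (nat_lit 4) (nat_lit 281) (nat_lit 224) (nat_lit 215))))) (XT.nd (nat_lit 312) (nat_lit 152) (nat_lit 0) (XT.nd (nat_lit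 156) (nat_lit 152) (nat_lit 0) (XT.nd (nat_lit 78) (nat_lit 0) (nat_lit 0) (XT.lf (nat_lit 0) (nat_lit 2386122154) (nat_lit 76) (nat_lit 1644258800) (nat_lit 152) (nat_lit 10479802650) (nat_lit 12) (nat_lit 5) (nat_lit 13) (nat_lit 5) (nat_lit 14) (nat_lit 4) (nat_lit 282) (nat_lit 224) (nat_lit 214)) (XT.lf (nat_lit 0) (nat_lit 7026031225) (nat_lit 152) (nat_lit 7017658254) (nat_lit 0) (nat_lit 1005942109) (nat_lit 12) (nat_lit 5) (nat_lit 14) (nat_lit 4) (nat_lit 12) (nat_lit 4) (nat_lit 283) (nat_lit 224) (nat_lit 213))) (XT.nd (nat_lit 78) (nat_lit 152) (nat_lit 0) (XT.lf (nat_lit 0) (nat_lit 10106368513) (nat_lit 152) (nat_lit 1830490429) (nat_lit 0) (nat_lit 3682710445) (nat_lit 12) (nat_lit 5) (nat_lit 14) (nat_lit 4) (nat_lit 12) (nat_lit 4) (nat_lit 284) (nat_lit 224) (nat_lit 212)) (XT.lf (nat_lit 0) (nat_lit 3590378442) (nat_lit 152) (nat_lit 9718732893) (nat_lit 152) (nat_lit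 2910723442) (nat_lit 10) (nat_lit 4) (nat_lit 12) (nat_lit 5) (nat_lit 12) (nat_lit 4) (nat_lit 285) (nat_lit 224) (nat_lit 211)))) (XT.nd (nat_lit 156) (nat_lit 76) (nat_lit 0) (XT.nd (nat_lit 78) (nat_lit 76) (nat_lit 0) (XT.lf (nat_lit 0) (nat_lit 9207536664) (nat_lit 152) (nat_lit 7409802981) (nat_lit 152) (nat_lit 235744594) (nat_lit 10) (nat_lit 4) (nat_lit 12) (nat_lit 5) (nat_lit 12) (nat_lit 4) (nat_lit 286) (nat_lit 224) (nat_lit 210)) (XT.lf (nat_lit 0) (nat_lit 2407501549) (nat_lit 228) (nat_lit 2587298244) (nat_lit 76) (nat_lit 12525560389) (nat_lit 9) (nat_lit 5) (nat_lit 12) (nat_lit 5) (nat_lit 10) (nat_lit 4) (nat_lit 287) (nat_lit 224) (nat_lit 209))) (XT.nd (nat_lit 78) (nat_lit 0) (nat_lit 0) (XT.lf (nat_lit 0) (nat_lit 2677423261) (nat_lit 76) (nat_lit 2460194718) (nat_lit 152) (nat_lit 13085262969) (nat_lit 8) (nat_lit 5) (nat_lit 9) (nat_lit 5) (nat_lit 10) (nat_lit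 4) (nat_lit 288) (nat_lit 224) (nat_lit 208)) (XT.nd (nat_lit 78) (nat_lit 0) (nat_lit 0) (XT.lf (nat_lit 0) (nat_lit 7973781884) (nat_lit 152) (nat_lit 10796492821) (nat_lit 0) (nat_lit 191971950) (nat_lit 8) (nat_lit 5) (nat_lit 10) (nat_lit 4) (nat_lit 8) (nat_lit 4) (nat_lit 289) (nat_lit 224) (nat_lit 207)) (XT.lf (nat_lit 0) (nat_lit 10917671543) (nat_lit 152) (nat_lit 5973747190) (nat_lit 0) (nat_lit 2849052689) (nat_lit 8) (nat_lit 5) (nat_lit 10) (nat_lit 4) (nat_lit 8) (nat_lit 4) (nat_lit 290) (nat_lit 224) (nat_lit 206))))))))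
noncomputable def xc61 : XT := (XT.nd (nat_lit 1326) (nat_lit 152) (nat_lit 0) (XT.nd (nat_lit 624) (nat_lit 76) (nat_lit 0) (XT.nd (nat_lit 312) (nat_lit 76) (nat_lit 0) (XT.nd (nat_lit 156) (nat_lit 76) (nat_lit 0) (XT.nd (nat_lit 78) (nat_lit 76) (nat_lit 0) (XT.lf (nat_lit 0) (nat_lit 13937885683) (nat_lit 152) (nat_lit 1027327533) (nat_lit 0) (nat_lit 5596115478) (nat_lit 8) (nat_lit 5) (nat_lit 10) (nat_lit 4) (nat_lit 8) (nat_lit 4) (nat_lit 291) (nat_lit 224) (nat_lit 205)) (XT.lf (nat_lit 0) (nat_lit 4188604853) (nat_lit 76) (nat_lit 12918406297) (nat_lit 76) (nat_lit 4316491947) (nat_lit 7) (nat_lit 4) (nat_lit 8) (nat_lit 5) (nat_lit 8) (nat_lit 4) (nat_lit 292) (nat_lit 224) (nat_lit 204))) (XT.nd (nat_lit 78) (nat_lit 76) (nat_lit 0) (XT.lf (nat_lit 0) (nat_lit 9590934935) (nat_lit 76) (nat_lit 10795056634) (nat_lit 76) (nat_lit 1945385956) (nat_lit 7) (nat_lit 4) (nat_lit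 8) (nat_lit 5) (nat_lit 8) (nat_lit 4) (nat_lit 293) (nat_lit 224) (nat_lit 203)) (XT.lf (nat_lit 0) (nat_lit 462819268) (nat_lit 152) (nat_lit 8136849586) (nat_lit 76) (nat_lit 14687899980) (nat_lit 6) (nat_lit 5) (nat_lit 8) (nat_lit 5) (nat_lit 7) (nat_lit 4) (nat_lit 294) (nat_lit 224) (nat_lit 202)))) (XT.nd (nat_lit 156) (nat_lit 0) (nat_lit 0) (XT.nd (nat_lit 78) (nat_lit 76) (nat_lit 0) (XT.lf (nat_lit 0) (nat_lit 2865070500) (nat_lit 152) (nat_lit 3436956854) (nat_lit 76) (nat_lit 17991136384) (nat_lit 6) (nat_lit 5) (nat_lit 8) (nat_lit 5) (nat_lit 7) (nat_lit 4) (nat_lit 295) (nat_lit 224) (nat_lit 201)) (XT.lf (nat_lit 0) (nat_lit 1447115484) (nat_lit 76) (nat_lit 3904829927) (nat_lit 152) (nat_lit 19999000070) (nat_lit 5) (nat_lit 5) (nat_lit 6) (nat_lit 5) (nat_lit 7) (nat_lit 4) (nat_lit 296) (nat_lit 224) (nat_lit 200))) (XT.nd (nat_lit 78) (nat_lit 0) (nat_lit 0) (XT.lf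 (nat_lit 0) (nat_lit 6599149700) (nat_lit 76) (nat_lit 1365412277) (nat_lit 152) (nat_lit 18497110775) (nat_lit 5) (nat_lit 5) (nat_lit 6) (nat_lit 5) (nat_lit 7) (nat_lit 4) (nat_lit 297) (nat_lit 224) (nat_lit 199)) (XT.lf (nat_lit 0) (nat_lit 10673441527) (nat_lit 152) (nat_lit 15732726254) (nat_lit 0) (nat_lit 1223607316) (nat_lit 5) (nat_lit 5) (nat_lit 7) (nat_lit 4) (nat_lit 5) (nat_lit 4) (nat_lit 298) (nat_lit 224) (nat_lit 198))))) (XT.nd (nat_lit 312) (nat_lit 0) (nat_lit 0) (XT.nd (nat_lit 156) (nat_lit 76) (nat_lit 0) (XT.nd (nat_lit 78) (nat_lit 0) (nat_lit 0) (XT.lf (nat_lit 0) (nat_lit 13488072928) (nat_lit 152) (nat_lit 11507645907) (nat_lit 0) (nat_lit 3862162920) (nat_lit 5) (nat_lit 5) (nat_lit 7) (nat_lit 4) (nat_lit 5) (nat_lit 4) (nat_lit 299) (nat_lit 224) (nat_lit 197)) (XT.lf (nat_lit 0) (nat_lit 16393839771) (nat_lit 152) (nat_lit 7155904385) (nat_lit 0)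 (nat_lit 6600238528) (nat_lit 5) (nat_lit 5) (nat_lit 7) (nat_lit 4) (nat_lit 5) (nat_lit 4) (nat_lit 300) (nat_lit 224) (nat_lit 196))) (XT.nd (nat_lit 78) (nat_lit 76) (nat_lit 0) (XT.lf (nat_lit 0) (nat_lit 19397660550) (nat_lit 152) (nat_lit 2667140398) (nat_lit 0) (nat_lit 9444353368) (nat_lit 5) (nat_lit 5) (nat_lit 7) (nat_lit 4) (nat_lit 5) (nat_lit 4) (nat_lit 301) (nat_lit 224) (nat_lit 195)) (XT.lf (nat_lit 0) (nat_lit 2034448647) (nat_lit 76) (nat_lit 20504002015) (nat_lit 76) (nat_lit 10398593939) (nat_lit 4) (nat_lit 4) (nat_lit 5) (nat_lit 5) (nat_lit 5) (nat_lit 4) (nat_lit 302) (nat_lit 224) (nat_lit 194)))) (XT.nd (nat_lit 156) (nat_lit 0) (nat_lit 0) (XT.nd (nat_lit 78) (nat_lit 0) (nat_lit 0) (XT.lf (nat_lit 0) (nat_lit 6988223589) (nat_lit 76) (nat_lit 18849204384) (nat_lit 76) (nat_lit 8598938315) (nat_lit 4) (nat_lit 4) (nat_lit 5) (nat_lit 5) (nat_lit 5) (nat_lit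 4) (nat_lit 303) (nat_lit 224) (nat_lit 193)) (XT.lf (nat_lit 0) (nat_lit 12117791420) (nat_lit 76) (nat_lit 17141637377) (nat_lit 76) (nat_lit 6753411314) (nat_lit 4) (nat_lit 4) (nat_lit 5) (nat_lit 5) (nat_lit 5) (nat_lit 4) (nat_lit 304) (nat_lit 224) (nat_lit 192))) (XT.nd (nat_lit 78) (nat_lit 0) (nat_lit 0) (XT.lf (nat_lit 0) (nat_lit 17435365399) (nat_lit 76) (nat_lit 15377235357) (nat_lit 76) (nat_lit 4857618823) (nat_lit 4) (nat_lit 4) (nat_lit 5) (nat_lit 5) (nat_lit 5) (nat_lit 4) (nat_lit 305) (nat_lit 224) (nat_lit 191)) (XT.nd (nat_lit 78) (nat_lit 0) (nat_lit 0) (XT.lf (nat_lit 0) (nat_lit 22953606414) (nat_lit 76) (nat_lit 13551797366) (nat_lit 76) (nat_lit 2907047051) (nat_lit 4) (nat_lit 4) (nat_lit 5) (nat_lit 5) (nat_lit 5) (nat_lit 4) (nat_lit 306) (nat_lit 224) (nat_lit 190)) (XT.lf (nat_lit 0) (nat_lit 28685653136) (nat_lit 76) (nat_lit 11660977125) (nat_lit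 76) (nat_lit 897051779) (nat_lit 4) (nat_lit 4) (nat_lit 5) (nat_lit 5) (nat_lit 5) (nat_lit 4) (nat_lit 307) (nat_lit 224) (nat_lit 189))))))) (XT.nd (nat_lit 624) (nat_lit 0) (nat_lit 0) (XT.nd (nat_lit 312) (nat_lit 0) (nat_lit 0) (XT.nd (nat_lit 156) (nat_lit 76) (nat_lit 0) (XT.nd (nat_lit 78) (nat_lit 0) (nat_lit 0) (XT.lf (nat_lit 0) (nat_lit 1139476456) (nat_lit 152) (nat_lit 8541498638) (nat_lit 76) (nat_lit 33486379253) (nat_lit 3) (nat_lit 5) (nat_lit 5) (nat_lit 5) (nat_lit 4) (nat_lit 4) (nat_lit 308) (nat_lit 224) (nat_lit 188)) (XT.lf (nat_lit 0) (nat_lit 3214228057) (nat_lit 152) (nat_lit 4396353121) (nat_lit 76) (nat_lit 37577633612) (nat_lit 3) (nat_lit 5) (nat_lit 5) (nat_lit 5) (nat_lit 4) (nat_lit 4) (nat_lit 309) (nat_lit 224) (nat_lit 187))) (XT.nd (nat_lit 78) (nat_lit 76) (nat_lit 0) (XT.lf (nat_lit 0) (nat_lit 5360854166) (nat_lit 152) (nat_lit 98717469) (nat_lit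 76) (nat_lit 41852203581) (nat_lit 3) (nat_lit 5) (nat_lit 5) (nat_lit 5) (nat_lit 4) (nat_lit 4) (nat_lit 310) (nat_lit 224) (nat_lit 186)) (XT.lf (nat_lit 0) (nat_lit 4505856327) (nat_lit 76) (nat_lit 3148958517) (nat_lit 152) (nat_lit 41884759426) (nat_lit 2) (nat_lit 5) (nat_lit 3) (nat_lit 5) (nat_lit 4) (nat_lit 4) (nat_lit 311) (nat_lit 224) (nat_lit 185)))) (XT.nd (nat_lit 156) (nat_lit 0) (nat_lit 0) (XT.nd (nat_lit 78) (nat_lit 0) (nat_lit 0) (XT.lf (nat_lit 0) (nat_lit 9292768157) (nat_lit 76) (nat_lit 742675264) (nat_lit 152) (nat_lit 41844779235) (nat_lit 2) (nat_lit 5) (nat_lit 3) (nat_lit 5) (nat_lit 4) (nat_lit 4) (nat_lit 312) (nat_lit 224) (nat_lit 184)) (XT.lf (nat_lit 0) (nat_lit 12534346455) (nat_lit 152) (nat_lit 40096752187) (nat_lit 0) (nat_lit 1706897788) (nat_lit 2) (nat_lit 5) (nat_lit 4) (nat_lit 4) (nat_lit 2) (nat_lit 4) (nat_lit 313) (nat_lit 224) (nat_lit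 183))) (XT.nd (nat_lit 78) (nat_lit 0) (nat_lit 0) (XT.lf (nat_lit 0) (nat_lit 15143122981) (nat_lit 152) (nat_lit 37541330028) (nat_lit 0) (nat_lit 4235011963) (nat_lit 2) (nat_lit 5) (nat_lit 4) (nat_lit 4) (nat_lit 2) (nat_lit 4) (nat_lit 314) (nat_lit 224) (nat_lit 182)) (XT.lf (nat_lit 0) (nat_lit 17856389130) (nat_lit 152) (nat_lit 34903508441) (nat_lit 0) (nat_lit 6871456825) (nat_lit 2) (nat_lit 5) (nat_lit 4) (nat_lit 4) (nat_lit 2) (nat_lit 4) (nat_lit 315) (nat_lit 224) (nat_lit 181))))) (XT.nd (nat_lit 312) (nat_lit 0) (nat_lit 0) (XT.nd (nat_lit 156) (nat_lit 0) (nat_lit 0) (XT.nd (nat_lit 78) (nat_lit 0) (nat_lit 0) (XT.lf (nat_lit 0) (nat_lit 20680605059) (nat_lit 152) (nat_lit 32177006899) (nat_lit 0) (nat_lit 9622509623) (nat_lit 2) (nat_lit 5) (nat_lit 4) (nat_lit 4) (nat_lit 2) (nat_lit 4) (nat_lit 316) (nat_lit 224) (nat_lit 180)) (XT.lf (nat_lit 0) (nat_lit 23622495091)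 (nat_lit 152) (nat_lit 29355333732) (nat_lit 0) (nat_lit 12494720483) (nat_lit 2) (nat_lit 5) (nat_lit 4) (nat_lit 4) (nat_lit 2) (nat_lit 4) (nat_lit 317) (nat_lit 224) (nat_lit 179))) (XT.nd (nat_lit 78) (nat_lit 0) (nat_lit 0) (XT.lf (nat_lit 0) (nat_lit 26689063727) (nat_lit 152) (nat_lit 26431770669) (nat_lit 0) (nat_lit 15494928004) (nat_lit 2) (nat_lit 5) (nat_lit 4) (nat_lit 4) (nat_lit 2) (nat_lit 4) (nat_lit 318) (nat_lit 224) (nat_lit 178)) (XT.lf (nat_lit 0) (nat_lit 29887612321) (nat_lit 152) (nat_lit 23399356848) (nat_lit 0) (nat_lit 18630275535) (nat_lit 2) (nat_lit 5) (nat_lit 4) (nat_lit 4) (nat_lit 2) (nat_lit 4) (nat_lit 319) (nat_lit 224) (nat_lit 177)))) (XT.nd (nat_lit 156) (nat_lit 0) (nat_lit 0) (XT.nd (nat_lit 78) (nat_lit 0) (nat_lit 0) (XT.lf (nat_lit 0) (nat_lit 33225756465) (nat_lit 152) (nat_lit 20250872234) (nat_lit 0) (nat_lit 21908228190) (nat_lit 2)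 (nat_lit 5) (nat_lit 4) (nat_lit 4) (nat_lit 2) (nat_lit 4) (nat_lit 320) (nat_lit 224) (nat_lit 176)) (XT.lf (nat_lit 0) (nat_lit 36711444120) (nat_lit 152) (nat_lit 16978820436) (nat_lit 0) (nat_lit 25336590618) (nat_lit 2) (nat_lit 5) (nat_lit 4) (nat_lit 4) (nat_lit 2) (nat_lit 4) (nat_lit 321) (nat_lit 224) (nat_lit 175))) (XT.nd (nat_lit 78) (nat_lit 0) (nat_lit 0) (XT.lf (nat_lit 0) (nat_lit 40352974544) (nat_lit 152) (nat_lit 13575410854) (nat_lit 0) (nat_lit 28923525587) (nat_lit 2) (nat_lit 5) (nat_lit 4) (nat_lit 4) (nat_lit 2) (nat_lit 4) (nat_lit 322) (nat_lit 224) (nat_lit 174)) (XT.nd (nat_lit 78) (nat_lit 0) (nat_lit 0) (XT.lf (nat_lit 0) (nat_lit 44159018046) (nat_lit 152) (nat_lit 10032540133) (nat_lit 0) (nat_lit 32677573418) (nat_lit 2) (nat_lit 5) (nat_lit 4) (nat_lit 4) (nat_lit 2) (nat_lit 4) (nat_lit 323) (nat_lit 224) (nat_lit 173)) (XT.lf (nat_lit 0) (nat_lit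 48138636635) (nat_lit 152) (nat_lit 6341772865) (nat_lit 0) (nat_lit 36607672321) (nat_lit 2) (nat_lit 5) (nat_lit 4) (nat_lit 4) (nat_lit 2) (nat_lit 4) (nat_lit 324) (nat_lit 224) (nat_lit 172))))))))
noncomputable def xc62 : XT := (XT.nd (nat_lit 1326) (nat_lit 0) (nat_lit 0) (XT.nd (nat_lit 624) (nat_lit 0) (nat_lit 0) (XT.nd (nat_lit 312) (nat_lit 0) (nat_lit 0) (XT.nd (nat_lit 156) (nat_lit 0) (nat_lit 0) (XT.nd (nat_lit 78) (nat_lit 76) (nat_lit 0) (XT.lf (nat_lit 0) (nat_lit 52301305594) (nat_lit 152) (nat_lit 2494321510) (nat_lit 0) (nat_lit 40723179673) (nat_lit 2) (nat_lit 5) (nat_lit 4) (nat_lit 4) (nat_lit 2) (nat_lit 4) (nat_lit 325) (nat_lit 224) (nat_lit 171)) (XT.lf (nat_lit 0) (nat_lit 1569198688) (nat_lit 76) (nat_lit 55112236939) (nat_lit 76) (nat_lit 43489195203) (nat_lit 1) (nat_lit 4) (nat_lit 2) (nat_lit 5) (nat_lit 2) (nat_lit 4) (nat_lit 326) (nat_lit 224)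 (nat_lit 170))) (XT.nd (nat_lit 78) (nat_lit 0) (nat_lit 0) (XT.lf (nat_lit 0) (nat_lit 5896392095) (nat_lit 76) (nat_lit 55411565627) (nat_lit 76) (nat_lit 43745746924) (nat_lit 1) (nat_lit 4) (nat_lit 2) (nat_lit 5) (nat_lit 2) (nat_lit 4) (nat_lit 327) (nat_lit 224) (nat_lit 169)) (XT.lf (nat_lit 0) (nat_lit 10415088017) (nat_lit 76) (nat_lit 55736568399) (nat_lit 76) (nat_lit 44030009727) (nat_lit 1) (nat_lit 4) (nat_lit 2) (nat_lit 5) (nat_lit 2) (nat_lit 4) (nat_lit 328) (nat_lit 224) (nat_lit 168)))) (XT.nd (nat_lit 156) (nat_lit 0) (nat_lit 0) (XT.nd (nat_lit 78) (nat_lit 0) (nat_lit 0) (XT.lf (nat_lit 0) (nat_lit 15136045254) (nat_lit 76) (nat_lit 56088019070) (nat_lit 76) (nat_lit 44342660428) (nat_lit 1) (nat_lit 4) (nat_lit 2) (nat_lit 5) (nat_lit 2) (nat_lit 4) (nat_lit 329) (nat_lit 224) (nat_lit 167)) (XT.lf (nat_lit 0) (nat_lit 20070504180) (nat_lit 76) (nat_lit 56466754427)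 (nat_lit 76) (nat_lit 44684443432) (nat_lit 1) (nat_lit 4) (nat_lit 2) (nat_lit 5) (nat_lit 2) (nat_lit 4) (nat_lit 330) (nat_lit 224) (nat_lit 166))) (XT.nd (nat_lit 78) (nat_lit 0) (nat_lit 0) (XT.lf (nat_lit 0) (nat_lit 25230213507) (nat_lit 76) (nat_lit 56873676221) (nat_lit 76) (nat_lit 45056172510) (nat_lit 1) (nat_lit 4) (nat_lit 2) (nat_lit 5) (nat_lit 2) (nat_lit 4) (nat_lit 331) (nat_lit 224) (nat_lit 165)) (XT.lf (nat_lit 0) (nat_lit 30627458258) (nat_lit 76) (nat_lit 57309753314) (nat_lit 76) (nat_lit 45458732729) (nat_lit 1) (nat_lit 4) (nat_lit 2) (nat_lit 5) (nat_lit 2) (nat_lit 4) (nat_lit 332) (nat_lit 224) (nat_lit 164))))) (XT.nd (nat_lit 312) (nat_lit 0) (nat_lit 0) (XT.nd (nat_lit 156) (nat_lit 0) (nat_lit 0) (XT.nd (nat_lit 78) (nat_lit 0) (nat_lit 0) (XT.lf (nat_lit 0) (nat_lit 36275089015) (nat_lit 76) (nat_lit 57776023984) (nat_lit 76) (nat_lit 45893082568)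 (nat_lit 1) (nat_lit 4) (nat_lit 2) (nat_lit 5) (nat_lit 2) (nat_lit 4) (nat_lit 333) (nat_lit 224) (nat_lit 163)) (XT.lf (nat_lit 0) (nat_lit 42186552518) (nat_lit 76) (nat_lit 58273598399) (nat_lit 76) (nat_lit 46360256192) (nat_lit 1) (nat_lit 4) (nat_lit 2) (nat_lit 5) (nat_lit 2) (nat_lit 4) (nat_lit 334) (nat_lit 224) (nat_lit 162))) (XT.nd (nat_lit 78) (nat_lit 0) (nat_lit 0) (XT.lf (nat_lit 0) (nat_lit 48375923680) (nat_lit 76) (nat_lit 58803661262) (nat_lit 76) (nat_lit 46861365919) (nat_lit 1) (nat_lit 4) (nat_lit 2) (nat_lit 5) (nat_lit 2) (nat_lit 4) (nat_lit 335) (nat_lit 224) (nat_lit 161)) (XT.lf (nat_lit 0) (nat_lit 54857939100) (nat_lit 76) (nat_lit 59367474625) (nat_lit 76) (nat_lit 47397604868) (nat_lit 1) (nat_lit 4) (nat_lit 2) (nat_lit 5) (nat_lit 2) (nat_lit 4) (nat_lit 336) (nat_lit 224) (nat_lit 160)))) (XT.nd (nat_lit 156) (nat_lit 0) (nat_lit 0) (XT.nd (nat_lit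 78) (nat_lit 0) (nat_lit 0) (XT.lf (nat_lit 0) (nat_lit 61648032146) (nat_lit 76) (nat_lit 59966380903) (nat_lit 76) (nat_lit 47970249799) (nat_lit 1) (nat_lit 4) (nat_lit 2) (nat_lit 5) (nat_lit 2) (nat_lit 4) (nat_lit 337) (nat_lit 224) (nat_lit 159)) (XT.lf (nat_lit 0) (nat_lit 68762369708) (nat_lit 76) (nat_lit 60601806061) (nat_lit 76) (nat_lit 48580664151) (nat_lit 1) (nat_lit 4) (nat_lit 2) (nat_lit 5) (nat_lit 2) (nat_lit 4) (nat_lit 338) (nat_lit 224) (nat_lit 158))) (XT.nd (nat_lit 78) (nat_lit 0) (nat_lit 0) (XT.lf (nat_lit 0) (nat_lit 76217890684) (nat_lit 76) (nat_lit 61275263018) (nat_lit 76) (nat_lit 49230301291) (nat_lit 1) (nat_lit 4) (nat_lit 2) (nat_lit 5) (nat_lit 2) (nat_lit 4) (nat_lit 339) (nat_lit 224) (nat_lit 157)) (XT.nd (nat_lit 78) (nat_lit 0) (nat_lit 0) (XT.lf (nat_lit 0) (nat_lit 84032346315) (nat_lit 76) (nat_lit 61988355242) (nat_lit 76) (nat_lit 49920707976)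 (nat_lit 1) (nat_lit 4) (nat_lit 2) (nat_lit 5) (nat_lit 2) (nat_lit 4) (nat_lit 340) (nat_lit 224) (nat_lit 156)) (XT.lf (nat_lit 0) (nat_lit 92224342448) (nat_lit 76) (nat_lit 62742780572) (nat_lit 76) (nat_lit 50653528031) (nat_lit 1) (nat_lit 4) (nat_lit 2) (nat_lit 5) (nat_lit 2) (nat_lit 4) (nat_lit 341) (nat_lit 224) (nat_lit 155))))))) (XT.nd (nat_lit 624) (nat_lit 0) (nat_lit 0) (XT.nd (nat_lit 312) (nat_lit 0) (nat_lit 0) (XT.nd (nat_lit 156) (nat_lit 0) (nat_lit 0) (XT.nd (nat_lit 78) (nat_lit 0) (nat_lit 0) (XT.lf (nat_lit 0) (nat_lit 100813383834) (nat_lit 76) (nat_lit 63540335258) (nat_lit 76) (nat_lit 51430506265) (nat_lit 1) (nat_lit 4) (nat_lit 2) (nat_lit 5) (nat_lit 2) (nat_lit 4) (nat_lit 342) (nat_lit 224) (nat_lit 154)) (XT.lf (nat_lit 0) (nat_lit 109819920573) (nat_lit 76) (nat_lit 64382918241) (nat_lit 76) (nat_lit 52253492626) (nat_lit 1) (nat_lit 4) (nat_lit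 2) (nat_lit 5) (nat_lit 2) (nat_lit 4) (nat_lit 343) (nat_lit 224) (nat_lit 153))) (XT.nd (nat_lit 78) (nat_lit 0) (nat_lit 0) (XT.lf (nat_lit 0) (nat_lit 119265396801) (nat_lit 76) (nat_lit 65272535669) (nat_lit 76) (nat_lit 53124446605) (nat_lit 1) (nat_lit 4) (nat_lit 2) (nat_lit 5) (nat_lit 2) (nat_lit 4) (nat_lit 344) (nat_lit 224) (nat_lit 152)) (XT.lf (nat_lit 0) (nat_lit 129172301745) (nat_lit 76) (nat_lit 66211305681) (nat_lit 76) (nat_lit 54045441904) (nat_lit 1) (nat_lit 4) (nat_lit 2) (nat_lit 5) (nat_lit 2) (nat_lit 4) (nat_lit 345) (nat_lit 224) (nat_lit 151)))) (XT.nd (nat_lit 156) (nat_lit 0) (nat_lit 0) (XT.nd (nat_lit 78) (nat_lit 0) (nat_lit 0) (XT.lf (nat_lit 0) (nat_lit 139564223275) (nat_lit 76) (nat_lit 67201463443) (nat_lit 76) (nat_lit 55018671367) (nat_lit 1) (nat_lit 4) (nat_lit 2) (nat_lit 5) (nat_lit 2) (nat_lit 4) (nat_lit 346) (nat_lit 224) (nat_lit 150))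 (XT.lf (nat_lit 0) (nat_lit 150465904061) (nat_lit 76) (nat_lit 68245366472) (nat_lit 76) (nat_lit 56046452208) (nat_lit 1) (nat_lit 4) (nat_lit 2) (nat_lit 5) (nat_lit 2) (nat_lit 4) (nat_lit 347) (nat_lit 224) (nat_lit 149))) (XT.nd (nat_lit 78) (nat_lit 0) (nat_lit 0) (XT.lf (nat_lit 0) (nat_lit 161903300486) (nat_lit 76) (nat_lit 69345500254) (nat_lit 76) (nat_lit 57131231523) (nat_lit 1) (nat_lit 4) (nat_lit 2) (nat_lit 5) (nat_lit 2) (nat_lit 4) (nat_lit 348) (nat_lit 224) (nat_lit 148)) (XT.lf (nat_lit 0) (nat_lit 173903644446) (nat_lit 76) (nat_lit 70504484153) (nat_lit 76) (nat_lit 58275592122) (nat_lit 1) (nat_lit 4) (nat_lit 2) (nat_lit 5) (nat_lit 2) (nat_lit 4) (nat_lit 349) (nat_lit 224) (nat_lit 147))))) (XT.nd (nat_lit 312) (nat_lit 0) (nat_lit 0) (XT.nd (nat_lit 156) (nat_lit 0) (nat_lit 0) (XT.nd (nat_lit 78) (nat_lit 0) (nat_lit 0) (XT.lf (nat_lit 0) (nat_lit 186495508189)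 (nat_lit 76) (nat_lit 71725077655) (nat_lit 76) (nat_lit 59482258671) (nat_lit 1) (nat_lit 4) (nat_lit 2) (nat_lit 5) (nat_lit 2) (nat_lit 4) (nat_lit 350) (nat_lit 224) (nat_lit 146)) (XT.lf (nat_lit 0) (nat_lit 199708872343) (nat_lit 76) (nat_lit 73010186935) (nat_lit 76) (nat_lit 60754104186) (nat_lit 1) (nat_lit 4) (nat_lit 2) (nat_lit 5) (nat_lit 2) (nat_lit 4) (nat_lit 351) (nat_lit 224) (nat_lit 145))) (XT.nd (nat_lit 78) (nat_lit 0) (nat_lit 0) (XT.lf (nat_lit 0) (nat_lit 213575197299) (nat_lit 76) (nat_lit 74362871778) (nat_lit 76) (nat_lit 62094156872) (nat_lit 1) (nat_lit 4) (nat_lit 2) (nat_lit 5) (nat_lit 2) (nat_lit 4) (nat_lit 352) (nat_lit 224) (nat_lit 144)) (XT.lf (nat_lit 0) (nat_lit 228127498115) (nat_lit 76) (nat_lit 75786352861) (nat_lit 76) (nat_lit 63505607329) (nat_lit 1) (nat_lit 4) (nat_lit 2) (nat_lit 5) (nat_lit 2) (nat_lit 4) (nat_lit 353) (nat_lit 224)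 (nat_lit 143)))) (XT.nd (nat_lit 156) (nat_lit 0) (nat_lit 0) (XT.nd (nat_lit 78) (nat_lit 0) (nat_lit 0) (XT.lf (nat_lit 0) (nat_lit 243400423128) (nat_lit 76) (nat_lit 77284019425) (nat_lit 76) (nat_lit 64991816155) (nat_lit 1) (nat_lit 4) (nat_lit 2) (nat_lit 5) (nat_lit 2) (nat_lit 4) (nat_lit 354) (nat_lit 224) (nat_lit 142)) (XT.lf (nat_lit 0) (nat_lit 259430336444) (nat_lit 76) (nat_lit 78859437343) (nat_lit 76) (nat_lit 66556321940) (nat_lit 1) (nat_lit 4) (nat_lit 2) (nat_lit 5) (nat_lit 2) (nat_lit 4) (nat_lit 355) (nat_lit 224) (nat_lit 141))) (XT.nd (nat_lit 78) (nat_lit 0) (nat_lit 0) (XT.lf (nat_lit 0) (nat_lit 276255404523) (nat_lit 76) (nat_lit 80516357610) (nat_lit 76) (nat_lit 68202849701) (nat_lit 1) (nat_lit 4) (nat_lit 2) (nat_lit 5) (nat_lit 2) (nat_lit 4) (nat_lit 356) (nat_lit 224) (nat_lit 140)) (XT.nd (nat_lit 78) (nat_lit 0) (nat_lit 0) (XT.lf (nat_lit 0)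 (nat_lit 293915687053) (nat_lit 76) (nat_lit 82258725274) (nat_lit 76) (nat_lit 69935319739) (nat_lit 1) (nat_lit 4) (nat_lit 2) (nat_lit 5) (nat_lit 2) (nat_lit 4) (nat_lit 357) (nat_lit 224) (nat_lit 139)) (XT.lf (nat_lit 0) (nat_lit 312453232323) (nat_lit 76) (nat_lit 84090688829) (nat_lit 76) (nat_lit 71757856985) (nat_lit 1) (nat_lit 4) (nat_lit 2) (nat_lit 5) (nat_lit 2) (nat_lit 4) (nat_lit 358) (nat_lit 224) (nat_lit 138))))))))
noncomputable def xc63 : XT := (XT.nd (nat_lit 31668) (nat_lit 0) (nat_lit 304) (XT.nd (nat_lit 30966) (nat_lit 0) (nat_lit 836) (XT.nd (nat_lit 30654) (nat_lit 0) (nat_lit 1520) (XT.nd (nat_lit 156) (nat_lit 0) (nat_lit 0) (XT.nd (nat_lit 78) (nat_lit 0) (nat_lit 0) (XT.lf (nat_lit 0) (nat_lit 331912177348) (nat_lit 76) (nat_lit 86016610094) (nat_lit 76) (nat_lit 73674800812) (nat_lit 1) (nat_lit 4) (nat_lit 2) (nat_lit 5) (nat_lit 2) (nat_lit 4) (nat_lit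 359) (nat_lit 224) (nat_lit 137)) (XT.lf (nat_lit 0) (nat_lit 352338852948) (nat_lit 76) (nat_lit 88041074596) (nat_lit 76) (nat_lit 75690715372) (nat_lit 1) (nat_lit 4) (nat_lit 2) (nat_lit 5) (nat_lit 2) (nat_lit 4) (nat_lit 360) (nat_lit 224) (nat_lit 136))) (XT.nd (nat_lit 30420) (nat_lit 0) (nat_lit 1976) (XT.lf (nat_lit 0) (nat_lit 373781894065) (nat_lit 76) (nat_lit 90168902487) (nat_lit 76) (nat_lit 77810400462) (nat_lit 1) (nat_lit 4) (nat_lit 2) (nat_lit 5) (nat_lit 2) (nat_lit 4) (nat_lit 361) (nat_lit 224) (nat_lit 135)) (XT.lf (nat_lit 0) (nat_lit 1307015966) (nat_lit 228) (nat_lit 2333137111) (nat_lit 0) (nat_lit 1307015966) (nat_lit 27) (nat_lit 5) (nat_lit 30) (nat_lit 4) (nat_lit 27) (nat_lit 4) (nat_lit 270) (nat_lit 225) (nat_lit 225)))) (XT.nd (nat_lit 156) (nat_lit 228) (nat_lit 0) (XT.nd (nat_lit 78) (nat_lit 0) (nat_lit 0) (XT.lf (nat_lit 0) (nat_lit 725823955)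 (nat_lit 228) (nat_lit 5142735069) (nat_lit 228) (nat_lit 4303744202) (nat_lit 24) (nat_lit 4) (nat_lit 27) (nat_lit 5) (nat_lit 27) (nat_lit 4) (nat_lit 271) (nat_lit 225) (nat_lit 224)) (XT.lf (nat_lit 0) (nat_lit 6367283779) (nat_lit 228) (nat_lit 2868955646) (nat_lit 228) (nat_lit 1230925859) (nat_lit 24) (nat_lit 4) (nat_lit 27) (nat_lit 5) (nat_lit 27) (nat_lit 4) (nat_lit 272) (nat_lit 225) (nat_lit 223))) (XT.nd (nat_lit 78) (nat_lit 0) (nat_lit 0) (XT.lf (nat_lit 0) (nat_lit 1347859323) (nat_lit 152) (nat_lit 479886314) (nat_lit 228) (nat_lit 8953134587) (nat_lit 21) (nat_lit 5) (nat_lit 23) (nat_lit 5) (nat_lit 24) (nat_lit 4) (nat_lit 273) (nat_lit 225) (nat_lit 222)) (XT.lf (nat_lit 0) (nat_lit 4977643518) (nat_lit 228) (nat_lit 4130471213) (nat_lit 0) (nat_lit 2002623432) (nat_lit 21) (nat_lit 5) (nat_lit 24) (nat_lit 4) (nat_lit 21) (nat_lit 4) (nat_lit 274) (nat_lit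 225) (nat_lit 221))))) (XT.nd (nat_lit 312) (nat_lit 304) (nat_lit 0) (XT.nd (nat_lit 156) (nat_lit 228) (nat_lit 0) (XT.nd (nat_lit 78) (nat_lit 0) (nat_lit 0) (XT.lf (nat_lit 0) (nat_lit 1298520964) (nat_lit 152) (nat_lit 6897908778) (nat_lit 152) (nat_lit 3265517395) (nat_lit 19) (nat_lit 4) (nat_lit 21) (nat_lit 5) (nat_lit 21) (nat_lit 4) (nat_lit 275) (nat_lit 225) (nat_lit 220)) (XT.lf (nat_lit 0) (nat_lit 6972764899) (nat_lit 152) (nat_lit 4559506296) (nat_lit 152) (nat_lit 301047010) (nat_lit 19) (nat_lit 4) (nat_lit 21) (nat_lit 5) (nat_lit 21) (nat_lit 4) (nat_lit 276) (nat_lit 225) (nat_lit 219))) (XT.nd (nat_lit 78) (nat_lit 0) (nat_lit 0) (XT.lf (nat_lit 0) (nat_lit 514484431) (nat_lit 152) (nat_lit 2104636964) (nat_lit 228) (nat_lit 9607437871) (nat_lit 16) (nat_lit 5) (nat_lit 18) (nat_lit 5) (nat_lit 19) (nat_lit 4) (nat_lit 277) (nat_lit 225) (nat_lit 218)) (XT.lf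 (nat_lit 0) (nat_lit 5657525981) (nat_lit 228) (nat_lit 6489756923) (nat_lit 0) (nat_lit 493167434) (nat_lit 16) (nat_lit 5) (nat_lit 19) (nat_lit 4) (nat_lit 16) (nat_lit 4) (nat_lit 278) (nat_lit 225) (nat_lit 217)))) (XT.nd (nat_lit 156) (nat_lit 152) (nat_lit 0) (XT.nd (nat_lit 78) (nat_lit 152) (nat_lit 0) (XT.lf (nat_lit 0) (nat_lit 8778824631) (nat_lit 228) (nat_lit 1200599370) (nat_lit 0) (nat_lit 3099398472) (nat_lit 16) (nat_lit 5) (nat_lit 19) (nat_lit 4) (nat_lit 16) (nat_lit 4) (nat_lit 279) (nat_lit 225) (nat_lit 216)) (XT.lf (nat_lit 0) (nat_lit 4339749418) (nat_lit 152) (nat_lit 7685595961) (nat_lit 152) (nat_lit 1515629219) (nat_lit 14) (nat_lit 4) (nat_lit 16) (nat_lit 5) (nat_lit 16) (nat_lit 4) (nat_lit 280) (nat_lit 225) (nat_lit 215))) (XT.nd (nat_lit 78) (nat_lit 76) (nat_lit 0) (XT.lf (nat_lit 0) (nat_lit 1285447688) (nat_lit 228) (nat_lit 4001980489) (nat_lit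 76) (nat_lit 8741868940) (nat_lit 13) (nat_lit 5) (nat_lit 16) (nat_lit 5) (nat_lit 14) (nat_lit 4) (nat_lit 281) (nat_lit 225) (nat_lit 214)) (XT.nd (nat_lit 78) (nat_lit 0) (nat_lit 0) (XT.lf (nat_lit 0) (nat_lit 1328967653) (nat_lit 76) (nat_lit 2773983894) (nat_lit 152) (nat_lit 10441752258) (nat_lit 12) (nat_lit 5) (nat_lit 13) (nat_lit 5) (nat_lit 14) (nat_lit 4) (nat_lit 282) (nat_lit 225) (nat_lit 213)) (XT.lf (nat_lit 0) (nat_lit 6921809257) (nat_lit 76) (nat_lit 116063755) (nat_lit 152) (nat_lit 8049443336) (nat_lit 12) (nat_lit 5) (nat_lit 13) (nat_lit 5) (nat_lit 14) (nat_lit 4) (nat_lit 283) (nat_lit 225) (nat_lit 212))))))) (XT.nd (nat_lit 624) (nat_lit 228) (nat_lit 0) (XT.nd (nat_lit 312) (nat_lit 76) (nat_lit 0) (XT.nd (nat_lit 156) (nat_lit 76) (nat_lit 0) (XT.nd (nat_lit 78) (nat_lit 152) (nat_lit 0) (XT.lf (nat_lit 0) (nat_lit 10073633732) (nat_lit 152) (nat_lit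 3045098833) (nat_lit 0) (nat_lit 2540872426) (nat_lit 12) (nat_lit 5) (nat_lit 14) (nat_lit 4) (nat_lit 12) (nat_lit 4) (nat_lit 284) (nat_lit 225) (nat_lit 211)) (XT.lf (nat_lit 0) (nat_lit 2268143946) (nat_lit 152) (nat_lit 10946860738) (nat_lit 152) (nat_lit 3048050496) (nat_lit 10) (nat_lit 4) (nat_lit 12) (nat_lit 5) (nat_lit 12) (nat_lit 4) (nat_lit 285) (nat_lit 225) (nat_lit 210))) (XT.nd (nat_lit 78) (nat_lit 76) (nat_lit 0) (XT.lf (nat_lit 0) (nat_lit 7821049166) (nat_lit 152) (nat_lit 8662392009) (nat_lit 152) (nat_lit 414963732) (nat_lit 10) (nat_lit 4) (nat_lit 12) (nat_lit 5) (nat_lit 12) (nat_lit 4) (nat_lit 286) (nat_lit 225) (nat_lit 209)) (XT.lf (nat_lit 0) (nat_lit 2195398280) (nat_lit 228) (nat_lit 4078878976) (nat_lit 76) (nat_lit 11293574896) (nat_lit 9) (nat_lit 5) (nat_lit 12) (nat_lit 5) (nat_lit 10) (nat_lit 4) (nat_lit 287) (nat_lit 225) (nat_lit 208))))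 (XT.nd (nat_lit 156) (nat_lit 0) (nat_lit 0) (XT.nd (nat_lit 78) (nat_lit 0) (nat_lit 0) (XT.lf (nat_lit 0) (nat_lit 1074962659) (nat_lit 76) (nat_lit 3788751947) (nat_lit 152) (nat_lit 13409843919) (nat_lit 8) (nat_lit 5) (nat_lit 9) (nat_lit 5) (nat_lit 10) (nat_lit 4) (nat_lit 288) (nat_lit 225) (nat_lit 207)) (XT.lf (nat_lit 0) (nat_lit 6507914395) (nat_lit 76) (nat_lit 1152922700) (nat_lit 152) (nat_lit 11354130258) (nat_lit 8) (nat_lit 5) (nat_lit 9) (nat_lit 5) (nat_lit 10) (nat_lit 4) (nat_lit 289) (nat_lit 225) (nat_lit 206))) (XT.nd (nat_lit 78) (nat_lit 0) (nat_lit 0) (XT.lf (nat_lit 0) (nat_lit 10552155667) (nat_lit 152) (nat_lit 7723606123) (nat_lit 0) (nat_lit 1520145600) (nat_lit 8) (nat_lit 5) (nat_lit 10) (nat_lit 4) (nat_lit 8) (nat_lit 4) (nat_lit 290) (nat_lit 225) (nat_lit 205)) (XT.lf (nat_lit 0) (nat_lit 13539445300) (nat_lit 152) (nat_lit 2831757084) (nat_lit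 0) (nat_lit 4247291088) (nat_lit 8) (nat_lit 5) (nat_lit 10) (nat_lit 4) (nat_lit 8) (nat_lit 4) (nat_lit 291) (nat_lit 225) (nat_lit 204))))) (XT.nd (nat_lit 312) (nat_lit 76) (nat_lit 0) (XT.nd (nat_lit 156) (nat_lit 76) (nat_lit 0) (XT.nd (nat_lit 78) (nat_lit 0) (nat_lit 0) (XT.lf (nat_lit 0) (nat_lit 2270822265) (nat_lit 76) (nat_lit 14376449868) (nat_lit 76) (nat_lit 4836539327) (nat_lit 7) (nat_lit 4) (nat_lit 8) (nat_lit 5) (nat_lit 8) (nat_lit 4) (nat_lit 292) (nat_lit 225) (nat_lit 203)) (XT.lf (nat_lit 0) (nat_lit 7622018589) (nat_lit 76) (nat_lit 12273572124) (nat_lit 76) (nat_lit 2497703176) (nat_lit 7) (nat_lit 4) (nat_lit 8) (nat_lit 5) (nat_lit 8) (nat_lit 4) (nat_lit 293) (nat_lit 225) (nat_lit 202))) (XT.nd (nat_lit 78) (nat_lit 76) (nat_lit 0) (XT.lf (nat_lit 0) (nat_lit 13140942152) (nat_lit 76) (nat_lit 10105519477) (nat_lit 76) (nat_lit 104928236) (nat_lit 7)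 (nat_lit 4) (nat_lit 8) (nat_lit 5) (nat_lit 8) (nat_lit 4) (nat_lit 294) (nat_lit 225) (nat_lit 201)) (XT.lf (nat_lit 0) (nat_lit 2272348471) (nat_lit 152) (nat_lit 5556298105) (nat_lit 76) (nat_lit 16529901456) (nat_lit 6) (nat_lit 5) (nat_lit 8) (nat_lit 5) (nat_lit 7) (nat_lit 4) (nat_lit 295) (nat_lit 225) (nat_lit 200)))) (XT.nd (nat_lit 156) (nat_lit 0) (nat_lit 0) (XT.nd (nat_lit 78) (nat_lit 76) (nat_lit 0) (XT.lf (nat_lit 0) (nat_lit 4709646158) (nat_lit 152) (nat_lit 763667592) (nat_lit 76) (nat_lit 19945556515) (nat_lit 6) (nat_lit 5) (nat_lit 8) (nat_lit 5) (nat_lit 7) (nat_lit 4) (nat_lit 296) (nat_lit 225) (nat_lit 199)) (XT.lf (nat_lit 0) (nat_lit 4318719055) (nat_lit 76) (nat_lit 2964834524) (nat_lit 152) (nat_lit 19248038106) (nat_lit 5) (nat_lit 5) (nat_lit 6) (nat_lit 5) (nat_lit 7) (nat_lit 4) (nat_lit 297) (nat_lit 225) (nat_lit 198))) (XT.nd (nat_lit 78) (nat_lit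 0) (nat_lit 0) (XT.lf (nat_lit 0) (nat_lit 9595057468) (nat_lit 76) (nat_lit 352504892) (nat_lit 152) (nat_lit 17754431106) (nat_lit 5) (nat_lit 5) (nat_lit 6) (nat_lit 5) (nat_lit 7) (nat_lit 4) (nat_lit 298) (nat_lit 225) (nat_lit 197)) (XT.nd (nat_lit 78) (nat_lit 0) (nat_lit 0) (XT.lf (nat_lit 0) (nat_lit 12732496938) (nat_lit 152) (nat_lit 13917616863) (nat_lit 0) (nat_lit 2281524398) (nat_lit 5) (nat_lit 5) (nat_lit 7) (nat_lit 4) (nat_lit 5) (nat_lit 4) (nat_lit 299) (nat_lit 225) (nat_lit 196)) (XT.lf (nat_lit 0) (nat_lit 15615222608) (nat_lit 152) (nat_lit 9605175152) (nat_lit 0) (nat_lit 5004544129) (nat_lit 5) (nat_lit 5) (nat_lit 7) (nat_lit 4) (nat_lit 5) (nat_lit 4) (nat_lit 300) (nat_lit 225) (nat_lit 195))))))))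
noncomputable def xc64 : XT := (XT.nd (nat_lit 1248) (nat_lit 76) (nat_lit 0) (XT.nd (nat_lit 624) (nat_lit 76) (nat_lit 0) (XT.nd (nat_lit 312) (nat_lit 76) (nat_lit 0) (XT.nd (nat_lit 156) (nat_lit 76) (nat_lit 0) (XT.nd (nat_lit 78) (nat_lit 0) (nat_lit 0) (XT.lf (nat_lit 0) (nat_lit 18597099411) (nat_lit 152) (nat_lit 5153839556) (nat_lit 0) (nat_lit 7834320038) (nat_lit 5) (nat_lit 5) (nat_lit 7) (nat_lit 4) (nat_lit 5) (nat_lit 4) (nat_lit 301) (nat_lit 225) (nat_lit 194)) (XT.lf (nat_lit 0) (nat_lit 21685227054) (nat_lit 152) (nat_lit 553011658) (nat_lit 0) (nat_lit 10777589688) (nat_lit 5) (nat_lit 5) (nat_lit 7) (nat_lit 4) (nat_lit 5) (nat_lit 4) (nat_lit 302) (nat_lit 225) (nat_lit 193))) (XT.nd (nat_lit 78) (nat_lit 0) (nat_lit 0) (XT.lf (nat_lit 0) (nat_lit 4347407070) (nat_lit 76) (nat_lit 20607426360) (nat_lit 76) (nat_lit 9561829000) (nat_lit 4) (nat_lit 4) (nat_lit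 5) (nat_lit 5) (nat_lit 5) (nat_lit 4) (nat_lit 303) (nat_lit 225) (nat_lit 192)) (XT.lf (nat_lit 0) (nat_lit 9443573806) (nat_lit 76) (nat_lit 18913782932) (nat_lit 76) (nat_lit 7736795101) (nat_lit 4) (nat_lit 4) (nat_lit 5) (nat_lit 5) (nat_lit 5) (nat_lit 4) (nat_lit 304) (nat_lit 225) (nat_lit 191)))) (XT.nd (nat_lit 156) (nat_lit 76) (nat_lit 0) (XT.nd (nat_lit 78) (nat_lit 0) (nat_lit 0) (XT.lf (nat_lit 0) (nat_lit 14729337218) (nat_lit 76) (nat_lit 17162641464) (nat_lit 76) (nat_lit 5860519851) (nat_lit 4) (nat_lit 4) (nat_lit 5) (nat_lit 5) (nat_lit 5) (nat_lit 4) (nat_lit 305) (nat_lit 225) (nat_lit 190)) (XT.lf (nat_lit 0) (nat_lit 20217282456) (nat_lit 76) (nat_lit 15349832570) (nat_lit 76) (nat_lit 3928535927) (nat_lit 4) (nat_lit 4) (nat_lit 5) (nat_lit 5) (nat_lit 5) (nat_lit 4) (nat_lit 306) (nat_lit 225) (nat_lit 189))) (XT.nd (nat_lit 78) (nat_lit 76) (nat_lit 0)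 (XT.lf (nat_lit 0) (nat_lit 25920476057) (nat_lit 76) (nat_lit 13471040040) (nat_lit 76) (nat_lit 1936243368) (nat_lit 4) (nat_lit 4) (nat_lit 5) (nat_lit 5) (nat_lit 5) (nat_lit 4) (nat_lit 307) (nat_lit 225) (nat_lit 188)) (XT.lf (nat_lit 0) (nat_lit 117225378) (nat_lit 152) (nat_lit 11402579911) (nat_lit 76) (nat_lit 31733286405) (nat_lit 3) (nat_lit 5) (nat_lit 5) (nat_lit 5) (nat_lit 4) (nat_lit 4) (nat_lit 308) (nat_lit 225) (nat_lit 187))))) (XT.nd (nat_lit 312) (nat_lit 0) (nat_lit 0) (XT.nd (nat_lit 156) (nat_lit 76) (nat_lit 0) (XT.nd (nat_lit 78) (nat_lit 0) (nat_lit 0) (XT.lf (nat_lit 0) (nat_lit 2176434017) (nat_lit 152) (nat_lit 7284150072) (nat_lit 76) (nat_lit 35814176320) (nat_lit 3) (nat_lit 5) (nat_lit 5) (nat_lit 5) (nat_lit 4) (nat_lit 4) (nat_lit 309) (nat_lit 225) (nat_lit 186)) (XT.lf (nat_lit 0) (nat_lit 4308257306) (nat_lit 152) (nat_lit 3011957922) (nat_lit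 76) (nat_lit 40078875392) (nat_lit 3) (nat_lit 5) (nat_lit 5) (nat_lit 5) (nat_lit 4) (nat_lit 4) (nat_lit 310) (nat_lit 225) (nat_lit 185))) (XT.nd (nat_lit 78) (nat_lit 0) (nat_lit 0) (XT.lf (nat_lit 0) (nat_lit 1471257863) (nat_lit 76) (nat_lit 5069483608) (nat_lit 152) (nat_lit 43089250259) (nat_lit 2) (nat_lit 5) (nat_lit 3) (nat_lit 5) (nat_lit 4) (nat_lit 4) (nat_lit 311) (nat_lit 225) (nat_lit 184)) (XT.lf (nat_lit 0) (nat_lit 6234328623) (nat_lit 76) (nat_lit 2673242606) (nat_lit 152) (nat_lit 43063785718) (nat_lit 2) (nat_lit 5) (nat_lit 3) (nat_lit 5) (nat_lit 4) (nat_lit 4) (nat_lit 312) (nat_lit 225) (nat_lit 183)))) (XT.nd (nat_lit 156) (nat_lit 0) (nat_lit 0) (XT.nd (nat_lit 78) (nat_lit 0) (nat_lit 0) (XT.lf (nat_lit 0) (nat_lit 11189006069) (nat_lit 76) (nat_lit 176795850) (nat_lit 152) (nat_lit 43065388026) (nat_lit 2) (nat_lit 5) (nat_lit 3) (nat_lit 5) (nat_lit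 4) (nat_lit 4) (nat_lit 313) (nat_lit 225) (nat_lit 182)) (XT.lf (nat_lit 0) (nat_lit 13959160019) (nat_lit 152) (nat_lit 40706133966) (nat_lit 0) (nat_lit 2348159811) (nat_lit 2) (nat_lit 5) (nat_lit 4) (nat_lit 4) (nat_lit 2) (nat_lit 4) (nat_lit 314) (nat_lit 225) (nat_lit 181))) (XT.nd (nat_lit 78) (nat_lit 0) (nat_lit 0) (XT.lf (nat_lit 0) (nat_lit 16660370788) (nat_lit 152) (nat_lit 38089390976) (nat_lit 0) (nat_lit 4976207450) (nat_lit 2) (nat_lit 5) (nat_lit 4) (nat_lit 4) (nat_lit 2) (nat_lit 4) (nat_lit 315) (nat_lit 225) (nat_lit 180)) (XT.lf (nat_lit 0) (nat_lit 19473105403) (nat_lit 152) (nat_lit 35382964288) (nat_lit 0) (nat_lit 7719262894) (nat_lit 2) (nat_lit 5) (nat_lit 4) (nat_lit 4) (nat_lit 2) (nat_lit 4) (nat_lit 316) (nat_lit 225) (nat_lit 179)))))) (XT.nd (nat_lit 624) (nat_lit 76) (nat_lit 0) (XT.nd (nat_lit 312) (nat_lit 0) (nat_lit 0) (XT.nd (nat_lit 156)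 (nat_lit 0) (nat_lit 0) (XT.nd (nat_lit 78) (nat_lit 0) (nat_lit 0) (XT.lf (nat_lit 0) (nat_lit 22404060852) (nat_lit 152) (nat_lit 32580410030) (nat_lit 0) (nat_lit 10583857226) (nat_lit 2) (nat_lit 5) (nat_lit 4) (nat_lit 4) (nat_lit 2) (nat_lit 4) (nat_lit 317) (nat_lit 225) (nat_lit 178)) (XT.lf (nat_lit 0) (nat_lit 25460215598) (nat_lit 152) (nat_lit 29675055452) (nat_lit 0) (nat_lit 13576810909) (nat_lit 2) (nat_lit 5) (nat_lit 4) (nat_lit 4) (nat_lit 2) (nat_lit 4) (nat_lit 318) (nat_lit 225) (nat_lit 177))) (XT.nd (nat_lit 78) (nat_lit 0) (nat_lit 0) (XT.lf (nat_lit 0) (nat_lit 28648846202) (nat_lit 152) (nat_lit 26659983045) (nat_lit 0) (nat_lit 16705250024) (nat_lit 2) (nat_lit 5) (nat_lit 4) (nat_lit 4) (nat_lit 2) (nat_lit 4) (nat_lit 319) (nat_lit 225) (nat_lit 176)) (XT.lf (nat_lit 0) (nat_lit 31977544640) (nat_lit 152) (nat_lit 23528014063) (nat_lit 0) (nat_lit 19976623236)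 (nat_lit 2) (nat_lit 5) (nat_lit 4) (nat_lit 4) (nat_lit 2) (nat_lit 4) (nat_lit 320) (nat_lit 225) (nat_lit 175)))) (XT.nd (nat_lit 156) (nat_lit 0) (nat_lit 0) (XT.nd (nat_lit 78) (nat_lit 0) (nat_lit 0) (XT.lf (nat_lit 0) (nat_lit 35454236386) (nat_lit 152) (nat_lit 20271691439) (nat_lit 0) (nat_lit 23398719527) (nat_lit 2) (nat_lit 5) (nat_lit 4) (nat_lit 4) (nat_lit 2) (nat_lit 4) (nat_lit 321) (nat_lit 225) (nat_lit 174)) (XT.lf (nat_lit 0) (nat_lit 39087199276) (nat_lit 152) (nat_lit 16883262023) (nat_lit 0) (nat_lit 26979686747) (nat_lit 2) (nat_lit 5) (nat_lit 4) (nat_lit 4) (nat_lit 2) (nat_lit 4) (nat_lit 322) (nat_lit 225) (nat_lit 173))) (XT.nd (nat_lit 78) (nat_lit 0) (nat_lit 0) (XT.lf (nat_lit 0) (nat_lit 42885083224) (nat_lit 152) (nat_lit 13354658126) (nat_lit 0) (nat_lit 30728051007) (nat_lit 2) (nat_lit 5) (nat_lit 4) (nat_lit 4) (nat_lit 2) (nat_lit 4) (nat_lit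 323) (nat_lit 225) (nat_lit 172)) (XT.lf (nat_lit 0) (nat_lit 46856930808) (nat_lit 152) (nat_lit 9677478310) (nat_lit 0) (nat_lit 34652736985) (nat_lit 2) (nat_lit 5) (nat_lit 4) (nat_lit 4) (nat_lit 2) (nat_lit 4) (nat_lit 324) (nat_lit 225) (nat_lit 171))))) (XT.nd (nat_lit 312) (nat_lit 0) (nat_lit 0) (XT.nd (nat_lit 156) (nat_lit 76) (nat_lit 0) (XT.nd (nat_lit 78) (nat_lit 0) (nat_lit 0) (XT.lf (nat_lit 0) (nat_lit 51012198809) (nat_lit 152) (nat_lit 5842967385) (nat_lit 0) (nat_lit 38763089171) (nat_lit 2) (nat_lit 5) (nat_lit 4) (nat_lit 4) (nat_lit 2) (nat_lit 4) (nat_lit 325) (nat_lit 225) (nat_lit 170)) (XT.lf (nat_lit 0) (nat_lit 55360780724) (nat_lit 152) (nat_lit 1841995563) (nat_lit 0) (nat_lit 43068894118) (nat_lit 2) (nat_lit 5) (nat_lit 4) (nat_lit 4) (nat_lit 2) (nat_lit 4) (nat_lit 326) (nat_lit 225) (nat_lit 169))) (XT.nd (nat_lit 78) (nat_lit 0) (nat_lit 0) (XT.lf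 (nat_lit 0) (nat_lit 2412167709) (nat_lit 76) (nat_lit 57538523305) (nat_lit 76) (nat_lit 45205896731) (nat_lit 1) (nat_lit 4) (nat_lit 2) (nat_lit 5) (nat_lit 2) (nat_lit 4) (nat_lit 327) (nat_lit 225) (nat_lit 168)) (XT.lf (nat_lit 0) (nat_lit 6919315592) (nat_lit 76) (nat_lit 57868500594) (nat_lit 76) (nat_lit 45497074050) (nat_lit 1) (nat_lit 4) (nat_lit 2) (nat_lit 5) (nat_lit 2) (nat_lit 4) (nat_lit 328) (nat_lit 225) (nat_lit 167)))) (XT.nd (nat_lit 156) (nat_lit 0) (nat_lit 0) (XT.nd (nat_lit 78) (nat_lit 0) (nat_lit 0) (XT.lf (nat_lit 0) (nat_lit 11629274696) (nat_lit 76) (nat_lit 58224688900) (nat_lit 76) (nat_lit 45816310003) (nat_lit 1) (nat_lit 4) (nat_lit 2) (nat_lit 5) (nat_lit 2) (nat_lit 4) (nat_lit 329) (nat_lit 225) (nat_lit 166)) (XT.lf (nat_lit 0) (nat_lit 16553259210) (nat_lit 76) (nat_lit 58607936291) (nat_lit 76) (nat_lit 46164364677) (nat_lit 1) (nat_lit 4)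 (nat_lit 2) (nat_lit 5) (nat_lit 2) (nat_lit 4) (nat_lit 330) (nat_lit 225) (nat_lit 165))) (XT.nd (nat_lit 78) (nat_lit 0) (nat_lit 0) (XT.lf (nat_lit 0) (nat_lit 21702992906) (nat_lit 76) (nat_lit 59019155260) (nat_lit 76) (nat_lit 46542066774) (nat_lit 1) (nat_lit 4) (nat_lit 2) (nat_lit 5) (nat_lit 2) (nat_lit 4) (nat_lit 331) (nat_lit 225) (nat_lit 164)) (XT.nd (nat_lit 78) (nat_lit 0) (nat_lit 0) (XT.lf (nat_lit 0) (nat_lit 27090737057) (nat_lit 76) (nat_lit 59459324900) (nat_lit 76) (nat_lit 46950315583) (nat_lit 1) (nat_lit 4) (nat_lit 2) (nat_lit 5) (nat_lit 2) (nat_lit 4) (nat_lit 332) (nat_lit 225) (nat_lit 163)) (XT.lf (nat_lit 0) (nat_lit 32729319622) (nat_lit 76) (nat_lit 59929493235) (nat_lit 76) (nat_lit 47390083125) (nat_lit 1) (nat_lit 4) (nat_lit 2) (nat_lit 5) (nat_lit 2) (nat_lit 4) (nat_lit 333) (nat_lit 225) (nat_lit 162))))))))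
noncomputable def xc65 : XT := (XT.nd (nat_lit 1326) (nat_lit 0) (nat_lit 0) (XT.nd (nat_lit 624) (nat_lit 0) (nat_lit 0) (XT.nd (nat_lit 312) (nat_lit 0) (nat_lit 0) (XT.nd (nat_lit 156) (nat_lit 0) (nat_lit 0) (XT.nd (nat_lit 78) (nat_lit 0) (nat_lit 0) (XT.lf (nat_lit 0) (nat_lit 38632165801) (nat_lit 76) (nat_lit 60430779712) (nat_lit 76) (nat_lit 47862416467) (nat_lit 1) (nat_lit 4) (nat_lit 2) (nat_lit 5) (nat_lit 2) (nat_lit 4) (nat_lit 334) (nat_lit 225) (nat_lit 161)) (XT.lf (nat_lit 0) (nat_lit 44813329987) (nat_lit 76) (nat_lit 60964377871) (nat_lit 76) (nat_lit 48368440212) (nat_lit 1) (nat_lit 4) (nat_lit 2) (nat_lit 5) (nat_lit 2) (nat_lit 4) (nat_lit 335) (nat_lit 225) (nat_lit 160))) (XT.nd (nat_lit 78) (nat_lit 0) (nat_lit 0) (XT.lf (nat_lit 0) (nat_lit 51287529238) (nat_lit 76) (nat_lit 61531558184) (nat_lit 76) (nat_lit 48909359178) (nat_lit 1) (nat_lit 4) (nat_lit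 2) (nat_lit 5) (nat_lit 2) (nat_lit 4) (nat_lit 336) (nat_lit 225) (nat_lit 159)) (XT.lf (nat_lit 0) (nat_lit 58070178315) (nat_lit 76) (nat_lit 62133671079) (nat_lit 76) (nat_lit 49486461266) (nat_lit 1) (nat_lit 4) (nat_lit 2) (nat_lit 5) (nat_lit 2) (nat_lit 4) (nat_lit 337) (nat_lit 225) (nat_lit 158)))) (XT.nd (nat_lit 156) (nat_lit 0) (nat_lit 0) (XT.nd (nat_lit 78) (nat_lit 0) (nat_lit 0) (XT.lf (nat_lit 0) (nat_lit 65177426383) (nat_lit 76) (nat_lit 62772150160) (nat_lit 76) (nat_lit 50101120531) (nat_lit 1) (nat_lit 4) (nat_lit 2) (nat_lit 5) (nat_lit 2) (nat_lit 4) (nat_lit 338) (nat_lit 225) (nat_lit 157)) (XT.lf (nat_lit 0) (nat_lit 72626195459) (nat_lit 76) (nat_lit 63448515614) (nat_lit 76) (nat_lit 50754800446) (nat_lit 1) (nat_lit 4) (nat_lit 2) (nat_lit 5) (nat_lit 2) (nat_lit 4) (nat_lit 339) (nat_lit 225) (nat_lit 156))) (XT.nd (nat_lit 78) (nat_lit 0) (nat_lit 0)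 (XT.lf (nat_lit 0) (nat_lit 80434220710) (nat_lit 76) (nat_lit 64164377835) (nat_lit 76) (nat_lit 51449057392) (nat_lit 1) (nat_lit 4) (nat_lit 2) (nat_lit 5) (nat_lit 2) (nat_lit 4) (nat_lit 340) (nat_lit 225) (nat_lit 155)) (XT.lf (nat_lit 0) (nat_lit 88620092670) (nat_lit 76) (nat_lit 64921441258) (nat_lit 76) (nat_lit 52185544362) (nat_lit 1) (nat_lit 4) (nat_lit 2) (nat_lit 5) (nat_lit 2) (nat_lit 4) (nat_lit 341) (nat_lit 225) (nat_lit 154))))) (XT.nd (nat_lit 312) (nat_lit 0) (nat_lit 0) (XT.nd (nat_lit 156) (nat_lit 0) (nat_lit 0) (XT.nd (nat_lit 78) (nat_lit 0) (nat_lit 0) (XT.lf (nat_lit 0) (nat_lit 97203301512) (nat_lit 76) (nat_lit 65721508413) (nat_lit 76) (nat_lit 52966014896) (nat_lit 1) (nat_lit 4) (nat_lit 2) (nat_lit 5) (nat_lit 2) (nat_lit 4) (nat_lit 342) (nat_lit 225) (nat_lit 153)) (XT.lf (nat_lit 0) (nat_lit 106204283447) (nat_lit 76) (nat_lit 66566484224) (nat_lit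 76) (nat_lit 53792327257) (nat_lit 1) (nat_lit 4) (nat_lit 2) (nat_lit 5) (nat_lit 2) (nat_lit 4) (nat_lit 343) (nat_lit 225) (nat_lit 152))) (XT.nd (nat_lit 78) (nat_lit 0) (nat_lit 0) (XT.lf (nat_lit 0) (nat_lit 115644469384) (nat_lit 76) (nat_lit 67458380536) (nat_lit 76) (nat_lit 54666448857) (nat_lit 1) (nat_lit 4) (nat_lit 2) (nat_lit 5) (nat_lit 2) (nat_lit 4) (nat_lit 344) (nat_lit 225) (nat_lit 151)) (XT.lf (nat_lit 0) (nat_lit 125546335957) (nat_lit 76) (nat_lit 68399320913) (nat_lit 76) (nat_lit 55590460935) (nat_lit 1) (nat_lit 4) (nat_lit 2) (nat_lit 5) (nat_lit 2) (nat_lit 4) (nat_lit 345) (nat_lit 225) (nat_lit 150)))) (XT.nd (nat_lit 156) (nat_lit 0) (nat_lit 0) (XT.nd (nat_lit 78) (nat_lit 0) (nat_lit 0) (XT.lf (nat_lit 0) (nat_lit 135933459038) (nat_lit 76) (nat_lit 69391545690) (nat_lit 76) (nat_lit 56566563523) (nat_lit 1) (nat_lit 4) (nat_lit 2) (nat_lit 5) (nat_lit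 2) (nat_lit 4) (nat_lit 346) (nat_lit 225) (nat_lit 149)) (XT.lf (nat_lit 0) (nat_lit 146830569873) (nat_lit 76) (nat_lit 70437417305) (nat_lit 76) (nat_lit 57597080672) (nat_lit 1) (nat_lit 4) (nat_lit 2) (nat_lit 5) (nat_lit 2) (nat_lit 4) (nat_lit 347) (nat_lit 225) (nat_lit 148))) (XT.nd (nat_lit 78) (nat_lit 0) (nat_lit 0) (XT.lf (nat_lit 0) (nat_lit 158263613963) (nat_lit 76) (nat_lit 71539425929) (nat_lit 76) (nat_lit 58684465996) (nat_lit 1) (nat_lit 4) (nat_lit 2) (nat_lit 5) (nat_lit 2) (nat_lit 4) (nat_lit 348) (nat_lit 225) (nat_lit 147)) (XT.nd (nat_lit 78) (nat_lit 0) (nat_lit 0) (XT.lf (nat_lit 0) (nat_lit 170259812843) (nat_lit 76) (nat_lit 72700195393) (nat_lit 76) (nat_lit 59831308507) (nat_lit 1) (nat_lit 4) (nat_lit 2) (nat_lit 5) (nat_lit 2) (nat_lit 4) (nat_lit 349) (nat_lit 225) (nat_lit 146)) (XT.lf (nat_lit 0) (nat_lit 182847728890) (nat_lit 76) (nat_lit 73922489434)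 (nat_lit 76) (nat_lit 61040338782) (nat_lit 1) (nat_lit 4) (nat_lit 2) (nat_lit 5) (nat_lit 2) (nat_lit 4) (nat_lit 350) (nat_lit 225) (nat_lit 145))))))) (XT.nd (nat_lit 624) (nat_lit 0) (nat_lit 0) (XT.nd (nat_lit 312) (nat_lit 0) (nat_lit 0) (XT.nd (nat_lit 156) (nat_lit 0) (nat_lit 0) (XT.nd (nat_lit 78) (nat_lit 0) (nat_lit 0) (XT.lf (nat_lit 0) (nat_lit 196057333334) (nat_lit 76) (nat_lit 75209218274) (nat_lit 76) (nat_lit 62314435466) (nat_lit 1) (nat_lit 4) (nat_lit 2) (nat_lit 5) (nat_lit 2) (nat_lit 4) (nat_lit 351) (nat_lit 225) (nat_lit 144)) (XT.lf (nat_lit 0) (nat_lit 209920077613) (nat_lit 76) (nat_lit 76563445555) (nat_lit 76) (nat_lit 63656632121) (nat_lit 1) (nat_lit 4) (nat_lit 2) (nat_lit 5) (nat_lit 2) (nat_lit 4) (nat_lit 352) (nat_lit 225) (nat_lit 143))) (XT.nd (nat_lit 78) (nat_lit 0) (nat_lit 0) (XT.lf (nat_lit 0) (nat_lit 224468968261) (nat_lit 76) (nat_lit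 77988395627) (nat_lit 76) (nat_lit 65070124454) (nat_lit 1) (nat_lit 4) (nat_lit 2) (nat_lit 5) (nat_lit 2) (nat_lit 4) (nat_lit 353) (nat_lit 225) (nat_lit 142)) (XT.lf (nat_lit 0) (nat_lit 239738645494) (nat_lit 76) (nat_lit 79487461228) (nat_lit 76) (nat_lit 66558277923) (nat_lit 1) (nat_lit 4) (nat_lit 2) (nat_lit 5) (nat_lit 2) (nat_lit 4) (nat_lit 354) (nat_lit 225) (nat_lit 141)))) (XT.nd (nat_lit 156) (nat_lit 0) (nat_lit 0) (XT.nd (nat_lit 78) (nat_lit 0) (nat_lit 0) (XT.lf (nat_lit 0) (nat_lit 255765465687) (nat_lit 76) (nat_lit 81064211562) (nat_lit 76) (nat_lit 68124635750) (nat_lit 1) (nat_lit 4) (nat_lit 2) (nat_lit 5) (nat_lit 2) (nat_lit 4) (nat_lit 355) (nat_lit 225) (nat_lit 140)) (XT.lf (nat_lit 0) (nat_lit 272587587936) (nat_lit 76) (nat_lit 82722400796) (nat_lit 76) (nat_lit 69772927359) (nat_lit 1) (nat_lit 4) (nat_lit 2) (nat_lit 5) (nat_lit 2) (nat_lit 4) (nat_lit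 356) (nat_lit 225) (nat_lit 139))) (XT.nd (nat_lit 78) (nat_lit 0) (nat_lit 0) (XT.lf (nat_lit 0) (nat_lit 290245064911) (nat_lit 76) (nat_lit 84465977001) (nat_lit 76) (nat_lit 71507077254) (nat_lit 1) (nat_lit 4) (nat_lit 2) (nat_lit 5) (nat_lit 2) (nat_lit 4) (nat_lit 357) (nat_lit 225) (nat_lit 138)) (XT.lf (nat_lit 0) (nat_lit 308779938226) (nat_lit 76) (nat_lit 86299091547) (nat_lit 76) (nat_lit 73331214362) (nat_lit 1) (nat_lit 4) (nat_lit 2) (nat_lit 5) (nat_lit 2) (nat_lit 4) (nat_lit 358) (nat_lit 225) (nat_lit 137))))) (XT.nd (nat_lit 30498) (nat_lit 0) (nat_lit 1520) (XT.nd (nat_lit 156) (nat_lit 0) (nat_lit 0) (XT.nd (nat_lit 78) (nat_lit 0) (nat_lit 0) (XT.lf (nat_lit 0) (nat_lit 328236338531) (nat_lit 76) (nat_lit 88226108995) (nat_lit 76) (nat_lit 75249681868) (nat_lit 1) (nat_lit 4) (nat_lit 2) (nat_lit 5) (nat_lit 2) (nat_lit 4) (nat_lit 359) (nat_lit 225) (nat_lit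 136)) (XT.lf (nat_lit 0) (nat_lit 348660590588) (nat_lit 76) (nat_lit 90251617479) (nat_lit 76) (nat_lit 77267047552) (nat_lit 1) (nat_lit 4) (nat_lit 2) (nat_lit 5) (nat_lit 2) (nat_lit 4) (nat_lit 360) (nat_lit 225) (nat_lit 135))) (XT.nd (nat_lit 30264) (nat_lit 0) (nat_lit 2204) (XT.lf (nat_lit 0) (nat_lit 370101323569) (nat_lit 76) (nat_lit 92380439640) (nat_lit 76) (nat_lit 79388114664) (nat_lit 1) (nat_lit 4) (nat_lit 2) (nat_lit 5) (nat_lit 2) (nat_lit 4) (nat_lit 361) (nat_lit 225) (nat_lit 134)) (XT.lf (nat_lit 0) (nat_lit 1892632195) (nat_lit 228) (nat_lit 1399746692) (nat_lit 228) (nat_lit 1399746692) (nat_lit 30) (nat_lit 4) (nat_lit 33) (nat_lit 5) (nat_lit 33) (nat_lit 4) (nat_lit 268) (nat_lit 226) (nat_lit 226)))) (XT.nd (nat_lit 156) (nat_lit 456) (nat_lit 0) (XT.nd (nat_lit 78) (nat_lit 152) (nat_lit 0) (XT.lf (nat_lit 0) (nat_lit 295302224) (nat_lit 304) (nat_lit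 319617869) (nat_lit 76) (nat_lit 9020215326) (nat_lit 29) (nat_lit 5) (nat_lit 33) (nat_lit 5) (nat_lit 30) (nat_lit 4) (nat_lit 269) (nat_lit 226) (nat_lit 225)) (XT.lf (nat_lit 0) (nat_lit 3430562121) (nat_lit 228) (nat_lit 4756631980) (nat_lit 0) (nat_lit 1710630844) (nat_lit 27) (nat_lit 5) (nat_lit 30) (nat_lit 4) (nat_lit 27) (nat_lit 4) (nat_lit 270) (nat_lit 226) (nat_lit 224))) (XT.nd (nat_lit 78) (nat_lit 228) (nat_lit 0) (XT.lf (nat_lit 0) (nat_lit 543578187) (nat_lit 228) (nat_lit 6077322589) (nat_lit 228) (nat_lit 3558352392) (nat_lit 24) (nat_lit 4) (nat_lit 27) (nat_lit 5) (nat_lit 27) (nat_lit 4) (nat_lit 271) (nat_lit 226) (nat_lit 223)) (XT.nd (nat_lit 78) (nat_lit 228) (nat_lit 0) (XT.lf (nat_lit 0) (nat_lit 6100370987) (nat_lit 228) (nat_lit 3828466330) (nat_lit 228) (nat_lit 548506685) (nat_lit 24) (nat_lit 4) (nat_lit 27) (nat_lit 5) (nat_lit 27) (nat_lit 4) (nat_lit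 272) (nat_lit 226) (nat_lit 222)) (XT.lf (nat_lit 0) (nat_lit 965088350) (nat_lit 152) (nat_lit 1459204259) (nat_lit 228) (nat_lit 8369654261) (nat_lit 21) (nat_lit 5) (nat_lit 23) (nat_lit 5) (nat_lit 24) (nat_lit 4) (nat_lit 273) (nat_lit 226) (nat_lit 221))))))))
noncomputable def xc66 : XT := (XT.nd (nat_lit 1326) (nat_lit 304) (nat_lit 0) (XT.nd (nat_lit 624) (nat_lit 380) (nat_lit 0) (XT.nd (nat_lit 312) (nat_lit 380) (nat_lit 0) (XT.nd (nat_lit 156) (nat_lit 76) (nat_lit 0) (XT.nd (nat_lit 78) (nat_lit 152) (nat_lit 0) (XT.lf (nat_lit 0) (nat_lit 5501950792) (nat_lit 228) (nat_lit 4595106147) (nat_lit 0) (nat_lit 1030568542) (nat_lit 21) (nat_lit 5) (nat_lit 24) (nat_lit 4) (nat_lit 21) (nat_lit 4) (nat_lit 274) (nat_lit 226) (nat_lit 220)) (XT.lf (nat_lit 0) (nat_lit 735792132) (nat_lit 152) (nat_lit 7921921206) (nat_lit 152) (nat_lit 2824471054) (nat_lit 19) (nat_lit 4) (nat_lit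 21) (nat_lit 5) (nat_lit 21) (nat_lit 4) (nat_lit 275) (nat_lit 226) (nat_lit 219))) (XT.nd (nat_lit 78) (nat_lit 0) (nat_lit 0) (XT.lf (nat_lit 0) (nat_lit 81582974) (nat_lit 228) (nat_lit 5526460200) (nat_lit 76) (nat_lit 6248280047) (nat_lit 18) (nat_lit 5) (nat_lit 21) (nat_lit 5) (nat_lit 19) (nat_lit 4) (nat_lit 276) (nat_lit 226) (nat_lit 218)) (XT.lf (nat_lit 0) (nat_lit 2932716307) (nat_lit 228) (nat_lit 249498908) (nat_lit 76) (nat_lit 9070255730) (nat_lit 18) (nat_lit 5) (nat_lit 21) (nat_lit 5) (nat_lit 19) (nat_lit 4) (nat_lit 277) (nat_lit 226) (nat_lit 217)))) (XT.nd (nat_lit 156) (nat_lit 228) (nat_lit 0) (XT.nd (nat_lit 78) (nat_lit 0) (nat_lit 0) (XT.lf (nat_lit 0) (nat_lit 5311143474) (nat_lit 152) (nat_lit 597896431) (nat_lit 228) (nat_lit 6760589675) (nat_lit 16) (nat_lit 5) (nat_lit 18) (nat_lit 5) (nat_lit 19) (nat_lit 4) (nat_lit 278) (nat_lit 226) (nat_lit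 216)) (XT.lf (nat_lit 0) (nat_lit 8972906896) (nat_lit 228) (nat_lit 2134220898) (nat_lit 0) (nat_lit 2003901233) (nat_lit 16) (nat_lit 5) (nat_lit 19) (nat_lit 4) (nat_lit 16) (nat_lit 4) (nat_lit 279) (nat_lit 226) (nat_lit 215))) (XT.nd (nat_lit 78) (nat_lit 76) (nat_lit 0) (XT.lf (nat_lit 0) (nat_lit 3302228176) (nat_lit 152) (nat_lit 8855194356) (nat_lit 152) (nat_lit 1419007185) (nat_lit 14) (nat_lit 4) (nat_lit 16) (nat_lit 5) (nat_lit 16) (nat_lit 4) (nat_lit 280) (nat_lit 226) (nat_lit 214)) (XT.lf (nat_lit 0) (nat_lit 1333396373) (nat_lit 228) (nat_lit 5147659375) (nat_lit 76) (nat_lit 7586034627) (nat_lit 13) (nat_lit 5) (nat_lit 16) (nat_lit 5) (nat_lit 14) (nat_lit 4) (nat_lit 281) (nat_lit 226) (nat_lit 213))))) (XT.nd (nat_lit 312) (nat_lit 152) (nat_lit 0) (XT.nd (nat_lit 156) (nat_lit 152) (nat_lit 0) (XT.nd (nat_lit 78) (nat_lit 0) (nat_lit 0) (XT.lf (nat_lit 0) (nat_lit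 75361755) (nat_lit 76) (nat_lit 4012555851) (nat_lit 152) (nat_lit 10497856705) (nat_lit 12) (nat_lit 5) (nat_lit 13) (nat_lit 5) (nat_lit 14) (nat_lit 4) (nat_lit 282) (nat_lit 226) (nat_lit 212)) (XT.lf (nat_lit 0) (nat_lit 5601493175) (nat_lit 76) (nat_lit 1378961198) (nat_lit 152) (nat_lit 8150173732) (nat_lit 12) (nat_lit 5) (nat_lit 13) (nat_lit 5) (nat_lit 14) (nat_lit 4) (nat_lit 283) (nat_lit 226) (nat_lit 211))) (XT.nd (nat_lit 78) (nat_lit 152) (nat_lit 0) (XT.lf (nat_lit 0) (nat_lit 9955769641) (nat_lit 152) (nat_lit 4454315635) (nat_lit 0) (nat_lit 1295969951) (nat_lit 12) (nat_lit 5) (nat_lit 14) (nat_lit 4) (nat_lit 12) (nat_lit 4) (nat_lit 284) (nat_lit 226) (nat_lit 210)) (XT.lf (nat_lit 0) (nat_lit 748079070) (nat_lit 152) (nat_lit 12286540399) (nat_lit 152) (nat_lit 3278122675) (nat_lit 10) (nat_lit 4) (nat_lit 12) (nat_lit 5) (nat_lit 12) (nat_lit 4) (nat_lit 285)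 (nat_lit 226) (nat_lit 209)))) (XT.nd (nat_lit 156) (nat_lit 76) (nat_lit 0) (XT.nd (nat_lit 78) (nat_lit 76) (nat_lit 0) (XT.lf (nat_lit 0) (nat_lit 6239790954) (nat_lit 152) (nat_lit 10025368034) (nat_lit 152) (nat_lit 684933134) (nat_lit 10) (nat_lit 4) (nat_lit 12) (nat_lit 5) (nat_lit 12) (nat_lit 4) (nat_lit 286) (nat_lit 226) (nat_lit 208)) (XT.lf (nat_lit 0) (nat_lit 1897288383) (nat_lit 228) (nat_lit 5767200546) (nat_lit 76) (nat_lit 9957195849) (nat_lit 9) (nat_lit 5) (nat_lit 12) (nat_lit 5) (nat_lit 10) (nat_lit 4) (nat_lit 287) (nat_lit 226) (nat_lit 207))) (XT.nd (nat_lit 78) (nat_lit 76) (nat_lit 0) (XT.lf (nat_lit 0) (nat_lit 4513791814) (nat_lit 228) (nat_lit 704517879) (nat_lit 76) (nat_lit 13111763154) (nat_lit 9) (nat_lit 5) (nat_lit 12) (nat_lit 5) (nat_lit 10) (nat_lit 4) (nat_lit 288) (nat_lit 226) (nat_lit 206)) (XT.nd (nat_lit 78) (nat_lit 0) (nat_lit 0) (XT.lf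 (nat_lit 0) (nat_lit 4649301241) (nat_lit 76) (nat_lit 2616016446) (nat_lit 152) (nat_lit 11808530534) (nat_lit 8) (nat_lit 5) (nat_lit 9) (nat_lit 5) (nat_lit 10) (nat_lit 4) (nat_lit 289) (nat_lit 226) (nat_lit 205)) (XT.lf (nat_lit 0) (nat_lit 10100868758) (nat_lit 152) (nat_lit 9672827769) (nat_lit 0) (nat_lit 83962691) (nat_lit 8) (nat_lit 5) (nat_lit 10) (nat_lit 4) (nat_lit 8) (nat_lit 4) (nat_lit 290) (nat_lit 226) (nat_lit 204))))))) (XT.nd (nat_lit 624) (nat_lit 76) (nat_lit 0) (XT.nd (nat_lit 312) (nat_lit 152) (nat_lit 0) (XT.nd (nat_lit 156) (nat_lit 0) (nat_lit 0) (XT.nd (nat_lit 78) (nat_lit 76) (nat_lit 0) (XT.lf (nat_lit 0) (nat_lit 13056801718) (nat_lit 152) (nat_lit 4832950747) (nat_lit 0) (nat_lit 2792139322) (nat_lit 8) (nat_lit 5) (nat_lit 10) (nat_lit 4) (nat_lit 8) (nat_lit 4) (nat_lit 291) (nat_lit 226) (nat_lit 203)) (XT.lf (nat_lit 0) (nat_lit 152326343)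 (nat_lit 76) (nat_lit 15949363051) (nat_lit 76) (nat_lit 5448742247) (nat_lit 7) (nat_lit 4) (nat_lit 8) (nat_lit 5) (nat_lit 8) (nat_lit 4) (nat_lit 292) (nat_lit 226) (nat_lit 202))) (XT.nd (nat_lit 78) (nat_lit 0) (nat_lit 0) (XT.lf (nat_lit 0) (nat_lit 5454823849) (nat_lit 76) (nat_lit 13865982372) (nat_lit 76) (nat_lit 3140639275) (nat_lit 7) (nat_lit 4) (nat_lit 8) (nat_lit 5) (nat_lit 8) (nat_lit 4) (nat_lit 293) (nat_lit 226) (nat_lit 201)) (XT.lf (nat_lit 0) (nat_lit 10927367585) (nat_lit 76) (nat_lit 11716498360) (nat_lit 76) (nat_lit 777134031) (nat_lit 7) (nat_lit 4) (nat_lit 8) (nat_lit 5) (nat_lit 8) (nat_lit 4) (nat_lit 294) (nat_lit 226) (nat_lit 200)))) (XT.nd (nat_lit 156) (nat_lit 76) (nat_lit 0) (XT.nd (nat_lit 78) (nat_lit 0) (nat_lit 0) (XT.lf (nat_lit 0) (nat_lit 1594673762) (nat_lit 152) (nat_lit 7874112860) (nat_lit 76) (nat_lit 14961307084) (nat_lit 6) (nat_lit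 5) (nat_lit 8) (nat_lit 5) (nat_lit 7) (nat_lit 4) (nat_lit 295) (nat_lit 226) (nat_lit 199)) (XT.lf (nat_lit 0) (nat_lit 4006272689) (nat_lit 152) (nat_lit 3124458626) (nat_lit 76) (nat_lit 18361028254) (nat_lit 6) (nat_lit 5) (nat_lit 8) (nat_lit 5) (nat_lit 7) (nat_lit 4) (nat_lit 296) (nat_lit 226) (nat_lit 198))) (XT.nd (nat_lit 78) (nat_lit 0) (nat_lit 0) (XT.lf (nat_lit 0) (nat_lit 1837586495) (nat_lit 76) (nat_lit 4679381173) (nat_lit 152) (nat_lit 20090729839) (nat_lit 5) (nat_lit 5) (nat_lit 6) (nat_lit 5) (nat_lit 7) (nat_lit 4) (nat_lit 297) (nat_lit 226) (nat_lit 197)) (XT.lf (nat_lit 0) (nat_lit 7073655276) (nat_lit 76) (nat_lit 2083382918) (nat_lit 152) (nat_lit 18622311242) (nat_lit 5) (nat_lit 5) (nat_lit 6) (nat_lit 5) (nat_lit 7) (nat_lit 4) (nat_lit 298) (nat_lit 226) (nat_lit 196))))) (XT.nd (nat_lit 312) (nat_lit 76) (nat_lit 0) (XT.nd (nat_lit 156) (nat_lit 0)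 (nat_lit 0) (XT.nd (nat_lit 78) (nat_lit 0) (nat_lit 0) (XT.lf (nat_lit 0) (nat_lit 11891907742) (nat_lit 152) (nat_lit 16528650979) (nat_lit 0) (nat_lit 590989401) (nat_lit 5) (nat_lit 5) (nat_lit 7) (nat_lit 4) (nat_lit 5) (nat_lit 4) (nat_lit 299) (nat_lit 226) (nat_lit 195)) (XT.lf (nat_lit 0) (nat_lit 14752689436) (nat_lit 152) (nat_lit 12253637658) (nat_lit 0) (nat_lit 3299670201) (nat_lit 5) (nat_lit 5) (nat_lit 7) (nat_lit 4) (nat_lit 5) (nat_lit 4) (nat_lit 300) (nat_lit 226) (nat_lit 194))) (XT.nd (nat_lit 78) (nat_lit 0) (nat_lit 0) (XT.lf (nat_lit 0) (nat_lit 17713667215) (nat_lit 152) (nat_lit 7837948149) (nat_lit 0) (nat_lit 6115789986) (nat_lit 5) (nat_lit 5) (nat_lit 7) (nat_lit 4) (nat_lit 5) (nat_lit 4) (nat_lit 301) (nat_lit 226) (nat_lit 193)) (XT.lf (nat_lit 0) (nat_lit 20781891025) (nat_lit 152) (nat_lit 3271068905) (nat_lit 0) (nat_lit 9046053803) (nat_lit 5)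 (nat_lit 5) (nat_lit 7) (nat_lit 4) (nat_lit 5) (nat_lit 4) (nat_lit 302) (nat_lit 226) (nat_lit 192)))) (XT.nd (nat_lit 156) (nat_lit 0) (nat_lit 0) (XT.nd (nat_lit 78) (nat_lit 0) (nat_lit 0) (XT.lf (nat_lit 0) (nat_lit 1506077480) (nat_lit 76) (nat_lit 22482102773) (nat_lit 76) (nat_lit 10614875079) (nat_lit 4) (nat_lit 4) (nat_lit 5) (nat_lit 5) (nat_lit 5) (nat_lit 4) (nat_lit 303) (nat_lit 226) (nat_lit 191)) (XT.lf (nat_lit 0) (nat_lit 6570433650) (nat_lit 76) (nat_lit 20801719896) (nat_lit 76) (nat_lit 8809358421) (nat_lit 4) (nat_lit 4) (nat_lit 5) (nat_lit 5) (nat_lit 5) (nat_lit 4) (nat_lit 304) (nat_lit 226) (nat_lit 190))) (XT.nd (nat_lit 78) (nat_lit 0) (nat_lit 0) (XT.lf (nat_lit 0) (nat_lit 11825901284) (nat_lit 76) (nat_lit 19063207524) (nat_lit 76) (nat_lit 6951671019) (nat_lit 4) (nat_lit 4) (nat_lit 5) (nat_lit 5) (nat_lit 5) (nat_lit 4) (nat_lit 305) (nat_lit 226)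 (nat_lit 189)) (XT.nd (nat_lit 78) (nat_lit 0) (nat_lit 0) (XT.lf (nat_lit 0) (nat_lit 17284993400) (nat_lit 76) (nat_lit 17262426342) (nat_lit 76) (nat_lit 5037389808) (nat_lit 4) (nat_lit 4) (nat_lit 5) (nat_lit 5) (nat_lit 5) (nat_lit 4) (nat_lit 306) (nat_lit 226) (nat_lit 188)) (XT.lf (nat_lit 0) (nat_lit 22960707837) (nat_lit 76) (nat_lit 15395088775) (nat_lit 76) (nat_lit 3061956976) (nat_lit 4) (nat_lit 4) (nat_lit 5) (nat_lit 5) (nat_lit 5) (nat_lit 4) (nat_lit 307) (nat_lit 226) (nat_lit 187))))))))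
noncomputable def xc67 : XT := (XT.nd (nat_lit 1326) (nat_lit 76) (nat_lit 0) (XT.nd (nat_lit 624) (nat_lit 0) (nat_lit 0) (XT.nd (nat_lit 312) (nat_lit 76) (nat_lit 0) (XT.nd (nat_lit 156) (nat_lit 0) (nat_lit 0) (XT.nd (nat_lit 78) (nat_lit 76) (nat_lit 0) (XT.lf (nat_lit 0) (nat_lit 28866558201) (nat_lit 76) (nat_lit 13456748781) (nat_lit 76) (nat_lit 1020669110) (nat_lit 4) (nat_lit 4) (nat_lit 5) (nat_lit 5) (nat_lit 5) (nat_lit 4) (nat_lit 308) (nat_lit 226) (nat_lit 186)) (XT.lf (nat_lit 0) (nat_lit 1056404493) (nat_lit 152) (nat_lit 10368496051) (nat_lit 76) (nat_lit 33942310824) (nat_lit 3) (nat_lit 5) (nat_lit 5) (nat_lit 5) (nat_lit 4) (nat_lit 4) (nat_lit 309) (nat_lit 226) (nat_lit 185))) (XT.nd (nat_lit 78) (nat_lit 0) (nat_lit 0) (XT.lf (nat_lit 0) (nat_lit 3174129857) (nat_lit 152) (nat_lit 6120535809) (nat_lit 76) (nat_lit 38197609041) (nat_lit 3) (nat_lit 5) (nat_lit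 5) (nat_lit 5) (nat_lit 4) (nat_lit 4) (nat_lit 310) (nat_lit 226) (nat_lit 184)) (XT.lf (nat_lit 0) (nat_lit 5370216970) (nat_lit 152) (nat_lit 1707487469) (nat_lit 76) (nat_lit 42647318118) (nat_lit 3) (nat_lit 5) (nat_lit 5) (nat_lit 5) (nat_lit 4) (nat_lit 4) (nat_lit 311) (nat_lit 226) (nat_lit 183)))) (XT.nd (nat_lit 156) (nat_lit 0) (nat_lit 0) (XT.nd (nat_lit 78) (nat_lit 0) (nat_lit 0) (XT.lf (nat_lit 0) (nat_lit 2976420261) (nat_lit 76) (nat_lit 4719944611) (nat_lit 152) (nat_lit 44372082601) (nat_lit 2) (nat_lit 5) (nat_lit 3) (nat_lit 5) (nat_lit 4) (nat_lit 4) (nat_lit 312) (nat_lit 226) (nat_lit 182)) (XT.lf (nat_lit 0) (nat_lit 7909473154) (nat_lit 76) (nat_lit 2232606472) (nat_lit 152) (nat_lit 44386851031) (nat_lit 2) (nat_lit 5) (nat_lit 3) (nat_lit 5) (nat_lit 4) (nat_lit 4) (nat_lit 313) (nat_lit 226) (nat_lit 181))) (XT.nd (nat_lit 78) (nat_lit 0) (nat_lit 0) (XT.lf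 (nat_lit 0) (nat_lit 12691285381) (nat_lit 152) (nat_lit 44072389224) (nat_lit 0) (nat_lit 349750746) (nat_lit 2) (nat_lit 5) (nat_lit 4) (nat_lit 4) (nat_lit 2) (nat_lit 4) (nat_lit 314) (nat_lit 226) (nat_lit 180)) (XT.lf (nat_lit 0) (nat_lit 15381014837) (nat_lit 152) (nat_lit 41475721089) (nat_lit 0) (nat_lit 2969801030) (nat_lit 2) (nat_lit 5) (nat_lit 4) (nat_lit 4) (nat_lit 2) (nat_lit 4) (nat_lit 315) (nat_lit 226) (nat_lit 179))))) (XT.nd (nat_lit 312) (nat_lit 0) (nat_lit 0) (XT.nd (nat_lit 156) (nat_lit 0) (nat_lit 0) (XT.nd (nat_lit 78) (nat_lit 0) (nat_lit 0) (XT.lf (nat_lit 0) (nat_lit 18182814868) (nat_lit 152) (nat_lit 38788413310) (nat_lit 0) (nat_lit 5705239944) (nat_lit 2) (nat_lit 5) (nat_lit 4) (nat_lit 4) (nat_lit 2) (nat_lit 4) (nat_lit 316) (nat_lit 226) (nat_lit 178)) (XT.lf (nat_lit 0) (nat_lit 21103356426) (nat_lit 152) (nat_lit 36004067537) (nat_lit 0) (nat_lit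 8562580440) (nat_lit 2) (nat_lit 5) (nat_lit 4) (nat_lit 4) (nat_lit 2) (nat_lit 4) (nat_lit 317) (nat_lit 226) (nat_lit 177))) (XT.nd (nat_lit 78) (nat_lit 0) (nat_lit 0) (XT.lf (nat_lit 0) (nat_lit 24149593182) (nat_lit 152) (nat_lit 33116054373) (nat_lit 0) (nat_lit 11548625707) (nat_lit 2) (nat_lit 5) (nat_lit 4) (nat_lit 4) (nat_lit 2) (nat_lit 4) (nat_lit 318) (nat_lit 226) (nat_lit 176)) (XT.lf (nat_lit 0) (nat_lit 27328778081) (nat_lit 152) (nat_lit 30117497598) (nat_lit 0) (nat_lit 14670485379) (nat_lit 2) (nat_lit 5) (nat_lit 4) (nat_lit 4) (nat_lit 2) (nat_lit 4) (nat_lit 319) (nat_lit 226) (nat_lit 175)))) (XT.nd (nat_lit 156) (nat_lit 0) (nat_lit 0) (XT.nd (nat_lit 78) (nat_lit 0) (nat_lit 0) (XT.lf (nat_lit 0) (nat_lit 30648480610) (nat_lit 152) (nat_lit 27001257791) (nat_lit 0) (nat_lit 17935592453) (nat_lit 2) (nat_lit 5) (nat_lit 4) (nat_lit 4) (nat_lit 2) (nat_lit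 4) (nat_lit 320) (nat_lit 226) (nat_lit 174)) (XT.lf (nat_lit 0) (nat_lit 34116604822) (nat_lit 152) (nat_lit 23759915332) (nat_lit 0) (nat_lit 21351720995) (nat_lit 2) (nat_lit 5) (nat_lit 4) (nat_lit 4) (nat_lit 2) (nat_lit 4) (nat_lit 321) (nat_lit 226) (nat_lit 173))) (XT.nd (nat_lit 78) (nat_lit 0) (nat_lit 0) (XT.lf (nat_lit 0) (nat_lit 37741408158) (nat_lit 152) (nat_lit 20385752740) (nat_lit 0) (nat_lit 24927004644) (nat_lit 2) (nat_lit 5) (nat_lit 4) (nat_lit 4) (nat_lit 2) (nat_lit 4) (nat_lit 322) (nat_lit 226) (nat_lit 172)) (XT.nd (nat_lit 78) (nat_lit 0) (nat_lit 0) (XT.lf (nat_lit 0) (nat_lit 41531521100) (nat_lit 152) (nat_lit 16870736295) (nat_lit 0) (nat_lit 28669955980) (nat_lit 2) (nat_lit 5) (nat_lit 4) (nat_lit 4) (nat_lit 2) (nat_lit 4) (nat_lit 323) (nat_lit 226) (nat_lit 171)) (XT.lf (nat_lit 0) (nat_lit 45495967727) (nat_lit 152) (nat_lit 13206496909) (nat_lit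 0) (nat_lit 32589486792) (nat_lit 2) (nat_lit 5) (nat_lit 4) (nat_lit 4) (nat_lit 2) (nat_lit 4) (nat_lit 324) (nat_lit 226) (nat_lit 170))))))) (XT.nd (nat_lit 624) (nat_lit 0) (nat_lit 0) (XT.nd (nat_lit 312) (nat_lit 0) (nat_lit 0) (XT.nd (nat_lit 156) (nat_lit 76) (nat_lit 0) (XT.nd (nat_lit 78) (nat_lit 0) (nat_lit 0) (XT.lf (nat_lit 0) (nat_lit 49644187198) (nat_lit 152) (nat_lit 9384310203) (nat_lit 0) (nat_lit 36694929296) (nat_lit 2) (nat_lit 5) (nat_lit 4) (nat_lit 4) (nat_lit 2) (nat_lit 4) (nat_lit 325) (nat_lit 226) (nat_lit 169)) (XT.lf (nat_lit 0) (nat_lit 53986056226) (nat_lit 152) (nat_lit 5395075733) (nat_lit 0) (nat_lit 40996058355) (nat_lit 2) (nat_lit 5) (nat_lit 4) (nat_lit 4) (nat_lit 2) (nat_lit 4) (nat_lit 326) (nat_lit 226) (nat_lit 168))) (XT.nd (nat_lit 78) (nat_lit 76) (nat_lit 0) (XT.lf (nat_lit 0) (nat_lit 58531912594) (nat_lit 152) (nat_lit 1229295321)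 (nat_lit 0) (nat_lit 45503114753) (nat_lit 2) (nat_lit 5) (nat_lit 4) (nat_lit 4) (nat_lit 2) (nat_lit 4) (nat_lit 327) (nat_lit 226) (nat_lit 167)) (XT.lf (nat_lit 0) (nat_lit 3226208373) (nat_lit 76) (nat_lit 60116741551) (nat_lit 76) (nat_lit 47050991357) (nat_lit 1) (nat_lit 4) (nat_lit 2) (nat_lit 5) (nat_lit 2) (nat_lit 4) (nat_lit 328) (nat_lit 226) (nat_lit 166)))) (XT.nd (nat_lit 156) (nat_lit 0) (nat_lit 0) (XT.nd (nat_lit 78) (nat_lit 0) (nat_lit 0) (XT.lf (nat_lit 0) (nat_lit 7925693064) (nat_lit 76) (nat_lit 60477441891) (nat_lit 76) (nat_lit 47376498980) (nat_lit 1) (nat_lit 4) (nat_lit 2) (nat_lit 5) (nat_lit 2) (nat_lit 4) (nat_lit 329) (nat_lit 226) (nat_lit 165)) (XT.lf (nat_lit 0) (nat_lit 12839701948) (nat_lit 76) (nat_lit 60864986457) (nat_lit 76) (nat_lit 47730526673) (nat_lit 1) (nat_lit 4) (nat_lit 2) (nat_lit 5) (nat_lit 2) (nat_lit 4) (nat_lit 330) (nat_lit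 226) (nat_lit 164))) (XT.nd (nat_lit 78) (nat_lit 0) (nat_lit 0) (XT.lf (nat_lit 0) (nat_lit 17979935044) (nat_lit 76) (nat_lit 61280297974) (nat_lit 76) (nat_lit 48113917359) (nat_lit 1) (nat_lit 4) (nat_lit 2) (nat_lit 5) (nat_lit 2) (nat_lit 4) (nat_lit 331) (nat_lit 226) (nat_lit 163)) (XT.lf (nat_lit 0) (nat_lit 23358631003) (nat_lit 76) (nat_lit 61724365279) (nat_lit 76) (nat_lit 48527583872) (nat_lit 1) (nat_lit 4) (nat_lit 2) (nat_lit 5) (nat_lit 2) (nat_lit 4) (nat_lit 332) (nat_lit 226) (nat_lit 162))))) (XT.nd (nat_lit 312) (nat_lit 0) (nat_lit 0) (XT.nd (nat_lit 156) (nat_lit 0) (nat_lit 0) (XT.nd (nat_lit 78) (nat_lit 0) (nat_lit 0) (XT.lf (nat_lit 0) (nat_lit 28988596244) (nat_lit 76) (nat_lit 62198245675) (nat_lit 76) (nat_lit 48972511133) (nat_lit 1) (nat_lit 4) (nat_lit 2) (nat_lit 5) (nat_lit 2) (nat_lit 4) (nat_lit 333) (nat_lit 226) (nat_lit 161)) (XT.lf (nat_lit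 0) (nat_lit 34883235446) (nat_lit 76) (nat_lit 62703067448) (nat_lit 76) (nat_lit 49449758492) (nat_lit 1) (nat_lit 4) (nat_lit 2) (nat_lit 5) (nat_lit 2) (nat_lit 4) (nat_lit 334) (nat_lit 226) (nat_lit 160))) (XT.nd (nat_lit 78) (nat_lit 0) (nat_lit 0) (XT.lf (nat_lit 0) (nat_lit 41056583464) (nat_lit 76) (nat_lit 63240032557) (nat_lit 76) (nat_lit 49960462253) (nat_lit 1) (nat_lit 4) (nat_lit 2) (nat_lit 5) (nat_lit 2) (nat_lit 4) (nat_lit 335) (nat_lit 226) (nat_lit 159)) (XT.lf (nat_lit 0) (nat_lit 47523338747) (nat_lit 76) (nat_lit 63810419487) (nat_lit 76) (nat_lit 50505838377) (nat_lit 1) (nat_lit 4) (nat_lit 2) (nat_lit 5) (nat_lit 2) (nat_lit 4) (nat_lit 336) (nat_lit 226) (nat_lit 158)))) (XT.nd (nat_lit 156) (nat_lit 0) (nat_lit 0) (XT.nd (nat_lit 78) (nat_lit 0) (nat_lit 0) (XT.lf (nat_lit 0) (nat_lit 54298898329) (nat_lit 76) (nat_lit 64415586305) (nat_lit 76) (nat_lit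 51087185379) (nat_lit 1) (nat_lit 4) (nat_lit 2) (nat_lit 5) (nat_lit 2) (nat_lit 4) (nat_lit 337) (nat_lit 226) (nat_lit 157)) (XT.lf (nat_lit 0) (nat_lit 61399394497) (nat_lit 76) (nat_lit 65056973883) (nat_lit 76) (nat_lit 51705887418) (nat_lit 1) (nat_lit 4) (nat_lit 2) (nat_lit 5) (nat_lit 2) (nat_lit 4) (nat_lit 338) (nat_lit 226) (nat_lit 156))) (XT.nd (nat_lit 78) (nat_lit 0) (nat_lit 0) (XT.lf (nat_lit 0) (nat_lit 68841733193) (nat_lit 76) (nat_lit 65736109334) (nat_lit 76) (nat_lit 52363417594) (nat_lit 1) (nat_lit 4) (nat_lit 2) (nat_lit 5) (nat_lit 2) (nat_lit 4) (nat_lit 339) (nat_lit 226) (nat_lit 155)) (XT.nd (nat_lit 78) (nat_lit 0) (nat_lit 0) (XT.lf (nat_lit 0) (nat_lit 76643634272) (nat_lit 76) (nat_lit 66454609648) (nat_lit 76) (nat_lit 53061341455) (nat_lit 1) (nat_lit 4) (nat_lit 2) (nat_lit 5) (nat_lit 2) (nat_lit 4) (nat_lit 340) (nat_lit 226) (nat_lit 154))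 (XT.lf (nat_lit 0) (nat_lit 84823673687) (nat_lit 76) (nat_lit 67214185540) (nat_lit 76) (nat_lit 53801320725) (nat_lit 1) (nat_lit 4) (nat_lit 2) (nat_lit 5) (nat_lit 2) (nat_lit 4) (nat_lit 341) (nat_lit 226) (nat_lit 153))))))))
noncomputable def xc68 : XT := (XT.nd (nat_lit 1248) (nat_lit 0) (nat_lit 0) (XT.nd (nat_lit 624) (nat_lit 0) (nat_lit 0) (XT.nd (nat_lit 312) (nat_lit 0) (nat_lit 0) (XT.nd (nat_lit 156) (nat_lit 0) (nat_lit 0) (XT.nd (nat_lit 78) (nat_lit 0) (nat_lit 0) (XT.lf (nat_lit 0) (nat_lit 93401327725) (nat_lit 76) (nat_lit 68016645523) (nat_lit 76) (nat_lit 54585117260) (nat_lit 1) (nat_lit 4) (nat_lit 2) (nat_lit 5) (nat_lit 2) (nat_lit 4) (nat_lit 342) (nat_lit 226) (nat_lit 152)) (XT.lf (nat_lit 0) (nat_lit 102397019370) (nat_lit 76) (nat_lit 68863900217) (nat_lit 76) (nat_lit 55414597241) (nat_lit 1) (nat_lit 4) (nat_lit 2) (nat_lit 5) (nat_lit 2) (nat_lit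 4) (nat_lit 343) (nat_lit 226) (nat_lit 151))) (XT.nd (nat_lit 78) (nat_lit 0) (nat_lit 0) (XT.lf (nat_lit 0) (nat_lit 111832166936) (nat_lit 76) (nat_lit 69757966895) (nat_lit 76) (nat_lit 56291735620) (nat_lit 1) (nat_lit 4) (nat_lit 2) (nat_lit 5) (nat_lit 2) (nat_lit 4) (nat_lit 344) (nat_lit 226) (nat_lit 150)) (XT.lf (nat_lit 0) (nat_lit 121729235059) (nat_lit 76) (nat_lit 70700974287) (nat_lit 76) (nat_lit 57218620823) (nat_lit 1) (nat_lit 4) (nat_lit 2) (nat_lit 5) (nat_lit 2) (nat_lit 4) (nat_lit 345) (nat_lit 226) (nat_lit 149)))) (XT.nd (nat_lit 156) (nat_lit 0) (nat_lit 0) (XT.nd (nat_lit 78) (nat_lit 0) (nat_lit 0) (XT.lf (nat_lit 0) (nat_lit 132111788189) (nat_lit 76) (nat_lit 71695167649) (nat_lit 76) (nat_lit 58197459719) (nat_lit 1) (nat_lit 4) (nat_lit 2) (nat_lit 5) (nat_lit 2) (nat_lit 4) (nat_lit 346) (nat_lit 226) (nat_lit 148)) (XT.lf (nat_lit 0) (nat_lit 143004546689)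 (nat_lit 76) (nat_lit 72742914107) (nat_lit 76) (nat_lit 59230582877) (nat_lit 1) (nat_lit 4) (nat_lit 2) (nat_lit 5) (nat_lit 2) (nat_lit 4) (nat_lit 347) (nat_lit 226) (nat_lit 147))) (XT.nd (nat_lit 78) (nat_lit 0) (nat_lit 0) (XT.lf (nat_lit 0) (nat_lit 154433445699) (nat_lit 76) (nat_lit 73846708297) (nat_lit 76) (nat_lit 60320450113) (nat_lit 1) (nat_lit 4) (nat_lit 2) (nat_lit 5) (nat_lit 2) (nat_lit 4) (nat_lit 348) (nat_lit 226) (nat_lit 146)) (XT.lf (nat_lit 0) (nat_lit 166425696883) (nat_lit 76) (nat_lit 75009178299) (nat_lit 76) (nat_lit 61469656350) (nat_lit 1) (nat_lit 4) (nat_lit 2) (nat_lit 5) (nat_lit 2) (nat_lit 4) (nat_lit 349) (nat_lit 226) (nat_lit 145))))) (XT.nd (nat_lit 312) (nat_lit 0) (nat_lit 0) (XT.nd (nat_lit 156) (nat_lit 0) (nat_lit 0) (XT.nd (nat_lit 78) (nat_lit 0) (nat_lit 0) (XT.lf (nat_lit 0) (nat_lit 179009853220) (nat_lit 76) (nat_lit 76233091899)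 (nat_lit 76) (nat_lit 62680937794) (nat_lit 1) (nat_lit 4) (nat_lit 2) (nat_lit 5) (nat_lit 2) (nat_lit 4) (nat_lit 350) (nat_lit 226) (nat_lit 144)) (XT.lf (nat_lit 0) (nat_lit 192215876987) (nat_lit 76) (nat_lit 77521363178) (nat_lit 76) (nat_lit 63957178447) (nat_lit 1) (nat_lit 4) (nat_lit 2) (nat_lit 5) (nat_lit 2) (nat_lit 4) (nat_lit 351) (nat_lit 226) (nat_lit 143))) (XT.nd (nat_lit 78) (nat_lit 0) (nat_lit 0) (XT.lf (nat_lit 0) (nat_lit 206075211098) (nat_lit 76) (nat_lit 78877059448) (nat_lit 76) (nat_lit 65301416978) (nat_lit 1) (nat_lit 4) (nat_lit 2) (nat_lit 5) (nat_lit 2) (nat_lit 4) (nat_lit 352) (nat_lit 226) (nat_lit 142)) (XT.lf (nat_lit 0) (nat_lit 220620853967) (nat_lit 76) (nat_lit 80303408556) (nat_lit 76) (nat_lit 66716853954) (nat_lit 1) (nat_lit 4) (nat_lit 2) (nat_lit 5) (nat_lit 2) (nat_lit 4) (nat_lit 353) (nat_lit 226) (nat_lit 141)))) (XT.nd (nat_lit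 156) (nat_lit 0) (nat_lit 0) (XT.nd (nat_lit 78) (nat_lit 0) (nat_lit 0) (XT.lf (nat_lit 0) (nat_lit 235887438077) (nat_lit 76) (nat_lit 81803806573) (nat_lit 76) (nat_lit 68206859464) (nat_lit 1) (nat_lit 4) (nat_lit 2) (nat_lit 5) (nat_lit 2) (nat_lit 4) (nat_lit 354) (nat_lit 226) (nat_lit 140)) (XT.lf (nat_lit 0) (nat_lit 251911312439) (nat_lit 76) (nat_lit 83381825875) (nat_lit 76) (nat_lit 69774981141) (nat_lit 1) (nat_lit 4) (nat_lit 2) (nat_lit 5) (nat_lit 2) (nat_lit 4) (nat_lit 355) (nat_lit 226) (nat_lit 139))) (XT.nd (nat_lit 78) (nat_lit 0) (nat_lit 0) (XT.lf (nat_lit 0) (nat_lit 268730629134) (nat_lit 76) (nat_lit 85041223650) (nat_lit 76) (nat_lit 71424952606) (nat_lit 1) (nat_lit 4) (nat_lit 2) (nat_lit 5) (nat_lit 2) (nat_lit 4) (nat_lit 356) (nat_lit 226) (nat_lit 138)) (XT.lf (nat_lit 0) (nat_lit 286385434153) (nat_lit 76) (nat_lit 86785950846) (nat_lit 76) (nat_lit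 73160702363) (nat_lit 1) (nat_lit 4) (nat_lit 2) (nat_lit 5) (nat_lit 2) (nat_lit 4) (nat_lit 357) (nat_lit 226) (nat_lit 137)))))) (XT.nd (nat_lit 30654) (nat_lit 0) (nat_lit 1140) (XT.nd (nat_lit 30342) (nat_lit 0) (nat_lit 2128) (XT.nd (nat_lit 156) (nat_lit 0) (nat_lit 0) (XT.nd (nat_lit 78) (nat_lit 0) (nat_lit 0) (XT.lf (nat_lit 0) (nat_lit 304917762748) (nat_lit 76) (nat_lit 88620161575) (nat_lit 76) (nat_lit 74986363151) (nat_lit 1) (nat_lit 4) (nat_lit 2) (nat_lit 5) (nat_lit 2) (nat_lit 4) (nat_lit 358) (nat_lit 226) (nat_lit 136)) (XT.lf (nat_lit 0) (nat_lit 324371739510) (nat_lit 76) (nat_lit 90548223005) (nat_lit 76) (nat_lit 76906281780) (nat_lit 1) (nat_lit 4) (nat_lit 2) (nat_lit 5) (nat_lit 2) (nat_lit 4) (nat_lit 359) (nat_lit 226) (nat_lit 135))) (XT.nd (nat_lit 78) (nat_lit 0) (nat_lit 0) (XT.lf (nat_lit 0) (nat_lit 344793683431) (nat_lit 76) (nat_lit 92574725758)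 (nat_lit 76) (nat_lit 78925029485) (nat_lit 1) (nat_lit 4) (nat_lit 2) (nat_lit 5) (nat_lit 2) (nat_lit 4) (nat_lit 360) (nat_lit 226) (nat_lit 134)) (XT.lf (nat_lit 0) (nat_lit 366232218188) (nat_lit 76) (nat_lit 94704494843) (nat_lit 76) (nat_lit 81047412809) (nat_lit 1) (nat_lit 4) (nat_lit 2) (nat_lit 5) (nat_lit 2) (nat_lit 4) (nat_lit 361) (nat_lit 226) (nat_lit 133)))) (XT.nd (nat_lit 156) (nat_lit 304) (nat_lit 0) (XT.nd (nat_lit 78) (nat_lit 0) (nat_lit 0) (XT.lf (nat_lit 0) (nat_lit 557108584) (nat_lit 304) (nat_lit 3350199761) (nat_lit 0) (nat_lit 557108584) (nat_lit 33) (nat_lit 5) (nat_lit 37) (nat_lit 4) (nat_lit 33) (nat_lit 4) (nat_lit 266) (nat_lit 227) (nat_lit 227)) (XT.lf (nat_lit 0) (nat_lit 4260055193) (nat_lit 304) (nat_lit 1601789273) (nat_lit 0) (nat_lit 3288818391) (nat_lit 33) (nat_lit 5) (nat_lit 37) (nat_lit 4) (nat_lit 33) (nat_lit 4) (nat_lit 267) (nat_lit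 227) (nat_lit 226))) (XT.nd (nat_lit 78) (nat_lit 76) (nat_lit 0) (XT.lf (nat_lit 0) (nat_lit 3699038728) (nat_lit 228) (nat_lit 3792477123) (nat_lit 228) (nat_lit 1896252890) (nat_lit 30) (nat_lit 4) (nat_lit 33) (nat_lit 5) (nat_lit 33) (nat_lit 4) (nat_lit 268) (nat_lit 227) (nat_lit 225)) (XT.lf (nat_lit 0) (nat_lit 1106947666) (nat_lit 304) (nat_lit 507921926) (nat_lit 76) (nat_lit 8026478937) (nat_lit 29) (nat_lit 5) (nat_lit 33) (nat_lit 5) (nat_lit 30) (nat_lit 4) (nat_lit 269) (nat_lit 227) (nat_lit 224))))) (XT.nd (nat_lit 312) (nat_lit 380) (nat_lit 0) (XT.nd (nat_lit 156) (nat_lit 228) (nat_lit 0) (XT.nd (nat_lit 78) (nat_lit 228) (nat_lit 0) (XT.lf (nat_lit 0) (nat_lit 4162165528) (nat_lit 228) (nat_lit 5027920391) (nat_lit 0) (nat_lit 718207900) (nat_lit 27) (nat_lit 5) (nat_lit 30) (nat_lit 4) (nat_lit 27) (nat_lit 4) (nat_lit 270) (nat_lit 227) (nat_lit 223)) (XT.lf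 (nat_lit 0) (nat_lit 178652732) (nat_lit 228) (nat_lit 7109731972) (nat_lit 228) (nat_lit 2904784896) (nat_lit 24) (nat_lit 4) (nat_lit 27) (nat_lit 5) (nat_lit 27) (nat_lit 4) (nat_lit 271) (nat_lit 227) (nat_lit 222))) (XT.nd (nat_lit 78) (nat_lit 152) (nat_lit 0) (XT.lf (nat_lit 0) (nat_lit 43643809) (nat_lit 304) (nat_lit 4840229121) (nat_lit 76) (nat_lit 5610427333) (nat_lit 23) (nat_lit 5) (nat_lit 27) (nat_lit 5) (nat_lit 24) (nat_lit 4) (nat_lit 272) (nat_lit 227) (nat_lit 221)) (XT.lf (nat_lit 0) (nat_lit 396229162) (nat_lit 152) (nat_lit 2538486913) (nat_lit 228) (nat_lit 7879176129) (nat_lit 21) (nat_lit 5) (nat_lit 23) (nat_lit 5) (nat_lit 24) (nat_lit 4) (nat_lit 273) (nat_lit 227) (nat_lit 220)))) (XT.nd (nat_lit 156) (nat_lit 380) (nat_lit 0) (XT.nd (nat_lit 78) (nat_lit 0) (nat_lit 0) (XT.lf (nat_lit 0) (nat_lit 5903552503) (nat_lit 152) (nat_lit 38331688) (nat_lit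 228) (nat_lit 5209409879) (nat_lit 21) (nat_lit 5) (nat_lit 23) (nat_lit 5) (nat_lit 24) (nat_lit 4) (nat_lit 274) (nat_lit 227) (nat_lit 219)) (XT.lf (nat_lit 0) (nat_lit 9033905349) (nat_lit 228) (nat_lit 16064347) (nat_lit 0) (nat_lit 2459259642) (nat_lit 21) (nat_lit 5) (nat_lit 24) (nat_lit 4) (nat_lit 21) (nat_lit 4) (nat_lit 275) (nat_lit 227) (nat_lit 218))) (XT.nd (nat_lit 78) (nat_lit 152) (nat_lit 0) (XT.lf (nat_lit 0) (nat_lit 367924657) (nat_lit 228) (nat_lit 6388262203) (nat_lit 76) (nat_lit 5129661963) (nat_lit 18) (nat_lit 5) (nat_lit 21) (nat_lit 5) (nat_lit 19) (nat_lit 4) (nat_lit 276) (nat_lit 227) (nat_lit 217)) (XT.nd (nat_lit 78) (nat_lit 152) (nat_lit 0) (XT.lf (nat_lit 0) (nat_lit 3170136899) (nat_lit 228) (nat_lit 1184548098) (nat_lit 76) (nat_lit 7929921118) (nat_lit 18) (nat_lit 5) (nat_lit 21) (nat_lit 5) (nat_lit 19) (nat_lit 4) (nat_lit 277) (nat_lit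 227) (nat_lit 216)) (XT.lf (nat_lit 0) (nat_lit 4273111555) (nat_lit 152) (nat_lit 1810550840) (nat_lit 228) (nat_lit 6621397987) (nat_lit 16) (nat_lit 5) (nat_lit 18) (nat_lit 5) (nat_lit 19) (nat_lit 4) (nat_lit 278) (nat_lit 227) (nat_lit 215))))))))
noncomputable def xc69 : XT := (XT.nd (nat_lit 1326) (nat_lit 228) (nat_lit 0) (XT.nd (nat_lit 624) (nat_lit 304) (nat_lit 0) (XT.nd (nat_lit 312) (nat_lit 228) (nat_lit 0) (XT.nd (nat_lit 156) (nat_lit 76) (nat_lit 0) (XT.nd (nat_lit 78) (nat_lit 152) (nat_lit 0) (XT.lf (nat_lit 0) (nat_lit 9082789954) (nat_lit 228) (nat_lit 3259443239) (nat_lit 0) (nat_lit 807611917) (nat_lit 16) (nat_lit 5) (nat_lit 19) (nat_lit 4) (nat_lit 16) (nat_lit 4) (nat_lit 279) (nat_lit 227) (nat_lit 214)) (XT.lf (nat_lit 0) (nat_lit 2070248550) (nat_lit 152) (nat_lit 10134197152) (nat_lit 152) (nat_lit 1414084345) (nat_lit 14) (nat_lit 4) (nat_lit 16) (nat_lit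 5) (nat_lit 16) (nat_lit 4) (nat_lit 280) (nat_lit 227) (nat_lit 213))) (XT.nd (nat_lit 78) (nat_lit 0) (nat_lit 0) (XT.lf (nat_lit 0) (nat_lit 1294751328) (nat_lit 228) (nat_lit 6489619983) (nat_lit 76) (nat_lit 6327114182) (nat_lit 13) (nat_lit 5) (nat_lit 16) (nat_lit 5) (nat_lit 14) (nat_lit 4) (nat_lit 281) (nat_lit 227) (nat_lit 212)) (XT.lf (nat_lit 0) (nat_lit 4006752788) (nat_lit 228) (nat_lit 1333585941) (nat_lit 76) (nat_lit 9292078706) (nat_lit 13) (nat_lit 5) (nat_lit 16) (nat_lit 5) (nat_lit 14) (nat_lit 4) (nat_lit 282) (nat_lit 227) (nat_lit 211)))) (XT.nd (nat_lit 156) (nat_lit 152) (nat_lit 0) (XT.nd (nat_lit 78) (nat_lit 0) (nat_lit 0) (XT.lf (nat_lit 0) (nat_lit 4084917594) (nat_lit 76) (nat_lit 2752496129) (nat_lit 152) (nat_lit 8343067502) (nat_lit 12) (nat_lit 5) (nat_lit 13) (nat_lit 5) (nat_lit 14) (nat_lit 4) (nat_lit 283) (nat_lit 227) (nat_lit 210)) (XT.lf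 (nat_lit 0) (nat_lit 9696603787) (nat_lit 76) (nat_lit 56778292) (nat_lit 152) (nat_lit 6005604287) (nat_lit 12) (nat_lit 5) (nat_lit 13) (nat_lit 5) (nat_lit 14) (nat_lit 4) (nat_lit 284) (nat_lit 227) (nat_lit 209))) (XT.nd (nat_lit 78) (nat_lit 152) (nat_lit 0) (XT.lf (nat_lit 0) (nat_lit 12782724257) (nat_lit 152) (nat_lit 942279374) (nat_lit 0) (nat_lit 2643250437) (nat_lit 12) (nat_lit 5) (nat_lit 14) (nat_lit 4) (nat_lit 12) (nat_lit 4) (nat_lit 285) (nat_lit 227) (nat_lit 208)) (XT.lf (nat_lit 0) (nat_lit 4459997130) (nat_lit 152) (nat_lit 11501976237) (nat_lit 152) (nat_lit 1046295583) (nat_lit 10) (nat_lit 4) (nat_lit 12) (nat_lit 5) (nat_lit 12) (nat_lit 4) (nat_lit 286) (nat_lit 227) (nat_lit 207))))) (XT.nd (nat_lit 312) (nat_lit 152) (nat_lit 0) (XT.nd (nat_lit 156) (nat_lit 76) (nat_lit 0) (XT.nd (nat_lit 78) (nat_lit 0) (nat_lit 0) (XT.lf (nat_lit 0) (nat_lit 1512462073)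 (nat_lit 228) (nat_lit 7656282768) (nat_lit 76) (nat_lit 8513241395) (nat_lit 9) (nat_lit 5) (nat_lit 12) (nat_lit 5) (nat_lit 10) (nat_lit 4) (nat_lit 287) (nat_lit 227) (nat_lit 206)) (XT.lf (nat_lit 0) (nat_lit 4095603869) (nat_lit 228) (nat_lit 2647651006) (nat_lit 76) (nat_lit 11648874227) (nat_lit 9) (nat_lit 5) (nat_lit 12) (nat_lit 5) (nat_lit 10) (nat_lit 4) (nat_lit 288) (nat_lit 227) (nat_lit 205))) (XT.nd (nat_lit 78) (nat_lit 0) (nat_lit 0) (XT.lf (nat_lit 0) (nat_lit 2588740240) (nat_lit 76) (nat_lit 4194445384) (nat_lit 152) (nat_lit 12355998642) (nat_lit 8) (nat_lit 5) (nat_lit 9) (nat_lit 5) (nat_lit 10) (nat_lit 4) (nat_lit 289) (nat_lit 227) (nat_lit 204)) (XT.lf (nat_lit 0) (nat_lit 8075045621) (nat_lit 76) (nat_lit 1511286113) (nat_lit 152) (nat_lit 10338362430) (nat_lit 8) (nat_lit 5) (nat_lit 9) (nat_lit 5) (nat_lit 10) (nat_lit 4) (nat_lit 290) (nat_lit 227)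 (nat_lit 203)))) (XT.nd (nat_lit 156) (nat_lit 152) (nat_lit 0) (XT.nd (nat_lit 78) (nat_lit 0) (nat_lit 0) (XT.lf (nat_lit 0) (nat_lit 12488805784) (nat_lit 152) (nat_lit 7035673270) (nat_lit 0) (nat_lit 1227195532) (nat_lit 8) (nat_lit 5) (nat_lit 10) (nat_lit 4) (nat_lit 8) (nat_lit 4) (nat_lit 291) (nat_lit 227) (nat_lit 202)) (XT.lf (nat_lit 0) (nat_lit 15502873792) (nat_lit 152) (nat_lit 2102411725) (nat_lit 0) (nat_lit 4016541247) (nat_lit 8) (nat_lit 5) (nat_lit 10) (nat_lit 4) (nat_lit 8) (nat_lit 4) (nat_lit 292) (nat_lit 227) (nat_lit 201))) (XT.nd (nat_lit 78) (nat_lit 76) (nat_lit 0) (XT.lf (nat_lit 0) (nat_lit 3084190727) (nat_lit 76) (nat_lit 15576078833) (nat_lit 76) (nat_lit 3875725056) (nat_lit 7) (nat_lit 4) (nat_lit 8) (nat_lit 5) (nat_lit 8) (nat_lit 4) (nat_lit 293) (nat_lit 227) (nat_lit 200)) (XT.nd (nat_lit 78) (nat_lit 76) (nat_lit 0) (XT.lf (nat_lit 0) (nat_lit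 8512563200) (nat_lit 76) (nat_lit 13444279234) (nat_lit 76) (nat_lit 1540095713) (nat_lit 7) (nat_lit 4) (nat_lit 8) (nat_lit 5) (nat_lit 8) (nat_lit 4) (nat_lit 294) (nat_lit 227) (nat_lit 199)) (XT.lf (nat_lit 0) (nat_lit 830432859) (nat_lit 152) (nat_lit 10395919724) (nat_lit 76) (nat_lit 13281618521) (nat_lit 6) (nat_lit 5) (nat_lit 8) (nat_lit 5) (nat_lit 7) (nat_lit 4) (nat_lit 295) (nat_lit 227) (nat_lit 198))))))) (XT.nd (nat_lit 624) (nat_lit 152) (nat_lit 0) (XT.nd (nat_lit 312) (nat_lit 0) (nat_lit 0) (XT.nd (nat_lit 156) (nat_lit 76) (nat_lit 0) (XT.nd (nat_lit 78) (nat_lit 0) (nat_lit 0) (XT.lf (nat_lit 0) (nat_lit 3217556777) (nat_lit 152) (nat_lit 5687195279) (nat_lit 76) (nat_lit 16666164558) (nat_lit 6) (nat_lit 5) (nat_lit 8) (nat_lit 5) (nat_lit 7) (nat_lit 4) (nat_lit 296) (nat_lit 227) (nat_lit 197)) (XT.lf (nat_lit 0) (nat_lit 5676252350) (nat_lit 152) (nat_lit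 822945153) (nat_lit 76) (nat_lit 20190310256) (nat_lit 6) (nat_lit 5) (nat_lit 8) (nat_lit 5) (nat_lit 7) (nat_lit 4) (nat_lit 297) (nat_lit 227) (nat_lit 196))) (XT.nd (nat_lit 78) (nat_lit 0) (nat_lit 0) (XT.lf (nat_lit 0) (nat_lit 4347561314) (nat_lit 76) (nat_lit 3932689915) (nat_lit 152) (nat_lit 19582762742) (nat_lit 5) (nat_lit 5) (nat_lit 6) (nat_lit 5) (nat_lit 7) (nat_lit 4) (nat_lit 298) (nat_lit 227) (nat_lit 195)) (XT.lf (nat_lit 0) (nat_lit 9730286130) (nat_lit 76) (nat_lit 1253589857) (nat_lit 152) (nat_lit 18112947195) (nat_lit 5) (nat_lit 5) (nat_lit 6) (nat_lit 5) (nat_lit 7) (nat_lit 4) (nat_lit 299) (nat_lit 227) (nat_lit 194)))) (XT.nd (nat_lit 156) (nat_lit 0) (nat_lit 0) (XT.nd (nat_lit 78) (nat_lit 0) (nat_lit 0) (XT.lf (nat_lit 0) (nat_lit 13804186606) (nat_lit 152) (nat_lit 15107597767) (nat_lit 0) (nat_lit 1481557522) (nat_lit 5) (nat_lit 5) (nat_lit 7) (nat_lit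 4) (nat_lit 5) (nat_lit 4) (nat_lit 300) (nat_lit 227) (nat_lit 193)) (XT.lf (nat_lit 0) (nat_lit 16745260552) (nat_lit 152) (nat_lit 10725856912) (nat_lit 0) (nat_lit 4284671474) (nat_lit 5) (nat_lit 5) (nat_lit 7) (nat_lit 4) (nat_lit 5) (nat_lit 4) (nat_lit 301) (nat_lit 227) (nat_lit 192))) (XT.nd (nat_lit 78) (nat_lit 0) (nat_lit 0) (XT.lf (nat_lit 0) (nat_lit 19794528332) (nat_lit 152) (nat_lit 6191309719) (nat_lit 0) (nat_lit 7202548783) (nat_lit 5) (nat_lit 5) (nat_lit 7) (nat_lit 4) (nat_lit 5) (nat_lit 4) (nat_lit 302) (nat_lit 227) (nat_lit 191)) (XT.lf (nat_lit 0) (nat_lit 22959250107) (nat_lit 152) (nat_lit 1493159648) (nat_lit 0) (nat_lit 10242136776) (nat_lit 5) (nat_lit 5) (nat_lit 7) (nat_lit 4) (nat_lit 5) (nat_lit 4) (nat_lit 303) (nat_lit 227) (nat_lit 190))))) (XT.nd (nat_lit 312) (nat_lit 76) (nat_lit 0) (XT.nd (nat_lit 156) (nat_lit 0) (nat_lit 0) (XT.nd (nat_lit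 78) (nat_lit 0) (nat_lit 0) (XT.lf (nat_lit 0) (nat_lit 3491530142) (nat_lit 76) (nat_lit 22809943357) (nat_lit 76) (nat_lit 9973654996) (nat_lit 4) (nat_lit 4) (nat_lit 5) (nat_lit 5) (nat_lit 5) (nat_lit 4) (nat_lit 304) (nat_lit 227) (nat_lit 189)) (XT.lf (nat_lit 0) (nat_lit 8718144654) (nat_lit 76) (nat_lit 21083458696) (nat_lit 76) (nat_lit 8133670307) (nat_lit 4) (nat_lit 4) (nat_lit 5) (nat_lit 5) (nat_lit 5) (nat_lit 4) (nat_lit 305) (nat_lit 227) (nat_lit 188))) (XT.nd (nat_lit 78) (nat_lit 0) (nat_lit 0) (XT.lf (nat_lit 0) (nat_lit 14149757607) (nat_lit 76) (nat_lit 19294132477) (nat_lit 76) (nat_lit 6236248822) (nat_lit 4) (nat_lit 4) (nat_lit 5) (nat_lit 5) (nat_lit 5) (nat_lit 4) (nat_lit 306) (nat_lit 227) (nat_lit 187)) (XT.lf (nat_lit 0) (nat_lit 19799301412) (nat_lit 76) (nat_lit 17437704399) (nat_lit 76) (nat_lit 4276872872) (nat_lit 4) (nat_lit 4) (nat_lit 5) (nat_lit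 5) (nat_lit 5) (nat_lit 4) (nat_lit 307) (nat_lit 227) (nat_lit 186)))) (XT.nd (nat_lit 156) (nat_lit 76) (nat_lit 0) (XT.nd (nat_lit 78) (nat_lit 0) (nat_lit 0) (XT.lf (nat_lit 0) (nat_lit 25680227364) (nat_lit 76) (nat_lit 15509754394) (nat_lit 76) (nat_lit 2250877276) (nat_lit 4) (nat_lit 4) (nat_lit 5) (nat_lit 5) (nat_lit 5) (nat_lit 4) (nat_lit 308) (nat_lit 227) (nat_lit 185)) (XT.lf (nat_lit 0) (nat_lit 31806537668) (nat_lit 76) (nat_lit 13505692107) (nat_lit 76) (nat_lit 153438234) (nat_lit 4) (nat_lit 4) (nat_lit 5) (nat_lit 5) (nat_lit 5) (nat_lit 4) (nat_lit 309) (nat_lit 227) (nat_lit 184))) (XT.nd (nat_lit 78) (nat_lit 0) (nat_lit 0) (XT.lf (nat_lit 0) (nat_lit 1955771517) (nat_lit 152) (nat_lit 9431852505) (nat_lit 76) (nat_lit 36203925322) (nat_lit 3) (nat_lit 5) (nat_lit 5) (nat_lit 5) (nat_lit 4) (nat_lit 4) (nat_lit 310) (nat_lit 227) (nat_lit 183)) (XT.nd (nat_lit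 78) (nat_lit 0) (nat_lit 0) (XT.lf (nat_lit 0) (nat_lit 4139071397) (nat_lit 152) (nat_lit 5040783219) (nat_lit 76) (nat_lit 40645107546) (nat_lit 3) (nat_lit 5) (nat_lit 5) (nat_lit 5) (nat_lit 4) (nat_lit 4) (nat_lit 311) (nat_lit 227) (nat_lit 182)) (XT.lf (nat_lit 0) (nat_lit 6406570720) (nat_lit 152) (nat_lit 473071957) (nat_lit 76) (nat_lit 45291701218) (nat_lit 3) (nat_lit 5) (nat_lit 5) (nat_lit 5) (nat_lit 4) (nat_lit 4) (nat_lit 312) (nat_lit 227) (nat_lit 181))))))))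
noncomputable def xc70 : XT := (XT.nd (nat_lit 1326) (nat_lit 0) (nat_lit 0) (XT.nd (nat_lit 624) (nat_lit 76) (nat_lit 0) (XT.nd (nat_lit 312) (nat_lit 0) (nat_lit 0) (XT.nd (nat_lit 156) (nat_lit 0) (nat_lit 0) (XT.nd (nat_lit 78) (nat_lit 0) (nat_lit 0) (XT.lf (nat_lit 0) (nat_lit 4423744226) (nat_lit 76) (nat_lit 4408991114) (nat_lit 152) (nat_lit 45800092472) (nat_lit 2) (nat_lit 5) (nat_lit 3) (nat_lit 5) (nat_lit 4) (nat_lit 4) (nat_lit 313) (nat_lit 227) (nat_lit 180)) (XT.lf (nat_lit 0) (nat_lit 9541616290) (nat_lit 76) (nat_lit 1823331340) (nat_lit 152) (nat_lit 45853246669) (nat_lit 2) (nat_lit 5) (nat_lit 3) (nat_lit 5) (nat_lit 4) (nat_lit 4) (nat_lit 314) (nat_lit 227) (nat_lit 179))) (XT.nd (nat_lit 78) (nat_lit 0) (nat_lit 0) (XT.lf (nat_lit 0) (nat_lit 14015275190) (nat_lit 152) (nat_lit 45070561471) (nat_lit 0) (nat_lit 847460404) (nat_lit 2) (nat_lit 5) (nat_lit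 4) (nat_lit 4) (nat_lit 2) (nat_lit 4) (nat_lit 315) (nat_lit 227) (nat_lit 178)) (XT.lf (nat_lit 0) (nat_lit 16806661331) (nat_lit 152) (nat_lit 42401462178) (nat_lit 0) (nat_lit 3575645483) (nat_lit 2) (nat_lit 5) (nat_lit 4) (nat_lit 4) (nat_lit 2) (nat_lit 4) (nat_lit 316) (nat_lit 227) (nat_lit 177)))) (XT.nd (nat_lit 156) (nat_lit 0) (nat_lit 0) (XT.nd (nat_lit 78) (nat_lit 0) (nat_lit 0) (XT.lf (nat_lit 0) (nat_lit 19717284899) (nat_lit 152) (nat_lit 39634457818) (nat_lit 0) (nat_lit 6426077562) (nat_lit 2) (nat_lit 5) (nat_lit 4) (nat_lit 4) (nat_lit 2) (nat_lit 4) (nat_lit 317) (nat_lit 227) (nat_lit 176)) (XT.lf (nat_lit 0) (nat_lit 22754075950) (nat_lit 152) (nat_lit 36762960287) (nat_lit 0) (nat_lit 9405543386) (nat_lit 2) (nat_lit 5) (nat_lit 4) (nat_lit 4) (nat_lit 2) (nat_lit 4) (nat_lit 318) (nat_lit 227) (nat_lit 175))) (XT.nd (nat_lit 78) (nat_lit 0) (nat_lit 0) (XT.lf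 (nat_lit 0) (nat_lit 25924264939) (nat_lit 152) (nat_lit 33780132686) (nat_lit 0) (nat_lit 12521136921) (nat_lit 2) (nat_lit 5) (nat_lit 4) (nat_lit 4) (nat_lit 2) (nat_lit 4) (nat_lit 319) (nat_lit 227) (nat_lit 174)) (XT.lf (nat_lit 0) (nat_lit 29235399935) (nat_lit 152) (nat_lit 30678873044) (nat_lit 0) (nat_lit 15780276246) (nat_lit 2) (nat_lit 5) (nat_lit 4) (nat_lit 4) (nat_lit 2) (nat_lit 4) (nat_lit 320) (nat_lit 227) (nat_lit 173))))) (XT.nd (nat_lit 312) (nat_lit 76) (nat_lit 0) (XT.nd (nat_lit 156) (nat_lit 0) (nat_lit 0) (XT.nd (nat_lit 78) (nat_lit 0) (nat_lit 0) (XT.lf (nat_lit 0) (nat_lit 32695364593) (nat_lit 152) (nat_lit 27451797409) (nat_lit 0) (nat_lit 19190721217) (nat_lit 2) (nat_lit 5) (nat_lit 4) (nat_lit 4) (nat_lit 2) (nat_lit 4) (nat_lit 321) (nat_lit 227) (nat_lit 172)) (XT.lf (nat_lit 0) (nat_lit 36312396923) (nat_lit 152) (nat_lit 24091222269) (nat_lit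 0) (nat_lit 22760591941) (nat_lit 2) (nat_lit 5) (nat_lit 4) (nat_lit 4) (nat_lit 2) (nat_lit 4) (nat_lit 322) (nat_lit 227) (nat_lit 171))) (XT.nd (nat_lit 78) (nat_lit 0) (nat_lit 0) (XT.lf (nat_lit 0) (nat_lit 40095108908) (nat_lit 152) (nat_lit 20589146254) (nat_lit 0) (nat_lit 26498388111) (nat_lit 2) (nat_lit 5) (nat_lit 4) (nat_lit 4) (nat_lit 2) (nat_lit 4) (nat_lit 323) (nat_lit 227) (nat_lit 170)) (XT.lf (nat_lit 0) (nat_lit 44052507005) (nat_lit 152) (nat_lit 16937231087) (nat_lit 0) (nat_lit 30413009240) (nat_lit 2) (nat_lit 5) (nat_lit 4) (nat_lit 4) (nat_lit 2) (nat_lit 4) (nat_lit 324) (nat_lit 227) (nat_lit 169)))) (XT.nd (nat_lit 156) (nat_lit 76) (nat_lit 0) (XT.nd (nat_lit 78) (nat_lit 0) (nat_lit 0) (XT.lf (nat_lit 0) (nat_lit 48194013590) (nat_lit 152) (nat_lit 13126781733) (nat_lit 0) (nat_lit 34513775857) (nat_lit 2) (nat_lit 5) (nat_lit 4) (nat_lit 4) (nat_lit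 2) (nat_lit 4) (nat_lit 325) (nat_lit 227) (nat_lit 168)) (XT.lf (nat_lit 0) (nat_lit 52529489393) (nat_lit 152) (nat_lit 9148725693) (nat_lit 0) (nat_lit 38810451689) (nat_lit 2) (nat_lit 5) (nat_lit 4) (nat_lit 4) (nat_lit 2) (nat_lit 4) (nat_lit 326) (nat_lit 227) (nat_lit 167))) (XT.nd (nat_lit 78) (nat_lit 76) (nat_lit 0) (XT.lf (nat_lit 0) (nat_lit 57069256975) (nat_lit 152) (nat_lit 4993591405) (nat_lit 0) (nat_lit 43313266919) (nat_lit 2) (nat_lit 5) (nat_lit 4) (nat_lit 4) (nat_lit 2) (nat_lit 4) (nat_lit 327) (nat_lit 227) (nat_lit 166)) (XT.nd (nat_lit 78) (nat_lit 76) (nat_lit 0) (XT.lf (nat_lit 0) (nat_lit 61824125308) (nat_lit 152) (nat_lit 651485692) (nat_lit 0) (nat_lit 48032942535) (nat_lit 2) (nat_lit 5) (nat_lit 4) (nat_lit 4) (nat_lit 2) (nat_lit 4) (nat_lit 328) (nat_lit 227) (nat_lit 165)) (XT.lf (nat_lit 0) (nat_lit 4016482309) (nat_lit 76) (nat_lit 62851641741)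 (nat_lit 76) (nat_lit 49026942095) (nat_lit 1) (nat_lit 4) (nat_lit 2) (nat_lit 5) (nat_lit 2) (nat_lit 4) (nat_lit 329) (nat_lit 227) (nat_lit 164))))))) (XT.nd (nat_lit 624) (nat_lit 0) (nat_lit 0) (XT.nd (nat_lit 312) (nat_lit 0) (nat_lit 0) (XT.nd (nat_lit 156) (nat_lit 0) (nat_lit 0) (XT.nd (nat_lit 78) (nat_lit 0) (nat_lit 0) (XT.lf (nat_lit 0) (nat_lit 8920990591) (nat_lit 76) (nat_lit 63243278854) (nat_lit 76) (nat_lit 49386658377) (nat_lit 1) (nat_lit 4) (nat_lit 2) (nat_lit 5) (nat_lit 2) (nat_lit 4) (nat_lit 330) (nat_lit 227) (nat_lit 163)) (XT.lf (nat_lit 0) (nat_lit 14052175496) (nat_lit 76) (nat_lit 63662488036) (nat_lit 76) (nat_lit 49775466766) (nat_lit 1) (nat_lit 4) (nat_lit 2) (nat_lit 5) (nat_lit 2) (nat_lit 4) (nat_lit 331) (nat_lit 227) (nat_lit 162))) (XT.nd (nat_lit 78) (nat_lit 0) (nat_lit 0) (XT.lf (nat_lit 0) (nat_lit 19422254130) (nat_lit 76) (nat_lit 64110267402)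 (nat_lit 76) (nat_lit 50194292997) (nat_lit 1) (nat_lit 4) (nat_lit 2) (nat_lit 5) (nat_lit 2) (nat_lit 4) (nat_lit 332) (nat_lit 227) (nat_lit 161)) (XT.lf (nat_lit 0) (nat_lit 25044012395) (nat_lit 76) (nat_lit 64587683094) (nat_lit 76) (nat_lit 50644134276) (nat_lit 1) (nat_lit 4) (nat_lit 2) (nat_lit 5) (nat_lit 2) (nat_lit 4) (nat_lit 333) (nat_lit 227) (nat_lit 160)))) (XT.nd (nat_lit 156) (nat_lit 0) (nat_lit 0) (XT.nd (nat_lit 78) (nat_lit 0) (nat_lit 0) (XT.lf (nat_lit 0) (nat_lit 30930835430) (nat_lit 76) (nat_lit 65095871817) (nat_lit 76) (nat_lit 51126061651) (nat_lit 1) (nat_lit 4) (nat_lit 2) (nat_lit 5) (nat_lit 2) (nat_lit 4) (nat_lit 334) (nat_lit 227) (nat_lit 159)) (XT.lf (nat_lit 0) (nat_lit 37096739479) (nat_lit 76) (nat_lit 65636043544) (nat_lit 76) (nat_lit 51641222571) (nat_lit 1) (nat_lit 4) (nat_lit 2) (nat_lit 5) (nat_lit 2) (nat_lit 4) (nat_lit 335) (nat_lit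 227) (nat_lit 158))) (XT.nd (nat_lit 78) (nat_lit 0) (nat_lit 0) (XT.lf (nat_lit 0) (nat_lit 43556405267) (nat_lit 76) (nat_lit 66209484396) (nat_lit 76) (nat_lit 52190843608) (nat_lit 1) (nat_lit 4) (nat_lit 2) (nat_lit 5) (nat_lit 2) (nat_lit 4) (nat_lit 336) (nat_lit 227) (nat_lit 157)) (XT.lf (nat_lit 0) (nat_lit 50325212950) (nat_lit 76) (nat_lit 66817559711) (nat_lit 76) (nat_lit 52776233384) (nat_lit 1) (nat_lit 4) (nat_lit 2) (nat_lit 5) (nat_lit 2) (nat_lit 4) (nat_lit 337) (nat_lit 227) (nat_lit 156))))) (XT.nd (nat_lit 312) (nat_lit 0) (nat_lit 0) (XT.nd (nat_lit 156) (nat_lit 0) (nat_lit 0) (XT.nd (nat_lit 78) (nat_lit 0) (nat_lit 0) (XT.lf (nat_lit 0) (nat_lit 57419278737) (nat_lit 76) (nat_lit 67461717287) (nat_lit 76) (nat_lit 53398785684) (nat_lit 1) (nat_lit 4) (nat_lit 2) (nat_lit 5) (nat_lit 2) (nat_lit 4) (nat_lit 338) (nat_lit 227) (nat_lit 155)) (XT.lf (nat_lit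 0) (nat_lit 64855493261) (nat_lit 76) (nat_lit 68143490831) (nat_lit 76) (nat_lit 54059982775) (nat_lit 1) (nat_lit 4) (nat_lit 2) (nat_lit 5) (nat_lit 2) (nat_lit 4) (nat_lit 339) (nat_lit 227) (nat_lit 154))) (XT.nd (nat_lit 78) (nat_lit 0) (nat_lit 0) (XT.lf (nat_lit 0) (nat_lit 72651561795) (nat_lit 76) (nat_lit 68864503614) (nat_lit 76) (nat_lit 54761398937) (nat_lit 1) (nat_lit 4) (nat_lit 2) (nat_lit 5) (nat_lit 2) (nat_lit 4) (nat_lit 340) (nat_lit 227) (nat_lit 153)) (XT.lf (nat_lit 0) (nat_lit 80826046406) (nat_lit 76) (nat_lit 69626472333) (nat_lit 76) (nat_lit 55504704208) (nat_lit 1) (nat_lit 4) (nat_lit 2) (nat_lit 5) (nat_lit 2) (nat_lit 4) (nat_lit 341) (nat_lit 227) (nat_lit 152)))) (XT.nd (nat_lit 156) (nat_lit 0) (nat_lit 0) (XT.nd (nat_lit 78) (nat_lit 0) (nat_lit 0) (XT.lf (nat_lit 0) (nat_lit 89398410154) (nat_lit 76) (nat_lit 70431211201) (nat_lit 76) (nat_lit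 56291668361) (nat_lit 1) (nat_lit 4) (nat_lit 2) (nat_lit 5) (nat_lit 2) (nat_lit 4) (nat_lit 342) (nat_lit 227) (nat_lit 151)) (XT.lf (nat_lit 0) (nat_lit 98389063427) (nat_lit 76) (nat_lit 71280636260) (nat_lit 76) (nat_lit 57124165122) (nat_lit 1) (nat_lit 4) (nat_lit 2) (nat_lit 5) (nat_lit 2) (nat_lit 4) (nat_lit 343) (nat_lit 227) (nat_lit 150))) (XT.nd (nat_lit 78) (nat_lit 0) (nat_lit 0) (XT.lf (nat_lit 0) (nat_lit 107819412544) (nat_lit 76) (nat_lit 72176769953) (nat_lit 76) (nat_lit 58004176626) (nat_lit 1) (nat_lit 4) (nat_lit 2) (nat_lit 5) (nat_lit 2) (nat_lit 4) (nat_lit 344) (nat_lit 227) (nat_lit 149)) (XT.nd (nat_lit 78) (nat_lit 0) (nat_lit 0) (XT.lf (nat_lit 0) (nat_lit 117711910717) (nat_lit 76) (nat_lit 73121745930) (nat_lit 76) (nat_lit 58933798138) (nat_lit 1) (nat_lit 4) (nat_lit 2) (nat_lit 5) (nat_lit 2) (nat_lit 4) (nat_lit 345) (nat_lit 227) (nat_lit 148))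 (XT.lf (nat_lit 0) (nat_lit 128090111512) (nat_lit 76) (nat_lit 74117814135) (nat_lit 76) (nat_lit 59915243042) (nat_lit 1) (nat_lit 4) (nat_lit 2) (nat_lit 5) (nat_lit 2) (nat_lit 4) (nat_lit 346) (nat_lit 227) (nat_lit 147))))))))
noncomputable def xc71 : XT := (XT.nd (nat_lit 31278) (nat_lit 0) (nat_lit 836) (XT.nd (nat_lit 624) (nat_lit 0) (nat_lit 0) (XT.nd (nat_lit 312) (nat_lit 0) (nat_lit 0) (XT.nd (nat_lit 156) (nat_lit 0) (nat_lit 0) (XT.nd (nat_lit 78) (nat_lit 0) (nat_lit 0) (XT.lf (nat_lit 0) (nat_lit 138978724931) (nat_lit 76) (nat_lit 75167346158) (nat_lit 76) (nat_lit 60950848112) (nat_lit 1) (nat_lit 4) (nat_lit 2) (nat_lit 5) (nat_lit 2) (nat_lit 4) (nat_lit 347) (nat_lit 227) (nat_lit 146)) (XT.lf (nat_lit 0) (nat_lit 150403676245) (nat_lit 76) (nat_lit 76272840886) (nat_lit 76) (nat_lit 62043079075) (nat_lit 1) (nat_lit 4) (nat_lit 2) (nat_lit 5) (nat_lit 2) (nat_lit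 4) (nat_lit 348) (nat_lit 227) (nat_lit 145))) (XT.nd (nat_lit 78) (nat_lit 0) (nat_lit 0) (XT.lf (nat_lit 0) (nat_lit 162392167719) (nat_lit 76) (nat_lit 77436930448) (nat_lit 76) (nat_lit 63194536480) (nat_lit 1) (nat_lit 4) (nat_lit 2) (nat_lit 5) (nat_lit 2) (nat_lit 4) (nat_lit 349) (nat_lit 227) (nat_lit 144)) (XT.lf (nat_lit 0) (nat_lit 174972743379) (nat_lit 76) (nat_lit 78662386487) (nat_lit 76) (nat_lit 64407961893) (nat_lit 1) (nat_lit 4) (nat_lit 2) (nat_lit 5) (nat_lit 2) (nat_lit 4) (nat_lit 350) (nat_lit 227) (nat_lit 143)))) (XT.nd (nat_lit 156) (nat_lit 0) (nat_lit 0) (XT.nd (nat_lit 78) (nat_lit 0) (nat_lit 0) (XT.lf (nat_lit 0) (nat_lit 188175356978) (nat_lit 76) (nat_lit 79952126754) (nat_lit 76) (nat_lit 65686244422) (nat_lit 1) (nat_lit 4) (nat_lit 2) (nat_lit 5) (nat_lit 2) (nat_lit 4) (nat_lit 351) (nat_lit 227) (nat_lit 142)) (XT.lf (nat_lit 0) (nat_lit 202031443310)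 (nat_lit 76) (nat_lit 81309222061) (nat_lit 76) (nat_lit 67032427596) (nat_lit 1) (nat_lit 4) (nat_lit 2) (nat_lit 5) (nat_lit 2) (nat_lit 4) (nat_lit 352) (nat_lit 227) (nat_lit 141))) (XT.nd (nat_lit 78) (nat_lit 0) (nat_lit 0) (XT.lf (nat_lit 0) (nat_lit 216573993056) (nat_lit 76) (nat_lit 82736903585) (nat_lit 76) (nat_lit 68449716614) (nat_lit 1) (nat_lit 4) (nat_lit 2) (nat_lit 5) (nat_lit 2) (nat_lit 4) (nat_lit 353) (nat_lit 227) (nat_lit 140)) (XT.lf (nat_lit 0) (nat_lit 231837631335) (nat_lit 76) (nat_lit 84238570570) (nat_lit 76) (nat_lit 69941485973) (nat_lit 1) (nat_lit 4) (nat_lit 2) (nat_lit 5) (nat_lit 2) (nat_lit 4) (nat_lit 354) (nat_lit 227) (nat_lit 139))))) (XT.nd (nat_lit 312) (nat_lit 0) (nat_lit 0) (XT.nd (nat_lit 156) (nat_lit 0) (nat_lit 0) (XT.nd (nat_lit 78) (nat_lit 0) (nat_lit 0) (XT.lf (nat_lit 0) (nat_lit 247858700143) (nat_lit 76) (nat_lit 85817798412)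 (nat_lit 76) (nat_lit 71511287506) (nat_lit 1) (nat_lit 4) (nat_lit 2) (nat_lit 5) (nat_lit 2) (nat_lit 4) (nat_lit 355) (nat_lit 227) (nat_lit 138)) (XT.lf (nat_lit 0) (nat_lit 264675344882) (nat_lit 76) (nat_lit 87478347179) (nat_lit 76) (nat_lit 73162858834) (nat_lit 1) (nat_lit 4) (nat_lit 2) (nat_lit 5) (nat_lit 2) (nat_lit 4) (nat_lit 356) (nat_lit 227) (nat_lit 137))) (XT.nd (nat_lit 78) (nat_lit 0) (nat_lit 0) (XT.lf (nat_lit 0) (nat_lit 282327605182) (nat_lit 76) (nat_lit 89224170557) (nat_lit 76) (nat_lit 74900132271) (nat_lit 1) (nat_lit 4) (nat_lit 2) (nat_lit 5) (nat_lit 2) (nat_lit 4) (nat_lit 357) (nat_lit 227) (nat_lit 136)) (XT.lf (nat_lit 0) (nat_lit 300857510234) (nat_lit 76) (nat_lit 91059425268) (nat_lit 76) (nat_lit 76727244181) (nat_lit 1) (nat_lit 4) (nat_lit 2) (nat_lit 5) (nat_lit 2) (nat_lit 4) (nat_lit 358) (nat_lit 227) (nat_lit 135)))) (XT.nd (nat_lit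 30108) (nat_lit 0) (nat_lit 2432) (XT.nd (nat_lit 78) (nat_lit 0) (nat_lit 0) (XT.lf (nat_lit 0) (nat_lit 320309178860) (nat_lit 76) (nat_lit 92988480968) (nat_lit 76) (nat_lit 78648544832) (nat_lit 1) (nat_lit 4) (nat_lit 2) (nat_lit 5) (nat_lit 2) (nat_lit 4) (nat_lit 359) (nat_lit 227) (nat_lit 134)) (XT.lf (nat_lit 0) (nat_lit 340728924556) (nat_lit 76) (nat_lit 95015930645) (nat_lit 76) (nat_lit 80668608749) (nat_lit 1) (nat_lit 4) (nat_lit 2) (nat_lit 5) (nat_lit 2) (nat_lit 4) (nat_lit 360) (nat_lit 227) (nat_lit 133))) (XT.nd (nat_lit 78) (nat_lit 304) (nat_lit 0) (XT.lf (nat_lit 0) (nat_lit 291257919) (nat_lit 304) (nat_lit 1984643691) (nat_lit 304) (nat_lit 1984643691) (nat_lit 37) (nat_lit 4) (nat_lit 41) (nat_lit 5) (nat_lit 41) (nat_lit 4) (nat_lit 264) (nat_lit 228) (nat_lit 228)) (XT.nd (nat_lit 78) (nat_lit 304) (nat_lit 0) (XT.lf (nat_lit 0) (nat_lit 5765661151) (nat_lit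 304) (nat_lit 2012520452) (nat_lit 304) (nat_lit 941731878) (nat_lit 37) (nat_lit 4) (nat_lit 41) (nat_lit 5) (nat_lit 41) (nat_lit 4) (nat_lit 265) (nat_lit 228) (nat_lit 227)) (XT.lf (nat_lit 0) (nat_lit 2067726685) (nat_lit 304) (nat_lit 6788038719) (nat_lit 0) (nat_lit 76691242) (nat_lit 33) (nat_lit 5) (nat_lit 37) (nat_lit 4) (nat_lit 33) (nat_lit 4) (nat_lit 266) (nat_lit 228) (nat_lit 226))))))) (XT.nd (nat_lit 624) (nat_lit 684) (nat_lit 0) (XT.nd (nat_lit 312) (nat_lit 456) (nat_lit 0) (XT.nd (nat_lit 156) (nat_lit 228) (nat_lit 0) (XT.nd (nat_lit 78) (nat_lit 228) (nat_lit 0) (XT.lf (nat_lit 0) (nat_lit 5150432208) (nat_lit 304) (nat_lit 1772894372) (nat_lit 0) (nat_lit 2234409334) (nat_lit 33) (nat_lit 5) (nat_lit 37) (nat_lit 4) (nat_lit 33) (nat_lit 4) (nat_lit 267) (nat_lit 228) (nat_lit 225)) (XT.lf (nat_lit 0) (nat_lit 3440156444) (nat_lit 228) (nat_lit 4877568353)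 (nat_lit 228) (nat_lit 1080605069) (nat_lit 30) (nat_lit 4) (nat_lit 33) (nat_lit 5) (nat_lit 33) (nat_lit 4) (nat_lit 268) (nat_lit 228) (nat_lit 224))) (XT.nd (nat_lit 78) (nat_lit 152) (nat_lit 0) (XT.lf (nat_lit 0) (nat_lit 1836788981) (nat_lit 304) (nat_lit 870536738) (nat_lit 76) (nat_lit 6947185904) (nat_lit 29) (nat_lit 5) (nat_lit 33) (nat_lit 5) (nat_lit 30) (nat_lit 4) (nat_lit 269) (nat_lit 228) (nat_lit 223)) (XT.lf (nat_lit 0) (nat_lit 4438792646) (nat_lit 152) (nat_lit 377688191) (nat_lit 228) (nat_lit 5108993961) (nat_lit 27) (nat_lit 5) (nat_lit 29) (nat_lit 5) (nat_lit 30) (nat_lit 4) (nat_lit 270) (nat_lit 228) (nat_lit 222)))) (XT.nd (nat_lit 156) (nat_lit 152) (nat_lit 0) (XT.nd (nat_lit 78) (nat_lit 304) (nat_lit 0) (XT.lf (nat_lit 0) (nat_lit 7878374002) (nat_lit 228) (nat_lit 357984688) (nat_lit 0) (nat_lit 1977438269) (nat_lit 27) (nat_lit 5) (nat_lit 30) (nat_lit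 4) (nat_lit 27) (nat_lit 4) (nat_lit 271) (nat_lit 228) (nat_lit 221)) (XT.lf (nat_lit 0) (nat_lit 533624104) (nat_lit 304) (nat_lit 5497246179) (nat_lit 76) (nat_lit 4486879486) (nat_lit 23) (nat_lit 5) (nat_lit 27) (nat_lit 5) (nat_lit 24) (nat_lit 4) (nat_lit 272) (nat_lit 228) (nat_lit 220))) (XT.nd (nat_lit 78) (nat_lit 152) (nat_lit 0) (XT.lf (nat_lit 0) (nat_lit 3365853072) (nat_lit 304) (nat_lit 348548093) (nat_lit 76) (nat_lit 7126081462) (nat_lit 23) (nat_lit 5) (nat_lit 27) (nat_lit 5) (nat_lit 24) (nat_lit 4) (nat_lit 273) (nat_lit 228) (nat_lit 219)) (XT.lf (nat_lit 0) (nat_lit 5073383225) (nat_lit 152) (nat_lit 1242713369) (nat_lit 228) (nat_lit 4864823417) (nat_lit 21) (nat_lit 5) (nat_lit 23) (nat_lit 5) (nat_lit 24) (nat_lit 4) (nat_lit 274) (nat_lit 228) (nat_lit 218))))) (XT.nd (nat_lit 312) (nat_lit 304) (nat_lit 0) (XT.nd (nat_lit 156) (nat_lit 152) (nat_lit 0)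 (XT.nd (nat_lit 78) (nat_lit 228) (nat_lit 0) (XT.lf (nat_lit 0) (nat_lit 9340118600) (nat_lit 228) (nat_lit 929693489) (nat_lit 0) (nat_lit 1272623420) (nat_lit 21) (nat_lit 5) (nat_lit 24) (nat_lit 4) (nat_lit 21) (nat_lit 4) (nat_lit 275) (nat_lit 228) (nat_lit 217)) (XT.lf (nat_lit 0) (nat_lit 568295187) (nat_lit 228) (nat_lit 7443311038) (nat_lit 76) (nat_lit 3910594092) (nat_lit 18) (nat_lit 5) (nat_lit 21) (nat_lit 5) (nat_lit 19) (nat_lit 4) (nat_lit 276) (nat_lit 228) (nat_lit 216))) (XT.nd (nat_lit 78) (nat_lit 152) (nat_lit 0) (XT.lf (nat_lit 0) (nat_lit 3323915915) (nat_lit 228) (nat_lit 2309356159) (nat_lit 76) (nat_lit 6690170840) (nat_lit 18) (nat_lit 5) (nat_lit 21) (nat_lit 5) (nat_lit 19) (nat_lit 4) (nat_lit 277) (nat_lit 228) (nat_lit 215)) (XT.lf (nat_lit 0) (nat_lit 3042478184) (nat_lit 152) (nat_lit 3131376720) (nat_lit 228) (nat_lit 6573369914) (nat_lit 16)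 (nat_lit 5) (nat_lit 18) (nat_lit 5) (nat_lit 19) (nat_lit 4) (nat_lit 278) (nat_lit 228) (nat_lit 214)))) (XT.nd (nat_lit 156) (nat_lit 152) (nat_lit 0) (XT.nd (nat_lit 78) (nat_lit 152) (nat_lit 0) (XT.lf (nat_lit 0) (nat_lit 8608080012) (nat_lit 152) (nat_lit 508596031) (nat_lit 228) (nat_lit 4078290074) (nat_lit 16) (nat_lit 5) (nat_lit 18) (nat_lit 5) (nat_lit 19) (nat_lit 4) (nat_lit 279) (nat_lit 228) (nat_lit 213)) (XT.lf (nat_lit 0) (nat_lit 640877254) (nat_lit 152) (nat_lit 11525649592) (nat_lit 152) (nat_lit 1500848976) (nat_lit 14) (nat_lit 4) (nat_lit 16) (nat_lit 5) (nat_lit 16) (nat_lit 4) (nat_lit 280) (nat_lit 228) (nat_lit 212))) (XT.nd (nat_lit 78) (nat_lit 76) (nat_lit 0) (XT.lf (nat_lit 0) (nat_lit 1169420541) (nat_lit 228) (nat_lit 8031057458) (nat_lit 76) (nat_lit 4962110177) (nat_lit 13) (nat_lit 5) (nat_lit 16) (nat_lit 5) (nat_lit 14) (nat_lit 4) (nat_lit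 281) (nat_lit 228) (nat_lit 211)) (XT.nd (nat_lit 78) (nat_lit 76) (nat_lit 0) (XT.lf (nat_lit 0) (nat_lit 3842047558) (nat_lit 228) (nat_lit 2936523456) (nat_lit 76) (nat_lit 7907034032) (nat_lit 13) (nat_lit 5) (nat_lit 16) (nat_lit 5) (nat_lit 14) (nat_lit 4) (nat_lit 282) (nat_lit 228) (nat_lit 210)) (XT.lf (nat_lit 0) (nat_lit 2368471622) (nat_lit 76) (nat_lit 4239938869) (nat_lit 152) (nat_lit 8628583918) (nat_lit 12) (nat_lit 5) (nat_lit 13) (nat_lit 5) (nat_lit 14) (nat_lit 4) (nat_lit 283) (nat_lit 228) (nat_lit 209))))))))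
noncomputable def xc72 : XT := (XT.nd (nat_lit 1248) (nat_lit 228) (nat_lit 0) (XT.nd (nat_lit 624) (nat_lit 228) (nat_lit 0) (XT.nd (nat_lit 312) (nat_lit 76) (nat_lit 0) (XT.nd (nat_lit 156) (nat_lit 228) (nat_lit 0) (XT.nd (nat_lit 78) (nat_lit 0) (nat_lit 0) (XT.lf (nat_lit 0) (nat_lit 7922531049) (nat_lit 76) (nat_lit 1565234302) (nat_lit 152) (nat_lit 6329670276) (nat_lit 12) (nat_lit 5) (nat_lit 13) (nat_lit 5) (nat_lit 14) (nat_lit 4) (nat_lit 284) (nat_lit 228) (nat_lit 208)) (XT.lf (nat_lit 0) (nat_lit 12458373853) (nat_lit 152) (nat_lit 2807664211) (nat_lit 0) (nat_lit 1163702332) (nat_lit 12) (nat_lit 5) (nat_lit 14) (nat_lit 4) (nat_lit 12) (nat_lit 4) (nat_lit 285) (nat_lit 228) (nat_lit 207))) (XT.nd (nat_lit 78) (nat_lit 76) (nat_lit 0) (XT.lf (nat_lit 0) (nat_lit 2477430087) (nat_lit 152) (nat_lit 13095732352) (nat_lit 152) (nat_lit 1499911466) (nat_lit 10) (nat_lit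 4) (nat_lit 12) (nat_lit 5) (nat_lit 12) (nat_lit 4) (nat_lit 286) (nat_lit 228) (nat_lit 206)) (XT.lf (nat_lit 0) (nat_lit 1040003096) (nat_lit 228) (nat_lit 9750623457) (nat_lit 76) (nat_lit 6958273547) (nat_lit 9) (nat_lit 5) (nat_lit 12) (nat_lit 5) (nat_lit 10) (nat_lit 4) (nat_lit 287) (nat_lit 228) (nat_lit 205)))) (XT.nd (nat_lit 156) (nat_lit 0) (nat_lit 0) (XT.nd (nat_lit 78) (nat_lit 76) (nat_lit 0) (XT.lf (nat_lit 0) (nat_lit 3591371907) (nat_lit 228) (nat_lit 4793468747) (nat_lit 76) (nat_lit 10075873546) (nat_lit 9) (nat_lit 5) (nat_lit 12) (nat_lit 5) (nat_lit 10) (nat_lit 4) (nat_lit 288) (nat_lit 228) (nat_lit 204)) (XT.lf (nat_lit 0) (nat_lit 321325297) (nat_lit 76) (nat_lit 5891967678) (nat_lit 152) (nat_lit 12997838078) (nat_lit 8) (nat_lit 5) (nat_lit 9) (nat_lit 5) (nat_lit 10) (nat_lit 4) (nat_lit 289) (nat_lit 228) (nat_lit 203))) (XT.nd (nat_lit 78) (nat_lit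 0) (nat_lit 0) (XT.lf (nat_lit 0) (nat_lit 5759395651) (nat_lit 76) (nat_lit 3227471315) (nat_lit 152) (nat_lit 11011327498) (nat_lit 8) (nat_lit 5) (nat_lit 9) (nat_lit 5) (nat_lit 10) (nat_lit 4) (nat_lit 290) (nat_lit 228) (nat_lit 202)) (XT.lf (nat_lit 0) (nat_lit 11375196377) (nat_lit 76) (nat_lit 466187240) (nat_lit 152) (nat_lit 8986260479) (nat_lit 8) (nat_lit 5) (nat_lit 9) (nat_lit 5) (nat_lit 10) (nat_lit 4) (nat_lit 291) (nat_lit 228) (nat_lit 201))))) (XT.nd (nat_lit 312) (nat_lit 152) (nat_lit 0) (XT.nd (nat_lit 156) (nat_lit 0) (nat_lit 0) (XT.nd (nat_lit 78) (nat_lit 76) (nat_lit 0) (XT.lf (nat_lit 0) (nat_lit 14821086062) (nat_lit 152) (nat_lit 4556803067) (nat_lit 0) (nat_lit 2321693365) (nat_lit 8) (nat_lit 5) (nat_lit 10) (nat_lit 4) (nat_lit 8) (nat_lit 4) (nat_lit 292) (nat_lit 228) (nat_lit 200)) (XT.lf (nat_lit 0) (nat_lit 504474859) (nat_lit 76) (nat_lit 17407933164)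 (nat_lit 76) (nat_lit 4704710722) (nat_lit 7) (nat_lit 4) (nat_lit 8) (nat_lit 5) (nat_lit 8) (nat_lit 4) (nat_lit 293) (nat_lit 228) (nat_lit 199))) (XT.nd (nat_lit 78) (nat_lit 0) (nat_lit 0) (XT.lf (nat_lit 0) (nat_lit 5890779462) (nat_lit 76) (nat_lit 15292975863) (nat_lit 76) (nat_lit 2395629855) (nat_lit 7) (nat_lit 4) (nat_lit 8) (nat_lit 5) (nat_lit 8) (nat_lit 4) (nat_lit 294) (nat_lit 228) (nat_lit 198)) (XT.lf (nat_lit 0) (nat_lit 11464266787) (nat_lit 76) (nat_lit 13105153280) (nat_lit 76) (nat_lit 22927685) (nat_lit 7) (nat_lit 4) (nat_lit 8) (nat_lit 5) (nat_lit 8) (nat_lit 4) (nat_lit 295) (nat_lit 228) (nat_lit 197)))) (XT.nd (nat_lit 156) (nat_lit 76) (nat_lit 0) (XT.nd (nat_lit 78) (nat_lit 0) (nat_lit 0) (XT.lf (nat_lit 0) (nat_lit 2341620529) (nat_lit 152) (nat_lit 8457979306) (nat_lit 76) (nat_lit 14856930037) (nat_lit 6) (nat_lit 5) (nat_lit 8) (nat_lit 5) (nat_lit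 7) (nat_lit 4) (nat_lit 296) (nat_lit 228) (nat_lit 196)) (XT.lf (nat_lit 0) (nat_lit 4778116546) (nat_lit 152) (nat_lit 3630853706) (nat_lit 76) (nat_lit 18367311442) (nat_lit 6) (nat_lit 5) (nat_lit 8) (nat_lit 5) (nat_lit 7) (nat_lit 4) (nat_lit 297) (nat_lit 228) (nat_lit 195))) (XT.nd (nat_lit 78) (nat_lit 0) (nat_lit 0) (XT.lf (nat_lit 0) (nat_lit 1410284880) (nat_lit 76) (nat_lit 5904828995) (nat_lit 152) (nat_lit 20638072394) (nat_lit 5) (nat_lit 5) (nat_lit 6) (nat_lit 5) (nat_lit 7) (nat_lit 4) (nat_lit 298) (nat_lit 228) (nat_lit 194)) (XT.lf (nat_lit 0) (nat_lit 6758223274) (nat_lit 76) (nat_lit 3239836595) (nat_lit 152) (nat_lit 19190015537) (nat_lit 5) (nat_lit 5) (nat_lit 6) (nat_lit 5) (nat_lit 7) (nat_lit 4) (nat_lit 299) (nat_lit 228) (nat_lit 193)))))) (XT.nd (nat_lit 624) (nat_lit 152) (nat_lit 0) (XT.nd (nat_lit 312) (nat_lit 76) (nat_lit 0) (XT.nd (nat_lit 156)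 (nat_lit 0) (nat_lit 0) (XT.nd (nat_lit 78) (nat_lit 0) (nat_lit 0) (XT.lf (nat_lit 0) (nat_lit 12305642241) (nat_lit 76) (nat_lit 469138097) (nat_lit 152) (nat_lit 17712037086) (nat_lit 5) (nat_lit 5) (nat_lit 6) (nat_lit 5) (nat_lit 7) (nat_lit 4) (nat_lit 300) (nat_lit 228) (nat_lit 192)) (XT.lf (nat_lit 0) (nat_lit 15689573693) (nat_lit 152) (nat_lit 13824441819) (nat_lit 0) (nat_lit 2336604696) (nat_lit 5) (nat_lit 5) (nat_lit 7) (nat_lit 4) (nat_lit 5) (nat_lit 4) (nat_lit 301) (nat_lit 228) (nat_lit 191))) (XT.nd (nat_lit 78) (nat_lit 0) (nat_lit 0) (XT.lf (nat_lit 0) (nat_lit 18720788110) (nat_lit 152) (nat_lit 9320687056) (nat_lit 0) (nat_lit 5242685331) (nat_lit 5) (nat_lit 5) (nat_lit 7) (nat_lit 4) (nat_lit 5) (nat_lit 4) (nat_lit 302) (nat_lit 228) (nat_lit 190)) (XT.lf (nat_lit 0) (nat_lit 21868316206) (nat_lit 152) (nat_lit 4651863108) (nat_lit 0) (nat_lit 8271038397)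 (nat_lit 5) (nat_lit 5) (nat_lit 7) (nat_lit 4) (nat_lit 5) (nat_lit 4) (nat_lit 303) (nat_lit 228) (nat_lit 189)))) (XT.nd (nat_lit 156) (nat_lit 0) (nat_lit 0) (XT.nd (nat_lit 78) (nat_lit 0) (nat_lit 0) (XT.lf (nat_lit 0) (nat_lit 199532559) (nat_lit 76) (nat_lit 24943234799) (nat_lit 76) (nat_lit 11232456961) (nat_lit 4) (nat_lit 4) (nat_lit 5) (nat_lit 5) (nat_lit 5) (nat_lit 4) (nat_lit 304) (nat_lit 228) (nat_lit 188)) (XT.lf (nat_lit 0) (nat_lit 5398667907) (nat_lit 76) (nat_lit 23228205101) (nat_lit 76) (nat_lit 9409331998) (nat_lit 4) (nat_lit 4) (nat_lit 5) (nat_lit 5) (nat_lit 5) (nat_lit 4) (nat_lit 305) (nat_lit 228) (nat_lit 187))) (XT.nd (nat_lit 78) (nat_lit 0) (nat_lit 0) (XT.lf (nat_lit 0) (nat_lit 10804110228) (nat_lit 76) (nat_lit 21449788371) (nat_lit 76) (nat_lit 7527967396) (nat_lit 4) (nat_lit 4) (nat_lit 5) (nat_lit 5) (nat_lit 5) (nat_lit 4) (nat_lit 306)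 (nat_lit 228) (nat_lit 186)) (XT.lf (nat_lit 0) (nat_lit 16428729622) (nat_lit 76) (nat_lit 19603750281) (nat_lit 76) (nat_lit 5583883715) (nat_lit 4) (nat_lit 4) (nat_lit 5) (nat_lit 5) (nat_lit 5) (nat_lit 4) (nat_lit 307) (nat_lit 228) (nat_lit 185))))) (XT.nd (nat_lit 312) (nat_lit 76) (nat_lit 0) (XT.nd (nat_lit 156) (nat_lit 76) (nat_lit 0) (XT.nd (nat_lit 78) (nat_lit 0) (nat_lit 0) (XT.lf (nat_lit 0) (nat_lit 22285918039) (nat_lit 76) (nat_lit 17685695505) (nat_lit 76) (nat_lit 3572452184) (nat_lit 4) (nat_lit 4) (nat_lit 5) (nat_lit 5) (nat_lit 5) (nat_lit 4) (nat_lit 308) (nat_lit 228) (nat_lit 184)) (XT.lf (nat_lit 0) (nat_lit 28389621167) (nat_lit 76) (nat_lit 15691057244) (nat_lit 76) (nat_lit 1488883680) (nat_lit 4) (nat_lit 4) (nat_lit 5) (nat_lit 5) (nat_lit 5) (nat_lit 4) (nat_lit 309) (nat_lit 228) (nat_lit 183))) (XT.nd (nat_lit 78) (nat_lit 0) (nat_lit 0) (XT.lf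 (nat_lit 0) (nat_lit 650281431) (nat_lit 152) (nat_lit 12953792097) (nat_lit 76) (nat_lit 34093077370) (nat_lit 3) (nat_lit 5) (nat_lit 5) (nat_lit 5) (nat_lit 4) (nat_lit 4) (nat_lit 310) (nat_lit 228) (nat_lit 182)) (XT.lf (nat_lit 0) (nat_lit 2821402994) (nat_lit 152) (nat_lit 8583655244) (nat_lit 76) (nat_lit 38526138782) (nat_lit 3) (nat_lit 5) (nat_lit 5) (nat_lit 5) (nat_lit 4) (nat_lit 4) (nat_lit 311) (nat_lit 228) (nat_lit 181)))) (XT.nd (nat_lit 156) (nat_lit 0) (nat_lit 0) (XT.nd (nat_lit 78) (nat_lit 76) (nat_lit 0) (XT.lf (nat_lit 0) (nat_lit 5077303921) (nat_lit 152) (nat_lit 4035879632) (nat_lit 76) (nat_lit 43164998347) (nat_lit 3) (nat_lit 5) (nat_lit 5) (nat_lit 5) (nat_lit 4) (nat_lit 4) (nat_lit 312) (nat_lit 228) (nat_lit 180)) (XT.lf (nat_lit 0) (nat_lit 723519932) (nat_lit 76) (nat_lit 6711131644) (nat_lit 152) (nat_lit 47308477208) (nat_lit 2) (nat_lit 5) (nat_lit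 3) (nat_lit 5) (nat_lit 4) (nat_lit 4) (nat_lit 313) (nat_lit 228) (nat_lit 179))) (XT.nd (nat_lit 78) (nat_lit 0) (nat_lit 0) (XT.lf (nat_lit 0) (nat_lit 5822711893) (nat_lit 76) (nat_lit 4133340236) (nat_lit 152) (nat_lit 47373004797) (nat_lit 2) (nat_lit 5) (nat_lit 3) (nat_lit 5) (nat_lit 4) (nat_lit 4) (nat_lit 314) (nat_lit 228) (nat_lit 178)) (XT.nd (nat_lit 78) (nat_lit 0) (nat_lit 0) (XT.lf (nat_lit 0) (nat_lit 11140392776) (nat_lit 76) (nat_lit 1442021304) (nat_lit 152) (nat_lit 47462963956) (nat_lit 2) (nat_lit 5) (nat_lit 3) (nat_lit 5) (nat_lit 4) (nat_lit 4) (nat_lit 315) (nat_lit 228) (nat_lit 177)) (XT.lf (nat_lit 0) (nat_lit 15341368237) (nat_lit 152) (nat_lit 46230713387) (nat_lit 0) (nat_lit 1325409045) (nat_lit 2) (nat_lit 5) (nat_lit 4) (nat_lit 4) (nat_lit 2) (nat_lit 4) (nat_lit 316) (nat_lit 228) (nat_lit 176))))))))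
noncomputable def xc73 : XT := (XT.nd (nat_lit 1326) (nat_lit 0) (nat_lit 0) (XT.nd (nat_lit 624) (nat_lit 76) (nat_lit 0) (XT.nd (nat_lit 312) (nat_lit 0) (nat_lit 0) (XT.nd (nat_lit 156) (nat_lit 0) (nat_lit 0) (XT.nd (nat_lit 78) (nat_lit 0) (nat_lit 0) (XT.lf (nat_lit 0) (nat_lit 18242546100) (nat_lit 152) (nat_lit 43480224660) (nat_lit 0) (nat_lit 4169261681) (nat_lit 2) (nat_lit 5) (nat_lit 4) (nat_lit 4) (nat_lit 2) (nat_lit 4) (nat_lit 317) (nat_lit 228) (nat_lit 175)) (XT.lf (nat_lit 0) (nat_lit 21270341242) (nat_lit 152) (nat_lit 40624456303) (nat_lit 0) (nat_lit 7142461368) (nat_lit 2) (nat_lit 5) (nat_lit 4) (nat_lit 4) (nat_lit 2) (nat_lit 4) (nat_lit 318) (nat_lit 228) (nat_lit 174))) (XT.nd (nat_lit 78) (nat_lit 0) (nat_lit 0) (XT.lf (nat_lit 0) (nat_lit 24431962698) (nat_lit 152) (nat_lit 37656608867) (nat_lit 0) (nat_lit 10252087153) (nat_lit 2) (nat_lit 5) (nat_lit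 4) (nat_lit 4) (nat_lit 2) (nat_lit 4) (nat_lit 319) (nat_lit 228) (nat_lit 173)) (XT.lf (nat_lit 0) (nat_lit 27734938139) (nat_lit 152) (nat_lit 34569616049) (nat_lit 0) (nat_lit 13505542908) (nat_lit 2) (nat_lit 5) (nat_lit 4) (nat_lit 4) (nat_lit 2) (nat_lit 4) (nat_lit 320) (nat_lit 228) (nat_lit 172)))) (XT.nd (nat_lit 156) (nat_lit 0) (nat_lit 0) (XT.nd (nat_lit 78) (nat_lit 0) (nat_lit 0) (XT.lf (nat_lit 0) (nat_lit 31187131792) (nat_lit 152) (nat_lit 31356127866) (nat_lit 0) (nat_lit 16910574954) (nat_lit 2) (nat_lit 5) (nat_lit 4) (nat_lit 4) (nat_lit 2) (nat_lit 4) (nat_lit 321) (nat_lit 228) (nat_lit 171)) (XT.lf (nat_lit 0) (nat_lit 34796763165) (nat_lit 152) (nat_lit 28008493156) (nat_lit 0) (nat_lit 20475290512) (nat_lit 2) (nat_lit 5) (nat_lit 4) (nat_lit 4) (nat_lit 2) (nat_lit 4) (nat_lit 322) (nat_lit 228) (nat_lit 170))) (XT.nd (nat_lit 78) (nat_lit 0) (nat_lit 0)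 (XT.lf (nat_lit 0) (nat_lit 38572426620) (nat_lit 152) (nat_lit 24518741360) (nat_lit 0) (nat_lit 24208177000) (nat_lit 2) (nat_lit 5) (nat_lit 4) (nat_lit 4) (nat_lit 2) (nat_lit 4) (nat_lit 323) (nat_lit 228) (nat_lit 169)) (XT.lf (nat_lit 0) (nat_lit 42523111830) (nat_lit 152) (nat_lit 20878563545) (nat_lit 0) (nat_lit 28118122241) (nat_lit 2) (nat_lit 5) (nat_lit 4) (nat_lit 4) (nat_lit 2) (nat_lit 4) (nat_lit 324) (nat_lit 228) (nat_lit 168))))) (XT.nd (nat_lit 312) (nat_lit 76) (nat_lit 0) (XT.nd (nat_lit 156) (nat_lit 0) (nat_lit 0) (XT.nd (nat_lit 78) (nat_lit 0) (nat_lit 0) (XT.lf (nat_lit 0) (nat_lit 46658225190) (nat_lit 152) (nat_lit 17079292621) (nat_lit 0) (nat_lit 32214435631) (nat_lit 2) (nat_lit 5) (nat_lit 4) (nat_lit 4) (nat_lit 2) (nat_lit 4) (nat_lit 325) (nat_lit 228) (nat_lit 167)) (XT.lf (nat_lit 0) (nat_lit 50987612207) (nat_lit 152) (nat_lit 13111882705) (nat_lit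 0) (nat_lit 36506870296) (nat_lit 2) (nat_lit 5) (nat_lit 4) (nat_lit 4) (nat_lit 2) (nat_lit 4) (nat_lit 326) (nat_lit 228) (nat_lit 166))) (XT.nd (nat_lit 78) (nat_lit 0) (nat_lit 0) (XT.lf (nat_lit 0) (nat_lit 55521580946) (nat_lit 152) (nat_lit 8966887583) (nat_lit 0) (nat_lit 41005646318) (nat_lit 2) (nat_lit 5) (nat_lit 4) (nat_lit 4) (nat_lit 2) (nat_lit 4) (nat_lit 327) (nat_lit 228) (nat_lit 165)) (XT.lf (nat_lit 0) (nat_lit 60270926570) (nat_lit 152) (nat_lit 4634438218) (nat_lit 0) (nat_lit 45721475069) (nat_lit 2) (nat_lit 5) (nat_lit 4) (nat_lit 4) (nat_lit 2) (nat_lit 4) (nat_lit 328) (nat_lit 228) (nat_lit 164)))) (XT.nd (nat_lit 156) (nat_lit 0) (nat_lit 0) (XT.nd (nat_lit 78) (nat_lit 76) (nat_lit 0) (XT.lf (nat_lit 0) (nat_lit 65246957046) (nat_lit 152) (nat_lit 104219256) (nat_lit 0) (nat_lit 50665584713) (nat_lit 2) (nat_lit 5) (nat_lit 4) (nat_lit 4) (nat_lit 2)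 (nat_lit 4) (nat_lit 329) (nat_lit 228) (nat_lit 163)) (XT.lf (nat_lit 0) (nat_lit 4787794875) (nat_lit 76) (nat_lit 65748476083) (nat_lit 76) (nat_lit 51136702959) (nat_lit 1) (nat_lit 4) (nat_lit 2) (nat_lit 5) (nat_lit 2) (nat_lit 4) (nat_lit 330) (nat_lit 228) (nat_lit 162))) (XT.nd (nat_lit 78) (nat_lit 0) (nat_lit 0) (XT.lf (nat_lit 0) (nat_lit 9910362455) (nat_lit 76) (nat_lit 66171397326) (nat_lit 76) (nat_lit 51530671066) (nat_lit 1) (nat_lit 4) (nat_lit 2) (nat_lit 5) (nat_lit 2) (nat_lit 4) (nat_lit 331) (nat_lit 228) (nat_lit 161)) (XT.nd (nat_lit 78) (nat_lit 0) (nat_lit 0) (XT.lf (nat_lit 0) (nat_lit 15272234113) (nat_lit 76) (nat_lit 66622711989) (nat_lit 76) (nat_lit 51954411315) (nat_lit 1) (nat_lit 4) (nat_lit 2) (nat_lit 5) (nat_lit 2) (nat_lit 4) (nat_lit 332) (nat_lit 228) (nat_lit 160)) (XT.lf (nat_lit 0) (nat_lit 20886176211) (nat_lit 76) (nat_lit 67103494631)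 (nat_lit 76) (nat_lit 52408932610) (nat_lit 1) (nat_lit 4) (nat_lit 2) (nat_lit 5) (nat_lit 2) (nat_lit 4) (nat_lit 333) (nat_lit 228) (nat_lit 159))))))) (XT.nd (nat_lit 624) (nat_lit 0) (nat_lit 0) (XT.nd (nat_lit 312) (nat_lit 0) (nat_lit 0) (XT.nd (nat_lit 156) (nat_lit 0) (nat_lit 0) (XT.nd (nat_lit 78) (nat_lit 0) (nat_lit 0) (XT.lf (nat_lit 0) (nat_lit 26765555276) (nat_lit 76) (nat_lit 67614889972) (nat_lit 76) (nat_lit 52895317144) (nat_lit 1) (nat_lit 4) (nat_lit 2) (nat_lit 5) (nat_lit 2) (nat_lit 4) (nat_lit 334) (nat_lit 228) (nat_lit 158)) (XT.lf (nat_lit 0) (nat_lit 32924369830) (nat_lit 76) (nat_lit 68158115620) (nat_lit 76) (nat_lit 53414722976) (nat_lit 1) (nat_lit 4) (nat_lit 2) (nat_lit 5) (nat_lit 2) (nat_lit 4) (nat_lit 335) (nat_lit 228) (nat_lit 157))) (XT.nd (nat_lit 78) (nat_lit 0) (nat_lit 0) (XT.lf (nat_lit 0) (nat_lit 39377283719) (nat_lit 76) (nat_lit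 68734464970) (nat_lit 76) (nat_lit 53968386788) (nat_lit 1) (nat_lit 4) (nat_lit 2) (nat_lit 5) (nat_lit 2) (nat_lit 4) (nat_lit 336) (nat_lit 228) (nat_lit 156)) (XT.lf (nat_lit 0) (nat_lit 46139661021) (nat_lit 76) (nat_lit 69345310283) (nat_lit 76) (nat_lit 54557626825) (nat_lit 1) (nat_lit 4) (nat_lit 2) (nat_lit 5) (nat_lit 2) (nat_lit 4) (nat_lit 337) (nat_lit 228) (nat_lit 155)))) (XT.nd (nat_lit 156) (nat_lit 0) (nat_lit 0) (XT.nd (nat_lit 78) (nat_lit 0) (nat_lit 0) (XT.lf (nat_lit 0) (nat_lit 53227602637) (nat_lit 76) (nat_lit 69992105950) (nat_lit 76) (nat_lit 55183846040) (nat_lit 1) (nat_lit 4) (nat_lit 2) (nat_lit 5) (nat_lit 2) (nat_lit 4) (nat_lit 338) (nat_lit 228) (nat_lit 154)) (XT.lf (nat_lit 0) (nat_lit 60657984616) (nat_lit 76) (nat_lit 70676391964) (nat_lit 76) (nat_lit 55848535432) (nat_lit 1) (nat_lit 4) (nat_lit 2) (nat_lit 5) (nat_lit 2) (nat_lit 4) (nat_lit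 339) (nat_lit 228) (nat_lit 153))) (XT.nd (nat_lit 78) (nat_lit 0) (nat_lit 0) (XT.lf (nat_lit 0) (nat_lit 68448498346) (nat_lit 76) (nat_lit 71399797575) (nat_lit 76) (nat_lit 56553277594) (nat_lit 1) (nat_lit 4) (nat_lit 2) (nat_lit 5) (nat_lit 2) (nat_lit 4) (nat_lit 340) (nat_lit 228) (nat_lit 152)) (XT.lf (nat_lit 0) (nat_lit 76617692667) (nat_lit 76) (nat_lit 72164045178) (nat_lit 76) (nat_lit 57299750484) (nat_lit 1) (nat_lit 4) (nat_lit 2) (nat_lit 5) (nat_lit 2) (nat_lit 4) (nat_lit 341) (nat_lit 228) (nat_lit 151))))) (XT.nd (nat_lit 312) (nat_lit 0) (nat_lit 0) (XT.nd (nat_lit 156) (nat_lit 0) (nat_lit 0) (XT.nd (nat_lit 78) (nat_lit 0) (nat_lit 0) (XT.lf (nat_lit 0) (nat_lit 85185018043) (nat_lit 76) (nat_lit 72970954411) (nat_lit 76) (nat_lit 58089731418) (nat_lit 1) (nat_lit 4) (nat_lit 2) (nat_lit 5) (nat_lit 2) (nat_lit 4) (nat_lit 342) (nat_lit 228) (nat_lit 150))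 (XT.lf (nat_lit 0) (nat_lit 94170872868) (nat_lit 76) (nat_lit 73822446485) (nat_lit 76) (nat_lit 58925101303) (nat_lit 1) (nat_lit 4) (nat_lit 2) (nat_lit 5) (nat_lit 2) (nat_lit 4) (nat_lit 343) (nat_lit 228) (nat_lit 149))) (XT.nd (nat_lit 78) (nat_lit 0) (nat_lit 0) (XT.lf (nat_lit 0) (nat_lit 103596652033) (nat_lit 76) (nat_lit 74720548763) (nat_lit 76) (nat_lit 59807849115) (nat_lit 1) (nat_lit 4) (nat_lit 2) (nat_lit 5) (nat_lit 2) (nat_lit 4) (nat_lit 344) (nat_lit 228) (nat_lit 148)) (XT.lf (nat_lit 0) (nat_lit 113484797871) (nat_lit 76) (nat_lit 75667399584) (nat_lit 76) (nat_lit 60740076635) (nat_lit 1) (nat_lit 4) (nat_lit 2) (nat_lit 5) (nat_lit 2) (nat_lit 4) (nat_lit 345) (nat_lit 228) (nat_lit 147)))) (XT.nd (nat_lit 156) (nat_lit 0) (nat_lit 0) (XT.nd (nat_lit 78) (nat_lit 0) (nat_lit 0) (XT.lf (nat_lit 0) (nat_lit 123858853585) (nat_lit 76) (nat_lit 76665253353) (nat_lit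 76) (nat_lit 61724003452) (nat_lit 1) (nat_lit 4) (nat_lit 2) (nat_lit 5) (nat_lit 2) (nat_lit 4) (nat_lit 346) (nat_lit 228) (nat_lit 146)) (XT.lf (nat_lit 0) (nat_lit 134743519309) (nat_lit 76) (nat_lit 77716485915) (nat_lit 76) (nat_lit 62761972249) (nat_lit 1) (nat_lit 4) (nat_lit 2) (nat_lit 5) (nat_lit 2) (nat_lit 4) (nat_lit 347) (nat_lit 228) (nat_lit 145))) (XT.nd (nat_lit 78) (nat_lit 0) (nat_lit 0) (XT.lf (nat_lit 0) (nat_lit 146164710913) (nat_lit 76) (nat_lit 78823600203) (nat_lit 76) (nat_lit 63856454379) (nat_lit 1) (nat_lit 4) (nat_lit 2) (nat_lit 5) (nat_lit 2) (nat_lit 4) (nat_lit 348) (nat_lit 228) (nat_lit 144)) (XT.nd (nat_lit 78) (nat_lit 0) (nat_lit 0) (XT.lf (nat_lit 0) (nat_lit 158149621710) (nat_lit 76) (nat_lit 79989232203) (nat_lit 76) (nat_lit 65010055754) (nat_lit 1) (nat_lit 4) (nat_lit 2) (nat_lit 5) (nat_lit 2) (nat_lit 4) (nat_lit 349) (nat_lit 228)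 (nat_lit 143)) (XT.lf (nat_lit 0) (nat_lit 170726787202) (nat_lit 76) (nat_lit 81216157230) (nat_lit 76) (nat_lit 66225523043) (nat_lit 1) (nat_lit 4) (nat_lit 2) (nat_lit 5) (nat_lit 2) (nat_lit 4) (nat_lit 350) (nat_lit 228) (nat_lit 142))))))))
noncomputable def xc74 : XT := (XT.nd (nat_lit 31122) (nat_lit 0) (nat_lit 836) (XT.nd (nat_lit 624) (nat_lit 0) (nat_lit 0) (XT.nd (nat_lit 312) (nat_lit 0) (nat_lit 0) (XT.nd (nat_lit 156) (nat_lit 0) (nat_lit 0) (XT.nd (nat_lit 78) (nat_lit 0) (nat_lit 0) (XT.lf (nat_lit 0) (nat_lit 183926153022) (nat_lit 76) (nat_lit 82507296535) (nat_lit 76) (nat_lit 67505750215) (nat_lit 1) (nat_lit 4) (nat_lit 2) (nat_lit 5) (nat_lit 2) (nat_lit 4) (nat_lit 351) (nat_lit 228) (nat_lit 141)) (XT.lf (nat_lit 0) (nat_lit 197779146231) (nat_lit 76) (nat_lit 83865724257) (nat_lit 76) (nat_lit 68853785431) (nat_lit 1) (nat_lit 4) (nat_lit 2) (nat_lit 5)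 (nat_lit 2) (nat_lit 4) (nat_lit 352) (nat_lit 228) (nat_lit 140))) (XT.nd (nat_lit 78) (nat_lit 0) (nat_lit 0) (XT.lf (nat_lit 0) (nat_lit 212318750145) (nat_lit 76) (nat_lit 85294674750) (nat_lit 76) (nat_lit 70272838298) (nat_lit 1) (nat_lit 4) (nat_lit 2) (nat_lit 5) (nat_lit 2) (nat_lit 4) (nat_lit 353) (nat_lit 228) (nat_lit 139)) (XT.lf (nat_lit 0) (nat_lit 227579582871) (nat_lit 76) (nat_lit 86797550275) (nat_lit 76) (nat_lit 71766287513) (nat_lit 1) (nat_lit 4) (nat_lit 2) (nat_lit 5) (nat_lit 2) (nat_lit 4) (nat_lit 354) (nat_lit 228) (nat_lit 138)))) (XT.nd (nat_lit 156) (nat_lit 0) (nat_lit 0) (XT.nd (nat_lit 78) (nat_lit 0) (nat_lit 0) (XT.lf (nat_lit 0) (nat_lit 243597979723) (nat_lit 76) (nat_lit 88377929109) (nat_lit 76) (nat_lit 73337688908) (nat_lit 1) (nat_lit 4) (nat_lit 2) (nat_lit 5) (nat_lit 2) (nat_lit 4) (nat_lit 355) (nat_lit 228) (nat_lit 137)) (XT.lf (nat_lit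 0) (nat_lit 260412079742) (nat_lit 76) (nat_lit 90039574057) (nat_lit 76) (nat_lit 74990783916) (nat_lit 1) (nat_lit 4) (nat_lit 2) (nat_lit 5) (nat_lit 2) (nat_lit 4) (nat_lit 356) (nat_lit 228) (nat_lit 136))) (XT.nd (nat_lit 78) (nat_lit 0) (nat_lit 0) (XT.lf (nat_lit 0) (nat_lit 278061916499) (nat_lit 76) (nat_lit 91786441418) (nat_lit 76) (nat_lit 76729508475) (nat_lit 1) (nat_lit 4) (nat_lit 2) (nat_lit 5) (nat_lit 2) (nat_lit 4) (nat_lit 357) (nat_lit 228) (nat_lit 135)) (XT.lf (nat_lit 0) (nat_lit 296589513415) (nat_lit 76) (nat_lit 93622690399) (nat_lit 76) (nat_lit 78558002408) (nat_lit 1) (nat_lit 4) (nat_lit 2) (nat_lit 5) (nat_lit 2) (nat_lit 4) (nat_lit 358) (nat_lit 228) (nat_lit 134))))) (XT.nd (nat_lit 30108) (nat_lit 0) (nat_lit 2204) (XT.nd (nat_lit 29952) (nat_lit 0) (nat_lit 3040) (XT.nd (nat_lit 78) (nat_lit 0) (nat_lit 0) (XT.lf (nat_lit 0) (nat_lit 316038983816)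 (nat_lit 76) (nat_lit 95552693021) (nat_lit 76) (nat_lit 80480619270) (nat_lit 1) (nat_lit 4) (nat_lit 2) (nat_lit 5) (nat_lit 2) (nat_lit 4) (nat_lit 359) (nat_lit 228) (nat_lit 133)) (XT.lf (nat_lit 0) (nat_lit 336456635965) (nat_lit 76) (nat_lit 97581044530) (nat_lit 76) (nat_lit 82501936721) (nat_lit 1) (nat_lit 4) (nat_lit 2) (nat_lit 5) (nat_lit 2) (nat_lit 4) (nat_lit 360) (nat_lit 228) (nat_lit 132))) (XT.nd (nat_lit 78) (nat_lit 304) (nat_lit 0) (XT.lf (nat_lit 0) (nat_lit 3592632905) (nat_lit 304) (nat_lit 243706439) (nat_lit 304) (nat_lit 243706439) (nat_lit 45) (nat_lit 4) (nat_lit 49) (nat_lit 5) (nat_lit 49) (nat_lit 4) (nat_lit 262) (nat_lit 229) (nat_lit 229)) (XT.lf (nat_lit 0) (nat_lit 2544062094) (nat_lit 304) (nat_lit 4371569360) (nat_lit 0) (nat_lit 1419734092) (nat_lit 41) (nat_lit 5) (nat_lit 45) (nat_lit 4) (nat_lit 41) (nat_lit 4) (nat_lit 263) (nat_lit 229)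 (nat_lit 228)))) (XT.nd (nat_lit 156) (nat_lit 456) (nat_lit 0) (XT.nd (nat_lit 78) (nat_lit 76) (nat_lit 0) (XT.lf (nat_lit 0) (nat_lit 499386490) (nat_lit 304) (nat_lit 5110242857) (nat_lit 304) (nat_lit 2915126280) (nat_lit 37) (nat_lit 4) (nat_lit 41) (nat_lit 5) (nat_lit 41) (nat_lit 4) (nat_lit 264) (nat_lit 229) (nat_lit 227)) (XT.lf (nat_lit 0) (nat_lit 44144002) (nat_lit 380) (nat_lit 3124420013) (nat_lit 76) (nat_lit 5558469394) (nat_lit 36) (nat_lit 5) (nat_lit 41) (nat_lit 5) (nat_lit 37) (nat_lit 4) (nat_lit 265) (nat_lit 229) (nat_lit 226))) (XT.nd (nat_lit 78) (nat_lit 228) (nat_lit 0) (XT.lf (nat_lit 0) (nat_lit 1874431759) (nat_lit 228) (nat_lit 1081950572) (nat_lit 304) (nat_lit 5986106683) (nat_lit 33) (nat_lit 5) (nat_lit 36) (nat_lit 5) (nat_lit 37) (nat_lit 4) (nat_lit 266) (nat_lit 229) (nat_lit 225)) (XT.nd (nat_lit 78) (nat_lit 228) (nat_lit 0) (XT.lf (nat_lit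 0) (nat_lit 5962069382) (nat_lit 304) (nat_lit 2115511964) (nat_lit 0) (nat_lit 1094317523) (nat_lit 33) (nat_lit 5) (nat_lit 37) (nat_lit 4) (nat_lit 33) (nat_lit 4) (nat_lit 267) (nat_lit 229) (nat_lit 224)) (XT.lf (nat_lit 0) (nat_lit 3008001150) (nat_lit 228) (nat_lit 6057350625) (nat_lit 228) (nat_lit 350607901) (nat_lit 30) (nat_lit 4) (nat_lit 33) (nat_lit 5) (nat_lit 33) (nat_lit 4) (nat_lit 268) (nat_lit 229) (nat_lit 223))))))) (XT.nd (nat_lit 624) (nat_lit 456) (nat_lit 0) (XT.nd (nat_lit 312) (nat_lit 380) (nat_lit 0) (XT.nd (nat_lit 156) (nat_lit 304) (nat_lit 0) (XT.nd (nat_lit 78) (nat_lit 152) (nat_lit 0) (XT.lf (nat_lit 0) (nat_lit 2486563889) (nat_lit 304) (nat_lit 1408325672) (nat_lit 76) (nat_lit 5779766482) (nat_lit 29) (nat_lit 5) (nat_lit 33) (nat_lit 5) (nat_lit 30) (nat_lit 4) (nat_lit 269) (nat_lit 229) (nat_lit 222)) (XT.lf (nat_lit 0) (nat_lit 3807851042)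 (nat_lit 152) (nat_lit 1594403657) (nat_lit 228) (nat_lit 4546794650) (nat_lit 27) (nat_lit 5) (nat_lit 29) (nat_lit 5) (nat_lit 30) (nat_lit 4) (nat_lit 270) (nat_lit 229) (nat_lit 221))) (XT.nd (nat_lit 78) (nat_lit 304) (nat_lit 0) (XT.lf (nat_lit 0) (nat_lit 8392161077) (nat_lit 228) (nat_lit 1067842056) (nat_lit 0) (nat_lit 781186841) (nat_lit 27) (nat_lit 5) (nat_lit 30) (nat_lit 4) (nat_lit 27) (nat_lit 4) (nat_lit 271) (nat_lit 229) (nat_lit 220)) (XT.lf (nat_lit 0) (nat_lit 940156460) (nat_lit 304) (nat_lit 6341024789) (nat_lit 76) (nat_lit 3266995291) (nat_lit 23) (nat_lit 5) (nat_lit 27) (nat_lit 5) (nat_lit 24) (nat_lit 4) (nat_lit 272) (nat_lit 229) (nat_lit 219)))) (XT.nd (nat_lit 156) (nat_lit 228) (nat_lit 0) (XT.nd (nat_lit 78) (nat_lit 152) (nat_lit 0) (XT.lf (nat_lit 0) (nat_lit 3722235855) (nat_lit 304) (nat_lit 1263829932) (nat_lit 76) (nat_lit 5887540377) (nat_lit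 23) (nat_lit 5) (nat_lit 27) (nat_lit 5) (nat_lit 24) (nat_lit 4) (nat_lit 273) (nat_lit 229) (nat_lit 218)) (XT.lf (nat_lit 0) (nat_lit 4057488085) (nat_lit 152) (nat_lit 2551368825) (nat_lit 228) (nat_lit 4608548035) (nat_lit 21) (nat_lit 5) (nat_lit 23) (nat_lit 5) (nat_lit 24) (nat_lit 4) (nat_lit 274) (nat_lit 229) (nat_lit 217))) (XT.nd (nat_lit 78) (nat_lit 228) (nat_lit 0) (XT.lf (nat_lit 0) (nat_lit 9551399421) (nat_lit 152) (nat_lit 14420113) (nat_lit 228) (nat_lit 2016625568) (nat_lit 21) (nat_lit 5) (nat_lit 23) (nat_lit 5) (nat_lit 24) (nat_lit 4) (nat_lit 275) (nat_lit 229) (nat_lit 216)) (XT.lf (nat_lit 0) (nat_lit 683171639) (nat_lit 228) (nat_lit 8694118727) (nat_lit 76) (nat_lit 2588173894) (nat_lit 18) (nat_lit 5) (nat_lit 21) (nat_lit 5) (nat_lit 19) (nat_lit 4) (nat_lit 276) (nat_lit 229) (nat_lit 215))))) (XT.nd (nat_lit 312) (nat_lit 304) (nat_lit 0) (XT.nd (nat_lit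 156) (nat_lit 0) (nat_lit 0) (XT.nd (nat_lit 78) (nat_lit 152) (nat_lit 0) (XT.lf (nat_lit 0) (nat_lit 3394419495) (nat_lit 228) (nat_lit 3626601205) (nat_lit 76) (nat_lit 5348053110) (nat_lit 18) (nat_lit 5) (nat_lit 21) (nat_lit 5) (nat_lit 19) (nat_lit 4) (nat_lit 277) (nat_lit 229) (nat_lit 214)) (XT.lf (nat_lit 0) (nat_lit 1616313280) (nat_lit 152) (nat_lit 4563518895) (nat_lit 228) (nat_lit 6616391104) (nat_lit 16) (nat_lit 5) (nat_lit 18) (nat_lit 5) (nat_lit 19) (nat_lit 4) (nat_lit 278) (nat_lit 229) (nat_lit 213))) (XT.nd (nat_lit 78) (nat_lit 0) (nat_lit 0) (XT.lf (nat_lit 0) (nat_lit 7119661977) (nat_lit 152) (nat_lit 1961771888) (nat_lit 228) (nat_lit 4164726208) (nat_lit 16) (nat_lit 5) (nat_lit 18) (nat_lit 5) (nat_lit 19) (nat_lit 4) (nat_lit 279) (nat_lit 229) (nat_lit 212)) (XT.lf (nat_lit 0) (nat_lit 12059021258) (nat_lit 228) (nat_lit 957625550) (nat_lit 0) (nat_lit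 705664259) (nat_lit 16) (nat_lit 5) (nat_lit 19) (nat_lit 4) (nat_lit 16) (nat_lit 4) (nat_lit 280) (nat_lit 229) (nat_lit 211)))) (XT.nd (nat_lit 156) (nat_lit 76) (nat_lit 0) (XT.nd (nat_lit 78) (nat_lit 0) (nat_lit 0) (XT.lf (nat_lit 0) (nat_lit 957105605) (nat_lit 228) (nat_lit 9775641889) (nat_lit 76) (nat_lit 3487772601) (nat_lit 13) (nat_lit 5) (nat_lit 16) (nat_lit 5) (nat_lit 14) (nat_lit 4) (nat_lit 281) (nat_lit 229) (nat_lit 210)) (XT.lf (nat_lit 0) (nat_lit 3592233152) (nat_lit 228) (nat_lit 4739679353) (nat_lit 76) (nat_lit 6413610105) (nat_lit 13) (nat_lit 5) (nat_lit 16) (nat_lit 5) (nat_lit 14) (nat_lit 4) (nat_lit 282) (nat_lit 229) (nat_lit 209))) (XT.nd (nat_lit 78) (nat_lit 0) (nat_lit 0) (XT.lf (nat_lit 0) (nat_lit 448068482) (nat_lit 76) (nat_lit 5844830949) (nat_lit 152) (nat_lit 9007402780) (nat_lit 12) (nat_lit 5) (nat_lit 13) (nat_lit 5) (nat_lit 14) (nat_lit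 4) (nat_lit 283) (nat_lit 229) (nat_lit 208)) (XT.nd (nat_lit 78) (nat_lit 0) (nat_lit 0) (XT.lf (nat_lit 0) (nat_lit 5947245275) (nat_lit 76) (nat_lit 3190139018) (nat_lit 152) (nat_lit 6745203018) (nat_lit 12) (nat_lit 5) (nat_lit 13) (nat_lit 5) (nat_lit 14) (nat_lit 4) (nat_lit 284) (nat_lit 229) (nat_lit 207)) (XT.lf (nat_lit 0) (nat_lit 11614229098) (nat_lit 76) (nat_lit 441784784) (nat_lit 152) (nat_lit 4441572746) (nat_lit 12) (nat_lit 5) (nat_lit 13) (nat_lit 5) (nat_lit 14) (nat_lit 4) (nat_lit 285) (nat_lit 229) (nat_lit 206))))))))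
noncomputable def xc75 : XT := (XT.nd (nat_lit 1326) (nat_lit 228) (nat_lit 0) (XT.nd (nat_lit 624) (nat_lit 228) (nat_lit 0) (XT.nd (nat_lit 312) (nat_lit 76) (nat_lit 0) (XT.nd (nat_lit 156) (nat_lit 0) (nat_lit 0) (XT.nd (nat_lit 78) (nat_lit 76) (nat_lit 0) (XT.lf (nat_lit 0) (nat_lit 287369429) (nat_lit 152) (nat_lit 14810431037) (nat_lit 152) (nat_lit 2046860822) (nat_lit 10) (nat_lit 4) (nat_lit 12) (nat_lit 5) (nat_lit 12) (nat_lit 4) (nat_lit 286) (nat_lit 229) (nat_lit 205)) (XT.lf (nat_lit 0) (nat_lit 478786550) (nat_lit 228) (nat_lit 12055209138) (nat_lit 76) (nat_lit 5288590000) (nat_lit 9) (nat_lit 5) (nat_lit 12) (nat_lit 5) (nat_lit 10) (nat_lit 4) (nat_lit 287) (nat_lit 229) (nat_lit 204))) (XT.nd (nat_lit 78) (nat_lit 0) (nat_lit 0) (XT.lf (nat_lit 0) (nat_lit 2999895375) (nat_lit 228) (nat_lit 7147080192) (nat_lit 76) (nat_lit 8389015873) (nat_lit 9) (nat_lit 5)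 (nat_lit 12) (nat_lit 5) (nat_lit 10) (nat_lit 4) (nat_lit 288) (nat_lit 229) (nat_lit 203)) (XT.lf (nat_lit 0) (nat_lit 5587980620) (nat_lit 228) (nat_lit 2089261768) (nat_lit 76) (nat_lit 11610932603) (nat_lit 9) (nat_lit 5) (nat_lit 12) (nat_lit 5) (nat_lit 10) (nat_lit 4) (nat_lit 289) (nat_lit 229) (nat_lit 202)))) (XT.nd (nat_lit 156) (nat_lit 0) (nat_lit 0) (XT.nd (nat_lit 78) (nat_lit 0) (nat_lit 0) (XT.lf (nat_lit 0) (nat_lit 3233790036) (nat_lit 76) (nat_lit 5065902883) (nat_lit 152) (nat_lit 11778709909) (nat_lit 8) (nat_lit 5) (nat_lit 9) (nat_lit 5) (nat_lit 10) (nat_lit 4) (nat_lit 290) (nat_lit 229) (nat_lit 201)) (XT.lf (nat_lit 0) (nat_lit 8805840171) (nat_lit 76) (nat_lit 2321546615) (nat_lit 152) (nat_lit 9781874755) (nat_lit 8) (nat_lit 5) (nat_lit 9) (nat_lit 5) (nat_lit 10) (nat_lit 4) (nat_lit 291) (nat_lit 229) (nat_lit 200))) (XT.nd (nat_lit 78) (nat_lit 0)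 (nat_lit 0) (XT.lf (nat_lit 0) (nat_lit 14052324659) (nat_lit 152) (nat_lit 7221566866) (nat_lit 0) (nat_lit 510111351) (nat_lit 8) (nat_lit 5) (nat_lit 10) (nat_lit 4) (nat_lit 8) (nat_lit 4) (nat_lit 292) (nat_lit 229) (nat_lit 199)) (XT.lf (nat_lit 0) (nat_lit 17111201580) (nat_lit 152) (nat_lit 2217156721) (nat_lit 0) (nat_lit 3374864705) (nat_lit 8) (nat_lit 5) (nat_lit 10) (nat_lit 4) (nat_lit 8) (nat_lit 4) (nat_lit 293) (nat_lit 229) (nat_lit 198))))) (XT.nd (nat_lit 312) (nat_lit 76) (nat_lit 0) (XT.nd (nat_lit 156) (nat_lit 76) (nat_lit 0) (XT.nd (nat_lit 78) (nat_lit 0) (nat_lit 0) (XT.lf (nat_lit 0) (nat_lit 3055774029) (nat_lit 76) (nat_lit 17266989906) (nat_lit 76) (nat_lit 3345773445) (nat_lit 7) (nat_lit 4) (nat_lit 8) (nat_lit 5) (nat_lit 8) (nat_lit 4) (nat_lit 294) (nat_lit 229) (nat_lit 197)) (XT.lf (nat_lit 0) (nat_lit 8591104556) (nat_lit 76) (nat_lit 15094443784)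 (nat_lit 76) (nat_lit 997151526) (nat_lit 7) (nat_lit 4) (nat_lit 8) (nat_lit 5) (nat_lit 8) (nat_lit 4) (nat_lit 295) (nat_lit 229) (nat_lit 196))) (XT.nd (nat_lit 78) (nat_lit 0) (nat_lit 0) (XT.lf (nat_lit 0) (nat_lit 1376378380) (nat_lit 152) (nat_lit 11443407813) (nat_lit 76) (nat_lit 12929016989) (nat_lit 6) (nat_lit 5) (nat_lit 8) (nat_lit 5) (nat_lit 7) (nat_lit 4) (nat_lit 296) (nat_lit 229) (nat_lit 195)) (XT.lf (nat_lit 0) (nat_lit 3791731964) (nat_lit 152) (nat_lit 6651638903) (nat_lit 76) (nat_lit 16426289545) (nat_lit 6) (nat_lit 5) (nat_lit 8) (nat_lit 5) (nat_lit 7) (nat_lit 4) (nat_lit 297) (nat_lit 229) (nat_lit 194)))) (XT.nd (nat_lit 156) (nat_lit 0) (nat_lit 0) (XT.nd (nat_lit 78) (nat_lit 76) (nat_lit 0) (XT.lf (nat_lit 0) (nat_lit 6286575144) (nat_lit 152) (nat_lit 1689311279) (nat_lit 76) (nat_lit 20072832259) (nat_lit 6) (nat_lit 5) (nat_lit 8) (nat_lit 5)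 (nat_lit 7) (nat_lit 4) (nat_lit 298) (nat_lit 229) (nat_lit 193)) (XT.lf (nat_lit 0) (nat_lit 3569640929) (nat_lit 76) (nat_lit 5352939191) (nat_lit 152) (nat_lit 20363418545) (nat_lit 5) (nat_lit 5) (nat_lit 6) (nat_lit 5) (nat_lit 7) (nat_lit 4) (nat_lit 299) (nat_lit 229) (nat_lit 192))) (XT.nd (nat_lit 78) (nat_lit 0) (nat_lit 0) (XT.lf (nat_lit 0) (nat_lit 9085507585) (nat_lit 76) (nat_lit 2595036755) (nat_lit 152) (nat_lit 18905175867) (nat_lit 5) (nat_lit 5) (nat_lit 6) (nat_lit 5) (nat_lit 7) (nat_lit 4) (nat_lit 300) (nat_lit 229) (nat_lit 191)) (XT.nd (nat_lit 78) (nat_lit 0) (nat_lit 0) (XT.lf (nat_lit 0) (nat_lit 14544093096) (nat_lit 152) (nat_lit 17141080452) (nat_lit 0) (nat_lit 266951397) (nat_lit 5) (nat_lit 5) (nat_lit 7) (nat_lit 4) (nat_lit 5) (nat_lit 4) (nat_lit 301) (nat_lit 229) (nat_lit 190)) (XT.lf (nat_lit 0) (nat_lit 17558113835) (nat_lit 152) (nat_lit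 12666651812) (nat_lit 0) (nat_lit 3161797105) (nat_lit 5) (nat_lit 5) (nat_lit 7) (nat_lit 4) (nat_lit 5) (nat_lit 4) (nat_lit 302) (nat_lit 229) (nat_lit 189))))))) (XT.nd (nat_lit 624) (nat_lit 152) (nat_lit 0) (XT.nd (nat_lit 312) (nat_lit 0) (nat_lit 0) (XT.nd (nat_lit 156) (nat_lit 76) (nat_lit 0) (XT.nd (nat_lit 78) (nat_lit 0) (nat_lit 0) (XT.lf (nat_lit 0) (nat_lit 20689266998) (nat_lit 152) (nat_lit 8025757507) (nat_lit 0) (nat_lit 6179450240) (nat_lit 5) (nat_lit 5) (nat_lit 7) (nat_lit 4) (nat_lit 5) (nat_lit 4) (nat_lit 303) (nat_lit 229) (nat_lit 188)) (XT.lf (nat_lit 0) (nat_lit 23945007714) (nat_lit 152) (nat_lit 3207347785) (nat_lit 0) (nat_lit 9327095691) (nat_lit 5) (nat_lit 5) (nat_lit 7) (nat_lit 4) (nat_lit 5) (nat_lit 4) (nat_lit 304) (nat_lit 229) (nat_lit 187))) (XT.nd (nat_lit 78) (nat_lit 0) (nat_lit 0) (XT.lf (nat_lit 0) (nat_lit 1859567528) (nat_lit 76)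 (nat_lit 25502553278) (nat_lit 76) (nat_lit 10781693383) (nat_lit 4) (nat_lit 4) (nat_lit 5) (nat_lit 5) (nat_lit 5) (nat_lit 4) (nat_lit 305) (nat_lit 229) (nat_lit 186)) (XT.lf (nat_lit 0) (nat_lit 7240085437) (nat_lit 76) (nat_lit 23734526537) (nat_lit 76) (nat_lit 8915621049) (nat_lit 4) (nat_lit 4) (nat_lit 5) (nat_lit 5) (nat_lit 5) (nat_lit 4) (nat_lit 306) (nat_lit 229) (nat_lit 185)))) (XT.nd (nat_lit 156) (nat_lit 0) (nat_lit 0) (XT.nd (nat_lit 78) (nat_lit 0) (nat_lit 0) (XT.lf (nat_lit 0) (nat_lit 12840967296) (nat_lit 76) (nat_lit 21898383675) (nat_lit 76) (nat_lit 6986101434) (nat_lit 4) (nat_lit 4) (nat_lit 5) (nat_lit 5) (nat_lit 5) (nat_lit 4) (nat_lit 307) (nat_lit 229) (nat_lit 184)) (XT.lf (nat_lit 0) (nat_lit 18675548538) (nat_lit 76) (nat_lit 19989752925) (nat_lit 76) (nat_lit 4988540441) (nat_lit 4) (nat_lit 4) (nat_lit 5) (nat_lit 5) (nat_lit 5) (nat_lit 4)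 (nat_lit 308) (nat_lit 229) (nat_lit 183))) (XT.nd (nat_lit 78) (nat_lit 0) (nat_lit 0) (XT.lf (nat_lit 0) (nat_lit 24757721022) (nat_lit 76) (nat_lit 18004089927) (nat_lit 76) (nat_lit 2918181974) (nat_lit 4) (nat_lit 4) (nat_lit 5) (nat_lit 5) (nat_lit 5) (nat_lit 4) (nat_lit 309) (nat_lit 229) (nat_lit 182)) (XT.lf (nat_lit 0) (nat_lit 31101966112) (nat_lit 76) (nat_lit 15936666913) (nat_lit 76) (nat_lit 770096608) (nat_lit 4) (nat_lit 4) (nat_lit 5) (nat_lit 5) (nat_lit 5) (nat_lit 4) (nat_lit 310) (nat_lit 229) (nat_lit 181))))) (XT.nd (nat_lit 312) (nat_lit 0) (nat_lit 0) (XT.nd (nat_lit 156) (nat_lit 76) (nat_lit 0) (XT.nd (nat_lit 78) (nat_lit 0) (nat_lit 0) (XT.lf (nat_lit 0) (nat_lit 1414074457) (nat_lit 152) (nat_lit 12344538953) (nat_lit 76) (nat_lit 36285366661) (nat_lit 3) (nat_lit 5) (nat_lit 5) (nat_lit 5) (nat_lit 4) (nat_lit 4) (nat_lit 311) (nat_lit 229) (nat_lit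 180)) (XT.lf (nat_lit 0) (nat_lit 3658929290) (nat_lit 152) (nat_lit 7815749675) (nat_lit 76) (nat_lit 40916860410) (nat_lit 3) (nat_lit 5) (nat_lit 5) (nat_lit 5) (nat_lit 4) (nat_lit 4) (nat_lit 312) (nat_lit 229) (nat_lit 179))) (XT.nd (nat_lit 78) (nat_lit 76) (nat_lit 0) (XT.lf (nat_lit 0) (nat_lit 5994460685) (nat_lit 152) (nat_lit 3097589488) (nat_lit 76) (nat_lit 45765547967) (nat_lit 3) (nat_lit 5) (nat_lit 5) (nat_lit 5) (nat_lit 4) (nat_lit 4) (nat_lit 313) (nat_lit 229) (nat_lit 178)) (XT.lf (nat_lit 0) (nat_lit 1881391601) (nat_lit 76) (nat_lit 6574211623) (nat_lit 152) (nat_lit 48990956022) (nat_lit 2) (nat_lit 5) (nat_lit 3) (nat_lit 5) (nat_lit 4) (nat_lit 4) (nat_lit 314) (nat_lit 229) (nat_lit 177)))) (XT.nd (nat_lit 156) (nat_lit 0) (nat_lit 0) (XT.nd (nat_lit 78) (nat_lit 0) (nat_lit 0) (XT.lf (nat_lit 0) (nat_lit 7182129080) (nat_lit 76) (nat_lit 3890029530) (nat_lit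 152) (nat_lit 49091231183) (nat_lit 2) (nat_lit 5) (nat_lit 3) (nat_lit 5) (nat_lit 4) (nat_lit 4) (nat_lit 315) (nat_lit 229) (nat_lit 176)) (XT.lf (nat_lit 0) (nat_lit 12714823456) (nat_lit 76) (nat_lit 1085572162) (nat_lit 152) (nat_lit 49216660865) (nat_lit 2) (nat_lit 5) (nat_lit 3) (nat_lit 5) (nat_lit 4) (nat_lit 4) (nat_lit 316) (nat_lit 229) (nat_lit 175))) (XT.nd (nat_lit 78) (nat_lit 0) (nat_lit 0) (XT.lf (nat_lit 0) (nat_lit 16675628747) (nat_lit 152) (nat_lit 47550524650) (nat_lit 0) (nat_lit 1786759425) (nat_lit 2) (nat_lit 5) (nat_lit 4) (nat_lit 4) (nat_lit 2) (nat_lit 4) (nat_lit 317) (nat_lit 229) (nat_lit 174)) (XT.nd (nat_lit 78) (nat_lit 0) (nat_lit 0) (XT.lf (nat_lit 0) (nat_lit 19694856356) (nat_lit 152) (nat_lit 44709736458) (nat_lit 0) (nat_lit 4753991363) (nat_lit 2) (nat_lit 5) (nat_lit 4) (nat_lit 4) (nat_lit 2) (nat_lit 4) (nat_lit 318) (nat_lit 229) (nat_lit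 173)) (XT.lf (nat_lit 0) (nat_lit 22848318257) (nat_lit 152) (nat_lit 41756155847) (nat_lit 0) (nat_lit 7857933577) (nat_lit 2) (nat_lit 5) (nat_lit 4) (nat_lit 4) (nat_lit 2) (nat_lit 4) (nat_lit 319) (nat_lit 229) (nat_lit 172))))))))
noncomputable def xc76 : XT := (XT.nd (nat_lit 1248) (nat_lit 0) (nat_lit 0) (XT.nd (nat_lit 624) (nat_lit 76) (nat_lit 0) (XT.nd (nat_lit 312) (nat_lit 0) (nat_lit 0) (XT.nd (nat_lit 156) (nat_lit 0) (nat_lit 0) (XT.nd (nat_lit 78) (nat_lit 0) (nat_lit 0) (XT.lf (nat_lit 0) (nat_lit 26143522693) (nat_lit 152) (nat_lit 38682750481) (nat_lit 0) (nat_lit 11105976407) (nat_lit 2) (nat_lit 5) (nat_lit 4) (nat_lit 4) (nat_lit 2) (nat_lit 4) (nat_lit 320) (nat_lit 229) (nat_lit 171)) (XT.lf (nat_lit 0) (nat_lit 29588315388) (nat_lit 152) (nat_lit 35482202728) (nat_lit 0) (nat_lit 14505853287) (nat_lit 2) (nat_lit 5) (nat_lit 4) (nat_lit 4) (nat_lit 2) (nat_lit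 4) (nat_lit 321) (nat_lit 229) (nat_lit 170))) (XT.nd (nat_lit 78) (nat_lit 0) (nat_lit 0) (XT.lf (nat_lit 0) (nat_lit 33190898231) (nat_lit 152) (nat_lit 32146892237) (nat_lit 0) (nat_lit 18065659163) (nat_lit 2) (nat_lit 5) (nat_lit 4) (nat_lit 4) (nat_lit 2) (nat_lit 4) (nat_lit 322) (nat_lit 229) (nat_lit 169)) (XT.lf (nat_lit 0) (nat_lit 36959848800) (nat_lit 152) (nat_lit 28668877793) (nat_lit 0) (nat_lit 21793869763) (nat_lit 2) (nat_lit 5) (nat_lit 4) (nat_lit 4) (nat_lit 2) (nat_lit 4) (nat_lit 323) (nat_lit 229) (nat_lit 168)))) (XT.nd (nat_lit 156) (nat_lit 0) (nat_lit 0) (XT.nd (nat_lit 78) (nat_lit 0) (nat_lit 0) (XT.lf (nat_lit 0) (nat_lit 40904140785) (nat_lit 152) (nat_lit 25039878408) (nat_lit 0) (nat_lit 25699361778) (nat_lit 2) (nat_lit 5) (nat_lit 4) (nat_lit 4) (nat_lit 2) (nat_lit 4) (nat_lit 324) (nat_lit 229) (nat_lit 167)) (XT.lf (nat_lit 0) (nat_lit 45033165359)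 (nat_lit 152) (nat_lit 21251253608) (nat_lit 0) (nat_lit 29791434000) (nat_lit 2) (nat_lit 5) (nat_lit 4) (nat_lit 4) (nat_lit 2) (nat_lit 4) (nat_lit 325) (nat_lit 229) (nat_lit 166))) (XT.nd (nat_lit 78) (nat_lit 0) (nat_lit 0) (XT.lf (nat_lit 0) (nat_lit 49356753533) (nat_lit 152) (nat_lit 17293982857) (nat_lit 0) (nat_lit 34079829457) (nat_lit 2) (nat_lit 5) (nat_lit 4) (nat_lit 4) (nat_lit 2) (nat_lit 4) (nat_lit 326) (nat_lit 229) (nat_lit 165)) (XT.lf (nat_lit 0) (nat_lit 53885199564) (nat_lit 152) (nat_lit 13158644083) (nat_lit 0) (nat_lit 38574758615) (nat_lit 2) (nat_lit 5) (nat_lit 4) (nat_lit 4) (nat_lit 2) (nat_lit 4) (nat_lit 327) (nat_lit 229) (nat_lit 164))))) (XT.nd (nat_lit 312) (nat_lit 0) (nat_lit 0) (XT.nd (nat_lit 156) (nat_lit 76) (nat_lit 0) (XT.nd (nat_lit 78) (nat_lit 0) (nat_lit 0) (XT.lf (nat_lit 0) (nat_lit 58629285466) (nat_lit 152) (nat_lit 8835391241)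 (nat_lit 0) (nat_lit 43286923685) (nat_lit 2) (nat_lit 5) (nat_lit 4) (nat_lit 4) (nat_lit 2) (nat_lit 4) (nat_lit 328) (nat_lit 229) (nat_lit 163)) (XT.lf (nat_lit 0) (nat_lit 63600306682) (nat_lit 152) (nat_lit 4313930871) (nat_lit 0) (nat_lit 48227544110) (nat_lit 2) (nat_lit 5) (nat_lit 4) (nat_lit 4) (nat_lit 2) (nat_lit 4) (nat_lit 329) (nat_lit 229) (nat_lit 162))) (XT.nd (nat_lit 78) (nat_lit 0) (nat_lit 0) (XT.lf (nat_lit 0) (nat_lit 430273858) (nat_lit 76) (nat_lit 68386542900) (nat_lit 76) (nat_lit 52984827192) (nat_lit 1) (nat_lit 4) (nat_lit 2) (nat_lit 5) (nat_lit 2) (nat_lit 4) (nat_lit 330) (nat_lit 229) (nat_lit 161)) (XT.lf (nat_lit 0) (nat_lit 5544634461) (nat_lit 76) (nat_lit 68812999439) (nat_lit 76) (nat_lit 53383709317) (nat_lit 1) (nat_lit 4) (nat_lit 2) (nat_lit 5) (nat_lit 2) (nat_lit 4) (nat_lit 331) (nat_lit 229) (nat_lit 160)))) (XT.nd (nat_lit 156) (nat_lit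 0) (nat_lit 0) (XT.nd (nat_lit 78) (nat_lit 0) (nat_lit 0) (XT.lf (nat_lit 0) (nat_lit 10898689952) (nat_lit 76) (nat_lit 69267681051) (nat_lit 76) (nat_lit 53812129582) (nat_lit 1) (nat_lit 4) (nat_lit 2) (nat_lit 5) (nat_lit 2) (nat_lit 4) (nat_lit 332) (nat_lit 229) (nat_lit 159)) (XT.lf (nat_lit 0) (nat_lit 16505188080) (nat_lit 76) (nat_lit 69751670311) (nat_lit 76) (nat_lit 54271108035) (nat_lit 1) (nat_lit 4) (nat_lit 2) (nat_lit 5) (nat_lit 2) (nat_lit 4) (nat_lit 333) (nat_lit 229) (nat_lit 158))) (XT.nd (nat_lit 78) (nat_lit 0) (nat_lit 0) (XT.lf (nat_lit 0) (nat_lit 22377477650) (nat_lit 76) (nat_lit 70266119574) (nat_lit 76) (nat_lit 54761737482) (nat_lit 1) (nat_lit 4) (nat_lit 2) (nat_lit 5) (nat_lit 2) (nat_lit 4) (nat_lit 334) (nat_lit 229) (nat_lit 157)) (XT.lf (nat_lit 0) (nat_lit 28529540305) (nat_lit 76) (nat_lit 70812253720) (nat_lit 76) (nat_lit 55285186089) (nat_lit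 1) (nat_lit 4) (nat_lit 2) (nat_lit 5) (nat_lit 2) (nat_lit 4) (nat_lit 335) (nat_lit 229) (nat_lit 156)))))) (XT.nd (nat_lit 624) (nat_lit 0) (nat_lit 0) (XT.nd (nat_lit 312) (nat_lit 0) (nat_lit 0) (XT.nd (nat_lit 156) (nat_lit 0) (nat_lit 0) (XT.nd (nat_lit 78) (nat_lit 0) (nat_lit 0) (XT.lf (nat_lit 0) (nat_lit 34976023813) (nat_lit 76) (nat_lit 71391373067) (nat_lit 76) (nat_lit 55842700161) (nat_lit 1) (nat_lit 4) (nat_lit 2) (nat_lit 5) (nat_lit 2) (nat_lit 4) (nat_lit 336) (nat_lit 229) (nat_lit 155)) (XT.lf (nat_lit 0) (nat_lit 41732276944) (nat_lit 76) (nat_lit 72004856472) (nat_lit 76) (nat_lit 56435607114) (nat_lit 1) (nat_lit 4) (nat_lit 2) (nat_lit 5) (nat_lit 2) (nat_lit 4) (nat_lit 337) (nat_lit 229) (nat_lit 154))) (XT.nd (nat_lit 78) (nat_lit 0) (nat_lit 0) (XT.lf (nat_lit 0) (nat_lit 48814386015) (nat_lit 76) (nat_lit 72654164610) (nat_lit 76) (nat_lit 57065318629)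 (nat_lit 1) (nat_lit 4) (nat_lit 2) (nat_lit 5) (nat_lit 2) (nat_lit 4) (nat_lit 338) (nat_lit 229) (nat_lit 153)) (XT.lf (nat_lit 0) (nat_lit 56239213190) (nat_lit 76) (nat_lit 73340843451) (nat_lit 76) (nat_lit 57733334022) (nat_lit 1) (nat_lit 4) (nat_lit 2) (nat_lit 5) (nat_lit 2) (nat_lit 4) (nat_lit 339) (nat_lit 229) (nat_lit 152)))) (XT.nd (nat_lit 156) (nat_lit 0) (nat_lit 0) (XT.nd (nat_lit 78) (nat_lit 0) (nat_lit 0) (XT.lf (nat_lit 0) (nat_lit 64024436629) (nat_lit 76) (nat_lit 74066527946) (nat_lit 76) (nat_lit 58441243803) (nat_lit 1) (nat_lit 4) (nat_lit 2) (nat_lit 5) (nat_lit 2) (nat_lit 4) (nat_lit 340) (nat_lit 229) (nat_lit 151)) (XT.lf (nat_lit 0) (nat_lit 72188592579) (nat_lit 76) (nat_lit 74832945914) (nat_lit 76) (nat_lit 59190733473) (nat_lit 1) (nat_lit 4) (nat_lit 2) (nat_lit 5) (nat_lit 2) (nat_lit 4) (nat_lit 341) (nat_lit 229) (nat_lit 150))) (XT.nd (nat_lit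 78) (nat_lit 0) (nat_lit 0) (XT.lf (nat_lit 0) (nat_lit 80751119506) (nat_lit 76) (nat_lit 75641922161) (nat_lit 76) (nat_lit 59983587531) (nat_lit 1) (nat_lit 4) (nat_lit 2) (nat_lit 5) (nat_lit 2) (nat_lit 4) (nat_lit 342) (nat_lit 229) (nat_lit 149)) (XT.lf (nat_lit 0) (nat_lit 89732404379) (nat_lit 76) (nat_lit 76495382821) (nat_lit 76) (nat_lit 60821693725) (nat_lit 1) (nat_lit 4) (nat_lit 2) (nat_lit 5) (nat_lit 2) (nat_lit 4) (nat_lit 343) (nat_lit 229) (nat_lit 148))))) (XT.nd (nat_lit 312) (nat_lit 0) (nat_lit 0) (XT.nd (nat_lit 156) (nat_lit 0) (nat_lit 0) (XT.nd (nat_lit 78) (nat_lit 0) (nat_lit 0) (XT.lf (nat_lit 0) (nat_lit 99153831210) (nat_lit 76) (nat_lit 77395359942) (nat_lit 76) (nat_lit 61707047546) (nat_lit 1) (nat_lit 4) (nat_lit 2) (nat_lit 5) (nat_lit 2) (nat_lit 4) (nat_lit 344) (nat_lit 229) (nat_lit 147)) (XT.lf (nat_lit 0) (nat_lit 109037831967) (nat_lit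 76) (nat_lit 78343996328) (nat_lit 76) (nat_lit 62641756978) (nat_lit 1) (nat_lit 4) (nat_lit 2) (nat_lit 5) (nat_lit 2) (nat_lit 4) (nat_lit 345) (nat_lit 229) (nat_lit 146))) (XT.nd (nat_lit 78) (nat_lit 0) (nat_lit 0) (XT.lf (nat_lit 0) (nat_lit 119407939986) (nat_lit 76) (nat_lit 79343550636) (nat_lit 76) (nat_lit 63628047522) (nat_lit 1) (nat_lit 4) (nat_lit 2) (nat_lit 5) (nat_lit 2) (nat_lit 4) (nat_lit 346) (nat_lit 229) (nat_lit 145)) (XT.lf (nat_lit 0) (nat_lit 130288845999) (nat_lit 76) (nat_lit 80396402758) (nat_lit 76) (nat_lit 64668267486) (nat_lit 1) (nat_lit 4) (nat_lit 2) (nat_lit 5) (nat_lit 2) (nat_lit 4) (nat_lit 347) (nat_lit 229) (nat_lit 144)))) (XT.nd (nat_lit 156) (nat_lit 0) (nat_lit 0) (XT.nd (nat_lit 78) (nat_lit 0) (nat_lit 0) (XT.lf (nat_lit 0) (nat_lit 141706456927) (nat_lit 76) (nat_lit 81505059483) (nat_lit 76) (nat_lit 65764893586) (nat_lit 1) (nat_lit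 4) (nat_lit 2) (nat_lit 5) (nat_lit 2) (nat_lit 4) (nat_lit 348) (nat_lit 229) (nat_lit 143)) (XT.lf (nat_lit 0) (nat_lit 153687957556) (nat_lit 76) (nat_lit 82672160473) (nat_lit 76) (nat_lit 66920536837) (nat_lit 1) (nat_lit 4) (nat_lit 2) (nat_lit 5) (nat_lit 2) (nat_lit 4) (nat_lit 349) (nat_lit 229) (nat_lit 142))) (XT.nd (nat_lit 78) (nat_lit 0) (nat_lit 0) (XT.lf (nat_lit 0) (nat_lit 166261875269) (nat_lit 76) (nat_lit 83900484537) (nat_lit 76) (nat_lit 68137948769) (nat_lit 1) (nat_lit 4) (nat_lit 2) (nat_lit 5) (nat_lit 2) (nat_lit 4) (nat_lit 350) (nat_lit 229) (nat_lit 141)) (XT.nd (nat_lit 78) (nat_lit 0) (nat_lit 0) (XT.lf (nat_lit 0) (nat_lit 179458147966) (nat_lit 76) (nat_lit 85192956257) (nat_lit 76) (nat_lit 69420027983) (nat_lit 1) (nat_lit 4) (nat_lit 2) (nat_lit 5) (nat_lit 2) (nat_lit 4) (nat_lit 351) (nat_lit 229) (nat_lit 140)) (XT.lf (nat_lit 0) (nat_lit 193308195343)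 (nat_lit 76) (nat_lit 86552652947) (nat_lit 76) (nat_lit 70769827047) (nat_lit 1) (nat_lit 4) (nat_lit 2) (nat_lit 5) (nat_lit 2) (nat_lit 4) (nat_lit 352) (nat_lit 229) (nat_lit 139))))))))
noncomputable def xc77 : XT := (XT.nd (nat_lit 30966) (nat_lit 0) (nat_lit 836) (XT.nd (nat_lit 30264) (nat_lit 0) (nat_lit 2128) (XT.nd (nat_lit 312) (nat_lit 0) (nat_lit 0) (XT.nd (nat_lit 156) (nat_lit 0) (nat_lit 0) (XT.nd (nat_lit 78) (nat_lit 0) (nat_lit 0) (XT.lf (nat_lit 0) (nat_lit 207844993704) (nat_lit 76) (nat_lit 87982811981) (nat_lit 76) (nat_lit 72190559770) (nat_lit 1) (nat_lit 4) (nat_lit 2) (nat_lit 5) (nat_lit 2) (nat_lit 4) (nat_lit 353) (nat_lit 229) (nat_lit 138)) (XT.lf (nat_lit 0) (nat_lit 223103154474) (nat_lit 76) (nat_lit 89486838497) (nat_lit 76) (nat_lit 73685608849) (nat_lit 1) (nat_lit 4) (nat_lit 2) (nat_lit 5) (nat_lit 2) (nat_lit 4) (nat_lit 354) (nat_lit 229)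 (nat_lit 137))) (XT.nd (nat_lit 78) (nat_lit 0) (nat_lit 0) (XT.lf (nat_lit 0) (nat_lit 239119006606) (nat_lit 76) (nat_lit 91068313513) (nat_lit 76) (nat_lit 75258533923) (nat_lit 1) (nat_lit 4) (nat_lit 2) (nat_lit 5) (nat_lit 2) (nat_lit 4) (nat_lit 355) (nat_lit 229) (nat_lit 136)) (XT.lf (nat_lit 0) (nat_lit 255930683082) (nat_lit 76) (nat_lit 92731002444) (nat_lit 76) (nat_lit 76913080054) (nat_lit 1) (nat_lit 4) (nat_lit 2) (nat_lit 5) (nat_lit 2) (nat_lit 4) (nat_lit 356) (nat_lit 229) (nat_lit 135)))) (XT.nd (nat_lit 156) (nat_lit 0) (nat_lit 0) (XT.nd (nat_lit 78) (nat_lit 0) (nat_lit 0) (XT.lf (nat_lit 0) (nat_lit 273578211703) (nat_lit 76) (nat_lit 94478864074) (nat_lit 76) (nat_lit 78653186635) (nat_lit 1) (nat_lit 4) (nat_lit 2) (nat_lit 5) (nat_lit 2) (nat_lit 4) (nat_lit 357) (nat_lit 229) (nat_lit 134)) (XT.lf (nat_lit 0) (nat_lit 292103610394) (nat_lit 76) (nat_lit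 96316059978) (nat_lit 76) (nat_lit 80482996779) (nat_lit 1) (nat_lit 4) (nat_lit 2) (nat_lit 5) (nat_lit 2) (nat_lit 4) (nat_lit 358) (nat_lit 229) (nat_lit 133))) (XT.nd (nat_lit 78) (nat_lit 0) (nat_lit 0) (XT.lf (nat_lit 0) (nat_lit 311550987248) (nat_lit 76) (nat_lit 98246964432) (nat_lit 76) (nat_lit 82406867175) (nat_lit 1) (nat_lit 4) (nat_lit 2) (nat_lit 5) (nat_lit 2) (nat_lit 4) (nat_lit 359) (nat_lit 229) (nat_lit 132)) (XT.lf (nat_lit 0) (nat_lit 331966645542) (nat_lit 76) (nat_lit 100276174828) (nat_lit 76) (nat_lit 84429378469) (nat_lit 1) (nat_lit 4) (nat_lit 2) (nat_lit 5) (nat_lit 2) (nat_lit 4) (nat_lit 360) (nat_lit 229) (nat_lit 131))))) (XT.nd (nat_lit 312) (nat_lit 912) (nat_lit 0) (XT.nd (nat_lit 156) (nat_lit 304) (nat_lit 0) (XT.nd (nat_lit 78) (nat_lit 304) (nat_lit 0) (XT.lf (nat_lit 0) (nat_lit 1334981183) (nat_lit 380) (nat_lit 1249109524) (nat_lit 0) (nat_lit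 1334981183) (nat_lit 49) (nat_lit 5) (nat_lit 54) (nat_lit 4) (nat_lit 49) (nat_lit 4) (nat_lit 260) (nat_lit 230) (nat_lit 230)) (XT.lf (nat_lit 0) (nat_lit 2221925981) (nat_lit 304) (nat_lit 3505998981) (nat_lit 304) (nat_lit 2266427357) (nat_lit 45) (nat_lit 4) (nat_lit 49) (nat_lit 5) (nat_lit 49) (nat_lit 4) (nat_lit 261) (nat_lit 230) (nat_lit 229))) (XT.nd (nat_lit 78) (nat_lit 228) (nat_lit 0) (XT.lf (nat_lit 0) (nat_lit 661081699) (nat_lit 380) (nat_lit 1064898542) (nat_lit 76) (nat_lit 6437231254) (nat_lit 44) (nat_lit 5) (nat_lit 49) (nat_lit 5) (nat_lit 45) (nat_lit 4) (nat_lit 262) (nat_lit 230) (nat_lit 228)) (XT.lf (nat_lit 0) (nat_lit 3590938313) (nat_lit 304) (nat_lit 4536530172) (nat_lit 0) (nat_lit 215277333) (nat_lit 41) (nat_lit 5) (nat_lit 45) (nat_lit 4) (nat_lit 41) (nat_lit 4) (nat_lit 263) (nat_lit 230) (nat_lit 227)))) (XT.nd (nat_lit 156) (nat_lit 532) (nat_lit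 0) (XT.nd (nat_lit 78) (nat_lit 76) (nat_lit 0) (XT.lf (nat_lit 0) (nat_lit 249800522) (nat_lit 304) (nat_lit 6340709267) (nat_lit 304) (nat_lit 1945249645) (nat_lit 37) (nat_lit 4) (nat_lit 41) (nat_lit 5) (nat_lit 41) (nat_lit 4) (nat_lit 264) (nat_lit 230) (nat_lit 226)) (XT.lf (nat_lit 0) (nat_lit 921372068) (nat_lit 380) (nat_lit 3477883682) (nat_lit 76) (nat_lit 4341398310) (nat_lit 36) (nat_lit 5) (nat_lit 41) (nat_lit 5) (nat_lit 37) (nat_lit 4) (nat_lit 265) (nat_lit 230) (nat_lit 225))) (XT.nd (nat_lit 78) (nat_lit 304) (nat_lit 0) (XT.lf (nat_lit 0) (nat_lit 1432803313) (nat_lit 228) (nat_lit 2335239207) (nat_lit 304) (nat_lit 5191625203) (nat_lit 33) (nat_lit 5) (nat_lit 36) (nat_lit 5) (nat_lit 37) (nat_lit 4) (nat_lit 266) (nat_lit 230) (nat_lit 224)) (XT.nd (nat_lit 78) (nat_lit 304) (nat_lit 0) (XT.lf (nat_lit 0) (nat_lit 6560455380) (nat_lit 228) (nat_lit 138607860)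 (nat_lit 304) (nat_lit 2494014000) (nat_lit 33) (nat_lit 5) (nat_lit 36) (nat_lit 5) (nat_lit 37) (nat_lit 4) (nat_lit 267) (nat_lit 230) (nat_lit 223)) (XT.lf (nat_lit 0) (nat_lit 286019601) (nat_lit 304) (nat_lit 7043769464) (nat_lit 76) (nat_lit 2110680424) (nat_lit 29) (nat_lit 5) (nat_lit 33) (nat_lit 5) (nat_lit 30) (nat_lit 4) (nat_lit 268) (nat_lit 230) (nat_lit 222))))))) (XT.nd (nat_lit 624) (nat_lit 456) (nat_lit 0) (XT.nd (nat_lit 312) (nat_lit 380) (nat_lit 0) (XT.nd (nat_lit 156) (nat_lit 304) (nat_lit 0) (XT.nd (nat_lit 78) (nat_lit 152) (nat_lit 0) (XT.lf (nat_lit 0) (nat_lit 3057819471) (nat_lit 304) (nat_lit 2122569179) (nat_lit 76) (nat_lit 4521441101) (nat_lit 29) (nat_lit 5) (nat_lit 33) (nat_lit 5) (nat_lit 30) (nat_lit 4) (nat_lit 269) (nat_lit 230) (nat_lit 221)) (XT.lf (nat_lit 0) (nat_lit 2998209573) (nat_lit 152) (nat_lit 2911088243) (nat_lit 228) (nat_lit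 4070354989) (nat_lit 27) (nat_lit 5) (nat_lit 29) (nat_lit 5) (nat_lit 30) (nat_lit 4) (nat_lit 270) (nat_lit 230) (nat_lit 220))) (XT.nd (nat_lit 78) (nat_lit 304) (nat_lit 0) (XT.lf (nat_lit 0) (nat_lit 8308572563) (nat_lit 152) (nat_lit 527848596) (nat_lit 228) (nat_lit 1438720112) (nat_lit 27) (nat_lit 5) (nat_lit 29) (nat_lit 5) (nat_lit 30) (nat_lit 4) (nat_lit 271) (nat_lit 230) (nat_lit 219)) (XT.lf (nat_lit 0) (nat_lit 1264208810) (nat_lit 304) (nat_lit 7373573948) (nat_lit 76) (nat_lit 1947870262) (nat_lit 23) (nat_lit 5) (nat_lit 27) (nat_lit 5) (nat_lit 24) (nat_lit 4) (nat_lit 272) (nat_lit 230) (nat_lit 218)))) (XT.nd (nat_lit 156) (nat_lit 228) (nat_lit 0) (XT.nd (nat_lit 78) (nat_lit 152) (nat_lit 0) (XT.lf (nat_lit 0) (nat_lit 3998526707) (nat_lit 304) (nat_lit 2364477404) (nat_lit 76) (nat_lit 4550646881) (nat_lit 23) (nat_lit 5) (nat_lit 27) (nat_lit 5) (nat_lit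 24) (nat_lit 4) (nat_lit 273) (nat_lit 230) (nat_lit 217)) (XT.lf (nat_lit 0) (nat_lit 2853448284) (nat_lit 152) (nat_lit 3967413902) (nat_lit 228) (nat_lit 4439973555) (nat_lit 21) (nat_lit 5) (nat_lit 23) (nat_lit 5) (nat_lit 24) (nat_lit 4) (nat_lit 274) (nat_lit 230) (nat_lit 216))) (XT.nd (nat_lit 78) (nat_lit 228) (nat_lit 0) (XT.lf (nat_lit 0) (nat_lit 8283550141) (nat_lit 152) (nat_lit 1449957338) (nat_lit 228) (nat_lit 1894747799) (nat_lit 21) (nat_lit 5) (nat_lit 23) (nat_lit 5) (nat_lit 24) (nat_lit 4) (nat_lit 275) (nat_lit 230) (nat_lit 215)) (XT.lf (nat_lit 0) (nat_lit 712827526) (nat_lit 228) (nat_lit 10143663384) (nat_lit 76) (nat_lit 1159252747) (nat_lit 18) (nat_lit 5) (nat_lit 21) (nat_lit 5) (nat_lit 19) (nat_lit 4) (nat_lit 276) (nat_lit 230) (nat_lit 214))))) (XT.nd (nat_lit 312) (nat_lit 304) (nat_lit 0) (XT.nd (nat_lit 156) (nat_lit 152) (nat_lit 0) (XT.nd (nat_lit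 78) (nat_lit 0) (nat_lit 0) (XT.lf (nat_lit 0) (nat_lit 3381815505) (nat_lit 228) (nat_lit 5139419535) (nat_lit 76) (nat_lit 3900372410) (nat_lit 18) (nat_lit 5) (nat_lit 21) (nat_lit 5) (nat_lit 19) (nat_lit 4) (nat_lit 277) (nat_lit 230) (nat_lit 213)) (XT.lf (nat_lit 0) (nat_lit 6101745502) (nat_lit 228) (nat_lit 8497810) (nat_lit 76) (nat_lit 6741922263) (nat_lit 18) (nat_lit 5) (nat_lit 21) (nat_lit 5) (nat_lit 19) (nat_lit 4) (nat_lit 278) (nat_lit 230) (nat_lit 212))) (XT.nd (nat_lit 78) (nat_lit 0) (nat_lit 0) (XT.lf (nat_lit 0) (nat_lit 5435281215) (nat_lit 152) (nat_lit 3528672299) (nat_lit 228) (nat_lit 4340246657) (nat_lit 16) (nat_lit 5) (nat_lit 18) (nat_lit 5) (nat_lit 19) (nat_lit 4) (nat_lit 279) (nat_lit 230) (nat_lit 211)) (XT.lf (nat_lit 0) (nat_lit 11035790096) (nat_lit 152) (nat_lit 856981873) (nat_lit 228) (nat_lit 1890139659) (nat_lit 16) (nat_lit 5) (nat_lit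 18) (nat_lit 5) (nat_lit 19) (nat_lit 4) (nat_lit 280) (nat_lit 230) (nat_lit 210)))) (XT.nd (nat_lit 156) (nat_lit 76) (nat_lit 0) (XT.nd (nat_lit 78) (nat_lit 0) (nat_lit 0) (XT.lf (nat_lit 0) (nat_lit 657301009) (nat_lit 228) (nat_lit 11727527048) (nat_lit 76) (nat_lit 1900591127) (nat_lit 13) (nat_lit 5) (nat_lit 16) (nat_lit 5) (nat_lit 14) (nat_lit 4) (nat_lit 281) (nat_lit 230) (nat_lit 209)) (XT.lf (nat_lit 0) (nat_lit 3256714776) (nat_lit 228) (nat_lit 6747346862) (nat_lit 76) (nat_lit 4808251155) (nat_lit 13) (nat_lit 5) (nat_lit 16) (nat_lit 5) (nat_lit 14) (nat_lit 4) (nat_lit 282) (nat_lit 230) (nat_lit 208))) (XT.nd (nat_lit 78) (nat_lit 76) (nat_lit 0) (XT.lf (nat_lit 0) (nat_lit 5916372324) (nat_lit 228) (nat_lit 1627066062) (nat_lit 76) (nat_lit 7825804823) (nat_lit 13) (nat_lit 5) (nat_lit 16) (nat_lit 5) (nat_lit 14) (nat_lit 4) (nat_lit 283) (nat_lit 230) (nat_lit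 207)) (XT.nd (nat_lit 78) (nat_lit 0) (nat_lit 0) (XT.lf (nat_lit 0) (nat_lit 3766043402) (nat_lit 76) (nat_lit 4935361263) (nat_lit 152) (nat_lit 7253191875) (nat_lit 12) (nat_lit 5) (nat_lit 13) (nat_lit 5) (nat_lit 14) (nat_lit 4) (nat_lit 284) (nat_lit 230) (nat_lit 206)) (XT.lf (nat_lit 0) (nat_lit 9383247059) (nat_lit 76) (nat_lit 2205159081) (nat_lit 152) (nat_lit 4982862174) (nat_lit 12) (nat_lit 5) (nat_lit 13) (nat_lit 5) (nat_lit 14) (nat_lit 4) (nat_lit 285) (nat_lit 230) (nat_lit 205))))))))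
noncomputable def xc78 : XT := (XT.nd (nat_lit 1326) (nat_lit 228) (nat_lit 0) (XT.nd (nat_lit 624) (nat_lit 228) (nat_lit 0) (XT.nd (nat_lit 312) (nat_lit 76) (nat_lit 0) (XT.nd (nat_lit 156) (nat_lit 76) (nat_lit 0) (XT.nd (nat_lit 78) (nat_lit 152) (nat_lit 0) (XT.lf (nat_lit 0) (nat_lit 14567782945) (nat_lit 152) (nat_lit 2047693285) (nat_lit 0) (nat_lit 606073947) (nat_lit 12) (nat_lit 5) (nat_lit 14) (nat_lit 4) (nat_lit 12) (nat_lit 4) (nat_lit 286) (nat_lit 230) (nat_lit 204)) (XT.lf (nat_lit 0) (nat_lit 3324769750) (nat_lit 152) (nat_lit 14400081352) (nat_lit 152) (nat_lit 178228209) (nat_lit 10) (nat_lit 4) (nat_lit 12) (nat_lit 5) (nat_lit 12) (nat_lit 4) (nat_lit 287) (nat_lit 230) (nat_lit 203))) (XT.nd (nat_lit 78) (nat_lit 0) (nat_lit 0) (XT.lf (nat_lit 0) (nat_lit 2319765996) (nat_lit 228) (nat_lit 9714089178) (nat_lit 76) (nat_lit 6584284880) (nat_lit 9) (nat_lit 5)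 (nat_lit 12) (nat_lit 5) (nat_lit 10) (nat_lit 4) (nat_lit 288) (nat_lit 230) (nat_lit 202)) (XT.lf (nat_lit 0) (nat_lit 4880404542) (nat_lit 228) (nat_lit 4700738567) (nat_lit 76) (nat_lit 9790624171) (nat_lit 9) (nat_lit 5) (nat_lit 12) (nat_lit 5) (nat_lit 10) (nat_lit 4) (nat_lit 289) (nat_lit 230) (nat_lit 201)))) (XT.nd (nat_lit 156) (nat_lit 0) (nat_lit 0) (XT.nd (nat_lit 78) (nat_lit 0) (nat_lit 0) (XT.lf (nat_lit 0) (nat_lit 492215430) (nat_lit 76) (nat_lit 7030958034) (nat_lit 152) (nat_lit 12642336764) (nat_lit 8) (nat_lit 5) (nat_lit 9) (nat_lit 5) (nat_lit 10) (nat_lit 4) (nat_lit 290) (nat_lit 230) (nat_lit 200)) (XT.lf (nat_lit 0) (nat_lit 6022598336) (nat_lit 76) (nat_lit 4302723488) (nat_lit 152) (nat_lit 10672389102) (nat_lit 8) (nat_lit 5) (nat_lit 9) (nat_lit 5) (nat_lit 10) (nat_lit 4) (nat_lit 291) (nat_lit 230) (nat_lit 199))) (XT.nd (nat_lit 78) (nat_lit 0)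 (nat_lit 0) (XT.lf (nat_lit 0) (nat_lit 11748150083) (nat_lit 76) (nat_lit 1469552956) (nat_lit 152) (nat_lit 8656438681) (nat_lit 8) (nat_lit 5) (nat_lit 9) (nat_lit 5) (nat_lit 10) (nat_lit 4) (nat_lit 292) (nat_lit 230) (nat_lit 198)) (XT.lf (nat_lit 0) (nat_lit 16230237287) (nat_lit 152) (nat_lit 5137419972) (nat_lit 0) (nat_lit 1428080416) (nat_lit 8) (nat_lit 5) (nat_lit 10) (nat_lit 4) (nat_lit 8) (nat_lit 4) (nat_lit 293) (nat_lit 230) (nat_lit 197))))) (XT.nd (nat_lit 312) (nat_lit 76) (nat_lit 0) (XT.nd (nat_lit 156) (nat_lit 76) (nat_lit 0) (XT.nd (nat_lit 78) (nat_lit 0) (nat_lit 0) (XT.lf (nat_lit 0) (nat_lit 796889) (nat_lit 76) (nat_lit 19371021397) (nat_lit 76) (nat_lit 4392788729) (nat_lit 7) (nat_lit 4) (nat_lit 8) (nat_lit 5) (nat_lit 8) (nat_lit 4) (nat_lit 294) (nat_lit 230) (nat_lit 196)) (XT.lf (nat_lit 0) (nat_lit 5499787608) (nat_lit 76) (nat_lit 17213024285)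 (nat_lit 76) (nat_lit 2067100382) (nat_lit 7) (nat_lit 4) (nat_lit 8) (nat_lit 5) (nat_lit 8) (nat_lit 4) (nat_lit 295) (nat_lit 230) (nat_lit 195))) (XT.nd (nat_lit 78) (nat_lit 0) (nat_lit 0) (XT.lf (nat_lit 0) (nat_lit 319532136) (nat_lit 152) (nat_lit 14650588961) (nat_lit 76) (nat_lit 10877835147) (nat_lit 6) (nat_lit 5) (nat_lit 8) (nat_lit 5) (nat_lit 7) (nat_lit 4) (nat_lit 296) (nat_lit 230) (nat_lit 194)) (XT.lf (nat_lit 0) (nat_lit 2714750070) (nat_lit 152) (nat_lit 9892493090) (nat_lit 76) (nat_lit 14362623083) (nat_lit 6) (nat_lit 5) (nat_lit 8) (nat_lit 5) (nat_lit 7) (nat_lit 4) (nat_lit 297) (nat_lit 230) (nat_lit 193)))) (XT.nd (nat_lit 156) (nat_lit 0) (nat_lit 0) (XT.nd (nat_lit 78) (nat_lit 76) (nat_lit 0) (XT.lf (nat_lit 0) (nat_lit 5190416439) (nat_lit 152) (nat_lit 4962235027) (nat_lit 76) (nat_lit 17997275684) (nat_lit 6) (nat_lit 5) (nat_lit 8) (nat_lit 5)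 (nat_lit 7) (nat_lit 4) (nat_lit 298) (nat_lit 230) (nat_lit 192)) (XT.lf (nat_lit 0) (nat_lit 156947231) (nat_lit 76) (nat_lit 7597928844) (nat_lit 152) (nat_lit 21635950038) (nat_lit 5) (nat_lit 5) (nat_lit 6) (nat_lit 5) (nat_lit 7) (nat_lit 4) (nat_lit 299) (nat_lit 230) (nat_lit 191))) (XT.nd (nat_lit 78) (nat_lit 0) (nat_lit 0) (XT.lf (nat_lit 0) (nat_lit 5642764068) (nat_lit 76) (nat_lit 4852213132) (nat_lit 152) (nat_lit 20196503333) (nat_lit 5) (nat_lit 5) (nat_lit 6) (nat_lit 5) (nat_lit 7) (nat_lit 4) (nat_lit 300) (nat_lit 230) (nat_lit 190)) (XT.nd (nat_lit 78) (nat_lit 0) (nat_lit 0) (XT.lf (nat_lit 0) (nat_lit 11344203053) (nat_lit 76) (nat_lit 1993004765) (nat_lit 152) (nat_lit 18721781194) (nat_lit 5) (nat_lit 5) (nat_lit 6) (nat_lit 5) (nat_lit 7) (nat_lit 4) (nat_lit 301) (nat_lit 230) (nat_lit 189)) (XT.lf (nat_lit 0) (nat_lit 16303737234) (nat_lit 152) (nat_lit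 16237170572) (nat_lit 0) (nat_lit 954929610) (nat_lit 5) (nat_lit 5) (nat_lit 7) (nat_lit 4) (nat_lit 5) (nat_lit 4) (nat_lit 302) (nat_lit 230) (nat_lit 188))))))) (XT.nd (nat_lit 624) (nat_lit 152) (nat_lit 0) (XT.nd (nat_lit 312) (nat_lit 0) (nat_lit 0) (XT.nd (nat_lit 156) (nat_lit 76) (nat_lit 0) (XT.nd (nat_lit 78) (nat_lit 0) (nat_lit 0) (XT.lf (nat_lit 0) (nat_lit 19419295224) (nat_lit 152) (nat_lit 11622875925) (nat_lit 0) (nat_lit 3962392335) (nat_lit 5) (nat_lit 5) (nat_lit 7) (nat_lit 4) (nat_lit 5) (nat_lit 4) (nat_lit 303) (nat_lit 230) (nat_lit 187)) (XT.lf (nat_lit 0) (nat_lit 22660183394) (nat_lit 152) (nat_lit 6829799212) (nat_lit 0) (nat_lit 7100332632) (nat_lit 5) (nat_lit 5) (nat_lit 7) (nat_lit 4) (nat_lit 5) (nat_lit 4) (nat_lit 304) (nat_lit 230) (nat_lit 186))) (XT.nd (nat_lit 78) (nat_lit 76) (nat_lit 0) (XT.lf (nat_lit 0) (nat_lit 26034118143) (nat_lit 152)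 (nat_lit 1846528347) (nat_lit 0) (nat_lit 10376221790) (nat_lit 5) (nat_lit 5) (nat_lit 7) (nat_lit 4) (nat_lit 5) (nat_lit 4) (nat_lit 305) (nat_lit 230) (nat_lit 185)) (XT.lf (nat_lit 0) (nat_lit 3449197461) (nat_lit 76) (nat_lit 26153786828) (nat_lit 76) (nat_lit 10402513720) (nat_lit 4) (nat_lit 4) (nat_lit 5) (nat_lit 5) (nat_lit 5) (nat_lit 4) (nat_lit 306) (nat_lit 230) (nat_lit 184)))) (XT.nd (nat_lit 156) (nat_lit 0) (nat_lit 0) (XT.nd (nat_lit 78) (nat_lit 0) (nat_lit 0) (XT.lf (nat_lit 0) (nat_lit 9027472144) (nat_lit 76) (nat_lit 24327067993) (nat_lit 76) (nat_lit 8486864643) (nat_lit 4) (nat_lit 4) (nat_lit 5) (nat_lit 5) (nat_lit 5) (nat_lit 4) (nat_lit 307) (nat_lit 230) (nat_lit 183)) (XT.lf (nat_lit 0) (nat_lit 14840522742) (nat_lit 76) (nat_lit 22427412506) (nat_lit 76) (nat_lit 6502513687) (nat_lit 4) (nat_lit 4) (nat_lit 5) (nat_lit 5) (nat_lit 5) (nat_lit 4) (nat_lit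 308) (nat_lit 230) (nat_lit 182))) (XT.nd (nat_lit 78) (nat_lit 0) (nat_lit 0) (XT.lf (nat_lit 0) (nat_lit 20902189852) (nat_lit 76) (nat_lit 20450297378) (nat_lit 76) (nat_lit 4444736208) (nat_lit 4) (nat_lit 4) (nat_lit 5) (nat_lit 5) (nat_lit 5) (nat_lit 4) (nat_lit 309) (nat_lit 230) (nat_lit 181)) (XT.lf (nat_lit 0) (nat_lit 27226906013) (nat_lit 76) (nat_lit 18391015192) (nat_lit 76) (nat_lit 2308632734) (nat_lit 4) (nat_lit 4) (nat_lit 5) (nat_lit 5) (nat_lit 5) (nat_lit 4) (nat_lit 310) (nat_lit 230) (nat_lit 180))))) (XT.nd (nat_lit 312) (nat_lit 76) (nat_lit 0) (XT.nd (nat_lit 156) (nat_lit 0) (nat_lit 0) (XT.nd (nat_lit 78) (nat_lit 76) (nat_lit 0) (XT.lf (nat_lit 0) (nat_lit 33829730075) (nat_lit 76) (nat_lit 16244662895) (nat_lit 76) (nat_lit 89117307) (nat_lit 4) (nat_lit 4) (nat_lit 5) (nat_lit 5) (nat_lit 5) (nat_lit 4) (nat_lit 311) (nat_lit 230) (nat_lit 179)) (XT.lf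 (nat_lit 0) (nat_lit 2148069748) (nat_lit 152) (nat_lit 11821681775) (nat_lit 76) (nat_lit 38541934697) (nat_lit 3) (nat_lit 5) (nat_lit 5) (nat_lit 5) (nat_lit 4) (nat_lit 4) (nat_lit 312) (nat_lit 230) (nat_lit 178))) (XT.nd (nat_lit 78) (nat_lit 0) (nat_lit 0) (XT.lf (nat_lit 0) (nat_lit 4473582010) (nat_lit 152) (nat_lit 7120742753) (nat_lit 76) (nat_lit 43383941243) (nat_lit 3) (nat_lit 5) (nat_lit 5) (nat_lit 5) (nat_lit 4) (nat_lit 4) (nat_lit 313) (nat_lit 230) (nat_lit 177)) (XT.lf (nat_lit 0) (nat_lit 6895808724) (nat_lit 152) (nat_lit 2218379053) (nat_lit 76) (nat_lit 48455004235) (nat_lit 3) (nat_lit 5) (nat_lit 5) (nat_lit 5) (nat_lit 4) (nat_lit 4) (nat_lit 314) (nat_lit 230) (nat_lit 176)))) (XT.nd (nat_lit 156) (nat_lit 0) (nat_lit 0) (XT.nd (nat_lit 78) (nat_lit 0) (nat_lit 0) (XT.lf (nat_lit 0) (nat_lit 2992872221) (nat_lit 76) (nat_lit 6474371997) (nat_lit 152) (nat_lit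 50821052534) (nat_lit 2) (nat_lit 5) (nat_lit 3) (nat_lit 5) (nat_lit 4) (nat_lit 4) (nat_lit 315) (nat_lit 230) (nat_lit 175)) (XT.lf (nat_lit 0) (nat_lit 8510198430) (nat_lit 76) (nat_lit 3676387952) (nat_lit 152) (nat_lit 50955839133) (nat_lit 2) (nat_lit 5) (nat_lit 3) (nat_lit 5) (nat_lit 4) (nat_lit 4) (nat_lit 316) (nat_lit 230) (nat_lit 174))) (XT.nd (nat_lit 78) (nat_lit 0) (nat_lit 0) (XT.lf (nat_lit 0) (nat_lit 14273386434) (nat_lit 76) (nat_lit 751143099) (nat_lit 152) (nat_lit 51115633329) (nat_lit 2) (nat_lit 5) (nat_lit 3) (nat_lit 5) (nat_lit 4) (nat_lit 4) (nat_lit 317) (nat_lit 230) (nat_lit 173)) (XT.nd (nat_lit 78) (nat_lit 0) (nat_lit 0) (XT.lf (nat_lit 0) (nat_lit 18023870137) (nat_lit 152) (nat_lit 49028527612) (nat_lit 0) (nat_lit 2234446537) (nat_lit 2) (nat_lit 5) (nat_lit 4) (nat_lit 4) (nat_lit 2) (nat_lit 4) (nat_lit 318) (nat_lit 230) (nat_lit 172)) (XT.lf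 (nat_lit 0) (nat_lit 21169561033) (nat_lit 152) (nat_lit 46088534452) (nat_lit 0) (nat_lit 5332975827) (nat_lit 2) (nat_lit 5) (nat_lit 4) (nat_lit 4) (nat_lit 2) (nat_lit 4) (nat_lit 319) (nat_lit 230) (nat_lit 171))))))))
noncomputable def xc79 : XT := (XT.nd (nat_lit 1326) (nat_lit 0) (nat_lit 0) (XT.nd (nat_lit 624) (nat_lit 76) (nat_lit 0) (XT.nd (nat_lit 312) (nat_lit 0) (nat_lit 0) (XT.nd (nat_lit 156) (nat_lit 0) (nat_lit 0) (XT.nd (nat_lit 78) (nat_lit 0) (nat_lit 0) (XT.lf (nat_lit 0) (nat_lit 24457364512) (nat_lit 152) (nat_lit 43028069516) (nat_lit 0) (nat_lit 8575863491) (nat_lit 2) (nat_lit 5) (nat_lit 4) (nat_lit 4) (nat_lit 2) (nat_lit 4) (nat_lit 320) (nat_lit 230) (nat_lit 170)) (XT.lf (nat_lit 0) (nat_lit 27895108677) (nat_lit 152) (nat_lit 39839845982) (nat_lit 0) (nat_lit 11970830689) (nat_lit 2) (nat_lit 5) (nat_lit 4) (nat_lit 4) (nat_lit 2) (nat_lit 4) (nat_lit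 321) (nat_lit 230) (nat_lit 169))) (XT.nd (nat_lit 78) (nat_lit 0) (nat_lit 0) (XT.lf (nat_lit 0) (nat_lit 31490978634) (nat_lit 152) (nat_lit 36516272843) (nat_lit 0) (nat_lit 15525960677) (nat_lit 2) (nat_lit 5) (nat_lit 4) (nat_lit 4) (nat_lit 2) (nat_lit 4) (nat_lit 322) (nat_lit 230) (nat_lit 168)) (XT.lf (nat_lit 0) (nat_lit 35253535978) (nat_lit 152) (nat_lit 33049436829) (nat_lit 0) (nat_lit 19249718050) (nat_lit 2) (nat_lit 5) (nat_lit 4) (nat_lit 4) (nat_lit 2) (nat_lit 4) (nat_lit 323) (nat_lit 230) (nat_lit 167)))) (XT.nd (nat_lit 156) (nat_lit 0) (nat_lit 0) (XT.nd (nat_lit 78) (nat_lit 0) (nat_lit 0) (XT.lf (nat_lit 0) (nat_lit 39191739177) (nat_lit 152) (nat_lit 29431083568) (nat_lit 0) (nat_lit 23150968897) (nat_lit 2) (nat_lit 5) (nat_lit 4) (nat_lit 4) (nat_lit 2) (nat_lit 4) (nat_lit 324) (nat_lit 230) (nat_lit 166)) (XT.lf (nat_lit 0) (nat_lit 43314964908) (nat_lit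 152) (nat_lit 25652597934) (nat_lit 0) (nat_lit 27239001911) (nat_lit 2) (nat_lit 5) (nat_lit 4) (nat_lit 4) (nat_lit 2) (nat_lit 4) (nat_lit 325) (nat_lit 230) (nat_lit 165))) (XT.nd (nat_lit 78) (nat_lit 0) (nat_lit 0) (XT.lf (nat_lit 0) (nat_lit 47633030374) (nat_lit 152) (nat_lit 21704983531) (nat_lit 0) (nat_lit 31523550504) (nat_lit 2) (nat_lit 5) (nat_lit 4) (nat_lit 4) (nat_lit 2) (nat_lit 4) (nat_lit 326) (nat_lit 230) (nat_lit 164)) (XT.lf (nat_lit 0) (nat_lit 52156216682) (nat_lit 152) (nat_lit 17578841280) (nat_lit 0) (nat_lit 36014815981) (nat_lit 2) (nat_lit 5) (nat_lit 4) (nat_lit 4) (nat_lit 2) (nat_lit 4) (nat_lit 327) (nat_lit 230) (nat_lit 163))))) (XT.nd (nat_lit 312) (nat_lit 0) (nat_lit 0) (XT.nd (nat_lit 156) (nat_lit 76) (nat_lit 0) (XT.nd (nat_lit 78) (nat_lit 0) (nat_lit 0) (XT.lf (nat_lit 0) (nat_lit 56895293325) (nat_lit 152) (nat_lit 13264347030) (nat_lit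 0) (nat_lit 40723491832) (nat_lit 2) (nat_lit 5) (nat_lit 4) (nat_lit 4) (nat_lit 2) (nat_lit 4) (nat_lit 328) (nat_lit 230) (nat_lit 162)) (XT.lf (nat_lit 0) (nat_lit 61861543819) (nat_lit 152) (nat_lit 8751228176) (nat_lit 0) (nat_lit 45660789190) (nat_lit 2) (nat_lit 5) (nat_lit 4) (nat_lit 4) (nat_lit 2) (nat_lit 4) (nat_lit 329) (nat_lit 230) (nat_lit 161))) (XT.nd (nat_lit 78) (nat_lit 76) (nat_lit 0) (XT.lf (nat_lit 0) (nat_lit 67066792568) (nat_lit 152) (nat_lit 4028739199) (nat_lit 0) (nat_lit 50838463525) (nat_lit 2) (nat_lit 5) (nat_lit 4) (nat_lit 4) (nat_lit 2) (nat_lit 4) (nat_lit 330) (nat_lit 230) (nat_lit 160)) (XT.lf (nat_lit 0) (nat_lit 944596924) (nat_lit 76) (nat_lit 71593583904) (nat_lit 76) (nat_lit 55338993514) (nat_lit 1) (nat_lit 4) (nat_lit 2) (nat_lit 5) (nat_lit 2) (nat_lit 4) (nat_lit 331) (nat_lit 230) (nat_lit 159)))) (XT.nd (nat_lit 156) (nat_lit 0)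 (nat_lit 0) (XT.nd (nat_lit 78) (nat_lit 0) (nat_lit 0) (XT.lf (nat_lit 0) (nat_lit 6291208445) (nat_lit 76) (nat_lit 72051472134) (nat_lit 76) (nat_lit 55771870937) (nat_lit 1) (nat_lit 4) (nat_lit 2) (nat_lit 5) (nat_lit 2) (nat_lit 4) (nat_lit 332) (nat_lit 230) (nat_lit 158)) (XT.lf (nat_lit 0) (nat_lit 11890617079) (nat_lit 76) (nat_lit 72538515316) (nat_lit 76) (nat_lit 56235094303) (nat_lit 1) (nat_lit 4) (nat_lit 2) (nat_lit 5) (nat_lit 2) (nat_lit 4) (nat_lit 333) (nat_lit 230) (nat_lit 157))) (XT.nd (nat_lit 78) (nat_lit 0) (nat_lit 0) (XT.lf (nat_lit 0) (nat_lit 17756154750) (nat_lit 76) (nat_lit 73055873076) (nat_lit 76) (nat_lit 56729766525) (nat_lit 1) (nat_lit 4) (nat_lit 2) (nat_lit 5) (nat_lit 2) (nat_lit 4) (nat_lit 334) (nat_lit 230) (nat_lit 156)) (XT.nd (nat_lit 78) (nat_lit 0) (nat_lit 0) (XT.lf (nat_lit 0) (nat_lit 23901787024) (nat_lit 76) (nat_lit 73604777219)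 (nat_lit 76) (nat_lit 57257065393) (nat_lit 1) (nat_lit 4) (nat_lit 2) (nat_lit 5) (nat_lit 2) (nat_lit 4) (nat_lit 335) (nat_lit 230) (nat_lit 155)) (XT.lf (nat_lit 0) (nat_lit 30342146360) (nat_lit 76) (nat_lit 74186534659) (nat_lit 76) (nat_lit 57818246380) (nat_lit 1) (nat_lit 4) (nat_lit 2) (nat_lit 5) (nat_lit 2) (nat_lit 4) (nat_lit 336) (nat_lit 230) (nat_lit 154))))))) (XT.nd (nat_lit 624) (nat_lit 0) (nat_lit 0) (XT.nd (nat_lit 312) (nat_lit 0) (nat_lit 0) (XT.nd (nat_lit 156) (nat_lit 0) (nat_lit 0) (XT.nd (nat_lit 78) (nat_lit 0) (nat_lit 0) (XT.lf (nat_lit 0) (nat_lit 37092566946) (nat_lit 76) (nat_lit 74802530534) (nat_lit 76) (nat_lit 58414645633) (nat_lit 1) (nat_lit 4) (nat_lit 2) (nat_lit 5) (nat_lit 2) (nat_lit 4) (nat_lit 337) (nat_lit 230) (nat_lit 153)) (XT.lf (nat_lit 0) (nat_lit 44169121212) (nat_lit 76) (nat_lit 75454231499) (nat_lit 76) (nat_lit 59047683149)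 (nat_lit 1) (nat_lit 4) (nat_lit 2) (nat_lit 5) (nat_lit 2) (nat_lit 4) (nat_lit 338) (nat_lit 230) (nat_lit 152))) (XT.nd (nat_lit 78) (nat_lit 0) (nat_lit 0) (XT.lf (nat_lit 0) (nat_lit 51588658097) (nat_lit 76) (nat_lit 76143189224) (nat_lit 76) (nat_lit 59718866161) (nat_lit 1) (nat_lit 4) (nat_lit 2) (nat_lit 5) (nat_lit 2) (nat_lit 4) (nat_lit 339) (nat_lit 230) (nat_lit 151)) (XT.lf (nat_lit 0) (nat_lit 59368843165) (nat_lit 76) (nat_lit 76871044084) (nat_lit 76) (nat_lit 60429792722) (nat_lit 1) (nat_lit 4) (nat_lit 2) (nat_lit 5) (nat_lit 2) (nat_lit 4) (nat_lit 340) (nat_lit 230) (nat_lit 150)))) (XT.nd (nat_lit 156) (nat_lit 0) (nat_lit 0) (XT.nd (nat_lit 78) (nat_lit 0) (nat_lit 0) (XT.lf (nat_lit 0) (nat_lit 67528200666) (nat_lit 76) (nat_lit 77639529067) (nat_lit 76) (nat_lit 61182155517) (nat_lit 1) (nat_lit 4) (nat_lit 2) (nat_lit 5) (nat_lit 2) (nat_lit 4) (nat_lit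 341) (nat_lit 230) (nat_lit 149)) (XT.lf (nat_lit 0) (nat_lit 76086157642) (nat_lit 76) (nat_lit 78450473900) (nat_lit 76) (nat_lit 61977745884) (nat_lit 1) (nat_lit 4) (nat_lit 2) (nat_lit 5) (nat_lit 2) (nat_lit 4) (nat_lit 342) (nat_lit 230) (nat_lit 148))) (XT.nd (nat_lit 78) (nat_lit 0) (nat_lit 0) (XT.lf (nat_lit 0) (nat_lit 85063090181) (nat_lit 76) (nat_lit 79305809403) (nat_lit 76) (nat_lit 62818458086) (nat_lit 1) (nat_lit 4) (nat_lit 2) (nat_lit 5) (nat_lit 2) (nat_lit 4) (nat_lit 343) (nat_lit 230) (nat_lit 147)) (XT.lf (nat_lit 0) (nat_lit 94480371931) (nat_lit 76) (nat_lit 80207572089) (nat_lit 76) (nat_lit 63706293819) (nat_lit 1) (nat_lit 4) (nat_lit 2) (nat_lit 5) (nat_lit 2) (nat_lit 4) (nat_lit 344) (nat_lit 230) (nat_lit 146))))) (XT.nd (nat_lit 312) (nat_lit 0) (nat_lit 0) (XT.nd (nat_lit 156) (nat_lit 0) (nat_lit 0) (XT.nd (nat_lit 78) (nat_lit 0) (nat_lit 0)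 (XT.lf (nat_lit 0) (nat_lit 104360424992) (nat_lit 76) (nat_lit 81157909013) (nat_lit 76) (nat_lit 64643366978) (nat_lit 1) (nat_lit 4) (nat_lit 2) (nat_lit 5) (nat_lit 2) (nat_lit 4) (nat_lit 345) (nat_lit 230) (nat_lit 145)) (XT.lf (nat_lit 0) (nat_lit 114726773301) (nat_lit 76) (nat_lit 82159082881) (nat_lit 76) (nat_lit 65631908689) (nat_lit 1) (nat_lit 4) (nat_lit 2) (nat_lit 5) (nat_lit 2) (nat_lit 4) (nat_lit 346) (nat_lit 230) (nat_lit 144))) (XT.nd (nat_lit 78) (nat_lit 0) (nat_lit 0) (XT.lf (nat_lit 0) (nat_lit 125604098638) (nat_lit 76) (nat_lit 83213477441) (nat_lit 76) (nat_lit 66674272623) (nat_lit 1) (nat_lit 4) (nat_lit 2) (nat_lit 5) (nat_lit 2) (nat_lit 4) (nat_lit 347) (nat_lit 230) (nat_lit 143)) (XT.lf (nat_lit 0) (nat_lit 137018299397) (nat_lit 76) (nat_lit 84323603155) (nat_lit 76) (nat_lit 67772940599) (nat_lit 1) (nat_lit 4) (nat_lit 2) (nat_lit 5) (nat_lit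 2) (nat_lit 4) (nat_lit 348) (nat_lit 230) (nat_lit 142)))) (XT.nd (nat_lit 156) (nat_lit 0) (nat_lit 0) (XT.nd (nat_lit 78) (nat_lit 0) (nat_lit 0) (XT.lf (nat_lit 0) (nat_lit 148996552247) (nat_lit 76) (nat_lit 85492103181) (nat_lit 76) (nat_lit 68930528493) (nat_lit 1) (nat_lit 4) (nat_lit 2) (nat_lit 5) (nat_lit 2) (nat_lit 4) (nat_lit 349) (nat_lit 230) (nat_lit 141)) (XT.lf (nat_lit 0) (nat_lit 161567376837) (nat_lit 76) (nat_lit 86721759661) (nat_lit 76) (nat_lit 70149792466) (nat_lit 1) (nat_lit 4) (nat_lit 2) (nat_lit 5) (nat_lit 2) (nat_lit 4) (nat_lit 350) (nat_lit 230) (nat_lit 140))) (XT.nd (nat_lit 78) (nat_lit 0) (nat_lit 0) (XT.lf (nat_lit 0) (nat_lit 174760703702) (nat_lit 76) (nat_lit 88015500350) (nat_lit 76) (nat_lit 71433635529) (nat_lit 1) (nat_lit 4) (nat_lit 2) (nat_lit 5) (nat_lit 2) (nat_lit 4) (nat_lit 351) (nat_lit 230) (nat_lit 139)) (XT.nd (nat_lit 78)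 (nat_lit 0) (nat_lit 0) (XT.lf (nat_lit 0) (nat_lit 188607945526) (nat_lit 76) (nat_lit 89376405581) (nat_lit 76) (nat_lit 72785114450) (nat_lit 1) (nat_lit 4) (nat_lit 2) (nat_lit 5) (nat_lit 2) (nat_lit 4) (nat_lit 352) (nat_lit 230) (nat_lit 138)) (XT.lf (nat_lit 0) (nat_lit 203142071931) (nat_lit 76) (nat_lit 90807715605) (nat_lit 76) (nat_lit 74207447036) (nat_lit 1) (nat_lit 4) (nat_lit 2) (nat_lit 5) (nat_lit 2) (nat_lit 4) (nat_lit 353) (nat_lit 230) (nat_lit 137))))))))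
noncomputable def xc80 : XT := (XT.nd (nat_lit 30732) (nat_lit 0) (nat_lit 912) (XT.nd (nat_lit 30108) (nat_lit 0) (nat_lit 2432) (XT.nd (nat_lit 312) (nat_lit 0) (nat_lit 0) (XT.nd (nat_lit 156) (nat_lit 0) (nat_lit 0) (XT.nd (nat_lit 78) (nat_lit 0) (nat_lit 0) (XT.lf (nat_lit 0) (nat_lit 218397687981) (nat_lit 76) (nat_lit 92312838303) (nat_lit 76) (nat_lit 75704019794) (nat_lit 1) (nat_lit 4) (nat_lit 2) (nat_lit 5) (nat_lit 2) (nat_lit 4) (nat_lit 354) (nat_lit 230) (nat_lit 136)) (XT.lf (nat_lit 0) (nat_lit 234411116570) (nat_lit 76) (nat_lit 93895357302) (nat_lit 76) (nat_lit 77278395991) (nat_lit 1) (nat_lit 4) (nat_lit 2) (nat_lit 5) (nat_lit 2) (nat_lit 4) (nat_lit 355) (nat_lit 230) (nat_lit 135))) (XT.nd (nat_lit 78) (nat_lit 0) (nat_lit 0) (XT.lf (nat_lit 0) (nat_lit 251220484910) (nat_lit 76) (nat_lit 95559040502) (nat_lit 76) (nat_lit 78934324143) (nat_lit 1) (nat_lit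 4) (nat_lit 2) (nat_lit 5) (nat_lit 2) (nat_lit 4) (nat_lit 356) (nat_lit 230) (nat_lit 134)) (XT.lf (nat_lit 0) (nat_lit 268865815306) (nat_lit 76) (nat_lit 97307849056) (nat_lit 76) (nat_lit 80675746936) (nat_lit 1) (nat_lit 4) (nat_lit 2) (nat_lit 5) (nat_lit 2) (nat_lit 4) (nat_lit 357) (nat_lit 230) (nat_lit 133)))) (XT.nd (nat_lit 156) (nat_lit 0) (nat_lit 0) (XT.nd (nat_lit 78) (nat_lit 0) (nat_lit 0) (XT.lf (nat_lit 0) (nat_lit 287389120450) (nat_lit 76) (nat_lit 99145946792) (nat_lit 76) (nat_lit 82506810614) (nat_lit 1) (nat_lit 4) (nat_lit 2) (nat_lit 5) (nat_lit 2) (nat_lit 4) (nat_lit 358) (nat_lit 230) (nat_lit 132)) (XT.lf (nat_lit 0) (nat_lit 306834503449) (nat_lit 76) (nat_lit 101077710133) (nat_lit 76) (nat_lit 84431874853) (nat_lit 1) (nat_lit 4) (nat_lit 2) (nat_lit 5) (nat_lit 2) (nat_lit 4) (nat_lit 359) (nat_lit 230) (nat_lit 131))) (XT.nd (nat_lit 29562) (nat_lit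 0) (nat_lit 4028) (XT.lf (nat_lit 0) (nat_lit 327248262835) (nat_lit 76) (nat_lit 103107738517) (nat_lit 76) (nat_lit 86455523139) (nat_lit 1) (nat_lit 4) (nat_lit 2) (nat_lit 5) (nat_lit 2) (nat_lit 4) (nat_lit 360) (nat_lit 230) (nat_lit 130)) (XT.lf (nat_lit 0) (nat_lit 1834781720) (nat_lit 684) (nat_lit 971709264) (nat_lit 684) (nat_lit 971709264) (nat_lit 54) (nat_lit 4) (nat_lit 63) (nat_lit 5) (nat_lit 63) (nat_lit 4) (nat_lit 258) (nat_lit 231) (nat_lit 231))))) (XT.nd (nat_lit 312) (nat_lit 836) (nat_lit 0) (XT.nd (nat_lit 156) (nat_lit 380) (nat_lit 0) (XT.nd (nat_lit 78) (nat_lit 0) (nat_lit 0) (XT.lf (nat_lit 0) (nat_lit 613111104) (nat_lit 304) (nat_lit 352615148) (nat_lit 380) (nat_lit 6729087834) (nat_lit 49) (nat_lit 5) (nat_lit 53) (nat_lit 5) (nat_lit 54) (nat_lit 4) (nat_lit 259) (nat_lit 231) (nat_lit 230)) (XT.lf (nat_lit 0) (nat_lit 3903910568) (nat_lit 380) (nat_lit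 2575218089) (nat_lit 0) (nat_lit 1362788740) (nat_lit 49) (nat_lit 5) (nat_lit 54) (nat_lit 4) (nat_lit 49) (nat_lit 4) (nat_lit 260) (nat_lit 231) (nat_lit 229))) (XT.nd (nat_lit 78) (nat_lit 76) (nat_lit 0) (XT.lf (nat_lit 0) (nat_lit 2066623885) (nat_lit 304) (nat_lit 4828441717) (nat_lit 304) (nat_lit 1106775486) (nat_lit 45) (nat_lit 4) (nat_lit 49) (nat_lit 5) (nat_lit 49) (nat_lit 4) (nat_lit 261) (nat_lit 231) (nat_lit 228)) (XT.lf (nat_lit 0) (nat_lit 1719804831) (nat_lit 380) (nat_lit 1320394327) (nat_lit 76) (nat_lit 5133126399) (nat_lit 44) (nat_lit 5) (nat_lit 49) (nat_lit 5) (nat_lit 45) (nat_lit 4) (nat_lit 262) (nat_lit 231) (nat_lit 227)))) (XT.nd (nat_lit 156) (nat_lit 608) (nat_lit 0) (XT.nd (nat_lit 78) (nat_lit 0) (nat_lit 0) (XT.lf (nat_lit 0) (nat_lit 3472521555) (nat_lit 228) (nat_lit 1107626914) (nat_lit 304) (nat_lit 3776510806) (nat_lit 41) (nat_lit 5) (nat_lit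 44) (nat_lit 5) (nat_lit 45) (nat_lit 4) (nat_lit 263) (nat_lit 231) (nat_lit 226)) (XT.lf (nat_lit 0) (nat_lit 7499384756) (nat_lit 304) (nat_lit 161496515) (nat_lit 0) (nat_lit 893116709) (nat_lit 41) (nat_lit 5) (nat_lit 45) (nat_lit 4) (nat_lit 41) (nat_lit 4) (nat_lit 264) (nat_lit 231) (nat_lit 225))) (XT.nd (nat_lit 78) (nat_lit 228) (nat_lit 0) (XT.lf (nat_lit 0) (nat_lit 1722182258) (nat_lit 380) (nat_lit 4000781846) (nat_lit 76) (nat_lit 3038578914) (nat_lit 36) (nat_lit 5) (nat_lit 41) (nat_lit 5) (nat_lit 37) (nat_lit 4) (nat_lit 265) (nat_lit 231) (nat_lit 224)) (XT.lf (nat_lit 0) (nat_lit 819779898) (nat_lit 228) (nat_lit 3683622923) (nat_lit 304) (nat_lit 4480692701) (nat_lit 33) (nat_lit 5) (nat_lit 36) (nat_lit 5) (nat_lit 37) (nat_lit 4) (nat_lit 266) (nat_lit 231) (nat_lit 223)))))) (XT.nd (nat_lit 624) (nat_lit 608) (nat_lit 0) (XT.nd (nat_lit 312) (nat_lit 456)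 (nat_lit 0) (XT.nd (nat_lit 156) (nat_lit 152) (nat_lit 0) (XT.nd (nat_lit 78) (nat_lit 304) (nat_lit 0) (XT.lf (nat_lit 0) (nat_lit 5878064463) (nat_lit 228) (nat_lit 1502058081) (nat_lit 304) (nat_lit 1840351209) (nat_lit 33) (nat_lit 5) (nat_lit 36) (nat_lit 5) (nat_lit 37) (nat_lit 4) (nat_lit 267) (nat_lit 231) (nat_lit 222)) (XT.lf (nat_lit 0) (nat_lit 831687685) (nat_lit 304) (nat_lit 7866683744) (nat_lit 76) (nat_lit 773568048) (nat_lit 29) (nat_lit 5) (nat_lit 33) (nat_lit 5) (nat_lit 30) (nat_lit 4) (nat_lit 268) (nat_lit 231) (nat_lit 221))) (XT.nd (nat_lit 78) (nat_lit 152) (nat_lit 0) (XT.lf (nat_lit 0) (nat_lit 3551915861) (nat_lit 304) (nat_lit 3014967838) (nat_lit 76) (nat_lit 3169213748) (nat_lit 29) (nat_lit 5) (nat_lit 33) (nat_lit 5) (nat_lit 30) (nat_lit 4) (nat_lit 269) (nat_lit 231) (nat_lit 220)) (XT.lf (nat_lit 0) (nat_lit 2007940521) (nat_lit 152) (nat_lit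 4330876911) (nat_lit 228) (nat_lit 3678540596) (nat_lit 27) (nat_lit 5) (nat_lit 29) (nat_lit 5) (nat_lit 30) (nat_lit 4) (nat_lit 270) (nat_lit 231) (nat_lit 219)))) (XT.nd (nat_lit 156) (nat_lit 152) (nat_lit 0) (XT.nd (nat_lit 78) (nat_lit 304) (nat_lit 0) (XT.lf (nat_lit 0) (nat_lit 7253195260) (nat_lit 152) (nat_lit 1964951946) (nat_lit 228) (nat_lit 1097287718) (nat_lit 27) (nat_lit 5) (nat_lit 29) (nat_lit 5) (nat_lit 30) (nat_lit 4) (nat_lit 271) (nat_lit 231) (nat_lit 218)) (XT.lf (nat_lit 0) (nat_lit 1506552707) (nat_lit 304) (nat_lit 8597352107) (nat_lit 76) (nat_lit 526363624) (nat_lit 23) (nat_lit 5) (nat_lit 27) (nat_lit 5) (nat_lit 24) (nat_lit 4) (nat_lit 272) (nat_lit 231) (nat_lit 217))) (XT.nd (nat_lit 78) (nat_lit 152) (nat_lit 0) (XT.lf (nat_lit 0) (nat_lit 4195383464) (nat_lit 304) (nat_lit 3653111098) (nat_lit 76) (nat_lit 3112217894) (nat_lit 23) (nat_lit 5)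 (nat_lit 27) (nat_lit 5) (nat_lit 24) (nat_lit 4) (nat_lit 273) (nat_lit 231) (nat_lit 216)) (XT.lf (nat_lit 0) (nat_lit 1458397061) (nat_lit 152) (nat_lit 5494220136) (nat_lit 228) (nat_lit 4358698609) (nat_lit 21) (nat_lit 5) (nat_lit 23) (nat_lit 5) (nat_lit 24) (nat_lit 4) (nat_lit 274) (nat_lit 231) (nat_lit 215))))) (XT.nd (nat_lit 312) (nat_lit 380) (nat_lit 0) (XT.nd (nat_lit 156) (nat_lit 0) (nat_lit 0) (XT.nd (nat_lit 78) (nat_lit 228) (nat_lit 0) (XT.lf (nat_lit 0) (nat_lit 6827727986) (nat_lit 152) (nat_lit 2995327522) (nat_lit 228) (nat_lit 1857945912) (nat_lit 21) (nat_lit 5) (nat_lit 23) (nat_lit 5) (nat_lit 24) (nat_lit 4) (nat_lit 275) (nat_lit 231) (nat_lit 214)) (XT.lf (nat_lit 0) (nat_lit 271333690) (nat_lit 152) (nat_lit 392121890) (nat_lit 228) (nat_lit 11409396535) (nat_lit 18) (nat_lit 5) (nat_lit 20) (nat_lit 5) (nat_lit 21) (nat_lit 5) (nat_lit 276) (nat_lit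 231) (nat_lit 213))) (XT.nd (nat_lit 78) (nat_lit 0) (nat_lit 0) (XT.lf (nat_lit 0) (nat_lit 3286073935) (nat_lit 228) (nat_lit 6851413097) (nat_lit 76) (nat_lit 2343681881) (nat_lit 18) (nat_lit 5) (nat_lit 21) (nat_lit 5) (nat_lit 19) (nat_lit 4) (nat_lit 277) (nat_lit 231) (nat_lit 212)) (XT.lf (nat_lit 0) (nat_lit 5967672977) (nat_lit 228) (nat_lit 1777882459) (nat_lit 76) (nat_lit 5168216267) (nat_lit 18) (nat_lit 5) (nat_lit 21) (nat_lit 5) (nat_lit 19) (nat_lit 4) (nat_lit 278) (nat_lit 231) (nat_lit 211)))) (XT.nd (nat_lit 156) (nat_lit 228) (nat_lit 0) (XT.nd (nat_lit 78) (nat_lit 0) (nat_lit 0) (XT.lf (nat_lit 0) (nat_lit 3550927294) (nat_lit 152) (nat_lit 5213027979) (nat_lit 228) (nat_lit 4605269329) (nat_lit 16) (nat_lit 5) (nat_lit 18) (nat_lit 5) (nat_lit 19) (nat_lit 4) (nat_lit 279) (nat_lit 231) (nat_lit 210)) (XT.lf (nat_lit 0) (nat_lit 9097659580) (nat_lit 152)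 (nat_lit 2559507238) (nat_lit 228) (nat_lit 2192665791) (nat_lit 16) (nat_lit 5) (nat_lit 18) (nat_lit 5) (nat_lit 19) (nat_lit 4) (nat_lit 280) (nat_lit 231) (nat_lit 209))) (XT.nd (nat_lit 78) (nat_lit 0) (nat_lit 0) (XT.lf (nat_lit 0) (nat_lit 269292933) (nat_lit 228) (nat_lit 13891360282) (nat_lit 76) (nat_lit 196786752) (nat_lit 13) (nat_lit 5) (nat_lit 16) (nat_lit 5) (nat_lit 14) (nat_lit 4) (nat_lit 281) (nat_lit 231) (nat_lit 208)) (XT.nd (nat_lit 78) (nat_lit 0) (nat_lit 0) (XT.lf (nat_lit 0) (nat_lit 2834693574) (nat_lit 228) (nat_lit 8964306142) (nat_lit 76) (nat_lit 3087134896) (nat_lit 13) (nat_lit 5) (nat_lit 16) (nat_lit 5) (nat_lit 14) (nat_lit 4) (nat_lit 282) (nat_lit 231) (nat_lit 207)) (XT.lf (nat_lit 0) (nat_lit 5461957671) (nat_lit 228) (nat_lit 3894621578) (nat_lit 76) (nat_lit 6088201058) (nat_lit 13) (nat_lit 5) (nat_lit 16) (nat_lit 5) (nat_lit 14) (nat_lit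 4) (nat_lit 283) (nat_lit 231) (nat_lit 206))))))))
noncomputable def xc81 : XT := (XT.nd (nat_lit 1326) (nat_lit 228) (nat_lit 0) (XT.nd (nat_lit 624) (nat_lit 228) (nat_lit 0) (XT.nd (nat_lit 312) (nat_lit 152) (nat_lit 0) (XT.nd (nat_lit 156) (nat_lit 152) (nat_lit 0) (XT.nd (nat_lit 78) (nat_lit 0) (nat_lit 0) (XT.lf (nat_lit 0) (nat_lit 1373732094) (nat_lit 76) (nat_lit 6805056327) (nat_lit 152) (nat_lit 7854846345) (nat_lit 12) (nat_lit 5) (nat_lit 13) (nat_lit 5) (nat_lit 14) (nat_lit 4) (nat_lit 284) (nat_lit 231) (nat_lit 205)) (XT.lf (nat_lit 0) (nat_lit 6943526068) (nat_lit 76) (nat_lit 4092141813) (nat_lit 152) (nat_lit 5616231474) (nat_lit 12) (nat_lit 5) (nat_lit 13) (nat_lit 5) (nat_lit 14) (nat_lit 4) (nat_lit 285) (nat_lit 231) (nat_lit 204))) (XT.nd (nat_lit 78) (nat_lit 152) (nat_lit 0) (XT.lf (nat_lit 0) (nat_lit 12699247979) (nat_lit 76) (nat_lit 1277333689) (nat_lit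 152) (nat_lit 3327605288) (nat_lit 12) (nat_lit 5) (nat_lit 13) (nat_lit 5) (nat_lit 14) (nat_lit 4) (nat_lit 286) (nat_lit 231) (nat_lit 203)) (XT.lf (nat_lit 0) (nat_lit 657908713) (nat_lit 152) (nat_lit 16386594808) (nat_lit 152) (nat_lit 945748535) (nat_lit 10) (nat_lit 4) (nat_lit 12) (nat_lit 5) (nat_lit 12) (nat_lit 4) (nat_lit 287) (nat_lit 231) (nat_lit 202)))) (XT.nd (nat_lit 156) (nat_lit 76) (nat_lit 0) (XT.nd (nat_lit 78) (nat_lit 0) (nat_lit 0) (XT.lf (nat_lit 0) (nat_lit 1549364414) (nat_lit 228) (nat_lit 12500607630) (nat_lit 76) (nat_lit 4657383587) (nat_lit 9) (nat_lit 5) (nat_lit 12) (nat_lit 5) (nat_lit 10) (nat_lit 4) (nat_lit 288) (nat_lit 231) (nat_lit 201)) (XT.lf (nat_lit 0) (nat_lit 4083863246) (nat_lit 228) (nat_lit 7529607318) (nat_lit 76) (nat_lit 7848887223) (nat_lit 9) (nat_lit 5) (nat_lit 12) (nat_lit 5) (nat_lit 10) (nat_lit 4) (nat_lit 289) (nat_lit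 231) (nat_lit 200))) (XT.nd (nat_lit 78) (nat_lit 76) (nat_lit 0) (XT.lf (nat_lit 0) (nat_lit 6694052341) (nat_lit 228) (nat_lit 2392740905) (nat_lit 76) (nat_lit 11171001188) (nat_lit 9) (nat_lit 5) (nat_lit 12) (nat_lit 5) (nat_lit 10) (nat_lit 4) (nat_lit 290) (nat_lit 231) (nat_lit 199)) (XT.lf (nat_lit 0) (nat_lit 3018844104) (nat_lit 76) (nat_lit 6414434946) (nat_lit 152) (nat_lit 11659923791) (nat_lit 8) (nat_lit 5) (nat_lit 9) (nat_lit 5) (nat_lit 10) (nat_lit 4) (nat_lit 291) (nat_lit 231) (nat_lit 198))))) (XT.nd (nat_lit 312) (nat_lit 152) (nat_lit 0) (XT.nd (nat_lit 156) (nat_lit 76) (nat_lit 0) (XT.nd (nat_lit 78) (nat_lit 0) (nat_lit 0) (XT.lf (nat_lit 0) (nat_lit 8706602446) (nat_lit 76) (nat_lit 3595887291) (nat_lit 152) (nat_lit 9668361117) (nat_lit 8) (nat_lit 5) (nat_lit 9) (nat_lit 5) (nat_lit 10) (nat_lit 4) (nat_lit 292) (nat_lit 231) (nat_lit 197)) (XT.lf (nat_lit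 0) (nat_lit 14604961580) (nat_lit 76) (nat_lit 664961679) (nat_lit 152) (nat_lit 7624834483) (nat_lit 8) (nat_lit 5) (nat_lit 9) (nat_lit 5) (nat_lit 10) (nat_lit 4) (nat_lit 293) (nat_lit 231) (nat_lit 196))) (XT.nd (nat_lit 78) (nat_lit 76) (nat_lit 0) (XT.lf (nat_lit 0) (nat_lit 18379886471) (nat_lit 152) (nat_lit 3176399598) (nat_lit 0) (nat_lit 2308975137) (nat_lit 8) (nat_lit 5) (nat_lit 10) (nat_lit 4) (nat_lit 8) (nat_lit 4) (nat_lit 294) (nat_lit 231) (nat_lit 195)) (XT.lf (nat_lit 0) (nat_lit 2182955664) (nat_lit 76) (nat_lit 19465939022) (nat_lit 76) (nat_lit 3235321750) (nat_lit 7) (nat_lit 4) (nat_lit 8) (nat_lit 5) (nat_lit 8) (nat_lit 4) (nat_lit 295) (nat_lit 231) (nat_lit 194)))) (XT.nd (nat_lit 156) (nat_lit 76) (nat_lit 0) (XT.nd (nat_lit 78) (nat_lit 76) (nat_lit 0) (XT.lf (nat_lit 0) (nat_lit 7852985494) (nat_lit 76) (nat_lit 17241643648) (nat_lit 76) (nat_lit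 858925482) (nat_lit 7) (nat_lit 4) (nat_lit 8) (nat_lit 5) (nat_lit 8) (nat_lit 4) (nat_lit 296) (nat_lit 231) (nat_lit 193)) (XT.lf (nat_lit 0) (nat_lit 1544606620) (nat_lit 152) (nat_lit 13361132587) (nat_lit 76) (nat_lit 12171398566) (nat_lit 6) (nat_lit 5) (nat_lit 8) (nat_lit 5) (nat_lit 7) (nat_lit 4) (nat_lit 297) (nat_lit 231) (nat_lit 192))) (XT.nd (nat_lit 78) (nat_lit 76) (nat_lit 0) (XT.lf (nat_lit 0) (nat_lit 4002009361) (nat_lit 152) (nat_lit 8461416962) (nat_lit 76) (nat_lit 15794727248) (nat_lit 6) (nat_lit 5) (nat_lit 8) (nat_lit 5) (nat_lit 7) (nat_lit 4) (nat_lit 298) (nat_lit 231) (nat_lit 191)) (XT.nd (nat_lit 78) (nat_lit 76) (nat_lit 0) (XT.lf (nat_lit 0) (nat_lit 6546624678) (nat_lit 152) (nat_lit 3376346033) (nat_lit 76) (nat_lit 19577113764) (nat_lit 6) (nat_lit 5) (nat_lit 8) (nat_lit 5) (nat_lit 7) (nat_lit 4) (nat_lit 299) (nat_lit 231) (nat_lit 190)) (XT.lf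 (nat_lit 0) (nat_lit 1969214680) (nat_lit 76) (nat_lit 7246041458) (nat_lit 152) (nat_lit 21589094074) (nat_lit 5) (nat_lit 5) (nat_lit 6) (nat_lit 5) (nat_lit 7) (nat_lit 4) (nat_lit 300) (nat_lit 231) (nat_lit 189))))))) (XT.nd (nat_lit 624) (nat_lit 152) (nat_lit 0) (XT.nd (nat_lit 312) (nat_lit 76) (nat_lit 0) (XT.nd (nat_lit 156) (nat_lit 0) (nat_lit 0) (XT.nd (nat_lit 78) (nat_lit 0) (nat_lit 0) (XT.lf (nat_lit 0) (nat_lit 7643397594) (nat_lit 76) (nat_lit 4397886810) (nat_lit 152) (nat_lit 20131420437) (nat_lit 5) (nat_lit 5) (nat_lit 6) (nat_lit 5) (nat_lit 7) (nat_lit 4) (nat_lit 301) (nat_lit 231) (nat_lit 188)) (XT.lf (nat_lit 0) (nat_lit 13548075417) (nat_lit 76) (nat_lit 1428905500) (nat_lit 152) (nat_lit 18634148289) (nat_lit 5) (nat_lit 5) (nat_lit 6) (nat_lit 5) (nat_lit 7) (nat_lit 4) (nat_lit 302) (nat_lit 231) (nat_lit 187))) (XT.nd (nat_lit 78) (nat_lit 0) (nat_lit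 0) (XT.lf (nat_lit 0) (nat_lit 18055377142) (nat_lit 152) (nat_lit 15451782931) (nat_lit 0) (nat_lit 1614585971) (nat_lit 5) (nat_lit 5) (nat_lit 7) (nat_lit 4) (nat_lit 5) (nat_lit 4) (nat_lit 303) (nat_lit 231) (nat_lit 186)) (XT.lf (nat_lit 0) (nat_lit 21282120029) (nat_lit 152) (nat_lit 10682832893) (nat_lit 0) (nat_lit 4743283266) (nat_lit 5) (nat_lit 5) (nat_lit 7) (nat_lit 4) (nat_lit 5) (nat_lit 4) (nat_lit 304) (nat_lit 231) (nat_lit 185)))) (XT.nd (nat_lit 156) (nat_lit 76) (nat_lit 0) (XT.nd (nat_lit 78) (nat_lit 0) (nat_lit 0) (XT.lf (nat_lit 0) (nat_lit 24642583081) (nat_lit 152) (nat_lit 5722539813) (nat_lit 0) (nat_lit 8010369563) (nat_lit 5) (nat_lit 5) (nat_lit 7) (nat_lit 4) (nat_lit 5) (nat_lit 4) (nat_lit 305) (nat_lit 231) (nat_lit 184)) (XT.lf (nat_lit 0) (nat_lit 28144767401) (nat_lit 152) (nat_lit 559093468) (nat_lit 0) (nat_lit 11423623640) (nat_lit 5) (nat_lit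 5) (nat_lit 7) (nat_lit 4) (nat_lit 5) (nat_lit 4) (nat_lit 306) (nat_lit 231) (nat_lit 183))) (XT.nd (nat_lit 78) (nat_lit 0) (nat_lit 0) (XT.lf (nat_lit 0) (nat_lit 4979164415) (nat_lit 76) (nat_lit 26895585817) (nat_lit 76) (nat_lit 10089746587) (nat_lit 4) (nat_lit 4) (nat_lit 5) (nat_lit 5) (nat_lit 5) (nat_lit 4) (nat_lit 307) (nat_lit 231) (nat_lit 182)) (XT.lf (nat_lit 0) (nat_lit 10771709638) (nat_lit 76) (nat_lit 25004478200) (nat_lit 76) (nat_lit 8117976619) (nat_lit 4) (nat_lit 4) (nat_lit 5) (nat_lit 5) (nat_lit 5) (nat_lit 4) (nat_lit 308) (nat_lit 231) (nat_lit 181))))) (XT.nd (nat_lit 312) (nat_lit 76) (nat_lit 0) (XT.nd (nat_lit 156) (nat_lit 76) (nat_lit 0) (XT.nd (nat_lit 78) (nat_lit 0) (nat_lit 0) (XT.lf (nat_lit 0) (nat_lit 16813847819) (nat_lit 76) (nat_lit 23035503900) (nat_lit 76) (nat_lit 6072181032) (nat_lit 4) (nat_lit 4) (nat_lit 5) (nat_lit 5) (nat_lit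 5) (nat_lit 4) (nat_lit 309) (nat_lit 231) (nat_lit 180)) (XT.lf (nat_lit 0) (nat_lit 23119965001) (nat_lit 76) (nat_lit 20983974884) (nat_lit 76) (nat_lit 3947488886) (nat_lit 4) (nat_lit 4) (nat_lit 5) (nat_lit 5) (nat_lit 5) (nat_lit 4) (nat_lit 310) (nat_lit 231) (nat_lit 179))) (XT.nd (nat_lit 78) (nat_lit 76) (nat_lit 0) (XT.lf (nat_lit 0) (nat_lit 29705075749) (nat_lit 76) (nat_lit 18845006558) (nat_lit 76) (nat_lit 1738841388) (nat_lit 4) (nat_lit 4) (nat_lit 5) (nat_lit 5) (nat_lit 5) (nat_lit 4) (nat_lit 311) (nat_lit 231) (nat_lit 178)) (XT.lf (nat_lit 0) (nat_lit 541128008) (nat_lit 152) (nat_lit 16063213868) (nat_lit 76) (nat_lit 36034566624) (nat_lit 3) (nat_lit 5) (nat_lit 5) (nat_lit 5) (nat_lit 4) (nat_lit 4) (nat_lit 312) (nat_lit 231) (nat_lit 177)))) (XT.nd (nat_lit 156) (nat_lit 76) (nat_lit 0) (XT.nd (nat_lit 78) (nat_lit 0) (nat_lit 0) (XT.lf (nat_lit 0) (nat_lit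 2857098241) (nat_lit 152) (nat_lit 11378675954) (nat_lit 76) (nat_lit 40870210301) (nat_lit 3) (nat_lit 5) (nat_lit 5) (nat_lit 5) (nat_lit 4) (nat_lit 4) (nat_lit 313) (nat_lit 231) (nat_lit 176)) (XT.lf (nat_lit 0) (nat_lit 5270237306) (nat_lit 152) (nat_lit 6491932358) (nat_lit 76) (nat_lit 45935213418) (nat_lit 3) (nat_lit 5) (nat_lit 5) (nat_lit 5) (nat_lit 4) (nat_lit 4) (nat_lit 314) (nat_lit 231) (nat_lit 175))) (XT.nd (nat_lit 78) (nat_lit 76) (nat_lit 0) (XT.lf (nat_lit 0) (nat_lit 7786290775) (nat_lit 152) (nat_lit 1391347974) (nat_lit 76) (nat_lit 51241635507) (nat_lit 3) (nat_lit 5) (nat_lit 5) (nat_lit 5) (nat_lit 4) (nat_lit 4) (nat_lit 315) (nat_lit 231) (nat_lit 174)) (XT.nd (nat_lit 78) (nat_lit 0) (nat_lit 0) (XT.lf (nat_lit 0) (nat_lit 4065337637) (nat_lit 76) (nat_lit 6409382926) (nat_lit 152) (nat_lit 52800244581) (nat_lit 2) (nat_lit 5) (nat_lit 3) (nat_lit 5)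 (nat_lit 4) (nat_lit 4) (nat_lit 316) (nat_lit 231) (nat_lit 173)) (XT.lf (nat_lit 0) (nat_lit 9814586261) (nat_lit 76) (nat_lit 3490009568) (nat_lit 152) (nat_lit 52968525776) (nat_lit 2) (nat_lit 5) (nat_lit 3) (nat_lit 5) (nat_lit 4) (nat_lit 4) (nat_lit 317) (nat_lit 231) (nat_lit 172))))))))
noncomputable def xc82 : XT := (XT.nd (nat_lit 1326) (nat_lit 0) (nat_lit 0) (XT.nd (nat_lit 624) (nat_lit 76) (nat_lit 0) (XT.nd (nat_lit 312) (nat_lit 0) (nat_lit 0) (XT.nd (nat_lit 156) (nat_lit 0) (nat_lit 0) (XT.nd (nat_lit 78) (nat_lit 0) (nat_lit 0) (XT.lf (nat_lit 0) (nat_lit 15824082336) (nat_lit 76) (nat_lit 436130938) (nat_lit 152) (nat_lit 53161790887) (nat_lit 2) (nat_lit 5) (nat_lit 3) (nat_lit 5) (nat_lit 4) (nat_lit 4) (nat_lit 318) (nat_lit 231) (nat_lit 171)) (XT.lf (nat_lit 0) (nat_lit 19391693987) (nat_lit 152) (nat_lit 50664059869) (nat_lit 0) (nat_lit 2671202099) (nat_lit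 2) (nat_lit 5) (nat_lit 4) (nat_lit 4) (nat_lit 2) (nat_lit 4) (nat_lit 319) (nat_lit 231) (nat_lit 170))) (XT.nd (nat_lit 78) (nat_lit 0) (nat_lit 0) (XT.lf (nat_lit 0) (nat_lit 22672448935) (nat_lit 152) (nat_lit 47615919152) (nat_lit 0) (nat_lit 5909180080) (nat_lit 2) (nat_lit 5) (nat_lit 4) (nat_lit 4) (nat_lit 2) (nat_lit 4) (nat_lit 320) (nat_lit 231) (nat_lit 169)) (XT.lf (nat_lit 0) (nat_lit 26103480214) (nat_lit 152) (nat_lit 44439432970) (nat_lit 0) (nat_lit 9299471390) (nat_lit 2) (nat_lit 5) (nat_lit 4) (nat_lit 4) (nat_lit 2) (nat_lit 4) (nat_lit 321) (nat_lit 231) (nat_lit 168)))) (XT.nd (nat_lit 156) (nat_lit 0) (nat_lit 0) (XT.nd (nat_lit 78) (nat_lit 0) (nat_lit 0) (XT.lf (nat_lit 0) (nat_lit 29692956946) (nat_lit 152) (nat_lit 41127038261) (nat_lit 0) (nat_lit 12850148152) (nat_lit 2) (nat_lit 5) (nat_lit 4) (nat_lit 4) (nat_lit 2) (nat_lit 4) (nat_lit 322) (nat_lit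 231) (nat_lit 167)) (XT.lf (nat_lit 0) (nat_lit 33449425504) (nat_lit 152) (nat_lit 37670848371) (nat_lit 0) (nat_lit 16569664357) (nat_lit 2) (nat_lit 5) (nat_lit 4) (nat_lit 4) (nat_lit 2) (nat_lit 4) (nat_lit 323) (nat_lit 231) (nat_lit 166))) (XT.nd (nat_lit 78) (nat_lit 0) (nat_lit 0) (XT.lf (nat_lit 0) (nat_lit 37381829860) (nat_lit 152) (nat_lit 34062634276) (nat_lit 0) (nat_lit 20466875997) (nat_lit 2) (nat_lit 5) (nat_lit 4) (nat_lit 4) (nat_lit 2) (nat_lit 4) (nat_lit 324) (nat_lit 231) (nat_lit 165)) (XT.lf (nat_lit 0) (nat_lit 41499532882) (nat_lit 152) (nat_lit 30293804990) (nat_lit 0) (nat_lit 24551062146) (nat_lit 2) (nat_lit 5) (nat_lit 4) (nat_lit 4) (nat_lit 2) (nat_lit 4) (nat_lit 325) (nat_lit 231) (nat_lit 164))))) (XT.nd (nat_lit 312) (nat_lit 76) (nat_lit 0) (XT.nd (nat_lit 156) (nat_lit 0) (nat_lit 0) (XT.nd (nat_lit 78) (nat_lit 0) (nat_lit 0) (XT.lf (nat_lit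 0) (nat_lit 45812338626) (nat_lit 152) (nat_lit 26355387110) (nat_lit 0) (nat_lit 28831947058) (nat_lit 2) (nat_lit 5) (nat_lit 4) (nat_lit 4) (nat_lit 2) (nat_lit 4) (nat_lit 326) (nat_lit 231) (nat_lit 163)) (XT.lf (nat_lit 0) (nat_lit 50330515676) (nat_lit 152) (nat_lit 22238003450) (nat_lit 0) (nat_lit 33319723316) (nat_lit 2) (nat_lit 5) (nat_lit 4) (nat_lit 4) (nat_lit 2) (nat_lit 4) (nat_lit 327) (nat_lit 231) (nat_lit 162))) (XT.nd (nat_lit 78) (nat_lit 0) (nat_lit 0) (XT.lf (nat_lit 0) (nat_lit 55064821596) (nat_lit 152) (nat_lit 17931850717) (nat_lit 0) (nat_lit 38025076101) (nat_lit 2) (nat_lit 5) (nat_lit 4) (nat_lit 4) (nat_lit 2) (nat_lit 4) (nat_lit 328) (nat_lit 231) (nat_lit 161)) (XT.lf (nat_lit 0) (nat_lit 60026528544) (nat_lit 152) (nat_lit 13426676165) (nat_lit 0) (nat_lit 42959208634) (nat_lit 2) (nat_lit 5) (nat_lit 4) (nat_lit 4) (nat_lit 2) (nat_lit 4) (nat_lit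 329) (nat_lit 231) (nat_lit 160)))) (XT.nd (nat_lit 156) (nat_lit 76) (nat_lit 0) (XT.nd (nat_lit 78) (nat_lit 0) (nat_lit 0) (XT.lf (nat_lit 0) (nat_lit 65227450107) (nat_lit 152) (nat_lit 8711753189) (nat_lit 0) (nat_lit 48133868850) (nat_lit 2) (nat_lit 5) (nat_lit 4) (nat_lit 4) (nat_lit 2) (nat_lit 4) (nat_lit 330) (nat_lit 231) (nat_lit 159)) (XT.lf (nat_lit 0) (nat_lit 70679969432) (nat_lit 152) (nat_lit 3775855782) (nat_lit 0) (nat_lit 53561377369) (nat_lit 2) (nat_lit 5) (nat_lit 4) (nat_lit 4) (nat_lit 2) (nat_lit 4) (nat_lit 331) (nat_lit 231) (nat_lit 158))) (XT.nd (nat_lit 78) (nat_lit 0) (nat_lit 0) (XT.lf (nat_lit 0) (nat_lit 1438819399) (nat_lit 76) (nat_lit 74980713311) (nat_lit 76) (nat_lit 57838301432) (nat_lit 1) (nat_lit 4) (nat_lit 2) (nat_lit 5) (nat_lit 2) (nat_lit 4) (nat_lit 332) (nat_lit 231) (nat_lit 157)) (XT.nd (nat_lit 78) (nat_lit 0) (nat_lit 0) (XT.lf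 (nat_lit 0) (nat_lit 7031476133) (nat_lit 76) (nat_lit 75470664990) (nat_lit 76) (nat_lit 58305567572) (nat_lit 1) (nat_lit 4) (nat_lit 2) (nat_lit 5) (nat_lit 2) (nat_lit 4) (nat_lit 333) (nat_lit 231) (nat_lit 156)) (XT.lf (nat_lit 0) (nat_lit 12890583424) (nat_lit 76) (nat_lit 75990792748) (nat_lit 76) (nat_lit 58804090055) (nat_lit 1) (nat_lit 4) (nat_lit 2) (nat_lit 5) (nat_lit 2) (nat_lit 4) (nat_lit 334) (nat_lit 231) (nat_lit 155))))))) (XT.nd (nat_lit 624) (nat_lit 0) (nat_lit 0) (XT.nd (nat_lit 312) (nat_lit 0) (nat_lit 0) (XT.nd (nat_lit 156) (nat_lit 0) (nat_lit 0) (XT.nd (nat_lit 78) (nat_lit 0) (nat_lit 0) (XT.lf (nat_lit 0) (nat_lit 19030091527) (nat_lit 76) (nat_lit 76542334984) (nat_lit 76) (nat_lit 59335055838) (nat_lit 1) (nat_lit 4) (nat_lit 2) (nat_lit 5) (nat_lit 2) (nat_lit 4) (nat_lit 335) (nat_lit 231) (nat_lit 154)) (XT.lf (nat_lit 0) (nat_lit 25464618318)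 (nat_lit 76) (nat_lit 77126604893) (nat_lit 76) (nat_lit 59899729126) (nat_lit 1) (nat_lit 4) (nat_lit 2) (nat_lit 5) (nat_lit 2) (nat_lit 4) (nat_lit 336) (nat_lit 231) (nat_lit 153))) (XT.nd (nat_lit 78) (nat_lit 0) (nat_lit 0) (XT.lf (nat_lit 0) (nat_lit 32209484099) (nat_lit 76) (nat_lit 77744993595) (nat_lit 76) (nat_lit 60499454379) (nat_lit 1) (nat_lit 4) (nat_lit 2) (nat_lit 5) (nat_lit 2) (nat_lit 4) (nat_lit 337) (nat_lit 231) (nat_lit 152)) (XT.lf (nat_lit 0) (nat_lit 39280748076) (nat_lit 76) (nat_lit 78398973444) (nat_lit 76) (nat_lit 61135659514) (nat_lit 1) (nat_lit 4) (nat_lit 2) (nat_lit 5) (nat_lit 2) (nat_lit 4) (nat_lit 338) (nat_lit 231) (nat_lit 151)))) (XT.nd (nat_lit 156) (nat_lit 0) (nat_lit 0) (XT.nd (nat_lit 78) (nat_lit 0) (nat_lit 0) (XT.lf (nat_lit 0) (nat_lit 46695246589) (nat_lit 76) (nat_lit 79090101534) (nat_lit 76) (nat_lit 61809859306) (nat_lit 1)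 (nat_lit 4) (nat_lit 2) (nat_lit 5) (nat_lit 2) (nat_lit 4) (nat_lit 339) (nat_lit 231) (nat_lit 150)) (XT.lf (nat_lit 0) (nat_lit 54470633208) (nat_lit 76) (nat_lit 79820023409) (nat_lit 76) (nat_lit 62523658992) (nat_lit 1) (nat_lit 4) (nat_lit 2) (nat_lit 5) (nat_lit 2) (nat_lit 4) (nat_lit 340) (nat_lit 231) (nat_lit 149))) (XT.nd (nat_lit 78) (nat_lit 0) (nat_lit 0) (XT.lf (nat_lit 0) (nat_lit 62625420758) (nat_lit 76) (nat_lit 80590476978) (nat_lit 76) (nat_lit 63278758095) (nat_lit 1) (nat_lit 4) (nat_lit 2) (nat_lit 5) (nat_lit 2) (nat_lit 4) (nat_lit 341) (nat_lit 231) (nat_lit 148)) (XT.lf (nat_lit 0) (nat_lit 71179025399) (nat_lit 76) (nat_lit 81403296654) (nat_lit 76) (nat_lit 64076954470) (nat_lit 1) (nat_lit 4) (nat_lit 2) (nat_lit 5) (nat_lit 2) (nat_lit 4) (nat_lit 342) (nat_lit 231) (nat_lit 147))))) (XT.nd (nat_lit 312) (nat_lit 0) (nat_lit 0) (XT.nd (nat_lit 156)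 (nat_lit 0) (nat_lit 0) (XT.nd (nat_lit 78) (nat_lit 0) (nat_lit 0) (XT.lf (nat_lit 0) (nat_lit 80151812857) (nat_lit 76) (nat_lit 82260417722) (nat_lit 76) (nat_lit 64920148585) (nat_lit 1) (nat_lit 4) (nat_lit 2) (nat_lit 5) (nat_lit 2) (nat_lit 4) (nat_lit 343) (nat_lit 231) (nat_lit 146)) (XT.lf (nat_lit 0) (nat_lit 89565146911) (nat_lit 76) (nat_lit 83163880946) (nat_lit 76) (nat_lit 65810348045) (nat_lit 1) (nat_lit 4) (nat_lit 2) (nat_lit 5) (nat_lit 2) (nat_lit 4) (nat_lit 344) (nat_lit 231) (nat_lit 145))) (XT.nd (nat_lit 78) (nat_lit 0) (nat_lit 0) (XT.lf (nat_lit 0) (nat_lit 99441440262) (nat_lit 76) (nat_lit 84115837430) (nat_lit 76) (nat_lit 66749672372) (nat_lit 1) (nat_lit 4) (nat_lit 2) (nat_lit 5) (nat_lit 2) (nat_lit 4) (nat_lit 345) (nat_lit 231) (nat_lit 144)) (XT.lf (nat_lit 0) (nat_lit 109804207894) (nat_lit 76) (nat_lit 85118553736) (nat_lit 76) (nat_lit 67740358052)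 (nat_lit 1) (nat_lit 4) (nat_lit 2) (nat_lit 5) (nat_lit 2) (nat_lit 4) (nat_lit 346) (nat_lit 231) (nat_lit 143)))) (XT.nd (nat_lit 156) (nat_lit 0) (nat_lit 0) (XT.nd (nat_lit 78) (nat_lit 0) (nat_lit 0) (XT.lf (nat_lit 0) (nat_lit 120678123063) (nat_lit 76) (nat_lit 86174417285) (nat_lit 76) (nat_lit 68784763862) (nat_lit 1) (nat_lit 4) (nat_lit 2) (nat_lit 5) (nat_lit 2) (nat_lit 4) (nat_lit 347) (nat_lit 231) (nat_lit 142)) (XT.lf (nat_lit 0) (nat_lit 132089076043) (nat_lit 76) (nat_lit 87285942036) (nat_lit 76) (nat_lit 69885376481) (nat_lit 1) (nat_lit 4) (nat_lit 2) (nat_lit 5) (nat_lit 2) (nat_lit 4) (nat_lit 348) (nat_lit 231) (nat_lit 141))) (XT.nd (nat_lit 78) (nat_lit 0) (nat_lit 0) (XT.lf (nat_lit 0) (nat_lit 144064235770) (nat_lit 76) (nat_lit 88455774478) (nat_lit 76) (nat_lit 71044816417) (nat_lit 1) (nat_lit 4) (nat_lit 2) (nat_lit 5) (nat_lit 2) (nat_lit 4) (nat_lit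 349) (nat_lit 231) (nat_lit 140)) (XT.nd (nat_lit 78) (nat_lit 0) (nat_lit 0) (XT.lf (nat_lit 0) (nat_lit 156632114529) (nat_lit 76) (nat_lit 89686699926) (nat_lit 76) (nat_lit 72265844239) (nat_lit 1) (nat_lit 4) (nat_lit 2) (nat_lit 5) (nat_lit 2) (nat_lit 4) (nat_lit 350) (nat_lit 231) (nat_lit 139)) (XT.lf (nat_lit 0) (nat_lit 169822635841) (nat_lit 76) (nat_lit 90981649155) (nat_lit 76) (nat_lit 73551367158) (nat_lit 1) (nat_lit 4) (nat_lit 2) (nat_lit 5) (nat_lit 2) (nat_lit 4) (nat_lit 351) (nat_lit 231) (nat_lit 138))))))))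
noncomputable def xc83 : XT := (XT.nd (nat_lit 30654) (nat_lit 0) (nat_lit 1140) (XT.nd (nat_lit 624) (nat_lit 0) (nat_lit 0) (XT.nd (nat_lit 312) (nat_lit 0) (nat_lit 0) (XT.nd (nat_lit 156) (nat_lit 0) (nat_lit 0) (XT.nd (nat_lit 78) (nat_lit 0) (nat_lit 0) (XT.lf (nat_lit 0) (nat_lit 183667205708) (nat_lit 76) (nat_lit 92343705377) (nat_lit 76) (nat_lit 74904445942) (nat_lit 1) (nat_lit 4) (nat_lit 2) (nat_lit 5) (nat_lit 2) (nat_lit 4) (nat_lit 352) (nat_lit 231) (nat_lit 137)) (XT.lf (nat_lit 0) (nat_lit 198198787394) (nat_lit 76) (nat_lit 93776111583) (nat_lit 76) (nat_lit 76328302207) (nat_lit 1) (nat_lit 4) (nat_lit 2) (nat_lit 5) (nat_lit 2) (nat_lit 4) (nat_lit 353) (nat_lit 231) (nat_lit 136))) (XT.nd (nat_lit 78) (nat_lit 0) (nat_lit 0) (XT.lf (nat_lit 0) (nat_lit 213451979900) (nat_lit 76) (nat_lit 95282278265) (nat_lit 76) (nat_lit 77826326088) (nat_lit 1) (nat_lit 4)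 (nat_lit 2) (nat_lit 5) (nat_lit 2) (nat_lit 4) (nat_lit 354) (nat_lit 231) (nat_lit 135)) (XT.lf (nat_lit 0) (nat_lit 229463100354) (nat_lit 76) (nat_lit 96865791533) (nat_lit 76) (nat_lit 79402084307) (nat_lit 1) (nat_lit 4) (nat_lit 2) (nat_lit 5) (nat_lit 2) (nat_lit 4) (nat_lit 355) (nat_lit 231) (nat_lit 134)))) (XT.nd (nat_lit 156) (nat_lit 0) (nat_lit 0) (XT.nd (nat_lit 78) (nat_lit 0) (nat_lit 0) (XT.lf (nat_lit 0) (nat_lit 246270270469) (nat_lit 76) (nat_lit 98530421656) (nat_lit 76) (nat_lit 81059328670) (nat_lit 1) (nat_lit 4) (nat_lit 2) (nat_lit 5) (nat_lit 2) (nat_lit 4) (nat_lit 356) (nat_lit 231) (nat_lit 133)) (XT.lf (nat_lit 0) (nat_lit 263913507318) (nat_lit 76) (nat_lit 100280132041) (nat_lit 76) (nat_lit 82802004997) (nat_lit 1) (nat_lit 4) (nat_lit 2) (nat_lit 5) (nat_lit 2) (nat_lit 4) (nat_lit 357) (nat_lit 231) (nat_lit 132))) (XT.nd (nat_lit 78) (nat_lit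 0) (nat_lit 0) (XT.lf (nat_lit 0) (nat_lit 282434818607) (nat_lit 76) (nat_lit 102119088665) (nat_lit 76) (nat_lit 84634262518) (nat_lit 1) (nat_lit 4) (nat_lit 2) (nat_lit 5) (nat_lit 2) (nat_lit 4) (nat_lit 358) (nat_lit 231) (nat_lit 131)) (XT.lf (nat_lit 0) (nat_lit 301878302697) (nat_lit 76) (nat_lit 104051669994) (nat_lit 76) (nat_lit 86560463750) (nat_lit 1) (nat_lit 4) (nat_lit 2) (nat_lit 5) (nat_lit 2) (nat_lit 4) (nat_lit 359) (nat_lit 231) (nat_lit 130))))) (XT.nd (nat_lit 29640) (nat_lit 0) (nat_lit 3040) (XT.nd (nat_lit 29484) (nat_lit 0) (nat_lit 4028) (XT.nd (nat_lit 29406) (nat_lit 0) (nat_lit 4712) (XT.lf (nat_lit 0) (nat_lit 322290253597) (nat_lit 76) (nat_lit 106082477414) (nat_lit 76) (nat_lit 88585194886) (nat_lit 1) (nat_lit 4) (nat_lit 2) (nat_lit 5) (nat_lit 2) (nat_lit 4) (nat_lit 360) (nat_lit 231) (nat_lit 129)) (XT.lf (nat_lit 0) (nat_lit 546363974) (nat_lit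 684) (nat_lit 2562801446) (nat_lit 0) (nat_lit 546363974) (nat_lit 63) (nat_lit 5) (nat_lit 72) (nat_lit 4) (nat_lit 63) (nat_lit 4) (nat_lit 256) (nat_lit 232) (nat_lit 232))) (XT.nd (nat_lit 78) (nat_lit 684) (nat_lit 0) (XT.lf (nat_lit 0) (nat_lit 4004093292) (nat_lit 684) (nat_lit 856968807) (nat_lit 0) (nat_lit 2569134192) (nat_lit 63) (nat_lit 5) (nat_lit 72) (nat_lit 4) (nat_lit 63) (nat_lit 4) (nat_lit 257) (nat_lit 232) (nat_lit 231)) (XT.lf (nat_lit 0) (nat_lit 3597758090) (nat_lit 684) (nat_lit 3382035231) (nat_lit 684) (nat_lit 580448416) (nat_lit 54) (nat_lit 4) (nat_lit 63) (nat_lit 5) (nat_lit 63) (nat_lit 4) (nat_lit 258) (nat_lit 232) (nat_lit 230)))) (XT.nd (nat_lit 156) (nat_lit 608) (nat_lit 0) (XT.nd (nat_lit 78) (nat_lit 0) (nat_lit 0) (XT.lf (nat_lit 0) (nat_lit 439659248) (nat_lit 304) (nat_lit 1776338930) (nat_lit 380) (nat_lit 5485440402) (nat_lit 49) (nat_lit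 5) (nat_lit 53) (nat_lit 5) (nat_lit 54) (nat_lit 4) (nat_lit 259) (nat_lit 232) (nat_lit 229)) (XT.lf (nat_lit 0) (nat_lit 5046497739) (nat_lit 304) (nat_lit 21407812) (nat_lit 380) (nat_lit 2785324963) (nat_lit 49) (nat_lit 5) (nat_lit 53) (nat_lit 5) (nat_lit 54) (nat_lit 4) (nat_lit 260) (nat_lit 232) (nat_lit 228))) (XT.nd (nat_lit 78) (nat_lit 304) (nat_lit 0) (XT.lf (nat_lit 0) (nat_lit 1755649926) (nat_lit 304) (nat_lit 6236904239) (nat_lit 304) (nat_lit 24282291) (nat_lit 45) (nat_lit 4) (nat_lit 49) (nat_lit 5) (nat_lit 49) (nat_lit 4) (nat_lit 261) (nat_lit 232) (nat_lit 227)) (XT.nd (nat_lit 78) (nat_lit 228) (nat_lit 0) (XT.lf (nat_lit 0) (nat_lit 2706877544) (nat_lit 380) (nat_lit 1734311554) (nat_lit 76) (nat_lit 3749649232) (nat_lit 44) (nat_lit 5) (nat_lit 49) (nat_lit 5) (nat_lit 45) (nat_lit 4) (nat_lit 262) (nat_lit 232) (nat_lit 226)) (XT.lf (nat_lit 0) (nat_lit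 2975017129) (nat_lit 228) (nat_lit 2526556671) (nat_lit 304) (nat_lit 2876188946) (nat_lit 41) (nat_lit 5) (nat_lit 44) (nat_lit 5) (nat_lit 45) (nat_lit 4) (nat_lit 263) (nat_lit 232) (nat_lit 225))))))) (XT.nd (nat_lit 624) (nat_lit 836) (nat_lit 0) (XT.nd (nat_lit 312) (nat_lit 456) (nat_lit 0) (XT.nd (nat_lit 156) (nat_lit 228) (nat_lit 0) (XT.nd (nat_lit 78) (nat_lit 380) (nat_lit 0) (XT.lf (nat_lit 0) (nat_lit 7843549807) (nat_lit 228) (nat_lit 506692032) (nat_lit 304) (nat_lit 228681671) (nat_lit 41) (nat_lit 5) (nat_lit 44) (nat_lit 5) (nat_lit 45) (nat_lit 4) (nat_lit 264) (nat_lit 232) (nat_lit 224)) (XT.lf (nat_lit 0) (nat_lit 2448481263) (nat_lit 380) (nat_lit 4694359500) (nat_lit 76) (nat_lit 1646909256) (nat_lit 36) (nat_lit 5) (nat_lit 41) (nat_lit 5) (nat_lit 37) (nat_lit 4) (nat_lit 265) (nat_lit 232) (nat_lit 223))) (XT.nd (nat_lit 78) (nat_lit 0) (nat_lit 0) (XT.lf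 (nat_lit 0) (nat_lit 33901933) (nat_lit 228) (nat_lit 5130312159) (nat_lit 304) (nat_lit 3851616480) (nat_lit 33) (nat_lit 5) (nat_lit 36) (nat_lit 5) (nat_lit 37) (nat_lit 4) (nat_lit 266) (nat_lit 232) (nat_lit 222)) (XT.lf (nat_lit 0) (nat_lit 5026122210) (nat_lit 228) (nat_lit 2963096369) (nat_lit 304) (nat_lit 1265817569) (nat_lit 33) (nat_lit 5) (nat_lit 36) (nat_lit 5) (nat_lit 37) (nat_lit 4) (nat_lit 267) (nat_lit 232) (nat_lit 221)))) (XT.nd (nat_lit 156) (nat_lit 152) (nat_lit 0) (XT.nd (nat_lit 78) (nat_lit 0) (nat_lit 0) (XT.lf (nat_lit 0) (nat_lit 626330665) (nat_lit 228) (nat_lit 683254045) (nat_lit 304) (nat_lit 8200600180) (nat_lit 29) (nat_lit 5) (nat_lit 32) (nat_lit 5) (nat_lit 33) (nat_lit 5) (nat_lit 268) (nat_lit 232) (nat_lit 220)) (XT.lf (nat_lit 0) (nat_lit 3970029478) (nat_lit 304) (nat_lit 4087646408) (nat_lit 76) (nat_lit 1719864834) (nat_lit 29) (nat_lit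 5) (nat_lit 33) (nat_lit 5) (nat_lit 30) (nat_lit 4) (nat_lit 269) (nat_lit 232) (nat_lit 219))) (XT.nd (nat_lit 78) (nat_lit 0) (nat_lit 0) (XT.lf (nat_lit 0) (nat_lit 834686102) (nat_lit 152) (nat_lit 5857150111) (nat_lit 228) (nat_lit 3370418582) (nat_lit 27) (nat_lit 5) (nat_lit 29) (nat_lit 5) (nat_lit 30) (nat_lit 4) (nat_lit 270) (nat_lit 232) (nat_lit 218)) (XT.lf (nat_lit 0) (nat_lit 6017932983) (nat_lit 152) (nat_lit 3507715320) (nat_lit 228) (nat_lit 837148560) (nat_lit 27) (nat_lit 5) (nat_lit 29) (nat_lit 5) (nat_lit 30) (nat_lit 4) (nat_lit 271) (nat_lit 232) (nat_lit 217))))) (XT.nd (nat_lit 312) (nat_lit 380) (nat_lit 0) (XT.nd (nat_lit 156) (nat_lit 152) (nat_lit 0) (XT.nd (nat_lit 78) (nat_lit 0) (nat_lit 0) (XT.lf (nat_lit 0) (nat_lit 649905120) (nat_lit 228) (nat_lit 1034003737) (nat_lit 304) (nat_lit 8997412981) (nat_lit 23) (nat_lit 5) (nat_lit 26) (nat_lit 5)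 (nat_lit 27) (nat_lit 5) (nat_lit 272) (nat_lit 232) (nat_lit 216)) (XT.lf (nat_lit 0) (nat_lit 4313274832) (nat_lit 304) (nat_lit 5132799191) (nat_lit 76) (nat_lit 1568828586) (nat_lit 23) (nat_lit 5) (nat_lit 27) (nat_lit 5) (nat_lit 24) (nat_lit 4) (nat_lit 273) (nat_lit 232) (nat_lit 215))) (XT.nd (nat_lit 78) (nat_lit 152) (nat_lit 0) (XT.lf (nat_lit 0) (nat_lit 7006480722) (nat_lit 304) (nat_lit 126794728) (nat_lit 76) (nat_lit 4235587627) (nat_lit 23) (nat_lit 5) (nat_lit 27) (nat_lit 5) (nat_lit 24) (nat_lit 4) (nat_lit 274) (nat_lit 232) (nat_lit 214)) (XT.lf (nat_lit 0) (nat_lit 5180466711) (nat_lit 152) (nat_lit 4654210119) (nat_lit 228) (nat_lit 1906132281) (nat_lit 21) (nat_lit 5) (nat_lit 23) (nat_lit 5) (nat_lit 24) (nat_lit 4) (nat_lit 275) (nat_lit 232) (nat_lit 213)))) (XT.nd (nat_lit 156) (nat_lit 152) (nat_lit 0) (XT.nd (nat_lit 78) (nat_lit 152) (nat_lit 0) (XT.lf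 (nat_lit 0) (nat_lit 573527901) (nat_lit 228) (nat_lit 1500213954) (nat_lit 76) (nat_lit 10061254270) (nat_lit 20) (nat_lit 5) (nat_lit 23) (nat_lit 5) (nat_lit 21) (nat_lit 5) (nat_lit 276) (nat_lit 232) (nat_lit 212)) (XT.lf (nat_lit 0) (nat_lit 3106966829) (nat_lit 228) (nat_lit 8766658066) (nat_lit 76) (nat_lit 674275117) (nat_lit 18) (nat_lit 5) (nat_lit 21) (nat_lit 5) (nat_lit 19) (nat_lit 4) (nat_lit 277) (nat_lit 232) (nat_lit 211))) (XT.nd (nat_lit 78) (nat_lit 152) (nat_lit 0) (XT.lf (nat_lit 0) (nat_lit 5752060201) (nat_lit 228) (nat_lit 3747785607) (nat_lit 76) (nat_lit 3482604295) (nat_lit 18) (nat_lit 5) (nat_lit 21) (nat_lit 5) (nat_lit 19) (nat_lit 4) (nat_lit 278) (nat_lit 232) (nat_lit 210)) (XT.nd (nat_lit 78) (nat_lit 0) (nat_lit 0) (XT.lf (nat_lit 0) (nat_lit 1462113657) (nat_lit 152) (nat_lit 7018849298) (nat_lit 228) (nat_lit 4960425228) (nat_lit 16) (nat_lit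 5) (nat_lit 18) (nat_lit 5) (nat_lit 19) (nat_lit 4) (nat_lit 279) (nat_lit 232) (nat_lit 209)) (XT.lf (nat_lit 0) (nat_lit 6957630139) (nat_lit 152) (nat_lit 4382633020) (nat_lit 228) (nat_lit 2583539272) (nat_lit 16) (nat_lit 5) (nat_lit 18) (nat_lit 5) (nat_lit 19) (nat_lit 4) (nat_lit 280) (nat_lit 232) (nat_lit 208))))))))
noncomputable def xc84 : XT := (XT.nd (nat_lit 1248) (nat_lit 304) (nat_lit 0) (XT.nd (nat_lit 624) (nat_lit 152) (nat_lit 0) (XT.nd (nat_lit 312) (nat_lit 304) (nat_lit 0) (XT.nd (nat_lit 156) (nat_lit 0) (nat_lit 0) (XT.nd (nat_lit 78) (nat_lit 228) (nat_lit 0) (XT.lf (nat_lit 0) (nat_lit 12627929683) (nat_lit 152) (nat_lit 1648390831) (nat_lit 228) (nat_lit 157543344) (nat_lit 16) (nat_lit 5) (nat_lit 18) (nat_lit 5) (nat_lit 19) (nat_lit 4) (nat_lit 281) (nat_lit 232) (nat_lit 207)) (XT.lf (nat_lit 0) (nat_lit 2325164736) (nat_lit 228) (nat_lit 11395835668)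 (nat_lit 76) (nat_lit 1246163435) (nat_lit 13) (nat_lit 5) (nat_lit 16) (nat_lit 5) (nat_lit 14) (nat_lit 4) (nat_lit 282) (nat_lit 232) (nat_lit 206))) (XT.nd (nat_lit 78) (nat_lit 0) (nat_lit 0) (XT.lf (nat_lit 0) (nat_lit 4921577926) (nat_lit 228) (nat_lit 6374337995) (nat_lit 76) (nat_lit 4231527208) (nat_lit 13) (nat_lit 5) (nat_lit 16) (nat_lit 5) (nat_lit 14) (nat_lit 4) (nat_lit 283) (nat_lit 232) (nat_lit 205)) (XT.lf (nat_lit 0) (nat_lit 7587579053) (nat_lit 228) (nat_lit 1195844605) (nat_lit 76) (nat_lit 7335502127) (nat_lit 13) (nat_lit 5) (nat_lit 16) (nat_lit 5) (nat_lit 14) (nat_lit 4) (nat_lit 284) (nat_lit 232) (nat_lit 204)))) (XT.nd (nat_lit 156) (nat_lit 228) (nat_lit 0) (XT.nd (nat_lit 78) (nat_lit 0) (nat_lit 0) (XT.lf (nat_lit 0) (nat_lit 4289257266) (nat_lit 76) (nat_lit 6107225798) (nat_lit 152) (nat_lit 6343188667) (nat_lit 12) (nat_lit 5) (nat_lit 13) (nat_lit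 5) (nat_lit 14) (nat_lit 4) (nat_lit 285) (nat_lit 232) (nat_lit 203)) (XT.lf (nat_lit 0) (nat_lit 10001977197) (nat_lit 76) (nat_lit 3308098098) (nat_lit 152) (nat_lit 4083328767) (nat_lit 12) (nat_lit 5) (nat_lit 13) (nat_lit 5) (nat_lit 14) (nat_lit 4) (nat_lit 286) (nat_lit 232) (nat_lit 202))) (XT.nd (nat_lit 78) (nat_lit 228) (nat_lit 0) (XT.lf (nat_lit 0) (nat_lit 15916376879) (nat_lit 76) (nat_lit 399628178) (nat_lit 152) (nat_lit 1766638618) (nat_lit 12) (nat_lit 5) (nat_lit 13) (nat_lit 5) (nat_lit 14) (nat_lit 4) (nat_lit 287) (nat_lit 232) (nat_lit 201)) (XT.lf (nat_lit 0) (nat_lit 686856340) (nat_lit 228) (nat_lit 15513270117) (nat_lit 76) (nat_lit 2603724136) (nat_lit 9) (nat_lit 5) (nat_lit 12) (nat_lit 5) (nat_lit 10) (nat_lit 4) (nat_lit 288) (nat_lit 232) (nat_lit 200))))) (XT.nd (nat_lit 312) (nat_lit 76) (nat_lit 0) (XT.nd (nat_lit 156) (nat_lit 76) (nat_lit 0)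 (XT.nd (nat_lit 78) (nat_lit 0) (nat_lit 0) (XT.lf (nat_lit 0) (nat_lit 3196460207) (nat_lit 228) (nat_lit 10582603422) (nat_lit 76) (nat_lit 5781098576) (nat_lit 9) (nat_lit 5) (nat_lit 12) (nat_lit 5) (nat_lit 10) (nat_lit 4) (nat_lit 289) (nat_lit 232) (nat_lit 199)) (XT.lf (nat_lit 0) (nat_lit 5782939811) (nat_lit 228) (nat_lit 5484149979) (nat_lit 76) (nat_lit 9089756164) (nat_lit 9) (nat_lit 5) (nat_lit 12) (nat_lit 5) (nat_lit 10) (nat_lit 4) (nat_lit 290) (nat_lit 232) (nat_lit 198))) (XT.nd (nat_lit 78) (nat_lit 76) (nat_lit 0) (XT.lf (nat_lit 0) (nat_lit 8452453436) (nat_lit 228) (nat_lit 205770613) (nat_lit 76) (nat_lit 12537574657) (nat_lit 9) (nat_lit 5) (nat_lit 12) (nat_lit 5) (nat_lit 10) (nat_lit 4) (nat_lit 291) (nat_lit 232) (nat_lit 197)) (XT.lf (nat_lit 0) (nat_lit 5439190303) (nat_lit 76) (nat_lit 5857087769) (nat_lit 152) (nat_lit 10778493848) (nat_lit 8) (nat_lit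 5) (nat_lit 9) (nat_lit 5) (nat_lit 10) (nat_lit 4) (nat_lit 292) (nat_lit 232) (nat_lit 196)))) (XT.nd (nat_lit 156) (nat_lit 76) (nat_lit 0) (XT.nd (nat_lit 78) (nat_lit 0) (nat_lit 0) (XT.lf (nat_lit 0) (nat_lit 11303269705) (nat_lit 76) (nat_lit 2939425537) (nat_lit 152) (nat_lit 8757087618) (nat_lit 8) (nat_lit 5) (nat_lit 9) (nat_lit 5) (nat_lit 10) (nat_lit 4) (nat_lit 293) (nat_lit 232) (nat_lit 195)) (XT.lf (nat_lit 0) (nat_lit 17296934907) (nat_lit 152) (nat_lit 6581107462) (nat_lit 0) (nat_lit 95080833) (nat_lit 8) (nat_lit 5) (nat_lit 10) (nat_lit 4) (nat_lit 8) (nat_lit 4) (nat_lit 294) (nat_lit 232) (nat_lit 194))) (XT.nd (nat_lit 78) (nat_lit 76) (nat_lit 0) (XT.lf (nat_lit 0) (nat_lit 20512610789) (nat_lit 152) (nat_lit 1323526723) (nat_lit 0) (nat_lit 3158655822) (nat_lit 8) (nat_lit 5) (nat_lit 10) (nat_lit 4) (nat_lit 8) (nat_lit 4) (nat_lit 295) (nat_lit 232) (nat_lit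 193)) (XT.lf (nat_lit 0) (nat_lit 4271349643) (nat_lit 76) (nat_lit 19646824686) (nat_lit 76) (nat_lit 2148011725) (nat_lit 7) (nat_lit 4) (nat_lit 8) (nat_lit 5) (nat_lit 8) (nat_lit 4) (nat_lit 296) (nat_lit 232) (nat_lit 192)))))) (XT.nd (nat_lit 624) (nat_lit 152) (nat_lit 0) (XT.nd (nat_lit 312) (nat_lit 76) (nat_lit 0) (XT.nd (nat_lit 156) (nat_lit 0) (nat_lit 0) (XT.nd (nat_lit 78) (nat_lit 0) (nat_lit 0) (XT.lf (nat_lit 0) (nat_lit 278515559) (nat_lit 152) (nat_lit 17065816058) (nat_lit 76) (nat_lit 9847398791) (nat_lit 6) (nat_lit 5) (nat_lit 8) (nat_lit 5) (nat_lit 7) (nat_lit 4) (nat_lit 297) (nat_lit 232) (nat_lit 191)) (XT.lf (nat_lit 0) (nat_lit 2718524368) (nat_lit 152) (nat_lit 12195188471) (nat_lit 76) (nat_lit 13459942790) (nat_lit 6) (nat_lit 5) (nat_lit 8) (nat_lit 5) (nat_lit 7) (nat_lit 4) (nat_lit 298) (nat_lit 232) (nat_lit 190))) (XT.nd (nat_lit 78) (nat_lit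 0) (nat_lit 0) (XT.lf (nat_lit 0) (nat_lit 5246574035) (nat_lit 152) (nat_lit 7137820434) (nat_lit 76) (nat_lit 17232058178) (nat_lit 6) (nat_lit 5) (nat_lit 8) (nat_lit 5) (nat_lit 7) (nat_lit 4) (nat_lit 299) (nat_lit 232) (nat_lit 189)) (XT.lf (nat_lit 0) (nat_lit 7868683728) (nat_lit 152) (nat_lit 1881670595) (nat_lit 76) (nat_lit 21172726183) (nat_lit 6) (nat_lit 5) (nat_lit 8) (nat_lit 5) (nat_lit 7) (nat_lit 4) (nat_lit 300) (nat_lit 232) (nat_lit 188)))) (XT.nd (nat_lit 156) (nat_lit 0) (nat_lit 0) (XT.nd (nat_lit 78) (nat_lit 0) (nat_lit 0) (XT.lf (nat_lit 0) (nat_lit 3704337626) (nat_lit 76) (nat_lit 6944594028) (nat_lit 152) (nat_lit 21644826813) (nat_lit 5) (nat_lit 5) (nat_lit 6) (nat_lit 5) (nat_lit 7) (nat_lit 4) (nat_lit 301) (nat_lit 232) (nat_lit 187)) (XT.lf (nat_lit 0) (nat_lit 9584293389) (nat_lit 76) (nat_lit 3985638767) (nat_lit 152) (nat_lit 20163018159) (nat_lit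 5) (nat_lit 5) (nat_lit 6) (nat_lit 5) (nat_lit 7) (nat_lit 4) (nat_lit 302) (nat_lit 232) (nat_lit 186))) (XT.nd (nat_lit 78) (nat_lit 0) (nat_lit 0) (XT.lf (nat_lit 0) (nat_lit 15709980060) (nat_lit 76) (nat_lit 898310409) (nat_lit 152) (nat_lit 18637309704) (nat_lit 5) (nat_lit 5) (nat_lit 6) (nat_lit 5) (nat_lit 7) (nat_lit 4) (nat_lit 303) (nat_lit 232) (nat_lit 185)) (XT.lf (nat_lit 0) (nat_lit 19807536517) (nat_lit 152) (nat_lit 14775622718) (nat_lit 0) (nat_lit 2250335568) (nat_lit 5) (nat_lit 5) (nat_lit 7) (nat_lit 4) (nat_lit 5) (nat_lit 4) (nat_lit 304) (nat_lit 232) (nat_lit 184))))) (XT.nd (nat_lit 312) (nat_lit 76) (nat_lit 0) (XT.nd (nat_lit 156) (nat_lit 76) (nat_lit 0) (XT.nd (nat_lit 78) (nat_lit 0) (nat_lit 0) (XT.lf (nat_lit 0) (nat_lit 23155169381) (nat_lit 152) (nat_lit 9837213242) (nat_lit 0) (nat_lit 5509038190) (nat_lit 5) (nat_lit 5) (nat_lit 7) (nat_lit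 4) (nat_lit 5) (nat_lit 4) (nat_lit 305) (nat_lit 232) (nat_lit 183)) (XT.lf (nat_lit 0) (nat_lit 26645134474) (nat_lit 152) (nat_lit 4694608427) (nat_lit 0) (nat_lit 8914307814) (nat_lit 5) (nat_lit 5) (nat_lit 7) (nat_lit 4) (nat_lit 5) (nat_lit 4) (nat_lit 306) (nat_lit 232) (nat_lit 182))) (XT.nd (nat_lit 78) (nat_lit 0) (nat_lit 0) (XT.lf (nat_lit 0) (nat_lit 686405281) (nat_lit 76) (nat_lit 29610052665) (nat_lit 76) (nat_lit 11798563654) (nat_lit 4) (nat_lit 4) (nat_lit 5) (nat_lit 5) (nat_lit 5) (nat_lit 4) (nat_lit 307) (nat_lit 232) (nat_lit 181)) (XT.lf (nat_lit 0) (nat_lit 6459421576) (nat_lit 76) (nat_lit 27727085876) (nat_lit 76) (nat_lit 9838775578) (nat_lit 4) (nat_lit 4) (nat_lit 5) (nat_lit 5) (nat_lit 5) (nat_lit 4) (nat_lit 308) (nat_lit 232) (nat_lit 180)))) (XT.nd (nat_lit 156) (nat_lit 76) (nat_lit 0) (XT.nd (nat_lit 78) (nat_lit 0) (nat_lit 0) (XT.lf (nat_lit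 0) (nat_lit 12482960777) (nat_lit 76) (nat_lit 25765864746) (nat_lit 76) (nat_lit 7804391318) (nat_lit 4) (nat_lit 4) (nat_lit 5) (nat_lit 5) (nat_lit 5) (nat_lit 4) (nat_lit 309) (nat_lit 232) (nat_lit 179)) (XT.lf (nat_lit 0) (nat_lit 18771364645) (nat_lit 76) (nat_lit 23721719701) (nat_lit 76) (nat_lit 5690567101) (nat_lit 4) (nat_lit 4) (nat_lit 5) (nat_lit 5) (nat_lit 5) (nat_lit 4) (nat_lit 310) (nat_lit 232) (nat_lit 178))) (XT.nd (nat_lit 78) (nat_lit 76) (nat_lit 0) (XT.lf (nat_lit 0) (nat_lit 25339605570) (nat_lit 76) (nat_lit 21589783729) (nat_lit 76) (nat_lit 3492270013) (nat_lit 4) (nat_lit 4) (nat_lit 5) (nat_lit 5) (nat_lit 5) (nat_lit 4) (nat_lit 311) (nat_lit 232) (nat_lit 177)) (XT.nd (nat_lit 78) (nat_lit 76) (nat_lit 0) (XT.lf (nat_lit 0) (nat_lit 32203322221) (nat_lit 76) (nat_lit 19364980792) (nat_lit 76) (nat_lit 1204266013) (nat_lit 4) (nat_lit 4) (nat_lit 5)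 (nat_lit 5) (nat_lit 5) (nat_lit 4) (nat_lit 312) (nat_lit 232) (nat_lit 176)) (XT.lf (nat_lit 0) (nat_lit 1141160604) (nat_lit 152) (nat_lit 15881527028) (nat_lit 76) (nat_lit 38218370069) (nat_lit 3) (nat_lit 5) (nat_lit 5) (nat_lit 5) (nat_lit 4) (nat_lit 4) (nat_lit 313) (nat_lit 232) (nat_lit 175))))))))
noncomputable def xc85 : XT := (XT.nd (nat_lit 1326) (nat_lit 76) (nat_lit 0) (XT.nd (nat_lit 624) (nat_lit 0) (nat_lit 0) (XT.nd (nat_lit 312) (nat_lit 0) (nat_lit 0) (XT.nd (nat_lit 156) (nat_lit 76) (nat_lit 0) (XT.nd (nat_lit 78) (nat_lit 0) (nat_lit 0) (XT.lf (nat_lit 0) (nat_lit 3545644767) (nat_lit 152) (nat_lit 11009659721) (nat_lit 76) (nat_lit 43277601877) (nat_lit 3) (nat_lit 5) (nat_lit 5) (nat_lit 5) (nat_lit 4) (nat_lit 4) (nat_lit 314) (nat_lit 232) (nat_lit 174)) (XT.lf (nat_lit 0) (nat_lit 6053455471) (nat_lit 152) (nat_lit 5923243231) (nat_lit 76) (nat_lit 48578527480)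 (nat_lit 3) (nat_lit 5) (nat_lit 5) (nat_lit 5) (nat_lit 4) (nat_lit 4) (nat_lit 315) (nat_lit 232) (nat_lit 173))) (XT.nd (nat_lit 78) (nat_lit 76) (nat_lit 0) (XT.lf (nat_lit 0) (nat_lit 8670563695) (nat_lit 152) (nat_lit 610167045) (nat_lit 76) (nat_lit 54133768131) (nat_lit 3) (nat_lit 5) (nat_lit 5) (nat_lit 5) (nat_lit 4) (nat_lit 4) (nat_lit 316) (nat_lit 232) (nat_lit 172)) (XT.lf (nat_lit 0) (nat_lit 5105631100) (nat_lit 76) (nat_lit 6377282756) (nat_lit 152) (nat_lit 54930632702) (nat_lit 2) (nat_lit 5) (nat_lit 3) (nat_lit 5) (nat_lit 4) (nat_lit 4) (nat_lit 317) (nat_lit 232) (nat_lit 171)))) (XT.nd (nat_lit 156) (nat_lit 0) (nat_lit 0) (XT.nd (nat_lit 78) (nat_lit 0) (nat_lit 0) (XT.lf (nat_lit 0) (nat_lit 11102483746) (nat_lit 76) (nat_lit 3328729745) (nat_lit 152) (nat_lit 55131595771) (nat_lit 2) (nat_lit 5) (nat_lit 3) (nat_lit 5) (nat_lit 4) (nat_lit 4) (nat_lit 318)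 (nat_lit 232) (nat_lit 170)) (XT.lf (nat_lit 0) (nat_lit 17374494236) (nat_lit 76) (nat_lit 138146722) (nat_lit 152) (nat_lit 55357636342) (nat_lit 2) (nat_lit 5) (nat_lit 3) (nat_lit 5) (nat_lit 4) (nat_lit 4) (nat_lit 319) (nat_lit 232) (nat_lit 169))) (XT.nd (nat_lit 78) (nat_lit 0) (nat_lit 0) (XT.lf (nat_lit 0) (nat_lit 20784526162) (nat_lit 152) (nat_lit 52457222841) (nat_lit 0) (nat_lit 3099576929) (nat_lit 2) (nat_lit 5) (nat_lit 4) (nat_lit 4) (nat_lit 2) (nat_lit 4) (nat_lit 320) (nat_lit 232) (nat_lit 168)) (XT.lf (nat_lit 0) (nat_lit 24209164217) (nat_lit 152) (nat_lit 49291915089) (nat_lit 0) (nat_lit 6485415013) (nat_lit 2) (nat_lit 5) (nat_lit 4) (nat_lit 4) (nat_lit 2) (nat_lit 4) (nat_lit 321) (nat_lit 232) (nat_lit 167))))) (XT.nd (nat_lit 312) (nat_lit 0) (nat_lit 0) (XT.nd (nat_lit 156) (nat_lit 0) (nat_lit 0) (XT.nd (nat_lit 78) (nat_lit 0) (nat_lit 0) (XT.lf (nat_lit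 0) (nat_lit 27792552163) (nat_lit 152) (nat_lit 45990166504) (nat_lit 0) (nat_lit 10031850606) (nat_lit 2) (nat_lit 5) (nat_lit 4) (nat_lit 4) (nat_lit 2) (nat_lit 4) (nat_lit 322) (nat_lit 232) (nat_lit 166)) (XT.lf (nat_lit 0) (nat_lit 31543221877) (nat_lit 152) (nat_lit 42544115780) (nat_lit 0) (nat_lit 13747327604) (nat_lit 2) (nat_lit 5) (nat_lit 4) (nat_lit 4) (nat_lit 2) (nat_lit 4) (nat_lit 323) (nat_lit 232) (nat_lit 165))) (XT.nd (nat_lit 78) (nat_lit 0) (nat_lit 0) (XT.lf (nat_lit 0) (nat_lit 35470103525) (nat_lit 152) (nat_lit 38945558033) (nat_lit 0) (nat_lit 17640692379) (nat_lit 2) (nat_lit 5) (nat_lit 4) (nat_lit 4) (nat_lit 2) (nat_lit 4) (nat_lit 324) (nat_lit 232) (nat_lit 164)) (XT.lf (nat_lit 0) (nat_lit 39582546826) (nat_lit 152) (nat_lit 35185925269) (nat_lit 0) (nat_lit 21721214848) (nat_lit 2) (nat_lit 5) (nat_lit 4) (nat_lit 4) (nat_lit 2) (nat_lit 4) (nat_lit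 325) (nat_lit 232) (nat_lit 163)))) (XT.nd (nat_lit 156) (nat_lit 0) (nat_lit 0) (XT.nd (nat_lit 78) (nat_lit 0) (nat_lit 0) (XT.lf (nat_lit 0) (nat_lit 43890343310) (nat_lit 152) (nat_lit 31256265981) (nat_lit 0) (nat_lit 25998610540) (nat_lit 2) (nat_lit 5) (nat_lit 4) (nat_lit 4) (nat_lit 2) (nat_lit 4) (nat_lit 326) (nat_lit 232) (nat_lit 162)) (XT.lf (nat_lit 0) (nat_lit 48403749637) (nat_lit 152) (nat_lit 27147223838) (nat_lit 0) (nat_lit 30483063732) (nat_lit 2) (nat_lit 5) (nat_lit 4) (nat_lit 4) (nat_lit 2) (nat_lit 4) (nat_lit 327) (nat_lit 232) (nat_lit 161))) (XT.nd (nat_lit 78) (nat_lit 0) (nat_lit 0) (XT.lf (nat_lit 0) (nat_lit 53133512011) (nat_lit 152) (nat_lit 22849015407) (nat_lit 0) (nat_lit 35185251692) (nat_lit 2) (nat_lit 5) (nat_lit 4) (nat_lit 4) (nat_lit 2) (nat_lit 4) (nat_lit 328) (nat_lit 232) (nat_lit 160)) (XT.nd (nat_lit 78) (nat_lit 0) (nat_lit 0) (XT.lf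 (nat_lit 0) (nat_lit 58090891773) (nat_lit 152) (nat_lit 18351406857) (nat_lit 0) (nat_lit 40116370107) (nat_lit 2) (nat_lit 5) (nat_lit 4) (nat_lit 4) (nat_lit 2) (nat_lit 4) (nat_lit 329) (nat_lit 232) (nat_lit 159)) (XT.lf (nat_lit 0) (nat_lit 63287692206) (nat_lit 152) (nat_lit 13643689596) (nat_lit 0) (nat_lit 45288159733) (nat_lit 2) (nat_lit 5) (nat_lit 4) (nat_lit 4) (nat_lit 2) (nat_lit 4) (nat_lit 330) (nat_lit 232) (nat_lit 158))))))) (XT.nd (nat_lit 624) (nat_lit 0) (nat_lit 0) (XT.nd (nat_lit 312) (nat_lit 0) (nat_lit 0) (XT.nd (nat_lit 156) (nat_lit 76) (nat_lit 0) (XT.nd (nat_lit 78) (nat_lit 0) (nat_lit 0) (XT.lf (nat_lit 0) (nat_lit 68736286646) (nat_lit 152) (nat_lit 8714654775) (nat_lit 0) (nat_lit 50712934357) (nat_lit 2) (nat_lit 5) (nat_lit 4) (nat_lit 4) (nat_lit 2) (nat_lit 4) (nat_lit 331) (nat_lit 232) (nat_lit 157)) (XT.lf (nat_lit 0) (nat_lit 74449647935)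 (nat_lit 152) (nat_lit 3552566596) (nat_lit 0) (nat_lit 56403610108) (nat_lit 2) (nat_lit 5) (nat_lit 4) (nat_lit 4) (nat_lit 2) (nat_lit 4) (nat_lit 332) (nat_lit 232) (nat_lit 156))) (XT.nd (nat_lit 78) (nat_lit 0) (nat_lit 0) (XT.lf (nat_lit 0) (nat_lit 1916195861) (nat_lit 76) (nat_lit 78555100643) (nat_lit 76) (nat_lit 60487457540) (nat_lit 1) (nat_lit 4) (nat_lit 2) (nat_lit 5) (nat_lit 2) (nat_lit 4) (nat_lit 333) (nat_lit 232) (nat_lit 155)) (XT.lf (nat_lit 0) (nat_lit 7769178979) (nat_lit 76) (nat_lit 79077866493) (nat_lit 76) (nat_lit 60989646938) (nat_lit 1) (nat_lit 4) (nat_lit 2) (nat_lit 5) (nat_lit 2) (nat_lit 4) (nat_lit 334) (nat_lit 232) (nat_lit 154)))) (XT.nd (nat_lit 156) (nat_lit 0) (nat_lit 0) (XT.nd (nat_lit 78) (nat_lit 0) (nat_lit 0) (XT.lf (nat_lit 0) (nat_lit 13902854537) (nat_lit 76) (nat_lit 79631921198) (nat_lit 76) (nat_lit 61524105021) (nat_lit 1) (nat_lit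 4) (nat_lit 2) (nat_lit 5) (nat_lit 2) (nat_lit 4) (nat_lit 335) (nat_lit 232) (nat_lit 153)) (XT.lf (nat_lit 0) (nat_lit 20331826524) (nat_lit 76) (nat_lit 80218583936) (nat_lit 76) (nat_lit 62092104310) (nat_lit 1) (nat_lit 4) (nat_lit 2) (nat_lit 5) (nat_lit 2) (nat_lit 4) (nat_lit 336) (nat_lit 232) (nat_lit 152))) (XT.nd (nat_lit 78) (nat_lit 0) (nat_lit 0) (XT.lf (nat_lit 0) (nat_lit 27071402016) (nat_lit 76) (nat_lit 80839251521) (nat_lit 76) (nat_lit 62694997182) (nat_lit 1) (nat_lit 4) (nat_lit 2) (nat_lit 5) (nat_lit 2) (nat_lit 4) (nat_lit 337) (nat_lit 232) (nat_lit 151)) (XT.lf (nat_lit 0) (nat_lit 34137627621) (nat_lit 76) (nat_lit 81495401736) (nat_lit 76) (nat_lit 63334219098) (nat_lit 1) (nat_lit 4) (nat_lit 2) (nat_lit 5) (nat_lit 2) (nat_lit 4) (nat_lit 338) (nat_lit 232) (nat_lit 150))))) (XT.nd (nat_lit 312) (nat_lit 0) (nat_lit 0) (XT.nd (nat_lit 156) (nat_lit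 0) (nat_lit 0) (XT.nd (nat_lit 78) (nat_lit 0) (nat_lit 0) (XT.lf (nat_lit 0) (nat_lit 41547327685) (nat_lit 76) (nat_lit 82188596841) (nat_lit 76) (nat_lit 64011292014) (nat_lit 1) (nat_lit 4) (nat_lit 2) (nat_lit 5) (nat_lit 2) (nat_lit 4) (nat_lit 339) (nat_lit 232) (nat_lit 149)) (XT.lf (nat_lit 0) (nat_lit 49318144353) (nat_lit 76) (nat_lit 82920487301) (nat_lit 76) (nat_lit 64727828008) (nat_lit 1) (nat_lit 4) (nat_lit 2) (nat_lit 5) (nat_lit 2) (nat_lit 4) (nat_lit 340) (nat_lit 232) (nat_lit 148))) (XT.nd (nat_lit 78) (nat_lit 0) (nat_lit 0) (XT.lf (nat_lit 0) (nat_lit 57468579568) (nat_lit 76) (nat_lit 83692815713) (nat_lit 76) (nat_lit 65485533120) (nat_lit 1) (nat_lit 4) (nat_lit 2) (nat_lit 5) (nat_lit 2) (nat_lit 4) (nat_lit 341) (nat_lit 232) (nat_lit 147)) (XT.lf (nat_lit 0) (nat_lit 66018039129) (nat_lit 76) (nat_lit 84507420954) (nat_lit 76) (nat_lit 66286211407) (nat_lit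 1) (nat_lit 4) (nat_lit 2) (nat_lit 5) (nat_lit 2) (nat_lit 4) (nat_lit 342) (nat_lit 232) (nat_lit 146)))) (XT.nd (nat_lit 156) (nat_lit 0) (nat_lit 0) (XT.nd (nat_lit 78) (nat_lit 0) (nat_lit 0) (XT.lf (nat_lit 0) (nat_lit 74986878891) (nat_lit 76) (nat_lit 85366242560) (nat_lit 76) (nat_lit 67131769249) (nat_lit 1) (nat_lit 4) (nat_lit 2) (nat_lit 5) (nat_lit 2) (nat_lit 4) (nat_lit 343) (nat_lit 232) (nat_lit 145)) (XT.lf (nat_lit 0) (nat_lit 84396453235) (nat_lit 76) (nat_lit 86271325344) (nat_lit 76) (nat_lit 68024219876) (nat_lit 1) (nat_lit 4) (nat_lit 2) (nat_lit 5) (nat_lit 2) (nat_lit 4) (nat_lit 344) (nat_lit 232) (nat_lit 144))) (XT.nd (nat_lit 78) (nat_lit 0) (nat_lit 0) (XT.lf (nat_lit 0) (nat_lit 94269165909) (nat_lit 76) (nat_lit 87224824266) (nat_lit 76) (nat_lit 68965688172) (nat_lit 1) (nat_lit 4) (nat_lit 2) (nat_lit 5) (nat_lit 2) (nat_lit 4) (nat_lit 345) (nat_lit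 232) (nat_lit 143)) (XT.nd (nat_lit 78) (nat_lit 0) (nat_lit 0) (XT.lf (nat_lit 0) (nat_lit 104628523373) (nat_lit 76) (nat_lit 88229009561) (nat_lit 76) (nat_lit 69958415729) (nat_lit 1) (nat_lit 4) (nat_lit 2) (nat_lit 5) (nat_lit 2) (nat_lit 4) (nat_lit 346) (nat_lit 232) (nat_lit 142)) (XT.lf (nat_lit 0) (nat_lit 115499190763) (nat_lit 76) (nat_lit 89286272147) (nat_lit 76) (nat_lit 71004766182) (nat_lit 1) (nat_lit 4) (nat_lit 2) (nat_lit 5) (nat_lit 2) (nat_lit 4) (nat_lit 347) (nat_lit 232) (nat_lit 141))))))))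
noncomputable def xc86 : XT := (XT.nd (nat_lit 30498) (nat_lit 0) (nat_lit 1672) (XT.nd (nat_lit 624) (nat_lit 0) (nat_lit 0) (XT.nd (nat_lit 312) (nat_lit 0) (nat_lit 0) (XT.nd (nat_lit 156) (nat_lit 0) (nat_lit 0) (XT.nd (nat_lit 78) (nat_lit 0) (nat_lit 0) (XT.lf (nat_lit 0) (nat_lit 126907050620) (nat_lit 76) (nat_lit 90399129314) (nat_lit 76) (nat_lit 72107230843) (nat_lit 1) (nat_lit 4) (nat_lit 2) (nat_lit 5) (nat_lit 2) (nat_lit 4) (nat_lit 348) (nat_lit 232) (nat_lit 140)) (XT.lf (nat_lit 0) (nat_lit 138879264515) (nat_lit 76) (nat_lit 91570230724) (nat_lit 76) (nat_lit 73268434627) (nat_lit 1) (nat_lit 4) (nat_lit 2) (nat_lit 5) (nat_lit 2) (nat_lit 4) (nat_lit 349) (nat_lit 232) (nat_lit 139))) (XT.nd (nat_lit 78) (nat_lit 0) (nat_lit 0) (XT.lf (nat_lit 0) (nat_lit 151444337720) (nat_lit 76) (nat_lit 92802364713) (nat_lit 76) (nat_lit 74491142306) (nat_lit 1) (nat_lit 4)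 (nat_lit 2) (nat_lit 5) (nat_lit 2) (nat_lit 4) (nat_lit 350) (nat_lit 232) (nat_lit 138)) (XT.lf (nat_lit 0) (nat_lit 164632187076) (nat_lit 76) (nat_lit 94098464933) (nat_lit 76) (nat_lit 75778265087) (nat_lit 1) (nat_lit 4) (nat_lit 2) (nat_lit 5) (nat_lit 2) (nat_lit 4) (nat_lit 351) (nat_lit 232) (nat_lit 137)))) (XT.nd (nat_lit 156) (nat_lit 0) (nat_lit 0) (XT.nd (nat_lit 78) (nat_lit 0) (nat_lit 0) (XT.lf (nat_lit 0) (nat_lit 178474212224) (nat_lit 76) (nat_lit 95461617337) (nat_lit 76) (nat_lit 77132867550) (nat_lit 1) (nat_lit 4) (nat_lit 2) (nat_lit 5) (nat_lit 2) (nat_lit 4) (nat_lit 352) (nat_lit 232) (nat_lit 136)) (XT.lf (nat_lit 0) (nat_lit 193003370366) (nat_lit 76) (nat_lit 96895067526) (nat_lit 76) (nat_lit 78558174939) (nat_lit 1) (nat_lit 4) (nat_lit 2) (nat_lit 5) (nat_lit 2) (nat_lit 4) (nat_lit 353) (nat_lit 232) (nat_lit 135))) (XT.nd (nat_lit 78) (nat_lit 0)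 (nat_lit 0) (XT.lf (nat_lit 0) (nat_lit 208254254737) (nat_lit 76) (nat_lit 98402228477) (nat_lit 76) (nat_lit 80057580841) (nat_lit 1) (nat_lit 4) (nat_lit 2) (nat_lit 5) (nat_lit 2) (nat_lit 4) (nat_lit 354) (nat_lit 232) (nat_lit 134)) (XT.lf (nat_lit 0) (nat_lit 224263176966) (nat_lit 76) (nat_lit 99986688668) (nat_lit 76) (nat_lit 81634655271) (nat_lit 1) (nat_lit 4) (nat_lit 2) (nat_lit 5) (nat_lit 2) (nat_lit 4) (nat_lit 355) (nat_lit 232) (nat_lit 133))))) (XT.nd (nat_lit 312) (nat_lit 0) (nat_lit 0) (XT.nd (nat_lit 156) (nat_lit 0) (nat_lit 0) (XT.nd (nat_lit 78) (nat_lit 0) (nat_lit 0) (XT.lf (nat_lit 0) (nat_lit 241068253534) (nat_lit 76) (nat_lit 101652220623) (nat_lit 76) (nat_lit 83293153169) (nat_lit 1) (nat_lit 4) (nat_lit 2) (nat_lit 5) (nat_lit 2) (nat_lit 4) (nat_lit 356) (nat_lit 232) (nat_lit 132)) (XT.lf (nat_lit 0) (nat_lit 258709496528) (nat_lit 76) (nat_lit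 103402789895) (nat_lit 76) (nat_lit 85037023339) (nat_lit 1) (nat_lit 4) (nat_lit 2) (nat_lit 5) (nat_lit 2) (nat_lit 4) (nat_lit 357) (nat_lit 232) (nat_lit 131))) (XT.nd (nat_lit 78) (nat_lit 0) (nat_lit 0) (XT.lf (nat_lit 0) (nat_lit 277228908908) (nat_lit 76) (nat_lit 105242564507) (nat_lit 76) (nat_lit 86870417852) (nat_lit 1) (nat_lit 4) (nat_lit 2) (nat_lit 5) (nat_lit 2) (nat_lit 4) (nat_lit 358) (nat_lit 232) (nat_lit 130)) (XT.lf (nat_lit 0) (nat_lit 296670584513) (nat_lit 76) (nat_lit 107175924872) (nat_lit 76) (nat_lit 88797701934) (nat_lit 1) (nat_lit 4) (nat_lit 2) (nat_lit 5) (nat_lit 2) (nat_lit 4) (nat_lit 359) (nat_lit 232) (nat_lit 129)))) (XT.nd (nat_lit 29328) (nat_lit 0) (nat_lit 4712) (XT.nd (nat_lit 29250) (nat_lit 0) (nat_lit 5396) (XT.lf (nat_lit 0) (nat_lit 317080813047) (nat_lit 76) (nat_lit 109207474231) (nat_lit 76) (nat_lit 90823464357) (nat_lit 1) (nat_lit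 4) (nat_lit 2) (nat_lit 5) (nat_lit 2) (nat_lit 4) (nat_lit 360) (nat_lit 232) (nat_lit 128)) (XT.lf (nat_lit 0) (nat_lit 447581486) (nat_lit 532) (nat_lit 1550891713) (nat_lit 532) (nat_lit 1550891713) (nat_lit 72) (nat_lit 4) (nat_lit 79) (nat_lit 5) (nat_lit 79) (nat_lit 4) (nat_lit 254) (nat_lit 233) (nat_lit 233))) (XT.nd (nat_lit 78) (nat_lit 684) (nat_lit 0) (XT.lf (nat_lit 0) (nat_lit 5108223516) (nat_lit 532) (nat_lit 1837911160) (nat_lit 532) (nat_lit 255868752) (nat_lit 72) (nat_lit 4) (nat_lit 79) (nat_lit 5) (nat_lit 79) (nat_lit 4) (nat_lit 255) (nat_lit 233) (nat_lit 232)) (XT.nd (nat_lit 78) (nat_lit 0) (nat_lit 0) (XT.lf (nat_lit 0) (nat_lit 2109460118) (nat_lit 608) (nat_lit 426251872) (nat_lit 684) (nat_lit 4778988493) (nat_lit 63) (nat_lit 5) (nat_lit 71) (nat_lit 5) (nat_lit 72) (nat_lit 4) (nat_lit 256) (nat_lit 233) (nat_lit 231)) (XT.lf (nat_lit 0) (nat_lit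 5373395680) (nat_lit 684) (nat_lit 999458426) (nat_lit 0) (nat_lit 1065101810) (nat_lit 63) (nat_lit 5) (nat_lit 72) (nat_lit 4) (nat_lit 63) (nat_lit 4) (nat_lit 257) (nat_lit 233) (nat_lit 230))))))) (XT.nd (nat_lit 624) (nat_lit 988) (nat_lit 0) (XT.nd (nat_lit 312) (nat_lit 608) (nat_lit 0) (XT.nd (nat_lit 156) (nat_lit 380) (nat_lit 0) (XT.nd (nat_lit 78) (nat_lit 304) (nat_lit 0) (XT.lf (nat_lit 0) (nat_lit 687391991) (nat_lit 760) (nat_lit 4200690491) (nat_lit 76) (nat_lit 2683137765) (nat_lit 53) (nat_lit 5) (nat_lit 63) (nat_lit 5) (nat_lit 54) (nat_lit 4) (nat_lit 258) (nat_lit 233) (nat_lit 229)) (XT.lf (nat_lit 0) (nat_lit 114384940) (nat_lit 304) (nat_lit 3282590980) (nat_lit 380) (nat_lit 4318777061) (nat_lit 49) (nat_lit 5) (nat_lit 53) (nat_lit 5) (nat_lit 54) (nat_lit 4) (nat_lit 259) (nat_lit 233) (nat_lit 228))) (XT.nd (nat_lit 78) (nat_lit 380) (nat_lit 0) (XT.lf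 (nat_lit 0) (nat_lit 4654719430) (nat_lit 304) (nat_lit 1532929120) (nat_lit 380) (nat_lit 1683315030) (nat_lit 49) (nat_lit 5) (nat_lit 53) (nat_lit 5) (nat_lit 54) (nat_lit 4) (nat_lit 260) (nat_lit 233) (nat_lit 227)) (XT.lf (nat_lit 0) (nat_lit 952147302) (nat_lit 380) (nat_lit 6766467651) (nat_lit 76) (nat_lit 319991313) (nat_lit 44) (nat_lit 5) (nat_lit 49) (nat_lit 5) (nat_lit 45) (nat_lit 4) (nat_lit 261) (nat_lit 233) (nat_lit 226)))) (XT.nd (nat_lit 156) (nat_lit 380) (nat_lit 0) (XT.nd (nat_lit 78) (nat_lit 228) (nat_lit 0) (XT.lf (nat_lit 0) (nat_lit 3624650011) (nat_lit 380) (nat_lit 2307635740) (nat_lit 76) (nat_lit 2283505761) (nat_lit 44) (nat_lit 5) (nat_lit 49) (nat_lit 5) (nat_lit 45) (nat_lit 4) (nat_lit 262) (nat_lit 233) (nat_lit 225)) (XT.lf (nat_lit 0) (nat_lit 2316163661) (nat_lit 228) (nat_lit 4037772302) (nat_lit 304) (nat_lit 2052344126) (nat_lit 41) (nat_lit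 5) (nat_lit 44) (nat_lit 5) (nat_lit 45) (nat_lit 4) (nat_lit 263) (nat_lit 233) (nat_lit 224))) (XT.nd (nat_lit 78) (nat_lit 304) (nat_lit 0) (XT.lf (nat_lit 0) (nat_lit 521477930) (nat_lit 304) (nat_lit 1497512020) (nat_lit 76) (nat_lit 6590984455) (nat_lit 40) (nat_lit 5) (nat_lit 44) (nat_lit 5) (nat_lit 41) (nat_lit 5) (nat_lit 264) (nat_lit 233) (nat_lit 223)) (XT.lf (nat_lit 0) (nat_lit 3101998367) (nat_lit 380) (nat_lit 5560268018) (nat_lit 76) (nat_lit 163075837) (nat_lit 36) (nat_lit 5) (nat_lit 41) (nat_lit 5) (nat_lit 37) (nat_lit 4) (nat_lit 265) (nat_lit 233) (nat_lit 222))))) (XT.nd (nat_lit 312) (nat_lit 456) (nat_lit 0) (XT.nd (nat_lit 156) (nat_lit 304) (nat_lit 0) (XT.nd (nat_lit 78) (nat_lit 228) (nat_lit 0) (XT.lf (nat_lit 0) (nat_lit 5766518105) (nat_lit 380) (nat_lit 897041476) (nat_lit 76) (nat_lit 2390665433) (nat_lit 36) (nat_lit 5) (nat_lit 41) (nat_lit 5)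 (nat_lit 37) (nat_lit 4) (nat_lit 266) (nat_lit 233) (nat_lit 221)) (XT.lf (nat_lit 0) (nat_lit 4002600190) (nat_lit 228) (nat_lit 4525201385) (nat_lit 304) (nat_lit 769045146) (nat_lit 33) (nat_lit 5) (nat_lit 36) (nat_lit 5) (nat_lit 37) (nat_lit 4) (nat_lit 267) (nat_lit 233) (nat_lit 220))) (XT.nd (nat_lit 78) (nat_lit 228) (nat_lit 0) (XT.lf (nat_lit 0) (nat_lit 1732790213) (nat_lit 304) (nat_lit 528518779) (nat_lit 76) (nat_lit 7293390715) (nat_lit 32) (nat_lit 5) (nat_lit 36) (nat_lit 5) (nat_lit 33) (nat_lit 5) (nat_lit 268) (nat_lit 233) (nat_lit 219)) (XT.lf (nat_lit 0) (nat_lit 4313155831) (nat_lit 304) (nat_lit 5343158886) (nat_lit 76) (nat_lit 169943528) (nat_lit 29) (nat_lit 5) (nat_lit 33) (nat_lit 5) (nat_lit 30) (nat_lit 4) (nat_lit 269) (nat_lit 233) (nat_lit 218)))) (XT.nd (nat_lit 156) (nat_lit 304) (nat_lit 0) (XT.nd (nat_lit 78) (nat_lit 152) (nat_lit 0) (XT.lf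 (nat_lit 0) (nat_lit 6977381210) (nat_lit 304) (nat_lit 507564762) (nat_lit 76) (nat_lit 2629094704) (nat_lit 29) (nat_lit 5) (nat_lit 33) (nat_lit 5) (nat_lit 30) (nat_lit 4) (nat_lit 270) (nat_lit 233) (nat_lit 217)) (XT.lf (nat_lit 0) (nat_lit 4599844632) (nat_lit 152) (nat_lit 5159811962) (nat_lit 228) (nat_lit 657683258) (nat_lit 27) (nat_lit 5) (nat_lit 29) (nat_lit 5) (nat_lit 30) (nat_lit 4) (nat_lit 271) (nat_lit 233) (nat_lit 216))) (XT.nd (nat_lit 78) (nat_lit 228) (nat_lit 0) (XT.lf (nat_lit 0) (nat_lit 1805354416) (nat_lit 228) (nat_lit 904128638) (nat_lit 76) (nat_lit 8029018975) (nat_lit 26) (nat_lit 5) (nat_lit 29) (nat_lit 5) (nat_lit 27) (nat_lit 5) (nat_lit 272) (nat_lit 233) (nat_lit 215)) (XT.nd (nat_lit 78) (nat_lit 0) (nat_lit 0) (XT.lf (nat_lit 0) (nat_lit 4267876763) (nat_lit 228) (nat_lit 85946608) (nat_lit 304) (nat_lit 6722460007) (nat_lit 23) (nat_lit 5)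 (nat_lit 26) (nat_lit 5) (nat_lit 27) (nat_lit 5) (nat_lit 273) (nat_lit 233) (nat_lit 214)) (XT.lf (nat_lit 0) (nat_lit 7006393892) (nat_lit 304) (nat_lit 1857084935) (nat_lit 76) (nat_lit 2568945099) (nat_lit 23) (nat_lit 5) (nat_lit 27) (nat_lit 5) (nat_lit 24) (nat_lit 4) (nat_lit 274) (nat_lit 233) (nat_lit 213))))))))
noncomputable def xc87 : XT := (XT.nd (nat_lit 1326) (nat_lit 380) (nat_lit 0) (XT.nd (nat_lit 624) (nat_lit 304) (nat_lit 0) (XT.nd (nat_lit 312) (nat_lit 380) (nat_lit 0) (XT.nd (nat_lit 156) (nat_lit 152) (nat_lit 0) (XT.nd (nat_lit 78) (nat_lit 76) (nat_lit 0) (XT.lf (nat_lit 0) (nat_lit 3337844268) (nat_lit 152) (nat_lit 6430554849) (nat_lit 228) (nat_lit 2039421638) (nat_lit 21) (nat_lit 5) (nat_lit 23) (nat_lit 5) (nat_lit 24) (nat_lit 4) (nat_lit 275) (nat_lit 233) (nat_lit 212)) (XT.lf (nat_lit 0) (nat_lit 407316736) (nat_lit 228) (nat_lit 3461620954) (nat_lit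 76) (nat_lit 8335161642) (nat_lit 20) (nat_lit 5) (nat_lit 23) (nat_lit 5) (nat_lit 21) (nat_lit 5) (nat_lit 276) (nat_lit 233) (nat_lit 211))) (XT.nd (nat_lit 78) (nat_lit 0) (nat_lit 0) (XT.lf (nat_lit 0) (nat_lit 1713415828) (nat_lit 152) (nat_lit 1148584537) (nat_lit 228) (nat_lit 9759062635) (nat_lit 18) (nat_lit 5) (nat_lit 20) (nat_lit 5) (nat_lit 21) (nat_lit 5) (nat_lit 277) (nat_lit 233) (nat_lit 210)) (XT.lf (nat_lit 0) (nat_lit 5454393808) (nat_lit 228) (nat_lit 5922897498) (nat_lit 76) (nat_lit 1681072987) (nat_lit 18) (nat_lit 5) (nat_lit 21) (nat_lit 5) (nat_lit 19) (nat_lit 4) (nat_lit 278) (nat_lit 233) (nat_lit 209)))) (XT.nd (nat_lit 156) (nat_lit 228) (nat_lit 0) (XT.nd (nat_lit 78) (nat_lit 152) (nat_lit 0) (XT.lf (nat_lit 0) (nat_lit 8127357151) (nat_lit 228) (nat_lit 809371580) (nat_lit 76) (nat_lit 4583481285) (nat_lit 18) (nat_lit 5) (nat_lit 21) (nat_lit 5)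 (nat_lit 19) (nat_lit 4) (nat_lit 279) (nat_lit 233) (nat_lit 208)) (XT.lf (nat_lit 0) (nat_lit 4610606464) (nat_lit 152) (nat_lit 6330699993) (nat_lit 228) (nat_lit 3063690753) (nat_lit 16) (nat_lit 5) (nat_lit 18) (nat_lit 5) (nat_lit 19) (nat_lit 4) (nat_lit 280) (nat_lit 233) (nat_lit 207))) (XT.nd (nat_lit 78) (nat_lit 228) (nat_lit 0) (XT.lf (nat_lit 0) (nat_lit 10234451764) (nat_lit 152) (nat_lit 3612153462) (nat_lit 228) (nat_lit 670091725) (nat_lit 16) (nat_lit 5) (nat_lit 18) (nat_lit 5) (nat_lit 19) (nat_lit 4) (nat_lit 281) (nat_lit 233) (nat_lit 206)) (XT.lf (nat_lit 0) (nat_lit 995691202) (nat_lit 152) (nat_lit 742821419) (nat_lit 228) (nat_lit 13316500902) (nat_lit 13) (nat_lit 5) (nat_lit 15) (nat_lit 5) (nat_lit 16) (nat_lit 5) (nat_lit 282) (nat_lit 233) (nat_lit 205))))) (XT.nd (nat_lit 312) (nat_lit 228) (nat_lit 0) (XT.nd (nat_lit 156) (nat_lit 76) (nat_lit 0)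 (XT.nd (nat_lit 78) (nat_lit 0) (nat_lit 0) (XT.lf (nat_lit 0) (nat_lit 4293946471) (nat_lit 228) (nat_lit 9072119400) (nat_lit 76) (nat_lit 2251362623) (nat_lit 13) (nat_lit 5) (nat_lit 16) (nat_lit 5) (nat_lit 14) (nat_lit 4) (nat_lit 283) (nat_lit 233) (nat_lit 204)) (XT.lf (nat_lit 0) (nat_lit 6931964916) (nat_lit 228) (nat_lit 3937332940) (nat_lit 76) (nat_lit 5341095013) (nat_lit 13) (nat_lit 5) (nat_lit 16) (nat_lit 5) (nat_lit 14) (nat_lit 4) (nat_lit 284) (nat_lit 233) (nat_lit 203))) (XT.nd (nat_lit 78) (nat_lit 0) (nat_lit 0) (XT.lf (nat_lit 0) (nat_lit 1414120966) (nat_lit 76) (nat_lit 8255208853) (nat_lit 152) (nat_lit 7165464605) (nat_lit 12) (nat_lit 5) (nat_lit 13) (nat_lit 5) (nat_lit 14) (nat_lit 4) (nat_lit 285) (nat_lit 233) (nat_lit 202)) (XT.lf (nat_lit 0) (nat_lit 7085886631) (nat_lit 76) (nat_lit 5471014892) (nat_lit 152) (nat_lit 4933001167) (nat_lit 12) (nat_lit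 5) (nat_lit 13) (nat_lit 5) (nat_lit 14) (nat_lit 4) (nat_lit 286) (nat_lit 233) (nat_lit 201)))) (XT.nd (nat_lit 156) (nat_lit 76) (nat_lit 0) (XT.nd (nat_lit 78) (nat_lit 152) (nat_lit 0) (XT.lf (nat_lit 0) (nat_lit 12961282249) (nat_lit 76) (nat_lit 2576767579) (nat_lit 152) (nat_lit 2642402887) (nat_lit 12) (nat_lit 5) (nat_lit 13) (nat_lit 5) (nat_lit 14) (nat_lit 4) (nat_lit 287) (nat_lit 233) (nat_lit 200)) (XT.lf (nat_lit 0) (nat_lit 144035651) (nat_lit 152) (nat_lit 18484868435) (nat_lit 152) (nat_lit 278733013) (nat_lit 10) (nat_lit 4) (nat_lit 12) (nat_lit 5) (nat_lit 12) (nat_lit 4) (nat_lit 288) (nat_lit 233) (nat_lit 199))) (XT.nd (nat_lit 78) (nat_lit 0) (nat_lit 0) (XT.lf (nat_lit 0) (nat_lit 2216082559) (nat_lit 228) (nat_lit 13866995918) (nat_lit 76) (nat_lit 3582334923) (nat_lit 9) (nat_lit 5) (nat_lit 12) (nat_lit 5) (nat_lit 10) (nat_lit 4) (nat_lit 289) (nat_lit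 233) (nat_lit 198)) (XT.nd (nat_lit 78) (nat_lit 0) (nat_lit 0) (XT.lf (nat_lit 0) (nat_lit 4779981695) (nat_lit 228) (nat_lit 8805126256) (nat_lit 76) (nat_lit 6878176914) (nat_lit 9) (nat_lit 5) (nat_lit 12) (nat_lit 5) (nat_lit 10) (nat_lit 4) (nat_lit 290) (nat_lit 233) (nat_lit 197)) (XT.lf (nat_lit 0) (nat_lit 7427990114) (nat_lit 228) (nat_lit 3561588585) (nat_lit 76) (nat_lit 10313790076) (nat_lit 9) (nat_lit 5) (nat_lit 12) (nat_lit 5) (nat_lit 10) (nat_lit 4) (nat_lit 291) (nat_lit 233) (nat_lit 196))))))) (XT.nd (nat_lit 624) (nat_lit 152) (nat_lit 0) (XT.nd (nat_lit 312) (nat_lit 152) (nat_lit 0) (XT.nd (nat_lit 156) (nat_lit 0) (nat_lit 0) (XT.nd (nat_lit 78) (nat_lit 0) (nat_lit 0) (XT.lf (nat_lit 0) (nat_lit 1938134101) (nat_lit 76) (nat_lit 8258538199) (nat_lit 152) (nat_lit 11989480045) (nat_lit 8) (nat_lit 5) (nat_lit 9) (nat_lit 5) (nat_lit 10) (nat_lit 4) (nat_lit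 292) (nat_lit 233) (nat_lit 195)) (XT.lf (nat_lit 0) (nat_lit 7769566139) (nat_lit 76) (nat_lit 5353507758) (nat_lit 152) (nat_lit 9989140868) (nat_lit 8) (nat_lit 5) (nat_lit 9) (nat_lit 5) (nat_lit 10) (nat_lit 4) (nat_lit 293) (nat_lit 233) (nat_lit 194))) (XT.nd (nat_lit 78) (nat_lit 0) (nat_lit 0) (XT.lf (nat_lit 0) (nat_lit 13828829686) (nat_lit 76) (nat_lit 2327887863) (nat_lit 152) (nat_lit 7929915645) (nat_lit 8) (nat_lit 5) (nat_lit 9) (nat_lit 5) (nat_lit 10) (nat_lit 4) (nat_lit 294) (nat_lit 233) (nat_lit 193)) (XT.lf (nat_lit 0) (nat_lit 19317714981) (nat_lit 152) (nat_lit 4994264878) (nat_lit 0) (nat_lit 799103377) (nat_lit 8) (nat_lit 5) (nat_lit 10) (nat_lit 4) (nat_lit 8) (nat_lit 4) (nat_lit 295) (nat_lit 233) (nat_lit 192)))) (XT.nd (nat_lit 156) (nat_lit 76) (nat_lit 0) (XT.nd (nat_lit 78) (nat_lit 0) (nat_lit 0) (XT.lf (nat_lit 0) (nat_lit 449343457) (nat_lit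 76) (nat_lit 22196802266) (nat_lit 76) (nat_lit 3540230669) (nat_lit 7) (nat_lit 4) (nat_lit 8) (nat_lit 5) (nat_lit 8) (nat_lit 4) (nat_lit 296) (nat_lit 233) (nat_lit 191)) (XT.lf (nat_lit 0) (nat_lit 6280151770) (nat_lit 76) (nat_lit 19910425524) (nat_lit 76) (nat_lit 1122463456) (nat_lit 7) (nat_lit 4) (nat_lit 8) (nat_lit 5) (nat_lit 8) (nat_lit 4) (nat_lit 297) (nat_lit 233) (nat_lit 190))) (XT.nd (nat_lit 78) (nat_lit 0) (nat_lit 0) (XT.lf (nat_lit 0) (nat_lit 1336905543) (nat_lit 152) (nat_lit 16172439485) (nat_lit 76) (nat_lit 10987363298) (nat_lit 6) (nat_lit 5) (nat_lit 8) (nat_lit 5) (nat_lit 7) (nat_lit 4) (nat_lit 298) (nat_lit 233) (nat_lit 189)) (XT.lf (nat_lit 0) (nat_lit 3849178402) (nat_lit 152) (nat_lit 11141455155) (nat_lit 76) (nat_lit 14749696660) (nat_lit 6) (nat_lit 5) (nat_lit 8) (nat_lit 5) (nat_lit 7) (nat_lit 4) (nat_lit 299) (nat_lit 233) (nat_lit 188)))))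 (XT.nd (nat_lit 312) (nat_lit 76) (nat_lit 0) (XT.nd (nat_lit 156) (nat_lit 76) (nat_lit 0) (XT.nd (nat_lit 78) (nat_lit 0) (nat_lit 0) (XT.lf (nat_lit 0) (nat_lit 6456262561) (nat_lit 152) (nat_lit 5910432656) (nat_lit 76) (nat_lit 18681048450) (nat_lit 6) (nat_lit 5) (nat_lit 8) (nat_lit 5) (nat_lit 7) (nat_lit 4) (nat_lit 300) (nat_lit 233) (nat_lit 187)) (XT.lf (nat_lit 0) (nat_lit 9164365366) (nat_lit 152) (nat_lit 466917173) (nat_lit 76) (nat_lit 22790779029) (nat_lit 6) (nat_lit 5) (nat_lit 8) (nat_lit 5) (nat_lit 7) (nat_lit 4) (nat_lit 301) (nat_lit 233) (nat_lit 186))) (XT.nd (nat_lit 78) (nat_lit 0) (nat_lit 0) (XT.lf (nat_lit 0) (nat_lit 5374055380) (nat_lit 76) (nat_lit 6689783364) (nat_lit 152) (nat_lit 21798522153) (nat_lit 5) (nat_lit 5) (nat_lit 6) (nat_lit 5) (nat_lit 7) (nat_lit 4) (nat_lit 302) (nat_lit 233) (nat_lit 185)) (XT.lf (nat_lit 0) (nat_lit 11477318413)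 (nat_lit 76) (nat_lit 3611548928) (nat_lit 152) (nat_lit 20286839543) (nat_lit 5) (nat_lit 5) (nat_lit 6) (nat_lit 5) (nat_lit 7) (nat_lit 4) (nat_lit 303) (nat_lit 233) (nat_lit 184)))) (XT.nd (nat_lit 156) (nat_lit 76) (nat_lit 0) (XT.nd (nat_lit 78) (nat_lit 0) (nat_lit 0) (XT.lf (nat_lit 0) (nat_lit 17841965115) (nat_lit 76) (nat_lit 397157571) (nat_lit 152) (nat_lit 18726956595) (nat_lit 5) (nat_lit 5) (nat_lit 6) (nat_lit 5) (nat_lit 7) (nat_lit 4) (nat_lit 304) (nat_lit 233) (nat_lit 183)) (XT.lf (nat_lit 0) (nat_lit 21568335581) (nat_lit 152) (nat_lit 14200345477) (nat_lit 0) (nat_lit 2866272119) (nat_lit 5) (nat_lit 5) (nat_lit 7) (nat_lit 4) (nat_lit 5) (nat_lit 4) (nat_lit 305) (nat_lit 233) (nat_lit 182))) (XT.nd (nat_lit 78) (nat_lit 76) (nat_lit 0) (XT.lf (nat_lit 0) (nat_lit 25046663315) (nat_lit 152) (nat_lit 9077589736) (nat_lit 0) (nat_lit 6263937502) (nat_lit 5)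 (nat_lit 5) (nat_lit 7) (nat_lit 4) (nat_lit 5) (nat_lit 4) (nat_lit 306) (nat_lit 233) (nat_lit 181)) (XT.nd (nat_lit 78) (nat_lit 76) (nat_lit 0) (XT.lf (nat_lit 0) (nat_lit 28676186879) (nat_lit 152) (nat_lit 3737449164) (nat_lit 0) (nat_lit 9816639779) (nat_lit 5) (nat_lit 5) (nat_lit 7) (nat_lit 4) (nat_lit 5) (nat_lit 4) (nat_lit 307) (nat_lit 233) (nat_lit 180)) (XT.lf (nat_lit 0) (nat_lit 1893391202) (nat_lit 76) (nat_lit 30601717934) (nat_lit 76) (nat_lit 11669007704) (nat_lit 4) (nat_lit 4) (nat_lit 5) (nat_lit 5) (nat_lit 5) (nat_lit 4) (nat_lit 308) (nat_lit 233) (nat_lit 179))))))))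
noncomputable def xc88 : XT := (XT.nd (nat_lit 1248) (nat_lit 76) (nat_lit 0) (XT.nd (nat_lit 624) (nat_lit 76) (nat_lit 0) (XT.nd (nat_lit 312) (nat_lit 76) (nat_lit 0) (XT.nd (nat_lit 156) (nat_lit 0) (nat_lit 0) (XT.nd (nat_lit 78) (nat_lit 0) (nat_lit 0) (XT.lf (nat_lit 0) (nat_lit 7899217090) (nat_lit 76) (nat_lit 28647880776) (nat_lit 76) (nat_lit 9645491374) (nat_lit 4) (nat_lit 4) (nat_lit 5) (nat_lit 5) (nat_lit 5) (nat_lit 4) (nat_lit 309) (nat_lit 233) (nat_lit 178)) (XT.lf (nat_lit 0) (nat_lit 14170751135) (nat_lit 76) (nat_lit 26610768085) (nat_lit 76) (nat_lit 7542017567) (nat_lit 4) (nat_lit 4) (nat_lit 5) (nat_lit 5) (nat_lit 5) (nat_lit 4) (nat_lit 310) (nat_lit 233) (nat_lit 177))) (XT.nd (nat_lit 78) (nat_lit 0) (nat_lit 0) (XT.lf (nat_lit 0) (nat_lit 20722925562) (nat_lit 76) (nat_lit 24485529593) (nat_lit 76) (nat_lit 5353578011) (nat_lit 4) (nat_lit 4) (nat_lit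 5) (nat_lit 5) (nat_lit 5) (nat_lit 4) (nat_lit 311) (nat_lit 233) (nat_lit 176)) (XT.lf (nat_lit 0) (nat_lit 27571340787) (nat_lit 76) (nat_lit 22267105207) (nat_lit 76) (nat_lit 3074962138) (nat_lit 4) (nat_lit 4) (nat_lit 5) (nat_lit 5) (nat_lit 5) (nat_lit 4) (nat_lit 312) (nat_lit 233) (nat_lit 175)))) (XT.nd (nat_lit 156) (nat_lit 0) (nat_lit 0) (XT.nd (nat_lit 78) (nat_lit 76) (nat_lit 0) (XT.lf (nat_lit 0) (nat_lit 34732302559) (nat_lit 76) (nat_lit 19950212966) (nat_lit 76) (nat_lit 700744670) (nat_lit 4) (nat_lit 4) (nat_lit 5) (nat_lit 5) (nat_lit 5) (nat_lit 4) (nat_lit 313) (nat_lit 233) (nat_lit 174)) (XT.lf (nat_lit 0) (nat_lit 1717924934) (nat_lit 152) (nat_lit 15782317635) (nat_lit 76) (nat_lit 40475841963) (nat_lit 3) (nat_lit 5) (nat_lit 5) (nat_lit 5) (nat_lit 4) (nat_lit 4) (nat_lit 314) (nat_lit 233) (nat_lit 173))) (XT.nd (nat_lit 78) (nat_lit 0) (nat_lit 0)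 (XT.lf (nat_lit 0) (nat_lit 4217885386) (nat_lit 152) (nat_lit 10709394379) (nat_lit 76) (nat_lit 45771532819) (nat_lit 3) (nat_lit 5) (nat_lit 5) (nat_lit 5) (nat_lit 4) (nat_lit 4) (nat_lit 315) (nat_lit 233) (nat_lit 172)) (XT.lf (nat_lit 0) (nat_lit 6827517179) (nat_lit 152) (nat_lit 5409168890) (nat_lit 76) (nat_lit 51321787996) (nat_lit 3) (nat_lit 5) (nat_lit 5) (nat_lit 5) (nat_lit 4) (nat_lit 4) (nat_lit 316) (nat_lit 233) (nat_lit 171))))) (XT.nd (nat_lit 312) (nat_lit 0) (nat_lit 0) (XT.nd (nat_lit 156) (nat_lit 0) (nat_lit 0) (XT.nd (nat_lit 78) (nat_lit 0) (nat_lit 0) (XT.lf (nat_lit 0) (nat_lit 135309152) (nat_lit 76) (nat_lit 9419837124) (nat_lit 152) (nat_lit 57006625789) (nat_lit 2) (nat_lit 5) (nat_lit 3) (nat_lit 5) (nat_lit 4) (nat_lit 4) (nat_lit 317) (nat_lit 233) (nat_lit 170)) (XT.lf (nat_lit 0) (nat_lit 6120120438) (nat_lit 76) (nat_lit 6376356131) (nat_lit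 152) (nat_lit 57214920247) (nat_lit 2) (nat_lit 5) (nat_lit 3) (nat_lit 5) (nat_lit 4) (nat_lit 4) (nat_lit 318) (nat_lit 233) (nat_lit 169))) (XT.nd (nat_lit 78) (nat_lit 0) (nat_lit 0) (XT.lf (nat_lit 0) (nat_lit 12380662965) (nat_lit 76) (nat_lit 3190603601) (nat_lit 152) (nat_lit 57447943093) (nat_lit 2) (nat_lit 5) (nat_lit 3) (nat_lit 5) (nat_lit 4) (nat_lit 4) (nat_lit 319) (nat_lit 233) (nat_lit 168)) (XT.lf (nat_lit 0) (nat_lit 18789101140) (nat_lit 152) (nat_lit 57563507496) (nat_lit 0) (nat_lit 140364506) (nat_lit 2) (nat_lit 5) (nat_lit 4) (nat_lit 4) (nat_lit 2) (nat_lit 4) (nat_lit 320) (nat_lit 233) (nat_lit 167)))) (XT.nd (nat_lit 156) (nat_lit 0) (nat_lit 0) (XT.nd (nat_lit 78) (nat_lit 0) (nat_lit 0) (XT.lf (nat_lit 0) (nat_lit 22207650408) (nat_lit 152) (nat_lit 54408845869) (nat_lit 0) (nat_lit 3521961421) (nat_lit 2) (nat_lit 5) (nat_lit 4) (nat_lit 4) (nat_lit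 2) (nat_lit 4) (nat_lit 321) (nat_lit 233) (nat_lit 166)) (XT.lf (nat_lit 0) (nat_lit 25785239511) (nat_lit 152) (nat_lit 51117236449) (nat_lit 0) (nat_lit 7064357807) (nat_lit 2) (nat_lit 5) (nat_lit 4) (nat_lit 4) (nat_lit 2) (nat_lit 4) (nat_lit 322) (nat_lit 233) (nat_lit 165))) (XT.nd (nat_lit 78) (nat_lit 0) (nat_lit 0) (XT.lf (nat_lit 0) (nat_lit 29530386517) (nat_lit 152) (nat_lit 47680842073) (nat_lit 0) (nat_lit 10775987940) (nat_lit 2) (nat_lit 5) (nat_lit 4) (nat_lit 4) (nat_lit 2) (nat_lit 4) (nat_lit 323) (nat_lit 233) (nat_lit 164)) (XT.lf (nat_lit 0) (nat_lit 33452008443) (nat_lit 152) (nat_lit 44091480848) (nat_lit 0) (nat_lit 14665689035) (nat_lit 2) (nat_lit 5) (nat_lit 4) (nat_lit 4) (nat_lit 2) (nat_lit 4) (nat_lit 324) (nat_lit 233) (nat_lit 163)))))) (XT.nd (nat_lit 624) (nat_lit 76) (nat_lit 0) (XT.nd (nat_lit 312) (nat_lit 0) (nat_lit 0) (XT.nd (nat_lit 156)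 (nat_lit 0) (nat_lit 0) (XT.nd (nat_lit 78) (nat_lit 0) (nat_lit 0) (XT.lf (nat_lit 0) (nat_lit 37559442485) (nat_lit 152) (nat_lit 40340606676) (nat_lit 0) (nat_lit 18742722285) (nat_lit 2) (nat_lit 5) (nat_lit 4) (nat_lit 4) (nat_lit 2) (nat_lit 4) (nat_lit 325) (nat_lit 233) (nat_lit 162)) (XT.lf (nat_lit 0) (nat_lit 41862468246) (nat_lit 152) (nat_lit 36419288906) (nat_lit 0) (nat_lit 23016794911) (nat_lit 2) (nat_lit 5) (nat_lit 4) (nat_lit 4) (nat_lit 2) (nat_lit 4) (nat_lit 326) (nat_lit 233) (nat_lit 161))) (XT.nd (nat_lit 78) (nat_lit 0) (nat_lit 0) (XT.lf (nat_lit 0) (nat_lit 46371331027) (nat_lit 152) (nat_lit 32318191064) (nat_lit 0) (nat_lit 27498083278) (nat_lit 2) (nat_lit 5) (nat_lit 4) (nat_lit 4) (nat_lit 2) (nat_lit 4) (nat_lit 327) (nat_lit 233) (nat_lit 160)) (XT.lf (nat_lit 0) (nat_lit 51096766216) (nat_lit 152) (nat_lit 28027548634) (nat_lit 0) (nat_lit 32197257119)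 (nat_lit 2) (nat_lit 5) (nat_lit 4) (nat_lit 4) (nat_lit 2) (nat_lit 4) (nat_lit 328) (nat_lit 233) (nat_lit 159)))) (XT.nd (nat_lit 156) (nat_lit 0) (nat_lit 0) (XT.nd (nat_lit 78) (nat_lit 0) (nat_lit 0) (XT.lf (nat_lit 0) (nat_lit 56050024847) (nat_lit 152) (nat_lit 23537145800) (nat_lit 0) (nat_lit 37125504944) (nat_lit 2) (nat_lit 5) (nat_lit 4) (nat_lit 4) (nat_lit 2) (nat_lit 4) (nat_lit 329) (nat_lit 233) (nat_lit 158)) (XT.lf (nat_lit 0) (nat_lit 61242900395) (nat_lit 152) (nat_lit 18836291126) (nat_lit 0) (nat_lit 42294560676) (nat_lit 2) (nat_lit 5) (nat_lit 4) (nat_lit 4) (nat_lit 2) (nat_lit 4) (nat_lit 330) (nat_lit 233) (nat_lit 157))) (XT.nd (nat_lit 78) (nat_lit 0) (nat_lit 0) (XT.lf (nat_lit 0) (nat_lit 66687756848) (nat_lit 152) (nat_lit 13913792102) (nat_lit 0) (nat_lit 47716731590) (nat_lit 2) (nat_lit 5) (nat_lit 4) (nat_lit 4) (nat_lit 2) (nat_lit 4) (nat_lit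 331) (nat_lit 233) (nat_lit 156)) (XT.lf (nat_lit 0) (nat_lit 72397558151) (nat_lit 152) (nat_lit 8757928491) (nat_lit 0) (nat_lit 53404927618) (nat_lit 2) (nat_lit 5) (nat_lit 4) (nat_lit 4) (nat_lit 2) (nat_lit 4) (nat_lit 332) (nat_lit 233) (nat_lit 155))))) (XT.nd (nat_lit 312) (nat_lit 0) (nat_lit 0) (XT.nd (nat_lit 156) (nat_lit 0) (nat_lit 0) (XT.nd (nat_lit 78) (nat_lit 76) (nat_lit 0) (XT.lf (nat_lit 0) (nat_lit 78385899069) (nat_lit 152) (nat_lit 3356424427) (nat_lit 0) (nat_lit 59372692083) (nat_lit 2) (nat_lit 5) (nat_lit 4) (nat_lit 4) (nat_lit 2) (nat_lit 4) (nat_lit 333) (nat_lit 233) (nat_lit 154)) (XT.lf (nat_lit 0) (nat_lit 2379747596) (nat_lit 76) (nat_lit 82324444488) (nat_lit 76) (nat_lit 63291640880) (nat_lit 1) (nat_lit 4) (nat_lit 2) (nat_lit 5) (nat_lit 2) (nat_lit 4) (nat_lit 334) (nat_lit 233) (nat_lit 153))) (XT.nd (nat_lit 78) (nat_lit 0) (nat_lit 0) (XT.lf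 (nat_lit 0) (nat_lit 8507868350) (nat_lit 76) (nat_lit 82880892021) (nat_lit 76) (nat_lit 63829424964) (nat_lit 1) (nat_lit 4) (nat_lit 2) (nat_lit 5) (nat_lit 2) (nat_lit 4) (nat_lit 335) (nat_lit 233) (nat_lit 152)) (XT.lf (nat_lit 0) (nat_lit 14931550046) (nat_lit 76) (nat_lit 83469833642) (nat_lit 76) (nat_lit 64400591872) (nat_lit 1) (nat_lit 4) (nat_lit 2) (nat_lit 5) (nat_lit 2) (nat_lit 4) (nat_lit 336) (nat_lit 233) (nat_lit 151)))) (XT.nd (nat_lit 156) (nat_lit 0) (nat_lit 0) (XT.nd (nat_lit 78) (nat_lit 0) (nat_lit 0) (XT.lf (nat_lit 0) (nat_lit 21666087167) (nat_lit 76) (nat_lit 84092671593) (nat_lit 76) (nat_lit 65006501525) (nat_lit 1) (nat_lit 4) (nat_lit 2) (nat_lit 5) (nat_lit 2) (nat_lit 4) (nat_lit 337) (nat_lit 233) (nat_lit 150)) (XT.lf (nat_lit 0) (nat_lit 28727514322) (nat_lit 76) (nat_lit 84750888822) (nat_lit 76) (nat_lit 65648596565) (nat_lit 1) (nat_lit 4)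 (nat_lit 2) (nat_lit 5) (nat_lit 2) (nat_lit 4) (nat_lit 338) (nat_lit 233) (nat_lit 149))) (XT.nd (nat_lit 78) (nat_lit 0) (nat_lit 0) (XT.lf (nat_lit 0) (nat_lit 36132644436) (nat_lit 76) (nat_lit 85446052512) (nat_lit 76) (nat_lit 66328405789) (nat_lit 1) (nat_lit 4) (nat_lit 2) (nat_lit 5) (nat_lit 2) (nat_lit 4) (nat_lit 339) (nat_lit 233) (nat_lit 148)) (XT.nd (nat_lit 78) (nat_lit 0) (nat_lit 0) (XT.lf (nat_lit 0) (nat_lit 43899108769) (nat_lit 76) (nat_lit 86179817816) (nat_lit 76) (nat_lit 67047547792) (nat_lit 1) (nat_lit 4) (nat_lit 2) (nat_lit 5) (nat_lit 2) (nat_lit 4) (nat_lit 340) (nat_lit 233) (nat_lit 147)) (XT.lf (nat_lit 0) (nat_lit 52045398903) (nat_lit 76) (nat_lit 86953931793) (nat_lit 76) (nat_lit 67807734816) (nat_lit 1) (nat_lit 4) (nat_lit 2) (nat_lit 5) (nat_lit 2) (nat_lit 4) (nat_lit 341) (nat_lit 233) (nat_lit 146))))))))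
noncomputable def xc89 : XT := (XT.nd (nat_lit 1326) (nat_lit 0) (nat_lit 0) (XT.nd (nat_lit 624) (nat_lit 0) (nat_lit 0) (XT.nd (nat_lit 312) (nat_lit 0) (nat_lit 0) (XT.nd (nat_lit 156) (nat_lit 0) (nat_lit 0) (XT.nd (nat_lit 78) (nat_lit 0) (nat_lit 0) (XT.lf (nat_lit 0) (nat_lit 60590910768) (nat_lit 76) (nat_lit 87770237572) (nat_lit 76) (nat_lit 68610776830) (nat_lit 1) (nat_lit 4) (nat_lit 2) (nat_lit 5) (nat_lit 2) (nat_lit 4) (nat_lit 342) (nat_lit 233) (nat_lit 145)) (XT.lf (nat_lit 0) (nat_lit 69555990820) (nat_lit 76) (nat_lit 88630678738) (nat_lit 76) (nat_lit 69458585839) (nat_lit 1) (nat_lit 4) (nat_lit 2) (nat_lit 5) (nat_lit 2) (nat_lit 4) (nat_lit 343) (nat_lit 233) (nat_lit 144))) (XT.nd (nat_lit 78) (nat_lit 0) (nat_lit 0) (XT.lf (nat_lit 0) (nat_lit 78961984487) (nat_lit 76) (nat_lit 89537303961) (nat_lit 76) (nat_lit 70353180436) (nat_lit 1) (nat_lit 4) (nat_lit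 2) (nat_lit 5) (nat_lit 2) (nat_lit 4) (nat_lit 344) (nat_lit 233) (nat_lit 143)) (XT.lf (nat_lit 0) (nat_lit 88831286994) (nat_lit 76) (nat_lit 90492271871) (nat_lit 76) (nat_lit 71296690608) (nat_lit 1) (nat_lit 4) (nat_lit 2) (nat_lit 5) (nat_lit 2) (nat_lit 4) (nat_lit 345) (nat_lit 233) (nat_lit 142)))) (XT.nd (nat_lit 156) (nat_lit 0) (nat_lit 0) (XT.nd (nat_lit 78) (nat_lit 0) (nat_lit 0) (XT.lf (nat_lit 0) (nat_lit 99187396678) (nat_lit 76) (nat_lit 91497856203) (nat_lit 76) (nat_lit 72291362808) (nat_lit 1) (nat_lit 4) (nat_lit 2) (nat_lit 5) (nat_lit 2) (nat_lit 4) (nat_lit 346) (nat_lit 233) (nat_lit 141)) (XT.lf (nat_lit 0) (nat_lit 110054970945) (nat_lit 76) (nat_lit 92556451205) (nat_lit 76) (nat_lit 73339565303) (nat_lit 1) (nat_lit 4) (nat_lit 2) (nat_lit 5) (nat_lit 2) (nat_lit 4) (nat_lit 347) (nat_lit 233) (nat_lit 140))) (XT.nd (nat_lit 78) (nat_lit 0) (nat_lit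 0) (XT.lf (nat_lit 0) (nat_lit 121459884971) (nat_lit 76) (nat_lit 93670577340) (nat_lit 76) (nat_lit 74443793813) (nat_lit 1) (nat_lit 4) (nat_lit 2) (nat_lit 5) (nat_lit 2) (nat_lit 4) (nat_lit 348) (nat_lit 233) (nat_lit 139)) (XT.lf (nat_lit 0) (nat_lit 133429293313) (nat_lit 76) (nat_lit 94842887290) (nat_lit 76) (nat_lit 75606677453) (nat_lit 1) (nat_lit 4) (nat_lit 2) (nat_lit 5) (nat_lit 2) (nat_lit 4) (nat_lit 349) (nat_lit 233) (nat_lit 138))))) (XT.nd (nat_lit 312) (nat_lit 0) (nat_lit 0) (XT.nd (nat_lit 156) (nat_lit 0) (nat_lit 0) (XT.nd (nat_lit 78) (nat_lit 0) (nat_lit 0) (XT.lf (nat_lit 0) (nat_lit 145991694562) (nat_lit 76) (nat_lit 96076172270) (nat_lit 76) (nat_lit 76830984995) (nat_lit 1) (nat_lit 4) (nat_lit 2) (nat_lit 5) (nat_lit 2) (nat_lit 4) (nat_lit 350) (nat_lit 233) (nat_lit 137)) (XT.lf (nat_lit 0) (nat_lit 159176999198) (nat_lit 76) (nat_lit 97373368672)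 (nat_lit 76) (nat_lit 78119631456) (nat_lit 1) (nat_lit 4) (nat_lit 2) (nat_lit 5) (nat_lit 2) (nat_lit 4) (nat_lit 351) (nat_lit 233) (nat_lit 136))) (XT.nd (nat_lit 78) (nat_lit 0) (nat_lit 0) (XT.lf (nat_lit 0) (nat_lit 173016600803) (nat_lit 76) (nat_lit 98737565059) (nat_lit 76) (nat_lit 79475685042) (nat_lit 1) (nat_lit 4) (nat_lit 2) (nat_lit 5) (nat_lit 2) (nat_lit 4) (nat_lit 352) (nat_lit 233) (nat_lit 135)) (XT.lf (nat_lit 0) (nat_lit 187543450809) (nat_lit 76) (nat_lit 100172009518) (nat_lit 76) (nat_lit 80902374451) (nat_lit 1) (nat_lit 4) (nat_lit 2) (nat_lit 5) (nat_lit 2) (nat_lit 4) (nat_lit 353) (nat_lit 233) (nat_lit 134)))) (XT.nd (nat_lit 156) (nat_lit 0) (nat_lit 0) (XT.nd (nat_lit 78) (nat_lit 0) (nat_lit 0) (XT.lf (nat_lit 0) (nat_lit 202792136955) (nat_lit 76) (nat_lit 101680117392) (nat_lit 76) (nat_lit 82403096565) (nat_lit 1) (nat_lit 4) (nat_lit 2) (nat_lit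 5) (nat_lit 2) (nat_lit 4) (nat_lit 354) (nat_lit 233) (nat_lit 133)) (XT.lf (nat_lit 0) (nat_lit 218798965636) (nat_lit 76) (nat_lit 103265479414) (nat_lit 76) (nat_lit 83981424530) (nat_lit 1) (nat_lit 4) (nat_lit 2) (nat_lit 5) (nat_lit 2) (nat_lit 4) (nat_lit 355) (nat_lit 233) (nat_lit 132))) (XT.nd (nat_lit 78) (nat_lit 0) (nat_lit 0) (XT.lf (nat_lit 0) (nat_lit 235602048350) (nat_lit 76) (nat_lit 104931870257) (nat_lit 76) (nat_lit 85641116270) (nat_lit 1) (nat_lit 4) (nat_lit 2) (nat_lit 5) (nat_lit 2) (nat_lit 4) (nat_lit 356) (nat_lit 233) (nat_lit 131)) (XT.nd (nat_lit 78) (nat_lit 0) (nat_lit 0) (XT.lf (nat_lit 0) (nat_lit 253241392435) (nat_lit 76) (nat_lit 106683257517) (nat_lit 76) (nat_lit 87386123433) (nat_lit 1) (nat_lit 4) (nat_lit 2) (nat_lit 5) (nat_lit 2) (nat_lit 4) (nat_lit 357) (nat_lit 233) (nat_lit 130)) (XT.lf (nat_lit 0) (nat_lit 271758996330) (nat_lit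 76) (nat_lit 108523811165) (nat_lit 76) (nat_lit 89220600797) (nat_lit 1) (nat_lit 4) (nat_lit 2) (nat_lit 5) (nat_lit 2) (nat_lit 4) (nat_lit 358) (nat_lit 233) (nat_lit 129))))))) (XT.nd (nat_lit 29640) (nat_lit 0) (nat_lit 2660) (XT.nd (nat_lit 29328) (nat_lit 0) (nat_lit 4712) (XT.nd (nat_lit 29172) (nat_lit 0) (nat_lit 5928) (XT.nd (nat_lit 78) (nat_lit 0) (nat_lit 0) (XT.lf (nat_lit 0) (nat_lit 291198949568) (nat_lit 76) (nat_lit 110457913469) (nat_lit 76) (nat_lit 91148916165) (nat_lit 1) (nat_lit 4) (nat_lit 2) (nat_lit 5) (nat_lit 2) (nat_lit 4) (nat_lit 359) (nat_lit 233) (nat_lit 128)) (XT.lf (nat_lit 0) (nat_lit 311607537753) (nat_lit 76) (nat_lit 112490169437) (nat_lit 76) (nat_lit 93175660764) (nat_lit 1) (nat_lit 4) (nat_lit 2) (nat_lit 5) (nat_lit 2) (nat_lit 4) (nat_lit 360) (nat_lit 233) (nat_lit 127))) (XT.nd (nat_lit 78) (nat_lit 532) (nat_lit 0) (XT.lf (nat_lit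 0) (nat_lit 3406502544) (nat_lit 380) (nat_lit 26846796) (nat_lit 380) (nat_lit 26846796) (nat_lit 86) (nat_lit 4) (nat_lit 91) (nat_lit 5) (nat_lit 91) (nat_lit 4) (nat_lit 252) (nat_lit 234) (nat_lit 234)) (XT.lf (nat_lit 0) (nat_lit 2761172674) (nat_lit 532) (nat_lit 3144562122) (nat_lit 0) (nat_lit 1100028145) (nat_lit 79) (nat_lit 5) (nat_lit 86) (nat_lit 4) (nat_lit 79) (nat_lit 4) (nat_lit 253) (nat_lit 234) (nat_lit 233)))) (XT.nd (nat_lit 156) (nat_lit 608) (nat_lit 0) (XT.nd (nat_lit 78) (nat_lit 76) (nat_lit 0) (XT.lf (nat_lit 0) (nat_lit 827932288) (nat_lit 532) (nat_lit 4759021776) (nat_lit 532) (nat_lit 1515834839) (nat_lit 72) (nat_lit 4) (nat_lit 79) (nat_lit 5) (nat_lit 79) (nat_lit 4) (nat_lit 254) (nat_lit 234) (nat_lit 232)) (XT.lf (nat_lit 0) (nat_lit 1218185923) (nat_lit 608) (nat_lit 2252612848) (nat_lit 76) (nat_lit 3738147118) (nat_lit 71) (nat_lit 5) (nat_lit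 79) (nat_lit 5) (nat_lit 72) (nat_lit 4) (nat_lit 255) (nat_lit 234) (nat_lit 231))) (XT.nd (nat_lit 78) (nat_lit 0) (nat_lit 0) (XT.lf (nat_lit 0) (nat_lit 1875548682) (nat_lit 608) (nat_lit 2056354621) (nat_lit 684) (nat_lit 3393457447) (nat_lit 63) (nat_lit 5) (nat_lit 71) (nat_lit 5) (nat_lit 72) (nat_lit 4) (nat_lit 256) (nat_lit 234) (nat_lit 230)) (XT.lf (nat_lit 0) (nat_lit 6160052783) (nat_lit 608) (nat_lit 528500187) (nat_lit 684) (nat_lit 764528106) (nat_lit 63) (nat_lit 5) (nat_lit 71) (nat_lit 5) (nat_lit 72) (nat_lit 4) (nat_lit 257) (nat_lit 234) (nat_lit 229))))) (XT.nd (nat_lit 312) (nat_lit 608) (nat_lit 0) (XT.nd (nat_lit 156) (nat_lit 684) (nat_lit 0) (XT.nd (nat_lit 78) (nat_lit 0) (nat_lit 0) (XT.lf (nat_lit 0) (nat_lit 1869544736) (nat_lit 760) (nat_lit 4598891395) (nat_lit 76) (nat_lit 1121082706) (nat_lit 53) (nat_lit 5) (nat_lit 63) (nat_lit 5) (nat_lit 54)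 (nat_lit 4) (nat_lit 258) (nat_lit 234) (nat_lit 228)) (XT.lf (nat_lit 0) (nat_lit 4517146367) (nat_lit 760) (nat_lit 351852453) (nat_lit 76) (nat_lit 2868508794) (nat_lit 53) (nat_lit 5) (nat_lit 63) (nat_lit 5) (nat_lit 54) (nat_lit 4) (nat_lit 259) (nat_lit 234) (nat_lit 227))) (XT.nd (nat_lit 78) (nat_lit 380) (nat_lit 0) (XT.lf (nat_lit 0) (nat_lit 4113511062) (nat_lit 304) (nat_lit 3130314094) (nat_lit 380) (nat_lit 652432682) (nat_lit 49) (nat_lit 5) (nat_lit 53) (nat_lit 5) (nat_lit 54) (nat_lit 4) (nat_lit 260) (nat_lit 234) (nat_lit 226)) (XT.lf (nat_lit 0) (nat_lit 611123839) (nat_lit 304) (nat_lit 1266579465) (nat_lit 380) (nat_lit 6189317386) (nat_lit 44) (nat_lit 5) (nat_lit 48) (nat_lit 5) (nat_lit 49) (nat_lit 5) (nat_lit 261) (nat_lit 234) (nat_lit 225)))) (XT.nd (nat_lit 156) (nat_lit 380) (nat_lit 0) (XT.nd (nat_lit 78) (nat_lit 228) (nat_lit 0) (XT.lf (nat_lit 0)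 (nat_lit 4475307403) (nat_lit 380) (nat_lit 3041731942) (nat_lit 76) (nat_lit 731205167) (nat_lit 44) (nat_lit 5) (nat_lit 49) (nat_lit 5) (nat_lit 45) (nat_lit 4) (nat_lit 262) (nat_lit 234) (nat_lit 224)) (XT.lf (nat_lit 0) (nat_lit 1494392451) (nat_lit 228) (nat_lit 5644871940) (nat_lit 304) (nat_lit 1303014812) (nat_lit 41) (nat_lit 5) (nat_lit 44) (nat_lit 5) (nat_lit 45) (nat_lit 4) (nat_lit 263) (nat_lit 234) (nat_lit 223))) (XT.nd (nat_lit 78) (nat_lit 304) (nat_lit 0) (XT.lf (nat_lit 0) (nat_lit 1194789473) (nat_lit 304) (nat_lit 2429338941) (nat_lit 76) (nat_lit 5024115538) (nat_lit 40) (nat_lit 5) (nat_lit 44) (nat_lit 5) (nat_lit 41) (nat_lit 5) (nat_lit 264) (nat_lit 234) (nat_lit 222)) (XT.nd (nat_lit 78) (nat_lit 0) (nat_lit 0) (XT.lf (nat_lit 0) (nat_lit 2243846944) (nat_lit 304) (nat_lit 1463288655) (nat_lit 380) (nat_lit 5160126470) (nat_lit 36) (nat_lit 5) (nat_lit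 40) (nat_lit 5) (nat_lit 41) (nat_lit 5) (nat_lit 265) (nat_lit 234) (nat_lit 221)) (XT.lf (nat_lit 0) (nat_lit 6300539027) (nat_lit 380) (nat_lit 1998247135) (nat_lit 76) (nat_lit 801144594) (nat_lit 36) (nat_lit 5) (nat_lit 41) (nat_lit 5) (nat_lit 37) (nat_lit 4) (nat_lit 266) (nat_lit 234) (nat_lit 220))))))))
noncomputable def xc90 : XT := (XT.nd (nat_lit 1326) (nat_lit 532) (nat_lit 0) (XT.nd (nat_lit 624) (nat_lit 760) (nat_lit 0) (XT.nd (nat_lit 312) (nat_lit 456) (nat_lit 0) (XT.nd (nat_lit 156) (nat_lit 228) (nat_lit 0) (XT.nd (nat_lit 78) (nat_lit 76) (nat_lit 0) (XT.lf (nat_lit 0) (nat_lit 2805061442) (nat_lit 228) (nat_lit 6192092429) (nat_lit 304) (nat_lit 348851146) (nat_lit 33) (nat_lit 5) (nat_lit 36) (nat_lit 5) (nat_lit 37) (nat_lit 4) (nat_lit 267) (nat_lit 234) (nat_lit 219)) (XT.lf (nat_lit 0) (nat_lit 2093927452) (nat_lit 304) (nat_lit 1840551800) (nat_lit 76)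 (nat_lit 5671529879) (nat_lit 32) (nat_lit 5) (nat_lit 36) (nat_lit 5) (nat_lit 33) (nat_lit 5) (nat_lit 268) (nat_lit 234) (nat_lit 218))) (XT.nd (nat_lit 78) (nat_lit 0) (nat_lit 0) (XT.lf (nat_lit 0) (nat_lit 3072735099) (nat_lit 228) (nat_lit 1533316150) (nat_lit 304) (nat_lit 5275117799) (nat_lit 29) (nat_lit 5) (nat_lit 32) (nat_lit 5) (nat_lit 33) (nat_lit 5) (nat_lit 269) (nat_lit 234) (nat_lit 217)) (XT.lf (nat_lit 0) (nat_lit 7203909106) (nat_lit 304) (nat_lit 2006065434) (nat_lit 76) (nat_lit 962475589) (nat_lit 29) (nat_lit 5) (nat_lit 33) (nat_lit 5) (nat_lit 30) (nat_lit 4) (nat_lit 270) (nat_lit 234) (nat_lit 216)))) (XT.nd (nat_lit 156) (nat_lit 228) (nat_lit 0) (XT.nd (nat_lit 78) (nat_lit 76) (nat_lit 0) (XT.lf (nat_lit 0) (nat_lit 2995553806) (nat_lit 152) (nat_lit 6925175438) (nat_lit 228) (nat_lit 558464513) (nat_lit 27) (nat_lit 5) (nat_lit 29) (nat_lit 5) (nat_lit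 30) (nat_lit 4) (nat_lit 271) (nat_lit 234) (nat_lit 215)) (XT.lf (nat_lit 0) (nat_lit 1861274785) (nat_lit 228) (nat_lit 2626869538) (nat_lit 76) (nat_lit 6314296022) (nat_lit 26) (nat_lit 5) (nat_lit 29) (nat_lit 5) (nat_lit 27) (nat_lit 5) (nat_lit 272) (nat_lit 234) (nat_lit 214))) (XT.nd (nat_lit 78) (nat_lit 0) (nat_lit 0) (XT.lf (nat_lit 0) (nat_lit 2434015040) (nat_lit 228) (nat_lit 1908884831) (nat_lit 304) (nat_lit 6800812327) (nat_lit 23) (nat_lit 5) (nat_lit 26) (nat_lit 5) (nat_lit 27) (nat_lit 5) (nat_lit 273) (nat_lit 234) (nat_lit 213)) (XT.lf (nat_lit 0) (nat_lit 6929586836) (nat_lit 304) (nat_lit 3783271114) (nat_lit 76) (nat_lit 790430225) (nat_lit 23) (nat_lit 5) (nat_lit 27) (nat_lit 5) (nat_lit 24) (nat_lit 4) (nat_lit 274) (nat_lit 234) (nat_lit 212))))) (XT.nd (nat_lit 312) (nat_lit 380) (nat_lit 0) (XT.nd (nat_lit 156) (nat_lit 152) (nat_lit 0) (XT.nd (nat_lit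 78) (nat_lit 76) (nat_lit 0) (XT.lf (nat_lit 0) (nat_lit 1295473459) (nat_lit 152) (nat_lit 8328591105) (nat_lit 228) (nat_lit 2258131337) (nat_lit 21) (nat_lit 5) (nat_lit 23) (nat_lit 5) (nat_lit 24) (nat_lit 4) (nat_lit 275) (nat_lit 234) (nat_lit 211)) (XT.lf (nat_lit 0) (nat_lit 160190066) (nat_lit 228) (nat_lit 5626241697) (nat_lit 76) (nat_lit 6494106316) (nat_lit 20) (nat_lit 5) (nat_lit 23) (nat_lit 5) (nat_lit 21) (nat_lit 5) (nat_lit 276) (nat_lit 234) (nat_lit 210))) (XT.nd (nat_lit 78) (nat_lit 152) (nat_lit 0) (XT.lf (nat_lit 0) (nat_lit 2554391951) (nat_lit 228) (nat_lit 554892027) (nat_lit 76) (nat_lit 9591358063) (nat_lit 20) (nat_lit 5) (nat_lit 23) (nat_lit 5) (nat_lit 21) (nat_lit 5) (nat_lit 277) (nat_lit 234) (nat_lit 209)) (XT.lf (nat_lit 0) (nat_lit 4829222240) (nat_lit 152) (nat_lit 248624555) (nat_lit 228) (nat_lit 8063654140) (nat_lit 18) (nat_lit 5) (nat_lit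 20) (nat_lit 5) (nat_lit 21) (nat_lit 5) (nat_lit 278) (nat_lit 234) (nat_lit 208)))) (XT.nd (nat_lit 156) (nat_lit 228) (nat_lit 0) (XT.nd (nat_lit 78) (nat_lit 152) (nat_lit 0) (XT.lf (nat_lit 0) (nat_lit 7715393441) (nat_lit 228) (nat_lit 3242086842) (nat_lit 76) (nat_lit 2647742613) (nat_lit 18) (nat_lit 5) (nat_lit 21) (nat_lit 5) (nat_lit 19) (nat_lit 4) (nat_lit 279) (nat_lit 234) (nat_lit 207)) (XT.lf (nat_lit 0) (nat_lit 2051000405) (nat_lit 152) (nat_lit 8408346413) (nat_lit 228) (nat_lit 3634263453) (nat_lit 16) (nat_lit 5) (nat_lit 18) (nat_lit 5) (nat_lit 19) (nat_lit 4) (nat_lit 280) (nat_lit 234) (nat_lit 206))) (XT.nd (nat_lit 78) (nat_lit 228) (nat_lit 0) (XT.lf (nat_lit 0) (nat_lit 7630603567) (nat_lit 152) (nat_lit 5704748127) (nat_lit 228) (nat_lit 1271518614) (nat_lit 16) (nat_lit 5) (nat_lit 18) (nat_lit 5) (nat_lit 19) (nat_lit 4) (nat_lit 281) (nat_lit 234)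 (nat_lit 205)) (XT.nd (nat_lit 78) (nat_lit 152) (nat_lit 0) (XT.lf (nat_lit 0) (nat_lit 1112345177) (nat_lit 228) (nat_lit 1763971315) (nat_lit 76) (nat_lit 12271626099) (nat_lit 15) (nat_lit 5) (nat_lit 18) (nat_lit 5) (nat_lit 16) (nat_lit 5) (nat_lit 282) (nat_lit 234) (nat_lit 204)) (XT.lf (nat_lit 0) (nat_lit 3577568945) (nat_lit 228) (nat_lit 11994389082) (nat_lit 76) (nat_lit 142992624) (nat_lit 13) (nat_lit 5) (nat_lit 16) (nat_lit 5) (nat_lit 14) (nat_lit 4) (nat_lit 283) (nat_lit 234) (nat_lit 203))))))) (XT.nd (nat_lit 624) (nat_lit 228) (nat_lit 0) (XT.nd (nat_lit 312) (nat_lit 228) (nat_lit 0) (XT.nd (nat_lit 156) (nat_lit 76) (nat_lit 0) (XT.nd (nat_lit 78) (nat_lit 0) (nat_lit 0) (XT.lf (nat_lit 0) (nat_lit 6188937217) (nat_lit 228) (nat_lit 6901228270) (nat_lit 76) (nat_lit 3219160701) (nat_lit 13) (nat_lit 5) (nat_lit 16) (nat_lit 5) (nat_lit 14) (nat_lit 4) (nat_lit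 284) (nat_lit 234) (nat_lit 202)) (XT.lf (nat_lit 0) (nat_lit 8878842611) (nat_lit 228) (nat_lit 1634678540) (nat_lit 76) (nat_lit 6422654475) (nat_lit 13) (nat_lit 5) (nat_lit 16) (nat_lit 5) (nat_lit 14) (nat_lit 4) (nat_lit 285) (nat_lit 234) (nat_lit 201))) (XT.nd (nat_lit 78) (nat_lit 0) (nat_lit 0) (XT.lf (nat_lit 0) (nat_lit 3944033205) (nat_lit 76) (nat_lit 7771233871) (nat_lit 152) (nat_lit 5878645517) (nat_lit 12) (nat_lit 5) (nat_lit 13) (nat_lit 5) (nat_lit 14) (nat_lit 4) (nat_lit 286) (nat_lit 234) (nat_lit 200)) (XT.lf (nat_lit 0) (nat_lit 9782282097) (nat_lit 76) (nat_lit 4890531899) (nat_lit 152) (nat_lit 3612896636) (nat_lit 12) (nat_lit 5) (nat_lit 13) (nat_lit 5) (nat_lit 14) (nat_lit 4) (nat_lit 287) (nat_lit 234) (nat_lit 199)))) (XT.nd (nat_lit 156) (nat_lit 0) (nat_lit 0) (XT.nd (nat_lit 78) (nat_lit 228) (nat_lit 0) (XT.lf (nat_lit 0) (nat_lit 15839918870)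 (nat_lit 76) (nat_lit 1892240494) (nat_lit 152) (nat_lit 1282375804) (nat_lit 12) (nat_lit 5) (nat_lit 13) (nat_lit 5) (nat_lit 14) (nat_lit 4) (nat_lit 288) (nat_lit 234) (nat_lit 198)) (XT.lf (nat_lit 0) (nat_lit 1140396071) (nat_lit 228) (nat_lit 17390604789) (nat_lit 76) (nat_lit 1247361113) (nat_lit 9) (nat_lit 5) (nat_lit 12) (nat_lit 5) (nat_lit 10) (nat_lit 4) (nat_lit 289) (nat_lit 234) (nat_lit 197))) (XT.nd (nat_lit 78) (nat_lit 0) (nat_lit 0) (XT.lf (nat_lit 0) (nat_lit 3682790000) (nat_lit 228) (nat_lit 12363576821) (nat_lit 76) (nat_lit 4530997773) (nat_lit 9) (nat_lit 5) (nat_lit 12) (nat_lit 5) (nat_lit 10) (nat_lit 4) (nat_lit 290) (nat_lit 234) (nat_lit 196)) (XT.lf (nat_lit 0) (nat_lit 6310317268) (nat_lit 228) (nat_lit 7153221718) (nat_lit 76) (nat_lit 7954986811) (nat_lit 9) (nat_lit 5) (nat_lit 12) (nat_lit 5) (nat_lit 10) (nat_lit 4) (nat_lit 291) (nat_lit 234)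 (nat_lit 195))))) (XT.nd (nat_lit 312) (nat_lit 152) (nat_lit 0) (XT.nd (nat_lit 156) (nat_lit 0) (nat_lit 0) (XT.nd (nat_lit 78) (nat_lit 76) (nat_lit 0) (XT.lf (nat_lit 0) (nat_lit 9029233894) (nat_lit 228) (nat_lit 1747133871) (nat_lit 76) (nat_lit 11527480582) (nat_lit 9) (nat_lit 5) (nat_lit 12) (nat_lit 5) (nat_lit 10) (nat_lit 4) (nat_lit 292) (nat_lit 234) (nat_lit 194)) (XT.lf (nat_lit 0) (nat_lit 3995437302) (nat_lit 76) (nat_lit 7912956158) (nat_lit 152) (nat_lit 11323927694) (nat_lit 8) (nat_lit 5) (nat_lit 9) (nat_lit 5) (nat_lit 10) (nat_lit 4) (nat_lit 293) (nat_lit 234) (nat_lit 193))) (XT.nd (nat_lit 78) (nat_lit 0) (nat_lit 0) (XT.lf (nat_lit 0) (nat_lit 10025088727) (nat_lit 76) (nat_lit 4898793669) (nat_lit 152) (nat_lit 9283810908) (nat_lit 8) (nat_lit 5) (nat_lit 9) (nat_lit 5) (nat_lit 10) (nat_lit 4) (nat_lit 294) (nat_lit 234) (nat_lit 192)) (XT.lf (nat_lit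 0) (nat_lit 16298408581) (nat_lit 76) (nat_lit 1756292277) (nat_lit 152) (nat_lit 7178995233) (nat_lit 8) (nat_lit 5) (nat_lit 9) (nat_lit 5) (nat_lit 10) (nat_lit 4) (nat_lit 295) (nat_lit 234) (nat_lit 191)))) (XT.nd (nat_lit 156) (nat_lit 76) (nat_lit 0) (XT.nd (nat_lit 78) (nat_lit 76) (nat_lit 0) (XT.lf (nat_lit 0) (nat_lit 21332066334) (nat_lit 152) (nat_lit 3506202197) (nat_lit 0) (nat_lit 1473315692) (nat_lit 8) (nat_lit 5) (nat_lit 10) (nat_lit 4) (nat_lit 8) (nat_lit 4) (nat_lit 296) (nat_lit 234) (nat_lit 190)) (XT.lf (nat_lit 0) (nat_lit 2181557911) (nat_lit 76) (nat_lit 22622127716) (nat_lit 76) (nat_lit 2638243292) (nat_lit 7) (nat_lit 4) (nat_lit 8) (nat_lit 5) (nat_lit 8) (nat_lit 4) (nat_lit 297) (nat_lit 234) (nat_lit 189))) (XT.nd (nat_lit 78) (nat_lit 76) (nat_lit 0) (XT.lf (nat_lit 0) (nat_lit 8222490102) (nat_lit 76) (nat_lit 20254028073) (nat_lit 76) (nat_lit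 150968619) (nat_lit 7) (nat_lit 4) (nat_lit 8) (nat_lit 5) (nat_lit 8) (nat_lit 4) (nat_lit 298) (nat_lit 234) (nat_lit 188)) (XT.nd (nat_lit 78) (nat_lit 0) (nat_lit 0) (XT.lf (nat_lit 0) (nat_lit 2351110645) (nat_lit 152) (nat_lit 15396782660) (nat_lit 76) (nat_lit 12124118826) (nat_lit 6) (nat_lit 5) (nat_lit 8) (nat_lit 5) (nat_lit 7) (nat_lit 4) (nat_lit 299) (nat_lit 234) (nat_lit 187)) (XT.lf (nat_lit 0) (nat_lit 4943884773) (nat_lit 152) (nat_lit 10189690961) (nat_lit 76) (nat_lit 16046598030) (nat_lit 6) (nat_lit 5) (nat_lit 8) (nat_lit 5) (nat_lit 7) (nat_lit 4) (nat_lit 300) (nat_lit 234) (nat_lit 186))))))))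
noncomputable def xc91 : XT := (XT.nd (nat_lit 1326) (nat_lit 76) (nat_lit 0) (XT.nd (nat_lit 624) (nat_lit 152) (nat_lit 0) (XT.nd (nat_lit 312) (nat_lit 0) (nat_lit 0) (XT.nd (nat_lit 156) (nat_lit 0) (nat_lit 0) (XT.nd (nat_lit 78) (nat_lit 76) (nat_lit 0) (XT.lf (nat_lit 0) (nat_lit 7638358977) (nat_lit 152) (nat_lit 4768966716) (nat_lit 76) (nat_lit 20147878526) (nat_lit 6) (nat_lit 5) (nat_lit 8) (nat_lit 5) (nat_lit 7) (nat_lit 4) (nat_lit 301) (nat_lit 234) (nat_lit 185)) (XT.lf (nat_lit 0) (nat_lit 907337012) (nat_lit 76) (nat_lit 9547777730) (nat_lit 152) (nat_lit 23544554330) (nat_lit 5) (nat_lit 5) (nat_lit 6) (nat_lit 5) (nat_lit 7) (nat_lit 4) (nat_lit 302) (nat_lit 234) (nat_lit 184))) (XT.nd (nat_lit 78) (nat_lit 0) (nat_lit 0) (XT.lf (nat_lit 0) (nat_lit 6989244200) (nat_lit 76) (nat_lit 6478204173) (nat_lit 152) (nat_lit 22046229667) (nat_lit 5) (nat_lit 5) (nat_lit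 6) (nat_lit 5) (nat_lit 7) (nat_lit 4) (nat_lit 303) (nat_lit 234) (nat_lit 183)) (XT.lf (nat_lit 0) (nat_lit 13333552002) (nat_lit 76) (nat_lit 3272061271) (nat_lit 152) (nat_lit 20499068574) (nat_lit 5) (nat_lit 5) (nat_lit 6) (nat_lit 5) (nat_lit 7) (nat_lit 4) (nat_lit 304) (nat_lit 234) (nat_lit 182)))) (XT.nd (nat_lit 156) (nat_lit 0) (nat_lit 0) (XT.nd (nat_lit 78) (nat_lit 0) (nat_lit 0) (XT.lf (nat_lit 0) (nat_lit 19878303506) (nat_lit 152) (nat_lit 18822324927) (nat_lit 0) (nat_lit 75779051) (nat_lit 5) (nat_lit 5) (nat_lit 7) (nat_lit 4) (nat_lit 5) (nat_lit 4) (nat_lit 305) (nat_lit 234) (nat_lit 181)) (XT.lf (nat_lit 0) (nat_lit 23345548041) (nat_lit 152) (nat_lit 13718473067) (nat_lit 0) (nat_lit 3466202299) (nat_lit 5) (nat_lit 5) (nat_lit 7) (nat_lit 4) (nat_lit 5) (nat_lit 4) (nat_lit 306) (nat_lit 234) (nat_lit 180))) (XT.nd (nat_lit 78) (nat_lit 0) (nat_lit 0) (XT.lf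 (nat_lit 0) (nat_lit 26964516177) (nat_lit 152) (nat_lit 8396336191) (nat_lit 0) (nat_lit 7012007305) (nat_lit 5) (nat_lit 5) (nat_lit 7) (nat_lit 4) (nat_lit 5) (nat_lit 4) (nat_lit 307) (nat_lit 234) (nat_lit 179)) (XT.lf (nat_lit 0) (nat_lit 30743824505) (nat_lit 152) (nat_lit 2843242544) (nat_lit 0) (nat_lit 10721636460) (nat_lit 5) (nat_lit 5) (nat_lit 7) (nat_lit 4) (nat_lit 5) (nat_lit 4) (nat_lit 308) (nat_lit 234) (nat_lit 178))))) (XT.nd (nat_lit 312) (nat_lit 76) (nat_lit 0) (XT.nd (nat_lit 156) (nat_lit 0) (nat_lit 0) (XT.nd (nat_lit 78) (nat_lit 0) (nat_lit 0) (XT.lf (nat_lit 0) (nat_lit 3051703081) (nat_lit 76) (nat_lit 31688413932) (nat_lit 76) (nat_lit 11599864772) (nat_lit 4) (nat_lit 4) (nat_lit 5) (nat_lit 5) (nat_lit 5) (nat_lit 4) (nat_lit 309) (nat_lit 234) (nat_lit 177)) (XT.lf (nat_lit 0) (nat_lit 9307170629) (nat_lit 76) (nat_lit 29657998721) (nat_lit 76) (nat_lit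 9506248498) (nat_lit 4) (nat_lit 4) (nat_lit 5) (nat_lit 5) (nat_lit 5) (nat_lit 4) (nat_lit 310) (nat_lit 234) (nat_lit 176))) (XT.nd (nat_lit 78) (nat_lit 0) (nat_lit 0) (XT.lf (nat_lit 0) (nat_lit 15844043630) (nat_lit 76) (nat_lit 27539138781) (nat_lit 76) (nat_lit 7327197069) (nat_lit 4) (nat_lit 4) (nat_lit 5) (nat_lit 5) (nat_lit 5) (nat_lit 4) (nat_lit 311) (nat_lit 234) (nat_lit 175)) (XT.lf (nat_lit 0) (nat_lit 22677886067) (nat_lit 76) (nat_lit 25326789207) (nat_lit 76) (nat_lit 5057522268) (nat_lit 4) (nat_lit 4) (nat_lit 5) (nat_lit 5) (nat_lit 5) (nat_lit 4) (nat_lit 312) (nat_lit 234) (nat_lit 174)))) (XT.nd (nat_lit 156) (nat_lit 76) (nat_lit 0) (XT.nd (nat_lit 78) (nat_lit 0) (nat_lit 0) (XT.lf (nat_lit 0) (nat_lit 29824968995) (nat_lit 76) (nat_lit 23015682501) (nat_lit 76) (nat_lit 2691820108) (nat_lit 4) (nat_lit 4) (nat_lit 5) (nat_lit 5) (nat_lit 5) (nat_lit 4)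 (nat_lit 313) (nat_lit 234) (nat_lit 173)) (XT.lf (nat_lit 0) (nat_lit 37302309276) (nat_lit 76) (nat_lit 20600316027) (nat_lit 76) (nat_lit 224457963) (nat_lit 4) (nat_lit 4) (nat_lit 5) (nat_lit 5) (nat_lit 5) (nat_lit 4) (nat_lit 314) (nat_lit 234) (nat_lit 172))) (XT.nd (nat_lit 78) (nat_lit 0) (nat_lit 0) (XT.lf (nat_lit 0) (nat_lit 2275210115) (nat_lit 152) (nat_lit 15761197014) (nat_lit 76) (nat_lit 42813968203) (nat_lit 3) (nat_lit 5) (nat_lit 5) (nat_lit 5) (nat_lit 4) (nat_lit 4) (nat_lit 315) (nat_lit 234) (nat_lit 171)) (XT.nd (nat_lit 78) (nat_lit 0) (nat_lit 0) (XT.lf (nat_lit 0) (nat_lit 4877721497) (nat_lit 152) (nat_lit 10473210285) (nat_lit 76) (nat_lit 48359475309) (nat_lit 3) (nat_lit 5) (nat_lit 5) (nat_lit 5) (nat_lit 4) (nat_lit 4) (nat_lit 316) (nat_lit 234) (nat_lit 170)) (XT.lf (nat_lit 0) (nat_lit 7596456697) (nat_lit 152) (nat_lit 4944718942) (nat_lit 76)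 (nat_lit 54172987728) (nat_lit 3) (nat_lit 5) (nat_lit 5) (nat_lit 5) (nat_lit 4) (nat_lit 4) (nat_lit 317) (nat_lit 234) (nat_lit 169))))))) (XT.nd (nat_lit 624) (nat_lit 0) (nat_lit 0) (XT.nd (nat_lit 312) (nat_lit 0) (nat_lit 0) (XT.nd (nat_lit 156) (nat_lit 0) (nat_lit 0) (XT.nd (nat_lit 78) (nat_lit 0) (nat_lit 0) (XT.lf (nat_lit 0) (nat_lit 865129641) (nat_lit 76) (nat_lit 9586266349) (nat_lit 152) (nat_lit 59416724612) (nat_lit 2) (nat_lit 5) (nat_lit 3) (nat_lit 5) (nat_lit 4) (nat_lit 4) (nat_lit 318) (nat_lit 234) (nat_lit 168)) (XT.lf (nat_lit 0) (nat_lit 7114750299) (nat_lit 76) (nat_lit 6405114289) (nat_lit 152) (nat_lit 59656397244) (nat_lit 2) (nat_lit 5) (nat_lit 3) (nat_lit 5) (nat_lit 4) (nat_lit 4) (nat_lit 319) (nat_lit 234) (nat_lit 167))) (XT.nd (nat_lit 78) (nat_lit 0) (nat_lit 0) (XT.lf (nat_lit 0) (nat_lit 13655528341) (nat_lit 76) (nat_lit 3073886497) (nat_lit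 152) (nat_lit 59921036424) (nat_lit 2) (nat_lit 5) (nat_lit 3) (nat_lit 5) (nat_lit 4) (nat_lit 4) (nat_lit 320) (nat_lit 234) (nat_lit 166)) (XT.lf (nat_lit 0) (nat_lit 20094173281) (nat_lit 152) (nat_lit 59802408476) (nat_lit 0) (nat_lit 402054775) (nat_lit 2) (nat_lit 5) (nat_lit 4) (nat_lit 4) (nat_lit 2) (nat_lit 4) (nat_lit 321) (nat_lit 234) (nat_lit 165)))) (XT.nd (nat_lit 156) (nat_lit 0) (nat_lit 0) (XT.nd (nat_lit 78) (nat_lit 0) (nat_lit 0) (XT.lf (nat_lit 0) (nat_lit 23666239675) (nat_lit 152) (nat_lit 56520455405) (nat_lit 0) (nat_lit 3940604296) (nat_lit 2) (nat_lit 5) (nat_lit 4) (nat_lit 4) (nat_lit 2) (nat_lit 4) (nat_lit 322) (nat_lit 234) (nat_lit 164)) (XT.lf (nat_lit 0) (nat_lit 27406126959) (nat_lit 152) (nat_lit 53093257551) (nat_lit 0) (nat_lit 7648570749) (nat_lit 2) (nat_lit 5) (nat_lit 4) (nat_lit 4) (nat_lit 2) (nat_lit 4) (nat_lit 323) (nat_lit 234) (nat_lit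 163))) (XT.nd (nat_lit 78) (nat_lit 0) (nat_lit 0) (XT.lf (nat_lit 0) (nat_lit 31322739626) (nat_lit 152) (nat_lit 49512654918) (nat_lit 0) (nat_lit 11534782624) (nat_lit 2) (nat_lit 5) (nat_lit 4) (nat_lit 4) (nat_lit 2) (nat_lit 4) (nat_lit 324) (nat_lit 234) (nat_lit 162)) (XT.lf (nat_lit 0) (nat_lit 35425402945) (nat_lit 152) (nat_lit 45770122264) (nat_lit 0) (nat_lit 15608492808) (nat_lit 2) (nat_lit 5) (nat_lit 4) (nat_lit 4) (nat_lit 2) (nat_lit 4) (nat_lit 325) (nat_lit 234) (nat_lit 161))))) (XT.nd (nat_lit 312) (nat_lit 0) (nat_lit 0) (XT.nd (nat_lit 156) (nat_lit 0) (nat_lit 0) (XT.nd (nat_lit 78) (nat_lit 0) (nat_lit 0) (XT.lf (nat_lit 0) (nat_lit 39723885161) (nat_lit 152) (nat_lit 41856748794) (nat_lit 0) (nat_lit 19879400609) (nat_lit 2) (nat_lit 5) (nat_lit 4) (nat_lit 4) (nat_lit 2) (nat_lit 4) (nat_lit 326) (nat_lit 234) (nat_lit 160)) (XT.lf (nat_lit 0) (nat_lit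 44228420756) (nat_lit 152) (nat_lit 37763216955) (nat_lit 0) (nat_lit 24357674857) (nat_lit 2) (nat_lit 5) (nat_lit 4) (nat_lit 4) (nat_lit 2) (nat_lit 4) (nat_lit 327) (nat_lit 234) (nat_lit 159))) (XT.nd (nat_lit 78) (nat_lit 0) (nat_lit 0) (XT.lf (nat_lit 0) (nat_lit 48949734814) (nat_lit 152) (nat_lit 33479780240) (nat_lit 0) (nat_lit 29053978109) (nat_lit 2) (nat_lit 5) (nat_lit 4) (nat_lit 4) (nat_lit 2) (nat_lit 4) (nat_lit 328) (nat_lit 234) (nat_lit 158)) (XT.lf (nat_lit 0) (nat_lit 53899068560) (nat_lit 152) (nat_lit 28996239993) (nat_lit 0) (nat_lit 33979492039) (nat_lit 2) (nat_lit 5) (nat_lit 4) (nat_lit 4) (nat_lit 2) (nat_lit 4) (nat_lit 329) (nat_lit 234) (nat_lit 157)))) (XT.nd (nat_lit 156) (nat_lit 0) (nat_lit 0) (XT.nd (nat_lit 78) (nat_lit 0) (nat_lit 0) (XT.lf (nat_lit 0) (nat_lit 59088206122) (nat_lit 152) (nat_lit 24301921115) (nat_lit 0) (nat_lit 39145944061)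 (nat_lit 2) (nat_lit 5) (nat_lit 4) (nat_lit 4) (nat_lit 2) (nat_lit 4) (nat_lit 330) (nat_lit 234) (nat_lit 156)) (XT.lf (nat_lit 0) (nat_lit 64529502588) (nat_lit 152) (nat_lit 19385646659) (nat_lit 0) (nat_lit 44565635253) (nat_lit 2) (nat_lit 5) (nat_lit 4) (nat_lit 4) (nat_lit 2) (nat_lit 4) (nat_lit 331) (nat_lit 234) (nat_lit 155))) (XT.nd (nat_lit 78) (nat_lit 0) (nat_lit 0) (XT.lf (nat_lit 0) (nat_lit 70235913427) (nat_lit 152) (nat_lit 14235711208) (nat_lit 0) (nat_lit 50251469639) (nat_lit 2) (nat_lit 5) (nat_lit 4) (nat_lit 4) (nat_lit 2) (nat_lit 4) (nat_lit 332) (nat_lit 234) (nat_lit 154)) (XT.nd (nat_lit 78) (nat_lit 0) (nat_lit 0) (XT.lf (nat_lit 0) (nat_lit 76221025332) (nat_lit 152) (nat_lit 8839853012) (nat_lit 0) (nat_lit 56216984922) (nat_lit 2) (nat_lit 5) (nat_lit 4) (nat_lit 4) (nat_lit 2) (nat_lit 4) (nat_lit 333) (nat_lit 234) (nat_lit 153)) (XT.lf (nat_lit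 0) (nat_lit 82499088568) (nat_lit 152) (nat_lit 3185224788) (nat_lit 0) (nat_lit 62476384709) (nat_lit 2) (nat_lit 5) (nat_lit 4) (nat_lit 4) (nat_lit 2) (nat_lit 4) (nat_lit 334) (nat_lit 234) (nat_lit 152))))))))
noncomputable def xc92 : XT := (XT.nd (nat_lit 1248) (nat_lit 0) (nat_lit 0) (XT.nd (nat_lit 624) (nat_lit 0) (nat_lit 0) (XT.nd (nat_lit 312) (nat_lit 0) (nat_lit 0) (XT.nd (nat_lit 156) (nat_lit 0) (nat_lit 0) (XT.nd (nat_lit 78) (nat_lit 0) (nat_lit 0) (XT.lf (nat_lit 0) (nat_lit 2832287758) (nat_lit 76) (nat_lit 86296983096) (nat_lit 76) (nat_lit 66256504524) (nat_lit 1) (nat_lit 4) (nat_lit 2) (nat_lit 5) (nat_lit 2) (nat_lit 4) (nat_lit 335) (nat_lit 234) (nat_lit 151)) (XT.lf (nat_lit 0) (nat_lit 9250931083) (nat_lit 76) (nat_lit 86888095082) (nat_lit 76) (nat_lit 66830688212) (nat_lit 1) (nat_lit 4) (nat_lit 2) (nat_lit 5) (nat_lit 2) (nat_lit 4) (nat_lit 336) (nat_lit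 234) (nat_lit 150))) (XT.nd (nat_lit 78) (nat_lit 0) (nat_lit 0) (XT.lf (nat_lit 0) (nat_lit 15980669755) (nat_lit 76) (nat_lit 87513000048) (nat_lit 76) (nat_lit 67439470989) (nat_lit 1) (nat_lit 4) (nat_lit 2) (nat_lit 5) (nat_lit 2) (nat_lit 4) (nat_lit 337) (nat_lit 234) (nat_lit 149)) (XT.lf (nat_lit 0) (nat_lit 23037526959) (nat_lit 76) (nat_lit 88173185863) (nat_lit 76) (nat_lit 68084302338) (nat_lit 1) (nat_lit 4) (nat_lit 2) (nat_lit 5) (nat_lit 2) (nat_lit 4) (nat_lit 338) (nat_lit 234) (nat_lit 148)))) (XT.nd (nat_lit 156) (nat_lit 0) (nat_lit 0) (XT.nd (nat_lit 78) (nat_lit 0) (nat_lit 0) (XT.lf (nat_lit 0) (nat_lit 30438304738) (nat_lit 76) (nat_lit 88870224396) (nat_lit 76) (nat_lit 68766717571) (nat_lit 1) (nat_lit 4) (nat_lit 2) (nat_lit 5) (nat_lit 2) (nat_lit 4) (nat_lit 339) (nat_lit 234) (nat_lit 147)) (XT.lf (nat_lit 0) (nat_lit 38200623990) (nat_lit 76) (nat_lit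 89605775265) (nat_lit 76) (nat_lit 69488341486) (nat_lit 1) (nat_lit 4) (nat_lit 2) (nat_lit 5) (nat_lit 2) (nat_lit 4) (nat_lit 340) (nat_lit 234) (nat_lit 146))) (XT.nd (nat_lit 78) (nat_lit 0) (nat_lit 0) (XT.lf (nat_lit 0) (nat_lit 46342966429) (nat_lit 76) (nat_lit 90381589780) (nat_lit 76) (nat_lit 70250892236) (nat_lit 1) (nat_lit 4) (nat_lit 2) (nat_lit 5) (nat_lit 2) (nat_lit 4) (nat_lit 341) (nat_lit 234) (nat_lit 145)) (XT.lf (nat_lit 0) (nat_lit 54884718583) (nat_lit 76) (nat_lit 91199515119) (nat_lit 76) (nat_lit 71056185418) (nat_lit 1) (nat_lit 4) (nat_lit 2) (nat_lit 5) (nat_lit 2) (nat_lit 4) (nat_lit 342) (nat_lit 234) (nat_lit 144))))) (XT.nd (nat_lit 312) (nat_lit 0) (nat_lit 0) (XT.nd (nat_lit 156) (nat_lit 0) (nat_lit 0) (XT.nd (nat_lit 78) (nat_lit 0) (nat_lit 0) (XT.lf (nat_lit 0) (nat_lit 63846217959) (nat_lit 76) (nat_lit 92061498723) (nat_lit 76) (nat_lit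 71906138397) (nat_lit 1) (nat_lit 4) (nat_lit 2) (nat_lit 5) (nat_lit 2) (nat_lit 4) (nat_lit 343) (nat_lit 234) (nat_lit 143)) (XT.lf (nat_lit 0) (nat_lit 73248801458) (nat_lit 76) (nat_lit 92969592935) (nat_lit 76) (nat_lit 72802774870) (nat_lit 1) (nat_lit 4) (nat_lit 2) (nat_lit 5) (nat_lit 2) (nat_lit 4) (nat_lit 344) (nat_lit 234) (nat_lit 142))) (XT.nd (nat_lit 78) (nat_lit 0) (nat_lit 0) (XT.lf (nat_lit 0) (nat_lit 83114856185) (nat_lit 76) (nat_lit 93925959882) (nat_lit 76) (nat_lit 73748229685) (nat_lit 1) (nat_lit 4) (nat_lit 2) (nat_lit 5) (nat_lit 2) (nat_lit 4) (nat_lit 345) (nat_lit 234) (nat_lit 141)) (XT.lf (nat_lit 0) (nat_lit 93467872747) (nat_lit 76) (nat_lit 94932876630) (nat_lit 76) (nat_lit 74744753926) (nat_lit 1) (nat_lit 4) (nat_lit 2) (nat_lit 5) (nat_lit 2) (nat_lit 4) (nat_lit 346) (nat_lit 234) (nat_lit 140)))) (XT.nd (nat_lit 156) (nat_lit 0) (nat_lit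 0) (XT.nd (nat_lit 78) (nat_lit 0) (nat_lit 0) (XT.lf (nat_lit 0) (nat_lit 104332501182) (nat_lit 76) (nat_lit 95992740599) (nat_lit 76) (nat_lit 75794720270) (nat_lit 1) (nat_lit 4) (nat_lit 2) (nat_lit 5) (nat_lit 2) (nat_lit 4) (nat_lit 347) (nat_lit 234) (nat_lit 139)) (XT.lf (nat_lit 0) (nat_lit 115734609654) (nat_lit 76) (nat_lit 97108075275) (nat_lit 76) (nat_lit 76900628636) (nat_lit 1) (nat_lit 4) (nat_lit 2) (nat_lit 5) (nat_lit 2) (nat_lit 4) (nat_lit 348) (nat_lit 234) (nat_lit 138))) (XT.nd (nat_lit 78) (nat_lit 0) (nat_lit 0) (XT.lf (nat_lit 0) (nat_lit 127701346040) (nat_lit 76) (nat_lit 98281536217) (nat_lit 76) (nat_lit 78065112140) (nat_lit 1) (nat_lit 4) (nat_lit 2) (nat_lit 5) (nat_lit 2) (nat_lit 4) (nat_lit 349) (nat_lit 234) (nat_lit 137)) (XT.lf (nat_lit 0) (nat_lit 140261202570) (nat_lit 76) (nat_lit 99515917379) (nat_lit 76) (nat_lit 79290943360) (nat_lit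 1) (nat_lit 4) (nat_lit 2) (nat_lit 5) (nat_lit 2) (nat_lit 4) (nat_lit 350) (nat_lit 234) (nat_lit 136)))))) (XT.nd (nat_lit 624) (nat_lit 0) (nat_lit 0) (XT.nd (nat_lit 312) (nat_lit 0) (nat_lit 0) (XT.nd (nat_lit 156) (nat_lit 0) (nat_lit 0) (XT.nd (nat_lit 78) (nat_lit 0) (nat_lit 0) (XT.lf (nat_lit 0) (nat_lit 153444083663) (nat_lit 76) (nat_lit 100814157764) (nat_lit 76) (nat_lit 80581040944) (nat_lit 1) (nat_lit 4) (nat_lit 2) (nat_lit 5) (nat_lit 2) (nat_lit 4) (nat_lit 351) (nat_lit 234) (nat_lit 135)) (XT.lf (nat_lit 0) (nat_lit 167281377132) (nat_lit 76) (nat_lit 102179348420) (nat_lit 76) (nat_lit 81938476552) (nat_lit 1) (nat_lit 4) (nat_lit 2) (nat_lit 5) (nat_lit 2) (nat_lit 4) (nat_lit 352) (nat_lit 234) (nat_lit 134))) (XT.nd (nat_lit 78) (nat_lit 0) (nat_lit 0) (XT.lf (nat_lit 0) (nat_lit 181806028913) (nat_lit 76) (nat_lit 103614739802) (nat_lit 76) (nat_lit 83366482173)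 (nat_lit 1) (nat_lit 4) (nat_lit 2) (nat_lit 5) (nat_lit 2) (nat_lit 4) (nat_lit 353) (nat_lit 234) (nat_lit 133)) (XT.lf (nat_lit 0) (nat_lit 197052621512) (nat_lit 76) (nat_lit 105123749507) (nat_lit 76) (nat_lit 84868457821) (nat_lit 1) (nat_lit 4) (nat_lit 2) (nat_lit 5) (nat_lit 2) (nat_lit 4) (nat_lit 354) (nat_lit 234) (nat_lit 132)))) (XT.nd (nat_lit 156) (nat_lit 0) (nat_lit 0) (XT.nd (nat_lit 78) (nat_lit 0) (nat_lit 0) (XT.lf (nat_lit 0) (nat_lit 213057456339) (nat_lit 76) (nat_lit 106709970417) (nat_lit 76) (nat_lit 86447979629) (nat_lit 1) (nat_lit 4) (nat_lit 2) (nat_lit 5) (nat_lit 2) (nat_lit 4) (nat_lit 355) (nat_lit 234) (nat_lit 131)) (XT.lf (nat_lit 0) (nat_lit 229858640143) (nat_lit 76) (nat_lit 108377179248) (nat_lit 76) (nat_lit 88108808362) (nat_lit 1) (nat_lit 4) (nat_lit 2) (nat_lit 5) (nat_lit 2) (nat_lit 4) (nat_lit 356) (nat_lit 234) (nat_lit 130))) (XT.nd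 (nat_lit 78) (nat_lit 0) (nat_lit 0) (XT.lf (nat_lit 0) (nat_lit 247496175743) (nat_lit 76) (nat_lit 110129345544) (nat_lit 76) (nat_lit 89854898375) (nat_lit 1) (nat_lit 4) (nat_lit 2) (nat_lit 5) (nat_lit 2) (nat_lit 4) (nat_lit 357) (nat_lit 234) (nat_lit 129)) (XT.lf (nat_lit 0) (nat_lit 266012057271) (nat_lit 76) (nat_lit 111970641131) (nat_lit 76) (nat_lit 91690407024) (nat_lit 1) (nat_lit 4) (nat_lit 2) (nat_lit 5) (nat_lit 2) (nat_lit 4) (nat_lit 358) (nat_lit 234) (nat_lit 128))))) (XT.nd (nat_lit 29250) (nat_lit 0) (nat_lit 4636) (XT.nd (nat_lit 29094) (nat_lit 0) (nat_lit 6384) (XT.nd (nat_lit 29016) (nat_lit 0) (nat_lit 6840) (XT.lf (nat_lit 0) (nat_lit 285450370160) (nat_lit 76) (nat_lit 113905450044) (nat_lit 76) (nat_lit 93619704569) (nat_lit 1) (nat_lit 4) (nat_lit 2) (nat_lit 5) (nat_lit 2) (nat_lit 4) (nat_lit 359) (nat_lit 234) (nat_lit 127)) (XT.lf (nat_lit 0) (nat_lit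 1473510935) (nat_lit 380) (nat_lit 437678144) (nat_lit 0) (nat_lit 1473510935) (nat_lit 91) (nat_lit 5) (nat_lit 96) (nat_lit 4) (nat_lit 91) (nat_lit 4) (nat_lit 250) (nat_lit 235) (nat_lit 235))) (XT.nd (nat_lit 78) (nat_lit 76) (nat_lit 0) (XT.lf (nat_lit 0) (nat_lit 2890451476) (nat_lit 380) (nat_lit 2891136835) (nat_lit 380) (nat_lit 1059724993) (nat_lit 86) (nat_lit 4) (nat_lit 91) (nat_lit 5) (nat_lit 91) (nat_lit 4) (nat_lit 251) (nat_lit 235) (nat_lit 234)) (XT.lf (nat_lit 0) (nat_lit 1648074610) (nat_lit 456) (nat_lit 197060644) (nat_lit 76) (nat_lit 5078033884) (nat_lit 85) (nat_lit 5) (nat_lit 91) (nat_lit 5) (nat_lit 86) (nat_lit 4) (nat_lit 252) (nat_lit 235) (nat_lit 233)))) (XT.nd (nat_lit 156) (nat_lit 684) (nat_lit 0) (XT.nd (nat_lit 78) (nat_lit 608) (nat_lit 0) (XT.lf (nat_lit 0) (nat_lit 3725406219) (nat_lit 456) (nat_lit 646381265) (nat_lit 532) (nat_lit 2641684387)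 (nat_lit 79) (nat_lit 5) (nat_lit 85) (nat_lit 5) (nat_lit 86) (nat_lit 4) (nat_lit 253) (nat_lit 235) (nat_lit 232)) (XT.lf (nat_lit 0) (nat_lit 2516834) (nat_lit 608) (nat_lit 6488936235) (nat_lit 76) (nat_lit 623520705) (nat_lit 71) (nat_lit 5) (nat_lit 79) (nat_lit 5) (nat_lit 72) (nat_lit 4) (nat_lit 254) (nat_lit 235) (nat_lit 231))) (XT.nd (nat_lit 78) (nat_lit 684) (nat_lit 0) (XT.lf (nat_lit 0) (nat_lit 2621999464) (nat_lit 608) (nat_lit 2553955943) (nat_lit 76) (nat_lit 2047726979) (nat_lit 71) (nat_lit 5) (nat_lit 79) (nat_lit 5) (nat_lit 72) (nat_lit 4) (nat_lit 255) (nat_lit 235) (nat_lit 230)) (XT.nd (nat_lit 78) (nat_lit 76) (nat_lit 0) (XT.lf (nat_lit 0) (nat_lit 1501670536) (nat_lit 608) (nat_lit 3765330974) (nat_lit 684) (nat_lit 2076944695) (nat_lit 63) (nat_lit 5) (nat_lit 71) (nat_lit 5) (nat_lit 72) (nat_lit 4) (nat_lit 256) (nat_lit 235) (nat_lit 229)) (XT.lf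 (nat_lit 0) (nat_lit 472125564) (nat_lit 684) (nat_lit 1756132752) (nat_lit 76) (nat_lit 5246461694) (nat_lit 62) (nat_lit 5) (nat_lit 71) (nat_lit 5) (nat_lit 63) (nat_lit 5) (nat_lit 257) (nat_lit 235) (nat_lit 228))))))))
noncomputable def xc93 : XT := (XT.nd (nat_lit 1326) (nat_lit 1064) (nat_lit 0) (XT.nd (nat_lit 624) (nat_lit 988) (nat_lit 0) (XT.nd (nat_lit 312) (nat_lit 912) (nat_lit 0) (XT.nd (nat_lit 156) (nat_lit 380) (nat_lit 0) (XT.nd (nat_lit 78) (nat_lit 0) (nat_lit 0) (XT.lf (nat_lit 0) (nat_lit 2457843175) (nat_lit 684) (nat_lit 537958301) (nat_lit 760) (nat_lit 4619412766) (nat_lit 53) (nat_lit 5) (nat_lit 62) (nat_lit 5) (nat_lit 63) (nat_lit 5) (nat_lit 258) (nat_lit 235) (nat_lit 227)) (XT.lf (nat_lit 0) (nat_lit 5577674141) (nat_lit 760) (nat_lit 963243048) (nat_lit 76) (nat_lit 1225912213) (nat_lit 53) (nat_lit 5) (nat_lit 63) (nat_lit 5) (nat_lit 54) (nat_lit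 4) (nat_lit 259) (nat_lit 235) (nat_lit 226))) (XT.nd (nat_lit 78) (nat_lit 0) (nat_lit 0) (XT.lf (nat_lit 0) (nat_lit 299861775) (nat_lit 380) (nat_lit 4512425952) (nat_lit 76) (nat_lit 3116643964) (nat_lit 48) (nat_lit 5) (nat_lit 53) (nat_lit 5) (nat_lit 49) (nat_lit 5) (nat_lit 260) (nat_lit 235) (nat_lit 225)) (XT.lf (nat_lit 0) (nat_lit 2745511992) (nat_lit 380) (nat_lit 207831270) (nat_lit 76) (nat_lit 5149315805) (nat_lit 48) (nat_lit 5) (nat_lit 53) (nat_lit 5) (nat_lit 49) (nat_lit 5) (nat_lit 261) (nat_lit 235) (nat_lit 224)))) (XT.nd (nat_lit 156) (nat_lit 380) (nat_lit 0) (XT.nd (nat_lit 78) (nat_lit 228) (nat_lit 0) (XT.lf (nat_lit 0) (nat_lit 4334499240) (nat_lit 304) (nat_lit 941068574) (nat_lit 380) (nat_lit 3011972152) (nat_lit 44) (nat_lit 5) (nat_lit 48) (nat_lit 5) (nat_lit 49) (nat_lit 5) (nat_lit 262) (nat_lit 235) (nat_lit 223)) (XT.lf (nat_lit 0) (nat_lit 507746900)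 (nat_lit 228) (nat_lit 7351682011) (nat_lit 304) (nat_lit 626416885) (nat_lit 41) (nat_lit 5) (nat_lit 44) (nat_lit 5) (nat_lit 45) (nat_lit 4) (nat_lit 263) (nat_lit 235) (nat_lit 222))) (XT.nd (nat_lit 78) (nat_lit 304) (nat_lit 0) (XT.lf (nat_lit 0) (nat_lit 1800175323) (nat_lit 304) (nat_lit 3529502740) (nat_lit 76) (nat_lit 3364323725) (nat_lit 40) (nat_lit 5) (nat_lit 44) (nat_lit 5) (nat_lit 41) (nat_lit 5) (nat_lit 264) (nat_lit 235) (nat_lit 221)) (XT.lf (nat_lit 0) (nat_lit 1048876569) (nat_lit 304) (nat_lit 3197791169) (nat_lit 380) (nat_lit 4669874931) (nat_lit 36) (nat_lit 5) (nat_lit 40) (nat_lit 5) (nat_lit 41) (nat_lit 5) (nat_lit 265) (nat_lit 235) (nat_lit 220))))) (XT.nd (nat_lit 312) (nat_lit 456) (nat_lit 0) (XT.nd (nat_lit 156) (nat_lit 304) (nat_lit 0) (XT.nd (nat_lit 78) (nat_lit 228) (nat_lit 0) (XT.lf (nat_lit 0) (nat_lit 5864633216) (nat_lit 304) (nat_lit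 916698041) (nat_lit 380) (nat_lit 2371036218) (nat_lit 36) (nat_lit 5) (nat_lit 40) (nat_lit 5) (nat_lit 41) (nat_lit 5) (nat_lit 266) (nat_lit 235) (nat_lit 219)) (XT.lf (nat_lit 0) (nat_lit 1430654687) (nat_lit 228) (nat_lit 7967738288) (nat_lit 304) (nat_lit 4235108) (nat_lit 33) (nat_lit 5) (nat_lit 36) (nat_lit 5) (nat_lit 37) (nat_lit 4) (nat_lit 267) (nat_lit 235) (nat_lit 218))) (XT.nd (nat_lit 78) (nat_lit 228) (nat_lit 0) (XT.lf (nat_lit 0) (nat_lit 2384077502) (nat_lit 304) (nat_lit 3332938778) (nat_lit 76) (nat_lit 3947707989) (nat_lit 32) (nat_lit 5) (nat_lit 36) (nat_lit 5) (nat_lit 33) (nat_lit 5) (nat_lit 268) (nat_lit 235) (nat_lit 217)) (XT.lf (nat_lit 0) (nat_lit 1475929185) (nat_lit 228) (nat_lit 3353973764) (nat_lit 304) (nat_lit 5113476429) (nat_lit 29) (nat_lit 5) (nat_lit 32) (nat_lit 5) (nat_lit 33) (nat_lit 5) (nat_lit 269) (nat_lit 235) (nat_lit 216)))) (XT.nd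 (nat_lit 156) (nat_lit 304) (nat_lit 0) (XT.nd (nat_lit 78) (nat_lit 152) (nat_lit 0) (XT.lf (nat_lit 0) (nat_lit 6533427452) (nat_lit 228) (nat_lit 838592797) (nat_lit 304) (nat_lit 2865598925) (nat_lit 29) (nat_lit 5) (nat_lit 32) (nat_lit 5) (nat_lit 33) (nat_lit 5) (nat_lit 270) (nat_lit 235) (nat_lit 215)) (XT.lf (nat_lit 0) (nat_lit 1201240764) (nat_lit 152) (nat_lit 8808008993) (nat_lit 228) (nat_lit 539256091) (nat_lit 27) (nat_lit 5) (nat_lit 29) (nat_lit 5) (nat_lit 30) (nat_lit 4) (nat_lit 271) (nat_lit 235) (nat_lit 214))) (XT.nd (nat_lit 78) (nat_lit 228) (nat_lit 0) (XT.lf (nat_lit 0) (nat_lit 1841656270) (nat_lit 228) (nat_lit 4543220363) (nat_lit 76) (nat_lit 4488919726) (nat_lit 26) (nat_lit 5) (nat_lit 29) (nat_lit 5) (nat_lit 27) (nat_lit 5) (nat_lit 272) (nat_lit 235) (nat_lit 213)) (XT.nd (nat_lit 78) (nat_lit 0) (nat_lit 0) (XT.lf (nat_lit 0) (nat_lit 402720783)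 (nat_lit 228) (nat_lit 3852453855) (nat_lit 304) (nat_lit 6963440160) (nat_lit 23) (nat_lit 5) (nat_lit 26) (nat_lit 5) (nat_lit 27) (nat_lit 5) (nat_lit 273) (nat_lit 235) (nat_lit 212)) (XT.lf (nat_lit 0) (nat_lit 5652985105) (nat_lit 228) (nat_lit 1140701114) (nat_lit 304) (nat_lit 4787047848) (nat_lit 23) (nat_lit 5) (nat_lit 26) (nat_lit 5) (nat_lit 27) (nat_lit 5) (nat_lit 274) (nat_lit 235) (nat_lit 211))))))) (XT.nd (nat_lit 624) (nat_lit 456) (nat_lit 0) (XT.nd (nat_lit 312) (nat_lit 228) (nat_lit 0) (XT.nd (nat_lit 156) (nat_lit 228) (nat_lit 0) (XT.nd (nat_lit 78) (nat_lit 152) (nat_lit 0) (XT.lf (nat_lit 0) (nat_lit 9416185231) (nat_lit 304) (nat_lit 921054288) (nat_lit 76) (nat_lit 1626129327) (nat_lit 23) (nat_lit 5) (nat_lit 27) (nat_lit 5) (nat_lit 24) (nat_lit 4) (nat_lit 275) (nat_lit 235) (nat_lit 210)) (XT.lf (nat_lit 0) (nat_lit 4362411701) (nat_lit 152) (nat_lit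 7827936915) (nat_lit 228) (nat_lit 174009909) (nat_lit 21) (nat_lit 5) (nat_lit 23) (nat_lit 5) (nat_lit 24) (nat_lit 4) (nat_lit 276) (nat_lit 235) (nat_lit 209))) (XT.nd (nat_lit 78) (nat_lit 152) (nat_lit 0) (XT.lf (nat_lit 0) (nat_lit 2193637072) (nat_lit 228) (nat_lit 2974401425) (nat_lit 76) (nat_lit 7618276717) (nat_lit 20) (nat_lit 5) (nat_lit 23) (nat_lit 5) (nat_lit 21) (nat_lit 5) (nat_lit 277) (nat_lit 235) (nat_lit 208)) (XT.lf (nat_lit 0) (nat_lit 2283942221) (nat_lit 152) (nat_lit 2362816164) (nat_lit 228) (nat_lit 8584037803) (nat_lit 18) (nat_lit 5) (nat_lit 20) (nat_lit 5) (nat_lit 21) (nat_lit 5) (nat_lit 278) (nat_lit 235) (nat_lit 207)))) (XT.nd (nat_lit 156) (nat_lit 228) (nat_lit 0) (XT.nd (nat_lit 78) (nat_lit 0) (nat_lit 0) (XT.lf (nat_lit 0) (nat_lit 7221263269) (nat_lit 228) (nat_lit 5888621075) (nat_lit 76) (nat_lit 587886275) (nat_lit 18) (nat_lit 5) (nat_lit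 21) (nat_lit 5) (nat_lit 19) (nat_lit 4) (nat_lit 279) (nat_lit 235) (nat_lit 206)) (XT.lf (nat_lit 0) (nat_lit 9904591633) (nat_lit 228) (nat_lit 704004762) (nat_lit 76) (nat_lit 3580688452) (nat_lit 18) (nat_lit 5) (nat_lit 21) (nat_lit 5) (nat_lit 19) (nat_lit 4) (nat_lit 280) (nat_lit 235) (nat_lit 205))) (XT.nd (nat_lit 78) (nat_lit 76) (nat_lit 0) (XT.lf (nat_lit 0) (nat_lit 4810185453) (nat_lit 152) (nat_lit 7931157195) (nat_lit 228) (nat_lit 1963255981) (nat_lit 16) (nat_lit 5) (nat_lit 18) (nat_lit 5) (nat_lit 19) (nat_lit 4) (nat_lit 281) (nat_lit 235) (nat_lit 204)) (XT.lf (nat_lit 0) (nat_lit 415657783) (nat_lit 228) (nat_lit 4712425014) (nat_lit 76) (nat_lit 10119565195) (nat_lit 15) (nat_lit 5) (nat_lit 18) (nat_lit 5) (nat_lit 16) (nat_lit 5) (nat_lit 282) (nat_lit 235) (nat_lit 203))))) (XT.nd (nat_lit 312) (nat_lit 228) (nat_lit 0) (XT.nd (nat_lit 156) (nat_lit 76)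 (nat_lit 0) (XT.nd (nat_lit 78) (nat_lit 0) (nat_lit 0) (XT.lf (nat_lit 0) (nat_lit 636596120) (nat_lit 152) (nat_lit 2167991999) (nat_lit 228) (nat_lit 13013961258) (nat_lit 13) (nat_lit 5) (nat_lit 15) (nat_lit 5) (nat_lit 16) (nat_lit 5) (nat_lit 283) (nat_lit 235) (nat_lit 202)) (XT.lf (nat_lit 0) (nat_lit 5356726842) (nat_lit 228) (nat_lit 10094587489) (nat_lit 76) (nat_lit 964646967) (nat_lit 13) (nat_lit 5) (nat_lit 16) (nat_lit 5) (nat_lit 14) (nat_lit 4) (nat_lit 284) (nat_lit 235) (nat_lit 201))) (XT.nd (nat_lit 78) (nat_lit 76) (nat_lit 0) (XT.lf (nat_lit 0) (nat_lit 8022459744) (nat_lit 228) (nat_lit 4865793449) (nat_lit 76) (nat_lit 4155837508) (nat_lit 13) (nat_lit 5) (nat_lit 16) (nat_lit 5) (nat_lit 14) (nat_lit 4) (nat_lit 285) (nat_lit 235) (nat_lit 200)) (XT.lf (nat_lit 0) (nat_lit 568936319) (nat_lit 76) (nat_lit 10214231748) (nat_lit 152) (nat_lit 6922513353) (nat_lit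 12) (nat_lit 5) (nat_lit 13) (nat_lit 5) (nat_lit 14) (nat_lit 4) (nat_lit 286) (nat_lit 235) (nat_lit 199)))) (XT.nd (nat_lit 156) (nat_lit 228) (nat_lit 0) (XT.nd (nat_lit 78) (nat_lit 0) (nat_lit 0) (XT.lf (nat_lit 0) (nat_lit 6371807375) (nat_lit 76) (nat_lit 7346430100) (nat_lit 152) (nat_lit 4680430566) (nat_lit 12) (nat_lit 5) (nat_lit 13) (nat_lit 5) (nat_lit 14) (nat_lit 4) (nat_lit 287) (nat_lit 235) (nat_lit 198)) (XT.lf (nat_lit 0) (nat_lit 12395750972) (nat_lit 76) (nat_lit 4360424718) (nat_lit 152) (nat_lit 2372448870) (nat_lit 12) (nat_lit 5) (nat_lit 13) (nat_lit 5) (nat_lit 14) (nat_lit 4) (nat_lit 288) (nat_lit 235) (nat_lit 197))) (XT.nd (nat_lit 78) (nat_lit 152) (nat_lit 0) (XT.lf (nat_lit 0) (nat_lit 6705222) (nat_lit 152) (nat_lit 1242287287) (nat_lit 76) (nat_lit 18648291055) (nat_lit 11) (nat_lit 5) (nat_lit 13) (nat_lit 5) (nat_lit 12) (nat_lit 5) (nat_lit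 289) (nat_lit 235) (nat_lit 196)) (XT.nd (nat_lit 78) (nat_lit 0) (nat_lit 0) (XT.lf (nat_lit 0) (nat_lit 2488752362) (nat_lit 228) (nat_lit 16167974178) (nat_lit 76) (nat_lit 2042630220) (nat_lit 9) (nat_lit 5) (nat_lit 12) (nat_lit 5) (nat_lit 10) (nat_lit 4) (nat_lit 290) (nat_lit 235) (nat_lit 195)) (XT.lf (nat_lit 0) (nat_lit 5096773774) (nat_lit 228) (nat_lit 10989221519) (nat_lit 76) (nat_lit 5455548663) (nat_lit 9) (nat_lit 5) (nat_lit 12) (nat_lit 5) (nat_lit 10) (nat_lit 4) (nat_lit 291) (nat_lit 235) (nat_lit 194))))))))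
noncomputable def xc94 : XT := (XT.nd (nat_lit 1326) (nat_lit 228) (nat_lit 0) (XT.nd (nat_lit 624) (nat_lit 76) (nat_lit 0) (XT.nd (nat_lit 312) (nat_lit 152) (nat_lit 0) (XT.nd (nat_lit 156) (nat_lit 76) (nat_lit 0) (XT.nd (nat_lit 78) (nat_lit 0) (nat_lit 0) (XT.lf (nat_lit 0) (nat_lit 7797113393) (nat_lit 228) (nat_lit 5613231239) (nat_lit 76) (nat_lit 9017499010) (nat_lit 9) (nat_lit 5) (nat_lit 12) (nat_lit 5) (nat_lit 10) (nat_lit 4) (nat_lit 292) (nat_lit 235) (nat_lit 193)) (XT.lf (nat_lit 0) (nat_lit 10596200599) (nat_lit 228) (nat_lit 27203360) (nat_lit 76) (nat_lit 12736962095) (nat_lit 9) (nat_lit 5) (nat_lit 12) (nat_lit 5) (nat_lit 10) (nat_lit 4) (nat_lit 293) (nat_lit 235) (nat_lit 192))) (XT.nd (nat_lit 78) (nat_lit 0) (nat_lit 0) (XT.lf (nat_lit 0) (nat_lit 5973346578) (nat_lit 76) (nat_lit 7620613988) (nat_lit 152) (nat_lit 10742707884) (nat_lit 8) (nat_lit 5) (nat_lit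 9) (nat_lit 5) (nat_lit 10) (nat_lit 4) (nat_lit 294) (nat_lit 235) (nat_lit 191)) (XT.lf (nat_lit 0) (nat_lit 12219807365) (nat_lit 76) (nat_lit 4488504801) (nat_lit 152) (nat_lit 8655224126) (nat_lit 8) (nat_lit 5) (nat_lit 9) (nat_lit 5) (nat_lit 10) (nat_lit 4) (nat_lit 295) (nat_lit 235) (nat_lit 190)))) (XT.nd (nat_lit 156) (nat_lit 152) (nat_lit 0) (XT.nd (nat_lit 78) (nat_lit 0) (nat_lit 0) (XT.lf (nat_lit 0) (nat_lit 18726152059) (nat_lit 76) (nat_lit 1220079700) (nat_lit 152) (nat_lit 6497204683) (nat_lit 8) (nat_lit 5) (nat_lit 9) (nat_lit 5) (nat_lit 10) (nat_lit 4) (nat_lit 296) (nat_lit 235) (nat_lit 189)) (XT.lf (nat_lit 0) (nat_lit 23349658861) (nat_lit 152) (nat_lit 2105298317) (nat_lit 0) (nat_lit 2122271404) (nat_lit 8) (nat_lit 5) (nat_lit 10) (nat_lit 4) (nat_lit 8) (nat_lit 4) (nat_lit 297) (nat_lit 235) (nat_lit 188))) (XT.nd (nat_lit 78) (nat_lit 76) (nat_lit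 0) (XT.lf (nat_lit 0) (nat_lit 3841426991) (nat_lit 76) (nat_lit 23132359123) (nat_lit 76) (nat_lit 1791471638) (nat_lit 7) (nat_lit 4) (nat_lit 8) (nat_lit 5) (nat_lit 8) (nat_lit 4) (nat_lit 298) (nat_lit 235) (nat_lit 187)) (XT.lf (nat_lit 0) (nat_lit 748803936) (nat_lit 152) (nat_lit 19913934680) (nat_lit 76) (nat_lit 9349073298) (nat_lit 6) (nat_lit 5) (nat_lit 8) (nat_lit 5) (nat_lit 7) (nat_lit 4) (nat_lit 299) (nat_lit 235) (nat_lit 186))))) (XT.nd (nat_lit 312) (nat_lit 0) (nat_lit 0) (XT.nd (nat_lit 156) (nat_lit 76) (nat_lit 0) (XT.nd (nat_lit 78) (nat_lit 0) (nat_lit 0) (XT.lf (nat_lit 0) (nat_lit 3327949464) (nat_lit 152) (nat_lit 14729634219) (nat_lit 76) (nat_lit 13263102421) (nat_lit 6) (nat_lit 5) (nat_lit 8) (nat_lit 5) (nat_lit 7) (nat_lit 4) (nat_lit 300) (nat_lit 235) (nat_lit 185)) (XT.lf (nat_lit 0) (nat_lit 6009444048) (nat_lit 152) (nat_lit 9330615915) (nat_lit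 76) (nat_lit 17356335220) (nat_lit 6) (nat_lit 5) (nat_lit 8) (nat_lit 5) (nat_lit 7) (nat_lit 4) (nat_lit 301) (nat_lit 235) (nat_lit 184))) (XT.nd (nat_lit 78) (nat_lit 76) (nat_lit 0) (XT.lf (nat_lit 0) (nat_lit 8799672198) (nat_lit 152) (nat_lit 3704024962) (nat_lit 76) (nat_lit 21638517490) (nat_lit 6) (nat_lit 5) (nat_lit 8) (nat_lit 5) (nat_lit 7) (nat_lit 4) (nat_lit 302) (nat_lit 235) (nat_lit 183)) (XT.lf (nat_lit 0) (nat_lit 2235071531) (nat_lit 76) (nat_lit 9505101513) (nat_lit 152) (nat_lit 23919669100) (nat_lit 5) (nat_lit 5) (nat_lit 6) (nat_lit 5) (nat_lit 7) (nat_lit 4) (nat_lit 303) (nat_lit 235) (nat_lit 182)))) (XT.nd (nat_lit 156) (nat_lit 0) (nat_lit 0) (XT.nd (nat_lit 78) (nat_lit 0) (nat_lit 0) (XT.lf (nat_lit 0) (nat_lit 8560008952) (nat_lit 76) (nat_lit 6306814283) (nat_lit 152) (nat_lit 22384624059) (nat_lit 5) (nat_lit 5) (nat_lit 6) (nat_lit 5) (nat_lit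 7) (nat_lit 4) (nat_lit 304) (nat_lit 235) (nat_lit 181)) (XT.lf (nat_lit 0) (nat_lit 15163374880) (nat_lit 76) (nat_lit 2963949954) (nat_lit 152) (nat_lit 20796481915) (nat_lit 5) (nat_lit 5) (nat_lit 6) (nat_lit 5) (nat_lit 7) (nat_lit 4) (nat_lit 305) (nat_lit 235) (nat_lit 180))) (XT.nd (nat_lit 78) (nat_lit 0) (nat_lit 0) (XT.lf (nat_lit 0) (nat_lit 21537738377) (nat_lit 152) (nat_lit 18628308141) (nat_lit 0) (nat_lit 514440931) (nat_lit 5) (nat_lit 5) (nat_lit 7) (nat_lit 4) (nat_lit 5) (nat_lit 4) (nat_lit 306) (nat_lit 235) (nat_lit 179)) (XT.nd (nat_lit 78) (nat_lit 0) (nat_lit 0) (XT.lf (nat_lit 0) (nat_lit 25146653725) (nat_lit 152) (nat_lit 13323317642) (nat_lit 0) (nat_lit 4053677107) (nat_lit 5) (nat_lit 5) (nat_lit 7) (nat_lit 4) (nat_lit 5) (nat_lit 4) (nat_lit 307) (nat_lit 235) (nat_lit 178)) (XT.lf (nat_lit 0) (nat_lit 28916387969) (nat_lit 152) (nat_lit 7786553878)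 (nat_lit 0) (nat_lit 7757050235) (nat_lit 5) (nat_lit 5) (nat_lit 7) (nat_lit 4) (nat_lit 5) (nat_lit 4) (nat_lit 308) (nat_lit 235) (nat_lit 177))))))) (XT.nd (nat_lit 624) (nat_lit 76) (nat_lit 0) (XT.nd (nat_lit 312) (nat_lit 76) (nat_lit 0) (XT.nd (nat_lit 156) (nat_lit 0) (nat_lit 0) (XT.nd (nat_lit 78) (nat_lit 76) (nat_lit 0) (XT.lf (nat_lit 0) (nat_lit 32855916666) (nat_lit 152) (nat_lit 2004834078) (nat_lit 0) (nat_lit 11633377869) (nat_lit 5) (nat_lit 5) (nat_lit 7) (nat_lit 4) (nat_lit 5) (nat_lit 4) (nat_lit 309) (nat_lit 235) (nat_lit 176)) (XT.lf (nat_lit 0) (nat_lit 4169043173) (nat_lit 76) (nat_lit 32870666921) (nat_lit 76) (nat_lit 11587936635) (nat_lit 4) (nat_lit 4) (nat_lit 5) (nat_lit 5) (nat_lit 5) (nat_lit 4) (nat_lit 310) (nat_lit 235) (nat_lit 175))) (XT.nd (nat_lit 78) (nat_lit 0) (nat_lit 0) (XT.lf (nat_lit 0) (nat_lit 10691343387) (nat_lit 76) (nat_lit 30757881792)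 (nat_lit 76) (nat_lit 9417826279) (nat_lit 4) (nat_lit 4) (nat_lit 5) (nat_lit 5) (nat_lit 5) (nat_lit 4) (nat_lit 311) (nat_lit 235) (nat_lit 174)) (XT.lf (nat_lit 0) (nat_lit 17511306980) (nat_lit 76) (nat_lit 28551317753) (nat_lit 76) (nat_lit 7156666785) (nat_lit 4) (nat_lit 4) (nat_lit 5) (nat_lit 5) (nat_lit 5) (nat_lit 4) (nat_lit 312) (nat_lit 235) (nat_lit 173)))) (XT.nd (nat_lit 156) (nat_lit 76) (nat_lit 0) (XT.nd (nat_lit 78) (nat_lit 0) (nat_lit 0) (XT.lf (nat_lit 0) (nat_lit 24645171959) (nat_lit 76) (nat_lit 26245721080) (nat_lit 76) (nat_lit 4799074442) (nat_lit 4) (nat_lit 4) (nat_lit 5) (nat_lit 5) (nat_lit 5) (nat_lit 4) (nat_lit 313) (nat_lit 235) (nat_lit 172)) (XT.lf (nat_lit 0) (nat_lit 32109923719) (nat_lit 76) (nat_lit 23835602257) (nat_lit 76) (nat_lit 2339435932) (nat_lit 4) (nat_lit 4) (nat_lit 5) (nat_lit 5) (nat_lit 5) (nat_lit 4) (nat_lit 314) (nat_lit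 235) (nat_lit 171))) (XT.nd (nat_lit 78) (nat_lit 0) (nat_lit 0) (XT.lf (nat_lit 0) (nat_lit 220804239) (nat_lit 152) (nat_lit 21090679239) (nat_lit 76) (nat_lit 39698791812) (nat_lit 3) (nat_lit 5) (nat_lit 5) (nat_lit 5) (nat_lit 4) (nat_lit 4) (nat_lit 315) (nat_lit 235) (nat_lit 170)) (XT.lf (nat_lit 0) (nat_lit 2816534279) (nat_lit 152) (nat_lit 15814348472) (nat_lit 76) (nat_lit 45239776946) (nat_lit 3) (nat_lit 5) (nat_lit 5) (nat_lit 5) (nat_lit 4) (nat_lit 4) (nat_lit 316) (nat_lit 235) (nat_lit 169))))) (XT.nd (nat_lit 312) (nat_lit 0) (nat_lit 0) (XT.nd (nat_lit 156) (nat_lit 76) (nat_lit 0) (XT.nd (nat_lit 78) (nat_lit 0) (nat_lit 0) (XT.lf (nat_lit 0) (nat_lit 5528811057) (nat_lit 152) (nat_lit 10296958045) (nat_lit 76) (nat_lit 51048982724) (nat_lit 3) (nat_lit 5) (nat_lit 5) (nat_lit 5) (nat_lit 4) (nat_lit 4) (nat_lit 317) (nat_lit 235) (nat_lit 168)) (XT.lf (nat_lit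 0) (nat_lit 8364092374) (nat_lit 152) (nat_lit 4525371313) (nat_lit 76) (nat_lit 57140240590) (nat_lit 3) (nat_lit 5) (nat_lit 5) (nat_lit 5) (nat_lit 4) (nat_lit 4) (nat_lit 318) (nat_lit 235) (nat_lit 167))) (XT.nd (nat_lit 78) (nat_lit 0) (nat_lit 0) (XT.lf (nat_lit 0) (nat_lit 1564218351) (nat_lit 76) (nat_lit 9789332381) (nat_lit 152) (nat_lit 61988257019) (nat_lit 2) (nat_lit 5) (nat_lit 3) (nat_lit 5) (nat_lit 4) (nat_lit 4) (nat_lit 319) (nat_lit 235) (nat_lit 166)) (XT.lf (nat_lit 0) (nat_lit 8095089936) (nat_lit 76) (nat_lit 6462277351) (nat_lit 152) (nat_lit 62258927750) (nat_lit 2) (nat_lit 5) (nat_lit 3) (nat_lit 5) (nat_lit 4) (nat_lit 4) (nat_lit 320) (nat_lit 235) (nat_lit 165)))) (XT.nd (nat_lit 156) (nat_lit 0) (nat_lit 0) (XT.nd (nat_lit 78) (nat_lit 0) (nat_lit 0) (XT.lf (nat_lit 0) (nat_lit 14933163922) (nat_lit 76) (nat_lit 2977016391) (nat_lit 152) (nat_lit 62554907906)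 (nat_lit 2) (nat_lit 5) (nat_lit 3) (nat_lit 5) (nat_lit 4) (nat_lit 4) (nat_lit 321) (nat_lit 235) (nat_lit 164)) (XT.lf (nat_lit 0) (nat_lit 21430507417) (nat_lit 152) (nat_lit 62212688179) (nat_lit 0) (nat_lit 653152565) (nat_lit 2) (nat_lit 5) (nat_lit 4) (nat_lit 4) (nat_lit 2) (nat_lit 4) (nat_lit 322) (nat_lit 235) (nat_lit 163))) (XT.nd (nat_lit 78) (nat_lit 0) (nat_lit 0) (XT.lf (nat_lit 0) (nat_lit 25165385442) (nat_lit 152) (nat_lit 58794248918) (nat_lit 0) (nat_lit 4357629798) (nat_lit 2) (nat_lit 5) (nat_lit 4) (nat_lit 4) (nat_lit 2) (nat_lit 4) (nat_lit 323) (nat_lit 235) (nat_lit 162)) (XT.nd (nat_lit 78) (nat_lit 0) (nat_lit 0) (XT.lf (nat_lit 0) (nat_lit 29077227386) (nat_lit 152) (nat_lit 55221987802) (nat_lit 0) (nat_lit 8240518607) (nat_lit 2) (nat_lit 5) (nat_lit 4) (nat_lit 4) (nat_lit 2) (nat_lit 4) (nat_lit 324) (nat_lit 235) (nat_lit 161)) (XT.lf (nat_lit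 0) (nat_lit 33175347159) (nat_lit 152) (nat_lit 51487399449) (nat_lit 0) (nat_lit 12311063966) (nat_lit 2) (nat_lit 5) (nat_lit 4) (nat_lit 4) (nat_lit 2) (nat_lit 4) (nat_lit 325) (nat_lit 235) (nat_lit 160))))))))
noncomputable def xc95 : XT := (XT.nd (nat_lit 1326) (nat_lit 0) (nat_lit 0) (XT.nd (nat_lit 624) (nat_lit 76) (nat_lit 0) (XT.nd (nat_lit 312) (nat_lit 0) (nat_lit 0) (XT.nd (nat_lit 156) (nat_lit 0) (nat_lit 0) (XT.nd (nat_lit 78) (nat_lit 0) (nat_lit 0) (XT.lf (nat_lit 0) (nat_lit 37469502189) (nat_lit 152) (nat_lit 47581591981) (nat_lit 0) (nat_lit 16578957649) (nat_lit 2) (nat_lit 5) (nat_lit 4) (nat_lit 4) (nat_lit 2) (nat_lit 4) (nat_lit 326) (nat_lit 235) (nat_lit 159)) (XT.lf (nat_lit 0) (nat_lit 41969916654) (nat_lit 152) (nat_lit 43495265857) (nat_lit 0) (nat_lit 21054361307) (nat_lit 2) (nat_lit 5) (nat_lit 4) (nat_lit 4) (nat_lit 2) (nat_lit 4) (nat_lit 327)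 (nat_lit 235) (nat_lit 158))) (XT.nd (nat_lit 78) (nat_lit 0) (nat_lit 0) (XT.lf (nat_lit 0) (nat_lit 46687305827) (nat_lit 152) (nat_lit 39218691729) (nat_lit 0) (nat_lit 25747930664) (nat_lit 2) (nat_lit 5) (nat_lit 4) (nat_lit 4) (nat_lit 2) (nat_lit 4) (nat_lit 328) (nat_lit 235) (nat_lit 157)) (XT.lf (nat_lit 0) (nat_lit 51632901587) (nat_lit 152) (nat_lit 34741687278) (nat_lit 0) (nat_lit 30670840885) (nat_lit 2) (nat_lit 5) (nat_lit 4) (nat_lit 4) (nat_lit 2) (nat_lit 4) (nat_lit 329) (nat_lit 235) (nat_lit 156)))) (XT.nd (nat_lit 156) (nat_lit 0) (nat_lit 0) (XT.nd (nat_lit 78) (nat_lit 0) (nat_lit 0) (XT.lf (nat_lit 0) (nat_lit 56818479161) (nat_lit 152) (nat_lit 30053592969) (nat_lit 0) (nat_lit 35834813184) (nat_lit 2) (nat_lit 5) (nat_lit 4) (nat_lit 4) (nat_lit 2) (nat_lit 4) (nat_lit 330) (nat_lit 235) (nat_lit 155)) (XT.lf (nat_lit 0) (nat_lit 62256385164) (nat_lit 152)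 (nat_lit 25143246672) (nat_lit 0) (nat_lit 41252142734) (nat_lit 2) (nat_lit 5) (nat_lit 4) (nat_lit 4) (nat_lit 2) (nat_lit 4) (nat_lit 331) (nat_lit 235) (nat_lit 154))) (XT.nd (nat_lit 78) (nat_lit 0) (nat_lit 0) (XT.lf (nat_lit 0) (nat_lit 67959566990) (nat_lit 152) (nat_lit 19998957088) (nat_lit 0) (nat_lit 46935727939) (nat_lit 2) (nat_lit 5) (nat_lit 4) (nat_lit 4) (nat_lit 2) (nat_lit 4) (nat_lit 332) (nat_lit 235) (nat_lit 153)) (XT.lf (nat_lit 0) (nat_lit 73941603644) (nat_lit 152) (nat_lit 14608475908) (nat_lit 0) (nat_lit 52899101144) (nat_lit 2) (nat_lit 5) (nat_lit 4) (nat_lit 4) (nat_lit 2) (nat_lit 4) (nat_lit 333) (nat_lit 235) (nat_lit 152))))) (XT.nd (nat_lit 312) (nat_lit 0) (nat_lit 0) (XT.nd (nat_lit 156) (nat_lit 76) (nat_lit 0) (XT.nd (nat_lit 78) (nat_lit 0) (nat_lit 0) (XT.lf (nat_lit 0) (nat_lit 80216738070) (nat_lit 152) (nat_lit 8958968652) (nat_lit 0)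 (nat_lit 59156460856) (nat_lit 2) (nat_lit 5) (nat_lit 4) (nat_lit 4) (nat_lit 2) (nat_lit 4) (nat_lit 334) (nat_lit 235) (nat_lit 151)) (XT.lf (nat_lit 0) (nat_lit 86799911065) (nat_lit 152) (nat_lit 3036984113) (nat_lit 0) (nat_lit 65722705552) (nat_lit 2) (nat_lit 5) (nat_lit 4) (nat_lit 4) (nat_lit 2) (nat_lit 4) (nat_lit 335) (nat_lit 235) (nat_lit 150))) (XT.nd (nat_lit 78) (nat_lit 0) (nat_lit 0) (XT.lf (nat_lit 0) (nat_lit 3276444352) (nat_lit 76) (nat_lit 90481506975) (nat_lit 76) (nat_lit 69388179274) (nat_lit 1) (nat_lit 4) (nat_lit 2) (nat_lit 5) (nat_lit 2) (nat_lit 4) (nat_lit 336) (nat_lit 235) (nat_lit 149)) (XT.lf (nat_lit 0) (nat_lit 10001613072) (nat_lit 76) (nat_lit 91108380526) (nat_lit 76) (nat_lit 69999698359) (nat_lit 1) (nat_lit 4) (nat_lit 2) (nat_lit 5) (nat_lit 2) (nat_lit 4) (nat_lit 337) (nat_lit 235) (nat_lit 148)))) (XT.nd (nat_lit 156) (nat_lit 0) (nat_lit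 0) (XT.nd (nat_lit 78) (nat_lit 0) (nat_lit 0) (XT.lf (nat_lit 0) (nat_lit 17054117942) (nat_lit 76) (nat_lit 91770441184) (nat_lit 76) (nat_lit 70647135716) (nat_lit 1) (nat_lit 4) (nat_lit 2) (nat_lit 5) (nat_lit 2) (nat_lit 4) (nat_lit 338) (nat_lit 235) (nat_lit 147)) (XT.lf (nat_lit 0) (nat_lit 24450750640) (nat_lit 76) (nat_lit 92469265283) (nat_lit 76) (nat_lit 71332032862) (nat_lit 1) (nat_lit 4) (nat_lit 2) (nat_lit 5) (nat_lit 2) (nat_lit 4) (nat_lit 339) (nat_lit 235) (nat_lit 146))) (XT.nd (nat_lit 78) (nat_lit 0) (nat_lit 0) (XT.lf (nat_lit 0) (nat_lit 32209122196) (nat_lit 76) (nat_lit 93206516689) (nat_lit 76) (nat_lit 72056020504) (nat_lit 1) (nat_lit 4) (nat_lit 2) (nat_lit 5) (nat_lit 2) (nat_lit 4) (nat_lit 340) (nat_lit 235) (nat_lit 145)) (XT.nd (nat_lit 78) (nat_lit 0) (nat_lit 0) (XT.lf (nat_lit 0) (nat_lit 40347704925) (nat_lit 76) (nat_lit 93983950764) (nat_lit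 76) (nat_lit 72820822422) (nat_lit 1) (nat_lit 4) (nat_lit 2) (nat_lit 5) (nat_lit 2) (nat_lit 4) (nat_lit 341) (nat_lit 235) (nat_lit 144)) (XT.lf (nat_lit 0) (nat_lit 48885876403) (nat_lit 76) (nat_lit 94803418542) (nat_lit 76) (nat_lit 73628259574) (nat_lit 1) (nat_lit 4) (nat_lit 2) (nat_lit 5) (nat_lit 2) (nat_lit 4) (nat_lit 342) (nat_lit 235) (nat_lit 143))))))) (XT.nd (nat_lit 624) (nat_lit 0) (nat_lit 0) (XT.nd (nat_lit 312) (nat_lit 0) (nat_lit 0) (XT.nd (nat_lit 156) (nat_lit 0) (nat_lit 0) (XT.nd (nat_lit 78) (nat_lit 0) (nat_lit 0) (XT.lf (nat_lit 0) (nat_lit 57843965610) (nat_lit 76) (nat_lit 95666871135) (nat_lit 76) (nat_lit 74480254428) (nat_lit 1) (nat_lit 4) (nat_lit 2) (nat_lit 5) (nat_lit 2) (nat_lit 4) (nat_lit 343) (nat_lit 235) (nat_lit 142)) (XT.lf (nat_lit 0) (nat_lit 67243301330) (nat_lit 76) (nat_lit 96576364383) (nat_lit 76) (nat_lit 75378835544) (nat_lit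 1) (nat_lit 4) (nat_lit 2) (nat_lit 5) (nat_lit 2) (nat_lit 4) (nat_lit 344) (nat_lit 235) (nat_lit 141))) (XT.nd (nat_lit 78) (nat_lit 0) (nat_lit 0) (XT.lf (nat_lit 0) (nat_lit 77106262935) (nat_lit 76) (nat_lit 97534063747) (nat_lit 76) (nat_lit 76326142401) (nat_lit 1) (nat_lit 4) (nat_lit 2) (nat_lit 5) (nat_lit 2) (nat_lit 4) (nat_lit 345) (nat_lit 235) (nat_lit 140)) (XT.lf (nat_lit 0) (nat_lit 87456333665) (nat_lit 76) (nat_lit 98542249462) (nat_lit 76) (nat_lit 77324430491) (nat_lit 1) (nat_lit 4) (nat_lit 2) (nat_lit 5) (nat_lit 2) (nat_lit 4) (nat_lit 346) (nat_lit 235) (nat_lit 139)))) (XT.nd (nat_lit 156) (nat_lit 0) (nat_lit 0) (XT.nd (nat_lit 78) (nat_lit 0) (nat_lit 0) (XT.lf (nat_lit 0) (nat_lit 98318156546) (nat_lit 76) (nat_lit 99603321972) (nat_lit 76) (nat_lit 78376076691) (nat_lit 1) (nat_lit 4) (nat_lit 2) (nat_lit 5) (nat_lit 2) (nat_lit 4) (nat_lit 347) (nat_lit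 235) (nat_lit 138)) (XT.lf (nat_lit 0) (nat_lit 109717593062) (nat_lit 76) (nat_lit 100719807639) (nat_lit 76) (nat_lit 79483584920) (nat_lit 1) (nat_lit 4) (nat_lit 2) (nat_lit 5) (nat_lit 2) (nat_lit 4) (nat_lit 348) (nat_lit 235) (nat_lit 137))) (XT.nd (nat_lit 78) (nat_lit 0) (nat_lit 0) (XT.lf (nat_lit 0) (nat_lit 121681784728) (nat_lit 76) (nat_lit 101894364763) (nat_lit 76) (nat_lit 80649592103) (nat_lit 1) (nat_lit 4) (nat_lit 2) (nat_lit 5) (nat_lit 2) (nat_lit 4) (nat_lit 349) (nat_lit 235) (nat_lit 136)) (XT.lf (nat_lit 0) (nat_lit 134239217715) (nat_lit 76) (nat_lit 103129789908) (nat_lit 76) (nat_lit 81876874446) (nat_lit 1) (nat_lit 4) (nat_lit 2) (nat_lit 5) (nat_lit 2) (nat_lit 4) (nat_lit 350) (nat_lit 235) (nat_lit 135))))) (XT.nd (nat_lit 312) (nat_lit 0) (nat_lit 0) (XT.nd (nat_lit 156) (nat_lit 0) (nat_lit 0) (XT.nd (nat_lit 78) (nat_lit 0) (nat_lit 0) (XT.lf (nat_lit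 0) (nat_lit 147419790672) (nat_lit 76) (nat_lit 104429024562) (nat_lit 76) (nat_lit 83168354052) (nat_lit 1) (nat_lit 4) (nat_lit 2) (nat_lit 5) (nat_lit 2) (nat_lit 4) (nat_lit 351) (nat_lit 235) (nat_lit 134)) (XT.lf (nat_lit 0) (nat_lit 161254885916) (nat_lit 76) (nat_lit 105795162141) (nat_lit 76) (nat_lit 84527105871) (nat_lit 1) (nat_lit 4) (nat_lit 2) (nat_lit 5) (nat_lit 2) (nat_lit 4) (nat_lit 352) (nat_lit 235) (nat_lit 133))) (XT.nd (nat_lit 78) (nat_lit 0) (nat_lit 0) (XT.lf (nat_lit 0) (nat_lit 175777444151) (nat_lit 76) (nat_lit 107231455355) (nat_lit 76) (nat_lit 85956365027) (nat_lit 1) (nat_lit 4) (nat_lit 2) (nat_lit 5) (nat_lit 2) (nat_lit 4) (nat_lit 353) (nat_lit 235) (nat_lit 132)) (XT.lf (nat_lit 0) (nat_lit 191022042895) (nat_lit 76) (nat_lit 108741323948) (nat_lit 76) (nat_lit 87459534517) (nat_lit 1) (nat_lit 4) (nat_lit 2) (nat_lit 5) (nat_lit 2) (nat_lit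 4) (nat_lit 354) (nat_lit 235) (nat_lit 131)))) (XT.nd (nat_lit 156) (nat_lit 0) (nat_lit 0) (XT.nd (nat_lit 78) (nat_lit 0) (nat_lit 0) (XT.lf (nat_lit 0) (nat_lit 207024978812) (nat_lit 76) (nat_lit 110328362846) (nat_lit 76) (nat_lit 89040193317) (nat_lit 1) (nat_lit 4) (nat_lit 2) (nat_lit 5) (nat_lit 2) (nat_lit 4) (nat_lit 355) (nat_lit 235) (nat_lit 130)) (XT.lf (nat_lit 0) (nat_lit 223824354131) (nat_lit 76) (nat_lit 111996350713) (nat_lit 76) (nat_lit 90702104901) (nat_lit 1) (nat_lit 4) (nat_lit 2) (nat_lit 5) (nat_lit 2) (nat_lit 4) (nat_lit 356) (nat_lit 235) (nat_lit 129))) (XT.nd (nat_lit 78) (nat_lit 0) (nat_lit 0) (XT.lf (nat_lit 0) (nat_lit 241460167365) (nat_lit 76) (nat_lit 113749258948) (nat_lit 76) (nat_lit 92449226199) (nat_lit 1) (nat_lit 4) (nat_lit 2) (nat_lit 5) (nat_lit 2) (nat_lit 4) (nat_lit 357) (nat_lit 235) (nat_lit 128)) (XT.nd (nat_lit 78) (nat_lit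 0) (nat_lit 0) (XT.lf (nat_lit 0) (nat_lit 259974408544) (nat_lit 76) (nat_lit 115591261143) (nat_lit 76) (nat_lit 94285717026) (nat_lit 1) (nat_lit 4) (nat_lit 2) (nat_lit 5) (nat_lit 2) (nat_lit 4) (nat_lit 358) (nat_lit 235) (nat_lit 127)) (XT.lf (nat_lit 0) (nat_lit 279411159196) (nat_lit 76) (nat_lit 117526743017) (nat_lit 76) (nat_lit 96215949978) (nat_lit 1) (nat_lit 4) (nat_lit 2) (nat_lit 5) (nat_lit 2) (nat_lit 4) (nat_lit 359) (nat_lit 235) (nat_lit 126))))))))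
noncomputable def xc96 : XT := (XT.nd (nat_lit 1248) (nat_lit 1900) (nat_lit 0) (XT.nd (nat_lit 624) (nat_lit 2128) (nat_lit 0) (XT.nd (nat_lit 312) (nat_lit 1064) (nat_lit 0) (XT.nd (nat_lit 156) (nat_lit 456) (nat_lit 0) (XT.nd (nat_lit 78) (nat_lit 380) (nat_lit 0) (XT.lf (nat_lit 0) (nat_lit 2664766778) (nat_lit 228) (nat_lit 330088461) (nat_lit 228) (nat_lit 330088461) (nat_lit 96) (nat_lit 4) (nat_lit 99) (nat_lit 5) (nat_lit 99) (nat_lit 4) (nat_lit 248) (nat_lit 236) (nat_lit 236)) (XT.lf (nat_lit 0) (nat_lit 2069642194) (nat_lit 380) (nat_lit 4490783106) (nat_lit 0) (nat_lit 146659760) (nat_lit 91) (nat_lit 5) (nat_lit 96) (nat_lit 4) (nat_lit 91) (nat_lit 4) (nat_lit 249) (nat_lit 236) (nat_lit 235))) (XT.nd (nat_lit 78) (nat_lit 456) (nat_lit 0) (XT.lf (nat_lit 0) (nat_lit 4796374147) (nat_lit 380) (nat_lit 935308918) (nat_lit 0) (nat_lit 1041979870) (nat_lit 91) (nat_lit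 5) (nat_lit 96) (nat_lit 4) (nat_lit 91) (nat_lit 4) (nat_lit 250) (nat_lit 236) (nat_lit 234)) (XT.lf (nat_lit 0) (nat_lit 686499428) (nat_lit 456) (nat_lit 4091272204) (nat_lit 76) (nat_lit 2071405261) (nat_lit 85) (nat_lit 5) (nat_lit 91) (nat_lit 5) (nat_lit 86) (nat_lit 4) (nat_lit 251) (nat_lit 236) (nat_lit 233)))) (XT.nd (nat_lit 156) (nat_lit 608) (nat_lit 0) (XT.nd (nat_lit 78) (nat_lit 456) (nat_lit 0) (XT.lf (nat_lit 0) (nat_lit 3291099734) (nat_lit 456) (nat_lit 412986103) (nat_lit 76) (nat_lit 3230085935) (nat_lit 85) (nat_lit 5) (nat_lit 91) (nat_lit 5) (nat_lit 86) (nat_lit 4) (nat_lit 252) (nat_lit 236) (nat_lit 232)) (XT.lf (nat_lit 0) (nat_lit 3444322609) (nat_lit 456) (nat_lit 2500119135) (nat_lit 532) (nat_lit 1084029624) (nat_lit 79) (nat_lit 5) (nat_lit 85) (nat_lit 5) (nat_lit 86) (nat_lit 4) (nat_lit 253) (nat_lit 236) (nat_lit 231))) (XT.nd (nat_lit 78) (nat_lit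 0) (nat_lit 0) (XT.lf (nat_lit 0) (nat_lit 245842971) (nat_lit 532) (nat_lit 1183128074) (nat_lit 608) (nat_lit 5704287402) (nat_lit 71) (nat_lit 5) (nat_lit 78) (nat_lit 5) (nat_lit 79) (nat_lit 5) (nat_lit 254) (nat_lit 236) (nat_lit 230)) (XT.lf (nat_lit 0) (nat_lit 3967103681) (nat_lit 608) (nat_lit 2994531855) (nat_lit 76) (nat_lit 284812213) (nat_lit 71) (nat_lit 5) (nat_lit 79) (nat_lit 5) (nat_lit 72) (nat_lit 4) (nat_lit 255) (nat_lit 236) (nat_lit 229))))) (XT.nd (nat_lit 312) (nat_lit 760) (nat_lit 0) (XT.nd (nat_lit 156) (nat_lit 684) (nat_lit 0) (XT.nd (nat_lit 78) (nat_lit 76) (nat_lit 0) (XT.lf (nat_lit 0) (nat_lit 986935493) (nat_lit 608) (nat_lit 5557249921) (nat_lit 684) (nat_lit 826315684) (nat_lit 63) (nat_lit 5) (nat_lit 71) (nat_lit 5) (nat_lit 72) (nat_lit 4) (nat_lit 256) (nat_lit 236) (nat_lit 228)) (XT.lf (nat_lit 0) (nat_lit 1623496042) (nat_lit 684) (nat_lit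 2376017874) (nat_lit 76) (nat_lit 3504103156) (nat_lit 62) (nat_lit 5) (nat_lit 71) (nat_lit 5) (nat_lit 63) (nat_lit 5) (nat_lit 257) (nat_lit 236) (nat_lit 227))) (XT.nd (nat_lit 78) (nat_lit 0) (nat_lit 0) (XT.lf (nat_lit 0) (nat_lit 1759345220) (nat_lit 684) (nat_lit 2320511133) (nat_lit 760) (nat_lit 3567960664) (nat_lit 53) (nat_lit 5) (nat_lit 62) (nat_lit 5) (nat_lit 63) (nat_lit 5) (nat_lit 258) (nat_lit 236) (nat_lit 226)) (XT.lf (nat_lit 0) (nat_lit 6070500643) (nat_lit 684) (nat_lit 516867544) (nat_lit 760) (nat_lit 1216105776) (nat_lit 53) (nat_lit 5) (nat_lit 62) (nat_lit 5) (nat_lit 63) (nat_lit 5) (nat_lit 259) (nat_lit 236) (nat_lit 225)))) (XT.nd (nat_lit 156) (nat_lit 380) (nat_lit 0) (XT.nd (nat_lit 78) (nat_lit 0) (nat_lit 0) (XT.lf (nat_lit 0) (nat_lit 1167016826) (nat_lit 380) (nat_lit 5411320901) (nat_lit 76) (nat_lit 1390510109) (nat_lit 48) (nat_lit 5) (nat_lit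 53) (nat_lit 5) (nat_lit 49) (nat_lit 5) (nat_lit 260) (nat_lit 236) (nat_lit 224)) (XT.lf (nat_lit 0) (nat_lit 3561178952) (nat_lit 380) (nat_lit 1163421317) (nat_lit 76) (nat_lit 3420829010) (nat_lit 48) (nat_lit 5) (nat_lit 53) (nat_lit 5) (nat_lit 49) (nat_lit 5) (nat_lit 261) (nat_lit 236) (nat_lit 223))) (XT.nd (nat_lit 78) (nat_lit 76) (nat_lit 0) (XT.lf (nat_lit 0) (nat_lit 3291532409) (nat_lit 304) (nat_lit 2734382455) (nat_lit 380) (nat_lit 2307927658) (nat_lit 44) (nat_lit 5) (nat_lit 48) (nat_lit 5) (nat_lit 49) (nat_lit 5) (nat_lit 262) (nat_lit 236) (nat_lit 222)) (XT.lf (nat_lit 0) (nat_lit 67466) (nat_lit 380) (nat_lit 635364175) (nat_lit 76) (nat_lit 7900651474) (nat_lit 43) (nat_lit 5) (nat_lit 48) (nat_lit 5) (nat_lit 44) (nat_lit 5) (nat_lit 263) (nat_lit 236) (nat_lit 221)))))) (XT.nd (nat_lit 624) (nat_lit 836) (nat_lit 0) (XT.nd (nat_lit 312) (nat_lit 456) (nat_lit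 0) (XT.nd (nat_lit 156) (nat_lit 380) (nat_lit 0) (XT.nd (nat_lit 78) (nat_lit 0) (nat_lit 0) (XT.lf (nat_lit 0) (nat_lit 2339076874) (nat_lit 304) (nat_lit 4800622854) (nat_lit 76) (nat_lit 1607657130) (nat_lit 40) (nat_lit 5) (nat_lit 44) (nat_lit 5) (nat_lit 41) (nat_lit 5) (nat_lit 264) (nat_lit 236) (nat_lit 220)) (XT.lf (nat_lit 0) (nat_lit 4724243983) (nat_lit 304) (nat_lit 309680869) (nat_lit 76) (nat_lit 3939258276) (nat_lit 40) (nat_lit 5) (nat_lit 44) (nat_lit 5) (nat_lit 41) (nat_lit 5) (nat_lit 265) (nat_lit 236) (nat_lit 219))) (XT.nd (nat_lit 78) (nat_lit 76) (nat_lit 0) (XT.lf (nat_lit 0) (nat_lit 4442838421) (nat_lit 304) (nat_lit 2767437826) (nat_lit 380) (nat_lit 2001371939) (nat_lit 36) (nat_lit 5) (nat_lit 40) (nat_lit 5) (nat_lit 41) (nat_lit 5) (nat_lit 266) (nat_lit 236) (nat_lit 218)) (XT.lf (nat_lit 0) (nat_lit 265441687) (nat_lit 380) (nat_lit 130459776)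 (nat_lit 76) (nat_lit 9070325923) (nat_lit 35) (nat_lit 5) (nat_lit 40) (nat_lit 5) (nat_lit 36) (nat_lit 5) (nat_lit 267) (nat_lit 236) (nat_lit 217)))) (XT.nd (nat_lit 156) (nat_lit 228) (nat_lit 0) (XT.nd (nat_lit 78) (nat_lit 0) (nat_lit 0) (XT.lf (nat_lit 0) (nat_lit 2603931196) (nat_lit 304) (nat_lit 5009233014) (nat_lit 76) (nat_lit 2117820707) (nat_lit 32) (nat_lit 5) (nat_lit 36) (nat_lit 5) (nat_lit 33) (nat_lit 5) (nat_lit 268) (nat_lit 236) (nat_lit 216)) (XT.lf (nat_lit 0) (nat_lit 4987315409) (nat_lit 304) (nat_lit 298376551) (nat_lit 76) (nat_lit 4727241817) (nat_lit 32) (nat_lit 5) (nat_lit 36) (nat_lit 5) (nat_lit 33) (nat_lit 5) (nat_lit 269) (nat_lit 236) (nat_lit 215))) (XT.nd (nat_lit 78) (nat_lit 0) (nat_lit 0) (XT.lf (nat_lit 0) (nat_lit 4699302404) (nat_lit 228) (nat_lit 2787016109) (nat_lit 304) (nat_lit 2823174285) (nat_lit 29) (nat_lit 5) (nat_lit 32) (nat_lit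 5) (nat_lit 33) (nat_lit 5) (nat_lit 270) (nat_lit 236) (nat_lit 214)) (XT.lf (nat_lit 0) (nat_lit 9859695739) (nat_lit 228) (nat_lit 180849729) (nat_lit 304) (nat_lit 584139857) (nat_lit 29) (nat_lit 5) (nat_lit 32) (nat_lit 5) (nat_lit 33) (nat_lit 5) (nat_lit 271) (nat_lit 236) (nat_lit 213))))) (XT.nd (nat_lit 312) (nat_lit 380) (nat_lit 0) (XT.nd (nat_lit 156) (nat_lit 228) (nat_lit 0) (XT.nd (nat_lit 78) (nat_lit 0) (nat_lit 0) (XT.lf (nat_lit 0) (nat_lit 1746452159) (nat_lit 228) (nat_lit 6657743855) (nat_lit 76) (nat_lit 2548543956) (nat_lit 26) (nat_lit 5) (nat_lit 29) (nat_lit 5) (nat_lit 27) (nat_lit 5) (nat_lit 272) (nat_lit 236) (nat_lit 212)) (XT.lf (nat_lit 0) (nat_lit 4119023383) (nat_lit 228) (nat_lit 1772244030) (nat_lit 76) (nat_lit 5408472876) (nat_lit 26) (nat_lit 5) (nat_lit 29) (nat_lit 5) (nat_lit 27) (nat_lit 5) (nat_lit 273) (nat_lit 236) (nat_lit 211))) (XT.nd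 (nat_lit 78) (nat_lit 0) (nat_lit 0) (XT.lf (nat_lit 0) (nat_lit 3372637120) (nat_lit 228) (nat_lit 3222573730) (nat_lit 304) (nat_lit 5069893030) (nat_lit 23) (nat_lit 5) (nat_lit 26) (nat_lit 5) (nat_lit 27) (nat_lit 5) (nat_lit 274) (nat_lit 236) (nat_lit 210)) (XT.lf (nat_lit 0) (nat_lit 8744948929) (nat_lit 228) (nat_lit 414400153) (nat_lit 304) (nat_lit 2891429633) (nat_lit 23) (nat_lit 5) (nat_lit 26) (nat_lit 5) (nat_lit 27) (nat_lit 5) (nat_lit 275) (nat_lit 236) (nat_lit 209)))) (XT.nd (nat_lit 156) (nat_lit 152) (nat_lit 0) (XT.nd (nat_lit 78) (nat_lit 76) (nat_lit 0) (XT.lf (nat_lit 0) (nat_lit 1860120423) (nat_lit 152) (nat_lit 9997066830) (nat_lit 228) (nat_lit 598513608) (nat_lit 21) (nat_lit 5) (nat_lit 23) (nat_lit 5) (nat_lit 24) (nat_lit 4) (nat_lit 276) (nat_lit 236) (nat_lit 208)) (XT.lf (nat_lit 0) (nat_lit 1752125566) (nat_lit 228) (nat_lit 5605713109) (nat_lit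 76) (nat_lit 5521785389) (nat_lit 20) (nat_lit 5) (nat_lit 23) (nat_lit 5) (nat_lit 21) (nat_lit 5) (nat_lit 277) (nat_lit 236) (nat_lit 207))) (XT.nd (nat_lit 78) (nat_lit 152) (nat_lit 0) (XT.lf (nat_lit 0) (nat_lit 4140450447) (nat_lit 228) (nat_lit 462665843) (nat_lit 76) (nat_lit 8724328952) (nat_lit 20) (nat_lit 5) (nat_lit 23) (nat_lit 5) (nat_lit 21) (nat_lit 5) (nat_lit 278) (nat_lit 236) (nat_lit 206)) (XT.nd (nat_lit 78) (nat_lit 0) (nat_lit 0) (XT.lf (nat_lit 0) (nat_lit 5015684410) (nat_lit 152) (nat_lit 1653928177) (nat_lit 228) (nat_lit 7127169829) (nat_lit 18) (nat_lit 5) (nat_lit 20) (nat_lit 5) (nat_lit 21) (nat_lit 5) (nat_lit 279) (nat_lit 236) (nat_lit 205)) (XT.lf (nat_lit 0) (nat_lit 9299877404) (nat_lit 228) (nat_lit 3611446013) (nat_lit 76) (nat_lit 1379717455) (nat_lit 18) (nat_lit 5) (nat_lit 21) (nat_lit 5) (nat_lit 19) (nat_lit 4) (nat_lit 280) (nat_lit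 236) (nat_lit 204))))))))
noncomputable def xc97 : XT := (XT.nd (nat_lit 1326) (nat_lit 304) (nat_lit 0) (XT.nd (nat_lit 624) (nat_lit 304) (nat_lit 0) (XT.nd (nat_lit 312) (nat_lit 76) (nat_lit 0) (XT.nd (nat_lit 156) (nat_lit 228) (nat_lit 0) (XT.nd (nat_lit 78) (nat_lit 0) (nat_lit 0) (XT.lf (nat_lit 0) (nat_lit 1766482141) (nat_lit 152) (nat_lit 10296681640) (nat_lit 228) (nat_lit 2746950818) (nat_lit 16) (nat_lit 5) (nat_lit 18) (nat_lit 5) (nat_lit 19) (nat_lit 4) (nat_lit 281) (nat_lit 236) (nat_lit 203)) (XT.lf (nat_lit 0) (nat_lit 7460341010) (nat_lit 152) (nat_lit 7513559464) (nat_lit 228) (nat_lit 380946540) (nat_lit 16) (nat_lit 5) (nat_lit 18) (nat_lit 5) (nat_lit 19) (nat_lit 4) (nat_lit 282) (nat_lit 236) (nat_lit 202))) (XT.nd (nat_lit 78) (nat_lit 152) (nat_lit 0) (XT.lf (nat_lit 0) (nat_lit 1985666037) (nat_lit 228) (nat_lit 2597197742) (nat_lit 76) (nat_lit 11344982431)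 (nat_lit 15) (nat_lit 5) (nat_lit 18) (nat_lit 5) (nat_lit 16) (nat_lit 5) (nat_lit 283) (nat_lit 236) (nat_lit 201)) (XT.lf (nat_lit 0) (nat_lit 2981357538) (nat_lit 152) (nat_lit 1475024060) (nat_lit 228) (nat_lit 12073019031) (nat_lit 13) (nat_lit 5) (nat_lit 15) (nat_lit 5) (nat_lit 16) (nat_lit 5) (nat_lit 284) (nat_lit 236) (nat_lit 200)))) (XT.nd (nat_lit 156) (nat_lit 76) (nat_lit 0) (XT.nd (nat_lit 78) (nat_lit 0) (nat_lit 0) (XT.lf (nat_lit 0) (nat_lit 7076063819) (nat_lit 228) (nat_lit 8332177592) (nat_lit 76) (nat_lit 1751659098) (nat_lit 13) (nat_lit 5) (nat_lit 16) (nat_lit 5) (nat_lit 14) (nat_lit 4) (nat_lit 285) (nat_lit 236) (nat_lit 199)) (XT.lf (nat_lit 0) (nat_lit 9805964288) (nat_lit 228) (nat_lit 2949902862) (nat_lit 76) (nat_lit 5067229178) (nat_lit 13) (nat_lit 5) (nat_lit 16) (nat_lit 5) (nat_lit 14) (nat_lit 4) (nat_lit 286) (nat_lit 236) (nat_lit 198)))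 (XT.nd (nat_lit 78) (nat_lit 0) (nat_lit 0) (XT.lf (nat_lit 0) (nat_lit 2721737905) (nat_lit 76) (nat_lit 9950309560) (nat_lit 152) (nat_lit 5847546423) (nat_lit 12) (nat_lit 5) (nat_lit 13) (nat_lit 5) (nat_lit 14) (nat_lit 4) (nat_lit 287) (nat_lit 236) (nat_lit 197)) (XT.lf (nat_lit 0) (nat_lit 8713592763) (nat_lit 76) (nat_lit 6976005152) (nat_lit 152) (nat_lit 3561030573) (nat_lit 12) (nat_lit 5) (nat_lit 13) (nat_lit 5) (nat_lit 14) (nat_lit 4) (nat_lit 288) (nat_lit 236) (nat_lit 196))))) (XT.nd (nat_lit 312) (nat_lit 76) (nat_lit 0) (XT.nd (nat_lit 156) (nat_lit 0) (nat_lit 0) (XT.nd (nat_lit 78) (nat_lit 228) (nat_lit 0) (XT.lf (nat_lit 0) (nat_lit 14942390921) (nat_lit 76) (nat_lit 3875830285) (nat_lit 152) (nat_lit 1202098436) (nat_lit 12) (nat_lit 5) (nat_lit 13) (nat_lit 5) (nat_lit 14) (nat_lit 4) (nat_lit 289) (nat_lit 236) (nat_lit 195)) (XT.lf (nat_lit 0) (nat_lit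 592135198) (nat_lit 152) (nat_lit 612452741) (nat_lit 228) (nat_lit 19624485776) (nat_lit 9) (nat_lit 5) (nat_lit 11) (nat_lit 5) (nat_lit 12) (nat_lit 5) (nat_lit 290) (nat_lit 236) (nat_lit 194))) (XT.nd (nat_lit 78) (nat_lit 0) (nat_lit 0) (XT.lf (nat_lit 0) (nat_lit 3784470242) (nat_lit 228) (nat_lit 15078721322) (nat_lit 76) (nat_lit 2809524590) (nat_lit 9) (nat_lit 5) (nat_lit 12) (nat_lit 5) (nat_lit 10) (nat_lit 4) (nat_lit 291) (nat_lit 236) (nat_lit 193)) (XT.lf (nat_lit 0) (nat_lit 6467117473) (nat_lit 228) (nat_lit 9731395390) (nat_lit 76) (nat_lit 6361433581) (nat_lit 9) (nat_lit 5) (nat_lit 12) (nat_lit 5) (nat_lit 10) (nat_lit 4) (nat_lit 292) (nat_lit 236) (nat_lit 192)))) (XT.nd (nat_lit 156) (nat_lit 0) (nat_lit 0) (XT.nd (nat_lit 78) (nat_lit 76) (nat_lit 0) (XT.lf (nat_lit 0) (nat_lit 9249354787) (nat_lit 228) (nat_lit 4172666891) (nat_lit 76) (nat_lit 10071333470)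 (nat_lit 9) (nat_lit 5) (nat_lit 12) (nat_lit 5) (nat_lit 10) (nat_lit 4) (nat_lit 293) (nat_lit 236) (nat_lit 191)) (XT.lf (nat_lit 0) (nat_lit 1663956233) (nat_lit 76) (nat_lit 10499829343) (nat_lit 152) (nat_lit 12310080138) (nat_lit 8) (nat_lit 5) (nat_lit 9) (nat_lit 5) (nat_lit 10) (nat_lit 4) (nat_lit 294) (nat_lit 236) (nat_lit 190))) (XT.nd (nat_lit 78) (nat_lit 0) (nat_lit 0) (XT.lf (nat_lit 0) (nat_lit 7884836956) (nat_lit 76) (nat_lit 7377617496) (nat_lit 152) (nat_lit 10239102966) (nat_lit 8) (nat_lit 5) (nat_lit 9) (nat_lit 5) (nat_lit 10) (nat_lit 4) (nat_lit 295) (nat_lit 236) (nat_lit 189)) (XT.nd (nat_lit 78) (nat_lit 0) (nat_lit 0) (XT.lf (nat_lit 0) (nat_lit 14366819684) (nat_lit 76) (nat_lit 4118618431) (nat_lit 152) (nat_lit 8096804083) (nat_lit 8) (nat_lit 5) (nat_lit 9) (nat_lit 5) (nat_lit 10) (nat_lit 4) (nat_lit 296) (nat_lit 236) (nat_lit 188)) (XT.lf (nat_lit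 0) (nat_lit 21125337711) (nat_lit 76) (nat_lit 715072627) (nat_lit 152) (nat_lit 5878082775) (nat_lit 8) (nat_lit 5) (nat_lit 9) (nat_lit 5) (nat_lit 10) (nat_lit 4) (nat_lit 297) (nat_lit 236) (nat_lit 187))))))) (XT.nd (nat_lit 624) (nat_lit 76) (nat_lit 0) (XT.nd (nat_lit 312) (nat_lit 76) (nat_lit 0) (XT.nd (nat_lit 156) (nat_lit 76) (nat_lit 0) (XT.nd (nat_lit 78) (nat_lit 76) (nat_lit 0) (XT.lf (nat_lit 0) (nat_lit 25379717051) (nat_lit 152) (nat_lit 780890679) (nat_lit 0) (nat_lit 2750189897) (nat_lit 8) (nat_lit 5) (nat_lit 10) (nat_lit 4) (nat_lit 8) (nat_lit 4) (nat_lit 298) (nat_lit 236) (nat_lit 186)) (XT.lf (nat_lit 0) (nat_lit 5440111660) (nat_lit 76) (nat_lit 23725825172) (nat_lit 76) (nat_lit 993350147) (nat_lit 7) (nat_lit 4) (nat_lit 8) (nat_lit 5) (nat_lit 8) (nat_lit 4) (nat_lit 299) (nat_lit 236) (nat_lit 185))) (XT.nd (nat_lit 78) (nat_lit 0) (nat_lit 0) (XT.lf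 (nat_lit 0) (nat_lit 1604609169) (nat_lit 152) (nat_lit 19541071820) (nat_lit 76) (nat_lit 10323934252) (nat_lit 6) (nat_lit 5) (nat_lit 8) (nat_lit 5) (nat_lit 7) (nat_lit 4) (nat_lit 300) (nat_lit 236) (nat_lit 184)) (XT.lf (nat_lit 0) (nat_lit 4273742209) (nat_lit 152) (nat_lit 14162725841) (nat_lit 76) (nat_lit 14409502579) (nat_lit 6) (nat_lit 5) (nat_lit 8) (nat_lit 5) (nat_lit 7) (nat_lit 4) (nat_lit 301) (nat_lit 236) (nat_lit 183)))) (XT.nd (nat_lit 156) (nat_lit 76) (nat_lit 0) (XT.nd (nat_lit 78) (nat_lit 0) (nat_lit 0) (XT.lf (nat_lit 0) (nat_lit 7052197462) (nat_lit 152) (nat_lit 8555822817) (nat_lit 76) (nat_lit 18684385350) (nat_lit 6) (nat_lit 5) (nat_lit 8) (nat_lit 5) (nat_lit 7) (nat_lit 4) (nat_lit 302) (nat_lit 236) (nat_lit 182)) (XT.lf (nat_lit 0) (nat_lit 9946590295) (nat_lit 152) (nat_lit 2707012977) (nat_lit 76) (nat_lit 23158760858) (nat_lit 6) (nat_lit 5)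 (nat_lit 8) (nat_lit 5) (nat_lit 7) (nat_lit 4) (nat_lit 303) (nat_lit 236) (nat_lit 181))) (XT.nd (nat_lit 78) (nat_lit 0) (nat_lit 0) (XT.lf (nat_lit 0) (nat_lit 3509970385) (nat_lit 76) (nat_lit 9508642209) (nat_lit 152) (nat_lit 24388112467) (nat_lit 5) (nat_lit 5) (nat_lit 6) (nat_lit 5) (nat_lit 7) (nat_lit 4) (nat_lit 304) (nat_lit 236) (nat_lit 180)) (XT.lf (nat_lit 0) (nat_lit 10095766806) (nat_lit 76) (nat_lit 6172903206) (nat_lit 152) (nat_lit 22810959940) (nat_lit 5) (nat_lit 5) (nat_lit 6) (nat_lit 5) (nat_lit 7) (nat_lit 4) (nat_lit 305) (nat_lit 236) (nat_lit 179))))) (XT.nd (nat_lit 312) (nat_lit 76) (nat_lit 0) (XT.nd (nat_lit 156) (nat_lit 0) (nat_lit 0) (XT.nd (nat_lit 78) (nat_lit 0) (nat_lit 0) (XT.lf (nat_lit 0) (nat_lit 16976550678) (nat_lit 76) (nat_lit 2684288604) (nat_lit 152) (nat_lit 21176405705) (nat_lit 5) (nat_lit 5) (nat_lit 6) (nat_lit 5) (nat_lit 7)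 (nat_lit 4) (nat_lit 306) (nat_lit 236) (nat_lit 178)) (XT.lf (nat_lit 0) (nat_lit 23218271279) (nat_lit 152) (nat_lit 18530124426) (nat_lit 0) (nat_lit 934605542) (nat_lit 5) (nat_lit 5) (nat_lit 7) (nat_lit 4) (nat_lit 5) (nat_lit 4) (nat_lit 307) (nat_lit 236) (nat_lit 177))) (XT.nd (nat_lit 78) (nat_lit 0) (nat_lit 0) (XT.lf (nat_lit 0) (nat_lit 26978887348) (nat_lit 152) (nat_lit 13008912931) (nat_lit 0) (nat_lit 4632020548) (nat_lit 5) (nat_lit 5) (nat_lit 7) (nat_lit 4) (nat_lit 5) (nat_lit 4) (nat_lit 308) (nat_lit 236) (nat_lit 176)) (XT.lf (nat_lit 0) (nat_lit 30909732069) (nat_lit 152) (nat_lit 7242004817) (nat_lit 0) (nat_lit 8502673780) (nat_lit 5) (nat_lit 5) (nat_lit 7) (nat_lit 4) (nat_lit 5) (nat_lit 4) (nat_lit 309) (nat_lit 236) (nat_lit 175)))) (XT.nd (nat_lit 156) (nat_lit 0) (nat_lit 0) (XT.nd (nat_lit 78) (nat_lit 76) (nat_lit 0) (XT.lf (nat_lit 0) (nat_lit 35020164596)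 (nat_lit 152) (nat_lit 1215669349) (nat_lit 0) (nat_lit 12555781080) (nat_lit 5) (nat_lit 5) (nat_lit 7) (nat_lit 4) (nat_lit 5) (nat_lit 4) (nat_lit 310) (nat_lit 236) (nat_lit 174)) (XT.lf (nat_lit 0) (nat_lit 5252556500) (nat_lit 76) (nat_lit 34149422300) (nat_lit 76) (nat_lit 11630443330) (nat_lit 4) (nat_lit 4) (nat_lit 5) (nat_lit 5) (nat_lit 5) (nat_lit 4) (nat_lit 311) (nat_lit 236) (nat_lit 173))) (XT.nd (nat_lit 78) (nat_lit 0) (nat_lit 0) (XT.lf (nat_lit 0) (nat_lit 12059302145) (nat_lit 76) (nat_lit 31948368294) (nat_lit 76) (nat_lit 9377393653) (nat_lit 4) (nat_lit 4) (nat_lit 5) (nat_lit 5) (nat_lit 5) (nat_lit 4) (nat_lit 312) (nat_lit 236) (nat_lit 172)) (XT.nd (nat_lit 78) (nat_lit 0) (nat_lit 0) (XT.lf (nat_lit 0) (nat_lit 19180578604) (nat_lit 76) (nat_lit 29648019271) (nat_lit 76) (nat_lit 7027524944) (nat_lit 4) (nat_lit 4) (nat_lit 5) (nat_lit 5) (nat_lit 5) (nat_lit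 4) (nat_lit 313) (nat_lit 236) (nat_lit 171)) (XT.lf (nat_lit 0) (nat_lit 26633341296) (nat_lit 76) (nat_lit 27242898211) (nat_lit 76) (nat_lit 4575242277) (nat_lit 4) (nat_lit 4) (nat_lit 5) (nat_lit 5) (nat_lit 5) (nat_lit 4) (nat_lit 314) (nat_lit 236) (nat_lit 170))))))))
noncomputable def xc98 : XT := (XT.nd (nat_lit 1326) (nat_lit 76) (nat_lit 0) (XT.nd (nat_lit 624) (nat_lit 0) (nat_lit 0) (XT.nd (nat_lit 312) (nat_lit 76) (nat_lit 0) (XT.nd (nat_lit 156) (nat_lit 0) (nat_lit 0) (XT.nd (nat_lit 78) (nat_lit 76) (nat_lit 0) (XT.lf (nat_lit 0) (nat_lit 34435334894) (nat_lit 76) (nat_lit 24727278633) (nat_lit 76) (nat_lit 2014706884) (nat_lit 4) (nat_lit 4) (nat_lit 5) (nat_lit 5) (nat_lit 5) (nat_lit 4) (nat_lit 315) (nat_lit 236) (nat_lit 169)) (XT.lf (nat_lit 0) (nat_lit 639047936) (nat_lit 152) (nat_lit 21445300446) (nat_lit 76) (nat_lit 41955265052) (nat_lit 3) (nat_lit 5)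 (nat_lit 5) (nat_lit 5) (nat_lit 4) (nat_lit 4) (nat_lit 316) (nat_lit 236) (nat_lit 168))) (XT.nd (nat_lit 78) (nat_lit 0) (nat_lit 0) (XT.lf (nat_lit 0) (nat_lit 3345173836) (nat_lit 152) (nat_lit 15938482320) (nat_lit 76) (nat_lit 47760369269) (nat_lit 3) (nat_lit 5) (nat_lit 5) (nat_lit 5) (nat_lit 4) (nat_lit 4) (nat_lit 317) (nat_lit 236) (nat_lit 167)) (XT.lf (nat_lit 0) (nat_lit 6174597174) (nat_lit 152) (nat_lit 10176964446) (nat_lit 76) (nat_lit 53847720885) (nat_lit 3) (nat_lit 5) (nat_lit 5) (nat_lit 5) (nat_lit 4) (nat_lit 4) (nat_lit 318) (nat_lit 236) (nat_lit 166)))) (XT.nd (nat_lit 156) (nat_lit 0) (nat_lit 0) (XT.nd (nat_lit 78) (nat_lit 76) (nat_lit 0) (XT.lf (nat_lit 0) (nat_lit 9134054673) (nat_lit 152) (nat_lit 4147028926) (nat_lit 76) (nat_lit 60231813596) (nat_lit 3) (nat_lit 5) (nat_lit 5) (nat_lit 5) (nat_lit 4) (nat_lit 4) (nat_lit 319) (nat_lit 236) (nat_lit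 165)) (XT.lf (nat_lit 0) (nat_lit 2237288433) (nat_lit 76) (nat_lit 10028234570) (nat_lit 152) (nat_lit 64725489530) (nat_lit 2) (nat_lit 5) (nat_lit 3) (nat_lit 5) (nat_lit 4) (nat_lit 4) (nat_lit 320) (nat_lit 236) (nat_lit 164))) (XT.nd (nat_lit 78) (nat_lit 0) (nat_lit 0) (XT.lf (nat_lit 0) (nat_lit 9066376970) (nat_lit 76) (nat_lit 6546758428) (nat_lit 152) (nat_lit 65026940481) (nat_lit 2) (nat_lit 5) (nat_lit 3) (nat_lit 5) (nat_lit 4) (nat_lit 4) (nat_lit 321) (nat_lit 236) (nat_lit 163)) (XT.lf (nat_lit 0) (nat_lit 16219376915) (nat_lit 76) (nat_lit 2898597886) (nat_lit 152) (nat_lit 65354145057) (nat_lit 2) (nat_lit 5) (nat_lit 3) (nat_lit 5) (nat_lit 4) (nat_lit 4) (nat_lit 322) (nat_lit 236) (nat_lit 162))))) (XT.nd (nat_lit 312) (nat_lit 0) (nat_lit 0) (XT.nd (nat_lit 156) (nat_lit 0) (nat_lit 0) (XT.nd (nat_lit 78) (nat_lit 0) (nat_lit 0) (XT.lf (nat_lit 0) (nat_lit 22802826867)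 (nat_lit 152) (nat_lit 64797389962) (nat_lit 0) (nat_lit 895329514) (nat_lit 2) (nat_lit 5) (nat_lit 4) (nat_lit 4) (nat_lit 2) (nat_lit 4) (nat_lit 323) (nat_lit 236) (nat_lit 161)) (XT.lf (nat_lit 0) (nat_lit 26710125266) (nat_lit 152) (nat_lit 61233073148) (nat_lit 0) (nat_lit 4775053499) (nat_lit 2) (nat_lit 5) (nat_lit 4) (nat_lit 4) (nat_lit 2) (nat_lit 4) (nat_lit 324) (nat_lit 236) (nat_lit 160))) (XT.nd (nat_lit 78) (nat_lit 0) (nat_lit 0) (XT.lf (nat_lit 0) (nat_lit 30803917853) (nat_lit 152) (nat_lit 57506050796) (nat_lit 0) (nat_lit 8842584738) (nat_lit 2) (nat_lit 5) (nat_lit 4) (nat_lit 4) (nat_lit 2) (nat_lit 4) (nat_lit 325) (nat_lit 236) (nat_lit 159)) (XT.lf (nat_lit 0) (nat_lit 35093951753) (nat_lit 152) (nat_lit 53607449044) (nat_lit 0) (nat_lit 13107607831) (nat_lit 2) (nat_lit 5) (nat_lit 4) (nat_lit 4) (nat_lit 2) (nat_lit 4) (nat_lit 326) (nat_lit 236) (nat_lit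 158)))) (XT.nd (nat_lit 156) (nat_lit 0) (nat_lit 0) (XT.nd (nat_lit 78) (nat_lit 0) (nat_lit 0) (XT.lf (nat_lit 0) (nat_lit 39590441332) (nat_lit 152) (nat_lit 49527985506) (nat_lit 0) (nat_lit 17580277595) (nat_lit 2) (nat_lit 5) (nat_lit 4) (nat_lit 4) (nat_lit 2) (nat_lit 4) (nat_lit 327) (nat_lit 236) (nat_lit 157)) (XT.lf (nat_lit 0) (nat_lit 44304092519) (nat_lit 152) (nat_lit 45257947175) (nat_lit 0) (nat_lit 22271243243) (nat_lit 2) (nat_lit 5) (nat_lit 4) (nat_lit 4) (nat_lit 2) (nat_lit 4) (nat_lit 328) (nat_lit 236) (nat_lit 156))) (XT.nd (nat_lit 78) (nat_lit 0) (nat_lit 0) (XT.lf (nat_lit 0) (nat_lit 49246128292) (nat_lit 152) (nat_lit 40787167292) (nat_lit 0) (nat_lit 27191673740) (nat_lit 2) (nat_lit 5) (nat_lit 4) (nat_lit 4) (nat_lit 2) (nat_lit 4) (nat_lit 329) (nat_lit 236) (nat_lit 155)) (XT.nd (nat_lit 78) (nat_lit 0) (nat_lit 0) (XT.lf (nat_lit 0) (nat_lit 54428315402)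 (nat_lit 152) (nat_lit 36105001143) (nat_lit 0) (nat_lit 32353284399) (nat_lit 2) (nat_lit 5) (nat_lit 4) (nat_lit 4) (nat_lit 2) (nat_lit 4) (nat_lit 330) (nat_lit 236) (nat_lit 154)) (XT.lf (nat_lit 0) (nat_lit 59862992392) (nat_lit 152) (nat_lit 31200300714) (nat_lit 0) (nat_lit 37768364767) (nat_lit 2) (nat_lit 5) (nat_lit 4) (nat_lit 4) (nat_lit 2) (nat_lit 4) (nat_lit 331) (nat_lit 236) (nat_lit 153))))))) (XT.nd (nat_lit 624) (nat_lit 0) (nat_lit 0) (XT.nd (nat_lit 312) (nat_lit 76) (nat_lit 0) (XT.nd (nat_lit 156) (nat_lit 0) (nat_lit 0) (XT.nd (nat_lit 78) (nat_lit 0) (nat_lit 0) (XT.lf (nat_lit 0) (nat_lit 65563098968) (nat_lit 152) (nat_lit 26061388146) (nat_lit 0) (nat_lit 43449807893) (nat_lit 2) (nat_lit 5) (nat_lit 4) (nat_lit 4) (nat_lit 2) (nat_lit 4) (nat_lit 332) (nat_lit 236) (nat_lit 152)) (XT.lf (nat_lit 0) (nat_lit 71542206812) (nat_lit 152) (nat_lit 20676027933)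 (nat_lit 0) (nat_lit 49411141024) (nat_lit 2) (nat_lit 5) (nat_lit 4) (nat_lit 4) (nat_lit 2) (nat_lit 4) (nat_lit 333) (nat_lit 236) (nat_lit 151))) (XT.nd (nat_lit 78) (nat_lit 0) (nat_lit 0) (XT.lf (nat_lit 0) (nat_lit 77814551895) (nat_lit 152) (nat_lit 15031397789) (nat_lit 0) (nat_lit 55666557809) (nat_lit 2) (nat_lit 5) (nat_lit 4) (nat_lit 4) (nat_lit 2) (nat_lit 4) (nat_lit 334) (nat_lit 236) (nat_lit 150)) (XT.lf (nat_lit 0) (nat_lit 84395068372) (nat_lit 152) (nat_lit 9114058119) (nat_lit 0) (nat_lit 62230952097) (nat_lit 2) (nat_lit 5) (nat_lit 4) (nat_lit 4) (nat_lit 2) (nat_lit 4) (nat_lit 335) (nat_lit 236) (nat_lit 149)))) (XT.nd (nat_lit 156) (nat_lit 0) (nat_lit 0) (XT.nd (nat_lit 78) (nat_lit 76) (nat_lit 0) (XT.lf (nat_lit 0) (nat_lit 91299424140) (nat_lit 152) (nat_lit 2909920018) (nat_lit 0) (nat_lit 69119953399) (nat_lit 2) (nat_lit 5) (nat_lit 4) (nat_lit 4)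 (nat_lit 2) (nat_lit 4) (nat_lit 336) (nat_lit 236) (nat_lit 148)) (XT.lf (nat_lit 0) (nat_lit 3714681269) (nat_lit 76) (nat_lit 94887373457) (nat_lit 76) (nat_lit 72693279415) (nat_lit 1) (nat_lit 4) (nat_lit 2) (nat_lit 5) (nat_lit 2) (nat_lit 4) (nat_lit 337) (nat_lit 236) (nat_lit 147))) (XT.nd (nat_lit 78) (nat_lit 0) (nat_lit 0) (XT.lf (nat_lit 0) (nat_lit 10763041058) (nat_lit 76) (nat_lit 95551219680) (nat_lit 76) (nat_lit 73343198685) (nat_lit 1) (nat_lit 4) (nat_lit 2) (nat_lit 5) (nat_lit 2) (nat_lit 4) (nat_lit 338) (nat_lit 236) (nat_lit 146)) (XT.lf (nat_lit 0) (nat_lit 18155726060) (nat_lit 76) (nat_lit 96251744316) (nat_lit 76) (nat_lit 74030459557) (nat_lit 1) (nat_lit 4) (nat_lit 2) (nat_lit 5) (nat_lit 2) (nat_lit 4) (nat_lit 339) (nat_lit 236) (nat_lit 145))))) (XT.nd (nat_lit 312) (nat_lit 0) (nat_lit 0) (XT.nd (nat_lit 156) (nat_lit 0) (nat_lit 0) (XT.nd (nat_lit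 78) (nat_lit 0) (nat_lit 0) (XT.lf (nat_lit 0) (nat_lit 25910337907) (nat_lit 76) (nat_lit 96990615283) (nat_lit 76) (nat_lit 74756698367) (nat_lit 1) (nat_lit 4) (nat_lit 2) (nat_lit 5) (nat_lit 2) (nat_lit 4) (nat_lit 340) (nat_lit 236) (nat_lit 144)) (XT.lf (nat_lit 0) (nat_lit 34045339958) (nat_lit 76) (nat_lit 97769591796) (nat_lit 76) (nat_lit 75523644254) (nat_lit 1) (nat_lit 4) (nat_lit 2) (nat_lit 5) (nat_lit 2) (nat_lit 4) (nat_lit 341) (nat_lit 236) (nat_lit 143))) (XT.nd (nat_lit 78) (nat_lit 0) (nat_lit 0) (XT.lf (nat_lit 0) (nat_lit 42580101268) (nat_lit 76) (nat_lit 98590528562) (nat_lit 76) (nat_lit 76333123282) (nat_lit 1) (nat_lit 4) (nat_lit 2) (nat_lit 5) (nat_lit 2) (nat_lit 4) (nat_lit 342) (nat_lit 236) (nat_lit 142)) (XT.lf (nat_lit 0) (nat_lit 51534942696) (nat_lit 76) (nat_lit 99455380192) (nat_lit 76) (nat_lit 77187062779) (nat_lit 1) (nat_lit 4) (nat_lit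 2) (nat_lit 5) (nat_lit 2) (nat_lit 4) (nat_lit 343) (nat_lit 236) (nat_lit 141)))) (XT.nd (nat_lit 156) (nat_lit 0) (nat_lit 0) (XT.nd (nat_lit 78) (nat_lit 0) (nat_lit 0) (XT.lf (nat_lit 0) (nat_lit 60931185294) (nat_lit 76) (nat_lit 100366205857) (nat_lit 76) (nat_lit 78087495937) (nat_lit 1) (nat_lit 4) (nat_lit 2) (nat_lit 5) (nat_lit 2) (nat_lit 4) (nat_lit 344) (nat_lit 236) (nat_lit 140)) (XT.lf (nat_lit 0) (nat_lit 70791201067) (nat_lit 76) (nat_lit 101325174188) (nat_lit 76) (nat_lit 79036566643) (nat_lit 1) (nat_lit 4) (nat_lit 2) (nat_lit 5) (nat_lit 2) (nat_lit 4) (nat_lit 345) (nat_lit 236) (nat_lit 139))) (XT.nd (nat_lit 78) (nat_lit 0) (nat_lit 0) (XT.lf (nat_lit 0) (nat_lit 81138466243) (nat_lit 76) (nat_lit 102334568444) (nat_lit 76) (nat_lit 80036534589) (nat_lit 1) (nat_lit 4) (nat_lit 2) (nat_lit 5) (nat_lit 2) (nat_lit 4) (nat_lit 346) (nat_lit 236) (nat_lit 138))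 (XT.nd (nat_lit 78) (nat_lit 0) (nat_lit 0) (XT.lf (nat_lit 0) (nat_lit 91997617169) (nat_lit 76) (nat_lit 103396791945) (nat_lit 76) (nat_lit 81089780652) (nat_lit 1) (nat_lit 4) (nat_lit 2) (nat_lit 5) (nat_lit 2) (nat_lit 4) (nat_lit 347) (nat_lit 236) (nat_lit 137)) (XT.lf (nat_lit 0) (nat_lit 103394508965) (nat_lit 76) (nat_lit 104514373795) (nat_lit 76) (nat_lit 82198812560) (nat_lit 1) (nat_lit 4) (nat_lit 2) (nat_lit 5) (nat_lit 2) (nat_lit 4) (nat_lit 348) (nat_lit 236) (nat_lit 136))))))))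
noncomputable def xc99 : XT := (XT.nd (nat_lit 29952) (nat_lit 0) (nat_lit 2356) (XT.nd (nat_lit 624) (nat_lit 0) (nat_lit 0) (XT.nd (nat_lit 312) (nat_lit 0) (nat_lit 0) (XT.nd (nat_lit 156) (nat_lit 0) (nat_lit 0) (XT.nd (nat_lit 78) (nat_lit 0) (nat_lit 0) (XT.lf (nat_lit 0) (nat_lit 115356277088) (nat_lit 76) (nat_lit 105689974901) (nat_lit 76) (nat_lit 83366270866) (nat_lit 1) (nat_lit 4) (nat_lit 2) (nat_lit 5) (nat_lit 2) (nat_lit 4) (nat_lit 349) (nat_lit 236) (nat_lit 135)) (XT.lf (nat_lit 0) (nat_lit 127911401939) (nat_lit 76) (nat_lit 106926394315) (nat_lit 76) (nat_lit 84594935231) (nat_lit 1) (nat_lit 4) (nat_lit 2) (nat_lit 5) (nat_lit 2) (nat_lit 4) (nat_lit 350) (nat_lit 236) (nat_lit 134))) (XT.nd (nat_lit 78) (nat_lit 0) (nat_lit 0) (XT.lf (nat_lit 0) (nat_lit 141089776671) (nat_lit 76) (nat_lit 108226575893) (nat_lit 76) (nat_lit 85887731048) (nat_lit 1) (nat_lit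 4) (nat_lit 2) (nat_lit 5) (nat_lit 2) (nat_lit 4) (nat_lit 351) (nat_lit 236) (nat_lit 133)) (XT.lf (nat_lit 0) (nat_lit 154922778368) (nat_lit 76) (nat_lit 109593615304) (nat_lit 76) (nat_lit 87247736402) (nat_lit 1) (nat_lit 4) (nat_lit 2) (nat_lit 5) (nat_lit 2) (nat_lit 4) (nat_lit 352) (nat_lit 236) (nat_lit 132)))) (XT.nd (nat_lit 156) (nat_lit 0) (nat_lit 0) (XT.nd (nat_lit 78) (nat_lit 0) (nat_lit 0) (XT.lf (nat_lit 0) (nat_lit 169443342748) (nat_lit 76) (nat_lit 111030767405) (nat_lit 76) (nat_lit 88678189400) (nat_lit 1) (nat_lit 4) (nat_lit 2) (nat_lit 5) (nat_lit 2) (nat_lit 4) (nat_lit 353) (nat_lit 236) (nat_lit 131)) (XT.lf (nat_lit 0) (nat_lit 184686042582) (nat_lit 76) (nat_lit 112541453986) (nat_lit 76) (nat_lit 90182495883) (nat_lit 1) (nat_lit 4) (nat_lit 2) (nat_lit 5) (nat_lit 2) (nat_lit 4) (nat_lit 354) (nat_lit 236) (nat_lit 130))) (XT.nd (nat_lit 78) (nat_lit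 0) (nat_lit 0) (XT.lf (nat_lit 0) (nat_lit 200687170015) (nat_lit 76) (nat_lit 114129271920) (nat_lit 76) (nat_lit 91764237534) (nat_lit 1) (nat_lit 4) (nat_lit 2) (nat_lit 5) (nat_lit 2) (nat_lit 4) (nat_lit 355) (nat_lit 236) (nat_lit 129)) (XT.lf (nat_lit 0) (nat_lit 217484822967) (nat_lit 76) (nat_lit 115798001725) (nat_lit 76) (nat_lit 93427180403) (nat_lit 1) (nat_lit 4) (nat_lit 2) (nat_lit 5) (nat_lit 2) (nat_lit 4) (nat_lit 356) (nat_lit 236) (nat_lit 128))))) (XT.nd (nat_lit 28938) (nat_lit 0) (nat_lit 6384) (XT.nd (nat_lit 156) (nat_lit 0) (nat_lit 0) (XT.nd (nat_lit 78) (nat_lit 0) (nat_lit 0) (XT.lf (nat_lit 0) (nat_lit 235118995852) (nat_lit 76) (nat_lit 117551616570) (nat_lit 76) (nat_lit 95175283879) (nat_lit 1) (nat_lit 4) (nat_lit 2) (nat_lit 5) (nat_lit 2) (nat_lit 4) (nat_lit 357) (nat_lit 236) (nat_lit 127)) (XT.lf (nat_lit 0) (nat_lit 253631674794) (nat_lit 76)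 (nat_lit 119394291725) (nat_lit 76) (nat_lit 97012710112) (nat_lit 1) (nat_lit 4) (nat_lit 2) (nat_lit 5) (nat_lit 2) (nat_lit 4) (nat_lit 358) (nat_lit 236) (nat_lit 126))) (XT.nd (nat_lit 28704) (nat_lit 0) (nat_lit 7448) (XT.lf (nat_lit 0) (nat_lit 273066937601) (nat_lit 76) (nat_lit 121330414514) (nat_lit 76) (nat_lit 98943833928) (nat_lit 1) (nat_lit 4) (nat_lit 2) (nat_lit 5) (nat_lit 2) (nat_lit 4) (nat_lit 359) (nat_lit 236) (nat_lit 125)) (XT.lf (nat_lit 0) (nat_lit 1264457388) (nat_lit 228) (nat_lit 749550630) (nat_lit 0) (nat_lit 1264457388) (nat_lit 99) (nat_lit 5) (nat_lit 102) (nat_lit 4) (nat_lit 99) (nat_lit 4) (nat_lit 246) (nat_lit 237) (nat_lit 237)))) (XT.nd (nat_lit 156) (nat_lit 760) (nat_lit 0) (XT.nd (nat_lit 78) (nat_lit 76) (nat_lit 0) (XT.lf (nat_lit 0) (nat_lit 1833773788) (nat_lit 228) (nat_lit 3443481800) (nat_lit 228) (nat_lit 1323393666) (nat_lit 96)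 (nat_lit 4) (nat_lit 99) (nat_lit 5) (nat_lit 99) (nat_lit 4) (nat_lit 247) (nat_lit 237) (nat_lit 236)) (XT.lf (nat_lit 0) (nat_lit 1336477405) (nat_lit 304) (nat_lit 1399441009) (nat_lit 76) (nat_lit 3917275169) (nat_lit 95) (nat_lit 5) (nat_lit 99) (nat_lit 5) (nat_lit 96) (nat_lit 4) (nat_lit 248) (nat_lit 237) (nat_lit 235))) (XT.nd (nat_lit 78) (nat_lit 456) (nat_lit 0) (XT.lf (nat_lit 0) (nat_lit 2071049660) (nat_lit 304) (nat_lit 1896390234) (nat_lit 380) (nat_lit 2746903730) (nat_lit 91) (nat_lit 5) (nat_lit 95) (nat_lit 5) (nat_lit 96) (nat_lit 4) (nat_lit 249) (nat_lit 237) (nat_lit 234)) (XT.nd (nat_lit 78) (nat_lit 456) (nat_lit 0) (XT.lf (nat_lit 0) (nat_lit 5655515934) (nat_lit 304) (nat_lit 953815724) (nat_lit 380) (nat_lit 176385566) (nat_lit 91) (nat_lit 5) (nat_lit 95) (nat_lit 5) (nat_lit 96) (nat_lit 4) (nat_lit 250) (nat_lit 237) (nat_lit 233)) (XT.lf (nat_lit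 0) (nat_lit 2342394328) (nat_lit 456) (nat_lit 4376963742) (nat_lit 76) (nat_lit 145337897) (nat_lit 85) (nat_lit 5) (nat_lit 91) (nat_lit 5) (nat_lit 86) (nat_lit 4) (nat_lit 251) (nat_lit 237) (nat_lit 232))))))) (XT.nd (nat_lit 624) (nat_lit 1596) (nat_lit 0) (XT.nd (nat_lit 312) (nat_lit 1368) (nat_lit 0) (XT.nd (nat_lit 156) (nat_lit 532) (nat_lit 0) (XT.nd (nat_lit 78) (nat_lit 532) (nat_lit 0) (XT.lf (nat_lit 0) (nat_lit 4881012274) (nat_lit 456) (nat_lit 754839361) (nat_lit 76) (nat_lit 1317616651) (nat_lit 85) (nat_lit 5) (nat_lit 91) (nat_lit 5) (nat_lit 86) (nat_lit 4) (nat_lit 252) (nat_lit 237) (nat_lit 231)) (XT.lf (nat_lit 0) (nat_lit 400220128) (nat_lit 532) (nat_lit 4022229176) (nat_lit 76) (nat_lit 2628912202) (nat_lit 78) (nat_lit 5) (nat_lit 85) (nat_lit 5) (nat_lit 79) (nat_lit 5) (nat_lit 253) (nat_lit 237) (nat_lit 230))) (XT.nd (nat_lit 78) (nat_lit 532) (nat_lit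 0) (XT.lf (nat_lit 0) (nat_lit 2812602671) (nat_lit 532) (nat_lit 272121319) (nat_lit 76) (nat_lit 4074287668) (nat_lit 78) (nat_lit 5) (nat_lit 85) (nat_lit 5) (nat_lit 79) (nat_lit 5) (nat_lit 254) (nat_lit 237) (nat_lit 229)) (XT.lf (nat_lit 0) (nat_lit 3675575410) (nat_lit 532) (nat_lit 1606203126) (nat_lit 608) (nat_lit 1994263779) (nat_lit 71) (nat_lit 5) (nat_lit 78) (nat_lit 5) (nat_lit 79) (nat_lit 5) (nat_lit 255) (nat_lit 237) (nat_lit 228)))) (XT.nd (nat_lit 156) (nat_lit 684) (nat_lit 0) (XT.nd (nat_lit 78) (nat_lit 0) (nat_lit 0) (XT.lf (nat_lit 0) (nat_lit 323758945) (nat_lit 608) (nat_lit 26494694) (nat_lit 684) (nat_lit 7054532205) (nat_lit 62) (nat_lit 5) (nat_lit 70) (nat_lit 5) (nat_lit 71) (nat_lit 5) (nat_lit 256) (nat_lit 237) (nat_lit 227)) (XT.lf (nat_lit 0) (nat_lit 2716794357) (nat_lit 684) (nat_lit 3142223151) (nat_lit 76) (nat_lit 1681420375) (nat_lit 62)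 (nat_lit 5) (nat_lit 71) (nat_lit 5) (nat_lit 63) (nat_lit 5) (nat_lit 257) (nat_lit 237) (nat_lit 226))) (XT.nd (nat_lit 78) (nat_lit 0) (nat_lit 0) (XT.lf (nat_lit 0) (nat_lit 912456565) (nat_lit 684) (nat_lit 4193751903) (nat_lit 760) (nat_lit 2582100416) (nat_lit 53) (nat_lit 5) (nat_lit 62) (nat_lit 5) (nat_lit 63) (nat_lit 5) (nat_lit 258) (nat_lit 237) (nat_lit 225)) (XT.lf (nat_lit 0) (nat_lit 5170898490) (nat_lit 684) (nat_lit 2390833192) (nat_lit 760) (nat_lit 285141908) (nat_lit 53) (nat_lit 5) (nat_lit 62) (nat_lit 5) (nat_lit 63) (nat_lit 5) (nat_lit 259) (nat_lit 237) (nat_lit 224))))) (XT.nd (nat_lit 312) (nat_lit 836) (nat_lit 0) (XT.nd (nat_lit 156) (nat_lit 380) (nat_lit 0) (XT.nd (nat_lit 78) (nat_lit 0) (nat_lit 0) (XT.lf (nat_lit 0) (nat_lit 1537997795) (nat_lit 304) (nat_lit 440864377) (nat_lit 380) (nat_lit 6037404300) (nat_lit 48) (nat_lit 5) (nat_lit 52) (nat_lit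 5) (nat_lit 53) (nat_lit 5) (nat_lit 260) (nat_lit 237) (nat_lit 223)) (XT.lf (nat_lit 0) (nat_lit 4317104894) (nat_lit 380) (nat_lit 2277481297) (nat_lit 76) (nat_lit 1601324041) (nat_lit 48) (nat_lit 5) (nat_lit 53) (nat_lit 5) (nat_lit 49) (nat_lit 5) (nat_lit 261) (nat_lit 237) (nat_lit 222))) (XT.nd (nat_lit 78) (nat_lit 76) (nat_lit 0) (XT.lf (nat_lit 0) (nat_lit 2087512136) (nat_lit 304) (nat_lit 4628829323) (nat_lit 380) (nat_lit 1671510646) (nat_lit 44) (nat_lit 5) (nat_lit 48) (nat_lit 5) (nat_lit 49) (nat_lit 5) (nat_lit 262) (nat_lit 237) (nat_lit 221)) (XT.lf (nat_lit 0) (nat_lit 569871948) (nat_lit 380) (nat_lit 1955684078) (nat_lit 76) (nat_lit 6066582101) (nat_lit 43) (nat_lit 5) (nat_lit 48) (nat_lit 5) (nat_lit 44) (nat_lit 5) (nat_lit 263) (nat_lit 237) (nat_lit 220)))) (XT.nd (nat_lit 156) (nat_lit 608) (nat_lit 0) (XT.nd (nat_lit 78) (nat_lit 0) (nat_lit 0) (XT.lf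 (nat_lit 0) (nat_lit 2558475437) (nat_lit 228) (nat_lit 258335123) (nat_lit 304) (nat_lit 5991423972) (nat_lit 40) (nat_lit 5) (nat_lit 43) (nat_lit 5) (nat_lit 44) (nat_lit 5) (nat_lit 264) (nat_lit 237) (nat_lit 219)) (XT.lf (nat_lit 0) (nat_lit 5155135379) (nat_lit 304) (nat_lit 1806085418) (nat_lit 76) (nat_lit 2075390810) (nat_lit 40) (nat_lit 5) (nat_lit 44) (nat_lit 5) (nat_lit 41) (nat_lit 5) (nat_lit 265) (nat_lit 237) (nat_lit 218))) (XT.nd (nat_lit 78) (nat_lit 304) (nat_lit 0) (XT.lf (nat_lit 0) (nat_lit 2846481783) (nat_lit 304) (nat_lit 4728991825) (nat_lit 380) (nat_lit 1703086510) (nat_lit 36) (nat_lit 5) (nat_lit 40) (nat_lit 5) (nat_lit 41) (nat_lit 5) (nat_lit 266) (nat_lit 237) (nat_lit 217)) (XT.nd (nat_lit 78) (nat_lit 228) (nat_lit 0) (XT.lf (nat_lit 0) (nat_lit 513768544) (nat_lit 380) (nat_lit 1847972543) (nat_lit 76) (nat_lit 7173366230) (nat_lit 35) (nat_lit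 5) (nat_lit 40) (nat_lit 5) (nat_lit 36) (nat_lit 5) (nat_lit 267) (nat_lit 237) (nat_lit 216)) (XT.lf (nat_lit 0) (nat_lit 2754011997) (nat_lit 304) (nat_lit 6873425687) (nat_lit 76) (nat_lit 177511157) (nat_lit 32) (nat_lit 5) (nat_lit 36) (nat_lit 5) (nat_lit 33) (nat_lit 5) (nat_lit 268) (nat_lit 237) (nat_lit 215))))))))
noncomputable def xc100 : XT := (XT.nd (nat_lit 1248) (nat_lit 684) (nat_lit 0) (XT.nd (nat_lit 624) (nat_lit 608) (nat_lit 0) (XT.nd (nat_lit 312) (nat_lit 228) (nat_lit 0) (XT.nd (nat_lit 156) (nat_lit 228) (nat_lit 0) (XT.nd (nat_lit 78) (nat_lit 228) (nat_lit 0) (XT.lf (nat_lit 0) (nat_lit 5099874453) (nat_lit 304) (nat_lit 2210924031) (nat_lit 76) (nat_lit 2778138817) (nat_lit 32) (nat_lit 5) (nat_lit 36) (nat_lit 5) (nat_lit 33) (nat_lit 5) (nat_lit 269) (nat_lit 237) (nat_lit 214)) (XT.lf (nat_lit 0) (nat_lit 2675942575) (nat_lit 228) (nat_lit 4855609659)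 (nat_lit 304) (nat_lit 2857466081) (nat_lit 29) (nat_lit 5) (nat_lit 32) (nat_lit 5) (nat_lit 33) (nat_lit 5) (nat_lit 270) (nat_lit 237) (nat_lit 213))) (XT.nd (nat_lit 78) (nat_lit 228) (nat_lit 0) (XT.lf (nat_lit 0) (nat_lit 7791026490) (nat_lit 228) (nat_lit 2260011954) (nat_lit 304) (nat_lit 655057747) (nat_lit 29) (nat_lit 5) (nat_lit 32) (nat_lit 5) (nat_lit 33) (nat_lit 5) (nat_lit 271) (nat_lit 237) (nat_lit 212)) (XT.lf (nat_lit 0) (nat_lit 1575435775) (nat_lit 228) (nat_lit 8975474594) (nat_lit 76) (nat_lit 488548767) (nat_lit 26) (nat_lit 5) (nat_lit 29) (nat_lit 5) (nat_lit 27) (nat_lit 5) (nat_lit 272) (nat_lit 237) (nat_lit 211)))) (XT.nd (nat_lit 156) (nat_lit 0) (nat_lit 0) (XT.nd (nat_lit 78) (nat_lit 228) (nat_lit 0) (XT.lf (nat_lit 0) (nat_lit 3914997909) (nat_lit 228) (nat_lit 4135262142) (nat_lit 76) (nat_lit 3337977975) (nat_lit 26) (nat_lit 5) (nat_lit 29) (nat_lit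 5) (nat_lit 27) (nat_lit 5) (nat_lit 273) (nat_lit 237) (nat_lit 210)) (XT.lf (nat_lit 0) (nat_lit 886930025) (nat_lit 228) (nat_lit 5434009267) (nat_lit 304) (nat_lit 5436296645) (nat_lit 23) (nat_lit 5) (nat_lit 26) (nat_lit 5) (nat_lit 27) (nat_lit 5) (nat_lit 274) (nat_lit 237) (nat_lit 209))) (XT.nd (nat_lit 78) (nat_lit 0) (nat_lit 0) (XT.lf (nat_lit 0) (nat_lit 6216806660) (nat_lit 228) (nat_lit 2637668114) (nat_lit 304) (nat_lit 3290082341) (nat_lit 23) (nat_lit 5) (nat_lit 26) (nat_lit 5) (nat_lit 27) (nat_lit 5) (nat_lit 275) (nat_lit 237) (nat_lit 208)) (XT.lf (nat_lit 0) (nat_lit 11459238394) (nat_lit 304) (nat_lit 828430729) (nat_lit 76) (nat_lit 266574540) (nat_lit 23) (nat_lit 5) (nat_lit 27) (nat_lit 5) (nat_lit 24) (nat_lit 4) (nat_lit 276) (nat_lit 237) (nat_lit 207))))) (XT.nd (nat_lit 312) (nat_lit 228) (nat_lit 0) (XT.nd (nat_lit 156) (nat_lit 152) (nat_lit 0)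 (XT.nd (nat_lit 78) (nat_lit 0) (nat_lit 0) (XT.lf (nat_lit 0) (nat_lit 1228806214) (nat_lit 228) (nat_lit 8455092109) (nat_lit 76) (nat_lit 3296892434) (nat_lit 20) (nat_lit 5) (nat_lit 23) (nat_lit 5) (nat_lit 21) (nat_lit 5) (nat_lit 277) (nat_lit 237) (nat_lit 206)) (XT.lf (nat_lit 0) (nat_lit 3589380912) (nat_lit 228) (nat_lit 3352231477) (nat_lit 76) (nat_lit 6488482658) (nat_lit 20) (nat_lit 5) (nat_lit 23) (nat_lit 5) (nat_lit 21) (nat_lit 5) (nat_lit 278) (nat_lit 237) (nat_lit 205))) (XT.nd (nat_lit 78) (nat_lit 0) (nat_lit 0) (XT.lf (nat_lit 0) (nat_lit 1991038224) (nat_lit 152) (nat_lit 4053852878) (nat_lit 228) (nat_lit 7858314766) (nat_lit 18) (nat_lit 5) (nat_lit 20) (nat_lit 5) (nat_lit 21) (nat_lit 5) (nat_lit 279) (nat_lit 237) (nat_lit 204)) (XT.lf (nat_lit 0) (nat_lit 7640659177) (nat_lit 152) (nat_lit 986485089) (nat_lit 228) (nat_lit 5772807355) (nat_lit 18) (nat_lit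 5) (nat_lit 20) (nat_lit 5) (nat_lit 21) (nat_lit 5) (nat_lit 280) (nat_lit 237) (nat_lit 203)))) (XT.nd (nat_lit 156) (nat_lit 76) (nat_lit 0) (XT.nd (nat_lit 78) (nat_lit 152) (nat_lit 0) (XT.lf (nat_lit 0) (nat_lit 11322740635) (nat_lit 228) (nat_lit 1459495759) (nat_lit 76) (nat_lit 2140256040) (nat_lit 18) (nat_lit 5) (nat_lit 21) (nat_lit 5) (nat_lit 19) (nat_lit 4) (nat_lit 281) (nat_lit 237) (nat_lit 202)) (XT.lf (nat_lit 0) (nat_lit 4149707471) (nat_lit 152) (nat_lit 10036129445) (nat_lit 228) (nat_lit 1283848607) (nat_lit 16) (nat_lit 5) (nat_lit 18) (nat_lit 5) (nat_lit 19) (nat_lit 4) (nat_lit 282) (nat_lit 237) (nat_lit 201))) (XT.nd (nat_lit 78) (nat_lit 0) (nat_lit 0) (XT.lf (nat_lit 0) (nat_lit 1088261163) (nat_lit 228) (nat_lit 6044082924) (nat_lit 76) (nat_lit 8912286880) (nat_lit 15) (nat_lit 5) (nat_lit 18) (nat_lit 5) (nat_lit 16) (nat_lit 5) (nat_lit 283) (nat_lit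 237) (nat_lit 200)) (XT.lf (nat_lit 0) (nat_lit 3490142414) (nat_lit 228) (nat_lit 594768719) (nat_lit 76) (nat_lit 12564783912) (nat_lit 15) (nat_lit 5) (nat_lit 18) (nat_lit 5) (nat_lit 16) (nat_lit 5) (nat_lit 284) (nat_lit 237) (nat_lit 199)))))) (XT.nd (nat_lit 624) (nat_lit 228) (nat_lit 0) (XT.nd (nat_lit 312) (nat_lit 228) (nat_lit 0) (XT.nd (nat_lit 156) (nat_lit 76) (nat_lit 0) (XT.nd (nat_lit 78) (nat_lit 0) (nat_lit 0) (XT.lf (nat_lit 0) (nat_lit 5228322568) (nat_lit 152) (nat_lit 821911283) (nat_lit 228) (nat_lit 11233005321) (nat_lit 13) (nat_lit 5) (nat_lit 15) (nat_lit 5) (nat_lit 16) (nat_lit 5) (nat_lit 285) (nat_lit 237) (nat_lit 198)) (XT.lf (nat_lit 0) (nat_lit 8746420874) (nat_lit 228) (nat_lit 6692424321) (nat_lit 76) (nat_lit 2509337095) (nat_lit 13) (nat_lit 5) (nat_lit 16) (nat_lit 5) (nat_lit 14) (nat_lit 4) (nat_lit 286) (nat_lit 237) (nat_lit 197))) (XT.nd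 (nat_lit 78) (nat_lit 76) (nat_lit 0) (XT.lf (nat_lit 0) (nat_lit 11550123325) (nat_lit 228) (nat_lit 1138957862) (nat_lit 76) (nat_lit 5958776391) (nat_lit 13) (nat_lit 5) (nat_lit 16) (nat_lit 5) (nat_lit 14) (nat_lit 4) (nat_lit 287) (nat_lit 237) (nat_lit 196)) (XT.lf (nat_lit 0) (nat_lit 4784677200) (nat_lit 76) (nat_lit 9745209368) (nat_lit 152) (nat_lit 4850950867) (nat_lit 12) (nat_lit 5) (nat_lit 13) (nat_lit 5) (nat_lit 14) (nat_lit 4) (nat_lit 288) (nat_lit 237) (nat_lit 195)))) (XT.nd (nat_lit 156) (nat_lit 228) (nat_lit 0) (XT.nd (nat_lit 78) (nat_lit 0) (nat_lit 0) (XT.lf (nat_lit 0) (nat_lit 10984369925) (nat_lit 76) (nat_lit 6655647630) (nat_lit 152) (nat_lit 2511488884) (nat_lit 12) (nat_lit 5) (nat_lit 13) (nat_lit 5) (nat_lit 14) (nat_lit 4) (nat_lit 289) (nat_lit 237) (nat_lit 194)) (XT.lf (nat_lit 0) (nat_lit 17437222394) (nat_lit 76) (nat_lit 3432328675) (nat_lit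 152) (nat_lit 93066961) (nat_lit 12) (nat_lit 5) (nat_lit 13) (nat_lit 5) (nat_lit 14) (nat_lit 4) (nat_lit 290) (nat_lit 237) (nat_lit 193))) (XT.nd (nat_lit 78) (nat_lit 0) (nat_lit 0) (XT.lf (nat_lit 0) (nat_lit 2370282139) (nat_lit 228) (nat_lit 19431458030) (nat_lit 76) (nat_lit 10614533) (nat_lit 9) (nat_lit 5) (nat_lit 12) (nat_lit 5) (nat_lit 10) (nat_lit 4) (nat_lit 291) (nat_lit 237) (nat_lit 192)) (XT.lf (nat_lit 0) (nat_lit 5036079478) (nat_lit 228) (nat_lit 14111431479) (nat_lit 76) (nat_lit 3552960328) (nat_lit 9) (nat_lit 5) (nat_lit 12) (nat_lit 5) (nat_lit 10) (nat_lit 4) (nat_lit 292) (nat_lit 237) (nat_lit 191))))) (XT.nd (nat_lit 312) (nat_lit 152) (nat_lit 0) (XT.nd (nat_lit 156) (nat_lit 76) (nat_lit 0) (XT.nd (nat_lit 78) (nat_lit 0) (nat_lit 0) (XT.lf (nat_lit 0) (nat_lit 7802269275) (nat_lit 228) (nat_lit 8578702389) (nat_lit 76) (nat_lit 7253752411) (nat_lit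 9) (nat_lit 5) (nat_lit 12) (nat_lit 5) (nat_lit 10) (nat_lit 4) (nat_lit 293) (nat_lit 237) (nat_lit 190)) (XT.lf (nat_lit 0) (nat_lit 10675437696) (nat_lit 228) (nat_lit 2820097597) (nat_lit 76) (nat_lit 11121802192) (nat_lit 9) (nat_lit 5) (nat_lit 12) (nat_lit 5) (nat_lit 10) (nat_lit 4) (nat_lit 294) (nat_lit 237) (nat_lit 189))) (XT.nd (nat_lit 78) (nat_lit 0) (nat_lit 0) (XT.lf (nat_lit 0) (nat_lit 3283175996) (nat_lit 76) (nat_lit 10430509200) (nat_lit 152) (nat_lit 11934402895) (nat_lit 8) (nat_lit 5) (nat_lit 9) (nat_lit 5) (nat_lit 10) (nat_lit 4) (nat_lit 295) (nat_lit 237) (nat_lit 188)) (XT.lf (nat_lit 0) (nat_lit 9741956852) (nat_lit 76) (nat_lit 7180487312) (nat_lit 152) (nat_lit 9807075972) (nat_lit 8) (nat_lit 5) (nat_lit 9) (nat_lit 5) (nat_lit 10) (nat_lit 4) (nat_lit 296) (nat_lit 237) (nat_lit 187)))) (XT.nd (nat_lit 156) (nat_lit 152) (nat_lit 0) (XT.nd (nat_lit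 78) (nat_lit 0) (nat_lit 0) (XT.lf (nat_lit 0) (nat_lit 16478377858) (nat_lit 76) (nat_lit 3785491202) (nat_lit 152) (nat_lit 7602613675) (nat_lit 8) (nat_lit 5) (nat_lit 9) (nat_lit 5) (nat_lit 10) (nat_lit 4) (nat_lit 297) (nat_lit 237) (nat_lit 186)) (XT.lf (nat_lit 0) (nat_lit 23508478110) (nat_lit 76) (nat_lit 237437543) (nat_lit 152) (nat_lit 5315767283) (nat_lit 8) (nat_lit 5) (nat_lit 9) (nat_lit 5) (nat_lit 10) (nat_lit 4) (nat_lit 298) (nat_lit 237) (nat_lit 185))) (XT.nd (nat_lit 78) (nat_lit 76) (nat_lit 0) (XT.lf (nat_lit 0) (nat_lit 492585758) (nat_lit 76) (nat_lit 26946188966) (nat_lit 76) (nat_lit 2876096725) (nat_lit 7) (nat_lit 4) (nat_lit 8) (nat_lit 5) (nat_lit 8) (nat_lit 4) (nat_lit 299) (nat_lit 237) (nat_lit 184)) (XT.nd (nat_lit 78) (nat_lit 76) (nat_lit 0) (XT.lf (nat_lit 0) (nat_lit 6987956988) (nat_lit 76) (nat_lit 24401321049) (nat_lit 76) (nat_lit 237852054)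 (nat_lit 7) (nat_lit 4) (nat_lit 8) (nat_lit 5) (nat_lit 8) (nat_lit 4) (nat_lit 300) (nat_lit 237) (nat_lit 183)) (XT.lf (nat_lit 0) (nat_lit 2427120839) (nat_lit 152) (nat_lit 19276801517) (nat_lit 76) (nat_lit 11300364334) (nat_lit 6) (nat_lit 5) (nat_lit 8) (nat_lit 5) (nat_lit 7) (nat_lit 4) (nat_lit 301) (nat_lit 237) (nat_lit 182))))))))
noncomputable def xc101 : XT := (XT.nd (nat_lit 1326) (nat_lit 76) (nat_lit 0) (XT.nd (nat_lit 624) (nat_lit 152) (nat_lit 0) (XT.nd (nat_lit 312) (nat_lit 0) (nat_lit 0) (XT.nd (nat_lit 156) (nat_lit 76) (nat_lit 0) (XT.nd (nat_lit 78) (nat_lit 0) (nat_lit 0) (XT.lf (nat_lit 0) (nat_lit 5194363807) (nat_lit 152) (nat_lit 13688648900) (nat_lit 76) (nat_lit 15568295202) (nat_lit 6) (nat_lit 5) (nat_lit 8) (nat_lit 5) (nat_lit 7) (nat_lit 4) (nat_lit 302) (nat_lit 237) (nat_lit 181)) (XT.lf (nat_lit 0) (nat_lit 8078078275) (nat_lit 152) (nat_lit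 7857696593) (nat_lit 76) (nat_lit 20036049850) (nat_lit 6) (nat_lit 5) (nat_lit 8) (nat_lit 5) (nat_lit 7) (nat_lit 4) (nat_lit 303) (nat_lit 237) (nat_lit 180))) (XT.nd (nat_lit 78) (nat_lit 76) (nat_lit 0) (XT.lf (nat_lit 0) (nat_lit 11085130229) (nat_lit 152) (nat_lit 1770061374) (nat_lit 76) (nat_lit 24714265789) (nat_lit 6) (nat_lit 5) (nat_lit 8) (nat_lit 5) (nat_lit 7) (nat_lit 4) (nat_lit 304) (nat_lit 237) (nat_lit 179)) (XT.lf (nat_lit 0) (nat_lit 4740475959) (nat_lit 76) (nat_lit 9556215471) (nat_lit 152) (nat_lit 24947617784) (nat_lit 5) (nat_lit 5) (nat_lit 6) (nat_lit 5) (nat_lit 7) (nat_lit 4) (nat_lit 305) (nat_lit 237) (nat_lit 178)))) (XT.nd (nat_lit 156) (nat_lit 0) (nat_lit 0) (XT.nd (nat_lit 78) (nat_lit 0) (nat_lit 0) (XT.lf (nat_lit 0) (nat_lit 11605323770) (nat_lit 76) (nat_lit 6074063750) (nat_lit 152) (nat_lit 23323031455) (nat_lit 5) (nat_lit 5) (nat_lit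 6) (nat_lit 5) (nat_lit 7) (nat_lit 4) (nat_lit 306) (nat_lit 237) (nat_lit 177)) (XT.lf (nat_lit 0) (nat_lit 18782300710) (nat_lit 76) (nat_lit 2430422447) (nat_lit 152) (nat_lit 21636676959) (nat_lit 5) (nat_lit 5) (nat_lit 6) (nat_lit 5) (nat_lit 7) (nat_lit 4) (nat_lit 307) (nat_lit 237) (nat_lit 176))) (XT.nd (nat_lit 78) (nat_lit 0) (nat_lit 0) (XT.lf (nat_lit 0) (nat_lit 24926709544) (nat_lit 152) (nat_lit 18522753892) (nat_lit 0) (nat_lit 1339106853) (nat_lit 5) (nat_lit 5) (nat_lit 7) (nat_lit 4) (nat_lit 5) (nat_lit 4) (nat_lit 308) (nat_lit 237) (nat_lit 175)) (XT.lf (nat_lit 0) (nat_lit 28849283811) (nat_lit 152) (nat_lit 12769952144) (nat_lit 0) (nat_lit 5204355893) (nat_lit 5) (nat_lit 5) (nat_lit 7) (nat_lit 4) (nat_lit 5) (nat_lit 4) (nat_lit 309) (nat_lit 237) (nat_lit 174))))) (XT.nd (nat_lit 312) (nat_lit 76) (nat_lit 0) (XT.nd (nat_lit 156) (nat_lit 76) (nat_lit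 0) (XT.nd (nat_lit 78) (nat_lit 0) (nat_lit 0) (XT.lf (nat_lit 0) (nat_lit 32951839716) (nat_lit 152) (nat_lit 6757051312) (nat_lit 0) (nat_lit 9252316343) (nat_lit 5) (nat_lit 5) (nat_lit 7) (nat_lit 4) (nat_lit 5) (nat_lit 4) (nat_lit 310) (nat_lit 237) (nat_lit 173)) (XT.lf (nat_lit 0) (nat_lit 37244145248) (nat_lit 152) (nat_lit 469734963) (nat_lit 0) (nat_lit 13492626205) (nat_lit 5) (nat_lit 5) (nat_lit 7) (nat_lit 4) (nat_lit 5) (nat_lit 4) (nat_lit 311) (nat_lit 237) (nat_lit 172))) (XT.nd (nat_lit 78) (nat_lit 0) (nat_lit 0) (XT.lf (nat_lit 0) (nat_lit 6308890600) (nat_lit 76) (nat_lit 35526029045) (nat_lit 76) (nat_lit 11724990315) (nat_lit 4) (nat_lit 4) (nat_lit 5) (nat_lit 5) (nat_lit 5) (nat_lit 4) (nat_lit 312) (nat_lit 237) (nat_lit 171)) (XT.lf (nat_lit 0) (nat_lit 13418177991) (nat_lit 76) (nat_lit 33230677785) (nat_lit 76) (nat_lit 9382477449) (nat_lit 4) (nat_lit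 4) (nat_lit 5) (nat_lit 5) (nat_lit 5) (nat_lit 4) (nat_lit 313) (nat_lit 237) (nat_lit 170)))) (XT.nd (nat_lit 156) (nat_lit 76) (nat_lit 0) (XT.nd (nat_lit 78) (nat_lit 0) (nat_lit 0) (XT.lf (nat_lit 0) (nat_lit 20859522523) (nat_lit 76) (nat_lit 30830316499) (nat_lit 76) (nat_lit 6937200347) (nat_lit 4) (nat_lit 4) (nat_lit 5) (nat_lit 5) (nat_lit 5) (nat_lit 4) (nat_lit 314) (nat_lit 237) (nat_lit 169)) (XT.lf (nat_lit 0) (nat_lit 28650641683) (nat_lit 76) (nat_lit 28319230039) (nat_lit 76) (nat_lit 4383336920) (nat_lit 4) (nat_lit 4) (nat_lit 5) (nat_lit 5) (nat_lit 5) (nat_lit 4) (nat_lit 315) (nat_lit 237) (nat_lit 168))) (XT.nd (nat_lit 78) (nat_lit 76) (nat_lit 0) (XT.lf (nat_lit 0) (nat_lit 36810085756) (nat_lit 76) (nat_lit 25691439630) (nat_lit 76) (nat_lit 1714806542) (nat_lit 4) (nat_lit 4) (nat_lit 5) (nat_lit 5) (nat_lit 5) (nat_lit 4) (nat_lit 316) (nat_lit 237) (nat_lit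 167)) (XT.nd (nat_lit 78) (nat_lit 0) (nat_lit 0) (XT.lf (nat_lit 0) (nat_lit 1040345897) (nat_lit 152) (nat_lit 21882723968) (nat_lit 76) (nat_lit 44299317329) (nat_lit 3) (nat_lit 5) (nat_lit 5) (nat_lit 5) (nat_lit 4) (nat_lit 4) (nat_lit 317) (nat_lit 237) (nat_lit 166)) (XT.lf (nat_lit 0) (nat_lit 3864190208) (nat_lit 152) (nat_lit 16130795483) (nat_lit 76) (nat_lit 50382948708) (nat_lit 3) (nat_lit 5) (nat_lit 5) (nat_lit 5) (nat_lit 4) (nat_lit 4) (nat_lit 318) (nat_lit 237) (nat_lit 165))))))) (XT.nd (nat_lit 624) (nat_lit 0) (nat_lit 0) (XT.nd (nat_lit 312) (nat_lit 0) (nat_lit 0) (XT.nd (nat_lit 156) (nat_lit 76) (nat_lit 0) (XT.nd (nat_lit 78) (nat_lit 0) (nat_lit 0) (XT.lf (nat_lit 0) (nat_lit 6818334348) (nat_lit 152) (nat_lit 10109992713) (nat_lit 76) (nat_lit 56763498335) (nat_lit 3) (nat_lit 5) (nat_lit 5) (nat_lit 5) (nat_lit 4) (nat_lit 4) (nat_lit 319) (nat_lit 237)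 (nat_lit 164)) (XT.lf (nat_lit 0) (nat_lit 9909811992) (nat_lit 152) (nat_lit 3805980414) (nat_lit 76) (nat_lit 63456157995) (nat_lit 3) (nat_lit 5) (nat_lit 5) (nat_lit 5) (nat_lit 4) (nat_lit 4) (nat_lit 320) (nat_lit 237) (nat_lit 163))) (XT.nd (nat_lit 78) (nat_lit 0) (nat_lit 0) (XT.lf (nat_lit 0) (nat_lit 2888707651) (nat_lit 76) (nat_lit 10302376974) (nat_lit 152) (nat_lit 67633255762) (nat_lit 2) (nat_lit 5) (nat_lit 3) (nat_lit 5) (nat_lit 4) (nat_lit 4) (nat_lit 321) (nat_lit 237) (nat_lit 162)) (XT.lf (nat_lit 0) (nat_lit 10033557530) (nat_lit 76) (nat_lit 6657649374) (nat_lit 152) (nat_lit 67965422511) (nat_lit 2) (nat_lit 5) (nat_lit 3) (nat_lit 5) (nat_lit 4) (nat_lit 4) (nat_lit 322) (nat_lit 237) (nat_lit 161)))) (XT.nd (nat_lit 156) (nat_lit 0) (nat_lit 0) (XT.nd (nat_lit 78) (nat_lit 0) (nat_lit 0) (XT.lf (nat_lit 0) (nat_lit 17519737867) (nat_lit 76) (nat_lit 2837387803)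 (nat_lit 152) (nat_lit 68323885648) (nat_lit 2) (nat_lit 5) (nat_lit 3) (nat_lit 5) (nat_lit 4) (nat_lit 4) (nat_lit 323) (nat_lit 237) (nat_lit 160)) (XT.lf (nat_lit 0) (nat_lit 24215797308) (nat_lit 152) (nat_lit 67560223064) (nat_lit 0) (nat_lit 1130136191) (nat_lit 2) (nat_lit 5) (nat_lit 4) (nat_lit 4) (nat_lit 2) (nat_lit 4) (nat_lit 324) (nat_lit 237) (nat_lit 159))) (XT.nd (nat_lit 78) (nat_lit 0) (nat_lit 0) (XT.lf (nat_lit 0) (nat_lit 28305468765) (nat_lit 152) (nat_lit 63840406428) (nat_lit 0) (nat_lit 5194796841) (nat_lit 2) (nat_lit 5) (nat_lit 4) (nat_lit 4) (nat_lit 2) (nat_lit 4) (nat_lit 325) (nat_lit 237) (nat_lit 158)) (XT.lf (nat_lit 0) (nat_lit 32591577779) (nat_lit 152) (nat_lit 59948667262) (nat_lit 0) (nat_lit 9457086039) (nat_lit 2) (nat_lit 5) (nat_lit 4) (nat_lit 4) (nat_lit 2) (nat_lit 4) (nat_lit 326) (nat_lit 237) (nat_lit 157))))) (XT.nd (nat_lit 312)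 (nat_lit 0) (nat_lit 0) (XT.nd (nat_lit 156) (nat_lit 0) (nat_lit 0) (XT.nd (nat_lit 78) (nat_lit 0) (nat_lit 0) (XT.lf (nat_lit 0) (nat_lit 37084329372) (nat_lit 152) (nat_lit 55875739521) (nat_lit 0) (nat_lit 13927152093) (nat_lit 2) (nat_lit 5) (nat_lit 4) (nat_lit 4) (nat_lit 2) (nat_lit 4) (nat_lit 327) (nat_lit 237) (nat_lit 156)) (XT.lf (nat_lit 0) (nat_lit 41794420572) (nat_lit 152) (nat_lit 51611925758) (nat_lit 0) (nat_lit 18615638018) (nat_lit 2) (nat_lit 5) (nat_lit 4) (nat_lit 4) (nat_lit 2) (nat_lit 4) (nat_lit 328) (nat_lit 237) (nat_lit 155))) (XT.nd (nat_lit 78) (nat_lit 0) (nat_lit 0) (XT.lf (nat_lit 0) (nat_lit 46733065881) (nat_lit 152) (nat_lit 47147074035) (nat_lit 0) (nat_lit 23533706874) (nat_lit 2) (nat_lit 5) (nat_lit 4) (nat_lit 4) (nat_lit 2) (nat_lit 4) (nat_lit 329) (nat_lit 237) (nat_lit 154)) (XT.lf (nat_lit 0) (nat_lit 51912023979) (nat_lit 152) (nat_lit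 42470553753) (nat_lit 0) (nat_lit 28693068351) (nat_lit 2) (nat_lit 5) (nat_lit 4) (nat_lit 4) (nat_lit 2) (nat_lit 4) (nat_lit 330) (nat_lit 237) (nat_lit 153)))) (XT.nd (nat_lit 156) (nat_lit 0) (nat_lit 0) (XT.nd (nat_lit 78) (nat_lit 0) (nat_lit 0) (XT.lf (nat_lit 0) (nat_lit 57343625718) (nat_lit 152) (nat_lit 37571230340) (nat_lit 0) (nat_lit 34106006641) (nat_lit 2) (nat_lit 5) (nat_lit 4) (nat_lit 4) (nat_lit 2) (nat_lit 4) (nat_lit 331) (nat_lit 237) (nat_lit 152)) (XT.lf (nat_lit 0) (nat_lit 63040803484) (nat_lit 152) (nat_lit 32437438739) (nat_lit 0) (nat_lit 39785409693) (nat_lit 2) (nat_lit 5) (nat_lit 4) (nat_lit 4) (nat_lit 2) (nat_lit 4) (nat_lit 332) (nat_lit 237) (nat_lit 151))) (XT.nd (nat_lit 78) (nat_lit 0) (nat_lit 0) (XT.lf (nat_lit 0) (nat_lit 69017121985) (nat_lit 152) (nat_lit 27056955639) (nat_lit 0) (nat_lit 45744799896) (nat_lit 2) (nat_lit 5) (nat_lit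 4) (nat_lit 4) (nat_lit 2) (nat_lit 4) (nat_lit 333) (nat_lit 237) (nat_lit 150)) (XT.nd (nat_lit 78) (nat_lit 0) (nat_lit 0) (XT.lf (nat_lit 0) (nat_lit 75286810551) (nat_lit 152) (nat_lit 21416970364) (nat_lit 0) (nat_lit 51998366273) (nat_lit 2) (nat_lit 5) (nat_lit 4) (nat_lit 4) (nat_lit 2) (nat_lit 4) (nat_lit 334) (nat_lit 237) (nat_lit 149)) (XT.lf (nat_lit 0) (nat_lit 81864797012) (nat_lit 152) (nat_lit 15504054378) (nat_lit 0) (nat_lit 58560998268) (nat_lit 2) (nat_lit 5) (nat_lit 4) (nat_lit 4) (nat_lit 2) (nat_lit 4) (nat_lit 335) (nat_lit 237) (nat_lit 148))))))))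
noncomputable def xc102 : XT := (XT.nd (nat_lit 1326) (nat_lit 0) (nat_lit 0) (XT.nd (nat_lit 624) (nat_lit 0) (nat_lit 0) (XT.nd (nat_lit 312) (nat_lit 0) (nat_lit 0) (XT.nd (nat_lit 156) (nat_lit 76) (nat_lit 0) (XT.nd (nat_lit 78) (nat_lit 0) (nat_lit 0) (XT.lf (nat_lit 0) (nat_lit 88766743241) (nat_lit 152) (nat_lit 9304129310) (nat_lit 0) (nat_lit 65448321196) (nat_lit 2) (nat_lit 5) (nat_lit 4) (nat_lit 4) (nat_lit 2) (nat_lit 4) (nat_lit 336) (nat_lit 237) (nat_lit 147)) (XT.lf (nat_lit 0) (nat_lit 96009082443) (nat_lit 152) (nat_lit 2802433433) (nat_lit 0) (nat_lit 72676733445) (nat_lit 2) (nat_lit 5) (nat_lit 4) (nat_lit 4) (nat_lit 2) (nat_lit 4) (nat_lit 337) (nat_lit 237) (nat_lit 146))) (XT.nd (nat_lit 78) (nat_lit 0) (nat_lit 0) (XT.lf (nat_lit 0) (nat_lit 4149317554) (nat_lit 76) (nat_lit 99524523203) (nat_lit 76) (nat_lit 76178910441) (nat_lit 1) (nat_lit 4) (nat_lit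 2) (nat_lit 5) (nat_lit 2) (nat_lit 4) (nat_lit 338) (nat_lit 237) (nat_lit 145)) (XT.lf (nat_lit 0) (nat_lit 11538242846) (nat_lit 76) (nat_lit 100226667400) (nat_lit 76) (nat_lit 76868422481) (nat_lit 1) (nat_lit 4) (nat_lit 2) (nat_lit 5) (nat_lit 2) (nat_lit 4) (nat_lit 339) (nat_lit 237) (nat_lit 144)))) (XT.nd (nat_lit 156) (nat_lit 0) (nat_lit 0) (XT.nd (nat_lit 78) (nat_lit 0) (nat_lit 0) (XT.lf (nat_lit 0) (nat_lit 19289274016) (nat_lit 76) (nat_lit 100967080805) (nat_lit 76) (nat_lit 77596805260) (nat_lit 1) (nat_lit 4) (nat_lit 2) (nat_lit 5) (nat_lit 2) (nat_lit 4) (nat_lit 340) (nat_lit 237) (nat_lit 143)) (XT.lf (nat_lit 0) (nat_lit 27420865899) (nat_lit 76) (nat_lit 101747526307) (nat_lit 76) (nat_lit 78365793023) (nat_lit 1) (nat_lit 4) (nat_lit 2) (nat_lit 5) (nat_lit 2) (nat_lit 4) (nat_lit 341) (nat_lit 237) (nat_lit 142))) (XT.nd (nat_lit 78) (nat_lit 0) (nat_lit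 0) (XT.lf (nat_lit 0) (nat_lit 35952379430) (nat_lit 76) (nat_lit 102569862110) (nat_lit 76) (nat_lit 79177216694) (nat_lit 1) (nat_lit 4) (nat_lit 2) (nat_lit 5) (nat_lit 2) (nat_lit 4) (nat_lit 342) (nat_lit 237) (nat_lit 141)) (XT.lf (nat_lit 0) (nat_lit 44904127735) (nat_lit 76) (nat_lit 103436046156) (nat_lit 76) (nat_lit 80033008233) (nat_lit 1) (nat_lit 4) (nat_lit 2) (nat_lit 5) (nat_lit 2) (nat_lit 4) (nat_lit 343) (nat_lit 237) (nat_lit 140))))) (XT.nd (nat_lit 312) (nat_lit 0) (nat_lit 0) (XT.nd (nat_lit 156) (nat_lit 0) (nat_lit 0) (XT.nd (nat_lit 78) (nat_lit 0) (nat_lit 0) (XT.lf (nat_lit 0) (nat_lit 54297424501) (nat_lit 76) (nat_lit 104348140788) (nat_lit 76) (nat_lit 80935205240) (nat_lit 1) (nat_lit 4) (nat_lit 2) (nat_lit 5) (nat_lit 2) (nat_lit 4) (nat_lit 344) (nat_lit 237) (nat_lit 139)) (XT.lf (nat_lit 0) (nat_lit 64154634720) (nat_lit 76) (nat_lit 105308317660)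 (nat_lit 76) (nat_lit 81885955802) (nat_lit 1) (nat_lit 4) (nat_lit 2) (nat_lit 5) (nat_lit 2) (nat_lit 4) (nat_lit 345) (nat_lit 237) (nat_lit 138))) (XT.nd (nat_lit 78) (nat_lit 0) (nat_lit 0) (XT.lf (nat_lit 0) (nat_lit 74499227941) (nat_lit 76) (nat_lit 106318862908) (nat_lit 76) (nat_lit 82887523611) (nat_lit 1) (nat_lit 4) (nat_lit 2) (nat_lit 5) (nat_lit 2) (nat_lit 4) (nat_lit 346) (nat_lit 237) (nat_lit 137)) (XT.lf (nat_lit 0) (nat_lit 85355834147) (nat_lit 76) (nat_lit 107382182590) (nat_lit 76) (nat_lit 83942293353) (nat_lit 1) (nat_lit 4) (nat_lit 2) (nat_lit 5) (nat_lit 2) (nat_lit 4) (nat_lit 347) (nat_lit 237) (nat_lit 136)))) (XT.nd (nat_lit 156) (nat_lit 0) (nat_lit 0) (XT.nd (nat_lit 78) (nat_lit 0) (nat_lit 0) (XT.lf (nat_lit 0) (nat_lit 96750302400) (nat_lit 76) (nat_lit 108500808423) (nat_lit 76) (nat_lit 85052776384) (nat_lit 1) (nat_lit 4) (nat_lit 2) (nat_lit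 5) (nat_lit 2) (nat_lit 4) (nat_lit 348) (nat_lit 237) (nat_lit 135)) (XT.lf (nat_lit 0) (nat_lit 108709762387) (nat_lit 76) (nat_lit 109677403798) (nat_lit 76) (nat_lit 86221616712) (nat_lit 1) (nat_lit 4) (nat_lit 2) (nat_lit 5) (nat_lit 2) (nat_lit 4) (nat_lit 349) (nat_lit 237) (nat_lit 134))) (XT.nd (nat_lit 78) (nat_lit 0) (nat_lit 0) (XT.lf (nat_lit 0) (nat_lit 121262689013) (nat_lit 76) (nat_lit 110914770136) (nat_lit 76) (nat_lit 87451597288) (nat_lit 1) (nat_lit 4) (nat_lit 2) (nat_lit 5) (nat_lit 2) (nat_lit 4) (nat_lit 350) (nat_lit 237) (nat_lit 133)) (XT.nd (nat_lit 78) (nat_lit 0) (nat_lit 0) (XT.lf (nat_lit 0) (nat_lit 134438970198) (nat_lit 76) (nat_lit 112215853545) (nat_lit 76) (nat_lit 88745646640) (nat_lit 1) (nat_lit 4) (nat_lit 2) (nat_lit 5) (nat_lit 2) (nat_lit 4) (nat_lit 351) (nat_lit 237) (nat_lit 132)) (XT.lf (nat_lit 0) (nat_lit 148269978040) (nat_lit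 76) (nat_lit 113583751843) (nat_lit 76) (nat_lit 90106845836) (nat_lit 1) (nat_lit 4) (nat_lit 2) (nat_lit 5) (nat_lit 2) (nat_lit 4) (nat_lit 352) (nat_lit 237) (nat_lit 131))))))) (XT.nd (nat_lit 29094) (nat_lit 0) (nat_lit 5852) (XT.nd (nat_lit 312) (nat_lit 0) (nat_lit 0) (XT.nd (nat_lit 156) (nat_lit 0) (nat_lit 0) (XT.nd (nat_lit 78) (nat_lit 0) (nat_lit 0) (XT.lf (nat_lit 0) (nat_lit 162788643511) (nat_lit 76) (nat_lit 115021721932) (nat_lit 76) (nat_lit 91538435827) (nat_lit 1) (nat_lit 4) (nat_lit 2) (nat_lit 5) (nat_lit 2) (nat_lit 4) (nat_lit 353) (nat_lit 237) (nat_lit 130)) (XT.lf (nat_lit 0) (nat_lit 178029534861) (nat_lit 76) (nat_lit 116533187549) (nat_lit 76) (nat_lit 93043825160) (nat_lit 1) (nat_lit 4) (nat_lit 2) (nat_lit 5) (nat_lit 2) (nat_lit 4) (nat_lit 354) (nat_lit 237) (nat_lit 129))) (XT.nd (nat_lit 78) (nat_lit 0) (nat_lit 0) (XT.lf (nat_lit 0) (nat_lit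 194028939926) (nat_lit 76) (nat_lit 118121747422) (nat_lit 76) (nat_lit 94626598097) (nat_lit 1) (nat_lit 4) (nat_lit 2) (nat_lit 5) (nat_lit 2) (nat_lit 4) (nat_lit 355) (nat_lit 237) (nat_lit 128)) (XT.lf (nat_lit 0) (nat_lit 210824952530) (nat_lit 76) (nat_lit 119791183837) (nat_lit 76) (nat_lit 96290523143) (nat_lit 1) (nat_lit 4) (nat_lit 2) (nat_lit 5) (nat_lit 2) (nat_lit 4) (nat_lit 356) (nat_lit 237) (nat_lit 127)))) (XT.nd (nat_lit 156) (nat_lit 0) (nat_lit 0) (XT.nd (nat_lit 78) (nat_lit 0) (nat_lit 0) (XT.lf (nat_lit 0) (nat_lit 228457563177) (nat_lit 76) (nat_lit 121545471642) (nat_lit 76) (nat_lit 98039562026) (nat_lit 1) (nat_lit 4) (nat_lit 2) (nat_lit 5) (nat_lit 2) (nat_lit 4) (nat_lit 357) (nat_lit 237) (nat_lit 126)) (XT.lf (nat_lit 0) (nat_lit 246968754274) (nat_lit 76) (nat_lit 123388787712) (nat_lit 76) (nat_lit 99877879123) (nat_lit 1) (nat_lit 4) (nat_lit 2)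 (nat_lit 5) (nat_lit 2) (nat_lit 4) (nat_lit 358) (nat_lit 237) (nat_lit 125))) (XT.nd (nat_lit 28548) (nat_lit 0) (nat_lit 7676) (XT.lf (nat_lit 0) (nat_lit 266402600086) (nat_lit 76) (nat_lit 125325520896) (nat_lit 76) (nat_lit 101809851380) (nat_lit 1) (nat_lit 4) (nat_lit 2) (nat_lit 5) (nat_lit 2) (nat_lit 4) (nat_lit 359) (nat_lit 237) (nat_lit 124)) (XT.lf (nat_lit 0) (nat_lit 2581220458) (nat_lit 76) (nat_lit 332587142) (nat_lit 76) (nat_lit 332587142) (nat_lit 102) (nat_lit 4) (nat_lit 103) (nat_lit 5) (nat_lit 103) (nat_lit 4) (nat_lit 244) (nat_lit 238) (nat_lit 238))))) (XT.nd (nat_lit 312) (nat_lit 1292) (nat_lit 0) (XT.nd (nat_lit 156) (nat_lit 304) (nat_lit 0) (XT.nd (nat_lit 78) (nat_lit 0) (nat_lit 0) (XT.lf (nat_lit 0) (nat_lit 1796389881) (nat_lit 152) (nat_lit 220091605) (nat_lit 228) (nat_lit 4506179672) (nat_lit 99) (nat_lit 5) (nat_lit 101) (nat_lit 5) (nat_lit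 102) (nat_lit 4) (nat_lit 245) (nat_lit 238) (nat_lit 237)) (XT.lf (nat_lit 0) (nat_lit 4677275748) (nat_lit 228) (nat_lit 1553119614) (nat_lit 0) (nat_lit 331095073) (nat_lit 99) (nat_lit 5) (nat_lit 102) (nat_lit 4) (nat_lit 99) (nat_lit 4) (nat_lit 246) (nat_lit 238) (nat_lit 236))) (XT.nd (nat_lit 78) (nat_lit 0) (nat_lit 0) (XT.lf (nat_lit 0) (nat_lit 716556437) (nat_lit 304) (nat_lit 4896371533) (nat_lit 76) (nat_lit 996130586) (nat_lit 95) (nat_lit 5) (nat_lit 99) (nat_lit 5) (nat_lit 96) (nat_lit 4) (nat_lit 247) (nat_lit 238) (nat_lit 235)) (XT.lf (nat_lit 0) (nat_lit 3261015857) (nat_lit 304) (nat_lit 1603212157) (nat_lit 76) (nat_lit 1800575918) (nat_lit 95) (nat_lit 5) (nat_lit 99) (nat_lit 5) (nat_lit 96) (nat_lit 4) (nat_lit 248) (nat_lit 238) (nat_lit 234)))) (XT.nd (nat_lit 156) (nat_lit 912) (nat_lit 0) (XT.nd (nat_lit 78) (nat_lit 76) (nat_lit 0) (XT.lf (nat_lit 0)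 (nat_lit 1807792448) (nat_lit 304) (nat_lit 4010499725) (nat_lit 380) (nat_lit 911899824) (nat_lit 91) (nat_lit 5) (nat_lit 95) (nat_lit 5) (nat_lit 96) (nat_lit 4) (nat_lit 249) (nat_lit 238) (nat_lit 233)) (XT.lf (nat_lit 0) (nat_lit 1536875408) (nat_lit 380) (nat_lit 1488211531) (nat_lit 76) (nat_lit 3779118949) (nat_lit 90) (nat_lit 5) (nat_lit 95) (nat_lit 5) (nat_lit 91) (nat_lit 5) (nat_lit 250) (nat_lit 238) (nat_lit 232))) (XT.nd (nat_lit 78) (nat_lit 532) (nat_lit 0) (XT.lf (nat_lit 0) (nat_lit 2065346997) (nat_lit 380) (nat_lit 1910298246) (nat_lit 456) (nat_lit 2911598245) (nat_lit 85) (nat_lit 5) (nat_lit 90) (nat_lit 5) (nat_lit 91) (nat_lit 5) (nat_lit 251) (nat_lit 238) (nat_lit 231)) (XT.nd (nat_lit 78) (nat_lit 532) (nat_lit 0) (XT.lf (nat_lit 0) (nat_lit 5746426335) (nat_lit 380) (nat_lit 685879907) (nat_lit 456) (nat_lit 548262954) (nat_lit 85) (nat_lit 5) (nat_lit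 90) (nat_lit 5) (nat_lit 91) (nat_lit 5) (nat_lit 252) (nat_lit 238) (nat_lit 230)) (XT.lf (nat_lit 0) (nat_lit 1794979435) (nat_lit 532) (nat_lit 4612920370) (nat_lit 76) (nat_lit 673818458) (nat_lit 78) (nat_lit 5) (nat_lit 85) (nat_lit 5) (nat_lit 79) (nat_lit 5) (nat_lit 253) (nat_lit 238) (nat_lit 229))))))))
noncomputable def xc103 : XT := (XT.nd (nat_lit 1326) (nat_lit 1216) (nat_lit 0) (XT.nd (nat_lit 624) (nat_lit 1444) (nat_lit 0) (XT.nd (nat_lit 312) (nat_lit 1064) (nat_lit 0) (XT.nd (nat_lit 156) (nat_lit 684) (nat_lit 0) (XT.nd (nat_lit 78) (nat_lit 532) (nat_lit 0) (XT.lf (nat_lit 0) (nat_lit 4148234252) (nat_lit 532) (nat_lit 915279776) (nat_lit 76) (nat_lit 2129204289) (nat_lit 78) (nat_lit 5) (nat_lit 85) (nat_lit 5) (nat_lit 79) (nat_lit 5) (nat_lit 254) (nat_lit 238) (nat_lit 228)) (XT.lf (nat_lit 0) (nat_lit 2959530214) (nat_lit 532) (nat_lit 3590388311) (nat_lit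 608) (nat_lit 763579804) (nat_lit 71) (nat_lit 5) (nat_lit 78) (nat_lit 5) (nat_lit 79) (nat_lit 5) (nat_lit 255) (nat_lit 238) (nat_lit 227))) (XT.nd (nat_lit 78) (nat_lit 608) (nat_lit 0) (XT.lf (nat_lit 0) (nat_lit 1480857818) (nat_lit 608) (nat_lit 510661362) (nat_lit 76) (nat_lit 5453136402) (nat_lit 70) (nat_lit 5) (nat_lit 78) (nat_lit 5) (nat_lit 71) (nat_lit 5) (nat_lit 256) (nat_lit 238) (nat_lit 226)) (XT.lf (nat_lit 0) (nat_lit 3524871060) (nat_lit 608) (nat_lit 233396516) (nat_lit 684) (nat_lit 3826820338) (nat_lit 62) (nat_lit 5) (nat_lit 70) (nat_lit 5) (nat_lit 71) (nat_lit 5) (nat_lit 257) (nat_lit 238) (nat_lit 225)))) (XT.nd (nat_lit 156) (nat_lit 304) (nat_lit 0) (XT.nd (nat_lit 78) (nat_lit 760) (nat_lit 0) (XT.lf (nat_lit 0) (nat_lit 6078626095) (nat_lit 684) (nat_lit 82123809) (nat_lit 76) (nat_lit 1575970121) (nat_lit 62) (nat_lit 5) (nat_lit 71) (nat_lit 5)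 (nat_lit 63) (nat_lit 5) (nat_lit 258) (nat_lit 238) (nat_lit 224)) (XT.lf (nat_lit 0) (nat_lit 566461721) (nat_lit 760) (nat_lit 3783857333) (nat_lit 76) (nat_lit 3547344376) (nat_lit 52) (nat_lit 5) (nat_lit 62) (nat_lit 5) (nat_lit 53) (nat_lit 5) (nat_lit 259) (nat_lit 238) (nat_lit 223))) (XT.nd (nat_lit 78) (nat_lit 0) (nat_lit 0) (XT.lf (nat_lit 0) (nat_lit 337569788) (nat_lit 304) (nat_lit 2416828688) (nat_lit 380) (nat_lit 5316048641) (nat_lit 48) (nat_lit 5) (nat_lit 52) (nat_lit 5) (nat_lit 53) (nat_lit 5) (nat_lit 260) (nat_lit 238) (nat_lit 222)) (XT.lf (nat_lit 0) (nat_lit 4696248582) (nat_lit 304) (nat_lit 323898015) (nat_lit 380) (nat_lit 3233822673) (nat_lit 48) (nat_lit 5) (nat_lit 52) (nat_lit 5) (nat_lit 53) (nat_lit 5) (nat_lit 261) (nat_lit 238) (nat_lit 221))))) (XT.nd (nat_lit 312) (nat_lit 836) (nat_lit 0) (XT.nd (nat_lit 156) (nat_lit 228) (nat_lit 0) (XT.nd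 (nat_lit 78) (nat_lit 76) (nat_lit 0) (XT.lf (nat_lit 0) (nat_lit 719571706) (nat_lit 304) (nat_lit 6628919767) (nat_lit 380) (nat_lit 1101205836) (nat_lit 44) (nat_lit 5) (nat_lit 48) (nat_lit 5) (nat_lit 49) (nat_lit 5) (nat_lit 262) (nat_lit 238) (nat_lit 220)) (XT.lf (nat_lit 0) (nat_lit 1077882289) (nat_lit 380) (nat_lit 3444234524) (nat_lit 76) (nat_lit 4133842497) (nat_lit 43) (nat_lit 5) (nat_lit 48) (nat_lit 5) (nat_lit 44) (nat_lit 5) (nat_lit 263) (nat_lit 238) (nat_lit 219))) (XT.nd (nat_lit 78) (nat_lit 0) (nat_lit 0) (XT.lf (nat_lit 0) (nat_lit 971650241) (nat_lit 228) (nat_lit 2286451915) (nat_lit 304) (nat_lit 5617498185) (nat_lit 40) (nat_lit 5) (nat_lit 43) (nat_lit 5) (nat_lit 44) (nat_lit 5) (nat_lit 264) (nat_lit 238) (nat_lit 218)) (XT.lf (nat_lit 0) (nat_lit 5523991954) (nat_lit 304) (nat_lit 3477470544) (nat_lit 76) (nat_lit 106335421) (nat_lit 40) (nat_lit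 5) (nat_lit 44) (nat_lit 5) (nat_lit 41) (nat_lit 5) (nat_lit 265) (nat_lit 238) (nat_lit 217)))) (XT.nd (nat_lit 156) (nat_lit 456) (nat_lit 0) (XT.nd (nat_lit 78) (nat_lit 76) (nat_lit 0) (XT.lf (nat_lit 0) (nat_lit 1071762453) (nat_lit 304) (nat_lit 6806030403) (nat_lit 380) (nat_lit 1475469728) (nat_lit 36) (nat_lit 5) (nat_lit 40) (nat_lit 5) (nat_lit 41) (nat_lit 5) (nat_lit 266) (nat_lit 238) (nat_lit 216)) (XT.lf (nat_lit 0) (nat_lit 695612952) (nat_lit 380) (nat_lit 3748173911) (nat_lit 76) (nat_lit 5167941283) (nat_lit 35) (nat_lit 5) (nat_lit 40) (nat_lit 5) (nat_lit 36) (nat_lit 5) (nat_lit 267) (nat_lit 238) (nat_lit 215))) (XT.nd (nat_lit 78) (nat_lit 228) (nat_lit 0) (XT.lf (nat_lit 0) (nat_lit 925034657) (nat_lit 228) (nat_lit 1939930329) (nat_lit 304) (nat_lit 7020312768) (nat_lit 32) (nat_lit 5) (nat_lit 35) (nat_lit 5) (nat_lit 36) (nat_lit 5) (nat_lit 268) (nat_lit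 238) (nat_lit 214)) (XT.nd (nat_lit 78) (nat_lit 228) (nat_lit 0) (XT.lf (nat_lit 0) (nat_lit 5144804689) (nat_lit 304) (nat_lit 4313505891) (nat_lit 76) (nat_lit 714412500) (nat_lit 32) (nat_lit 5) (nat_lit 36) (nat_lit 5) (nat_lit 33) (nat_lit 5) (nat_lit 269) (nat_lit 238) (nat_lit 213)) (XT.lf (nat_lit 0) (nat_lit 458530443) (nat_lit 228) (nat_lit 7049298671) (nat_lit 304) (nat_lit 2968555960) (nat_lit 29) (nat_lit 5) (nat_lit 32) (nat_lit 5) (nat_lit 33) (nat_lit 5) (nat_lit 270) (nat_lit 238) (nat_lit 212))))))) (XT.nd (nat_lit 624) (nat_lit 532) (nat_lit 0) (XT.nd (nat_lit 312) (nat_lit 456) (nat_lit 0) (XT.nd (nat_lit 156) (nat_lit 152) (nat_lit 0) (XT.nd (nat_lit 78) (nat_lit 76) (nat_lit 0) (XT.lf (nat_lit 0) (nat_lit 5530462529) (nat_lit 228) (nat_lit 4463766371) (nat_lit 304) (nat_lit 801029621) (nat_lit 29) (nat_lit 5) (nat_lit 32) (nat_lit 5) (nat_lit 33) (nat_lit 5)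 (nat_lit 271) (nat_lit 238) (nat_lit 211)) (XT.lf (nat_lit 0) (nat_lit 1361744664) (nat_lit 304) (nat_lit 383802491) (nat_lit 76) (nat_lit 9386935940) (nat_lit 28) (nat_lit 5) (nat_lit 32) (nat_lit 5) (nat_lit 29) (nat_lit 5) (nat_lit 272) (nat_lit 238) (nat_lit 210))) (XT.nd (nat_lit 78) (nat_lit 0) (nat_lit 0) (XT.lf (nat_lit 0) (nat_lit 3636324842) (nat_lit 228) (nat_lit 6704849365) (nat_lit 76) (nat_lit 1143458893) (nat_lit 26) (nat_lit 5) (nat_lit 29) (nat_lit 5) (nat_lit 27) (nat_lit 5) (nat_lit 273) (nat_lit 238) (nat_lit 209)) (XT.lf (nat_lit 0) (nat_lit 5998478545) (nat_lit 228) (nat_lit 1752121480) (nat_lit 76) (nat_lit 4105336577) (nat_lit 26) (nat_lit 5) (nat_lit 29) (nat_lit 5) (nat_lit 27) (nat_lit 5) (nat_lit 274) (nat_lit 238) (nat_lit 208)))) (XT.nd (nat_lit 156) (nat_lit 228) (nat_lit 0) (XT.nd (nat_lit 78) (nat_lit 0) (nat_lit 0) (XT.lf (nat_lit 0) (nat_lit 3479407655)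 (nat_lit 228) (nat_lit 4995200872) (nat_lit 304) (nat_lit 3771630200) (nat_lit 23) (nat_lit 5) (nat_lit 26) (nat_lit 5) (nat_lit 27) (nat_lit 5) (nat_lit 275) (nat_lit 238) (nat_lit 207)) (XT.lf (nat_lit 0) (nat_lit 8954438544) (nat_lit 228) (nat_lit 2092876416) (nat_lit 304) (nat_lit 1610318576) (nat_lit 23) (nat_lit 5) (nat_lit 26) (nat_lit 5) (nat_lit 27) (nat_lit 5) (nat_lit 276) (nat_lit 238) (nat_lit 206))) (XT.nd (nat_lit 78) (nat_lit 0) (nat_lit 0) (XT.lf (nat_lit 0) (nat_lit 622433019) (nat_lit 228) (nat_lit 11529322658) (nat_lit 76) (nat_lit 938300487) (nat_lit 20) (nat_lit 5) (nat_lit 23) (nat_lit 5) (nat_lit 21) (nat_lit 5) (nat_lit 277) (nat_lit 238) (nat_lit 205)) (XT.lf (nat_lit 0) (nat_lit 2956578971) (nat_lit 228) (nat_lit 6464735011) (nat_lit 76) (nat_lit 4119458960) (nat_lit 20) (nat_lit 5) (nat_lit 23) (nat_lit 5) (nat_lit 21) (nat_lit 5) (nat_lit 278) (nat_lit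 238) (nat_lit 204))))) (XT.nd (nat_lit 312) (nat_lit 228) (nat_lit 0) (XT.nd (nat_lit 156) (nat_lit 152) (nat_lit 0) (XT.nd (nat_lit 78) (nat_lit 152) (nat_lit 0) (XT.lf (nat_lit 0) (nat_lit 5355833240) (nat_lit 228) (nat_lit 1221641429) (nat_lit 76) (nat_lit 7439308604) (nat_lit 20) (nat_lit 5) (nat_lit 23) (nat_lit 5) (nat_lit 21) (nat_lit 5) (nat_lit 279) (nat_lit 238) (nat_lit 203)) (XT.lf (nat_lit 0) (nat_lit 4351723989) (nat_lit 152) (nat_lit 3542126953) (nat_lit 228) (nat_lit 6621972442) (nat_lit 18) (nat_lit 5) (nat_lit 20) (nat_lit 5) (nat_lit 21) (nat_lit 5) (nat_lit 280) (nat_lit 238) (nat_lit 202))) (XT.nd (nat_lit 78) (nat_lit 152) (nat_lit 0) (XT.lf (nat_lit 0) (nat_lit 10176152949) (nat_lit 152) (nat_lit 355410707) (nat_lit 228) (nat_lit 4509773378) (nat_lit 18) (nat_lit 5) (nat_lit 20) (nat_lit 5) (nat_lit 21) (nat_lit 5) (nat_lit 281) (nat_lit 238) (nat_lit 201)) (XT.lf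 (nat_lit 0) (nat_lit 602479267) (nat_lit 152) (nat_lit 12708838225) (nat_lit 228) (nat_lit 2281454660) (nat_lit 16) (nat_lit 5) (nat_lit 18) (nat_lit 5) (nat_lit 19) (nat_lit 4) (nat_lit 282) (nat_lit 238) (nat_lit 200)))) (XT.nd (nat_lit 156) (nat_lit 152) (nat_lit 0) (XT.nd (nat_lit 78) (nat_lit 0) (nat_lit 0) (XT.lf (nat_lit 0) (nat_lit 100297769) (nat_lit 228) (nat_lit 9732641346) (nat_lit 76) (nat_lit 6336739543) (nat_lit 15) (nat_lit 5) (nat_lit 18) (nat_lit 5) (nat_lit 16) (nat_lit 5) (nat_lit 283) (nat_lit 238) (nat_lit 199)) (XT.lf (nat_lit 0) (nat_lit 2480953340) (nat_lit 228) (nat_lit 4315535727) (nat_lit 76) (nat_lit 9979379661) (nat_lit 15) (nat_lit 5) (nat_lit 18) (nat_lit 5) (nat_lit 16) (nat_lit 5) (nat_lit 284) (nat_lit 238) (nat_lit 198))) (XT.nd (nat_lit 78) (nat_lit 0) (nat_lit 0) (XT.lf (nat_lit 0) (nat_lit 1352841106) (nat_lit 152) (nat_lit 3607481611) (nat_lit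 228) (nat_lit 12453187868) (nat_lit 13) (nat_lit 5) (nat_lit 15) (nat_lit 5) (nat_lit 16) (nat_lit 5) (nat_lit 285) (nat_lit 238) (nat_lit 197)) (XT.nd (nat_lit 78) (nat_lit 0) (nat_lit 0) (XT.lf (nat_lit 0) (nat_lit 7392593258) (nat_lit 152) (nat_lit 203719790) (nat_lit 228) (nat_lit 10485209182) (nat_lit 13) (nat_lit 5) (nat_lit 15) (nat_lit 5) (nat_lit 16) (nat_lit 5) (nat_lit 286) (nat_lit 238) (nat_lit 196)) (XT.lf (nat_lit 0) (nat_lit 10377895082) (nat_lit 228) (nat_lit 5161864447) (nat_lit 76) (nat_lit 3242599906) (nat_lit 13) (nat_lit 5) (nat_lit 16) (nat_lit 5) (nat_lit 14) (nat_lit 4) (nat_lit 287) (nat_lit 238) (nat_lit 195))))))))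
noncomputable def xc104 : XT := (XT.nd (nat_lit 1248) (nat_lit 228) (nat_lit 0) (XT.nd (nat_lit 624) (nat_lit 228) (nat_lit 0) (XT.nd (nat_lit 312) (nat_lit 152) (nat_lit 0) (XT.nd (nat_lit 156) (nat_lit 76) (nat_lit 0) (XT.nd (nat_lit 78) (nat_lit 0) (nat_lit 0) (XT.lf (nat_lit 0) (nat_lit 599649723) (nat_lit 76) (nat_lit 12674630709) (nat_lit 152) (nat_lit 6245280991) (nat_lit 12) (nat_lit 5) (nat_lit 13) (nat_lit 5) (nat_lit 14) (nat_lit 4) (nat_lit 288) (nat_lit 238) (nat_lit 194)) (XT.lf (nat_lit 0) (nat_lit 6771622988) (nat_lit 76) (nat_lit 9595176712) (nat_lit 152) (nat_lit 3924362013) (nat_lit 12) (nat_lit 5) (nat_lit 13) (nat_lit 5) (nat_lit 14) (nat_lit 4) (nat_lit 289) (nat_lit 238) (nat_lit 193))) (XT.nd (nat_lit 78) (nat_lit 76) (nat_lit 0) (XT.lf (nat_lit 0) (nat_lit 13198075971) (nat_lit 76) (nat_lit 6381484179) (nat_lit 152) (nat_lit 1523600094) (nat_lit 12) (nat_lit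 5) (nat_lit 13) (nat_lit 5) (nat_lit 14) (nat_lit 4) (nat_lit 290) (nat_lit 238) (nat_lit 192)) (XT.lf (nat_lit 0) (nat_lit 931907786) (nat_lit 152) (nat_lit 2078211363) (nat_lit 76) (nat_lit 18946619656) (nat_lit 11) (nat_lit 5) (nat_lit 13) (nat_lit 5) (nat_lit 12) (nat_lit 5) (nat_lit 291) (nat_lit 238) (nat_lit 191)))) (XT.nd (nat_lit 156) (nat_lit 0) (nat_lit 0) (XT.nd (nat_lit 78) (nat_lit 0) (nat_lit 0) (XT.lf (nat_lit 0) (nat_lit 3500592174) (nat_lit 228) (nat_lit 18763768161) (nat_lit 76) (nat_lit 585392411) (nat_lit 9) (nat_lit 5) (nat_lit 12) (nat_lit 5) (nat_lit 10) (nat_lit 4) (nat_lit 292) (nat_lit 238) (nat_lit 190)) (XT.lf (nat_lit 0) (nat_lit 6251498622) (nat_lit 228) (nat_lit 13255800414) (nat_lit 76) (nat_lit 4277510394) (nat_lit 9) (nat_lit 5) (nat_lit 12) (nat_lit 5) (nat_lit 10) (nat_lit 4) (nat_lit 293) (nat_lit 238) (nat_lit 189))) (XT.nd (nat_lit 78) (nat_lit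 0) (nat_lit 0) (XT.lf (nat_lit 0) (nat_lit 9110111472) (nat_lit 228) (nat_lit 7520777853) (nat_lit 76) (nat_lit 8137299126) (nat_lit 9) (nat_lit 5) (nat_lit 12) (nat_lit 5) (nat_lit 10) (nat_lit 4) (nat_lit 294) (nat_lit 238) (nat_lit 188)) (XT.lf (nat_lit 0) (nat_lit 12083236945) (nat_lit 228) (nat_lit 1545045662) (nat_lit 76) (nat_lit 12173948582) (nat_lit 9) (nat_lit 5) (nat_lit 12) (nat_lit 5) (nat_lit 10) (nat_lit 4) (nat_lit 295) (nat_lit 238) (nat_lit 187))))) (XT.nd (nat_lit 312) (nat_lit 152) (nat_lit 0) (XT.nd (nat_lit 156) (nat_lit 0) (nat_lit 0) (XT.nd (nat_lit 78) (nat_lit 0) (nat_lit 0) (XT.lf (nat_lit 0) (nat_lit 4840551985) (nat_lit 76) (nat_lit 10412976509) (nat_lit 152) (nat_lit 11632092428) (nat_lit 8) (nat_lit 5) (nat_lit 9) (nat_lit 5) (nat_lit 10) (nat_lit 4) (nat_lit 296) (nat_lit 238) (nat_lit 186)) (XT.lf (nat_lit 0) (nat_lit 11555928208) (nat_lit 76) (nat_lit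 7026122963) (nat_lit 152) (nat_lit 9441210141) (nat_lit 8) (nat_lit 5) (nat_lit 9) (nat_lit 5) (nat_lit 10) (nat_lit 4) (nat_lit 297) (nat_lit 238) (nat_lit 185))) (XT.nd (nat_lit 78) (nat_lit 0) (nat_lit 0) (XT.lf (nat_lit 0) (nat_lit 18565985811) (nat_lit 76) (nat_lit 3485824129) (nat_lit 152) (nat_lit 7167297092) (nat_lit 8) (nat_lit 5) (nat_lit 9) (nat_lit 5) (nat_lit 10) (nat_lit 4) (nat_lit 298) (nat_lit 238) (nat_lit 184)) (XT.lf (nat_lit 0) (nat_lit 25674443948) (nat_lit 152) (nat_lit 4591967744) (nat_lit 0) (nat_lit 209424749) (nat_lit 8) (nat_lit 5) (nat_lit 10) (nat_lit 4) (nat_lit 8) (nat_lit 4) (nat_lit 299) (nat_lit 238) (nat_lit 183)))) (XT.nd (nat_lit 156) (nat_lit 0) (nat_lit 0) (XT.nd (nat_lit 78) (nat_lit 76) (nat_lit 0) (XT.lf (nat_lit 0) (nat_lit 1732300517) (nat_lit 76) (nat_lit 27807026623) (nat_lit 76) (nat_lit 2253077181) (nat_lit 7) (nat_lit 4) (nat_lit 8)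 (nat_lit 5) (nat_lit 8) (nat_lit 4) (nat_lit 300) (nat_lit 238) (nat_lit 182)) (XT.lf (nat_lit 0) (nat_lit 465183218) (nat_lit 152) (nat_lit 24685019313) (nat_lit 76) (nat_lit 8021517775) (nat_lit 6) (nat_lit 5) (nat_lit 8) (nat_lit 5) (nat_lit 7) (nat_lit 4) (nat_lit 301) (nat_lit 238) (nat_lit 181))) (XT.nd (nat_lit 78) (nat_lit 0) (nat_lit 0) (XT.lf (nat_lit 0) (nat_lit 3221747821) (nat_lit 152) (nat_lit 19114724228) (nat_lit 76) (nat_lit 12282827783) (nat_lit 6) (nat_lit 5) (nat_lit 8) (nat_lit 5) (nat_lit 7) (nat_lit 4) (nat_lit 302) (nat_lit 238) (nat_lit 180)) (XT.lf (nat_lit 0) (nat_lit 6095292417) (nat_lit 152) (nat_lit 13300779093) (nat_lit 76) (nat_lit 16744276850) (nat_lit 6) (nat_lit 5) (nat_lit 8) (nat_lit 5) (nat_lit 7) (nat_lit 4) (nat_lit 303) (nat_lit 238) (nat_lit 179)))))) (XT.nd (nat_lit 624) (nat_lit 152) (nat_lit 0) (XT.nd (nat_lit 312) (nat_lit 0) (nat_lit 0)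 (XT.nd (nat_lit 156) (nat_lit 76) (nat_lit 0) (XT.nd (nat_lit 78) (nat_lit 0) (nat_lit 0) (XT.lf (nat_lit 0) (nat_lit 9092658778) (nat_lit 152) (nat_lit 7229341182) (nat_lit 76) (nat_lit 21416487474) (nat_lit 6) (nat_lit 5) (nat_lit 8) (nat_lit 5) (nat_lit 7) (nat_lit 4) (nat_lit 304) (nat_lit 238) (nat_lit 178)) (XT.lf (nat_lit 0) (nat_lit 12220983492) (nat_lit 152) (nat_lit 885954691) (nat_lit 76) (nat_lit 26310583966) (nat_lit 6) (nat_lit 5) (nat_lit 8) (nat_lit 5) (nat_lit 7) (nat_lit 4) (nat_lit 305) (nat_lit 238) (nat_lit 177))) (XT.nd (nat_lit 78) (nat_lit 0) (nat_lit 0) (XT.lf (nat_lit 0) (nat_lit 5934422255) (nat_lit 76) (nat_lit 9645945657) (nat_lit 152) (nat_lit 25596449643) (nat_lit 5) (nat_lit 5) (nat_lit 6) (nat_lit 5) (nat_lit 7) (nat_lit 4) (nat_lit 306) (nat_lit 238) (nat_lit 176)) (XT.lf (nat_lit 0) (nat_lit 13096944719) (nat_lit 76) (nat_lit 6008166377) (nat_lit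 152) (nat_lit 23919136332) (nat_lit 5) (nat_lit 5) (nat_lit 6) (nat_lit 5) (nat_lit 7) (nat_lit 4) (nat_lit 307) (nat_lit 238) (nat_lit 175)))) (XT.nd (nat_lit 156) (nat_lit 0) (nat_lit 0) (XT.nd (nat_lit 78) (nat_lit 0) (nat_lit 0) (XT.lf (nat_lit 0) (nat_lit 20589372660) (nat_lit 76) (nat_lit 2199943036) (nat_lit 152) (nat_lit 22175609192) (nat_lit 5) (nat_lit 5) (nat_lit 6) (nat_lit 5) (nat_lit 7) (nat_lit 4) (nat_lit 308) (nat_lit 238) (nat_lit 174)) (XT.lf (nat_lit 0) (nat_lit 26669666065) (nat_lit 152) (nat_lit 18601837840) (nat_lit 0) (nat_lit 1730571070) (nat_lit 5) (nat_lit 5) (nat_lit 7) (nat_lit 4) (nat_lit 5) (nat_lit 4) (nat_lit 309) (nat_lit 238) (nat_lit 173))) (XT.nd (nat_lit 78) (nat_lit 0) (nat_lit 0) (XT.lf (nat_lit 0) (nat_lit 30764720425) (nat_lit 152) (nat_lit 12601731898) (nat_lit 0) (nat_lit 5773629758) (nat_lit 5) (nat_lit 5) (nat_lit 7) (nat_lit 4) (nat_lit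 5) (nat_lit 4) (nat_lit 310) (nat_lit 238) (nat_lit 172)) (XT.lf (nat_lit 0) (nat_lit 35049881628) (nat_lit 152) (nat_lit 6326601160) (nat_lit 0) (nat_lit 10009271275) (nat_lit 5) (nat_lit 5) (nat_lit 7) (nat_lit 4) (nat_lit 5) (nat_lit 4) (nat_lit 311) (nat_lit 238) (nat_lit 171))))) (XT.nd (nat_lit 312) (nat_lit 76) (nat_lit 0) (XT.nd (nat_lit 156) (nat_lit 0) (nat_lit 0) (XT.nd (nat_lit 78) (nat_lit 0) (nat_lit 0) (XT.lf (nat_lit 0) (nat_lit 246380889) (nat_lit 76) (nat_lit 39292818248) (nat_lit 76) (nat_lit 14205046288) (nat_lit 4) (nat_lit 4) (nat_lit 5) (nat_lit 5) (nat_lit 5) (nat_lit 4) (nat_lit 312) (nat_lit 238) (nat_lit 170)) (XT.lf (nat_lit 0) (nat_lit 7344250119) (nat_lit 76) (nat_lit 37002226762) (nat_lit 76) (nat_lit 11869538987) (nat_lit 4) (nat_lit 4) (nat_lit 5) (nat_lit 5) (nat_lit 5) (nat_lit 4) (nat_lit 313) (nat_lit 238) (nat_lit 169))) (XT.nd (nat_lit 78) (nat_lit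 0) (nat_lit 0) (XT.lf (nat_lit 0) (nat_lit 14774720213) (nat_lit 76) (nat_lit 34606398593) (nat_lit 76) (nat_lit 9430933850) (nat_lit 4) (nat_lit 4) (nat_lit 5) (nat_lit 5) (nat_lit 5) (nat_lit 4) (nat_lit 314) (nat_lit 238) (nat_lit 168)) (XT.lf (nat_lit 0) (nat_lit 22555482766) (nat_lit 76) (nat_lit 32099629388) (nat_lit 76) (nat_lit 6883424677) (nat_lit 4) (nat_lit 4) (nat_lit 5) (nat_lit 5) (nat_lit 5) (nat_lit 4) (nat_lit 315) (nat_lit 238) (nat_lit 167)))) (XT.nd (nat_lit 156) (nat_lit 76) (nat_lit 0) (XT.nd (nat_lit 78) (nat_lit 0) (nat_lit 0) (XT.lf (nat_lit 0) (nat_lit 30705063402) (nat_lit 76) (nat_lit 29475950650) (nat_lit 76) (nat_lit 4220945969) (nat_lit 4) (nat_lit 4) (nat_lit 5) (nat_lit 5) (nat_lit 5) (nat_lit 4) (nat_lit 316) (nat_lit 238) (nat_lit 166)) (XT.lf (nat_lit 0) (nat_lit 39242865886) (nat_lit 76) (nat_lit 26729115525) (nat_lit 76) (nat_lit 1437158491) (nat_lit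 4) (nat_lit 4) (nat_lit 5) (nat_lit 5) (nat_lit 5) (nat_lit 4) (nat_lit 317) (nat_lit 238) (nat_lit 165))) (XT.nd (nat_lit 78) (nat_lit 0) (nat_lit 0) (XT.lf (nat_lit 0) (nat_lit 1427370506) (nat_lit 152) (nat_lit 22401040211) (nat_lit 76) (nat_lit 46737674602) (nat_lit 3) (nat_lit 5) (nat_lit 5) (nat_lit 5) (nat_lit 4) (nat_lit 4) (nat_lit 318) (nat_lit 238) (nat_lit 164)) (XT.nd (nat_lit 78) (nat_lit 0) (nat_lit 0) (XT.lf (nat_lit 0) (nat_lit 4376454304) (nat_lit 152) (nat_lit 16388935299) (nat_lit 76) (nat_lit 53114849864) (nat_lit 3) (nat_lit 5) (nat_lit 5) (nat_lit 5) (nat_lit 4) (nat_lit 4) (nat_lit 319) (nat_lit 238) (nat_lit 163)) (XT.lf (nat_lit 0) (nat_lit 7463112575) (nat_lit 152) (nat_lit 10093206675) (nat_lit 76) (nat_lit 59804295842) (nat_lit 3) (nat_lit 5) (nat_lit 5) (nat_lit 5) (nat_lit 4) (nat_lit 4) (nat_lit 320) (nat_lit 238) (nat_lit 162))))))))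
noncomputable def xc105 : XT := (XT.nd (nat_lit 1326) (nat_lit 76) (nat_lit 0) (XT.nd (nat_lit 624) (nat_lit 0) (nat_lit 0) (XT.nd (nat_lit 312) (nat_lit 0) (nat_lit 0) (XT.nd (nat_lit 156) (nat_lit 0) (nat_lit 0) (XT.nd (nat_lit 78) (nat_lit 76) (nat_lit 0) (XT.lf (nat_lit 0) (nat_lit 10694694506) (nat_lit 152) (nat_lit 3498864507) (nat_lit 76) (nat_lit 66821939791) (nat_lit 3) (nat_lit 5) (nat_lit 5) (nat_lit 5) (nat_lit 4) (nat_lit 4) (nat_lit 321) (nat_lit 238) (nat_lit 161)) (XT.lf (nat_lit 0) (nat_lit 3522535140) (nat_lit 76) (nat_lit 10611355845) (nat_lit 152) (nat_lit 70716951889) (nat_lit 2) (nat_lit 5) (nat_lit 3) (nat_lit 5) (nat_lit 4) (nat_lit 4) (nat_lit 322) (nat_lit 238) (nat_lit 160))) (XT.nd (nat_lit 78) (nat_lit 0) (nat_lit 0) (XT.lf (nat_lit 0) (nat_lit 11001323126) (nat_lit 76) (nat_lit 6794208055) (nat_lit 152) (nat_lit 71079915863) (nat_lit 2) (nat_lit 5) (nat_lit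 3) (nat_lit 5) (nat_lit 4) (nat_lit 4) (nat_lit 323) (nat_lit 238) (nat_lit 159)) (XT.lf (nat_lit 0) (nat_lit 18839617827) (nat_lit 76) (nat_lit 2792282158) (nat_lit 152) (nat_lit 71469815385) (nat_lit 2) (nat_lit 5) (nat_lit 3) (nat_lit 5) (nat_lit 4) (nat_lit 4) (nat_lit 324) (nat_lit 238) (nat_lit 158)))) (XT.nd (nat_lit 156) (nat_lit 0) (nat_lit 0) (XT.nd (nat_lit 78) (nat_lit 0) (nat_lit 0) (XT.lf (nat_lit 0) (nat_lit 25674051207) (nat_lit 152) (nat_lit 70505548143) (nat_lit 0) (nat_lit 1359015064) (nat_lit 2) (nat_lit 5) (nat_lit 4) (nat_lit 4) (nat_lit 2) (nat_lit 4) (nat_lit 325) (nat_lit 238) (nat_lit 157)) (XT.lf (nat_lit 0) (nat_lit 29956422235) (nat_lit 152) (nat_lit 66620344774) (nat_lit 0) (nat_lit 5618700553) (nat_lit 2) (nat_lit 5) (nat_lit 4) (nat_lit 4) (nat_lit 2) (nat_lit 4) (nat_lit 326) (nat_lit 238) (nat_lit 156))) (XT.nd (nat_lit 78) (nat_lit 0) (nat_lit 0)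 (XT.lf (nat_lit 0) (nat_lit 34445613841) (nat_lit 152) (nat_lit 62553641602) (nat_lit 0) (nat_lit 10086286884) (nat_lit 2) (nat_lit 5) (nat_lit 4) (nat_lit 4) (nat_lit 2) (nat_lit 4) (nat_lit 327) (nat_lit 238) (nat_lit 155)) (XT.lf (nat_lit 0) (nat_lit 39152314577) (nat_lit 152) (nat_lit 58295755999) (nat_lit 0) (nat_lit 14772411168) (nat_lit 2) (nat_lit 5) (nat_lit 4) (nat_lit 4) (nat_lit 2) (nat_lit 4) (nat_lit 328) (nat_lit 238) (nat_lit 154))))) (XT.nd (nat_lit 312) (nat_lit 0) (nat_lit 0) (XT.nd (nat_lit 156) (nat_lit 0) (nat_lit 0) (XT.nd (nat_lit 78) (nat_lit 0) (nat_lit 0) (XT.lf (nat_lit 0) (nat_lit 44087730873) (nat_lit 152) (nat_lit 53836550143) (nat_lit 0) (nat_lit 19688230842) (nat_lit 2) (nat_lit 5) (nat_lit 4) (nat_lit 4) (nat_lit 2) (nat_lit 4) (nat_lit 329) (nat_lit 238) (nat_lit 153)) (XT.lf (nat_lit 0) (nat_lit 49263613721) (nat_lit 152) (nat_lit 49165406877) (nat_lit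 0) (nat_lit 24845450241) (nat_lit 2) (nat_lit 5) (nat_lit 4) (nat_lit 4) (nat_lit 2) (nat_lit 4) (nat_lit 330) (nat_lit 238) (nat_lit 152))) (XT.nd (nat_lit 78) (nat_lit 0) (nat_lit 0) (XT.lf (nat_lit 0) (nat_lit 54692286650) (nat_lit 152) (nat_lit 44271204431) (nat_lit 0) (nat_lit 30256348456) (nat_lit 2) (nat_lit 5) (nat_lit 4) (nat_lit 4) (nat_lit 2) (nat_lit 4) (nat_lit 331) (nat_lit 238) (nat_lit 151)) (XT.lf (nat_lit 0) (nat_lit 60386675073) (nat_lit 152) (nat_lit 39142289943) (nat_lit 0) (nat_lit 35933808581) (nat_lit 2) (nat_lit 5) (nat_lit 4) (nat_lit 4) (nat_lit 2) (nat_lit 4) (nat_lit 332) (nat_lit 238) (nat_lit 150)))) (XT.nd (nat_lit 156) (nat_lit 0) (nat_lit 0) (XT.nd (nat_lit 78) (nat_lit 0) (nat_lit 0) (XT.lf (nat_lit 0) (nat_lit 66360337057) (nat_lit 152) (nat_lit 33766451710) (nat_lit 0) (nat_lit 41891348376) (nat_lit 2) (nat_lit 5) (nat_lit 4) (nat_lit 4) (nat_lit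 2) (nat_lit 4) (nat_lit 333) (nat_lit 238) (nat_lit 149)) (XT.lf (nat_lit 0) (nat_lit 72627495607) (nat_lit 152) (nat_lit 28130890120) (nat_lit 0) (nat_lit 48143152460) (nat_lit 2) (nat_lit 5) (nat_lit 4) (nat_lit 4) (nat_lit 2) (nat_lit 4) (nat_lit 334) (nat_lit 238) (nat_lit 148))) (XT.nd (nat_lit 78) (nat_lit 0) (nat_lit 0) (XT.lf (nat_lit 0) (nat_lit 79203072528) (nat_lit 152) (nat_lit 22222187167) (nat_lit 0) (nat_lit 54704106081) (nat_lit 2) (nat_lit 5) (nat_lit 4) (nat_lit 4) (nat_lit 2) (nat_lit 4) (nat_lit 335) (nat_lit 238) (nat_lit 147)) (XT.nd (nat_lit 78) (nat_lit 0) (nat_lit 0) (XT.lf (nat_lit 0) (nat_lit 86102723958) (nat_lit 152) (nat_lit 16026274511) (nat_lit 0) (nat_lit 61589830558) (nat_lit 2) (nat_lit 5) (nat_lit 4) (nat_lit 4) (nat_lit 2) (nat_lit 4) (nat_lit 336) (nat_lit 238) (nat_lit 146)) (XT.lf (nat_lit 0) (nat_lit 93342877636) (nat_lit 152) (nat_lit 9528399979)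 (nat_lit 0) (nat_lit 68816720471) (nat_lit 2) (nat_lit 5) (nat_lit 4) (nat_lit 4) (nat_lit 2) (nat_lit 4) (nat_lit 337) (nat_lit 238) (nat_lit 145))))))) (XT.nd (nat_lit 624) (nat_lit 0) (nat_lit 0) (XT.nd (nat_lit 312) (nat_lit 0) (nat_lit 0) (XT.nd (nat_lit 156) (nat_lit 0) (nat_lit 0) (XT.nd (nat_lit 78) (nat_lit 76) (nat_lit 0) (XT.lf (nat_lit 0) (nat_lit 100940772025) (nat_lit 152) (nat_lit 2713092442) (nat_lit 0) (nat_lit 76401982703) (nat_lit 2) (nat_lit 5) (nat_lit 4) (nat_lit 4) (nat_lit 2) (nat_lit 4) (nat_lit 338) (nat_lit 238) (nat_lit 144)) (XT.lf (nat_lit 0) (nat_lit 4582545084) (nat_lit 76) (nat_lit 104403498636) (nat_lit 76) (nat_lit 79852678688) (nat_lit 1) (nat_lit 4) (nat_lit 2) (nat_lit 5) (nat_lit 2) (nat_lit 4) (nat_lit 339) (nat_lit 238) (nat_lit 143))) (XT.nd (nat_lit 78) (nat_lit 0) (nat_lit 0) (XT.lf (nat_lit 0) (nat_lit 12330166085) (nat_lit 76) (nat_lit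 105145381030) (nat_lit 76) (nat_lit 80583103343) (nat_lit 1) (nat_lit 4) (nat_lit 2) (nat_lit 5) (nat_lit 2) (nat_lit 4) (nat_lit 340) (nat_lit 238) (nat_lit 142)) (XT.lf (nat_lit 0) (nat_lit 20458510190) (nat_lit 76) (nat_lit 105927225569) (nat_lit 76) (nat_lit 81354035750) (nat_lit 1) (nat_lit 4) (nat_lit 2) (nat_lit 5) (nat_lit 2) (nat_lit 4) (nat_lit 341) (nat_lit 238) (nat_lit 141)))) (XT.nd (nat_lit 156) (nat_lit 0) (nat_lit 0) (XT.nd (nat_lit 78) (nat_lit 0) (nat_lit 0) (XT.lf (nat_lit 0) (nat_lit 28986930598) (nat_lit 76) (nat_lit 106750893788) (nat_lit 76) (nat_lit 82167311462) (nat_lit 1) (nat_lit 4) (nat_lit 2) (nat_lit 5) (nat_lit 2) (nat_lit 4) (nat_lit 342) (nat_lit 238) (nat_lit 140)) (XT.lf (nat_lit 0) (nat_lit 37935733071) (nat_lit 76) (nat_lit 107618346801) (nat_lit 76) (nat_lit 83024866850) (nat_lit 1) (nat_lit 4) (nat_lit 2) (nat_lit 5) (nat_lit 2) (nat_lit 4) (nat_lit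 343) (nat_lit 238) (nat_lit 139))) (XT.nd (nat_lit 78) (nat_lit 0) (nat_lit 0) (XT.lf (nat_lit 0) (nat_lit 47326224284) (nat_lit 76) (nat_lit 108531649974) (nat_lit 76) (nat_lit 83928743713) (nat_lit 1) (nat_lit 4) (nat_lit 2) (nat_lit 5) (nat_lit 2) (nat_lit 4) (nat_lit 344) (nat_lit 238) (nat_lit 138)) (XT.lf (nat_lit 0) (nat_lit 57180762547) (nat_lit 76) (nat_lit 109492977837) (nat_lit 76) (nat_lit 84881094138) (nat_lit 1) (nat_lit 4) (nat_lit 2) (nat_lit 5) (nat_lit 2) (nat_lit 4) (nat_lit 345) (nat_lit 238) (nat_lit 137))))) (XT.nd (nat_lit 312) (nat_lit 0) (nat_lit 0) (XT.nd (nat_lit 156) (nat_lit 0) (nat_lit 0) (XT.nd (nat_lit 78) (nat_lit 0) (nat_lit 0) (XT.lf (nat_lit 0) (nat_lit 67522811048) (nat_lit 76) (nat_lit 110504619267) (nat_lit 76) (nat_lit 85884185627) (nat_lit 1) (nat_lit 4) (nat_lit 2) (nat_lit 5) (nat_lit 2) (nat_lit 4) (nat_lit 346) (nat_lit 238) (nat_lit 136))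 (XT.lf (nat_lit 0) (nat_lit 78376993711) (nat_lit 76) (nat_lit 111568982933) (nat_lit 76) (nat_lit 86940406492) (nat_lit 1) (nat_lit 4) (nat_lit 2) (nat_lit 5) (nat_lit 2) (nat_lit 4) (nat_lit 347) (nat_lit 238) (nat_lit 135))) (XT.nd (nat_lit 78) (nat_lit 0) (nat_lit 0) (XT.lf (nat_lit 0) (nat_lit 89769153828) (nat_lit 76) (nat_lit 112688603034) (nat_lit 76) (nat_lit 88052271544) (nat_lit 1) (nat_lit 4) (nat_lit 2) (nat_lit 5) (nat_lit 2) (nat_lit 4) (nat_lit 348) (nat_lit 238) (nat_lit 134)) (XT.lf (nat_lit 0) (nat_lit 101726415590) (nat_lit 76) (nat_lit 113866145333) (nat_lit 76) (nat_lit 89222428083) (nat_lit 1) (nat_lit 4) (nat_lit 2) (nat_lit 5) (nat_lit 2) (nat_lit 4) (nat_lit 349) (nat_lit 238) (nat_lit 133)))) (XT.nd (nat_lit 156) (nat_lit 0) (nat_lit 0) (XT.nd (nat_lit 78) (nat_lit 0) (nat_lit 0) (XT.lf (nat_lit 0) (nat_lit 114277248669) (nat_lit 76) (nat_lit 115104413502)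 (nat_lit 76) (nat_lit 90453662194) (nat_lit 1) (nat_lit 4) (nat_lit 2) (nat_lit 5) (nat_lit 2) (nat_lit 4) (nat_lit 350) (nat_lit 238) (nat_lit 132)) (XT.lf (nat_lit 0) (nat_lit 127451535999) (nat_lit 76) (nat_lit 116406355799) (nat_lit 76) (nat_lit 91748905388) (nat_lit 1) (nat_lit 4) (nat_lit 2) (nat_lit 5) (nat_lit 2) (nat_lit 4) (nat_lit 351) (nat_lit 238) (nat_lit 131))) (XT.nd (nat_lit 78) (nat_lit 0) (nat_lit 0) (XT.lf (nat_lit 0) (nat_lit 141280644932) (nat_lit 76) (nat_lit 117775072085) (nat_lit 76) (nat_lit 93111241577) (nat_lit 1) (nat_lit 4) (nat_lit 2) (nat_lit 5) (nat_lit 2) (nat_lit 4) (nat_lit 352) (nat_lit 238) (nat_lit 130)) (XT.nd (nat_lit 78) (nat_lit 0) (nat_lit 0) (XT.lf (nat_lit 0) (nat_lit 155797501918) (nat_lit 76) (nat_lit 119213821210) (nat_lit 76) (nat_lit 94543914418) (nat_lit 1) (nat_lit 4) (nat_lit 2) (nat_lit 5) (nat_lit 2) (nat_lit 4) (nat_lit 353)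 (nat_lit 238) (nat_lit 129)) (XT.lf (nat_lit 0) (nat_lit 171036670901) (nat_lit 76) (nat_lit 120726028766) (nat_lit 76) (nat_lit 96050335038) (nat_lit 1) (nat_lit 4) (nat_lit 2) (nat_lit 5) (nat_lit 2) (nat_lit 4) (nat_lit 354) (nat_lit 238) (nat_lit 128))))))))
noncomputable def xc106 : XT := (XT.nd (nat_lit 29640) (nat_lit 0) (nat_lit 2356) (XT.nd (nat_lit 28938) (nat_lit 0) (nat_lit 5852) (XT.nd (nat_lit 312) (nat_lit 0) (nat_lit 0) (XT.nd (nat_lit 156) (nat_lit 0) (nat_lit 0) (XT.nd (nat_lit 78) (nat_lit 0) (nat_lit 0) (XT.lf (nat_lit 0) (nat_lit 187034435618) (nat_lit 76) (nat_lit 122315295248) (nat_lit 76) (nat_lit 97634090151) (nat_lit 1) (nat_lit 4) (nat_lit 2) (nat_lit 5) (nat_lit 2) (nat_lit 4) (nat_lit 355) (nat_lit 238) (nat_lit 127)) (XT.lf (nat_lit 0) (nat_lit 203828885984) (nat_lit 76) (nat_lit 123985404623) (nat_lit 76) (nat_lit 99298950605) (nat_lit 1) (nat_lit 4)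 (nat_lit 2) (nat_lit 5) (nat_lit 2) (nat_lit 4) (nat_lit 356) (nat_lit 238) (nat_lit 126))) (XT.nd (nat_lit 78) (nat_lit 0) (nat_lit 0) (XT.lf (nat_lit 0) (nat_lit 221460008786) (nat_lit 76) (nat_lit 125740333343) (nat_lit 76) (nat_lit 101048880351) (nat_lit 1) (nat_lit 4) (nat_lit 2) (nat_lit 5) (nat_lit 2) (nat_lit 4) (nat_lit 357) (nat_lit 238) (nat_lit 125)) (XT.lf (nat_lit 0) (nat_lit 239969782888) (nat_lit 76) (nat_lit 127584259809) (nat_lit 76) (nat_lit 102888045889) (nat_lit 1) (nat_lit 4) (nat_lit 2) (nat_lit 5) (nat_lit 2) (nat_lit 4) (nat_lit 358) (nat_lit 238) (nat_lit 124)))) (XT.nd (nat_lit 28470) (nat_lit 0) (nat_lit 7600) (XT.nd (nat_lit 28392) (nat_lit 0) (nat_lit 7752) (XT.lf (nat_lit 0) (nat_lit 259402279180) (nat_lit 76) (nat_lit 129521574322) (nat_lit 76) (nat_lit 104820826186) (nat_lit 1) (nat_lit 4) (nat_lit 2) (nat_lit 5) (nat_lit 2) (nat_lit 4) (nat_lit 359)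 (nat_lit 238) (nat_lit 123)) (XT.lf (nat_lit 0) (nat_lit 1398381503) (nat_lit 76) (nat_lit 430040222) (nat_lit 0) (nat_lit 1398381503) (nat_lit 103) (nat_lit 5) (nat_lit 104) (nat_lit 0) (nat_lit 103) (nat_lit 4) (nat_lit 242) (nat_lit 239) (nat_lit 239))) (XT.nd (nat_lit 78) (nat_lit 76) (nat_lit 0) (XT.lf (nat_lit 0) (nat_lit 2086928796) (nat_lit 76) (nat_lit 3419001659) (nat_lit 76) (nat_lit 964734633) (nat_lit 102) (nat_lit 4) (nat_lit 103) (nat_lit 5) (nat_lit 103) (nat_lit 4) (nat_lit 243) (nat_lit 239) (nat_lit 238)) (XT.lf (nat_lit 0) (nat_lit 1650536588) (nat_lit 152) (nat_lit 1408064188) (nat_lit 76) (nat_lit 3437563470) (nat_lit 101) (nat_lit 5) (nat_lit 103) (nat_lit 5) (nat_lit 102) (nat_lit 4) (nat_lit 244) (nat_lit 239) (nat_lit 237))))) (XT.nd (nat_lit 312) (nat_lit 1292) (nat_lit 0) (XT.nd (nat_lit 156) (nat_lit 228) (nat_lit 0) (XT.nd (nat_lit 78) (nat_lit 76) (nat_lit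 0) (XT.lf (nat_lit 0) (nat_lit 1656396100) (nat_lit 152) (nat_lit 2574897965) (nat_lit 228) (nat_lit 2298876063) (nat_lit 99) (nat_lit 5) (nat_lit 101) (nat_lit 5) (nat_lit 102) (nat_lit 4) (nat_lit 245) (nat_lit 239) (nat_lit 236)) (XT.lf (nat_lit 0) (nat_lit 231014700) (nat_lit 228) (nat_lit 1750019917) (nat_lit 76) (nat_lit 4592409709) (nat_lit 98) (nat_lit 5) (nat_lit 101) (nat_lit 5) (nat_lit 99) (nat_lit 5) (nat_lit 246) (nat_lit 239) (nat_lit 235))) (XT.nd (nat_lit 78) (nat_lit 0) (nat_lit 0) (XT.lf (nat_lit 0) (nat_lit 1441170349) (nat_lit 228) (nat_lit 1242495510) (nat_lit 304) (nat_lit 3940847763) (nat_lit 95) (nat_lit 5) (nat_lit 98) (nat_lit 5) (nat_lit 99) (nat_lit 5) (nat_lit 247) (nat_lit 239) (nat_lit 234)) (XT.lf (nat_lit 0) (nat_lit 4757052964) (nat_lit 228) (nat_lit 388157716) (nat_lit 304) (nat_lit 1539747762) (nat_lit 95) (nat_lit 5) (nat_lit 98) (nat_lit 5) (nat_lit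 99) (nat_lit 5) (nat_lit 248) (nat_lit 239) (nat_lit 233)))) (XT.nd (nat_lit 156) (nat_lit 912) (nat_lit 0) (XT.nd (nat_lit 78) (nat_lit 0) (nat_lit 0) (XT.lf (nat_lit 0) (nat_lit 841626191) (nat_lit 380) (nat_lit 5339973532) (nat_lit 76) (nat_lit 572507733) (nat_lit 90) (nat_lit 5) (nat_lit 95) (nat_lit 5) (nat_lit 91) (nat_lit 5) (nat_lit 249) (nat_lit 239) (nat_lit 232)) (XT.lf (nat_lit 0) (nat_lit 3195827520) (nat_lit 380) (nat_lit 1970507565) (nat_lit 76) (nat_lit 1664822088) (nat_lit 90) (nat_lit 5) (nat_lit 95) (nat_lit 5) (nat_lit 91) (nat_lit 5) (nat_lit 250) (nat_lit 239) (nat_lit 231))) (XT.nd (nat_lit 78) (nat_lit 532) (nat_lit 0) (XT.lf (nat_lit 0) (nat_lit 1517433609) (nat_lit 380) (nat_lit 4046335553) (nat_lit 456) (nat_lit 1354422563) (nat_lit 85) (nat_lit 5) (nat_lit 90) (nat_lit 5) (nat_lit 91) (nat_lit 5) (nat_lit 251) (nat_lit 239) (nat_lit 230)) (XT.nd (nat_lit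 78) (nat_lit 456) (nat_lit 0) (XT.lf (nat_lit 0) (nat_lit 915170000) (nat_lit 456) (nat_lit 1878506695) (nat_lit 76) (nat_lit 4220538891) (nat_lit 84) (nat_lit 5) (nat_lit 90) (nat_lit 5) (nat_lit 85) (nat_lit 5) (nat_lit 252) (nat_lit 239) (nat_lit 229)) (XT.lf (nat_lit 0) (nat_lit 1756749143) (nat_lit 456) (nat_lit 1403427158) (nat_lit 532) (nat_lit 3959188285) (nat_lit 78) (nat_lit 5) (nat_lit 84) (nat_lit 5) (nat_lit 85) (nat_lit 5) (nat_lit 253) (nat_lit 239) (nat_lit 228))))))) (XT.nd (nat_lit 624) (nat_lit 1216) (nat_lit 0) (XT.nd (nat_lit 312) (nat_lit 1064) (nat_lit 0) (XT.nd (nat_lit 156) (nat_lit 608) (nat_lit 0) (XT.nd (nat_lit 78) (nat_lit 608) (nat_lit 0) (XT.lf (nat_lit 0) (nat_lit 5435207567) (nat_lit 532) (nat_lit 1693032238) (nat_lit 76) (nat_lit 106410787) (nat_lit 78) (nat_lit 5) (nat_lit 85) (nat_lit 5) (nat_lit 79) (nat_lit 5) (nat_lit 254) (nat_lit 239) (nat_lit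 227)) (XT.lf (nat_lit 0) (nat_lit 397665989) (nat_lit 608) (nat_lit 5258649758) (nat_lit 76) (nat_lit 1702498216) (nat_lit 70) (nat_lit 5) (nat_lit 78) (nat_lit 5) (nat_lit 71) (nat_lit 5) (nat_lit 255) (nat_lit 239) (nat_lit 226))) (XT.nd (nat_lit 78) (nat_lit 608) (nat_lit 0) (XT.lf (nat_lit 0) (nat_lit 2564678156) (nat_lit 608) (nat_lit 1476162115) (nat_lit 76) (nat_lit 3451507916) (nat_lit 70) (nat_lit 5) (nat_lit 78) (nat_lit 5) (nat_lit 71) (nat_lit 5) (nat_lit 256) (nat_lit 239) (nat_lit 225)) (XT.lf (nat_lit 0) (nat_lit 2479337672) (nat_lit 608) (nat_lit 2295963553) (nat_lit 684) (nat_lit 2861126958) (nat_lit 62) (nat_lit 5) (nat_lit 70) (nat_lit 5) (nat_lit 71) (nat_lit 5) (nat_lit 257) (nat_lit 239) (nat_lit 224)))) (XT.nd (nat_lit 156) (nat_lit 304) (nat_lit 0) (XT.nd (nat_lit 78) (nat_lit 760) (nat_lit 0) (XT.lf (nat_lit 0) (nat_lit 6589934720) (nat_lit 608) (nat_lit 431530820)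 (nat_lit 684) (nat_lit 770598110) (nat_lit 62) (nat_lit 5) (nat_lit 70) (nat_lit 5) (nat_lit 71) (nat_lit 5) (nat_lit 258) (nat_lit 239) (nat_lit 223)) (XT.lf (nat_lit 0) (nat_lit 1352255027) (nat_lit 760) (nat_lit 5053637206) (nat_lit 76) (nat_lit 1550353210) (nat_lit 52) (nat_lit 5) (nat_lit 62) (nat_lit 5) (nat_lit 53) (nat_lit 5) (nat_lit 259) (nat_lit 239) (nat_lit 222))) (XT.nd (nat_lit 78) (nat_lit 304) (nat_lit 0) (XT.lf (nat_lit 0) (nat_lit 3489017600) (nat_lit 760) (nat_lit 990321775) (nat_lit 76) (nat_lit 3652502125) (nat_lit 52) (nat_lit 5) (nat_lit 62) (nat_lit 5) (nat_lit 53) (nat_lit 5) (nat_lit 260) (nat_lit 239) (nat_lit 221)) (XT.lf (nat_lit 0) (nat_lit 3289068179) (nat_lit 304) (nat_lit 2405280045) (nat_lit 380) (nat_lit 2624277889) (nat_lit 48) (nat_lit 5) (nat_lit 52) (nat_lit 5) (nat_lit 53) (nat_lit 5) (nat_lit 261) (nat_lit 239) (nat_lit 220))))) (XT.nd (nat_lit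 312) (nat_lit 608) (nat_lit 0) (XT.nd (nat_lit 156) (nat_lit 228) (nat_lit 0) (XT.nd (nat_lit 78) (nat_lit 380) (nat_lit 0) (XT.lf (nat_lit 0) (nat_lit 7725937107) (nat_lit 304) (nat_lit 214007128) (nat_lit 380) (nat_lit 578777441) (nat_lit 48) (nat_lit 5) (nat_lit 52) (nat_lit 5) (nat_lit 53) (nat_lit 5) (nat_lit 262) (nat_lit 239) (nat_lit 219)) (XT.lf (nat_lit 0) (nat_lit 1525308037) (nat_lit 380) (nat_lit 5104559681) (nat_lit 76) (nat_lit 2097830903) (nat_lit 43) (nat_lit 5) (nat_lit 48) (nat_lit 5) (nat_lit 44) (nat_lit 5) (nat_lit 263) (nat_lit 239) (nat_lit 218))) (XT.nd (nat_lit 78) (nat_lit 228) (nat_lit 0) (XT.lf (nat_lit 0) (nat_lit 3650411097) (nat_lit 380) (nat_lit 764998966) (nat_lit 76) (nat_lit 4534884182) (nat_lit 43) (nat_lit 5) (nat_lit 48) (nat_lit 5) (nat_lit 44) (nat_lit 5) (nat_lit 264) (nat_lit 239) (nat_lit 217)) (XT.lf (nat_lit 0) (nat_lit 3825688952) (nat_lit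 228) (nat_lit 2037819054) (nat_lit 304) (nat_lit 3321812749) (nat_lit 40) (nat_lit 5) (nat_lit 43) (nat_lit 5) (nat_lit 44) (nat_lit 5) (nat_lit 265) (nat_lit 239) (nat_lit 216)))) (XT.nd (nat_lit 156) (nat_lit 228) (nat_lit 0) (XT.nd (nat_lit 78) (nat_lit 380) (nat_lit 0) (XT.lf (nat_lit 0) (nat_lit 8131779641) (nat_lit 304) (nat_lit 857202118) (nat_lit 76) (nat_lit 446260397) (nat_lit 40) (nat_lit 5) (nat_lit 44) (nat_lit 5) (nat_lit 41) (nat_lit 5) (nat_lit 266) (nat_lit 239) (nat_lit 215)) (XT.lf (nat_lit 0) (nat_lit 811407875) (nat_lit 380) (nat_lit 5835588168) (nat_lit 76) (nat_lit 3049276263) (nat_lit 35) (nat_lit 5) (nat_lit 40) (nat_lit 5) (nat_lit 36) (nat_lit 5) (nat_lit 267) (nat_lit 239) (nat_lit 214))) (XT.nd (nat_lit 78) (nat_lit 228) (nat_lit 0) (XT.lf (nat_lit 0) (nat_lit 2931408487) (nat_lit 380) (nat_lit 1234821709) (nat_lit 76) (nat_lit 5806215015) (nat_lit 35)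 (nat_lit 5) (nat_lit 40) (nat_lit 5) (nat_lit 36) (nat_lit 5) (nat_lit 268) (nat_lit 239) (nat_lit 213)) (XT.nd (nat_lit 78) (nat_lit 0) (nat_lit 0) (XT.lf (nat_lit 0) (nat_lit 3628486628) (nat_lit 228) (nat_lit 1517417605) (nat_lit 304) (nat_lit 5117401813) (nat_lit 32) (nat_lit 5) (nat_lit 35) (nat_lit 5) (nat_lit 36) (nat_lit 5) (nat_lit 269) (nat_lit 239) (nat_lit 212)) (XT.lf (nat_lit 0) (nat_lit 7445665869) (nat_lit 304) (nat_lit 1895538482) (nat_lit 76) (nat_lit 1229068078) (nat_lit 32) (nat_lit 5) (nat_lit 36) (nat_lit 5) (nat_lit 33) (nat_lit 5) (nat_lit 270) (nat_lit 239) (nat_lit 211))))))))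
noncomputable def xc107 : XT := (XT.nd (nat_lit 1326) (nat_lit 532) (nat_lit 0) (XT.nd (nat_lit 624) (nat_lit 532) (nat_lit 0) (XT.nd (nat_lit 312) (nat_lit 456) (nat_lit 0) (XT.nd (nat_lit 156) (nat_lit 152) (nat_lit 0) (XT.nd (nat_lit 78) (nat_lit 76) (nat_lit 0) (XT.lf (nat_lit 0) (nat_lit 3072621560) (nat_lit 228) (nat_lit 6797360012) (nat_lit 304) (nat_lit 1022403030) (nat_lit 29) (nat_lit 5) (nat_lit 32) (nat_lit 5) (nat_lit 33) (nat_lit 5) (nat_lit 271) (nat_lit 239) (nat_lit 210)) (XT.lf (nat_lit 0) (nat_lit 1116830234) (nat_lit 304) (nat_lit 2975587926) (nat_lit 76) (nat_lit 7139017165) (nat_lit 28) (nat_lit 5) (nat_lit 32) (nat_lit 5) (nat_lit 29) (nat_lit 5) (nat_lit 272) (nat_lit 239) (nat_lit 209))) (XT.nd (nat_lit 78) (nat_lit 0) (nat_lit 0) (XT.lf (nat_lit 0) (nat_lit 2082042147) (nat_lit 152) (nat_lit 1219335776) (nat_lit 228) (nat_lit 8286825237) (nat_lit 26) (nat_lit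 5) (nat_lit 28) (nat_lit 5) (nat_lit 29) (nat_lit 5) (nat_lit 273) (nat_lit 239) (nat_lit 208)) (XT.lf (nat_lit 0) (nat_lit 5615979885) (nat_lit 228) (nat_lit 4573516815) (nat_lit 76) (nat_lit 1772498221) (nat_lit 26) (nat_lit 5) (nat_lit 29) (nat_lit 5) (nat_lit 27) (nat_lit 5) (nat_lit 274) (nat_lit 239) (nat_lit 207)))) (XT.nd (nat_lit 156) (nat_lit 228) (nat_lit 0) (XT.nd (nat_lit 78) (nat_lit 0) (nat_lit 0) (XT.lf (nat_lit 0) (nat_lit 526234294) (nat_lit 228) (nat_lit 7492611599) (nat_lit 304) (nat_lit 4337219754) (nat_lit 23) (nat_lit 5) (nat_lit 26) (nat_lit 5) (nat_lit 27) (nat_lit 5) (nat_lit 275) (nat_lit 239) (nat_lit 206)) (XT.lf (nat_lit 0) (nat_lit 5964608086) (nat_lit 228) (nat_lit 4600508435) (nat_lit 304) (nat_lit 2203766108) (nat_lit 23) (nat_lit 5) (nat_lit 26) (nat_lit 5) (nat_lit 27) (nat_lit 5) (nat_lit 276) (nat_lit 239) (nat_lit 205))) (XT.nd (nat_lit 78) (nat_lit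 228) (nat_lit 0) (XT.lf (nat_lit 0) (nat_lit 11603331946) (nat_lit 228) (nat_lit 1583755970) (nat_lit 304) (nat_lit 18029169) (nat_lit 23) (nat_lit 5) (nat_lit 26) (nat_lit 5) (nat_lit 27) (nat_lit 5) (nat_lit 277) (nat_lit 239) (nat_lit 204)) (XT.lf (nat_lit 0) (nat_lit 2240537952) (nat_lit 228) (nat_lit 9807587169) (nat_lit 76) (nat_lit 1611617324) (nat_lit 20) (nat_lit 5) (nat_lit 23) (nat_lit 5) (nat_lit 21) (nat_lit 5) (nat_lit 278) (nat_lit 239) (nat_lit 203))))) (XT.nd (nat_lit 312) (nat_lit 380) (nat_lit 0) (XT.nd (nat_lit 156) (nat_lit 0) (nat_lit 0) (XT.nd (nat_lit 78) (nat_lit 152) (nat_lit 0) (XT.lf (nat_lit 0) (nat_lit 4615820569) (nat_lit 228) (nat_lit 4599208312) (nat_lit 76) (nat_lit 4922005063) (nat_lit 20) (nat_lit 5) (nat_lit 23) (nat_lit 5) (nat_lit 21) (nat_lit 5) (nat_lit 279) (nat_lit 239) (nat_lit 202)) (XT.lf (nat_lit 0) (nat_lit 828324680) (nat_lit 152) (nat_lit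 6247673309) (nat_lit 228) (nat_lit 7564046733) (nat_lit 18) (nat_lit 5) (nat_lit 20) (nat_lit 5) (nat_lit 21) (nat_lit 5) (nat_lit 280) (nat_lit 239) (nat_lit 201))) (XT.nd (nat_lit 78) (nat_lit 0) (nat_lit 0) (XT.lf (nat_lit 0) (nat_lit 6620225249) (nat_lit 152) (nat_lit 3071234600) (nat_lit 228) (nat_lit 5475285974) (nat_lit 18) (nat_lit 5) (nat_lit 20) (nat_lit 5) (nat_lit 21) (nat_lit 5) (nat_lit 281) (nat_lit 239) (nat_lit 200)) (XT.lf (nat_lit 0) (nat_lit 12398061563) (nat_lit 228) (nat_lit 3087696203) (nat_lit 76) (nat_lit 236152121) (nat_lit 18) (nat_lit 5) (nat_lit 21) (nat_lit 5) (nat_lit 19) (nat_lit 4) (nat_lit 282) (nat_lit 239) (nat_lit 199)))) (XT.nd (nat_lit 156) (nat_lit 152) (nat_lit 0) (XT.nd (nat_lit 78) (nat_lit 76) (nat_lit 0) (XT.lf (nat_lit 0) (nat_lit 2615025191) (nat_lit 152) (nat_lit 12674472316) (nat_lit 228) (nat_lit 1012998723) (nat_lit 16) (nat_lit 5)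 (nat_lit 18) (nat_lit 5) (nat_lit 19) (nat_lit 4) (nat_lit 283) (nat_lit 239) (nat_lit 198)) (XT.lf (nat_lit 0) (nat_lit 1379864200) (nat_lit 228) (nat_lit 8285224515) (nat_lit 76) (nat_lit 7245460746) (nat_lit 15) (nat_lit 5) (nat_lit 18) (nat_lit 5) (nat_lit 16) (nat_lit 5) (nat_lit 284) (nat_lit 239) (nat_lit 197))) (XT.nd (nat_lit 78) (nat_lit 152) (nat_lit 0) (XT.lf (nat_lit 0) (nat_lit 3818859619) (nat_lit 228) (nat_lit 2689361182) (nat_lit 76) (nat_lit 11042047907) (nat_lit 15) (nat_lit 5) (nat_lit 18) (nat_lit 5) (nat_lit 16) (nat_lit 5) (nat_lit 285) (nat_lit 239) (nat_lit 196)) (XT.nd (nat_lit 78) (nat_lit 0) (nat_lit 0) (XT.lf (nat_lit 0) (nat_lit 3232725601) (nat_lit 152) (nat_lit 3159963256) (nat_lit 228) (nat_lit 11828755447) (nat_lit 13) (nat_lit 5) (nat_lit 15) (nat_lit 5) (nat_lit 16) (nat_lit 5) (nat_lit 286) (nat_lit 239) (nat_lit 195)) (XT.lf (nat_lit 0) (nat_lit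 9110077760) (nat_lit 228) (nat_lit 9443672810) (nat_lit 76) (nat_lit 371793832) (nat_lit 13) (nat_lit 5) (nat_lit 16) (nat_lit 5) (nat_lit 14) (nat_lit 4) (nat_lit 287) (nat_lit 239) (nat_lit 194))))))) (XT.nd (nat_lit 624) (nat_lit 228) (nat_lit 0) (XT.nd (nat_lit 312) (nat_lit 228) (nat_lit 0) (XT.nd (nat_lit 156) (nat_lit 0) (nat_lit 0) (XT.nd (nat_lit 78) (nat_lit 76) (nat_lit 0) (XT.lf (nat_lit 0) (nat_lit 11979921958) (nat_lit 228) (nat_lit 3728183439) (nat_lit 76) (nat_lit 3956018750) (nat_lit 13) (nat_lit 5) (nat_lit 16) (nat_lit 5) (nat_lit 14) (nat_lit 4) (nat_lit 288) (nat_lit 239) (nat_lit 193)) (XT.lf (nat_lit 0) (nat_lit 2294119758) (nat_lit 76) (nat_lit 12701416412) (nat_lit 152) (nat_lit 5444081806) (nat_lit 12) (nat_lit 5) (nat_lit 13) (nat_lit 5) (nat_lit 14) (nat_lit 4) (nat_lit 289) (nat_lit 239) (nat_lit 192))) (XT.nd (nat_lit 78) (nat_lit 0) (nat_lit 0) (XT.lf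 (nat_lit 0) (nat_lit 8695430375) (nat_lit 76) (nat_lit 9496891898) (nat_lit 152) (nat_lit 3060138937) (nat_lit 12) (nat_lit 5) (nat_lit 13) (nat_lit 5) (nat_lit 14) (nat_lit 4) (nat_lit 290) (nat_lit 239) (nat_lit 191)) (XT.lf (nat_lit 0) (nat_lit 15367719044) (nat_lit 76) (nat_lit 6150040626) (nat_lit 152) (nat_lit 589836121) (nat_lit 12) (nat_lit 5) (nat_lit 13) (nat_lit 5) (nat_lit 14) (nat_lit 4) (nat_lit 291) (nat_lit 239) (nat_lit 190)))) (XT.nd (nat_lit 156) (nat_lit 0) (nat_lit 0) (XT.nd (nat_lit 78) (nat_lit 152) (nat_lit 0) (XT.lf (nat_lit 0) (nat_lit 1909569330) (nat_lit 152) (nat_lit 710985090) (nat_lit 76) (nat_lit 20384963355) (nat_lit 11) (nat_lit 5) (nat_lit 13) (nat_lit 5) (nat_lit 12) (nat_lit 5) (nat_lit 292) (nat_lit 239) (nat_lit 189)) (XT.lf (nat_lit 0) (nat_lit 4593350516) (nat_lit 228) (nat_lit 18215096913) (nat_lit 76) (nat_lit 1135521126) (nat_lit 9) (nat_lit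 5) (nat_lit 12) (nat_lit 5) (nat_lit 10) (nat_lit 4) (nat_lit 293) (nat_lit 239) (nat_lit 188))) (XT.nd (nat_lit 78) (nat_lit 0) (nat_lit 0) (XT.lf (nat_lit 0) (nat_lit 7438100917) (nat_lit 228) (nat_lit 12502533619) (nat_lit 76) (nat_lit 4987442194) (nat_lit 9) (nat_lit 5) (nat_lit 12) (nat_lit 5) (nat_lit 10) (nat_lit 4) (nat_lit 294) (nat_lit 239) (nat_lit 187)) (XT.lf (nat_lit 0) (nat_lit 10398024059) (nat_lit 228) (nat_lit 6548191207) (nat_lit 76) (nat_lit 9016598635) (nat_lit 9) (nat_lit 5) (nat_lit 12) (nat_lit 5) (nat_lit 10) (nat_lit 4) (nat_lit 295) (nat_lit 239) (nat_lit 186))))) (XT.nd (nat_lit 312) (nat_lit 152) (nat_lit 0) (XT.nd (nat_lit 156) (nat_lit 0) (nat_lit 0) (XT.nd (nat_lit 78) (nat_lit 76) (nat_lit 0) (XT.lf (nat_lit 0) (nat_lit 13480167377) (nat_lit 228) (nat_lit 337892670) (nat_lit 76) (nat_lit 13232583680) (nat_lit 9) (nat_lit 5) (nat_lit 12) (nat_lit 5)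 (nat_lit 10) (nat_lit 4) (nat_lit 296) (nat_lit 239) (nat_lit 185)) (XT.lf (nat_lit 0) (nat_lit 6346268645) (nat_lit 76) (nat_lit 10444683702) (nat_lit 152) (nat_lit 11398249782) (nat_lit 8) (nat_lit 5) (nat_lit 9) (nat_lit 5) (nat_lit 10) (nat_lit 4) (nat_lit 297) (nat_lit 239) (nat_lit 184))) (XT.nd (nat_lit 78) (nat_lit 0) (nat_lit 0) (XT.lf (nat_lit 0) (nat_lit 13337238010) (nat_lit 76) (nat_lit 6911770414) (nat_lit 152) (nat_lit 9136654203) (nat_lit 8) (nat_lit 5) (nat_lit 9) (nat_lit 5) (nat_lit 10) (nat_lit 4) (nat_lit 298) (nat_lit 239) (nat_lit 183)) (XT.lf (nat_lit 0) (nat_lit 20640488331) (nat_lit 76) (nat_lit 3216630861) (nat_lit 152) (nat_lit 6786027237) (nat_lit 8) (nat_lit 5) (nat_lit 9) (nat_lit 5) (nat_lit 10) (nat_lit 4) (nat_lit 299) (nat_lit 239) (nat_lit 182)))) (XT.nd (nat_lit 156) (nat_lit 76) (nat_lit 0) (XT.nd (nat_lit 78) (nat_lit 76) (nat_lit 0) (XT.lf (nat_lit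 0) (nat_lit 27634016422) (nat_lit 152) (nat_lit 3701380276) (nat_lit 0) (nat_lit 628743797) (nat_lit 8) (nat_lit 5) (nat_lit 10) (nat_lit 4) (nat_lit 8) (nat_lit 4) (nat_lit 300) (nat_lit 239) (nat_lit 181)) (XT.lf (nat_lit 0) (nat_lit 2921033885) (nat_lit 76) (nat_lit 28756133698) (nat_lit 76) (nat_lit 1670198722) (nat_lit 7) (nat_lit 4) (nat_lit 8) (nat_lit 5) (nat_lit 8) (nat_lit 4) (nat_lit 301) (nat_lit 239) (nat_lit 180))) (XT.nd (nat_lit 78) (nat_lit 0) (nat_lit 0) (XT.lf (nat_lit 0) (nat_lit 1129652798) (nat_lit 152) (nat_lit 24846968026) (nat_lit 76) (nat_lit 8820160552) (nat_lit 6) (nat_lit 5) (nat_lit 8) (nat_lit 5) (nat_lit 7) (nat_lit 4) (nat_lit 302) (nat_lit 239) (nat_lit 179)) (XT.nd (nat_lit 78) (nat_lit 0) (nat_lit 0) (XT.lf (nat_lit 0) (nat_lit 3993511801) (nat_lit 152) (nat_lit 19049220199) (nat_lit 76) (nat_lit 13275604303) (nat_lit 6) (nat_lit 5) (nat_lit 8) (nat_lit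 5) (nat_lit 7) (nat_lit 4) (nat_lit 303) (nat_lit 239) (nat_lit 178)) (XT.lf (nat_lit 0) (nat_lit 6981653789) (nat_lit 152) (nat_lit 12993208296) (nat_lit 76) (nat_lit 17942095579) (nat_lit 6) (nat_lit 5) (nat_lit 8) (nat_lit 5) (nat_lit 7) (nat_lit 4) (nat_lit 304) (nat_lit 239) (nat_lit 177))))))))
noncomputable def xc108 : XT := (XT.nd (nat_lit 1248) (nat_lit 76) (nat_lit 0) (XT.nd (nat_lit 624) (nat_lit 152) (nat_lit 0) (XT.nd (nat_lit 312) (nat_lit 0) (nat_lit 0) (XT.nd (nat_lit 156) (nat_lit 76) (nat_lit 0) (XT.nd (nat_lit 78) (nat_lit 0) (nat_lit 0) (XT.lf (nat_lit 0) (nat_lit 10101193386) (nat_lit 152) (nat_lit 6664513239) (nat_lit 76) (nat_lit 22830745073) (nat_lit 6) (nat_lit 5) (nat_lit 8) (nat_lit 5) (nat_lit 7) (nat_lit 4) (nat_lit 305) (nat_lit 239) (nat_lit 176)) (XT.lf (nat_lit 0) (nat_lit 13359558065) (nat_lit 152) (nat_lit 48066709) (nat_lit 76) (nat_lit 27953192427)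 (nat_lit 6) (nat_lit 5) (nat_lit 8) (nat_lit 5) (nat_lit 7) (nat_lit 4) (nat_lit 306) (nat_lit 239) (nat_lit 175))) (XT.nd (nat_lit 78) (nat_lit 0) (nat_lit 0) (XT.lf (nat_lit 0) (nat_lit 7099100283) (nat_lit 76) (nat_lit 9776242407) (nat_lit 152) (nat_lit 26333370510) (nat_lit 5) (nat_lit 5) (nat_lit 6) (nat_lit 5) (nat_lit 7) (nat_lit 4) (nat_lit 307) (nat_lit 239) (nat_lit 174)) (XT.lf (nat_lit 0) (nat_lit 14578417588) (nat_lit 76) (nat_lit 5973336093) (nat_lit 152) (nat_lit 24598043992) (nat_lit 5) (nat_lit 5) (nat_lit 6) (nat_lit 5) (nat_lit 7) (nat_lit 4) (nat_lit 308) (nat_lit 239) (nat_lit 173)))) (XT.nd (nat_lit 156) (nat_lit 0) (nat_lit 0) (XT.nd (nat_lit 78) (nat_lit 0) (nat_lit 0) (XT.lf (nat_lit 0) (nat_lit 22406103801) (nat_lit 76) (nat_lit 1990665328) (nat_lit 152) (nat_lit 22791961883) (nat_lit 5) (nat_lit 5) (nat_lit 6) (nat_lit 5) (nat_lit 7) (nat_lit 4) (nat_lit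 309) (nat_lit 239) (nat_lit 172)) (XT.lf (nat_lit 0) (nat_lit 28453599295) (nat_lit 152) (nat_lit 18763627015) (nat_lit 0) (nat_lit 2111438738) (nat_lit 5) (nat_lit 5) (nat_lit 7) (nat_lit 4) (nat_lit 5) (nat_lit 4) (nat_lit 310) (nat_lit 239) (nat_lit 171))) (XT.nd (nat_lit 78) (nat_lit 0) (nat_lit 0) (XT.lf (nat_lit 0) (nat_lit 32731956376) (nat_lit 152) (nat_lit 12500101620) (nat_lit 0) (nat_lit 6342634213) (nat_lit 5) (nat_lit 5) (nat_lit 7) (nat_lit 4) (nat_lit 5) (nat_lit 4) (nat_lit 311) (nat_lit 239) (nat_lit 170)) (XT.lf (nat_lit 0) (nat_lit 37210947072) (nat_lit 152) (nat_lit 5946058005) (nat_lit 0) (nat_lit 10776709093) (nat_lit 5) (nat_lit 5) (nat_lit 7) (nat_lit 4) (nat_lit 5) (nat_lit 4) (nat_lit 312) (nat_lit 239) (nat_lit 169))))) (XT.nd (nat_lit 312) (nat_lit 76) (nat_lit 0) (XT.nd (nat_lit 156) (nat_lit 0) (nat_lit 0) (XT.nd (nat_lit 78) (nat_lit 0) (nat_lit 0) (XT.lf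 (nat_lit 0) (nat_lit 944333256) (nat_lit 76) (nat_lit 40971646078) (nat_lit 76) (nat_lit 14494631132) (nat_lit 4) (nat_lit 4) (nat_lit 5) (nat_lit 5) (nat_lit 5) (nat_lit 4) (nat_lit 313) (nat_lit 239) (nat_lit 168)) (XT.lf (nat_lit 0) (nat_lit 8364446742) (nat_lit 76) (nat_lit 38580135164) (nat_lit 76) (nat_lit 12062380249) (nat_lit 4) (nat_lit 4) (nat_lit 5) (nat_lit 5) (nat_lit 5) (nat_lit 4) (nat_lit 314) (nat_lit 239) (nat_lit 167))) (XT.nd (nat_lit 78) (nat_lit 0) (nat_lit 0) (XT.lf (nat_lit 0) (nat_lit 16135345859) (nat_lit 76) (nat_lit 36077477632) (nat_lit 76) (nat_lit 9520922746) (nat_lit 4) (nat_lit 4) (nat_lit 5) (nat_lit 5) (nat_lit 5) (nat_lit 4) (nat_lit 315) (nat_lit 239) (nat_lit 166)) (XT.lf (nat_lit 0) (nat_lit 24275532747) (nat_lit 76) (nat_lit 33457714771) (nat_lit 76) (nat_lit 6864207534) (nat_lit 4) (nat_lit 4) (nat_lit 5) (nat_lit 5) (nat_lit 5) (nat_lit 4)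 (nat_lit 316) (nat_lit 239) (nat_lit 165)))) (XT.nd (nat_lit 156) (nat_lit 76) (nat_lit 0) (XT.nd (nat_lit 78) (nat_lit 0) (nat_lit 0) (XT.lf (nat_lit 0) (nat_lit 32804388804) (nat_lit 76) (nat_lit 30714609053) (nat_lit 76) (nat_lit 4085909098) (nat_lit 4) (nat_lit 4) (nat_lit 5) (nat_lit 5) (nat_lit 5) (nat_lit 4) (nat_lit 317) (nat_lit 239) (nat_lit 164)) (XT.lf (nat_lit 0) (nat_lit 41742220829) (nat_lit 76) (nat_lit 27841629272) (nat_lit 76) (nat_lit 1179412445) (nat_lit 4) (nat_lit 4) (nat_lit 5) (nat_lit 5) (nat_lit 5) (nat_lit 4) (nat_lit 318) (nat_lit 239) (nat_lit 163))) (XT.nd (nat_lit 78) (nat_lit 0) (nat_lit 0) (XT.lf (nat_lit 0) (nat_lit 1802600542) (nat_lit 152) (nat_lit 22998806547) (nat_lit 76) (nat_lit 49277180922) (nat_lit 3) (nat_lit 5) (nat_lit 5) (nat_lit 5) (nat_lit 4) (nat_lit 4) (nat_lit 319) (nat_lit 239) (nat_lit 162)) (XT.lf (nat_lit 0) (nat_lit 4884668933)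 (nat_lit 152) (nat_lit 16710967137) (nat_lit 76) (nat_lit 55963566252) (nat_lit 3) (nat_lit 5) (nat_lit 5) (nat_lit 5) (nat_lit 4) (nat_lit 4) (nat_lit 320) (nat_lit 239) (nat_lit 161)))))) (XT.nd (nat_lit 624) (nat_lit 0) (nat_lit 0) (XT.nd (nat_lit 312) (nat_lit 0) (nat_lit 0) (XT.nd (nat_lit 156) (nat_lit 76) (nat_lit 0) (XT.nd (nat_lit 78) (nat_lit 0) (nat_lit 0) (XT.lf (nat_lit 0) (nat_lit 8111879550) (nat_lit 152) (nat_lit 10124138506) (nat_lit 76) (nat_lit 62978295297) (nat_lit 3) (nat_lit 5) (nat_lit 5) (nat_lit 5) (nat_lit 4) (nat_lit 4) (nat_lit 321) (nat_lit 239) (nat_lit 160)) (XT.lf (nat_lit 0) (nat_lit 11491916229) (nat_lit 152) (nat_lit 3222637730) (nat_lit 76) (nat_lit 70338069792) (nat_lit 3) (nat_lit 5) (nat_lit 5) (nat_lit 5) (nat_lit 4) (nat_lit 4) (nat_lit 322) (nat_lit 239) (nat_lit 159))) (XT.nd (nat_lit 78) (nat_lit 0) (nat_lit 0) (XT.lf (nat_lit 0) (nat_lit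 4142554964) (nat_lit 76) (nat_lit 10954948602) (nat_lit 152) (nat_lit 73982534938) (nat_lit 2) (nat_lit 5) (nat_lit 3) (nat_lit 5) (nat_lit 4) (nat_lit 4) (nat_lit 323) (nat_lit 239) (nat_lit 158)) (XT.lf (nat_lit 0) (nat_lit 11974144585) (nat_lit 76) (nat_lit 6955846995) (nat_lit 152) (nat_lit 74376516851) (nat_lit 2) (nat_lit 5) (nat_lit 3) (nat_lit 5) (nat_lit 4) (nat_lit 4) (nat_lit 324) (nat_lit 239) (nat_lit 157)))) (XT.nd (nat_lit 156) (nat_lit 0) (nat_lit 0) (XT.nd (nat_lit 78) (nat_lit 0) (nat_lit 0) (XT.lf (nat_lit 0) (nat_lit 20184222816) (nat_lit 76) (nat_lit 2762304396) (nat_lit 152) (nat_lit 74798168244) (nat_lit 2) (nat_lit 5) (nat_lit 3) (nat_lit 5) (nat_lit 4) (nat_lit 4) (nat_lit 325) (nat_lit 239) (nat_lit 156)) (XT.lf (nat_lit 0) (nat_lit 27182210940) (nat_lit 152) (nat_lit 73638366527) (nat_lit 0) (nat_lit 1583312360) (nat_lit 2) (nat_lit 5) (nat_lit 4) (nat_lit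 4) (nat_lit 2) (nat_lit 4) (nat_lit 326) (nat_lit 239) (nat_lit 155))) (XT.nd (nat_lit 78) (nat_lit 0) (nat_lit 0) (XT.lf (nat_lit 0) (nat_lit 31668012083) (nat_lit 152) (nat_lit 69577591515) (nat_lit 0) (nat_lit 6048537050) (nat_lit 2) (nat_lit 5) (nat_lit 4) (nat_lit 4) (nat_lit 2) (nat_lit 4) (nat_lit 327) (nat_lit 239) (nat_lit 154)) (XT.lf (nat_lit 0) (nat_lit 36371483806) (nat_lit 152) (nat_lit 65325351778) (nat_lit 0) (nat_lit 10732412152) (nat_lit 2) (nat_lit 5) (nat_lit 4) (nat_lit 4) (nat_lit 2) (nat_lit 4) (nat_lit 328) (nat_lit 239) (nat_lit 153))))) (XT.nd (nat_lit 312) (nat_lit 0) (nat_lit 0) (XT.nd (nat_lit 156) (nat_lit 0) (nat_lit 0) (XT.nd (nat_lit 78) (nat_lit 0) (nat_lit 0) (XT.lf (nat_lit 0) (nat_lit 41303824852) (nat_lit 152) (nat_lit 60871522938) (nat_lit 0) (nat_lit 15646089749) (nat_lit 2) (nat_lit 5) (nat_lit 4) (nat_lit 4) (nat_lit 2) (nat_lit 4) (nat_lit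 329) (nat_lit 239) (nat_lit 152)) (XT.lf (nat_lit 0) (nat_lit 46476778889) (nat_lit 152) (nat_lit 56205500640) (nat_lit 0) (nat_lit 20801269072) (nat_lit 2) (nat_lit 5) (nat_lit 4) (nat_lit 4) (nat_lit 2) (nat_lit 4) (nat_lit 330) (nat_lit 239) (nat_lit 151))) (XT.nd (nat_lit 78) (nat_lit 0) (nat_lit 0) (XT.lf (nat_lit 0) (nat_lit 51902662475) (nat_lit 152) (nat_lit 51316175306) (nat_lit 0) (nat_lit 26210224360) (nat_lit 2) (nat_lit 5) (nat_lit 4) (nat_lit 4) (nat_lit 2) (nat_lit 4) (nat_lit 331) (nat_lit 239) (nat_lit 150)) (XT.lf (nat_lit 0) (nat_lit 57594394381) (nat_lit 152) (nat_lit 46191905686) (nat_lit 0) (nat_lit 31885834077) (nat_lit 2) (nat_lit 5) (nat_lit 4) (nat_lit 4) (nat_lit 2) (nat_lit 4) (nat_lit 332) (nat_lit 239) (nat_lit 149)))) (XT.nd (nat_lit 156) (nat_lit 0) (nat_lit 0) (XT.nd (nat_lit 78) (nat_lit 0) (nat_lit 0) (XT.lf (nat_lit 0) (nat_lit 63565526349) (nat_lit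 152) (nat_lit 40820491139) (nat_lit 0) (nat_lit 37841611579) (nat_lit 2) (nat_lit 5) (nat_lit 4) (nat_lit 4) (nat_lit 2) (nat_lit 4) (nat_lit 333) (nat_lit 239) (nat_lit 148)) (XT.lf (nat_lit 0) (nat_lit 69830275359) (nat_lit 152) (nat_lit 35189142581) (nat_lit 0) (nat_lit 44091737289) (nat_lit 2) (nat_lit 5) (nat_lit 4) (nat_lit 4) (nat_lit 2) (nat_lit 4) (nat_lit 334) (nat_lit 239) (nat_lit 147))) (XT.nd (nat_lit 78) (nat_lit 0) (nat_lit 0) (XT.lf (nat_lit 0) (nat_lit 76403557482) (nat_lit 152) (nat_lit 29284452040) (nat_lit 0) (nat_lit 50651092459) (nat_lit 2) (nat_lit 5) (nat_lit 4) (nat_lit 4) (nat_lit 2) (nat_lit 4) (nat_lit 335) (nat_lit 239) (nat_lit 146)) (XT.nd (nat_lit 78) (nat_lit 0) (nat_lit 0) (XT.lf (nat_lit 0) (nat_lit 83301023388) (nat_lit 152) (nat_lit 23092360729) (nat_lit 0) (nat_lit 57535294600) (nat_lit 2) (nat_lit 5) (nat_lit 4) (nat_lit 4) (nat_lit 2) (nat_lit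 4) (nat_lit 336) (nat_lit 239) (nat_lit 145)) (XT.lf (nat_lit 0) (nat_lit 90539095616) (nat_lit 152) (nat_lit 16598125573) (nat_lit 0) (nat_lit 64760734671) (nat_lit 2) (nat_lit 5) (nat_lit 4) (nat_lit 4) (nat_lit 2) (nat_lit 4) (nat_lit 337) (nat_lit 239) (nat_lit 144))))))))
noncomputable def xc109 : XT := (XT.nd (nat_lit 1326) (nat_lit 0) (nat_lit 0) (XT.nd (nat_lit 624) (nat_lit 0) (nat_lit 0) (XT.nd (nat_lit 312) (nat_lit 0) (nat_lit 0) (XT.nd (nat_lit 156) (nat_lit 76) (nat_lit 0) (XT.nd (nat_lit 78) (nat_lit 0) (nat_lit 0) (XT.lf (nat_lit 0) (nat_lit 98135007671) (nat_lit 152) (nat_lit 9786284109) (nat_lit 0) (nat_lit 72344616100) (nat_lit 2) (nat_lit 5) (nat_lit 4) (nat_lit 4) (nat_lit 2) (nat_lit 4) (nat_lit 338) (nat_lit 239) (nat_lit 143)) (XT.lf (nat_lit 0) (nat_lit 106106845058) (nat_lit 152) (nat_lit 2640617665) (nat_lit 0) (nat_lit 80304995748) (nat_lit 2) (nat_lit 5)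 (nat_lit 4) (nat_lit 4) (nat_lit 2) (nat_lit 4) (nat_lit 339) (nat_lit 239) (nat_lit 142))) (XT.nd (nat_lit 78) (nat_lit 0) (nat_lit 0) (XT.lf (nat_lit 0) (nat_lit 5016444811) (nat_lit 76) (nat_lit 109535464291) (nat_lit 76) (nat_lit 83722702850) (nat_lit 1) (nat_lit 4) (nat_lit 2) (nat_lit 5) (nat_lit 2) (nat_lit 4) (nat_lit 340) (nat_lit 239) (nat_lit 141)) (XT.lf (nat_lit 0) (nat_lit 13141695793) (nat_lit 76) (nat_lit 110318641247) (nat_lit 76) (nat_lit 84495487298) (nat_lit 1) (nat_lit 4) (nat_lit 2) (nat_lit 5) (nat_lit 2) (nat_lit 4) (nat_lit 341) (nat_lit 239) (nat_lit 140)))) (XT.nd (nat_lit 156) (nat_lit 0) (nat_lit 0) (XT.nd (nat_lit 78) (nat_lit 0) (nat_lit 0) (XT.lf (nat_lit 0) (nat_lit 21667170369) (nat_lit 76) (nat_lit 111143578433) (nat_lit 76) (nat_lit 85310526859) (nat_lit 1) (nat_lit 4) (nat_lit 2) (nat_lit 5) (nat_lit 2) (nat_lit 4) (nat_lit 342) (nat_lit 239) (nat_lit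 139)) (XT.lf (nat_lit 0) (nat_lit 30613167290) (nat_lit 76) (nat_lit 112012239988) (nat_lit 76) (nat_lit 86169762104) (nat_lit 1) (nat_lit 4) (nat_lit 2) (nat_lit 5) (nat_lit 2) (nat_lit 4) (nat_lit 343) (nat_lit 239) (nat_lit 138))) (XT.nd (nat_lit 78) (nat_lit 0) (nat_lit 0) (XT.lf (nat_lit 0) (nat_lit 40000986546) (nat_lit 76) (nat_lit 112926694151) (nat_lit 76) (nat_lit 87075238829) (nat_lit 1) (nat_lit 4) (nat_lit 2) (nat_lit 5) (nat_lit 2) (nat_lit 4) (nat_lit 344) (nat_lit 239) (nat_lit 137)) (XT.lf (nat_lit 0) (nat_lit 49852980089) (nat_lit 76) (nat_lit 113889118197) (nat_lit 76) (nat_lit 88029112934) (nat_lit 1) (nat_lit 4) (nat_lit 2) (nat_lit 5) (nat_lit 2) (nat_lit 4) (nat_lit 345) (nat_lit 239) (nat_lit 136))))) (XT.nd (nat_lit 312) (nat_lit 0) (nat_lit 0) (XT.nd (nat_lit 156) (nat_lit 0) (nat_lit 0) (XT.nd (nat_lit 78) (nat_lit 0) (nat_lit 0) (XT.lf (nat_lit 0) (nat_lit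 60192605047) (nat_lit 76) (nat_lit 114901803609) (nat_lit 76) (nat_lit 89033655545) (nat_lit 1) (nat_lit 4) (nat_lit 2) (nat_lit 5) (nat_lit 2) (nat_lit 4) (nat_lit 346) (nat_lit 239) (nat_lit 135)) (XT.lf (nat_lit 0) (nat_lit 71044479574) (nat_lit 76) (nat_lit 115967161544) (nat_lit 76) (nat_lit 90091258432) (nat_lit 1) (nat_lit 4) (nat_lit 2) (nat_lit 5) (nat_lit 2) (nat_lit 4) (nat_lit 347) (nat_lit 239) (nat_lit 134))) (XT.nd (nat_lit 78) (nat_lit 0) (nat_lit 0) (XT.lf (nat_lit 0) (nat_lit 82434441467) (nat_lit 76) (nat_lit 117087728569) (nat_lit 76) (nat_lit 91204439696) (nat_lit 1) (nat_lit 4) (nat_lit 2) (nat_lit 5) (nat_lit 2) (nat_lit 4) (nat_lit 348) (nat_lit 239) (nat_lit 133)) (XT.lf (nat_lit 0) (nat_lit 94389609682) (nat_lit 76) (nat_lit 118266172700) (nat_lit 76) (nat_lit 92375849769) (nat_lit 1) (nat_lit 4) (nat_lit 2) (nat_lit 5) (nat_lit 2) (nat_lit 4) (nat_lit 349)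 (nat_lit 239) (nat_lit 132)))) (XT.nd (nat_lit 156) (nat_lit 0) (nat_lit 0) (XT.nd (nat_lit 78) (nat_lit 0) (nat_lit 0) (XT.lf (nat_lit 0) (nat_lit 106938448906) (nat_lit 76) (nat_lit 119505299756) (nat_lit 76) (nat_lit 93608277723) (nat_lit 1) (nat_lit 4) (nat_lit 2) (nat_lit 5) (nat_lit 2) (nat_lit 4) (nat_lit 350) (nat_lit 239) (nat_lit 131)) (XT.lf (nat_lit 0) (nat_lit 120110837327) (nat_lit 76) (nat_lit 120808060040) (nat_lit 76) (nat_lit 94904657909) (nat_lit 1) (nat_lit 4) (nat_lit 2) (nat_lit 5) (nat_lit 2) (nat_lit 4) (nat_lit 351) (nat_lit 239) (nat_lit 130))) (XT.nd (nat_lit 78) (nat_lit 0) (nat_lit 0) (XT.lf (nat_lit 0) (nat_lit 133938137775) (nat_lit 76) (nat_lit 122177555363) (nat_lit 76) (nat_lit 96268076948) (nat_lit 1) (nat_lit 4) (nat_lit 2) (nat_lit 5) (nat_lit 2) (nat_lit 4) (nat_lit 352) (nat_lit 239) (nat_lit 129)) (XT.nd (nat_lit 78) (nat_lit 0) (nat_lit 0) (XT.lf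 (nat_lit 0) (nat_lit 148453272394) (nat_lit 76) (nat_lit 123617046427) (nat_lit 76) (nat_lit 97701781075) (nat_lit 1) (nat_lit 4) (nat_lit 2) (nat_lit 5) (nat_lit 2) (nat_lit 4) (nat_lit 353) (nat_lit 239) (nat_lit 128)) (XT.lf (nat_lit 0) (nat_lit 163690801028) (nat_lit 76) (nat_lit 125129960592) (nat_lit 76) (nat_lit 99209183872) (nat_lit 1) (nat_lit 4) (nat_lit 2) (nat_lit 5) (nat_lit 2) (nat_lit 4) (nat_lit 354) (nat_lit 239) (nat_lit 127))))))) (XT.nd (nat_lit 28782) (nat_lit 0) (nat_lit 6308) (XT.nd (nat_lit 312) (nat_lit 0) (nat_lit 0) (XT.nd (nat_lit 156) (nat_lit 0) (nat_lit 0) (XT.nd (nat_lit 78) (nat_lit 0) (nat_lit 0) (XT.lf (nat_lit 0) (nat_lit 179687003507) (nat_lit 76) (nat_lit 126719900034) (nat_lit 76) (nat_lit 100793874393) (nat_lit 1) (nat_lit 4) (nat_lit 2) (nat_lit 5) (nat_lit 2) (nat_lit 4) (nat_lit 355) (nat_lit 239) (nat_lit 126)) (XT.lf (nat_lit 0) (nat_lit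 196479966028) (nat_lit 76) (nat_lit 128390650324) (nat_lit 76) (nat_lit 102459625709) (nat_lit 1) (nat_lit 4) (nat_lit 2) (nat_lit 5) (nat_lit 2) (nat_lit 4) (nat_lit 356) (nat_lit 239) (nat_lit 125))) (XT.nd (nat_lit 78) (nat_lit 0) (nat_lit 0) (XT.lf (nat_lit 0) (nat_lit 214109671835) (nat_lit 76) (nat_lit 130146189439) (nat_lit 76) (nat_lit 104210403897) (nat_lit 1) (nat_lit 4) (nat_lit 2) (nat_lit 5) (nat_lit 2) (nat_lit 4) (nat_lit 357) (nat_lit 239) (nat_lit 124)) (XT.lf (nat_lit 0) (nat_lit 232618096417) (nat_lit 76) (nat_lit 131990697234) (nat_lit 76) (nat_lit 106050377475) (nat_lit 1) (nat_lit 4) (nat_lit 2) (nat_lit 5) (nat_lit 2) (nat_lit 4) (nat_lit 358) (nat_lit 239) (nat_lit 123)))) (XT.nd (nat_lit 28314) (nat_lit 0) (nat_lit 7752) (XT.nd (nat_lit 28236) (nat_lit 0) (nat_lit 7828) (XT.lf (nat_lit 0) (nat_lit 252049307453) (nat_lit 76) (nat_lit 133928565393) (nat_lit 76)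 (nat_lit 107983927333) (nat_lit 1) (nat_lit 4) (nat_lit 2) (nat_lit 5) (nat_lit 2) (nat_lit 4) (nat_lit 359) (nat_lit 239) (nat_lit 122)) (XT.lf (nat_lit 0) (nat_lit 1073741823) (nat_lit 0) (nat_lit 0) (nat_lit 0) (nat_lit 0) (nat_lit 104) (nat_lit 0) (nat_lit 1) (nat_lit 0) (nat_lit 1) (nat_lit 0) (nat_lit 240) (nat_lit 240) (nat_lit 240))) (XT.nd (nat_lit 78) (nat_lit 0) (nat_lit 0) (XT.lf (nat_lit 0) (nat_lit 2663583816) (nat_lit 76) (nat_lit 3695194056) (nat_lit 0) (nat_lit 86603438) (nat_lit 103) (nat_lit 5) (nat_lit 104) (nat_lit 0) (nat_lit 103) (nat_lit 4) (nat_lit 241) (nat_lit 240) (nat_lit 239)) (XT.lf (nat_lit 0) (nat_lit 5291263919) (nat_lit 76) (nat_lit 907229130) (nat_lit 0) (nat_lit 260016515) (nat_lit 103) (nat_lit 5) (nat_lit 104) (nat_lit 0) (nat_lit 103) (nat_lit 4) (nat_lit 242) (nat_lit 240) (nat_lit 238))))) (XT.nd (nat_lit 312) (nat_lit 1064) (nat_lit 0) (XT.nd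 (nat_lit 156) (nat_lit 228) (nat_lit 0) (XT.nd (nat_lit 78) (nat_lit 0) (nat_lit 0) (XT.lf (nat_lit 0) (nat_lit 1393991086) (nat_lit 152) (nat_lit 4510962843) (nat_lit 76) (nat_lit 574233939) (nat_lit 101) (nat_lit 5) (nat_lit 103) (nat_lit 5) (nat_lit 102) (nat_lit 4) (nat_lit 243) (nat_lit 240) (nat_lit 237)) (XT.lf (nat_lit 0) (nat_lit 3900961907) (nat_lit 152) (nat_lit 1597765203) (nat_lit 76) (nat_lit 1009750992) (nat_lit 101) (nat_lit 5) (nat_lit 103) (nat_lit 5) (nat_lit 102) (nat_lit 4) (nat_lit 244) (nat_lit 240) (nat_lit 236))) (XT.nd (nat_lit 78) (nat_lit 76) (nat_lit 0) (XT.lf (nat_lit 0) (nat_lit 1413775173) (nat_lit 152) (nat_lit 4990420153) (nat_lit 228) (nat_lit 142805855) (nat_lit 99) (nat_lit 5) (nat_lit 101) (nat_lit 5) (nat_lit 102) (nat_lit 4) (nat_lit 245) (nat_lit 240) (nat_lit 235)) (XT.lf (nat_lit 0) (nat_lit 2245405225) (nat_lit 228) (nat_lit 2090544688) (nat_lit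 76) (nat_lit 2256857351) (nat_lit 98) (nat_lit 5) (nat_lit 101) (nat_lit 5) (nat_lit 99) (nat_lit 5) (nat_lit 246) (nat_lit 240) (nat_lit 234)))) (XT.nd (nat_lit 156) (nat_lit 760) (nat_lit 0) (XT.nd (nat_lit 78) (nat_lit 76) (nat_lit 0) (XT.lf (nat_lit 0) (nat_lit 1042740484) (nat_lit 228) (nat_lit 3579883892) (nat_lit 304) (nat_lit 2025577498) (nat_lit 95) (nat_lit 5) (nat_lit 98) (nat_lit 5) (nat_lit 99) (nat_lit 5) (nat_lit 247) (nat_lit 240) (nat_lit 233)) (XT.lf (nat_lit 0) (nat_lit 295291801) (nat_lit 304) (nat_lit 2403068753) (nat_lit 76) (nat_lit 4013905811) (nat_lit 94) (nat_lit 5) (nat_lit 98) (nat_lit 5) (nat_lit 95) (nat_lit 5) (nat_lit 248) (nat_lit 240) (nat_lit 232))) (XT.nd (nat_lit 78) (nat_lit 456) (nat_lit 0) (XT.lf (nat_lit 0) (nat_lit 861699465) (nat_lit 304) (nat_lit 1682710860) (nat_lit 380) (nat_lit 4240430079) (nat_lit 90) (nat_lit 5) (nat_lit 94) (nat_lit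 5) (nat_lit 95) (nat_lit 5) (nat_lit 249) (nat_lit 240) (nat_lit 231)) (XT.nd (nat_lit 78) (nat_lit 456) (nat_lit 0) (XT.lf (nat_lit 0) (nat_lit 4282503358) (nat_lit 304) (nat_lit 535930105) (nat_lit 380) (nat_lit 2047921109) (nat_lit 90) (nat_lit 5) (nat_lit 94) (nat_lit 5) (nat_lit 95) (nat_lit 5) (nat_lit 250) (nat_lit 240) (nat_lit 230)) (XT.lf (nat_lit 0) (nat_lit 145655571) (nat_lit 456) (nat_lit 6114931980) (nat_lit 76) (nat_lit 697026556) (nat_lit 84) (nat_lit 5) (nat_lit 90) (nat_lit 5) (nat_lit 85) (nat_lit 5) (nat_lit 251) (nat_lit 240) (nat_lit 229))))))))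
noncomputable def xc110 : XT := (XT.nd (nat_lit 1326) (nat_lit 1520) (nat_lit 0) (XT.nd (nat_lit 624) (nat_lit 1292) (nat_lit 0) (XT.nd (nat_lit 312) (nat_lit 1368) (nat_lit 0) (XT.nd (nat_lit 156) (nat_lit 608) (nat_lit 0) (XT.nd (nat_lit 78) (nat_lit 456) (nat_lit 0) (XT.lf (nat_lit 0) (nat_lit 2313373184) (nat_lit 456) (nat_lit 2661208085) (nat_lit 76) (nat_lit 2081319147) (nat_lit 84) (nat_lit 5) (nat_lit 90) (nat_lit 5) (nat_lit 85) (nat_lit 5) (nat_lit 252) (nat_lit 240) (nat_lit 228)) (XT.lf (nat_lit 0) (nat_lit 901551129) (nat_lit 456) (nat_lit 3587738250) (nat_lit 532) (nat_lit 2675589316) (nat_lit 78) (nat_lit 5) (nat_lit 84) (nat_lit 5) (nat_lit 85) (nat_lit 5) (nat_lit 253) (nat_lit 240) (nat_lit 227))) (XT.nd (nat_lit 78) (nat_lit 608) (nat_lit 0) (XT.lf (nat_lit 0) (nat_lit 4643825334) (nat_lit 456) (nat_lit 2065001971) (nat_lit 532) (nat_lit 574468994) (nat_lit 78) (nat_lit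 5) (nat_lit 84) (nat_lit 5) (nat_lit 85) (nat_lit 5) (nat_lit 254) (nat_lit 240) (nat_lit 226)) (XT.lf (nat_lit 0) (nat_lit 1083899963) (nat_lit 532) (nat_lit 405116249) (nat_lit 608) (nat_lit 5922531789) (nat_lit 70) (nat_lit 5) (nat_lit 77) (nat_lit 5) (nat_lit 78) (nat_lit 5) (nat_lit 255) (nat_lit 240) (nat_lit 225)))) (XT.nd (nat_lit 156) (nat_lit 760) (nat_lit 0) (XT.nd (nat_lit 78) (nat_lit 608) (nat_lit 0) (XT.lf (nat_lit 0) (nat_lit 3599240396) (nat_lit 608) (nat_lit 2585404432) (nat_lit 76) (nat_lit 1363585125) (nat_lit 70) (nat_lit 5) (nat_lit 78) (nat_lit 5) (nat_lit 71) (nat_lit 5) (nat_lit 256) (nat_lit 240) (nat_lit 224)) (XT.lf (nat_lit 0) (nat_lit 1287600870) (nat_lit 608) (nat_lit 4455596259) (nat_lit 684) (nat_lit 1952739783) (nat_lit 62) (nat_lit 5) (nat_lit 70) (nat_lit 5) (nat_lit 71) (nat_lit 5) (nat_lit 257) (nat_lit 240) (nat_lit 223))) (XT.nd (nat_lit 78)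 (nat_lit 684) (nat_lit 0) (XT.lf (nat_lit 0) (nat_lit 85894025) (nat_lit 684) (nat_lit 2500998265) (nat_lit 76) (nat_lit 5267213117) (nat_lit 61) (nat_lit 5) (nat_lit 70) (nat_lit 5) (nat_lit 62) (nat_lit 5) (nat_lit 258) (nat_lit 240) (nat_lit 222)) (XT.lf (nat_lit 0) (nat_lit 1529880293) (nat_lit 684) (nat_lit 562131420) (nat_lit 760) (nat_lit 5930531166) (nat_lit 52) (nat_lit 5) (nat_lit 61) (nat_lit 5) (nat_lit 62) (nat_lit 5) (nat_lit 259) (nat_lit 240) (nat_lit 221))))) (XT.nd (nat_lit 312) (nat_lit 608) (nat_lit 0) (XT.nd (nat_lit 156) (nat_lit 380) (nat_lit 0) (XT.nd (nat_lit 78) (nat_lit 304) (nat_lit 0) (XT.lf (nat_lit 0) (nat_lit 4176279962) (nat_lit 760) (nat_lit 2465625328) (nat_lit 76) (nat_lit 1559099947) (nat_lit 52) (nat_lit 5) (nat_lit 62) (nat_lit 5) (nat_lit 53) (nat_lit 5) (nat_lit 260) (nat_lit 240) (nat_lit 220)) (XT.lf (nat_lit 0) (nat_lit 1720656496) (nat_lit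 304) (nat_lit 4594830714) (nat_lit 380) (nat_lit 2075838888) (nat_lit 48) (nat_lit 5) (nat_lit 52) (nat_lit 5) (nat_lit 53) (nat_lit 5) (nat_lit 261) (nat_lit 240) (nat_lit 219))) (XT.nd (nat_lit 78) (nat_lit 380) (nat_lit 0) (XT.lf (nat_lit 0) (nat_lit 6115308347) (nat_lit 304) (nat_lit 2405462344) (nat_lit 380) (nat_lit 72885721) (nat_lit 48) (nat_lit 5) (nat_lit 52) (nat_lit 5) (nat_lit 53) (nat_lit 5) (nat_lit 262) (nat_lit 240) (nat_lit 218)) (XT.lf (nat_lit 0) (nat_lit 1866130045) (nat_lit 304) (nat_lit 47831226) (nat_lit 380) (nat_lit 6893528258) (nat_lit 43) (nat_lit 5) (nat_lit 47) (nat_lit 5) (nat_lit 48) (nat_lit 5) (nat_lit 263) (nat_lit 240) (nat_lit 217)))) (XT.nd (nat_lit 156) (nat_lit 380) (nat_lit 0) (XT.nd (nat_lit 78) (nat_lit 228) (nat_lit 0) (XT.lf (nat_lit 0) (nat_lit 4000273147) (nat_lit 380) (nat_lit 2644123585) (nat_lit 76) (nat_lit 2387817267) (nat_lit 43)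 (nat_lit 5) (nat_lit 48) (nat_lit 5) (nat_lit 44) (nat_lit 5) (nat_lit 264) (nat_lit 240) (nat_lit 216)) (XT.lf (nat_lit 0) (nat_lit 1842055094) (nat_lit 228) (nat_lit 4304112112) (nat_lit 304) (nat_lit 3124613719) (nat_lit 40) (nat_lit 5) (nat_lit 43) (nat_lit 5) (nat_lit 44) (nat_lit 5) (nat_lit 265) (nat_lit 240) (nat_lit 215))) (XT.nd (nat_lit 78) (nat_lit 380) (nat_lit 0) (XT.lf (nat_lit 0) (nat_lit 6561604872) (nat_lit 228) (nat_lit 1810498708) (nat_lit 304) (nat_lit 1150887199) (nat_lit 40) (nat_lit 5) (nat_lit 43) (nat_lit 5) (nat_lit 44) (nat_lit 5) (nat_lit 266) (nat_lit 240) (nat_lit 214)) (XT.nd (nat_lit 78) (nat_lit 0) (nat_lit 0) (XT.lf (nat_lit 0) (nat_lit 861429015) (nat_lit 380) (nat_lit 8115185347) (nat_lit 76) (nat_lit 812326728) (nat_lit 35) (nat_lit 5) (nat_lit 40) (nat_lit 5) (nat_lit 36) (nat_lit 5) (nat_lit 267) (nat_lit 240) (nat_lit 213)) (XT.lf (nat_lit 0)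 (nat_lit 2948182924) (nat_lit 380) (nat_lit 3555214340) (nat_lit 76) (nat_lit 3563527378) (nat_lit 35) (nat_lit 5) (nat_lit 40) (nat_lit 5) (nat_lit 36) (nat_lit 5) (nat_lit 268) (nat_lit 240) (nat_lit 212))))))) (XT.nd (nat_lit 624) (nat_lit 608) (nat_lit 0) (XT.nd (nat_lit 312) (nat_lit 380) (nat_lit 0) (XT.nd (nat_lit 156) (nat_lit 304) (nat_lit 0) (XT.nd (nat_lit 78) (nat_lit 0) (nat_lit 0) (XT.lf (nat_lit 0) (nat_lit 1191233876) (nat_lit 228) (nat_lit 3901728920) (nat_lit 304) (nat_lit 5268449724) (nat_lit 32) (nat_lit 5) (nat_lit 35) (nat_lit 5) (nat_lit 36) (nat_lit 5) (nat_lit 269) (nat_lit 240) (nat_lit 211)) (XT.lf (nat_lit 0) (nat_lit 6220069905) (nat_lit 228) (nat_lit 1122078290) (nat_lit 304) (nat_lit 3328894042) (nat_lit 32) (nat_lit 5) (nat_lit 35) (nat_lit 5) (nat_lit 36) (nat_lit 5) (nat_lit 270) (nat_lit 240) (nat_lit 210))) (XT.nd (nat_lit 78) (nat_lit 76) (nat_lit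 0) (XT.lf (nat_lit 0) (nat_lit 411651582) (nat_lit 228) (nat_lit 9266349055) (nat_lit 304) (nat_lit 1319705055) (nat_lit 29) (nat_lit 5) (nat_lit 32) (nat_lit 5) (nat_lit 33) (nat_lit 5) (nat_lit 271) (nat_lit 240) (nat_lit 209)) (XT.lf (nat_lit 0) (nat_lit 799875777) (nat_lit 304) (nat_lit 5775594078) (nat_lit 76) (nat_lit 4763093249) (nat_lit 28) (nat_lit 5) (nat_lit 32) (nat_lit 5) (nat_lit 29) (nat_lit 5) (nat_lit 272) (nat_lit 240) (nat_lit 208)))) (XT.nd (nat_lit 156) (nat_lit 228) (nat_lit 0) (XT.nd (nat_lit 78) (nat_lit 152) (nat_lit 0) (XT.lf (nat_lit 0) (nat_lit 2924137949) (nat_lit 304) (nat_lit 821132644) (nat_lit 76) (nat_lit 7953185293) (nat_lit 28) (nat_lit 5) (nat_lit 32) (nat_lit 5) (nat_lit 29) (nat_lit 5) (nat_lit 273) (nat_lit 240) (nat_lit 207)) (XT.lf (nat_lit 0) (nat_lit 4452229986) (nat_lit 152) (nat_lit 717659833) (nat_lit 228) (nat_lit 6905905736) (nat_lit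 26) (nat_lit 5) (nat_lit 28) (nat_lit 5) (nat_lit 29) (nat_lit 5) (nat_lit 274) (nat_lit 240) (nat_lit 206))) (XT.nd (nat_lit 78) (nat_lit 228) (nat_lit 0) (XT.lf (nat_lit 0) (nat_lit 7527471669) (nat_lit 228) (nat_lit 2564936403) (nat_lit 76) (nat_lit 2379822799) (nat_lit 26) (nat_lit 5) (nat_lit 29) (nat_lit 5) (nat_lit 27) (nat_lit 5) (nat_lit 275) (nat_lit 240) (nat_lit 205)) (XT.lf (nat_lit 0) (nat_lit 2753717484) (nat_lit 228) (nat_lit 7253477912) (nat_lit 304) (nat_lit 2881275406) (nat_lit 23) (nat_lit 5) (nat_lit 26) (nat_lit 5) (nat_lit 27) (nat_lit 5) (nat_lit 276) (nat_lit 240) (nat_lit 204))))) (XT.nd (nat_lit 312) (nat_lit 380) (nat_lit 0) (XT.nd (nat_lit 156) (nat_lit 0) (nat_lit 0) (XT.nd (nat_lit 78) (nat_lit 228) (nat_lit 0) (XT.lf (nat_lit 0) (nat_lit 8359192275) (nat_lit 228) (nat_lit 4245996460) (nat_lit 304) (nat_lit 720806475) (nat_lit 23) (nat_lit 5) (nat_lit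 26) (nat_lit 5) (nat_lit 27) (nat_lit 5) (nat_lit 277) (nat_lit 240) (nat_lit 203)) (XT.lf (nat_lit 0) (nat_lit 380909633) (nat_lit 152) (nat_lit 1075433900) (nat_lit 228) (nat_lit 12330103759) (nat_lit 20) (nat_lit 5) (nat_lit 22) (nat_lit 5) (nat_lit 23) (nat_lit 5) (nat_lit 278) (nat_lit 240) (nat_lit 202))) (XT.nd (nat_lit 78) (nat_lit 0) (nat_lit 0) (XT.lf (nat_lit 0) (nat_lit 3792005468) (nat_lit 228) (nat_lit 8213429909) (nat_lit 76) (nat_lit 2260363101) (nat_lit 20) (nat_lit 5) (nat_lit 23) (nat_lit 5) (nat_lit 21) (nat_lit 5) (nat_lit 279) (nat_lit 240) (nat_lit 201)) (XT.lf (nat_lit 0) (nat_lit 6217507425) (nat_lit 228) (nat_lit 2843895758) (nat_lit 76) (nat_lit 5709214754) (nat_lit 20) (nat_lit 5) (nat_lit 23) (nat_lit 5) (nat_lit 21) (nat_lit 5) (nat_lit 280) (nat_lit 240) (nat_lit 200)))) (XT.nd (nat_lit 156) (nat_lit 228) (nat_lit 0) (XT.nd (nat_lit 78) (nat_lit 0) (nat_lit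 0) (XT.lf (nat_lit 0) (nat_lit 2822993353) (nat_lit 152) (nat_lit 5942915354) (nat_lit 228) (nat_lit 6534834698) (nat_lit 18) (nat_lit 5) (nat_lit 20) (nat_lit 5) (nat_lit 21) (nat_lit 5) (nat_lit 281) (nat_lit 240) (nat_lit 199)) (XT.lf (nat_lit 0) (nat_lit 8811476929) (nat_lit 152) (nat_lit 2637042406) (nat_lit 228) (nat_lit 4408655633) (nat_lit 18) (nat_lit 5) (nat_lit 20) (nat_lit 5) (nat_lit 21) (nat_lit 5) (nat_lit 282) (nat_lit 240) (nat_lit 198))) (XT.nd (nat_lit 78) (nat_lit 228) (nat_lit 0) (XT.lf (nat_lit 0) (nat_lit 14238596050) (nat_lit 228) (nat_lit 1414488558) (nat_lit 76) (nat_lit 789809373) (nat_lit 18) (nat_lit 5) (nat_lit 21) (nat_lit 5) (nat_lit 19) (nat_lit 4) (nat_lit 283) (nat_lit 240) (nat_lit 197)) (XT.nd (nat_lit 78) (nat_lit 0) (nat_lit 0) (XT.lf (nat_lit 0) (nat_lit 184253351) (nat_lit 228) (nat_lit 12513286724) (nat_lit 76) (nat_lit 4356517837) (nat_lit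 15) (nat_lit 5) (nat_lit 18) (nat_lit 5) (nat_lit 16) (nat_lit 5) (nat_lit 284) (nat_lit 240) (nat_lit 196)) (XT.lf (nat_lit 0) (nat_lit 2604913230) (nat_lit 228) (nat_lit 6945246378) (nat_lit 76) (nat_lit 8144590225) (nat_lit 15) (nat_lit 5) (nat_lit 18) (nat_lit 5) (nat_lit 16) (nat_lit 5) (nat_lit 285) (nat_lit 240) (nat_lit 195))))))))
noncomputable def xc111 : XT := (XT.nd (nat_lit 1326) (nat_lit 228) (nat_lit 0) (XT.nd (nat_lit 624) (nat_lit 152) (nat_lit 0) (XT.nd (nat_lit 312) (nat_lit 304) (nat_lit 0) (XT.nd (nat_lit 156) (nat_lit 0) (nat_lit 0) (XT.nd (nat_lit 78) (nat_lit 152) (nat_lit 0) (XT.lf (nat_lit 0) (nat_lit 5110808143) (nat_lit 228) (nat_lit 1153125085) (nat_lit 76) (nat_lit 12105442151) (nat_lit 15) (nat_lit 5) (nat_lit 18) (nat_lit 5) (nat_lit 16) (nat_lit 5) (nat_lit 286) (nat_lit 240) (nat_lit 194)) (XT.lf (nat_lit 0) (nat_lit 5038119195) (nat_lit 152) (nat_lit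 2748444471) (nat_lit 228) (nat_lit 11289044181) (nat_lit 13) (nat_lit 5) (nat_lit 15) (nat_lit 5) (nat_lit 16) (nat_lit 5) (nat_lit 287) (nat_lit 240) (nat_lit 193))) (XT.nd (nat_lit 78) (nat_lit 0) (nat_lit 0) (XT.lf (nat_lit 0) (nat_lit 10597136050) (nat_lit 228) (nat_lit 8304642897) (nat_lit 76) (nat_lit 915420522) (nat_lit 13) (nat_lit 5) (nat_lit 16) (nat_lit 5) (nat_lit 14) (nat_lit 4) (nat_lit 288) (nat_lit 240) (nat_lit 192)) (XT.lf (nat_lit 0) (nat_lit 13561350820) (nat_lit 228) (nat_lit 2380103512) (nat_lit 76) (nat_lit 4653854925) (nat_lit 13) (nat_lit 5) (nat_lit 16) (nat_lit 5) (nat_lit 14) (nat_lit 4) (nat_lit 289) (nat_lit 240) (nat_lit 191)))) (XT.nd (nat_lit 156) (nat_lit 228) (nat_lit 0) (XT.nd (nat_lit 78) (nat_lit 0) (nat_lit 0) (XT.lf (nat_lit 0) (nat_lit 3918565021) (nat_lit 76) (nat_lit 12785969471) (nat_lit 152) (nat_lit 4706341918) (nat_lit 12) (nat_lit 5)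 (nat_lit 13) (nat_lit 5) (nat_lit 14) (nat_lit 4) (nat_lit 290) (nat_lit 240) (nat_lit 190)) (XT.lf (nat_lit 0) (nat_lit 10568048821) (nat_lit 76) (nat_lit 9447433862) (nat_lit 152) (nat_lit 2251294477) (nat_lit 12) (nat_lit 5) (nat_lit 13) (nat_lit 5) (nat_lit 14) (nat_lit 4) (nat_lit 291) (nat_lit 240) (nat_lit 189))) (XT.nd (nat_lit 78) (nat_lit 152) (nat_lit 0) (XT.lf (nat_lit 0) (nat_lit 287224105) (nat_lit 152) (nat_lit 5666118433) (nat_lit 76) (nat_lit 17213394637) (nat_lit 11) (nat_lit 5) (nat_lit 13) (nat_lit 5) (nat_lit 12) (nat_lit 5) (nat_lit 292) (nat_lit 240) (nat_lit 188)) (XT.lf (nat_lit 0) (nat_lit 607266456) (nat_lit 152) (nat_lit 2251766921) (nat_lit 228) (nat_lit 21251789206) (nat_lit 9) (nat_lit 5) (nat_lit 11) (nat_lit 5) (nat_lit 12) (nat_lit 5) (nat_lit 293) (nat_lit 240) (nat_lit 187))))) (XT.nd (nat_lit 312) (nat_lit 76) (nat_lit 0) (XT.nd (nat_lit 156) (nat_lit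 76) (nat_lit 0) (XT.nd (nat_lit 78) (nat_lit 0) (nat_lit 0) (XT.lf (nat_lit 0) (nat_lit 5655425055) (nat_lit 228) (nat_lit 17777226220) (nat_lit 76) (nat_lit 1664731735) (nat_lit 9) (nat_lit 5) (nat_lit 12) (nat_lit 5) (nat_lit 10) (nat_lit 4) (nat_lit 294) (nat_lit 240) (nat_lit 186)) (XT.lf (nat_lit 0) (nat_lit 8602774548) (nat_lit 228) (nat_lit 11843255026) (nat_lit 76) (nat_lit 5686751972) (nat_lit 9) (nat_lit 5) (nat_lit 12) (nat_lit 5) (nat_lit 10) (nat_lit 4) (nat_lit 295) (nat_lit 240) (nat_lit 185))) (XT.nd (nat_lit 78) (nat_lit 76) (nat_lit 0) (XT.lf (nat_lit 0) (nat_lit 11672942962) (nat_lit 228) (nat_lit 5652357649) (nat_lit 76) (nat_lit 9895940633) (nat_lit 9) (nat_lit 5) (nat_lit 12) (nat_lit 5) (nat_lit 10) (nat_lit 4) (nat_lit 296) (nat_lit 240) (nat_lit 184)) (XT.lf (nat_lit 0) (nat_lit 836995216) (nat_lit 76) (nat_lit 14049312847) (nat_lit 152) (nat_lit 13478392219)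 (nat_lit 8) (nat_lit 5) (nat_lit 9) (nat_lit 5) (nat_lit 10) (nat_lit 4) (nat_lit 297) (nat_lit 240) (nat_lit 183)))) (XT.nd (nat_lit 156) (nat_lit 76) (nat_lit 0) (XT.nd (nat_lit 78) (nat_lit 0) (nat_lit 0) (XT.lf (nat_lit 0) (nat_lit 7809785306) (nat_lit 76) (nat_lit 10523433413) (nat_lit 152) (nat_lit 11228527562) (nat_lit 8) (nat_lit 5) (nat_lit 9) (nat_lit 5) (nat_lit 10) (nat_lit 4) (nat_lit 298) (nat_lit 240) (nat_lit 182)) (XT.lf (nat_lit 0) (nat_lit 15095722033) (nat_lit 76) (nat_lit 6834992768) (nat_lit 152) (nat_lit 8889072904) (nat_lit 8) (nat_lit 5) (nat_lit 9) (nat_lit 5) (nat_lit 10) (nat_lit 4) (nat_lit 299) (nat_lit 240) (nat_lit 181))) (XT.nd (nat_lit 78) (nat_lit 76) (nat_lit 0) (XT.lf (nat_lit 0) (nat_lit 22712152865) (nat_lit 76) (nat_lit 2975208912) (nat_lit 152) (nat_lit 6454458114) (nat_lit 8) (nat_lit 5) (nat_lit 9) (nat_lit 5) (nat_lit 10) (nat_lit 4) (nat_lit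 300) (nat_lit 240) (nat_lit 180)) (XT.nd (nat_lit 78) (nat_lit 76) (nat_lit 0) (XT.lf (nat_lit 0) (nat_lit 29628733367) (nat_lit 152) (nat_lit 2870407698) (nat_lit 0) (nat_lit 1031018004) (nat_lit 8) (nat_lit 5) (nat_lit 10) (nat_lit 4) (nat_lit 8) (nat_lit 4) (nat_lit 301) (nat_lit 240) (nat_lit 179)) (XT.lf (nat_lit 0) (nat_lit 4066739404) (nat_lit 76) (nat_lit 29793718837) (nat_lit 76) (nat_lit 1122840343) (nat_lit 7) (nat_lit 4) (nat_lit 8) (nat_lit 5) (nat_lit 8) (nat_lit 4) (nat_lit 302) (nat_lit 240) (nat_lit 178))))))) (XT.nd (nat_lit 624) (nat_lit 76) (nat_lit 0) (XT.nd (nat_lit 312) (nat_lit 76) (nat_lit 0) (XT.nd (nat_lit 156) (nat_lit 0) (nat_lit 0) (XT.nd (nat_lit 78) (nat_lit 0) (nat_lit 0) (XT.lf (nat_lit 0) (nat_lit 1767732190) (nat_lit 152) (nat_lit 25116706675) (nat_lit 76) (nat_lit 9621773466) (nat_lit 6) (nat_lit 5) (nat_lit 8) (nat_lit 5) (nat_lit 7) (nat_lit 4)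 (nat_lit 303) (nat_lit 240) (nat_lit 177)) (XT.lf (nat_lit 0) (nat_lit 4747089060) (nat_lit 152) (nat_lit 19075386207) (nat_lit 76) (nat_lit 14282817744) (nat_lit 6) (nat_lit 5) (nat_lit 8) (nat_lit 5) (nat_lit 7) (nat_lit 4) (nat_lit 304) (nat_lit 240) (nat_lit 176))) (XT.nd (nat_lit 78) (nat_lit 0) (nat_lit 0) (XT.lf (nat_lit 0) (nat_lit 7858261878) (nat_lit 152) (nat_lit 12760682994) (nat_lit 76) (nat_lit 19166279621) (nat_lit 6) (nat_lit 5) (nat_lit 8) (nat_lit 5) (nat_lit 7) (nat_lit 4) (nat_lit 305) (nat_lit 240) (nat_lit 175)) (XT.lf (nat_lit 0) (nat_lit 11108658197) (nat_lit 152) (nat_lit 6157562029) (nat_lit 76) (nat_lit 24283786387) (nat_lit 6) (nat_lit 5) (nat_lit 8) (nat_lit 5) (nat_lit 7) (nat_lit 4) (nat_lit 306) (nat_lit 240) (nat_lit 174)))) (XT.nd (nat_lit 156) (nat_lit 0) (nat_lit 0) (XT.nd (nat_lit 78) (nat_lit 0) (nat_lit 0) (XT.lf (nat_lit 0) (nat_lit 774486820)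 (nat_lit 76) (nat_lit 13743622145) (nat_lit 152) (nat_lit 28885127670) (nat_lit 5) (nat_lit 5) (nat_lit 6) (nat_lit 5) (nat_lit 7) (nat_lit 4) (nat_lit 307) (nat_lit 240) (nat_lit 173)) (XT.lf (nat_lit 0) (nat_lit 8241317804) (nat_lit 76) (nat_lit 9945779668) (nat_lit 152) (nat_lit 27157611267) (nat_lit 5) (nat_lit 5) (nat_lit 6) (nat_lit 5) (nat_lit 7) (nat_lit 4) (nat_lit 308) (nat_lit 240) (nat_lit 172))) (XT.nd (nat_lit 78) (nat_lit 0) (nat_lit 0) (XT.lf (nat_lit 0) (nat_lit 16057112284) (nat_lit 76) (nat_lit 5967931603) (nat_lit 152) (nat_lit 25358967364) (nat_lit 5) (nat_lit 5) (nat_lit 6) (nat_lit 5) (nat_lit 7) (nat_lit 4) (nat_lit 309) (nat_lit 240) (nat_lit 171)) (XT.lf (nat_lit 0) (nat_lit 24240479293) (nat_lit 76) (nat_lit 1800606885) (nat_lit 152) (nat_lit 23484913475) (nat_lit 5) (nat_lit 5) (nat_lit 6) (nat_lit 5) (nat_lit 7) (nat_lit 4) (nat_lit 310) (nat_lit 240) (nat_lit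 170))))) (XT.nd (nat_lit 312) (nat_lit 0) (nat_lit 0) (XT.nd (nat_lit 156) (nat_lit 76) (nat_lit 0) (XT.nd (nat_lit 78) (nat_lit 0) (nat_lit 0) (XT.lf (nat_lit 0) (nat_lit 30284850622) (nat_lit 152) (nat_lit 19004935153) (nat_lit 0) (nat_lit 2483984928) (nat_lit 5) (nat_lit 5) (nat_lit 7) (nat_lit 4) (nat_lit 5) (nat_lit 4) (nat_lit 311) (nat_lit 240) (nat_lit 169)) (XT.lf (nat_lit 0) (nat_lit 34757669778) (nat_lit 152) (nat_lit 12461417926) (nat_lit 0) (nat_lit 6914027117) (nat_lit 5) (nat_lit 5) (nat_lit 7) (nat_lit 4) (nat_lit 5) (nat_lit 4) (nat_lit 312) (nat_lit 240) (nat_lit 168))) (XT.nd (nat_lit 78) (nat_lit 76) (nat_lit 0) (XT.lf (nat_lit 0) (nat_lit 39442080695) (nat_lit 152) (nat_lit 5611276358) (nat_lit 0) (nat_lit 11557698065) (nat_lit 5) (nat_lit 5) (nat_lit 7) (nat_lit 4) (nat_lit 5) (nat_lit 4) (nat_lit 313) (nat_lit 240) (nat_lit 167)) (XT.lf (nat_lit 0) (nat_lit 1613439554)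 (nat_lit 76) (nat_lit 42760987491) (nat_lit 76) (nat_lit 14837804892) (nat_lit 4) (nat_lit 4) (nat_lit 5) (nat_lit 5) (nat_lit 5) (nat_lit 4) (nat_lit 314) (nat_lit 240) (nat_lit 166)))) (XT.nd (nat_lit 156) (nat_lit 0) (nat_lit 0) (XT.nd (nat_lit 78) (nat_lit 0) (nat_lit 0) (XT.lf (nat_lit 0) (nat_lit 9374944922) (nat_lit 76) (nat_lit 40262245836) (nat_lit 76) (nat_lit 12302110884) (nat_lit 4) (nat_lit 4) (nat_lit 5) (nat_lit 5) (nat_lit 5) (nat_lit 4) (nat_lit 315) (nat_lit 240) (nat_lit 165)) (XT.lf (nat_lit 0) (nat_lit 17506185383) (nat_lit 76) (nat_lit 37646212383) (nat_lit 76) (nat_lit 9650884714) (nat_lit 4) (nat_lit 4) (nat_lit 5) (nat_lit 5) (nat_lit 5) (nat_lit 4) (nat_lit 316) (nat_lit 240) (nat_lit 164))) (XT.nd (nat_lit 78) (nat_lit 0) (nat_lit 0) (XT.lf (nat_lit 0) (nat_lit 26026521033) (nat_lit 76) (nat_lit 34906658481) (nat_lit 76) (nat_lit 6877813939) (nat_lit 4) (nat_lit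 4) (nat_lit 5) (nat_lit 5) (nat_lit 5) (nat_lit 4) (nat_lit 317) (nat_lit 240) (nat_lit 163)) (XT.nd (nat_lit 78) (nat_lit 0) (nat_lit 0) (XT.lf (nat_lit 0) (nat_lit 34956238386) (nat_lit 76) (nat_lit 32037061383) (nat_lit 76) (nat_lit 3976296010) (nat_lit 4) (nat_lit 4) (nat_lit 5) (nat_lit 5) (nat_lit 5) (nat_lit 4) (nat_lit 318) (nat_lit 240) (nat_lit 162)) (XT.lf (nat_lit 0) (nat_lit 44316598673) (nat_lit 76) (nat_lit 29030588715) (nat_lit 76) (nat_lit 939422549) (nat_lit 4) (nat_lit 4) (nat_lit 5) (nat_lit 5) (nat_lit 5) (nat_lit 4) (nat_lit 319) (nat_lit 240) (nat_lit 161))))))))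
noncomputable def xc112 : XT := (XT.nd (nat_lit 1248) (nat_lit 76) (nat_lit 0) (XT.nd (nat_lit 624) (nat_lit 0) (nat_lit 0) (XT.nd (nat_lit 312) (nat_lit 76) (nat_lit 0) (XT.nd (nat_lit 156) (nat_lit 0) (nat_lit 0) (XT.nd (nat_lit 78) (nat_lit 0) (nat_lit 0) (XT.lf (nat_lit 0) (nat_lit 2168341915) (nat_lit 152) (nat_lit 23675018372) (nat_lit 76) (nat_lit 51924824630) (nat_lit 3) (nat_lit 5) (nat_lit 5) (nat_lit 5) (nat_lit 4) (nat_lit 4) (nat_lit 320) (nat_lit 240) (nat_lit 160)) (XT.lf (nat_lit 0) (nat_lit 5391389377) (nat_lit 152) (nat_lit 17095345491) (nat_lit 76) (nat_lit 58936777577) (nat_lit 3) (nat_lit 5) (nat_lit 5) (nat_lit 5) (nat_lit 4) (nat_lit 4) (nat_lit 321) (nat_lit 240) (nat_lit 159))) (XT.nd (nat_lit 78) (nat_lit 0) (nat_lit 0) (XT.lf (nat_lit 0) (nat_lit 8767461144) (nat_lit 152) (nat_lit 10200659715) (nat_lit 76) (nat_lit 66293908168) (nat_lit 3) (nat_lit 5) (nat_lit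 5) (nat_lit 5) (nat_lit 4) (nat_lit 4) (nat_lit 322) (nat_lit 240) (nat_lit 158)) (XT.lf (nat_lit 0) (nat_lit 12304595484) (nat_lit 152) (nat_lit 2974545125) (nat_lit 76) (nat_lit 74013733383) (nat_lit 3) (nat_lit 5) (nat_lit 5) (nat_lit 5) (nat_lit 4) (nat_lit 4) (nat_lit 323) (nat_lit 240) (nat_lit 157)))) (XT.nd (nat_lit 156) (nat_lit 0) (nat_lit 0) (XT.nd (nat_lit 78) (nat_lit 0) (nat_lit 0) (XT.lf (nat_lit 0) (nat_lit 4752306809) (nat_lit 76) (nat_lit 11333104163) (nat_lit 152) (nat_lit 77436523775) (nat_lit 2) (nat_lit 5) (nat_lit 3) (nat_lit 5) (nat_lit 4) (nat_lit 4) (nat_lit 324) (nat_lit 240) (nat_lit 156)) (XT.lf (nat_lit 0) (nat_lit 12956303335) (nat_lit 76) (nat_lit 7142123278) (nat_lit 152) (nat_lit 77861878018) (nat_lit 2) (nat_lit 5) (nat_lit 3) (nat_lit 5) (nat_lit 4) (nat_lit 4) (nat_lit 325) (nat_lit 240) (nat_lit 155))) (XT.nd (nat_lit 78) (nat_lit 0) (nat_lit 0)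 (XT.lf (nat_lit 0) (nat_lit 21558625881) (nat_lit 76) (nat_lit 2746594791) (nat_lit 152) (nat_lit 78315729346) (nat_lit 2) (nat_lit 5) (nat_lit 3) (nat_lit 5) (nat_lit 4) (nat_lit 4) (nat_lit 326) (nat_lit 240) (nat_lit 154)) (XT.lf (nat_lit 0) (nat_lit 28744910760) (nat_lit 152) (nat_lit 76964312950) (nat_lit 0) (nat_lit 1804288902) (nat_lit 2) (nat_lit 5) (nat_lit 4) (nat_lit 4) (nat_lit 2) (nat_lit 4) (nat_lit 327) (nat_lit 240) (nat_lit 153))))) (XT.nd (nat_lit 312) (nat_lit 0) (nat_lit 0) (XT.nd (nat_lit 156) (nat_lit 0) (nat_lit 0) (XT.nd (nat_lit 78) (nat_lit 0) (nat_lit 0) (XT.lf (nat_lit 0) (nat_lit 33445307233) (nat_lit 152) (nat_lit 72717450230) (nat_lit 0) (nat_lit 6486021925) (nat_lit 2) (nat_lit 5) (nat_lit 4) (nat_lit 4) (nat_lit 2) (nat_lit 4) (nat_lit 328) (nat_lit 240) (nat_lit 152)) (XT.lf (nat_lit 0) (nat_lit 38374719468) (nat_lit 152) (nat_lit 68268742357) (nat_lit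 0) (nat_lit 11397659448) (nat_lit 2) (nat_lit 5) (nat_lit 4) (nat_lit 4) (nat_lit 2) (nat_lit 4) (nat_lit 329) (nat_lit 240) (nat_lit 151))) (XT.nd (nat_lit 78) (nat_lit 0) (nat_lit 0) (XT.lf (nat_lit 0) (nat_lit 43544884163) (nat_lit 152) (nat_lit 63607597171) (nat_lit 0) (nat_lit 16550895844) (nat_lit 2) (nat_lit 5) (nat_lit 4) (nat_lit 4) (nat_lit 2) (nat_lit 4) (nat_lit 330) (nat_lit 240) (nat_lit 150)) (XT.lf (nat_lit 0) (nat_lit 48968111232) (nat_lit 152) (nat_lit 58722916706) (nat_lit 0) (nat_lit 21958000724) (nat_lit 2) (nat_lit 5) (nat_lit 4) (nat_lit 4) (nat_lit 2) (nat_lit 4) (nat_lit 331) (nat_lit 240) (nat_lit 149)))) (XT.nd (nat_lit 156) (nat_lit 0) (nat_lit 0) (XT.nd (nat_lit 78) (nat_lit 0) (nat_lit 0) (XT.lf (nat_lit 0) (nat_lit 54657313122) (nat_lit 152) (nat_lit 53603070771) (nat_lit 0) (nat_lit 27631848148) (nat_lit 2) (nat_lit 5) (nat_lit 4) (nat_lit 4) (nat_lit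 2) (nat_lit 4) (nat_lit 332) (nat_lit 240) (nat_lit 148)) (XT.lf (nat_lit 0) (nat_lit 60626035550) (nat_lit 152) (nat_lit 48235869256) (nat_lit 0) (nat_lit 33585947275) (nat_lit 2) (nat_lit 5) (nat_lit 4) (nat_lit 4) (nat_lit 2) (nat_lit 4) (nat_lit 333) (nat_lit 240) (nat_lit 147))) (XT.nd (nat_lit 78) (nat_lit 0) (nat_lit 0) (XT.lf (nat_lit 0) (nat_lit 66888489761) (nat_lit 152) (nat_lit 42608533110) (nat_lit 0) (nat_lit 39834474534) (nat_lit 2) (nat_lit 5) (nat_lit 4) (nat_lit 4) (nat_lit 2) (nat_lit 4) (nat_lit 334) (nat_lit 240) (nat_lit 146)) (XT.lf (nat_lit 0) (nat_lit 73459586361) (nat_lit 152) (nat_lit 36707663914) (nat_lit 0) (nat_lit 46392307368) (nat_lit 2) (nat_lit 5) (nat_lit 4) (nat_lit 4) (nat_lit 2) (nat_lit 4) (nat_lit 335) (nat_lit 240) (nat_lit 145)))))) (XT.nd (nat_lit 624) (nat_lit 0) (nat_lit 0) (XT.nd (nat_lit 312) (nat_lit 76) (nat_lit 0) (XT.nd (nat_lit 156)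 (nat_lit 0) (nat_lit 0) (XT.nd (nat_lit 78) (nat_lit 0) (nat_lit 0) (XT.lf (nat_lit 0) (nat_lit 80354970817) (nat_lit 152) (nat_lit 30519211979) (nat_lit 0) (nat_lit 53275059667) (nat_lit 2) (nat_lit 5) (nat_lit 4) (nat_lit 4) (nat_lit 2) (nat_lit 4) (nat_lit 336) (nat_lit 240) (nat_lit 144)) (XT.lf (nat_lit 0) (nat_lit 87591060711) (nat_lit 152) (nat_lit 24028442896) (nat_lit 0) (nat_lit 60499118936) (nat_lit 2) (nat_lit 5) (nat_lit 4) (nat_lit 4) (nat_lit 2) (nat_lit 4) (nat_lit 337) (nat_lit 240) (nat_lit 143))) (XT.nd (nat_lit 78) (nat_lit 0) (nat_lit 0) (XT.lf (nat_lit 0) (nat_lit 95185084829) (nat_lit 152) (nat_lit 17219902453) (nat_lit 0) (nat_lit 68081685315) (nat_lit 2) (nat_lit 5) (nat_lit 4) (nat_lit 4) (nat_lit 2) (nat_lit 4) (nat_lit 338) (nat_lit 240) (nat_lit 142)) (XT.lf (nat_lit 0) (nat_lit 103155124180) (nat_lit 152) (nat_lit 10077379839) (nat_lit 0) (nat_lit 76040812534)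 (nat_lit 2) (nat_lit 5) (nat_lit 4) (nat_lit 4) (nat_lit 2) (nat_lit 4) (nat_lit 339) (nat_lit 240) (nat_lit 141)))) (XT.nd (nat_lit 156) (nat_lit 0) (nat_lit 0) (XT.nd (nat_lit 78) (nat_lit 76) (nat_lit 0) (XT.lf (nat_lit 0) (nat_lit 111520155049) (nat_lit 152) (nat_lit 2583869047) (nat_lit 0) (nat_lit 84395450896) (nat_lit 2) (nat_lit 5) (nat_lit 4) (nat_lit 4) (nat_lit 2) (nat_lit 4) (nat_lit 340) (nat_lit 240) (nat_lit 140)) (XT.lf (nat_lit 0) (nat_lit 5453001722) (nat_lit 76) (nat_lit 114932229092) (nat_lit 76) (nat_lit 87797627314) (nat_lit 1) (nat_lit 4) (nat_lit 2) (nat_lit 5) (nat_lit 2) (nat_lit 4) (nat_lit 341) (nat_lit 240) (nat_lit 139))) (XT.nd (nat_lit 78) (nat_lit 0) (nat_lit 0) (XT.lf (nat_lit 0) (nat_lit 13975670745) (nat_lit 76) (nat_lit 115758374819) (nat_lit 76) (nat_lit 88614346731) (nat_lit 1) (nat_lit 4) (nat_lit 2) (nat_lit 5) (nat_lit 2) (nat_lit 4) (nat_lit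 342) (nat_lit 240) (nat_lit 138)) (XT.lf (nat_lit 0) (nat_lit 22918995709) (nat_lit 76) (nat_lit 116628187365) (nat_lit 76) (nat_lit 89475181839) (nat_lit 1) (nat_lit 4) (nat_lit 2) (nat_lit 5) (nat_lit 2) (nat_lit 4) (nat_lit 343) (nat_lit 240) (nat_lit 137))))) (XT.nd (nat_lit 312) (nat_lit 0) (nat_lit 0) (XT.nd (nat_lit 156) (nat_lit 0) (nat_lit 0) (XT.nd (nat_lit 78) (nat_lit 0) (nat_lit 0) (XT.lf (nat_lit 0) (nat_lit 32304270245) (nat_lit 76) (nat_lit 117543737711) (nat_lit 76) (nat_lit 90382182243) (nat_lit 1) (nat_lit 4) (nat_lit 2) (nat_lit 5) (nat_lit 2) (nat_lit 4) (nat_lit 344) (nat_lit 240) (nat_lit 136)) (XT.lf (nat_lit 0) (nat_lit 42153840246) (nat_lit 76) (nat_lit 118507205739) (nat_lit 76) (nat_lit 91337507470) (nat_lit 1) (nat_lit 4) (nat_lit 2) (nat_lit 5) (nat_lit 2) (nat_lit 4) (nat_lit 345) (nat_lit 240) (nat_lit 135))) (XT.nd (nat_lit 78) (nat_lit 0) (nat_lit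 0) (XT.lf (nat_lit 0) (nat_lit 52491157068) (nat_lit 76) (nat_lit 119520885421) (nat_lit 76) (nat_lit 92343432104) (nat_lit 1) (nat_lit 4) (nat_lit 2) (nat_lit 5) (nat_lit 2) (nat_lit 4) (nat_lit 346) (nat_lit 240) (nat_lit 134)) (XT.lf (nat_lit 0) (nat_lit 63340833370) (nat_lit 76) (nat_lit 120587190279) (nat_lit 76) (nat_lit 93402351202) (nat_lit 1) (nat_lit 4) (nat_lit 2) (nat_lit 5) (nat_lit 2) (nat_lit 4) (nat_lit 347) (nat_lit 240) (nat_lit 133)))) (XT.nd (nat_lit 156) (nat_lit 0) (nat_lit 0) (XT.nd (nat_lit 78) (nat_lit 0) (nat_lit 0) (XT.lf (nat_lit 0) (nat_lit 74728701715) (nat_lit 76) (nat_lit 121708659135) (nat_lit 76) (nat_lit 94516786000) (nat_lit 1) (nat_lit 4) (nat_lit 2) (nat_lit 5) (nat_lit 2) (nat_lit 4) (nat_lit 348) (nat_lit 240) (nat_lit 132)) (XT.lf (nat_lit 0) (nat_lit 86681876076) (nat_lit 76) (nat_lit 122887962154) (nat_lit 76) (nat_lit 95689389916) (nat_lit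 1) (nat_lit 4) (nat_lit 2) (nat_lit 5) (nat_lit 2) (nat_lit 4) (nat_lit 349) (nat_lit 240) (nat_lit 131))) (XT.nd (nat_lit 78) (nat_lit 0) (nat_lit 0) (XT.lf (nat_lit 0) (nat_lit 99228816390) (nat_lit 76) (nat_lit 124127907198) (nat_lit 76) (nat_lit 96922954862) (nat_lit 1) (nat_lit 4) (nat_lit 2) (nat_lit 5) (nat_lit 2) (nat_lit 4) (nat_lit 350) (nat_lit 240) (nat_lit 130)) (XT.nd (nat_lit 78) (nat_lit 0) (nat_lit 0) (XT.lf (nat_lit 0) (nat_lit 112399396326) (nat_lit 76) (nat_lit 125431446518) (nat_lit 76) (nat_lit 98220417899) (nat_lit 1) (nat_lit 4) (nat_lit 2) (nat_lit 5) (nat_lit 2) (nat_lit 4) (nat_lit 351) (nat_lit 240) (nat_lit 129)) (XT.lf (nat_lit 0) (nat_lit 126224974408) (nat_lit 76) (nat_lit 126801683780) (nat_lit 76) (nat_lit 99584868224) (nat_lit 1) (nat_lit 4) (nat_lit 2) (nat_lit 5) (nat_lit 2) (nat_lit 4) (nat_lit 352) (nat_lit 240) (nat_lit 128))))))))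
noncomputable def xc113 : XT := (XT.nd (nat_lit 29562) (nat_lit 0) (nat_lit 2888) (XT.nd (nat_lit 28860) (nat_lit 0) (nat_lit 6764) (XT.nd (nat_lit 312) (nat_lit 0) (nat_lit 0) (XT.nd (nat_lit 156) (nat_lit 0) (nat_lit 0) (XT.nd (nat_lit 78) (nat_lit 0) (nat_lit 0) (XT.lf (nat_lit 0) (nat_lit 140738468678) (nat_lit 76) (nat_lit 128241881452) (nat_lit 76) (nat_lit 101019554529) (nat_lit 1) (nat_lit 4) (nat_lit 2) (nat_lit 5) (nat_lit 2) (nat_lit 4) (nat_lit 353) (nat_lit 240) (nat_lit 127)) (XT.lf (nat_lit 0) (nat_lit 155974435074) (nat_lit 76) (nat_lit 129755468578) (nat_lit 76) (nat_lit 102527892732) (nat_lit 1) (nat_lit 4) (nat_lit 2) (nat_lit 5) (nat_lit 2) (nat_lit 4) (nat_lit 354) (nat_lit 240) (nat_lit 126))) (XT.nd (nat_lit 78) (nat_lit 0) (nat_lit 0) (XT.lf (nat_lit 0) (nat_lit 171969149709) (nat_lit 76) (nat_lit 131346048935) (nat_lit 76) (nat_lit 104113474116) (nat_lit 1)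 (nat_lit 4) (nat_lit 2) (nat_lit 5) (nat_lit 2) (nat_lit 4) (nat_lit 355) (nat_lit 240) (nat_lit 125)) (XT.lf (nat_lit 0) (nat_lit 188760695235) (nat_lit 76) (nat_lit 133017409621) (nat_lit 76) (nat_lit 105780073874) (nat_lit 1) (nat_lit 4) (nat_lit 2) (nat_lit 5) (nat_lit 2) (nat_lit 4) (nat_lit 356) (nat_lit 240) (nat_lit 124)))) (XT.nd (nat_lit 156) (nat_lit 0) (nat_lit 0) (XT.nd (nat_lit 78) (nat_lit 0) (nat_lit 0) (XT.lf (nat_lit 0) (nat_lit 206389051522) (nat_lit 76) (nat_lit 134773530064) (nat_lit 76) (nat_lit 107531660102) (nat_lit 1) (nat_lit 4) (nat_lit 2) (nat_lit 5) (nat_lit 2) (nat_lit 4) (nat_lit 357) (nat_lit 240) (nat_lit 123)) (XT.lf (nat_lit 0) (nat_lit 224896190848) (nat_lit 76) (nat_lit 136618591505) (nat_lit 76) (nat_lit 109372403241) (nat_lit 1) (nat_lit 4) (nat_lit 2) (nat_lit 5) (nat_lit 2) (nat_lit 4) (nat_lit 358) (nat_lit 240) (nat_lit 122))) (XT.nd (nat_lit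 28314) (nat_lit 0) (nat_lit 7752) (XT.lf (nat_lit 0) (nat_lit 244326177830) (nat_lit 76) (nat_lit 138556986947) (nat_lit 76) (nat_lit 111306686015) (nat_lit 1) (nat_lit 4) (nat_lit 2) (nat_lit 5) (nat_lit 2) (nat_lit 4) (nat_lit 359) (nat_lit 240) (nat_lit 121)) (XT.lf (nat_lit 0) (nat_lit 1310311393) (nat_lit 0) (nat_lit 1310311393) (nat_lit 76) (nat_lit 606070670) (nat_lit 103) (nat_lit 5) (nat_lit 103) (nat_lit 3) (nat_lit 104) (nat_lit 0) (nat_lit 241) (nat_lit 241) (nat_lit 238))))) (XT.nd (nat_lit 312) (nat_lit 532) (nat_lit 0) (XT.nd (nat_lit 156) (nat_lit 228) (nat_lit 0) (XT.nd (nat_lit 78) (nat_lit 0) (nat_lit 0) (XT.lf (nat_lit 0) (nat_lit 1273495724) (nat_lit 228) (nat_lit 1106827948) (nat_lit 228) (nat_lit 4090004858) (nat_lit 100) (nat_lit 3) (nat_lit 103) (nat_lit 3) (nat_lit 103) (nat_lit 5) (nat_lit 242) (nat_lit 241) (nat_lit 237)) (XT.lf (nat_lit 76) (nat_lit 1706238587)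 (nat_lit 0) (nat_lit 2004573221) (nat_lit 228) (nat_lit 2784284946) (nat_lit 101) (nat_lit 5) (nat_lit 100) (nat_lit 3) (nat_lit 103) (nat_lit 5) (nat_lit 243) (nat_lit 241) (nat_lit 236))) (XT.nd (nat_lit 78) (nat_lit 228) (nat_lit 0) (XT.lf (nat_lit 76) (nat_lit 4615832758) (nat_lit 0) (nat_lit 1520658540) (nat_lit 228) (nat_lit 392601250) (nat_lit 101) (nat_lit 5) (nat_lit 100) (nat_lit 3) (nat_lit 103) (nat_lit 5) (nat_lit 244) (nat_lit 241) (nat_lit 235)) (XT.lf (nat_lit 76) (nat_lit 1020992331) (nat_lit 0) (nat_lit 897218669) (nat_lit 304) (nat_lit 4652747340) (nat_lit 98) (nat_lit 5) (nat_lit 97) (nat_lit 5) (nat_lit 101) (nat_lit 5) (nat_lit 245) (nat_lit 241) (nat_lit 234)))) (XT.nd (nat_lit 156) (nat_lit 380) (nat_lit 0) (XT.nd (nat_lit 78) (nat_lit 152) (nat_lit 0) (XT.lf (nat_lit 76) (nat_lit 4078372795) (nat_lit 0) (nat_lit 142483678) (nat_lit 304) (nat_lit 2400399930)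 (nat_lit 98) (nat_lit 5) (nat_lit 97) (nat_lit 5) (nat_lit 101) (nat_lit 5) (nat_lit 246) (nat_lit 241) (nat_lit 233)) (XT.lf (nat_lit 0) (nat_lit 533318741) (nat_lit 228) (nat_lit 5988663193) (nat_lit 304) (nat_lit 159001112) (nat_lit 95) (nat_lit 5) (nat_lit 98) (nat_lit 5) (nat_lit 99) (nat_lit 5) (nat_lit 247) (nat_lit 241) (nat_lit 232))) (XT.nd (nat_lit 78) (nat_lit 304) (nat_lit 0) (XT.lf (nat_lit 0) (nat_lit 2037162623) (nat_lit 304) (nat_lit 3019349584) (nat_lit 76) (nat_lit 1690804698) (nat_lit 94) (nat_lit 5) (nat_lit 98) (nat_lit 5) (nat_lit 95) (nat_lit 5) (nat_lit 248) (nat_lit 241) (nat_lit 231)) (XT.nd (nat_lit 78) (nat_lit 0) (nat_lit 0) (XT.lf (nat_lit 0) (nat_lit 180830945) (nat_lit 304) (nat_lit 4032949972) (nat_lit 380) (nat_lit 2610190581) (nat_lit 90) (nat_lit 5) (nat_lit 94) (nat_lit 5) (nat_lit 95) (nat_lit 5) (nat_lit 249) (nat_lit 241) (nat_lit 230)) (XT.lf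 (nat_lit 0) (nat_lit 3559529445) (nat_lit 304) (nat_lit 2868693451) (nat_lit 380) (nat_lit 480675678) (nat_lit 90) (nat_lit 5) (nat_lit 94) (nat_lit 5) (nat_lit 95) (nat_lit 5) (nat_lit 250) (nat_lit 241) (nat_lit 229))))))) (XT.nd (nat_lit 624) (nat_lit 1672) (nat_lit 0) (XT.nd (nat_lit 312) (nat_lit 1216) (nat_lit 0) (XT.nd (nat_lit 156) (nat_lit 532) (nat_lit 0) (XT.nd (nat_lit 78) (nat_lit 380) (nat_lit 0) (XT.lf (nat_lit 0) (nat_lit 1580081910) (nat_lit 380) (nat_lit 5263389) (nat_lit 76) (nat_lit 5418115742) (nat_lit 89) (nat_lit 5) (nat_lit 94) (nat_lit 5) (nat_lit 90) (nat_lit 5) (nat_lit 251) (nat_lit 241) (nat_lit 228)) (XT.lf (nat_lit 0) (nat_lit 3528286462) (nat_lit 380) (nat_lit 141140626) (nat_lit 456) (nat_lit 3436613660) (nat_lit 84) (nat_lit 5) (nat_lit 89) (nat_lit 5) (nat_lit 90) (nat_lit 5) (nat_lit 252) (nat_lit 241) (nat_lit 227))) (XT.nd (nat_lit 78) (nat_lit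 532) (nat_lit 0) (XT.lf (nat_lit 0) (nat_lit 5775980070) (nat_lit 456) (nat_lit 84622877) (nat_lit 76) (nat_lit 1358241171) (nat_lit 84) (nat_lit 5) (nat_lit 90) (nat_lit 5) (nat_lit 85) (nat_lit 5) (nat_lit 253) (nat_lit 241) (nat_lit 226)) (XT.lf (nat_lit 0) (nat_lit 583415812) (nat_lit 532) (nat_lit 3737070306) (nat_lit 76) (nat_lit 3019274095) (nat_lit 77) (nat_lit 5) (nat_lit 84) (nat_lit 5) (nat_lit 78) (nat_lit 5) (nat_lit 254) (nat_lit 241) (nat_lit 225)))) (XT.nd (nat_lit 156) (nat_lit 684) (nat_lit 0) (XT.nd (nat_lit 78) (nat_lit 532) (nat_lit 0) (XT.lf (nat_lit 0) (nat_lit 2561701337) (nat_lit 532) (nat_lit 99587447) (nat_lit 76) (nat_lit 4809923660) (nat_lit 77) (nat_lit 5) (nat_lit 84) (nat_lit 5) (nat_lit 78) (nat_lit 5) (nat_lit 255) (nat_lit 241) (nat_lit 224)) (XT.lf (nat_lit 0) (nat_lit 3757591929) (nat_lit 532) (nat_lit 842570741) (nat_lit 608) (nat_lit 3011613517)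 (nat_lit 70) (nat_lit 5) (nat_lit 77) (nat_lit 5) (nat_lit 78) (nat_lit 5) (nat_lit 256) (nat_lit 241) (nat_lit 223))) (XT.nd (nat_lit 78) (nat_lit 684) (nat_lit 0) (XT.lf (nat_lit 0) (nat_lit 6665090042) (nat_lit 608) (nat_lit 51474823) (nat_lit 76) (nat_lit 1047149413) (nat_lit 70) (nat_lit 5) (nat_lit 78) (nat_lit 5) (nat_lit 71) (nat_lit 5) (nat_lit 257) (nat_lit 241) (nat_lit 222)) (XT.lf (nat_lit 0) (nat_lit 866604950) (nat_lit 684) (nat_lit 3966223526) (nat_lit 76) (nat_lit 3090944584) (nat_lit 61) (nat_lit 5) (nat_lit 70) (nat_lit 5) (nat_lit 62) (nat_lit 5) (nat_lit 258) (nat_lit 241) (nat_lit 221))))) (XT.nd (nat_lit 312) (nat_lit 608) (nat_lit 0) (XT.nd (nat_lit 156) (nat_lit 380) (nat_lit 0) (XT.nd (nat_lit 78) (nat_lit 684) (nat_lit 0) (XT.lf (nat_lit 0) (nat_lit 2805766690) (nat_lit 684) (nat_lit 25555616) (nat_lit 76) (nat_lit 5264477607) (nat_lit 61) (nat_lit 5) (nat_lit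 70) (nat_lit 5) (nat_lit 62) (nat_lit 5) (nat_lit 259) (nat_lit 241) (nat_lit 220)) (XT.lf (nat_lit 0) (nat_lit 4164923443) (nat_lit 684) (nat_lit 657899706) (nat_lit 760) (nat_lit 3455029791) (nat_lit 52) (nat_lit 5) (nat_lit 61) (nat_lit 5) (nat_lit 62) (nat_lit 5) (nat_lit 260) (nat_lit 241) (nat_lit 219))) (XT.nd (nat_lit 78) (nat_lit 380) (nat_lit 0) (XT.lf (nat_lit 0) (nat_lit 6885241065) (nat_lit 760) (nat_lit 12313635) (nat_lit 76) (nat_lit 1574677690) (nat_lit 52) (nat_lit 5) (nat_lit 62) (nat_lit 5) (nat_lit 53) (nat_lit 5) (nat_lit 261) (nat_lit 241) (nat_lit 218)) (XT.lf (nat_lit 0) (nat_lit 363222313) (nat_lit 380) (nat_lit 4340835064) (nat_lit 76) (nat_lit 3972350670) (nat_lit 47) (nat_lit 5) (nat_lit 52) (nat_lit 5) (nat_lit 48) (nat_lit 5) (nat_lit 262) (nat_lit 241) (nat_lit 217)))) (XT.nd (nat_lit 156) (nat_lit 304) (nat_lit 0) (XT.nd (nat_lit 78) (nat_lit 304) (nat_lit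 0) (XT.lf (nat_lit 0) (nat_lit 2281244523) (nat_lit 380) (nat_lit 96939314) (nat_lit 76) (nat_lit 6515514316) (nat_lit 47) (nat_lit 5) (nat_lit 52) (nat_lit 5) (nat_lit 48) (nat_lit 5) (nat_lit 263) (nat_lit 241) (nat_lit 216)) (XT.lf (nat_lit 0) (nat_lit 4293351129) (nat_lit 380) (nat_lit 4701296598) (nat_lit 76) (nat_lit 127665435) (nat_lit 43) (nat_lit 5) (nat_lit 48) (nat_lit 5) (nat_lit 44) (nat_lit 5) (nat_lit 264) (nat_lit 241) (nat_lit 215))) (XT.nd (nat_lit 78) (nat_lit 304) (nat_lit 0) (XT.lf (nat_lit 0) (nat_lit 6375978149) (nat_lit 380) (nat_lit 313142391) (nat_lit 76) (nat_lit 2675094588) (nat_lit 43) (nat_lit 5) (nat_lit 48) (nat_lit 5) (nat_lit 44) (nat_lit 5) (nat_lit 265) (nat_lit 241) (nat_lit 214)) (XT.nd (nat_lit 78) (nat_lit 76) (nat_lit 0) (XT.lf (nat_lit 0) (nat_lit 4357616394) (nat_lit 228) (nat_lit 4205783147) (nat_lit 304) (nat_lit 1055114703) (nat_lit 40)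 (nat_lit 5) (nat_lit 43) (nat_lit 5) (nat_lit 44) (nat_lit 5) (nat_lit 266) (nat_lit 241) (nat_lit 213)) (XT.lf (nat_lit 0) (nat_lit 882143369) (nat_lit 304) (nat_lit 705336396) (nat_lit 76) (nat_lit 8300657979) (nat_lit 39) (nat_lit 5) (nat_lit 43) (nat_lit 5) (nat_lit 40) (nat_lit 5) (nat_lit 267) (nat_lit 241) (nat_lit 212))))))))
noncomputable def xc114 : XT := (XT.nd (nat_lit 1326) (nat_lit 608) (nat_lit 0) (XT.nd (nat_lit 624) (nat_lit 760) (nat_lit 0) (XT.nd (nat_lit 312) (nat_lit 456) (nat_lit 0) (XT.nd (nat_lit 156) (nat_lit 228) (nat_lit 0) (XT.nd (nat_lit 78) (nat_lit 0) (nat_lit 0) (XT.lf (nat_lit 0) (nat_lit 2900885851) (nat_lit 380) (nat_lit 6071274866) (nat_lit 76) (nat_lit 1197502400) (nat_lit 35) (nat_lit 5) (nat_lit 40) (nat_lit 5) (nat_lit 36) (nat_lit 5) (nat_lit 268) (nat_lit 241) (nat_lit 211)) (XT.lf (nat_lit 0) (nat_lit 4996911485) (nat_lit 380) (nat_lit 1399956250)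 (nat_lit 76) (nat_lit 4069855495) (nat_lit 35) (nat_lit 5) (nat_lit 40) (nat_lit 5) (nat_lit 36) (nat_lit 5) (nat_lit 269) (nat_lit 241) (nat_lit 210))) (XT.nd (nat_lit 78) (nat_lit 0) (nat_lit 0) (XT.lf (nat_lit 0) (nat_lit 3546185042) (nat_lit 228) (nat_lit 3648043751) (nat_lit 304) (nat_lit 3584845675) (nat_lit 32) (nat_lit 5) (nat_lit 35) (nat_lit 5) (nat_lit 36) (nat_lit 5) (nat_lit 270) (nat_lit 241) (nat_lit 209)) (XT.lf (nat_lit 0) (nat_lit 8717158612) (nat_lit 228) (nat_lit 750780667) (nat_lit 304) (nat_lit 1641027758) (nat_lit 32) (nat_lit 5) (nat_lit 35) (nat_lit 5) (nat_lit 36) (nat_lit 5) (nat_lit 271) (nat_lit 241) (nat_lit 208)))) (XT.nd (nat_lit 156) (nat_lit 152) (nat_lit 0) (XT.nd (nat_lit 78) (nat_lit 0) (nat_lit 0) (XT.lf (nat_lit 0) (nat_lit 410126639) (nat_lit 304) (nat_lit 8790487628) (nat_lit 76) (nat_lit 2253507230) (nat_lit 28) (nat_lit 5) (nat_lit 32) (nat_lit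 5) (nat_lit 29) (nat_lit 5) (nat_lit 272) (nat_lit 241) (nat_lit 207)) (XT.lf (nat_lit 0) (nat_lit 2507932617) (nat_lit 304) (nat_lit 3870816945) (nat_lit 76) (nat_lit 5436692930) (nat_lit 28) (nat_lit 5) (nat_lit 32) (nat_lit 5) (nat_lit 29) (nat_lit 5) (nat_lit 273) (nat_lit 241) (nat_lit 206))) (XT.nd (nat_lit 78) (nat_lit 0) (nat_lit 0) (XT.lf (nat_lit 0) (nat_lit 1267479739) (nat_lit 152) (nat_lit 3411285495) (nat_lit 228) (nat_lit 7517863272) (nat_lit 26) (nat_lit 5) (nat_lit 28) (nat_lit 5) (nat_lit 29) (nat_lit 5) (nat_lit 274) (nat_lit 241) (nat_lit 205)) (XT.lf (nat_lit 0) (nat_lit 6730248044) (nat_lit 152) (nat_lit 243209281) (nat_lit 228) (nat_lit 5622846589) (nat_lit 26) (nat_lit 5) (nat_lit 28) (nat_lit 5) (nat_lit 29) (nat_lit 5) (nat_lit 275) (nat_lit 241) (nat_lit 204))))) (XT.nd (nat_lit 312) (nat_lit 304) (nat_lit 0) (XT.nd (nat_lit 156) (nat_lit 228) (nat_lit 0)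 (XT.nd (nat_lit 78) (nat_lit 228) (nat_lit 0) (XT.lf (nat_lit 0) (nat_lit 9382931683) (nat_lit 228) (nat_lit 663925851) (nat_lit 76) (nat_lit 2969289828) (nat_lit 26) (nat_lit 5) (nat_lit 29) (nat_lit 5) (nat_lit 27) (nat_lit 5) (nat_lit 276) (nat_lit 241) (nat_lit 203)) (XT.lf (nat_lit 0) (nat_lit 4887930772) (nat_lit 228) (nat_lit 7059449525) (nat_lit 304) (nat_lit 1508055425) (nat_lit 23) (nat_lit 5) (nat_lit 26) (nat_lit 5) (nat_lit 27) (nat_lit 5) (nat_lit 277) (nat_lit 241) (nat_lit 202))) (XT.nd (nat_lit 78) (nat_lit 152) (nat_lit 0) (XT.lf (nat_lit 0) (nat_lit 666159116) (nat_lit 304) (nat_lit 3250662790) (nat_lit 76) (nat_lit 10001165726) (nat_lit 22) (nat_lit 5) (nat_lit 26) (nat_lit 5) (nat_lit 23) (nat_lit 5) (nat_lit 278) (nat_lit 241) (nat_lit 201)) (XT.lf (nat_lit 0) (nat_lit 2321124330) (nat_lit 152) (nat_lit 570204635) (nat_lit 228) (nat_lit 11511609365) (nat_lit 20)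 (nat_lit 5) (nat_lit 22) (nat_lit 5) (nat_lit 23) (nat_lit 5) (nat_lit 279) (nat_lit 241) (nat_lit 200)))) (XT.nd (nat_lit 156) (nat_lit 304) (nat_lit 0) (XT.nd (nat_lit 78) (nat_lit 0) (nat_lit 0) (XT.lf (nat_lit 0) (nat_lit 5287220815) (nat_lit 228) (nat_lit 6733365242) (nat_lit 76) (nat_lit 2888723578) (nat_lit 20) (nat_lit 5) (nat_lit 23) (nat_lit 5) (nat_lit 21) (nat_lit 5) (nat_lit 280) (nat_lit 241) (nat_lit 199)) (XT.lf (nat_lit 0) (nat_lit 7771825723) (nat_lit 228) (nat_lit 1185389439) (nat_lit 76) (nat_lit 6485477704) (nat_lit 20) (nat_lit 5) (nat_lit 23) (nat_lit 5) (nat_lit 21) (nat_lit 5) (nat_lit 281) (nat_lit 241) (nat_lit 198))) (XT.nd (nat_lit 78) (nat_lit 152) (nat_lit 0) (XT.lf (nat_lit 0) (nat_lit 4735800561) (nat_lit 152) (nat_lit 5680295480) (nat_lit 228) (nat_lit 5585010110) (nat_lit 18) (nat_lit 5) (nat_lit 20) (nat_lit 5) (nat_lit 21) (nat_lit 5) (nat_lit 282)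 (nat_lit 241) (nat_lit 197)) (XT.nd (nat_lit 78) (nat_lit 152) (nat_lit 0) (XT.lf (nat_lit 0) (nat_lit 10939343671) (nat_lit 152) (nat_lit 2235784391) (nat_lit 228) (nat_lit 3413310963) (nat_lit 18) (nat_lit 5) (nat_lit 20) (nat_lit 5) (nat_lit 21) (nat_lit 5) (nat_lit 283) (nat_lit 241) (nat_lit 196)) (XT.lf (nat_lit 0) (nat_lit 178169791) (nat_lit 152) (nat_lit 15882286461) (nat_lit 228) (nat_lit 1145385382) (nat_lit 16) (nat_lit 5) (nat_lit 18) (nat_lit 5) (nat_lit 19) (nat_lit 4) (nat_lit 284) (nat_lit 241) (nat_lit 195))))))) (XT.nd (nat_lit 624) (nat_lit 304) (nat_lit 0) (XT.nd (nat_lit 312) (nat_lit 76) (nat_lit 0) (XT.nd (nat_lit 156) (nat_lit 152) (nat_lit 0) (XT.nd (nat_lit 78) (nat_lit 0) (nat_lit 0) (XT.lf (nat_lit 0) (nat_lit 1294471562) (nat_lit 228) (nat_lit 11468246904) (nat_lit 76) (nat_lit 5085635577) (nat_lit 15) (nat_lit 5) (nat_lit 18) (nat_lit 5) (nat_lit 16)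 (nat_lit 5) (nat_lit 285) (nat_lit 241) (nat_lit 194)) (XT.lf (nat_lit 0) (nat_lit 3783735600) (nat_lit 228) (nat_lit 5701361882) (nat_lit 76) (nat_lit 9038764354) (nat_lit 15) (nat_lit 5) (nat_lit 18) (nat_lit 5) (nat_lit 16) (nat_lit 5) (nat_lit 286) (nat_lit 241) (nat_lit 193))) (XT.nd (nat_lit 78) (nat_lit 0) (nat_lit 0) (XT.lf (nat_lit 0) (nat_lit 314667917) (nat_lit 152) (nat_lit 6055237965) (nat_lit 228) (nat_lit 12864715969) (nat_lit 13) (nat_lit 5) (nat_lit 15) (nat_lit 5) (nat_lit 16) (nat_lit 5) (nat_lit 287) (nat_lit 241) (nat_lit 192)) (XT.lf (nat_lit 0) (nat_lit 6780961495) (nat_lit 152) (nat_lit 2369298034) (nat_lit 228) (nat_lit 10827510867) (nat_lit 13) (nat_lit 5) (nat_lit 15) (nat_lit 5) (nat_lit 16) (nat_lit 5) (nat_lit 288) (nat_lit 241) (nat_lit 191)))) (XT.nd (nat_lit 156) (nat_lit 76) (nat_lit 0) (XT.nd (nat_lit 78) (nat_lit 0) (nat_lit 0) (XT.lf (nat_lit 0)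 (nat_lit 12062643103) (nat_lit 228) (nat_lit 7258456853) (nat_lit 76) (nat_lit 1437415584) (nat_lit 13) (nat_lit 5) (nat_lit 16) (nat_lit 5) (nat_lit 14) (nat_lit 4) (nat_lit 289) (nat_lit 241) (nat_lit 190)) (XT.lf (nat_lit 0) (nat_lit 15130513838) (nat_lit 228) (nat_lit 1107281842) (nat_lit 76) (nat_lit 5340094372) (nat_lit 13) (nat_lit 5) (nat_lit 16) (nat_lit 5) (nat_lit 14) (nat_lit 4) (nat_lit 290) (nat_lit 241) (nat_lit 189))) (XT.nd (nat_lit 78) (nat_lit 0) (nat_lit 0) (XT.lf (nat_lit 0) (nat_lit 5483871298) (nat_lit 76) (nat_lit 12925932106) (nat_lit 152) (nat_lit 4025610055) (nat_lit 12) (nat_lit 5) (nat_lit 13) (nat_lit 5) (nat_lit 14) (nat_lit 4) (nat_lit 291) (nat_lit 241) (nat_lit 188)) (XT.lf (nat_lit 0) (nat_lit 12400620811) (nat_lit 76) (nat_lit 9444247614) (nat_lit 152) (nat_lit 1491431621) (nat_lit 12) (nat_lit 5) (nat_lit 13) (nat_lit 5) (nat_lit 14) (nat_lit 4)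 (nat_lit 292) (nat_lit 241) (nat_lit 187))))) (XT.nd (nat_lit 312) (nat_lit 76) (nat_lit 0) (XT.nd (nat_lit 156) (nat_lit 0) (nat_lit 0) (XT.nd (nat_lit 78) (nat_lit 152) (nat_lit 0) (XT.lf (nat_lit 0) (nat_lit 1105875262) (nat_lit 152) (nat_lit 4678601039) (nat_lit 76) (nat_lit 18498219615) (nat_lit 11) (nat_lit 5) (nat_lit 13) (nat_lit 5) (nat_lit 12) (nat_lit 5) (nat_lit 293) (nat_lit 241) (nat_lit 186)) (XT.lf (nat_lit 0) (nat_lit 1887955945) (nat_lit 152) (nat_lit 1899540627) (nat_lit 228) (nat_lit 21487530973) (nat_lit 9) (nat_lit 5) (nat_lit 11) (nat_lit 5) (nat_lit 12) (nat_lit 5) (nat_lit 294) (nat_lit 241) (nat_lit 185))) (XT.nd (nat_lit 78) (nat_lit 0) (nat_lit 0) (XT.lf (nat_lit 0) (nat_lit 6693214008) (nat_lit 228) (nat_lit 17442844413) (nat_lit 76) (nat_lit 2176480388) (nat_lit 9) (nat_lit 5) (nat_lit 12) (nat_lit 5) (nat_lit 10) (nat_lit 4) (nat_lit 295) (nat_lit 241)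 (nat_lit 184)) (XT.lf (nat_lit 0) (nat_lit 9751977751) (nat_lit 228) (nat_lit 11270424331) (nat_lit 76) (nat_lit 6379196300) (nat_lit 9) (nat_lit 5) (nat_lit 12) (nat_lit 5) (nat_lit 10) (nat_lit 4) (nat_lit 296) (nat_lit 241) (nat_lit 183)))) (XT.nd (nat_lit 156) (nat_lit 0) (nat_lit 0) (XT.nd (nat_lit 78) (nat_lit 76) (nat_lit 0) (XT.lf (nat_lit 0) (nat_lit 12941413421) (nat_lit 228) (nat_lit 4825457963) (nat_lit 76) (nat_lit 10779410740) (nat_lit 9) (nat_lit 5) (nat_lit 12) (nat_lit 5) (nat_lit 10) (nat_lit 4) (nat_lit 297) (nat_lit 241) (nat_lit 182)) (XT.lf (nat_lit 0) (nat_lit 1970467100) (nat_lit 76) (nat_lit 14329412323) (nat_lit 152) (nat_lit 13447897821) (nat_lit 8) (nat_lit 5) (nat_lit 9) (nat_lit 5) (nat_lit 10) (nat_lit 4) (nat_lit 298) (nat_lit 241) (nat_lit 181))) (XT.nd (nat_lit 78) (nat_lit 0) (nat_lit 0) (XT.lf (nat_lit 0) (nat_lit 9239914689) (nat_lit 76) (nat_lit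 10647351592) (nat_lit 152) (nat_lit 11119083456) (nat_lit 8) (nat_lit 5) (nat_lit 9) (nat_lit 5) (nat_lit 10) (nat_lit 4) (nat_lit 299) (nat_lit 241) (nat_lit 180)) (XT.nd (nat_lit 78) (nat_lit 0) (nat_lit 0) (XT.lf (nat_lit 0) (nat_lit 16840641580) (nat_lit 76) (nat_lit 6793643843) (nat_lit 152) (nat_lit 8694602278) (nat_lit 8) (nat_lit 5) (nat_lit 9) (nat_lit 5) (nat_lit 10) (nat_lit 4) (nat_lit 300) (nat_lit 241) (nat_lit 179)) (XT.lf (nat_lit 0) (nat_lit 24790744742) (nat_lit 76) (nat_lit 2759113583) (nat_lit 152) (nat_lit 6168681714) (nat_lit 8) (nat_lit 5) (nat_lit 9) (nat_lit 5) (nat_lit 10) (nat_lit 4) (nat_lit 301) (nat_lit 241) (nat_lit 178))))))))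
noncomputable def xc115 : XT := (XT.nd (nat_lit 1326) (nat_lit 152) (nat_lit 0) (XT.nd (nat_lit 624) (nat_lit 76) (nat_lit 0) (XT.nd (nat_lit 312) (nat_lit 76) (nat_lit 0) (XT.nd (nat_lit 156) (nat_lit 76) (nat_lit 0) (XT.nd (nat_lit 78) (nat_lit 76) (nat_lit 0) (XT.lf (nat_lit 0) (nat_lit 31666193731) (nat_lit 152) (nat_lit 2092348407) (nat_lit 0) (nat_lit 1418929010) (nat_lit 8) (nat_lit 5) (nat_lit 10) (nat_lit 4) (nat_lit 8) (nat_lit 4) (nat_lit 302) (nat_lit 241) (nat_lit 177)) (XT.lf (nat_lit 0) (nat_lit 5176791861) (nat_lit 76) (nat_lit 30920392038) (nat_lit 76) (nat_lit 606766201) (nat_lit 7) (nat_lit 4) (nat_lit 8) (nat_lit 5) (nat_lit 8) (nat_lit 4) (nat_lit 303) (nat_lit 241) (nat_lit 176))) (XT.nd (nat_lit 78) (nat_lit 0) (nat_lit 0) (XT.lf (nat_lit 0) (nat_lit 2383644198) (nat_lit 152) (nat_lit 25490356293) (nat_lit 76) (nat_lit 10429941402) (nat_lit 6) (nat_lit 5) (nat_lit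 8) (nat_lit 5) (nat_lit 7) (nat_lit 4) (nat_lit 304) (nat_lit 241) (nat_lit 175)) (XT.lf (nat_lit 0) (nat_lit 5486848655) (nat_lit 152) (nat_lit 19188978645) (nat_lit 76) (nat_lit 15308462691) (nat_lit 6) (nat_lit 5) (nat_lit 8) (nat_lit 5) (nat_lit 7) (nat_lit 4) (nat_lit 305) (nat_lit 241) (nat_lit 174)))) (XT.nd (nat_lit 156) (nat_lit 76) (nat_lit 0) (XT.nd (nat_lit 78) (nat_lit 0) (nat_lit 0) (XT.lf (nat_lit 0) (nat_lit 8729656059) (nat_lit 152) (nat_lit 12598548693) (nat_lit 76) (nat_lit 20421264135) (nat_lit 6) (nat_lit 5) (nat_lit 8) (nat_lit 5) (nat_lit 7) (nat_lit 4) (nat_lit 306) (nat_lit 241) (nat_lit 173)) (XT.lf (nat_lit 0) (nat_lit 12119787380) (nat_lit 152) (nat_lit 5703374939) (nat_lit 76) (nat_lit 25780519071) (nat_lit 6) (nat_lit 5) (nat_lit 8) (nat_lit 5) (nat_lit 7) (nat_lit 4) (nat_lit 307) (nat_lit 241) (nat_lit 172))) (XT.nd (nat_lit 78) (nat_lit 0) (nat_lit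 0) (XT.lf (nat_lit 0) (nat_lit 1562984978) (nat_lit 76) (nat_lit 14126731957) (nat_lit 152) (nat_lit 29860405226) (nat_lit 5) (nat_lit 5) (nat_lit 6) (nat_lit 5) (nat_lit 7) (nat_lit 4) (nat_lit 308) (nat_lit 241) (nat_lit 171)) (XT.lf (nat_lit 0) (nat_lit 9367453996) (nat_lit 76) (nat_lit 10153476941) (nat_lit 152) (nat_lit 28068845328) (nat_lit 5) (nat_lit 5) (nat_lit 6) (nat_lit 5) (nat_lit 7) (nat_lit 4) (nat_lit 309) (nat_lit 241) (nat_lit 170))))) (XT.nd (nat_lit 312) (nat_lit 76) (nat_lit 0) (XT.nd (nat_lit 156) (nat_lit 0) (nat_lit 0) (XT.nd (nat_lit 78) (nat_lit 0) (nat_lit 0) (XT.lf (nat_lit 0) (nat_lit 17540034852) (nat_lit 76) (nat_lit 5990526555) (nat_lit 152) (nat_lit 26201538111) (nat_lit 5) (nat_lit 5) (nat_lit 6) (nat_lit 5) (nat_lit 7) (nat_lit 4) (nat_lit 310) (nat_lit 241) (nat_lit 169)) (XT.lf (nat_lit 0) (nat_lit 26100186070) (nat_lit 76) (nat_lit 1627969011)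 (nat_lit 152) (nat_lit 24254037605) (nat_lit 5) (nat_lit 5) (nat_lit 6) (nat_lit 5) (nat_lit 7) (nat_lit 4) (nat_lit 311) (nat_lit 241) (nat_lit 168))) (XT.nd (nat_lit 78) (nat_lit 0) (nat_lit 0) (XT.lf (nat_lit 0) (nat_lit 32169679423) (nat_lit 152) (nat_lit 19323097363) (nat_lit 0) (nat_lit 2850337693) (nat_lit 5) (nat_lit 5) (nat_lit 7) (nat_lit 4) (nat_lit 5) (nat_lit 4) (nat_lit 312) (nat_lit 241) (nat_lit 167)) (XT.lf (nat_lit 0) (nat_lit 36848492571) (nat_lit 152) (nat_lit 12482503540) (nat_lit 0) (nat_lit 7490350871) (nat_lit 5) (nat_lit 5) (nat_lit 7) (nat_lit 4) (nat_lit 5) (nat_lit 4) (nat_lit 313) (nat_lit 241) (nat_lit 166)))) (XT.nd (nat_lit 156) (nat_lit 0) (nat_lit 0) (XT.nd (nat_lit 78) (nat_lit 76) (nat_lit 0) (XT.lf (nat_lit 0) (nat_lit 41750317400) (nat_lit 152) (nat_lit 5318520859) (nat_lit 0) (nat_lit 12355223348) (nat_lit 5) (nat_lit 5) (nat_lit 7) (nat_lit 4)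 (nat_lit 5) (nat_lit 4) (nat_lit 314) (nat_lit 241) (nat_lit 165)) (XT.lf (nat_lit 0) (nat_lit 2258183763) (nat_lit 76) (nat_lit 44663897736) (nat_lit 76) (nat_lit 15233610967) (nat_lit 4) (nat_lit 4) (nat_lit 5) (nat_lit 5) (nat_lit 5) (nat_lit 4) (nat_lit 315) (nat_lit 241) (nat_lit 164))) (XT.nd (nat_lit 78) (nat_lit 0) (nat_lit 0) (XT.lf (nat_lit 0) (nat_lit 10380903817) (nat_lit 76) (nat_lit 42051416099) (nat_lit 76) (nat_lit 12587612457) (nat_lit 4) (nat_lit 4) (nat_lit 5) (nat_lit 5) (nat_lit 5) (nat_lit 4) (nat_lit 316) (nat_lit 241) (nat_lit 163)) (XT.nd (nat_lit 78) (nat_lit 0) (nat_lit 0) (XT.lf (nat_lit 0) (nat_lit 18893124794) (nat_lit 76) (nat_lit 39315244880) (nat_lit 76) (nat_lit 9819520406) (nat_lit 4) (nat_lit 4) (nat_lit 5) (nat_lit 5) (nat_lit 5) (nat_lit 4) (nat_lit 317) (nat_lit 241) (nat_lit 162)) (XT.lf (nat_lit 0) (nat_lit 27815113886) (nat_lit 76) (nat_lit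 36448869384) (nat_lit 76) (nat_lit 6922744119) (nat_lit 4) (nat_lit 4) (nat_lit 5) (nat_lit 5) (nat_lit 5) (nat_lit 4) (nat_lit 318) (nat_lit 241) (nat_lit 161))))))) (XT.nd (nat_lit 624) (nat_lit 0) (nat_lit 0) (XT.nd (nat_lit 312) (nat_lit 76) (nat_lit 0) (XT.nd (nat_lit 156) (nat_lit 76) (nat_lit 0) (XT.nd (nat_lit 78) (nat_lit 0) (nat_lit 0) (XT.lf (nat_lit 0) (nat_lit 37168113925) (nat_lit 76) (nat_lit 33445464908) (nat_lit 76) (nat_lit 3890386508) (nat_lit 4) (nat_lit 4) (nat_lit 5) (nat_lit 5) (nat_lit 5) (nat_lit 4) (nat_lit 319) (nat_lit 241) (nat_lit 160)) (XT.lf (nat_lit 0) (nat_lit 46974393959) (nat_lit 76) (nat_lit 30297880489) (nat_lit 76) (nat_lit 715227674) (nat_lit 4) (nat_lit 4) (nat_lit 5) (nat_lit 5) (nat_lit 5) (nat_lit 4) (nat_lit 320) (nat_lit 241) (nat_lit 159))) (XT.nd (nat_lit 78) (nat_lit 0) (nat_lit 0) (XT.lf (nat_lit 0) (nat_lit 2526746627) (nat_lit 152)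 (nat_lit 24429083574) (nat_lit 76) (nat_lit 54687763968) (nat_lit 3) (nat_lit 5) (nat_lit 5) (nat_lit 5) (nat_lit 4) (nat_lit 4) (nat_lit 321) (nat_lit 241) (nat_lit 158)) (XT.lf (nat_lit 0) (nat_lit 5899042289) (nat_lit 152) (nat_lit 17540888274) (nat_lit 76) (nat_lit 62042376557) (nat_lit 3) (nat_lit 5) (nat_lit 5) (nat_lit 5) (nat_lit 4) (nat_lit 4) (nat_lit 322) (nat_lit 241) (nat_lit 157)))) (XT.nd (nat_lit 156) (nat_lit 76) (nat_lit 0) (XT.nd (nat_lit 78) (nat_lit 0) (nat_lit 0) (XT.lf (nat_lit 0) (nat_lit 9432580338) (nat_lit 152) (nat_lit 10320955089) (nat_lit 76) (nat_lit 69759803673) (nat_lit 3) (nat_lit 5) (nat_lit 5) (nat_lit 5) (nat_lit 4) (nat_lit 4) (nat_lit 323) (nat_lit 241) (nat_lit 156)) (XT.lf (nat_lit 0) (nat_lit 13135773960) (nat_lit 152) (nat_lit 2752093704) (nat_lit 76) (nat_lit 77858420144) (nat_lit 3) (nat_lit 5) (nat_lit 5) (nat_lit 5) (nat_lit 4) (nat_lit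 4) (nat_lit 324) (nat_lit 241) (nat_lit 155))) (XT.nd (nat_lit 78) (nat_lit 0) (nat_lit 0) (XT.lf (nat_lit 0) (nat_lit 5355114074) (nat_lit 76) (nat_lit 11745934546) (nat_lit 152) (nat_lit 81086002653) (nat_lit 2) (nat_lit 5) (nat_lit 3) (nat_lit 5) (nat_lit 4) (nat_lit 4) (nat_lit 325) (nat_lit 241) (nat_lit 154)) (XT.lf (nat_lit 0) (nat_lit 13951920334) (nat_lit 76) (nat_lit 7352729609) (nat_lit 152) (nat_lit 81543212575) (nat_lit 2) (nat_lit 5) (nat_lit 3) (nat_lit 5) (nat_lit 4) (nat_lit 4) (nat_lit 326) (nat_lit 241) (nat_lit 153))))) (XT.nd (nat_lit 312) (nat_lit 0) (nat_lit 0) (XT.nd (nat_lit 156) (nat_lit 0) (nat_lit 0) (XT.nd (nat_lit 78) (nat_lit 0) (nat_lit 0) (XT.lf (nat_lit 0) (nat_lit 22967797016) (nat_lit 76) (nat_lit 2744400880) (nat_lit 152) (nat_lit 82029840248) (nat_lit 2) (nat_lit 5) (nat_lit 3) (nat_lit 5) (nat_lit 4) (nat_lit 4) (nat_lit 327) (nat_lit 241) (nat_lit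 152)) (XT.lf (nat_lit 0) (nat_lit 30366817770) (nat_lit 152) (nat_lit 80489651588) (nat_lit 0) (nat_lit 2023130035) (nat_lit 2) (nat_lit 5) (nat_lit 4) (nat_lit 4) (nat_lit 2) (nat_lit 4) (nat_lit 328) (nat_lit 241) (nat_lit 151))) (XT.nd (nat_lit 78) (nat_lit 0) (nat_lit 0) (XT.lf (nat_lit 0) (nat_lit 35293440663) (nat_lit 152) (nat_lit 76045820827) (nat_lit 0) (nat_lit 6932824629) (nat_lit 2) (nat_lit 5) (nat_lit 4) (nat_lit 4) (nat_lit 2) (nat_lit 4) (nat_lit 329) (nat_lit 241) (nat_lit 150)) (XT.lf (nat_lit 0) (nat_lit 40460948840) (nat_lit 152) (nat_lit 71389320509) (nat_lit 0) (nat_lit 12084210618) (nat_lit 2) (nat_lit 5) (nat_lit 4) (nat_lit 4) (nat_lit 2) (nat_lit 4) (nat_lit 330) (nat_lit 241) (nat_lit 149)))) (XT.nd (nat_lit 156) (nat_lit 0) (nat_lit 0) (XT.nd (nat_lit 78) (nat_lit 0) (nat_lit 0) (XT.lf (nat_lit 0) (nat_lit 45881645893) (nat_lit 152) (nat_lit 66509063729)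 (nat_lit 0) (nat_lit 17489553205) (nat_lit 2) (nat_lit 5) (nat_lit 4) (nat_lit 4) (nat_lit 2) (nat_lit 4) (nat_lit 331) (nat_lit 241) (nat_lit 148)) (XT.lf (nat_lit 0) (nat_lit 51568438244) (nat_lit 152) (nat_lit 61393430826) (nat_lit 0) (nat_lit 23161722255) (nat_lit 2) (nat_lit 5) (nat_lit 4) (nat_lit 4) (nat_lit 2) (nat_lit 4) (nat_lit 332) (nat_lit 241) (nat_lit 147))) (XT.nd (nat_lit 78) (nat_lit 0) (nat_lit 0) (XT.lf (nat_lit 0) (nat_lit 57534865873) (nat_lit 152) (nat_lit 56030241723) (nat_lit 0) (nat_lit 29114222931) (nat_lit 2) (nat_lit 5) (nat_lit 4) (nat_lit 4) (nat_lit 2) (nat_lit 4) (nat_lit 333) (nat_lit 241) (nat_lit 146)) (XT.nd (nat_lit 78) (nat_lit 0) (nat_lit 0) (XT.lf (nat_lit 0) (nat_lit 63795134561) (nat_lit 152) (nat_lit 50406726922) (nat_lit 0) (nat_lit 35361227854) (nat_lit 2) (nat_lit 5) (nat_lit 4) (nat_lit 4) (nat_lit 2) (nat_lit 4) (nat_lit 334) (nat_lit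 241) (nat_lit 145)) (XT.lf (nat_lit 0) (nat_lit 70364149710) (nat_lit 152) (nat_lit 44509497102) (nat_lit 0) (nat_lit 41917610846) (nat_lit 2) (nat_lit 5) (nat_lit 4) (nat_lit 4) (nat_lit 2) (nat_lit 4) (nat_lit 335) (nat_lit 241) (nat_lit 144))))))))
noncomputable def xc116 : XT := (XT.nd (nat_lit 1248) (nat_lit 0) (nat_lit 0) (XT.nd (nat_lit 624) (nat_lit 0) (nat_lit 0) (XT.nd (nat_lit 312) (nat_lit 76) (nat_lit 0) (XT.nd (nat_lit 156) (nat_lit 0) (nat_lit 0) (XT.nd (nat_lit 78) (nat_lit 0) (nat_lit 0) (XT.lf (nat_lit 0) (nat_lit 77257551832) (nat_lit 152) (nat_lit 38324511240) (nat_lit 0) (nat_lit 48798982342) (nat_lit 2) (nat_lit 5) (nat_lit 4) (nat_lit 4) (nat_lit 2) (nat_lit 4) (nat_lit 336) (nat_lit 241) (nat_lit 143)) (XT.lf (nat_lit 0) (nat_lit 84491753789) (nat_lit 152) (nat_lit 31837043179) (nat_lit 0) (nat_lit 56021726561) (nat_lit 2) (nat_lit 5) (nat_lit 4) (nat_lit 4)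 (nat_lit 2) (nat_lit 4) (nat_lit 337) (nat_lit 241) (nat_lit 142))) (XT.nd (nat_lit 78) (nat_lit 0) (nat_lit 0) (XT.lf (nat_lit 0) (nat_lit 92083979871) (nat_lit 152) (nat_lit 25031646565) (nat_lit 0) (nat_lit 63603040511) (nat_lit 2) (nat_lit 5) (nat_lit 4) (nat_lit 4) (nat_lit 2) (nat_lit 4) (nat_lit 338) (nat_lit 241) (nat_lit 141)) (XT.lf (nat_lit 0) (nat_lit 100052306808) (nat_lit 152) (nat_lit 17892118075) (nat_lit 0) (nat_lit 71560974941) (nat_lit 2) (nat_lit 5) (nat_lit 4) (nat_lit 4) (nat_lit 2) (nat_lit 4) (nat_lit 339) (nat_lit 241) (nat_lit 140)))) (XT.nd (nat_lit 156) (nat_lit 76) (nat_lit 0) (XT.nd (nat_lit 78) (nat_lit 0) (nat_lit 0) (XT.lf (nat_lit 0) (nat_lit 108415706806) (nat_lit 152) (nat_lit 10401458830) (nat_lit 0) (nat_lit 79914477313) (nat_lit 2) (nat_lit 5) (nat_lit 4) (nat_lit 4) (nat_lit 2) (nat_lit 4) (nat_lit 340) (nat_lit 241) (nat_lit 139)) (XT.lf (nat_lit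 0) (nat_lit 117194092723) (nat_lit 152) (nat_lit 2541833928) (nat_lit 0) (nat_lit 88683436920) (nat_lit 2) (nat_lit 5) (nat_lit 4) (nat_lit 4) (nat_lit 2) (nat_lit 4) (nat_lit 341) (nat_lit 241) (nat_lit 138))) (XT.nd (nat_lit 78) (nat_lit 0) (nat_lit 0) (XT.lf (nat_lit 0) (nat_lit 5894118629) (nat_lit 76) (nat_lit 120606270557) (nat_lit 76) (nat_lit 92086637316) (nat_lit 1) (nat_lit 4) (nat_lit 2) (nat_lit 5) (nat_lit 2) (nat_lit 4) (nat_lit 342) (nat_lit 241) (nat_lit 137)) (XT.lf (nat_lit 0) (nat_lit 14834898873) (nat_lit 76) (nat_lit 121477179284) (nat_lit 76) (nat_lit 92948996102) (nat_lit 1) (nat_lit 4) (nat_lit 2) (nat_lit 5) (nat_lit 2) (nat_lit 4) (nat_lit 343) (nat_lit 241) (nat_lit 136))))) (XT.nd (nat_lit 312) (nat_lit 0) (nat_lit 0) (XT.nd (nat_lit 156) (nat_lit 0) (nat_lit 0) (XT.nd (nat_lit 78) (nat_lit 0) (nat_lit 0) (XT.lf (nat_lit 0) (nat_lit 24217749867) (nat_lit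 76) (nat_lit 122393773613) (nat_lit 76) (nat_lit 93857447630) (nat_lit 1) (nat_lit 4) (nat_lit 2) (nat_lit 5) (nat_lit 2) (nat_lit 4) (nat_lit 344) (nat_lit 241) (nat_lit 135)) (XT.lf (nat_lit 0) (nat_lit 34065011732) (nat_lit 76) (nat_lit 123358235910) (nat_lit 76) (nat_lit 94814154879) (nat_lit 1) (nat_lit 4) (nat_lit 2) (nat_lit 5) (nat_lit 2) (nat_lit 4) (nat_lit 345) (nat_lit 241) (nat_lit 134))) (XT.nd (nat_lit 78) (nat_lit 0) (nat_lit 0) (XT.lf (nat_lit 0) (nat_lit 44400130329) (nat_lit 76) (nat_lit 124372862515) (nat_lit 76) (nat_lit 95821395724) (nat_lit 1) (nat_lit 4) (nat_lit 2) (nat_lit 5) (nat_lit 2) (nat_lit 4) (nat_lit 346) (nat_lit 241) (nat_lit 133)) (XT.lf (nat_lit 0) (nat_lit 55247713083) (nat_lit 76) (nat_lit 125440069206) (nat_lit 76) (nat_lit 96881568356) (nat_lit 1) (nat_lit 4) (nat_lit 2) (nat_lit 5) (nat_lit 2) (nat_lit 4) (nat_lit 347) (nat_lit 241) (nat_lit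 132)))) (XT.nd (nat_lit 156) (nat_lit 0) (nat_lit 0) (XT.nd (nat_lit 78) (nat_lit 0) (nat_lit 0) (XT.lf (nat_lit 0) (nat_lit 66633587574) (nat_lit 76) (nat_lit 126562396949) (nat_lit 76) (nat_lit 97997196997) (nat_lit 1) (nat_lit 4) (nat_lit 2) (nat_lit 5) (nat_lit 2) (nat_lit 4) (nat_lit 348) (nat_lit 241) (nat_lit 131)) (XT.lf (nat_lit 0) (nat_lit 78584863025) (nat_lit 76) (nat_lit 127742517955) (nat_lit 76) (nat_lit 99170937905) (nat_lit 1) (nat_lit 4) (nat_lit 2) (nat_lit 5) (nat_lit 2) (nat_lit 4) (nat_lit 349) (nat_lit 241) (nat_lit 130))) (XT.nd (nat_lit 78) (nat_lit 0) (nat_lit 0) (XT.lf (nat_lit 0) (nat_lit 91129994855) (nat_lit 76) (nat_lit 128983242036) (nat_lit 76) (nat_lit 100405585702) (nat_lit 1) (nat_lit 4) (nat_lit 2) (nat_lit 5) (nat_lit 2) (nat_lit 4) (nat_lit 350) (nat_lit 241) (nat_lit 129)) (XT.lf (nat_lit 0) (nat_lit 104298852425) (nat_lit 76) (nat_lit 130287523295)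 (nat_lit 76) (nat_lit 101704080025) (nat_lit 1) (nat_lit 4) (nat_lit 2) (nat_lit 5) (nat_lit 2) (nat_lit 4) (nat_lit 351) (nat_lit 241) (nat_lit 128)))))) (XT.nd (nat_lit 29016) (nat_lit 0) (nat_lit 6688) (XT.nd (nat_lit 312) (nat_lit 0) (nat_lit 0) (XT.nd (nat_lit 156) (nat_lit 0) (nat_lit 0) (XT.nd (nat_lit 78) (nat_lit 0) (nat_lit 0) (XT.lf (nat_lit 0) (nat_lit 118122790157) (nat_lit 76) (nat_lit 131658467165) (nat_lit 76) (nat_lit 103069512527) (nat_lit 1) (nat_lit 4) (nat_lit 2) (nat_lit 5) (nat_lit 2) (nat_lit 4) (nat_lit 352) (nat_lit 241) (nat_lit 127)) (XT.lf (nat_lit 0) (nat_lit 132634722189) (nat_lit 76) (nat_lit 133099337799) (nat_lit 76) (nat_lit 104505134238) (nat_lit 1) (nat_lit 4) (nat_lit 2) (nat_lit 5) (nat_lit 2) (nat_lit 4) (nat_lit 353) (nat_lit 241) (nat_lit 126))) (XT.nd (nat_lit 78) (nat_lit 0) (nat_lit 0) (XT.lf (nat_lit 0) (nat_lit 147869200741) (nat_lit 76)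 (nat_lit 134613565839) (nat_lit 76) (nat_lit 106014363305) (nat_lit 1) (nat_lit 4) (nat_lit 2) (nat_lit 5) (nat_lit 2) (nat_lit 4) (nat_lit 354) (nat_lit 241) (nat_lit 125)) (XT.lf (nat_lit 0) (nat_lit 163862498380) (nat_lit 76) (nat_lit 136204756592) (nat_lit 76) (nat_lit 107600793131) (nat_lit 1) (nat_lit 4) (nat_lit 2) (nat_lit 5) (nat_lit 2) (nat_lit 4) (nat_lit 355) (nat_lit 241) (nat_lit 124)))) (XT.nd (nat_lit 156) (nat_lit 0) (nat_lit 0) (XT.nd (nat_lit 78) (nat_lit 0) (nat_lit 0) (XT.lf (nat_lit 0) (nat_lit 180652694387) (nat_lit 76) (nat_lit 137876698606) (nat_lit 76) (nat_lit 109268200929) (nat_lit 1) (nat_lit 4) (nat_lit 2) (nat_lit 5) (nat_lit 2) (nat_lit 4) (nat_lit 356) (nat_lit 241) (nat_lit 123)) (XT.lf (nat_lit 0) (nat_lit 198279765418) (nat_lit 76) (nat_lit 139633372696) (nat_lit 76) (nat_lit 111020556718) (nat_lit 1) (nat_lit 4) (nat_lit 2) (nat_lit 5) (nat_lit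 2) (nat_lit 4) (nat_lit 357) (nat_lit 241) (nat_lit 122))) (XT.nd (nat_lit 28470) (nat_lit 0) (nat_lit 7524) (XT.lf (nat_lit 0) (nat_lit 216785680690) (nat_lit 76) (nat_lit 141478961419) (nat_lit 76) (nat_lit 112862032773) (nat_lit 1) (nat_lit 4) (nat_lit 2) (nat_lit 5) (nat_lit 2) (nat_lit 4) (nat_lit 358) (nat_lit 241) (nat_lit 121)) (XT.lf (nat_lit 0) (nat_lit 1821508323) (nat_lit 228) (nat_lit 711961574) (nat_lit 228) (nat_lit 711961574) (nat_lit 100) (nat_lit 3) (nat_lit 103) (nat_lit 3) (nat_lit 103) (nat_lit 5) (nat_lit 242) (nat_lit 242) (nat_lit 236))))) (XT.nd (nat_lit 312) (nat_lit 608) (nat_lit 0) (XT.nd (nat_lit 156) (nat_lit 0) (nat_lit 0) (XT.nd (nat_lit 78) (nat_lit 228) (nat_lit 0) (XT.lf (nat_lit 76) (nat_lit 1338389392) (nat_lit 0) (nat_lit 4662562039) (nat_lit 228) (nat_lit 519289799) (nat_lit 101) (nat_lit 5) (nat_lit 100) (nat_lit 3) (nat_lit 103) (nat_lit 5)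 (nat_lit 243) (nat_lit 242) (nat_lit 235)) (XT.lf (nat_lit 0) (nat_lit 1739984810) (nat_lit 228) (nat_lit 2376816523) (nat_lit 304) (nat_lit 2440179464) (nat_lit 97) (nat_lit 5) (nat_lit 100) (nat_lit 3) (nat_lit 101) (nat_lit 5) (nat_lit 244) (nat_lit 242) (nat_lit 234))) (XT.nd (nat_lit 78) (nat_lit 0) (nat_lit 0) (XT.lf (nat_lit 76) (nat_lit 495112903) (nat_lit 0) (nat_lit 3465878691) (nat_lit 304) (nat_lit 2641964219) (nat_lit 98) (nat_lit 5) (nat_lit 97) (nat_lit 5) (nat_lit 101) (nat_lit 5) (nat_lit 245) (nat_lit 242) (nat_lit 233)) (XT.lf (nat_lit 76) (nat_lit 3513766568) (nat_lit 0) (nat_lit 2683523652) (nat_lit 304) (nat_lit 459808345) (nat_lit 98) (nat_lit 5) (nat_lit 97) (nat_lit 5) (nat_lit 101) (nat_lit 5) (nat_lit 246) (nat_lit 242) (nat_lit 232)))) (XT.nd (nat_lit 156) (nat_lit 304) (nat_lit 0) (XT.nd (nat_lit 78) (nat_lit 0) (nat_lit 0) (XT.lf (nat_lit 0) (nat_lit 1640182850)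 (nat_lit 304) (nat_lit 140165864) (nat_lit 380) (nat_lit 4939783313) (nat_lit 93) (nat_lit 5) (nat_lit 97) (nat_lit 5) (nat_lit 98) (nat_lit 5) (nat_lit 247) (nat_lit 242) (nat_lit 231)) (XT.lf (nat_lit 76) (nat_lit 3025330022) (nat_lit 0) (nat_lit 725287304) (nat_lit 380) (nat_lit 3040211991) (nat_lit 94) (nat_lit 5) (nat_lit 93) (nat_lit 5) (nat_lit 98) (nat_lit 5) (nat_lit 248) (nat_lit 242) (nat_lit 230))) (XT.nd (nat_lit 78) (nat_lit 380) (nat_lit 0) (XT.lf (nat_lit 0) (nat_lit 5854164800) (nat_lit 304) (nat_lit 600540476) (nat_lit 76) (nat_lit 416866025) (nat_lit 94) (nat_lit 5) (nat_lit 98) (nat_lit 5) (nat_lit 95) (nat_lit 5) (nat_lit 249) (nat_lit 242) (nat_lit 229)) (XT.nd (nat_lit 78) (nat_lit 0) (nat_lit 0) (XT.lf (nat_lit 0) (nat_lit 1008594906) (nat_lit 380) (nat_lit 4258299664) (nat_lit 76) (nat_lit 1692525121) (nat_lit 89) (nat_lit 5) (nat_lit 94) (nat_lit 5) (nat_lit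 90) (nat_lit 5) (nat_lit 250) (nat_lit 242) (nat_lit 228)) (XT.lf (nat_lit 0) (nat_lit 2998659152) (nat_lit 380) (nat_lit 962092982) (nat_lit 76) (nat_lit 3095995001) (nat_lit 89) (nat_lit 5) (nat_lit 94) (nat_lit 5) (nat_lit 90) (nat_lit 5) (nat_lit 251) (nat_lit 242) (nat_lit 227))))))))
noncomputable def xc117 : XT := (XT.nd (nat_lit 1326) (nat_lit 1444) (nat_lit 0) (XT.nd (nat_lit 624) (nat_lit 1976) (nat_lit 0) (XT.nd (nat_lit 312) (nat_lit 1216) (nat_lit 0) (XT.nd (nat_lit 156) (nat_lit 532) (nat_lit 0) (XT.nd (nat_lit 78) (nat_lit 0) (nat_lit 0) (XT.lf (nat_lit 0) (nat_lit 2500076919) (nat_lit 380) (nat_lit 2519199207) (nat_lit 456) (nat_lit 2143844055) (nat_lit 84) (nat_lit 5) (nat_lit 89) (nat_lit 5) (nat_lit 90) (nat_lit 5) (nat_lit 252) (nat_lit 242) (nat_lit 226)) (XT.lf (nat_lit 0) (nat_lit 6091163844) (nat_lit 380) (nat_lit 962000559) (nat_lit 456) (nat_lit 226732316)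 (nat_lit 84) (nat_lit 5) (nat_lit 89) (nat_lit 5) (nat_lit 90) (nat_lit 5) (nat_lit 253) (nat_lit 242) (nat_lit 225))) (XT.nd (nat_lit 78) (nat_lit 0) (nat_lit 0) (XT.lf (nat_lit 0) (nat_lit 1677613675) (nat_lit 532) (nat_lit 4985533373) (nat_lit 76) (nat_lit 741175237) (nat_lit 77) (nat_lit 5) (nat_lit 84) (nat_lit 5) (nat_lit 78) (nat_lit 5) (nat_lit 254) (nat_lit 242) (nat_lit 224)) (XT.lf (nat_lit 0) (nat_lit 3608384562) (nat_lit 532) (nat_lit 1388267115) (nat_lit 76) (nat_lit 2541792218) (nat_lit 77) (nat_lit 5) (nat_lit 84) (nat_lit 5) (nat_lit 78) (nat_lit 5) (nat_lit 255) (nat_lit 242) (nat_lit 223)))) (XT.nd (nat_lit 156) (nat_lit 684) (nat_lit 0) (XT.nd (nat_lit 78) (nat_lit 0) (nat_lit 0) (XT.lf (nat_lit 0) (nat_lit 2386734745) (nat_lit 532) (nat_lit 3193456190) (nat_lit 608) (nat_lit 2102429114) (nat_lit 70) (nat_lit 5) (nat_lit 77) (nat_lit 5) (nat_lit 78) (nat_lit 5)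 (nat_lit 256) (nat_lit 242) (nat_lit 222)) (XT.lf (nat_lit 0) (nat_lit 6321432495) (nat_lit 532) (nat_lit 1263110778) (nat_lit 608) (nat_lit 253309965) (nat_lit 70) (nat_lit 5) (nat_lit 77) (nat_lit 5) (nat_lit 78) (nat_lit 5) (nat_lit 257) (nat_lit 242) (nat_lit 221))) (XT.nd (nat_lit 78) (nat_lit 0) (nat_lit 0) (XT.lf (nat_lit 0) (nat_lit 1598057450) (nat_lit 684) (nat_lit 5589262147) (nat_lit 76) (nat_lit 814514442) (nat_lit 61) (nat_lit 5) (nat_lit 70) (nat_lit 5) (nat_lit 62) (nat_lit 5) (nat_lit 258) (nat_lit 242) (nat_lit 220)) (XT.lf (nat_lit 0) (nat_lit 3496199924) (nat_lit 684) (nat_lit 1687875118) (nat_lit 76) (nat_lit 2992066892) (nat_lit 61) (nat_lit 5) (nat_lit 70) (nat_lit 5) (nat_lit 62) (nat_lit 5) (nat_lit 259) (nat_lit 242) (nat_lit 219))))) (XT.nd (nat_lit 312) (nat_lit 912) (nat_lit 0) (XT.nd (nat_lit 156) (nat_lit 380) (nat_lit 0) (XT.nd (nat_lit 78) (nat_lit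 0) (nat_lit 0) (XT.lf (nat_lit 0) (nat_lit 2408992831) (nat_lit 684) (nat_lit 3037782586) (nat_lit 760) (nat_lit 2914962718) (nat_lit 52) (nat_lit 5) (nat_lit 61) (nat_lit 5) (nat_lit 62) (nat_lit 5) (nat_lit 260) (nat_lit 242) (nat_lit 218)) (XT.lf (nat_lit 0) (nat_lit 6693849102) (nat_lit 684) (nat_lit 752165861) (nat_lit 760) (nat_lit 1113470231) (nat_lit 52) (nat_lit 5) (nat_lit 61) (nat_lit 5) (nat_lit 62) (nat_lit 5) (nat_lit 261) (nat_lit 242) (nat_lit 217))) (XT.nd (nat_lit 78) (nat_lit 0) (nat_lit 0) (XT.lf (nat_lit 0) (nat_lit 742105559) (nat_lit 380) (nat_lit 6379060280) (nat_lit 76) (nat_lit 1646288760) (nat_lit 47) (nat_lit 5) (nat_lit 52) (nat_lit 5) (nat_lit 48) (nat_lit 5) (nat_lit 262) (nat_lit 242) (nat_lit 216)) (XT.lf (nat_lit 0) (nat_lit 2624550184) (nat_lit 380) (nat_lit 2172989858) (nat_lit 76) (nat_lit 4189163815) (nat_lit 47) (nat_lit 5) (nat_lit 52) (nat_lit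 5) (nat_lit 48) (nat_lit 5) (nat_lit 263) (nat_lit 242) (nat_lit 215)))) (XT.nd (nat_lit 156) (nat_lit 608) (nat_lit 0) (XT.nd (nat_lit 78) (nat_lit 0) (nat_lit 0) (XT.lf (nat_lit 0) (nat_lit 2241269246) (nat_lit 304) (nat_lit 2325379288) (nat_lit 380) (nat_lit 4652342433) (nat_lit 43) (nat_lit 5) (nat_lit 47) (nat_lit 5) (nat_lit 48) (nat_lit 5) (nat_lit 264) (nat_lit 242) (nat_lit 214)) (XT.lf (nat_lit 0) (nat_lit 6580105680) (nat_lit 380) (nat_lit 2590468691) (nat_lit 76) (nat_lit 293940570) (nat_lit 43) (nat_lit 5) (nat_lit 48) (nat_lit 5) (nat_lit 44) (nat_lit 5) (nat_lit 265) (nat_lit 242) (nat_lit 213))) (XT.nd (nat_lit 78) (nat_lit 380) (nat_lit 0) (XT.lf (nat_lit 0) (nat_lit 1968384649) (nat_lit 228) (nat_lit 6730540594) (nat_lit 304) (nat_lit 1023474634) (nat_lit 40) (nat_lit 5) (nat_lit 43) (nat_lit 5) (nat_lit 44) (nat_lit 5) (nat_lit 266) (nat_lit 242) (nat_lit 212)) (XT.nd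 (nat_lit 78) (nat_lit 304) (nat_lit 0) (XT.lf (nat_lit 0) (nat_lit 881776498) (nat_lit 304) (nat_lit 3234977397) (nat_lit 76) (nat_lit 5876935744) (nat_lit 39) (nat_lit 5) (nat_lit 43) (nat_lit 5) (nat_lit 40) (nat_lit 5) (nat_lit 267) (nat_lit 242) (nat_lit 211)) (XT.lf (nat_lit 0) (nat_lit 1469937668) (nat_lit 304) (nat_lit 1340394301) (nat_lit 380) (nat_lit 7469526917) (nat_lit 35) (nat_lit 5) (nat_lit 39) (nat_lit 5) (nat_lit 40) (nat_lit 5) (nat_lit 268) (nat_lit 242) (nat_lit 210))))))) (XT.nd (nat_lit 624) (nat_lit 760) (nat_lit 0) (XT.nd (nat_lit 312) (nat_lit 456) (nat_lit 0) (XT.nd (nat_lit 156) (nat_lit 0) (nat_lit 0) (XT.nd (nat_lit 78) (nat_lit 228) (nat_lit 0) (XT.lf (nat_lit 0) (nat_lit 4856710539) (nat_lit 380) (nat_lit 4152915935) (nat_lit 76) (nat_lit 1569902994) (nat_lit 35) (nat_lit 5) (nat_lit 40) (nat_lit 5) (nat_lit 36) (nat_lit 5) (nat_lit 269) (nat_lit 242)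 (nat_lit 209)) (XT.lf (nat_lit 0) (nat_lit 667527829) (nat_lit 228) (nat_lit 6314203967) (nat_lit 304) (nat_lit 3913885730) (nat_lit 32) (nat_lit 5) (nat_lit 35) (nat_lit 5) (nat_lit 36) (nat_lit 5) (nat_lit 270) (nat_lit 242) (nat_lit 208))) (XT.nd (nat_lit 78) (nat_lit 0) (nat_lit 0) (XT.lf (nat_lit 0) (nat_lit 5805480210) (nat_lit 228) (nat_lit 3423396855) (nat_lit 304) (nat_lit 1998077495) (nat_lit 32) (nat_lit 5) (nat_lit 35) (nat_lit 5) (nat_lit 36) (nat_lit 5) (nat_lit 271) (nat_lit 242) (nat_lit 207)) (XT.lf (nat_lit 0) (nat_lit 11135860272) (nat_lit 228) (nat_lit 400653907) (nat_lit 304) (nat_lit 41164419) (nat_lit 32) (nat_lit 5) (nat_lit 35) (nat_lit 5) (nat_lit 36) (nat_lit 5) (nat_lit 272) (nat_lit 242) (nat_lit 206)))) (XT.nd (nat_lit 156) (nat_lit 152) (nat_lit 0) (XT.nd (nat_lit 78) (nat_lit 0) (nat_lit 0) (XT.lf (nat_lit 0) (nat_lit 2019264447) (nat_lit 304) (nat_lit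 7140910261) (nat_lit 76) (nat_lit 2780892134) (nat_lit 28) (nat_lit 5) (nat_lit 32) (nat_lit 5) (nat_lit 29) (nat_lit 5) (nat_lit 273) (nat_lit 242) (nat_lit 205)) (XT.lf (nat_lit 0) (nat_lit 4146311606) (nat_lit 304) (nat_lit 2074737079) (nat_lit 76) (nat_lit 6103489046) (nat_lit 28) (nat_lit 5) (nat_lit 32) (nat_lit 5) (nat_lit 29) (nat_lit 5) (nat_lit 274) (nat_lit 242) (nat_lit 204))) (XT.nd (nat_lit 78) (nat_lit 0) (nat_lit 0) (XT.lf (nat_lit 0) (nat_lit 3288383782) (nat_lit 152) (nat_lit 3095817823) (nat_lit 228) (nat_lit 6342942689) (nat_lit 26) (nat_lit 5) (nat_lit 28) (nat_lit 5) (nat_lit 29) (nat_lit 5) (nat_lit 275) (nat_lit 242) (nat_lit 203)) (XT.lf (nat_lit 0) (nat_lit 8726796898) (nat_lit 228) (nat_lit 4222745557) (nat_lit 76) (nat_lit 200875956) (nat_lit 26) (nat_lit 5) (nat_lit 29) (nat_lit 5) (nat_lit 27) (nat_lit 5) (nat_lit 276) (nat_lit 242) (nat_lit 202))))) (XT.nd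 (nat_lit 312) (nat_lit 304) (nat_lit 0) (XT.nd (nat_lit 156) (nat_lit 228) (nat_lit 0) (XT.nd (nat_lit 78) (nat_lit 0) (nat_lit 0) (XT.lf (nat_lit 0) (nat_lit 1181282529) (nat_lit 228) (nat_lit 10030813863) (nat_lit 304) (nat_lit 2381650421) (nat_lit 23) (nat_lit 5) (nat_lit 26) (nat_lit 5) (nat_lit 27) (nat_lit 5) (nat_lit 277) (nat_lit 242) (nat_lit 201)) (XT.lf (nat_lit 0) (nat_lit 6943236530) (nat_lit 228) (nat_lit 6907476621) (nat_lit 304) (nat_lit 207237106) (nat_lit 23) (nat_lit 5) (nat_lit 26) (nat_lit 5) (nat_lit 27) (nat_lit 5) (nat_lit 278) (nat_lit 242) (nat_lit 200))) (XT.nd (nat_lit 78) (nat_lit 152) (nat_lit 0) (XT.lf (nat_lit 0) (nat_lit 1968203662) (nat_lit 304) (nat_lit 1642072308) (nat_lit 76) (nat_lit 10935676201) (nat_lit 22) (nat_lit 5) (nat_lit 26) (nat_lit 5) (nat_lit 23) (nat_lit 5) (nat_lit 279) (nat_lit 242) (nat_lit 199)) (XT.lf (nat_lit 0) (nat_lit 4179737658)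 (nat_lit 152) (nat_lit 91684517) (nat_lit 228) (nat_lit 10785602911) (nat_lit 20) (nat_lit 5) (nat_lit 22) (nat_lit 5) (nat_lit 23) (nat_lit 5) (nat_lit 280) (nat_lit 242) (nat_lit 198)))) (XT.nd (nat_lit 156) (nat_lit 152) (nat_lit 0) (XT.nd (nat_lit 78) (nat_lit 152) (nat_lit 0) (XT.lf (nat_lit 0) (nat_lit 6735813215) (nat_lit 228) (nat_lit 5355080069) (nat_lit 76) (nat_lit 3500590434) (nat_lit 20) (nat_lit 5) (nat_lit 23) (nat_lit 5) (nat_lit 21) (nat_lit 5) (nat_lit 281) (nat_lit 242) (nat_lit 197)) (XT.lf (nat_lit 0) (nat_lit 401479939) (nat_lit 152) (nat_lit 8893044686) (nat_lit 228) (nat_lit 6859711950) (nat_lit 18) (nat_lit 5) (nat_lit 20) (nat_lit 5) (nat_lit 21) (nat_lit 5) (nat_lit 282) (nat_lit 242) (nat_lit 196))) (XT.nd (nat_lit 78) (nat_lit 152) (nat_lit 0) (XT.lf (nat_lit 0) (nat_lit 6579536204) (nat_lit 152) (nat_lit 5456586316) (nat_lit 228) (nat_lit 4706377328) (nat_lit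 18) (nat_lit 5) (nat_lit 20) (nat_lit 5) (nat_lit 21) (nat_lit 5) (nat_lit 283) (nat_lit 242) (nat_lit 195)) (XT.nd (nat_lit 78) (nat_lit 152) (nat_lit 0) (XT.lf (nat_lit 0) (nat_lit 13016735250) (nat_lit 152) (nat_lit 1864027002) (nat_lit 228) (nat_lit 2481230524) (nat_lit 18) (nat_lit 5) (nat_lit 20) (nat_lit 5) (nat_lit 21) (nat_lit 5) (nat_lit 284) (nat_lit 242) (nat_lit 194)) (XT.lf (nat_lit 0) (nat_lit 1740357760) (nat_lit 152) (nat_lit 16151588831) (nat_lit 228) (nat_lit 119407261) (nat_lit 16) (nat_lit 5) (nat_lit 18) (nat_lit 5) (nat_lit 19) (nat_lit 4) (nat_lit 285) (nat_lit 242) (nat_lit 193))))))))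
noncomputable def xc118 : XT := (XT.nd (nat_lit 1326) (nat_lit 304) (nat_lit 0) (XT.nd (nat_lit 624) (nat_lit 304) (nat_lit 0) (XT.nd (nat_lit 312) (nat_lit 76) (nat_lit 0) (XT.nd (nat_lit 156) (nat_lit 152) (nat_lit 0) (XT.nd (nat_lit 78) (nat_lit 0) (nat_lit 0) (XT.lf (nat_lit 0) (nat_lit 2357839624) (nat_lit 228) (nat_lit 10526281331) (nat_lit 76) (nat_lit 5803674135) (nat_lit 15) (nat_lit 5) (nat_lit 18) (nat_lit 5) (nat_lit 16) (nat_lit 5) (nat_lit 286) (nat_lit 242) (nat_lit 192)) (XT.lf (nat_lit 0) (nat_lit 4924012364) (nat_lit 228) (nat_lit 4543212910) (nat_lit 76) (nat_lit 9932375694) (nat_lit 15) (nat_lit 5) (nat_lit 18) (nat_lit 5) (nat_lit 16) (nat_lit 5) (nat_lit 287) (nat_lit 242) (nat_lit 191))) (XT.nd (nat_lit 78) (nat_lit 0) (nat_lit 0) (XT.lf (nat_lit 0) (nat_lit 1750340684) (nat_lit 152) (nat_lit 5866029710) (nat_lit 228) (nat_lit 12530822698) (nat_lit 13) (nat_lit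 5) (nat_lit 15) (nat_lit 5) (nat_lit 16) (nat_lit 5) (nat_lit 288) (nat_lit 242) (nat_lit 190)) (XT.lf (nat_lit 0) (nat_lit 8472332780) (nat_lit 152) (nat_lit 2019219933) (nat_lit 228) (nat_lit 10438287298) (nat_lit 13) (nat_lit 5) (nat_lit 15) (nat_lit 5) (nat_lit 16) (nat_lit 5) (nat_lit 289) (nat_lit 242) (nat_lit 189)))) (XT.nd (nat_lit 156) (nat_lit 0) (nat_lit 0) (XT.nd (nat_lit 78) (nat_lit 76) (nat_lit 0) (XT.lf (nat_lit 0) (nat_lit 13514437618) (nat_lit 228) (nat_lit 6295830318) (nat_lit 76) (nat_lit 1941235602) (nat_lit 13) (nat_lit 5) (nat_lit 16) (nat_lit 5) (nat_lit 14) (nat_lit 4) (nat_lit 290) (nat_lit 242) (nat_lit 188)) (XT.lf (nat_lit 0) (nat_lit 103081289) (nat_lit 76) (nat_lit 16593817494) (nat_lit 152) (nat_lit 5917007416) (nat_lit 12) (nat_lit 5) (nat_lit 13) (nat_lit 5) (nat_lit 14) (nat_lit 4) (nat_lit 291) (nat_lit 242) (nat_lit 187))) (XT.nd (nat_lit 78) (nat_lit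 0) (nat_lit 0) (XT.lf (nat_lit 0) (nat_lit 7000131100) (nat_lit 76) (nat_lit 13119316386) (nat_lit 152) (nat_lit 3396007148) (nat_lit 12) (nat_lit 5) (nat_lit 13) (nat_lit 5) (nat_lit 14) (nat_lit 4) (nat_lit 292) (nat_lit 242) (nat_lit 186)) (XT.lf (nat_lit 0) (nat_lit 14203572078) (nat_lit 76) (nat_lit 9485114923) (nat_lit 152) (nat_lit 774685669) (nat_lit 12) (nat_lit 5) (nat_lit 13) (nat_lit 5) (nat_lit 14) (nat_lit 4) (nat_lit 293) (nat_lit 242) (nat_lit 185))))) (XT.nd (nat_lit 312) (nat_lit 76) (nat_lit 0) (XT.nd (nat_lit 156) (nat_lit 0) (nat_lit 0) (XT.nd (nat_lit 78) (nat_lit 152) (nat_lit 0) (XT.lf (nat_lit 0) (nat_lit 1890683721) (nat_lit 152) (nat_lit 3759856881) (nat_lit 76) (nat_lit 19807851908) (nat_lit 11) (nat_lit 5) (nat_lit 13) (nat_lit 5) (nat_lit 12) (nat_lit 5) (nat_lit 294) (nat_lit 242) (nat_lit 184)) (XT.lf (nat_lit 0) (nat_lit 3116436432) (nat_lit 152) (nat_lit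 1572917077) (nat_lit 228) (nat_lit 21811932290) (nat_lit 9) (nat_lit 5) (nat_lit 11) (nat_lit 5) (nat_lit 12) (nat_lit 5) (nat_lit 295) (nat_lit 242) (nat_lit 183))) (XT.nd (nat_lit 78) (nat_lit 0) (nat_lit 0) (XT.lf (nat_lit 0) (nat_lit 7712698019) (nat_lit 228) (nat_lit 17205469065) (nat_lit 76) (nat_lit 2673977483) (nat_lit 9) (nat_lit 5) (nat_lit 12) (nat_lit 5) (nat_lit 10) (nat_lit 4) (nat_lit 296) (nat_lit 242) (nat_lit 182)) (XT.lf (nat_lit 0) (nat_lit 10891789316) (nat_lit 228) (nat_lit 10777262149) (nat_lit 76) (nat_lit 7068320949) (nat_lit 9) (nat_lit 5) (nat_lit 12) (nat_lit 5) (nat_lit 10) (nat_lit 4) (nat_lit 297) (nat_lit 242) (nat_lit 181)))) (XT.nd (nat_lit 156) (nat_lit 0) (nat_lit 0) (XT.nd (nat_lit 78) (nat_lit 76) (nat_lit 0) (XT.lf (nat_lit 0) (nat_lit 14209639022) (nat_lit 228) (nat_lit 4060365720) (nat_lit 76) (nat_lit 11670919214) (nat_lit 9) (nat_lit 5) (nat_lit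 12) (nat_lit 5) (nat_lit 10) (nat_lit 4) (nat_lit 298) (nat_lit 242) (nat_lit 180)) (XT.lf (nat_lit 0) (nat_lit 3059123900) (nat_lit 76) (nat_lit 14662784376) (nat_lit 152) (nat_lit 13481368441) (nat_lit 8) (nat_lit 5) (nat_lit 9) (nat_lit 5) (nat_lit 10) (nat_lit 4) (nat_lit 299) (nat_lit 242) (nat_lit 179))) (XT.nd (nat_lit 78) (nat_lit 0) (nat_lit 0) (XT.lf (nat_lit 0) (nat_lit 10644894657) (nat_lit 76) (nat_lit 10814863397) (nat_lit 152) (nat_lit 11066538323) (nat_lit 8) (nat_lit 5) (nat_lit 9) (nat_lit 5) (nat_lit 10) (nat_lit 4) (nat_lit 300) (nat_lit 242) (nat_lit 178)) (XT.nd (nat_lit 78) (nat_lit 0) (nat_lit 0) (XT.lf (nat_lit 0) (nat_lit 18580753882) (nat_lit 76) (nat_lit 6785844345) (nat_lit 152) (nat_lit 8549809244) (nat_lit 8) (nat_lit 5) (nat_lit 9) (nat_lit 5) (nat_lit 10) (nat_lit 4) (nat_lit 301) (nat_lit 242) (nat_lit 177)) (XT.lf (nat_lit 0) (nat_lit 26885596476)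 (nat_lit 76) (nat_lit 2566134320) (nat_lit 152) (nat_lit 5925188992) (nat_lit 8) (nat_lit 5) (nat_lit 9) (nat_lit 5) (nat_lit 10) (nat_lit 4) (nat_lit 302) (nat_lit 242) (nat_lit 176))))))) (XT.nd (nat_lit 624) (nat_lit 76) (nat_lit 0) (XT.nd (nat_lit 312) (nat_lit 76) (nat_lit 0) (XT.nd (nat_lit 156) (nat_lit 76) (nat_lit 0) (XT.nd (nat_lit 78) (nat_lit 76) (nat_lit 0) (XT.lf (nat_lit 0) (nat_lit 33753833300) (nat_lit 152) (nat_lit 1361065895) (nat_lit 0) (nat_lit 1794963992) (nat_lit 8) (nat_lit 5) (nat_lit 10) (nat_lit 4) (nat_lit 8) (nat_lit 4) (nat_lit 303) (nat_lit 242) (nat_lit 175)) (XT.lf (nat_lit 0) (nat_lit 6258049130) (nat_lit 76) (nat_lit 32137148382) (nat_lit 76) (nat_lit 118087586) (nat_lit 7) (nat_lit 4) (nat_lit 8) (nat_lit 5) (nat_lit 8) (nat_lit 4) (nat_lit 304) (nat_lit 242) (nat_lit 174))) (XT.nd (nat_lit 78) (nat_lit 0) (nat_lit 0) (XT.lf (nat_lit 0) (nat_lit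 2981307495) (nat_lit 152) (nat_lit 25964705657) (nat_lit 76) (nat_lit 11248109005) (nat_lit 6) (nat_lit 5) (nat_lit 8) (nat_lit 5) (nat_lit 7) (nat_lit 4) (nat_lit 305) (nat_lit 242) (nat_lit 173)) (XT.lf (nat_lit 0) (nat_lit 6216887361) (nat_lit 152) (nat_lit 19386362386) (nat_lit 76) (nat_lit 16356429190) (nat_lit 6) (nat_lit 5) (nat_lit 8) (nat_lit 5) (nat_lit 7) (nat_lit 4) (nat_lit 306) (nat_lit 242) (nat_lit 172)))) (XT.nd (nat_lit 156) (nat_lit 76) (nat_lit 0) (XT.nd (nat_lit 78) (nat_lit 0) (nat_lit 0) (XT.lf (nat_lit 0) (nat_lit 9600135313) (nat_lit 152) (nat_lit 12502699756) (nat_lit 76) (nat_lit 21711416261) (nat_lit 6) (nat_lit 5) (nat_lit 8) (nat_lit 5) (nat_lit 7) (nat_lit 4) (nat_lit 307) (nat_lit 242) (nat_lit 171)) (XT.lf (nat_lit 0) (nat_lit 13139106702) (nat_lit 152) (nat_lit 5297328094) (nat_lit 76) (nat_lit 27325820185) (nat_lit 6) (nat_lit 5) (nat_lit 8) (nat_lit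 5) (nat_lit 7) (nat_lit 4) (nat_lit 308) (nat_lit 242) (nat_lit 170))) (XT.nd (nat_lit 78) (nat_lit 0) (nat_lit 0) (XT.lf (nat_lit 0) (nat_lit 2321201181) (nat_lit 76) (nat_lit 14557266927) (nat_lit 152) (nat_lit 30928047867) (nat_lit 5) (nat_lit 5) (nat_lit 6) (nat_lit 5) (nat_lit 7) (nat_lit 4) (nat_lit 309) (nat_lit 242) (nat_lit 169)) (XT.lf (nat_lit 0) (nat_lit 10483509509) (nat_lit 76) (nat_lit 10398482571) (nat_lit 152) (nat_lit 29067166050) (nat_lit 5) (nat_lit 5) (nat_lit 6) (nat_lit 5) (nat_lit 7) (nat_lit 4) (nat_lit 310) (nat_lit 242) (nat_lit 168))))) (XT.nd (nat_lit 312) (nat_lit 76) (nat_lit 0) (XT.nd (nat_lit 156) (nat_lit 0) (nat_lit 0) (XT.nd (nat_lit 78) (nat_lit 0) (nat_lit 0) (XT.lf (nat_lit 0) (nat_lit 19033877369) (nat_lit 76) (nat_lit 6039892676) (nat_lit 152) (nat_lit 27125784974) (nat_lit 5) (nat_lit 5) (nat_lit 6) (nat_lit 5) (nat_lit 7) (nat_lit 4) (nat_lit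 311) (nat_lit 242) (nat_lit 167)) (XT.lf (nat_lit 0) (nat_lit 27992662778) (nat_lit 76) (nat_lit 1471119646) (nat_lit 152) (nat_lit 25099282303) (nat_lit 5) (nat_lit 5) (nat_lit 6) (nat_lit 5) (nat_lit 7) (nat_lit 4) (nat_lit 312) (nat_lit 242) (nat_lit 166))) (XT.nd (nat_lit 78) (nat_lit 0) (nat_lit 0) (XT.lf (nat_lit 0) (nat_lit 34114296064) (nat_lit 152) (nat_lit 19715932914) (nat_lit 0) (nat_lit 3212494957) (nat_lit 5) (nat_lit 5) (nat_lit 7) (nat_lit 4) (nat_lit 5) (nat_lit 4) (nat_lit 313) (nat_lit 242) (nat_lit 165)) (XT.lf (nat_lit 0) (nat_lit 39011043553) (nat_lit 152) (nat_lit 12560610319) (nat_lit 0) (nat_lit 8074049729) (nat_lit 5) (nat_lit 5) (nat_lit 7) (nat_lit 4) (nat_lit 5) (nat_lit 4) (nat_lit 314) (nat_lit 242) (nat_lit 164)))) (XT.nd (nat_lit 156) (nat_lit 0) (nat_lit 0) (XT.nd (nat_lit 78) (nat_lit 76) (nat_lit 0) (XT.lf (nat_lit 0) (nat_lit 44142715511) (nat_lit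 152) (nat_lit 5064429381) (nat_lit 0) (nat_lit 13172204814) (nat_lit 5) (nat_lit 5) (nat_lit 7) (nat_lit 4) (nat_lit 5) (nat_lit 4) (nat_lit 315) (nat_lit 242) (nat_lit 163)) (XT.lf (nat_lit 0) (nat_lit 2882723092) (nat_lit 76) (nat_lit 46683814500) (nat_lit 76) (nat_lit 15681382972) (nat_lit 4) (nat_lit 4) (nat_lit 5) (nat_lit 5) (nat_lit 5) (nat_lit 4) (nat_lit 316) (nat_lit 242) (nat_lit 162))) (XT.nd (nat_lit 78) (nat_lit 0) (nat_lit 0) (XT.lf (nat_lit 0) (nat_lit 11387215809) (nat_lit 76) (nat_lit 43950864883) (nat_lit 76) (nat_lit 12918032563) (nat_lit 4) (nat_lit 4) (nat_lit 5) (nat_lit 5) (nat_lit 5) (nat_lit 4) (nat_lit 317) (nat_lit 242) (nat_lit 161)) (XT.nd (nat_lit 78) (nat_lit 0) (nat_lit 0) (XT.lf (nat_lit 0) (nat_lit 20301844654) (nat_lit 76) (nat_lit 41087557580) (nat_lit 76) (nat_lit 10025772124) (nat_lit 4) (nat_lit 4) (nat_lit 5) (nat_lit 5) (nat_lit 5) (nat_lit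 4) (nat_lit 318) (nat_lit 242) (nat_lit 160)) (XT.lf (nat_lit 0) (nat_lit 29647834934) (nat_lit 76) (nat_lit 38087075192) (nat_lit 76) (nat_lit 6997715322) (nat_lit 4) (nat_lit 4) (nat_lit 5) (nat_lit 5) (nat_lit 5) (nat_lit 4) (nat_lit 319) (nat_lit 242) (nat_lit 159))))))))
noncomputable def xc119 : XT := (XT.nd (nat_lit 1326) (nat_lit 76) (nat_lit 0) (XT.nd (nat_lit 624) (nat_lit 0) (nat_lit 0) (XT.nd (nat_lit 312) (nat_lit 76) (nat_lit 0) (XT.nd (nat_lit 156) (nat_lit 76) (nat_lit 0) (XT.nd (nat_lit 78) (nat_lit 0) (nat_lit 0) (XT.lf (nat_lit 0) (nat_lit 39447439006) (nat_lit 76) (nat_lit 34942273715) (nat_lit 76) (nat_lit 3826652497) (nat_lit 4) (nat_lit 4) (nat_lit 5) (nat_lit 5) (nat_lit 5) (nat_lit 4) (nat_lit 320) (nat_lit 242) (nat_lit 158)) (XT.lf (nat_lit 0) (nat_lit 49723989261) (nat_lit 76) (nat_lit 31645665524) (nat_lit 76) (nat_lit 505033500) (nat_lit 4) (nat_lit 4)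 (nat_lit 5) (nat_lit 5) (nat_lit 5) (nat_lit 4) (nat_lit 321) (nat_lit 242) (nat_lit 157))) (XT.nd (nat_lit 78) (nat_lit 0) (nat_lit 0) (XT.lf (nat_lit 0) (nat_lit 2879830096) (nat_lit 152) (nat_lit 25260800142) (nat_lit 76) (nat_lit 57573352263) (nat_lit 3) (nat_lit 5) (nat_lit 5) (nat_lit 5) (nat_lit 4) (nat_lit 4) (nat_lit 322) (nat_lit 242) (nat_lit 156)) (XT.lf (nat_lit 0) (nat_lit 6409943106) (nat_lit 152) (nat_lit 18046754010) (nat_lit 76) (nat_lit 65288495477) (nat_lit 3) (nat_lit 5) (nat_lit 5) (nat_lit 5) (nat_lit 4) (nat_lit 4) (nat_lit 323) (nat_lit 242) (nat_lit 155)))) (XT.nd (nat_lit 156) (nat_lit 76) (nat_lit 0) (XT.nd (nat_lit 78) (nat_lit 0) (nat_lit 0) (XT.lf (nat_lit 0) (nat_lit 10109874786) (nat_lit 152) (nat_lit 10483499341) (nat_lit 76) (nat_lit 73384936802) (nat_lit 3) (nat_lit 5) (nat_lit 5) (nat_lit 5) (nat_lit 4) (nat_lit 4) (nat_lit 324) (nat_lit 242) (nat_lit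 154)) (XT.lf (nat_lit 0) (nat_lit 13988434497) (nat_lit 152) (nat_lit 2553028387) (nat_lit 76) (nat_lit 81881953479) (nat_lit 3) (nat_lit 5) (nat_lit 5) (nat_lit 5) (nat_lit 4) (nat_lit 4) (nat_lit 325) (nat_lit 242) (nat_lit 153))) (XT.nd (nat_lit 78) (nat_lit 0) (nat_lit 0) (XT.lf (nat_lit 0) (nat_lit 5954109619) (nat_lit 76) (nat_lit 12193707623) (nat_lit 152) (nat_lit 84938627221) (nat_lit 2) (nat_lit 5) (nat_lit 3) (nat_lit 5) (nat_lit 4) (nat_lit 4) (nat_lit 326) (nat_lit 242) (nat_lit 152)) (XT.lf (nat_lit 0) (nat_lit 14964982866) (nat_lit 76) (nat_lit 7587486422) (nat_lit 152) (nat_lit 85428301237) (nat_lit 2) (nat_lit 5) (nat_lit 3) (nat_lit 5) (nat_lit 4) (nat_lit 4) (nat_lit 327) (nat_lit 242) (nat_lit 151))))) (XT.nd (nat_lit 312) (nat_lit 0) (nat_lit 0) (XT.nd (nat_lit 156) (nat_lit 0) (nat_lit 0) (XT.nd (nat_lit 78) (nat_lit 0) (nat_lit 0) (XT.lf (nat_lit 0) (nat_lit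 24416631167) (nat_lit 76) (nat_lit 2755068860) (nat_lit 152) (nat_lit 85948406578) (nat_lit 2) (nat_lit 5) (nat_lit 3) (nat_lit 5) (nat_lit 4) (nat_lit 4) (nat_lit 328) (nat_lit 242) (nat_lit 150)) (XT.lf (nat_lit 0) (nat_lit 32052652057) (nat_lit 152) (nat_lit 84221275201) (nat_lit 0) (nat_lit 2240954735) (nat_lit 2) (nat_lit 5) (nat_lit 4) (nat_lit 4) (nat_lit 2) (nat_lit 4) (nat_lit 329) (nat_lit 242) (nat_lit 149))) (XT.nd (nat_lit 78) (nat_lit 0) (nat_lit 0) (XT.lf (nat_lit 0) (nat_lit 37217630219) (nat_lit 152) (nat_lit 79569198568) (nat_lit 0) (nat_lit 7390578430) (nat_lit 2) (nat_lit 5) (nat_lit 4) (nat_lit 4) (nat_lit 2) (nat_lit 4) (nat_lit 330) (nat_lit 242) (nat_lit 148)) (XT.lf (nat_lit 0) (nat_lit 42635917732) (nat_lit 152) (nat_lit 74693154820) (nat_lit 0) (nat_lit 12794242643) (nat_lit 2) (nat_lit 5) (nat_lit 4) (nat_lit 4) (nat_lit 2) (nat_lit 4) (nat_lit 331) (nat_lit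 242) (nat_lit 147)))) (XT.nd (nat_lit 156) (nat_lit 0) (nat_lit 0) (XT.nd (nat_lit 78) (nat_lit 0) (nat_lit 0) (XT.lf (nat_lit 0) (nat_lit 48320415283) (nat_lit 152) (nat_lit 69581534329) (nat_lit 0) (nat_lit 18464813241) (nat_lit 2) (nat_lit 5) (nat_lit 4) (nat_lit 4) (nat_lit 2) (nat_lit 4) (nat_lit 332) (nat_lit 242) (nat_lit 146)) (XT.lf (nat_lit 0) (nat_lit 54284657389) (nat_lit 152) (nat_lit 64222166571) (nat_lit 0) (nat_lit 24415791582) (nat_lit 2) (nat_lit 5) (nat_lit 4) (nat_lit 4) (nat_lit 2) (nat_lit 4) (nat_lit 333) (nat_lit 242) (nat_lit 145))) (XT.nd (nat_lit 78) (nat_lit 0) (nat_lit 0) (XT.lf (nat_lit 0) (nat_lit 60542844627) (nat_lit 152) (nat_lit 58602291147) (nat_lit 0) (nat_lit 30661346663) (nat_lit 2) (nat_lit 5) (nat_lit 4) (nat_lit 4) (nat_lit 2) (nat_lit 4) (nat_lit 334) (nat_lit 242) (nat_lit 144)) (XT.nd (nat_lit 78) (nat_lit 0) (nat_lit 0) (XT.lf (nat_lit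 0) (nat_lit 67109877442) (nat_lit 152) (nat_lit 52708527399) (nat_lit 0) (nat_lit 37216348852) (nat_lit 2) (nat_lit 5) (nat_lit 4) (nat_lit 4) (nat_lit 2) (nat_lit 4) (nat_lit 335) (nat_lit 242) (nat_lit 143)) (XT.lf (nat_lit 0) (nat_lit 74001391627) (nat_lit 152) (nat_lit 46526842558) (nat_lit 0) (nat_lit 44096405298) (nat_lit 2) (nat_lit 5) (nat_lit 4) (nat_lit 4) (nat_lit 2) (nat_lit 4) (nat_lit 336) (nat_lit 242) (nat_lit 142))))))) (XT.nd (nat_lit 624) (nat_lit 0) (nat_lit 0) (XT.nd (nat_lit 312) (nat_lit 76) (nat_lit 0) (XT.nd (nat_lit 156) (nat_lit 0) (nat_lit 0) (XT.nd (nat_lit 78) (nat_lit 0) (nat_lit 0) (XT.lf (nat_lit 0) (nat_lit 81233795549) (nat_lit 152) (nat_lit 40042518326) (nat_lit 0) (nat_lit 51317897088) (nat_lit 2) (nat_lit 5) (nat_lit 4) (nat_lit 4) (nat_lit 2) (nat_lit 4) (nat_lit 337) (nat_lit 242) (nat_lit 141)) (XT.lf (nat_lit 0) (nat_lit 88824309216) (nat_lit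 152) (nat_lit 33240115837) (nat_lit 0) (nat_lit 58898018249) (nat_lit 2) (nat_lit 5) (nat_lit 4) (nat_lit 4) (nat_lit 2) (nat_lit 4) (nat_lit 338) (nat_lit 242) (nat_lit 140))) (XT.nd (nat_lit 78) (nat_lit 0) (nat_lit 0) (XT.lf (nat_lit 0) (nat_lit 96791005282) (nat_lit 152) (nat_lit 26103438893) (nat_lit 0) (nat_lit 66854816689) (nat_lit 2) (nat_lit 5) (nat_lit 4) (nat_lit 4) (nat_lit 2) (nat_lit 4) (nat_lit 339) (nat_lit 242) (nat_lit 139)) (XT.lf (nat_lit 0) (nat_lit 105152852070) (nat_lit 152) (nat_lit 18615495406) (nat_lit 0) (nat_lit 75207237167) (nat_lit 2) (nat_lit 5) (nat_lit 4) (nat_lit 4) (nat_lit 2) (nat_lit 4) (nat_lit 340) (nat_lit 242) (nat_lit 138)))) (XT.nd (nat_lit 156) (nat_lit 76) (nat_lit 0) (XT.nd (nat_lit 78) (nat_lit 0) (nat_lit 0) (XT.lf (nat_lit 0) (nat_lit 113929758738) (nat_lit 152) (nat_lit 10758456941) (nat_lit 0) (nat_lit 83975166397) (nat_lit 2) (nat_lit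 5) (nat_lit 4) (nat_lit 4) (nat_lit 2) (nat_lit 4) (nat_lit 341) (nat_lit 242) (nat_lit 137)) (XT.lf (nat_lit 0) (nat_lit 123142622684) (nat_lit 152) (nat_lit 2513616262) (nat_lit 0) (nat_lit 93179480402) (nat_lit 2) (nat_lit 5) (nat_lit 4) (nat_lit 4) (nat_lit 2) (nat_lit 4) (nat_lit 342) (nat_lit 242) (nat_lit 136))) (XT.nd (nat_lit 78) (nat_lit 0) (nat_lit 0) (XT.lf (nat_lit 0) (nat_lit 6341628933) (nat_lit 76) (nat_lit 126570760964) (nat_lit 76) (nat_lit 96599475881) (nat_lit 1) (nat_lit 4) (nat_lit 2) (nat_lit 5) (nat_lit 2) (nat_lit 4) (nat_lit 343) (nat_lit 242) (nat_lit 135)) (XT.lf (nat_lit 0) (nat_lit 15722171791) (nat_lit 76) (nat_lit 127488349563) (nat_lit 76) (nat_lit 97509309431) (nat_lit 1) (nat_lit 4) (nat_lit 2) (nat_lit 5) (nat_lit 2) (nat_lit 4) (nat_lit 344) (nat_lit 242) (nat_lit 134))))) (XT.nd (nat_lit 312) (nat_lit 0) (nat_lit 0) (XT.nd (nat_lit 156) (nat_lit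 0) (nat_lit 0) (XT.nd (nat_lit 78) (nat_lit 0) (nat_lit 0) (XT.lf (nat_lit 0) (nat_lit 25567235431) (nat_lit 76) (nat_lit 128453758783) (nat_lit 76) (nat_lit 98467332891) (nat_lit 1) (nat_lit 4) (nat_lit 2) (nat_lit 5) (nat_lit 2) (nat_lit 4) (nat_lit 345) (nat_lit 242) (nat_lit 133)) (XT.lf (nat_lit 0) (nat_lit 35900260480) (nat_lit 76) (nat_lit 129469287220) (nat_lit 76) (nat_lit 99475827270) (nat_lit 1) (nat_lit 4) (nat_lit 2) (nat_lit 5) (nat_lit 2) (nat_lit 4) (nat_lit 346) (nat_lit 242) (nat_lit 132))) (XT.nd (nat_lit 78) (nat_lit 0) (nat_lit 0) (XT.lf (nat_lit 0) (nat_lit 46745849381) (nat_lit 76) (nat_lit 130537352797) (nat_lit 76) (nat_lit 100537193745) (nat_lit 1) (nat_lit 4) (nat_lit 2) (nat_lit 5) (nat_lit 2) (nat_lit 4) (nat_lit 347) (nat_lit 242) (nat_lit 131)) (XT.lf (nat_lit 0) (nat_lit 58129824962) (nat_lit 76) (nat_lit 131660498529) (nat_lit 76) (nat_lit 101653959379)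 (nat_lit 1) (nat_lit 4) (nat_lit 2) (nat_lit 5) (nat_lit 2) (nat_lit 4) (nat_lit 348) (nat_lit 242) (nat_lit 130)))) (XT.nd (nat_lit 156) (nat_lit 0) (nat_lit 0) (XT.nd (nat_lit 78) (nat_lit 0) (nat_lit 0) (XT.lf (nat_lit 0) (nat_lit 70079291928) (nat_lit 76) (nat_lit 132841398571) (nat_lit 76) (nat_lit 102828783138) (nat_lit 1) (nat_lit 4) (nat_lit 2) (nat_lit 5) (nat_lit 2) (nat_lit 4) (nat_lit 349) (nat_lit 242) (nat_lit 129)) (XT.lf (nat_lit 0) (nat_lit 82622701391) (nat_lit 76) (nat_lit 134082864590) (nat_lit 76) (nat_lit 104064462220) (nat_lit 1) (nat_lit 4) (nat_lit 2) (nat_lit 5) (nat_lit 2) (nat_lit 4) (nat_lit 350) (nat_lit 242) (nat_lit 128))) (XT.nd (nat_lit 78) (nat_lit 0) (nat_lit 0) (XT.lf (nat_lit 0) (nat_lit 95789918612) (nat_lit 76) (nat_lit 135387852459) (nat_lit 76) (nat_lit 105363938720) (nat_lit 1) (nat_lit 4) (nat_lit 2) (nat_lit 5) (nat_lit 2) (nat_lit 4) (nat_lit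 351) (nat_lit 242) (nat_lit 127)) (XT.nd (nat_lit 78) (nat_lit 0) (nat_lit 0) (XT.lf (nat_lit 0) (nat_lit 109612294107) (nat_lit 76) (nat_lit 136759469290) (nat_lit 76) (nat_lit 106730306629) (nat_lit 1) (nat_lit 4) (nat_lit 2) (nat_lit 5) (nat_lit 2) (nat_lit 4) (nat_lit 352) (nat_lit 242) (nat_lit 126)) (XT.lf (nat_lit 0) (nat_lit 124122738294) (nat_lit 76) (nat_lit 138200980838) (nat_lit 76) (nat_lit 108166819204) (nat_lit 1) (nat_lit 4) (nat_lit 2) (nat_lit 5) (nat_lit 2) (nat_lit 4) (nat_lit 353) (nat_lit 242) (nat_lit 125))))))))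
noncomputable def xc120 : XT := (XT.nd (nat_lit 29718) (nat_lit 0) (nat_lit 2584) (XT.nd (nat_lit 29094) (nat_lit 0) (nat_lit 6232) (XT.nd (nat_lit 312) (nat_lit 0) (nat_lit 0) (XT.nd (nat_lit 156) (nat_lit 0) (nat_lit 0) (XT.nd (nat_lit 78) (nat_lit 0) (nat_lit 0) (XT.lf (nat_lit 0) (nat_lit 139355799851) (nat_lit 76) (nat_lit 139715819274) (nat_lit 76) (nat_lit 109676896713) (nat_lit 1) (nat_lit 4) (nat_lit 2) (nat_lit 5) (nat_lit 2) (nat_lit 4) (nat_lit 354) (nat_lit 242) (nat_lit 124)) (XT.lf (nat_lit 0) (nat_lit 155347747971) (nat_lit 76) (nat_lit 141307591355) (nat_lit 76) (nat_lit 111264134578) (nat_lit 1) (nat_lit 4) (nat_lit 2) (nat_lit 5) (nat_lit 2) (nat_lit 4) (nat_lit 355) (nat_lit 242) (nat_lit 123))) (XT.nd (nat_lit 78) (nat_lit 0) (nat_lit 0) (XT.lf (nat_lit 0) (nat_lit 172136658720) (nat_lit 76) (nat_lit 142980087015) (nat_lit 76) (nat_lit 112932311937) (nat_lit 1)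 (nat_lit 4) (nat_lit 2) (nat_lit 5) (nat_lit 2) (nat_lit 4) (nat_lit 356) (nat_lit 242) (nat_lit 122)) (XT.lf (nat_lit 0) (nat_lit 189762505698) (nat_lit 76) (nat_lit 144737288388) (nat_lit 76) (nat_lit 114685400641) (nat_lit 1) (nat_lit 4) (nat_lit 2) (nat_lit 5) (nat_lit 2) (nat_lit 4) (nat_lit 357) (nat_lit 242) (nat_lit 121)))) (XT.nd (nat_lit 28626) (nat_lit 0) (nat_lit 7296) (XT.nd (nat_lit 28548) (nat_lit 0) (nat_lit 7296) (XT.lf (nat_lit 0) (nat_lit 208267255204) (nat_lit 76) (nat_lit 146583379284) (nat_lit 76) (nat_lit 116527574712) (nat_lit 1) (nat_lit 4) (nat_lit 2) (nat_lit 5) (nat_lit 2) (nat_lit 4) (nat_lit 358) (nat_lit 242) (nat_lit 120)) (XT.lf (nat_lit 0) (nat_lit 415965018) (nat_lit 0) (nat_lit 415965018) (nat_lit 228) (nat_lit 2444651697) (nat_lit 97) (nat_lit 5) (nat_lit 97) (nat_lit 3) (nat_lit 100) (nat_lit 3) (nat_lit 243) (nat_lit 243) (nat_lit 234))) (XT.nd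 (nat_lit 78) (nat_lit 0) (nat_lit 0) (XT.lf (nat_lit 0) (nat_lit 3640407985) (nat_lit 0) (nat_lit 187007815) (nat_lit 228) (nat_lit 2766590491) (nat_lit 97) (nat_lit 5) (nat_lit 97) (nat_lit 3) (nat_lit 100) (nat_lit 3) (nat_lit 244) (nat_lit 243) (nat_lit 233)) (XT.lf (nat_lit 0) (nat_lit 5972030556) (nat_lit 228) (nat_lit 132083166) (nat_lit 304) (nat_lit 540214532) (nat_lit 97) (nat_lit 5) (nat_lit 100) (nat_lit 3) (nat_lit 101) (nat_lit 5) (nat_lit 245) (nat_lit 243) (nat_lit 232))))) (XT.nd (nat_lit 312) (nat_lit 380) (nat_lit 0) (XT.nd (nat_lit 156) (nat_lit 380) (nat_lit 0) (XT.nd (nat_lit 78) (nat_lit 0) (nat_lit 0) (XT.lf (nat_lit 0) (nat_lit 1394658491) (nat_lit 304) (nat_lit 3879413060) (nat_lit 380) (nat_lit 1427042860) (nat_lit 93) (nat_lit 5) (nat_lit 97) (nat_lit 5) (nat_lit 98) (nat_lit 5) (nat_lit 246) (nat_lit 243) (nat_lit 231)) (XT.lf (nat_lit 0) (nat_lit 3418304859)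 (nat_lit 304) (nat_lit 921045416) (nat_lit 380) (nat_lit 2427975599) (nat_lit 93) (nat_lit 5) (nat_lit 97) (nat_lit 5) (nat_lit 98) (nat_lit 5) (nat_lit 247) (nat_lit 243) (nat_lit 230))) (XT.nd (nat_lit 78) (nat_lit 380) (nat_lit 0) (XT.lf (nat_lit 76) (nat_lit 2181618240) (nat_lit 0) (nat_lit 3275254971) (nat_lit 380) (nat_lit 1385177109) (nat_lit 94) (nat_lit 5) (nat_lit 93) (nat_lit 5) (nat_lit 98) (nat_lit 5) (nat_lit 248) (nat_lit 243) (nat_lit 229)) (XT.lf (nat_lit 0) (nat_lit 552612213) (nat_lit 380) (nat_lit 1536148659) (nat_lit 456) (nat_lit 4837157594) (nat_lit 88) (nat_lit 5) (nat_lit 93) (nat_lit 5) (nat_lit 94) (nat_lit 5) (nat_lit 249) (nat_lit 243) (nat_lit 228)))) (XT.nd (nat_lit 156) (nat_lit 380) (nat_lit 0) (XT.nd (nat_lit 78) (nat_lit 0) (nat_lit 76) (XT.lf (nat_lit 76) (nat_lit 1702822144) (nat_lit 0) (nat_lit 751706388) (nat_lit 456) (nat_lit 4563394955) (nat_lit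 89) (nat_lit 5) (nat_lit 88) (nat_lit 5) (nat_lit 94) (nat_lit 5) (nat_lit 250) (nat_lit 243) (nat_lit 227)) (XT.lf (nat_lit 0) (nat_lit 4380181565) (nat_lit 380) (nat_lit 2045629242) (nat_lit 76) (nat_lit 693017615) (nat_lit 89) (nat_lit 5) (nat_lit 94) (nat_lit 5) (nat_lit 90) (nat_lit 5) (nat_lit 251) (nat_lit 243) (nat_lit 226))) (XT.nd (nat_lit 78) (nat_lit 76) (nat_lit 0) (XT.lf (nat_lit 0) (nat_lit 1342863731) (nat_lit 380) (nat_lit 4989700828) (nat_lit 456) (nat_lit 896388541) (nat_lit 84) (nat_lit 5) (nat_lit 89) (nat_lit 5) (nat_lit 90) (nat_lit 5) (nat_lit 252) (nat_lit 243) (nat_lit 225)) (XT.lf (nat_lit 0) (nat_lit 938607267) (nat_lit 456) (nat_lit 2465706514) (nat_lit 76) (nat_lit 3943399690) (nat_lit 83) (nat_lit 5) (nat_lit 89) (nat_lit 5) (nat_lit 84) (nat_lit 5) (nat_lit 253) (nat_lit 243) (nat_lit 224)))))) (XT.nd (nat_lit 624) (nat_lit 1292) (nat_lit 0) (XT.nd (nat_lit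 312) (nat_lit 1292) (nat_lit 0) (XT.nd (nat_lit 156) (nat_lit 608) (nat_lit 0) (XT.nd (nat_lit 78) (nat_lit 0) (nat_lit 0) (XT.lf (nat_lit 0) (nat_lit 1071109528) (nat_lit 456) (nat_lit 1684303594) (nat_lit 532) (nat_lit 4720856731) (nat_lit 77) (nat_lit 5) (nat_lit 83) (nat_lit 5) (nat_lit 84) (nat_lit 5) (nat_lit 254) (nat_lit 243) (nat_lit 223)) (XT.lf (nat_lit 0) (nat_lit 4614635273) (nat_lit 532) (nat_lit 2819898893) (nat_lit 76) (nat_lit 179714397) (nat_lit 77) (nat_lit 5) (nat_lit 84) (nat_lit 5) (nat_lit 78) (nat_lit 5) (nat_lit 255) (nat_lit 243) (nat_lit 222))) (XT.nd (nat_lit 78) (nat_lit 76) (nat_lit 0) (XT.lf (nat_lit 0) (nat_lit 870082997) (nat_lit 532) (nat_lit 5649582286) (nat_lit 608) (nat_lit 1242364597) (nat_lit 70) (nat_lit 5) (nat_lit 77) (nat_lit 5) (nat_lit 78) (nat_lit 5) (nat_lit 256) (nat_lit 243) (nat_lit 221)) (XT.lf (nat_lit 0) (nat_lit 544801754) (nat_lit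 608) (nat_lit 3159492668) (nat_lit 76) (nat_lit 4214863217) (nat_lit 69) (nat_lit 5) (nat_lit 77) (nat_lit 5) (nat_lit 70) (nat_lit 5) (nat_lit 257) (nat_lit 243) (nat_lit 220)))) (XT.nd (nat_lit 156) (nat_lit 684) (nat_lit 0) (XT.nd (nat_lit 78) (nat_lit 0) (nat_lit 0) (XT.lf (nat_lit 0) (nat_lit 687949374) (nat_lit 608) (nat_lit 1619325922) (nat_lit 684) (nat_lit 5779934800) (nat_lit 61) (nat_lit 5) (nat_lit 69) (nat_lit 5) (nat_lit 70) (nat_lit 5) (nat_lit 258) (nat_lit 243) (nat_lit 219)) (XT.lf (nat_lit 0) (nat_lit 4141069587) (nat_lit 684) (nat_lit 3510001841) (nat_lit 76) (nat_lit 613883097) (nat_lit 61) (nat_lit 5) (nat_lit 70) (nat_lit 5) (nat_lit 62) (nat_lit 5) (nat_lit 259) (nat_lit 243) (nat_lit 218))) (XT.nd (nat_lit 78) (nat_lit 0) (nat_lit 0) (XT.lf (nat_lit 0) (nat_lit 489811399) (nat_lit 684) (nat_lit 5534664196) (nat_lit 760) (nat_lit 2429642292) (nat_lit 52) (nat_lit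 5) (nat_lit 61) (nat_lit 5) (nat_lit 62) (nat_lit 5) (nat_lit 260) (nat_lit 243) (nat_lit 217)) (XT.lf (nat_lit 0) (nat_lit 4739613413) (nat_lit 684) (nat_lit 3248120449) (nat_lit 760) (nat_lit 666128901) (nat_lit 52) (nat_lit 5) (nat_lit 61) (nat_lit 5) (nat_lit 62) (nat_lit 5) (nat_lit 261) (nat_lit 243) (nat_lit 216))))) (XT.nd (nat_lit 312) (nat_lit 608) (nat_lit 0) (XT.nd (nat_lit 156) (nat_lit 304) (nat_lit 0) (XT.nd (nat_lit 78) (nat_lit 0) (nat_lit 0) (XT.lf (nat_lit 0) (nat_lit 256839106) (nat_lit 304) (nat_lit 823009292) (nat_lit 380) (nat_lit 7786578869) (nat_lit 47) (nat_lit 5) (nat_lit 51) (nat_lit 5) (nat_lit 52) (nat_lit 5) (nat_lit 262) (nat_lit 243) (nat_lit 215)) (XT.lf (nat_lit 0) (nat_lit 2915560128) (nat_lit 380) (nat_lit 4426692381) (nat_lit 76) (nat_lit 1745932352) (nat_lit 47) (nat_lit 5) (nat_lit 52) (nat_lit 5) (nat_lit 48) (nat_lit 5) (nat_lit 263) (nat_lit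 243) (nat_lit 214))) (XT.nd (nat_lit 78) (nat_lit 304) (nat_lit 0) (XT.lf (nat_lit 0) (nat_lit 4790396065) (nat_lit 380) (nat_lit 118476576) (nat_lit 76) (nat_lit 4415125962) (nat_lit 47) (nat_lit 5) (nat_lit 52) (nat_lit 5) (nat_lit 48) (nat_lit 5) (nat_lit 264) (nat_lit 243) (nat_lit 213)) (XT.lf (nat_lit 0) (nat_lit 4481605761) (nat_lit 304) (nat_lit 2284335289) (nat_lit 380) (nat_lit 2805632863) (nat_lit 43) (nat_lit 5) (nat_lit 47) (nat_lit 5) (nat_lit 48) (nat_lit 5) (nat_lit 265) (nat_lit 243) (nat_lit 212)))) (XT.nd (nat_lit 156) (nat_lit 304) (nat_lit 0) (XT.nd (nat_lit 78) (nat_lit 304) (nat_lit 0) (XT.lf (nat_lit 0) (nat_lit 8788554951) (nat_lit 380) (nat_lit 592198259) (nat_lit 76) (nat_lit 453664233) (nat_lit 43) (nat_lit 5) (nat_lit 48) (nat_lit 5) (nat_lit 44) (nat_lit 5) (nat_lit 266) (nat_lit 243) (nat_lit 211)) (XT.lf (nat_lit 0) (nat_lit 820878678) (nat_lit 304)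 (nat_lit 5961444017) (nat_lit 76) (nat_lit 3325497836) (nat_lit 39) (nat_lit 5) (nat_lit 43) (nat_lit 5) (nat_lit 40) (nat_lit 5) (nat_lit 267) (nat_lit 243) (nat_lit 210))) (XT.nd (nat_lit 78) (nat_lit 304) (nat_lit 0) (XT.lf (nat_lit 0) (nat_lit 2698371594) (nat_lit 304) (nat_lit 1336256077) (nat_lit 76) (nat_lit 6362043351) (nat_lit 39) (nat_lit 5) (nat_lit 43) (nat_lit 5) (nat_lit 40) (nat_lit 5) (nat_lit 268) (nat_lit 243) (nat_lit 209)) (XT.nd (nat_lit 78) (nat_lit 0) (nat_lit 0) (XT.lf (nat_lit 0) (nat_lit 3570671351) (nat_lit 304) (nat_lit 1099929275) (nat_lit 380) (nat_lit 6029570473) (nat_lit 35) (nat_lit 5) (nat_lit 39) (nat_lit 5) (nat_lit 40) (nat_lit 5) (nat_lit 269) (nat_lit 243) (nat_lit 208)) (XT.lf (nat_lit 0) (nat_lit 6741977263) (nat_lit 380) (nat_lit 2345212368) (nat_lit 76) (nat_lit 1931867962) (nat_lit 35) (nat_lit 5) (nat_lit 40) (nat_lit 5) (nat_lit 36) (nat_lit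 5) (nat_lit 270) (nat_lit 243) (nat_lit 207))))))))
noncomputable def xc121 : XT := (XT.nd (nat_lit 1326) (nat_lit 532) (nat_lit 0) (XT.nd (nat_lit 624) (nat_lit 608) (nat_lit 0) (XT.nd (nat_lit 312) (nat_lit 380) (nat_lit 0) (XT.nd (nat_lit 156) (nat_lit 304) (nat_lit 0) (XT.nd (nat_lit 78) (nat_lit 0) (nat_lit 0) (XT.lf (nat_lit 0) (nat_lit 2683747950) (nat_lit 228) (nat_lit 6242248372) (nat_lit 304) (nat_lit 2427665290) (nat_lit 32) (nat_lit 5) (nat_lit 35) (nat_lit 5) (nat_lit 36) (nat_lit 5) (nat_lit 271) (nat_lit 243) (nat_lit 206)) (XT.lf (nat_lit 0) (nat_lit 7984176820) (nat_lit 228) (nat_lit 3225361180) (nat_lit 304) (nat_lit 496157821) (nat_lit 32) (nat_lit 5) (nat_lit 35) (nat_lit 5) (nat_lit 36) (nat_lit 5) (nat_lit 272) (nat_lit 243) (nat_lit 205))) (XT.nd (nat_lit 78) (nat_lit 0) (nat_lit 0) (XT.lf (nat_lit 0) (nat_lit 1436081653) (nat_lit 228) (nat_lit 21219590) (nat_lit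 304) (nat_lit 10618310234) (nat_lit 28) (nat_lit 5) (nat_lit 31) (nat_lit 5) (nat_lit 32) (nat_lit 5) (nat_lit 273) (nat_lit 243) (nat_lit 204)) (XT.lf (nat_lit 0) (nat_lit 3561163250) (nat_lit 304) (nat_lit 5603078904) (nat_lit 76) (nat_lit 3296090520) (nat_lit 28) (nat_lit 5) (nat_lit 32) (nat_lit 5) (nat_lit 29) (nat_lit 5) (nat_lit 274) (nat_lit 243) (nat_lit 203)))) (XT.nd (nat_lit 156) (nat_lit 228) (nat_lit 0) (XT.nd (nat_lit 78) (nat_lit 152) (nat_lit 0) (XT.lf (nat_lit 0) (nat_lit 5725946786) (nat_lit 304) (nat_lit 373829296) (nat_lit 76) (nat_lit 6766905193) (nat_lit 28) (nat_lit 5) (nat_lit 32) (nat_lit 5) (nat_lit 29) (nat_lit 5) (nat_lit 275) (nat_lit 243) (nat_lit 202)) (XT.lf (nat_lit 0) (nat_lit 5228340438) (nat_lit 152) (nat_lit 2809763412) (nat_lit 228) (nat_lit 5253456040) (nat_lit 26) (nat_lit 5) (nat_lit 28) (nat_lit 5) (nat_lit 29) (nat_lit 5) (nat_lit 276) (nat_lit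 243) (nat_lit 201))) (XT.nd (nat_lit 78) (nat_lit 228) (nat_lit 0) (XT.lf (nat_lit 0) (nat_lit 10440827214) (nat_lit 228) (nat_lit 2680934020) (nat_lit 76) (nat_lit 617334516) (nat_lit 26) (nat_lit 5) (nat_lit 29) (nat_lit 5) (nat_lit 27) (nat_lit 5) (nat_lit 277) (nat_lit 243) (nat_lit 200)) (XT.lf (nat_lit 0) (nat_lit 2965022103) (nat_lit 228) (nat_lit 10051454193) (nat_lit 304) (nat_lit 1190046190) (nat_lit 23) (nat_lit 5) (nat_lit 26) (nat_lit 5) (nat_lit 27) (nat_lit 5) (nat_lit 278) (nat_lit 243) (nat_lit 199))))) (XT.nd (nat_lit 312) (nat_lit 380) (nat_lit 0) (XT.nd (nat_lit 156) (nat_lit 152) (nat_lit 0) (XT.nd (nat_lit 78) (nat_lit 0) (nat_lit 0) (XT.lf (nat_lit 0) (nat_lit 997686125) (nat_lit 304) (nat_lit 5780267683) (nat_lit 76) (nat_lit 7918363979) (nat_lit 22) (nat_lit 5) (nat_lit 26) (nat_lit 5) (nat_lit 23) (nat_lit 5) (nat_lit 279) (nat_lit 243) (nat_lit 198)) (XT.lf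 (nat_lit 0) (nat_lit 3217395333) (nat_lit 304) (nat_lit 117714589) (nat_lit 76) (nat_lit 11876520953) (nat_lit 22) (nat_lit 5) (nat_lit 26) (nat_lit 5) (nat_lit 23) (nat_lit 5) (nat_lit 280) (nat_lit 243) (nat_lit 197))) (XT.nd (nat_lit 78) (nat_lit 0) (nat_lit 0) (XT.lf (nat_lit 0) (nat_lit 5611329649) (nat_lit 228) (nat_lit 9786359790) (nat_lit 76) (nat_lit 351984530) (nat_lit 20) (nat_lit 5) (nat_lit 23) (nat_lit 5) (nat_lit 21) (nat_lit 5) (nat_lit 281) (nat_lit 243) (nat_lit 196)) (XT.lf (nat_lit 0) (nat_lit 8146736628) (nat_lit 228) (nat_lit 4067320753) (nat_lit 76) (nat_lit 4099593359) (nat_lit 20) (nat_lit 5) (nat_lit 23) (nat_lit 5) (nat_lit 21) (nat_lit 5) (nat_lit 282) (nat_lit 243) (nat_lit 195)))) (XT.nd (nat_lit 156) (nat_lit 228) (nat_lit 0) (XT.nd (nat_lit 78) (nat_lit 0) (nat_lit 0) (XT.lf (nat_lit 0) (nat_lit 1951978331) (nat_lit 152) (nat_lit 8854150312) (nat_lit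 228) (nat_lit 6099951560) (nat_lit 18) (nat_lit 5) (nat_lit 20) (nat_lit 5) (nat_lit 21) (nat_lit 5) (nat_lit 283) (nat_lit 243) (nat_lit 194)) (XT.lf (nat_lit 0) (nat_lit 8366060057) (nat_lit 152) (nat_lit 5268895053) (nat_lit 228) (nat_lit 3891461921) (nat_lit 18) (nat_lit 5) (nat_lit 20) (nat_lit 5) (nat_lit 21) (nat_lit 5) (nat_lit 284) (nat_lit 243) (nat_lit 193))) (XT.nd (nat_lit 78) (nat_lit 228) (nat_lit 0) (XT.lf (nat_lit 0) (nat_lit 15055712053) (nat_lit 152) (nat_lit 1518637325) (nat_lit 228) (nat_lit 1605068932) (nat_lit 18) (nat_lit 5) (nat_lit 20) (nat_lit 5) (nat_lit 21) (nat_lit 5) (nat_lit 285) (nat_lit 243) (nat_lit 192)) (XT.nd (nat_lit 78) (nat_lit 0) (nat_lit 0) (XT.lf (nat_lit 0) (nat_lit 829725226) (nat_lit 228) (nat_lit 15639371335) (nat_lit 76) (nat_lit 2392468900) (nat_lit 15) (nat_lit 5) (nat_lit 18) (nat_lit 5) (nat_lit 16) (nat_lit 5) (nat_lit 286) (nat_lit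 243) (nat_lit 191)) (XT.lf (nat_lit 0) (nat_lit 3381531590) (nat_lit 228) (nat_lit 9678102954) (nat_lit 76) (nat_lit 6514498911) (nat_lit 15) (nat_lit 5) (nat_lit 18) (nat_lit 5) (nat_lit 16) (nat_lit 5) (nat_lit 287) (nat_lit 243) (nat_lit 190))))))) (XT.nd (nat_lit 624) (nat_lit 228) (nat_lit 0) (XT.nd (nat_lit 312) (nat_lit 152) (nat_lit 0) (XT.nd (nat_lit 156) (nat_lit 0) (nat_lit 0) (XT.nd (nat_lit 78) (nat_lit 152) (nat_lit 0) (XT.lf (nat_lit 0) (nat_lit 6032879635) (nat_lit 228) (nat_lit 3461333134) (nat_lit 76) (nat_lit 10829605021) (nat_lit 15) (nat_lit 5) (nat_lit 18) (nat_lit 5) (nat_lit 16) (nat_lit 5) (nat_lit 288) (nat_lit 243) (nat_lit 189)) (XT.lf (nat_lit 0) (nat_lit 3125784585) (nat_lit 152) (nat_lit 5713099765) (nat_lit 228) (nat_lit 12271078964) (nat_lit 13) (nat_lit 5) (nat_lit 15) (nat_lit 5) (nat_lit 16) (nat_lit 5) (nat_lit 289) (nat_lit 243) (nat_lit 188)))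 (XT.nd (nat_lit 78) (nat_lit 0) (nat_lit 0) (XT.lf (nat_lit 0) (nat_lit 10122546435) (nat_lit 152) (nat_lit 1695198614) (nat_lit 228) (nat_lit 10116120834) (nat_lit 13) (nat_lit 5) (nat_lit 15) (nat_lit 5) (nat_lit 16) (nat_lit 5) (nat_lit 290) (nat_lit 243) (nat_lit 187)) (XT.lf (nat_lit 0) (nat_lit 14959921275) (nat_lit 228) (nat_lit 5408309474) (nat_lit 76) (nat_lit 2430088075) (nat_lit 13) (nat_lit 5) (nat_lit 16) (nat_lit 5) (nat_lit 14) (nat_lit 4) (nat_lit 291) (nat_lit 243) (nat_lit 186)))) (XT.nd (nat_lit 156) (nat_lit 76) (nat_lit 0) (XT.nd (nat_lit 78) (nat_lit 0) (nat_lit 0) (XT.lf (nat_lit 0) (nat_lit 1291155579) (nat_lit 76) (nat_lit 16992163297) (nat_lit 152) (nat_lit 5421540254) (nat_lit 12) (nat_lit 5) (nat_lit 13) (nat_lit 5) (nat_lit 14) (nat_lit 4) (nat_lit 292) (nat_lit 243) (nat_lit 185)) (XT.lf (nat_lit 0) (nat_lit 8476728346) (nat_lit 76) (nat_lit 13364477375)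 (nat_lit 152) (nat_lit 2812171760) (nat_lit 12) (nat_lit 5) (nat_lit 13) (nat_lit 5) (nat_lit 14) (nat_lit 4) (nat_lit 293) (nat_lit 243) (nat_lit 184))) (XT.nd (nat_lit 78) (nat_lit 76) (nat_lit 0) (XT.lf (nat_lit 0) (nat_lit 15986694197) (nat_lit 76) (nat_lit 9568127974) (nat_lit 152) (nat_lit 95671623) (nat_lit 12) (nat_lit 5) (nat_lit 13) (nat_lit 5) (nat_lit 14) (nat_lit 4) (nat_lit 294) (nat_lit 243) (nat_lit 183)) (XT.lf (nat_lit 0) (nat_lit 2646909240) (nat_lit 152) (nat_lit 2902340238) (nat_lit 76) (nat_lit 21147198074) (nat_lit 11) (nat_lit 5) (nat_lit 13) (nat_lit 5) (nat_lit 12) (nat_lit 5) (nat_lit 295) (nat_lit 243) (nat_lit 182))))) (XT.nd (nat_lit 312) (nat_lit 76) (nat_lit 0) (XT.nd (nat_lit 156) (nat_lit 0) (nat_lit 0) (XT.nd (nat_lit 78) (nat_lit 0) (nat_lit 0) (XT.lf (nat_lit 0) (nat_lit 4300904685) (nat_lit 152) (nat_lit 1269158776) (nat_lit 228) (nat_lit 22222279260)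 (nat_lit 9) (nat_lit 5) (nat_lit 11) (nat_lit 5) (nat_lit 12) (nat_lit 5) (nat_lit 296) (nat_lit 243) (nat_lit 181)) (XT.lf (nat_lit 0) (nat_lit 8719487850) (nat_lit 228) (nat_lit 17059377378) (nat_lit 76) (nat_lit 3160214294) (nat_lit 9) (nat_lit 5) (nat_lit 12) (nat_lit 5) (nat_lit 10) (nat_lit 4) (nat_lit 297) (nat_lit 243) (nat_lit 180))) (XT.nd (nat_lit 78) (nat_lit 0) (nat_lit 0) (XT.lf (nat_lit 0) (nat_lit 12027954905) (nat_lit 228) (nat_lit 10357682265) (nat_lit 76) (nat_lit 7757487413) (nat_lit 9) (nat_lit 5) (nat_lit 12) (nat_lit 5) (nat_lit 10) (nat_lit 4) (nat_lit 298) (nat_lit 243) (nat_lit 179)) (XT.lf (nat_lit 0) (nat_lit 15483526805) (nat_lit 228) (nat_lit 3350581157) (nat_lit 76) (nat_lit 12574227476) (nat_lit 9) (nat_lit 5) (nat_lit 12) (nat_lit 5) (nat_lit 10) (nat_lit 4) (nat_lit 299) (nat_lit 243) (nat_lit 178)))) (XT.nd (nat_lit 156) (nat_lit 0) (nat_lit 0) (XT.nd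 (nat_lit 78) (nat_lit 0) (nat_lit 0) (XT.lf (nat_lit 0) (nat_lit 4110160317) (nat_lit 76) (nat_lit 15048441905) (nat_lit 152) (nat_lit 13575913714) (nat_lit 8) (nat_lit 5) (nat_lit 9) (nat_lit 5) (nat_lit 10) (nat_lit 4) (nat_lit 300) (nat_lit 243) (nat_lit 177)) (XT.lf (nat_lit 0) (nat_lit 12032453888) (nat_lit 76) (nat_lit 11024671623) (nat_lit 152) (nat_lit 11067938431) (nat_lit 8) (nat_lit 5) (nat_lit 9) (nat_lit 5) (nat_lit 10) (nat_lit 4) (nat_lit 301) (nat_lit 243) (nat_lit 176))) (XT.nd (nat_lit 78) (nat_lit 0) (nat_lit 0) (XT.lf (nat_lit 0) (nat_lit 20324376812) (nat_lit 76) (nat_lit 6809960426) (nat_lit 152) (nat_lit 8451655127) (nat_lit 8) (nat_lit 5) (nat_lit 9) (nat_lit 5) (nat_lit 10) (nat_lit 4) (nat_lit 302) (nat_lit 243) (nat_lit 175)) (XT.nd (nat_lit 78) (nat_lit 0) (nat_lit 0) (XT.lf (nat_lit 0) (nat_lit 29005671763) (nat_lit 76) (nat_lit 2394273287) (nat_lit 152)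 (nat_lit 5720834557) (nat_lit 8) (nat_lit 5) (nat_lit 9) (nat_lit 5) (nat_lit 10) (nat_lit 4) (nat_lit 303) (nat_lit 243) (nat_lit 174)) (XT.lf (nat_lit 0) (nat_lit 35898967035) (nat_lit 152) (nat_lit 670933310) (nat_lit 0) (nat_lit 2161436483) (nat_lit 8) (nat_lit 5) (nat_lit 10) (nat_lit 4) (nat_lit 8) (nat_lit 4) (nat_lit 304) (nat_lit 243) (nat_lit 173))))))))
noncomputable def xc122 : XT := (XT.nd (nat_lit 1326) (nat_lit 152) (nat_lit 0) (XT.nd (nat_lit 624) (nat_lit 76) (nat_lit 0) (XT.nd (nat_lit 312) (nat_lit 76) (nat_lit 0) (XT.nd (nat_lit 156) (nat_lit 0) (nat_lit 0) (XT.nd (nat_lit 78) (nat_lit 0) (nat_lit 0) (XT.lf (nat_lit 0) (nat_lit 335672824) (nat_lit 152) (nat_lit 33103996715) (nat_lit 76) (nat_lit 6975551055) (nat_lit 6) (nat_lit 5) (nat_lit 8) (nat_lit 5) (nat_lit 7) (nat_lit 4) (nat_lit 305) (nat_lit 243) (nat_lit 172)) (XT.lf (nat_lit 0) (nat_lit 3564369321) (nat_lit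 152) (nat_lit 26537164568) (nat_lit 76) (nat_lit 12079603374) (nat_lit 6) (nat_lit 5) (nat_lit 8) (nat_lit 5) (nat_lit 7) (nat_lit 4) (nat_lit 306) (nat_lit 243) (nat_lit 171))) (XT.nd (nat_lit 78) (nat_lit 0) (nat_lit 0) (XT.lf (nat_lit 0) (nat_lit 6941061682) (nat_lit 152) (nat_lit 19664464913) (nat_lit 76) (nat_lit 17430525811) (nat_lit 6) (nat_lit 5) (nat_lit 8) (nat_lit 5) (nat_lit 7) (nat_lit 4) (nat_lit 307) (nat_lit 243) (nat_lit 170)) (XT.lf (nat_lit 0) (nat_lit 10473789653) (nat_lit 152) (nat_lit 12469534180) (nat_lit 76) (nat_lit 23041058655) (nat_lit 6) (nat_lit 5) (nat_lit 8) (nat_lit 5) (nat_lit 7) (nat_lit 4) (nat_lit 308) (nat_lit 243) (nat_lit 169)))) (XT.nd (nat_lit 156) (nat_lit 0) (nat_lit 0) (XT.nd (nat_lit 78) (nat_lit 76) (nat_lit 0) (XT.lf (nat_lit 0) (nat_lit 14170964490) (nat_lit 152) (nat_lit 4935241580) (nat_lit 76) (nat_lit 28924560320) (nat_lit 6) (nat_lit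 5) (nat_lit 8) (nat_lit 5) (nat_lit 7) (nat_lit 4) (nat_lit 309) (nat_lit 243) (nat_lit 168)) (XT.lf (nat_lit 0) (nat_lit 3054102014) (nat_lit 76) (nat_lit 15034970066) (nat_lit 152) (nat_lit 32088620218) (nat_lit 5) (nat_lit 5) (nat_lit 6) (nat_lit 5) (nat_lit 7) (nat_lit 4) (nat_lit 310) (nat_lit 243) (nat_lit 167))) (XT.nd (nat_lit 78) (nat_lit 0) (nat_lit 0) (XT.lf (nat_lit 0) (nat_lit 11595152389) (nat_lit 76) (nat_lit 10680158883) (nat_lit 152) (nat_lit 30153067170) (nat_lit 5) (nat_lit 5) (nat_lit 6) (nat_lit 5) (nat_lit 7) (nat_lit 4) (nat_lit 311) (nat_lit 243) (nat_lit 166)) (XT.lf (nat_lit 0) (nat_lit 20545064004) (nat_lit 76) (nat_lit 6114984627) (nat_lit 152) (nat_lit 28132115002) (nat_lit 5) (nat_lit 5) (nat_lit 6) (nat_lit 5) (nat_lit 7) (nat_lit 4) (nat_lit 312) (nat_lit 243) (nat_lit 165))))) (XT.nd (nat_lit 312) (nat_lit 76) (nat_lit 0) (XT.nd (nat_lit 156) (nat_lit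 0) (nat_lit 0) (XT.nd (nat_lit 78) (nat_lit 0) (nat_lit 0) (XT.lf (nat_lit 0) (nat_lit 29925146171) (nat_lit 76) (nat_lit 1328577836) (nat_lit 152) (nat_lit 26020951921) (nat_lit 5) (nat_lit 5) (nat_lit 6) (nat_lit 5) (nat_lit 7) (nat_lit 4) (nat_lit 313) (nat_lit 243) (nat_lit 164)) (XT.lf (nat_lit 0) (nat_lit 36124893109) (nat_lit 152) (nat_lit 20181712039) (nat_lit 0) (nat_lit 3572340004) (nat_lit 5) (nat_lit 5) (nat_lit 7) (nat_lit 4) (nat_lit 5) (nat_lit 4) (nat_lit 314) (nat_lit 243) (nat_lit 163))) (XT.nd (nat_lit 78) (nat_lit 0) (nat_lit 0) (XT.lf (nat_lit 0) (nat_lit 41251959769) (nat_lit 152) (nat_lit 12693386053) (nat_lit 0) (nat_lit 8667485833) (nat_lit 5) (nat_lit 5) (nat_lit 7) (nat_lit 4) (nat_lit 5) (nat_lit 4) (nat_lit 315) (nat_lit 243) (nat_lit 162)) (XT.lf (nat_lit 0) (nat_lit 46626388467) (nat_lit 152) (nat_lit 4845979629) (nat_lit 0) (nat_lit 14011513738) (nat_lit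 5) (nat_lit 5) (nat_lit 7) (nat_lit 4) (nat_lit 5) (nat_lit 4) (nat_lit 316) (nat_lit 243) (nat_lit 161)))) (XT.nd (nat_lit 156) (nat_lit 0) (nat_lit 0) (XT.nd (nat_lit 78) (nat_lit 0) (nat_lit 0) (XT.lf (nat_lit 0) (nat_lit 3490922868) (nat_lit 76) (nat_lit 48824555681) (nat_lit 76) (nat_lit 16180727818) (nat_lit 4) (nat_lit 4) (nat_lit 5) (nat_lit 5) (nat_lit 5) (nat_lit 4) (nat_lit 317) (nat_lit 243) (nat_lit 160)) (XT.lf (nat_lit 0) (nat_lit 12398541953) (nat_lit 76) (nat_lit 45964170466) (nat_lit 76) (nat_lit 13292768188) (nat_lit 4) (nat_lit 4) (nat_lit 5) (nat_lit 5) (nat_lit 5) (nat_lit 4) (nat_lit 318) (nat_lit 243) (nat_lit 159))) (XT.nd (nat_lit 78) (nat_lit 0) (nat_lit 0) (XT.lf (nat_lit 0) (nat_lit 21737856271) (nat_lit 76) (nat_lit 42966471020) (nat_lit 76) (nat_lit 10268807395) (nat_lit 4) (nat_lit 4) (nat_lit 5) (nat_lit 5) (nat_lit 5) (nat_lit 4) (nat_lit 319) (nat_lit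 243) (nat_lit 158)) (XT.nd (nat_lit 78) (nat_lit 0) (nat_lit 0) (XT.lf (nat_lit 0) (nat_lit 31531102284) (nat_lit 76) (nat_lit 39824319962) (nat_lit 76) (nat_lit 7101645530) (nat_lit 4) (nat_lit 4) (nat_lit 5) (nat_lit 5) (nat_lit 5) (nat_lit 4) (nat_lit 320) (nat_lit 243) (nat_lit 157)) (XT.lf (nat_lit 0) (nat_lit 41801597245) (nat_lit 76) (nat_lit 36530235982) (nat_lit 76) (nat_lit 3783741734) (nat_lit 4) (nat_lit 4) (nat_lit 5) (nat_lit 5) (nat_lit 5) (nat_lit 4) (nat_lit 321) (nat_lit 243) (nat_lit 156))))))) (XT.nd (nat_lit 624) (nat_lit 0) (nat_lit 0) (XT.nd (nat_lit 312) (nat_lit 76) (nat_lit 0) (XT.nd (nat_lit 156) (nat_lit 0) (nat_lit 0) (XT.nd (nat_lit 78) (nat_lit 76) (nat_lit 0) (XT.lf (nat_lit 0) (nat_lit 52573794714) (nat_lit 76) (nat_lit 33076376021) (nat_lit 76) (nat_lit 307196234) (nat_lit 4) (nat_lit 4) (nat_lit 5) (nat_lit 5) (nat_lit 5) (nat_lit 4) (nat_lit 322)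 (nat_lit 243) (nat_lit 155)) (XT.lf (nat_lit 0) (nat_lit 3229487031) (nat_lit 152) (nat_lit 26170336646) (nat_lit 76) (nat_lit 60589162821) (nat_lit 3) (nat_lit 5) (nat_lit 5) (nat_lit 5) (nat_lit 4) (nat_lit 4) (nat_lit 323) (nat_lit 243) (nat_lit 154))) (XT.nd (nat_lit 78) (nat_lit 0) (nat_lit 0) (XT.lf (nat_lit 0) (nat_lit 6926312100) (nat_lit 152) (nat_lit 18612421708) (nat_lit 76) (nat_lit 68683532579) (nat_lit 3) (nat_lit 5) (nat_lit 5) (nat_lit 5) (nat_lit 4) (nat_lit 4) (nat_lit 324) (nat_lit 243) (nat_lit 153)) (XT.lf (nat_lit 0) (nat_lit 10801913133) (nat_lit 152) (nat_lit 10687036211) (nat_lit 76) (nat_lit 77178576335) (nat_lit 3) (nat_lit 5) (nat_lit 5) (nat_lit 5) (nat_lit 4) (nat_lit 4) (nat_lit 325) (nat_lit 243) (nat_lit 152)))) (XT.nd (nat_lit 156) (nat_lit 0) (nat_lit 0) (XT.nd (nat_lit 78) (nat_lit 76) (nat_lit 0) (XT.lf (nat_lit 0) (nat_lit 14865517753) (nat_lit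 152) (nat_lit 2375310190) (nat_lit 76) (nat_lit 86094520385) (nat_lit 3) (nat_lit 5) (nat_lit 5) (nat_lit 5) (nat_lit 4) (nat_lit 4) (nat_lit 326) (nat_lit 243) (nat_lit 151)) (XT.lf (nat_lit 0) (nat_lit 6552259400) (nat_lit 76) (nat_lit 12676840940) (nat_lit 152) (nat_lit 89002632899) (nat_lit 2) (nat_lit 5) (nat_lit 3) (nat_lit 5) (nat_lit 4) (nat_lit 4) (nat_lit 327) (nat_lit 243) (nat_lit 150))) (XT.nd (nat_lit 78) (nat_lit 0) (nat_lit 0) (XT.lf (nat_lit 0) (nat_lit 15999369438) (nat_lit 76) (nat_lit 7846334968) (nat_lit 152) (nat_lit 89525501363) (nat_lit 2) (nat_lit 5) (nat_lit 3) (nat_lit 5) (nat_lit 4) (nat_lit 4) (nat_lit 328) (nat_lit 243) (nat_lit 149)) (XT.lf (nat_lit 0) (nat_lit 25909974562) (nat_lit 76) (nat_lit 2778035851) (nat_lit 152) (nat_lit 90079907920) (nat_lit 2) (nat_lit 5) (nat_lit 3) (nat_lit 5) (nat_lit 4) (nat_lit 4) (nat_lit 329) (nat_lit 243) (nat_lit 148)))))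 (XT.nd (nat_lit 312) (nat_lit 0) (nat_lit 0) (XT.nd (nat_lit 156) (nat_lit 0) (nat_lit 0) (XT.nd (nat_lit 78) (nat_lit 0) (nat_lit 0) (XT.lf (nat_lit 0) (nat_lit 33807206110) (nat_lit 152) (nat_lit 88166707246) (nat_lit 0) (nat_lit 2458823966) (nat_lit 2) (nat_lit 5) (nat_lit 4) (nat_lit 4) (nat_lit 2) (nat_lit 4) (nat_lit 330) (nat_lit 243) (nat_lit 147)) (XT.lf (nat_lit 0) (nat_lit 39223198825) (nat_lit 152) (nat_lit 83294675910) (nat_lit 0) (nat_lit 7860889727) (nat_lit 2) (nat_lit 5) (nat_lit 4) (nat_lit 4) (nat_lit 2) (nat_lit 4) (nat_lit 331) (nat_lit 243) (nat_lit 146))) (XT.nd (nat_lit 78) (nat_lit 0) (nat_lit 0) (XT.lf (nat_lit 0) (nat_lit 44905510853) (nat_lit 152) (nat_lit 78186876765) (nat_lit 0) (nat_lit 13529937990) (nat_lit 2) (nat_lit 5) (nat_lit 4) (nat_lit 4) (nat_lit 2) (nat_lit 4) (nat_lit 332) (nat_lit 243) (nat_lit 145)) (XT.lf (nat_lit 0) (nat_lit 50867671508)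 (nat_lit 152) (nat_lit 72831148383) (nat_lit 0) (nat_lit 19479466489) (nat_lit 2) (nat_lit 5) (nat_lit 4) (nat_lit 4) (nat_lit 2) (nat_lit 4) (nat_lit 333) (nat_lit 243) (nat_lit 144)))) (XT.nd (nat_lit 156) (nat_lit 0) (nat_lit 0) (XT.nd (nat_lit 78) (nat_lit 0) (nat_lit 0) (XT.lf (nat_lit 0) (nat_lit 57123876412) (nat_lit 152) (nat_lit 67214739031) (nat_lit 0) (nat_lit 25723640767) (nat_lit 2) (nat_lit 5) (nat_lit 4) (nat_lit 4) (nat_lit 2) (nat_lit 4) (nat_lit 334) (nat_lit 243) (nat_lit 143)) (XT.lf (nat_lit 0) (nat_lit 63689021290) (nat_lit 152) (nat_lit 61324276304) (nat_lit 0) (nat_lit 32277327906) (nat_lit 2) (nat_lit 5) (nat_lit 4) (nat_lit 4) (nat_lit 2) (nat_lit 4) (nat_lit 335) (nat_lit 243) (nat_lit 142))) (XT.nd (nat_lit 78) (nat_lit 0) (nat_lit 0) (XT.lf (nat_lit 0) (nat_lit 70578737439) (nat_lit 152) (nat_lit 55145735293) (nat_lit 0) (nat_lit 39156131924) (nat_lit 2)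 (nat_lit 5) (nat_lit 4) (nat_lit 4) (nat_lit 2) (nat_lit 4) (nat_lit 336) (nat_lit 243) (nat_lit 141)) (XT.nd (nat_lit 78) (nat_lit 0) (nat_lit 0) (XT.lf (nat_lit 0) (nat_lit 77809428946) (nat_lit 152) (nat_lit 48664405185) (nat_lit 0) (nat_lit 46376430924) (nat_lit 2) (nat_lit 5) (nat_lit 4) (nat_lit 4) (nat_lit 2) (nat_lit 4) (nat_lit 337) (nat_lit 243) (nat_lit 140)) (XT.lf (nat_lit 0) (nat_lit 85398311743) (nat_lit 152) (nat_lit 41864854242) (nat_lit 0) (nat_lit 53955416095) (nat_lit 2) (nat_lit 5) (nat_lit 4) (nat_lit 4) (nat_lit 2) (nat_lit 4) (nat_lit 338) (nat_lit 243) (nat_lit 139))))))))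
noncomputable def xc123 : XT := (XT.nd (nat_lit 1326) (nat_lit 0) (nat_lit 0) (XT.nd (nat_lit 624) (nat_lit 0) (nat_lit 0) (XT.nd (nat_lit 312) (nat_lit 76) (nat_lit 0) (XT.nd (nat_lit 156) (nat_lit 0) (nat_lit 0) (XT.nd (nat_lit 78) (nat_lit 0) (nat_lit 0) (XT.lf (nat_lit 0) (nat_lit 93363454599) (nat_lit 152) (nat_lit 34730893057) (nat_lit 0) (nat_lit 61911132641) (nat_lit 2) (nat_lit 5) (nat_lit 4) (nat_lit 4) (nat_lit 2) (nat_lit 4) (nat_lit 339) (nat_lit 243) (nat_lit 138)) (XT.lf (nat_lit 0) (nat_lit 101723822138) (nat_lit 152) (nat_lit 27245536007) (nat_lit 0) (nat_lit 70262522742) (nat_lit 2) (nat_lit 5) (nat_lit 4) (nat_lit 4) (nat_lit 2) (nat_lit 4) (nat_lit 340) (nat_lit 243) (nat_lit 137))) (XT.nd (nat_lit 78) (nat_lit 0) (nat_lit 0) (XT.lf (nat_lit 0) (nat_lit 110499319999) (nat_lit 152) (nat_lit 19390960814) (nat_lit 0) (nat_lit 79029470662) (nat_lit 2) (nat_lit 5) (nat_lit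 4) (nat_lit 4) (nat_lit 2) (nat_lit 4) (nat_lit 341) (nat_lit 243) (nat_lit 136)) (XT.lf (nat_lit 0) (nat_lit 119710842223) (nat_lit 152) (nat_lit 11148466110) (nat_lit 0) (nat_lit 88232850085) (nat_lit 2) (nat_lit 5) (nat_lit 4) (nat_lit 4) (nat_lit 2) (nat_lit 4) (nat_lit 342) (nat_lit 243) (nat_lit 135)))) (XT.nd (nat_lit 156) (nat_lit 0) (nat_lit 0) (XT.nd (nat_lit 78) (nat_lit 76) (nat_lit 0) (XT.lf (nat_lit 0) (nat_lit 129380321007) (nat_lit 152) (nat_lit 2498426905) (nat_lit 0) (nat_lit 97894573820) (nat_lit 2) (nat_lit 5) (nat_lit 4) (nat_lit 4) (nat_lit 2) (nat_lit 4) (nat_lit 343) (nat_lit 243) (nat_lit 134)) (XT.lf (nat_lit 0) (nat_lit 6797308450) (nat_lit 76) (nat_lit 132839595502) (nat_lit 76) (nat_lit 101346462555) (nat_lit 1) (nat_lit 4) (nat_lit 2) (nat_lit 5) (nat_lit 2) (nat_lit 4) (nat_lit 344) (nat_lit 243) (nat_lit 133))) (XT.nd (nat_lit 78) (nat_lit 0) (nat_lit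 0) (XT.lf (nat_lit 0) (nat_lit 16640278543) (nat_lit 76) (nat_lit 133805906555) (nat_lit 76) (nat_lit 102305739550) (nat_lit 1) (nat_lit 4) (nat_lit 2) (nat_lit 5) (nat_lit 2) (nat_lit 4) (nat_lit 345) (nat_lit 243) (nat_lit 132)) (XT.lf (nat_lit 0) (nat_lit 26971309738) (nat_lit 76) (nat_lit 134822293879) (nat_lit 76) (nat_lit 103315427771) (nat_lit 1) (nat_lit 4) (nat_lit 2) (nat_lit 5) (nat_lit 2) (nat_lit 4) (nat_lit 346) (nat_lit 243) (nat_lit 131))))) (XT.nd (nat_lit 312) (nat_lit 0) (nat_lit 0) (XT.nd (nat_lit 156) (nat_lit 0) (nat_lit 0) (XT.nd (nat_lit 78) (nat_lit 0) (nat_lit 0) (XT.lf (nat_lit 0) (nat_lit 37814999729) (nat_lit 76) (nat_lit 135891177444) (nat_lit 76) (nat_lit 104377931239) (nat_lit 1) (nat_lit 4) (nat_lit 2) (nat_lit 5) (nat_lit 2) (nat_lit 4) (nat_lit 347) (nat_lit 243) (nat_lit 130)) (XT.lf (nat_lit 0) (nat_lit 49197166825) (nat_lit 76) (nat_lit 137015102212)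 (nat_lit 76) (nat_lit 105495779723) (nat_lit 1) (nat_lit 4) (nat_lit 2) (nat_lit 5) (nat_lit 2) (nat_lit 4) (nat_lit 348) (nat_lit 243) (nat_lit 129))) (XT.nd (nat_lit 78) (nat_lit 0) (nat_lit 0) (XT.lf (nat_lit 0) (nat_lit 61144911425) (nat_lit 76) (nat_lit 138196744193) (nat_lit 76) (nat_lit 106671634768) (nat_lit 1) (nat_lit 4) (nat_lit 2) (nat_lit 5) (nat_lit 2) (nat_lit 4) (nat_lit 349) (nat_lit 243) (nat_lit 128)) (XT.lf (nat_lit 0) (nat_lit 73686680539) (nat_lit 76) (nat_lit 139438916821) (nat_lit 76) (nat_lit 107908296027) (nat_lit 1) (nat_lit 4) (nat_lit 2) (nat_lit 5) (nat_lit 2) (nat_lit 4) (nat_lit 350) (nat_lit 243) (nat_lit 127)))) (XT.nd (nat_lit 156) (nat_lit 0) (nat_lit 0) (XT.nd (nat_lit 78) (nat_lit 0) (nat_lit 0) (XT.lf (nat_lit 0) (nat_lit 86852335522) (nat_lit 76) (nat_lit 140744577650) (nat_lit 76) (nat_lit 109208707934) (nat_lit 1) (nat_lit 4) (nat_lit 2) (nat_lit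 5) (nat_lit 2) (nat_lit 4) (nat_lit 351) (nat_lit 243) (nat_lit 126)) (XT.lf (nat_lit 0) (nat_lit 100673223172) (nat_lit 76) (nat_lit 142116835396) (nat_lit 76) (nat_lit 110575966707) (nat_lit 1) (nat_lit 4) (nat_lit 2) (nat_lit 5) (nat_lit 2) (nat_lit 4) (nat_lit 352) (nat_lit 243) (nat_lit 125))) (XT.nd (nat_lit 78) (nat_lit 0) (nat_lit 0) (XT.lf (nat_lit 0) (nat_lit 115182250364) (nat_lit 76) (nat_lit 143558957339) (nat_lit 76) (nat_lit 112013327723) (nat_lit 1) (nat_lit 4) (nat_lit 2) (nat_lit 5) (nat_lit 2) (nat_lit 4) (nat_lit 353) (nat_lit 243) (nat_lit 124)) (XT.nd (nat_lit 78) (nat_lit 0) (nat_lit 0) (XT.lf (nat_lit 0) (nat_lit 130413962401) (nat_lit 76) (nat_lit 145074377103) (nat_lit 76) (nat_lit 113524213271) (nat_lit 1) (nat_lit 4) (nat_lit 2) (nat_lit 5) (nat_lit 2) (nat_lit 4) (nat_lit 354) (nat_lit 243) (nat_lit 123)) (XT.lf (nat_lit 0) (nat_lit 146404625265) (nat_lit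 76) (nat_lit 146666702831) (nat_lit 76) (nat_lit 115112220698) (nat_lit 1) (nat_lit 4) (nat_lit 2) (nat_lit 5) (nat_lit 2) (nat_lit 4) (nat_lit 355) (nat_lit 243) (nat_lit 122))))))) (XT.nd (nat_lit 29172) (nat_lit 0) (nat_lit 5168) (XT.nd (nat_lit 28860) (nat_lit 0) (nat_lit 6612) (XT.nd (nat_lit 156) (nat_lit 0) (nat_lit 0) (XT.nd (nat_lit 78) (nat_lit 0) (nat_lit 0) (XT.lf (nat_lit 0) (nat_lit 163192311961) (nat_lit 76) (nat_lit 148339725774) (nat_lit 76) (nat_lit 116781130973) (nat_lit 1) (nat_lit 4) (nat_lit 2) (nat_lit 5) (nat_lit 2) (nat_lit 4) (nat_lit 356) (nat_lit 243) (nat_lit 121)) (XT.lf (nat_lit 0) (nat_lit 180816993172) (nat_lit 76) (nat_lit 150097429320) (nat_lit 76) (nat_lit 118534917692) (nat_lit 1) (nat_lit 4) (nat_lit 2) (nat_lit 5) (nat_lit 2) (nat_lit 4) (nat_lit 357) (nat_lit 243) (nat_lit 120))) (XT.nd (nat_lit 28626) (nat_lit 0) (nat_lit 7296) (XT.lf (nat_lit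 0) (nat_lit 199320632426) (nat_lit 76) (nat_lit 151943998477) (nat_lit 76) (nat_lit 120377756538) (nat_lit 1) (nat_lit 4) (nat_lit 2) (nat_lit 5) (nat_lit 2) (nat_lit 4) (nat_lit 358) (nat_lit 243) (nat_lit 119)) (XT.lf (nat_lit 0) (nat_lit 1481178016) (nat_lit 0) (nat_lit 1481178016) (nat_lit 228) (nat_lit 356988684) (nat_lit 97) (nat_lit 5) (nat_lit 97) (nat_lit 3) (nat_lit 100) (nat_lit 3) (nat_lit 244) (nat_lit 244) (nat_lit 232)))) (XT.nd (nat_lit 156) (nat_lit 304) (nat_lit 0) (XT.nd (nat_lit 78) (nat_lit 0) (nat_lit 0) (XT.lf (nat_lit 0) (nat_lit 1262655828) (nat_lit 380) (nat_lit 901680113) (nat_lit 380) (nat_lit 4527750291) (nat_lit 92) (nat_lit 3) (nat_lit 97) (nat_lit 3) (nat_lit 97) (nat_lit 5) (nat_lit 245) (nat_lit 244) (nat_lit 231)) (XT.lf (nat_lit 76) (nat_lit 1997217259) (nat_lit 0) (nat_lit 1221918829) (nat_lit 380) (nat_lit 3534114930) (nat_lit 93) (nat_lit 5) (nat_lit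 92) (nat_lit 3) (nat_lit 97) (nat_lit 5) (nat_lit 246) (nat_lit 244) (nat_lit 230))) (XT.nd (nat_lit 78) (nat_lit 304) (nat_lit 0) (XT.lf (nat_lit 76) (nat_lit 5006732265) (nat_lit 0) (nat_lit 160789570) (nat_lit 380) (nat_lit 1656137528) (nat_lit 93) (nat_lit 5) (nat_lit 92) (nat_lit 3) (nat_lit 97) (nat_lit 5) (nat_lit 247) (nat_lit 244) (nat_lit 229)) (XT.lf (nat_lit 0) (nat_lit 222886684) (nat_lit 380) (nat_lit 5682602635) (nat_lit 456) (nat_lit 996796355) (nat_lit 88) (nat_lit 5) (nat_lit 93) (nat_lit 5) (nat_lit 94) (nat_lit 5) (nat_lit 248) (nat_lit 244) (nat_lit 228))))) (XT.nd (nat_lit 312) (nat_lit 988) (nat_lit 0) (XT.nd (nat_lit 156) (nat_lit 456) (nat_lit 0) (XT.nd (nat_lit 78) (nat_lit 0) (nat_lit 0) (XT.lf (nat_lit 0) (nat_lit 2061318635) (nat_lit 380) (nat_lit 2615711520) (nat_lit 456) (nat_lit 2311168268) (nat_lit 88) (nat_lit 5) (nat_lit 93) (nat_lit 5) (nat_lit 94)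 (nat_lit 5) (nat_lit 249) (nat_lit 244) (nat_lit 227)) (XT.lf (nat_lit 76) (nat_lit 552375117) (nat_lit 0) (nat_lit 3340495227) (nat_lit 456) (nat_lit 3191208262) (nat_lit 89) (nat_lit 5) (nat_lit 88) (nat_lit 5) (nat_lit 94) (nat_lit 5) (nat_lit 250) (nat_lit 244) (nat_lit 226))) (XT.nd (nat_lit 78) (nat_lit 456) (nat_lit 0) (XT.lf (nat_lit 76) (nat_lit 3900975463) (nat_lit 0) (nat_lit 1855939441) (nat_lit 456) (nat_lit 1431488993) (nat_lit 89) (nat_lit 5) (nat_lit 88) (nat_lit 5) (nat_lit 94) (nat_lit 5) (nat_lit 251) (nat_lit 244) (nat_lit 225)) (XT.lf (nat_lit 76) (nat_lit 44596531) (nat_lit 0) (nat_lit 258277857) (nat_lit 532) (nat_lit 7000379241) (nat_lit 83) (nat_lit 5) (nat_lit 82) (nat_lit 5) (nat_lit 89) (nat_lit 5) (nat_lit 252) (nat_lit 244) (nat_lit 224)))) (XT.nd (nat_lit 156) (nat_lit 1064) (nat_lit 0) (XT.nd (nat_lit 78) (nat_lit 0) (nat_lit 0) (XT.lf (nat_lit 0) (nat_lit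 2058055904) (nat_lit 456) (nat_lit 3884419014) (nat_lit 76) (nat_lit 1481689184) (nat_lit 83) (nat_lit 5) (nat_lit 89) (nat_lit 5) (nat_lit 84) (nat_lit 5) (nat_lit 253) (nat_lit 244) (nat_lit 223)) (XT.lf (nat_lit 0) (nat_lit 3813289383) (nat_lit 456) (nat_lit 416344286) (nat_lit 76) (nat_lit 3326445096) (nat_lit 83) (nat_lit 5) (nat_lit 89) (nat_lit 5) (nat_lit 84) (nat_lit 5) (nat_lit 254) (nat_lit 244) (nat_lit 222))) (XT.nd (nat_lit 78) (nat_lit 608) (nat_lit 0) (XT.lf (nat_lit 0) (nat_lit 3262269855) (nat_lit 456) (nat_lit 2357384833) (nat_lit 532) (nat_lit 2077311977) (nat_lit 77) (nat_lit 5) (nat_lit 83) (nat_lit 5) (nat_lit 84) (nat_lit 5) (nat_lit 255) (nat_lit 244) (nat_lit 221)) (XT.nd (nat_lit 78) (nat_lit 608) (nat_lit 0) (XT.lf (nat_lit 0) (nat_lit 7073077025) (nat_lit 456) (nat_lit 365885422) (nat_lit 532) (nat_lit 410325312) (nat_lit 77) (nat_lit 5) (nat_lit 83) (nat_lit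 5) (nat_lit 84) (nat_lit 5) (nat_lit 256) (nat_lit 244) (nat_lit 220)) (XT.lf (nat_lit 0) (nat_lit 1291265836) (nat_lit 608) (nat_lit 4962157738) (nat_lit 76) (nat_lit 1755519738) (nat_lit 69) (nat_lit 5) (nat_lit 77) (nat_lit 5) (nat_lit 70) (nat_lit 5) (nat_lit 257) (nat_lit 244) (nat_lit 219))))))))
noncomputable def xc124 : XT := (XT.nd (nat_lit 1326) (nat_lit 1140) (nat_lit 0) (XT.nd (nat_lit 624) (nat_lit 1140) (nat_lit 0) (XT.nd (nat_lit 312) (nat_lit 684) (nat_lit 0) (XT.nd (nat_lit 156) (nat_lit 684) (nat_lit 0) (XT.nd (nat_lit 78) (nat_lit 608) (nat_lit 0) (XT.lf (nat_lit 0) (nat_lit 3004420001) (nat_lit 608) (nat_lit 1170781724) (nat_lit 76) (nat_lit 4004479136) (nat_lit 69) (nat_lit 5) (nat_lit 77) (nat_lit 5) (nat_lit 70) (nat_lit 5) (nat_lit 258) (nat_lit 244) (nat_lit 218)) (XT.lf (nat_lit 0) (nat_lit 2834408460) (nat_lit 608) (nat_lit 1937756429) (nat_lit 684) (nat_lit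 3588771560) (nat_lit 61) (nat_lit 5) (nat_lit 69) (nat_lit 5) (nat_lit 70) (nat_lit 5) (nat_lit 259) (nat_lit 244) (nat_lit 217))) (XT.nd (nat_lit 78) (nat_lit 684) (nat_lit 0) (XT.lf (nat_lit 0) (nat_lit 6582235777) (nat_lit 684) (nat_lit 1546070266) (nat_lit 76) (nat_lit 425659277) (nat_lit 61) (nat_lit 5) (nat_lit 70) (nat_lit 5) (nat_lit 62) (nat_lit 5) (nat_lit 260) (nat_lit 244) (nat_lit 216)) (XT.lf (nat_lit 0) (nat_lit 2619226674) (nat_lit 684) (nat_lit 5867062866) (nat_lit 760) (nat_lit 270570166) (nat_lit 52) (nat_lit 5) (nat_lit 61) (nat_lit 5) (nat_lit 62) (nat_lit 5) (nat_lit 261) (nat_lit 244) (nat_lit 215)))) (XT.nd (nat_lit 156) (nat_lit 304) (nat_lit 0) (XT.nd (nat_lit 78) (nat_lit 304) (nat_lit 0) (XT.lf (nat_lit 0) (nat_lit 1425391202) (nat_lit 760) (nat_lit 2014010302) (nat_lit 76) (nat_lit 5531753386) (nat_lit 51) (nat_lit 5) (nat_lit 61) (nat_lit 5) (nat_lit 52)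 (nat_lit 5) (nat_lit 262) (nat_lit 244) (nat_lit 214)) (XT.lf (nat_lit 0) (nat_lit 2321082892) (nat_lit 304) (nat_lit 847110106) (nat_lit 380) (nat_lit 6029528496) (nat_lit 47) (nat_lit 5) (nat_lit 51) (nat_lit 5) (nat_lit 52) (nat_lit 5) (nat_lit 263) (nat_lit 244) (nat_lit 213))) (XT.nd (nat_lit 78) (nat_lit 304) (nat_lit 0) (XT.lf (nat_lit 0) (nat_lit 4999069917) (nat_lit 380) (nat_lit 2587871976) (nat_lit 76) (nat_lit 1848947023) (nat_lit 47) (nat_lit 5) (nat_lit 52) (nat_lit 5) (nat_lit 48) (nat_lit 5) (nat_lit 264) (nat_lit 244) (nat_lit 212)) (XT.lf (nat_lit 0) (nat_lit 1898413072) (nat_lit 304) (nat_lit 5006601186) (nat_lit 380) (nat_lit 2782078312) (nat_lit 43) (nat_lit 5) (nat_lit 47) (nat_lit 5) (nat_lit 48) (nat_lit 5) (nat_lit 265) (nat_lit 244) (nat_lit 211))))) (XT.nd (nat_lit 312) (nat_lit 532) (nat_lit 0) (XT.nd (nat_lit 156) (nat_lit 304) (nat_lit 0) (XT.nd (nat_lit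 78) (nat_lit 304) (nat_lit 0) (XT.lf (nat_lit 0) (nat_lit 6636092446) (nat_lit 304) (nat_lit 2255864559) (nat_lit 380) (nat_lit 1059903901) (nat_lit 43) (nat_lit 5) (nat_lit 47) (nat_lit 5) (nat_lit 48) (nat_lit 5) (nat_lit 266) (nat_lit 244) (nat_lit 210)) (XT.lf (nat_lit 0) (nat_lit 699304914) (nat_lit 304) (nat_lit 8891227845) (nat_lit 76) (nat_lit 640269401) (nat_lit 39) (nat_lit 5) (nat_lit 43) (nat_lit 5) (nat_lit 40) (nat_lit 5) (nat_lit 267) (nat_lit 244) (nat_lit 209))) (XT.nd (nat_lit 78) (nat_lit 304) (nat_lit 0) (XT.lf (nat_lit 0) (nat_lit 2550023823) (nat_lit 304) (nat_lit 4297163656) (nat_lit 76) (nat_lit 3673925889) (nat_lit 39) (nat_lit 5) (nat_lit 43) (nat_lit 5) (nat_lit 40) (nat_lit 5) (nat_lit 268) (nat_lit 244) (nat_lit 208)) (XT.lf (nat_lit 0) (nat_lit 481241039) (nat_lit 304) (nat_lit 3967278095) (nat_lit 380) (nat_lit 6379897203) (nat_lit 35) (nat_lit 5) (nat_lit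 39) (nat_lit 5) (nat_lit 40) (nat_lit 5) (nat_lit 269) (nat_lit 244) (nat_lit 207)))) (XT.nd (nat_lit 156) (nat_lit 532) (nat_lit 0) (XT.nd (nat_lit 78) (nat_lit 0) (nat_lit 0) (XT.lf (nat_lit 0) (nat_lit 5587968455) (nat_lit 304) (nat_lit 876028015) (nat_lit 380) (nat_lit 4686211998) (nat_lit 35) (nat_lit 5) (nat_lit 39) (nat_lit 5) (nat_lit 40) (nat_lit 5) (nat_lit 270) (nat_lit 244) (nat_lit 206)) (XT.lf (nat_lit 0) (nat_lit 8568809639) (nat_lit 380) (nat_lit 634491703) (nat_lit 76) (nat_lit 2285576841) (nat_lit 35) (nat_lit 5) (nat_lit 40) (nat_lit 5) (nat_lit 36) (nat_lit 5) (nat_lit 271) (nat_lit 244) (nat_lit 205))) (XT.nd (nat_lit 78) (nat_lit 304) (nat_lit 0) (XT.lf (nat_lit 0) (nat_lit 4616433061) (nat_lit 228) (nat_lit 6202736487) (nat_lit 304) (nat_lit 1023502317) (nat_lit 32) (nat_lit 5) (nat_lit 35) (nat_lit 5) (nat_lit 36) (nat_lit 5) (nat_lit 272) (nat_lit 244) (nat_lit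 204)) (XT.nd (nat_lit 78) (nat_lit 228) (nat_lit 0) (XT.lf (nat_lit 0) (nat_lit 902107711) (nat_lit 304) (nat_lit 2134363609) (nat_lit 76) (nat_lit 9178855285) (nat_lit 31) (nat_lit 5) (nat_lit 35) (nat_lit 5) (nat_lit 32) (nat_lit 5) (nat_lit 273) (nat_lit 244) (nat_lit 203)) (XT.lf (nat_lit 0) (nat_lit 2902138043) (nat_lit 304) (nat_lit 9366513816) (nat_lit 76) (nat_lit 336674242) (nat_lit 28) (nat_lit 5) (nat_lit 32) (nat_lit 5) (nat_lit 29) (nat_lit 5) (nat_lit 274) (nat_lit 244) (nat_lit 202))))))) (XT.nd (nat_lit 624) (nat_lit 532) (nat_lit 0) (XT.nd (nat_lit 312) (nat_lit 456) (nat_lit 0) (XT.nd (nat_lit 156) (nat_lit 0) (nat_lit 0) (XT.nd (nat_lit 78) (nat_lit 152) (nat_lit 0) (XT.lf (nat_lit 0) (nat_lit 5046192460) (nat_lit 304) (nat_lit 4164523671) (nat_lit 76) (nat_lit 3802077613) (nat_lit 28) (nat_lit 5) (nat_lit 32) (nat_lit 5) (nat_lit 29) (nat_lit 5) (nat_lit 275) (nat_lit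 244) (nat_lit 201)) (XT.lf (nat_lit 0) (nat_lit 1285488793) (nat_lit 152) (nat_lit 5991559746) (nat_lit 228) (nat_lit 6164767520) (nat_lit 26) (nat_lit 5) (nat_lit 28) (nat_lit 5) (nat_lit 29) (nat_lit 5) (nat_lit 276) (nat_lit 244) (nat_lit 200))) (XT.nd (nat_lit 78) (nat_lit 0) (nat_lit 0) (XT.lf (nat_lit 0) (nat_lit 7100222282) (nat_lit 152) (nat_lit 2550391897) (nat_lit 228) (nat_lit 4240270535) (nat_lit 26) (nat_lit 5) (nat_lit 28) (nat_lit 5) (nat_lit 29) (nat_lit 5) (nat_lit 277) (nat_lit 244) (nat_lit 199)) (XT.lf (nat_lit 0) (nat_lit 12121771495) (nat_lit 228) (nat_lit 1225004472) (nat_lit 76) (nat_lit 1016831411) (nat_lit 26) (nat_lit 5) (nat_lit 29) (nat_lit 5) (nat_lit 27) (nat_lit 5) (nat_lit 278) (nat_lit 244) (nat_lit 198)))) (XT.nd (nat_lit 156) (nat_lit 152) (nat_lit 0) (XT.nd (nat_lit 78) (nat_lit 76) (nat_lit 0) (XT.lf (nat_lit 0) (nat_lit 4677604679) (nat_lit 228)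 (nat_lit 10117836097) (nat_lit 304) (nat_lit 60716978) (nat_lit 23) (nat_lit 5) (nat_lit 26) (nat_lit 5) (nat_lit 27) (nat_lit 5) (nat_lit 279) (nat_lit 244) (nat_lit 197)) (XT.lf (nat_lit 0) (nat_lit 2143552801) (nat_lit 304) (nat_lit 4539317891) (nat_lit 76) (nat_lit 8689578313) (nat_lit 22) (nat_lit 5) (nat_lit 26) (nat_lit 5) (nat_lit 23) (nat_lit 5) (nat_lit 280) (nat_lit 244) (nat_lit 196))) (XT.nd (nat_lit 78) (nat_lit 0) (nat_lit 0) (XT.lf (nat_lit 0) (nat_lit 1377599246) (nat_lit 152) (nat_lit 3065966771) (nat_lit 228) (nat_lit 11471680830) (nat_lit 20) (nat_lit 5) (nat_lit 22) (nat_lit 5) (nat_lit 23) (nat_lit 5) (nat_lit 281) (nat_lit 244) (nat_lit 195)) (XT.lf (nat_lit 0) (nat_lit 6914879705) (nat_lit 228) (nat_lit 8794236523) (nat_lit 76) (nat_lit 773367951) (nat_lit 20) (nat_lit 5) (nat_lit 23) (nat_lit 5) (nat_lit 21) (nat_lit 5) (nat_lit 282) (nat_lit 244) (nat_lit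 194))))) (XT.nd (nat_lit 312) (nat_lit 380) (nat_lit 0) (XT.nd (nat_lit 156) (nat_lit 0) (nat_lit 0) (XT.nd (nat_lit 78) (nat_lit 152) (nat_lit 0) (XT.lf (nat_lit 0) (nat_lit 9528343529) (nat_lit 228) (nat_lit 2859790356) (nat_lit 76) (nat_lit 4689129403) (nat_lit 20) (nat_lit 5) (nat_lit 23) (nat_lit 5) (nat_lit 21) (nat_lit 5) (nat_lit 283) (nat_lit 244) (nat_lit 193)) (XT.lf (nat_lit 0) (nat_lit 3437717289) (nat_lit 152) (nat_lit 8858266800) (nat_lit 228) (nat_lit 5404726020) (nat_lit 18) (nat_lit 5) (nat_lit 20) (nat_lit 5) (nat_lit 21) (nat_lit 5) (nat_lit 284) (nat_lit 244) (nat_lit 192))) (XT.nd (nat_lit 78) (nat_lit 0) (nat_lit 0) (XT.lf (nat_lit 0) (nat_lit 10106401194) (nat_lit 152) (nat_lit 5114634065) (nat_lit 228) (nat_lit 3133441572) (nat_lit 18) (nat_lit 5) (nat_lit 20) (nat_lit 5) (nat_lit 21) (nat_lit 5) (nat_lit 285) (nat_lit 244) (nat_lit 191)) (XT.lf (nat_lit 0)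 (nat_lit 17067581593) (nat_lit 152) (nat_lit 1196754200) (nat_lit 228) (nat_lit 778090526) (nat_lit 18) (nat_lit 5) (nat_lit 20) (nat_lit 5) (nat_lit 21) (nat_lit 5) (nat_lit 286) (nat_lit 244) (nat_lit 190)))) (XT.nd (nat_lit 156) (nat_lit 152) (nat_lit 0) (XT.nd (nat_lit 78) (nat_lit 0) (nat_lit 0) (XT.lf (nat_lit 0) (nat_lit 1733878140) (nat_lit 228) (nat_lit 15112299480) (nat_lit 76) (nat_lit 2912702887) (nat_lit 15) (nat_lit 5) (nat_lit 18) (nat_lit 5) (nat_lit 16) (nat_lit 5) (nat_lit 287) (nat_lit 244) (nat_lit 189)) (XT.lf (nat_lit 0) (nat_lit 4372195458) (nat_lit 228) (nat_lit 8915302937) (nat_lit 76) (nat_lit 7221757706) (nat_lit 15) (nat_lit 5) (nat_lit 18) (nat_lit 5) (nat_lit 16) (nat_lit 5) (nat_lit 288) (nat_lit 244) (nat_lit 188))) (XT.nd (nat_lit 78) (nat_lit 152) (nat_lit 0) (XT.lf (nat_lit 0) (nat_lit 7116987701) (nat_lit 228) (nat_lit 2447061539) (nat_lit 76) (nat_lit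 11734450843) (nat_lit 15) (nat_lit 5) (nat_lit 18) (nat_lit 5) (nat_lit 16) (nat_lit 5) (nat_lit 289) (nat_lit 244) (nat_lit 187)) (XT.nd (nat_lit 78) (nat_lit 0) (nat_lit 0) (XT.lf (nat_lit 0) (nat_lit 4450261449) (nat_lit 152) (nat_lit 5594009691) (nat_lit 228) (nat_lit 12080746409) (nat_lit 13) (nat_lit 5) (nat_lit 15) (nat_lit 5) (nat_lit 16) (nat_lit 5) (nat_lit 290) (nat_lit 244) (nat_lit 186)) (XT.lf (nat_lit 0) (nat_lit 11741233409) (nat_lit 152) (nat_lit 1394487057) (nat_lit 228) (nat_lit 9856320683) (nat_lit 13) (nat_lit 5) (nat_lit 15) (nat_lit 5) (nat_lit 16) (nat_lit 5) (nat_lit 291) (nat_lit 244) (nat_lit 185))))))))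
noncomputable def xc125 : XT := (XT.nd (nat_lit 1326) (nat_lit 228) (nat_lit 0) (XT.nd (nat_lit 624) (nat_lit 228) (nat_lit 0) (XT.nd (nat_lit 312) (nat_lit 152) (nat_lit 0) (XT.nd (nat_lit 156) (nat_lit 76) (nat_lit 0) (XT.nd (nat_lit 78) (nat_lit 76) (nat_lit 0) (XT.lf (nat_lit 0) (nat_lit 16406113962) (nat_lit 228) (nat_lit 4588192194) (nat_lit 76) (nat_lit 2906958186) (nat_lit 13) (nat_lit 5) (nat_lit 16) (nat_lit 5) (nat_lit 14) (nat_lit 4) (nat_lit 292) (nat_lit 244) (nat_lit 184)) (XT.lf (nat_lit 0) (nat_lit 2428656874) (nat_lit 76) (nat_lit 17450528767) (nat_lit 152) (nat_lit 4974868937) (nat_lit 12) (nat_lit 5) (nat_lit 13) (nat_lit 5) (nat_lit 14) (nat_lit 4) (nat_lit 293) (nat_lit 244) (nat_lit 183))) (XT.nd (nat_lit 78) (nat_lit 76) (nat_lit 0) (XT.lf (nat_lit 0) (nat_lit 9922415731) (nat_lit 76) (nat_lit 13660089153) (nat_lit 152) (nat_lit 2269210511) (nat_lit 12) (nat_lit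 5) (nat_lit 13) (nat_lit 5) (nat_lit 14) (nat_lit 4) (nat_lit 294) (nat_lit 244) (nat_lit 182)) (XT.lf (nat_lit 0) (nat_lit 532942211) (nat_lit 152) (nat_lit 9149697869) (nat_lit 76) (nat_lit 17217252458) (nat_lit 11) (nat_lit 5) (nat_lit 13) (nat_lit 5) (nat_lit 12) (nat_lit 5) (nat_lit 295) (nat_lit 244) (nat_lit 181)))) (XT.nd (nat_lit 156) (nat_lit 0) (nat_lit 0) (XT.nd (nat_lit 78) (nat_lit 152) (nat_lit 0) (XT.lf (nat_lit 0) (nat_lit 3379428247) (nat_lit 152) (nat_lit 2099149325) (nat_lit 76) (nat_lit 22521069152) (nat_lit 11) (nat_lit 5) (nat_lit 13) (nat_lit 5) (nat_lit 12) (nat_lit 5) (nat_lit 296) (nat_lit 244) (nat_lit 180)) (XT.lf (nat_lit 0) (nat_lit 5448962555) (nat_lit 152) (nat_lit 985764874) (nat_lit 228) (nat_lit 22716386744) (nat_lit 9) (nat_lit 5) (nat_lit 11) (nat_lit 5) (nat_lit 12) (nat_lit 5) (nat_lit 297) (nat_lit 244) (nat_lit 179))) (XT.nd (nat_lit 78) (nat_lit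 0) (nat_lit 0) (XT.lf (nat_lit 0) (nat_lit 9718868075) (nat_lit 228) (nat_lit 16999543397) (nat_lit 76) (nat_lit 3637987310) (nat_lit 9) (nat_lit 5) (nat_lit 12) (nat_lit 5) (nat_lit 10) (nat_lit 4) (nat_lit 298) (nat_lit 244) (nat_lit 178)) (XT.lf (nat_lit 0) (nat_lit 13165929634) (nat_lit 228) (nat_lit 10006230332) (nat_lit 76) (nat_lit 8449897309) (nat_lit 9) (nat_lit 5) (nat_lit 12) (nat_lit 5) (nat_lit 10) (nat_lit 4) (nat_lit 299) (nat_lit 244) (nat_lit 177))))) (XT.nd (nat_lit 312) (nat_lit 152) (nat_lit 0) (XT.nd (nat_lit 156) (nat_lit 0) (nat_lit 0) (XT.nd (nat_lit 78) (nat_lit 76) (nat_lit 0) (XT.lf (nat_lit 0) (nat_lit 16768728844) (nat_lit 228) (nat_lit 2690171123) (nat_lit 76) (nat_lit 13492972683) (nat_lit 9) (nat_lit 5) (nat_lit 12) (nat_lit 5) (nat_lit 10) (nat_lit 4) (nat_lit 300) (nat_lit 244) (nat_lit 176)) (XT.lf (nat_lit 0) (nat_lit 5130253569) (nat_lit 76) (nat_lit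 15485687864) (nat_lit 152) (nat_lit 13729064821) (nat_lit 8) (nat_lit 5) (nat_lit 9) (nat_lit 5) (nat_lit 10) (nat_lit 4) (nat_lit 301) (nat_lit 244) (nat_lit 175))) (XT.nd (nat_lit 78) (nat_lit 0) (nat_lit 0) (XT.lf (nat_lit 0) (nat_lit 13409872045) (nat_lit 76) (nat_lit 11275737456) (nat_lit 152) (nat_lit 11120721468) (nat_lit 8) (nat_lit 5) (nat_lit 9) (nat_lit 5) (nat_lit 10) (nat_lit 4) (nat_lit 302) (nat_lit 244) (nat_lit 174)) (XT.lf (nat_lit 0) (nat_lit 22079448474) (nat_lit 76) (nat_lit 6864584401) (nat_lit 152) (nat_lit 8397462755) (nat_lit 8) (nat_lit 5) (nat_lit 9) (nat_lit 5) (nat_lit 10) (nat_lit 4) (nat_lit 303) (nat_lit 244) (nat_lit 173)))) (XT.nd (nat_lit 156) (nat_lit 152) (nat_lit 0) (XT.nd (nat_lit 78) (nat_lit 0) (nat_lit 0) (XT.lf (nat_lit 0) (nat_lit 31159624705) (nat_lit 76) (nat_lit 2241725955) (nat_lit 152) (nat_lit 5552804734) (nat_lit 8) (nat_lit 5) (nat_lit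 9) (nat_lit 5) (nat_lit 10) (nat_lit 4) (nat_lit 304) (nat_lit 244) (nat_lit 172)) (XT.lf (nat_lit 0) (nat_lit 38108828829) (nat_lit 152) (nat_lit 16783032) (nat_lit 0) (nat_lit 2520505397) (nat_lit 8) (nat_lit 5) (nat_lit 10) (nat_lit 4) (nat_lit 8) (nat_lit 4) (nat_lit 305) (nat_lit 244) (nat_lit 171))) (XT.nd (nat_lit 78) (nat_lit 0) (nat_lit 0) (XT.lf (nat_lit 0) (nat_lit 765786419) (nat_lit 152) (nat_lit 34067980958) (nat_lit 76) (nat_lit 7580603768) (nat_lit 6) (nat_lit 5) (nat_lit 8) (nat_lit 5) (nat_lit 7) (nat_lit 4) (nat_lit 306) (nat_lit 244) (nat_lit 170)) (XT.nd (nat_lit 78) (nat_lit 0) (nat_lit 0) (XT.lf (nat_lit 0) (nat_lit 4136235361) (nat_lit 152) (nat_lit 27205722232) (nat_lit 76) (nat_lit 12927655125) (nat_lit 6) (nat_lit 5) (nat_lit 8) (nat_lit 5) (nat_lit 7) (nat_lit 4) (nat_lit 307) (nat_lit 244) (nat_lit 169)) (XT.lf (nat_lit 0) (nat_lit 7663017219) (nat_lit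 152) (nat_lit 20020735240) (nat_lit 76) (nat_lit 18534501227) (nat_lit 6) (nat_lit 5) (nat_lit 8) (nat_lit 5) (nat_lit 7) (nat_lit 4) (nat_lit 308) (nat_lit 244) (nat_lit 168))))))) (XT.nd (nat_lit 624) (nat_lit 152) (nat_lit 0) (XT.nd (nat_lit 312) (nat_lit 0) (nat_lit 0) (XT.nd (nat_lit 156) (nat_lit 76) (nat_lit 0) (XT.nd (nat_lit 78) (nat_lit 0) (nat_lit 0) (XT.lf (nat_lit 0) (nat_lit 11354529090) (nat_lit 152) (nat_lit 12495912871) (nat_lit 76) (nat_lit 24414491708) (nat_lit 6) (nat_lit 5) (nat_lit 8) (nat_lit 5) (nat_lit 7) (nat_lit 4) (nat_lit 309) (nat_lit 244) (nat_lit 167)) (XT.lf (nat_lit 0) (nat_lit 15219560290) (nat_lit 152) (nat_lit 4613338880) (nat_lit 76) (nat_lit 30581626545) (nat_lit 6) (nat_lit 5) (nat_lit 8) (nat_lit 5) (nat_lit 7) (nat_lit 4) (nat_lit 310) (nat_lit 244) (nat_lit 166))) (XT.nd (nat_lit 78) (nat_lit 0) (nat_lit 0) (XT.lf (nat_lit 0) (nat_lit 3766299881)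 (nat_lit 76) (nat_lit 15559815887) (nat_lit 152) (nat_lit 33343092007) (nat_lit 5) (nat_lit 5) (nat_lit 6) (nat_lit 5) (nat_lit 7) (nat_lit 4) (nat_lit 311) (nat_lit 244) (nat_lit 165)) (XT.lf (nat_lit 0) (nat_lit 12707760262) (nat_lit 76) (nat_lit 10998069035) (nat_lit 152) (nat_lit 31327426032) (nat_lit 5) (nat_lit 5) (nat_lit 6) (nat_lit 5) (nat_lit 7) (nat_lit 4) (nat_lit 312) (nat_lit 244) (nat_lit 164)))) (XT.nd (nat_lit 156) (nat_lit 0) (nat_lit 0) (XT.nd (nat_lit 78) (nat_lit 0) (nat_lit 0) (XT.lf (nat_lit 0) (nat_lit 22079793636) (nat_lit 76) (nat_lit 6214926437) (nat_lit 152) (nat_lit 29221297421) (nat_lit 5) (nat_lit 5) (nat_lit 6) (nat_lit 5) (nat_lit 7) (nat_lit 4) (nat_lit 313) (nat_lit 244) (nat_lit 163)) (XT.lf (nat_lit 0) (nat_lit 31904714367) (nat_lit 76) (nat_lit 1198999659) (nat_lit 152) (nat_lit 27019691583) (nat_lit 5) (nat_lit 5) (nat_lit 6) (nat_lit 5) (nat_lit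 7) (nat_lit 4) (nat_lit 314) (nat_lit 244) (nat_lit 162))) (XT.nd (nat_lit 78) (nat_lit 0) (nat_lit 0) (XT.lf (nat_lit 0) (nat_lit 38207674944) (nat_lit 152) (nat_lit 20719126420) (nat_lit 0) (nat_lit 3931655687) (nat_lit 5) (nat_lit 5) (nat_lit 7) (nat_lit 4) (nat_lit 5) (nat_lit 4) (nat_lit 315) (nat_lit 244) (nat_lit 161)) (XT.lf (nat_lit 0) (nat_lit 43577926501) (nat_lit 152) (nat_lit 12878844669) (nat_lit 0) (nat_lit 9272954109) (nat_lit 5) (nat_lit 5) (nat_lit 7) (nat_lit 4) (nat_lit 5) (nat_lit 4) (nat_lit 316) (nat_lit 244) (nat_lit 160))))) (XT.nd (nat_lit 312) (nat_lit 76) (nat_lit 0) (XT.nd (nat_lit 156) (nat_lit 0) (nat_lit 0) (XT.nd (nat_lit 78) (nat_lit 76) (nat_lit 0) (XT.lf (nat_lit 0) (nat_lit 49208535264) (nat_lit 152) (nat_lit 4660458909) (nat_lit 0) (nat_lit 14875988458) (nat_lit 5) (nat_lit 5) (nat_lit 7) (nat_lit 4) (nat_lit 5) (nat_lit 4) (nat_lit 317) (nat_lit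 244) (nat_lit 159)) (XT.lf (nat_lit 0) (nat_lit 4086388395) (nat_lit 76) (nat_lit 51090319026) (nat_lit 76) (nat_lit 16731510873) (nat_lit 4) (nat_lit 4) (nat_lit 5) (nat_lit 5) (nat_lit 5) (nat_lit 4) (nat_lit 318) (nat_lit 244) (nat_lit 158))) (XT.nd (nat_lit 78) (nat_lit 0) (nat_lit 0) (XT.lf (nat_lit 0) (nat_lit 13419344654) (nat_lit 76) (nat_lit 48095270000) (nat_lit 76) (nat_lit 13711451040) (nat_lit 4) (nat_lit 4) (nat_lit 5) (nat_lit 5) (nat_lit 5) (nat_lit 4) (nat_lit 319) (nat_lit 244) (nat_lit 157)) (XT.lf (nat_lit 0) (nat_lit 23206535373) (nat_lit 76) (nat_lit 44955643152) (nat_lit 76) (nat_lit 10548004376) (nat_lit 4) (nat_lit 4) (nat_lit 5) (nat_lit 5) (nat_lit 5) (nat_lit 4) (nat_lit 320) (nat_lit 244) (nat_lit 156)))) (XT.nd (nat_lit 156) (nat_lit 76) (nat_lit 0) (XT.nd (nat_lit 78) (nat_lit 0) (nat_lit 0) (XT.lf (nat_lit 0) (nat_lit 33471263388) (nat_lit 76) (nat_lit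 41663963181) (nat_lit 76) (nat_lit 7233638866) (nat_lit 4) (nat_lit 4) (nat_lit 5) (nat_lit 5) (nat_lit 5) (nat_lit 4) (nat_lit 321) (nat_lit 244) (nat_lit 155)) (XT.lf (nat_lit 0) (nat_lit 44237968526) (nat_lit 76) (nat_lit 38212392752) (nat_lit 76) (nat_lit 3760463162) (nat_lit 4) (nat_lit 4) (nat_lit 5) (nat_lit 5) (nat_lit 5) (nat_lit 4) (nat_lit 322) (nat_lit 244) (nat_lit 154))) (XT.nd (nat_lit 78) (nat_lit 76) (nat_lit 0) (XT.lf (nat_lit 0) (nat_lit 55532285800) (nat_lit 76) (nat_lit 34592713842) (nat_lit 76) (nat_lit 120207800) (nat_lit 4) (nat_lit 4) (nat_lit 5) (nat_lit 5) (nat_lit 5) (nat_lit 4) (nat_lit 323) (nat_lit 244) (nat_lit 153)) (XT.nd (nat_lit 78) (nat_lit 0) (nat_lit 0) (XT.lf (nat_lit 0) (nat_lit 3577505991) (nat_lit 152) (nat_lit 27158215381) (nat_lit 76) (nat_lit 63743013656) (nat_lit 3) (nat_lit 5) (nat_lit 5) (nat_lit 5) (nat_lit 4) (nat_lit 4) (nat_lit 324)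 (nat_lit 244) (nat_lit 152)) (XT.lf (nat_lit 0) (nat_lit 7450289236) (nat_lit 152) (nat_lit 19237673177) (nat_lit 76) (nat_lit 72236178440) (nat_lit 3) (nat_lit 5) (nat_lit 5) (nat_lit 5) (nat_lit 4) (nat_lit 4) (nat_lit 325) (nat_lit 244) (nat_lit 151))))))))
noncomputable def xc126 : XT := (XT.nd (nat_lit 1326) (nat_lit 76) (nat_lit 0) (XT.nd (nat_lit 624) (nat_lit 0) (nat_lit 0) (XT.nd (nat_lit 312) (nat_lit 0) (nat_lit 0) (XT.nd (nat_lit 156) (nat_lit 76) (nat_lit 0) (XT.nd (nat_lit 78) (nat_lit 0) (nat_lit 0) (XT.lf (nat_lit 0) (nat_lit 11511210249) (nat_lit 152) (nat_lit 10930559816) (nat_lit 76) (nat_lit 81150332992) (nat_lit 3) (nat_lit 5) (nat_lit 5) (nat_lit 5) (nat_lit 4) (nat_lit 4) (nat_lit 326) (nat_lit 244) (nat_lit 150)) (XT.lf (nat_lit 0) (nat_lit 15769937887) (nat_lit 152) (nat_lit 2217096455) (nat_lit 76) (nat_lit 90506701490) (nat_lit 3) (nat_lit 5) (nat_lit 5)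 (nat_lit 5) (nat_lit 4) (nat_lit 4) (nat_lit 327) (nat_lit 244) (nat_lit 149))) (XT.nd (nat_lit 78) (nat_lit 0) (nat_lit 0) (XT.lf (nat_lit 0) (nat_lit 7152384207) (nat_lit 76) (nat_lit 13195896535) (nat_lit 152) (nat_lit 93286845558) (nat_lit 2) (nat_lit 5) (nat_lit 3) (nat_lit 5) (nat_lit 4) (nat_lit 4) (nat_lit 328) (nat_lit 244) (nat_lit 148)) (XT.lf (nat_lit 0) (nat_lit 17058872993) (nat_lit 76) (nat_lit 8129331286) (nat_lit 152) (nat_lit 93843758349) (nat_lit 2) (nat_lit 5) (nat_lit 3) (nat_lit 5) (nat_lit 4) (nat_lit 4) (nat_lit 329) (nat_lit 244) (nat_lit 147)))) (XT.nd (nat_lit 156) (nat_lit 0) (nat_lit 0) (XT.nd (nat_lit 78) (nat_lit 0) (nat_lit 0) (XT.lf (nat_lit 0) (nat_lit 27452649560) (nat_lit 76) (nat_lit 2812822947) (nat_lit 152) (nat_lit 94433409905) (nat_lit 2) (nat_lit 5) (nat_lit 3) (nat_lit 5) (nat_lit 4) (nat_lit 4) (nat_lit 330) (nat_lit 244) (nat_lit 146)) (XT.lf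 (nat_lit 0) (nat_lit 35635363649) (nat_lit 152) (nat_lit 92334106812) (nat_lit 0) (nat_lit 2677748379) (nat_lit 2) (nat_lit 5) (nat_lit 4) (nat_lit 4) (nat_lit 2) (nat_lit 4) (nat_lit 331) (nat_lit 244) (nat_lit 145))) (XT.nd (nat_lit 78) (nat_lit 0) (nat_lit 0) (XT.lf (nat_lit 0) (nat_lit 41315594227) (nat_lit 152) (nat_lit 87229947043) (nat_lit 0) (nat_lit 8345346800) (nat_lit 2) (nat_lit 5) (nat_lit 4) (nat_lit 4) (nat_lit 2) (nat_lit 4) (nat_lit 332) (nat_lit 244) (nat_lit 144)) (XT.lf (nat_lit 0) (nat_lit 47275772548) (nat_lit 152) (nat_lit 81877684734) (nat_lit 0) (nat_lit 14293494495) (nat_lit 2) (nat_lit 5) (nat_lit 4) (nat_lit 4) (nat_lit 2) (nat_lit 4) (nat_lit 333) (nat_lit 244) (nat_lit 143))))) (XT.nd (nat_lit 312) (nat_lit 0) (nat_lit 0) (XT.nd (nat_lit 156) (nat_lit 0) (nat_lit 0) (XT.nd (nat_lit 78) (nat_lit 0) (nat_lit 0) (XT.lf (nat_lit 0) (nat_lit 53530089515) (nat_lit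 152) (nat_lit 76264576403) (nat_lit 0) (nat_lit 20536353723) (nat_lit 2) (nat_lit 5) (nat_lit 4) (nat_lit 4) (nat_lit 2) (nat_lit 4) (nat_lit 334) (nat_lit 244) (nat_lit 142)) (XT.lf (nat_lit 0) (nat_lit 60093436357) (nat_lit 152) (nat_lit 70377257506) (nat_lit 0) (nat_lit 27088788434) (nat_lit 2) (nat_lit 5) (nat_lit 4) (nat_lit 4) (nat_lit 2) (nat_lit 4) (nat_lit 335) (nat_lit 244) (nat_lit 141))) (XT.nd (nat_lit 78) (nat_lit 0) (nat_lit 0) (XT.lf (nat_lit 0) (nat_lit 66981440092) (nat_lit 152) (nat_lit 64201710619) (nat_lit 0) (nat_lit 33966399662) (nat_lit 2) (nat_lit 5) (nat_lit 4) (nat_lit 4) (nat_lit 2) (nat_lit 4) (nat_lit 336) (nat_lit 244) (nat_lit 140)) (XT.lf (nat_lit 0) (nat_lit 74210500729) (nat_lit 152) (nat_lit 57723232058) (nat_lit 0) (nat_lit 41185562673) (nat_lit 2) (nat_lit 5) (nat_lit 4) (nat_lit 4) (nat_lit 2) (nat_lit 4) (nat_lit 337) (nat_lit 244) (nat_lit 139))))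 (XT.nd (nat_lit 156) (nat_lit 0) (nat_lit 0) (XT.nd (nat_lit 78) (nat_lit 0) (nat_lit 0) (XT.lf (nat_lit 0) (nat_lit 81797830315) (nat_lit 152) (nat_lit 50926396873) (nat_lit 0) (nat_lit 48763465949) (nat_lit 2) (nat_lit 5) (nat_lit 4) (nat_lit 4) (nat_lit 2) (nat_lit 4) (nat_lit 338) (nat_lit 244) (nat_lit 138)) (XT.lf (nat_lit 0) (nat_lit 89761493922) (nat_lit 152) (nat_lit 43795022124) (nat_lit 0) (nat_lit 56718152118) (nat_lit 2) (nat_lit 5) (nat_lit 4) (nat_lit 4) (nat_lit 2) (nat_lit 4) (nat_lit 339) (nat_lit 244) (nat_lit 137))) (XT.nd (nat_lit 78) (nat_lit 0) (nat_lit 0) (XT.lf (nat_lit 0) (nat_lit 98120452654) (nat_lit 152) (nat_lit 36312128347) (nat_lit 0) (nat_lit 65068560909) (nat_lit 2) (nat_lit 5) (nat_lit 4) (nat_lit 4) (nat_lit 2) (nat_lit 4) (nat_lit 340) (nat_lit 244) (nat_lit 136)) (XT.nd (nat_lit 78) (nat_lit 0) (nat_lit 0) (XT.lf (nat_lit 0) (nat_lit 106894608793)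 (nat_lit 152) (nat_lit 28459899129) (nat_lit 0) (nat_lit 73834574247) (nat_lit 2) (nat_lit 5) (nat_lit 4) (nat_lit 4) (nat_lit 2) (nat_lit 4) (nat_lit 341) (nat_lit 244) (nat_lit 135)) (XT.lf (nat_lit 0) (nat_lit 116104853187) (nat_lit 152) (nat_lit 20219638685) (nat_lit 0) (nat_lit 83037063593) (nat_lit 2) (nat_lit 5) (nat_lit 4) (nat_lit 4) (nat_lit 2) (nat_lit 4) (nat_lit 342) (nat_lit 244) (nat_lit 134))))))) (XT.nd (nat_lit 624) (nat_lit 0) (nat_lit 0) (XT.nd (nat_lit 312) (nat_lit 0) (nat_lit 0) (XT.nd (nat_lit 156) (nat_lit 76) (nat_lit 0) (XT.nd (nat_lit 78) (nat_lit 0) (nat_lit 0) (XT.lf (nat_lit 0) (nat_lit 125773114990) (nat_lit 152) (nat_lit 11571727348) (nat_lit 0) (nat_lit 92697939635) (nat_lit 2) (nat_lit 5) (nat_lit 4) (nat_lit 4) (nat_lit 2) (nat_lit 4) (nat_lit 343) (nat_lit 244) (nat_lit 133)) (XT.lf (nat_lit 0) (nat_lit 135922413872) (nat_lit 152) (nat_lit 2495574853)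 (nat_lit 0) (nat_lit 102840204459) (nat_lit 2) (nat_lit 5) (nat_lit 4) (nat_lit 4) (nat_lit 2) (nat_lit 4) (nat_lit 344) (nat_lit 244) (nat_lit 132))) (XT.nd (nat_lit 78) (nat_lit 0) (nat_lit 0) (XT.lf (nat_lit 0) (nat_lit 7262886408) (nat_lit 76) (nat_lit 139427422433) (nat_lit 76) (nat_lit 106338513918) (nat_lit 1) (nat_lit 4) (nat_lit 2) (nat_lit 5) (nat_lit 2) (nat_lit 4) (nat_lit 345) (nat_lit 244) (nat_lit 131)) (XT.lf (nat_lit 0) (nat_lit 17592018694) (nat_lit 76) (nat_lit 140444627745) (nat_lit 76) (nat_lit 107349339132) (nat_lit 1) (nat_lit 4) (nat_lit 2) (nat_lit 5) (nat_lit 2) (nat_lit 4) (nat_lit 346) (nat_lit 244) (nat_lit 130)))) (XT.nd (nat_lit 156) (nat_lit 0) (nat_lit 0) (XT.nd (nat_lit 78) (nat_lit 0) (nat_lit 0) (XT.lf (nat_lit 0) (nat_lit 28433900200) (nat_lit 76) (nat_lit 141514290347) (nat_lit 76) (nat_lit 108412925450) (nat_lit 1) (nat_lit 4) (nat_lit 2) (nat_lit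 5) (nat_lit 2) (nat_lit 4) (nat_lit 347) (nat_lit 244) (nat_lit 129)) (XT.lf (nat_lit 0) (nat_lit 39814344930) (nat_lit 76) (nat_lit 142638957054) (nat_lit 76) (nat_lit 109531805220) (nat_lit 1) (nat_lit 4) (nat_lit 2) (nat_lit 5) (nat_lit 2) (nat_lit 4) (nat_lit 348) (nat_lit 244) (nat_lit 128))) (XT.nd (nat_lit 78) (nat_lit 0) (nat_lit 0) (XT.lf (nat_lit 0) (nat_lit 51760449181) (nat_lit 76) (nat_lit 143821305643) (nat_lit 76) (nat_lit 110708642442) (nat_lit 1) (nat_lit 4) (nat_lit 2) (nat_lit 5) (nat_lit 2) (nat_lit 4) (nat_lit 349) (nat_lit 244) (nat_lit 127)) (XT.lf (nat_lit 0) (nat_lit 64300656057) (nat_lit 76) (nat_lit 145064151232) (nat_lit 76) (nat_lit 111946239109) (nat_lit 1) (nat_lit 4) (nat_lit 2) (nat_lit 5) (nat_lit 2) (nat_lit 4) (nat_lit 350) (nat_lit 244) (nat_lit 126))))) (XT.nd (nat_lit 312) (nat_lit 0) (nat_lit 0) (XT.nd (nat_lit 156) (nat_lit 0) (nat_lit 0) (XT.nd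 (nat_lit 78) (nat_lit 0) (nat_lit 0) (XT.lf (nat_lit 0) (nat_lit 77464823195) (nat_lit 76) (nat_lit 146370452976) (nat_lit 76) (nat_lit 113247541879) (nat_lit 1) (nat_lit 4) (nat_lit 2) (nat_lit 5) (nat_lit 2) (nat_lit 4) (nat_lit 351) (nat_lit 244) (nat_lit 125)) (XT.lf (nat_lit 0) (nat_lit 91284293850) (nat_lit 76) (nat_lit 147743321117) (nat_lit 76) (nat_lit 114615649093) (nat_lit 1) (nat_lit 4) (nat_lit 2) (nat_lit 5) (nat_lit 2) (nat_lit 4) (nat_lit 352) (nat_lit 244) (nat_lit 124))) (XT.nd (nat_lit 78) (nat_lit 0) (nat_lit 0) (XT.lf (nat_lit 0) (nat_lit 105791971523) (nat_lit 76) (nat_lit 149186024389) (nat_lit 76) (nat_lit 116053818149) (nat_lit 1) (nat_lit 4) (nat_lit 2) (nat_lit 5) (nat_lit 2) (nat_lit 4) (nat_lit 353) (nat_lit 244) (nat_lit 123)) (XT.lf (nat_lit 0) (nat_lit 121022398304) (nat_lit 76) (nat_lit 150701997800) (nat_lit 76) (nat_lit 117565473258) (nat_lit 1) (nat_lit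 4) (nat_lit 2) (nat_lit 5) (nat_lit 2) (nat_lit 4) (nat_lit 354) (nat_lit 244) (nat_lit 122)))) (XT.nd (nat_lit 156) (nat_lit 0) (nat_lit 0) (XT.nd (nat_lit 78) (nat_lit 0) (nat_lit 0) (XT.lf (nat_lit 0) (nat_lit 137011837113) (nat_lit 76) (nat_lit 152294850810) (nat_lit 76) (nat_lit 119154213601) (nat_lit 1) (nat_lit 4) (nat_lit 2) (nat_lit 5) (nat_lit 2) (nat_lit 4) (nat_lit 355) (nat_lit 244) (nat_lit 121)) (XT.lf (nat_lit 0) (nat_lit 153798358044) (nat_lit 76) (nat_lit 153968375927) (nat_lit 76) (nat_lit 120823821891) (nat_lit 1) (nat_lit 4) (nat_lit 2) (nat_lit 5) (nat_lit 2) (nat_lit 4) (nat_lit 356) (nat_lit 244) (nat_lit 120))) (XT.nd (nat_lit 78) (nat_lit 0) (nat_lit 0) (XT.lf (nat_lit 0) (nat_lit 171421929003) (nat_lit 76) (nat_lit 155726557733) (nat_lit 76) (nat_lit 122578273386) (nat_lit 1) (nat_lit 4) (nat_lit 2) (nat_lit 5) (nat_lit 2) (nat_lit 4) (nat_lit 357) (nat_lit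 244) (nat_lit 119)) (XT.nd (nat_lit 28704) (nat_lit 0) (nat_lit 6916) (XT.lf (nat_lit 0) (nat_lit 189924510873) (nat_lit 76) (nat_lit 157573582377) (nat_lit 76) (nat_lit 124421745353) (nat_lit 1) (nat_lit 4) (nat_lit 2) (nat_lit 5) (nat_lit 2) (nat_lit 4) (nat_lit 358) (nat_lit 244) (nat_lit 118)) (XT.lf (nat_lit 0) (nat_lit 1577444881) (nat_lit 380) (nat_lit 898392207) (nat_lit 380) (nat_lit 898392207) (nat_lit 92) (nat_lit 3) (nat_lit 97) (nat_lit 3) (nat_lit 97) (nat_lit 5) (nat_lit 245) (nat_lit 245) (nat_lit 230))))))))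
noncomputable def xc127 : XT := (XT.nd (nat_lit 1326) (nat_lit 2128) (nat_lit 0) (XT.nd (nat_lit 624) (nat_lit 2356) (nat_lit 0) (XT.nd (nat_lit 312) (nat_lit 380) (nat_lit 0) (XT.nd (nat_lit 156) (nat_lit 0) (nat_lit 0) (XT.nd (nat_lit 78) (nat_lit 380) (nat_lit 0) (XT.lf (nat_lit 76) (nat_lit 1040501386) (nat_lit 0) (nat_lit 3997314926) (nat_lit 380) (nat_lit 1775918600) (nat_lit 93) (nat_lit 5) (nat_lit 92) (nat_lit 3) (nat_lit 97) (nat_lit 5) (nat_lit 246) (nat_lit 245) (nat_lit 229)) (XT.lf (nat_lit 0) (nat_lit 41167872) (nat_lit 380) (nat_lit 2868509967) (nat_lit 456) (nat_lit 3977660482) (nat_lit 87) (nat_lit 5) (nat_lit 92) (nat_lit 3) (nat_lit 93) (nat_lit 5) (nat_lit 247) (nat_lit 245) (nat_lit 228))) (XT.nd (nat_lit 78) (nat_lit 0) (nat_lit 0) (XT.lf (nat_lit 76) (nat_lit 91238614) (nat_lit 0) (nat_lit 1687107231) (nat_lit 456) (nat_lit 5191142690) (nat_lit 88) (nat_lit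 5) (nat_lit 87) (nat_lit 5) (nat_lit 93) (nat_lit 5) (nat_lit 248) (nat_lit 245) (nat_lit 227)) (XT.lf (nat_lit 76) (nat_lit 3235577419) (nat_lit 0) (nat_lit 307254094) (nat_lit 456) (nat_lit 3516624014) (nat_lit 88) (nat_lit 5) (nat_lit 87) (nat_lit 5) (nat_lit 93) (nat_lit 5) (nat_lit 249) (nat_lit 245) (nat_lit 226)))) (XT.nd (nat_lit 156) (nat_lit 456) (nat_lit 0) (XT.nd (nat_lit 78) (nat_lit 0) (nat_lit 0) (XT.lf (nat_lit 0) (nat_lit 5311054470) (nat_lit 380) (nat_lit 701114471) (nat_lit 456) (nat_lit 1146673140) (nat_lit 88) (nat_lit 5) (nat_lit 93) (nat_lit 5) (nat_lit 94) (nat_lit 5) (nat_lit 250) (nat_lit 245) (nat_lit 225)) (XT.lf (nat_lit 76) (nat_lit 2592386455) (nat_lit 0) (nat_lit 4523374972) (nat_lit 456) (nat_lit 150696570) (nat_lit 89) (nat_lit 5) (nat_lit 88) (nat_lit 5) (nat_lit 94) (nat_lit 5) (nat_lit 251) (nat_lit 245) (nat_lit 224))) (XT.nd (nat_lit 78) (nat_lit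 0) (nat_lit 0) (XT.lf (nat_lit 0) (nat_lit 1495186652) (nat_lit 456) (nat_lit 1395708988) (nat_lit 532) (nat_lit 4492080239) (nat_lit 82) (nat_lit 5) (nat_lit 88) (nat_lit 5) (nat_lit 89) (nat_lit 5) (nat_lit 252) (nat_lit 245) (nat_lit 223)) (XT.lf (nat_lit 76) (nat_lit 2046665938) (nat_lit 0) (nat_lit 1112234964) (nat_lit 532) (nat_lit 4349838478) (nat_lit 83) (nat_lit 5) (nat_lit 82) (nat_lit 5) (nat_lit 89) (nat_lit 5) (nat_lit 253) (nat_lit 245) (nat_lit 222))))) (XT.nd (nat_lit 312) (nat_lit 1368) (nat_lit 0) (XT.nd (nat_lit 156) (nat_lit 608) (nat_lit 0) (XT.nd (nat_lit 78) (nat_lit 456) (nat_lit 0) (XT.lf (nat_lit 0) (nat_lit 4854055607) (nat_lit 456) (nat_lit 2009451819) (nat_lit 76) (nat_lit 780416902) (nat_lit 83) (nat_lit 5) (nat_lit 89) (nat_lit 5) (nat_lit 84) (nat_lit 5) (nat_lit 254) (nat_lit 245) (nat_lit 221)) (XT.lf (nat_lit 0) (nat_lit 1584198108) (nat_lit 456)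 (nat_lit 5009343714) (nat_lit 532) (nat_lit 1194868022) (nat_lit 77) (nat_lit 5) (nat_lit 83) (nat_lit 5) (nat_lit 84) (nat_lit 5) (nat_lit 255) (nat_lit 245) (nat_lit 220))) (XT.nd (nat_lit 78) (nat_lit 532) (nat_lit 0) (XT.lf (nat_lit 0) (nat_lit 416908379) (nat_lit 532) (nat_lit 2585404025) (nat_lit 76) (nat_lit 4940285035) (nat_lit 76) (nat_lit 5) (nat_lit 83) (nat_lit 5) (nat_lit 77) (nat_lit 5) (nat_lit 256) (nat_lit 245) (nat_lit 219)) (XT.lf (nat_lit 0) (nat_lit 1169098425) (nat_lit 532) (nat_lit 839983141) (nat_lit 608) (nat_lit 6097884483) (nat_lit 69) (nat_lit 5) (nat_lit 76) (nat_lit 5) (nat_lit 77) (nat_lit 5) (nat_lit 257) (nat_lit 245) (nat_lit 218)))) (XT.nd (nat_lit 156) (nat_lit 760) (nat_lit 0) (XT.nd (nat_lit 78) (nat_lit 608) (nat_lit 0) (XT.lf (nat_lit 0) (nat_lit 3672379755) (nat_lit 608) (nat_lit 3165803170) (nat_lit 76) (nat_lit 1442222161) (nat_lit 69) (nat_lit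 5) (nat_lit 77) (nat_lit 5) (nat_lit 70) (nat_lit 5) (nat_lit 258) (nat_lit 245) (nat_lit 217)) (XT.lf (nat_lit 0) (nat_lit 741519546) (nat_lit 608) (nat_lit 4630937346) (nat_lit 684) (nat_lit 3092785922) (nat_lit 61) (nat_lit 5) (nat_lit 69) (nat_lit 5) (nat_lit 70) (nat_lit 5) (nat_lit 259) (nat_lit 245) (nat_lit 216))) (XT.nd (nat_lit 78) (nat_lit 760) (nat_lit 0) (XT.lf (nat_lit 0) (nat_lit 4891831030) (nat_lit 608) (nat_lit 2250031290) (nat_lit 684) (nat_lit 1518631925) (nat_lit 61) (nat_lit 5) (nat_lit 69) (nat_lit 5) (nat_lit 70) (nat_lit 5) (nat_lit 260) (nat_lit 245) (nat_lit 215)) (XT.nd (nat_lit 78) (nat_lit 0) (nat_lit 0) (XT.lf (nat_lit 0) (nat_lit 71774586) (nat_lit 760) (nat_lit 8542238566) (nat_lit 76) (nat_lit 254650223) (nat_lit 51) (nat_lit 5) (nat_lit 61) (nat_lit 5) (nat_lit 52) (nat_lit 5) (nat_lit 261) (nat_lit 245) (nat_lit 214)) (XT.lf (nat_lit 0) (nat_lit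 1727318304) (nat_lit 760) (nat_lit 4454334947) (nat_lit 76) (nat_lit 2902845490) (nat_lit 51) (nat_lit 5) (nat_lit 61) (nat_lit 5) (nat_lit 52) (nat_lit 5) (nat_lit 262) (nat_lit 245) (nat_lit 213))))))) (XT.nd (nat_lit 624) (nat_lit 912) (nat_lit 0) (XT.nd (nat_lit 312) (nat_lit 608) (nat_lit 0) (XT.nd (nat_lit 156) (nat_lit 304) (nat_lit 0) (XT.nd (nat_lit 78) (nat_lit 304) (nat_lit 0) (XT.lf (nat_lit 0) (nat_lit 3403636046) (nat_lit 760) (nat_lit 223525902) (nat_lit 76) (nat_lit 5687383325) (nat_lit 51) (nat_lit 5) (nat_lit 61) (nat_lit 5) (nat_lit 52) (nat_lit 5) (nat_lit 263) (nat_lit 245) (nat_lit 212)) (XT.lf (nat_lit 0) (nat_lit 4297818970) (nat_lit 304) (nat_lit 874001074) (nat_lit 380) (nat_lit 4384175609) (nat_lit 47) (nat_lit 5) (nat_lit 51) (nat_lit 5) (nat_lit 52) (nat_lit 5) (nat_lit 264) (nat_lit 245) (nat_lit 211))) (XT.nd (nat_lit 78) (nat_lit 304) (nat_lit 0) (XT.lf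 (nat_lit 0) (nat_lit 7006603261) (nat_lit 380) (nat_lit 848644238) (nat_lit 76) (nat_lit 1955651112) (nat_lit 47) (nat_lit 5) (nat_lit 52) (nat_lit 5) (nat_lit 48) (nat_lit 5) (nat_lit 265) (nat_lit 245) (nat_lit 210)) (XT.lf (nat_lit 0) (nat_lit 3831816008) (nat_lit 304) (nat_lit 5121038393) (nat_lit 380) (nat_lit 1124981651) (nat_lit 43) (nat_lit 5) (nat_lit 47) (nat_lit 5) (nat_lit 48) (nat_lit 5) (nat_lit 266) (nat_lit 245) (nat_lit 209)))) (XT.nd (nat_lit 156) (nat_lit 304) (nat_lit 0) (XT.nd (nat_lit 78) (nat_lit 228) (nat_lit 0) (XT.lf (nat_lit 0) (nat_lit 578635806) (nat_lit 380) (nat_lit 1650800739) (nat_lit 76) (nat_lit 8130397292) (nat_lit 42) (nat_lit 5) (nat_lit 47) (nat_lit 5) (nat_lit 43) (nat_lit 5) (nat_lit 267) (nat_lit 245) (nat_lit 208)) (XT.lf (nat_lit 0) (nat_lit 2341985599) (nat_lit 304) (nat_lit 7466882035) (nat_lit 76) (nat_lit 845762073) (nat_lit 39) (nat_lit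 5) (nat_lit 43) (nat_lit 5) (nat_lit 40) (nat_lit 5) (nat_lit 268) (nat_lit 245) (nat_lit 207))) (XT.nd (nat_lit 78) (nat_lit 304) (nat_lit 0) (XT.lf (nat_lit 0) (nat_lit 4208682575) (nat_lit 304) (nat_lit 2732110219) (nat_lit 76) (nat_lit 4022840471) (nat_lit 39) (nat_lit 5) (nat_lit 43) (nat_lit 5) (nat_lit 40) (nat_lit 5) (nat_lit 269) (nat_lit 245) (nat_lit 206)) (XT.lf (nat_lit 0) (nat_lit 2256506459) (nat_lit 304) (nat_lit 3900025120) (nat_lit 380) (nat_lit 5132380636) (nat_lit 35) (nat_lit 5) (nat_lit 39) (nat_lit 5) (nat_lit 40) (nat_lit 5) (nat_lit 270) (nat_lit 245) (nat_lit 205))))) (XT.nd (nat_lit 312) (nat_lit 608) (nat_lit 0) (XT.nd (nat_lit 156) (nat_lit 76) (nat_lit 0) (XT.nd (nat_lit 78) (nat_lit 228) (nat_lit 0) (XT.lf (nat_lit 0) (nat_lit 7535179610) (nat_lit 304) (nat_lit 666860958) (nat_lit 380) (nat_lit 3428606954) (nat_lit 35) (nat_lit 5) (nat_lit 39) (nat_lit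 5) (nat_lit 40) (nat_lit 5) (nat_lit 271) (nat_lit 245) (nat_lit 204)) (XT.lf (nat_lit 0) (nat_lit 1024610557) (nat_lit 228) (nat_lit 9339868817) (nat_lit 304) (nat_lit 1624453489) (nat_lit 32) (nat_lit 5) (nat_lit 35) (nat_lit 5) (nat_lit 36) (nat_lit 5) (nat_lit 272) (nat_lit 245) (nat_lit 203))) (XT.nd (nat_lit 78) (nat_lit 0) (nat_lit 0) (XT.lf (nat_lit 0) (nat_lit 299146829) (nat_lit 304) (nat_lit 5889726678) (nat_lit 76) (nat_lit 6174332132) (nat_lit 31) (nat_lit 5) (nat_lit 35) (nat_lit 5) (nat_lit 32) (nat_lit 5) (nat_lit 273) (nat_lit 245) (nat_lit 202)) (XT.lf (nat_lit 0) (nat_lit 2222858690) (nat_lit 304) (nat_lit 640086227) (nat_lit 76) (nat_lit 9894158726) (nat_lit 31) (nat_lit 5) (nat_lit 35) (nat_lit 5) (nat_lit 32) (nat_lit 5) (nat_lit 274) (nat_lit 245) (nat_lit 201)))) (XT.nd (nat_lit 156) (nat_lit 380) (nat_lit 0) (XT.nd (nat_lit 78) (nat_lit 0) (nat_lit 0) (XT.lf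 (nat_lit 0) (nat_lit 4291979276) (nat_lit 304) (nat_lit 8197973622) (nat_lit 76) (nat_lit 678443732) (nat_lit 28) (nat_lit 5) (nat_lit 32) (nat_lit 5) (nat_lit 29) (nat_lit 5) (nat_lit 275) (nat_lit 245) (nat_lit 200)) (XT.lf (nat_lit 0) (nat_lit 6483963350) (nat_lit 304) (nat_lit 2813829964) (nat_lit 76) (nat_lit 4301644139) (nat_lit 28) (nat_lit 5) (nat_lit 32) (nat_lit 5) (nat_lit 29) (nat_lit 5) (nat_lit 276) (nat_lit 245) (nat_lit 199))) (XT.nd (nat_lit 78) (nat_lit 228) (nat_lit 0) (XT.lf (nat_lit 0) (nat_lit 2883539253) (nat_lit 152) (nat_lit 5910318986) (nat_lit 228) (nat_lit 5257902747) (nat_lit 26) (nat_lit 5) (nat_lit 28) (nat_lit 5) (nat_lit 29) (nat_lit 5) (nat_lit 277) (nat_lit 245) (nat_lit 198)) (XT.nd (nat_lit 78) (nat_lit 228) (nat_lit 0) (XT.lf (nat_lit 0) (nat_lit 8915972463) (nat_lit 152) (nat_lit 2315226970) (nat_lit 228) (nat_lit 3295042966) (nat_lit 26) (nat_lit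 5) (nat_lit 28) (nat_lit 5) (nat_lit 29) (nat_lit 5) (nat_lit 278) (nat_lit 245) (nat_lit 197)) (XT.lf (nat_lit 0) (nat_lit 161055411) (nat_lit 228) (nat_lit 13620478297) (nat_lit 304) (nat_lit 1243490527) (nat_lit 23) (nat_lit 5) (nat_lit 26) (nat_lit 5) (nat_lit 27) (nat_lit 5) (nat_lit 279) (nat_lit 245) (nat_lit 196))))))))
noncomputable def xc128 : XT := (XT.nd (nat_lit 1248) (nat_lit 532) (nat_lit 0) (XT.nd (nat_lit 624) (nat_lit 380) (nat_lit 0) (XT.nd (nat_lit 312) (nat_lit 228) (nat_lit 0) (XT.nd (nat_lit 156) (nat_lit 152) (nat_lit 0) (XT.nd (nat_lit 78) (nat_lit 0) (nat_lit 0) (XT.lf (nat_lit 0) (nat_lit 982080393) (nat_lit 304) (nat_lit 9229377583) (nat_lit 76) (nat_lit 5331667272) (nat_lit 22) (nat_lit 5) (nat_lit 26) (nat_lit 5) (nat_lit 23) (nat_lit 5) (nat_lit 280) (nat_lit 245) (nat_lit 195)) (XT.lf (nat_lit 0) (nat_lit 3244818758) (nat_lit 304) (nat_lit 3378562084)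 (nat_lit 76) (nat_lit 9464461886) (nat_lit 22) (nat_lit 5) (nat_lit 26) (nat_lit 5) (nat_lit 23) (nat_lit 5) (nat_lit 281) (nat_lit 245) (nat_lit 194))) (XT.nd (nat_lit 78) (nat_lit 0) (nat_lit 0) (XT.lf (nat_lit 0) (nat_lit 2811818302) (nat_lit 152) (nat_lit 2821993564) (nat_lit 228) (nat_lit 11025437460) (nat_lit 20) (nat_lit 5) (nat_lit 22) (nat_lit 5) (nat_lit 23) (nat_lit 5) (nat_lit 282) (nat_lit 245) (nat_lit 193)) (XT.lf (nat_lit 0) (nat_lit 8188499947) (nat_lit 228) (nat_lit 7890237459) (nat_lit 76) (nat_lit 1178280515) (nat_lit 20) (nat_lit 5) (nat_lit 23) (nat_lit 5) (nat_lit 21) (nat_lit 5) (nat_lit 283) (nat_lit 245) (nat_lit 192)))) (XT.nd (nat_lit 156) (nat_lit 76) (nat_lit 0) (XT.nd (nat_lit 78) (nat_lit 152) (nat_lit 0) (XT.lf (nat_lit 0) (nat_lit 10888452379) (nat_lit 228) (nat_lit 1723055216) (nat_lit 76) (nat_lit 5272389841) (nat_lit 20) (nat_lit 5) (nat_lit 23)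 (nat_lit 5) (nat_lit 21) (nat_lit 5) (nat_lit 284) (nat_lit 245) (nat_lit 191)) (XT.lf (nat_lit 0) (nat_lit 4868687091) (nat_lit 152) (nat_lit 8903365149) (nat_lit 228) (nat_lit 4767730469) (nat_lit 18) (nat_lit 5) (nat_lit 20) (nat_lit 5) (nat_lit 21) (nat_lit 5) (nat_lit 285) (nat_lit 245) (nat_lit 190))) (XT.nd (nat_lit 78) (nat_lit 76) (nat_lit 0) (XT.lf (nat_lit 0) (nat_lit 11810848813) (nat_lit 152) (nat_lit 4991494348) (nat_lit 228) (nat_lit 2426083314) (nat_lit 18) (nat_lit 5) (nat_lit 20) (nat_lit 5) (nat_lit 21) (nat_lit 5) (nat_lit 286) (nat_lit 245) (nat_lit 189)) (XT.lf (nat_lit 0) (nat_lit 5702433) (nat_lit 228) (nat_lit 889962980) (nat_lit 76) (nat_lit 19057187913) (nat_lit 17) (nat_lit 5) (nat_lit 20) (nat_lit 5) (nat_lit 18) (nat_lit 5) (nat_lit 287) (nat_lit 245) (nat_lit 188))))) (XT.nd (nat_lit 312) (nat_lit 76) (nat_lit 0) (XT.nd (nat_lit 156) (nat_lit 152) (nat_lit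 0) (XT.nd (nat_lit 78) (nat_lit 0) (nat_lit 0) (XT.lf (nat_lit 0) (nat_lit 2603036131) (nat_lit 228) (nat_lit 14680576202) (nat_lit 76) (nat_lit 3421703602) (nat_lit 15) (nat_lit 5) (nat_lit 18) (nat_lit 5) (nat_lit 16) (nat_lit 5) (nat_lit 288) (nat_lit 245) (nat_lit 187)) (XT.lf (nat_lit 0) (nat_lit 5336009121) (nat_lit 228) (nat_lit 8230269749) (nat_lit 76) (nat_lit 7928908040) (nat_lit 15) (nat_lit 5) (nat_lit 18) (nat_lit 5) (nat_lit 16) (nat_lit 5) (nat_lit 289) (nat_lit 245) (nat_lit 186))) (XT.nd (nat_lit 78) (nat_lit 152) (nat_lit 0) (XT.lf (nat_lit 0) (nat_lit 8182555076) (nat_lit 228) (nat_lit 1492463821) (nat_lit 76) (nat_lit 12650756670) (nat_lit 15) (nat_lit 5) (nat_lit 18) (nat_lit 5) (nat_lit 16) (nat_lit 5) (nat_lit 290) (nat_lit 245) (nat_lit 185)) (XT.lf (nat_lit 0) (nat_lit 5732355142) (nat_lit 152) (nat_lit 5506594473) (nat_lit 228) (nat_lit 11955634973) (nat_lit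 13) (nat_lit 5) (nat_lit 15) (nat_lit 5) (nat_lit 16) (nat_lit 5) (nat_lit 291) (nat_lit 245) (nat_lit 184)))) (XT.nd (nat_lit 156) (nat_lit 76) (nat_lit 0) (XT.nd (nat_lit 78) (nat_lit 0) (nat_lit 0) (XT.lf (nat_lit 0) (nat_lit 13337419480) (nat_lit 152) (nat_lit 1114577408) (nat_lit 228) (nat_lit 9654709330) (nat_lit 13) (nat_lit 5) (nat_lit 15) (nat_lit 5) (nat_lit 16) (nat_lit 5) (nat_lit 292) (nat_lit 245) (nat_lit 183)) (XT.lf (nat_lit 0) (nat_lit 17859704580) (nat_lit 228) (nat_lit 3828456449) (nat_lit 76) (nat_lit 3374633268) (nat_lit 13) (nat_lit 5) (nat_lit 16) (nat_lit 5) (nat_lit 14) (nat_lit 4) (nat_lit 293) (nat_lit 245) (nat_lit 182))) (XT.nd (nat_lit 78) (nat_lit 0) (nat_lit 0) (XT.lf (nat_lit 0) (nat_lit 3523281115) (nat_lit 76) (nat_lit 17968186547) (nat_lit 152) (nat_lit 4572593491) (nat_lit 12) (nat_lit 5) (nat_lit 13) (nat_lit 5) (nat_lit 14) (nat_lit 4) (nat_lit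 294) (nat_lit 245) (nat_lit 181)) (XT.lf (nat_lit 0) (nat_lit 11345385467) (nat_lit 76) (nat_lit 14005123460) (nat_lit 152) (nat_lit 1762653043) (nat_lit 12) (nat_lit 5) (nat_lit 13) (nat_lit 5) (nat_lit 14) (nat_lit 4) (nat_lit 295) (nat_lit 245) (nat_lit 180)))))) (XT.nd (nat_lit 624) (nat_lit 228) (nat_lit 0) (XT.nd (nat_lit 312) (nat_lit 76) (nat_lit 0) (XT.nd (nat_lit 156) (nat_lit 152) (nat_lit 0) (XT.nd (nat_lit 78) (nat_lit 0) (nat_lit 0) (XT.lf (nat_lit 0) (nat_lit 1131183174) (nat_lit 152) (nat_lit 8704032358) (nat_lit 76) (nat_lit 18379554296) (nat_lit 11) (nat_lit 5) (nat_lit 13) (nat_lit 5) (nat_lit 12) (nat_lit 5) (nat_lit 296) (nat_lit 245) (nat_lit 179)) (XT.lf (nat_lit 0) (nat_lit 4092774758) (nat_lit 152) (nat_lit 1343963548) (nat_lit 76) (nat_lit 23934207576) (nat_lit 11) (nat_lit 5) (nat_lit 13) (nat_lit 5) (nat_lit 12) (nat_lit 5) (nat_lit 297) (nat_lit 245) (nat_lit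 178))) (XT.nd (nat_lit 78) (nat_lit 0) (nat_lit 0) (XT.lf (nat_lit 0) (nat_lit 6567680647) (nat_lit 152) (nat_lit 720448273) (nat_lit 228) (nat_lit 23292563016) (nat_lit 9) (nat_lit 5) (nat_lit 11) (nat_lit 5) (nat_lit 12) (nat_lit 5) (nat_lit 298) (nat_lit 245) (nat_lit 177)) (XT.lf (nat_lit 0) (nat_lit 10715837177) (nat_lit 228) (nat_lit 17021581475) (nat_lit 76) (nat_lit 4109920509) (nat_lit 9) (nat_lit 5) (nat_lit 12) (nat_lit 5) (nat_lit 10) (nat_lit 4) (nat_lit 299) (nat_lit 245) (nat_lit 176)))) (XT.nd (nat_lit 156) (nat_lit 76) (nat_lit 0) (XT.nd (nat_lit 78) (nat_lit 0) (nat_lit 0) (XT.lf (nat_lit 0) (nat_lit 14310917257) (nat_lit 228) (nat_lit 9718028427) (nat_lit 76) (nat_lit 9148614873) (nat_lit 9) (nat_lit 5) (nat_lit 12) (nat_lit 5) (nat_lit 10) (nat_lit 4) (nat_lit 300) (nat_lit 245) (nat_lit 175)) (XT.lf (nat_lit 0) (nat_lit 18070680658) (nat_lit 228) (nat_lit 2073714516)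 (nat_lit 76) (nat_lit 14430690554) (nat_lit 9) (nat_lit 5) (nat_lit 12) (nat_lit 5) (nat_lit 10) (nat_lit 4) (nat_lit 301) (nat_lit 245) (nat_lit 174))) (XT.nd (nat_lit 78) (nat_lit 0) (nat_lit 0) (XT.lf (nat_lit 0) (nat_lit 6125619069) (nat_lit 76) (nat_lit 15974098211) (nat_lit 152) (nat_lit 13938742934) (nat_lit 8) (nat_lit 5) (nat_lit 9) (nat_lit 5) (nat_lit 10) (nat_lit 4) (nat_lit 302) (nat_lit 245) (nat_lit 173)) (XT.lf (nat_lit 0) (nat_lit 14784035001) (nat_lit 76) (nat_lit 11567263332) (nat_lit 152) (nat_lit 11222685991) (nat_lit 8) (nat_lit 5) (nat_lit 9) (nat_lit 5) (nat_lit 10) (nat_lit 4) (nat_lit 303) (nat_lit 245) (nat_lit 172))))) (XT.nd (nat_lit 312) (nat_lit 76) (nat_lit 0) (XT.nd (nat_lit 156) (nat_lit 152) (nat_lit 0) (XT.nd (nat_lit 78) (nat_lit 0) (nat_lit 0) (XT.lf (nat_lit 0) (nat_lit 23853582187) (nat_lit 76) (nat_lit 6948517434) (nat_lit 152) (nat_lit 8384886797)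 (nat_lit 8) (nat_lit 5) (nat_lit 9) (nat_lit 5) (nat_lit 10) (nat_lit 4) (nat_lit 304) (nat_lit 245) (nat_lit 171)) (XT.lf (nat_lit 0) (nat_lit 33355854787) (nat_lit 76) (nat_lit 2106863503) (nat_lit 152) (nat_lit 5418588689) (nat_lit 8) (nat_lit 5) (nat_lit 9) (nat_lit 5) (nat_lit 10) (nat_lit 4) (nat_lit 305) (nat_lit 245) (nat_lit 170))) (XT.nd (nat_lit 78) (nat_lit 76) (nat_lit 0) (XT.lf (nat_lit 0) (nat_lit 626180914) (nat_lit 76) (nat_lit 39774204518) (nat_lit 76) (nat_lit 2257787951) (nat_lit 7) (nat_lit 4) (nat_lit 8) (nat_lit 5) (nat_lit 8) (nat_lit 4) (nat_lit 306) (nat_lit 245) (nat_lit 169)) (XT.lf (nat_lit 0) (nat_lit 1178978192) (nat_lit 152) (nat_lit 35144427087) (nat_lit 76) (nat_lit 8192083082) (nat_lit 6) (nat_lit 5) (nat_lit 8) (nat_lit 5) (nat_lit 7) (nat_lit 4) (nat_lit 307) (nat_lit 245) (nat_lit 168)))) (XT.nd (nat_lit 156) (nat_lit 76) (nat_lit 0) (XT.nd (nat_lit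 78) (nat_lit 0) (nat_lit 0) (XT.lf (nat_lit 0) (nat_lit 4700097084) (nat_lit 152) (nat_lit 27968910326) (nat_lit 76) (nat_lit 13795418001) (nat_lit 6) (nat_lit 5) (nat_lit 8) (nat_lit 5) (nat_lit 7) (nat_lit 4) (nat_lit 308) (nat_lit 245) (nat_lit 167)) (XT.lf (nat_lit 0) (nat_lit 8386215655) (nat_lit 152) (nat_lit 20453107224) (nat_lit 76) (nat_lit 19672064497) (nat_lit 6) (nat_lit 5) (nat_lit 8) (nat_lit 5) (nat_lit 7) (nat_lit 4) (nat_lit 309) (nat_lit 245) (nat_lit 166))) (XT.nd (nat_lit 78) (nat_lit 76) (nat_lit 0) (XT.lf (nat_lit 0) (nat_lit 12246110378) (nat_lit 152) (nat_lit 12579123011) (nat_lit 76) (nat_lit 25836014587) (nat_lit 6) (nat_lit 5) (nat_lit 8) (nat_lit 5) (nat_lit 7) (nat_lit 4) (nat_lit 310) (nat_lit 245) (nat_lit 165)) (XT.nd (nat_lit 78) (nat_lit 76) (nat_lit 0) (XT.lf (nat_lit 0) (nat_lit 16288971479) (nat_lit 152) (nat_lit 4328210107) (nat_lit 76) (nat_lit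 32301944343) (nat_lit 6) (nat_lit 5) (nat_lit 8) (nat_lit 5) (nat_lit 7) (nat_lit 4) (nat_lit 311) (nat_lit 245) (nat_lit 164)) (XT.lf (nat_lit 0) (nat_lit 4462091307) (nat_lit 76) (nat_lit 16131999260) (nat_lit 152) (nat_lit 34692823277) (nat_lit 5) (nat_lit 5) (nat_lit 6) (nat_lit 5) (nat_lit 7) (nat_lit 4) (nat_lit 312) (nat_lit 245) (nat_lit 163))))))))
noncomputable def xc129 : XT := (XT.nd (nat_lit 1326) (nat_lit 76) (nat_lit 0) (XT.nd (nat_lit 624) (nat_lit 152) (nat_lit 0) (XT.nd (nat_lit 312) (nat_lit 76) (nat_lit 0) (XT.nd (nat_lit 156) (nat_lit 0) (nat_lit 0) (XT.nd (nat_lit 78) (nat_lit 0) (nat_lit 0) (XT.lf (nat_lit 0) (nat_lit 13826459163) (nat_lit 76) (nat_lit 11351965419) (nat_lit 152) (nat_lit 32591489400) (nat_lit 5) (nat_lit 5) (nat_lit 6) (nat_lit 5) (nat_lit 7) (nat_lit 4) (nat_lit 313) (nat_lit 245) (nat_lit 162)) (XT.lf (nat_lit 0) (nat_lit 23644079401) (nat_lit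 76) (nat_lit 6338999361) (nat_lit 152) (nat_lit 30394449975) (nat_lit 5) (nat_lit 5) (nat_lit 6) (nat_lit 5) (nat_lit 7) (nat_lit 4) (nat_lit 314) (nat_lit 245) (nat_lit 161))) (XT.nd (nat_lit 78) (nat_lit 0) (nat_lit 0) (XT.lf (nat_lit 0) (nat_lit 33938327307) (nat_lit 76) (nat_lit 1081165454) (nat_lit 152) (nat_lit 28096473955) (nat_lit 5) (nat_lit 5) (nat_lit 6) (nat_lit 5) (nat_lit 7) (nat_lit 4) (nat_lit 315) (nat_lit 245) (nat_lit 160)) (XT.lf (nat_lit 0) (nat_lit 40368886065) (nat_lit 152) (nat_lit 21327263040) (nat_lit 0) (nat_lit 4292137504) (nat_lit 5) (nat_lit 5) (nat_lit 7) (nat_lit 4) (nat_lit 5) (nat_lit 4) (nat_lit 316) (nat_lit 245) (nat_lit 159)))) (XT.nd (nat_lit 156) (nat_lit 76) (nat_lit 0) (XT.nd (nat_lit 78) (nat_lit 0) (nat_lit 0) (XT.lf (nat_lit 0) (nat_lit 45995706039) (nat_lit 152) (nat_lit 13115339568) (nat_lit 0) (nat_lit 9892696131) (nat_lit 5) (nat_lit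 5) (nat_lit 7) (nat_lit 4) (nat_lit 5) (nat_lit 4) (nat_lit 317) (nat_lit 245) (nat_lit 158)) (XT.lf (nat_lit 0) (nat_lit 51896469850) (nat_lit 152) (nat_lit 4505436773) (nat_lit 0) (nat_lit 15768449135) (nat_lit 5) (nat_lit 5) (nat_lit 7) (nat_lit 4) (nat_lit 5) (nat_lit 4) (nat_lit 318) (nat_lit 245) (nat_lit 157))) (XT.nd (nat_lit 78) (nat_lit 0) (nat_lit 0) (XT.lf (nat_lit 0) (nat_lit 4672494104) (nat_lit 76) (nat_lit 53485683559) (nat_lit 76) (nat_lit 17333843028) (nat_lit 4) (nat_lit 4) (nat_lit 5) (nat_lit 5) (nat_lit 5) (nat_lit 4) (nat_lit 319) (nat_lit 245) (nat_lit 156)) (XT.lf (nat_lit 0) (nat_lit 14453917876) (nat_lit 76) (nat_lit 50348460720) (nat_lit 76) (nat_lit 14173934651) (nat_lit 4) (nat_lit 4) (nat_lit 5) (nat_lit 5) (nat_lit 5) (nat_lit 4) (nat_lit 320) (nat_lit 245) (nat_lit 155))))) (XT.nd (nat_lit 312) (nat_lit 76) (nat_lit 0) (XT.nd (nat_lit 156) (nat_lit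 76) (nat_lit 0) (XT.nd (nat_lit 78) (nat_lit 0) (nat_lit 0) (XT.lf (nat_lit 0) (nat_lit 24713153561) (nat_lit 76) (nat_lit 47059070281) (nat_lit 76) (nat_lit 10862938936) (nat_lit 4) (nat_lit 4) (nat_lit 5) (nat_lit 5) (nat_lit 5) (nat_lit 4) (nat_lit 321) (nat_lit 245) (nat_lit 154)) (XT.lf (nat_lit 0) (nat_lit 35474627908) (nat_lit 76) (nat_lit 43609680360) (nat_lit 76) (nat_lit 7392972563) (nat_lit 4) (nat_lit 4) (nat_lit 5) (nat_lit 5) (nat_lit 5) (nat_lit 4) (nat_lit 322) (nat_lit 245) (nat_lit 153))) (XT.nd (nat_lit 78) (nat_lit 76) (nat_lit 0) (XT.lf (nat_lit 0) (nat_lit 46763963477) (nat_lit 76) (nat_lit 39992078124) (nat_lit 76) (nat_lit 3755773705) (nat_lit 4) (nat_lit 4) (nat_lit 5) (nat_lit 5) (nat_lit 5) (nat_lit 4) (nat_lit 323) (nat_lit 245) (nat_lit 152)) (XT.lf (nat_lit 0) (nat_lit 55483111) (nat_lit 152) (nat_lit 36141227489) (nat_lit 76) (nat_lit 58551616893) (nat_lit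 3) (nat_lit 5) (nat_lit 5) (nat_lit 5) (nat_lit 4) (nat_lit 4) (nat_lit 324) (nat_lit 245) (nat_lit 151)))) (XT.nd (nat_lit 156) (nat_lit 76) (nat_lit 0) (XT.nd (nat_lit 78) (nat_lit 0) (nat_lit 0) (XT.lf (nat_lit 0) (nat_lit 3925582749) (nat_lit 152) (nat_lit 28225297944) (nat_lit 76) (nat_lit 67042992179) (nat_lit 3) (nat_lit 5) (nat_lit 5) (nat_lit 5) (nat_lit 4) (nat_lit 4) (nat_lit 325) (nat_lit 245) (nat_lit 150)) (XT.lf (nat_lit 0) (nat_lit 7983947945) (nat_lit 152) (nat_lit 19922577592) (nat_lit 76) (nat_lit 75955442447) (nat_lit 3) (nat_lit 5) (nat_lit 5) (nat_lit 5) (nat_lit 4) (nat_lit 4) (nat_lit 326) (nat_lit 245) (nat_lit 149))) (XT.nd (nat_lit 78) (nat_lit 76) (nat_lit 0) (XT.lf (nat_lit 0) (nat_lit 12240241472) (nat_lit 152) (nat_lit 11213298050) (nat_lit 76) (nat_lit 85310187819) (nat_lit 3) (nat_lit 5) (nat_lit 5) (nat_lit 5) (nat_lit 4) (nat_lit 4) (nat_lit 327)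 (nat_lit 245) (nat_lit 148)) (XT.nd (nat_lit 78) (nat_lit 76) (nat_lit 0) (XT.lf (nat_lit 0) (nat_lit 16704597363) (nat_lit 152) (nat_lit 2076722939) (nat_lit 76) (nat_lit 95129501495) (nat_lit 3) (nat_lit 5) (nat_lit 5) (nat_lit 5) (nat_lit 4) (nat_lit 4) (nat_lit 328) (nat_lit 245) (nat_lit 147)) (XT.lf (nat_lit 0) (nat_lit 7757179686) (nat_lit 76) (nat_lit 13751576665) (nat_lit 152) (nat_lit 97800694424) (nat_lit 2) (nat_lit 5) (nat_lit 3) (nat_lit 5) (nat_lit 4) (nat_lit 4) (nat_lit 329) (nat_lit 245) (nat_lit 146))))))) (XT.nd (nat_lit 624) (nat_lit 76) (nat_lit 0) (XT.nd (nat_lit 312) (nat_lit 0) (nat_lit 0) (XT.nd (nat_lit 156) (nat_lit 0) (nat_lit 0) (XT.nd (nat_lit 78) (nat_lit 0) (nat_lit 0) (XT.lf (nat_lit 0) (nat_lit 18147222613) (nat_lit 76) (nat_lit 8436640996) (nat_lit 152) (nat_lit 98392619208) (nat_lit 2) (nat_lit 5) (nat_lit 3) (nat_lit 5) (nat_lit 4) (nat_lit 4)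 (nat_lit 330) (nat_lit 245) (nat_lit 145)) (XT.lf (nat_lit 0) (nat_lit 29049478200) (nat_lit 76) (nat_lit 2859028996) (nat_lit 152) (nat_lit 99018578439) (nat_lit 2) (nat_lit 5) (nat_lit 3) (nat_lit 5) (nat_lit 4) (nat_lit 4) (nat_lit 331) (nat_lit 245) (nat_lit 144))) (XT.nd (nat_lit 78) (nat_lit 0) (nat_lit 0) (XT.lf (nat_lit 0) (nat_lit 37542117985) (nat_lit 152) (nat_lit 96732276283) (nat_lit 0) (nat_lit 2898695404) (nat_lit 2) (nat_lit 5) (nat_lit 4) (nat_lit 4) (nat_lit 2) (nat_lit 4) (nat_lit 332) (nat_lit 245) (nat_lit 143)) (XT.lf (nat_lit 0) (nat_lit 43500408369) (nat_lit 152) (nat_lit 91383314996) (nat_lit 0) (nat_lit 8845528049) (nat_lit 2) (nat_lit 5) (nat_lit 4) (nat_lit 4) (nat_lit 2) (nat_lit 4) (nat_lit 333) (nat_lit 245) (nat_lit 142)))) (XT.nd (nat_lit 156) (nat_lit 0) (nat_lit 0) (XT.nd (nat_lit 78) (nat_lit 0) (nat_lit 0) (XT.lf (nat_lit 0) (nat_lit 49752927301)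 (nat_lit 152) (nat_lit 85773350495) (nat_lit 0) (nat_lit 15087134849) (nat_lit 2) (nat_lit 5) (nat_lit 4) (nat_lit 4) (nat_lit 2) (nat_lit 4) (nat_lit 334) (nat_lit 245) (nat_lit 141)) (XT.lf (nat_lit 0) (nat_lit 56314561729) (nat_lit 152) (nat_lit 79889025722) (nat_lit 0) (nat_lit 21638376770) (nat_lit 2) (nat_lit 5) (nat_lit 4) (nat_lit 4) (nat_lit 2) (nat_lit 4) (nat_lit 335) (nat_lit 245) (nat_lit 140))) (XT.nd (nat_lit 78) (nat_lit 0) (nat_lit 0) (XT.lf (nat_lit 0) (nat_lit 63200934593) (nat_lit 152) (nat_lit 73716330381) (nat_lit 0) (nat_lit 28514852008) (nat_lit 2) (nat_lit 5) (nat_lit 4) (nat_lit 4) (nat_lit 2) (nat_lit 4) (nat_lit 336) (nat_lit 245) (nat_lit 139)) (XT.lf (nat_lit 0) (nat_lit 70428442018) (nat_lit 152) (nat_lit 67240567578) (nat_lit 0) (nat_lit 35732933124) (nat_lit 2) (nat_lit 5) (nat_lit 4) (nat_lit 4) (nat_lit 2) (nat_lit 4) (nat_lit 337) (nat_lit 245) (nat_lit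 138))))) (XT.nd (nat_lit 312) (nat_lit 76) (nat_lit 0) (XT.nd (nat_lit 156) (nat_lit 0) (nat_lit 0) (XT.nd (nat_lit 78) (nat_lit 0) (nat_lit 0) (XT.lf (nat_lit 0) (nat_lit 78014292357) (nat_lit 152) (nat_lit 60446318830) (nat_lit 0) (nat_lit 43309806024) (nat_lit 2) (nat_lit 5) (nat_lit 4) (nat_lit 4) (nat_lit 2) (nat_lit 4) (nat_lit 338) (nat_lit 245) (nat_lit 137)) (XT.lf (nat_lit 0) (nat_lit 85976547156) (nat_lit 152) (nat_lit 53317407354) (nat_lit 0) (nat_lit 51263510883) (nat_lit 2) (nat_lit 5) (nat_lit 4) (nat_lit 4) (nat_lit 2) (nat_lit 4) (nat_lit 339) (nat_lit 245) (nat_lit 136))) (XT.nd (nat_lit 78) (nat_lit 0) (nat_lit 0) (XT.lf (nat_lit 0) (nat_lit 94334164166) (nat_lit 152) (nat_lit 45836859552) (nat_lit 0) (nat_lit 59612985092) (nat_lit 2) (nat_lit 5) (nat_lit 4) (nat_lit 4) (nat_lit 2) (nat_lit 4) (nat_lit 340) (nat_lit 245) (nat_lit 135)) (XT.lf (nat_lit 0) (nat_lit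 103107042475) (nat_lit 152) (nat_lit 37986864595) (nat_lit 0) (nat_lit 68378108352) (nat_lit 2) (nat_lit 5) (nat_lit 4) (nat_lit 4) (nat_lit 2) (nat_lit 4) (nat_lit 341) (nat_lit 245) (nat_lit 134)))) (XT.nd (nat_lit 156) (nat_lit 76) (nat_lit 0) (XT.nd (nat_lit 78) (nat_lit 0) (nat_lit 0) (XT.lf (nat_lit 0) (nat_lit 112316069888) (nat_lit 152) (nat_lit 29748732019) (nat_lit 0) (nat_lit 77579750005) (nat_lit 2) (nat_lit 5) (nat_lit 4) (nat_lit 4) (nat_lit 2) (nat_lit 4) (nat_lit 342) (nat_lit 245) (nat_lit 133)) (XT.lf (nat_lit 0) (nat_lit 121983172662) (nat_lit 152) (nat_lit 21102847223) (nat_lit 0) (nat_lit 87239818720) (nat_lit 2) (nat_lit 5) (nat_lit 4) (nat_lit 4) (nat_lit 2) (nat_lit 4) (nat_lit 343) (nat_lit 245) (nat_lit 132))) (XT.nd (nat_lit 78) (nat_lit 76) (nat_lit 0) (XT.lf (nat_lit 0) (nat_lit 132131367706) (nat_lit 152) (nat_lit 12028624767) (nat_lit 0) (nat_lit 97381314662)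 (nat_lit 2) (nat_lit 5) (nat_lit 4) (nat_lit 4) (nat_lit 2) (nat_lit 4) (nat_lit 344) (nat_lit 245) (nat_lit 131)) (XT.nd (nat_lit 78) (nat_lit 76) (nat_lit 0) (XT.lf (nat_lit 0) (nat_lit 142784817391) (nat_lit 152) (nat_lit 2504459359) (nat_lit 0) (nat_lit 108028384250) (nat_lit 2) (nat_lit 5) (nat_lit 4) (nat_lit 4) (nat_lit 2) (nat_lit 4) (nat_lit 345) (nat_lit 245) (nat_lit 130)) (XT.lf (nat_lit 0) (nat_lit 7740055704) (nat_lit 76) (nat_lit 146349675329) (nat_lit 76) (nat_lit 111587165905) (nat_lit 1) (nat_lit 4) (nat_lit 2) (nat_lit 5) (nat_lit 2) (nat_lit 4) (nat_lit 346) (nat_lit 245) (nat_lit 129))))))))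
noncomputable def xc130 : XT := (XT.nd (nat_lit 30030) (nat_lit 0) (nat_lit 3116) (XT.nd (nat_lit 624) (nat_lit 0) (nat_lit 0) (XT.nd (nat_lit 312) (nat_lit 0) (nat_lit 0) (XT.nd (nat_lit 156) (nat_lit 0) (nat_lit 0) (XT.nd (nat_lit 78) (nat_lit 0) (nat_lit 0) (XT.lf (nat_lit 0) (nat_lit 18580214844) (nat_lit 76) (nat_lit 147420079870) (nat_lit 76) (nat_lit 112651783509) (nat_lit 1) (nat_lit 4) (nat_lit 2) (nat_lit 5) (nat_lit 2) (nat_lit 4) (nat_lit 347) (nat_lit 245) (nat_lit 128)) (XT.lf (nat_lit 0) (nat_lit 29959019224) (nat_lit 76) (nat_lit 148545453185) (nat_lit 76) (nat_lit 113771645456) (nat_lit 1) (nat_lit 4) (nat_lit 2) (nat_lit 5) (nat_lit 2) (nat_lit 4) (nat_lit 348) (nat_lit 245) (nat_lit 127))) (XT.nd (nat_lit 78) (nat_lit 0) (nat_lit 0) (XT.lf (nat_lit 0) (nat_lit 41903561238) (nat_lit 76) (nat_lit 149728474736) (nat_lit 76) (nat_lit 114949418084) (nat_lit 1) (nat_lit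 4) (nat_lit 2) (nat_lit 5) (nat_lit 2) (nat_lit 4) (nat_lit 349) (nat_lit 245) (nat_lit 126)) (XT.lf (nat_lit 0) (nat_lit 54442280269) (nat_lit 76) (nat_lit 150971961240) (nat_lit 76) (nat_lit 116187905615) (nat_lit 1) (nat_lit 4) (nat_lit 2) (nat_lit 5) (nat_lit 2) (nat_lit 4) (nat_lit 350) (nat_lit 245) (nat_lit 125)))) (XT.nd (nat_lit 156) (nat_lit 0) (nat_lit 0) (XT.nd (nat_lit 78) (nat_lit 0) (nat_lit 0) (XT.lf (nat_lit 0) (nat_lit 67605030412) (nat_lit 76) (nat_lit 152278873379) (nat_lit 76) (nat_lit 117490056826) (nat_lit 1) (nat_lit 4) (nat_lit 2) (nat_lit 5) (nat_lit 2) (nat_lit 4) (nat_lit 351) (nat_lit 245) (nat_lit 124)) (XT.lf (nat_lit 0) (nat_lit 81423151548) (nat_lit 76) (nat_lit 153652322849) (nat_lit 76) (nat_lit 118858972080) (nat_lit 1) (nat_lit 4) (nat_lit 2) (nat_lit 5) (nat_lit 2) (nat_lit 4) (nat_lit 352) (nat_lit 245) (nat_lit 123))) (XT.nd (nat_lit 78) (nat_lit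 0) (nat_lit 0) (XT.lf (nat_lit 0) (nat_lit 95929543964) (nat_lit 76) (nat_lit 155095579767) (nat_lit 76) (nat_lit 120297910697) (nat_lit 1) (nat_lit 4) (nat_lit 2) (nat_lit 5) (nat_lit 2) (nat_lit 4) (nat_lit 353) (nat_lit 245) (nat_lit 122)) (XT.lf (nat_lit 0) (nat_lit 111158746691) (nat_lit 76) (nat_lit 156612080460) (nat_lit 76) (nat_lit 121810298722) (nat_lit 1) (nat_lit 4) (nat_lit 2) (nat_lit 5) (nat_lit 2) (nat_lit 4) (nat_lit 354) (nat_lit 245) (nat_lit 121))))) (XT.nd (nat_lit 29016) (nat_lit 0) (nat_lit 6536) (XT.nd (nat_lit 156) (nat_lit 0) (nat_lit 0) (XT.nd (nat_lit 78) (nat_lit 0) (nat_lit 0) (XT.lf (nat_lit 0) (nat_lit 127147019735) (nat_lit 76) (nat_lit 158205435644) (nat_lit 76) (nat_lit 123399737080) (nat_lit 1) (nat_lit 4) (nat_lit 2) (nat_lit 5) (nat_lit 2) (nat_lit 4) (nat_lit 355) (nat_lit 245) (nat_lit 120)) (XT.lf (nat_lit 0) (nat_lit 143932430413) (nat_lit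 76) (nat_lit 159879439021) (nat_lit 76) (nat_lit 125070010146) (nat_lit 1) (nat_lit 4) (nat_lit 2) (nat_lit 5) (nat_lit 2) (nat_lit 4) (nat_lit 356) (nat_lit 245) (nat_lit 119))) (XT.nd (nat_lit 78) (nat_lit 0) (nat_lit 0) (XT.lf (nat_lit 0) (nat_lit 161554943988) (nat_lit 76) (nat_lit 161638076314) (nat_lit 76) (nat_lit 126825094761) (nat_lit 1) (nat_lit 4) (nat_lit 2) (nat_lit 5) (nat_lit 2) (nat_lit 4) (nat_lit 357) (nat_lit 245) (nat_lit 118)) (XT.lf (nat_lit 0) (nat_lit 180056518826) (nat_lit 76) (nat_lit 163485534754) (nat_lit 76) (nat_lit 128669169699) (nat_lit 1) (nat_lit 4) (nat_lit 2) (nat_lit 5) (nat_lit 2) (nat_lit 4) (nat_lit 358) (nat_lit 245) (nat_lit 117)))) (XT.nd (nat_lit 156) (nat_lit 0) (nat_lit 0) (XT.nd (nat_lit 78) (nat_lit 380) (nat_lit 0) (XT.lf (nat_lit 0) (nat_lit 3416213577) (nat_lit 380) (nat_lit 12853264) (nat_lit 380) (nat_lit 12853264) (nat_lit 92) (nat_lit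 3) (nat_lit 97) (nat_lit 3) (nat_lit 97) (nat_lit 5) (nat_lit 246) (nat_lit 246) (nat_lit 228)) (XT.lf (nat_lit 0) (nat_lit 1655176659) (nat_lit 380) (nat_lit 4063839716) (nat_lit 456) (nat_lit 1240220893) (nat_lit 87) (nat_lit 5) (nat_lit 92) (nat_lit 3) (nat_lit 93) (nat_lit 5) (nat_lit 247) (nat_lit 246) (nat_lit 227))) (XT.nd (nat_lit 78) (nat_lit 0) (nat_lit 0) (XT.lf (nat_lit 0) (nat_lit 3338663103) (nat_lit 380) (nat_lit 1136752544) (nat_lit 456) (nat_lit 2569013342) (nat_lit 87) (nat_lit 5) (nat_lit 92) (nat_lit 3) (nat_lit 93) (nat_lit 5) (nat_lit 248) (nat_lit 246) (nat_lit 226)) (XT.nd (nat_lit 78) (nat_lit 0) (nat_lit 0) (XT.lf (nat_lit 76) (nat_lit 1940738581) (nat_lit 0) (nat_lit 3093840484) (nat_lit 456) (nat_lit 2103585333) (nat_lit 88) (nat_lit 5) (nat_lit 87) (nat_lit 5) (nat_lit 93) (nat_lit 5) (nat_lit 249) (nat_lit 246) (nat_lit 225)) (XT.lf (nat_lit 76) (nat_lit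 5154440134) (nat_lit 0) (nat_lit 1582024314) (nat_lit 456) (nat_lit 504727128) (nat_lit 88) (nat_lit 5) (nat_lit 87) (nat_lit 5) (nat_lit 93) (nat_lit 5) (nat_lit 250) (nat_lit 246) (nat_lit 224))))))) (XT.nd (nat_lit 624) (nat_lit 2052) (nat_lit 0) (XT.nd (nat_lit 312) (nat_lit 988) (nat_lit 0) (XT.nd (nat_lit 156) (nat_lit 0) (nat_lit 0) (XT.nd (nat_lit 78) (nat_lit 0) (nat_lit 0) (XT.lf (nat_lit 0) (nat_lit 1059995102) (nat_lit 456) (nat_lit 6214779091) (nat_lit 532) (nat_lit 78106425) (nat_lit 82) (nat_lit 5) (nat_lit 88) (nat_lit 5) (nat_lit 89) (nat_lit 5) (nat_lit 251) (nat_lit 246) (nat_lit 223)) (XT.lf (nat_lit 0) (nat_lit 2656492687) (nat_lit 456) (nat_lit 2969472460) (nat_lit 532) (nat_lit 1845823496) (nat_lit 82) (nat_lit 5) (nat_lit 88) (nat_lit 5) (nat_lit 89) (nat_lit 5) (nat_lit 252) (nat_lit 246) (nat_lit 222))) (XT.nd (nat_lit 78) (nat_lit 0) (nat_lit 0) (XT.lf (nat_lit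 76) (nat_lit 390658821) (nat_lit 0) (nat_lit 3861252817) (nat_lit 532) (nat_lit 3349321617) (nat_lit 83) (nat_lit 5) (nat_lit 82) (nat_lit 5) (nat_lit 89) (nat_lit 5) (nat_lit 253) (nat_lit 246) (nat_lit 221)) (XT.lf (nat_lit 76) (nat_lit 3962912686) (nat_lit 0) (nat_lit 1930697700) (nat_lit 532) (nat_lit 1845734279) (nat_lit 83) (nat_lit 5) (nat_lit 82) (nat_lit 5) (nat_lit 89) (nat_lit 5) (nat_lit 254) (nat_lit 246) (nat_lit 220)))) (XT.nd (nat_lit 156) (nat_lit 532) (nat_lit 0) (XT.nd (nat_lit 78) (nat_lit 532) (nat_lit 0) (XT.lf (nat_lit 0) (nat_lit 7539476670) (nat_lit 456) (nat_lit 233109766) (nat_lit 76) (nat_lit 116166326) (nat_lit 83) (nat_lit 5) (nat_lit 89) (nat_lit 5) (nat_lit 84) (nat_lit 5) (nat_lit 255) (nat_lit 246) (nat_lit 219)) (XT.lf (nat_lit 0) (nat_lit 1193424597) (nat_lit 532) (nat_lit 4554859722) (nat_lit 76) (nat_lit 2296315633) (nat_lit 76) (nat_lit 5) (nat_lit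 83) (nat_lit 5) (nat_lit 77) (nat_lit 5) (nat_lit 256) (nat_lit 246) (nat_lit 218))) (XT.nd (nat_lit 78) (nat_lit 532) (nat_lit 0) (XT.lf (nat_lit 0) (nat_lit 2730973437) (nat_lit 532) (nat_lit 867079368) (nat_lit 76) (nat_lit 4613855665) (nat_lit 76) (nat_lit 5) (nat_lit 83) (nat_lit 5) (nat_lit 77) (nat_lit 5) (nat_lit 257) (nat_lit 246) (nat_lit 217)) (XT.lf (nat_lit 0) (nat_lit 3045348287) (nat_lit 532) (nat_lit 1276586934) (nat_lit 608) (nat_lit 4067227856) (nat_lit 69) (nat_lit 5) (nat_lit 76) (nat_lit 5) (nat_lit 77) (nat_lit 5) (nat_lit 258) (nat_lit 246) (nat_lit 216))))) (XT.nd (nat_lit 312) (nat_lit 684) (nat_lit 0) (XT.nd (nat_lit 156) (nat_lit 760) (nat_lit 0) (XT.nd (nat_lit 78) (nat_lit 608) (nat_lit 0) (XT.lf (nat_lit 0) (nat_lit 5957178451) (nat_lit 608) (nat_lit 1469705614) (nat_lit 76) (nat_lit 1150547723) (nat_lit 69) (nat_lit 5) (nat_lit 77) (nat_lit 5) (nat_lit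 70) (nat_lit 5) (nat_lit 259) (nat_lit 246) (nat_lit 215)) (XT.lf (nat_lit 0) (nat_lit 2603073758) (nat_lit 608) (nat_lit 5067614727) (nat_lit 684) (nat_lit 1104969777) (nat_lit 61) (nat_lit 5) (nat_lit 69) (nat_lit 5) (nat_lit 70) (nat_lit 5) (nat_lit 260) (nat_lit 246) (nat_lit 214))) (XT.nd (nat_lit 78) (nat_lit 684) (nat_lit 0) (XT.lf (nat_lit 0) (nat_lit 431599600) (nat_lit 684) (nat_lit 2118986301) (nat_lit 76) (nat_lit 6435111952) (nat_lit 60) (nat_lit 5) (nat_lit 69) (nat_lit 5) (nat_lit 61) (nat_lit 5) (nat_lit 261) (nat_lit 246) (nat_lit 213)) (XT.lf (nat_lit 0) (nat_lit 1982338599) (nat_lit 760) (nat_lit 7078165579) (nat_lit 76) (nat_lit 146425004) (nat_lit 51) (nat_lit 5) (nat_lit 61) (nat_lit 5) (nat_lit 52) (nat_lit 5) (nat_lit 262) (nat_lit 246) (nat_lit 212)))) (XT.nd (nat_lit 156) (nat_lit 380) (nat_lit 0) (XT.nd (nat_lit 78) (nat_lit 304) (nat_lit 0) (XT.lf (nat_lit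 0) (nat_lit 3629851156) (nat_lit 760) (nat_lit 2875923204) (nat_lit 76) (nat_lit 2932789926) (nat_lit 51) (nat_lit 5) (nat_lit 61) (nat_lit 5) (nat_lit 52) (nat_lit 5) (nat_lit 263) (nat_lit 246) (nat_lit 211)) (XT.lf (nat_lit 0) (nat_lit 1529615518) (nat_lit 304) (nat_lit 3797766711) (nat_lit 380) (nat_lit 4356306330) (nat_lit 47) (nat_lit 5) (nat_lit 51) (nat_lit 5) (nat_lit 52) (nat_lit 5) (nat_lit 264) (nat_lit 246) (nat_lit 210))) (XT.nd (nat_lit 78) (nat_lit 380) (nat_lit 0) (XT.lf (nat_lit 0) (nat_lit 6200403281) (nat_lit 304) (nat_lit 903674337) (nat_lit 380) (nat_lit 2837552814) (nat_lit 47) (nat_lit 5) (nat_lit 51) (nat_lit 5) (nat_lit 52) (nat_lit 5) (nat_lit 265) (nat_lit 246) (nat_lit 209)) (XT.nd (nat_lit 78) (nat_lit 76) (nat_lit 0) (XT.lf (nat_lit 0) (nat_lit 830396045) (nat_lit 304) (nat_lit 8133678922) (nat_lit 380) (nat_lit 1248933713) (nat_lit 43) (nat_lit 5) (nat_lit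 47) (nat_lit 5) (nat_lit 48) (nat_lit 5) (nat_lit 266) (nat_lit 246) (nat_lit 208)) (XT.lf (nat_lit 0) (nat_lit 433638104) (nat_lit 380) (nat_lit 4812849514) (nat_lit 76) (nat_lit 5249982460) (nat_lit 42) (nat_lit 5) (nat_lit 47) (nat_lit 5) (nat_lit 43) (nat_lit 5) (nat_lit 267) (nat_lit 246) (nat_lit 207))))))))
noncomputable def xc131 : XT := (XT.nd (nat_lit 1326) (nat_lit 836) (nat_lit 0) (XT.nd (nat_lit 624) (nat_lit 608) (nat_lit 0) (XT.nd (nat_lit 312) (nat_lit 532) (nat_lit 0) (XT.nd (nat_lit 156) (nat_lit 304) (nat_lit 0) (XT.nd (nat_lit 78) (nat_lit 228) (nat_lit 0) (XT.lf (nat_lit 0) (nat_lit 2109531480) (nat_lit 380) (nat_lit 88551052) (nat_lit 76) (nat_lit 8597666909) (nat_lit 42) (nat_lit 5) (nat_lit 47) (nat_lit 5) (nat_lit 43) (nat_lit 5) (nat_lit 268) (nat_lit 246) (nat_lit 206)) (XT.lf (nat_lit 0) (nat_lit 3917330176) (nat_lit 304) (nat_lit 6145072213) (nat_lit 76)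 (nat_lit 1045400926) (nat_lit 39) (nat_lit 5) (nat_lit 43) (nat_lit 5) (nat_lit 40) (nat_lit 5) (nat_lit 269) (nat_lit 246) (nat_lit 205))) (XT.nd (nat_lit 78) (nat_lit 304) (nat_lit 0) (XT.lf (nat_lit 0) (nat_lit 5807921748) (nat_lit 304) (nat_lit 1254283420) (nat_lit 76) (nat_lit 4373840352) (nat_lit 39) (nat_lit 5) (nat_lit 43) (nat_lit 5) (nat_lit 40) (nat_lit 5) (nat_lit 270) (nat_lit 246) (nat_lit 204)) (XT.lf (nat_lit 0) (nat_lit 3957724861) (nat_lit 304) (nat_lit 3854104035) (nat_lit 380) (nat_lit 3968127626) (nat_lit 35) (nat_lit 5) (nat_lit 39) (nat_lit 5) (nat_lit 40) (nat_lit 5) (nat_lit 271) (nat_lit 246) (nat_lit 203)))) (XT.nd (nat_lit 156) (nat_lit 304) (nat_lit 0) (XT.nd (nat_lit 78) (nat_lit 228) (nat_lit 0) (XT.lf (nat_lit 0) (nat_lit 9424693903) (nat_lit 304) (nat_lit 470754158) (nat_lit 380) (nat_lit 2246825833) (nat_lit 35) (nat_lit 5) (nat_lit 39) (nat_lit 5)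 (nat_lit 40) (nat_lit 5) (nat_lit 272) (nat_lit 246) (nat_lit 202)) (XT.lf (nat_lit 0) (nat_lit 2629451031) (nat_lit 228) (nat_lit 9503115964) (nat_lit 304) (nat_lit 387851966) (nat_lit 32) (nat_lit 5) (nat_lit 35) (nat_lit 5) (nat_lit 36) (nat_lit 5) (nat_lit 273) (nat_lit 246) (nat_lit 201))) (XT.nd (nat_lit 78) (nat_lit 228) (nat_lit 0) (XT.lf (nat_lit 0) (nat_lit 1529004736) (nat_lit 304) (nat_lit 4659455333) (nat_lit 76) (nat_lit 6727201764) (nat_lit 31) (nat_lit 5) (nat_lit 35) (nat_lit 5) (nat_lit 32) (nat_lit 5) (nat_lit 274) (nat_lit 246) (nat_lit 200)) (XT.lf (nat_lit 0) (nat_lit 805851925) (nat_lit 228) (nat_lit 2697779464) (nat_lit 304) (nat_lit 9828123035) (nat_lit 28) (nat_lit 5) (nat_lit 31) (nat_lit 5) (nat_lit 32) (nat_lit 5) (nat_lit 275) (nat_lit 246) (nat_lit 199))))) (XT.nd (nat_lit 312) (nat_lit 456) (nat_lit 0) (XT.nd (nat_lit 156) (nat_lit 152) (nat_lit 0) (XT.nd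 (nat_lit 78) (nat_lit 0) (nat_lit 0) (XT.lf (nat_lit 0) (nat_lit 5635588971) (nat_lit 304) (nat_lit 7123186694) (nat_lit 76) (nat_lit 1007092248) (nat_lit 28) (nat_lit 5) (nat_lit 32) (nat_lit 5) (nat_lit 29) (nat_lit 5) (nat_lit 276) (nat_lit 246) (nat_lit 198)) (XT.lf (nat_lit 0) (nat_lit 7883409833) (nat_lit 304) (nat_lit 1540535168) (nat_lit 76) (nat_lit 4797418088) (nat_lit 28) (nat_lit 5) (nat_lit 32) (nat_lit 5) (nat_lit 29) (nat_lit 5) (nat_lit 277) (nat_lit 246) (nat_lit 197))) (XT.nd (nat_lit 78) (nat_lit 0) (nat_lit 0) (XT.lf (nat_lit 0) (nat_lit 4418896280) (nat_lit 152) (nat_lit 5860421105) (nat_lit 228) (nat_lit 4418663508) (nat_lit 26) (nat_lit 5) (nat_lit 28) (nat_lit 5) (nat_lit 29) (nat_lit 5) (nat_lit 278) (nat_lit 246) (nat_lit 196)) (XT.lf (nat_lit 0) (nat_lit 10686704481) (nat_lit 152) (nat_lit 2102022766) (nat_lit 228) (nat_lit 2410143328) (nat_lit 26) (nat_lit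 5) (nat_lit 28) (nat_lit 5) (nat_lit 29) (nat_lit 5) (nat_lit 279) (nat_lit 246) (nat_lit 195)))) (XT.nd (nat_lit 156) (nat_lit 152) (nat_lit 0) (XT.nd (nat_lit 78) (nat_lit 76) (nat_lit 0) (XT.lf (nat_lit 0) (nat_lit 1520436523) (nat_lit 228) (nat_lit 13924704194) (nat_lit 304) (nat_lit 278707687) (nat_lit 23) (nat_lit 5) (nat_lit 26) (nat_lit 5) (nat_lit 27) (nat_lit 5) (nat_lit 280) (nat_lit 246) (nat_lit 194)) (XT.lf (nat_lit 0) (nat_lit 1977935191) (nat_lit 304) (nat_lit 8369206746) (nat_lit 76) (nat_lit 5922445547) (nat_lit 22) (nat_lit 5) (nat_lit 26) (nat_lit 5) (nat_lit 23) (nat_lit 5) (nat_lit 281) (nat_lit 246) (nat_lit 193))) (XT.nd (nat_lit 78) (nat_lit 152) (nat_lit 0) (XT.lf (nat_lit 0) (nat_lit 4308727104) (nat_lit 304) (nat_lit 2288785697) (nat_lit 76) (nat_lit 10246442040) (nat_lit 22) (nat_lit 5) (nat_lit 26) (nat_lit 5) (nat_lit 23) (nat_lit 5) (nat_lit 282) (nat_lit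 246) (nat_lit 192)) (XT.nd (nat_lit 78) (nat_lit 0) (nat_lit 0) (XT.lf (nat_lit 0) (nat_lit 4190812023) (nat_lit 152) (nat_lit 2602756239) (nat_lit 228) (nat_lit 10651695807) (nat_lit 20) (nat_lit 5) (nat_lit 22) (nat_lit 5) (nat_lit 23) (nat_lit 5) (nat_lit 283) (nat_lit 246) (nat_lit 191)) (XT.lf (nat_lit 0) (nat_lit 9439536062) (nat_lit 228) (nat_lit 7065963943) (nat_lit 76) (nat_lit 1569388797) (nat_lit 20) (nat_lit 5) (nat_lit 23) (nat_lit 5) (nat_lit 21) (nat_lit 5) (nat_lit 284) (nat_lit 246) (nat_lit 190))))))) (XT.nd (nat_lit 624) (nat_lit 304) (nat_lit 0) (XT.nd (nat_lit 312) (nat_lit 152) (nat_lit 0) (XT.nd (nat_lit 156) (nat_lit 228) (nat_lit 0) (XT.nd (nat_lit 78) (nat_lit 152) (nat_lit 0) (XT.lf (nat_lit 0) (nat_lit 12234409395) (nat_lit 228) (nat_lit 648459988) (nat_lit 76) (nat_lit 5852384815) (nat_lit 20) (nat_lit 5) (nat_lit 23) (nat_lit 5) (nat_lit 21) (nat_lit 5)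 (nat_lit 285) (nat_lit 246) (nat_lit 189)) (XT.lf (nat_lit 0) (nat_lit 6254147692) (nat_lit 152) (nat_lit 8987703483) (nat_lit 228) (nat_lit 4183230958) (nat_lit 18) (nat_lit 5) (nat_lit 20) (nat_lit 5) (nat_lit 21) (nat_lit 5) (nat_lit 286) (nat_lit 246) (nat_lit 188))) (XT.nd (nat_lit 78) (nat_lit 228) (nat_lit 0) (XT.lf (nat_lit 0) (nat_lit 13489035299) (nat_lit 152) (nat_lit 4897421519) (nat_lit 228) (nat_lit 1763686495) (nat_lit 18) (nat_lit 5) (nat_lit 20) (nat_lit 5) (nat_lit 21) (nat_lit 5) (nat_lit 287) (nat_lit 246) (nat_lit 187)) (XT.lf (nat_lit 0) (nat_lit 131768438) (nat_lit 152) (nat_lit 598769399) (nat_lit 228) (nat_lit 20181458839) (nat_lit 15) (nat_lit 5) (nat_lit 17) (nat_lit 5) (nat_lit 18) (nat_lit 5) (nat_lit 288) (nat_lit 246) (nat_lit 186)))) (XT.nd (nat_lit 156) (nat_lit 152) (nat_lit 0) (XT.nd (nat_lit 78) (nat_lit 0) (nat_lit 0) (XT.lf (nat_lit 0) (nat_lit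 3442905928) (nat_lit 228) (nat_lit 14337654217) (nat_lit 76) (nat_lit 3922372067) (nat_lit 15) (nat_lit 5) (nat_lit 18) (nat_lit 5) (nat_lit 16) (nat_lit 5) (nat_lit 289) (nat_lit 246) (nat_lit 185)) (XT.lf (nat_lit 0) (nat_lit 6278731472) (nat_lit 228) (nat_lit 7616115813) (nat_lit 76) (nat_lit 8639242285) (nat_lit 15) (nat_lit 5) (nat_lit 18) (nat_lit 5) (nat_lit 16) (nat_lit 5) (nat_lit 290) (nat_lit 246) (nat_lit 184))) (XT.nd (nat_lit 78) (nat_lit 152) (nat_lit 0) (XT.lf (nat_lit 0) (nat_lit 9235417968) (nat_lit 228) (nat_lit 590260894) (nat_lit 76) (nat_lit 13582236258) (nat_lit 15) (nat_lit 5) (nat_lit 18) (nat_lit 5) (nat_lit 16) (nat_lit 5) (nat_lit 291) (nat_lit 246) (nat_lit 183)) (XT.lf (nat_lit 0) (nat_lit 6980043757) (nat_lit 152) (nat_lit 5448939432) (nat_lit 228) (nat_lit 11892057307) (nat_lit 13) (nat_lit 5) (nat_lit 15) (nat_lit 5) (nat_lit 16) (nat_lit 5) (nat_lit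 292) (nat_lit 246) (nat_lit 182))))) (XT.nd (nat_lit 312) (nat_lit 228) (nat_lit 0) (XT.nd (nat_lit 156) (nat_lit 76) (nat_lit 0) (XT.nd (nat_lit 78) (nat_lit 0) (nat_lit 0) (XT.lf (nat_lit 0) (nat_lit 14919596033) (nat_lit 152) (nat_lit 853177931) (nat_lit 228) (nat_lit 9507578687) (nat_lit 13) (nat_lit 5) (nat_lit 15) (nat_lit 5) (nat_lit 16) (nat_lit 5) (nat_lit 293) (nat_lit 246) (nat_lit 181)) (XT.lf (nat_lit 0) (nat_lit 19327097898) (nat_lit 228) (nat_lit 3122695276) (nat_lit 76) (nat_lit 3835725178) (nat_lit 13) (nat_lit 5) (nat_lit 16) (nat_lit 5) (nat_lit 14) (nat_lit 4) (nat_lit 294) (nat_lit 246) (nat_lit 180))) (XT.nd (nat_lit 78) (nat_lit 0) (nat_lit 0) (XT.lf (nat_lit 0) (nat_lit 4582158456) (nat_lit 76) (nat_lit 18544719541) (nat_lit 152) (nat_lit 4210729839) (nat_lit 12) (nat_lit 5) (nat_lit 13) (nat_lit 5) (nat_lit 14) (nat_lit 4) (nat_lit 295) (nat_lit 246) (nat_lit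 179)) (XT.lf (nat_lit 0) (nat_lit 12753334060) (nat_lit 76) (nat_lit 14398830744) (nat_lit 152) (nat_lit 1288411098) (nat_lit 12) (nat_lit 5) (nat_lit 13) (nat_lit 5) (nat_lit 14) (nat_lit 4) (nat_lit 296) (nat_lit 246) (nat_lit 178)))) (XT.nd (nat_lit 156) (nat_lit 152) (nat_lit 0) (XT.nd (nat_lit 78) (nat_lit 0) (nat_lit 0) (XT.lf (nat_lit 0) (nat_lit 1706194807) (nat_lit 152) (nat_lit 8320049935) (nat_lit 76) (nat_lit 19571946264) (nat_lit 11) (nat_lit 5) (nat_lit 13) (nat_lit 5) (nat_lit 12) (nat_lit 5) (nat_lit 297) (nat_lit 246) (nat_lit 177)) (XT.lf (nat_lit 0) (nat_lit 4791177756) (nat_lit 152) (nat_lit 630986449) (nat_lit 76) (nat_lit 25391312482) (nat_lit 11) (nat_lit 5) (nat_lit 13) (nat_lit 5) (nat_lit 12) (nat_lit 5) (nat_lit 298) (nat_lit 246) (nat_lit 176))) (XT.nd (nat_lit 78) (nat_lit 0) (nat_lit 0) (XT.lf (nat_lit 0) (nat_lit 7663656484) (nat_lit 152) (nat_lit 471114818)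 (nat_lit 228) (nat_lit 23949578409) (nat_lit 9) (nat_lit 5) (nat_lit 11) (nat_lit 5) (nat_lit 12) (nat_lit 5) (nat_lit 299) (nat_lit 246) (nat_lit 175)) (XT.nd (nat_lit 78) (nat_lit 0) (nat_lit 0) (XT.lf (nat_lit 0) (nat_lit 11715144408) (nat_lit 228) (nat_lit 17121695386) (nat_lit 76) (nat_lit 4578485770) (nat_lit 9) (nat_lit 5) (nat_lit 12) (nat_lit 5) (nat_lit 10) (nat_lit 4) (nat_lit 300) (nat_lit 246) (nat_lit 174)) (XT.lf (nat_lit 0) (nat_lit 15467906331) (nat_lit 228) (nat_lit 9488724932) (nat_lit 76) (nat_lit 9856587746) (nat_lit 9) (nat_lit 5) (nat_lit 12) (nat_lit 5) (nat_lit 10) (nat_lit 4) (nat_lit 301) (nat_lit 246) (nat_lit 173))))))))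
noncomputable def xc132 : XT := (XT.nd (nat_lit 1248) (nat_lit 228) (nat_lit 0) (XT.nd (nat_lit 624) (nat_lit 76) (nat_lit 0) (XT.nd (nat_lit 312) (nat_lit 152) (nat_lit 0) (XT.nd (nat_lit 156) (nat_lit 0) (nat_lit 0) (XT.nd (nat_lit 78) (nat_lit 76) (nat_lit 0) (XT.lf (nat_lit 0) (nat_lit 19394636798) (nat_lit 228) (nat_lit 1496252702) (nat_lit 76) (nat_lit 15390836634) (nat_lit 9) (nat_lit 5) (nat_lit 12) (nat_lit 5) (nat_lit 10) (nat_lit 4) (nat_lit 302) (nat_lit 246) (nat_lit 172)) (XT.lf (nat_lit 0) (nat_lit 7102061312) (nat_lit 76) (nat_lit 16513506934) (nat_lit 152) (nat_lit 14203230985) (nat_lit 8) (nat_lit 5) (nat_lit 9) (nat_lit 5) (nat_lit 10) (nat_lit 4) (nat_lit 303) (nat_lit 246) (nat_lit 171))) (XT.nd (nat_lit 78) (nat_lit 0) (nat_lit 0) (XT.lf (nat_lit 0) (nat_lit 16161485598) (nat_lit 76) (nat_lit 11898677749) (nat_lit 152) (nat_lit 11371964008) (nat_lit 8) (nat_lit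 5) (nat_lit 9) (nat_lit 5) (nat_lit 10) (nat_lit 4) (nat_lit 304) (nat_lit 246) (nat_lit 170)) (XT.lf (nat_lit 0) (nat_lit 25654117341) (nat_lit 76) (nat_lit 7060754020) (nat_lit 152) (nat_lit 8411887059) (nat_lit 8) (nat_lit 5) (nat_lit 9) (nat_lit 5) (nat_lit 10) (nat_lit 4) (nat_lit 305) (nat_lit 246) (nat_lit 169)))) (XT.nd (nat_lit 156) (nat_lit 76) (nat_lit 0) (XT.nd (nat_lit 78) (nat_lit 76) (nat_lit 0) (XT.lf (nat_lit 0) (nat_lit 35602558045) (nat_lit 76) (nat_lit 1988216882) (nat_lit 152) (nat_lit 5315952335) (nat_lit 8) (nat_lit 5) (nat_lit 9) (nat_lit 5) (nat_lit 10) (nat_lit 4) (nat_lit 306) (nat_lit 246) (nat_lit 168)) (XT.lf (nat_lit 0) (nat_lit 1241966848) (nat_lit 76) (nat_lit 41528913494) (nat_lit 76) (nat_lit 2001821710) (nat_lit 7) (nat_lit 4) (nat_lit 8) (nat_lit 5) (nat_lit 8) (nat_lit 4) (nat_lit 307) (nat_lit 246) (nat_lit 167))) (XT.nd (nat_lit 78) (nat_lit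 0) (nat_lit 0) (XT.lf (nat_lit 0) (nat_lit 1577974677) (nat_lit 152) (nat_lit 36332983663) (nat_lit 76) (nat_lit 8812525445) (nat_lit 6) (nat_lit 5) (nat_lit 8) (nat_lit 5) (nat_lit 7) (nat_lit 4) (nat_lit 308) (nat_lit 246) (nat_lit 166)) (XT.lf (nat_lit 0) (nat_lit 5258956772) (nat_lit 152) (nat_lit 28825770339) (nat_lit 76) (nat_lit 14685987195) (nat_lit 6) (nat_lit 5) (nat_lit 8) (nat_lit 5) (nat_lit 7) (nat_lit 4) (nat_lit 309) (nat_lit 246) (nat_lit 165))))) (XT.nd (nat_lit 312) (nat_lit 0) (nat_lit 0) (XT.nd (nat_lit 156) (nat_lit 76) (nat_lit 0) (XT.nd (nat_lit 78) (nat_lit 0) (nat_lit 0) (XT.lf (nat_lit 0) (nat_lit 9113959613) (nat_lit 152) (nat_lit 20959966867) (nat_lit 76) (nat_lit 20846904193) (nat_lit 6) (nat_lit 5) (nat_lit 8) (nat_lit 5) (nat_lit 7) (nat_lit 4) (nat_lit 310) (nat_lit 246) (nat_lit 164)) (XT.lf (nat_lit 0) (nat_lit 13152161778) (nat_lit 152) (nat_lit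 12716845145) (nat_lit 76) (nat_lit 27309945289) (nat_lit 6) (nat_lit 5) (nat_lit 8) (nat_lit 5) (nat_lit 7) (nat_lit 4) (nat_lit 311) (nat_lit 246) (nat_lit 163))) (XT.nd (nat_lit 78) (nat_lit 76) (nat_lit 0) (XT.lf (nat_lit 0) (nat_lit 17383178035) (nat_lit 152) (nat_lit 4076778692) (nat_lit 76) (nat_lit 34090498676) (nat_lit 6) (nat_lit 5) (nat_lit 8) (nat_lit 5) (nat_lit 7) (nat_lit 4) (nat_lit 312) (nat_lit 246) (nat_lit 162)) (XT.lf (nat_lit 0) (nat_lit 5145491955) (nat_lit 76) (nat_lit 16751925825) (nat_lit 152) (nat_lit 36139552124) (nat_lit 5) (nat_lit 5) (nat_lit 6) (nat_lit 5) (nat_lit 7) (nat_lit 4) (nat_lit 313) (nat_lit 246) (nat_lit 161)))) (XT.nd (nat_lit 156) (nat_lit 0) (nat_lit 0) (XT.nd (nat_lit 78) (nat_lit 0) (nat_lit 0) (XT.lf (nat_lit 0) (nat_lit 14956159343) (nat_lit 76) (nat_lit 11741779501) (nat_lit 152) (nat_lit 33946861663) (nat_lit 5) (nat_lit 5) (nat_lit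 6) (nat_lit 5) (nat_lit 7) (nat_lit 4) (nat_lit 314) (nat_lit 246) (nat_lit 160)) (XT.lf (nat_lit 0) (nat_lit 25243785487) (nat_lit 76) (nat_lit 6486631054) (nat_lit 152) (nat_lit 31653027514) (nat_lit 5) (nat_lit 5) (nat_lit 6) (nat_lit 5) (nat_lit 7) (nat_lit 4) (nat_lit 315) (nat_lit 246) (nat_lit 159))) (XT.nd (nat_lit 78) (nat_lit 0) (nat_lit 0) (XT.lf (nat_lit 0) (nat_lit 36032864736) (nat_lit 76) (nat_lit 973968226) (nat_lit 152) (nat_lit 29252588168) (nat_lit 5) (nat_lit 5) (nat_lit 6) (nat_lit 5) (nat_lit 7) (nat_lit 4) (nat_lit 316) (nat_lit 246) (nat_lit 158)) (XT.lf (nat_lit 0) (nat_lit 42614838191) (nat_lit 152) (nat_lit 22005581111) (nat_lit 0) (nat_lit 4655405634) (nat_lit 5) (nat_lit 5) (nat_lit 7) (nat_lit 4) (nat_lit 5) (nat_lit 4) (nat_lit 317) (nat_lit 246) (nat_lit 157)))))) (XT.nd (nat_lit 624) (nat_lit 76) (nat_lit 0) (XT.nd (nat_lit 312) (nat_lit 76) (nat_lit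 0) (XT.nd (nat_lit 156) (nat_lit 76) (nat_lit 0) (XT.nd (nat_lit 78) (nat_lit 0) (nat_lit 0) (XT.lf (nat_lit 0) (nat_lit 48512165458) (nat_lit 152) (nat_lit 13401539803) (nat_lit 0) (nat_lit 10528913085) (nat_lit 5) (nat_lit 5) (nat_lit 7) (nat_lit 4) (nat_lit 5) (nat_lit 4) (nat_lit 318) (nat_lit 246) (nat_lit 156)) (XT.lf (nat_lit 0) (nat_lit 54697649644) (nat_lit 152) (nat_lit 4378740285) (nat_lit 0) (nat_lit 16691711732) (nat_lit 5) (nat_lit 5) (nat_lit 7) (nat_lit 4) (nat_lit 5) (nat_lit 4) (nat_lit 319) (nat_lit 246) (nat_lit 155))) (XT.nd (nat_lit 78) (nat_lit 0) (nat_lit 0) (XT.lf (nat_lit 0) (nat_lit 5252410228) (nat_lit 76) (nat_lit 56015612709) (nat_lit 76) (nat_lit 17988069521) (nat_lit 4) (nat_lit 4) (nat_lit 5) (nat_lit 5) (nat_lit 5) (nat_lit 4) (nat_lit 320) (nat_lit 246) (nat_lit 154)) (XT.lf (nat_lit 0) (nat_lit 15506415121) (nat_lit 76) (nat_lit 52728402777) (nat_lit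 76) (nat_lit 14680283137) (nat_lit 4) (nat_lit 4) (nat_lit 5) (nat_lit 5) (nat_lit 5) (nat_lit 4) (nat_lit 321) (nat_lit 246) (nat_lit 153)))) (XT.nd (nat_lit 156) (nat_lit 76) (nat_lit 0) (XT.nd (nat_lit 78) (nat_lit 0) (nat_lit 0) (XT.lf (nat_lit 0) (nat_lit 26262907764) (nat_lit 76) (nat_lit 49281089529) (nat_lit 76) (nat_lit 11213373268) (nat_lit 4) (nat_lit 4) (nat_lit 5) (nat_lit 5) (nat_lit 5) (nat_lit 4) (nat_lit 322) (nat_lit 246) (nat_lit 152)) (XT.lf (nat_lit 0) (nat_lit 37547498851) (nat_lit 76) (nat_lit 45665465077) (nat_lit 76) (nat_lit 7579085367) (nat_lit 4) (nat_lit 4) (nat_lit 5) (nat_lit 5) (nat_lit 5) (nat_lit 4) (nat_lit 323) (nat_lit 246) (nat_lit 151))) (XT.nd (nat_lit 78) (nat_lit 76) (nat_lit 0) (XT.lf (nat_lit 0) (nat_lit 49387056458) (nat_lit 76) (nat_lit 41872920791) (nat_lit 76) (nat_lit 3768766367) (nat_lit 4) (nat_lit 4) (nat_lit 5) (nat_lit 5) (nat_lit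 5) (nat_lit 4) (nat_lit 324) (nat_lit 246) (nat_lit 150)) (XT.lf (nat_lit 0) (nat_lit 219401513) (nat_lit 152) (nat_lit 37671309619) (nat_lit 76) (nat_lit 61586652823) (nat_lit 3) (nat_lit 5) (nat_lit 5) (nat_lit 5) (nat_lit 4) (nat_lit 4) (nat_lit 325) (nat_lit 246) (nat_lit 149))))) (XT.nd (nat_lit 312) (nat_lit 76) (nat_lit 0) (XT.nd (nat_lit 156) (nat_lit 0) (nat_lit 0) (XT.nd (nat_lit 78) (nat_lit 0) (nat_lit 0) (XT.lf (nat_lit 0) (nat_lit 4275332597) (nat_lit 152) (nat_lit 29372773085) (nat_lit 76) (nat_lit 70497479965) (nat_lit 3) (nat_lit 5) (nat_lit 5) (nat_lit 5) (nat_lit 4) (nat_lit 4) (nat_lit 326) (nat_lit 246) (nat_lit 148)) (XT.lf (nat_lit 0) (nat_lit 8529307923) (nat_lit 152) (nat_lit 20667478132) (nat_lit 76) (nat_lit 79850679500) (nat_lit 3) (nat_lit 5) (nat_lit 5) (nat_lit 5) (nat_lit 4) (nat_lit 4) (nat_lit 327) (nat_lit 246) (nat_lit 147))) (XT.nd (nat_lit 78)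 (nat_lit 0) (nat_lit 0) (XT.lf (nat_lit 0) (nat_lit 12991456004) (nat_lit 152) (nat_lit 11534697868) (nat_lit 76) (nat_lit 89668520953) (nat_lit 3) (nat_lit 5) (nat_lit 5) (nat_lit 5) (nat_lit 4) (nat_lit 4) (nat_lit 328) (nat_lit 246) (nat_lit 146)) (XT.lf (nat_lit 0) (nat_lit 17672401002) (nat_lit 152) (nat_lit 1952687576) (nat_lit 76) (nat_lit 99974380135) (nat_lit 3) (nat_lit 5) (nat_lit 5) (nat_lit 5) (nat_lit 4) (nat_lit 4) (nat_lit 329) (nat_lit 246) (nat_lit 145)))) (XT.nd (nat_lit 156) (nat_lit 0) (nat_lit 0) (XT.nd (nat_lit 78) (nat_lit 0) (nat_lit 0) (XT.lf (nat_lit 0) (nat_lit 8369234833) (nat_lit 76) (nat_lit 14344720400) (nat_lit 152) (nat_lit 102554227184) (nat_lit 2) (nat_lit 5) (nat_lit 3) (nat_lit 5) (nat_lit 4) (nat_lit 4) (nat_lit 330) (nat_lit 246) (nat_lit 144)) (XT.lf (nat_lit 0) (nat_lit 19268103899) (nat_lit 76) (nat_lit 8768534857) (nat_lit 152) (nat_lit 103182248301)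 (nat_lit 2) (nat_lit 5) (nat_lit 3) (nat_lit 5) (nat_lit 4) (nat_lit 4) (nat_lit 331) (nat_lit 246) (nat_lit 143))) (XT.nd (nat_lit 78) (nat_lit 0) (nat_lit 0) (XT.lf (nat_lit 0) (nat_lit 30705304639) (nat_lit 76) (nat_lit 2916325027) (nat_lit 152) (nat_lit 103845696059) (nat_lit 2) (nat_lit 5) (nat_lit 3) (nat_lit 5) (nat_lit 4) (nat_lit 4) (nat_lit 332) (nat_lit 246) (nat_lit 142)) (XT.nd (nat_lit 78) (nat_lit 0) (nat_lit 0) (XT.lf (nat_lit 0) (nat_lit 39532590009) (nat_lit 152) (nat_lit 101370671622) (nat_lit 0) (nat_lit 3122595802) (nat_lit 2) (nat_lit 5) (nat_lit 4) (nat_lit 4) (nat_lit 2) (nat_lit 4) (nat_lit 333) (nat_lit 246) (nat_lit 141)) (XT.lf (nat_lit 0) (nat_lit 45783396526) (nat_lit 152) (nat_lit 95763701245) (nat_lit 0) (nat_lit 9363009812) (nat_lit 2) (nat_lit 5) (nat_lit 4) (nat_lit 4) (nat_lit 2) (nat_lit 4) (nat_lit 334) (nat_lit 246) (nat_lit 140))))))))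
noncomputable def xc133 : XT := (XT.nd (nat_lit 1326) (nat_lit 0) (nat_lit 0) (XT.nd (nat_lit 624) (nat_lit 76) (nat_lit 0) (XT.nd (nat_lit 312) (nat_lit 0) (nat_lit 0) (XT.nd (nat_lit 156) (nat_lit 0) (nat_lit 0) (XT.nd (nat_lit 78) (nat_lit 0) (nat_lit 0) (XT.lf (nat_lit 0) (nat_lit 52343400083) (nat_lit 152) (nat_lit 89882228019) (nat_lit 0) (nat_lit 15913115744) (nat_lit 2) (nat_lit 5) (nat_lit 4) (nat_lit 4) (nat_lit 2) (nat_lit 4) (nat_lit 335) (nat_lit 246) (nat_lit 139)) (XT.lf (nat_lit 0) (nat_lit 59228219736) (nat_lit 152) (nat_lit 83712248436) (nat_lit 0) (nat_lit 22788509087) (nat_lit 2) (nat_lit 5) (nat_lit 4) (nat_lit 4) (nat_lit 2) (nat_lit 4) (nat_lit 336) (nat_lit 246) (nat_lit 138))) (XT.nd (nat_lit 78) (nat_lit 0) (nat_lit 0) (XT.lf (nat_lit 0) (nat_lit 66454247914) (nat_lit 152) (nat_lit 77239072070) (nat_lit 0) (nat_lit 30005559827) (nat_lit 2) (nat_lit 5) (nat_lit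 4) (nat_lit 4) (nat_lit 2) (nat_lit 4) (nat_lit 337) (nat_lit 246) (nat_lit 137)) (XT.lf (nat_lit 0) (nat_lit 74038689445) (nat_lit 152) (nat_lit 70447286595) (nat_lit 0) (nat_lit 37581451417) (nat_lit 2) (nat_lit 5) (nat_lit 4) (nat_lit 4) (nat_lit 2) (nat_lit 4) (nat_lit 338) (nat_lit 246) (nat_lit 136)))) (XT.nd (nat_lit 156) (nat_lit 0) (nat_lit 0) (XT.nd (nat_lit 78) (nat_lit 0) (nat_lit 0) (XT.lf (nat_lit 0) (nat_lit 81999602522) (nat_lit 152) (nat_lit 63320721093) (nat_lit 0) (nat_lit 45534221693) (nat_lit 2) (nat_lit 5) (nat_lit 4) (nat_lit 4) (nat_lit 2) (nat_lit 4) (nat_lit 339) (nat_lit 246) (nat_lit 135)) (XT.lf (nat_lit 0) (nat_lit 90355941702) (nat_lit 152) (nat_lit 55842407552) (nat_lit 0) (nat_lit 53882805825) (nat_lit 2) (nat_lit 5) (nat_lit 4) (nat_lit 4) (nat_lit 2) (nat_lit 4) (nat_lit 340) (nat_lit 246) (nat_lit 134))) (XT.nd (nat_lit 78) (nat_lit 0) (nat_lit 0)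 (XT.lf (nat_lit 0) (nat_lit 99127603030) (nat_lit 152) (nat_lit 47994540463) (nat_lit 0) (nat_lit 62647081392) (nat_lit 2) (nat_lit 5) (nat_lit 4) (nat_lit 4) (nat_lit 2) (nat_lit 4) (nat_lit 341) (nat_lit 246) (nat_lit 133)) (XT.lf (nat_lit 0) (nat_lit 108335471414) (nat_lit 152) (nat_lit 39758434428) (nat_lit 0) (nat_lit 71847915718) (nat_lit 2) (nat_lit 5) (nat_lit 4) (nat_lit 4) (nat_lit 2) (nat_lit 4) (nat_lit 342) (nat_lit 246) (nat_lit 132))))) (XT.nd (nat_lit 312) (nat_lit 76) (nat_lit 0) (XT.nd (nat_lit 156) (nat_lit 0) (nat_lit 0) (XT.nd (nat_lit 78) (nat_lit 0) (nat_lit 0) (XT.lf (nat_lit 0) (nat_lit 118001470349) (nat_lit 152) (nat_lit 31114479670) (nat_lit 0) (nat_lit 81507215551) (nat_lit 2) (nat_lit 5) (nat_lit 4) (nat_lit 4) (nat_lit 2) (nat_lit 4) (nat_lit 343) (nat_lit 246) (nat_lit 131)) (XT.lf (nat_lit 0) (nat_lit 128148614120) (nat_lit 152) (nat_lit 22042095346)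 (nat_lit 0) (nat_lit 91647979224) (nat_lit 2) (nat_lit 5) (nat_lit 4) (nat_lit 4) (nat_lit 2) (nat_lit 4) (nat_lit 344) (nat_lit 246) (nat_lit 130))) (XT.nd (nat_lit 78) (nat_lit 0) (nat_lit 0) (XT.lf (nat_lit 0) (nat_lit 138801062592) (nat_lit 152) (nat_lit 12519680541) (nat_lit 0) (nat_lit 102294351412) (nat_lit 2) (nat_lit 5) (nat_lit 4) (nat_lit 4) (nat_lit 2) (nat_lit 4) (nat_lit 345) (nat_lit 246) (nat_lit 129)) (XT.lf (nat_lit 0) (nat_lit 149984178737) (nat_lit 152) (nat_lit 2524562837) (nat_lit 0) (nat_lit 113471680621) (nat_lit 2) (nat_lit 5) (nat_lit 4) (nat_lit 4) (nat_lit 2) (nat_lit 4) (nat_lit 346) (nat_lit 246) (nat_lit 128)))) (XT.nd (nat_lit 156) (nat_lit 0) (nat_lit 0) (XT.nd (nat_lit 78) (nat_lit 0) (nat_lit 0) (XT.lf (nat_lit 0) (nat_lit 8230482504) (nat_lit 76) (nat_lit 153622607417) (nat_lit 76) (nat_lit 117104597933) (nat_lit 1) (nat_lit 4) (nat_lit 2) (nat_lit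 5) (nat_lit 2) (nat_lit 4) (nat_lit 347) (nat_lit 246) (nat_lit 127)) (XT.lf (nat_lit 0) (nat_lit 19607724647) (nat_lit 76) (nat_lit 154748653693) (nat_lit 76) (nat_lit 118225395287) (nat_lit 1) (nat_lit 4) (nat_lit 2) (nat_lit 5) (nat_lit 2) (nat_lit 4) (nat_lit 348) (nat_lit 246) (nat_lit 126))) (XT.nd (nat_lit 78) (nat_lit 0) (nat_lit 0) (XT.lf (nat_lit 0) (nat_lit 31550778815) (nat_lit 76) (nat_lit 155932316159) (nat_lit 76) (nat_lit 119404058779) (nat_lit 1) (nat_lit 4) (nat_lit 2) (nat_lit 5) (nat_lit 2) (nat_lit 4) (nat_lit 349) (nat_lit 246) (nat_lit 125)) (XT.nd (nat_lit 78) (nat_lit 0) (nat_lit 0) (XT.lf (nat_lit 0) (nat_lit 44088080852) (nat_lit 76) (nat_lit 157176413058) (nat_lit 76) (nat_lit 120643394751) (nat_lit 1) (nat_lit 4) (nat_lit 2) (nat_lit 5) (nat_lit 2) (nat_lit 4) (nat_lit 350) (nat_lit 246) (nat_lit 124)) (XT.lf (nat_lit 0) (nat_lit 57249481475) (nat_lit 76)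 (nat_lit 158483906526) (nat_lit 76) (nat_lit 121946354002) (nat_lit 1) (nat_lit 4) (nat_lit 2) (nat_lit 5) (nat_lit 2) (nat_lit 4) (nat_lit 351) (nat_lit 246) (nat_lit 123))))))) (XT.nd (nat_lit 29406) (nat_lit 0) (nat_lit 5624) (XT.nd (nat_lit 312) (nat_lit 0) (nat_lit 0) (XT.nd (nat_lit 156) (nat_lit 0) (nat_lit 0) (XT.nd (nat_lit 78) (nat_lit 0) (nat_lit 0) (XT.lf (nat_lit 0) (nat_lit 71066317354) (nat_lit 76) (nat_lit 159857909642) (nat_lit 76) (nat_lit 123316038817) (nat_lit 1) (nat_lit 4) (nat_lit 2) (nat_lit 5) (nat_lit 2) (nat_lit 4) (nat_lit 352) (nat_lit 246) (nat_lit 122)) (XT.lf (nat_lit 0) (nat_lit 85571485717) (nat_lit 76) (nat_lit 161301693843) (nat_lit 76) (nat_lit 124755710350) (nat_lit 1) (nat_lit 4) (nat_lit 2) (nat_lit 5) (nat_lit 2) (nat_lit 4) (nat_lit 353) (nat_lit 246) (nat_lit 121))) (XT.nd (nat_lit 78) (nat_lit 0) (nat_lit 0) (XT.lf (nat_lit 0) (nat_lit 100799522678)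 (nat_lit 76) (nat_lit 162818696709) (nat_lit 76) (nat_lit 126268796390) (nat_lit 1) (nat_lit 4) (nat_lit 2) (nat_lit 5) (nat_lit 2) (nat_lit 4) (nat_lit 354) (nat_lit 246) (nat_lit 120)) (XT.lf (nat_lit 0) (nat_lit 116786685469) (nat_lit 76) (nat_lit 164412530153) (nat_lit 76) (nat_lit 127858899524) (nat_lit 1) (nat_lit 4) (nat_lit 2) (nat_lit 5) (nat_lit 2) (nat_lit 4) (nat_lit 355) (nat_lit 246) (nat_lit 119)))) (XT.nd (nat_lit 156) (nat_lit 0) (nat_lit 0) (XT.nd (nat_lit 78) (nat_lit 0) (nat_lit 0) (XT.lf (nat_lit 0) (nat_lit 133571038763) (nat_lit 76) (nat_lit 166086989017) (nat_lit 76) (nat_lit 129529805710) (nat_lit 1) (nat_lit 4) (nat_lit 2) (nat_lit 5) (nat_lit 2) (nat_lit 4) (nat_lit 356) (nat_lit 246) (nat_lit 118)) (XT.lf (nat_lit 0) (nat_lit 151192545306) (nat_lit 76) (nat_lit 167846060106) (nat_lit 76) (nat_lit 131285493297) (nat_lit 1) (nat_lit 4) (nat_lit 2) (nat_lit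 5) (nat_lit 2) (nat_lit 4) (nat_lit 357) (nat_lit 246) (nat_lit 117))) (XT.nd (nat_lit 28860) (nat_lit 0) (nat_lit 6536) (XT.lf (nat_lit 0) (nat_lit 169693161066) (nat_lit 76) (nat_lit 169693931685) (nat_lit 76) (nat_lit 133130142494) (nat_lit 1) (nat_lit 4) (nat_lit 2) (nat_lit 5) (nat_lit 2) (nat_lit 4) (nat_lit 358) (nat_lit 246) (nat_lit 116)) (XT.lf (nat_lit 0) (nat_lit 817062934) (nat_lit 0) (nat_lit 817062934) (nat_lit 380) (nat_lit 1885646417) (nat_lit 87) (nat_lit 5) (nat_lit 87) (nat_lit 3) (nat_lit 92) (nat_lit 3) (nat_lit 247) (nat_lit 247) (nat_lit 226))))) (XT.nd (nat_lit 312) (nat_lit 456) (nat_lit 0) (XT.nd (nat_lit 156) (nat_lit 456) (nat_lit 0) (XT.nd (nat_lit 78) (nat_lit 0) (nat_lit 0) (XT.lf (nat_lit 0) (nat_lit 4643823617) (nat_lit 0) (nat_lit 236312652) (nat_lit 380) (nat_lit 2248520055) (nat_lit 87) (nat_lit 5) (nat_lit 87) (nat_lit 3) (nat_lit 92) (nat_lit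 3) (nat_lit 248) (nat_lit 247) (nat_lit 225)) (XT.lf (nat_lit 76) (nat_lit 524028190) (nat_lit 0) (nat_lit 5978807973) (nat_lit 456) (nat_lit 723540120) (nat_lit 88) (nat_lit 5) (nat_lit 87) (nat_lit 5) (nat_lit 93) (nat_lit 5) (nat_lit 249) (nat_lit 247) (nat_lit 224))) (XT.nd (nat_lit 78) (nat_lit 0) (nat_lit 0) (XT.lf (nat_lit 0) (nat_lit 800692404) (nat_lit 456) (nat_lit 3633715720) (nat_lit 532) (nat_lit 2896936176) (nat_lit 81) (nat_lit 5) (nat_lit 87) (nat_lit 5) (nat_lit 88) (nat_lit 5) (nat_lit 250) (nat_lit 247) (nat_lit 223)) (XT.lf (nat_lit 0) (nat_lit 2285820317) (nat_lit 456) (nat_lit 478913482) (nat_lit 532) (nat_lit 4681357192) (nat_lit 81) (nat_lit 5) (nat_lit 87) (nat_lit 5) (nat_lit 88) (nat_lit 5) (nat_lit 251) (nat_lit 247) (nat_lit 222)))) (XT.nd (nat_lit 156) (nat_lit 456) (nat_lit 0) (XT.nd (nat_lit 78) (nat_lit 0) (nat_lit 76) (XT.lf (nat_lit 76) (nat_lit 2872814551)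 (nat_lit 0) (nat_lit 930575574) (nat_lit 532) (nat_lit 3765821627) (nat_lit 82) (nat_lit 5) (nat_lit 81) (nat_lit 5) (nat_lit 88) (nat_lit 5) (nat_lit 252) (nat_lit 247) (nat_lit 221)) (XT.lf (nat_lit 0) (nat_lit 5337761489) (nat_lit 456) (nat_lit 1362089190) (nat_lit 532) (nat_lit 1002111727) (nat_lit 82) (nat_lit 5) (nat_lit 88) (nat_lit 5) (nat_lit 89) (nat_lit 5) (nat_lit 253) (nat_lit 247) (nat_lit 220))) (XT.nd (nat_lit 78) (nat_lit 532) (nat_lit 0) (XT.lf (nat_lit 76) (nat_lit 2137728383) (nat_lit 0) (nat_lit 4780840208) (nat_lit 532) (nat_lit 924791390) (nat_lit 83) (nat_lit 5) (nat_lit 82) (nat_lit 5) (nat_lit 89) (nat_lit 5) (nat_lit 254) (nat_lit 247) (nat_lit 219)) (XT.nd (nat_lit 78) (nat_lit 0) (nat_lit 0) (XT.lf (nat_lit 0) (nat_lit 513566104) (nat_lit 532) (nat_lit 2196897324) (nat_lit 608) (nat_lit 5284067697) (nat_lit 75) (nat_lit 5) (nat_lit 82) (nat_lit 5) (nat_lit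 83) (nat_lit 5) (nat_lit 255) (nat_lit 247) (nat_lit 218)) (XT.lf (nat_lit 76) (nat_lit 1465187030) (nat_lit 0) (nat_lit 476456961) (nat_lit 608) (nat_lit 6213842544) (nat_lit 76) (nat_lit 5) (nat_lit 75) (nat_lit 5) (nat_lit 83) (nat_lit 5) (nat_lit 256) (nat_lit 247) (nat_lit 217))))))))
noncomputable def xc134 : XT := (XT.nd (nat_lit 1326) (nat_lit 1520) (nat_lit 0) (XT.nd (nat_lit 624) (nat_lit 1216) (nat_lit 0) (XT.nd (nat_lit 312) (nat_lit 760) (nat_lit 0) (XT.nd (nat_lit 156) (nat_lit 608) (nat_lit 0) (XT.nd (nat_lit 78) (nat_lit 532) (nat_lit 0) (XT.lf (nat_lit 0) (nat_lit 3437114531) (nat_lit 532) (nat_lit 3022988557) (nat_lit 76) (nat_lit 1864994631) (nat_lit 76) (nat_lit 5) (nat_lit 83) (nat_lit 5) (nat_lit 77) (nat_lit 5) (nat_lit 257) (nat_lit 247) (nat_lit 216)) (XT.lf (nat_lit 0) (nat_lit 790696903) (nat_lit 532) (nat_lit 4169188013) (nat_lit 608) (nat_lit 3546066269)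 (nat_lit 69) (nat_lit 5) (nat_lit 76) (nat_lit 5) (nat_lit 77) (nat_lit 5) (nat_lit 258) (nat_lit 247) (nat_lit 215))) (XT.nd (nat_lit 78) (nat_lit 608) (nat_lit 0) (XT.lf (nat_lit 0) (nat_lit 4846409300) (nat_lit 532) (nat_lit 1698334317) (nat_lit 608) (nat_lit 2152175778) (nat_lit 69) (nat_lit 5) (nat_lit 76) (nat_lit 5) (nat_lit 77) (nat_lit 5) (nat_lit 259) (nat_lit 247) (nat_lit 214)) (XT.lf (nat_lit 0) (nat_lit 143382563) (nat_lit 608) (nat_lit 8019725347) (nat_lit 684) (nat_lit 736966935) (nat_lit 61) (nat_lit 5) (nat_lit 69) (nat_lit 5) (nat_lit 70) (nat_lit 5) (nat_lit 260) (nat_lit 247) (nat_lit 213)))) (XT.nd (nat_lit 156) (nat_lit 684) (nat_lit 0) (XT.nd (nat_lit 78) (nat_lit 0) (nat_lit 0) (XT.lf (nat_lit 0) (nat_lit 757989421) (nat_lit 684) (nat_lit 4736228547) (nat_lit 76) (nat_lit 3617256649) (nat_lit 60) (nat_lit 5) (nat_lit 69) (nat_lit 5) (nat_lit 61) (nat_lit 5)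 (nat_lit 261) (nat_lit 247) (nat_lit 212)) (XT.lf (nat_lit 0) (nat_lit 2244678111) (nat_lit 684) (nat_lit 580296641) (nat_lit 76) (nat_lit 6511082021) (nat_lit 60) (nat_lit 5) (nat_lit 69) (nat_lit 5) (nat_lit 61) (nat_lit 5) (nat_lit 262) (nat_lit 247) (nat_lit 211))) (XT.nd (nat_lit 78) (nat_lit 0) (nat_lit 0) (XT.lf (nat_lit 0) (nat_lit 3811138325) (nat_lit 760) (nat_lit 5716713391) (nat_lit 76) (nat_lit 44034027) (nat_lit 51) (nat_lit 5) (nat_lit 61) (nat_lit 5) (nat_lit 52) (nat_lit 5) (nat_lit 263) (nat_lit 247) (nat_lit 210)) (XT.lf (nat_lit 0) (nat_lit 5458660663) (nat_lit 760) (nat_lit 1386042728) (nat_lit 76) (nat_lit 2974941587) (nat_lit 51) (nat_lit 5) (nat_lit 61) (nat_lit 5) (nat_lit 52) (nat_lit 5) (nat_lit 264) (nat_lit 247) (nat_lit 209))))) (XT.nd (nat_lit 312) (nat_lit 532) (nat_lit 0) (XT.nd (nat_lit 156) (nat_lit 380) (nat_lit 0) (XT.nd (nat_lit 78) (nat_lit 0)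 (nat_lit 0) (XT.lf (nat_lit 0) (nat_lit 3213423307) (nat_lit 304) (nat_lit 3974296199) (nat_lit 380) (nat_lit 2892377290) (nat_lit 47) (nat_lit 5) (nat_lit 51) (nat_lit 5) (nat_lit 52) (nat_lit 5) (nat_lit 265) (nat_lit 247) (nat_lit 208)) (XT.lf (nat_lit 0) (nat_lit 8041211076) (nat_lit 304) (nat_lit 936135342) (nat_lit 380) (nat_lit 1377769162) (nat_lit 47) (nat_lit 5) (nat_lit 51) (nat_lit 5) (nat_lit 52) (nat_lit 5) (nat_lit 266) (nat_lit 247) (nat_lit 207))) (XT.nd (nat_lit 78) (nat_lit 0) (nat_lit 0) (XT.lf (nat_lit 0) (nat_lit 232555846) (nat_lit 380) (nat_lit 8186479221) (nat_lit 76) (nat_lit 2223571675) (nat_lit 42) (nat_lit 5) (nat_lit 47) (nat_lit 5) (nat_lit 43) (nat_lit 5) (nat_lit 267) (nat_lit 247) (nat_lit 206)) (XT.lf (nat_lit 0) (nat_lit 1885761803) (nat_lit 380) (nat_lit 3487025587) (nat_lit 76) (nat_lit 5570338489) (nat_lit 42) (nat_lit 5) (nat_lit 47) (nat_lit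 5) (nat_lit 43) (nat_lit 5) (nat_lit 268) (nat_lit 247) (nat_lit 205)))) (XT.nd (nat_lit 156) (nat_lit 304) (nat_lit 0) (XT.nd (nat_lit 78) (nat_lit 0) (nat_lit 0) (XT.lf (nat_lit 0) (nat_lit 1445147918) (nat_lit 228) (nat_lit 2154748463) (nat_lit 304) (nat_lit 7660066961) (nat_lit 39) (nat_lit 5) (nat_lit 42) (nat_lit 5) (nat_lit 43) (nat_lit 5) (nat_lit 269) (nat_lit 247) (nat_lit 204)) (XT.lf (nat_lit 0) (nat_lit 5435868155) (nat_lit 304) (nat_lit 4914771243) (nat_lit 76) (nat_lit 1240392741) (nat_lit 39) (nat_lit 5) (nat_lit 43) (nat_lit 5) (nat_lit 40) (nat_lit 5) (nat_lit 270) (nat_lit 247) (nat_lit 203))) (XT.nd (nat_lit 78) (nat_lit 0) (nat_lit 0) (XT.lf (nat_lit 0) (nat_lit 152211832) (nat_lit 304) (nat_lit 7208169571) (nat_lit 380) (nat_lit 4578622484) (nat_lit 35) (nat_lit 5) (nat_lit 39) (nat_lit 5) (nat_lit 40) (nat_lit 5) (nat_lit 271) (nat_lit 247) (nat_lit 202)) (XT.nd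 (nat_lit 78) (nat_lit 0) (nat_lit 0) (XT.lf (nat_lit 0) (nat_lit 5596330449) (nat_lit 304) (nat_lit 3828285573) (nat_lit 380) (nat_lit 2877761180) (nat_lit 35) (nat_lit 5) (nat_lit 39) (nat_lit 5) (nat_lit 40) (nat_lit 5) (nat_lit 272) (nat_lit 247) (nat_lit 201)) (XT.lf (nat_lit 0) (nat_lit 11268042261) (nat_lit 304) (nat_lit 286174090) (nat_lit 380) (nat_lit 1131764432) (nat_lit 35) (nat_lit 5) (nat_lit 39) (nat_lit 5) (nat_lit 40) (nat_lit 5) (nat_lit 273) (nat_lit 247) (nat_lit 200))))))) (XT.nd (nat_lit 624) (nat_lit 532) (nat_lit 0) (XT.nd (nat_lit 312) (nat_lit 456) (nat_lit 0) (XT.nd (nat_lit 156) (nat_lit 228) (nat_lit 0) (XT.nd (nat_lit 78) (nat_lit 0) (nat_lit 0) (XT.lf (nat_lit 0) (nat_lit 762837962) (nat_lit 304) (nat_lit 8927007928) (nat_lit 76) (nat_lit 3394336609) (nat_lit 31) (nat_lit 5) (nat_lit 35) (nat_lit 5) (nat_lit 32) (nat_lit 5) (nat_lit 274) (nat_lit 247)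 (nat_lit 199)) (XT.lf (nat_lit 0) (nat_lit 2707405599) (nat_lit 304) (nat_lit 3509427938) (nat_lit 76) (nat_lit 7285015843) (nat_lit 31) (nat_lit 5) (nat_lit 35) (nat_lit 5) (nat_lit 32) (nat_lit 5) (nat_lit 275) (nat_lit 247) (nat_lit 198))) (XT.nd (nat_lit 78) (nat_lit 0) (nat_lit 0) (XT.lf (nat_lit 0) (nat_lit 2206838229) (nat_lit 228) (nat_lit 2542695758) (nat_lit 304) (nat_lit 9190988285) (nat_lit 28) (nat_lit 5) (nat_lit 31) (nat_lit 5) (nat_lit 32) (nat_lit 5) (nat_lit 276) (nat_lit 247) (nat_lit 197)) (XT.lf (nat_lit 0) (nat_lit 6941414434) (nat_lit 304) (nat_lit 6132692414) (nat_lit 76) (nat_lit 1324772329) (nat_lit 28) (nat_lit 5) (nat_lit 32) (nat_lit 5) (nat_lit 29) (nat_lit 5) (nat_lit 277) (nat_lit 247) (nat_lit 196)))) (XT.nd (nat_lit 156) (nat_lit 304) (nat_lit 0) (XT.nd (nat_lit 78) (nat_lit 152) (nat_lit 0) (XT.lf (nat_lit 0) (nat_lit 9252862243) (nat_lit 304) (nat_lit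 335034674) (nat_lit 76) (nat_lit 5291884677) (nat_lit 28) (nat_lit 5) (nat_lit 32) (nat_lit 5) (nat_lit 29) (nat_lit 5) (nat_lit 278) (nat_lit 247) (nat_lit 195)) (XT.lf (nat_lit 0) (nat_lit 5901682422) (nat_lit 152) (nat_lit 5840141634) (nat_lit 228) (nat_lit 3639928315) (nat_lit 26) (nat_lit 5) (nat_lit 28) (nat_lit 5) (nat_lit 29) (nat_lit 5) (nat_lit 279) (nat_lit 247) (nat_lit 194))) (XT.nd (nat_lit 78) (nat_lit 304) (nat_lit 0) (XT.lf (nat_lit 0) (nat_lit 12422793351) (nat_lit 152) (nat_lit 1908742451) (nat_lit 228) (nat_lit 1578585382) (nat_lit 26) (nat_lit 5) (nat_lit 28) (nat_lit 5) (nat_lit 29) (nat_lit 5) (nat_lit 280) (nat_lit 247) (nat_lit 193)) (XT.lf (nat_lit 0) (nat_lit 618390741) (nat_lit 304) (nat_lit 13650309006) (nat_lit 76) (nat_lit 2193289502) (nat_lit 22) (nat_lit 5) (nat_lit 26) (nat_lit 5) (nat_lit 23) (nat_lit 5) (nat_lit 281) (nat_lit 247) (nat_lit 192)))))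 (XT.nd (nat_lit 312) (nat_lit 380) (nat_lit 0) (XT.nd (nat_lit 156) (nat_lit 152) (nat_lit 0) (XT.nd (nat_lit 78) (nat_lit 0) (nat_lit 0) (XT.lf (nat_lit 0) (nat_lit 2935562815) (nat_lit 304) (nat_lit 7588900902) (nat_lit 76) (nat_lit 6512622167) (nat_lit 22) (nat_lit 5) (nat_lit 26) (nat_lit 5) (nat_lit 23) (nat_lit 5) (nat_lit 282) (nat_lit 247) (nat_lit 191)) (XT.lf (nat_lit 0) (nat_lit 5342002378) (nat_lit 304) (nat_lit 1261542904) (nat_lit 76) (nat_lit 11038815897) (nat_lit 22) (nat_lit 5) (nat_lit 26) (nat_lit 5) (nat_lit 23) (nat_lit 5) (nat_lit 283) (nat_lit 247) (nat_lit 190))) (XT.nd (nat_lit 78) (nat_lit 0) (nat_lit 0) (XT.lf (nat_lit 0) (nat_lit 5523620475) (nat_lit 152) (nat_lit 2406057767) (nat_lit 228) (nat_lit 10345266062) (nat_lit 20) (nat_lit 5) (nat_lit 22) (nat_lit 5) (nat_lit 23) (nat_lit 5) (nat_lit 284) (nat_lit 247) (nat_lit 189)) (XT.lf (nat_lit 0) (nat_lit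 10674878958) (nat_lit 228) (nat_lit 6313787866) (nat_lit 76) (nat_lit 1949168219) (nat_lit 20) (nat_lit 5) (nat_lit 23) (nat_lit 5) (nat_lit 21) (nat_lit 5) (nat_lit 285) (nat_lit 247) (nat_lit 188)))) (XT.nd (nat_lit 156) (nat_lit 228) (nat_lit 0) (XT.nd (nat_lit 78) (nat_lit 0) (nat_lit 0) (XT.lf (nat_lit 0) (nat_lit 384247990) (nat_lit 152) (nat_lit 13194896390) (nat_lit 228) (nat_lit 6053717142) (nat_lit 18) (nat_lit 5) (nat_lit 20) (nat_lit 5) (nat_lit 21) (nat_lit 5) (nat_lit 286) (nat_lit 247) (nat_lit 187)) (XT.lf (nat_lit 0) (nat_lit 7602706548) (nat_lit 152) (nat_lit 9109805280) (nat_lit 228) (nat_lit 3646010615) (nat_lit 18) (nat_lit 5) (nat_lit 20) (nat_lit 5) (nat_lit 21) (nat_lit 5) (nat_lit 287) (nat_lit 247) (nat_lit 186))) (XT.nd (nat_lit 78) (nat_lit 228) (nat_lit 0) (XT.lf (nat_lit 0) (nat_lit 15150012274) (nat_lit 152) (nat_lit 4830594140) (nat_lit 228) (nat_lit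 1141030924) (nat_lit 18) (nat_lit 5) (nat_lit 20) (nat_lit 5) (nat_lit 21) (nat_lit 5) (nat_lit 288) (nat_lit 247) (nat_lit 185)) (XT.nd (nat_lit 78) (nat_lit 0) (nat_lit 0) (XT.lf (nat_lit 0) (nat_lit 1133483457) (nat_lit 152) (nat_lit 304440444) (nat_lit 228) (nat_lit 20484069058) (nat_lit 15) (nat_lit 5) (nat_lit 17) (nat_lit 5) (nat_lit 18) (nat_lit 5) (nat_lit 289) (nat_lit 247) (nat_lit 184)) (XT.lf (nat_lit 0) (nat_lit 4258786362) (nat_lit 228) (nat_lit 14077710810) (nat_lit 76) (nat_lit 4417432425) (nat_lit 15) (nat_lit 5) (nat_lit 18) (nat_lit 5) (nat_lit 16) (nat_lit 5) (nat_lit 290) (nat_lit 247) (nat_lit 183))))))))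
noncomputable def xc135 : XT := (XT.nd (nat_lit 1326) (nat_lit 304) (nat_lit 0) (XT.nd (nat_lit 624) (nat_lit 228) (nat_lit 0) (XT.nd (nat_lit 312) (nat_lit 152) (nat_lit 0) (XT.nd (nat_lit 156) (nat_lit 0) (nat_lit 0) (XT.nd (nat_lit 78) (nat_lit 152) (nat_lit 0) (XT.lf (nat_lit 0) (nat_lit 7205749130) (nat_lit 228) (nat_lit 7066611015) (nat_lit 76) (nat_lit 9355910832) (nat_lit 15) (nat_lit 5) (nat_lit 18) (nat_lit 5) (nat_lit 16) (nat_lit 5) (nat_lit 291) (nat_lit 247) (nat_lit 182)) (XT.lf (nat_lit 0) (nat_lit 275039114) (nat_lit 152) (nat_lit 10010330630) (nat_lit 228) (nat_lit 14261752071) (nat_lit 13) (nat_lit 5) (nat_lit 15) (nat_lit 5) (nat_lit 16) (nat_lit 5) (nat_lit 292) (nat_lit 247) (nat_lit 181))) (XT.nd (nat_lit 78) (nat_lit 0) (nat_lit 0) (XT.lf (nat_lit 0) (nat_lit 8200765544) (nat_lit 152) (nat_lit 5419359406) (nat_lit 228) (nat_lit 11886787686) (nat_lit 13) (nat_lit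 5) (nat_lit 15) (nat_lit 5) (nat_lit 16) (nat_lit 5) (nat_lit 293) (nat_lit 247) (nat_lit 180)) (XT.lf (nat_lit 0) (nat_lit 16495784977) (nat_lit 152) (nat_lit 608192068) (nat_lit 228) (nat_lit 9411650492) (nat_lit 13) (nat_lit 5) (nat_lit 15) (nat_lit 5) (nat_lit 16) (nat_lit 5) (nat_lit 294) (nat_lit 247) (nat_lit 179)))) (XT.nd (nat_lit 156) (nat_lit 76) (nat_lit 0) (XT.nd (nat_lit 78) (nat_lit 76) (nat_lit 0) (XT.lf (nat_lit 0) (nat_lit 20814457863) (nat_lit 228) (nat_lit 2465057709) (nat_lit 76) (nat_lit 4292690799) (nat_lit 13) (nat_lit 5) (nat_lit 16) (nat_lit 5) (nat_lit 14) (nat_lit 4) (nat_lit 295) (nat_lit 247) (nat_lit 178)) (XT.lf (nat_lit 0) (nat_lit 5611913350) (nat_lit 76) (nat_lit 19180004195) (nat_lit 152) (nat_lit 3885671477) (nat_lit 12) (nat_lit 5) (nat_lit 13) (nat_lit 5) (nat_lit 14) (nat_lit 4) (nat_lit 296) (nat_lit 247) (nat_lit 177))) (XT.nd (nat_lit 78)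 (nat_lit 76) (nat_lit 0) (XT.lf (nat_lit 0) (nat_lit 14153521688) (nat_lit 76) (nat_lit 14840723402) (nat_lit 152) (nat_lit 842741316) (nat_lit 12) (nat_lit 5) (nat_lit 13) (nat_lit 5) (nat_lit 14) (nat_lit 4) (nat_lit 297) (nat_lit 247) (nat_lit 176)) (XT.lf (nat_lit 0) (nat_lit 2261756225) (nat_lit 152) (nat_lit 7993028359) (nat_lit 76) (nat_lit 20798538365) (nat_lit 11) (nat_lit 5) (nat_lit 13) (nat_lit 5) (nat_lit 12) (nat_lit 5) (nat_lit 298) (nat_lit 247) (nat_lit 175))))) (XT.nd (nat_lit 312) (nat_lit 76) (nat_lit 0) (XT.nd (nat_lit 156) (nat_lit 0) (nat_lit 0) (XT.nd (nat_lit 78) (nat_lit 0) (nat_lit 0) (XT.lf (nat_lit 0) (nat_lit 46597617) (nat_lit 152) (nat_lit 5432725287) (nat_lit 228) (nat_lit 26851193521) (nat_lit 9) (nat_lit 5) (nat_lit 11) (nat_lit 5) (nat_lit 12) (nat_lit 5) (nat_lit 299) (nat_lit 247) (nat_lit 174)) (XT.lf (nat_lit 0) (nat_lit 8743067703) (nat_lit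 152) (nat_lit 235844375) (nat_lit 228) (nat_lit 24686637595) (nat_lit 9) (nat_lit 5) (nat_lit 11) (nat_lit 5) (nat_lit 12) (nat_lit 5) (nat_lit 300) (nat_lit 247) (nat_lit 173))) (XT.nd (nat_lit 78) (nat_lit 0) (nat_lit 0) (XT.lf (nat_lit 0) (nat_lit 12721323735) (nat_lit 228) (nat_lit 17296632616) (nat_lit 76) (nat_lit 5046021611) (nat_lit 9) (nat_lit 5) (nat_lit 12) (nat_lit 5) (nat_lit 10) (nat_lit 4) (nat_lit 301) (nat_lit 247) (nat_lit 172)) (XT.lf (nat_lit 0) (nat_lit 16641703654) (nat_lit 228) (nat_lit 9314449235) (nat_lit 76) (nat_lit 10576666231) (nat_lit 9) (nat_lit 5) (nat_lit 12) (nat_lit 5) (nat_lit 10) (nat_lit 4) (nat_lit 302) (nat_lit 247) (nat_lit 171)))) (XT.nd (nat_lit 156) (nat_lit 0) (nat_lit 0) (XT.nd (nat_lit 78) (nat_lit 76) (nat_lit 0) (XT.lf (nat_lit 0) (nat_lit 20745703882) (nat_lit 228) (nat_lit 953244439) (nat_lit 76) (nat_lit 16376806177) (nat_lit 9) (nat_lit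 5) (nat_lit 12) (nat_lit 5) (nat_lit 10) (nat_lit 4) (nat_lit 303) (nat_lit 247) (nat_lit 170)) (XT.lf (nat_lit 0) (nat_lit 8065020422) (nat_lit 76) (nat_lit 17103992995) (nat_lit 152) (nat_lit 14521148456) (nat_lit 8) (nat_lit 5) (nat_lit 9) (nat_lit 5) (nat_lit 10) (nat_lit 4) (nat_lit 304) (nat_lit 247) (nat_lit 169))) (XT.nd (nat_lit 78) (nat_lit 0) (nat_lit 0) (XT.lf (nat_lit 0) (nat_lit 17548470397) (nat_lit 76) (nat_lit 12269621841) (nat_lit 152) (nat_lit 11566996420) (nat_lit 8) (nat_lit 5) (nat_lit 9) (nat_lit 5) (nat_lit 10) (nat_lit 4) (nat_lit 305) (nat_lit 247) (nat_lit 168)) (XT.nd (nat_lit 78) (nat_lit 0) (nat_lit 0) (XT.lf (nat_lit 0) (nat_lit 27488166559) (nat_lit 76) (nat_lit 7200468107) (nat_lit 152) (nat_lit 8476704470) (nat_lit 8) (nat_lit 5) (nat_lit 9) (nat_lit 5) (nat_lit 10) (nat_lit 4) (nat_lit 306) (nat_lit 247) (nat_lit 167)) (XT.lf (nat_lit 0) (nat_lit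 37907774854) (nat_lit 76) (nat_lit 1884462379) (nat_lit 152) (nat_lit 5242914769) (nat_lit 8) (nat_lit 5) (nat_lit 9) (nat_lit 5) (nat_lit 10) (nat_lit 4) (nat_lit 307) (nat_lit 247) (nat_lit 166))))))) (XT.nd (nat_lit 624) (nat_lit 76) (nat_lit 0) (XT.nd (nat_lit 312) (nat_lit 76) (nat_lit 0) (XT.nd (nat_lit 156) (nat_lit 0) (nat_lit 0) (XT.nd (nat_lit 78) (nat_lit 76) (nat_lit 0) (XT.lf (nat_lit 0) (nat_lit 1834202956) (nat_lit 76) (nat_lit 43393113138) (nat_lit 76) (nat_lit 1767349858) (nat_lit 7) (nat_lit 4) (nat_lit 8) (nat_lit 5) (nat_lit 8) (nat_lit 4) (nat_lit 308) (nat_lit 247) (nat_lit 165)) (XT.lf (nat_lit 0) (nat_lit 1965306586) (nat_lit 152) (nat_lit 37633837129) (nat_lit 76) (nat_lit 9444388188) (nat_lit 6) (nat_lit 5) (nat_lit 8) (nat_lit 5) (nat_lit 7) (nat_lit 4) (nat_lit 309) (nat_lit 247) (nat_lit 164))) (XT.nd (nat_lit 78) (nat_lit 0) (nat_lit 0) (XT.lf (nat_lit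 0) (nat_lit 5815650492) (nat_lit 152) (nat_lit 29775824839) (nat_lit 76) (nat_lit 15602416527) (nat_lit 6) (nat_lit 5) (nat_lit 8) (nat_lit 5) (nat_lit 7) (nat_lit 4) (nat_lit 310) (nat_lit 247) (nat_lit 163)) (XT.lf (nat_lit 0) (nat_lit 9849415576) (nat_lit 152) (nat_lit 21540123290) (nat_lit 76) (nat_lit 22062706519) (nat_lit 6) (nat_lit 5) (nat_lit 8) (nat_lit 5) (nat_lit 7) (nat_lit 4) (nat_lit 311) (nat_lit 247) (nat_lit 162)))) (XT.nd (nat_lit 156) (nat_lit 76) (nat_lit 0) (XT.nd (nat_lit 78) (nat_lit 0) (nat_lit 0) (XT.lf (nat_lit 0) (nat_lit 14076206041) (nat_lit 152) (nat_lit 12907123668) (nat_lit 76) (nat_lit 28840639807) (nat_lit 6) (nat_lit 5) (nat_lit 8) (nat_lit 5) (nat_lit 7) (nat_lit 4) (nat_lit 312) (nat_lit 247) (nat_lit 161)) (XT.lf (nat_lit 0) (nat_lit 18506085673) (nat_lit 152) (nat_lit 3856271213) (nat_lit 76) (nat_lit 35952354328) (nat_lit 6) (nat_lit 5) (nat_lit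 8) (nat_lit 5) (nat_lit 7) (nat_lit 4) (nat_lit 313) (nat_lit 247) (nat_lit 160))) (XT.nd (nat_lit 78) (nat_lit 0) (nat_lit 0) (XT.lf (nat_lit 0) (nat_lit 5820268669) (nat_lit 76) (nat_lit 17420203842) (nat_lit 152) (nat_lit 37685384770) (nat_lit 5) (nat_lit 5) (nat_lit 6) (nat_lit 5) (nat_lit 7) (nat_lit 4) (nat_lit 314) (nat_lit 247) (nat_lit 159)) (XT.lf (nat_lit 0) (nat_lit 16101588373) (nat_lit 76) (nat_lit 12167612976) (nat_lit 152) (nat_lit 35395495261) (nat_lit 5) (nat_lit 5) (nat_lit 6) (nat_lit 5) (nat_lit 7) (nat_lit 4) (nat_lit 315) (nat_lit 247) (nat_lit 158))))) (XT.nd (nat_lit 312) (nat_lit 76) (nat_lit 0) (XT.nd (nat_lit 156) (nat_lit 0) (nat_lit 0) (XT.nd (nat_lit 78) (nat_lit 0) (nat_lit 0) (XT.lf (nat_lit 0) (nat_lit 26884661488) (nat_lit 76) (nat_lit 6657385940) (nat_lit 152) (nat_lit 32998812713) (nat_lit 5) (nat_lit 5) (nat_lit 6) (nat_lit 5) (nat_lit 7) (nat_lit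 4) (nat_lit 316) (nat_lit 247) (nat_lit 157)) (XT.lf (nat_lit 0) (nat_lit 38195161998) (nat_lit 76) (nat_lit 876403146) (nat_lit 152) (nat_lit 30489630742) (nat_lit 5) (nat_lit 5) (nat_lit 6) (nat_lit 5) (nat_lit 7) (nat_lit 4) (nat_lit 317) (nat_lit 247) (nat_lit 156))) (XT.nd (nat_lit 78) (nat_lit 0) (nat_lit 0) (XT.lf (nat_lit 0) (nat_lit 44951936402) (nat_lit 152) (nat_lit 22753891839) (nat_lit 0) (nat_lit 5023016055) (nat_lit 5) (nat_lit 5) (nat_lit 7) (nat_lit 4) (nat_lit 5) (nat_lit 4) (nat_lit 318) (nat_lit 247) (nat_lit 155)) (XT.lf (nat_lit 0) (nat_lit 51134303542) (nat_lit 152) (nat_lit 13736408862) (nat_lit 0) (nat_lit 11183777920) (nat_lit 5) (nat_lit 5) (nat_lit 7) (nat_lit 4) (nat_lit 5) (nat_lit 4) (nat_lit 319) (nat_lit 247) (nat_lit 154)))) (XT.nd (nat_lit 156) (nat_lit 0) (nat_lit 0) (XT.nd (nat_lit 78) (nat_lit 76) (nat_lit 0) (XT.lf (nat_lit 0) (nat_lit 57619703375)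 (nat_lit 152) (nat_lit 4278431651) (nat_lit 0) (nat_lit 17648601300) (nat_lit 5) (nat_lit 5) (nat_lit 7) (nat_lit 4) (nat_lit 5) (nat_lit 4) (nat_lit 320) (nat_lit 247) (nat_lit 153)) (XT.lf (nat_lit 0) (nat_lit 5829127264) (nat_lit 76) (nat_lit 58685459078) (nat_lit 76) (nat_lit 18694760382) (nat_lit 4) (nat_lit 4) (nat_lit 5) (nat_lit 5) (nat_lit 5) (nat_lit 4) (nat_lit 321) (nat_lit 247) (nat_lit 152))) (XT.nd (nat_lit 78) (nat_lit 0) (nat_lit 0) (XT.lf (nat_lit 0) (nat_lit 16580875425) (nat_lit 76) (nat_lit 55240123615) (nat_lit 76) (nat_lit 15230761470) (nat_lit 4) (nat_lit 4) (nat_lit 5) (nat_lit 5) (nat_lit 5) (nat_lit 4) (nat_lit 322) (nat_lit 247) (nat_lit 151)) (XT.nd (nat_lit 78) (nat_lit 0) (nat_lit 0) (XT.lf (nat_lit 0) (nat_lit 27860947959) (nat_lit 76) (nat_lit 51626382767) (nat_lit 76) (nat_lit 11599245908) (nat_lit 4) (nat_lit 4) (nat_lit 5) (nat_lit 5) (nat_lit 5)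 (nat_lit 4) (nat_lit 323) (nat_lit 247) (nat_lit 150)) (XT.lf (nat_lit 0) (nat_lit 39696202182) (nat_lit 76) (nat_lit 47835632389) (nat_lit 76) (nat_lit 7791567232) (nat_lit 4) (nat_lit 4) (nat_lit 5) (nat_lit 5) (nat_lit 5) (nat_lit 4) (nat_lit 324) (nat_lit 247) (nat_lit 149))))))))
noncomputable def xc136 : XT := (XT.nd (nat_lit 1248) (nat_lit 76) (nat_lit 0) (XT.nd (nat_lit 624) (nat_lit 0) (nat_lit 0) (XT.nd (nat_lit 312) (nat_lit 76) (nat_lit 0) (XT.nd (nat_lit 156) (nat_lit 0) (nat_lit 0) (XT.nd (nat_lit 78) (nat_lit 76) (nat_lit 0) (XT.lf (nat_lit 0) (nat_lit 52114817270) (nat_lit 76) (nat_lit 43858846886) (nat_lit 76) (nat_lit 3798659540) (nat_lit 4) (nat_lit 4) (nat_lit 5) (nat_lit 5) (nat_lit 5) (nat_lit 4) (nat_lit 325) (nat_lit 247) (nat_lit 148)) (XT.lf (nat_lit 0) (nat_lit 376534170) (nat_lit 152) (nat_lit 39303646761) (nat_lit 76) (nat_lit 64763450395) (nat_lit 3) (nat_lit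 5) (nat_lit 5) (nat_lit 5) (nat_lit 4) (nat_lit 4) (nat_lit 326) (nat_lit 247) (nat_lit 147))) (XT.nd (nat_lit 78) (nat_lit 0) (nat_lit 0) (XT.lf (nat_lit 0) (nat_lit 4628301686) (nat_lit 152) (nat_lit 30602146655) (nat_lit 76) (nat_lit 74115177706) (nat_lit 3) (nat_lit 5) (nat_lit 5) (nat_lit 5) (nat_lit 4) (nat_lit 4) (nat_lit 327) (nat_lit 247) (nat_lit 146)) (XT.lf (nat_lit 0) (nat_lit 9088347090) (nat_lit 152) (nat_lit 21472980530) (nat_lit 76) (nat_lit 83931617040) (nat_lit 3) (nat_lit 5) (nat_lit 5) (nat_lit 5) (nat_lit 4) (nat_lit 4) (nat_lit 328) (nat_lit 247) (nat_lit 145)))) (XT.nd (nat_lit 156) (nat_lit 76) (nat_lit 0) (XT.nd (nat_lit 78) (nat_lit 0) (nat_lit 0) (XT.lf (nat_lit 0) (nat_lit 13767289538) (nat_lit 152) (nat_lit 11894412276) (nat_lit 76) (nat_lit 94236140872) (nat_lit 3) (nat_lit 5) (nat_lit 5) (nat_lit 5) (nat_lit 4) (nat_lit 4) (nat_lit 329) (nat_lit 247)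 (nat_lit 144)) (XT.lf (nat_lit 0) (nat_lit 18676269369) (nat_lit 152) (nat_lit 1843635778) (nat_lit 76) (nat_lit 105053283781) (nat_lit 3) (nat_lit 5) (nat_lit 5) (nat_lit 5) (nat_lit 4) (nat_lit 4) (nat_lit 330) (nat_lit 247) (nat_lit 143))) (XT.nd (nat_lit 78) (nat_lit 0) (nat_lit 0) (XT.lf (nat_lit 0) (nat_lit 8991049103) (nat_lit 76) (nat_lit 14976301001) (nat_lit 152) (nat_lit 107558127241) (nat_lit 2) (nat_lit 5) (nat_lit 3) (nat_lit 5) (nat_lit 4) (nat_lit 4) (nat_lit 331) (nat_lit 247) (nat_lit 142)) (XT.lf (nat_lit 0) (nat_lit 20425178169) (nat_lit 76) (nat_lit 9125385011) (nat_lit 152) (nat_lit 108223445190) (nat_lit 2) (nat_lit 5) (nat_lit 3) (nat_lit 5) (nat_lit 4) (nat_lit 4) (nat_lit 332) (nat_lit 247) (nat_lit 141))))) (XT.nd (nat_lit 312) (nat_lit 0) (nat_lit 0) (XT.nd (nat_lit 156) (nat_lit 0) (nat_lit 0) (XT.nd (nat_lit 78) (nat_lit 0) (nat_lit 0) (XT.lf (nat_lit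 0) (nat_lit 32425016608) (nat_lit 76) (nat_lit 2984449289) (nat_lit 152) (nat_lit 108925680361) (nat_lit 2) (nat_lit 5) (nat_lit 3) (nat_lit 5) (nat_lit 4) (nat_lit 4) (nat_lit 333) (nat_lit 247) (nat_lit 140)) (XT.lf (nat_lit 0) (nat_lit 41612045927) (nat_lit 152) (nat_lit 106259415202) (nat_lit 0) (nat_lit 3350349745) (nat_lit 2) (nat_lit 5) (nat_lit 4) (nat_lit 4) (nat_lit 2) (nat_lit 4) (nat_lit 334) (nat_lit 247) (nat_lit 139))) (XT.nd (nat_lit 78) (nat_lit 0) (nat_lit 0) (XT.lf (nat_lit 0) (nat_lit 48170496273) (nat_lit 152) (nat_lit 100380657735) (nat_lit 0) (nat_lit 9899373782) (nat_lit 2) (nat_lit 5) (nat_lit 4) (nat_lit 4) (nat_lit 2) (nat_lit 4) (nat_lit 335) (nat_lit 247) (nat_lit 138)) (XT.lf (nat_lit 0) (nat_lit 55053836679) (nat_lit 152) (nat_lit 94213264589) (nat_lit 0) (nat_lit 16773736749) (nat_lit 2) (nat_lit 5) (nat_lit 4) (nat_lit 4) (nat_lit 2) (nat_lit 4) (nat_lit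 336) (nat_lit 247) (nat_lit 137)))) (XT.nd (nat_lit 156) (nat_lit 0) (nat_lit 0) (XT.nd (nat_lit 78) (nat_lit 0) (nat_lit 0) (XT.lf (nat_lit 0) (nat_lit 62278456049) (nat_lit 152) (nat_lit 87742551496) (nat_lit 0) (nat_lit 23989806178) (nat_lit 2) (nat_lit 5) (nat_lit 4) (nat_lit 4) (nat_lit 2) (nat_lit 4) (nat_lit 337) (nat_lit 247) (nat_lit 136)) (XT.lf (nat_lit 0) (nat_lit 69861555858) (nat_lit 152) (nat_lit 80953111995) (nat_lit 0) (nat_lit 31564763186) (nat_lit 2) (nat_lit 5) (nat_lit 4) (nat_lit 4) (nat_lit 2) (nat_lit 4) (nat_lit 338) (nat_lit 247) (nat_lit 135))) (XT.nd (nat_lit 78) (nat_lit 0) (nat_lit 0) (XT.lf (nat_lit 0) (nat_lit 77821191105) (nat_lit 152) (nat_lit 73828780754) (nat_lit 0) (nat_lit 39516643385) (nat_lit 2) (nat_lit 5) (nat_lit 4) (nat_lit 4) (nat_lit 2) (nat_lit 4) (nat_lit 339) (nat_lit 247) (nat_lit 134)) (XT.lf (nat_lit 0) (nat_lit 86176313304) (nat_lit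 152) (nat_lit 66352595081) (nat_lit 0) (nat_lit 47864379824) (nat_lit 2) (nat_lit 5) (nat_lit 4) (nat_lit 4) (nat_lit 2) (nat_lit 4) (nat_lit 340) (nat_lit 247) (nat_lit 133)))))) (XT.nd (nat_lit 624) (nat_lit 0) (nat_lit 0) (XT.nd (nat_lit 312) (nat_lit 76) (nat_lit 0) (XT.nd (nat_lit 156) (nat_lit 0) (nat_lit 0) (XT.nd (nat_lit 78) (nat_lit 0) (nat_lit 0) (XT.lf (nat_lit 0) (nat_lit 94946815603) (nat_lit 152) (nat_lit 58506754533) (nat_lit 0) (nat_lit 56627848064) (nat_lit 2) (nat_lit 5) (nat_lit 4) (nat_lit 4) (nat_lit 2) (nat_lit 4) (nat_lit 341) (nat_lit 247) (nat_lit 132)) (XT.lf (nat_lit 0) (nat_lit 104153580148) (nat_lit 152) (nat_lit 50272578536) (nat_lit 0) (nat_lit 65827913508) (nat_lit 2) (nat_lit 5) (nat_lit 4) (nat_lit 4) (nat_lit 2) (nat_lit 4) (nat_lit 342) (nat_lit 247) (nat_lit 131))) (XT.nd (nat_lit 78) (nat_lit 0) (nat_lit 0) (XT.lf (nat_lit 0) (nat_lit 113818527810)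 (nat_lit 152) (nat_lit 41630461912) (nat_lit 0) (nat_lit 75486481072) (nat_lit 2) (nat_lit 5) (nat_lit 4) (nat_lit 4) (nat_lit 2) (nat_lit 4) (nat_lit 343) (nat_lit 247) (nat_lit 130)) (XT.lf (nat_lit 0) (nat_lit 123964670367) (nat_lit 152) (nat_lit 32559828190) (nat_lit 0) (nat_lit 85626547345) (nat_lit 2) (nat_lit 5) (nat_lit 4) (nat_lit 4) (nat_lit 2) (nat_lit 4) (nat_lit 344) (nat_lit 247) (nat_lit 129)))) (XT.nd (nat_lit 156) (nat_lit 76) (nat_lit 0) (XT.nd (nat_lit 78) (nat_lit 0) (nat_lit 0) (XT.lf (nat_lit 0) (nat_lit 134616165303) (nat_lit 152) (nat_lit 23039080624) (nat_lit 0) (nat_lit 96272255344) (nat_lit 2) (nat_lit 5) (nat_lit 4) (nat_lit 4) (nat_lit 2) (nat_lit 4) (nat_lit 345) (nat_lit 247) (nat_lit 128)) (XT.lf (nat_lit 0) (nat_lit 145798373318) (nat_lit 152) (nat_lit 13045550768) (nat_lit 0) (nat_lit 107448951991) (nat_lit 2) (nat_lit 5) (nat_lit 4) (nat_lit 4) (nat_lit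 2) (nat_lit 4) (nat_lit 346) (nat_lit 247) (nat_lit 127))) (XT.nd (nat_lit 78) (nat_lit 76) (nat_lit 0) (XT.lf (nat_lit 0) (nat_lit 157537918719) (nat_lit 152) (nat_lit 2555444503) (nat_lit 0) (nat_lit 119183248470) (nat_lit 2) (nat_lit 5) (nat_lit 4) (nat_lit 4) (nat_lit 2) (nat_lit 4) (nat_lit 347) (nat_lit 247) (nat_lit 126)) (XT.lf (nat_lit 0) (nat_lit 8735815259) (nat_lit 76) (nat_lit 161263328102) (nat_lit 76) (nat_lit 122903658880) (nat_lit 1) (nat_lit 4) (nat_lit 2) (nat_lit 5) (nat_lit 2) (nat_lit 4) (nat_lit 348) (nat_lit 247) (nat_lit 125))))) (XT.nd (nat_lit 312) (nat_lit 0) (nat_lit 0) (XT.nd (nat_lit 156) (nat_lit 0) (nat_lit 0) (XT.nd (nat_lit 78) (nat_lit 0) (nat_lit 0) (XT.lf (nat_lit 0) (nat_lit 20677452431) (nat_lit 76) (nat_lit 162447600963) (nat_lit 76) (nat_lit 124083170813) (nat_lit 1) (nat_lit 4) (nat_lit 2) (nat_lit 5) (nat_lit 2) (nat_lit 4) (nat_lit 349)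 (nat_lit 247) (nat_lit 124)) (XT.lf (nat_lit 0) (nat_lit 33213404948) (nat_lit 76) (nat_lit 163692279191) (nat_lit 76) (nat_lit 125323314825) (nat_lit 1) (nat_lit 4) (nat_lit 2) (nat_lit 5) (nat_lit 2) (nat_lit 4) (nat_lit 350) (nat_lit 247) (nat_lit 123))) (XT.nd (nat_lit 78) (nat_lit 0) (nat_lit 0) (XT.lf (nat_lit 0) (nat_lit 46373520315) (nat_lit 76) (nat_lit 165000326305) (nat_lit 76) (nat_lit 126627043638) (nat_lit 1) (nat_lit 4) (nat_lit 2) (nat_lit 5) (nat_lit 2) (nat_lit 4) (nat_lit 351) (nat_lit 247) (nat_lit 122)) (XT.lf (nat_lit 0) (nat_lit 60189132141) (nat_lit 76) (nat_lit 166374856703) (nat_lit 76) (nat_lit 127997461368) (nat_lit 1) (nat_lit 4) (nat_lit 2) (nat_lit 5) (nat_lit 2) (nat_lit 4) (nat_lit 352) (nat_lit 247) (nat_lit 121)))) (XT.nd (nat_lit 156) (nat_lit 0) (nat_lit 0) (XT.nd (nat_lit 78) (nat_lit 0) (nat_lit 0) (XT.lf (nat_lit 0) (nat_lit 74693134738) (nat_lit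 76) (nat_lit 167819143078) (nat_lit 76) (nat_lit 129437830916) (nat_lit 1) (nat_lit 4) (nat_lit 2) (nat_lit 5) (nat_lit 2) (nat_lit 4) (nat_lit 353) (nat_lit 247) (nat_lit 120)) (XT.lf (nat_lit 0) (nat_lit 89920061446) (nat_lit 76) (nat_lit 169336624205) (nat_lit 76) (nat_lit 130951581733) (nat_lit 1) (nat_lit 4) (nat_lit 2) (nat_lit 5) (nat_lit 2) (nat_lit 4) (nat_lit 354) (nat_lit 247) (nat_lit 119))) (XT.nd (nat_lit 78) (nat_lit 0) (nat_lit 0) (XT.lf (nat_lit 0) (nat_lit 105906166854) (nat_lit 76) (nat_lit 170930913135) (nat_lit 76) (nat_lit 132542317986) (nat_lit 1) (nat_lit 4) (nat_lit 2) (nat_lit 5) (nat_lit 2) (nat_lit 4) (nat_lit 355) (nat_lit 247) (nat_lit 118)) (XT.nd (nat_lit 78) (nat_lit 0) (nat_lit 0) (XT.lf (nat_lit 0) (nat_lit 122689513116) (nat_lit 76) (nat_lit 172605805795) (nat_lit 76) (nat_lit 134213827144) (nat_lit 1) (nat_lit 4) (nat_lit 2) (nat_lit 5) (nat_lit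 2) (nat_lit 4) (nat_lit 356) (nat_lit 247) (nat_lit 117)) (XT.lf (nat_lit 0) (nat_lit 140310060580) (nat_lit 76) (nat_lit 174365290024) (nat_lit 76) (nat_lit 135970088989) (nat_lit 1) (nat_lit 4) (nat_lit 2) (nat_lit 5) (nat_lit 2) (nat_lit 4) (nat_lit 357) (nat_lit 247) (nat_lit 116))))))))
noncomputable def xc137 : XT := (XT.nd (nat_lit 1326) (nat_lit 1900) (nat_lit 0) (XT.nd (nat_lit 624) (nat_lit 1824) (nat_lit 0) (XT.nd (nat_lit 312) (nat_lit 380) (nat_lit 0) (XT.nd (nat_lit 156) (nat_lit 0) (nat_lit 76) (XT.nd (nat_lit 78) (nat_lit 532) (nat_lit 0) (XT.lf (nat_lit 0) (nat_lit 1611060014) (nat_lit 0) (nat_lit 1611060014) (nat_lit 380) (nat_lit 388120399) (nat_lit 87) (nat_lit 5) (nat_lit 87) (nat_lit 3) (nat_lit 92) (nat_lit 3) (nat_lit 248) (nat_lit 248) (nat_lit 224)) (XT.lf (nat_lit 0) (nat_lit 649591399) (nat_lit 532) (nat_lit 1022095612) (nat_lit 532) (nat_lit 5649982125)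 (nat_lit 80) (nat_lit 3) (nat_lit 87) (nat_lit 3) (nat_lit 87) (nat_lit 5) (nat_lit 249) (nat_lit 248) (nat_lit 223))) (XT.nd (nat_lit 78) (nat_lit 0) (nat_lit 0) (XT.lf (nat_lit 0) (nat_lit 2063420226) (nat_lit 456) (nat_lit 5321702867) (nat_lit 532) (nat_lit 45591195) (nat_lit 81) (nat_lit 5) (nat_lit 87) (nat_lit 5) (nat_lit 88) (nat_lit 5) (nat_lit 250) (nat_lit 248) (nat_lit 222)) (XT.lf (nat_lit 0) (nat_lit 3506271463) (nat_lit 456) (nat_lit 2192638347) (nat_lit 532) (nat_lit 1848931349) (nat_lit 81) (nat_lit 5) (nat_lit 87) (nat_lit 5) (nat_lit 88) (nat_lit 5) (nat_lit 251) (nat_lit 248) (nat_lit 221)))) (XT.nd (nat_lit 156) (nat_lit 456) (nat_lit 0) (XT.nd (nat_lit 78) (nat_lit 0) (nat_lit 0) (XT.lf (nat_lit 76) (nat_lit 1077103608) (nat_lit 0) (nat_lit 3878438081) (nat_lit 532) (nat_lit 2719088872) (nat_lit 82) (nat_lit 5) (nat_lit 81) (nat_lit 5) (nat_lit 88) (nat_lit 5)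 (nat_lit 252) (nat_lit 248) (nat_lit 220)) (XT.lf (nat_lit 76) (nat_lit 4537016764) (nat_lit 0) (nat_lit 1898010475) (nat_lit 532) (nat_lit 1375339852) (nat_lit 82) (nat_lit 5) (nat_lit 81) (nat_lit 5) (nat_lit 88) (nat_lit 5) (nat_lit 253) (nat_lit 248) (nat_lit 219))) (XT.nd (nat_lit 78) (nat_lit 532) (nat_lit 0) (XT.lf (nat_lit 76) (nat_lit 167790660) (nat_lit 0) (nat_lit 7750992569) (nat_lit 532) (nat_lit 38064073) (nat_lit 83) (nat_lit 5) (nat_lit 82) (nat_lit 5) (nat_lit 89) (nat_lit 5) (nat_lit 254) (nat_lit 248) (nat_lit 218)) (XT.lf (nat_lit 0) (nat_lit 1335817925) (nat_lit 532) (nat_lit 4320420936) (nat_lit 608) (nat_lit 2453100793) (nat_lit 75) (nat_lit 5) (nat_lit 82) (nat_lit 5) (nat_lit 83) (nat_lit 5) (nat_lit 255) (nat_lit 248) (nat_lit 217))))) (XT.nd (nat_lit 312) (nat_lit 1368) (nat_lit 0) (XT.nd (nat_lit 156) (nat_lit 456) (nat_lit 0) (XT.nd (nat_lit 78) (nat_lit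 0) (nat_lit 0) (XT.lf (nat_lit 0) (nat_lit 2706644248) (nat_lit 532) (nat_lit 730235782) (nat_lit 608) (nat_lit 4836476364) (nat_lit 75) (nat_lit 5) (nat_lit 82) (nat_lit 5) (nat_lit 83) (nat_lit 5) (nat_lit 256) (nat_lit 248) (nat_lit 216)) (XT.lf (nat_lit 76) (nat_lit 3089525267) (nat_lit 0) (nat_lit 1037607934) (nat_lit 608) (nat_lit 4319772743) (nat_lit 76) (nat_lit 5) (nat_lit 75) (nat_lit 5) (nat_lit 83) (nat_lit 5) (nat_lit 257) (nat_lit 248) (nat_lit 215))) (XT.nd (nat_lit 78) (nat_lit 532) (nat_lit 0) (XT.lf (nat_lit 0) (nat_lit 5589939603) (nat_lit 532) (nat_lit 1578116079) (nat_lit 76) (nat_lit 1462882201) (nat_lit 76) (nat_lit 5) (nat_lit 83) (nat_lit 5) (nat_lit 77) (nat_lit 5) (nat_lit 258) (nat_lit 248) (nat_lit 214)) (XT.lf (nat_lit 0) (nat_lit 2400511365) (nat_lit 532) (nat_lit 4718521734) (nat_lit 608) (nat_lit 1705832944) (nat_lit 69) (nat_lit 5) (nat_lit 76) (nat_lit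 5) (nat_lit 77) (nat_lit 5) (nat_lit 259) (nat_lit 248) (nat_lit 213)))) (XT.nd (nat_lit 156) (nat_lit 684) (nat_lit 0) (XT.nd (nat_lit 78) (nat_lit 684) (nat_lit 0) (XT.lf (nat_lit 0) (nat_lit 6584234162) (nat_lit 532) (nat_lit 2107893244) (nat_lit 608) (nat_lit 338321101) (nat_lit 69) (nat_lit 5) (nat_lit 76) (nat_lit 5) (nat_lit 77) (nat_lit 5) (nat_lit 260) (nat_lit 248) (nat_lit 212)) (XT.lf (nat_lit 0) (nat_lit 1042450170) (nat_lit 684) (nat_lit 7537806497) (nat_lit 76) (nat_lit 666500021) (nat_lit 60) (nat_lit 5) (nat_lit 69) (nat_lit 5) (nat_lit 61) (nat_lit 5) (nat_lit 261) (nat_lit 248) (nat_lit 211))) (XT.nd (nat_lit 78) (nat_lit 684) (nat_lit 0) (XT.lf (nat_lit 0) (nat_lit 2502077970) (nat_lit 684) (nat_lit 3406717141) (nat_lit 76) (nat_lit 3564038026) (nat_lit 60) (nat_lit 5) (nat_lit 69) (nat_lit 5) (nat_lit 61) (nat_lit 5) (nat_lit 262) (nat_lit 248) (nat_lit 210)) (XT.nd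 (nat_lit 78) (nat_lit 0) (nat_lit 0) (XT.lf (nat_lit 0) (nat_lit 911601499) (nat_lit 684) (nat_lit 3084485150) (nat_lit 760) (nat_lit 5716332558) (nat_lit 51) (nat_lit 5) (nat_lit 60) (nat_lit 5) (nat_lit 61) (nat_lit 5) (nat_lit 263) (nat_lit 248) (nat_lit 209)) (XT.lf (nat_lit 0) (nat_lit 5516389768) (nat_lit 684) (nat_lit 55038057) (nat_lit 760) (nat_lit 4392487792) (nat_lit 51) (nat_lit 5) (nat_lit 60) (nat_lit 5) (nat_lit 61) (nat_lit 5) (nat_lit 264) (nat_lit 248) (nat_lit 208))))))) (XT.nd (nat_lit 624) (nat_lit 684) (nat_lit 0) (XT.nd (nat_lit 312) (nat_lit 532) (nat_lit 0) (XT.nd (nat_lit 156) (nat_lit 380) (nat_lit 0) (XT.nd (nat_lit 78) (nat_lit 0) (nat_lit 0) (XT.lf (nat_lit 0) (nat_lit 27322491) (nat_lit 304) (nat_lit 7198862818) (nat_lit 380) (nat_lit 3002019208) (nat_lit 47) (nat_lit 5) (nat_lit 51) (nat_lit 5) (nat_lit 52) (nat_lit 5) (nat_lit 265) (nat_lit 248) (nat_lit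 207)) (XT.lf (nat_lit 0) (nat_lit 4831987454) (nat_lit 304) (nat_lit 4160894140) (nat_lit 380) (nat_lit 1511604447) (nat_lit 47) (nat_lit 5) (nat_lit 51) (nat_lit 5) (nat_lit 52) (nat_lit 5) (nat_lit 266) (nat_lit 248) (nat_lit 206))) (XT.nd (nat_lit 78) (nat_lit 304) (nat_lit 0) (XT.lf (nat_lit 0) (nat_lit 5901263) (nat_lit 380) (nat_lit 965401029) (nat_lit 76) (nat_lit 9825739932) (nat_lit 46) (nat_lit 5) (nat_lit 51) (nat_lit 5) (nat_lit 47) (nat_lit 5) (nat_lit 267) (nat_lit 248) (nat_lit 205)) (XT.lf (nat_lit 0) (nat_lit 1606509156) (nat_lit 380) (nat_lit 7103930416) (nat_lit 76) (nat_lit 2389852074) (nat_lit 42) (nat_lit 5) (nat_lit 47) (nat_lit 5) (nat_lit 43) (nat_lit 5) (nat_lit 268) (nat_lit 248) (nat_lit 204)))) (XT.nd (nat_lit 156) (nat_lit 304) (nat_lit 0) (XT.nd (nat_lit 78) (nat_lit 228) (nat_lit 0) (XT.lf (nat_lit 0) (nat_lit 3277502767) (nat_lit 380) (nat_lit 2240545661)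 (nat_lit 76) (nat_lit 5901333333) (nat_lit 42) (nat_lit 5) (nat_lit 47) (nat_lit 5) (nat_lit 43) (nat_lit 5) (nat_lit 269) (nat_lit 248) (nat_lit 203)) (XT.lf (nat_lit 0) (nat_lit 2915319886) (nat_lit 228) (nat_lit 2122066081) (nat_lit 304) (nat_lit 6716960071) (nat_lit 39) (nat_lit 5) (nat_lit 42) (nat_lit 5) (nat_lit 43) (nat_lit 5) (nat_lit 270) (nat_lit 248) (nat_lit 202))) (XT.nd (nat_lit 78) (nat_lit 304) (nat_lit 0) (XT.lf (nat_lit 0) (nat_lit 6907363577) (nat_lit 304) (nat_lit 3765902477) (nat_lit 76) (nat_lit 1431865229) (nat_lit 39) (nat_lit 5) (nat_lit 43) (nat_lit 5) (nat_lit 40) (nat_lit 5) (nat_lit 271) (nat_lit 248) (nat_lit 201)) (XT.lf (nat_lit 0) (nat_lit 1531936086) (nat_lit 304) (nat_lit 7360460274) (nat_lit 380) (nat_lit 3580150915) (nat_lit 35) (nat_lit 5) (nat_lit 39) (nat_lit 5) (nat_lit 40) (nat_lit 5) (nat_lit 272) (nat_lit 248) (nat_lit 200))))) (XT.nd (nat_lit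 312) (nat_lit 380) (nat_lit 0) (XT.nd (nat_lit 156) (nat_lit 304) (nat_lit 0) (XT.nd (nat_lit 78) (nat_lit 0) (nat_lit 0) (XT.lf (nat_lit 0) (nat_lit 7182921888) (nat_lit 304) (nat_lit 3821492446) (nat_lit 380) (nat_lit 1852694293) (nat_lit 35) (nat_lit 5) (nat_lit 39) (nat_lit 5) (nat_lit 40) (nat_lit 5) (nat_lit 273) (nat_lit 248) (nat_lit 199)) (XT.lf (nat_lit 0) (nat_lit 13075991913) (nat_lit 304) (nat_lit 111713837) (nat_lit 380) (nat_lit 75062229) (nat_lit 35) (nat_lit 5) (nat_lit 39) (nat_lit 5) (nat_lit 40) (nat_lit 5) (nat_lit 274) (nat_lit 248) (nat_lit 198))) (XT.nd (nat_lit 78) (nat_lit 0) (nat_lit 0) (XT.lf (nat_lit 0) (nat_lit 1850456647) (nat_lit 304) (nat_lit 8056215313) (nat_lit 76) (nat_lit 3774962002) (nat_lit 31) (nat_lit 5) (nat_lit 35) (nat_lit 5) (nat_lit 32) (nat_lit 5) (nat_lit 275) (nat_lit 248) (nat_lit 197)) (XT.lf (nat_lit 0) (nat_lit 3842277581) (nat_lit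 304) (nat_lit 2430477419) (nat_lit 76) (nat_lit 7850131934) (nat_lit 31) (nat_lit 5) (nat_lit 35) (nat_lit 5) (nat_lit 32) (nat_lit 5) (nat_lit 276) (nat_lit 248) (nat_lit 196)))) (XT.nd (nat_lit 156) (nat_lit 152) (nat_lit 0) (XT.nd (nat_lit 78) (nat_lit 0) (nat_lit 0) (XT.lf (nat_lit 0) (nat_lit 3551369444) (nat_lit 228) (nat_lit 2406816779) (nat_lit 304) (nat_lit 8626917833) (nat_lit 28) (nat_lit 5) (nat_lit 31) (nat_lit 5) (nat_lit 32) (nat_lit 5) (nat_lit 277) (nat_lit 248) (nat_lit 195)) (XT.lf (nat_lit 0) (nat_lit 8217325079) (nat_lit 304) (nat_lit 5217872510) (nat_lit 76) (nat_lit 1633483026) (nat_lit 28) (nat_lit 5) (nat_lit 32) (nat_lit 5) (nat_lit 29) (nat_lit 5) (nat_lit 278) (nat_lit 248) (nat_lit 194))) (XT.nd (nat_lit 78) (nat_lit 0) (nat_lit 0) (XT.lf (nat_lit 0) (nat_lit 838335589) (nat_lit 152) (nat_lit 9774867984) (nat_lit 228) (nat_lit 4962157880) (nat_lit 26) (nat_lit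 5) (nat_lit 28) (nat_lit 5) (nat_lit 29) (nat_lit 5) (nat_lit 279) (nat_lit 248) (nat_lit 193)) (XT.nd (nat_lit 78) (nat_lit 0) (nat_lit 0) (XT.lf (nat_lit 0) (nat_lit 7341293825) (nat_lit 152) (nat_lit 5847975903) (nat_lit 228) (nat_lit 2915196052) (nat_lit 26) (nat_lit 5) (nat_lit 28) (nat_lit 5) (nat_lit 29) (nat_lit 5) (nat_lit 280) (nat_lit 248) (nat_lit 192)) (XT.lf (nat_lit 0) (nat_lit 14133959001) (nat_lit 152) (nat_lit 1733538799) (nat_lit 228) (nat_lit 793963528) (nat_lit 26) (nat_lit 5) (nat_lit 28) (nat_lit 5) (nat_lit 29) (nat_lit 5) (nat_lit 281) (nat_lit 248) (nat_lit 191))))))))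
noncomputable def xc138 : XT := (XT.nd (nat_lit 1326) (nat_lit 532) (nat_lit 0) (XT.nd (nat_lit 624) (nat_lit 456) (nat_lit 0) (XT.nd (nat_lit 312) (nat_lit 152) (nat_lit 0) (XT.nd (nat_lit 156) (nat_lit 152) (nat_lit 0) (XT.nd (nat_lit 78) (nat_lit 0) (nat_lit 0) (XT.lf (nat_lit 0) (nat_lit 1467149197) (nat_lit 304) (nat_lit 13191142378) (nat_lit 76) (nat_lit 2583005731) (nat_lit 22) (nat_lit 5) (nat_lit 26) (nat_lit 5) (nat_lit 23) (nat_lit 5) (nat_lit 282) (nat_lit 248) (nat_lit 190)) (XT.lf (nat_lit 0) (nat_lit 3861235164) (nat_lit 304) (nat_lit 6881029682) (nat_lit 76) (nat_lit 7104969232) (nat_lit 22) (nat_lit 5) (nat_lit 26) (nat_lit 5) (nat_lit 23) (nat_lit 5) (nat_lit 283) (nat_lit 248) (nat_lit 189))) (XT.nd (nat_lit 78) (nat_lit 152) (nat_lit 0) (XT.lf (nat_lit 0) (nat_lit 6350906504) (nat_lit 304) (nat_lit 289080749) (nat_lit 76) (nat_lit 11844771888) (nat_lit 22) (nat_lit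 5) (nat_lit 26) (nat_lit 5) (nat_lit 23) (nat_lit 5) (nat_lit 284) (nat_lit 248) (nat_lit 188)) (XT.lf (nat_lit 0) (nat_lit 6818638552) (nat_lit 152) (nat_lit 2229910511) (nat_lit 228) (nat_lit 10101518449) (nat_lit 20) (nat_lit 5) (nat_lit 22) (nat_lit 5) (nat_lit 23) (nat_lit 5) (nat_lit 285) (nat_lit 248) (nat_lit 187)))) (XT.nd (nat_lit 156) (nat_lit 0) (nat_lit 0) (XT.nd (nat_lit 78) (nat_lit 152) (nat_lit 0) (XT.lf (nat_lit 0) (nat_lit 11901018455) (nat_lit 228) (nat_lit 5626779504) (nat_lit 76) (nat_lit 2319923667) (nat_lit 20) (nat_lit 5) (nat_lit 23) (nat_lit 5) (nat_lit 21) (nat_lit 5) (nat_lit 286) (nat_lit 248) (nat_lit 186)) (XT.lf (nat_lit 0) (nat_lit 1389985600) (nat_lit 152) (nat_lit 13542942754) (nat_lit 228) (nat_lit 5645563103) (nat_lit 18) (nat_lit 5) (nat_lit 20) (nat_lit 5) (nat_lit 21) (nat_lit 5) (nat_lit 287) (nat_lit 248) (nat_lit 185))) (XT.nd (nat_lit 78)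 (nat_lit 0) (nat_lit 0) (XT.lf (nat_lit 0) (nat_lit 8922389695) (nat_lit 152) (nat_lit 9268439872) (nat_lit 228) (nat_lit 3151320769) (nat_lit 18) (nat_lit 5) (nat_lit 20) (nat_lit 5) (nat_lit 21) (nat_lit 5) (nat_lit 288) (nat_lit 248) (nat_lit 184)) (XT.lf (nat_lit 0) (nat_lit 16802320336) (nat_lit 152) (nat_lit 4789404160) (nat_lit 228) (nat_lit 553329730) (nat_lit 18) (nat_lit 5) (nat_lit 20) (nat_lit 5) (nat_lit 21) (nat_lit 5) (nat_lit 289) (nat_lit 248) (nat_lit 183))))) (XT.nd (nat_lit 312) (nat_lit 76) (nat_lit 0) (XT.nd (nat_lit 156) (nat_lit 152) (nat_lit 0) (XT.nd (nat_lit 78) (nat_lit 0) (nat_lit 0) (XT.lf (nat_lit 0) (nat_lit 2092766788) (nat_lit 152) (nat_lit 25542353) (nat_lit 228) (nat_lit 20867489997) (nat_lit 15) (nat_lit 5) (nat_lit 17) (nat_lit 5) (nat_lit 18) (nat_lit 5) (nat_lit 290) (nat_lit 248) (nat_lit 182)) (XT.lf (nat_lit 0) (nat_lit 5055612427) (nat_lit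 228) (nat_lit 13895586267) (nat_lit 76) (nat_lit 4909453030) (nat_lit 15) (nat_lit 5) (nat_lit 18) (nat_lit 5) (nat_lit 16) (nat_lit 5) (nat_lit 291) (nat_lit 248) (nat_lit 181))) (XT.nd (nat_lit 78) (nat_lit 152) (nat_lit 0) (XT.lf (nat_lit 0) (nat_lit 8122119202) (nat_lit 228) (nat_lit 6576122438) (nat_lit 76) (nat_lit 10081943501) (nat_lit 15) (nat_lit 5) (nat_lit 18) (nat_lit 5) (nat_lit 16) (nat_lit 5) (nat_lit 292) (nat_lit 248) (nat_lit 180)) (XT.lf (nat_lit 0) (nat_lit 1119000212) (nat_lit 152) (nat_lit 10223202402) (nat_lit 228) (nat_lit 14403532546) (nat_lit 13) (nat_lit 5) (nat_lit 15) (nat_lit 5) (nat_lit 16) (nat_lit 5) (nat_lit 293) (nat_lit 248) (nat_lit 179)))) (XT.nd (nat_lit 156) (nat_lit 76) (nat_lit 0) (XT.nd (nat_lit 78) (nat_lit 0) (nat_lit 0) (XT.lf (nat_lit 0) (nat_lit 9401479195) (nat_lit 152) (nat_lit 5416379987) (nat_lit 228) (nat_lit 11937025043) (nat_lit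 13) (nat_lit 5) (nat_lit 15) (nat_lit 5) (nat_lit 16) (nat_lit 5) (nat_lit 294) (nat_lit 248) (nat_lit 178)) (XT.lf (nat_lit 0) (nat_lit 18073598391) (nat_lit 152) (nat_lit 377699396) (nat_lit 228) (nat_lit 9364040609) (nat_lit 13) (nat_lit 5) (nat_lit 15) (nat_lit 5) (nat_lit 16) (nat_lit 5) (nat_lit 295) (nat_lit 248) (nat_lit 177))) (XT.nd (nat_lit 78) (nat_lit 76) (nat_lit 0) (XT.lf (nat_lit 0) (nat_lit 22327747714) (nat_lit 228) (nat_lit 1850195102) (nat_lit 76) (nat_lit 4747850838) (nat_lit 13) (nat_lit 5) (nat_lit 16) (nat_lit 5) (nat_lit 14) (nat_lit 4) (nat_lit 296) (nat_lit 248) (nat_lit 176)) (XT.nd (nat_lit 78) (nat_lit 0) (nat_lit 0) (XT.lf (nat_lit 0) (nat_lit 6618719422) (nat_lit 76) (nat_lit 19874195948) (nat_lit 152) (nat_lit 3594154730) (nat_lit 12) (nat_lit 5) (nat_lit 13) (nat_lit 5) (nat_lit 14) (nat_lit 4) (nat_lit 297) (nat_lit 248) (nat_lit 175)) (XT.lf (nat_lit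 0) (nat_lit 15552826729) (nat_lit 76) (nat_lit 15330561043) (nat_lit 152) (nat_lit 422211409) (nat_lit 12) (nat_lit 5) (nat_lit 13) (nat_lit 5) (nat_lit 14) (nat_lit 4) (nat_lit 298) (nat_lit 248) (nat_lit 174))))))) (XT.nd (nat_lit 624) (nat_lit 228) (nat_lit 0) (XT.nd (nat_lit 312) (nat_lit 76) (nat_lit 0) (XT.nd (nat_lit 156) (nat_lit 0) (nat_lit 0) (XT.nd (nat_lit 78) (nat_lit 152) (nat_lit 0) (XT.lf (nat_lit 0) (nat_lit 2801376169) (nat_lit 152) (nat_lit 7718735039) (nat_lit 76) (nat_lit 22063403866) (nat_lit 11) (nat_lit 5) (nat_lit 13) (nat_lit 5) (nat_lit 12) (nat_lit 5) (nat_lit 299) (nat_lit 248) (nat_lit 173)) (XT.lf (nat_lit 0) (nat_lit 712002158) (nat_lit 152) (nat_lit 5457860423) (nat_lit 228) (nat_lit 27755258211) (nat_lit 9) (nat_lit 5) (nat_lit 11) (nat_lit 5) (nat_lit 12) (nat_lit 5) (nat_lit 300) (nat_lit 248) (nat_lit 172))) (XT.nd (nat_lit 78) (nat_lit 0) (nat_lit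 0) (XT.lf (nat_lit 0) (nat_lit 9811720765) (nat_lit 152) (nat_lit 12873615) (nat_lit 228) (nat_lit 25503355203) (nat_lit 9) (nat_lit 5) (nat_lit 11) (nat_lit 5) (nat_lit 12) (nat_lit 5) (nat_lit 301) (nat_lit 248) (nat_lit 171)) (XT.lf (nat_lit 0) (nat_lit 13738725166) (nat_lit 228) (nat_lit 17543643348) (nat_lit 76) (nat_lit 5514750404) (nat_lit 9) (nat_lit 5) (nat_lit 12) (nat_lit 5) (nat_lit 10) (nat_lit 4) (nat_lit 302) (nat_lit 248) (nat_lit 170)))) (XT.nd (nat_lit 156) (nat_lit 76) (nat_lit 0) (XT.nd (nat_lit 78) (nat_lit 0) (nat_lit 0) (XT.lf (nat_lit 0) (nat_lit 17836965260) (nat_lit 228) (nat_lit 9191770842) (nat_lit 76) (nat_lit 11311621173) (nat_lit 9) (nat_lit 5) (nat_lit 12) (nat_lit 5) (nat_lit 10) (nat_lit 4) (nat_lit 303) (nat_lit 248) (nat_lit 169)) (XT.lf (nat_lit 0) (nat_lit 22128871384) (nat_lit 228) (nat_lit 440524895) (nat_lit 76) (nat_lit 17391952801) (nat_lit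 9) (nat_lit 5) (nat_lit 12) (nat_lit 5) (nat_lit 10) (nat_lit 4) (nat_lit 304) (nat_lit 248) (nat_lit 168))) (XT.nd (nat_lit 78) (nat_lit 0) (nat_lit 0) (XT.lf (nat_lit 0) (nat_lit 9019614795) (nat_lit 76) (nat_lit 17745869030) (nat_lit 152) (nat_lit 14891428937) (nat_lit 8) (nat_lit 5) (nat_lit 9) (nat_lit 5) (nat_lit 10) (nat_lit 4) (nat_lit 305) (nat_lit 248) (nat_lit 167)) (XT.lf (nat_lit 0) (nat_lit 18950982823) (nat_lit 76) (nat_lit 12679937585) (nat_lit 152) (nat_lit 11806511059) (nat_lit 8) (nat_lit 5) (nat_lit 9) (nat_lit 5) (nat_lit 10) (nat_lit 4) (nat_lit 306) (nat_lit 248) (nat_lit 166))))) (XT.nd (nat_lit 312) (nat_lit 76) (nat_lit 0) (XT.nd (nat_lit 156) (nat_lit 152) (nat_lit 0) (XT.nd (nat_lit 78) (nat_lit 0) (nat_lit 0) (XT.lf (nat_lit 0) (nat_lit 29362659560) (nat_lit 76) (nat_lit 7367000705) (nat_lit 152) (nat_lit 8577839520) (nat_lit 8) (nat_lit 5) (nat_lit 9)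 (nat_lit 5) (nat_lit 10) (nat_lit 4) (nat_lit 307) (nat_lit 248) (nat_lit 165)) (XT.lf (nat_lit 0) (nat_lit 40279434713) (nat_lit 76) (nat_lit 1794408539) (nat_lit 152) (nat_lit 5197727009) (nat_lit 8) (nat_lit 5) (nat_lit 9) (nat_lit 5) (nat_lit 10) (nat_lit 4) (nat_lit 308) (nat_lit 248) (nat_lit 164))) (XT.nd (nat_lit 78) (nat_lit 76) (nat_lit 0) (XT.lf (nat_lit 0) (nat_lit 2406763686) (nat_lit 76) (nat_lit 45370255388) (nat_lit 76) (nat_lit 1552258905) (nat_lit 7) (nat_lit 4) (nat_lit 8) (nat_lit 5) (nat_lit 8) (nat_lit 4) (nat_lit 309) (nat_lit 248) (nat_lit 163)) (XT.lf (nat_lit 0) (nat_lit 2343329897) (nat_lit 152) (nat_lit 39047687065) (nat_lit 76) (nat_lit 10090064714) (nat_lit 6) (nat_lit 5) (nat_lit 8) (nat_lit 5) (nat_lit 7) (nat_lit 4) (nat_lit 310) (nat_lit 248) (nat_lit 162)))) (XT.nd (nat_lit 156) (nat_lit 76) (nat_lit 0) (XT.nd (nat_lit 78) (nat_lit 0) (nat_lit 0)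 (XT.lf (nat_lit 0) (nat_lit 6372869189) (nat_lit 152) (nat_lit 30819052347) (nat_lit 76) (nat_lit 16547734607) (nat_lit 6) (nat_lit 5) (nat_lit 8) (nat_lit 5) (nat_lit 7) (nat_lit 4) (nat_lit 311) (nat_lit 248) (nat_lit 161)) (XT.lf (nat_lit 0) (nat_lit 10595635091) (nat_lit 152) (nat_lit 22192783041) (nat_lit 76) (nat_lit 23323172563) (nat_lit 6) (nat_lit 5) (nat_lit 8) (nat_lit 5) (nat_lit 7) (nat_lit 4) (nat_lit 312) (nat_lit 248) (nat_lit 160))) (XT.nd (nat_lit 78) (nat_lit 76) (nat_lit 0) (XT.lf (nat_lit 0) (nat_lit 15021681806) (nat_lit 152) (nat_lit 13148340411) (nat_lit 76) (nat_lit 30432510576) (nat_lit 6) (nat_lit 5) (nat_lit 8) (nat_lit 5) (nat_lit 7) (nat_lit 4) (nat_lit 313) (nat_lit 248) (nat_lit 159)) (XT.nd (nat_lit 78) (nat_lit 76) (nat_lit 0) (XT.lf (nat_lit 0) (nat_lit 19661547541) (nat_lit 152) (nat_lit 3664190068) (nat_lit 76) (nat_lit 37892675643) (nat_lit 6)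 (nat_lit 5) (nat_lit 8) (nat_lit 5) (nat_lit 7) (nat_lit 4) (nat_lit 314) (nat_lit 248) (nat_lit 158)) (XT.lf (nat_lit 0) (nat_lit 6489968830) (nat_lit 76) (nat_lit 18137637367) (nat_lit 152) (nat_lit 39332787833) (nat_lit 5) (nat_lit 5) (nat_lit 6) (nat_lit 5) (nat_lit 7) (nat_lit 4) (nat_lit 315) (nat_lit 248) (nat_lit 157))))))))
noncomputable def xc139 : XT := (XT.nd (nat_lit 1326) (nat_lit 76) (nat_lit 0) (XT.nd (nat_lit 624) (nat_lit 152) (nat_lit 0) (XT.nd (nat_lit 312) (nat_lit 76) (nat_lit 0) (XT.nd (nat_lit 156) (nat_lit 0) (nat_lit 0) (XT.nd (nat_lit 78) (nat_lit 0) (nat_lit 0) (XT.lf (nat_lit 0) (nat_lit 17267321817) (nat_lit 76) (nat_lit 12629730133) (nat_lit 152) (nat_lit 36939683189) (nat_lit 5) (nat_lit 5) (nat_lit 6) (nat_lit 5) (nat_lit 7) (nat_lit 4) (nat_lit 316) (nat_lit 248) (nat_lit 156)) (XT.lf (nat_lit 0) (nat_lit 28572374587) (nat_lit 76) (nat_lit 6850956673)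 (nat_lit 152) (nat_lit 34433908745) (nat_lit 5) (nat_lit 5) (nat_lit 6) (nat_lit 5) (nat_lit 7) (nat_lit 4) (nat_lit 317) (nat_lit 248) (nat_lit 155))) (XT.nd (nat_lit 78) (nat_lit 0) (nat_lit 0) (XT.lf (nat_lit 0) (nat_lit 40432043930) (nat_lit 76) (nat_lit 787558004) (nat_lit 152) (nat_lit 31809498370) (nat_lit 5) (nat_lit 5) (nat_lit 6) (nat_lit 5) (nat_lit 7) (nat_lit 4) (nat_lit 318) (nat_lit 248) (nat_lit 154)) (XT.lf (nat_lit 0) (nat_lit 47386704471) (nat_lit 152) (nat_lit 23572340783) (nat_lit 0) (nat_lit 5396470840) (nat_lit 5) (nat_lit 5) (nat_lit 7) (nat_lit 4) (nat_lit 5) (nat_lit 4) (nat_lit 319) (nat_lit 248) (nat_lit 153)))) (XT.nd (nat_lit 156) (nat_lit 76) (nat_lit 0) (XT.nd (nat_lit 78) (nat_lit 0) (nat_lit 0) (XT.lf (nat_lit 0) (nat_lit 53869277051) (nat_lit 152) (nat_lit 14119185831) (nat_lit 0) (nat_lit 11859446798) (nat_lit 5) (nat_lit 5) (nat_lit 7) (nat_lit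 4) (nat_lit 5) (nat_lit 4) (nat_lit 320) (nat_lit 248) (nat_lit 152)) (XT.lf (nat_lit 0) (nat_lit 60670458383) (nat_lit 152) (nat_lit 4202788019) (nat_lit 0) (nat_lit 18641964682) (nat_lit 5) (nat_lit 5) (nat_lit 7) (nat_lit 4) (nat_lit 5) (nat_lit 4) (nat_lit 321) (nat_lit 248) (nat_lit 151))) (XT.nd (nat_lit 78) (nat_lit 0) (nat_lit 0) (XT.lf (nat_lit 0) (nat_lit 6405478435) (nat_lit 76) (nat_lit 61500970793) (nat_lit 76) (nat_lit 19454702378) (nat_lit 4) (nat_lit 4) (nat_lit 5) (nat_lit 5) (nat_lit 5) (nat_lit 4) (nat_lit 322) (nat_lit 248) (nat_lit 150)) (XT.lf (nat_lit 0) (nat_lit 17681247584) (nat_lit 76) (nat_lit 57889023854) (nat_lit 76) (nat_lit 15825827140) (nat_lit 4) (nat_lit 4) (nat_lit 5) (nat_lit 5) (nat_lit 5) (nat_lit 4) (nat_lit 323) (nat_lit 248) (nat_lit 149))))) (XT.nd (nat_lit 312) (nat_lit 76) (nat_lit 0) (XT.nd (nat_lit 156) (nat_lit 76) (nat_lit 0) (XT.nd (nat_lit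 78) (nat_lit 0) (nat_lit 0) (XT.lf (nat_lit 0) (nat_lit 29512403345) (nat_lit 76) (nat_lit 54099981961) (nat_lit 76) (nat_lit 12020663058) (nat_lit 4) (nat_lit 4) (nat_lit 5) (nat_lit 5) (nat_lit 5) (nat_lit 4) (nat_lit 324) (nat_lit 248) (nat_lit 148)) (XT.lf (nat_lit 0) (nat_lit 41927115137) (nat_lit 76) (nat_lit 50124823585) (nat_lit 76) (nat_lit 8030150217) (nat_lit 4) (nat_lit 4) (nat_lit 5) (nat_lit 5) (nat_lit 5) (nat_lit 4) (nat_lit 325) (nat_lit 248) (nat_lit 147))) (XT.nd (nat_lit 78) (nat_lit 76) (nat_lit 0) (XT.lf (nat_lit 0) (nat_lit 54954941796) (nat_lit 76) (nat_lit 45954084065) (nat_lit 76) (nat_lit 3844787396) (nat_lit 4) (nat_lit 4) (nat_lit 5) (nat_lit 5) (nat_lit 5) (nat_lit 4) (nat_lit 326) (nat_lit 248) (nat_lit 146)) (XT.lf (nat_lit 0) (nat_lit 527934649) (nat_lit 152) (nat_lit 41040957589) (nat_lit 76) (nat_lit 68090026480) (nat_lit 3) (nat_lit 5) (nat_lit 5)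 (nat_lit 5) (nat_lit 4) (nat_lit 4) (nat_lit 327) (nat_lit 248) (nat_lit 145)))) (XT.nd (nat_lit 156) (nat_lit 76) (nat_lit 0) (XT.nd (nat_lit 78) (nat_lit 0) (nat_lit 0) (XT.lf (nat_lit 0) (nat_lit 4985977504) (nat_lit 152) (nat_lit 31915233502) (nat_lit 76) (nat_lit 77905130463) (nat_lit 3) (nat_lit 5) (nat_lit 5) (nat_lit 5) (nat_lit 4) (nat_lit 4) (nat_lit 328) (nat_lit 248) (nat_lit 144)) (XT.lf (nat_lit 0) (nat_lit 9663012762) (nat_lit 152) (nat_lit 22339943380) (nat_lit 76) (nat_lit 88208382532) (nat_lit 3) (nat_lit 5) (nat_lit 5) (nat_lit 5) (nat_lit 4) (nat_lit 4) (nat_lit 329) (nat_lit 248) (nat_lit 143))) (XT.nd (nat_lit 78) (nat_lit 76) (nat_lit 0) (XT.lf (nat_lit 0) (nat_lit 14570176222) (nat_lit 152) (nat_lit 12292288912) (nat_lit 76) (nat_lit 99024314239) (nat_lit 3) (nat_lit 5) (nat_lit 5) (nat_lit 5) (nat_lit 4) (nat_lit 4) (nat_lit 330) (nat_lit 248) (nat_lit 142))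 (XT.nd (nat_lit 78) (nat_lit 76) (nat_lit 0) (XT.lf (nat_lit 0) (nat_lit 19719151607) (nat_lit 152) (nat_lit 1748347113) (nat_lit 76) (nat_lit 110378677802) (nat_lit 3) (nat_lit 5) (nat_lit 5) (nat_lit 5) (nat_lit 4) (nat_lit 4) (nat_lit 331) (nat_lit 248) (nat_lit 141)) (XT.lf (nat_lit 0) (nat_lit 9625048296) (nat_lit 76) (nat_lit 15647424062) (nat_lit 152) (nat_lit 112823733102) (nat_lit 2) (nat_lit 5) (nat_lit 3) (nat_lit 5) (nat_lit 4) (nat_lit 4) (nat_lit 332) (nat_lit 248) (nat_lit 140))))))) (XT.nd (nat_lit 624) (nat_lit 76) (nat_lit 0) (XT.nd (nat_lit 312) (nat_lit 0) (nat_lit 0) (XT.nd (nat_lit 156) (nat_lit 0) (nat_lit 0) (XT.nd (nat_lit 78) (nat_lit 0) (nat_lit 0) (XT.lf (nat_lit 0) (nat_lit 21622100637) (nat_lit 76) (nat_lit 9507661891) (nat_lit 152) (nat_lit 113527664591) (nat_lit 2) (nat_lit 5) (nat_lit 3) (nat_lit 5) (nat_lit 4) (nat_lit 4) (nat_lit 333) (nat_lit 248)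 (nat_lit 139)) (XT.lf (nat_lit 0) (nat_lit 34213566067) (nat_lit 76) (nat_lit 3063202829) (nat_lit 152) (nat_lit 114270104514) (nat_lit 2) (nat_lit 5) (nat_lit 3) (nat_lit 5) (nat_lit 4) (nat_lit 4) (nat_lit 334) (nat_lit 248) (nat_lit 138))) (XT.nd (nat_lit 78) (nat_lit 0) (nat_lit 0) (XT.lf (nat_lit 0) (nat_lit 43785914815) (nat_lit 152) (nat_lit 111409311132) (nat_lit 0) (nat_lit 3582832451) (nat_lit 2) (nat_lit 5) (nat_lit 4) (nat_lit 4) (nat_lit 2) (nat_lit 4) (nat_lit 335) (nat_lit 248) (nat_lit 137)) (XT.lf (nat_lit 0) (nat_lit 50667846412) (nat_lit 152) (nat_lit 105244381259) (nat_lit 0) (nat_lit 10456214107) (nat_lit 2) (nat_lit 5) (nat_lit 4) (nat_lit 4) (nat_lit 2) (nat_lit 4) (nat_lit 336) (nat_lit 248) (nat_lit 136)))) (XT.nd (nat_lit 156) (nat_lit 0) (nat_lit 0) (XT.nd (nat_lit 78) (nat_lit 0) (nat_lit 0) (XT.lf (nat_lit 0) (nat_lit 57891124061) (nat_lit 152) (nat_lit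 98776014140) (nat_lit 0) (nat_lit 17671348955) (nat_lit 2) (nat_lit 5) (nat_lit 4) (nat_lit 4) (nat_lit 2) (nat_lit 4) (nat_lit 337) (nat_lit 248) (nat_lit 135)) (XT.lf (nat_lit 0) (nat_lit 65472946040) (nat_lit 152) (nat_lit 91988808901) (nat_lit 0) (nat_lit 25245415885) (nat_lit 2) (nat_lit 5) (nat_lit 4) (nat_lit 4) (nat_lit 2) (nat_lit 4) (nat_lit 338) (nat_lit 248) (nat_lit 134))) (XT.nd (nat_lit 78) (nat_lit 0) (nat_lit 0) (XT.lf (nat_lit 0) (nat_lit 73431364306) (nat_lit 152) (nat_lit 84866605528) (nat_lit 0) (nat_lit 33196448391) (nat_lit 2) (nat_lit 5) (nat_lit 4) (nat_lit 4) (nat_lit 2) (nat_lit 4) (nat_lit 339) (nat_lit 248) (nat_lit 133)) (XT.lf (nat_lit 0) (nat_lit 81785327476) (nat_lit 152) (nat_lit 77392446395) (nat_lit 0) (nat_lit 41543377503) (nat_lit 2) (nat_lit 5) (nat_lit 4) (nat_lit 4) (nat_lit 2) (nat_lit 4) (nat_lit 340) (nat_lit 248) (nat_lit 132))))) (XT.nd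 (nat_lit 312) (nat_lit 76) (nat_lit 0) (XT.nd (nat_lit 156) (nat_lit 0) (nat_lit 0) (XT.nd (nat_lit 78) (nat_lit 0) (nat_lit 0) (XT.lf (nat_lit 0) (nat_lit 90554725936) (nat_lit 152) (nat_lit 69548535886) (nat_lit 0) (nat_lit 50306076861) (nat_lit 2) (nat_lit 5) (nat_lit 4) (nat_lit 4) (nat_lit 2) (nat_lit 4) (nat_lit 341) (nat_lit 248) (nat_lit 131)) (XT.lf (nat_lit 0) (nat_lit 99760439208) (nat_lit 152) (nat_lit 61316198022) (nat_lit 0) (nat_lit 59505410035) (nat_lit 2) (nat_lit 5) (nat_lit 4) (nat_lit 4) (nat_lit 2) (nat_lit 4) (nat_lit 342) (nat_lit 248) (nat_lit 130))) (XT.nd (nat_lit 78) (nat_lit 0) (nat_lit 0) (XT.lf (nat_lit 0) (nat_lit 109424385656) (nat_lit 152) (nat_lit 52675831999) (nat_lit 0) (nat_lit 69163280200) (nat_lit 2) (nat_lit 5) (nat_lit 4) (nat_lit 4) (nat_lit 2) (nat_lit 4) (nat_lit 343) (nat_lit 248) (nat_lit 129)) (XT.lf (nat_lit 0) (nat_lit 119569574677)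 (nat_lit 152) (nat_lit 43606865517) (nat_lit 0) (nat_lit 79302682284) (nat_lit 2) (nat_lit 5) (nat_lit 4) (nat_lit 4) (nat_lit 2) (nat_lit 4) (nat_lit 344) (nat_lit 248) (nat_lit 128)))) (XT.nd (nat_lit 156) (nat_lit 76) (nat_lit 0) (XT.nd (nat_lit 78) (nat_lit 0) (nat_lit 0) (XT.lf (nat_lit 0) (nat_lit 130220161482) (nat_lit 152) (nat_lit 34087705799) (nat_lit 0) (nat_lit 89947757721) (nat_lit 2) (nat_lit 5) (nat_lit 4) (nat_lit 4) (nat_lit 2) (nat_lit 4) (nat_lit 345) (nat_lit 248) (nat_lit 127)) (XT.lf (nat_lit 0) (nat_lit 141401504612) (nat_lit 152) (nat_lit 24095688179) (nat_lit 0) (nat_lit 101123851929) (nat_lit 2) (nat_lit 5) (nat_lit 4) (nat_lit 4) (nat_lit 2) (nat_lit 4) (nat_lit 346) (nat_lit 248) (nat_lit 126))) (XT.nd (nat_lit 78) (nat_lit 76) (nat_lit 0) (XT.lf (nat_lit 0) (nat_lit 153140226312) (nat_lit 152) (nat_lit 13607022139) (nat_lit 0) (nat_lit 112857574655) (nat_lit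 2) (nat_lit 5) (nat_lit 4) (nat_lit 4) (nat_lit 2) (nat_lit 4) (nat_lit 347) (nat_lit 248) (nat_lit 125)) (XT.nd (nat_lit 78) (nat_lit 76) (nat_lit 0) (XT.lf (nat_lit 0) (nat_lit 165464275920) (nat_lit 152) (nat_lit 2596734664) (nat_lit 0) (nat_lit 125176863335) (nat_lit 2) (nat_lit 5) (nat_lit 4) (nat_lit 4) (nat_lit 2) (nat_lit 4) (nat_lit 348) (nat_lit 248) (nat_lit 124)) (XT.lf (nat_lit 0) (nat_lit 9257693214) (nat_lit 76) (nat_lit 169289841731) (nat_lit 76) (nat_lit 128997894931) (nat_lit 1) (nat_lit 4) (nat_lit 2) (nat_lit 5) (nat_lit 2) (nat_lit 4) (nat_lit 349) (nat_lit 248) (nat_lit 123))))))))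
noncomputable def xc140 : XT := (XT.nd (nat_lit 30264) (nat_lit 0) (nat_lit 2584) (XT.nd (nat_lit 29640) (nat_lit 0) (nat_lit 5548) (XT.nd (nat_lit 312) (nat_lit 0) (nat_lit 0) (XT.nd (nat_lit 156) (nat_lit 0) (nat_lit 0) (XT.nd (nat_lit 78) (nat_lit 0) (nat_lit 0) (XT.lf (nat_lit 0) (nat_lit 21792360474) (nat_lit 76) (nat_lit 170535073605) (nat_lit 76) (nat_lit 130238808504) (nat_lit 1) (nat_lit 4) (nat_lit 2) (nat_lit 5) (nat_lit 2) (nat_lit 4) (nat_lit 350) (nat_lit 248) (nat_lit 122)) (XT.lf (nat_lit 0) (nat_lit 34951251788) (nat_lit 76) (nat_lit 171843648002) (nat_lit 76) (nat_lit 131543270232) (nat_lit 1) (nat_lit 4) (nat_lit 2) (nat_lit 5) (nat_lit 2) (nat_lit 4) (nat_lit 351) (nat_lit 248) (nat_lit 121))) (XT.nd (nat_lit 78) (nat_lit 0) (nat_lit 0) (XT.lf (nat_lit 0) (nat_lit 48765697847) (nat_lit 76) (nat_lit 173218680574) (nat_lit 76) (nat_lit 132914385978) (nat_lit 1) (nat_lit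 4) (nat_lit 2) (nat_lit 5) (nat_lit 2) (nat_lit 4) (nat_lit 352) (nat_lit 248) (nat_lit 120)) (XT.lf (nat_lit 0) (nat_lit 63268590191) (nat_lit 76) (nat_lit 174663445209) (nat_lit 76) (nat_lit 134355420302) (nat_lit 1) (nat_lit 4) (nat_lit 2) (nat_lit 5) (nat_lit 2) (nat_lit 4) (nat_lit 353) (nat_lit 248) (nat_lit 119)))) (XT.nd (nat_lit 156) (nat_lit 0) (nat_lit 0) (XT.nd (nat_lit 78) (nat_lit 0) (nat_lit 0) (XT.lf (nat_lit 0) (nat_lit 78494459516) (nat_lit 76) (nat_lit 176181381822) (nat_lit 76) (nat_lit 135869804238) (nat_lit 1) (nat_lit 4) (nat_lit 2) (nat_lit 5) (nat_lit 2) (nat_lit 4) (nat_lit 354) (nat_lit 248) (nat_lit 118)) (XT.lf (nat_lit 0) (nat_lit 94479557892) (nat_lit 76) (nat_lit 177776104549) (nat_lit 76) (nat_lit 137461143463) (nat_lit 1) (nat_lit 4) (nat_lit 2) (nat_lit 5) (nat_lit 2) (nat_lit 4) (nat_lit 355) (nat_lit 248) (nat_lit 117))) (XT.nd (nat_lit 78) (nat_lit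 0) (nat_lit 0) (XT.lf (nat_lit 0) (nat_lit 111261945075) (nat_lit 76) (nat_lit 179451410348) (nat_lit 76) (nat_lit 139133226879) (nat_lit 1) (nat_lit 4) (nat_lit 2) (nat_lit 5) (nat_lit 2) (nat_lit 4) (nat_lit 356) (nat_lit 248) (nat_lit 116)) (XT.lf (nat_lit 0) (nat_lit 128881579132) (nat_lit 76) (nat_lit 181211288043) (nat_lit 76) (nat_lit 140890035638) (nat_lit 1) (nat_lit 4) (nat_lit 2) (nat_lit 5) (nat_lit 2) (nat_lit 4) (nat_lit 357) (nat_lit 248) (nat_lit 115))))) (XT.nd (nat_lit 312) (nat_lit 456) (nat_lit 0) (XT.nd (nat_lit 156) (nat_lit 0) (nat_lit 0) (XT.nd (nat_lit 78) (nat_lit 0) (nat_lit 0) (XT.lf (nat_lit 0) (nat_lit 1003122894) (nat_lit 532) (nat_lit 1354625497) (nat_lit 532) (nat_lit 1354625497) (nat_lit 80) (nat_lit 3) (nat_lit 87) (nat_lit 3) (nat_lit 87) (nat_lit 5) (nat_lit 249) (nat_lit 249) (nat_lit 222)) (XT.lf (nat_lit 76) (nat_lit 343806038) (nat_lit 0) (nat_lit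 3005739228) (nat_lit 532) (nat_lit 4188040478) (nat_lit 81) (nat_lit 5) (nat_lit 80) (nat_lit 3) (nat_lit 87) (nat_lit 5) (nat_lit 250) (nat_lit 249) (nat_lit 221))) (XT.nd (nat_lit 78) (nat_lit 0) (nat_lit 76) (XT.lf (nat_lit 76) (nat_lit 3598597739) (nat_lit 0) (nat_lit 1124158514) (nat_lit 532) (nat_lit 2935692037) (nat_lit 81) (nat_lit 5) (nat_lit 80) (nat_lit 3) (nat_lit 87) (nat_lit 5) (nat_lit 251) (nat_lit 249) (nat_lit 220)) (XT.lf (nat_lit 0) (nat_lit 6099312418) (nat_lit 456) (nat_lit 830376242) (nat_lit 532) (nat_lit 859426319) (nat_lit 81) (nat_lit 5) (nat_lit 87) (nat_lit 5) (nat_lit 88) (nat_lit 5) (nat_lit 252) (nat_lit 249) (nat_lit 219)))) (XT.nd (nat_lit 156) (nat_lit 0) (nat_lit 0) (XT.nd (nat_lit 78) (nat_lit 532) (nat_lit 0) (XT.lf (nat_lit 76) (nat_lit 2579112585) (nat_lit 0) (nat_lit 4949413435) (nat_lit 532) (nat_lit 399069167) (nat_lit 82) (nat_lit 5) (nat_lit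 81) (nat_lit 5) (nat_lit 88) (nat_lit 5) (nat_lit 253) (nat_lit 249) (nat_lit 218)) (XT.lf (nat_lit 0) (nat_lit 866273248) (nat_lit 532) (nat_lit 1947255993) (nat_lit 608) (nat_lit 5262117688) (nat_lit 74) (nat_lit 5) (nat_lit 81) (nat_lit 5) (nat_lit 82) (nat_lit 5) (nat_lit 254) (nat_lit 249) (nat_lit 217))) (XT.nd (nat_lit 78) (nat_lit 0) (nat_lit 76) (XT.lf (nat_lit 76) (nat_lit 1624035921) (nat_lit 0) (nat_lit 512680217) (nat_lit 608) (nat_lit 6096703222) (nat_lit 75) (nat_lit 5) (nat_lit 74) (nat_lit 5) (nat_lit 82) (nat_lit 5) (nat_lit 255) (nat_lit 249) (nat_lit 216)) (XT.lf (nat_lit 0) (nat_lit 3466799144) (nat_lit 532) (nat_lit 3035007309) (nat_lit 608) (nat_lit 1897856101) (nat_lit 75) (nat_lit 5) (nat_lit 82) (nat_lit 5) (nat_lit 83) (nat_lit 5) (nat_lit 256) (nat_lit 249) (nat_lit 215)))))) (XT.nd (nat_lit 624) (nat_lit 1216) (nat_lit 0) (XT.nd (nat_lit 312) (nat_lit 1292)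 (nat_lit 0) (XT.nd (nat_lit 156) (nat_lit 532) (nat_lit 0) (XT.nd (nat_lit 78) (nat_lit 0) (nat_lit 0) (XT.lf (nat_lit 76) (nat_lit 685118276) (nat_lit 0) (nat_lit 4133450345) (nat_lit 608) (nat_lit 3758259730) (nat_lit 76) (nat_lit 5) (nat_lit 75) (nat_lit 5) (nat_lit 83) (nat_lit 5) (nat_lit 257) (nat_lit 249) (nat_lit 214)) (XT.lf (nat_lit 76) (nat_lit 4650875803) (nat_lit 0) (nat_lit 1576860781) (nat_lit 608) (nat_lit 2535977318) (nat_lit 76) (nat_lit 5) (nat_lit 75) (nat_lit 5) (nat_lit 83) (nat_lit 5) (nat_lit 258) (nat_lit 249) (nat_lit 213))) (XT.nd (nat_lit 78) (nat_lit 608) (nat_lit 0) (XT.lf (nat_lit 0) (nat_lit 7666234176) (nat_lit 532) (nat_lit 209382966) (nat_lit 76) (nat_lit 1086718228) (nat_lit 76) (nat_lit 5) (nat_lit 83) (nat_lit 5) (nat_lit 77) (nat_lit 5) (nat_lit 259) (nat_lit 249) (nat_lit 212)) (XT.lf (nat_lit 0) (nat_lit 37597471) (nat_lit 608) (nat_lit 5225396675)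 (nat_lit 76) (nat_lit 3906592632) (nat_lit 68) (nat_lit 5) (nat_lit 76) (nat_lit 5) (nat_lit 69) (nat_lit 5) (nat_lit 260) (nat_lit 249) (nat_lit 211)))) (XT.nd (nat_lit 156) (nat_lit 684) (nat_lit 0) (XT.nd (nat_lit 78) (nat_lit 608) (nat_lit 0) (XT.lf (nat_lit 0) (nat_lit 1343175403) (nat_lit 608) (nat_lit 1141825232) (nat_lit 76) (nat_lit 6903989714) (nat_lit 68) (nat_lit 5) (nat_lit 76) (nat_lit 5) (nat_lit 69) (nat_lit 5) (nat_lit 261) (nat_lit 249) (nat_lit 210)) (XT.lf (nat_lit 0) (nat_lit 2719514657) (nat_lit 684) (nat_lit 6422960790) (nat_lit 76) (nat_lit 476890302) (nat_lit 60) (nat_lit 5) (nat_lit 69) (nat_lit 5) (nat_lit 61) (nat_lit 5) (nat_lit 262) (nat_lit 249) (nat_lit 209))) (XT.nd (nat_lit 78) (nat_lit 684) (nat_lit 0) (XT.lf (nat_lit 0) (nat_lit 4174745657) (nat_lit 684) (nat_lit 2156352016) (nat_lit 76) (nat_lit 3529921146) (nat_lit 60) (nat_lit 5) (nat_lit 69)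 (nat_lit 5) (nat_lit 61) (nat_lit 5) (nat_lit 263) (nat_lit 249) (nat_lit 208)) (XT.lf (nat_lit 0) (nat_lit 2354968025) (nat_lit 684) (nat_lit 3336616595) (nat_lit 760) (nat_lit 4423977736) (nat_lit 51) (nat_lit 5) (nat_lit 60) (nat_lit 5) (nat_lit 61) (nat_lit 5) (nat_lit 264) (nat_lit 249) (nat_lit 207))))) (XT.nd (nat_lit 312) (nat_lit 532) (nat_lit 0) (XT.nd (nat_lit 156) (nat_lit 380) (nat_lit 0) (XT.nd (nat_lit 78) (nat_lit 304) (nat_lit 0) (XT.lf (nat_lit 0) (nat_lit 7123434448) (nat_lit 684) (nat_lit 151034901) (nat_lit 760) (nat_lit 3109091753) (nat_lit 51) (nat_lit 5) (nat_lit 60) (nat_lit 5) (nat_lit 61) (nat_lit 5) (nat_lit 265) (nat_lit 249) (nat_lit 206)) (XT.lf (nat_lit 0) (nat_lit 1417158123) (nat_lit 304) (nat_lit 7547266084) (nat_lit 380) (nat_lit 1699366161) (nat_lit 47) (nat_lit 5) (nat_lit 51) (nat_lit 5) (nat_lit 52) (nat_lit 5) (nat_lit 266) (nat_lit 249) (nat_lit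 205))) (XT.nd (nat_lit 78) (nat_lit 380) (nat_lit 0) (XT.lf (nat_lit 0) (nat_lit 6395938738) (nat_lit 304) (nat_lit 4357948489) (nat_lit 380) (nat_lit 203609424) (nat_lit 47) (nat_lit 5) (nat_lit 51) (nat_lit 5) (nat_lit 52) (nat_lit 5) (nat_lit 267) (nat_lit 249) (nat_lit 204)) (XT.lf (nat_lit 0) (nat_lit 303631907) (nat_lit 304) (nat_lit 982821341) (nat_lit 380) (nat_lit 9980400474) (nat_lit 42) (nat_lit 5) (nat_lit 46) (nat_lit 5) (nat_lit 47) (nat_lit 5) (nat_lit 268) (nat_lit 249) (nat_lit 203)))) (XT.nd (nat_lit 156) (nat_lit 532) (nat_lit 0) (XT.nd (nat_lit 78) (nat_lit 0) (nat_lit 0) (XT.lf (nat_lit 0) (nat_lit 2922504018) (nat_lit 380) (nat_lit 6105954361) (nat_lit 76) (nat_lit 2559323649) (nat_lit 42) (nat_lit 5) (nat_lit 47) (nat_lit 5) (nat_lit 43) (nat_lit 5) (nat_lit 269) (nat_lit 249) (nat_lit 202)) (XT.lf (nat_lit 0) (nat_lit 4618205909) (nat_lit 380) (nat_lit 1063837157)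 (nat_lit 76) (nat_lit 6243999020) (nat_lit 42) (nat_lit 5) (nat_lit 47) (nat_lit 5) (nat_lit 43) (nat_lit 5) (nat_lit 270) (nat_lit 249) (nat_lit 201))) (XT.nd (nat_lit 78) (nat_lit 304) (nat_lit 0) (XT.lf (nat_lit 0) (nat_lit 4329035606) (nat_lit 228) (nat_lit 2100804483) (nat_lit 304) (nat_lit 5849986998) (nat_lit 39) (nat_lit 5) (nat_lit 42) (nat_lit 5) (nat_lit 43) (nat_lit 5) (nat_lit 271) (nat_lit 249) (nat_lit 200)) (XT.nd (nat_lit 78) (nat_lit 304) (nat_lit 0) (XT.lf (nat_lit 0) (nat_lit 8340896848) (nat_lit 304) (nat_lit 2689247643) (nat_lit 76) (nat_lit 1620876043) (nat_lit 39) (nat_lit 5) (nat_lit 43) (nat_lit 5) (nat_lit 40) (nat_lit 5) (nat_lit 272) (nat_lit 249) (nat_lit 199)) (XT.lf (nat_lit 0) (nat_lit 2853080429) (nat_lit 304) (nat_lit 7539714329) (nat_lit 380) (nat_lit 2645868037) (nat_lit 35) (nat_lit 5) (nat_lit 39) (nat_lit 5) (nat_lit 40) (nat_lit 5) (nat_lit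 273) (nat_lit 249) (nat_lit 198))))))))
noncomputable def xc141 : XT := (XT.nd (nat_lit 1326) (nat_lit 684) (nat_lit 0) (XT.nd (nat_lit 624) (nat_lit 684) (nat_lit 0) (XT.nd (nat_lit 312) (nat_lit 380) (nat_lit 0) (XT.nd (nat_lit 156) (nat_lit 0) (nat_lit 0) (XT.nd (nat_lit 78) (nat_lit 304) (nat_lit 0) (XT.lf (nat_lit 0) (nat_lit 8727351353) (nat_lit 304) (nat_lit 3832787108) (nat_lit 380) (nat_lit 885052413) (nat_lit 35) (nat_lit 5) (nat_lit 39) (nat_lit 5) (nat_lit 40) (nat_lit 5) (nat_lit 274) (nat_lit 249) (nat_lit 197)) (XT.lf (nat_lit 0) (nat_lit 918162571) (nat_lit 304) (nat_lit 12871128177) (nat_lit 76) (nat_lit 82874559) (nat_lit 31) (nat_lit 5) (nat_lit 35) (nat_lit 5) (nat_lit 32) (nat_lit 5) (nat_lit 275) (nat_lit 249) (nat_lit 196))) (XT.nd (nat_lit 78) (nat_lit 0) (nat_lit 0) (XT.lf (nat_lit 0) (nat_lit 2894885862) (nat_lit 304) (nat_lit 7264338540) (nat_lit 76) (nat_lit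 4155010387) (nat_lit 31) (nat_lit 5) (nat_lit 35) (nat_lit 5) (nat_lit 32) (nat_lit 5) (nat_lit 276) (nat_lit 249) (nat_lit 195)) (XT.lf (nat_lit 0) (nat_lit 4940968968) (nat_lit 304) (nat_lit 1414203634) (nat_lit 76) (nat_lit 8424829278) (nat_lit 31) (nat_lit 5) (nat_lit 35) (nat_lit 5) (nat_lit 32) (nat_lit 5) (nat_lit 277) (nat_lit 249) (nat_lit 194)))) (XT.nd (nat_lit 156) (nat_lit 152) (nat_lit 0) (XT.nd (nat_lit 78) (nat_lit 0) (nat_lit 0) (XT.lf (nat_lit 0) (nat_lit 4848383997) (nat_lit 228) (nat_lit 2288596377) (nat_lit 304) (nat_lit 8129810332) (nat_lit 28) (nat_lit 5) (nat_lit 31) (nat_lit 5) (nat_lit 32) (nat_lit 5) (nat_lit 278) (nat_lit 249) (nat_lit 193)) (XT.lf (nat_lit 0) (nat_lit 9470676523) (nat_lit 304) (nat_lit 4370870874) (nat_lit 76) (nat_lit 1935086501) (nat_lit 28) (nat_lit 5) (nat_lit 32) (nat_lit 5) (nat_lit 29) (nat_lit 5) (nat_lit 279) (nat_lit 249) (nat_lit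 192))) (XT.nd (nat_lit 78) (nat_lit 0) (nat_lit 0) (XT.lf (nat_lit 0) (nat_lit 1970278351) (nat_lit 152) (nat_lit 9992970609) (nat_lit 228) (nat_lit 4346714652) (nat_lit 26) (nat_lit 5) (nat_lit 28) (nat_lit 5) (nat_lit 29) (nat_lit 5) (nat_lit 280) (nat_lit 249) (nat_lit 191)) (XT.lf (nat_lit 0) (nat_lit 8746478500) (nat_lit 152) (nat_lit 5882621580) (nat_lit 228) (nat_lit 2238526214) (nat_lit 26) (nat_lit 5) (nat_lit 28) (nat_lit 5) (nat_lit 29) (nat_lit 5) (nat_lit 281) (nat_lit 249) (nat_lit 190))))) (XT.nd (nat_lit 312) (nat_lit 228) (nat_lit 0) (XT.nd (nat_lit 156) (nat_lit 152) (nat_lit 0) (XT.nd (nat_lit 78) (nat_lit 304) (nat_lit 0) (XT.lf (nat_lit 0) (nat_lit 15829342650) (nat_lit 152) (nat_lit 1574736579) (nat_lit 228) (nat_lit 50395380) (nat_lit 26) (nat_lit 5) (nat_lit 28) (nat_lit 5) (nat_lit 29) (nat_lit 5) (nat_lit 282) (nat_lit 249) (nat_lit 189)) (XT.lf (nat_lit 0)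 (nat_lit 2282310665) (nat_lit 304) (nat_lit 12815160197) (nat_lit 76) (nat_lit 2966171215) (nat_lit 22) (nat_lit 5) (nat_lit 26) (nat_lit 5) (nat_lit 23) (nat_lit 5) (nat_lit 283) (nat_lit 249) (nat_lit 188))) (XT.nd (nat_lit 78) (nat_lit 152) (nat_lit 0) (XT.lf (nat_lit 0) (nat_lit 4760776930) (nat_lit 304) (nat_lit 6238853261) (nat_lit 76) (nat_lit 7702136928) (nat_lit 22) (nat_lit 5) (nat_lit 26) (nat_lit 5) (nat_lit 23) (nat_lit 5) (nat_lit 284) (nat_lit 249) (nat_lit 187)) (XT.lf (nat_lit 0) (nat_lit 656749984) (nat_lit 152) (nat_lit 6694793655) (nat_lit 228) (nat_lit 12020913477) (nat_lit 20) (nat_lit 5) (nat_lit 22) (nat_lit 5) (nat_lit 23) (nat_lit 5) (nat_lit 285) (nat_lit 249) (nat_lit 186)))) (XT.nd (nat_lit 156) (nat_lit 228) (nat_lit 0) (XT.nd (nat_lit 78) (nat_lit 0) (nat_lit 0) (XT.lf (nat_lit 0) (nat_lit 8083685721) (nat_lit 152) (nat_lit 2072517017) (nat_lit 228) (nat_lit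 9916335037) (nat_lit 20) (nat_lit 5) (nat_lit 22) (nat_lit 5) (nat_lit 23) (nat_lit 5) (nat_lit 286) (nat_lit 249) (nat_lit 185)) (XT.lf (nat_lit 0) (nat_lit 13124092552) (nat_lit 228) (nat_lit 4998642057) (nat_lit 76) (nat_lit 2683808318) (nat_lit 20) (nat_lit 5) (nat_lit 23) (nat_lit 5) (nat_lit 21) (nat_lit 5) (nat_lit 287) (nat_lit 249) (nat_lit 184))) (XT.nd (nat_lit 78) (nat_lit 76) (nat_lit 0) (XT.lf (nat_lit 0) (nat_lit 2354292327) (nat_lit 152) (nat_lit 13937370205) (nat_lit 228) (nat_lit 5283088518) (nat_lit 18) (nat_lit 5) (nat_lit 20) (nat_lit 5) (nat_lit 21) (nat_lit 5) (nat_lit 288) (nat_lit 249) (nat_lit 183)) (XT.nd (nat_lit 78) (nat_lit 76) (nat_lit 0) (XT.lf (nat_lit 0) (nat_lit 10220706749) (nat_lit 152) (nat_lit 9462605021) (nat_lit 228) (nat_lit 2694836579) (nat_lit 18) (nat_lit 5) (nat_lit 20) (nat_lit 5) (nat_lit 21) (nat_lit 5) (nat_lit 289) (nat_lit 249) (nat_lit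 182)) (XT.lf (nat_lit 0) (nat_lit 3691467) (nat_lit 228) (nat_lit 4768685293) (nat_lit 76) (nat_lit 18450299100) (nat_lit 17) (nat_lit 5) (nat_lit 20) (nat_lit 5) (nat_lit 18) (nat_lit 5) (nat_lit 290) (nat_lit 249) (nat_lit 181))))))) (XT.nd (nat_lit 624) (nat_lit 304) (nat_lit 0) (XT.nd (nat_lit 312) (nat_lit 76) (nat_lit 0) (XT.nd (nat_lit 156) (nat_lit 152) (nat_lit 0) (XT.nd (nat_lit 78) (nat_lit 0) (nat_lit 0) (XT.lf (nat_lit 0) (nat_lit 2779888488) (nat_lit 228) (nat_lit 21093446113) (nat_lit 76) (nat_lit 232276047) (nat_lit 15) (nat_lit 5) (nat_lit 18) (nat_lit 5) (nat_lit 16) (nat_lit 5) (nat_lit 291) (nat_lit 249) (nat_lit 180)) (XT.lf (nat_lit 0) (nat_lit 5837995540) (nat_lit 228) (nat_lit 13786728315) (nat_lit 76) (nat_lit 5400865802) (nat_lit 15) (nat_lit 5) (nat_lit 18) (nat_lit 5) (nat_lit 16) (nat_lit 5) (nat_lit 292) (nat_lit 249) (nat_lit 179))) (XT.nd (nat_lit 78)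 (nat_lit 152) (nat_lit 0) (XT.lf (nat_lit 0) (nat_lit 9032608488) (nat_lit 228) (nat_lit 6139559737) (nat_lit 76) (nat_lit 10820269363) (nat_lit 15) (nat_lit 5) (nat_lit 18) (nat_lit 5) (nat_lit 16) (nat_lit 5) (nat_lit 293) (nat_lit 249) (nat_lit 178)) (XT.lf (nat_lit 0) (nat_lit 1927974388) (nat_lit 152) (nat_lit 10473460246) (nat_lit 228) (nat_lit 14605516765) (nat_lit 13) (nat_lit 5) (nat_lit 15) (nat_lit 5) (nat_lit 16) (nat_lit 5) (nat_lit 294) (nat_lit 249) (nat_lit 177)))) (XT.nd (nat_lit 156) (nat_lit 76) (nat_lit 0) (XT.nd (nat_lit 78) (nat_lit 0) (nat_lit 0) (XT.lf (nat_lit 0) (nat_lit 10588719026) (nat_lit 152) (nat_lit 5438720628) (nat_lit 228) (nat_lit 12040359716) (nat_lit 13) (nat_lit 5) (nat_lit 15) (nat_lit 5) (nat_lit 16) (nat_lit 5) (nat_lit 295) (nat_lit 249) (nat_lit 176)) (XT.lf (nat_lit 0) (nat_lit 19660293426) (nat_lit 152) (nat_lit 159938310) (nat_lit 228)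 (nat_lit 9362226850) (nat_lit 13) (nat_lit 5) (nat_lit 15) (nat_lit 5) (nat_lit 16) (nat_lit 5) (nat_lit 296) (nat_lit 249) (nat_lit 175))) (XT.nd (nat_lit 78) (nat_lit 76) (nat_lit 0) (XT.lf (nat_lit 0) (nat_lit 23872767260) (nat_lit 228) (nat_lit 1273212346) (nat_lit 76) (nat_lit 5203407098) (nat_lit 13) (nat_lit 5) (nat_lit 16) (nat_lit 5) (nat_lit 14) (nat_lit 4) (nat_lit 297) (nat_lit 249) (nat_lit 174)) (XT.lf (nat_lit 0) (nat_lit 7608349637) (nat_lit 76) (nat_lit 20627716670) (nat_lit 152) (nat_lit 3333227254) (nat_lit 12) (nat_lit 5) (nat_lit 13) (nat_lit 5) (nat_lit 14) (nat_lit 4) (nat_lit 298) (nat_lit 249) (nat_lit 173))))) (XT.nd (nat_lit 312) (nat_lit 76) (nat_lit 0) (XT.nd (nat_lit 156) (nat_lit 152) (nat_lit 0) (XT.nd (nat_lit 78) (nat_lit 76) (nat_lit 0) (XT.lf (nat_lit 0) (nat_lit 16957795917) (nat_lit 76) (nat_lit 15868337594) (nat_lit 152) (nat_lit 23669397) (nat_lit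 12) (nat_lit 5) (nat_lit 13) (nat_lit 5) (nat_lit 14) (nat_lit 4) (nat_lit 299) (nat_lit 249) (nat_lit 172)) (XT.lf (nat_lit 0) (nat_lit 3328322196) (nat_lit 152) (nat_lit 7493384048) (nat_lit 76) (nat_lit 23370599985) (nat_lit 11) (nat_lit 5) (nat_lit 13) (nat_lit 5) (nat_lit 12) (nat_lit 5) (nat_lit 300) (nat_lit 249) (nat_lit 171))) (XT.nd (nat_lit 78) (nat_lit 0) (nat_lit 0) (XT.lf (nat_lit 0) (nat_lit 1349030530) (nat_lit 152) (nat_lit 5507169655) (nat_lit 228) (nat_lit 28745293244) (nat_lit 9) (nat_lit 5) (nat_lit 11) (nat_lit 5) (nat_lit 12) (nat_lit 5) (nat_lit 301) (nat_lit 249) (nat_lit 170)) (XT.lf (nat_lit 0) (nat_lit 10678789479) (nat_lit 228) (nat_lit 26203428360) (nat_lit 76) (nat_lit 193036972) (nat_lit 9) (nat_lit 5) (nat_lit 12) (nat_lit 5) (nat_lit 10) (nat_lit 4) (nat_lit 302) (nat_lit 249) (nat_lit 169)))) (XT.nd (nat_lit 156) (nat_lit 76) (nat_lit 0) (XT.nd (nat_lit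 78) (nat_lit 0) (nat_lit 0) (XT.lf (nat_lit 0) (nat_lit 14771543732) (nat_lit 228) (nat_lit 17860443749) (nat_lit 76) (nat_lit 5986794239) (nat_lit 9) (nat_lit 5) (nat_lit 12) (nat_lit 5) (nat_lit 10) (nat_lit 4) (nat_lit 303) (nat_lit 249) (nat_lit 168)) (XT.lf (nat_lit 0) (nat_lit 19058225245) (nat_lit 228) (nat_lit 9117662463) (nat_lit 76) (nat_lit 12064160627) (nat_lit 9) (nat_lit 5) (nat_lit 12) (nat_lit 5) (nat_lit 10) (nat_lit 4) (nat_lit 304) (nat_lit 249) (nat_lit 167))) (XT.nd (nat_lit 78) (nat_lit 0) (nat_lit 0) (XT.lf (nat_lit 0) (nat_lit 47243736) (nat_lit 76) (nat_lit 23502534273) (nat_lit 152) (nat_lit 18393099926) (nat_lit 8) (nat_lit 5) (nat_lit 9) (nat_lit 5) (nat_lit 10) (nat_lit 4) (nat_lit 305) (nat_lit 249) (nat_lit 166)) (XT.nd (nat_lit 78) (nat_lit 0) (nat_lit 0) (XT.lf (nat_lit 0) (nat_lit 9970680207) (nat_lit 76) (nat_lit 18439671675) (nat_lit 152) (nat_lit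 15313300210) (nat_lit 8) (nat_lit 5) (nat_lit 9) (nat_lit 5) (nat_lit 10) (nat_lit 4) (nat_lit 306) (nat_lit 249) (nat_lit 165)) (XT.lf (nat_lit 0) (nat_lit 20374803080) (nat_lit 76) (nat_lit 13129657505) (nat_lit 152) (nat_lit 12089503113) (nat_lit 8) (nat_lit 5) (nat_lit 9) (nat_lit 5) (nat_lit 10) (nat_lit 4) (nat_lit 307) (nat_lit 249) (nat_lit 164))))))))
noncomputable def xc142 : XT := (XT.nd (nat_lit 1326) (nat_lit 152) (nat_lit 0) (XT.nd (nat_lit 624) (nat_lit 152) (nat_lit 0) (XT.nd (nat_lit 312) (nat_lit 0) (nat_lit 0) (XT.nd (nat_lit 156) (nat_lit 152) (nat_lit 0) (XT.nd (nat_lit 78) (nat_lit 0) (nat_lit 0) (XT.lf (nat_lit 0) (nat_lit 31284384077) (nat_lit 76) (nat_lit 7559848874) (nat_lit 152) (nat_lit 8714032926) (nat_lit 8) (nat_lit 5) (nat_lit 9) (nat_lit 5) (nat_lit 10) (nat_lit 4) (nat_lit 308) (nat_lit 249) (nat_lit 163)) (XT.lf (nat_lit 0) (nat_lit 42725398391) (nat_lit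 76) (nat_lit 1716984331) (nat_lit 152) (nat_lit 5178852816) (nat_lit 8) (nat_lit 5) (nat_lit 9) (nat_lit 5) (nat_lit 10) (nat_lit 4) (nat_lit 309) (nat_lit 249) (nat_lit 162))) (XT.nd (nat_lit 78) (nat_lit 76) (nat_lit 0) (XT.lf (nat_lit 0) (nat_lit 2963247523) (nat_lit 76) (nat_lit 47464152822) (nat_lit 76) (nat_lit 1354626094) (nat_lit 7) (nat_lit 4) (nat_lit 8) (nat_lit 5) (nat_lit 8) (nat_lit 4) (nat_lit 310) (nat_lit 249) (nat_lit 161)) (XT.lf (nat_lit 0) (nat_lit 2714245129) (nat_lit 152) (nat_lit 40575725005) (nat_lit 76) (nat_lit 10751898668) (nat_lit 6) (nat_lit 5) (nat_lit 8) (nat_lit 5) (nat_lit 7) (nat_lit 4) (nat_lit 311) (nat_lit 249) (nat_lit 160)))) (XT.nd (nat_lit 156) (nat_lit 0) (nat_lit 0) (XT.nd (nat_lit 78) (nat_lit 0) (nat_lit 0) (XT.lf (nat_lit 0) (nat_lit 6933178112) (nat_lit 152) (nat_lit 31955865523) (nat_lit 76) (nat_lit 17524960116) (nat_lit 6) (nat_lit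 5) (nat_lit 8) (nat_lit 5) (nat_lit 7) (nat_lit 4) (nat_lit 312) (nat_lit 249) (nat_lit 159)) (XT.lf (nat_lit 0) (nat_lit 11355574429) (nat_lit 152) (nat_lit 22917527487) (nat_lit 76) (nat_lit 24632034790) (nat_lit 6) (nat_lit 5) (nat_lit 8) (nat_lit 5) (nat_lit 7) (nat_lit 4) (nat_lit 313) (nat_lit 249) (nat_lit 158))) (XT.nd (nat_lit 78) (nat_lit 0) (nat_lit 0) (XT.lf (nat_lit 0) (nat_lit 15991963595) (nat_lit 152) (nat_lit 13439191045) (nat_lit 76) (nat_lit 32090044294) (nat_lit 6) (nat_lit 5) (nat_lit 8) (nat_lit 5) (nat_lit 7) (nat_lit 4) (nat_lit 314) (nat_lit 249) (nat_lit 157)) (XT.lf (nat_lit 0) (nat_lit 20853384632) (nat_lit 152) (nat_lit 3498288727) (nat_lit 76) (nat_lit 39916745796) (nat_lit 6) (nat_lit 5) (nat_lit 8) (nat_lit 5) (nat_lit 7) (nat_lit 4) (nat_lit 315) (nat_lit 249) (nat_lit 156))))) (XT.nd (nat_lit 312) (nat_lit 76) (nat_lit 0) (XT.nd (nat_lit 156) (nat_lit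 0) (nat_lit 0) (XT.nd (nat_lit 78) (nat_lit 0) (nat_lit 0) (XT.lf (nat_lit 0) (nat_lit 7157947296) (nat_lit 76) (nat_lit 18905220672) (nat_lit 152) (nat_lit 41084582620) (nat_lit 5) (nat_lit 5) (nat_lit 6) (nat_lit 5) (nat_lit 7) (nat_lit 4) (nat_lit 316) (nat_lit 249) (nat_lit 155)) (XT.lf (nat_lit 0) (nat_lit 18457811741) (nat_lit 76) (nat_lit 13128551341) (nat_lit 152) (nat_lit 38582053440) (nat_lit 5) (nat_lit 5) (nat_lit 6) (nat_lit 5) (nat_lit 7) (nat_lit 4) (nat_lit 317) (nat_lit 249) (nat_lit 154))) (XT.nd (nat_lit 78) (nat_lit 0) (nat_lit 0) (XT.lf (nat_lit 0) (nat_lit 30312539824) (nat_lit 76) (nat_lit 7067156603) (nat_lit 152) (nat_lit 35960733793) (nat_lit 5) (nat_lit 5) (nat_lit 6) (nat_lit 5) (nat_lit 7) (nat_lit 4) (nat_lit 318) (nat_lit 249) (nat_lit 153)) (XT.lf (nat_lit 0) (nat_lit 42750357086) (nat_lit 76) (nat_lit 706604568) (nat_lit 152) (nat_lit 33214382441) (nat_lit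 5) (nat_lit 5) (nat_lit 6) (nat_lit 5) (nat_lit 7) (nat_lit 4) (nat_lit 319) (nat_lit 249) (nat_lit 152)))) (XT.nd (nat_lit 156) (nat_lit 76) (nat_lit 0) (XT.nd (nat_lit 78) (nat_lit 0) (nat_lit 0) (XT.lf (nat_lit 0) (nat_lit 49925809534) (nat_lit 152) (nat_lit 24461392608) (nat_lit 0) (nat_lit 5777227699) (nat_lit 5) (nat_lit 5) (nat_lit 7) (nat_lit 4) (nat_lit 5) (nat_lit 4) (nat_lit 320) (nat_lit 249) (nat_lit 151)) (XT.lf (nat_lit 0) (nat_lit 56724426465) (nat_lit 152) (nat_lit 14549368728) (nat_lit 0) (nat_lit 12558069916) (nat_lit 5) (nat_lit 5) (nat_lit 7) (nat_lit 4) (nat_lit 5) (nat_lit 4) (nat_lit 321) (nat_lit 249) (nat_lit 150))) (XT.nd (nat_lit 78) (nat_lit 76) (nat_lit 0) (XT.lf (nat_lit 0) (nat_lit 63857967552) (nat_lit 152) (nat_lit 4150283235) (nat_lit 0) (nat_lit 19674682705) (nat_lit 5) (nat_lit 5) (nat_lit 7) (nat_lit 4) (nat_lit 5) (nat_lit 4) (nat_lit 322) (nat_lit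 249) (nat_lit 149)) (XT.nd (nat_lit 78) (nat_lit 0) (nat_lit 0) (XT.lf (nat_lit 0) (nat_lit 6984160345) (nat_lit 76) (nat_lit 64468299388) (nat_lit 76) (nat_lit 20268892352) (nat_lit 4) (nat_lit 4) (nat_lit 5) (nat_lit 5) (nat_lit 5) (nat_lit 4) (nat_lit 323) (nat_lit 249) (nat_lit 148)) (XT.lf (nat_lit 0) (nat_lit 18811412810) (nat_lit 76) (nat_lit 60680884623) (nat_lit 76) (nat_lit 16466123121) (nat_lit 4) (nat_lit 4) (nat_lit 5) (nat_lit 5) (nat_lit 5) (nat_lit 4) (nat_lit 324) (nat_lit 249) (nat_lit 147))))))) (XT.nd (nat_lit 624) (nat_lit 76) (nat_lit 0) (XT.nd (nat_lit 312) (nat_lit 0) (nat_lit 0) (XT.nd (nat_lit 156) (nat_lit 76) (nat_lit 0) (XT.nd (nat_lit 78) (nat_lit 0) (nat_lit 0) (XT.lf (nat_lit 0) (nat_lit 31222407176) (nat_lit 76) (nat_lit 56707275893) (nat_lit 76) (nat_lit 12477891091) (nat_lit 4) (nat_lit 4) (nat_lit 5) (nat_lit 5) (nat_lit 5) (nat_lit 4) (nat_lit 325)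 (nat_lit 249) (nat_lit 146)) (XT.lf (nat_lit 0) (nat_lit 44246693430) (nat_lit 76) (nat_lit 52538012226) (nat_lit 76) (nat_lit 8294700470) (nat_lit 4) (nat_lit 4) (nat_lit 5) (nat_lit 5) (nat_lit 5) (nat_lit 4) (nat_lit 326) (nat_lit 249) (nat_lit 145))) (XT.nd (nat_lit 78) (nat_lit 76) (nat_lit 0) (XT.lf (nat_lit 0) (nat_lit 57915281778) (nat_lit 76) (nat_lit 48163166803) (nat_lit 76) (nat_lit 3906591283) (nat_lit 4) (nat_lit 4) (nat_lit 5) (nat_lit 5) (nat_lit 5) (nat_lit 4) (nat_lit 327) (nat_lit 249) (nat_lit 144)) (XT.lf (nat_lit 0) (nat_lit 674579699) (nat_lit 152) (nat_lit 42886319292) (nat_lit 76) (nat_lit 71574712443) (nat_lit 3) (nat_lit 5) (nat_lit 5) (nat_lit 5) (nat_lit 4) (nat_lit 4) (nat_lit 328) (nat_lit 249) (nat_lit 143)))) (XT.nd (nat_lit 156) (nat_lit 0) (nat_lit 0) (XT.nd (nat_lit 78) (nat_lit 0) (nat_lit 0) (XT.lf (nat_lit 0) (nat_lit 5349798586) (nat_lit 152)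 (nat_lit 33314151200) (nat_lit 76) (nat_lit 81876753309) (nat_lit 3) (nat_lit 5) (nat_lit 5) (nat_lit 5) (nat_lit 4) (nat_lit 4) (nat_lit 329) (nat_lit 249) (nat_lit 142)) (XT.lf (nat_lit 0) (nat_lit 10255232169) (nat_lit 152) (nat_lit 23269470094) (nat_lit 76) (nat_lit 92691531490) (nat_lit 3) (nat_lit 5) (nat_lit 5) (nat_lit 5) (nat_lit 4) (nat_lit 4) (nat_lit 330) (nat_lit 249) (nat_lit 141))) (XT.nd (nat_lit 78) (nat_lit 0) (nat_lit 0) (XT.lf (nat_lit 0) (nat_lit 15402560051) (nat_lit 152) (nat_lit 12728360067) (nat_lit 76) (nat_lit 104044796457) (nat_lit 3) (nat_lit 5) (nat_lit 5) (nat_lit 5) (nat_lit 4) (nat_lit 4) (nat_lit 331) (nat_lit 249) (nat_lit 140)) (XT.lf (nat_lit 0) (nat_lit 20804037776) (nat_lit 152) (nat_lit 1665723239) (nat_lit 76) (nat_lit 115963579793) (nat_lit 3) (nat_lit 5) (nat_lit 5) (nat_lit 5) (nat_lit 4) (nat_lit 4) (nat_lit 332) (nat_lit 249) (nat_lit 139)))))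 (XT.nd (nat_lit 312) (nat_lit 0) (nat_lit 0) (XT.nd (nat_lit 156) (nat_lit 0) (nat_lit 0) (XT.nd (nat_lit 78) (nat_lit 0) (nat_lit 0) (XT.lf (nat_lit 0) (nat_lit 10273599339) (nat_lit 76) (nat_lit 16359326341) (nat_lit 152) (nat_lit 118363059893) (nat_lit 2) (nat_lit 5) (nat_lit 3) (nat_lit 5) (nat_lit 4) (nat_lit 4) (nat_lit 333) (nat_lit 249) (nat_lit 138)) (XT.lf (nat_lit 0) (nat_lit 22862537696) (nat_lit 76) (nat_lit 9915931724) (nat_lit 152) (nat_lit 119107038426) (nat_lit 2) (nat_lit 5) (nat_lit 3) (nat_lit 5) (nat_lit 4) (nat_lit 4) (nat_lit 334) (nat_lit 249) (nat_lit 137))) (XT.nd (nat_lit 78) (nat_lit 0) (nat_lit 0) (XT.lf (nat_lit 0) (nat_lit 36075989158) (nat_lit 76) (nat_lit 3152445579) (nat_lit 152) (nat_lit 119891219840) (nat_lit 2) (nat_lit 5) (nat_lit 3) (nat_lit 5) (nat_lit 4) (nat_lit 4) (nat_lit 335) (nat_lit 249) (nat_lit 136)) (XT.lf (nat_lit 0) (nat_lit 46059806104)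 (nat_lit 152) (nat_lit 116831863010) (nat_lit 0) (nat_lit 3820899441) (nat_lit 2) (nat_lit 5) (nat_lit 4) (nat_lit 4) (nat_lit 2) (nat_lit 4) (nat_lit 336) (nat_lit 249) (nat_lit 135)))) (XT.nd (nat_lit 156) (nat_lit 0) (nat_lit 0) (XT.nd (nat_lit 78) (nat_lit 0) (nat_lit 0) (XT.lf (nat_lit 0) (nat_lit 53281805922) (nat_lit 152) (nat_lit 110365730152) (nat_lit 0) (nat_lit 11035144211) (nat_lit 2) (nat_lit 5) (nat_lit 4) (nat_lit 4) (nat_lit 2) (nat_lit 4) (nat_lit 337) (nat_lit 249) (nat_lit 134)) (XT.lf (nat_lit 0) (nat_lit 60862410919) (nat_lit 152) (nat_lit 103580652781) (nat_lit 0) (nat_lit 18608363448) (nat_lit 2) (nat_lit 5) (nat_lit 4) (nat_lit 4) (nat_lit 2) (nat_lit 4) (nat_lit 338) (nat_lit 249) (nat_lit 133))) (XT.nd (nat_lit 78) (nat_lit 0) (nat_lit 0) (XT.lf (nat_lit 0) (nat_lit 68819670157) (nat_lit 152) (nat_lit 96460475949) (nat_lit 0) (nat_lit 26558588627) (nat_lit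 2) (nat_lit 5) (nat_lit 4) (nat_lit 4) (nat_lit 2) (nat_lit 4) (nat_lit 339) (nat_lit 249) (nat_lit 132)) (XT.nd (nat_lit 78) (nat_lit 0) (nat_lit 0) (XT.lf (nat_lit 0) (nat_lit 77172529488) (nat_lit 152) (nat_lit 88988246855) (nat_lit 0) (nat_lit 34904748857) (nat_lit 2) (nat_lit 5) (nat_lit 4) (nat_lit 4) (nat_lit 2) (nat_lit 4) (nat_lit 340) (nat_lit 249) (nat_lit 131)) (XT.lf (nat_lit 0) (nat_lit 85940876675) (nat_lit 152) (nat_lit 81146174478) (nat_lit 0) (nat_lit 43666715946) (nat_lit 2) (nat_lit 5) (nat_lit 4) (nat_lit 4) (nat_lit 2) (nat_lit 4) (nat_lit 341) (nat_lit 249) (nat_lit 130))))))))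
noncomputable def xc143 : XT := (XT.nd (nat_lit 30420) (nat_lit 0) (nat_lit 3496) (XT.nd (nat_lit 624) (nat_lit 76) (nat_lit 0) (XT.nd (nat_lit 312) (nat_lit 0) (nat_lit 0) (XT.nd (nat_lit 156) (nat_lit 0) (nat_lit 0) (XT.nd (nat_lit 78) (nat_lit 0) (nat_lit 0) (XT.lf (nat_lit 0) (nat_lit 95145588733) (nat_lit 152) (nat_lit 72915587216) (nat_lit 0) (nat_lit 52865351721) (nat_lit 2) (nat_lit 5) (nat_lit 4) (nat_lit 4) (nat_lit 2) (nat_lit 4) (nat_lit 342) (nat_lit 249) (nat_lit 129)) (XT.lf (nat_lit 0) (nat_lit 104808581645) (nat_lit 152) (nat_lit 64276888433) (nat_lit 0) (nat_lit 62522557696) (nat_lit 2) (nat_lit 5) (nat_lit 4) (nat_lit 4) (nat_lit 2) (nat_lit 4) (nat_lit 343) (nat_lit 249) (nat_lit 128))) (XT.nd (nat_lit 78) (nat_lit 0) (nat_lit 0) (XT.lf (nat_lit 0) (nat_lit 114952862536) (nat_lit 152) (nat_lit 55209509799) (nat_lit 0) (nat_lit 72661327218) (nat_lit 2) (nat_lit 5)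 (nat_lit 4) (nat_lit 4) (nat_lit 2) (nat_lit 4) (nat_lit 344) (nat_lit 249) (nat_lit 127)) (XT.lf (nat_lit 0) (nat_lit 125602584455) (nat_lit 152) (nat_lit 45691862317) (nat_lit 0) (nat_lit 83305800216) (nat_lit 2) (nat_lit 5) (nat_lit 4) (nat_lit 4) (nat_lit 2) (nat_lit 4) (nat_lit 345) (nat_lit 249) (nat_lit 126)))) (XT.nd (nat_lit 156) (nat_lit 0) (nat_lit 0) (XT.nd (nat_lit 78) (nat_lit 0) (nat_lit 0) (XT.lf (nat_lit 0) (nat_lit 136783103885) (nat_lit 152) (nat_lit 35701284922) (nat_lit 0) (nat_lit 94481320671) (nat_lit 2) (nat_lit 5) (nat_lit 4) (nat_lit 4) (nat_lit 2) (nat_lit 4) (nat_lit 346) (nat_lit 249) (nat_lit 125)) (XT.lf (nat_lit 0) (nat_lit 148521041108) (nat_lit 152) (nat_lit 25213990524) (nat_lit 0) (nat_lit 106214496967) (nat_lit 2) (nat_lit 5) (nat_lit 4) (nat_lit 4) (nat_lit 2) (nat_lit 4) (nat_lit 347) (nat_lit 249) (nat_lit 124))) (XT.nd (nat_lit 78) (nat_lit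 0) (nat_lit 0) (XT.lf (nat_lit 0) (nat_lit 160844343594) (nat_lit 152) (nat_lit 14205009375) (nat_lit 0) (nat_lit 118533265238) (nat_lit 2) (nat_lit 5) (nat_lit 4) (nat_lit 4) (nat_lit 2) (nat_lit 4) (nat_lit 348) (nat_lit 249) (nat_lit 123)) (XT.lf (nat_lit 0) (nat_lit 173782352541) (nat_lit 152) (nat_lit 2648129615) (nat_lit 0) (nat_lit 131466955883) (nat_lit 2) (nat_lit 5) (nat_lit 4) (nat_lit 4) (nat_lit 2) (nat_lit 4) (nat_lit 349) (nat_lit 249) (nat_lit 122))))) (XT.nd (nat_lit 312) (nat_lit 0) (nat_lit 0) (XT.nd (nat_lit 156) (nat_lit 0) (nat_lit 0) (XT.nd (nat_lit 78) (nat_lit 0) (nat_lit 0) (XT.lf (nat_lit 0) (nat_lit 9797754466) (nat_lit 76) (nat_lit 177721088669) (nat_lit 76) (nat_lit 135401579343) (nat_lit 1) (nat_lit 4) (nat_lit 2) (nat_lit 5) (nat_lit 2) (nat_lit 4) (nat_lit 350) (nat_lit 249) (nat_lit 121)) (XT.lf (nat_lit 0) (nat_lit 22955480014) (nat_lit 76) (nat_lit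 179030165239) (nat_lit 76) (nat_lit 136706739087) (nat_lit 1) (nat_lit 4) (nat_lit 2) (nat_lit 5) (nat_lit 2) (nat_lit 4) (nat_lit 351) (nat_lit 249) (nat_lit 120))) (XT.nd (nat_lit 78) (nat_lit 0) (nat_lit 0) (XT.lf (nat_lit 0) (nat_lit 36768815821) (nat_lit 76) (nat_lit 180405676072) (nat_lit 76) (nat_lit 138078519609) (nat_lit 1) (nat_lit 4) (nat_lit 2) (nat_lit 5) (nat_lit 2) (nat_lit 4) (nat_lit 352) (nat_lit 249) (nat_lit 119)) (XT.lf (nat_lit 0) (nat_lit 51270650781) (nat_lit 76) (nat_lit 181850896193) (nat_lit 76) (nat_lit 139520187053) (nat_lit 1) (nat_lit 4) (nat_lit 2) (nat_lit 5) (nat_lit 2) (nat_lit 4) (nat_lit 353) (nat_lit 249) (nat_lit 118)))) (XT.nd (nat_lit 156) (nat_lit 0) (nat_lit 0) (XT.nd (nat_lit 78) (nat_lit 0) (nat_lit 0) (XT.lf (nat_lit 0) (nat_lit 66495513074) (nat_lit 76) (nat_lit 183369266603) (nat_lit 76) (nat_lit 141035173961) (nat_lit 1) (nat_lit 4)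 (nat_lit 2) (nat_lit 5) (nat_lit 2) (nat_lit 4) (nat_lit 354) (nat_lit 249) (nat_lit 117)) (XT.lf (nat_lit 0) (nat_lit 82479652371) (nat_lit 76) (nat_lit 184964402470) (nat_lit 76) (nat_lit 142627087444) (nat_lit 1) (nat_lit 4) (nat_lit 2) (nat_lit 5) (nat_lit 2) (nat_lit 4) (nat_lit 355) (nat_lit 249) (nat_lit 116))) (XT.nd (nat_lit 78) (nat_lit 0) (nat_lit 0) (XT.lf (nat_lit 0) (nat_lit 99261126147) (nat_lit 76) (nat_lit 186640101735) (nat_lit 76) (nat_lit 144299717774) (nat_lit 1) (nat_lit 4) (nat_lit 2) (nat_lit 5) (nat_lit 2) (nat_lit 4) (nat_lit 356) (nat_lit 249) (nat_lit 115)) (XT.nd (nat_lit 29172) (nat_lit 0) (nat_lit 6004) (XT.lf (nat_lit 0) (nat_lit 116879890292) (nat_lit 76) (nat_lit 188400354159) (nat_lit 76) (nat_lit 146057047402) (nat_lit 1) (nat_lit 4) (nat_lit 2) (nat_lit 5) (nat_lit 2) (nat_lit 4) (nat_lit 357) (nat_lit 249) (nat_lit 114)) (XT.lf (nat_lit 0) (nat_lit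 2320948811) (nat_lit 532) (nat_lit 752831776) (nat_lit 532) (nat_lit 752831776) (nat_lit 80) (nat_lit 3) (nat_lit 87) (nat_lit 3) (nat_lit 87) (nat_lit 5) (nat_lit 250) (nat_lit 250) (nat_lit 220))))))) (XT.nd (nat_lit 624) (nat_lit 1976) (nat_lit 0) (XT.nd (nat_lit 312) (nat_lit 0) (nat_lit 76) (XT.nd (nat_lit 156) (nat_lit 532) (nat_lit 0) (XT.nd (nat_lit 78) (nat_lit 0) (nat_lit 0) (XT.lf (nat_lit 76) (nat_lit 1678448751) (nat_lit 0) (nat_lit 4273751993) (nat_lit 532) (nat_lit 1825273509) (nat_lit 81) (nat_lit 5) (nat_lit 80) (nat_lit 3) (nat_lit 87) (nat_lit 5) (nat_lit 251) (nat_lit 250) (nat_lit 219)) (XT.lf (nat_lit 76) (nat_lit 5033244208) (nat_lit 0) (nat_lit 2244867205) (nat_lit 532) (nat_lit 632791884) (nat_lit 81) (nat_lit 5) (nat_lit 80) (nat_lit 3) (nat_lit 87) (nat_lit 5) (nat_lit 252) (nat_lit 250) (nat_lit 218))) (XT.nd (nat_lit 78) (nat_lit 0) (nat_lit 76) (XT.lf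 (nat_lit 76) (nat_lit 468389068) (nat_lit 0) (nat_lit 64987620) (nat_lit 608) (nat_lit 7520877218) (nat_lit 74) (nat_lit 5) (nat_lit 73) (nat_lit 5) (nat_lit 81) (nat_lit 5) (nat_lit 253) (nat_lit 250) (nat_lit 217)) (XT.lf (nat_lit 0) (nat_lit 1750731244) (nat_lit 532) (nat_lit 4212016714) (nat_lit 608) (nat_lit 2241205671) (nat_lit 74) (nat_lit 5) (nat_lit 81) (nat_lit 5) (nat_lit 82) (nat_lit 5) (nat_lit 254) (nat_lit 250) (nat_lit 216)))) (XT.nd (nat_lit 156) (nat_lit 0) (nat_lit 76) (XT.nd (nat_lit 78) (nat_lit 0) (nat_lit 0) (XT.lf (nat_lit 0) (nat_lit 2963246463) (nat_lit 532) (nat_lit 713811269) (nat_lit 608) (nat_lit 4687754000) (nat_lit 74) (nat_lit 5) (nat_lit 81) (nat_lit 5) (nat_lit 82) (nat_lit 5) (nat_lit 255) (nat_lit 250) (nat_lit 215)) (XT.lf (nat_lit 76) (nat_lit 3014580604) (nat_lit 0) (nat_lit 1205280093) (nat_lit 608) (nat_lit 4315047940) (nat_lit 75) (nat_lit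 5) (nat_lit 74) (nat_lit 5) (nat_lit 82) (nat_lit 5) (nat_lit 256) (nat_lit 250) (nat_lit 214))) (XT.nd (nat_lit 78) (nat_lit 0) (nat_lit 0) (XT.lf (nat_lit 0) (nat_lit 5512420573) (nat_lit 532) (nat_lit 1824912164) (nat_lit 608) (nat_lit 1377873866) (nat_lit 75) (nat_lit 5) (nat_lit 82) (nat_lit 5) (nat_lit 83) (nat_lit 5) (nat_lit 257) (nat_lit 250) (nat_lit 213)) (XT.lf (nat_lit 76) (nat_lit 2059254449) (nat_lit 0) (nat_lit 4804287100) (nat_lit 608) (nat_lit 2041616467) (nat_lit 76) (nat_lit 5) (nat_lit 75) (nat_lit 5) (nat_lit 83) (nat_lit 5) (nat_lit 258) (nat_lit 250) (nat_lit 212))))) (XT.nd (nat_lit 312) (nat_lit 988) (nat_lit 0) (XT.nd (nat_lit 156) (nat_lit 608) (nat_lit 0) (XT.nd (nat_lit 78) (nat_lit 532) (nat_lit 0) (XT.lf (nat_lit 76) (nat_lit 6159496031) (nat_lit 0) (nat_lit 2097764999) (nat_lit 608) (nat_lit 848913088) (nat_lit 76) (nat_lit 5) (nat_lit 75) (nat_lit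 5) (nat_lit 83) (nat_lit 5) (nat_lit 259) (nat_lit 250) (nat_lit 211)) (XT.lf (nat_lit 0) (nat_lit 366089864) (nat_lit 608) (nat_lit 8195291583) (nat_lit 76) (nat_lit 757055381) (nat_lit 68) (nat_lit 5) (nat_lit 76) (nat_lit 5) (nat_lit 69) (nat_lit 5) (nat_lit 260) (nat_lit 250) (nat_lit 210))) (XT.nd (nat_lit 78) (nat_lit 608) (nat_lit 0) (XT.lf (nat_lit 0) (nat_lit 1646184728) (nat_lit 608) (nat_lit 4133186906) (nat_lit 76) (nat_lit 3759877440) (nat_lit 68) (nat_lit 5) (nat_lit 76) (nat_lit 5) (nat_lit 69) (nat_lit 5) (nat_lit 261) (nat_lit 250) (nat_lit 209)) (XT.lf (nat_lit 0) (nat_lit 93091199) (nat_lit 608) (nat_lit 2848893896) (nat_lit 684) (nat_lit 6831794440) (nat_lit 60) (nat_lit 5) (nat_lit 68) (nat_lit 5) (nat_lit 69) (nat_lit 5) (nat_lit 262) (nat_lit 250) (nat_lit 208)))) (XT.nd (nat_lit 156) (nat_lit 988) (nat_lit 0) (XT.nd (nat_lit 78) (nat_lit 0) (nat_lit 0) (XT.lf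 (nat_lit 0) (nat_lit 4329360665) (nat_lit 684) (nat_lit 5391060274) (nat_lit 76) (nat_lit 298526455) (nat_lit 60) (nat_lit 5) (nat_lit 69) (nat_lit 5) (nat_lit 61) (nat_lit 5) (nat_lit 263) (nat_lit 250) (nat_lit 207)) (XT.lf (nat_lit 0) (nat_lit 5787168917) (nat_lit 684) (nat_lit 975551945) (nat_lit 76) (nat_lit 3513837811) (nat_lit 60) (nat_lit 5) (nat_lit 69) (nat_lit 5) (nat_lit 61) (nat_lit 5) (nat_lit 264) (nat_lit 250) (nat_lit 206))) (XT.nd (nat_lit 78) (nat_lit 304) (nat_lit 0) (XT.lf (nat_lit 0) (nat_lit 3740549941) (nat_lit 684) (nat_lit 3592252131) (nat_lit 760) (nat_lit 3213728596) (nat_lit 51) (nat_lit 5) (nat_lit 60) (nat_lit 5) (nat_lit 61) (nat_lit 5) (nat_lit 265) (nat_lit 250) (nat_lit 205)) (XT.nd (nat_lit 78) (nat_lit 304) (nat_lit 0) (XT.lf (nat_lit 0) (nat_lit 8687066661) (nat_lit 684) (nat_lit 243162556) (nat_lit 760) (nat_lit 1901262506) (nat_lit 51) (nat_lit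 5) (nat_lit 60) (nat_lit 5) (nat_lit 61) (nat_lit 5) (nat_lit 266) (nat_lit 250) (nat_lit 204)) (XT.lf (nat_lit 0) (nat_lit 2747398801) (nat_lit 304) (nat_lit 7914162381) (nat_lit 380) (nat_lit 466643760) (nat_lit 47) (nat_lit 5) (nat_lit 51) (nat_lit 5) (nat_lit 52) (nat_lit 5) (nat_lit 267) (nat_lit 250) (nat_lit 203))))))))
noncomputable def xc144 : XT := (XT.nd (nat_lit 1248) (nat_lit 1064) (nat_lit 0) (XT.nd (nat_lit 624) (nat_lit 684) (nat_lit 0) (XT.nd (nat_lit 312) (nat_lit 380) (nat_lit 0) (XT.nd (nat_lit 156) (nat_lit 228) (nat_lit 0) (XT.nd (nat_lit 78) (nat_lit 304) (nat_lit 0) (XT.lf (nat_lit 0) (nat_lit 1007830218) (nat_lit 380) (nat_lit 3540979025) (nat_lit 76) (nat_lit 6890249528) (nat_lit 46) (nat_lit 5) (nat_lit 51) (nat_lit 5) (nat_lit 47) (nat_lit 5) (nat_lit 268) (nat_lit 250) (nat_lit 202)) (XT.lf (nat_lit 0) (nat_lit 1544046639) (nat_lit 304) (nat_lit 982789550)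 (nat_lit 380) (nat_lit 9239089843) (nat_lit 42) (nat_lit 5) (nat_lit 46) (nat_lit 5) (nat_lit 47) (nat_lit 5) (nat_lit 269) (nat_lit 250) (nat_lit 201))) (XT.nd (nat_lit 78) (nat_lit 228) (nat_lit 0) (XT.lf (nat_lit 0) (nat_lit 4189417794) (nat_lit 380) (nat_lit 5183884663) (nat_lit 76) (nat_lit 2732622232) (nat_lit 42) (nat_lit 5) (nat_lit 47) (nat_lit 5) (nat_lit 43) (nat_lit 5) (nat_lit 270) (nat_lit 250) (nat_lit 200)) (XT.lf (nat_lit 0) (nat_lit 53608127) (nat_lit 228) (nat_lit 5863762741) (nat_lit 304) (nat_lit 6546601530) (nat_lit 39) (nat_lit 5) (nat_lit 42) (nat_lit 5) (nat_lit 43) (nat_lit 5) (nat_lit 271) (nat_lit 250) (nat_lit 199)))) (XT.nd (nat_lit 156) (nat_lit 380) (nat_lit 0) (XT.nd (nat_lit 78) (nat_lit 0) (nat_lit 0) (XT.lf (nat_lit 0) (nat_lit 5695555165) (nat_lit 228) (nat_lit 2090320987) (nat_lit 304) (nat_lit 5051492174) (nat_lit 39) (nat_lit 5) (nat_lit 42)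 (nat_lit 5) (nat_lit 43) (nat_lit 5) (nat_lit 272) (nat_lit 250) (nat_lit 198)) (XT.lf (nat_lit 0) (nat_lit 9744939506) (nat_lit 304) (nat_lit 1676363124) (nat_lit 76) (nat_lit 1808421026) (nat_lit 39) (nat_lit 5) (nat_lit 43) (nat_lit 5) (nat_lit 40) (nat_lit 5) (nat_lit 273) (nat_lit 250) (nat_lit 197))) (XT.nd (nat_lit 78) (nat_lit 76) (nat_lit 0) (XT.lf (nat_lit 0) (nat_lit 4124575757) (nat_lit 304) (nat_lit 7745481037) (nat_lit 380) (nat_lit 1768374206) (nat_lit 35) (nat_lit 5) (nat_lit 39) (nat_lit 5) (nat_lit 40) (nat_lit 5) (nat_lit 274) (nat_lit 250) (nat_lit 196)) (XT.lf (nat_lit 0) (nat_lit 31360182) (nat_lit 380) (nat_lit 3829469458) (nat_lit 76) (nat_lit 10206914596) (nat_lit 34) (nat_lit 5) (nat_lit 39) (nat_lit 5) (nat_lit 35) (nat_lit 5) (nat_lit 275) (nat_lit 250) (nat_lit 195))))) (XT.nd (nat_lit 312) (nat_lit 228) (nat_lit 0) (XT.nd (nat_lit 156) (nat_lit 228) (nat_lit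 0) (XT.nd (nat_lit 78) (nat_lit 0) (nat_lit 0) (XT.lf (nat_lit 0) (nat_lit 1870648207) (nat_lit 304) (nat_lit 12376886930) (nat_lit 76) (nat_lit 269209034) (nat_lit 31) (nat_lit 5) (nat_lit 35) (nat_lit 5) (nat_lit 32) (nat_lit 5) (nat_lit 276) (nat_lit 250) (nat_lit 194)) (XT.lf (nat_lit 0) (nat_lit 3903037305) (nat_lit 304) (nat_lit 6543938652) (nat_lit 76) (nat_lit 4536275903) (nat_lit 31) (nat_lit 5) (nat_lit 35) (nat_lit 5) (nat_lit 32) (nat_lit 5) (nat_lit 277) (nat_lit 250) (nat_lit 193))) (XT.nd (nat_lit 78) (nat_lit 228) (nat_lit 0) (XT.lf (nat_lit 0) (nat_lit 6010309940) (nat_lit 304) (nat_lit 452897802) (nat_lit 76) (nat_lit 9011323120) (nat_lit 31) (nat_lit 5) (nat_lit 35) (nat_lit 5) (nat_lit 32) (nat_lit 5) (nat_lit 278) (nat_lit 250) (nat_lit 192)) (XT.lf (nat_lit 0) (nat_lit 6106173792) (nat_lit 228) (nat_lit 2186644119) (nat_lit 304) (nat_lit 7694166251) (nat_lit 28)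 (nat_lit 5) (nat_lit 31) (nat_lit 5) (nat_lit 32) (nat_lit 5) (nat_lit 279) (nat_lit 250) (nat_lit 191)))) (XT.nd (nat_lit 156) (nat_lit 76) (nat_lit 0) (XT.nd (nat_lit 78) (nat_lit 152) (nat_lit 0) (XT.lf (nat_lit 0) (nat_lit 10708369252) (nat_lit 304) (nat_lit 3584520757) (nat_lit 76) (nat_lit 2231323207) (nat_lit 28) (nat_lit 5) (nat_lit 32) (nat_lit 5) (nat_lit 29) (nat_lit 5) (nat_lit 280) (nat_lit 250) (nat_lit 190)) (XT.lf (nat_lit 0) (nat_lit 3057477968) (nat_lit 152) (nat_lit 10247139979) (nat_lit 228) (nat_lit 3780784060) (nat_lit 26) (nat_lit 5) (nat_lit 28) (nat_lit 5) (nat_lit 29) (nat_lit 5) (nat_lit 281) (nat_lit 250) (nat_lit 189))) (XT.nd (nat_lit 78) (nat_lit 76) (nat_lit 0) (XT.lf (nat_lit 0) (nat_lit 10125407852) (nat_lit 152) (nat_lit 5942962982) (nat_lit 228) (nat_lit 1604484597) (nat_lit 26) (nat_lit 5) (nat_lit 28) (nat_lit 5) (nat_lit 29) (nat_lit 5) (nat_lit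 282) (nat_lit 250) (nat_lit 188)) (XT.lf (nat_lit 0) (nat_lit 636485413) (nat_lit 228) (nat_lit 783551971) (nat_lit 76) (nat_lit 16870312254) (nat_lit 25) (nat_lit 5) (nat_lit 28) (nat_lit 5) (nat_lit 26) (nat_lit 5) (nat_lit 283) (nat_lit 250) (nat_lit 187)))))) (XT.nd (nat_lit 624) (nat_lit 456) (nat_lit 0) (XT.nd (nat_lit 312) (nat_lit 228) (nat_lit 0) (XT.nd (nat_lit 156) (nat_lit 152) (nat_lit 0) (XT.nd (nat_lit 78) (nat_lit 0) (nat_lit 0) (XT.lf (nat_lit 0) (nat_lit 3069264300) (nat_lit 304) (nat_lit 12516653536) (nat_lit 76) (nat_lit 3344879047) (nat_lit 22) (nat_lit 5) (nat_lit 26) (nat_lit 5) (nat_lit 23) (nat_lit 5) (nat_lit 284) (nat_lit 250) (nat_lit 186)) (XT.lf (nat_lit 0) (nat_lit 5639613969) (nat_lit 304) (nat_lit 5656258143) (nat_lit 76) (nat_lit 8306671653) (nat_lit 22) (nat_lit 5) (nat_lit 26) (nat_lit 5) (nat_lit 23) (nat_lit 5) (nat_lit 285) (nat_lit 250) (nat_lit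 185))) (XT.nd (nat_lit 78) (nat_lit 0) (nat_lit 0) (XT.lf (nat_lit 0) (nat_lit 1569697237) (nat_lit 152) (nat_lit 6773448557) (nat_lit 228) (nat_lit 11964569308) (nat_lit 20) (nat_lit 5) (nat_lit 22) (nat_lit 5) (nat_lit 23) (nat_lit 5) (nat_lit 286) (nat_lit 250) (nat_lit 184)) (XT.lf (nat_lit 0) (nat_lit 9326069772) (nat_lit 152) (nat_lit 1932252601) (nat_lit 228) (nat_lit 9786066225) (nat_lit 20) (nat_lit 5) (nat_lit 22) (nat_lit 5) (nat_lit 23) (nat_lit 5) (nat_lit 287) (nat_lit 250) (nat_lit 183)))) (XT.nd (nat_lit 156) (nat_lit 76) (nat_lit 0) (XT.nd (nat_lit 78) (nat_lit 152) (nat_lit 0) (XT.lf (nat_lit 0) (nat_lit 14349932711) (nat_lit 228) (nat_lit 4423652235) (nat_lit 76) (nat_lit 3042840882) (nat_lit 20) (nat_lit 5) (nat_lit 23) (nat_lit 5) (nat_lit 21) (nat_lit 5) (nat_lit 288) (nat_lit 250) (nat_lit 182)) (XT.lf (nat_lit 0) (nat_lit 3283623676) (nat_lit 152) (nat_lit 14377803625)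 (nat_lit 228) (nat_lit 4962433203) (nat_lit 18) (nat_lit 5) (nat_lit 20) (nat_lit 5) (nat_lit 21) (nat_lit 5) (nat_lit 289) (nat_lit 250) (nat_lit 181))) (XT.nd (nat_lit 78) (nat_lit 76) (nat_lit 0) (XT.lf (nat_lit 0) (nat_lit 11504710403) (nat_lit 152) (nat_lit 9691511377) (nat_lit 228) (nat_lit 2272616749) (nat_lit 18) (nat_lit 5) (nat_lit 20) (nat_lit 5) (nat_lit 21) (nat_lit 5) (nat_lit 290) (nat_lit 250) (nat_lit 180)) (XT.lf (nat_lit 0) (nat_lit 517338333) (nat_lit 228) (nat_lit 4252367347) (nat_lit 76) (nat_lit 19586816332) (nat_lit 17) (nat_lit 5) (nat_lit 20) (nat_lit 5) (nat_lit 18) (nat_lit 5) (nat_lit 291) (nat_lit 250) (nat_lit 179))))) (XT.nd (nat_lit 312) (nat_lit 152) (nat_lit 0) (XT.nd (nat_lit 156) (nat_lit 152) (nat_lit 0) (XT.nd (nat_lit 78) (nat_lit 0) (nat_lit 0) (XT.lf (nat_lit 0) (nat_lit 3423266237) (nat_lit 228) (nat_lit 21382749595) (nat_lit 76) (nat_lit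 478118536) (nat_lit 15) (nat_lit 5) (nat_lit 18) (nat_lit 5) (nat_lit 16) (nat_lit 5) (nat_lit 292) (nat_lit 250) (nat_lit 178)) (XT.lf (nat_lit 0) (nat_lit 6610260389) (nat_lit 228) (nat_lit 13747142042) (nat_lit 76) (nat_lit 5893984033) (nat_lit 15) (nat_lit 5) (nat_lit 18) (nat_lit 5) (nat_lit 16) (nat_lit 5) (nat_lit 293) (nat_lit 250) (nat_lit 177))) (XT.nd (nat_lit 78) (nat_lit 152) (nat_lit 0) (XT.lf (nat_lit 0) (nat_lit 9941729456) (nat_lit 228) (nat_lit 5752325639) (nat_lit 76) (nat_lit 11573735155) (nat_lit 15) (nat_lit 5) (nat_lit 18) (nat_lit 5) (nat_lit 16) (nat_lit 5) (nat_lit 294) (nat_lit 250) (nat_lit 176)) (XT.lf (nat_lit 0) (nat_lit 2707388223) (nat_lit 152) (nat_lit 10760487203) (nat_lit 228) (nat_lit 14865776814) (nat_lit 13) (nat_lit 5) (nat_lit 15) (nat_lit 5) (nat_lit 16) (nat_lit 5) (nat_lit 295) (nat_lit 250) (nat_lit 175)))) (XT.nd (nat_lit 156) (nat_lit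 152) (nat_lit 0) (XT.nd (nat_lit 78) (nat_lit 0) (nat_lit 0) (XT.lf (nat_lit 0) (nat_lit 11768645564) (nat_lit 152) (nat_lit 5485279464) (nat_lit 228) (nat_lit 12194743617) (nat_lit 13) (nat_lit 5) (nat_lit 15) (nat_lit 5) (nat_lit 16) (nat_lit 5) (nat_lit 296) (nat_lit 250) (nat_lit 174)) (XT.lf (nat_lit 0) (nat_lit 21216842490) (nat_lit 228) (nat_lit 9358039565) (nat_lit 76) (nat_lit 45214718) (nat_lit 13) (nat_lit 5) (nat_lit 16) (nat_lit 5) (nat_lit 14) (nat_lit 4) (nat_lit 297) (nat_lit 250) (nat_lit 173))) (XT.nd (nat_lit 78) (nat_lit 152) (nat_lit 0) (XT.lf (nat_lit 0) (nat_lit 25455187628) (nat_lit 228) (nat_lit 729623520) (nat_lit 76) (nat_lit 5661458376) (nat_lit 13) (nat_lit 5) (nat_lit 16) (nat_lit 5) (nat_lit 14) (nat_lit 4) (nat_lit 298) (nat_lit 250) (nat_lit 172)) (XT.nd (nat_lit 78) (nat_lit 76) (nat_lit 0) (XT.lf (nat_lit 0) (nat_lit 8586222216) (nat_lit 76) (nat_lit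 21441243931) (nat_lit 152) (nat_lit 3100219490) (nat_lit 12) (nat_lit 5) (nat_lit 13) (nat_lit 5) (nat_lit 14) (nat_lit 4) (nat_lit 299) (nat_lit 250) (nat_lit 171)) (XT.lf (nat_lit 0) (nat_lit 344397073) (nat_lit 152) (nat_lit 16104040514) (nat_lit 76) (nat_lit 18024460962) (nat_lit 11) (nat_lit 5) (nat_lit 13) (nat_lit 5) (nat_lit 12) (nat_lit 5) (nat_lit 300) (nat_lit 250) (nat_lit 170))))))))
noncomputable def xc145 : XT := (XT.nd (nat_lit 1326) (nat_lit 228) (nat_lit 0) (XT.nd (nat_lit 624) (nat_lit 228) (nat_lit 0) (XT.nd (nat_lit 312) (nat_lit 76) (nat_lit 0) (XT.nd (nat_lit 156) (nat_lit 0) (nat_lit 0) (XT.nd (nat_lit 78) (nat_lit 152) (nat_lit 0) (XT.lf (nat_lit 0) (nat_lit 3845647348) (nat_lit 152) (nat_lit 7313597247) (nat_lit 76) (nat_lit 24724187513) (nat_lit 11) (nat_lit 5) (nat_lit 13) (nat_lit 5) (nat_lit 12) (nat_lit 5) (nat_lit 301) (nat_lit 250) (nat_lit 169)) (XT.lf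 (nat_lit 0) (nat_lit 1961995222) (nat_lit 152) (nat_lit 5579731050) (nat_lit 228) (nat_lit 29821806996) (nat_lit 9) (nat_lit 5) (nat_lit 11) (nat_lit 5) (nat_lit 12) (nat_lit 5) (nat_lit 302) (nat_lit 250) (nat_lit 168))) (XT.nd (nat_lit 78) (nat_lit 0) (nat_lit 0) (XT.lf (nat_lit 0) (nat_lit 11542140675) (nat_lit 228) (nat_lit 26979902858) (nat_lit 76) (nat_lit 389647216) (nat_lit 9) (nat_lit 5) (nat_lit 12) (nat_lit 5) (nat_lit 10) (nat_lit 4) (nat_lit 303) (nat_lit 250) (nat_lit 167)) (XT.lf (nat_lit 0) (nat_lit 15823846367) (nat_lit 228) (nat_lit 18245183155) (nat_lit 76) (nat_lit 6464189565) (nat_lit 9) (nat_lit 5) (nat_lit 12) (nat_lit 5) (nat_lit 10) (nat_lit 4) (nat_lit 304) (nat_lit 250) (nat_lit 166)))) (XT.nd (nat_lit 156) (nat_lit 0) (nat_lit 0) (XT.nd (nat_lit 78) (nat_lit 76) (nat_lit 0) (XT.lf (nat_lit 0) (nat_lit 20309922649) (nat_lit 228) (nat_lit 9089466747) (nat_lit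 76) (nat_lit 12836945433) (nat_lit 9) (nat_lit 5) (nat_lit 12) (nat_lit 5) (nat_lit 10) (nat_lit 4) (nat_lit 305) (nat_lit 250) (nat_lit 165)) (XT.lf (nat_lit 0) (nat_lit 525877039) (nat_lit 76) (nat_lit 24493384027) (nat_lit 152) (nat_lit 19005421423) (nat_lit 8) (nat_lit 5) (nat_lit 9) (nat_lit 5) (nat_lit 10) (nat_lit 4) (nat_lit 306) (nat_lit 250) (nat_lit 164))) (XT.nd (nat_lit 78) (nat_lit 0) (nat_lit 0) (XT.lf (nat_lit 0) (nat_lit 10922805757) (nat_lit 76) (nat_lit 19186153393) (nat_lit 152) (nat_lit 15786266651) (nat_lit 8) (nat_lit 5) (nat_lit 9) (nat_lit 5) (nat_lit 10) (nat_lit 4) (nat_lit 307) (nat_lit 250) (nat_lit 163)) (XT.lf (nat_lit 0) (nat_lit 21825535177) (nat_lit 76) (nat_lit 13618995747) (nat_lit 152) (nat_lit 12415217725) (nat_lit 8) (nat_lit 5) (nat_lit 9) (nat_lit 5) (nat_lit 10) (nat_lit 4) (nat_lit 308) (nat_lit 250) (nat_lit 162))))) (XT.nd (nat_lit 312)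 (nat_lit 76) (nat_lit 0) (XT.nd (nat_lit 156) (nat_lit 152) (nat_lit 0) (XT.nd (nat_lit 78) (nat_lit 0) (nat_lit 0) (XT.lf (nat_lit 0) (nat_lit 33260024179) (nat_lit 76) (nat_lit 7778655952) (nat_lit 152) (nat_lit 8884248341) (nat_lit 8) (nat_lit 5) (nat_lit 9) (nat_lit 5) (nat_lit 10) (nat_lit 4) (nat_lit 309) (nat_lit 250) (nat_lit 161)) (XT.lf (nat_lit 0) (nat_lit 45253497737) (nat_lit 76) (nat_lit 1651228437) (nat_lit 152) (nat_lit 5184951427) (nat_lit 8) (nat_lit 5) (nat_lit 9) (nat_lit 5) (nat_lit 10) (nat_lit 4) (nat_lit 310) (nat_lit 250) (nat_lit 160))) (XT.nd (nat_lit 78) (nat_lit 76) (nat_lit 0) (XT.lf (nat_lit 0) (nat_lit 3507006863) (nat_lit 76) (nat_lit 49678979206) (nat_lit 76) (nat_lit 1172701384) (nat_lit 7) (nat_lit 4) (nat_lit 8) (nat_lit 5) (nat_lit 8) (nat_lit 4) (nat_lit 311) (nat_lit 250) (nat_lit 159)) (XT.lf (nat_lit 0) (nat_lit 3080114969) (nat_lit 152) (nat_lit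 42219616549) (nat_lit 76) (nat_lit 11432197200) (nat_lit 6) (nat_lit 5) (nat_lit 8) (nat_lit 5) (nat_lit 7) (nat_lit 4) (nat_lit 312) (nat_lit 250) (nat_lit 158)))) (XT.nd (nat_lit 156) (nat_lit 76) (nat_lit 0) (XT.nd (nat_lit 78) (nat_lit 0) (nat_lit 0) (XT.lf (nat_lit 0) (nat_lit 7499034717) (nat_lit 152) (nat_lit 33187092413) (nat_lit 76) (nat_lit 18537116311) (nat_lit 6) (nat_lit 5) (nat_lit 8) (nat_lit 5) (nat_lit 7) (nat_lit 4) (nat_lit 313) (nat_lit 250) (nat_lit 157)) (XT.lf (nat_lit 0) (nat_lit 12132112864) (nat_lit 152) (nat_lit 23714293018) (nat_lit 76) (nat_lit 25993072900) (nat_lit 6) (nat_lit 5) (nat_lit 8) (nat_lit 5) (nat_lit 7) (nat_lit 4) (nat_lit 314) (nat_lit 250) (nat_lit 156))) (XT.nd (nat_lit 78) (nat_lit 76) (nat_lit 0) (XT.lf (nat_lit 0) (nat_lit 16990380550) (nat_lit 152) (nat_lit 13778664078) (nat_lit 76) (nat_lit 33817819243) (nat_lit 6) (nat_lit 5) (nat_lit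 8) (nat_lit 5) (nat_lit 7) (nat_lit 4) (nat_lit 315) (nat_lit 250) (nat_lit 155)) (XT.nd (nat_lit 78) (nat_lit 76) (nat_lit 0) (XT.lf (nat_lit 0) (nat_lit 22085405077) (nat_lit 152) (nat_lit 3356549336) (nat_lit 76) (nat_lit 42029985690) (nat_lit 6) (nat_lit 5) (nat_lit 8) (nat_lit 5) (nat_lit 7) (nat_lit 4) (nat_lit 316) (nat_lit 250) (nat_lit 154)) (XT.lf (nat_lit 0) (nat_lit 7827391168) (nat_lit 76) (nat_lit 19724133802) (nat_lit 152) (nat_lit 42943941361) (nat_lit 5) (nat_lit 5) (nat_lit 6) (nat_lit 5) (nat_lit 7) (nat_lit 4) (nat_lit 317) (nat_lit 250) (nat_lit 153))))))) (XT.nd (nat_lit 624) (nat_lit 152) (nat_lit 0) (XT.nd (nat_lit 312) (nat_lit 76) (nat_lit 0) (XT.nd (nat_lit 156) (nat_lit 0) (nat_lit 0) (XT.nd (nat_lit 78) (nat_lit 0) (nat_lit 0) (XT.lf (nat_lit 0) (nat_lit 19677413287) (nat_lit 76) (nat_lit 13664647571) (nat_lit 152) (nat_lit 40325565265) (nat_lit 5) (nat_lit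 5) (nat_lit 6) (nat_lit 5) (nat_lit 7) (nat_lit 4) (nat_lit 318) (nat_lit 250) (nat_lit 152)) (XT.lf (nat_lit 0) (nat_lit 32110748681) (nat_lit 76) (nat_lit 7305913160) (nat_lit 152) (nat_lit 37582017294) (nat_lit 5) (nat_lit 5) (nat_lit 6) (nat_lit 5) (nat_lit 7) (nat_lit 4) (nat_lit 319) (nat_lit 250) (nat_lit 151))) (XT.nd (nat_lit 78) (nat_lit 0) (nat_lit 0) (XT.lf (nat_lit 0) (nat_lit 45157000527) (nat_lit 76) (nat_lit 632790726) (nat_lit 152) (nat_lit 34706765194) (nat_lit 5) (nat_lit 5) (nat_lit 6) (nat_lit 5) (nat_lit 7) (nat_lit 4) (nat_lit 320) (nat_lit 250) (nat_lit 150)) (XT.lf (nat_lit 0) (nat_lit 52576086260) (nat_lit 152) (nat_lit 25421818054) (nat_lit 0) (nat_lit 6166708872) (nat_lit 5) (nat_lit 5) (nat_lit 7) (nat_lit 4) (nat_lit 5) (nat_lit 4) (nat_lit 321) (nat_lit 250) (nat_lit 149)))) (XT.nd (nat_lit 156) (nat_lit 76) (nat_lit 0) (XT.nd (nat_lit 78) (nat_lit 0)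 (nat_lit 0) (XT.lf (nat_lit 0) (nat_lit 59707301359) (nat_lit 152) (nat_lit 15026699846) (nat_lit 0) (nat_lit 13281801782) (nat_lit 5) (nat_lit 5) (nat_lit 7) (nat_lit 4) (nat_lit 5) (nat_lit 4) (nat_lit 322) (nat_lit 250) (nat_lit 148)) (XT.lf (nat_lit 0) (nat_lit 67190535997) (nat_lit 152) (nat_lit 4119571379) (nat_lit 0) (nat_lit 20749681954) (nat_lit 5) (nat_lit 5) (nat_lit 7) (nat_lit 4) (nat_lit 5) (nat_lit 4) (nat_lit 323) (nat_lit 250) (nat_lit 147))) (XT.nd (nat_lit 78) (nat_lit 0) (nat_lit 0) (XT.lf (nat_lit 0) (nat_lit 7567752025) (nat_lit 76) (nat_lit 67594009192) (nat_lit 76) (nat_lit 21138531848) (nat_lit 4) (nat_lit 4) (nat_lit 5) (nat_lit 5) (nat_lit 5) (nat_lit 4) (nat_lit 324) (nat_lit 250) (nat_lit 146)) (XT.lf (nat_lit 0) (nat_lit 19975205986) (nat_lit 76) (nat_lit 63621876316) (nat_lit 76) (nat_lit 17152472019) (nat_lit 4) (nat_lit 4) (nat_lit 5) (nat_lit 5) (nat_lit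 5) (nat_lit 4) (nat_lit 325) (nat_lit 250) (nat_lit 145))))) (XT.nd (nat_lit 312) (nat_lit 76) (nat_lit 0) (XT.nd (nat_lit 156) (nat_lit 76) (nat_lit 0) (XT.nd (nat_lit 78) (nat_lit 0) (nat_lit 0) (XT.lf (nat_lit 0) (nat_lit 32996120426) (nat_lit 76) (nat_lit 59454018223) (nat_lit 76) (nat_lit 12971350162) (nat_lit 4) (nat_lit 4) (nat_lit 5) (nat_lit 5) (nat_lit 5) (nat_lit 4) (nat_lit 326) (nat_lit 250) (nat_lit 144)) (XT.lf (nat_lit 0) (nat_lit 46661497522) (nat_lit 76) (nat_lit 55080511442) (nat_lit 76) (nat_lit 8585211224) (nat_lit 4) (nat_lit 4) (nat_lit 5) (nat_lit 5) (nat_lit 5) (nat_lit 4) (nat_lit 327) (nat_lit 250) (nat_lit 143))) (XT.nd (nat_lit 78) (nat_lit 76) (nat_lit 0) (XT.lf (nat_lit 0) (nat_lit 61003873886) (nat_lit 76) (nat_lit 50490942862) (nat_lit 76) (nat_lit 3983612018) (nat_lit 4) (nat_lit 4) (nat_lit 5) (nat_lit 5) (nat_lit 5) (nat_lit 4) (nat_lit 328) (nat_lit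 250) (nat_lit 142)) (XT.lf (nat_lit 0) (nat_lit 817377453) (nat_lit 152) (nat_lit 44843164802) (nat_lit 76) (nat_lit 75226177897) (nat_lit 3) (nat_lit 5) (nat_lit 5) (nat_lit 5) (nat_lit 4) (nat_lit 4) (nat_lit 329) (nat_lit 250) (nat_lit 141)))) (XT.nd (nat_lit 156) (nat_lit 76) (nat_lit 0) (XT.nd (nat_lit 78) (nat_lit 0) (nat_lit 0) (XT.lf (nat_lit 0) (nat_lit 5721163534) (nat_lit 152) (nat_lit 34801315469) (nat_lit 76) (nat_lit 86039857481) (nat_lit 3) (nat_lit 5) (nat_lit 5) (nat_lit 5) (nat_lit 4) (nat_lit 4) (nat_lit 330) (nat_lit 250) (nat_lit 140)) (XT.lf (nat_lit 0) (nat_lit 10866922366) (nat_lit 152) (nat_lit 24262902370) (nat_lit 76) (nat_lit 97392076166) (nat_lit 3) (nat_lit 5) (nat_lit 5) (nat_lit 5) (nat_lit 4) (nat_lit 4) (nat_lit 331) (nat_lit 250) (nat_lit 139))) (XT.nd (nat_lit 78) (nat_lit 76) (nat_lit 0) (XT.lf (nat_lit 0) (nat_lit 16266905757) (nat_lit 152) (nat_lit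 13202834043) (nat_lit 76) (nat_lit 109309863043) (nat_lit 3) (nat_lit 5) (nat_lit 5) (nat_lit 5) (nat_lit 4) (nat_lit 4) (nat_lit 332) (nat_lit 250) (nat_lit 138)) (XT.nd (nat_lit 78) (nat_lit 76) (nat_lit 0) (XT.lf (nat_lit 0) (nat_lit 21933970810) (nat_lit 152) (nat_lit 1594776994) (nat_lit 76) (nat_lit 121821593796) (nat_lit 3) (nat_lit 5) (nat_lit 5) (nat_lit 5) (nat_lit 4) (nat_lit 4) (nat_lit 333) (nat_lit 250) (nat_lit 137)) (XT.lf (nat_lit 0) (nat_lit 10939024094) (nat_lit 76) (nat_lit 17113375266) (nat_lit 152) (nat_lit 124188822987) (nat_lit 2) (nat_lit 5) (nat_lit 3) (nat_lit 5) (nat_lit 4) (nat_lit 4) (nat_lit 334) (nat_lit 250) (nat_lit 136))))))))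
noncomputable def xc146 : XT := (XT.nd (nat_lit 1326) (nat_lit 0) (nat_lit 0) (XT.nd (nat_lit 624) (nat_lit 76) (nat_lit 0) (XT.nd (nat_lit 312) (nat_lit 0) (nat_lit 0) (XT.nd (nat_lit 156) (nat_lit 0) (nat_lit 0) (XT.nd (nat_lit 78) (nat_lit 0) (nat_lit 0) (XT.lf (nat_lit 0) (nat_lit 24150183426) (nat_lit 76) (nat_lit 10350854604) (nat_lit 152) (nat_lit 124974399966) (nat_lit 2) (nat_lit 5) (nat_lit 3) (nat_lit 5) (nat_lit 4) (nat_lit 4) (nat_lit 335) (nat_lit 250) (nat_lit 135)) (XT.lf (nat_lit 0) (nat_lit 38017425612) (nat_lit 76) (nat_lit 3252092899) (nat_lit 152) (nat_lit 125801980469) (nat_lit 2) (nat_lit 5) (nat_lit 3) (nat_lit 5) (nat_lit 4) (nat_lit 4) (nat_lit 336) (nat_lit 250) (nat_lit 134))) (XT.nd (nat_lit 78) (nat_lit 0) (nat_lit 0) (XT.lf (nat_lit 0) (nat_lit 48439527064) (nat_lit 152) (nat_lit 122539294094) (nat_lit 0) (nat_lit 4065391459) (nat_lit 2) (nat_lit 5) (nat_lit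 4) (nat_lit 4) (nat_lit 2) (nat_lit 4) (nat_lit 337) (nat_lit 250) (nat_lit 133)) (XT.lf (nat_lit 0) (nat_lit 56018973033) (nat_lit 152) (nat_lit 115756243263) (nat_lit 0) (nat_lit 11637803369) (nat_lit 2) (nat_lit 5) (nat_lit 4) (nat_lit 4) (nat_lit 2) (nat_lit 4) (nat_lit 338) (nat_lit 250) (nat_lit 132)))) (XT.nd (nat_lit 156) (nat_lit 0) (nat_lit 0) (XT.nd (nat_lit 78) (nat_lit 0) (nat_lit 0) (XT.lf (nat_lit 0) (nat_lit 63975128432) (nat_lit 152) (nat_lit 108637996470) (nat_lit 0) (nat_lit 19587259666) (nat_lit 2) (nat_lit 5) (nat_lit 4) (nat_lit 4) (nat_lit 2) (nat_lit 4) (nat_lit 339) (nat_lit 250) (nat_lit 131)) (XT.lf (nat_lit 0) (nat_lit 72326936490) (nat_lit 152) (nat_lit 101167605509) (nat_lit 0) (nat_lit 27932687626) (nat_lit 2) (nat_lit 5) (nat_lit 4) (nat_lit 4) (nat_lit 2) (nat_lit 4) (nat_lit 340) (nat_lit 250) (nat_lit 130))) (XT.nd (nat_lit 78) (nat_lit 0) (nat_lit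 0) (XT.lf (nat_lit 0) (nat_lit 81094282463) (nat_lit 152) (nat_lit 93327283734) (nat_lit 0) (nat_lit 36693957316) (nat_lit 2) (nat_lit 5) (nat_lit 4) (nat_lit 4) (nat_lit 2) (nat_lit 4) (nat_lit 341) (nat_lit 250) (nat_lit 129)) (XT.lf (nat_lit 0) (nat_lit 90298040985) (nat_lit 152) (nat_lit 85098363712) (nat_lit 0) (nat_lit 45891928902) (nat_lit 2) (nat_lit 5) (nat_lit 4) (nat_lit 4) (nat_lit 2) (nat_lit 4) (nat_lit 342) (nat_lit 250) (nat_lit 128))))) (XT.nd (nat_lit 312) (nat_lit 76) (nat_lit 0) (XT.nd (nat_lit 156) (nat_lit 0) (nat_lit 0) (XT.nd (nat_lit 78) (nat_lit 0) (nat_lit 0) (XT.lf (nat_lit 0) (nat_lit 99960125767) (nat_lit 152) (nat_lit 76461252777) (nat_lit 0) (nat_lit 55548502315) (nat_lit 2) (nat_lit 5) (nat_lit 4) (nat_lit 4) (nat_lit 2) (nat_lit 4) (nat_lit 343) (nat_lit 250) (nat_lit 127)) (XT.lf (nat_lit 0) (nat_lit 110103541772) (nat_lit 152) (nat_lit 67395386379)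 (nat_lit 0) (nat_lit 65686669398) (nat_lit 2) (nat_lit 5) (nat_lit 4) (nat_lit 4) (nat_lit 2) (nat_lit 4) (nat_lit 344) (nat_lit 250) (nat_lit 126))) (XT.nd (nat_lit 78) (nat_lit 0) (nat_lit 0) (XT.lf (nat_lit 0) (nat_lit 120752439991) (nat_lit 152) (nat_lit 57879179122) (nat_lit 0) (nat_lit 76330568643) (nat_lit 2) (nat_lit 5) (nat_lit 4) (nat_lit 4) (nat_lit 2) (nat_lit 4) (nat_lit 345) (nat_lit 250) (nat_lit 125)) (XT.lf (nat_lit 0) (nat_lit 131932174943) (nat_lit 152) (nat_lit 47889973369) (nat_lit 0) (nat_lit 87505542669) (nat_lit 2) (nat_lit 5) (nat_lit 4) (nat_lit 4) (nat_lit 2) (nat_lit 4) (nat_lit 346) (nat_lit 250) (nat_lit 124)))) (XT.nd (nat_lit 156) (nat_lit 76) (nat_lit 0) (XT.nd (nat_lit 78) (nat_lit 0) (nat_lit 0) (XT.lf (nat_lit 0) (nat_lit 143669365045) (nat_lit 152) (nat_lit 37403985297) (nat_lit 0) (nat_lit 99238198555) (nat_lit 2) (nat_lit 5) (nat_lit 4) (nat_lit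 4) (nat_lit 2) (nat_lit 4) (nat_lit 347) (nat_lit 250) (nat_lit 123)) (XT.lf (nat_lit 0) (nat_lit 155991955988) (nat_lit 152) (nat_lit 26396248268) (nat_lit 0) (nat_lit 111556471196) (nat_lit 2) (nat_lit 5) (nat_lit 4) (nat_lit 4) (nat_lit 2) (nat_lit 4) (nat_lit 348) (nat_lit 250) (nat_lit 122))) (XT.nd (nat_lit 78) (nat_lit 76) (nat_lit 0) (XT.lf (nat_lit 0) (nat_lit 168929287274) (nat_lit 152) (nat_lit 14840553385) (nat_lit 0) (nat_lit 124489689814) (nat_lit 2) (nat_lit 5) (nat_lit 4) (nat_lit 4) (nat_lit 2) (nat_lit 4) (nat_lit 349) (nat_lit 250) (nat_lit 121)) (XT.nd (nat_lit 78) (nat_lit 76) (nat_lit 0) (XT.lf (nat_lit 0) (nat_lit 182512162073) (nat_lit 152) (nat_lit 2709387087) (nat_lit 0) (nat_lit 138068647787) (nat_lit 2) (nat_lit 5) (nat_lit 4) (nat_lit 4) (nat_lit 2) (nat_lit 4) (nat_lit 350) (nat_lit 250) (nat_lit 120)) (XT.lf (nat_lit 0) (nat_lit 10357643633) (nat_lit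 76) (nat_lit 186576988773) (nat_lit 76) (nat_lit 142129744175) (nat_lit 1) (nat_lit 4) (nat_lit 2) (nat_lit 5) (nat_lit 2) (nat_lit 4) (nat_lit 351) (nat_lit 250) (nat_lit 119))))))) (XT.nd (nat_lit 29796) (nat_lit 0) (nat_lit 5016) (XT.nd (nat_lit 312) (nat_lit 0) (nat_lit 0) (XT.nd (nat_lit 156) (nat_lit 0) (nat_lit 0) (XT.nd (nat_lit 78) (nat_lit 0) (nat_lit 0) (XT.lf (nat_lit 0) (nat_lit 24169922056) (nat_lit 76) (nat_lit 187952955092) (nat_lit 76) (nat_lit 143502157817) (nat_lit 1) (nat_lit 4) (nat_lit 2) (nat_lit 5) (nat_lit 2) (nat_lit 4) (nat_lit 352) (nat_lit 250) (nat_lit 118)) (XT.lf (nat_lit 0) (nat_lit 38670749985) (nat_lit 76) (nat_lit 189398609009) (nat_lit 76) (nat_lit 144944428233) (nat_lit 1) (nat_lit 4) (nat_lit 2) (nat_lit 5) (nat_lit 2) (nat_lit 4) (nat_lit 353) (nat_lit 250) (nat_lit 117))) (XT.nd (nat_lit 78) (nat_lit 0) (nat_lit 0) (XT.lf (nat_lit 0) (nat_lit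 53894653199) (nat_lit 76) (nat_lit 190917392559) (nat_lit 76) (nat_lit 146459989400) (nat_lit 1) (nat_lit 4) (nat_lit 2) (nat_lit 5) (nat_lit 2) (nat_lit 4) (nat_lit 354) (nat_lit 250) (nat_lit 116)) (XT.lf (nat_lit 0) (nat_lit 69877879089) (nat_lit 76) (nat_lit 192512921892) (nat_lit 76) (nat_lit 148052449796) (nat_lit 1) (nat_lit 4) (nat_lit 2) (nat_lit 5) (nat_lit 2) (nat_lit 4) (nat_lit 355) (nat_lit 250) (nat_lit 115)))) (XT.nd (nat_lit 29328) (nat_lit 0) (nat_lit 5472) (XT.nd (nat_lit 78) (nat_lit 0) (nat_lit 0) (XT.lf (nat_lit 0) (nat_lit 86658482953) (nat_lit 76) (nat_lit 194188995887) (nat_lit 76) (nat_lit 149725600995) (nat_lit 1) (nat_lit 4) (nat_lit 2) (nat_lit 5) (nat_lit 2) (nat_lit 4) (nat_lit 356) (nat_lit 250) (nat_lit 114)) (XT.lf (nat_lit 0) (nat_lit 104276418610) (nat_lit 76) (nat_lit 195949605197) (nat_lit 76) (nat_lit 151483426689) (nat_lit 1) (nat_lit 4) (nat_lit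 2) (nat_lit 5) (nat_lit 2) (nat_lit 4) (nat_lit 357) (nat_lit 250) (nat_lit 113))) (XT.nd (nat_lit 78) (nat_lit 532) (nat_lit 0) (XT.lf (nat_lit 0) (nat_lit 3586810104) (nat_lit 532) (nat_lit 183194457) (nat_lit 532) (nat_lit 183194457) (nat_lit 80) (nat_lit 3) (nat_lit 87) (nat_lit 3) (nat_lit 87) (nat_lit 5) (nat_lit 251) (nat_lit 251) (nat_lit 218)) (XT.lf (nat_lit 0) (nat_lit 403165445) (nat_lit 532) (nat_lit 5091256597) (nat_lit 608) (nat_lit 2547346114) (nat_lit 73) (nat_lit 5) (nat_lit 80) (nat_lit 3) (nat_lit 81) (nat_lit 5) (nat_lit 252) (nat_lit 251) (nat_lit 217))))) (XT.nd (nat_lit 312) (nat_lit 456) (nat_lit 0) (XT.nd (nat_lit 156) (nat_lit 0) (nat_lit 76) (XT.nd (nat_lit 78) (nat_lit 0) (nat_lit 0) (XT.lf (nat_lit 0) (nat_lit 1507654926) (nat_lit 532) (nat_lit 1789456346) (nat_lit 608) (nat_lit 4889783553) (nat_lit 73) (nat_lit 5) (nat_lit 80) (nat_lit 3) (nat_lit 81)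 (nat_lit 5) (nat_lit 253) (nat_lit 251) (nat_lit 216)) (XT.lf (nat_lit 76) (nat_lit 1693815548) (nat_lit 0) (nat_lit 933397100) (nat_lit 608) (nat_lit 5714461029) (nat_lit 74) (nat_lit 5) (nat_lit 73) (nat_lit 5) (nat_lit 81) (nat_lit 5) (nat_lit 254) (nat_lit 251) (nat_lit 215))) (XT.nd (nat_lit 78) (nat_lit 0) (nat_lit 0) (XT.lf (nat_lit 0) (nat_lit 3794134046) (nat_lit 532) (nat_lit 3155181813) (nat_lit 608) (nat_lit 1555675885) (nat_lit 74) (nat_lit 5) (nat_lit 81) (nat_lit 5) (nat_lit 82) (nat_lit 5) (nat_lit 255) (nat_lit 251) (nat_lit 214)) (XT.lf (nat_lit 76) (nat_lit 472709477) (nat_lit 0) (nat_lit 4508809380) (nat_lit 608) (nat_lit 3697202953) (nat_lit 75) (nat_lit 5) (nat_lit 74) (nat_lit 5) (nat_lit 82) (nat_lit 5) (nat_lit 256) (nat_lit 251) (nat_lit 213)))) (XT.nd (nat_lit 156) (nat_lit 532) (nat_lit 0) (XT.nd (nat_lit 78) (nat_lit 0) (nat_lit 76) (XT.lf (nat_lit 76)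 (nat_lit 4352922229) (nat_lit 0) (nat_lit 1870501799) (nat_lit 608) (nat_lit 2638291998) (nat_lit 75) (nat_lit 5) (nat_lit 74) (nat_lit 5) (nat_lit 82) (nat_lit 5) (nat_lit 257) (nat_lit 251) (nat_lit 212)) (XT.lf (nat_lit 0) (nat_lit 7486256088) (nat_lit 532) (nat_lit 680923750) (nat_lit 608) (nat_lit 889057773) (nat_lit 75) (nat_lit 5) (nat_lit 82) (nat_lit 5) (nat_lit 83) (nat_lit 5) (nat_lit 258) (nat_lit 251) (nat_lit 211))) (XT.nd (nat_lit 78) (nat_lit 608) (nat_lit 0) (XT.lf (nat_lit 76) (nat_lit 3377528065) (nat_lit 0) (nat_lit 5465512102) (nat_lit 608) (nat_lit 416208628) (nat_lit 76) (nat_lit 5) (nat_lit 75) (nat_lit 5) (nat_lit 83) (nat_lit 5) (nat_lit 259) (nat_lit 251) (nat_lit 210)) (XT.nd (nat_lit 78) (nat_lit 0) (nat_lit 76) (XT.lf (nat_lit 0) (nat_lit 729740052) (nat_lit 608) (nat_lit 1861517216) (nat_lit 684) (nat_lit 6882811225) (nat_lit 67) (nat_lit 5) (nat_lit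 75) (nat_lit 5) (nat_lit 76) (nat_lit 5) (nat_lit 260) (nat_lit 251) (nat_lit 209)) (XT.lf (nat_lit 0) (nat_lit 1914591865) (nat_lit 608) (nat_lit 7316027968) (nat_lit 76) (nat_lit 469151175) (nat_lit 68) (nat_lit 5) (nat_lit 76) (nat_lit 5) (nat_lit 69) (nat_lit 5) (nat_lit 261) (nat_lit 251) (nat_lit 208))))))))
noncomputable def xc147 : XT := (XT.nd (nat_lit 1326) (nat_lit 1216) (nat_lit 0) (XT.nd (nat_lit 624) (nat_lit 1140) (nat_lit 0) (XT.nd (nat_lit 312) (nat_lit 380) (nat_lit 0) (XT.nd (nat_lit 156) (nat_lit 684) (nat_lit 0) (XT.nd (nat_lit 78) (nat_lit 608) (nat_lit 0) (XT.lf (nat_lit 0) (nat_lit 3185824925) (nat_lit 608) (nat_lit 3112200352) (nat_lit 76) (nat_lit 3637626574) (nat_lit 68) (nat_lit 5) (nat_lit 76) (nat_lit 5) (nat_lit 69) (nat_lit 5) (nat_lit 262) (nat_lit 251) (nat_lit 207)) (XT.lf (nat_lit 0) (nat_lit 1305590918) (nat_lit 608) (nat_lit 3190285528) (nat_lit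 684) (nat_lit 5688925673) (nat_lit 60) (nat_lit 5) (nat_lit 68) (nat_lit 5) (nat_lit 69) (nat_lit 5) (nat_lit 263) (nat_lit 251) (nat_lit 206))) (XT.nd (nat_lit 78) (nat_lit 684) (nat_lit 0) (XT.lf (nat_lit 0) (nat_lit 5882672485) (nat_lit 684) (nat_lit 4433358363) (nat_lit 76) (nat_lit 130043832) (nat_lit 60) (nat_lit 5) (nat_lit 69) (nat_lit 5) (nat_lit 61) (nat_lit 5) (nat_lit 264) (nat_lit 251) (nat_lit 205)) (XT.lf (nat_lit 0) (nat_lit 149261987) (nat_lit 684) (nat_lit 7202780332) (nat_lit 760) (nat_lit 3367922925) (nat_lit 51) (nat_lit 5) (nat_lit 60) (nat_lit 5) (nat_lit 61) (nat_lit 5) (nat_lit 265) (nat_lit 251) (nat_lit 204)))) (XT.nd (nat_lit 156) (nat_lit 380) (nat_lit 0) (XT.nd (nat_lit 78) (nat_lit 0) (nat_lit 0) (XT.lf (nat_lit 0) (nat_lit 5077539811) (nat_lit 684) (nat_lit 3852413224) (nat_lit 760) (nat_lit 2076049469) (nat_lit 51) (nat_lit 5) (nat_lit 60) (nat_lit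 5) (nat_lit 61) (nat_lit 5) (nat_lit 266) (nat_lit 251) (nat_lit 203)) (XT.lf (nat_lit 0) (nat_lit 10216622253) (nat_lit 684) (nat_lit 332033528) (nat_lit 760) (nat_lit 759787005) (nat_lit 51) (nat_lit 5) (nat_lit 60) (nat_lit 5) (nat_lit 61) (nat_lit 5) (nat_lit 267) (nat_lit 251) (nat_lit 202))) (XT.nd (nat_lit 78) (nat_lit 0) (nat_lit 0) (XT.lf (nat_lit 0) (nat_lit 682637296) (nat_lit 380) (nat_lit 7606178527) (nat_lit 76) (nat_lit 3332867951) (nat_lit 46) (nat_lit 5) (nat_lit 51) (nat_lit 5) (nat_lit 47) (nat_lit 5) (nat_lit 268) (nat_lit 251) (nat_lit 201)) (XT.lf (nat_lit 0) (nat_lit 2160060733) (nat_lit 380) (nat_lit 2588487001) (nat_lit 76) (nat_lit 7202165013) (nat_lit 46) (nat_lit 5) (nat_lit 51) (nat_lit 5) (nat_lit 47) (nat_lit 5) (nat_lit 269) (nat_lit 251) (nat_lit 200))))) (XT.nd (nat_lit 312) (nat_lit 608) (nat_lit 0) (XT.nd (nat_lit 156) (nat_lit 228) (nat_lit 0) (XT.nd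 (nat_lit 78) (nat_lit 0) (nat_lit 0) (XT.lf (nat_lit 0) (nat_lit 2732571543) (nat_lit 304) (nat_lit 987327795) (nat_lit 380) (nat_lit 8576027869) (nat_lit 42) (nat_lit 5) (nat_lit 46) (nat_lit 5) (nat_lit 47) (nat_lit 5) (nat_lit 270) (nat_lit 251) (nat_lit 199)) (XT.lf (nat_lit 0) (nat_lit 5415476960) (nat_lit 380) (nat_lit 4329820469) (nat_lit 76) (nat_lit 2910371167) (nat_lit 42) (nat_lit 5) (nat_lit 47) (nat_lit 5) (nat_lit 43) (nat_lit 5) (nat_lit 271) (nat_lit 251) (nat_lit 198))) (XT.nd (nat_lit 78) (nat_lit 0) (nat_lit 0) (XT.lf (nat_lit 0) (nat_lit 1151591180) (nat_lit 228) (nat_lit 6046928287) (nat_lit 304) (nat_lit 5834889536) (nat_lit 39) (nat_lit 5) (nat_lit 42) (nat_lit 5) (nat_lit 43) (nat_lit 5) (nat_lit 272) (nat_lit 251) (nat_lit 197)) (XT.lf (nat_lit 0) (nat_lit 7023478300) (nat_lit 228) (nat_lit 2090053616) (nat_lit 304) (nat_lit 4314502906) (nat_lit 39) (nat_lit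 5) (nat_lit 42) (nat_lit 5) (nat_lit 43) (nat_lit 5) (nat_lit 273) (nat_lit 251) (nat_lit 196)))) (XT.nd (nat_lit 156) (nat_lit 304) (nat_lit 0) (XT.nd (nat_lit 78) (nat_lit 304) (nat_lit 0) (XT.lf (nat_lit 0) (nat_lit 11127422596) (nat_lit 304) (nat_lit 719503819) (nat_lit 76) (nat_lit 1995441788) (nat_lit 39) (nat_lit 5) (nat_lit 43) (nat_lit 5) (nat_lit 40) (nat_lit 5) (nat_lit 274) (nat_lit 251) (nat_lit 195)) (XT.lf (nat_lit 0) (nat_lit 5354696885) (nat_lit 304) (nat_lit 7977454400) (nat_lit 380) (nat_lit 940886129) (nat_lit 35) (nat_lit 5) (nat_lit 39) (nat_lit 5) (nat_lit 40) (nat_lit 5) (nat_lit 275) (nat_lit 251) (nat_lit 194))) (XT.nd (nat_lit 78) (nat_lit 228) (nat_lit 0) (XT.lf (nat_lit 0) (nat_lit 877301572) (nat_lit 380) (nat_lit 3014364260) (nat_lit 76) (nat_lit 10833722635) (nat_lit 34) (nat_lit 5) (nat_lit 39) (nat_lit 5) (nat_lit 35) (nat_lit 5) (nat_lit 276) (nat_lit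 251) (nat_lit 193)) (XT.nd (nat_lit 78) (nat_lit 0) (nat_lit 0) (XT.lf (nat_lit 0) (nat_lit 2786473141) (nat_lit 304) (nat_lit 11963715262) (nat_lit 76) (nat_lit 447921864) (nat_lit 31) (nat_lit 5) (nat_lit 35) (nat_lit 5) (nat_lit 32) (nat_lit 5) (nat_lit 277) (nat_lit 251) (nat_lit 192)) (XT.lf (nat_lit 0) (nat_lit 4881324908) (nat_lit 304) (nat_lit 5888263189) (nat_lit 76) (nat_lit 4920472915) (nat_lit 31) (nat_lit 5) (nat_lit 35) (nat_lit 5) (nat_lit 32) (nat_lit 5) (nat_lit 278) (nat_lit 251) (nat_lit 191))))))) (XT.nd (nat_lit 624) (nat_lit 532) (nat_lit 0) (XT.nd (nat_lit 312) (nat_lit 304) (nat_lit 0) (XT.nd (nat_lit 156) (nat_lit 152) (nat_lit 0) (XT.nd (nat_lit 78) (nat_lit 0) (nat_lit 0) (XT.lf (nat_lit 0) (nat_lit 475753333) (nat_lit 228) (nat_lit 6588343506) (nat_lit 304) (nat_lit 9143452564) (nat_lit 28) (nat_lit 5) (nat_lit 31) (nat_lit 5) (nat_lit 32) (nat_lit 5) (nat_lit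 279) (nat_lit 251) (nat_lit 190)) (XT.lf (nat_lit 0) (nat_lit 7332453543) (nat_lit 228) (nat_lit 2099711402) (nat_lit 304) (nat_lit 7315033659) (nat_lit 28) (nat_lit 5) (nat_lit 31) (nat_lit 5) (nat_lit 32) (nat_lit 5) (nat_lit 280) (nat_lit 251) (nat_lit 189))) (XT.nd (nat_lit 78) (nat_lit 152) (nat_lit 0) (XT.lf (nat_lit 0) (nat_lit 11936902366) (nat_lit 304) (nat_lit 2852278622) (nat_lit 76) (nat_lit 2523825767) (nat_lit 28) (nat_lit 5) (nat_lit 32) (nat_lit 5) (nat_lit 29) (nat_lit 5) (nat_lit 281) (nat_lit 251) (nat_lit 188)) (XT.lf (nat_lit 0) (nat_lit 4107118940) (nat_lit 152) (nat_lit 10536840143) (nat_lit 228) (nat_lit 3259377617) (nat_lit 26) (nat_lit 5) (nat_lit 28) (nat_lit 5) (nat_lit 29) (nat_lit 5) (nat_lit 282) (nat_lit 251) (nat_lit 187)))) (XT.nd (nat_lit 156) (nat_lit 0) (nat_lit 0) (XT.nd (nat_lit 78) (nat_lit 304) (nat_lit 0) (XT.lf (nat_lit 0) (nat_lit 11485742124)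 (nat_lit 152) (nat_lit 6028057003) (nat_lit 228) (nat_lit 1008093926) (nat_lit 26) (nat_lit 5) (nat_lit 28) (nat_lit 5) (nat_lit 29) (nat_lit 5) (nat_lit 283) (nat_lit 251) (nat_lit 186)) (XT.lf (nat_lit 0) (nat_lit 14009462) (nat_lit 228) (nat_lit 1278289423) (nat_lit 304) (nat_lit 17879096973) (nat_lit 22) (nat_lit 5) (nat_lit 25) (nat_lit 5) (nat_lit 26) (nat_lit 5) (nat_lit 284) (nat_lit 251) (nat_lit 185))) (XT.nd (nat_lit 78) (nat_lit 0) (nat_lit 0) (XT.lf (nat_lit 0) (nat_lit 3833011508) (nat_lit 304) (nat_lit 12290545468) (nat_lit 76) (nat_lit 3721101930) (nat_lit 22) (nat_lit 5) (nat_lit 26) (nat_lit 5) (nat_lit 23) (nat_lit 5) (nat_lit 285) (nat_lit 251) (nat_lit 184)) (XT.lf (nat_lit 0) (nat_lit 6502817518) (nat_lit 304) (nat_lit 5127698912) (nat_lit 76) (nat_lit 8921032789) (nat_lit 22) (nat_lit 5) (nat_lit 26) (nat_lit 5) (nat_lit 23) (nat_lit 5) (nat_lit 286) (nat_lit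 251) (nat_lit 183))))) (XT.nd (nat_lit 312) (nat_lit 228) (nat_lit 0) (XT.nd (nat_lit 156) (nat_lit 152) (nat_lit 0) (XT.nd (nat_lit 78) (nat_lit 0) (nat_lit 0) (XT.lf (nat_lit 0) (nat_lit 2446467589) (nat_lit 152) (nat_lit 6879844540) (nat_lit 228) (nat_lit 11966525808) (nat_lit 20) (nat_lit 5) (nat_lit 22) (nat_lit 5) (nat_lit 23) (nat_lit 5) (nat_lit 287) (nat_lit 251) (nat_lit 182)) (XT.lf (nat_lit 0) (nat_lit 10552645156) (nat_lit 152) (nat_lit 1807649569) (nat_lit 228) (nat_lit 9707491473) (nat_lit 20) (nat_lit 5) (nat_lit 22) (nat_lit 5) (nat_lit 23) (nat_lit 5) (nat_lit 288) (nat_lit 251) (nat_lit 181))) (XT.nd (nat_lit 78) (nat_lit 152) (nat_lit 0) (XT.lf (nat_lit 0) (nat_lit 15584105566) (nat_lit 228) (nat_lit 3896606344) (nat_lit 76) (nat_lit 3398921383) (nat_lit 20) (nat_lit 5) (nat_lit 23) (nat_lit 5) (nat_lit 21) (nat_lit 5) (nat_lit 289) (nat_lit 251) (nat_lit 180))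 (XT.lf (nat_lit 0) (nat_lit 4183965161) (nat_lit 152) (nat_lit 14864099620) (nat_lit 228) (nat_lit 4680115188) (nat_lit 18) (nat_lit 5) (nat_lit 20) (nat_lit 5) (nat_lit 21) (nat_lit 5) (nat_lit 290) (nat_lit 251) (nat_lit 179)))) (XT.nd (nat_lit 156) (nat_lit 152) (nat_lit 0) (XT.nd (nat_lit 78) (nat_lit 76) (nat_lit 0) (XT.lf (nat_lit 0) (nat_lit 12781050972) (nat_lit 152) (nat_lit 9954568673) (nat_lit 228) (nat_lit 1881066944) (nat_lit 18) (nat_lit 5) (nat_lit 20) (nat_lit 5) (nat_lit 21) (nat_lit 5) (nat_lit 291) (nat_lit 251) (nat_lit 178)) (XT.lf (nat_lit 0) (nat_lit 1008930685) (nat_lit 228) (nat_lit 3780403210) (nat_lit 76) (nat_lit 20760263522) (nat_lit 17) (nat_lit 5) (nat_lit 20) (nat_lit 5) (nat_lit 18) (nat_lit 5) (nat_lit 292) (nat_lit 251) (nat_lit 177))) (XT.nd (nat_lit 78) (nat_lit 0) (nat_lit 0) (XT.lf (nat_lit 0) (nat_lit 4051920093) (nat_lit 228) (nat_lit 21757674990)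 (nat_lit 76) (nat_lit 714476787) (nat_lit 15) (nat_lit 5) (nat_lit 18) (nat_lit 5) (nat_lit 16) (nat_lit 5) (nat_lit 293) (nat_lit 251) (nat_lit 176)) (XT.nd (nat_lit 78) (nat_lit 0) (nat_lit 0) (XT.lf (nat_lit 0) (nat_lit 7376478689) (nat_lit 228) (nat_lit 13773344778) (nat_lit 76) (nat_lit 6391018781) (nat_lit 15) (nat_lit 5) (nat_lit 18) (nat_lit 5) (nat_lit 16) (nat_lit 5) (nat_lit 294) (nat_lit 251) (nat_lit 175)) (XT.lf (nat_lit 0) (nat_lit 10853773339) (nat_lit 228) (nat_lit 5410271095) (nat_lit 76) (nat_lit 12345122433) (nat_lit 15) (nat_lit 5) (nat_lit 18) (nat_lit 5) (nat_lit 16) (nat_lit 5) (nat_lit 295) (nat_lit 251) (nat_lit 174))))))))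
noncomputable def xc148 : XT := (XT.nd (nat_lit 1248) (nat_lit 304) (nat_lit 0) (XT.nd (nat_lit 624) (nat_lit 76) (nat_lit 0) (XT.nd (nat_lit 312) (nat_lit 304) (nat_lit 0) (XT.nd (nat_lit 156) (nat_lit 0) (nat_lit 0) (XT.nd (nat_lit 78) (nat_lit 0) (nat_lit 0) (XT.lf (nat_lit 0) (nat_lit 3462272478) (nat_lit 152) (nat_lit 11083866615) (nat_lit 228) (nat_lit 15182747479) (nat_lit 13) (nat_lit 5) (nat_lit 15) (nat_lit 5) (nat_lit 16) (nat_lit 5) (nat_lit 296) (nat_lit 251) (nat_lit 173)) (XT.lf (nat_lit 0) (nat_lit 12947091979) (nat_lit 152) (nat_lit 5555119677) (nat_lit 228) (nat_lit 12398463487) (nat_lit 13) (nat_lit 5) (nat_lit 15) (nat_lit 5) (nat_lit 16) (nat_lit 5) (nat_lit 297) (nat_lit 251) (nat_lit 172))) (XT.nd (nat_lit 78) (nat_lit 0) (nat_lit 0) (XT.lf (nat_lit 0) (nat_lit 22647953191) (nat_lit 228) (nat_lit 9247608740) (nat_lit 76) (nat_lit 235933476) (nat_lit 13) (nat_lit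 5) (nat_lit 16) (nat_lit 5) (nat_lit 14) (nat_lit 4) (nat_lit 298) (nat_lit 251) (nat_lit 171)) (XT.lf (nat_lit 0) (nat_lit 27080583749) (nat_lit 228) (nat_lit 215311551) (nat_lit 76) (nat_lit 6124015125) (nat_lit 13) (nat_lit 5) (nat_lit 16) (nat_lit 5) (nat_lit 14) (nat_lit 4) (nat_lit 299) (nat_lit 251) (nat_lit 170)))) (XT.nd (nat_lit 156) (nat_lit 152) (nat_lit 0) (XT.nd (nat_lit 78) (nat_lit 76) (nat_lit 0) (XT.lf (nat_lit 0) (nat_lit 9557442712) (nat_lit 76) (nat_lit 22315701980) (nat_lit 152) (nat_lit 2892718785) (nat_lit 12) (nat_lit 5) (nat_lit 13) (nat_lit 5) (nat_lit 14) (nat_lit 4) (nat_lit 300) (nat_lit 251) (nat_lit 169)) (XT.lf (nat_lit 0) (nat_lit 695816014) (nat_lit 152) (nat_lit 16381189203) (nat_lit 76) (nat_lit 19101929276) (nat_lit 11) (nat_lit 5) (nat_lit 13) (nat_lit 5) (nat_lit 12) (nat_lit 5) (nat_lit 301) (nat_lit 251) (nat_lit 168))) (XT.nd (nat_lit 78)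 (nat_lit 152) (nat_lit 0) (XT.lf (nat_lit 0) (nat_lit 4356214560) (nat_lit 152) (nat_lit 7176369169) (nat_lit 76) (nat_lit 26128249523) (nat_lit 11) (nat_lit 5) (nat_lit 13) (nat_lit 5) (nat_lit 12) (nat_lit 5) (nat_lit 302) (nat_lit 251) (nat_lit 167)) (XT.lf (nat_lit 0) (nat_lit 2554891504) (nat_lit 152) (nat_lit 5674774665) (nat_lit 228) (nat_lit 30985685636) (nat_lit 9) (nat_lit 5) (nat_lit 11) (nat_lit 5) (nat_lit 12) (nat_lit 5) (nat_lit 303) (nat_lit 251) (nat_lit 166))))) (XT.nd (nat_lit 312) (nat_lit 0) (nat_lit 0) (XT.nd (nat_lit 156) (nat_lit 76) (nat_lit 0) (XT.nd (nat_lit 78) (nat_lit 0) (nat_lit 0) (XT.lf (nat_lit 0) (nat_lit 12418033850) (nat_lit 228) (nat_lit 27844819161) (nat_lit 76) (nat_lit 578706352) (nat_lit 9) (nat_lit 5) (nat_lit 12) (nat_lit 5) (nat_lit 10) (nat_lit 4) (nat_lit 304) (nat_lit 251) (nat_lit 165)) (XT.lf (nat_lit 0) (nat_lit 16899596916) (nat_lit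 228) (nat_lit 18696414846) (nat_lit 76) (nat_lit 6948900734) (nat_lit 9) (nat_lit 5) (nat_lit 12) (nat_lit 5) (nat_lit 10) (nat_lit 4) (nat_lit 305) (nat_lit 251) (nat_lit 164))) (XT.nd (nat_lit 78) (nat_lit 76) (nat_lit 0) (XT.lf (nat_lit 0) (nat_lit 21596426620) (nat_lit 228) (nat_lit 9104866306) (nat_lit 76) (nat_lit 13632603839) (nat_lit 9) (nat_lit 5) (nat_lit 12) (nat_lit 5) (nat_lit 10) (nat_lit 4) (nat_lit 306) (nat_lit 251) (nat_lit 163)) (XT.lf (nat_lit 0) (nat_lit 984162834) (nat_lit 76) (nat_lit 25550908594) (nat_lit 152) (nat_lit 19676931952) (nat_lit 8) (nat_lit 5) (nat_lit 9) (nat_lit 5) (nat_lit 10) (nat_lit 4) (nat_lit 307) (nat_lit 251) (nat_lit 162)))) (XT.nd (nat_lit 156) (nat_lit 0) (nat_lit 0) (XT.nd (nat_lit 78) (nat_lit 0) (nat_lit 0) (XT.lf (nat_lit 0) (nat_lit 11880366942) (nat_lit 76) (nat_lit 19986275696) (nat_lit 152) (nat_lit 16310093752) (nat_lit 8) (nat_lit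 5) (nat_lit 9) (nat_lit 5) (nat_lit 10) (nat_lit 4) (nat_lit 308) (nat_lit 251) (nat_lit 161)) (XT.lf (nat_lit 0) (nat_lit 23308641362) (nat_lit 76) (nat_lit 14148340424) (nat_lit 152) (nat_lit 12783134582) (nat_lit 8) (nat_lit 5) (nat_lit 9) (nat_lit 5) (nat_lit 10) (nat_lit 4) (nat_lit 309) (nat_lit 251) (nat_lit 160))) (XT.nd (nat_lit 78) (nat_lit 0) (nat_lit 0) (XT.lf (nat_lit 0) (nat_lit 35296196270) (nat_lit 76) (nat_lit 8023202930) (nat_lit 152) (nat_lit 9087656920) (nat_lit 8) (nat_lit 5) (nat_lit 9) (nat_lit 5) (nat_lit 10) (nat_lit 4) (nat_lit 310) (nat_lit 251) (nat_lit 159)) (XT.lf (nat_lit 0) (nat_lit 47871573464) (nat_lit 76) (nat_lit 1596279555) (nat_lit 152) (nat_lit 5214862010) (nat_lit 8) (nat_lit 5) (nat_lit 9) (nat_lit 5) (nat_lit 10) (nat_lit 4) (nat_lit 311) (nat_lit 251) (nat_lit 158)))))) (XT.nd (nat_lit 624) (nat_lit 76) (nat_lit 0) (XT.nd (nat_lit 312) (nat_lit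 76) (nat_lit 0) (XT.nd (nat_lit 156) (nat_lit 0) (nat_lit 0) (XT.nd (nat_lit 78) (nat_lit 76) (nat_lit 0) (XT.lf (nat_lit 0) (nat_lit 4041175313) (nat_lit 76) (nat_lit 52019271698) (nat_lit 76) (nat_lit 1004891088) (nat_lit 7) (nat_lit 4) (nat_lit 8) (nat_lit 5) (nat_lit 8) (nat_lit 4) (nat_lit 312) (nat_lit 251) (nat_lit 157)) (XT.lf (nat_lit 0) (nat_lit 3442880431) (nat_lit 152) (nat_lit 43981486532) (nat_lit 76) (nat_lit 12133243431) (nat_lit 6) (nat_lit 5) (nat_lit 8) (nat_lit 5) (nat_lit 7) (nat_lit 4) (nat_lit 313) (nat_lit 251) (nat_lit 156))) (XT.nd (nat_lit 78) (nat_lit 0) (nat_lit 0) (XT.lf (nat_lit 0) (nat_lit 8072805227) (nat_lit 152) (nat_lit 34513960515) (nat_lit 76) (nat_lit 19587244861) (nat_lit 6) (nat_lit 5) (nat_lit 8) (nat_lit 5) (nat_lit 7) (nat_lit 4) (nat_lit 314) (nat_lit 251) (nat_lit 155)) (XT.lf (nat_lit 0) (nat_lit 12928069722) (nat_lit 152) (nat_lit 24583353841)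 (nat_lit 76) (nat_lit 27410129149) (nat_lit 6) (nat_lit 5) (nat_lit 8) (nat_lit 5) (nat_lit 7) (nat_lit 4) (nat_lit 315) (nat_lit 251) (nat_lit 154)))) (XT.nd (nat_lit 156) (nat_lit 76) (nat_lit 0) (XT.nd (nat_lit 78) (nat_lit 0) (nat_lit 0) (XT.lf (nat_lit 0) (nat_lit 18020234067) (nat_lit 152) (nat_lit 14166022209) (nat_lit 76) (nat_lit 35620522209) (nat_lit 6) (nat_lit 5) (nat_lit 8) (nat_lit 5) (nat_lit 7) (nat_lit 4) (nat_lit 316) (nat_lit 251) (nat_lit 153)) (XT.lf (nat_lit 0) (nat_lit 23361422464) (nat_lit 152) (nat_lit 3237162447) (nat_lit 76) (nat_lit 44237972597) (nat_lit 6) (nat_lit 5) (nat_lit 8) (nat_lit 5) (nat_lit 7) (nat_lit 4) (nat_lit 317) (nat_lit 251) (nat_lit 152))) (XT.nd (nat_lit 78) (nat_lit 0) (nat_lit 0) (XT.lf (nat_lit 0) (nat_lit 8501342592) (nat_lit 76) (nat_lit 20595739219) (nat_lit 152) (nat_lit 44914385242) (nat_lit 5) (nat_lit 5) (nat_lit 6) (nat_lit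 5) (nat_lit 7) (nat_lit 4) (nat_lit 318) (nat_lit 251) (nat_lit 151)) (XT.lf (nat_lit 0) (nat_lit 20930409539) (nat_lit 76) (nat_lit 14238735880) (nat_lit 152) (nat_lit 42173507159) (nat_lit 5) (nat_lit 5) (nat_lit 6) (nat_lit 5) (nat_lit 7) (nat_lit 4) (nat_lit 319) (nat_lit 251) (nat_lit 150))))) (XT.nd (nat_lit 312) (nat_lit 76) (nat_lit 0) (XT.nd (nat_lit 156) (nat_lit 0) (nat_lit 0) (XT.nd (nat_lit 78) (nat_lit 0) (nat_lit 0) (XT.lf (nat_lit 0) (nat_lit 33972596197) (nat_lit 76) (nat_lit 7567262085) (nat_lit 152) (nat_lit 39300797808) (nat_lit 5) (nat_lit 5) (nat_lit 6) (nat_lit 5) (nat_lit 7) (nat_lit 4) (nat_lit 320) (nat_lit 251) (nat_lit 149)) (XT.lf (nat_lit 0) (nat_lit 47658955394) (nat_lit 76) (nat_lit 565433374) (nat_lit 152) (nat_lit 36289417405) (nat_lit 5) (nat_lit 5) (nat_lit 6) (nat_lit 5) (nat_lit 7) (nat_lit 4) (nat_lit 321) (nat_lit 251) (nat_lit 148))) (XT.nd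 (nat_lit 78) (nat_lit 0) (nat_lit 0) (XT.lf (nat_lit 0) (nat_lit 55344560641) (nat_lit 152) (nat_lit 26454682938) (nat_lit 0) (nat_lit 6566309430) (nat_lit 5) (nat_lit 5) (nat_lit 7) (nat_lit 4) (nat_lit 5) (nat_lit 4) (nat_lit 322) (nat_lit 251) (nat_lit 147)) (XT.lf (nat_lit 0) (nat_lit 62825685539) (nat_lit 152) (nat_lit 15551152916) (nat_lit 0) (nat_lit 14032811027) (nat_lit 5) (nat_lit 5) (nat_lit 7) (nat_lit 4) (nat_lit 5) (nat_lit 4) (nat_lit 323) (nat_lit 251) (nat_lit 146)))) (XT.nd (nat_lit 156) (nat_lit 0) (nat_lit 0) (XT.nd (nat_lit 78) (nat_lit 76) (nat_lit 0) (XT.lf (nat_lit 0) (nat_lit 70676747665) (nat_lit 152) (nat_lit 4109471927) (nat_lit 0) (nat_lit 21869946201) (nat_lit 5) (nat_lit 5) (nat_lit 7) (nat_lit 4) (nat_lit 5) (nat_lit 4) (nat_lit 324) (nat_lit 251) (nat_lit 145)) (XT.lf (nat_lit 0) (nat_lit 8158732518) (nat_lit 76) (nat_lit 70885088187) (nat_lit 76) (nat_lit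 22065022957) (nat_lit 4) (nat_lit 4) (nat_lit 5) (nat_lit 5) (nat_lit 5) (nat_lit 4) (nat_lit 325) (nat_lit 251) (nat_lit 144))) (XT.nd (nat_lit 78) (nat_lit 0) (nat_lit 0) (XT.lf (nat_lit 0) (nat_lit 21176435706) (nat_lit 76) (nat_lit 66718568736) (nat_lit 76) (nat_lit 17885871350) (nat_lit 4) (nat_lit 4) (nat_lit 5) (nat_lit 5) (nat_lit 5) (nat_lit 4) (nat_lit 326) (nat_lit 251) (nat_lit 143)) (XT.nd (nat_lit 78) (nat_lit 0) (nat_lit 0) (XT.lf (nat_lit 0) (nat_lit 34838754467) (nat_lit 76) (nat_lit 62346336853) (nat_lit 76) (nat_lit 13501608841) (nat_lit 4) (nat_lit 4) (nat_lit 5) (nat_lit 5) (nat_lit 5) (nat_lit 4) (nat_lit 327) (nat_lit 251) (nat_lit 142)) (XT.lf (nat_lit 0) (nat_lit 49178218131) (nat_lit 76) (nat_lit 57757982461) (nat_lit 76) (nat_lit 8901796710) (nat_lit 4) (nat_lit 4) (nat_lit 5) (nat_lit 5) (nat_lit 5) (nat_lit 4) (nat_lit 328) (nat_lit 251) (nat_lit 141))))))))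
noncomputable def xc149 : XT := (XT.nd (nat_lit 1326) (nat_lit 76) (nat_lit 0) (XT.nd (nat_lit 624) (nat_lit 0) (nat_lit 0) (XT.nd (nat_lit 312) (nat_lit 76) (nat_lit 0) (XT.nd (nat_lit 156) (nat_lit 0) (nat_lit 0) (XT.nd (nat_lit 78) (nat_lit 76) (nat_lit 0) (XT.lf (nat_lit 0) (nat_lit 64228968278) (nat_lit 76) (nat_lit 52942580907) (nat_lit 76) (nat_lit 4075483024) (nat_lit 4) (nat_lit 4) (nat_lit 5) (nat_lit 5) (nat_lit 5) (nat_lit 4) (nat_lit 329) (nat_lit 251) (nat_lit 140)) (XT.lf (nat_lit 0) (nat_lit 957174914) (nat_lit 152) (nat_lit 46915281814) (nat_lit 76) (nat_lit 79053454893) (nat_lit 3) (nat_lit 5) (nat_lit 5) (nat_lit 5) (nat_lit 4) (nat_lit 4) (nat_lit 330) (nat_lit 251) (nat_lit 139))) (XT.nd (nat_lit 78) (nat_lit 0) (nat_lit 0) (XT.lf (nat_lit 0) (nat_lit 6101439414) (nat_lit 152) (nat_lit 36379437215) (nat_lit 76) (nat_lit 90404677118) (nat_lit 3) (nat_lit 5) (nat_lit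 5) (nat_lit 5) (nat_lit 4) (nat_lit 4) (nat_lit 331) (nat_lit 251) (nat_lit 138)) (XT.lf (nat_lit 0) (nat_lit 11499999630) (nat_lit 152) (nat_lit 25321815081) (nat_lit 76) (nat_lit 102321514987) (nat_lit 3) (nat_lit 5) (nat_lit 5) (nat_lit 5) (nat_lit 4) (nat_lit 4) (nat_lit 332) (nat_lit 251) (nat_lit 137)))) (XT.nd (nat_lit 156) (nat_lit 76) (nat_lit 0) (XT.nd (nat_lit 78) (nat_lit 0) (nat_lit 0) (XT.lf (nat_lit 0) (nat_lit 17165709279) (nat_lit 152) (nat_lit 13716087739) (nat_lit 76) (nat_lit 114832341921) (nat_lit 3) (nat_lit 5) (nat_lit 5) (nat_lit 5) (nat_lit 4) (nat_lit 4) (nat_lit 333) (nat_lit 251) (nat_lit 136)) (XT.lf (nat_lit 0) (nat_lit 23112058146) (nat_lit 152) (nat_lit 1534622504) (nat_lit 76) (nat_lit 127966945606) (nat_lit 3) (nat_lit 5) (nat_lit 5) (nat_lit 5) (nat_lit 4) (nat_lit 4) (nat_lit 334) (nat_lit 251) (nat_lit 135))) (XT.nd (nat_lit 78) (nat_lit 0) (nat_lit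 0) (XT.lf (nat_lit 0) (nat_lit 11623612294) (nat_lit 76) (nat_lit 17911069071) (nat_lit 152) (nat_lit 130314463774) (nat_lit 2) (nat_lit 5) (nat_lit 3) (nat_lit 5) (nat_lit 4) (nat_lit 4) (nat_lit 335) (nat_lit 251) (nat_lit 134)) (XT.lf (nat_lit 0) (nat_lit 25488775450) (nat_lit 76) (nat_lit 10813183088) (nat_lit 152) (nat_lit 131143310095) (nat_lit 2) (nat_lit 5) (nat_lit 3) (nat_lit 5) (nat_lit 4) (nat_lit 4) (nat_lit 336) (nat_lit 251) (nat_lit 133))))) (XT.nd (nat_lit 312) (nat_lit 0) (nat_lit 0) (XT.nd (nat_lit 156) (nat_lit 0) (nat_lit 0) (XT.nd (nat_lit 78) (nat_lit 0) (nat_lit 0) (XT.lf (nat_lit 0) (nat_lit 40043137705) (nat_lit 76) (nat_lit 3362112548) (nat_lit 152) (nat_lit 132016070093) (nat_lit 2) (nat_lit 5) (nat_lit 3) (nat_lit 5) (nat_lit 4) (nat_lit 4) (nat_lit 337) (nat_lit 251) (nat_lit 132)) (XT.lf (nat_lit 0) (nat_lit 50931100384) (nat_lit 152) (nat_lit 128544569850)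 (nat_lit 0) (nat_lit 4317139078) (nat_lit 2) (nat_lit 5) (nat_lit 4) (nat_lit 4) (nat_lit 2) (nat_lit 4) (nat_lit 338) (nat_lit 251) (nat_lit 131))) (XT.nd (nat_lit 78) (nat_lit 0) (nat_lit 0) (XT.lf (nat_lit 0) (nat_lit 58886204510) (nat_lit 152) (nat_lit 121428161189) (nat_lit 0) (nat_lit 12265863106) (nat_lit 2) (nat_lit 5) (nat_lit 4) (nat_lit 4) (nat_lit 2) (nat_lit 4) (nat_lit 339) (nat_lit 251) (nat_lit 130)) (XT.lf (nat_lit 0) (nat_lit 67237011354) (nat_lit 152) (nat_lit 113959520830) (nat_lit 0) (nat_lit 20610593666) (nat_lit 2) (nat_lit 5) (nat_lit 4) (nat_lit 4) (nat_lit 2) (nat_lit 4) (nat_lit 340) (nat_lit 251) (nat_lit 129)))) (XT.nd (nat_lit 156) (nat_lit 0) (nat_lit 0) (XT.nd (nat_lit 78) (nat_lit 0) (nat_lit 0) (XT.lf (nat_lit 0) (nat_lit 76003403791) (nat_lit 152) (nat_lit 106120866295) (nat_lit 0) (nat_lit 29371199166) (nat_lit 2) (nat_lit 5) (nat_lit 4) (nat_lit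 4) (nat_lit 2) (nat_lit 4) (nat_lit 341) (nat_lit 251) (nat_lit 128)) (XT.lf (nat_lit 0) (nat_lit 85206254183) (nat_lit 152) (nat_lit 97893534121) (nat_lit 0) (nat_lit 38568538190) (nat_lit 2) (nat_lit 5) (nat_lit 4) (nat_lit 4) (nat_lit 2) (nat_lit 4) (nat_lit 342) (nat_lit 251) (nat_lit 127))) (XT.nd (nat_lit 78) (nat_lit 0) (nat_lit 0) (XT.lf (nat_lit 0) (nat_lit 94867474079) (nat_lit 152) (nat_lit 89257935422) (nat_lit 0) (nat_lit 48224509164) (nat_lit 2) (nat_lit 5) (nat_lit 4) (nat_lit 4) (nat_lit 2) (nat_lit 4) (nat_lit 343) (nat_lit 251) (nat_lit 126)) (XT.nd (nat_lit 78) (nat_lit 0) (nat_lit 0) (XT.lf (nat_lit 0) (nat_lit 105010066383) (nat_lit 152) (nat_lit 80193509248) (nat_lit 0) (nat_lit 58362102495) (nat_lit 2) (nat_lit 5) (nat_lit 4) (nat_lit 4) (nat_lit 2) (nat_lit 4) (nat_lit 344) (nat_lit 251) (nat_lit 125)) (XT.lf (nat_lit 0) (nat_lit 115658180125) (nat_lit 152)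 (nat_lit 70678673634) (nat_lit 0) (nat_lit 69005455310) (nat_lit 2) (nat_lit 5) (nat_lit 4) (nat_lit 4) (nat_lit 2) (nat_lit 4) (nat_lit 345) (nat_lit 251) (nat_lit 124))))))) (XT.nd (nat_lit 624) (nat_lit 0) (nat_lit 0) (XT.nd (nat_lit 312) (nat_lit 76) (nat_lit 0) (XT.nd (nat_lit 156) (nat_lit 0) (nat_lit 0) (XT.nd (nat_lit 78) (nat_lit 0) (nat_lit 0) (XT.lf (nat_lit 0) (nat_lit 126837167957) (nat_lit 152) (nat_lit 60690774207) (nat_lit 0) (nat_lit 80179908925) (nat_lit 2) (nat_lit 5) (nat_lit 4) (nat_lit 4) (nat_lit 2) (nat_lit 4) (nat_lit 346) (nat_lit 251) (nat_lit 123)) (XT.lf (nat_lit 0) (nat_lit 138573646516) (nat_lit 152) (nat_lit 50206030256) (nat_lit 0) (nat_lit 91912069183) (nat_lit 2) (nat_lit 5) (nat_lit 4) (nat_lit 4) (nat_lit 2) (nat_lit 4) (nat_lit 347) (nat_lit 251) (nat_lit 122))) (XT.nd (nat_lit 78) (nat_lit 0) (nat_lit 0) (XT.lf (nat_lit 0) (nat_lit 150895559798)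 (nat_lit 152) (nat_lit 39199478103) (nat_lit 0) (nat_lit 104229869797) (nat_lit 2) (nat_lit 5) (nat_lit 4) (nat_lit 4) (nat_lit 2) (nat_lit 4) (nat_lit 348) (nat_lit 251) (nat_lit 121)) (XT.lf (nat_lit 0) (nat_lit 163832245693) (nat_lit 152) (nat_lit 27644911674) (nat_lit 0) (nat_lit 117162638866) (nat_lit 2) (nat_lit 5) (nat_lit 4) (nat_lit 4) (nat_lit 2) (nat_lit 4) (nat_lit 349) (nat_lit 251) (nat_lit 120)))) (XT.nd (nat_lit 156) (nat_lit 76) (nat_lit 0) (XT.nd (nat_lit 78) (nat_lit 0) (nat_lit 0) (XT.lf (nat_lit 0) (nat_lit 177414505833) (nat_lit 152) (nat_lit 15514820094) (nat_lit 0) (nat_lit 130741168695) (nat_lit 2) (nat_lit 5) (nat_lit 4) (nat_lit 4) (nat_lit 2) (nat_lit 4) (nat_lit 350) (nat_lit 251) (nat_lit 119)) (XT.lf (nat_lit 0) (nat_lit 191674678934) (nat_lit 152) (nat_lit 2780322194) (nat_lit 0) (nat_lit 144997789119) (nat_lit 2) (nat_lit 5) (nat_lit 4) (nat_lit 4)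 (nat_lit 2) (nat_lit 4) (nat_lit 351) (nat_lit 251) (nat_lit 118))) (XT.nd (nat_lit 78) (nat_lit 0) (nat_lit 0) (XT.lf (nat_lit 0) (nat_lit 10939019188) (nat_lit 76) (nat_lit 195878487345) (nat_lit 76) (nat_lit 149198214028) (nat_lit 1) (nat_lit 4) (nat_lit 2) (nat_lit 5) (nat_lit 2) (nat_lit 4) (nat_lit 352) (nat_lit 251) (nat_lit 117)) (XT.lf (nat_lit 0) (nat_lit 25438888038) (nat_lit 76) (nat_lit 197324554403) (nat_lit 76) (nat_lit 150641058702) (nat_lit 1) (nat_lit 4) (nat_lit 2) (nat_lit 5) (nat_lit 2) (nat_lit 4) (nat_lit 353) (nat_lit 251) (nat_lit 116))))) (XT.nd (nat_lit 29640) (nat_lit 0) (nat_lit 5472) (XT.nd (nat_lit 156) (nat_lit 0) (nat_lit 0) (XT.nd (nat_lit 78) (nat_lit 0) (nat_lit 0) (XT.lf (nat_lit 0) (nat_lit 40661877845) (nat_lit 76) (nat_lit 198843731418) (nat_lit 76) (nat_lit 152157166782) (nat_lit 1) (nat_lit 4) (nat_lit 2) (nat_lit 5) (nat_lit 2) (nat_lit 4)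 (nat_lit 354) (nat_lit 251) (nat_lit 115)) (XT.lf (nat_lit 0) (nat_lit 56644233822) (nat_lit 76) (nat_lit 200439635481) (nat_lit 76) (nat_lit 153750148048) (nat_lit 1) (nat_lit 4) (nat_lit 2) (nat_lit 5) (nat_lit 2) (nat_lit 4) (nat_lit 355) (nat_lit 251) (nat_lit 114))) (XT.nd (nat_lit 29406) (nat_lit 0) (nat_lit 5472) (XT.lf (nat_lit 0) (nat_lit 73424009198) (nat_lit 76) (nat_lit 202116066361) (nat_lit 76) (nat_lit 155423795313) (nat_lit 1) (nat_lit 4) (nat_lit 2) (nat_lit 5) (nat_lit 2) (nat_lit 4) (nat_lit 356) (nat_lit 251) (nat_lit 113)) (XT.lf (nat_lit 0) (nat_lit 352683985) (nat_lit 0) (nat_lit 352683985) (nat_lit 532) (nat_lit 3385637507) (nat_lit 73) (nat_lit 5) (nat_lit 73) (nat_lit 3) (nat_lit 80) (nat_lit 3) (nat_lit 252) (nat_lit 252) (nat_lit 216)))) (XT.nd (nat_lit 156) (nat_lit 0) (nat_lit 0) (XT.nd (nat_lit 78) (nat_lit 0) (nat_lit 0) (XT.lf (nat_lit 0) (nat_lit 2471724144)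 (nat_lit 532) (nat_lit 4182284132) (nat_lit 608) (nat_lit 1675493700) (nat_lit 73) (nat_lit 5) (nat_lit 80) (nat_lit 3) (nat_lit 81) (nat_lit 5) (nat_lit 253) (nat_lit 252) (nat_lit 215)) (XT.lf (nat_lit 0) (nat_lit 3533895223) (nat_lit 532) (nat_lit 770800311) (nat_lit 608) (nat_lit 4182634901) (nat_lit 73) (nat_lit 5) (nat_lit 80) (nat_lit 3) (nat_lit 81) (nat_lit 5) (nat_lit 254) (nat_lit 252) (nat_lit 214))) (XT.nd (nat_lit 78) (nat_lit 0) (nat_lit 76) (XT.lf (nat_lit 76) (nat_lit 2868762132) (nat_lit 0) (nat_lit 1764792668) (nat_lit 608) (nat_lit 4020628481) (nat_lit 74) (nat_lit 5) (nat_lit 73) (nat_lit 5) (nat_lit 81) (nat_lit 5) (nat_lit 255) (nat_lit 252) (nat_lit 213)) (XT.nd (nat_lit 78) (nat_lit 0) (nat_lit 0) (XT.lf (nat_lit 0) (nat_lit 5757869084) (nat_lit 532) (nat_lit 2163339328) (nat_lit 608) (nat_lit 910021975) (nat_lit 74) (nat_lit 5) (nat_lit 81) (nat_lit 5) (nat_lit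 82) (nat_lit 5) (nat_lit 256) (nat_lit 252) (nat_lit 212)) (XT.lf (nat_lit 76) (nat_lit 1627404566) (nat_lit 0) (nat_lit 5310400040) (nat_lit 608) (nat_lit 2079674206) (nat_lit 75) (nat_lit 5) (nat_lit 74) (nat_lit 5) (nat_lit 82) (nat_lit 5) (nat_lit 257) (nat_lit 252) (nat_lit 211))))))))
noncomputable def xc150 : XT := (XT.nd (nat_lit 1326) (nat_lit 1596) (nat_lit 0) (XT.nd (nat_lit 624) (nat_lit 1596) (nat_lit 0) (XT.nd (nat_lit 312) (nat_lit 532) (nat_lit 0) (XT.nd (nat_lit 156) (nat_lit 532) (nat_lit 0) (XT.nd (nat_lit 78) (nat_lit 0) (nat_lit 76) (XT.lf (nat_lit 76) (nat_lit 5647767974) (nat_lit 0) (nat_lit 2512741356) (nat_lit 608) (nat_lit 1053645746) (nat_lit 75) (nat_lit 5) (nat_lit 74) (nat_lit 5) (nat_lit 82) (nat_lit 5) (nat_lit 258) (nat_lit 252) (nat_lit 210)) (XT.lf (nat_lit 76) (nat_lit 418828872) (nat_lit 0) (nat_lit 8988609713) (nat_lit 608) (nat_lit 15361664) (nat_lit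 76) (nat_lit 5) (nat_lit 75) (nat_lit 5) (nat_lit 83) (nat_lit 5) (nat_lit 259) (nat_lit 252) (nat_lit 209))) (XT.nd (nat_lit 78) (nat_lit 0) (nat_lit 0) (XT.lf (nat_lit 0) (nat_lit 1093701373) (nat_lit 608) (nat_lit 5008433038) (nat_lit 684) (nat_lit 3536503538) (nat_lit 67) (nat_lit 5) (nat_lit 75) (nat_lit 5) (nat_lit 76) (nat_lit 5) (nat_lit 260) (nat_lit 252) (nat_lit 208)) (XT.lf (nat_lit 0) (nat_lit 2210734763) (nat_lit 608) (nat_lit 849306757) (nat_lit 684) (nat_lit 6807811883) (nat_lit 67) (nat_lit 5) (nat_lit 75) (nat_lit 5) (nat_lit 76) (nat_lit 5) (nat_lit 261) (nat_lit 252) (nat_lit 207)))) (XT.nd (nat_lit 156) (nat_lit 608) (nat_lit 0) (XT.nd (nat_lit 78) (nat_lit 0) (nat_lit 0) (XT.lf (nat_lit 0) (nat_lit 3398255706) (nat_lit 608) (nat_lit 6512642797) (nat_lit 76) (nat_lit 197137555) (nat_lit 68) (nat_lit 5) (nat_lit 76) (nat_lit 5) (nat_lit 69) (nat_lit 5) (nat_lit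 262) (nat_lit 252) (nat_lit 206)) (XT.lf (nat_lit 0) (nat_lit 4666958312) (nat_lit 608) (nat_lit 2154299351) (nat_lit 76) (nat_lit 3538106780) (nat_lit 68) (nat_lit 5) (nat_lit 76) (nat_lit 5) (nat_lit 69) (nat_lit 5) (nat_lit 263) (nat_lit 252) (nat_lit 205))) (XT.nd (nat_lit 78) (nat_lit 0) (nat_lit 0) (XT.lf (nat_lit 0) (nat_lit 2466421627) (nat_lit 608) (nat_lit 3530250541) (nat_lit 684) (nat_lit 4626924347) (nat_lit 60) (nat_lit 5) (nat_lit 68) (nat_lit 5) (nat_lit 69) (nat_lit 5) (nat_lit 264) (nat_lit 252) (nat_lit 204)) (XT.lf (nat_lit 0) (nat_lit 7359046668) (nat_lit 608) (nat_lit 30796992) (nat_lit 684) (nat_lit 3511553721) (nat_lit 60) (nat_lit 5) (nat_lit 68) (nat_lit 5) (nat_lit 69) (nat_lit 5) (nat_lit 265) (nat_lit 252) (nat_lit 203))))) (XT.nd (nat_lit 312) (nat_lit 532) (nat_lit 0) (XT.nd (nat_lit 156) (nat_lit 380) (nat_lit 0) (XT.nd (nat_lit 78) (nat_lit 0) (nat_lit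 0) (XT.lf (nat_lit 0) (nat_lit 1251927346) (nat_lit 684) (nat_lit 7639632193) (nat_lit 760) (nat_lit 2299780446) (nat_lit 51) (nat_lit 5) (nat_lit 60) (nat_lit 5) (nat_lit 61) (nat_lit 5) (nat_lit 266) (nat_lit 252) (nat_lit 202)) (XT.lf (nat_lit 0) (nat_lit 6374466572) (nat_lit 684) (nat_lit 4118093736) (nat_lit 760) (nat_lit 1002196108) (nat_lit 51) (nat_lit 5) (nat_lit 60) (nat_lit 5) (nat_lit 61) (nat_lit 5) (nat_lit 267) (nat_lit 252) (nat_lit 201))) (XT.nd (nat_lit 78) (nat_lit 304) (nat_lit 0) (XT.lf (nat_lit 0) (nat_lit 313436986) (nat_lit 760) (nat_lit 99470822) (nat_lit 76) (nat_lit 11402088906) (nat_lit 50) (nat_lit 5) (nat_lit 60) (nat_lit 5) (nat_lit 51) (nat_lit 5) (nat_lit 268) (nat_lit 252) (nat_lit 200)) (XT.lf (nat_lit 0) (nat_lit 1766139641) (nat_lit 380) (nat_lit 6910734143) (nat_lit 76) (nat_lit 3468466595) (nat_lit 46) (nat_lit 5) (nat_lit 51) (nat_lit 5) (nat_lit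 47) (nat_lit 5) (nat_lit 269) (nat_lit 252) (nat_lit 199)))) (XT.nd (nat_lit 156) (nat_lit 228) (nat_lit 0) (XT.nd (nat_lit 78) (nat_lit 304) (nat_lit 0) (XT.lf (nat_lit 0) (nat_lit 3267464227) (nat_lit 380) (nat_lit 1693384389) (nat_lit 76) (nat_lit 7532706831) (nat_lit 46) (nat_lit 5) (nat_lit 51) (nat_lit 5) (nat_lit 47) (nat_lit 5) (nat_lit 270) (nat_lit 252) (nat_lit 198)) (XT.lf (nat_lit 0) (nat_lit 3877202454) (nat_lit 304) (nat_lit 996239552) (nat_lit 380) (nat_lit 7984406164) (nat_lit 42) (nat_lit 5) (nat_lit 46) (nat_lit 5) (nat_lit 47) (nat_lit 5) (nat_lit 271) (nat_lit 252) (nat_lit 197))) (XT.nd (nat_lit 78) (nat_lit 228) (nat_lit 0) (XT.lf (nat_lit 0) (nat_lit 6608326343) (nat_lit 380) (nat_lit 3536553282) (nat_lit 76) (nat_lit 3093184803) (nat_lit 42) (nat_lit 5) (nat_lit 47) (nat_lit 5) (nat_lit 43) (nat_lit 5) (nat_lit 272) (nat_lit 252) (nat_lit 196)) (XT.nd (nat_lit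 78) (nat_lit 0) (nat_lit 0) (XT.lf (nat_lit 0) (nat_lit 2202642527) (nat_lit 228) (nat_lit 6249480967) (nat_lit 304) (nat_lit 5184192226) (nat_lit 39) (nat_lit 5) (nat_lit 42) (nat_lit 5) (nat_lit 43) (nat_lit 5) (nat_lit 273) (nat_lit 252) (nat_lit 195)) (XT.lf (nat_lit 0) (nat_lit 8320815823) (nat_lit 228) (nat_lit 2099514646) (nat_lit 304) (nat_lit 3632664444) (nat_lit 39) (nat_lit 5) (nat_lit 42) (nat_lit 5) (nat_lit 43) (nat_lit 5) (nat_lit 274) (nat_lit 252) (nat_lit 194))))))) (XT.nd (nat_lit 624) (nat_lit 760) (nat_lit 0) (XT.nd (nat_lit 312) (nat_lit 228) (nat_lit 0) (XT.nd (nat_lit 156) (nat_lit 304) (nat_lit 0) (XT.nd (nat_lit 78) (nat_lit 0) (nat_lit 0) (XT.lf (nat_lit 0) (nat_lit 194677003) (nat_lit 304) (nat_lit 12304161721) (nat_lit 380) (nat_lit 1991195113) (nat_lit 35) (nat_lit 5) (nat_lit 39) (nat_lit 5) (nat_lit 40) (nat_lit 5) (nat_lit 275) (nat_lit 252) (nat_lit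 193)) (XT.lf (nat_lit 0) (nat_lit 6551132265) (nat_lit 304) (nat_lit 8235464817) (nat_lit 380) (nat_lit 157175980) (nat_lit 35) (nat_lit 5) (nat_lit 39) (nat_lit 5) (nat_lit 40) (nat_lit 5) (nat_lit 276) (nat_lit 252) (nat_lit 192))) (XT.nd (nat_lit 78) (nat_lit 228) (nat_lit 0) (XT.lf (nat_lit 0) (nat_lit 1687038199) (nat_lit 380) (nat_lit 2252085947) (nat_lit 76) (nat_lit 11481043515) (nat_lit 34) (nat_lit 5) (nat_lit 39) (nat_lit 5) (nat_lit 35) (nat_lit 5) (nat_lit 277) (nat_lit 252) (nat_lit 191)) (XT.lf (nat_lit 0) (nat_lit 3671640357) (nat_lit 304) (nat_lit 11625832078) (nat_lit 76) (nat_lit 620206736) (nat_lit 31) (nat_lit 5) (nat_lit 35) (nat_lit 5) (nat_lit 32) (nat_lit 5) (nat_lit 278) (nat_lit 252) (nat_lit 190)))) (XT.nd (nat_lit 156) (nat_lit 0) (nat_lit 0) (XT.nd (nat_lit 78) (nat_lit 228) (nat_lit 0) (XT.lf (nat_lit 0) (nat_lit 5835718352) (nat_lit 304) (nat_lit 5291182113)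 (nat_lit 76) (nat_lit 5309247779) (nat_lit 31) (nat_lit 5) (nat_lit 35) (nat_lit 5) (nat_lit 32) (nat_lit 5) (nat_lit 279) (nat_lit 252) (nat_lit 189)) (XT.lf (nat_lit 0) (nat_lit 1376656295) (nat_lit 228) (nat_lit 6730841707) (nat_lit 304) (nat_lit 8873157664) (nat_lit 28) (nat_lit 5) (nat_lit 31) (nat_lit 5) (nat_lit 32) (nat_lit 5) (nat_lit 280) (nat_lit 252) (nat_lit 188))) (XT.nd (nat_lit 78) (nat_lit 0) (nat_lit 0) (XT.lf (nat_lit 0) (nat_lit 8534424121) (nat_lit 228) (nat_lit 2026678902) (nat_lit 304) (nat_lit 6987959125) (nat_lit 28) (nat_lit 5) (nat_lit 31) (nat_lit 5) (nat_lit 32) (nat_lit 5) (nat_lit 281) (nat_lit 252) (nat_lit 187)) (XT.lf (nat_lit 0) (nat_lit 13162422905) (nat_lit 304) (nat_lit 2168164051) (nat_lit 76) (nat_lit 2814131704) (nat_lit 28) (nat_lit 5) (nat_lit 32) (nat_lit 5) (nat_lit 29) (nat_lit 5) (nat_lit 282) (nat_lit 252) (nat_lit 186))))) (XT.nd (nat_lit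 312) (nat_lit 304) (nat_lit 0) (XT.nd (nat_lit 156) (nat_lit 304) (nat_lit 0) (XT.nd (nat_lit 78) (nat_lit 0) (nat_lit 0) (XT.lf (nat_lit 0) (nat_lit 5125869058) (nat_lit 152) (nat_lit 10861725838) (nat_lit 228) (nat_lit 2777951354) (nat_lit 26) (nat_lit 5) (nat_lit 28) (nat_lit 5) (nat_lit 29) (nat_lit 5) (nat_lit 283) (nat_lit 252) (nat_lit 185)) (XT.lf (nat_lit 0) (nat_lit 12834690346) (nat_lit 152) (nat_lit 6137120508) (nat_lit 228) (nat_lit 444788962) (nat_lit 26) (nat_lit 5) (nat_lit 28) (nat_lit 5) (nat_lit 29) (nat_lit 5) (nat_lit 284) (nat_lit 252) (nat_lit 184))) (XT.nd (nat_lit 78) (nat_lit 0) (nat_lit 0) (XT.lf (nat_lit 0) (nat_lit 798330966) (nat_lit 228) (nat_lit 1136595591) (nat_lit 304) (nat_lit 18164077865) (nat_lit 22) (nat_lit 5) (nat_lit 25) (nat_lit 5) (nat_lit 26) (nat_lit 5) (nat_lit 285) (nat_lit 252) (nat_lit 183)) (XT.lf (nat_lit 0) (nat_lit 4578207655) (nat_lit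 304) (nat_lit 12132337372) (nat_lit 76) (nat_lit 4096707078) (nat_lit 22) (nat_lit 5) (nat_lit 26) (nat_lit 5) (nat_lit 23) (nat_lit 5) (nat_lit 286) (nat_lit 252) (nat_lit 182)))) (XT.nd (nat_lit 156) (nat_lit 152) (nat_lit 0) (XT.nd (nat_lit 78) (nat_lit 152) (nat_lit 0) (XT.lf (nat_lit 0) (nat_lit 7355144652) (nat_lit 304) (nat_lit 4648145410) (nat_lit 76) (nat_lit 9547608286) (nat_lit 22) (nat_lit 5) (nat_lit 26) (nat_lit 5) (nat_lit 23) (nat_lit 5) (nat_lit 287) (nat_lit 252) (nat_lit 181)) (XT.lf (nat_lit 0) (nat_lit 3292859441) (nat_lit 152) (nat_lit 7013155184) (nat_lit 228) (nat_lit 12024015848) (nat_lit 20) (nat_lit 5) (nat_lit 22) (nat_lit 5) (nat_lit 23) (nat_lit 5) (nat_lit 288) (nat_lit 252) (nat_lit 180))) (XT.nd (nat_lit 78) (nat_lit 152) (nat_lit 0) (XT.lf (nat_lit 0) (nat_lit 11769866435) (nat_lit 152) (nat_lit 1697382922) (nat_lit 228) (nat_lit 9677783904) (nat_lit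 20) (nat_lit 5) (nat_lit 22) (nat_lit 5) (nat_lit 23) (nat_lit 5) (nat_lit 289) (nat_lit 252) (nat_lit 179)) (XT.nd (nat_lit 78) (nat_lit 152) (nat_lit 0) (XT.lf (nat_lit 0) (nat_lit 16831951406) (nat_lit 228) (nat_lit 3412771352) (nat_lit 76) (nat_lit 3753845643) (nat_lit 20) (nat_lit 5) (nat_lit 23) (nat_lit 5) (nat_lit 21) (nat_lit 5) (nat_lit 290) (nat_lit 252) (nat_lit 178)) (XT.lf (nat_lit 0) (nat_lit 5060882513) (nat_lit 152) (nat_lit 15396334818) (nat_lit 228) (nat_lit 4432996526) (nat_lit 18) (nat_lit 5) (nat_lit 20) (nat_lit 5) (nat_lit 21) (nat_lit 5) (nat_lit 291) (nat_lit 252) (nat_lit 177))))))))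
noncomputable def xc151 : XT := (XT.nd (nat_lit 1326) (nat_lit 228) (nat_lit 0) (XT.nd (nat_lit 624) (nat_lit 380) (nat_lit 0) (XT.nd (nat_lit 312) (nat_lit 152) (nat_lit 0) (XT.nd (nat_lit 156) (nat_lit 152) (nat_lit 0) (XT.nd (nat_lit 78) (nat_lit 76) (nat_lit 0) (XT.lf (nat_lit 0) (nat_lit 14056026468) (nat_lit 152) (nat_lit 10251373504) (nat_lit 228) (nat_lit 1516906557) (nat_lit 18) (nat_lit 5) (nat_lit 20) (nat_lit 5) (nat_lit 21) (nat_lit 5) (nat_lit 292) (nat_lit 252) (nat_lit 176)) (XT.lf (nat_lit 0) (nat_lit 1481803918) (nat_lit 228) (nat_lit 3348486859) (nat_lit 76) (nat_lit 21974336900) (nat_lit 17) (nat_lit 5) (nat_lit 20) (nat_lit 5) (nat_lit 18) (nat_lit 5) (nat_lit 293) (nat_lit 252) (nat_lit 175))) (XT.nd (nat_lit 78) (nat_lit 0) (nat_lit 0) (XT.lf (nat_lit 0) (nat_lit 4669473508) (nat_lit 228) (nat_lit 22215887914) (nat_lit 76) (nat_lit 942901146) (nat_lit 15) (nat_lit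 5) (nat_lit 18) (nat_lit 5) (nat_lit 16) (nat_lit 5) (nat_lit 294) (nat_lit 252) (nat_lit 174)) (XT.lf (nat_lit 0) (nat_lit 8140500156) (nat_lit 228) (nat_lit 13862325516) (nat_lit 76) (nat_lit 6894094025) (nat_lit 15) (nat_lit 5) (nat_lit 18) (nat_lit 5) (nat_lit 16) (nat_lit 5) (nat_lit 295) (nat_lit 252) (nat_lit 173)))) (XT.nd (nat_lit 156) (nat_lit 0) (nat_lit 0) (XT.nd (nat_lit 78) (nat_lit 152) (nat_lit 0) (XT.lf (nat_lit 0) (nat_lit 11772840609) (nat_lit 228) (nat_lit 5109654650) (nat_lit 76) (nat_lit 13137163607) (nat_lit 15) (nat_lit 5) (nat_lit 18) (nat_lit 5) (nat_lit 16) (nat_lit 5) (nat_lit 296) (nat_lit 252) (nat_lit 172)) (XT.lf (nat_lit 0) (nat_lit 4197304328) (nat_lit 152) (nat_lit 11443370651) (nat_lit 228) (nat_lit 15555201700) (nat_lit 13) (nat_lit 5) (nat_lit 15) (nat_lit 5) (nat_lit 16) (nat_lit 5) (nat_lit 297) (nat_lit 252) (nat_lit 171))) (XT.nd (nat_lit 78)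 (nat_lit 0) (nat_lit 0) (XT.lf (nat_lit 0) (nat_lit 14129606794) (nat_lit 152) (nat_lit 5647457285) (nat_lit 228) (nat_lit 12650116992) (nat_lit 13) (nat_lit 5) (nat_lit 15) (nat_lit 5) (nat_lit 16) (nat_lit 5) (nat_lit 298) (nat_lit 252) (nat_lit 170)) (XT.lf (nat_lit 0) (nat_lit 24116195364) (nat_lit 228) (nat_lit 9185424277) (nat_lit 76) (nat_lit 418667131) (nat_lit 13) (nat_lit 5) (nat_lit 16) (nat_lit 5) (nat_lit 14) (nat_lit 4) (nat_lit 299) (nat_lit 252) (nat_lit 169))))) (XT.nd (nat_lit 312) (nat_lit 228) (nat_lit 0) (XT.nd (nat_lit 156) (nat_lit 76) (nat_lit 0) (XT.nd (nat_lit 78) (nat_lit 0) (nat_lit 0) (XT.lf (nat_lit 0) (nat_lit 282551916) (nat_lit 76) (nat_lit 28476324365) (nat_lit 152) (nat_lit 6314872518) (nat_lit 12) (nat_lit 5) (nat_lit 13) (nat_lit 5) (nat_lit 14) (nat_lit 4) (nat_lit 300) (nat_lit 252) (nat_lit 168)) (XT.lf (nat_lit 0) (nat_lit 10526842634) (nat_lit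 76) (nat_lit 23252254292) (nat_lit 152) (nat_lit 2708545945) (nat_lit 12) (nat_lit 5) (nat_lit 13) (nat_lit 5) (nat_lit 14) (nat_lit 4) (nat_lit 301) (nat_lit 252) (nat_lit 167))) (XT.nd (nat_lit 78) (nat_lit 0) (nat_lit 0) (XT.lf (nat_lit 0) (nat_lit 1033735239) (nat_lit 152) (nat_lit 16721288721) (nat_lit 76) (nat_lit 20216885391) (nat_lit 11) (nat_lit 5) (nat_lit 13) (nat_lit 5) (nat_lit 12) (nat_lit 5) (nat_lit 302) (nat_lit 252) (nat_lit 166)) (XT.lf (nat_lit 0) (nat_lit 4862719026) (nat_lit 152) (nat_lit 7079035302) (nat_lit 76) (nat_lit 27586909286) (nat_lit 11) (nat_lit 5) (nat_lit 13) (nat_lit 5) (nat_lit 12) (nat_lit 5) (nat_lit 303) (nat_lit 252) (nat_lit 165)))) (XT.nd (nat_lit 156) (nat_lit 76) (nat_lit 0) (XT.nd (nat_lit 78) (nat_lit 0) (nat_lit 0) (XT.lf (nat_lit 0) (nat_lit 3131431110) (nat_lit 152) (nat_lit 5791671733) (nat_lit 228) (nat_lit 32238179252) (nat_lit 9)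 (nat_lit 5) (nat_lit 11) (nat_lit 5) (nat_lit 12) (nat_lit 5) (nat_lit 304) (nat_lit 252) (nat_lit 164)) (XT.lf (nat_lit 0) (nat_lit 13309943381) (nat_lit 228) (nat_lit 28797986341) (nat_lit 76) (nat_lit 761452804) (nat_lit 9) (nat_lit 5) (nat_lit 12) (nat_lit 5) (nat_lit 10) (nat_lit 4) (nat_lit 305) (nat_lit 252) (nat_lit 163))) (XT.nd (nat_lit 78) (nat_lit 76) (nat_lit 0) (XT.lf (nat_lit 0) (nat_lit 18002679465) (nat_lit 228) (nat_lit 19213070086) (nat_lit 76) (nat_lit 7442832565) (nat_lit 9) (nat_lit 5) (nat_lit 12) (nat_lit 5) (nat_lit 10) (nat_lit 4) (nat_lit 306) (nat_lit 252) (nat_lit 162)) (XT.nd (nat_lit 78) (nat_lit 76) (nat_lit 0) (XT.lf (nat_lit 0) (nat_lit 22922060049) (nat_lit 228) (nat_lit 9161856762) (nat_lit 76) (nat_lit 14453745264) (nat_lit 9) (nat_lit 5) (nat_lit 12) (nat_lit 5) (nat_lit 10) (nat_lit 4) (nat_lit 307) (nat_lit 252) (nat_lit 161)) (XT.lf (nat_lit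 0) (nat_lit 1425200402) (nat_lit 76) (nat_lit 26676848913) (nat_lit 152) (nat_lit 20407934519) (nat_lit 8) (nat_lit 5) (nat_lit 9) (nat_lit 5) (nat_lit 10) (nat_lit 4) (nat_lit 308) (nat_lit 252) (nat_lit 160))))))) (XT.nd (nat_lit 624) (nat_lit 76) (nat_lit 0) (XT.nd (nat_lit 312) (nat_lit 152) (nat_lit 0) (XT.nd (nat_lit 156) (nat_lit 0) (nat_lit 0) (XT.nd (nat_lit 78) (nat_lit 0) (nat_lit 0) (XT.lf (nat_lit 0) (nat_lit 12847556171) (nat_lit 76) (nat_lit 20841203662) (nat_lit 152) (nat_lit 16884794601) (nat_lit 8) (nat_lit 5) (nat_lit 9) (nat_lit 5) (nat_lit 10) (nat_lit 4) (nat_lit 309) (nat_lit 252) (nat_lit 159)) (XT.lf (nat_lit 0) (nat_lit 24829474270) (nat_lit 76) (nat_lit 14718247140) (nat_lit 152) (nat_lit 13192954322) (nat_lit 8) (nat_lit 5) (nat_lit 9) (nat_lit 5) (nat_lit 10) (nat_lit 4) (nat_lit 310) (nat_lit 252) (nat_lit 158))) (XT.nd (nat_lit 78) (nat_lit 0) (nat_lit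 0) (XT.lf (nat_lit 0) (nat_lit 37399483074) (nat_lit 76) (nat_lit 8293400882) (nat_lit 152) (nat_lit 9323623586) (nat_lit 8) (nat_lit 5) (nat_lit 9) (nat_lit 5) (nat_lit 10) (nat_lit 4) (nat_lit 311) (nat_lit 252) (nat_lit 157)) (XT.lf (nat_lit 0) (nat_lit 50587511176) (nat_lit 76) (nat_lit 1551367633) (nat_lit 152) (nat_lit 5267589701) (nat_lit 8) (nat_lit 5) (nat_lit 9) (nat_lit 5) (nat_lit 10) (nat_lit 4) (nat_lit 312) (nat_lit 252) (nat_lit 156)))) (XT.nd (nat_lit 156) (nat_lit 0) (nat_lit 0) (XT.nd (nat_lit 78) (nat_lit 76) (nat_lit 0) (XT.lf (nat_lit 0) (nat_lit 4568692680) (nat_lit 76) (nat_lit 54489934632) (nat_lit 76) (nat_lit 849743021) (nat_lit 7) (nat_lit 4) (nat_lit 8) (nat_lit 5) (nat_lit 8) (nat_lit 4) (nat_lit 313) (nat_lit 252) (nat_lit 155)) (XT.lf (nat_lit 0) (nat_lit 3804375667) (nat_lit 152) (nat_lit 45863907032) (nat_lit 76) (nat_lit 12857308206) (nat_lit 6) (nat_lit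 5) (nat_lit 8) (nat_lit 5) (nat_lit 7) (nat_lit 4) (nat_lit 314) (nat_lit 252) (nat_lit 154))) (XT.nd (nat_lit 78) (nat_lit 0) (nat_lit 0) (XT.lf (nat_lit 0) (nat_lit 8656779978) (nat_lit 152) (nat_lit 35938083468) (nat_lit 76) (nat_lit 20678419108) (nat_lit 6) (nat_lit 5) (nat_lit 8) (nat_lit 5) (nat_lit 7) (nat_lit 4) (nat_lit 315) (nat_lit 252) (nat_lit 153)) (XT.lf (nat_lit 0) (nat_lit 13746220341) (nat_lit 152) (nat_lit 25525307178) (nat_lit 76) (nat_lit 28887123229) (nat_lit 6) (nat_lit 5) (nat_lit 8) (nat_lit 5) (nat_lit 7) (nat_lit 4) (nat_lit 316) (nat_lit 252) (nat_lit 152))))) (XT.nd (nat_lit 312) (nat_lit 0) (nat_lit 0) (XT.nd (nat_lit 156) (nat_lit 76) (nat_lit 0) (XT.nd (nat_lit 78) (nat_lit 0) (nat_lit 0) (XT.lf (nat_lit 0) (nat_lit 19084814468) (nat_lit 152) (nat_lit 14600785838) (nat_lit 76) (nat_lit 37502965103) (nat_lit 6) (nat_lit 5) (nat_lit 8) (nat_lit 5) (nat_lit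 7) (nat_lit 4) (nat_lit 317) (nat_lit 252) (nat_lit 151)) (XT.lf (nat_lit 0) (nat_lit 24685273300) (nat_lit 152) (nat_lit 3138508682) (nat_lit 76) (nat_lit 46546458640) (nat_lit 6) (nat_lit 5) (nat_lit 8) (nat_lit 5) (nat_lit 7) (nat_lit 4) (nat_lit 318) (nat_lit 252) (nat_lit 150))) (XT.nd (nat_lit 78) (nat_lit 0) (nat_lit 0) (XT.lf (nat_lit 0) (nat_lit 9182719804) (nat_lit 76) (nat_lit 21521579446) (nat_lit 152) (nat_lit 46999784152) (nat_lit 5) (nat_lit 5) (nat_lit 6) (nat_lit 5) (nat_lit 7) (nat_lit 4) (nat_lit 319) (nat_lit 252) (nat_lit 149)) (XT.lf (nat_lit 0) (nat_lit 22221034856) (nat_lit 76) (nat_lit 14851675785) (nat_lit 152) (nat_lit 44129496467) (nat_lit 5) (nat_lit 5) (nat_lit 6) (nat_lit 5) (nat_lit 7) (nat_lit 4) (nat_lit 320) (nat_lit 252) (nat_lit 148)))) (XT.nd (nat_lit 156) (nat_lit 0) (nat_lit 0) (XT.nd (nat_lit 78) (nat_lit 0) (nat_lit 0) (XT.lf (nat_lit 0) (nat_lit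 35903706808) (nat_lit 76) (nat_lit 7851342439) (nat_lit 152) (nat_lit 41120422413) (nat_lit 5) (nat_lit 5) (nat_lit 6) (nat_lit 5) (nat_lit 7) (nat_lit 4) (nat_lit 321) (nat_lit 252) (nat_lit 147)) (XT.lf (nat_lit 0) (nat_lit 50263313450) (nat_lit 76) (nat_lit 503911946) (nat_lit 152) (nat_lit 37965397527) (nat_lit 5) (nat_lit 5) (nat_lit 6) (nat_lit 5) (nat_lit 7) (nat_lit 4) (nat_lit 322) (nat_lit 252) (nat_lit 146))) (XT.nd (nat_lit 78) (nat_lit 0) (nat_lit 0) (XT.lf (nat_lit 0) (nat_lit 58238473541) (nat_lit 152) (nat_lit 27561339064) (nat_lit 0) (nat_lit 6977405051) (nat_lit 5) (nat_lit 5) (nat_lit 7) (nat_lit 4) (nat_lit 5) (nat_lit 4) (nat_lit 323) (nat_lit 252) (nat_lit 145)) (XT.nd (nat_lit 78) (nat_lit 0) (nat_lit 0) (XT.lf (nat_lit 0) (nat_lit 66087622071) (nat_lit 152) (nat_lit 16122921971) (nat_lit 0) (nat_lit 14813289816) (nat_lit 5) (nat_lit 5) (nat_lit 7) (nat_lit 4)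 (nat_lit 5) (nat_lit 4) (nat_lit 324) (nat_lit 252) (nat_lit 144)) (XT.lf (nat_lit 0) (nat_lit 74325491959) (nat_lit 152) (nat_lit 4118956389) (nat_lit 0) (nat_lit 23038527546) (nat_lit 5) (nat_lit 5) (nat_lit 7) (nat_lit 4) (nat_lit 5) (nat_lit 4) (nat_lit 325) (nat_lit 252) (nat_lit 143))))))))
noncomputable def xc152 : XT := (XT.nd (nat_lit 1248) (nat_lit 76) (nat_lit 0) (XT.nd (nat_lit 624) (nat_lit 76) (nat_lit 0) (XT.nd (nat_lit 312) (nat_lit 76) (nat_lit 0) (XT.nd (nat_lit 156) (nat_lit 0) (nat_lit 0) (XT.nd (nat_lit 78) (nat_lit 0) (nat_lit 0) (XT.lf (nat_lit 0) (nat_lit 8759497163) (nat_lit 76) (nat_lit 74348960315) (nat_lit 76) (nat_lit 23049965277) (nat_lit 4) (nat_lit 4) (nat_lit 5) (nat_lit 5) (nat_lit 5) (nat_lit 4) (nat_lit 326) (nat_lit 252) (nat_lit 142)) (XT.lf (nat_lit 0) (nat_lit 22418903224) (nat_lit 76) (nat_lit 69977942619) (nat_lit 76) (nat_lit 18667489843)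 (nat_lit 4) (nat_lit 4) (nat_lit 5) (nat_lit 5) (nat_lit 5) (nat_lit 4) (nat_lit 327) (nat_lit 252) (nat_lit 141))) (XT.nd (nat_lit 78) (nat_lit 0) (nat_lit 0) (XT.lf (nat_lit 0) (nat_lit 36755592888) (nat_lit 76) (nat_lit 65390744597) (nat_lit 76) (nat_lit 14069379688) (nat_lit 4) (nat_lit 4) (nat_lit 5) (nat_lit 5) (nat_lit 5) (nat_lit 4) (nat_lit 328) (nat_lit 252) (nat_lit 140)) (XT.lf (nat_lit 0) (nat_lit 51803701131) (nat_lit 76) (nat_lit 60576444347) (nat_lit 76) (nat_lit 9244686931) (nat_lit 4) (nat_lit 4) (nat_lit 5) (nat_lit 5) (nat_lit 5) (nat_lit 4) (nat_lit 329) (nat_lit 252) (nat_lit 139)))) (XT.nd (nat_lit 156) (nat_lit 0) (nat_lit 0) (XT.nd (nat_lit 78) (nat_lit 76) (nat_lit 0) (XT.lf (nat_lit 0) (nat_lit 67599056781) (nat_lit 76) (nat_lit 55523579250) (nat_lit 76) (nat_lit 4181924209) (nat_lit 4) (nat_lit 4) (nat_lit 5) (nat_lit 5) (nat_lit 5) (nat_lit 4) (nat_lit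 330) (nat_lit 252) (nat_lit 138)) (XT.lf (nat_lit 0) (nat_lit 1094764806) (nat_lit 152) (nat_lit 49106813497) (nat_lit 76) (nat_lit 83065962650) (nat_lit 3) (nat_lit 5) (nat_lit 5) (nat_lit 5) (nat_lit 4) (nat_lit 4) (nat_lit 331) (nat_lit 252) (nat_lit 137))) (XT.nd (nat_lit 78) (nat_lit 0) (nat_lit 0) (XT.lf (nat_lit 0) (nat_lit 6491969619) (nat_lit 152) (nat_lit 38051521069) (nat_lit 76) (nat_lit 94981896700) (nat_lit 3) (nat_lit 5) (nat_lit 5) (nat_lit 5) (nat_lit 4) (nat_lit 4) (nat_lit 332) (nat_lit 252) (nat_lit 136)) (XT.lf (nat_lit 0) (nat_lit 12156388407) (nat_lit 152) (nat_lit 26448012495) (nat_lit 76) (nat_lit 107491862856) (nat_lit 3) (nat_lit 5) (nat_lit 5) (nat_lit 5) (nat_lit 4) (nat_lit 4) (nat_lit 333) (nat_lit 252) (nat_lit 135))))) (XT.nd (nat_lit 312) (nat_lit 0) (nat_lit 0) (XT.nd (nat_lit 156) (nat_lit 76) (nat_lit 0) (XT.nd (nat_lit 78) (nat_lit 0) (nat_lit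 0) (XT.lf (nat_lit 0) (nat_lit 18101507881) (nat_lit 152) (nat_lit 14268660373) (nat_lit 76) (nat_lit 120625646751) (nat_lit 3) (nat_lit 5) (nat_lit 5) (nat_lit 5) (nat_lit 4) (nat_lit 4) (nat_lit 334) (nat_lit 252) (nat_lit 134)) (XT.lf (nat_lit 0) (nat_lit 24341483089) (nat_lit 152) (nat_lit 1484466246) (nat_lit 76) (nat_lit 134414519299) (nat_lit 3) (nat_lit 5) (nat_lit 5) (nat_lit 5) (nat_lit 4) (nat_lit 4) (nat_lit 335) (nat_lit 252) (nat_lit 133))) (XT.nd (nat_lit 78) (nat_lit 0) (nat_lit 0) (XT.lf (nat_lit 0) (nat_lit 12329633721) (nat_lit 76) (nat_lit 18754037528) (nat_lit 152) (nat_lit 136754177563) (nat_lit 2) (nat_lit 5) (nat_lit 3) (nat_lit 5) (nat_lit 4) (nat_lit 4) (nat_lit 336) (nat_lit 252) (nat_lit 132)) (XT.lf (nat_lit 0) (nat_lit 26882110235) (nat_lit 76) (nat_lit 11303761293) (nat_lit 152) (nat_lit 137628085696) (nat_lit 2) (nat_lit 5) (nat_lit 3) (nat_lit 5) (nat_lit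 4) (nat_lit 4) (nat_lit 337) (nat_lit 252) (nat_lit 131)))) (XT.nd (nat_lit 156) (nat_lit 0) (nat_lit 0) (XT.nd (nat_lit 78) (nat_lit 0) (nat_lit 0) (XT.lf (nat_lit 0) (nat_lit 42158528887) (nat_lit 76) (nat_lit 3482522033) (nat_lit 152) (nat_lit 138547930832) (nat_lit 2) (nat_lit 5) (nat_lit 3) (nat_lit 5) (nat_lit 4) (nat_lit 4) (nat_lit 338) (nat_lit 252) (nat_lit 130)) (XT.lf (nat_lit 0) (nat_lit 53540781904) (nat_lit 152) (nat_lit 134861422878) (nat_lit 0) (nat_lit 4576967048) (nat_lit 2) (nat_lit 5) (nat_lit 4) (nat_lit 4) (nat_lit 2) (nat_lit 4) (nat_lit 339) (nat_lit 252) (nat_lit 129))) (XT.nd (nat_lit 78) (nat_lit 0) (nat_lit 0) (XT.lf (nat_lit 0) (nat_lit 61890635212) (nat_lit 152) (nat_lit 127394449759) (nat_lit 0) (nat_lit 12921033420) (nat_lit 2) (nat_lit 5) (nat_lit 4) (nat_lit 4) (nat_lit 2) (nat_lit 4) (nat_lit 340) (nat_lit 252) (nat_lit 128)) (XT.lf (nat_lit 0) (nat_lit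 70656119519) (nat_lit 152) (nat_lit 119557383071) (nat_lit 0) (nat_lit 21681006358) (nat_lit 2) (nat_lit 5) (nat_lit 4) (nat_lit 4) (nat_lit 2) (nat_lit 4) (nat_lit 341) (nat_lit 252) (nat_lit 127)))))) (XT.nd (nat_lit 624) (nat_lit 76) (nat_lit 0) (XT.nd (nat_lit 312) (nat_lit 0) (nat_lit 0) (XT.nd (nat_lit 156) (nat_lit 0) (nat_lit 0) (XT.nd (nat_lit 78) (nat_lit 0) (nat_lit 0) (XT.lf (nat_lit 0) (nat_lit 79858105025) (nat_lit 152) (nat_lit 111331563133) (nat_lit 0) (nat_lit 30877742942) (nat_lit 2) (nat_lit 5) (nat_lit 4) (nat_lit 4) (nat_lit 2) (nat_lit 4) (nat_lit 342) (nat_lit 252) (nat_lit 126)) (XT.lf (nat_lit 0) (nat_lit 89518501220) (nat_lit 152) (nat_lit 102697404659) (nat_lit 0) (nat_lit 40533140164) (nat_lit 2) (nat_lit 5) (nat_lit 4) (nat_lit 4) (nat_lit 2) (nat_lit 4) (nat_lit 343) (nat_lit 252) (nat_lit 125))) (XT.nd (nat_lit 78) (nat_lit 0) (nat_lit 0) (XT.lf (nat_lit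 0) (nat_lit 99660309048) (nat_lit 152) (nat_lit 93634350128) (nat_lit 0) (nat_lit 50670187065) (nat_lit 2) (nat_lit 5) (nat_lit 4) (nat_lit 4) (nat_lit 2) (nat_lit 4) (nat_lit 344) (nat_lit 252) (nat_lit 124)) (XT.lf (nat_lit 0) (nat_lit 110307675669) (nat_lit 152) (nat_lit 84120820840) (nat_lit 0) (nat_lit 61313019470) (nat_lit 2) (nat_lit 5) (nat_lit 4) (nat_lit 4) (nat_lit 2) (nat_lit 4) (nat_lit 345) (nat_lit 252) (nat_lit 123)))) (XT.nd (nat_lit 156) (nat_lit 0) (nat_lit 0) (XT.nd (nat_lit 78) (nat_lit 0) (nat_lit 0) (XT.lf (nat_lit 0) (nat_lit 121485951957) (nat_lit 152) (nat_lit 74134165534) (nat_lit 0) (nat_lit 72486977456) (nat_lit 2) (nat_lit 5) (nat_lit 4) (nat_lit 4) (nat_lit 2) (nat_lit 4) (nat_lit 346) (nat_lit 252) (nat_lit 122)) (XT.lf (nat_lit 0) (nat_lit 133221752855) (nat_lit 152) (nat_lit 63650606459) (nat_lit 0) (nat_lit 84218665686) (nat_lit 2) (nat_lit 5) (nat_lit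 4) (nat_lit 4) (nat_lit 2) (nat_lit 4) (nat_lit 347) (nat_lit 252) (nat_lit 121))) (XT.nd (nat_lit 78) (nat_lit 0) (nat_lit 0) (XT.lf (nat_lit 0) (nat_lit 145543020746) (nat_lit 152) (nat_lit 52645182760) (nat_lit 0) (nat_lit 96536016751) (nat_lit 2) (nat_lit 5) (nat_lit 4) (nat_lit 4) (nat_lit 2) (nat_lit 4) (nat_lit 348) (nat_lit 252) (nat_lit 120)) (XT.lf (nat_lit 0) (nat_lit 158479091983) (nat_lit 152) (nat_lit 41091691048) (nat_lit 0) (nat_lit 109468357677) (nat_lit 2) (nat_lit 5) (nat_lit 4) (nat_lit 4) (nat_lit 2) (nat_lit 4) (nat_lit 349) (nat_lit 252) (nat_lit 119))))) (XT.nd (nat_lit 312) (nat_lit 0) (nat_lit 0) (XT.nd (nat_lit 156) (nat_lit 76) (nat_lit 0) (XT.nd (nat_lit 78) (nat_lit 0) (nat_lit 0) (XT.lf (nat_lit 0) (nat_lit 172060766735) (nat_lit 152) (nat_lit 28962623009) (nat_lit 0) (nat_lit 123046479752) (nat_lit 2) (nat_lit 5) (nat_lit 4) (nat_lit 4) (nat_lit 2) (nat_lit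 4) (nat_lit 350) (nat_lit 252) (nat_lit 118)) (XT.lf (nat_lit 0) (nat_lit 186320382322) (nat_lit 152) (nat_lit 16229099910) (nat_lit 0) (nat_lit 137302711837) (nat_lit 2) (nat_lit 5) (nat_lit 4) (nat_lit 4) (nat_lit 2) (nat_lit 4) (nat_lit 351) (nat_lit 252) (nat_lit 117))) (XT.nd (nat_lit 78) (nat_lit 76) (nat_lit 0) (XT.lf (nat_lit 0) (nat_lit 201291890212) (nat_lit 152) (nat_lit 2860803838) (nat_lit 0) (nat_lit 152270997344) (nat_lit 2) (nat_lit 5) (nat_lit 4) (nat_lit 4) (nat_lit 2) (nat_lit 4) (nat_lit 352) (nat_lit 252) (nat_lit 116)) (XT.lf (nat_lit 0) (nat_lit 11543560508) (nat_lit 76) (nat_lit 205647603671) (nat_lit 76) (nat_lit 156623641867) (nat_lit 1) (nat_lit 4) (nat_lit 2) (nat_lit 5) (nat_lit 2) (nat_lit 4) (nat_lit 353) (nat_lit 252) (nat_lit 115)))) (XT.nd (nat_lit 156) (nat_lit 0) (nat_lit 0) (XT.nd (nat_lit 78) (nat_lit 0) (nat_lit 0) (XT.lf (nat_lit 0) (nat_lit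 26765680403) (nat_lit 76) (nat_lit 207167155416) (nat_lit 76) (nat_lit 158140270816) (nat_lit 1) (nat_lit 4) (nat_lit 2) (nat_lit 5) (nat_lit 2) (nat_lit 4) (nat_lit 354) (nat_lit 252) (nat_lit 114)) (XT.lf (nat_lit 0) (nat_lit 42747207892) (nat_lit 76) (nat_lit 208763416364) (nat_lit 76) (nat_lit 159733748148) (nat_lit 1) (nat_lit 4) (nat_lit 2) (nat_lit 5) (nat_lit 2) (nat_lit 4) (nat_lit 355) (nat_lit 252) (nat_lit 113))) (XT.nd (nat_lit 29484) (nat_lit 0) (nat_lit 5472) (XT.lf (nat_lit 0) (nat_lit 59526194232) (nat_lit 76) (nat_lit 210440187135) (nat_lit 76) (nat_lit 161407867857) (nat_lit 1) (nat_lit 4) (nat_lit 2) (nat_lit 5) (nat_lit 2) (nat_lit 4) (nat_lit 356) (nat_lit 252) (nat_lit 112)) (XT.nd (nat_lit 78) (nat_lit 0) (nat_lit 0) (XT.lf (nat_lit 0) (nat_lit 861869821) (nat_lit 0) (nat_lit 861869821) (nat_lit 532) (nat_lit 2516977818) (nat_lit 73) (nat_lit 5) (nat_lit 73)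 (nat_lit 3) (nat_lit 80) (nat_lit 3) (nat_lit 253) (nat_lit 253) (nat_lit 214)) (XT.lf (nat_lit 0) (nat_lit 4453269923) (nat_lit 532) (nat_lit 3336037527) (nat_lit 608) (nat_lit 852946643) (nat_lit 73) (nat_lit 5) (nat_lit 80) (nat_lit 3) (nat_lit 81) (nat_lit 5) (nat_lit 254) (nat_lit 253) (nat_lit 213))))))))
noncomputable def xc153 : XT := (XT.nd (nat_lit 1326) (nat_lit 1824) (nat_lit 0) (XT.nd (nat_lit 624) (nat_lit 1520) (nat_lit 0) (XT.nd (nat_lit 312) (nat_lit 532) (nat_lit 0) (XT.nd (nat_lit 156) (nat_lit 0) (nat_lit 76) (XT.nd (nat_lit 78) (nat_lit 0) (nat_lit 0) (XT.lf (nat_lit 76) (nat_lit 202238090) (nat_lit 0) (nat_lit 5280994702) (nat_lit 608) (nat_lit 3329522495) (nat_lit 74) (nat_lit 5) (nat_lit 73) (nat_lit 5) (nat_lit 81) (nat_lit 5) (nat_lit 255) (nat_lit 253) (nat_lit 212)) (XT.lf (nat_lit 76) (nat_lit 4001094395) (nat_lit 0) (nat_lit 2564801655) (nat_lit 608) (nat_lit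 2426144621) (nat_lit 74) (nat_lit 5) (nat_lit 73) (nat_lit 5) (nat_lit 81) (nat_lit 5) (nat_lit 256) (nat_lit 253) (nat_lit 211))) (XT.nd (nat_lit 78) (nat_lit 0) (nat_lit 0) (XT.lf (nat_lit 0) (nat_lit 7654858534) (nat_lit 532) (nat_lit 1228783776) (nat_lit 608) (nat_lit 299343750) (nat_lit 74) (nat_lit 5) (nat_lit 81) (nat_lit 5) (nat_lit 82) (nat_lit 5) (nat_lit 257) (nat_lit 253) (nat_lit 210)) (XT.lf (nat_lit 76) (nat_lit 2734679206) (nat_lit 0) (nat_lit 6098505250) (nat_lit 608) (nat_lit 548838058) (nat_lit 75) (nat_lit 5) (nat_lit 74) (nat_lit 5) (nat_lit 82) (nat_lit 5) (nat_lit 258) (nat_lit 253) (nat_lit 209)))) (XT.nd (nat_lit 156) (nat_lit 0) (nat_lit 76) (XT.nd (nat_lit 78) (nat_lit 0) (nat_lit 76) (XT.lf (nat_lit 0) (nat_lit 436219861) (nat_lit 608) (nat_lit 2692471166) (nat_lit 684) (nat_lit 6463600738) (nat_lit 66) (nat_lit 5) (nat_lit 74) (nat_lit 5) (nat_lit 75) (nat_lit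 5) (nat_lit 259) (nat_lit 253) (nat_lit 208)) (XT.lf (nat_lit 0) (nat_lit 1428894213) (nat_lit 608) (nat_lit 8348631797) (nat_lit 684) (nat_lit 36508330) (nat_lit 67) (nat_lit 5) (nat_lit 75) (nat_lit 5) (nat_lit 76) (nat_lit 5) (nat_lit 260) (nat_lit 253) (nat_lit 207))) (XT.nd (nat_lit 78) (nat_lit 0) (nat_lit 0) (XT.lf (nat_lit 0) (nat_lit 2524108069) (nat_lit 608) (nat_lit 4206201052) (nat_lit 684) (nat_lit 3314147855) (nat_lit 67) (nat_lit 5) (nat_lit 75) (nat_lit 5) (nat_lit 76) (nat_lit 5) (nat_lit 261) (nat_lit 253) (nat_lit 206)) (XT.lf (nat_lit 76) (nat_lit 114417245) (nat_lit 0) (nat_lit 3518851703) (nat_lit 684) (nat_lit 6655399358) (nat_lit 68) (nat_lit 5) (nat_lit 67) (nat_lit 5) (nat_lit 76) (nat_lit 5) (nat_lit 262) (nat_lit 253) (nat_lit 205))))) (XT.nd (nat_lit 312) (nat_lit 1064) (nat_lit 0) (XT.nd (nat_lit 156) (nat_lit 532) (nat_lit 0) (XT.nd (nat_lit 78) (nat_lit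 0) (nat_lit 76) (XT.lf (nat_lit 76) (nat_lit 4765025955) (nat_lit 0) (nat_lit 63023791) (nat_lit 684) (nat_lit 5715748439) (nat_lit 68) (nat_lit 5) (nat_lit 67) (nat_lit 5) (nat_lit 76) (nat_lit 5) (nat_lit 263) (nat_lit 253) (nat_lit 204)) (XT.lf (nat_lit 0) (nat_lit 6099256015) (nat_lit 608) (nat_lit 1252026999) (nat_lit 76) (nat_lit 3459773006) (nat_lit 68) (nat_lit 5) (nat_lit 76) (nat_lit 5) (nat_lit 69) (nat_lit 5) (nat_lit 264) (nat_lit 253) (nat_lit 203))) (XT.nd (nat_lit 78) (nat_lit 0) (nat_lit 0) (XT.lf (nat_lit 0) (nat_lit 3583439910) (nat_lit 608) (nat_lit 3870437206) (nat_lit 684) (nat_lit 3637002891) (nat_lit 60) (nat_lit 5) (nat_lit 68) (nat_lit 5) (nat_lit 69) (nat_lit 5) (nat_lit 265) (nat_lit 253) (nat_lit 202)) (XT.lf (nat_lit 0) (nat_lit 8673377288) (nat_lit 608) (nat_lit 188216973) (nat_lit 684) (nat_lit 2524019338) (nat_lit 60) (nat_lit 5) (nat_lit 68) (nat_lit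 5) (nat_lit 69) (nat_lit 5) (nat_lit 266) (nat_lit 253) (nat_lit 201)))) (XT.nd (nat_lit 156) (nat_lit 304) (nat_lit 0) (XT.nd (nat_lit 78) (nat_lit 76) (nat_lit 0) (XT.lf (nat_lit 0) (nat_lit 2307904447) (nat_lit 684) (nat_lit 8091194613) (nat_lit 760) (nat_lit 1293192483) (nat_lit 51) (nat_lit 5) (nat_lit 60) (nat_lit 5) (nat_lit 61) (nat_lit 5) (nat_lit 267) (nat_lit 253) (nat_lit 200)) (XT.lf (nat_lit 0) (nat_lit 15354939) (nat_lit 760) (nat_lit 4374650879) (nat_lit 76) (nat_lit 7623651808) (nat_lit 50) (nat_lit 5) (nat_lit 60) (nat_lit 5) (nat_lit 51) (nat_lit 5) (nat_lit 268) (nat_lit 253) (nat_lit 199))) (XT.nd (nat_lit 78) (nat_lit 0) (nat_lit 0) (XT.lf (nat_lit 0) (nat_lit 861435537) (nat_lit 304) (nat_lit 465866046) (nat_lit 380) (nat_lit 11023812415) (nat_lit 46) (nat_lit 5) (nat_lit 50) (nat_lit 5) (nat_lit 51) (nat_lit 5) (nat_lit 269) (nat_lit 253) (nat_lit 198)) (XT.nd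 (nat_lit 78) (nat_lit 0) (nat_lit 0) (XT.lf (nat_lit 0) (nat_lit 2806256583) (nat_lit 380) (nat_lit 6280530887) (nat_lit 76) (nat_lit 3613731418) (nat_lit 46) (nat_lit 5) (nat_lit 51) (nat_lit 5) (nat_lit 47) (nat_lit 5) (nat_lit 270) (nat_lit 253) (nat_lit 197)) (XT.lf (nat_lit 0) (nat_lit 4337323115) (nat_lit 380) (nat_lit 848777453) (nat_lit 76) (nat_lit 7882524548) (nat_lit 46) (nat_lit 5) (nat_lit 51) (nat_lit 5) (nat_lit 47) (nat_lit 5) (nat_lit 271) (nat_lit 253) (nat_lit 196))))))) (XT.nd (nat_lit 624) (nat_lit 684) (nat_lit 0) (XT.nd (nat_lit 312) (nat_lit 608) (nat_lit 0) (XT.nd (nat_lit 156) (nat_lit 228) (nat_lit 0) (XT.nd (nat_lit 78) (nat_lit 0) (nat_lit 0) (XT.lf (nat_lit 0) (nat_lit 4985350407) (nat_lit 304) (nat_lit 1009357985) (nat_lit 380) (nat_lit 7458072641) (nat_lit 42) (nat_lit 5) (nat_lit 46) (nat_lit 5) (nat_lit 47) (nat_lit 5) (nat_lit 272) (nat_lit 253) (nat_lit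 195)) (XT.lf (nat_lit 0) (nat_lit 7775092351) (nat_lit 380) (nat_lit 2797500483) (nat_lit 76) (nat_lit 3281671778) (nat_lit 42) (nat_lit 5) (nat_lit 47) (nat_lit 5) (nat_lit 43) (nat_lit 5) (nat_lit 273) (nat_lit 253) (nat_lit 194))) (XT.nd (nat_lit 78) (nat_lit 0) (nat_lit 0) (XT.lf (nat_lit 0) (nat_lit 3213882851) (nat_lit 228) (nat_lit 6471439158) (nat_lit 304) (nat_lit 4588579354) (nat_lit 39) (nat_lit 5) (nat_lit 42) (nat_lit 5) (nat_lit 43) (nat_lit 5) (nat_lit 274) (nat_lit 253) (nat_lit 193)) (XT.lf (nat_lit 0) (nat_lit 9595054898) (nat_lit 228) (nat_lit 2118284799) (nat_lit 304) (nat_lit 3000181016) (nat_lit 39) (nat_lit 5) (nat_lit 42) (nat_lit 5) (nat_lit 43) (nat_lit 5) (nat_lit 275) (nat_lit 253) (nat_lit 192)))) (XT.nd (nat_lit 156) (nat_lit 228) (nat_lit 0) (XT.nd (nat_lit 78) (nat_lit 76) (nat_lit 0) (XT.lf (nat_lit 0) (nat_lit 1088887554) (nat_lit 304) (nat_lit 12785215233)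 (nat_lit 380) (nat_lit 1299560149) (nat_lit 35) (nat_lit 5) (nat_lit 39) (nat_lit 5) (nat_lit 40) (nat_lit 5) (nat_lit 276) (nat_lit 253) (nat_lit 191)) (XT.lf (nat_lit 0) (nat_lit 569648838) (nat_lit 380) (nat_lit 7940175681) (nat_lit 76) (nat_lit 7141751524) (nat_lit 34) (nat_lit 5) (nat_lit 39) (nat_lit 5) (nat_lit 35) (nat_lit 5) (nat_lit 277) (nat_lit 253) (nat_lit 190))) (XT.nd (nat_lit 78) (nat_lit 228) (nat_lit 0) (XT.lf (nat_lit 0) (nat_lit 2466058179) (nat_lit 380) (nat_lit 1536575481) (nat_lit 76) (nat_lit 12150909521) (nat_lit 34) (nat_lit 5) (nat_lit 39) (nat_lit 5) (nat_lit 35) (nat_lit 5) (nat_lit 278) (nat_lit 253) (nat_lit 189)) (XT.lf (nat_lit 0) (nat_lit 4531724470) (nat_lit 304) (nat_lit 11358081553) (nat_lit 76) (nat_lit 787170613) (nat_lit 31) (nat_lit 5) (nat_lit 35) (nat_lit 5) (nat_lit 32) (nat_lit 5) (nat_lit 279) (nat_lit 253) (nat_lit 188))))) (XT.nd (nat_lit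 312) (nat_lit 456) (nat_lit 0) (XT.nd (nat_lit 156) (nat_lit 0) (nat_lit 0) (XT.nd (nat_lit 78) (nat_lit 228) (nat_lit 0) (XT.lf (nat_lit 0) (nat_lit 6771791978) (nat_lit 304) (nat_lit 4747129668) (nat_lit 76) (nat_lit 5704189730) (nat_lit 31) (nat_lit 5) (nat_lit 35) (nat_lit 5) (nat_lit 32) (nat_lit 5) (nat_lit 280) (nat_lit 253) (nat_lit 187)) (XT.lf (nat_lit 0) (nat_lit 2241058540) (nat_lit 228) (nat_lit 6897842772) (nat_lit 304) (nat_lit 8656981055) (nat_lit 28) (nat_lit 5) (nat_lit 31) (nat_lit 5) (nat_lit 32) (nat_lit 5) (nat_lit 281) (nat_lit 253) (nat_lit 186))) (XT.nd (nat_lit 78) (nat_lit 0) (nat_lit 0) (XT.lf (nat_lit 0) (nat_lit 9718830499) (nat_lit 228) (nat_lit 1966545209) (nat_lit 304) (nat_lit 6708943279) (nat_lit 28) (nat_lit 5) (nat_lit 31) (nat_lit 5) (nat_lit 32) (nat_lit 5) (nat_lit 282) (nat_lit 253) (nat_lit 185)) (XT.lf (nat_lit 0) (nat_lit 14390771189) (nat_lit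 304) (nat_lit 1526705132) (nat_lit 76) (nat_lit 3103695113) (nat_lit 28) (nat_lit 5) (nat_lit 32) (nat_lit 5) (nat_lit 29) (nat_lit 5) (nat_lit 283) (nat_lit 253) (nat_lit 184)))) (XT.nd (nat_lit 156) (nat_lit 228) (nat_lit 0) (XT.nd (nat_lit 78) (nat_lit 76) (nat_lit 0) (XT.lf (nat_lit 0) (nat_lit 6119935001) (nat_lit 152) (nat_lit 11221631801) (nat_lit 228) (nat_lit 2332363531) (nat_lit 26) (nat_lit 5) (nat_lit 28) (nat_lit 5) (nat_lit 29) (nat_lit 5) (nat_lit 284) (nat_lit 253) (nat_lit 183)) (XT.lf (nat_lit 0) (nat_lit 86755804) (nat_lit 228) (nat_lit 6181294022) (nat_lit 76) (nat_lit 14090840275) (nat_lit 25) (nat_lit 5) (nat_lit 28) (nat_lit 5) (nat_lit 26) (nat_lit 5) (nat_lit 285) (nat_lit 253) (nat_lit 182))) (XT.nd (nat_lit 78) (nat_lit 0) (nat_lit 0) (XT.lf (nat_lit 0) (nat_lit 1549014890) (nat_lit 228) (nat_lit 1006932579) (nat_lit 304) (nat_lit 18519924428) (nat_lit 22)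 (nat_lit 5) (nat_lit 25) (nat_lit 5) (nat_lit 26) (nat_lit 5) (nat_lit 286) (nat_lit 253) (nat_lit 181)) (XT.nd (nat_lit 78) (nat_lit 0) (nat_lit 0) (XT.lf (nat_lit 0) (nat_lit 5309200190) (nat_lit 304) (nat_lit 12038060482) (nat_lit 76) (nat_lit 4473469915) (nat_lit 22) (nat_lit 5) (nat_lit 26) (nat_lit 5) (nat_lit 23) (nat_lit 5) (nat_lit 287) (nat_lit 253) (nat_lit 180)) (XT.lf (nat_lit 0) (nat_lit 8201075363) (nat_lit 304) (nat_lit 4213034815) (nat_lit 76) (nat_lit 10188729161) (nat_lit 22) (nat_lit 5) (nat_lit 26) (nat_lit 5) (nat_lit 23) (nat_lit 5) (nat_lit 288) (nat_lit 253) (nat_lit 179))))))))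
noncomputable def xc154 : XT := (XT.nd (nat_lit 1326) (nat_lit 304) (nat_lit 0) (XT.nd (nat_lit 624) (nat_lit 456) (nat_lit 0) (XT.nd (nat_lit 312) (nat_lit 228) (nat_lit 0) (XT.nd (nat_lit 156) (nat_lit 152) (nat_lit 0) (XT.nd (nat_lit 78) (nat_lit 0) (nat_lit 0) (XT.lf (nat_lit 0) (nat_lit 4114253861) (nat_lit 152) (nat_lit 7172718538) (nat_lit 228) (nat_lit 12134662218) (nat_lit 20) (nat_lit 5) (nat_lit 22) (nat_lit 5) (nat_lit 23) (nat_lit 5) (nat_lit 289) (nat_lit 253) (nat_lit 178)) (XT.lf (nat_lit 0) (nat_lit 12983837327) (nat_lit 152) (nat_lit 1600257395) (nat_lit 228) (nat_lit 9694478411) (nat_lit 20) (nat_lit 5) (nat_lit 22) (nat_lit 5) (nat_lit 23) (nat_lit 5) (nat_lit 290) (nat_lit 253) (nat_lit 177))) (XT.nd (nat_lit 78) (nat_lit 152) (nat_lit 0) (XT.lf (nat_lit 0) (nat_lit 18098619781) (nat_lit 228) (nat_lit 2967840479) (nat_lit 76) (nat_lit 4109318598) (nat_lit 20) (nat_lit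 5) (nat_lit 23) (nat_lit 5) (nat_lit 21) (nat_lit 5) (nat_lit 291) (nat_lit 253) (nat_lit 176)) (XT.lf (nat_lit 0) (nat_lit 5919567541) (nat_lit 152) (nat_lit 15974795746) (nat_lit 228) (nat_lit 4218252319) (nat_lit 18) (nat_lit 5) (nat_lit 20) (nat_lit 5) (nat_lit 21) (nat_lit 5) (nat_lit 292) (nat_lit 253) (nat_lit 175)))) (XT.nd (nat_lit 156) (nat_lit 152) (nat_lit 0) (XT.nd (nat_lit 78) (nat_lit 76) (nat_lit 0) (XT.lf (nat_lit 0) (nat_lit 15335628650) (nat_lit 152) (nat_lit 10581698548) (nat_lit 228) (nat_lit 1177138520) (nat_lit 18) (nat_lit 5) (nat_lit 20) (nat_lit 5) (nat_lit 21) (nat_lit 5) (nat_lit 293) (nat_lit 253) (nat_lit 174)) (XT.lf (nat_lit 0) (nat_lit 1939047582) (nat_lit 228) (nat_lit 2952703481) (nat_lit 76) (nat_lit 23232745539) (nat_lit 17) (nat_lit 5) (nat_lit 20) (nat_lit 5) (nat_lit 18) (nat_lit 5) (nat_lit 294) (nat_lit 253) (nat_lit 173))) (XT.nd (nat_lit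 78) (nat_lit 0) (nat_lit 0) (XT.lf (nat_lit 0) (nat_lit 5279325786) (nat_lit 228) (nat_lit 22755552309) (nat_lit 76) (nat_lit 1164831256) (nat_lit 15) (nat_lit 5) (nat_lit 18) (nat_lit 5) (nat_lit 16) (nat_lit 5) (nat_lit 295) (nat_lit 253) (nat_lit 172)) (XT.lf (nat_lit 0) (nat_lit 8905980976) (nat_lit 228) (nat_lit 14011508459) (nat_lit 76) (nat_lit 7405260681) (nat_lit 15) (nat_lit 5) (nat_lit 18) (nat_lit 5) (nat_lit 16) (nat_lit 5) (nat_lit 296) (nat_lit 253) (nat_lit 171))))) (XT.nd (nat_lit 312) (nat_lit 304) (nat_lit 0) (XT.nd (nat_lit 156) (nat_lit 0) (nat_lit 0) (XT.nd (nat_lit 78) (nat_lit 152) (nat_lit 0) (XT.lf (nat_lit 0) (nat_lit 12702869128) (nat_lit 228) (nat_lit 4847105636) (nat_lit 76) (nat_lit 13952556983) (nat_lit 15) (nat_lit 5) (nat_lit 18) (nat_lit 5) (nat_lit 16) (nat_lit 5) (nat_lit 297) (nat_lit 253) (nat_lit 170)) (XT.lf (nat_lit 0) (nat_lit 4916845940)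 (nat_lit 152) (nat_lit 11838950254) (nat_lit 228) (nat_lit 15982228767) (nat_lit 13) (nat_lit 5) (nat_lit 15) (nat_lit 5) (nat_lit 16) (nat_lit 5) (nat_lit 298) (nat_lit 253) (nat_lit 169))) (XT.nd (nat_lit 78) (nat_lit 0) (nat_lit 0) (XT.lf (nat_lit 0) (nat_lit 15321493224) (nat_lit 152) (nat_lit 5761650216) (nat_lit 228) (nat_lit 12948591396) (nat_lit 13) (nat_lit 5) (nat_lit 15) (nat_lit 5) (nat_lit 16) (nat_lit 5) (nat_lit 299) (nat_lit 253) (nat_lit 168)) (XT.lf (nat_lit 0) (nat_lit 25626626006) (nat_lit 228) (nat_lit 9168899663) (nat_lit 76) (nat_lit 594645369) (nat_lit 13) (nat_lit 5) (nat_lit 16) (nat_lit 5) (nat_lit 14) (nat_lit 4) (nat_lit 300) (nat_lit 253) (nat_lit 167)))) (XT.nd (nat_lit 156) (nat_lit 228) (nat_lit 0) (XT.nd (nat_lit 78) (nat_lit 0) (nat_lit 0) (XT.lf (nat_lit 0) (nat_lit 764801213) (nat_lit 76) (nat_lit 29729442691) (nat_lit 152) (nat_lit 6317464925)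 (nat_lit 12) (nat_lit 5) (nat_lit 13) (nat_lit 5) (nat_lit 14) (nat_lit 4) (nat_lit 301) (nat_lit 253) (nat_lit 166)) (XT.lf (nat_lit 0) (nat_lit 11499014958) (nat_lit 76) (nat_lit 24252297586) (nat_lit 152) (nat_lit 2545733987) (nat_lit 12) (nat_lit 5) (nat_lit 13) (nat_lit 5) (nat_lit 14) (nat_lit 4) (nat_lit 302) (nat_lit 253) (nat_lit 165))) (XT.nd (nat_lit 78) (nat_lit 152) (nat_lit 0) (XT.lf (nat_lit 0) (nat_lit 1360368417) (nat_lit 152) (nat_lit 17122922370) (nat_lit 76) (nat_lit 21372727077) (nat_lit 11) (nat_lit 5) (nat_lit 13) (nat_lit 5) (nat_lit 12) (nat_lit 5) (nat_lit 303) (nat_lit 253) (nat_lit 164)) (XT.nd (nat_lit 78) (nat_lit 152) (nat_lit 0) (XT.lf (nat_lit 0) (nat_lit 5367708707) (nat_lit 152) (nat_lit 7019243460) (nat_lit 76) (nat_lit 29104347527) (nat_lit 11) (nat_lit 5) (nat_lit 13) (nat_lit 5) (nat_lit 12) (nat_lit 5) (nat_lit 304) (nat_lit 253) (nat_lit 163))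 (XT.lf (nat_lit 0) (nat_lit 3695072988) (nat_lit 152) (nat_lit 5929925010) (nat_lit 228) (nat_lit 33580890331) (nat_lit 9) (nat_lit 5) (nat_lit 11) (nat_lit 5) (nat_lit 12) (nat_lit 5) (nat_lit 305) (nat_lit 253) (nat_lit 162))))))) (XT.nd (nat_lit 624) (nat_lit 228) (nat_lit 0) (XT.nd (nat_lit 312) (nat_lit 0) (nat_lit 0) (XT.nd (nat_lit 156) (nat_lit 76) (nat_lit 0) (XT.nd (nat_lit 78) (nat_lit 0) (nat_lit 0) (XT.lf (nat_lit 0) (nat_lit 14221252649) (nat_lit 228) (nat_lit 29839632799) (nat_lit 76) (nat_lit 939036677) (nat_lit 9) (nat_lit 5) (nat_lit 12) (nat_lit 5) (nat_lit 10) (nat_lit 4) (nat_lit 306) (nat_lit 253) (nat_lit 161)) (XT.lf (nat_lit 0) (nat_lit 19136920199) (nat_lit 228) (nat_lit 19794435153) (nat_lit 76) (nat_lit 7947842034) (nat_lit 9) (nat_lit 5) (nat_lit 12) (nat_lit 5) (nat_lit 10) (nat_lit 4) (nat_lit 307) (nat_lit 253) (nat_lit 160))) (XT.nd (nat_lit 78) (nat_lit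 76) (nat_lit 0) (XT.lf (nat_lit 0) (nat_lit 24291121871) (nat_lit 228) (nat_lit 9258722517) (nat_lit 76) (nat_lit 15302973328) (nat_lit 9) (nat_lit 5) (nat_lit 12) (nat_lit 5) (nat_lit 10) (nat_lit 4) (nat_lit 308) (nat_lit 253) (nat_lit 159)) (XT.lf (nat_lit 0) (nat_lit 1851861262) (nat_lit 76) (nat_lit 27873181055) (nat_lit 152) (nat_lit 21198994256) (nat_lit 8) (nat_lit 5) (nat_lit 9) (nat_lit 5) (nat_lit 10) (nat_lit 4) (nat_lit 309) (nat_lit 253) (nat_lit 158)))) (XT.nd (nat_lit 156) (nat_lit 0) (nat_lit 0) (XT.nd (nat_lit 78) (nat_lit 0) (nat_lit 0) (XT.lf (nat_lit 0) (nat_lit 13828410971) (nat_lit 76) (nat_lit 21752301650) (nat_lit 152) (nat_lit 17510618152) (nat_lit 8) (nat_lit 5) (nat_lit 9) (nat_lit 5) (nat_lit 10) (nat_lit 4) (nat_lit 310) (nat_lit 253) (nat_lit 157)) (XT.lf (nat_lit 0) (nat_lit 26393307022) (nat_lit 76) (nat_lit 15329433598) (nat_lit 152) (nat_lit 13644586629)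 (nat_lit 8) (nat_lit 5) (nat_lit 9) (nat_lit 5) (nat_lit 10) (nat_lit 4) (nat_lit 311) (nat_lit 253) (nat_lit 156))) (XT.nd (nat_lit 78) (nat_lit 0) (nat_lit 0) (XT.lf (nat_lit 0) (nat_lit 39576465836) (nat_lit 76) (nat_lit 8589284355) (nat_lit 152) (nat_lit 9591694852) (nat_lit 8) (nat_lit 5) (nat_lit 9) (nat_lit 5) (nat_lit 10) (nat_lit 4) (nat_lit 312) (nat_lit 253) (nat_lit 155)) (XT.lf (nat_lit 0) (nat_lit 53409275885) (nat_lit 76) (nat_lit 1515805947) (nat_lit 152) (nat_lit 5342293078) (nat_lit 8) (nat_lit 5) (nat_lit 9) (nat_lit 5) (nat_lit 10) (nat_lit 4) (nat_lit 313) (nat_lit 253) (nat_lit 154))))) (XT.nd (nat_lit 312) (nat_lit 76) (nat_lit 0) (XT.nd (nat_lit 156) (nat_lit 0) (nat_lit 0) (XT.nd (nat_lit 78) (nat_lit 76) (nat_lit 0) (XT.lf (nat_lit 0) (nat_lit 5092327859) (nat_lit 76) (nat_lit 57096244831) (nat_lit 76) (nat_lit 705933010) (nat_lit 7) (nat_lit 4) (nat_lit 8)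 (nat_lit 5) (nat_lit 8) (nat_lit 4) (nat_lit 314) (nat_lit 253) (nat_lit 153)) (XT.lf (nat_lit 0) (nat_lit 4166341583) (nat_lit 152) (nat_lit 47869888028) (nat_lit 76) (nat_lit 13606661239) (nat_lit 6) (nat_lit 5) (nat_lit 8) (nat_lit 5) (nat_lit 7) (nat_lit 4) (nat_lit 315) (nat_lit 253) (nat_lit 152))) (XT.nd (nat_lit 78) (nat_lit 0) (nat_lit 0) (XT.lf (nat_lit 0) (nat_lit 9253187675) (nat_lit 152) (nat_lit 37461450159) (nat_lit 76) (nat_lit 21813756847) (nat_lit 6) (nat_lit 5) (nat_lit 8) (nat_lit 5) (nat_lit 7) (nat_lit 4) (nat_lit 316) (nat_lit 253) (nat_lit 151)) (XT.lf (nat_lit 0) (nat_lit 14589311070) (nat_lit 152) (nat_lit 26541060649) (nat_lit 76) (nat_lit 30428066803) (nat_lit 6) (nat_lit 5) (nat_lit 8) (nat_lit 5) (nat_lit 7) (nat_lit 4) (nat_lit 317) (nat_lit 253) (nat_lit 150)))) (XT.nd (nat_lit 156) (nat_lit 76) (nat_lit 0) (XT.nd (nat_lit 78) (nat_lit 0) (nat_lit 0)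 (XT.lf (nat_lit 0) (nat_lit 20187416822) (nat_lit 152) (nat_lit 15082718570) (nat_lit 76) (nat_lit 39470101371) (nat_lit 6) (nat_lit 5) (nat_lit 8) (nat_lit 5) (nat_lit 7) (nat_lit 4) (nat_lit 318) (nat_lit 253) (nat_lit 149)) (XT.lf (nat_lit 0) (nat_lit 26060833756) (nat_lit 152) (nat_lit 3059142155) (nat_lit 76) (nat_lit 48961389203) (nat_lit 6) (nat_lit 5) (nat_lit 8) (nat_lit 5) (nat_lit 7) (nat_lit 4) (nat_lit 319) (nat_lit 253) (nat_lit 148))) (XT.nd (nat_lit 78) (nat_lit 0) (nat_lit 0) (XT.lf (nat_lit 0) (nat_lit 9874336595) (nat_lit 76) (nat_lit 22503375668) (nat_lit 152) (nat_lit 49204358075) (nat_lit 5) (nat_lit 5) (nat_lit 6) (nat_lit 5) (nat_lit 7) (nat_lit 4) (nat_lit 320) (nat_lit 253) (nat_lit 147)) (XT.nd (nat_lit 78) (nat_lit 0) (nat_lit 0) (XT.lf (nat_lit 0) (nat_lit 23553496885) (nat_lit 76) (nat_lit 15504466478) (nat_lit 152) (nat_lit 46197480543) (nat_lit 5) (nat_lit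 5) (nat_lit 6) (nat_lit 5) (nat_lit 7) (nat_lit 4) (nat_lit 321) (nat_lit 253) (nat_lit 146)) (XT.lf (nat_lit 0) (nat_lit 37909759088) (nat_lit 76) (nat_lit 8158392326) (nat_lit 152) (nat_lit 43044547584) (nat_lit 5) (nat_lit 5) (nat_lit 6) (nat_lit 5) (nat_lit 7) (nat_lit 4) (nat_lit 322) (nat_lit 253) (nat_lit 145))))))))
noncomputable def xc155 : XT := (XT.nd (nat_lit 1326) (nat_lit 76) (nat_lit 0) (XT.nd (nat_lit 624) (nat_lit 152) (nat_lit 0) (XT.nd (nat_lit 312) (nat_lit 76) (nat_lit 0) (XT.nd (nat_lit 156) (nat_lit 0) (nat_lit 0) (XT.nd (nat_lit 78) (nat_lit 0) (nat_lit 0) (XT.lf (nat_lit 0) (nat_lit 52977304779) (nat_lit 76) (nat_lit 447662558) (nat_lit 152) (nat_lit 39738052213) (nat_lit 5) (nat_lit 5) (nat_lit 6) (nat_lit 5) (nat_lit 7) (nat_lit 4) (nat_lit 323) (nat_lit 253) (nat_lit 144)) (XT.lf (nat_lit 0) (nat_lit 61265304129) (nat_lit 152) (nat_lit 28743416883) (nat_lit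 0) (nat_lit 7401359338) (nat_lit 5) (nat_lit 5) (nat_lit 7) (nat_lit 4) (nat_lit 5) (nat_lit 4) (nat_lit 324) (nat_lit 253) (nat_lit 143))) (XT.nd (nat_lit 78) (nat_lit 0) (nat_lit 0) (XT.lf (nat_lit 0) (nat_lit 69501438327) (nat_lit 152) (nat_lit 16742411750) (nat_lit 0) (nat_lit 15625462912) (nat_lit 5) (nat_lit 5) (nat_lit 7) (nat_lit 4) (nat_lit 5) (nat_lit 4) (nat_lit 325) (nat_lit 253) (nat_lit 142)) (XT.lf (nat_lit 0) (nat_lit 78145990511) (nat_lit 152) (nat_lit 4147136286) (nat_lit 0) (nat_lit 24258557357) (nat_lit 5) (nat_lit 5) (nat_lit 7) (nat_lit 4) (nat_lit 5) (nat_lit 4) (nat_lit 326) (nat_lit 253) (nat_lit 141)))) (XT.nd (nat_lit 156) (nat_lit 0) (nat_lit 0) (XT.nd (nat_lit 78) (nat_lit 0) (nat_lit 0) (XT.lf (nat_lit 0) (nat_lit 9372372719) (nat_lit 76) (nat_lit 77993499232) (nat_lit 76) (nat_lit 24095153945) (nat_lit 4) (nat_lit 4) (nat_lit 5) (nat_lit 5) (nat_lit 5)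 (nat_lit 4) (nat_lit 327) (nat_lit 253) (nat_lit 140)) (XT.lf (nat_lit 0) (nat_lit 23706420479) (nat_lit 76) (nat_lit 73407402514) (nat_lit 76) (nat_lit 19498664720) (nat_lit 4) (nat_lit 4) (nat_lit 5) (nat_lit 5) (nat_lit 5) (nat_lit 4) (nat_lit 328) (nat_lit 253) (nat_lit 139))) (XT.nd (nat_lit 78) (nat_lit 0) (nat_lit 0) (XT.lf (nat_lit 0) (nat_lit 38752012622) (nat_lit 76) (nat_lit 68594151125) (nat_lit 76) (nat_lit 14675515706) (nat_lit 4) (nat_lit 4) (nat_lit 5) (nat_lit 5) (nat_lit 5) (nat_lit 4) (nat_lit 329) (nat_lit 253) (nat_lit 138)) (XT.lf (nat_lit 0) (nat_lit 54544971986) (nat_lit 76) (nat_lit 63542284944) (nat_lit 76) (nat_lit 9614223215) (nat_lit 4) (nat_lit 4) (nat_lit 5) (nat_lit 5) (nat_lit 5) (nat_lit 4) (nat_lit 330) (nat_lit 253) (nat_lit 137))))) (XT.nd (nat_lit 312) (nat_lit 76) (nat_lit 0) (XT.nd (nat_lit 156) (nat_lit 0) (nat_lit 0) (XT.nd (nat_lit 78) (nat_lit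 76) (nat_lit 0) (XT.lf (nat_lit 0) (nat_lit 71122900857) (nat_lit 76) (nat_lit 58239775717) (nat_lit 76) (nat_lit 4302736550) (nat_lit 4) (nat_lit 4) (nat_lit 5) (nat_lit 5) (nat_lit 5) (nat_lit 4) (nat_lit 331) (nat_lit 253) (nat_lit 136)) (XT.lf (nat_lit 0) (nat_lit 1230891841) (nat_lit 152) (nat_lit 51422260832) (nat_lit 76) (nat_lit 87273532903) (nat_lit 3) (nat_lit 5) (nat_lit 5) (nat_lit 5) (nat_lit 4) (nat_lit 4) (nat_lit 332) (nat_lit 253) (nat_lit 135))) (XT.nd (nat_lit 78) (nat_lit 0) (nat_lit 0) (XT.lf (nat_lit 0) (nat_lit 6894081237) (nat_lit 152) (nat_lit 39820865371) (nat_lit 76) (nat_lit 99782679269) (nat_lit 3) (nat_lit 5) (nat_lit 5) (nat_lit 5) (nat_lit 4) (nat_lit 4) (nat_lit 333) (nat_lit 253) (nat_lit 134)) (XT.lf (nat_lit 0) (nat_lit 12838029863) (nat_lit 152) (nat_lit 27643525737) (nat_lit 76) (nat_lit 112915682412) (nat_lit 3) (nat_lit 5) (nat_lit 5) (nat_lit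 5) (nat_lit 4) (nat_lit 4) (nat_lit 334) (nat_lit 253) (nat_lit 133)))) (XT.nd (nat_lit 156) (nat_lit 76) (nat_lit 0) (XT.nd (nat_lit 78) (nat_lit 0) (nat_lit 0) (XT.lf (nat_lit 0) (nat_lit 19076889976) (nat_lit 152) (nat_lit 14861248265) (nat_lit 76) (nat_lit 126703811386) (nat_lit 3) (nat_lit 5) (nat_lit 5) (nat_lit 5) (nat_lit 4) (nat_lit 4) (nat_lit 335) (nat_lit 253) (nat_lit 132)) (XT.lf (nat_lit 0) (nat_lit 25625516006) (nat_lit 152) (nat_lit 1443598962) (nat_lit 76) (nat_lit 141179895071) (nat_lit 3) (nat_lit 5) (nat_lit 5) (nat_lit 5) (nat_lit 4) (nat_lit 4) (nat_lit 336) (nat_lit 253) (nat_lit 131))) (XT.nd (nat_lit 78) (nat_lit 0) (nat_lit 0) (XT.lf (nat_lit 0) (nat_lit 13059349705) (nat_lit 76) (nat_lit 19644043262) (nat_lit 152) (nat_lit 143522943675) (nat_lit 2) (nat_lit 5) (nat_lit 3) (nat_lit 5) (nat_lit 4) (nat_lit 4) (nat_lit 337) (nat_lit 253) (nat_lit 130)) (XT.nd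 (nat_lit 78) (nat_lit 0) (nat_lit 0) (XT.lf (nat_lit 0) (nat_lit 28334057934) (nat_lit 76) (nat_lit 11823524460) (nat_lit 152) (nat_lit 144443830203) (nat_lit 2) (nat_lit 5) (nat_lit 3) (nat_lit 5) (nat_lit 4) (nat_lit 4) (nat_lit 338) (nat_lit 253) (nat_lit 129)) (XT.lf (nat_lit 0) (nat_lit 44369162177) (nat_lit 76) (nat_lit 3613386328) (nat_lit 152) (nat_lit 145412794252) (nat_lit 2) (nat_lit 5) (nat_lit 3) (nat_lit 5) (nat_lit 4) (nat_lit 4) (nat_lit 339) (nat_lit 253) (nat_lit 128))))))) (XT.nd (nat_lit 624) (nat_lit 76) (nat_lit 0) (XT.nd (nat_lit 312) (nat_lit 0) (nat_lit 0) (XT.nd (nat_lit 156) (nat_lit 0) (nat_lit 0) (XT.nd (nat_lit 78) (nat_lit 0) (nat_lit 0) (XT.lf (nat_lit 0) (nat_lit 56275078596) (nat_lit 152) (nat_lit 141504380222) (nat_lit 0) (nat_lit 4845698409) (nat_lit 2) (nat_lit 5) (nat_lit 4) (nat_lit 4) (nat_lit 2) (nat_lit 4) (nat_lit 340) (nat_lit 253) (nat_lit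 127)) (XT.lf (nat_lit 0) (nat_lit 65039698017) (nat_lit 152) (nat_lit 133668825771) (nat_lit 0) (nat_lit 13605068908) (nat_lit 2) (nat_lit 5) (nat_lit 4) (nat_lit 4) (nat_lit 2) (nat_lit 4) (nat_lit 341) (nat_lit 253) (nat_lit 126))) (XT.nd (nat_lit 78) (nat_lit 0) (nat_lit 0) (XT.lf (nat_lit 0) (nat_lit 74240859823) (nat_lit 152) (nat_lit 125444446057) (nat_lit 0) (nat_lit 22801231740) (nat_lit 2) (nat_lit 5) (nat_lit 4) (nat_lit 4) (nat_lit 2) (nat_lit 4) (nat_lit 342) (nat_lit 253) (nat_lit 125)) (XT.lf (nat_lit 0) (nat_lit 83900471541) (nat_lit 152) (nat_lit 116811659226) (nat_lit 0) (nat_lit 32456082532) (nat_lit 2) (nat_lit 5) (nat_lit 4) (nat_lit 4) (nat_lit 2) (nat_lit 4) (nat_lit 343) (nat_lit 253) (nat_lit 124)))) (XT.nd (nat_lit 156) (nat_lit 0) (nat_lit 0) (XT.nd (nat_lit 78) (nat_lit 0) (nat_lit 0) (XT.lf (nat_lit 0) (nat_lit 94041532248) (nat_lit 152) (nat_lit 107749911021)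 (nat_lit 0) (nat_lit 42592609022) (nat_lit 2) (nat_lit 5) (nat_lit 4) (nat_lit 4) (nat_lit 2) (nat_lit 4) (nat_lit 344) (nat_lit 253) (nat_lit 123)) (XT.lf (nat_lit 0) (nat_lit 104688187325) (nat_lit 152) (nat_lit 98237625853) (nat_lit 0) (nat_lit 53234945798) (nat_lit 2) (nat_lit 5) (nat_lit 4) (nat_lit 4) (nat_lit 2) (nat_lit 4) (nat_lit 345) (nat_lit 253) (nat_lit 122))) (XT.nd (nat_lit 78) (nat_lit 0) (nat_lit 0) (XT.lf (nat_lit 0) (nat_lit 115865785953) (nat_lit 152) (nat_lit 88252155423) (nat_lit 0) (nat_lit 64408431758) (nat_lit 2) (nat_lit 5) (nat_lit 4) (nat_lit 4) (nat_lit 2) (nat_lit 4) (nat_lit 346) (nat_lit 253) (nat_lit 121)) (XT.lf (nat_lit 0) (nat_lit 127600941460) (nat_lit 152) (nat_lit 77769724802) (nat_lit 0) (nat_lit 76139670438) (nat_lit 2) (nat_lit 5) (nat_lit 4) (nat_lit 4) (nat_lit 2) (nat_lit 4) (nat_lit 347) (nat_lit 253) (nat_lit 120))))) (XT.nd (nat_lit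 312) (nat_lit 76) (nat_lit 0) (XT.nd (nat_lit 156) (nat_lit 0) (nat_lit 0) (XT.nd (nat_lit 78) (nat_lit 0) (nat_lit 0) (XT.lf (nat_lit 0) (nat_lit 139921594693) (nat_lit 152) (nat_lit 66765375821) (nat_lit 0) (nat_lit 88456593361) (nat_lit 2) (nat_lit 5) (nat_lit 4) (nat_lit 4) (nat_lit 2) (nat_lit 4) (nat_lit 348) (nat_lit 253) (nat_lit 119)) (XT.lf (nat_lit 0) (nat_lit 152857080541) (nat_lit 152) (nat_lit 55212907650) (nat_lit 0) (nat_lit 101388526532) (nat_lit 2) (nat_lit 5) (nat_lit 4) (nat_lit 4) (nat_lit 2) (nat_lit 4) (nat_lit 349) (nat_lit 253) (nat_lit 118))) (XT.nd (nat_lit 78) (nat_lit 0) (nat_lit 0) (XT.lf (nat_lit 0) (nat_lit 166438197780) (nat_lit 152) (nat_lit 43084814412) (nat_lit 0) (nat_lit 114966260268) (nat_lit 2) (nat_lit 5) (nat_lit 4) (nat_lit 4) (nat_lit 2) (nat_lit 4) (nat_lit 350) (nat_lit 253) (nat_lit 117)) (XT.lf (nat_lit 0) (nat_lit 180697282403) (nat_lit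 152) (nat_lit 30352219695) (nat_lit 0) (nat_lit 129222122508) (nat_lit 2) (nat_lit 5) (nat_lit 4) (nat_lit 4) (nat_lit 2) (nat_lit 4) (nat_lit 351) (nat_lit 253) (nat_lit 116)))) (XT.nd (nat_lit 156) (nat_lit 76) (nat_lit 0) (XT.nd (nat_lit 78) (nat_lit 0) (nat_lit 0) (XT.lf (nat_lit 0) (nat_lit 195668284611) (nat_lit 152) (nat_lit 16984807796) (nat_lit 0) (nat_lit 144190055781) (nat_lit 2) (nat_lit 5) (nat_lit 4) (nat_lit 4) (nat_lit 2) (nat_lit 4) (nat_lit 352) (nat_lit 253) (nat_lit 115)) (XT.lf (nat_lit 0) (nat_lit 211386849648) (nat_lit 152) (nat_lit 2950751545) (nat_lit 0) (nat_lit 159905698022) (nat_lit 2) (nat_lit 5) (nat_lit 4) (nat_lit 4) (nat_lit 2) (nat_lit 4) (nat_lit 353) (nat_lit 253) (nat_lit 114))) (XT.nd (nat_lit 78) (nat_lit 0) (nat_lit 0) (XT.lf (nat_lit 0) (nat_lit 12172974689) (nat_lit 76) (nat_lit 215907482229) (nat_lit 76) (nat_lit 164423546987) (nat_lit 1)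 (nat_lit 4) (nat_lit 2) (nat_lit 5) (nat_lit 2) (nat_lit 4) (nat_lit 354) (nat_lit 253) (nat_lit 113)) (XT.nd (nat_lit 78) (nat_lit 0) (nat_lit 0) (XT.lf (nat_lit 0) (nat_lit 28153713142) (nat_lit 76) (nat_lit 217504083068) (nat_lit 76) (nat_lit 166017496764) (nat_lit 1) (nat_lit 4) (nat_lit 2) (nat_lit 5) (nat_lit 2) (nat_lit 4) (nat_lit 355) (nat_lit 253) (nat_lit 112)) (XT.lf (nat_lit 0) (nat_lit 44931948020) (nat_lit 76) (nat_lit 219181177545) (nat_lit 76) (nat_lit 167692066419) (nat_lit 1) (nat_lit 4) (nat_lit 2) (nat_lit 5) (nat_lit 2) (nat_lit 4) (nat_lit 356) (nat_lit 253) (nat_lit 111))))))))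
noncomputable def xc156 : XT := (XT.nd (nat_lit 1248) (nat_lit 1900) (nat_lit 0) (XT.nd (nat_lit 624) (nat_lit 1216) (nat_lit 0) (XT.nd (nat_lit 312) (nat_lit 532) (nat_lit 0) (XT.nd (nat_lit 156) (nat_lit 0) (nat_lit 0) (XT.nd (nat_lit 78) (nat_lit 0) (nat_lit 0) (XT.lf (nat_lit 0) (nat_lit 1350815137) (nat_lit 0) (nat_lit 1350815137) (nat_lit 532) (nat_lit 1701383114) (nat_lit 73) (nat_lit 5) (nat_lit 73) (nat_lit 3) (nat_lit 80) (nat_lit 3) (nat_lit 254) (nat_lit 254) (nat_lit 212)) (XT.lf (nat_lit 0) (nat_lit 6361157520) (nat_lit 532) (nat_lit 2545596036) (nat_lit 608) (nat_lit 73533438) (nat_lit 73) (nat_lit 5) (nat_lit 80) (nat_lit 3) (nat_lit 81) (nat_lit 5) (nat_lit 255) (nat_lit 254) (nat_lit 211))) (XT.nd (nat_lit 78) (nat_lit 0) (nat_lit 0) (XT.lf (nat_lit 76) (nat_lit 1154153952) (nat_lit 0) (nat_lit 6222920013) (nat_lit 608) (nat_lit 1785984064) (nat_lit 74) (nat_lit 5)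 (nat_lit 73) (nat_lit 5) (nat_lit 81) (nat_lit 5) (nat_lit 256) (nat_lit 254) (nat_lit 210)) (XT.lf (nat_lit 76) (nat_lit 5098105265) (nat_lit 0) (nat_lit 3338637525) (nat_lit 608) (nat_lit 918866561) (nat_lit 74) (nat_lit 5) (nat_lit 73) (nat_lit 5) (nat_lit 81) (nat_lit 5) (nat_lit 257) (nat_lit 254) (nat_lit 209)))) (XT.nd (nat_lit 156) (nat_lit 0) (nat_lit 0) (XT.nd (nat_lit 78) (nat_lit 532) (nat_lit 0) (XT.lf (nat_lit 76) (nat_lit 9211479359) (nat_lit 0) (nat_lit 290149652) (nat_lit 608) (nat_lit 58823301) (nat_lit 74) (nat_lit 5) (nat_lit 73) (nat_lit 5) (nat_lit 81) (nat_lit 5) (nat_lit 258) (nat_lit 254) (nat_lit 208)) (XT.lf (nat_lit 0) (nat_lit 877534586) (nat_lit 608) (nat_lit 5985034641) (nat_lit 684) (nat_lit 2909542652) (nat_lit 66) (nat_lit 5) (nat_lit 74) (nat_lit 5) (nat_lit 75) (nat_lit 5) (nat_lit 259) (nat_lit 254) (nat_lit 207))) (XT.nd (nat_lit 78) (nat_lit 0)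 (nat_lit 0) (XT.lf (nat_lit 0) (nat_lit 1825049892) (nat_lit 608) (nat_lit 1888353308) (nat_lit 684) (nat_lit 6282825412) (nat_lit 66) (nat_lit 5) (nat_lit 74) (nat_lit 5) (nat_lit 75) (nat_lit 5) (nat_lit 260) (nat_lit 254) (nat_lit 206)) (XT.lf (nat_lit 76) (nat_lit 2462922297) (nat_lit 0) (nat_lit 353141224) (nat_lit 684) (nat_lit 7415908411) (nat_lit 67) (nat_lit 5) (nat_lit 66) (nat_lit 5) (nat_lit 75) (nat_lit 5) (nat_lit 261) (nat_lit 254) (nat_lit 205))))) (XT.nd (nat_lit 312) (nat_lit 1292) (nat_lit 0) (XT.nd (nat_lit 156) (nat_lit 0) (nat_lit 0) (XT.nd (nat_lit 78) (nat_lit 0) (nat_lit 0) (XT.lf (nat_lit 0) (nat_lit 3898133543) (nat_lit 608) (nat_lit 3461723224) (nat_lit 684) (nat_lit 3117786441) (nat_lit 67) (nat_lit 5) (nat_lit 75) (nat_lit 5) (nat_lit 76) (nat_lit 5) (nat_lit 262) (nat_lit 254) (nat_lit 204)) (XT.lf (nat_lit 76) (nat_lit 1059526184) (nat_lit 0) (nat_lit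 3958472760) (nat_lit 684) (nat_lit 5718620295) (nat_lit 68) (nat_lit 5) (nat_lit 67) (nat_lit 5) (nat_lit 76) (nat_lit 5) (nat_lit 263) (nat_lit 254) (nat_lit 203))) (XT.nd (nat_lit 78) (nat_lit 0) (nat_lit 76) (XT.lf (nat_lit 76) (nat_lit 5897932563) (nat_lit 0) (nat_lit 317297334) (nat_lit 684) (nat_lit 4792441546) (nat_lit 68) (nat_lit 5) (nat_lit 67) (nat_lit 5) (nat_lit 76) (nat_lit 5) (nat_lit 264) (nat_lit 254) (nat_lit 202)) (XT.lf (nat_lit 0) (nat_lit 7491701616) (nat_lit 608) (nat_lit 398540078) (nat_lit 76) (nat_lit 3401252256) (nat_lit 68) (nat_lit 5) (nat_lit 76) (nat_lit 5) (nat_lit 69) (nat_lit 5) (nat_lit 265) (nat_lit 254) (nat_lit 201)))) (XT.nd (nat_lit 156) (nat_lit 760) (nat_lit 0) (XT.nd (nat_lit 78) (nat_lit 0) (nat_lit 0) (XT.lf (nat_lit 0) (nat_lit 4663924559) (nat_lit 608) (nat_lit 4212416334) (nat_lit 684) (nat_lit 2711127255) (nat_lit 60) (nat_lit 5) (nat_lit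 68) (nat_lit 5) (nat_lit 69) (nat_lit 5) (nat_lit 266) (nat_lit 254) (nat_lit 200)) (XT.lf (nat_lit 0) (nat_lit 9965439156) (nat_lit 608) (nat_lit 339015695) (nat_lit 684) (nat_lit 1595243371) (nat_lit 60) (nat_lit 5) (nat_lit 68) (nat_lit 5) (nat_lit 69) (nat_lit 5) (nat_lit 267) (nat_lit 254) (nat_lit 199))) (XT.nd (nat_lit 78) (nat_lit 76) (nat_lit 0) (XT.lf (nat_lit 0) (nat_lit 3324325279) (nat_lit 684) (nat_lit 8558866190) (nat_lit 760) (nat_lit 340548720) (nat_lit 51) (nat_lit 5) (nat_lit 60) (nat_lit 5) (nat_lit 61) (nat_lit 5) (nat_lit 268) (nat_lit 254) (nat_lit 198)) (XT.lf (nat_lit 0) (nat_lit 953973472) (nat_lit 760) (nat_lit 3699756200) (nat_lit 76) (nat_lit 7909220282) (nat_lit 50) (nat_lit 5) (nat_lit 60) (nat_lit 5) (nat_lit 51) (nat_lit 5) (nat_lit 269) (nat_lit 254) (nat_lit 197)))))) (XT.nd (nat_lit 624) (nat_lit 760) (nat_lit 0) (XT.nd (nat_lit 312) (nat_lit 532)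 (nat_lit 0) (XT.nd (nat_lit 156) (nat_lit 304) (nat_lit 0) (XT.nd (nat_lit 78) (nat_lit 0) (nat_lit 0) (XT.lf (nat_lit 0) (nat_lit 1783721195) (nat_lit 304) (nat_lit 516863686) (nat_lit 380) (nat_lit 10618455085) (nat_lit 46) (nat_lit 5) (nat_lit 50) (nat_lit 5) (nat_lit 51) (nat_lit 5) (nat_lit 270) (nat_lit 254) (nat_lit 196)) (XT.lf (nat_lit 0) (nat_lit 3809889103) (nat_lit 380) (nat_lit 5709532521) (nat_lit 76) (nat_lit 3768877393) (nat_lit 46) (nat_lit 5) (nat_lit 51) (nat_lit 5) (nat_lit 47) (nat_lit 5) (nat_lit 271) (nat_lit 254) (nat_lit 195))) (XT.nd (nat_lit 78) (nat_lit 304) (nat_lit 0) (XT.lf (nat_lit 0) (nat_lit 5376398500) (nat_lit 380) (nat_lit 48335458) (nat_lit 76) (nat_lit 8252326398) (nat_lit 46) (nat_lit 5) (nat_lit 51) (nat_lit 5) (nat_lit 47) (nat_lit 5) (nat_lit 272) (nat_lit 254) (nat_lit 194)) (XT.lf (nat_lit 0) (nat_lit 6063903942) (nat_lit 304) (nat_lit 1026543758)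 (nat_lit 380) (nat_lit 6991471664) (nat_lit 42) (nat_lit 5) (nat_lit 46) (nat_lit 5) (nat_lit 47) (nat_lit 5) (nat_lit 273) (nat_lit 254) (nat_lit 193)))) (XT.nd (nat_lit 156) (nat_lit 304) (nat_lit 0) (XT.nd (nat_lit 78) (nat_lit 228) (nat_lit 0) (XT.lf (nat_lit 0) (nat_lit 8922440793) (nat_lit 380) (nat_lit 2106644928) (nat_lit 76) (nat_lit 3476438119) (nat_lit 42) (nat_lit 5) (nat_lit 47) (nat_lit 5) (nat_lit 43) (nat_lit 5) (nat_lit 274) (nat_lit 254) (nat_lit 192)) (XT.lf (nat_lit 0) (nat_lit 4191908692) (nat_lit 228) (nat_lit 6712910564) (nat_lit 304) (nat_lit 4042659131) (nat_lit 39) (nat_lit 5) (nat_lit 42) (nat_lit 5) (nat_lit 43) (nat_lit 5) (nat_lit 275) (nat_lit 254) (nat_lit 191))) (XT.nd (nat_lit 78) (nat_lit 304) (nat_lit 0) (XT.lf (nat_lit 0) (nat_lit 10853218784) (nat_lit 228) (nat_lit 2146008038) (nat_lit 304) (nat_lit 2411762266) (nat_lit 39) (nat_lit 5) (nat_lit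 42) (nat_lit 5) (nat_lit 43) (nat_lit 5) (nat_lit 276) (nat_lit 254) (nat_lit 190)) (XT.lf (nat_lit 0) (nat_lit 1945578373) (nat_lit 304) (nat_lit 13302793841) (nat_lit 380) (nat_lit 646901222) (nat_lit 35) (nat_lit 5) (nat_lit 39) (nat_lit 5) (nat_lit 40) (nat_lit 5) (nat_lit 277) (nat_lit 254) (nat_lit 189))))) (XT.nd (nat_lit 312) (nat_lit 456) (nat_lit 0) (XT.nd (nat_lit 156) (nat_lit 228) (nat_lit 0) (XT.nd (nat_lit 78) (nat_lit 0) (nat_lit 0) (XT.lf (nat_lit 0) (nat_lit 1259719918) (nat_lit 380) (nat_lit 7548503738) (nat_lit 76) (nat_lit 7590090368) (nat_lit 34) (nat_lit 5) (nat_lit 39) (nat_lit 5) (nat_lit 35) (nat_lit 5) (nat_lit 278) (nat_lit 254) (nat_lit 188)) (XT.lf (nat_lit 0) (nat_lit 3219445505) (nat_lit 380) (nat_lit 862279753) (nat_lit 76) (nat_lit 12845360966) (nat_lit 34) (nat_lit 5) (nat_lit 39) (nat_lit 5) (nat_lit 35) (nat_lit 5) (nat_lit 279) (nat_lit 254) (nat_lit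 187))) (XT.nd (nat_lit 78) (nat_lit 0) (nat_lit 0) (XT.lf (nat_lit 0) (nat_lit 5371918035) (nat_lit 304) (nat_lit 11155879391) (nat_lit 76) (nat_lit 949843012) (nat_lit 31) (nat_lit 5) (nat_lit 35) (nat_lit 5) (nat_lit 32) (nat_lit 5) (nat_lit 280) (nat_lit 254) (nat_lit 186)) (XT.lf (nat_lit 0) (nat_lit 7694769522) (nat_lit 304) (nat_lit 4251051637) (nat_lit 76) (nat_lit 6106840996) (nat_lit 31) (nat_lit 5) (nat_lit 35) (nat_lit 5) (nat_lit 32) (nat_lit 5) (nat_lit 281) (nat_lit 254) (nat_lit 185)))) (XT.nd (nat_lit 156) (nat_lit 228) (nat_lit 0) (XT.nd (nat_lit 78) (nat_lit 0) (nat_lit 0) (XT.lf (nat_lit 0) (nat_lit 3074716392) (nat_lit 228) (nat_lit 7088956209) (nat_lit 304) (nat_lit 8491340772) (nat_lit 28) (nat_lit 5) (nat_lit 31) (nat_lit 5) (nat_lit 32) (nat_lit 5) (nat_lit 282) (nat_lit 254) (nat_lit 184)) (XT.lf (nat_lit 0) (nat_lit 10892014809) (nat_lit 228) (nat_lit 1918416562)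 (nat_lit 304) (nat_lit 6474400600) (nat_lit 28) (nat_lit 5) (nat_lit 31) (nat_lit 5) (nat_lit 32) (nat_lit 5) (nat_lit 283) (nat_lit 254) (nat_lit 183))) (XT.nd (nat_lit 78) (nat_lit 228) (nat_lit 0) (XT.lf (nat_lit 0) (nat_lit 15627522573) (nat_lit 304) (nat_lit 922888804) (nat_lit 76) (nat_lit 3393897396) (nat_lit 28) (nat_lit 5) (nat_lit 32) (nat_lit 5) (nat_lit 29) (nat_lit 5) (nat_lit 284) (nat_lit 254) (nat_lit 182)) (XT.nd (nat_lit 78) (nat_lit 76) (nat_lit 0) (XT.lf (nat_lit 0) (nat_lit 7095113149) (nat_lit 152) (nat_lit 11616563432) (nat_lit 228) (nat_lit 1918836229) (nat_lit 26) (nat_lit 5) (nat_lit 28) (nat_lit 5) (nat_lit 29) (nat_lit 5) (nat_lit 285) (nat_lit 254) (nat_lit 181)) (XT.lf (nat_lit 0) (nat_lit 579834083) (nat_lit 228) (nat_lit 5835103122) (nat_lit 76) (nat_lit 14935680360) (nat_lit 25) (nat_lit 5) (nat_lit 28) (nat_lit 5) (nat_lit 26) (nat_lit 5) (nat_lit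 286) (nat_lit 254) (nat_lit 180))))))))
noncomputable def xc157 : XT := (XT.nd (nat_lit 1326) (nat_lit 456) (nat_lit 0) (XT.nd (nat_lit 624) (nat_lit 456) (nat_lit 0) (XT.nd (nat_lit 312) (nat_lit 152) (nat_lit 0) (XT.nd (nat_lit 156) (nat_lit 152) (nat_lit 0) (XT.nd (nat_lit 78) (nat_lit 0) (nat_lit 0) (XT.lf (nat_lit 0) (nat_lit 2271152597) (nat_lit 228) (nat_lit 888124748) (nat_lit 304) (nat_lit 18944916268) (nat_lit 22) (nat_lit 5) (nat_lit 25) (nat_lit 5) (nat_lit 26) (nat_lit 5) (nat_lit 287) (nat_lit 254) (nat_lit 179)) (XT.lf (nat_lit 0) (nat_lit 6030063511) (nat_lit 304) (nat_lit 12004232205) (nat_lit 76) (nat_lit 4853086707) (nat_lit 22) (nat_lit 5) (nat_lit 26) (nat_lit 5) (nat_lit 23) (nat_lit 5) (nat_lit 288) (nat_lit 254) (nat_lit 178))) (XT.nd (nat_lit 78) (nat_lit 152) (nat_lit 0) (XT.lf (nat_lit 0) (nat_lit 9044846571) (nat_lit 304) (nat_lit 3818228174) (nat_lit 76)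 (nat_lit 10846683044) (nat_lit 22) (nat_lit 5) (nat_lit 26) (nat_lit 5) (nat_lit 23) (nat_lit 5) (nat_lit 289) (nat_lit 254) (nat_lit 177)) (XT.lf (nat_lit 0) (nat_lit 4915659478) (nat_lit 152) (nat_lit 7358026205) (nat_lit 228) (nat_lit 12296448008) (nat_lit 20) (nat_lit 5) (nat_lit 22) (nat_lit 5) (nat_lit 23) (nat_lit 5) (nat_lit 290) (nat_lit 254) (nat_lit 176)))) (XT.nd (nat_lit 156) (nat_lit 152) (nat_lit 0) (XT.nd (nat_lit 78) (nat_lit 0) (nat_lit 0) (XT.lf (nat_lit 0) (nat_lit 14200355787) (nat_lit 152) (nat_lit 1515195732) (nat_lit 228) (nat_lit 9755442978) (nat_lit 20) (nat_lit 5) (nat_lit 22) (nat_lit 5) (nat_lit 23) (nat_lit 5) (nat_lit 291) (nat_lit 254) (nat_lit 175)) (XT.lf (nat_lit 0) (nat_lit 19389102520) (nat_lit 228) (nat_lit 2557892873) (nat_lit 76) (nat_lit 4466966544) (nat_lit 20) (nat_lit 5) (nat_lit 23) (nat_lit 5) (nat_lit 21) (nat_lit 5) (nat_lit 292) (nat_lit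 254) (nat_lit 174))) (XT.nd (nat_lit 78) (nat_lit 0) (nat_lit 0) (XT.lf (nat_lit 0) (nat_lit 6764880069) (nat_lit 152) (nat_lit 16599970171) (nat_lit 228) (nat_lit 4033342683) (nat_lit 18) (nat_lit 5) (nat_lit 20) (nat_lit 5) (nat_lit 21) (nat_lit 5) (nat_lit 293) (nat_lit 254) (nat_lit 173)) (XT.lf (nat_lit 0) (nat_lit 16625585465) (nat_lit 152) (nat_lit 10945483130) (nat_lit 228) (nat_lit 859021872) (nat_lit 18) (nat_lit 5) (nat_lit 20) (nat_lit 5) (nat_lit 21) (nat_lit 5) (nat_lit 294) (nat_lit 254) (nat_lit 172))))) (XT.nd (nat_lit 312) (nat_lit 228) (nat_lit 0) (XT.nd (nat_lit 156) (nat_lit 0) (nat_lit 0) (XT.nd (nat_lit 78) (nat_lit 152) (nat_lit 0) (XT.lf (nat_lit 0) (nat_lit 2383531452) (nat_lit 228) (nat_lit 2589492650) (nat_lit 76) (nat_lit 24539227980) (nat_lit 17) (nat_lit 5) (nat_lit 20) (nat_lit 5) (nat_lit 18) (nat_lit 5) (nat_lit 295) (nat_lit 254) (nat_lit 171)) (XT.lf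 (nat_lit 0) (nat_lit 5884678564) (nat_lit 228) (nat_lit 23375298179) (nat_lit 76) (nat_lit 1381608014) (nat_lit 15) (nat_lit 5) (nat_lit 18) (nat_lit 5) (nat_lit 16) (nat_lit 5) (nat_lit 296) (nat_lit 254) (nat_lit 170))) (XT.nd (nat_lit 78) (nat_lit 0) (nat_lit 0) (XT.lf (nat_lit 0) (nat_lit 9676410014) (nat_lit 228) (nat_lit 14218720314) (nat_lit 76) (nat_lit 7926509615) (nat_lit 15) (nat_lit 5) (nat_lit 18) (nat_lit 5) (nat_lit 16) (nat_lit 5) (nat_lit 297) (nat_lit 254) (nat_lit 169)) (XT.lf (nat_lit 0) (nat_lit 13647660192) (nat_lit 228) (nat_lit 4619590853) (nat_lit 76) (nat_lit 14793980927) (nat_lit 15) (nat_lit 5) (nat_lit 18) (nat_lit 5) (nat_lit 16) (nat_lit 5) (nat_lit 298) (nat_lit 254) (nat_lit 168)))) (XT.nd (nat_lit 156) (nat_lit 76) (nat_lit 0) (XT.nd (nat_lit 78) (nat_lit 0) (nat_lit 0) (XT.lf (nat_lit 0) (nat_lit 5624979752) (nat_lit 152) (nat_lit 12270726401) (nat_lit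 228) (nat_lit 16463215018) (nat_lit 13) (nat_lit 5) (nat_lit 15) (nat_lit 5) (nat_lit 16) (nat_lit 5) (nat_lit 299) (nat_lit 254) (nat_lit 167)) (XT.lf (nat_lit 0) (nat_lit 16527845519) (nat_lit 152) (nat_lit 5897188569) (nat_lit 228) (nat_lit 13293044597) (nat_lit 13) (nat_lit 5) (nat_lit 15) (nat_lit 5) (nat_lit 16) (nat_lit 5) (nat_lit 300) (nat_lit 254) (nat_lit 166))) (XT.nd (nat_lit 78) (nat_lit 76) (nat_lit 0) (XT.lf (nat_lit 0) (nat_lit 27184257419) (nat_lit 228) (nat_lit 9195783804) (nat_lit 76) (nat_lit 765007915) (nat_lit 13) (nat_lit 5) (nat_lit 16) (nat_lit 5) (nat_lit 14) (nat_lit 4) (nat_lit 301) (nat_lit 254) (nat_lit 165)) (XT.nd (nat_lit 78) (nat_lit 0) (nat_lit 0) (XT.lf (nat_lit 0) (nat_lit 1227641457) (nat_lit 76) (nat_lit 31061086806) (nat_lit 152) (nat_lit 6349300785) (nat_lit 12) (nat_lit 5) (nat_lit 13) (nat_lit 5) (nat_lit 14) (nat_lit 4) (nat_lit 302) (nat_lit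 254) (nat_lit 164)) (XT.lf (nat_lit 0) (nat_lit 12478346833) (nat_lit 76) (nat_lit 25317457208) (nat_lit 152) (nat_lit 2402508889) (nat_lit 12) (nat_lit 5) (nat_lit 13) (nat_lit 5) (nat_lit 14) (nat_lit 4) (nat_lit 303) (nat_lit 254) (nat_lit 163))))))) (XT.nd (nat_lit 624) (nat_lit 152) (nat_lit 0) (XT.nd (nat_lit 312) (nat_lit 76) (nat_lit 0) (XT.nd (nat_lit 156) (nat_lit 152) (nat_lit 0) (XT.nd (nat_lit 78) (nat_lit 0) (nat_lit 0) (XT.lf (nat_lit 0) (nat_lit 1677771343) (nat_lit 152) (nat_lit 17585026959) (nat_lit 76) (nat_lit 22572880362) (nat_lit 11) (nat_lit 5) (nat_lit 13) (nat_lit 5) (nat_lit 12) (nat_lit 5) (nat_lit 304) (nat_lit 254) (nat_lit 162)) (XT.lf (nat_lit 0) (nat_lit 5873603194) (nat_lit 152) (nat_lit 6994927986) (nat_lit 76) (nat_lit 30684819124) (nat_lit 11) (nat_lit 5) (nat_lit 13) (nat_lit 5) (nat_lit 12) (nat_lit 5) (nat_lit 305) (nat_lit 254) (nat_lit 161)))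 (XT.nd (nat_lit 78) (nat_lit 0) (nat_lit 0) (XT.lf (nat_lit 0) (nat_lit 4249051420) (nat_lit 152) (nat_lit 6089160209) (nat_lit 228) (nat_lit 35015764432) (nat_lit 9) (nat_lit 5) (nat_lit 11) (nat_lit 5) (nat_lit 12) (nat_lit 5) (nat_lit 306) (nat_lit 254) (nat_lit 160)) (XT.lf (nat_lit 0) (nat_lit 15155274101) (nat_lit 228) (nat_lit 30970387356) (nat_lit 76) (nat_lit 1112529311) (nat_lit 9) (nat_lit 5) (nat_lit 12) (nat_lit 5) (nat_lit 10) (nat_lit 4) (nat_lit 307) (nat_lit 254) (nat_lit 159)))) (XT.nd (nat_lit 156) (nat_lit 76) (nat_lit 0) (XT.nd (nat_lit 78) (nat_lit 0) (nat_lit 0) (XT.lf (nat_lit 0) (nat_lit 20306107942) (nat_lit 228) (nat_lit 20440131117) (nat_lit 76) (nat_lit 8465749185) (nat_lit 9) (nat_lit 5) (nat_lit 12) (nat_lit 5) (nat_lit 10) (nat_lit 4) (nat_lit 308) (nat_lit 254) (nat_lit 158)) (XT.lf (nat_lit 0) (nat_lit 25707908186) (nat_lit 228) (nat_lit 9394015030)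 (nat_lit 76) (nat_lit 16182898231) (nat_lit 9) (nat_lit 5) (nat_lit 12) (nat_lit 5) (nat_lit 10) (nat_lit 4) (nat_lit 309) (nat_lit 254) (nat_lit 157))) (XT.nd (nat_lit 78) (nat_lit 0) (nat_lit 0) (XT.lf (nat_lit 0) (nat_lit 2266813364) (nat_lit 76) (nat_lit 29142114208) (nat_lit 152) (nat_lit 22050928560) (nat_lit 8) (nat_lit 5) (nat_lit 9) (nat_lit 5) (nat_lit 10) (nat_lit 4) (nat_lit 310) (nat_lit 254) (nat_lit 156)) (XT.lf (nat_lit 0) (nat_lit 14826840127) (nat_lit 76) (nat_lit 22721130162) (nat_lit 152) (nat_lit 18188039146) (nat_lit 8) (nat_lit 5) (nat_lit 9) (nat_lit 5) (nat_lit 10) (nat_lit 4) (nat_lit 311) (nat_lit 254) (nat_lit 155))))) (XT.nd (nat_lit 312) (nat_lit 76) (nat_lit 0) (XT.nd (nat_lit 156) (nat_lit 76) (nat_lit 0) (XT.nd (nat_lit 78) (nat_lit 0) (nat_lit 0) (XT.lf (nat_lit 0) (nat_lit 28005361524) (nat_lit 76) (nat_lit 15982775210) (nat_lit 152) (nat_lit 14138139852)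 (nat_lit 8) (nat_lit 5) (nat_lit 9) (nat_lit 5) (nat_lit 10) (nat_lit 4) (nat_lit 312) (nat_lit 254) (nat_lit 154)) (XT.lf (nat_lit 0) (nat_lit 41833754986) (nat_lit 76) (nat_lit 8911005651) (nat_lit 152) (nat_lit 9891588063) (nat_lit 8) (nat_lit 5) (nat_lit 9) (nat_lit 5) (nat_lit 10) (nat_lit 4) (nat_lit 313) (nat_lit 254) (nat_lit 153))) (XT.nd (nat_lit 78) (nat_lit 76) (nat_lit 0) (XT.lf (nat_lit 0) (nat_lit 56344945259) (nat_lit 76) (nat_lit 1488983939) (nat_lit 152) (nat_lit 5438272940) (nat_lit 8) (nat_lit 5) (nat_lit 9) (nat_lit 5) (nat_lit 10) (nat_lit 4) (nat_lit 314) (nat_lit 254) (nat_lit 152)) (XT.lf (nat_lit 0) (nat_lit 5614699849) (nat_lit 76) (nat_lit 59843858404) (nat_lit 76) (nat_lit 572252643) (nat_lit 7) (nat_lit 4) (nat_lit 8) (nat_lit 5) (nat_lit 8) (nat_lit 4) (nat_lit 315) (nat_lit 254) (nat_lit 151)))) (XT.nd (nat_lit 156) (nat_lit 0) (nat_lit 0) (XT.nd (nat_lit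 78) (nat_lit 0) (nat_lit 0) (XT.lf (nat_lit 0) (nat_lit 4530438374) (nat_lit 152) (nat_lit 50002870542) (nat_lit 76) (nat_lit 14383581714) (nat_lit 6) (nat_lit 5) (nat_lit 8) (nat_lit 5) (nat_lit 7) (nat_lit 4) (nat_lit 316) (nat_lit 254) (nat_lit 150)) (XT.lf (nat_lit 0) (nat_lit 9864208690) (nat_lit 152) (nat_lit 39086416108) (nat_lit 76) (nat_lit 22996432701) (nat_lit 6) (nat_lit 5) (nat_lit 8) (nat_lit 5) (nat_lit 7) (nat_lit 4) (nat_lit 317) (nat_lit 254) (nat_lit 149))) (XT.nd (nat_lit 78) (nat_lit 0) (nat_lit 0) (XT.lf (nat_lit 0) (nat_lit 15460073415) (nat_lit 152) (nat_lit 27631821721) (nat_lit 76) (nat_lit 32037077774) (nat_lit 6) (nat_lit 5) (nat_lit 8) (nat_lit 5) (nat_lit 7) (nat_lit 4) (nat_lit 318) (nat_lit 254) (nat_lit 148)) (XT.nd (nat_lit 78) (nat_lit 0) (nat_lit 0) (XT.lf (nat_lit 0) (nat_lit 21331356036) (nat_lit 152) (nat_lit 15611814536) (nat_lit 76) (nat_lit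 41527042278) (nat_lit 6) (nat_lit 5) (nat_lit 8) (nat_lit 5) (nat_lit 7) (nat_lit 4) (nat_lit 319) (nat_lit 254) (nat_lit 147)) (XT.lf (nat_lit 0) (nat_lit 27492035799) (nat_lit 152) (nat_lit 2997775489) (nat_lit 76) (nat_lit 51488921366) (nat_lit 6) (nat_lit 5) (nat_lit 8) (nat_lit 5) (nat_lit 7) (nat_lit 4) (nat_lit 320) (nat_lit 254) (nat_lit 146))))))))
noncomputable def xc158 : XT := (XT.nd (nat_lit 1326) (nat_lit 76) (nat_lit 0) (XT.nd (nat_lit 624) (nat_lit 76) (nat_lit 0) (XT.nd (nat_lit 312) (nat_lit 76) (nat_lit 0) (XT.nd (nat_lit 156) (nat_lit 0) (nat_lit 0) (XT.nd (nat_lit 78) (nat_lit 0) (nat_lit 0) (XT.lf (nat_lit 0) (nat_lit 10578920364) (nat_lit 76) (nat_lit 23543027217) (nat_lit 152) (nat_lit 51532680029) (nat_lit 5) (nat_lit 5) (nat_lit 6) (nat_lit 5) (nat_lit 7) (nat_lit 4) (nat_lit 321) (nat_lit 254) (nat_lit 145)) (XT.lf (nat_lit 0) (nat_lit 24931997386) (nat_lit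 76) (nat_lit 16198244817) (nat_lit 152) (nat_lit 48381739380) (nat_lit 5) (nat_lit 5) (nat_lit 6) (nat_lit 5) (nat_lit 7) (nat_lit 4) (nat_lit 322) (nat_lit 254) (nat_lit 144))) (XT.nd (nat_lit 78) (nat_lit 0) (nat_lit 0) (XT.lf (nat_lit 0) (nat_lit 39996509572) (nat_lit 76) (nat_lit 8488745290) (nat_lit 152) (nat_lit 45077141448) (nat_lit 5) (nat_lit 5) (nat_lit 6) (nat_lit 5) (nat_lit 7) (nat_lit 4) (nat_lit 323) (nat_lit 254) (nat_lit 143)) (XT.lf (nat_lit 0) (nat_lit 55808324809) (nat_lit 76) (nat_lit 396172684) (nat_lit 152) (nat_lit 41611018143) (nat_lit 5) (nat_lit 5) (nat_lit 6) (nat_lit 5) (nat_lit 7) (nat_lit 4) (nat_lit 324) (nat_lit 254) (nat_lit 142)))) (XT.nd (nat_lit 156) (nat_lit 76) (nat_lit 0) (XT.nd (nat_lit 78) (nat_lit 0) (nat_lit 0) (XT.lf (nat_lit 0) (nat_lit 64432793290) (nat_lit 152) (nat_lit 30002819804) (nat_lit 0) (nat_lit 7839530739) (nat_lit 5) (nat_lit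 5) (nat_lit 7) (nat_lit 4) (nat_lit 5) (nat_lit 4) (nat_lit 325) (nat_lit 254) (nat_lit 141)) (XT.lf (nat_lit 0) (nat_lit 73075771153) (nat_lit 152) (nat_lit 17410229555) (nat_lit 0) (nat_lit 16471596470) (nat_lit 5) (nat_lit 5) (nat_lit 7) (nat_lit 4) (nat_lit 5) (nat_lit 4) (nat_lit 326) (nat_lit 254) (nat_lit 140))) (XT.nd (nat_lit 78) (nat_lit 76) (nat_lit 0) (XT.lf (nat_lit 0) (nat_lit 82147824236) (nat_lit 152) (nat_lit 4193252354) (nat_lit 0) (nat_lit 25533257047) (nat_lit 5) (nat_lit 5) (nat_lit 7) (nat_lit 4) (nat_lit 5) (nat_lit 4) (nat_lit 327) (nat_lit 254) (nat_lit 139)) (XT.lf (nat_lit 0) (nat_lit 9999631444) (nat_lit 76) (nat_lit 81827043492) (nat_lit 76) (nat_lit 25202578676) (nat_lit 4) (nat_lit 4) (nat_lit 5) (nat_lit 5) (nat_lit 5) (nat_lit 4) (nat_lit 328) (nat_lit 254) (nat_lit 138))))) (XT.nd (nat_lit 312) (nat_lit 76) (nat_lit 0) (XT.nd (nat_lit 156) (nat_lit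 0) (nat_lit 0) (XT.nd (nat_lit 78) (nat_lit 0) (nat_lit 0) (XT.lf (nat_lit 0) (nat_lit 25042827302) (nat_lit 76) (nat_lit 77014791019) (nat_lit 76) (nat_lit 20380899893) (nat_lit 4) (nat_lit 4) (nat_lit 5) (nat_lit 5) (nat_lit 5) (nat_lit 4) (nat_lit 329) (nat_lit 254) (nat_lit 137)) (XT.lf (nat_lit 0) (nat_lit 40833504490) (nat_lit 76) (nat_lit 71963876185) (nat_lit 76) (nat_lit 15321007622) (nat_lit 4) (nat_lit 4) (nat_lit 5) (nat_lit 5) (nat_lit 5) (nat_lit 4) (nat_lit 330) (nat_lit 254) (nat_lit 136))) (XT.nd (nat_lit 78) (nat_lit 0) (nat_lit 0) (XT.lf (nat_lit 0) (nat_lit 57409259859) (nat_lit 76) (nat_lit 66662273004) (nat_lit 76) (nat_lit 10010854500) (nat_lit 4) (nat_lit 4) (nat_lit 5) (nat_lit 5) (nat_lit 5) (nat_lit 4) (nat_lit 331) (nat_lit 254) (nat_lit 135)) (XT.lf (nat_lit 0) (nat_lit 74809559494) (nat_lit 76) (nat_lit 61097358611) (nat_lit 76) (nat_lit 4437797305) (nat_lit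 4) (nat_lit 4) (nat_lit 5) (nat_lit 5) (nat_lit 5) (nat_lit 4) (nat_lit 332) (nat_lit 254) (nat_lit 134)))) (XT.nd (nat_lit 156) (nat_lit 0) (nat_lit 0) (XT.nd (nat_lit 78) (nat_lit 0) (nat_lit 0) (XT.lf (nat_lit 0) (nat_lit 1366258469) (nat_lit 152) (nat_lit 53866486491) (nat_lit 76) (nat_lit 91686435961) (nat_lit 3) (nat_lit 5) (nat_lit 5) (nat_lit 5) (nat_lit 4) (nat_lit 4) (nat_lit 333) (nat_lit 254) (nat_lit 133)) (XT.lf (nat_lit 0) (nat_lit 7309092000) (nat_lit 152) (nat_lit 41691063513) (nat_lit 76) (nat_lit 104818695530) (nat_lit 3) (nat_lit 5) (nat_lit 5) (nat_lit 5) (nat_lit 4) (nat_lit 4) (nat_lit 334) (nat_lit 254) (nat_lit 132))) (XT.nd (nat_lit 78) (nat_lit 0) (nat_lit 0) (XT.lf (nat_lit 0) (nat_lit 13546890119) (nat_lit 152) (nat_lit 28910611427) (nat_lit 76) (nat_lit 118606116340) (nat_lit 3) (nat_lit 5) (nat_lit 5) (nat_lit 5) (nat_lit 4) (nat_lit 4) (nat_lit 335)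 (nat_lit 254) (nat_lit 131)) (XT.nd (nat_lit 78) (nat_lit 0) (nat_lit 0) (XT.lf (nat_lit 0) (nat_lit 20094504725) (nat_lit 152) (nat_lit 15494700587) (nat_lit 76) (nat_lit 133081525582) (nat_lit 3) (nat_lit 5) (nat_lit 5) (nat_lit 5) (nat_lit 4) (nat_lit 4) (nat_lit 336) (nat_lit 254) (nat_lit 130)) (XT.lf (nat_lit 0) (nat_lit 26967525378) (nat_lit 152) (nat_lit 1411388346) (nat_lit 76) (nat_lit 148279388517) (nat_lit 3) (nat_lit 5) (nat_lit 5) (nat_lit 5) (nat_lit 4) (nat_lit 4) (nat_lit 337) (nat_lit 254) (nat_lit 129))))))) (XT.nd (nat_lit 624) (nat_lit 0) (nat_lit 0) (XT.nd (nat_lit 312) (nat_lit 0) (nat_lit 0) (XT.nd (nat_lit 156) (nat_lit 0) (nat_lit 0) (XT.nd (nat_lit 78) (nat_lit 0) (nat_lit 0) (XT.lf (nat_lit 0) (nat_lit 13815024035) (nat_lit 76) (nat_lit 20582983618) (nat_lit 152) (nat_lit 150636557738) (nat_lit 2) (nat_lit 5) (nat_lit 3) (nat_lit 5) (nat_lit 4) (nat_lit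 4) (nat_lit 338) (nat_lit 254) (nat_lit 128)) (XT.lf (nat_lit 0) (nat_lit 29848576874) (nat_lit 76) (nat_lit 12373498963) (nat_lit 152) (nat_lit 151606466360) (nat_lit 2) (nat_lit 5) (nat_lit 3) (nat_lit 5) (nat_lit 4) (nat_lit 4) (nat_lit 339) (nat_lit 254) (nat_lit 127))) (XT.nd (nat_lit 78) (nat_lit 0) (nat_lit 0) (XT.lf (nat_lit 0) (nat_lit 46680778422) (nat_lit 76) (nat_lit 3754815910) (nat_lit 152) (nat_lit 152626714581) (nat_lit 2) (nat_lit 5) (nat_lit 3) (nat_lit 5) (nat_lit 4) (nat_lit 4) (nat_lit 340) (nat_lit 254) (nat_lit 126)) (XT.lf (nat_lit 0) (nat_lit 59140766854) (nat_lit 152) (nat_lit 148488793066) (nat_lit 0) (nat_lit 5124158394) (nat_lit 2) (nat_lit 5) (nat_lit 4) (nat_lit 4) (nat_lit 2) (nat_lit 4) (nat_lit 341) (nat_lit 254) (nat_lit 125)))) (XT.nd (nat_lit 156) (nat_lit 0) (nat_lit 0) (XT.nd (nat_lit 78) (nat_lit 0) (nat_lit 0) (XT.lf (nat_lit 0) (nat_lit 68341144183)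 (nat_lit 152) (nat_lit 140265784995) (nat_lit 0) (nat_lit 14319774796) (nat_lit 2) (nat_lit 5) (nat_lit 4) (nat_lit 4) (nat_lit 2) (nat_lit 4) (nat_lit 342) (nat_lit 254) (nat_lit 124)) (XT.lf (nat_lit 0) (nat_lit 78000008780) (nat_lit 152) (nat_lit 131634304489) (nat_lit 0) (nat_lit 23974105177) (nat_lit 2) (nat_lit 5) (nat_lit 4) (nat_lit 4) (nat_lit 2) (nat_lit 4) (nat_lit 343) (nat_lit 254) (nat_lit 123))) (XT.nd (nat_lit 78) (nat_lit 0) (nat_lit 0) (XT.lf (nat_lit 0) (nat_lit 88140357943) (nat_lit 152) (nat_lit 122573800405) (nat_lit 0) (nat_lit 34110136039) (nat_lit 2) (nat_lit 5) (nat_lit 4) (nat_lit 4) (nat_lit 2) (nat_lit 4) (nat_lit 344) (nat_lit 254) (nat_lit 122)) (XT.lf (nat_lit 0) (nat_lit 98786335360) (nat_lit 152) (nat_lit 113062700114) (nat_lit 0) (nat_lit 44752000788) (nat_lit 2) (nat_lit 5) (nat_lit 4) (nat_lit 4) (nat_lit 2) (nat_lit 4) (nat_lit 345) (nat_lit 254)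 (nat_lit 121))))) (XT.nd (nat_lit 312) (nat_lit 0) (nat_lit 0) (XT.nd (nat_lit 156) (nat_lit 0) (nat_lit 0) (XT.nd (nat_lit 78) (nat_lit 0) (nat_lit 0) (XT.lf (nat_lit 0) (nat_lit 109963288597) (nat_lit 152) (nat_lit 103078358137) (nat_lit 0) (nat_lit 55925037198) (nat_lit 2) (nat_lit 5) (nat_lit 4) (nat_lit 4) (nat_lit 2) (nat_lit 4) (nat_lit 346) (nat_lit 254) (nat_lit 120)) (XT.lf (nat_lit 0) (nat_lit 121697829446) (nat_lit 152) (nat_lit 92597002234) (nat_lit 0) (nat_lit 67655847736) (nat_lit 2) (nat_lit 5) (nat_lit 4) (nat_lit 4) (nat_lit 2) (nat_lit 4) (nat_lit 347) (nat_lit 254) (nat_lit 119))) (XT.nd (nat_lit 78) (nat_lit 0) (nat_lit 0) (XT.lf (nat_lit 0) (nat_lit 134017897290) (nat_lit 152) (nat_lit 81593676794) (nat_lit 0) (nat_lit 79972362903) (nat_lit 2) (nat_lit 5) (nat_lit 4) (nat_lit 4) (nat_lit 2) (nat_lit 4) (nat_lit 348) (nat_lit 254) (nat_lit 118)) (XT.lf (nat_lit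 0) (nat_lit 146952825625) (nat_lit 152) (nat_lit 70042183424) (nat_lit 0) (nat_lit 92903907736) (nat_lit 2) (nat_lit 5) (nat_lit 4) (nat_lit 4) (nat_lit 2) (nat_lit 4) (nat_lit 349) (nat_lit 254) (nat_lit 117)))) (XT.nd (nat_lit 156) (nat_lit 0) (nat_lit 0) (XT.nd (nat_lit 78) (nat_lit 0) (nat_lit 0) (XT.lf (nat_lit 0) (nat_lit 160533411899) (nat_lit 152) (nat_lit 57915018567) (nat_lit 0) (nat_lit 106481271627) (nat_lit 2) (nat_lit 5) (nat_lit 4) (nat_lit 4) (nat_lit 2) (nat_lit 4) (nat_lit 350) (nat_lit 254) (nat_lit 116)) (XT.lf (nat_lit 0) (nat_lit 174791990841) (nat_lit 152) (nat_lit 45183308023) (nat_lit 0) (nat_lit 120736781633) (nat_lit 2) (nat_lit 5) (nat_lit 4) (nat_lit 4) (nat_lit 2) (nat_lit 4) (nat_lit 351) (nat_lit 254) (nat_lit 115))) (XT.nd (nat_lit 78) (nat_lit 0) (nat_lit 0) (XT.lf (nat_lit 0) (nat_lit 189762511449) (nat_lit 152) (nat_lit 31816738194) (nat_lit 0) (nat_lit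 135704379445) (nat_lit 2) (nat_lit 5) (nat_lit 4) (nat_lit 4) (nat_lit 2) (nat_lit 4) (nat_lit 352) (nat_lit 254) (nat_lit 114)) (XT.nd (nat_lit 78) (nat_lit 0) (nat_lit 0) (XT.lf (nat_lit 0) (nat_lit 205480617819) (nat_lit 152) (nat_lit 17783483914) (nat_lit 0) (nat_lit 151419702199) (nat_lit 2) (nat_lit 5) (nat_lit 4) (nat_lit 4) (nat_lit 2) (nat_lit 4) (nat_lit 353) (nat_lit 254) (nat_lit 113)) (XT.lf (nat_lit 0) (nat_lit 221983734014) (nat_lit 152) (nat_lit 3050132673) (nat_lit 0) (nat_lit 167920167332) (nat_lit 2) (nat_lit 5) (nat_lit 4) (nat_lit 4) (nat_lit 2) (nat_lit 4) (nat_lit 354) (nat_lit 254) (nat_lit 112))))))))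
noncomputable def xc159 : XT := (XT.nd (nat_lit 30888) (nat_lit 0) (nat_lit 1900) (XT.nd (nat_lit 30186) (nat_lit 0) (nat_lit 3724) (XT.nd (nat_lit 29874) (nat_lit 0) (nat_lit 4864) (XT.nd (nat_lit 29718) (nat_lit 0) (nat_lit 5472) (XT.nd (nat_lit 78) (nat_lit 0) (nat_lit 0) (XT.lf (nat_lit 0) (nat_lit 12829003156) (nat_lit 76) (nat_lit 226682446704) (nat_lit 76) (nat_lit 172616355200) (nat_lit 1) (nat_lit 4) (nat_lit 2) (nat_lit 5) (nat_lit 2) (nat_lit 4) (nat_lit 355) (nat_lit 254) (nat_lit 111)) (XT.lf (nat_lit 0) (nat_lit 29606522354) (nat_lit 76) (nat_lit 228359849472) (nat_lit 76) (nat_lit 174291353377) (nat_lit 1) (nat_lit 4) (nat_lit 2) (nat_lit 5) (nat_lit 2) (nat_lit 4) (nat_lit 356) (nat_lit 254) (nat_lit 110))) (XT.nd (nat_lit 78) (nat_lit 0) (nat_lit 0) (XT.lf (nat_lit 0) (nat_lit 1822756642) (nat_lit 0) (nat_lit 1822756642) (nat_lit 532) (nat_lit 932535175) (nat_lit 73)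 (nat_lit 5) (nat_lit 73) (nat_lit 3) (nat_lit 80) (nat_lit 3) (nat_lit 255) (nat_lit 255) (nat_lit 210)) (XT.lf (nat_lit 0) (nat_lit 7528020236) (nat_lit 0) (nat_lit 690524114) (nat_lit 532) (nat_lit 1124884789) (nat_lit 73) (nat_lit 5) (nat_lit 73) (nat_lit 3) (nat_lit 80) (nat_lit 3) (nat_lit 256) (nat_lit 255) (nat_lit 209)))) (XT.nd (nat_lit 156) (nat_lit 0) (nat_lit 0) (XT.nd (nat_lit 78) (nat_lit 608) (nat_lit 0) (XT.lf (nat_lit 76) (nat_lit 2066105603) (nat_lit 0) (nat_lit 7148919144) (nat_lit 608) (nat_lit 324249657) (nat_lit 74) (nat_lit 5) (nat_lit 73) (nat_lit 5) (nat_lit 81) (nat_lit 5) (nat_lit 257) (nat_lit 255) (nat_lit 208)) (XT.lf (nat_lit 0) (nat_lit 495966098) (nat_lit 608) (nat_lit 3586778286) (nat_lit 684) (nat_lit 5662210673) (nat_lit 65) (nat_lit 5) (nat_lit 73) (nat_lit 5) (nat_lit 74) (nat_lit 5) (nat_lit 258) (nat_lit 255) (nat_lit 207))) (XT.nd (nat_lit 78)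 (nat_lit 0) (nat_lit 76) (XT.lf (nat_lit 76) (nat_lit 476987993) (nat_lit 0) (nat_lit 832477266) (nat_lit 684) (nat_lit 8653268451) (nat_lit 66) (nat_lit 5) (nat_lit 65) (nat_lit 5) (nat_lit 74) (nat_lit 5) (nat_lit 259) (nat_lit 255) (nat_lit 206)) (XT.lf (nat_lit 0) (nat_lit 2223334208) (nat_lit 608) (nat_lit 5390246929) (nat_lit 684) (nat_lit 2575062296) (nat_lit 66) (nat_lit 5) (nat_lit 74) (nat_lit 5) (nat_lit 75) (nat_lit 5) (nat_lit 260) (nat_lit 255) (nat_lit 205))))) (XT.nd (nat_lit 312) (nat_lit 1216) (nat_lit 0) (XT.nd (nat_lit 156) (nat_lit 0) (nat_lit 76) (XT.nd (nat_lit 78) (nat_lit 0) (nat_lit 0) (XT.lf (nat_lit 0) (nat_lit 3156228952) (nat_lit 608) (nat_lit 1131304836) (nat_lit 684) (nat_lit 6139864313) (nat_lit 66) (nat_lit 5) (nat_lit 74) (nat_lit 5) (nat_lit 75) (nat_lit 5) (nat_lit 261) (nat_lit 255) (nat_lit 204)) (XT.lf (nat_lit 76) (nat_lit 3423801224) (nat_lit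 0) (nat_lit 727027273) (nat_lit 684) (nat_lit 6526714787) (nat_lit 67) (nat_lit 5) (nat_lit 66) (nat_lit 5) (nat_lit 75) (nat_lit 5) (nat_lit 262) (nat_lit 255) (nat_lit 203))) (XT.nd (nat_lit 78) (nat_lit 0) (nat_lit 0) (XT.lf (nat_lit 0) (nat_lit 5224849807) (nat_lit 608) (nat_lit 2768788632) (nat_lit 684) (nat_lit 2945268682) (nat_lit 67) (nat_lit 5) (nat_lit 75) (nat_lit 5) (nat_lit 76) (nat_lit 5) (nat_lit 263) (nat_lit 255) (nat_lit 202)) (XT.lf (nat_lit 76) (nat_lit 1964555169) (nat_lit 0) (nat_lit 4395560544) (nat_lit 684) (nat_lit 4853032915) (nat_lit 68) (nat_lit 5) (nat_lit 67) (nat_lit 5) (nat_lit 76) (nat_lit 5) (nat_lit 264) (nat_lit 255) (nat_lit 201)))) (XT.nd (nat_lit 156) (nat_lit 760) (nat_lit 0) (XT.nd (nat_lit 78) (nat_lit 532) (nat_lit 0) (XT.lf (nat_lit 76) (nat_lit 7004307931) (nat_lit 0) (nat_lit 560937578) (nat_lit 684) (nat_lit 3935379437) (nat_lit 68) (nat_lit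 5) (nat_lit 67) (nat_lit 5) (nat_lit 76) (nat_lit 5) (nat_lit 265) (nat_lit 255) (nat_lit 200)) (XT.lf (nat_lit 0) (nat_lit 426089509) (nat_lit 608) (nat_lit 8433228596) (nat_lit 684) (nat_lit 2941891960) (nat_lit 60) (nat_lit 5) (nat_lit 68) (nat_lit 5) (nat_lit 69) (nat_lit 5) (nat_lit 266) (nat_lit 255) (nat_lit 199))) (XT.nd (nat_lit 78) (nat_lit 760) (nat_lit 0) (XT.lf (nat_lit 0) (nat_lit 5714637934) (nat_lit 608) (nat_lit 4557692269) (nat_lit 684) (nat_lit 1841943681) (nat_lit 60) (nat_lit 5) (nat_lit 68) (nat_lit 5) (nat_lit 69) (nat_lit 5) (nat_lit 267) (nat_lit 255) (nat_lit 198)) (XT.nd (nat_lit 78) (nat_lit 760) (nat_lit 0) (XT.lf (nat_lit 0) (nat_lit 11242298872) (nat_lit 608) (nat_lit 484209450) (nat_lit 684) (nat_lit 718110361) (nat_lit 60) (nat_lit 5) (nat_lit 68) (nat_lit 5) (nat_lit 69) (nat_lit 5) (nat_lit 268) (nat_lit 255) (nat_lit 197)) (XT.lf (nat_lit 0) (nat_lit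 547059739) (nat_lit 760) (nat_lit 8487729345) (nat_lit 76) (nat_lit 3751473870) (nat_lit 50) (nat_lit 5) (nat_lit 60) (nat_lit 5) (nat_lit 51) (nat_lit 5) (nat_lit 269) (nat_lit 255) (nat_lit 196))))))) (XT.nd (nat_lit 624) (nat_lit 988) (nat_lit 0) (XT.nd (nat_lit 312) (nat_lit 228) (nat_lit 0) (XT.nd (nat_lit 156) (nat_lit 304) (nat_lit 0) (XT.nd (nat_lit 78) (nat_lit 304) (nat_lit 0) (XT.lf (nat_lit 0) (nat_lit 1852330456) (nat_lit 760) (nat_lit 3074197776) (nat_lit 76) (nat_lit 8217956475) (nat_lit 50) (nat_lit 5) (nat_lit 60) (nat_lit 5) (nat_lit 51) (nat_lit 5) (nat_lit 270) (nat_lit 255) (nat_lit 195)) (XT.lf (nat_lit 0) (nat_lit 2670380163) (nat_lit 304) (nat_lit 567835521) (nat_lit 380) (nat_lit 10281760650) (nat_lit 46) (nat_lit 5) (nat_lit 50) (nat_lit 5) (nat_lit 51) (nat_lit 5) (nat_lit 271) (nat_lit 255) (nat_lit 194))) (XT.nd (nat_lit 78) (nat_lit 304) (nat_lit 0) (XT.lf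 (nat_lit 0) (nat_lit 4783439967) (nat_lit 380) (nat_lit 5192265464) (nat_lit 76) (nat_lit 3934155190) (nat_lit 46) (nat_lit 5) (nat_lit 51) (nat_lit 5) (nat_lit 47) (nat_lit 5) (nat_lit 272) (nat_lit 255) (nat_lit 193)) (XT.lf (nat_lit 0) (nat_lit 737365874) (nat_lit 304) (nat_lit 5665132907) (nat_lit 380) (nat_lit 7917026265) (nat_lit 42) (nat_lit 5) (nat_lit 46) (nat_lit 5) (nat_lit 47) (nat_lit 5) (nat_lit 273) (nat_lit 255) (nat_lit 192)))) (XT.nd (nat_lit 156) (nat_lit 228) (nat_lit 0) (XT.nd (nat_lit 78) (nat_lit 0) (nat_lit 0) (XT.lf (nat_lit 0) (nat_lit 7119286000) (nat_lit 304) (nat_lit 1047683077) (nat_lit 380) (nat_lit 6579589820) (nat_lit 42) (nat_lit 5) (nat_lit 46) (nat_lit 5) (nat_lit 47) (nat_lit 5) (nat_lit 274) (nat_lit 255) (nat_lit 191)) (XT.lf (nat_lit 0) (nat_lit 10056629793) (nat_lit 380) (nat_lit 1458480051) (nat_lit 76) (nat_lit 3678090187) (nat_lit 42) (nat_lit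 5) (nat_lit 47) (nat_lit 5) (nat_lit 43) (nat_lit 5) (nat_lit 275) (nat_lit 255) (nat_lit 190))) (XT.nd (nat_lit 78) (nat_lit 0) (nat_lit 0) (XT.lf (nat_lit 0) (nat_lit 5142848070) (nat_lit 228) (nat_lit 6974088472) (nat_lit 304) (nat_lit 3541527515) (nat_lit 39) (nat_lit 5) (nat_lit 42) (nat_lit 5) (nat_lit 43) (nat_lit 5) (nat_lit 276) (nat_lit 255) (nat_lit 189)) (XT.lf (nat_lit 0) (nat_lit 12101921575) (nat_lit 228) (nat_lit 2182386897) (nat_lit 304) (nat_lit 1862574596) (nat_lit 39) (nat_lit 5) (nat_lit 42) (nat_lit 5) (nat_lit 43) (nat_lit 5) (nat_lit 277) (nat_lit 255) (nat_lit 188))))) (XT.nd (nat_lit 312) (nat_lit 380) (nat_lit 0) (XT.nd (nat_lit 156) (nat_lit 228) (nat_lit 0) (XT.nd (nat_lit 78) (nat_lit 76) (nat_lit 0) (XT.lf (nat_lit 0) (nat_lit 2770518462) (nat_lit 304) (nat_lit 13857564234) (nat_lit 380) (nat_lit 28328430) (nat_lit 35) (nat_lit 5) (nat_lit 39) (nat_lit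 5) (nat_lit 40) (nat_lit 5) (nat_lit 278) (nat_lit 255) (nat_lit 187)) (XT.lf (nat_lit 0) (nat_lit 1922786311) (nat_lit 380) (nat_lit 7210572256) (nat_lit 76) (nat_lit 8052362475) (nat_lit 34) (nat_lit 5) (nat_lit 39) (nat_lit 5) (nat_lit 35) (nat_lit 5) (nat_lit 279) (nat_lit 255) (nat_lit 186))) (XT.nd (nat_lit 78) (nat_lit 228) (nat_lit 0) (XT.lf (nat_lit 0) (nat_lit 3951922921) (nat_lit 380) (nat_lit 224101675) (nat_lit 76) (nat_lit 13566455290) (nat_lit 34) (nat_lit 5) (nat_lit 39) (nat_lit 5) (nat_lit 35) (nat_lit 5) (nat_lit 280) (nat_lit 255) (nat_lit 185)) (XT.lf (nat_lit 0) (nat_lit 6197073884) (nat_lit 304) (nat_lit 11015164300) (nat_lit 76) (nat_lit 1109184477) (nat_lit 31) (nat_lit 5) (nat_lit 35) (nat_lit 5) (nat_lit 32) (nat_lit 5) (nat_lit 281) (nat_lit 255) (nat_lit 184)))) (XT.nd (nat_lit 156) (nat_lit 152) (nat_lit 0) (XT.nd (nat_lit 78) (nat_lit 228) (nat_lit 0)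 (XT.lf (nat_lit 0) (nat_lit 8609565091) (nat_lit 304) (nat_lit 3798357494) (nat_lit 76) (nat_lit 6518706202) (nat_lit 31) (nat_lit 5) (nat_lit 35) (nat_lit 5) (nat_lit 32) (nat_lit 5) (nat_lit 282) (nat_lit 255) (nat_lit 183)) (XT.lf (nat_lit 0) (nat_lit 3882969150) (nat_lit 228) (nat_lit 7303922203) (nat_lit 304) (nat_lit 8373060341) (nat_lit 28) (nat_lit 5) (nat_lit 31) (nat_lit 5) (nat_lit 32) (nat_lit 5) (nat_lit 283) (nat_lit 255) (nat_lit 182))) (XT.nd (nat_lit 78) (nat_lit 152) (nat_lit 0) (XT.lf (nat_lit 0) (nat_lit 12059965015) (nat_lit 228) (nat_lit 1881497565) (nat_lit 304) (nat_lit 6281123039) (nat_lit 28) (nat_lit 5) (nat_lit 31) (nat_lit 5) (nat_lit 32) (nat_lit 5) (nat_lit 284) (nat_lit 255) (nat_lit 181)) (XT.nd (nat_lit 78) (nat_lit 152) (nat_lit 0) (XT.lf (nat_lit 0) (nat_lit 16878025980) (nat_lit 304) (nat_lit 352115708) (nat_lit 76) (nat_lit 3686057143) (nat_lit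 28) (nat_lit 5) (nat_lit 32) (nat_lit 5) (nat_lit 29) (nat_lit 5) (nat_lit 285) (nat_lit 255) (nat_lit 180)) (XT.lf (nat_lit 0) (nat_lit 8056836060) (nat_lit 152) (nat_lit 12046688694) (nat_lit 228) (nat_lit 1533920462) (nat_lit 26) (nat_lit 5) (nat_lit 28) (nat_lit 5) (nat_lit 29) (nat_lit 5) (nat_lit 286) (nat_lit 255) (nat_lit 179))))))))
noncomputable def xc160 : XT := (XT.nd (nat_lit 1248) (nat_lit 532) (nat_lit 0) (XT.nd (nat_lit 624) (nat_lit 380) (nat_lit 0) (XT.nd (nat_lit 312) (nat_lit 304) (nat_lit 0) (XT.nd (nat_lit 156) (nat_lit 0) (nat_lit 0) (XT.nd (nat_lit 78) (nat_lit 228) (nat_lit 0) (XT.lf (nat_lit 0) (nat_lit 1052127817) (nat_lit 228) (nat_lit 5532522132) (nat_lit 76) (nat_lit 15809718864) (nat_lit 25) (nat_lit 5) (nat_lit 28) (nat_lit 5) (nat_lit 26) (nat_lit 5) (nat_lit 287) (nat_lit 255) (nat_lit 178)) (XT.lf (nat_lit 0) (nat_lit 2969460306) (nat_lit 228) (nat_lit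 779102904) (nat_lit 304) (nat_lit 19437736339) (nat_lit 22) (nat_lit 5) (nat_lit 25) (nat_lit 5) (nat_lit 26) (nat_lit 5) (nat_lit 288) (nat_lit 255) (nat_lit 177))) (XT.nd (nat_lit 78) (nat_lit 0) (nat_lit 0) (XT.lf (nat_lit 0) (nat_lit 6744630915) (nat_lit 304) (nat_lit 12027816785) (nat_lit 76) (nat_lit 5237186209) (nat_lit 22) (nat_lit 5) (nat_lit 26) (nat_lit 5) (nat_lit 23) (nat_lit 5) (nat_lit 289) (nat_lit 255) (nat_lit 176)) (XT.lf (nat_lit 0) (nat_lit 9890483403) (nat_lit 304) (nat_lit 3459970983) (nat_lit 76) (nat_lit 11523726878) (nat_lit 22) (nat_lit 5) (nat_lit 26) (nat_lit 5) (nat_lit 23) (nat_lit 5) (nat_lit 290) (nat_lit 255) (nat_lit 175)))) (XT.nd (nat_lit 156) (nat_lit 152) (nat_lit 0) (XT.nd (nat_lit 78) (nat_lit 0) (nat_lit 0) (XT.lf (nat_lit 0) (nat_lit 5701753494) (nat_lit 152) (nat_lit 7568713675) (nat_lit 228) (nat_lit 12507690071) (nat_lit 20) (nat_lit 5)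 (nat_lit 22) (nat_lit 5) (nat_lit 23) (nat_lit 5) (nat_lit 291) (nat_lit 255) (nat_lit 174)) (XT.lf (nat_lit 0) (nat_lit 15424955522) (nat_lit 152) (nat_lit 1441228051) (nat_lit 228) (nat_lit 9858852901) (nat_lit 20) (nat_lit 5) (nat_lit 22) (nat_lit 5) (nat_lit 23) (nat_lit 5) (nat_lit 292) (nat_lit 255) (nat_lit 173))) (XT.nd (nat_lit 78) (nat_lit 152) (nat_lit 0) (XT.lf (nat_lit 0) (nat_lit 20708264449) (nat_lit 228) (nat_lit 2179357015) (nat_lit 76) (nat_lit 4828348446) (nat_lit 20) (nat_lit 5) (nat_lit 23) (nat_lit 5) (nat_lit 21) (nat_lit 5) (nat_lit 293) (nat_lit 255) (nat_lit 172)) (XT.lf (nat_lit 0) (nat_lit 7601386342) (nat_lit 152) (nat_lit 17272539778) (nat_lit 228) (nat_lit 3875987366) (nat_lit 18) (nat_lit 5) (nat_lit 20) (nat_lit 5) (nat_lit 21) (nat_lit 5) (nat_lit 294) (nat_lit 255) (nat_lit 171))))) (XT.nd (nat_lit 312) (nat_lit 152) (nat_lit 0) (XT.nd (nat_lit 156)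 (nat_lit 152) (nat_lit 0) (XT.nd (nat_lit 78) (nat_lit 76) (nat_lit 0) (XT.lf (nat_lit 0) (nat_lit 17931400232) (nat_lit 152) (nat_lit 11342825000) (nat_lit 228) (nat_lit 560046822) (nat_lit 18) (nat_lit 5) (nat_lit 20) (nat_lit 5) (nat_lit 21) (nat_lit 5) (nat_lit 295) (nat_lit 255) (nat_lit 170)) (XT.lf (nat_lit 0) (nat_lit 2817929331) (nat_lit 228) (nat_lit 2255614897) (nat_lit 76) (nat_lit 25897568213) (nat_lit 17) (nat_lit 5) (nat_lit 20) (nat_lit 5) (nat_lit 18) (nat_lit 5) (nat_lit 296) (nat_lit 255) (nat_lit 169))) (XT.nd (nat_lit 78) (nat_lit 0) (nat_lit 0) (XT.lf (nat_lit 0) (nat_lit 6488560100) (nat_lit 228) (nat_lit 24074193023) (nat_lit 76) (nat_lit 1594484510) (nat_lit 15) (nat_lit 5) (nat_lit 18) (nat_lit 5) (nat_lit 16) (nat_lit 5) (nat_lit 297) (nat_lit 255) (nat_lit 168)) (XT.lf (nat_lit 0) (nat_lit 10455132999) (nat_lit 228) (nat_lit 14482161030) (nat_lit 76) (nat_lit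 8459783758) (nat_lit 15) (nat_lit 5) (nat_lit 18) (nat_lit 5) (nat_lit 16) (nat_lit 5) (nat_lit 298) (nat_lit 255) (nat_lit 167)))) (XT.nd (nat_lit 156) (nat_lit 0) (nat_lit 0) (XT.nd (nat_lit 78) (nat_lit 152) (nat_lit 0) (XT.lf (nat_lit 0) (nat_lit 14610902710) (nat_lit 228) (nat_lit 4424384397) (nat_lit 76) (nat_lit 15664107271) (nat_lit 15) (nat_lit 5) (nat_lit 18) (nat_lit 5) (nat_lit 16) (nat_lit 5) (nat_lit 299) (nat_lit 255) (nat_lit 166)) (XT.lf (nat_lit 0) (nat_lit 6325540772) (nat_lit 152) (nat_lit 12738982572) (nat_lit 228) (nat_lit 16997826847) (nat_lit 13) (nat_lit 5) (nat_lit 15) (nat_lit 5) (nat_lit 16) (nat_lit 5) (nat_lit 300) (nat_lit 255) (nat_lit 165))) (XT.nd (nat_lit 78) (nat_lit 0) (nat_lit 0) (XT.lf (nat_lit 0) (nat_lit 17753582587) (nat_lit 152) (nat_lit 6053685951) (nat_lit 228) (nat_lit 13682888329) (nat_lit 13) (nat_lit 5) (nat_lit 15) (nat_lit 5) (nat_lit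 16) (nat_lit 5) (nat_lit 301) (nat_lit 255) (nat_lit 164)) (XT.lf (nat_lit 0) (nat_lit 28794082637) (nat_lit 228) (nat_lit 9264134589) (nat_lit 76) (nat_lit 930814118) (nat_lit 13) (nat_lit 5) (nat_lit 16) (nat_lit 5) (nat_lit 14) (nat_lit 4) (nat_lit 302) (nat_lit 255) (nat_lit 163)))))) (XT.nd (nat_lit 624) (nat_lit 228) (nat_lit 0) (XT.nd (nat_lit 312) (nat_lit 152) (nat_lit 0) (XT.nd (nat_lit 156) (nat_lit 76) (nat_lit 0) (XT.nd (nat_lit 78) (nat_lit 0) (nat_lit 0) (XT.lf (nat_lit 0) (nat_lit 1674148412) (nat_lit 76) (nat_lit 32473707568) (nat_lit 152) (nat_lit 6409135541) (nat_lit 12) (nat_lit 5) (nat_lit 13) (nat_lit 5) (nat_lit 14) (nat_lit 4) (nat_lit 303) (nat_lit 255) (nat_lit 162)) (XT.lf (nat_lit 0) (nat_lit 13469049777) (nat_lit 76) (nat_lit 26449583804) (nat_lit 152) (nat_lit 2277272160) (nat_lit 12) (nat_lit 5) (nat_lit 13) (nat_lit 5) (nat_lit 14) (nat_lit 4) (nat_lit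 304) (nat_lit 255) (nat_lit 161))) (XT.nd (nat_lit 78) (nat_lit 0) (nat_lit 0) (XT.lf (nat_lit 0) (nat_lit 1987859007) (nat_lit 152) (nat_lit 18106871023) (nat_lit 76) (nat_lit 23820814113) (nat_lit 11) (nat_lit 5) (nat_lit 13) (nat_lit 5) (nat_lit 12) (nat_lit 5) (nat_lit 305) (nat_lit 255) (nat_lit 160)) (XT.lf (nat_lit 0) (nat_lit 6382711065) (nat_lit 152) (nat_lit 7004286496) (nat_lit 76) (nat_lit 32332669349) (nat_lit 11) (nat_lit 5) (nat_lit 13) (nat_lit 5) (nat_lit 12) (nat_lit 5) (nat_lit 306) (nat_lit 255) (nat_lit 159)))) (XT.nd (nat_lit 156) (nat_lit 0) (nat_lit 0) (XT.nd (nat_lit 78) (nat_lit 0) (nat_lit 0) (XT.lf (nat_lit 0) (nat_lit 4796401752) (nat_lit 152) (nat_lit 6269118399) (nat_lit 228) (nat_lit 36545082889) (nat_lit 9) (nat_lit 5) (nat_lit 11) (nat_lit 5) (nat_lit 12) (nat_lit 5) (nat_lit 307) (nat_lit 255) (nat_lit 158)) (XT.lf (nat_lit 0) (nat_lit 16115268028)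 (nat_lit 228) (nat_lit 32191263110) (nat_lit 76) (nat_lit 1282932013) (nat_lit 9) (nat_lit 5) (nat_lit 12) (nat_lit 5) (nat_lit 10) (nat_lit 4) (nat_lit 308) (nat_lit 255) (nat_lit 157))) (XT.nd (nat_lit 78) (nat_lit 0) (nat_lit 0) (XT.lf (nat_lit 0) (nat_lit 21514013550) (nat_lit 228) (nat_lit 21150096136) (nat_lit 76) (nat_lit 8998347345) (nat_lit 9) (nat_lit 5) (nat_lit 12) (nat_lit 5) (nat_lit 10) (nat_lit 4) (nat_lit 309) (nat_lit 255) (nat_lit 156)) (XT.lf (nat_lit 0) (nat_lit 27176732368) (nat_lit 228) (nat_lit 9566533366) (nat_lit 76) (nat_lit 17096148572) (nat_lit 9) (nat_lit 5) (nat_lit 12) (nat_lit 5) (nat_lit 10) (nat_lit 4) (nat_lit 310) (nat_lit 255) (nat_lit 155))))) (XT.nd (nat_lit 312) (nat_lit 152) (nat_lit 0) (XT.nd (nat_lit 156) (nat_lit 0) (nat_lit 0) (XT.nd (nat_lit 78) (nat_lit 0) (nat_lit 0) (XT.lf (nat_lit 0) (nat_lit 2672543183) (nat_lit 76) (nat_lit 30486089851)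 (nat_lit 152) (nat_lit 22964798880) (nat_lit 8) (nat_lit 5) (nat_lit 9) (nat_lit 5) (nat_lit 10) (nat_lit 4) (nat_lit 311) (nat_lit 255) (nat_lit 154)) (XT.lf (nat_lit 0) (nat_lit 15846647992) (nat_lit 76) (nat_lit 23749443748) (nat_lit 152) (nat_lit 18917749571) (nat_lit 8) (nat_lit 5) (nat_lit 9) (nat_lit 5) (nat_lit 10) (nat_lit 4) (nat_lit 312) (nat_lit 255) (nat_lit 153))) (XT.nd (nat_lit 78) (nat_lit 0) (nat_lit 0) (XT.lf (nat_lit 0) (nat_lit 29670835179) (nat_lit 76) (nat_lit 16679301665) (nat_lit 152) (nat_lit 14673912053) (nat_lit 8) (nat_lit 5) (nat_lit 9) (nat_lit 5) (nat_lit 10) (nat_lit 4) (nat_lit 313) (nat_lit 255) (nat_lit 152)) (XT.lf (nat_lit 0) (nat_lit 44178019477) (nat_lit 76) (nat_lit 9258829928) (nat_lit 152) (nat_lit 10223181950) (nat_lit 8) (nat_lit 5) (nat_lit 9) (nat_lit 5) (nat_lit 10) (nat_lit 4) (nat_lit 314) (nat_lit 255) (nat_lit 151)))) (XT.nd (nat_lit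 156) (nat_lit 76) (nat_lit 0) (XT.nd (nat_lit 78) (nat_lit 76) (nat_lit 0) (XT.lf (nat_lit 0) (nat_lit 59402741799) (nat_lit 76) (nat_lit 1470360749) (nat_lit 152) (nat_lit 5554962286) (nat_lit 8) (nat_lit 5) (nat_lit 9) (nat_lit 5) (nat_lit 10) (nat_lit 4) (nat_lit 315) (nat_lit 255) (nat_lit 150)) (XT.lf (nat_lit 0) (nat_lit 6138297060) (nat_lit 76) (nat_lit 62738818972) (nat_lit 76) (nat_lit 447598138) (nat_lit 7) (nat_lit 4) (nat_lit 8) (nat_lit 5) (nat_lit 8) (nat_lit 4) (nat_lit 316) (nat_lit 255) (nat_lit 149))) (XT.nd (nat_lit 78) (nat_lit 0) (nat_lit 0) (XT.lf (nat_lit 0) (nat_lit 4898257084) (nat_lit 152) (nat_lit 52266722108) (nat_lit 76) (nat_lit 15190368431) (nat_lit 6) (nat_lit 5) (nat_lit 8) (nat_lit 5) (nat_lit 7) (nat_lit 4) (nat_lit 317) (nat_lit 255) (nat_lit 148)) (XT.nd (nat_lit 78) (nat_lit 0) (nat_lit 0) (XT.lf (nat_lit 0) (nat_lit 10491987497) (nat_lit 152)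 (nat_lit 40815696951) (nat_lit 76) (nat_lit 24229690175) (nat_lit 6) (nat_lit 5) (nat_lit 8) (nat_lit 5) (nat_lit 7) (nat_lit 4) (nat_lit 318) (nat_lit 255) (nat_lit 147)) (XT.lf (nat_lit 0) (nat_lit 16361237440) (nat_lit 152) (nat_lit 28799089032) (nat_lit 76) (nat_lit 33718394367) (nat_lit 6) (nat_lit 5) (nat_lit 8) (nat_lit 5) (nat_lit 7) (nat_lit 4) (nat_lit 319) (nat_lit 255) (nat_lit 146))))))))
noncomputable def xc161 : XT := (XT.nd (nat_lit 1326) (nat_lit 76) (nat_lit 0) (XT.nd (nat_lit 624) (nat_lit 152) (nat_lit 0) (XT.nd (nat_lit 312) (nat_lit 0) (nat_lit 0) (XT.nd (nat_lit 156) (nat_lit 76) (nat_lit 0) (XT.nd (nat_lit 78) (nat_lit 0) (nat_lit 0) (XT.lf (nat_lit 0) (nat_lit 22519981319) (nat_lit 152) (nat_lit 16188287382) (nat_lit 76) (nat_lit 43679073157) (nat_lit 6) (nat_lit 5) (nat_lit 8) (nat_lit 5) (nat_lit 7) (nat_lit 4) (nat_lit 320) (nat_lit 255) (nat_lit 145)) (XT.lf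 (nat_lit 0) (nat_lit 28982882808) (nat_lit 152) (nat_lit 2953266282) (nat_lit 76) (nat_lit 54135442449) (nat_lit 6) (nat_lit 5) (nat_lit 8) (nat_lit 5) (nat_lit 7) (nat_lit 4) (nat_lit 321) (nat_lit 255) (nat_lit 144))) (XT.nd (nat_lit 78) (nat_lit 0) (nat_lit 0) (XT.lf (nat_lit 0) (nat_lit 11299128912) (nat_lit 76) (nat_lit 24642611925) (nat_lit 152) (nat_lit 53989680515) (nat_lit 5) (nat_lit 5) (nat_lit 6) (nat_lit 5) (nat_lit 7) (nat_lit 4) (nat_lit 322) (nat_lit 255) (nat_lit 143)) (XT.lf (nat_lit 0) (nat_lit 26360752046) (nat_lit 76) (nat_lit 16934284055) (nat_lit 152) (nat_lit 50686889668) (nat_lit 5) (nat_lit 5) (nat_lit 6) (nat_lit 5) (nat_lit 7) (nat_lit 4) (nat_lit 323) (nat_lit 255) (nat_lit 142)))) (XT.nd (nat_lit 156) (nat_lit 0) (nat_lit 0) (XT.nd (nat_lit 78) (nat_lit 0) (nat_lit 0) (XT.lf (nat_lit 0) (nat_lit 42169815803) (nat_lit 76) (nat_lit 8842827314) (nat_lit 152)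 (nat_lit 47222487396) (nat_lit 5) (nat_lit 5) (nat_lit 6) (nat_lit 5) (nat_lit 7) (nat_lit 4) (nat_lit 324) (nat_lit 255) (nat_lit 141)) (XT.lf (nat_lit 0) (nat_lit 58763960814) (nat_lit 76) (nat_lit 348976327) (nat_lit 152) (nat_lit 43588225122) (nat_lit 5) (nat_lit 5) (nat_lit 6) (nat_lit 5) (nat_lit 7) (nat_lit 4) (nat_lit 325) (nat_lit 255) (nat_lit 140))) (XT.nd (nat_lit 78) (nat_lit 0) (nat_lit 0) (XT.lf (nat_lit 0) (nat_lit 67748967154) (nat_lit 152) (nat_lit 31341720049) (nat_lit 0) (nat_lit 8293279097) (nat_lit 5) (nat_lit 5) (nat_lit 7) (nat_lit 4) (nat_lit 5) (nat_lit 4) (nat_lit 326) (nat_lit 255) (nat_lit 139)) (XT.lf (nat_lit 0) (nat_lit 76819592282) (nat_lit 152) (nat_lit 18127178417) (nat_lit 0) (nat_lit 17354006600) (nat_lit 5) (nat_lit 5) (nat_lit 7) (nat_lit 4) (nat_lit 5) (nat_lit 4) (nat_lit 327) (nat_lit 255) (nat_lit 138))))) (XT.nd (nat_lit 312) (nat_lit 76)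 (nat_lit 0) (XT.nd (nat_lit 156) (nat_lit 0) (nat_lit 0) (XT.nd (nat_lit 78) (nat_lit 76) (nat_lit 0) (XT.lf (nat_lit 0) (nat_lit 86340960754) (nat_lit 152) (nat_lit 4256664862) (nat_lit 0) (nat_lit 26865948762) (nat_lit 5) (nat_lit 5) (nat_lit 7) (nat_lit 4) (nat_lit 5) (nat_lit 4) (nat_lit 328) (nat_lit 255) (nat_lit 137)) (XT.lf (nat_lit 0) (nat_lit 10643504254) (nat_lit 76) (nat_lit 85858413170) (nat_lit 76) (nat_lit 26374423741) (nat_lit 4) (nat_lit 4) (nat_lit 5) (nat_lit 5) (nat_lit 5) (nat_lit 4) (nat_lit 329) (nat_lit 255) (nat_lit 136))) (XT.nd (nat_lit 78) (nat_lit 0) (nat_lit 0) (XT.lf (nat_lit 0) (nat_lit 26432007940) (nat_lit 76) (nat_lit 80808404383) (nat_lit 76) (nat_lit 21315865012) (nat_lit 4) (nat_lit 4) (nat_lit 5) (nat_lit 5) (nat_lit 5) (nat_lit 4) (nat_lit 330) (nat_lit 255) (nat_lit 135)) (XT.lf (nat_lit 0) (nat_lit 43005693308) (nat_lit 76) (nat_lit 75507664103)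 (nat_lit 76) (nat_lit 16006981931) (nat_lit 4) (nat_lit 4) (nat_lit 5) (nat_lit 5) (nat_lit 5) (nat_lit 4) (nat_lit 331) (nat_lit 255) (nat_lit 134)))) (XT.nd (nat_lit 156) (nat_lit 76) (nat_lit 0) (XT.nd (nat_lit 78) (nat_lit 0) (nat_lit 0) (XT.lf (nat_lit 0) (nat_lit 60404021513) (nat_lit 76) (nat_lit 69943571519) (nat_lit 76) (nat_lit 10435134299) (nat_lit 4) (nat_lit 4) (nat_lit 5) (nat_lit 5) (nat_lit 5) (nat_lit 4) (nat_lit 332) (nat_lit 255) (nat_lit 133)) (XT.lf (nat_lit 0) (nat_lit 78668417146) (nat_lit 76) (nat_lit 64102878794) (nat_lit 76) (nat_lit 4587055813) (nat_lit 4) (nat_lit 4) (nat_lit 5) (nat_lit 5) (nat_lit 5) (nat_lit 4) (nat_lit 333) (nat_lit 255) (nat_lit 132))) (XT.nd (nat_lit 78) (nat_lit 0) (nat_lit 0) (XT.lf (nat_lit 0) (nat_lit 1501530155) (nat_lit 152) (nat_lit 56444720218) (nat_lit 76) (nat_lit 96315407567) (nat_lit 3) (nat_lit 5) (nat_lit 5) (nat_lit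 5) (nat_lit 4) (nat_lit 4) (nat_lit 334) (nat_lit 255) (nat_lit 131)) (XT.nd (nat_lit 78) (nat_lit 0) (nat_lit 0) (XT.lf (nat_lit 0) (nat_lit 7738316851) (nat_lit 152) (nat_lit 43666006596) (nat_lit 76) (nat_lit 110102153933) (nat_lit 3) (nat_lit 5) (nat_lit 5) (nat_lit 5) (nat_lit 4) (nat_lit 4) (nat_lit 335) (nat_lit 255) (nat_lit 130)) (XT.lf (nat_lit 0) (nat_lit 14284968196) (nat_lit 152) (nat_lit 30251751434) (nat_lit 76) (nat_lit 124576920849) (nat_lit 3) (nat_lit 5) (nat_lit 5) (nat_lit 5) (nat_lit 4) (nat_lit 4) (nat_lit 336) (nat_lit 255) (nat_lit 129))))))) (XT.nd (nat_lit 624) (nat_lit 0) (nat_lit 0) (XT.nd (nat_lit 312) (nat_lit 0) (nat_lit 0) (XT.nd (nat_lit 156) (nat_lit 76) (nat_lit 0) (XT.nd (nat_lit 78) (nat_lit 0) (nat_lit 0) (XT.lf (nat_lit 0) (nat_lit 21157071458) (nat_lit 152) (nat_lit 16170016031) (nat_lit 76) (nat_lit 139774172044) (nat_lit 3) (nat_lit 5) (nat_lit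 5) (nat_lit 5) (nat_lit 4) (nat_lit 4) (nat_lit 337) (nat_lit 255) (nat_lit 128)) (XT.lf (nat_lit 0) (nat_lit 28370988787) (nat_lit 152) (nat_lit 1387272444) (nat_lit 76) (nat_lit 155730091450) (nat_lit 3) (nat_lit 5) (nat_lit 5) (nat_lit 5) (nat_lit 4) (nat_lit 4) (nat_lit 338) (nat_lit 255) (nat_lit 127))) (XT.nd (nat_lit 78) (nat_lit 0) (nat_lit 0) (XT.lf (nat_lit 0) (nat_lit 14598933373) (nat_lit 76) (nat_lit 21572893065) (nat_lit 152) (nat_lit 158111666241) (nat_lit 2) (nat_lit 5) (nat_lit 3) (nat_lit 5) (nat_lit 4) (nat_lit 4) (nat_lit 339) (nat_lit 255) (nat_lit 126)) (XT.lf (nat_lit 0) (nat_lit 31429727752) (nat_lit 76) (nat_lit 12954802736) (nat_lit 152) (nat_lit 159132771217) (nat_lit 2) (nat_lit 5) (nat_lit 3) (nat_lit 5) (nat_lit 4) (nat_lit 4) (nat_lit 340) (nat_lit 255) (nat_lit 125)))) (XT.nd (nat_lit 156) (nat_lit 0) (nat_lit 0) (XT.nd (nat_lit 78) (nat_lit 0) (nat_lit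 0) (XT.lf (nat_lit 0) (nat_lit 49099314519) (nat_lit 76) (nat_lit 3906965110) (nat_lit 152) (nat_lit 160206604156) (nat_lit 2) (nat_lit 5) (nat_lit 3) (nat_lit 5) (nat_lit 4) (nat_lit 4) (nat_lit 341) (nat_lit 255) (nat_lit 124)) (XT.lf (nat_lit 0) (nat_lit 62144911163) (nat_lit 152) (nat_lit 155830868848) (nat_lit 0) (nat_lit 5413178163) (nat_lit 2) (nat_lit 5) (nat_lit 4) (nat_lit 4) (nat_lit 2) (nat_lit 4) (nat_lit 342) (nat_lit 255) (nat_lit 123))) (XT.nd (nat_lit 78) (nat_lit 0) (nat_lit 0) (XT.lf (nat_lit 0) (nat_lit 71803064217) (nat_lit 152) (nat_lit 147200632463) (nat_lit 0) (nat_lit 15067012916) (nat_lit 2) (nat_lit 5) (nat_lit 4) (nat_lit 4) (nat_lit 2) (nat_lit 4) (nat_lit 343) (nat_lit 255) (nat_lit 122)) (XT.lf (nat_lit 0) (nat_lit 81942735720) (nat_lit 152) (nat_lit 138141313255) (nat_lit 0) (nat_lit 25202571751) (nat_lit 2) (nat_lit 5) (nat_lit 4) (nat_lit 4) (nat_lit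 2) (nat_lit 4) (nat_lit 344) (nat_lit 255) (nat_lit 121))))) (XT.nd (nat_lit 312) (nat_lit 0) (nat_lit 0) (XT.nd (nat_lit 156) (nat_lit 0) (nat_lit 0) (XT.nd (nat_lit 78) (nat_lit 0) (nat_lit 0) (XT.lf (nat_lit 0) (nat_lit 92588067746) (nat_lit 152) (nat_lit 128631341417) (nat_lit 0) (nat_lit 35843986950) (nat_lit 2) (nat_lit 5) (nat_lit 4) (nat_lit 4) (nat_lit 2) (nat_lit 4) (nat_lit 345) (nat_lit 255) (nat_lit 120)) (XT.lf (nat_lit 0) (nat_lit 103764406324) (nat_lit 152) (nat_lit 118648074159) (nat_lit 0) (nat_lit 47016595217) (nat_lit 2) (nat_lit 5) (nat_lit 4) (nat_lit 4) (nat_lit 2) (nat_lit 4) (nat_lit 346) (nat_lit 255) (nat_lit 119))) (XT.nd (nat_lit 78) (nat_lit 0) (nat_lit 0) (XT.lf (nat_lit 0) (nat_lit 115498361784) (nat_lit 152) (nat_lit 108167741796) (nat_lit 0) (nat_lit 58746998001) (nat_lit 2) (nat_lit 5) (nat_lit 4) (nat_lit 4) (nat_lit 2) (nat_lit 4) (nat_lit 347)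 (nat_lit 255) (nat_lit 118)) (XT.lf (nat_lit 0) (nat_lit 127817872115) (nat_lit 152) (nat_lit 97165391157) (nat_lit 0) (nat_lit 71063124830) (nat_lit 2) (nat_lit 5) (nat_lit 4) (nat_lit 4) (nat_lit 2) (nat_lit 4) (nat_lit 348) (nat_lit 255) (nat_lit 117)))) (XT.nd (nat_lit 156) (nat_lit 0) (nat_lit 0) (XT.nd (nat_lit 78) (nat_lit 0) (nat_lit 0) (XT.lf (nat_lit 0) (nat_lit 140752269486) (nat_lit 152) (nat_lit 85614826169) (nat_lit 0) (nat_lit 83994299817) (nat_lit 2) (nat_lit 5) (nat_lit 4) (nat_lit 4) (nat_lit 2) (nat_lit 4) (nat_lit 349) (nat_lit 255) (nat_lit 116)) (XT.lf (nat_lit 0) (nat_lit 154332350079) (nat_lit 152) (nat_lit 73488545485) (nat_lit 0) (nat_lit 97571311474) (nat_lit 2) (nat_lit 5) (nat_lit 4) (nat_lit 4) (nat_lit 2) (nat_lit 4) (nat_lit 350) (nat_lit 255) (nat_lit 115))) (XT.nd (nat_lit 78) (nat_lit 0) (nat_lit 0) (XT.lf (nat_lit 0) (nat_lit 168590447420) (nat_lit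 152) (nat_lit 60757677010) (nat_lit 0) (nat_lit 111826486019) (nat_lit 2) (nat_lit 5) (nat_lit 4) (nat_lit 4) (nat_lit 2) (nat_lit 4) (nat_lit 351) (nat_lit 255) (nat_lit 114)) (XT.nd (nat_lit 78) (nat_lit 0) (nat_lit 0) (XT.lf (nat_lit 0) (nat_lit 183560509360) (nat_lit 152) (nat_lit 47391909152) (nat_lit 0) (nat_lit 126793764344) (nat_lit 2) (nat_lit 5) (nat_lit 4) (nat_lit 4) (nat_lit 2) (nat_lit 4) (nat_lit 352) (nat_lit 255) (nat_lit 113)) (XT.lf (nat_lit 0) (nat_lit 199278178904) (nat_lit 152) (nat_lit 33359418654) (nat_lit 0) (nat_lit 142508782826) (nat_lit 2) (nat_lit 5) (nat_lit 4) (nat_lit 4) (nat_lit 2) (nat_lit 4) (nat_lit 353) (nat_lit 255) (nat_lit 112))))))))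
noncomputable def xc162 : XT := (XT.nd (nat_lit 30966) (nat_lit 0) (nat_lit 1900) (XT.nd (nat_lit 30264) (nat_lit 0) (nat_lit 4408) (XT.nd (nat_lit 29952) (nat_lit 0) (nat_lit 4788) (XT.nd (nat_lit 156) (nat_lit 76) (nat_lit 0) (XT.nd (nat_lit 78) (nat_lit 0) (nat_lit 0) (XT.lf (nat_lit 0) (nat_lit 215780879074) (nat_lit 152) (nat_lit 18626794824) (nat_lit 0) (nat_lit 159008958175) (nat_lit 2) (nat_lit 5) (nat_lit 4) (nat_lit 4) (nat_lit 2) (nat_lit 4) (nat_lit 354) (nat_lit 255) (nat_lit 111)) (XT.lf (nat_lit 0) (nat_lit 233107902014) (nat_lit 152) (nat_lit 3158959987) (nat_lit 0) (nat_lit 176333576523) (nat_lit 2) (nat_lit 5) (nat_lit 4) (nat_lit 4) (nat_lit 2) (nat_lit 4) (nat_lit 355) (nat_lit 255) (nat_lit 110))) (XT.nd (nat_lit 29718) (nat_lit 0) (nat_lit 5472) (XT.lf (nat_lit 0) (nat_lit 13513428128) (nat_lit 76) (nat_lit 237998056896) (nat_lit 76) (nat_lit 181221441317) (nat_lit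 1) (nat_lit 4) (nat_lit 2) (nat_lit 5) (nat_lit 2) (nat_lit 4) (nat_lit 356) (nat_lit 255) (nat_lit 109)) (XT.lf (nat_lit 0) (nat_lit 2280697873) (nat_lit 0) (nat_lit 2280697873) (nat_lit 532) (nat_lit 204633958) (nat_lit 73) (nat_lit 5) (nat_lit 73) (nat_lit 3) (nat_lit 80) (nat_lit 3) (nat_lit 256) (nat_lit 256) (nat_lit 208)))) (XT.nd (nat_lit 156) (nat_lit 0) (nat_lit 76) (XT.nd (nat_lit 78) (nat_lit 0) (nat_lit 76) (XT.lf (nat_lit 0) (nat_lit 284747322) (nat_lit 684) (nat_lit 1134153805) (nat_lit 684) (nat_lit 8313524734) (nat_lit 64) (nat_lit 3) (nat_lit 73) (nat_lit 3) (nat_lit 73) (nat_lit 5) (nat_lit 257) (nat_lit 256) (nat_lit 207)) (XT.lf (nat_lit 0) (nat_lit 1032240532) (nat_lit 608) (nat_lit 7014332989) (nat_lit 684) (nat_lit 1894513304) (nat_lit 65) (nat_lit 5) (nat_lit 73) (nat_lit 5) (nat_lit 74) (nat_lit 5) (nat_lit 258) (nat_lit 256) (nat_lit 206))) (XT.nd (nat_lit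 78) (nat_lit 0) (nat_lit 0) (XT.lf (nat_lit 0) (nat_lit 1817722268) (nat_lit 608) (nat_lit 2978327977) (nat_lit 684) (nat_lit 5364326777) (nat_lit 65) (nat_lit 5) (nat_lit 73) (nat_lit 5) (nat_lit 74) (nat_lit 5) (nat_lit 259) (nat_lit 256) (nat_lit 205)) (XT.lf (nat_lit 76) (nat_lit 1275920339) (nat_lit 0) (nat_lit 1346317367) (nat_lit 684) (nat_lit 7769622117) (nat_lit 66) (nat_lit 5) (nat_lit 65) (nat_lit 5) (nat_lit 74) (nat_lit 5) (nat_lit 260) (nat_lit 256) (nat_lit 204))))) (XT.nd (nat_lit 312) (nat_lit 532) (nat_lit 0) (XT.nd (nat_lit 156) (nat_lit 0) (nat_lit 0) (XT.nd (nat_lit 78) (nat_lit 0) (nat_lit 0) (XT.lf (nat_lit 0) (nat_lit 3515383362) (nat_lit 608) (nat_lit 4848839145) (nat_lit 684) (nat_lit 2268479821) (nat_lit 66) (nat_lit 5) (nat_lit 74) (nat_lit 5) (nat_lit 75) (nat_lit 5) (nat_lit 261) (nat_lit 256) (nat_lit 203)) (XT.lf (nat_lit 0) (nat_lit 4438690345) (nat_lit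 608) (nat_lit 415565192) (nat_lit 684) (nat_lit 6032252205) (nat_lit 66) (nat_lit 5) (nat_lit 74) (nat_lit 5) (nat_lit 75) (nat_lit 5) (nat_lit 262) (nat_lit 256) (nat_lit 202))) (XT.nd (nat_lit 78) (nat_lit 0) (nat_lit 76) (XT.lf (nat_lit 76) (nat_lit 4354839641) (nat_lit 0) (nat_lit 1086488829) (nat_lit 684) (nat_lit 5710203319) (nat_lit 67) (nat_lit 5) (nat_lit 66) (nat_lit 5) (nat_lit 75) (nat_lit 5) (nat_lit 263) (nat_lit 256) (nat_lit 201)) (XT.lf (nat_lit 0) (nat_lit 6512676958) (nat_lit 608) (nat_lit 2121721712) (nat_lit 684) (nat_lit 2794657212) (nat_lit 67) (nat_lit 5) (nat_lit 75) (nat_lit 5) (nat_lit 76) (nat_lit 5) (nat_lit 264) (nat_lit 256) (nat_lit 200)))) (XT.nd (nat_lit 156) (nat_lit 608) (nat_lit 0) (XT.nd (nat_lit 78) (nat_lit 0) (nat_lit 0) (XT.lf (nat_lit 76) (nat_lit 2835619823) (nat_lit 0) (nat_lit 4832267502) (nat_lit 684) (nat_lit 4051223432) (nat_lit 68)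 (nat_lit 5) (nat_lit 67) (nat_lit 5) (nat_lit 76) (nat_lit 5) (nat_lit 265) (nat_lit 256) (nat_lit 199)) (XT.lf (nat_lit 76) (nat_lit 8090558466) (nat_lit 0) (nat_lit 795583439) (nat_lit 684) (nat_lit 3137423524) (nat_lit 68) (nat_lit 5) (nat_lit 67) (nat_lit 5) (nat_lit 76) (nat_lit 5) (nat_lit 266) (nat_lit 256) (nat_lit 198))) (XT.nd (nat_lit 78) (nat_lit 76) (nat_lit 0) (XT.lf (nat_lit 0) (nat_lit 1225981743) (nat_lit 608) (nat_lit 8983132995) (nat_lit 684) (nat_lit 2132091380) (nat_lit 60) (nat_lit 5) (nat_lit 68) (nat_lit 5) (nat_lit 69) (nat_lit 5) (nat_lit 267) (nat_lit 256) (nat_lit 197)) (XT.nd (nat_lit 78) (nat_lit 76) (nat_lit 0) (XT.lf (nat_lit 0) (nat_lit 6741881981) (nat_lit 608) (nat_lit 4907713044) (nat_lit 684) (nat_lit 1022712124) (nat_lit 60) (nat_lit 5) (nat_lit 68) (nat_lit 5) (nat_lit 69) (nat_lit 5) (nat_lit 268) (nat_lit 256) (nat_lit 196)) (XT.lf (nat_lit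 0) (nat_lit 110270222) (nat_lit 684) (nat_lit 512602374) (nat_lit 76) (nat_lit 12398478162) (nat_lit 59) (nat_lit 5) (nat_lit 68) (nat_lit 5) (nat_lit 60) (nat_lit 5) (nat_lit 269) (nat_lit 256) (nat_lit 195))))))) (XT.nd (nat_lit 624) (nat_lit 988) (nat_lit 0) (XT.nd (nat_lit 312) (nat_lit 532) (nat_lit 0) (XT.nd (nat_lit 156) (nat_lit 304) (nat_lit 0) (XT.nd (nat_lit 78) (nat_lit 0) (nat_lit 0) (XT.lf (nat_lit 0) (nat_lit 1384563497) (nat_lit 760) (nat_lit 8140167017) (nat_lit 76) (nat_lit 3856452496) (nat_lit 50) (nat_lit 5) (nat_lit 60) (nat_lit 5) (nat_lit 51) (nat_lit 5) (nat_lit 270) (nat_lit 256) (nat_lit 194)) (XT.lf (nat_lit 0) (nat_lit 2716519142) (nat_lit 760) (nat_lit 2492718337) (nat_lit 76) (nat_lit 8550192329) (nat_lit 50) (nat_lit 5) (nat_lit 60) (nat_lit 5) (nat_lit 51) (nat_lit 5) (nat_lit 271) (nat_lit 256) (nat_lit 193))) (XT.nd (nat_lit 78) (nat_lit 0) (nat_lit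 0) (XT.lf (nat_lit 0) (nat_lit 3527230606) (nat_lit 304) (nat_lit 619019724) (nat_lit 380) (nat_lit 10008894317) (nat_lit 46) (nat_lit 5) (nat_lit 50) (nat_lit 5) (nat_lit 51) (nat_lit 5) (nat_lit 272) (nat_lit 256) (nat_lit 192)) (XT.lf (nat_lit 0) (nat_lit 5732867212) (nat_lit 380) (nat_lit 4723766553) (nat_lit 76) (nat_lit 4109850638) (nat_lit 46) (nat_lit 5) (nat_lit 51) (nat_lit 5) (nat_lit 47) (nat_lit 5) (nat_lit 273) (nat_lit 256) (nat_lit 191)))) (XT.nd (nat_lit 156) (nat_lit 228) (nat_lit 0) (XT.nd (nat_lit 78) (nat_lit 0) (nat_lit 0) (XT.lf (nat_lit 0) (nat_lit 1490602607) (nat_lit 304) (nat_lit 5919639201) (nat_lit 380) (nat_lit 7587681933) (nat_lit 42) (nat_lit 5) (nat_lit 46) (nat_lit 5) (nat_lit 47) (nat_lit 5) (nat_lit 274) (nat_lit 256) (nat_lit 190)) (XT.lf (nat_lit 0) (nat_lit 8157505957) (nat_lit 304) (nat_lit 1072685943) (nat_lit 380) (nat_lit 6217906792) (nat_lit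 42) (nat_lit 5) (nat_lit 46) (nat_lit 5) (nat_lit 47) (nat_lit 5) (nat_lit 275) (nat_lit 256) (nat_lit 189))) (XT.nd (nat_lit 78) (nat_lit 228) (nat_lit 0) (XT.lf (nat_lit 0) (nat_lit 11183558299) (nat_lit 380) (nat_lit 847959951) (nat_lit 76) (nat_lit 3887237473) (nat_lit 42) (nat_lit 5) (nat_lit 47) (nat_lit 5) (nat_lit 43) (nat_lit 5) (nat_lit 276) (nat_lit 256) (nat_lit 188)) (XT.lf (nat_lit 0) (nat_lit 6072411285) (nat_lit 228) (nat_lit 7255248569) (nat_lit 304) (nat_lit 3080722193) (nat_lit 39) (nat_lit 5) (nat_lit 42) (nat_lit 5) (nat_lit 43) (nat_lit 5) (nat_lit 277) (nat_lit 256) (nat_lit 187))))) (XT.nd (nat_lit 312) (nat_lit 380) (nat_lit 0) (XT.nd (nat_lit 156) (nat_lit 228) (nat_lit 0) (XT.nd (nat_lit 78) (nat_lit 380) (nat_lit 0) (XT.lf (nat_lit 0) (nat_lit 13347418426) (nat_lit 228) (nat_lit 2227178311) (nat_lit 304) (nat_lit 1348196946) (nat_lit 39) (nat_lit 5) (nat_lit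 42) (nat_lit 5) (nat_lit 43) (nat_lit 5) (nat_lit 278) (nat_lit 256) (nat_lit 186)) (XT.lf (nat_lit 0) (nat_lit 542712309) (nat_lit 380) (nat_lit 13898430831) (nat_lit 76) (nat_lit 3017151112) (nat_lit 34) (nat_lit 5) (nat_lit 39) (nat_lit 5) (nat_lit 35) (nat_lit 5) (nat_lit 279) (nat_lit 256) (nat_lit 185))) (XT.nd (nat_lit 78) (nat_lit 228) (nat_lit 0) (XT.lf (nat_lit 0) (nat_lit 2563216237) (nat_lit 380) (nat_lit 6922251283) (nat_lit 76) (nat_lit 8530053242) (nat_lit 34) (nat_lit 5) (nat_lit 39) (nat_lit 5) (nat_lit 35) (nat_lit 5) (nat_lit 280) (nat_lit 256) (nat_lit 184)) (XT.lf (nat_lit 0) (nat_lit 395297206) (nat_lit 228) (nat_lit 4278765567) (nat_lit 304) (nat_lit 13927150301) (nat_lit 31) (nat_lit 5) (nat_lit 34) (nat_lit 5) (nat_lit 35) (nat_lit 5) (nat_lit 281) (nat_lit 256) (nat_lit 183)))) (XT.nd (nat_lit 156) (nat_lit 380) (nat_lit 0) (XT.nd (nat_lit 78) (nat_lit 0)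 (nat_lit 0) (XT.lf (nat_lit 0) (nat_lit 7011743857) (nat_lit 304) (nat_lit 10932354206) (nat_lit 76) (nat_lit 1266094326) (nat_lit 31) (nat_lit 5) (nat_lit 35) (nat_lit 5) (nat_lit 32) (nat_lit 5) (nat_lit 282) (nat_lit 256) (nat_lit 182)) (XT.lf (nat_lit 0) (nat_lit 9520820753) (nat_lit 304) (nat_lit 3384876980) (nat_lit 76) (nat_lit 6941261156) (nat_lit 31) (nat_lit 5) (nat_lit 35) (nat_lit 5) (nat_lit 32) (nat_lit 5) (nat_lit 283) (nat_lit 256) (nat_lit 181))) (XT.nd (nat_lit 78) (nat_lit 152) (nat_lit 0) (XT.lf (nat_lit 0) (nat_lit 4670783765) (nat_lit 228) (nat_lit 7542604194) (nat_lit 304) (nat_lit 8299334700) (nat_lit 28) (nat_lit 5) (nat_lit 31) (nat_lit 5) (nat_lit 32) (nat_lit 5) (nat_lit 284) (nat_lit 256) (nat_lit 180)) (XT.nd (nat_lit 78) (nat_lit 152) (nat_lit 0) (XT.lf (nat_lit 0) (nat_lit 13228359606) (nat_lit 228) (nat_lit 1855082806) (nat_lit 304) (nat_lit 6126247136)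 (nat_lit 28) (nat_lit 5) (nat_lit 31) (nat_lit 5) (nat_lit 32) (nat_lit 5) (nat_lit 285) (nat_lit 256) (nat_lit 179)) (XT.lf (nat_lit 0) (nat_lit 196117895) (nat_lit 152) (nat_lit 17954383604) (nat_lit 228) (nat_lit 3788383308) (nat_lit 26) (nat_lit 5) (nat_lit 28) (nat_lit 5) (nat_lit 29) (nat_lit 5) (nat_lit 286) (nat_lit 256) (nat_lit 178))))))))
noncomputable def xc163 : XT := (XT.nd (nat_lit 1326) (nat_lit 532) (nat_lit 0) (XT.nd (nat_lit 624) (nat_lit 532) (nat_lit 0) (XT.nd (nat_lit 312) (nat_lit 152) (nat_lit 0) (XT.nd (nat_lit 156) (nat_lit 228) (nat_lit 0) (XT.nd (nat_lit 78) (nat_lit 76) (nat_lit 0) (XT.lf (nat_lit 0) (nat_lit 9010215055) (nat_lit 152) (nat_lit 12512331147) (nat_lit 228) (nat_lit 1174464488) (nat_lit 26) (nat_lit 5) (nat_lit 28) (nat_lit 5) (nat_lit 29) (nat_lit 5) (nat_lit 287) (nat_lit 256) (nat_lit 177)) (XT.lf (nat_lit 0) (nat_lit 1506822218) (nat_lit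 228) (nat_lit 5270067834) (nat_lit 76) (nat_lit 16715628378) (nat_lit 25) (nat_lit 5) (nat_lit 28) (nat_lit 5) (nat_lit 26) (nat_lit 5) (nat_lit 288) (nat_lit 256) (nat_lit 176))) (XT.nd (nat_lit 78) (nat_lit 0) (nat_lit 0) (XT.lf (nat_lit 0) (nat_lit 3648318881) (nat_lit 228) (nat_lit 678894257) (nat_lit 304) (nat_lit 19997445612) (nat_lit 22) (nat_lit 5) (nat_lit 25) (nat_lit 5) (nat_lit 26) (nat_lit 5) (nat_lit 289) (nat_lit 256) (nat_lit 175)) (XT.lf (nat_lit 0) (nat_lit 7456523893) (nat_lit 304) (nat_lit 12106189910) (nat_lit 76) (nat_lit 5627340455) (nat_lit 22) (nat_lit 5) (nat_lit 26) (nat_lit 5) (nat_lit 23) (nat_lit 5) (nat_lit 290) (nat_lit 256) (nat_lit 174)))) (XT.nd (nat_lit 156) (nat_lit 0) (nat_lit 0) (XT.nd (nat_lit 78) (nat_lit 152) (nat_lit 0) (XT.lf (nat_lit 0) (nat_lit 10741827984) (nat_lit 304) (nat_lit 3134857423) (nat_lit 76) (nat_lit 12222098875) (nat_lit 22)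 (nat_lit 5) (nat_lit 26) (nat_lit 5) (nat_lit 23) (nat_lit 5) (nat_lit 291) (nat_lit 256) (nat_lit 173)) (XT.lf (nat_lit 0) (nat_lit 6476919212) (nat_lit 152) (nat_lit 7804551770) (nat_lit 228) (nat_lit 12767015312) (nat_lit 20) (nat_lit 5) (nat_lit 22) (nat_lit 5) (nat_lit 23) (nat_lit 5) (nat_lit 292) (nat_lit 256) (nat_lit 172))) (XT.nd (nat_lit 78) (nat_lit 0) (nat_lit 0) (XT.lf (nat_lit 0) (nat_lit 16662944291) (nat_lit 152) (nat_lit 1377482227) (nat_lit 228) (nat_lit 10003167677) (nat_lit 20) (nat_lit 5) (nat_lit 22) (nat_lit 5) (nat_lit 23) (nat_lit 5) (nat_lit 293) (nat_lit 256) (nat_lit 171)) (XT.lf (nat_lit 0) (nat_lit 22060872050) (nat_lit 228) (nat_lit 1828977471) (nat_lit 76) (nat_lit 5194966390) (nat_lit 20) (nat_lit 5) (nat_lit 23) (nat_lit 5) (nat_lit 21) (nat_lit 5) (nat_lit 294) (nat_lit 256) (nat_lit 170))))) (XT.nd (nat_lit 312) (nat_lit 152) (nat_lit 0) (XT.nd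 (nat_lit 156) (nat_lit 228) (nat_lit 0) (XT.nd (nat_lit 78) (nat_lit 0) (nat_lit 0) (XT.lf (nat_lit 0) (nat_lit 8433394224) (nat_lit 152) (nat_lit 17993374114) (nat_lit 228) (nat_lit 3744142788) (nat_lit 18) (nat_lit 5) (nat_lit 20) (nat_lit 5) (nat_lit 21) (nat_lit 5) (nat_lit 295) (nat_lit 256) (nat_lit 169)) (XT.lf (nat_lit 0) (nat_lit 19258387925) (nat_lit 152) (nat_lit 11773973247) (nat_lit 228) (nat_lit 277912071) (nat_lit 18) (nat_lit 5) (nat_lit 20) (nat_lit 5) (nat_lit 21) (nat_lit 5) (nat_lit 296) (nat_lit 256) (nat_lit 168))) (XT.nd (nat_lit 78) (nat_lit 152) (nat_lit 0) (XT.lf (nat_lit 0) (nat_lit 3244740815) (nat_lit 228) (nat_lit 1948121370) (nat_lit 76) (nat_lit 27311611099) (nat_lit 17) (nat_lit 5) (nat_lit 20) (nat_lit 5) (nat_lit 18) (nat_lit 5) (nat_lit 297) (nat_lit 256) (nat_lit 167)) (XT.lf (nat_lit 0) (nat_lit 7093847614) (nat_lit 228) (nat_lit 24851716675) (nat_lit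 76) (nat_lit 1804636033) (nat_lit 15) (nat_lit 5) (nat_lit 18) (nat_lit 5) (nat_lit 16) (nat_lit 5) (nat_lit 298) (nat_lit 256) (nat_lit 166)))) (XT.nd (nat_lit 156) (nat_lit 152) (nat_lit 0) (XT.nd (nat_lit 78) (nat_lit 0) (nat_lit 0) (XT.lf (nat_lit 0) (nat_lit 11245374895) (nat_lit 228) (nat_lit 14800377653) (nat_lit 76) (nat_lit 9006989420) (nat_lit 15) (nat_lit 5) (nat_lit 18) (nat_lit 5) (nat_lit 16) (nat_lit 5) (nat_lit 299) (nat_lit 256) (nat_lit 165)) (XT.lf (nat_lit 0) (nat_lit 15596195699) (nat_lit 228) (nat_lit 4259040351) (nat_lit 76) (nat_lit 16565614038) (nat_lit 15) (nat_lit 5) (nat_lit 18) (nat_lit 5) (nat_lit 16) (nat_lit 5) (nat_lit 300) (nat_lit 256) (nat_lit 164))) (XT.nd (nat_lit 78) (nat_lit 0) (nat_lit 0) (XT.lf (nat_lit 0) (nat_lit 7022146184) (nat_lit 152) (nat_lit 13244158322) (nat_lit 228) (nat_lit 17585995811) (nat_lit 13) (nat_lit 5) (nat_lit 15) (nat_lit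 5) (nat_lit 16) (nat_lit 5) (nat_lit 301) (nat_lit 256) (nat_lit 163)) (XT.nd (nat_lit 78) (nat_lit 0) (nat_lit 0) (XT.lf (nat_lit 0) (nat_lit 19003479215) (nat_lit 152) (nat_lit 6230871792) (nat_lit 228) (nat_lit 14117773338) (nat_lit 13) (nat_lit 5) (nat_lit 15) (nat_lit 5) (nat_lit 16) (nat_lit 5) (nat_lit 302) (nat_lit 256) (nat_lit 162)) (XT.lf (nat_lit 0) (nat_lit 30461099555) (nat_lit 228) (nat_lit 9372295146) (nat_lit 76) (nat_lit 1093051702) (nat_lit 13) (nat_lit 5) (nat_lit 16) (nat_lit 5) (nat_lit 14) (nat_lit 4) (nat_lit 303) (nat_lit 256) (nat_lit 161))))))) (XT.nd (nat_lit 624) (nat_lit 228) (nat_lit 0) (XT.nd (nat_lit 312) (nat_lit 152) (nat_lit 0) (XT.nd (nat_lit 156) (nat_lit 76) (nat_lit 0) (XT.nd (nat_lit 78) (nat_lit 0) (nat_lit 0) (XT.lf (nat_lit 0) (nat_lit 2107175455) (nat_lit 76) (nat_lit 33970015551) (nat_lit 152) (nat_lit 6495914058) (nat_lit 12) (nat_lit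 5) (nat_lit 13) (nat_lit 5) (nat_lit 14) (nat_lit 4) (nat_lit 304) (nat_lit 256) (nat_lit 160)) (XT.lf (nat_lit 0) (nat_lit 14475187620) (nat_lit 76) (nat_lit 27650751189) (nat_lit 152) (nat_lit 2168585043) (nat_lit 12) (nat_lit 5) (nat_lit 13) (nat_lit 5) (nat_lit 14) (nat_lit 4) (nat_lit 305) (nat_lit 256) (nat_lit 159))) (XT.nd (nat_lit 78) (nat_lit 0) (nat_lit 0) (XT.lf (nat_lit 0) (nat_lit 2292421206) (nat_lit 152) (nat_lit 18688035633) (nat_lit 76) (nat_lit 25120054123) (nat_lit 11) (nat_lit 5) (nat_lit 13) (nat_lit 5) (nat_lit 12) (nat_lit 5) (nat_lit 306) (nat_lit 256) (nat_lit 158)) (XT.lf (nat_lit 0) (nat_lit 6897245903) (nat_lit 152) (nat_lit 7045758971) (nat_lit 76) (nat_lit 34052349774) (nat_lit 11) (nat_lit 5) (nat_lit 13) (nat_lit 5) (nat_lit 12) (nat_lit 5) (nat_lit 307) (nat_lit 256) (nat_lit 157)))) (XT.nd (nat_lit 156) (nat_lit 0) (nat_lit 0) (XT.nd (nat_lit 78)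 (nat_lit 0) (nat_lit 0) (XT.lf (nat_lit 0) (nat_lit 5339983982) (nat_lit 152) (nat_lit 6469649312) (nat_lit 228) (nat_lit 38171457429) (nat_lit 9) (nat_lit 5) (nat_lit 11) (nat_lit 5) (nat_lit 12) (nat_lit 5) (nat_lit 308) (nat_lit 256) (nat_lit 156)) (XT.lf (nat_lit 0) (nat_lit 17104460201) (nat_lit 228) (nat_lit 33503643850) (nat_lit 76) (nat_lit 1451184044) (nat_lit 9) (nat_lit 5) (nat_lit 12) (nat_lit 5) (nat_lit 10) (nat_lit 4) (nat_lit 309) (nat_lit 256) (nat_lit 155))) (XT.nd (nat_lit 78) (nat_lit 0) (nat_lit 0) (XT.lf (nat_lit 0) (nat_lit 22764408297) (nat_lit 228) (nat_lit 21924570071) (nat_lit 76) (nat_lit 9547412741) (nat_lit 9) (nat_lit 5) (nat_lit 12) (nat_lit 5) (nat_lit 10) (nat_lit 4) (nat_lit 310) (nat_lit 256) (nat_lit 154)) (XT.lf (nat_lit 0) (nat_lit 28701944290) (nat_lit 228) (nat_lit 9775306823) (nat_lit 76) (nat_lit 18045382695) (nat_lit 9) (nat_lit 5) (nat_lit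 12) (nat_lit 5) (nat_lit 10) (nat_lit 4) (nat_lit 311) (nat_lit 256) (nat_lit 153))))) (XT.nd (nat_lit 312) (nat_lit 152) (nat_lit 0) (XT.nd (nat_lit 156) (nat_lit 0) (nat_lit 0) (XT.nd (nat_lit 78) (nat_lit 0) (nat_lit 0) (XT.lf (nat_lit 0) (nat_lit 3071375921) (nat_lit 76) (nat_lit 31907782037) (nat_lit 152) (nat_lit 23941904032) (nat_lit 8) (nat_lit 5) (nat_lit 9) (nat_lit 5) (nat_lit 10) (nat_lit 4) (nat_lit 312) (nat_lit 256) (nat_lit 152)) (XT.lf (nat_lit 0) (nat_lit 16891557133) (nat_lit 76) (nat_lit 24839189930) (nat_lit 152) (nat_lit 19700651534) (nat_lit 8) (nat_lit 5) (nat_lit 9) (nat_lit 5) (nat_lit 10) (nat_lit 4) (nat_lit 313) (nat_lit 256) (nat_lit 151))) (XT.nd (nat_lit 78) (nat_lit 0) (nat_lit 0) (XT.lf (nat_lit 0) (nat_lit 31394926216) (nat_lit 76) (nat_lit 17420194361) (nat_lit 152) (nat_lit 15252383355) (nat_lit 8) (nat_lit 5) (nat_lit 9) (nat_lit 5) (nat_lit 10)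 (nat_lit 4) (nat_lit 314) (nat_lit 256) (nat_lit 150)) (XT.lf (nat_lit 0) (nat_lit 46616015001) (nat_lit 76) (nat_lit 9633131056) (nat_lit 152) (nat_lit 10586508380) (nat_lit 8) (nat_lit 5) (nat_lit 9) (nat_lit 5) (nat_lit 10) (nat_lit 4) (nat_lit 315) (nat_lit 256) (nat_lit 149)))) (XT.nd (nat_lit 156) (nat_lit 76) (nat_lit 0) (XT.nd (nat_lit 78) (nat_lit 76) (nat_lit 0) (XT.lf (nat_lit 0) (nat_lit 62591064175) (nat_lit 76) (nat_lit 1459459388) (nat_lit 152) (nat_lit 5691917383) (nat_lit 8) (nat_lit 5) (nat_lit 9) (nat_lit 5) (nat_lit 10) (nat_lit 4) (nat_lit 316) (nat_lit 256) (nat_lit 148)) (XT.lf (nat_lit 0) (nat_lit 6665495105) (nat_lit 76) (nat_lit 65787567311) (nat_lit 76) (nat_lit 330960235) (nat_lit 7) (nat_lit 4) (nat_lit 8) (nat_lit 5) (nat_lit 8) (nat_lit 4) (nat_lit 317) (nat_lit 256) (nat_lit 147))) (XT.nd (nat_lit 78) (nat_lit 0) (nat_lit 0) (XT.lf (nat_lit 0) (nat_lit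 5271330293) (nat_lit 152) (nat_lit 54665734439) (nat_lit 76) (nat_lit 16029349556) (nat_lit 6) (nat_lit 5) (nat_lit 8) (nat_lit 5) (nat_lit 7) (nat_lit 4) (nat_lit 318) (nat_lit 256) (nat_lit 146)) (XT.nd (nat_lit 78) (nat_lit 0) (nat_lit 0) (XT.lf (nat_lit 0) (nat_lit 11138644353) (nat_lit 152) (nat_lit 42652363918) (nat_lit 76) (nat_lit 25516853449) (nat_lit 6) (nat_lit 5) (nat_lit 8) (nat_lit 5) (nat_lit 7) (nat_lit 4) (nat_lit 319) (nat_lit 256) (nat_lit 145)) (XT.lf (nat_lit 0) (nat_lit 17295544532) (nat_lit 152) (nat_lit 30044645503) (nat_lit 76) (nat_lit 35476389099) (nat_lit 6) (nat_lit 5) (nat_lit 8) (nat_lit 5) (nat_lit 7) (nat_lit 4) (nat_lit 320) (nat_lit 256) (nat_lit 144))))))))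
noncomputable def xc164 : XT := (XT.nd (nat_lit 1248) (nat_lit 76) (nat_lit 0) (XT.nd (nat_lit 624) (nat_lit 152) (nat_lit 0) (XT.nd (nat_lit 312) (nat_lit 0) (nat_lit 0) (XT.nd (nat_lit 156) (nat_lit 76) (nat_lit 0) (XT.nd (nat_lit 78) (nat_lit 0) (nat_lit 0) (XT.lf (nat_lit 0) (nat_lit 23756690118) (nat_lit 152) (nat_lit 16812560817) (nat_lit 76) (nat_lit 45931669686) (nat_lit 6) (nat_lit 5) (nat_lit 8) (nat_lit 5) (nat_lit 7) (nat_lit 4) (nat_lit 321) (nat_lit 256) (nat_lit 143)) (XT.lf (nat_lit 0) (nat_lit 30537464790) (nat_lit 152) (nat_lit 2924604897) (nat_lit 76) (nat_lit 56907588735) (nat_lit 6) (nat_lit 5) (nat_lit 8) (nat_lit 5) (nat_lit 7) (nat_lit 4) (nat_lit 322) (nat_lit 256) (nat_lit 142))) (XT.nd (nat_lit 78) (nat_lit 0) (nat_lit 0) (XT.lf (nat_lit 0) (nat_lit 12037566111) (nat_lit 76) (nat_lit 25804387281) (nat_lit 152) (nat_lit 56580653416) (nat_lit 5) (nat_lit 5)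 (nat_lit 6) (nat_lit 5) (nat_lit 7) (nat_lit 4) (nat_lit 323) (nat_lit 256) (nat_lit 141)) (XT.lf (nat_lit 0) (nat_lit 27844009412) (nat_lit 76) (nat_lit 17713993267) (nat_lit 152) (nat_lit 53117890223) (nat_lit 5) (nat_lit 5) (nat_lit 6) (nat_lit 5) (nat_lit 7) (nat_lit 4) (nat_lit 324) (nat_lit 256) (nat_lit 140)))) (XT.nd (nat_lit 156) (nat_lit 0) (nat_lit 0) (XT.nd (nat_lit 78) (nat_lit 0) (nat_lit 0) (XT.lf (nat_lit 0) (nat_lit 44435658750) (nat_lit 76) (nat_lit 9221154402) (nat_lit 152) (nat_lit 49485188977) (nat_lit 5) (nat_lit 5) (nat_lit 6) (nat_lit 5) (nat_lit 7) (nat_lit 4) (nat_lit 325) (nat_lit 256) (nat_lit 139)) (XT.lf (nat_lit 0) (nat_lit 61852018051) (nat_lit 76) (nat_lit 305649642) (nat_lit 152) (nat_lit 45673900389) (nat_lit 5) (nat_lit 5) (nat_lit 6) (nat_lit 5) (nat_lit 7) (nat_lit 4) (nat_lit 326) (nat_lit 256) (nat_lit 138))) (XT.nd (nat_lit 78) (nat_lit 0) (nat_lit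 0) (XT.lf (nat_lit 0) (nat_lit 71222160817) (nat_lit 152) (nat_lit 32762555941) (nat_lit 0) (nat_lit 8763971916) (nat_lit 5) (nat_lit 5) (nat_lit 7) (nat_lit 4) (nat_lit 5) (nat_lit 4) (nat_lit 327) (nat_lit 256) (nat_lit 137)) (XT.lf (nat_lit 0) (nat_lit 80742234091) (nat_lit 152) (nat_lit 18894251519) (nat_lit 0) (nat_lit 18275067752) (nat_lit 5) (nat_lit 5) (nat_lit 7) (nat_lit 4) (nat_lit 5) (nat_lit 4) (nat_lit 328) (nat_lit 256) (nat_lit 136))))) (XT.nd (nat_lit 312) (nat_lit 76) (nat_lit 0) (XT.nd (nat_lit 156) (nat_lit 0) (nat_lit 0) (XT.nd (nat_lit 78) (nat_lit 76) (nat_lit 0) (XT.lf (nat_lit 0) (nat_lit 90735782311) (nat_lit 152) (nat_lit 4336844944) (nat_lit 0) (nat_lit 28260066031) (nat_lit 5) (nat_lit 5) (nat_lit 7) (nat_lit 4) (nat_lit 5) (nat_lit 4) (nat_lit 329) (nat_lit 256) (nat_lit 135)) (XT.lf (nat_lit 0) (nat_lit 11306193060) (nat_lit 76) (nat_lit 90096927937)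 (nat_lit 76) (nat_lit 27613068856) (nat_lit 4) (nat_lit 4) (nat_lit 5) (nat_lit 5) (nat_lit 5) (nat_lit 4) (nat_lit 330) (nat_lit 256) (nat_lit 134))) (XT.nd (nat_lit 78) (nat_lit 0) (nat_lit 0) (XT.lf (nat_lit 0) (nat_lit 27877906998) (nat_lit 76) (nat_lit 84797009467) (nat_lit 76) (nat_lit 22305395337) (nat_lit 4) (nat_lit 4) (nat_lit 5) (nat_lit 5) (nat_lit 5) (nat_lit 4) (nat_lit 331) (nat_lit 256) (nat_lit 133)) (XT.lf (nat_lit 0) (nat_lit 45274357650) (nat_lit 76) (nat_lit 79233699560) (nat_lit 76) (nat_lit 16734699670) (nat_lit 4) (nat_lit 4) (nat_lit 5) (nat_lit 5) (nat_lit 5) (nat_lit 4) (nat_lit 332) (nat_lit 256) (nat_lit 132)))) (XT.nd (nat_lit 156) (nat_lit 76) (nat_lit 0) (XT.nd (nat_lit 78) (nat_lit 0) (nat_lit 0) (XT.lf (nat_lit 0) (nat_lit 63536965138) (nat_lit 76) (nat_lit 73393752240) (nat_lit 76) (nat_lit 10887718292) (nat_lit 4) (nat_lit 4) (nat_lit 5) (nat_lit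 5) (nat_lit 5) (nat_lit 4) (nat_lit 333) (nat_lit 256) (nat_lit 131)) (XT.lf (nat_lit 0) (nat_lit 82709211859) (nat_lit 76) (nat_lit 67263262871) (nat_lit 76) (nat_lit 4750529821) (nat_lit 4) (nat_lit 4) (nat_lit 5) (nat_lit 5) (nat_lit 5) (nat_lit 4) (nat_lit 334) (nat_lit 256) (nat_lit 130))) (XT.nd (nat_lit 78) (nat_lit 0) (nat_lit 0) (XT.lf (nat_lit 0) (nat_lit 1637340235) (nat_lit 152) (nat_lit 59162565665) (nat_lit 76) (nat_lit 101171676637) (nat_lit 3) (nat_lit 5) (nat_lit 5) (nat_lit 5) (nat_lit 4) (nat_lit 4) (nat_lit 335) (nat_lit 256) (nat_lit 129)) (XT.lf (nat_lit 0) (nat_lit 8183074190) (nat_lit 152) (nat_lit 45749887341) (nat_lit 76) (nat_lit 115645831813) (nat_lit 3) (nat_lit 5) (nat_lit 5) (nat_lit 5) (nat_lit 4) (nat_lit 4) (nat_lit 336) (nat_lit 256) (nat_lit 128)))))) (XT.nd (nat_lit 624) (nat_lit 0) (nat_lit 0) (XT.nd (nat_lit 312) (nat_lit 0) (nat_lit 0) (XT.nd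 (nat_lit 156) (nat_lit 76) (nat_lit 0) (XT.nd (nat_lit 78) (nat_lit 0) (nat_lit 0) (XT.lf (nat_lit 0) (nat_lit 15054303746) (nat_lit 152) (nat_lit 31669653687) (nat_lit 76) (nat_lit 130842500398) (nat_lit 3) (nat_lit 5) (nat_lit 5) (nat_lit 5) (nat_lit 4) (nat_lit 4) (nat_lit 337) (nat_lit 256) (nat_lit 127)) (XT.lf (nat_lit 0) (nat_lit 22267388974) (nat_lit 152) (nat_lit 16888340338) (nat_lit 76) (nat_lit 146797864938) (nat_lit 3) (nat_lit 5) (nat_lit 5) (nat_lit 5) (nat_lit 4) (nat_lit 4) (nat_lit 338) (nat_lit 256) (nat_lit 126))) (XT.nd (nat_lit 78) (nat_lit 76) (nat_lit 0) (XT.lf (nat_lit 0) (nat_lit 29839503886) (nat_lit 152) (nat_lit 1370753691) (nat_lit 76) (nat_lit 163549914396) (nat_lit 3) (nat_lit 5) (nat_lit 5) (nat_lit 5) (nat_lit 4) (nat_lit 4) (nat_lit 339) (nat_lit 256) (nat_lit 125)) (XT.lf (nat_lit 0) (nat_lit 15413377218) (nat_lit 76) (nat_lit 22615946123) (nat_lit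 152) (nat_lit 165965803399) (nat_lit 2) (nat_lit 5) (nat_lit 3) (nat_lit 5) (nat_lit 4) (nat_lit 4) (nat_lit 340) (nat_lit 256) (nat_lit 124)))) (XT.nd (nat_lit 156) (nat_lit 0) (nat_lit 0) (XT.nd (nat_lit 78) (nat_lit 0) (nat_lit 0) (XT.lf (nat_lit 0) (nat_lit 33081687640) (nat_lit 76) (nat_lit 13568646115) (nat_lit 152) (nat_lit 167040413441) (nat_lit 2) (nat_lit 5) (nat_lit 3) (nat_lit 5) (nat_lit 4) (nat_lit 4) (nat_lit 341) (nat_lit 256) (nat_lit 123)) (XT.lf (nat_lit 0) (nat_lit 51630921674) (nat_lit 76) (nat_lit 4070030740) (nat_lit 152) (nat_lit 168170271187) (nat_lit 2) (nat_lit 5) (nat_lit 3) (nat_lit 5) (nat_lit 4) (nat_lit 4) (nat_lit 342) (nat_lit 256) (nat_lit 122))) (XT.nd (nat_lit 78) (nat_lit 0) (nat_lit 0) (XT.lf (nat_lit 0) (nat_lit 65294883222) (nat_lit 152) (nat_lit 163547705832) (nat_lit 0) (nat_lit 5713598386) (nat_lit 2) (nat_lit 5) (nat_lit 4) (nat_lit 4) (nat_lit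 2) (nat_lit 4) (nat_lit 343) (nat_lit 256) (nat_lit 121)) (XT.lf (nat_lit 0) (nat_lit 75433909333) (nat_lit 152) (nat_lit 154489515078) (nat_lit 0) (nat_lit 15848707671) (nat_lit 2) (nat_lit 5) (nat_lit 4) (nat_lit 4) (nat_lit 2) (nat_lit 4) (nat_lit 344) (nat_lit 256) (nat_lit 120))))) (XT.nd (nat_lit 312) (nat_lit 0) (nat_lit 0) (XT.nd (nat_lit 156) (nat_lit 0) (nat_lit 0) (XT.nd (nat_lit 78) (nat_lit 0) (nat_lit 0) (XT.lf (nat_lit 0) (nat_lit 86078626701) (nat_lit 152) (nat_lit 144980617958) (nat_lit 0) (nat_lit 26489694728) (nat_lit 2) (nat_lit 5) (nat_lit 4) (nat_lit 4) (nat_lit 2) (nat_lit 4) (nat_lit 345) (nat_lit 256) (nat_lit 119)) (XT.lf (nat_lit 0) (nat_lit 97254379890) (nat_lit 152) (nat_lit 134998374240) (nat_lit 0) (nat_lit 37661895241) (nat_lit 2) (nat_lit 5) (nat_lit 4) (nat_lit 4) (nat_lit 2) (nat_lit 4) (nat_lit 346) (nat_lit 256) (nat_lit 118))) (XT.nd (nat_lit 78)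 (nat_lit 0) (nat_lit 0) (XT.lf (nat_lit 0) (nat_lit 108987777837) (nat_lit 152) (nat_lit 124519016678) (nat_lit 0) (nat_lit 49391909686) (nat_lit 2) (nat_lit 5) (nat_lit 4) (nat_lit 4) (nat_lit 2) (nat_lit 4) (nat_lit 347) (nat_lit 256) (nat_lit 117)) (XT.lf (nat_lit 0) (nat_lit 121306757204) (nat_lit 152) (nat_lit 113517594421) (nat_lit 0) (nat_lit 61707666670) (nat_lit 2) (nat_lit 5) (nat_lit 4) (nat_lit 4) (nat_lit 2) (nat_lit 4) (nat_lit 348) (nat_lit 256) (nat_lit 116)))) (XT.nd (nat_lit 156) (nat_lit 0) (nat_lit 0) (XT.nd (nat_lit 78) (nat_lit 0) (nat_lit 0) (XT.lf (nat_lit 0) (nat_lit 134240648894) (nat_lit 152) (nat_lit 101967913605) (nat_lit 0) (nat_lit 74638489423) (nat_lit 2) (nat_lit 5) (nat_lit 4) (nat_lit 4) (nat_lit 2) (nat_lit 4) (nat_lit 349) (nat_lit 256) (nat_lit 115)) (XT.lf (nat_lit 0) (nat_lit 147820247886) (nat_lit 152) (nat_lit 89842474991) (nat_lit 0) (nat_lit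 88215165619) (nat_lit 2) (nat_lit 5) (nat_lit 4) (nat_lit 4) (nat_lit 2) (nat_lit 4) (nat_lit 350) (nat_lit 256) (nat_lit 114))) (XT.nd (nat_lit 78) (nat_lit 0) (nat_lit 0) (XT.lf (nat_lit 0) (nat_lit 162077886560) (nat_lit 152) (nat_lit 77112408488) (nat_lit 0) (nat_lit 102470020678) (nat_lit 2) (nat_lit 5) (nat_lit 4) (nat_lit 4) (nat_lit 2) (nat_lit 4) (nat_lit 351) (nat_lit 256) (nat_lit 113)) (XT.nd (nat_lit 78) (nat_lit 0) (nat_lit 0) (XT.lf (nat_lit 0) (nat_lit 177047511674) (nat_lit 152) (nat_lit 63747404411) (nat_lit 0) (nat_lit 117436994729) (nat_lit 2) (nat_lit 5) (nat_lit 4) (nat_lit 4) (nat_lit 2) (nat_lit 4) (nat_lit 352) (nat_lit 256) (nat_lit 112)) (XT.lf (nat_lit 0) (nat_lit 192764765193) (nat_lit 152) (nat_lit 49715641325) (nat_lit 0) (nat_lit 133151723427) (nat_lit 2) (nat_lit 5) (nat_lit 4) (nat_lit 4) (nat_lit 2) (nat_lit 4) (nat_lit 353) (nat_lit 256) (nat_lit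 111))))))))
noncomputable def xc165 : XT := (XT.nd (nat_lit 31122) (nat_lit 0) (nat_lit 1824) (XT.nd (nat_lit 30420) (nat_lit 0) (nat_lit 3648) (XT.nd (nat_lit 30108) (nat_lit 0) (nat_lit 4788) (XT.nd (nat_lit 29952) (nat_lit 0) (nat_lit 4712) (XT.nd (nat_lit 78) (nat_lit 0) (nat_lit 0) (XT.lf (nat_lit 0) (nat_lit 209267069149) (nat_lit 152) (nat_lit 34983710268) (nat_lit 0) (nat_lit 149651622792) (nat_lit 2) (nat_lit 5) (nat_lit 4) (nat_lit 4) (nat_lit 2) (nat_lit 4) (nat_lit 354) (nat_lit 256) (nat_lit 110)) (XT.lf (nat_lit 0) (nat_lit 226593714742) (nat_lit 152) (nat_lit 19516535214) (nat_lit 0) (nat_lit 166975978297) (nat_lit 2) (nat_lit 5) (nat_lit 4) (nat_lit 4) (nat_lit 2) (nat_lit 4) (nat_lit 355) (nat_lit 256) (nat_lit 109))) (XT.nd (nat_lit 78) (nat_lit 0) (nat_lit 0) (XT.lf (nat_lit 0) (nat_lit 472046074) (nat_lit 684) (nat_lit 2247393860) (nat_lit 684) (nat_lit 2247393860)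 (nat_lit 64) (nat_lit 3) (nat_lit 73) (nat_lit 3) (nat_lit 73) (nat_lit 5) (nat_lit 257) (nat_lit 257) (nat_lit 206)) (XT.lf (nat_lit 0) (nat_lit 1594288856) (nat_lit 684) (nat_lit 507337860) (nat_lit 684) (nat_lit 8045677335) (nat_lit 64) (nat_lit 3) (nat_lit 73) (nat_lit 3) (nat_lit 73) (nat_lit 5) (nat_lit 258) (nat_lit 257) (nat_lit 205)))) (XT.nd (nat_lit 156) (nat_lit 0) (nat_lit 0) (XT.nd (nat_lit 78) (nat_lit 0) (nat_lit 0) (XT.lf (nat_lit 0) (nat_lit 2319050526) (nat_lit 608) (nat_lit 6614774187) (nat_lit 684) (nat_lit 1435910941) (nat_lit 65) (nat_lit 5) (nat_lit 73) (nat_lit 5) (nat_lit 74) (nat_lit 5) (nat_lit 259) (nat_lit 257) (nat_lit 204)) (XT.lf (nat_lit 0) (nat_lit 3084987397) (nat_lit 608) (nat_lit 2412696328) (nat_lit 684) (nat_lit 5105564042) (nat_lit 65) (nat_lit 5) (nat_lit 73) (nat_lit 5) (nat_lit 74) (nat_lit 5) (nat_lit 260) (nat_lit 257) (nat_lit 203))) (XT.nd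 (nat_lit 78) (nat_lit 0) (nat_lit 76) (XT.lf (nat_lit 76) (nat_lit 2042739435) (nat_lit 0) (nat_lit 1841947284) (nat_lit 684) (nat_lit 6964171471) (nat_lit 66) (nat_lit 5) (nat_lit 65) (nat_lit 5) (nat_lit 74) (nat_lit 5) (nat_lit 261) (nat_lit 257) (nat_lit 202)) (XT.lf (nat_lit 0) (nat_lit 4762247716) (nat_lit 608) (nat_lit 4355752640) (nat_lit 684) (nat_lit 1987041599) (nat_lit 66) (nat_lit 5) (nat_lit 74) (nat_lit 5) (nat_lit 75) (nat_lit 5) (nat_lit 262) (nat_lit 257) (nat_lit 201))))) (XT.nd (nat_lit 312) (nat_lit 1216) (nat_lit 0) (XT.nd (nat_lit 156) (nat_lit 0) (nat_lit 76) (XT.nd (nat_lit 78) (nat_lit 0) (nat_lit 0) (XT.lf (nat_lit 76) (nat_lit 272894163) (nat_lit 0) (nat_lit 5412081995) (nat_lit 684) (nat_lit 5689172043) (nat_lit 67) (nat_lit 5) (nat_lit 66) (nat_lit 5) (nat_lit 75) (nat_lit 5) (nat_lit 263) (nat_lit 257) (nat_lit 200)) (XT.lf (nat_lit 76) (nat_lit 5261786481)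 (nat_lit 0) (nat_lit 1433883740) (nat_lit 684) (nat_lit 4959117379) (nat_lit 67) (nat_lit 5) (nat_lit 66) (nat_lit 5) (nat_lit 75) (nat_lit 5) (nat_lit 264) (nat_lit 257) (nat_lit 199))) (XT.nd (nat_lit 78) (nat_lit 0) (nat_lit 0) (XT.lf (nat_lit 0) (nat_lit 7769453354) (nat_lit 608) (nat_lit 1515330381) (nat_lit 684) (nat_lit 2664208755) (nat_lit 67) (nat_lit 5) (nat_lit 75) (nat_lit 5) (nat_lit 76) (nat_lit 5) (nat_lit 265) (nat_lit 257) (nat_lit 198)) (XT.lf (nat_lit 76) (nat_lit 3678386660) (nat_lit 0) (nat_lit 5270641813) (nat_lit 684) (nat_lit 3306427570) (nat_lit 68) (nat_lit 5) (nat_lit 67) (nat_lit 5) (nat_lit 76) (nat_lit 5) (nat_lit 266) (nat_lit 257) (nat_lit 197)))) (XT.nd (nat_lit 156) (nat_lit 760) (nat_lit 0) (XT.nd (nat_lit 78) (nat_lit 532) (nat_lit 0) (XT.lf (nat_lit 76) (nat_lit 9162691956) (nat_lit 0) (nat_lit 1022753978) (nat_lit 684) (nat_lit 2392049906) (nat_lit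 68) (nat_lit 5) (nat_lit 67) (nat_lit 5) (nat_lit 76) (nat_lit 5) (nat_lit 267) (nat_lit 257) (nat_lit 196)) (XT.lf (nat_lit 0) (nat_lit 1993482879) (nat_lit 608) (nat_lit 9548609799) (nat_lit 684) (nat_lit 1370763814) (nat_lit 60) (nat_lit 5) (nat_lit 68) (nat_lit 5) (nat_lit 69) (nat_lit 5) (nat_lit 268) (nat_lit 257) (nat_lit 195))) (XT.nd (nat_lit 78) (nat_lit 760) (nat_lit 0) (XT.lf (nat_lit 0) (nat_lit 7751549460) (nat_lit 608) (nat_lit 5263879795) (nat_lit 684) (nat_lit 247245698) (nat_lit 60) (nat_lit 5) (nat_lit 68) (nat_lit 5) (nat_lit 69) (nat_lit 5) (nat_lit 269) (nat_lit 257) (nat_lit 194)) (XT.nd (nat_lit 78) (nat_lit 0) (nat_lit 0) (XT.lf (nat_lit 0) (nat_lit 135549125) (nat_lit 684) (nat_lit 744394344) (nat_lit 760) (nat_lit 12750566314) (nat_lit 50) (nat_lit 5) (nat_lit 59) (nat_lit 5) (nat_lit 60) (nat_lit 5) (nat_lit 270) (nat_lit 257) (nat_lit 193)) (XT.lf (nat_lit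 0) (nat_lit 2188622304) (nat_lit 760) (nat_lit 7846995056) (nat_lit 76) (nat_lit 3974358959) (nat_lit 50) (nat_lit 5) (nat_lit 60) (nat_lit 5) (nat_lit 51) (nat_lit 5) (nat_lit 271) (nat_lit 257) (nat_lit 192))))))) (XT.nd (nat_lit 624) (nat_lit 988) (nat_lit 0) (XT.nd (nat_lit 312) (nat_lit 228) (nat_lit 0) (XT.nd (nat_lit 156) (nat_lit 304) (nat_lit 0) (XT.nd (nat_lit 78) (nat_lit 304) (nat_lit 0) (XT.lf (nat_lit 0) (nat_lit 3552183796) (nat_lit 760) (nat_lit 1950515861) (nat_lit 76) (nat_lit 8906353220) (nat_lit 50) (nat_lit 5) (nat_lit 60) (nat_lit 5) (nat_lit 51) (nat_lit 5) (nat_lit 272) (nat_lit 257) (nat_lit 191)) (XT.lf (nat_lit 0) (nat_lit 4359675072) (nat_lit 304) (nat_lit 670644113) (nat_lit 380) (nat_lit 9795548224) (nat_lit 46) (nat_lit 5) (nat_lit 50) (nat_lit 5) (nat_lit 51) (nat_lit 5) (nat_lit 273) (nat_lit 257) (nat_lit 190))) (XT.nd (nat_lit 78) (nat_lit 304) (nat_lit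 0) (XT.lf (nat_lit 0) (nat_lit 6663733019) (nat_lit 380) (nat_lit 4299535667) (nat_lit 76) (nat_lit 4296284384) (nat_lit 46) (nat_lit 5) (nat_lit 51) (nat_lit 5) (nat_lit 47) (nat_lit 5) (nat_lit 274) (nat_lit 257) (nat_lit 189)) (XT.lf (nat_lit 0) (nat_lit 2214900029) (nat_lit 304) (nat_lit 6189543744) (nat_lit 380) (nat_lit 7309292201) (nat_lit 42) (nat_lit 5) (nat_lit 46) (nat_lit 5) (nat_lit 47) (nat_lit 5) (nat_lit 275) (nat_lit 257) (nat_lit 188)))) (XT.nd (nat_lit 156) (nat_lit 228) (nat_lit 0) (XT.nd (nat_lit 78) (nat_lit 0) (nat_lit 0) (XT.lf (nat_lit 0) (nat_lit 9184207246) (nat_lit 304) (nat_lit 1101484605) (nat_lit 380) (nat_lit 5902350867) (nat_lit 42) (nat_lit 5) (nat_lit 46) (nat_lit 5) (nat_lit 47) (nat_lit 5) (nat_lit 276) (nat_lit 257) (nat_lit 187)) (XT.lf (nat_lit 0) (nat_lit 12308810605) (nat_lit 380) (nat_lit 270454000) (nat_lit 76) (nat_lit 4104495289) (nat_lit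 42) (nat_lit 5) (nat_lit 47) (nat_lit 5) (nat_lit 43) (nat_lit 5) (nat_lit 277) (nat_lit 257) (nat_lit 186))) (XT.nd (nat_lit 78) (nat_lit 0) (nat_lit 0) (XT.lf (nat_lit 0) (nat_lit 6985937347) (nat_lit 228) (nat_lit 7556746302) (nat_lit 304) (nat_lit 2656180799) (nat_lit 39) (nat_lit 5) (nat_lit 42) (nat_lit 5) (nat_lit 43) (nat_lit 5) (nat_lit 278) (nat_lit 257) (nat_lit 185)) (XT.lf (nat_lit 0) (nat_lit 14595651726) (nat_lit 228) (nat_lit 2280189898) (nat_lit 304) (nat_lit 864580600) (nat_lit 39) (nat_lit 5) (nat_lit 42) (nat_lit 5) (nat_lit 43) (nat_lit 5) (nat_lit 279) (nat_lit 257) (nat_lit 184))))) (XT.nd (nat_lit 312) (nat_lit 380) (nat_lit 0) (XT.nd (nat_lit 156) (nat_lit 228) (nat_lit 0) (XT.nd (nat_lit 78) (nat_lit 0) (nat_lit 0) (XT.lf (nat_lit 0) (nat_lit 1088219934) (nat_lit 380) (nat_lit 13975400386) (nat_lit 76) (nat_lit 3239506423) (nat_lit 34) (nat_lit 5) (nat_lit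 39) (nat_lit 5) (nat_lit 35) (nat_lit 5) (nat_lit 280) (nat_lit 257) (nat_lit 183)) (XT.lf (nat_lit 0) (nat_lit 3185064677) (nat_lit 380) (nat_lit 6679838145) (nat_lit 76) (nat_lit 9024649005) (nat_lit 34) (nat_lit 5) (nat_lit 39) (nat_lit 5) (nat_lit 35) (nat_lit 5) (nat_lit 281) (nat_lit 257) (nat_lit 182))) (XT.nd (nat_lit 78) (nat_lit 0) (nat_lit 0) (XT.lf (nat_lit 0) (nat_lit 994095418) (nat_lit 228) (nat_lit 4392889521) (nat_lit 304) (nat_lit 14118365369) (nat_lit 31) (nat_lit 5) (nat_lit 34) (nat_lit 5) (nat_lit 35) (nat_lit 5) (nat_lit 282) (nat_lit 257) (nat_lit 181)) (XT.lf (nat_lit 0) (nat_lit 7820214295) (nat_lit 304) (nat_lit 10904306783) (nat_lit 76) (nat_lit 1421417750) (nat_lit 31) (nat_lit 5) (nat_lit 35) (nat_lit 5) (nat_lit 32) (nat_lit 5) (nat_lit 283) (nat_lit 257) (nat_lit 180)))) (XT.nd (nat_lit 156) (nat_lit 152) (nat_lit 0) (XT.nd (nat_lit 78) (nat_lit 228)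 (nat_lit 0) (XT.lf (nat_lit 0) (nat_lit 10432941073) (nat_lit 304) (nat_lit 3006820702) (nat_lit 76) (nat_lit 7375961078) (nat_lit 31) (nat_lit 5) (nat_lit 35) (nat_lit 5) (nat_lit 32) (nat_lit 5) (nat_lit 284) (nat_lit 257) (nat_lit 179)) (XT.lf (nat_lit 0) (nat_lit 5442795659) (nat_lit 228) (nat_lit 7804982368) (nat_lit 304) (nat_lit 8267699478) (nat_lit 28) (nat_lit 5) (nat_lit 31) (nat_lit 5) (nat_lit 32) (nat_lit 5) (nat_lit 285) (nat_lit 257) (nat_lit 178))) (XT.nd (nat_lit 78) (nat_lit 152) (nat_lit 0) (XT.lf (nat_lit 0) (nat_lit 14402608735) (nat_lit 228) (nat_lit 1838549294) (nat_lit 304) (nat_lit 6007224296) (nat_lit 28) (nat_lit 5) (nat_lit 31) (nat_lit 5) (nat_lit 32) (nat_lit 5) (nat_lit 286) (nat_lit 257) (nat_lit 177)) (XT.nd (nat_lit 78) (nat_lit 0) (nat_lit 0) (XT.lf (nat_lit 0) (nat_lit 730244925) (nat_lit 152) (nat_lit 18721919944) (nat_lit 228) (nat_lit 3562419619)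 (nat_lit 26) (nat_lit 5) (nat_lit 28) (nat_lit 5) (nat_lit 29) (nat_lit 5) (nat_lit 287) (nat_lit 257) (nat_lit 176)) (XT.lf (nat_lit 0) (nat_lit 9960079270) (nat_lit 152) (nat_lit 13013964047) (nat_lit 228) (nat_lit 837584993) (nat_lit 26) (nat_lit 5) (nat_lit 28) (nat_lit 5) (nat_lit 29) (nat_lit 5) (nat_lit 288) (nat_lit 257) (nat_lit 175))))))))
noncomputable def xc166 : XT := (XT.nd (nat_lit 1326) (nat_lit 456) (nat_lit 0) (XT.nd (nat_lit 624) (nat_lit 456) (nat_lit 0) (XT.nd (nat_lit 312) (nat_lit 304) (nat_lit 0) (XT.nd (nat_lit 156) (nat_lit 0) (nat_lit 0) (XT.nd (nat_lit 78) (nat_lit 228) (nat_lit 0) (XT.lf (nat_lit 0) (nat_lit 1946869006) (nat_lit 228) (nat_lit 5044609408) (nat_lit 76) (nat_lit 17656102378) (nat_lit 25) (nat_lit 5) (nat_lit 28) (nat_lit 5) (nat_lit 26) (nat_lit 5) (nat_lit 289) (nat_lit 257) (nat_lit 174)) (XT.lf (nat_lit 0) (nat_lit 4311810162) (nat_lit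 228) (nat_lit 586613307) (nat_lit 304) (nat_lit 20623460709) (nat_lit 22) (nat_lit 5) (nat_lit 25) (nat_lit 5) (nat_lit 26) (nat_lit 5) (nat_lit 290) (nat_lit 257) (nat_lit 173))) (XT.nd (nat_lit 78) (nat_lit 0) (nat_lit 0) (XT.lf (nat_lit 0) (nat_lit 8169179050) (nat_lit 304) (nat_lit 12237106921) (nat_lit 76) (nat_lit 6025074766) (nat_lit 22) (nat_lit 5) (nat_lit 26) (nat_lit 5) (nat_lit 23) (nat_lit 5) (nat_lit 291) (nat_lit 257) (nat_lit 172)) (XT.lf (nat_lit 0) (nat_lit 11602566015) (nat_lit 304) (nat_lit 2839797928) (nat_lit 76) (nat_lit 12944029807) (nat_lit 22) (nat_lit 5) (nat_lit 26) (nat_lit 5) (nat_lit 23) (nat_lit 5) (nat_lit 292) (nat_lit 257) (nat_lit 171)))) (XT.nd (nat_lit 156) (nat_lit 152) (nat_lit 0) (XT.nd (nat_lit 78) (nat_lit 0) (nat_lit 0) (XT.lf (nat_lit 0) (nat_lit 7245280404) (nat_lit 152) (nat_lit 8065439143) (nat_lit 228) (nat_lit 13073339536) (nat_lit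 20) (nat_lit 5) (nat_lit 22) (nat_lit 5) (nat_lit 23) (nat_lit 5) (nat_lit 293) (nat_lit 257) (nat_lit 170)) (XT.lf (nat_lit 0) (nat_lit 17919439345) (nat_lit 152) (nat_lit 1323175181) (nat_lit 228) (nat_lit 10187110306) (nat_lit 20) (nat_lit 5) (nat_lit 22) (nat_lit 5) (nat_lit 23) (nat_lit 5) (nat_lit 294) (nat_lit 257) (nat_lit 169))) (XT.nd (nat_lit 78) (nat_lit 152) (nat_lit 0) (XT.lf (nat_lit 0) (nat_lit 23451620305) (nat_lit 228) (nat_lit 1503784716) (nat_lit 76) (nat_lit 5568275273) (nat_lit 20) (nat_lit 5) (nat_lit 23) (nat_lit 5) (nat_lit 21) (nat_lit 5) (nat_lit 295) (nat_lit 257) (nat_lit 168)) (XT.lf (nat_lit 0) (nat_lit 9264985537) (nat_lit 152) (nat_lit 18763525673) (nat_lit 228) (nat_lit 3635981268) (nat_lit 18) (nat_lit 5) (nat_lit 20) (nat_lit 5) (nat_lit 21) (nat_lit 5) (nat_lit 296) (nat_lit 257) (nat_lit 167))))) (XT.nd (nat_lit 312) (nat_lit 228) (nat_lit 0) (XT.nd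 (nat_lit 156) (nat_lit 152) (nat_lit 0) (XT.nd (nat_lit 78) (nat_lit 76) (nat_lit 0) (XT.lf (nat_lit 0) (nat_lit 20611708847) (nat_lit 152) (nat_lit 12239322246) (nat_lit 228) (nat_lit 10504190) (nat_lit 18) (nat_lit 5) (nat_lit 20) (nat_lit 5) (nat_lit 21) (nat_lit 5) (nat_lit 297) (nat_lit 257) (nat_lit 166)) (XT.lf (nat_lit 0) (nat_lit 3666311205) (nat_lit 228) (nat_lit 1664326284) (nat_lit 76) (nat_lit 28785277346) (nat_lit 17) (nat_lit 5) (nat_lit 20) (nat_lit 5) (nat_lit 18) (nat_lit 5) (nat_lit 298) (nat_lit 257) (nat_lit 165))) (XT.nd (nat_lit 78) (nat_lit 0) (nat_lit 0) (XT.lf (nat_lit 0) (nat_lit 7703287848) (nat_lit 228) (nat_lit 25707739243) (nat_lit 76) (nat_lit 2013169238) (nat_lit 15) (nat_lit 5) (nat_lit 18) (nat_lit 5) (nat_lit 16) (nat_lit 5) (nat_lit 299) (nat_lit 257) (nat_lit 164)) (XT.lf (nat_lit 0) (nat_lit 12050260643) (nat_lit 228) (nat_lit 15172241045) (nat_lit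 76) (nat_lit 9570006894) (nat_lit 15) (nat_lit 5) (nat_lit 18) (nat_lit 5) (nat_lit 16) (nat_lit 5) (nat_lit 300) (nat_lit 257) (nat_lit 163)))) (XT.nd (nat_lit 156) (nat_lit 76) (nat_lit 0) (XT.nd (nat_lit 78) (nat_lit 152) (nat_lit 0) (XT.lf (nat_lit 0) (nat_lit 16607069297) (nat_lit 228) (nat_lit 4121368092) (nat_lit 76) (nat_lit 17501197600) (nat_lit 15) (nat_lit 5) (nat_lit 18) (nat_lit 5) (nat_lit 16) (nat_lit 5) (nat_lit 301) (nat_lit 257) (nat_lit 162)) (XT.lf (nat_lit 0) (nat_lit 7718222539) (nat_lit 152) (nat_lit 13786843899) (nat_lit 228) (nat_lit 18227905689) (nat_lit 13) (nat_lit 5) (nat_lit 15) (nat_lit 5) (nat_lit 16) (nat_lit 5) (nat_lit 302) (nat_lit 257) (nat_lit 161))) (XT.nd (nat_lit 78) (nat_lit 76) (nat_lit 0) (XT.lf (nat_lit 0) (nat_lit 20282195125) (nat_lit 152) (nat_lit 6428584583) (nat_lit 228) (nat_lit 14597576374) (nat_lit 13) (nat_lit 5) (nat_lit 15) (nat_lit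 5) (nat_lit 16) (nat_lit 5) (nat_lit 303) (nat_lit 257) (nat_lit 160)) (XT.nd (nat_lit 78) (nat_lit 76) (nat_lit 0) (XT.lf (nat_lit 0) (nat_lit 32190333931) (nat_lit 228) (nat_lit 9518872559) (nat_lit 76) (nat_lit 1252644765) (nat_lit 13) (nat_lit 5) (nat_lit 16) (nat_lit 5) (nat_lit 14) (nat_lit 4) (nat_lit 304) (nat_lit 257) (nat_lit 159)) (XT.lf (nat_lit 0) (nat_lit 2529377421) (nat_lit 76) (nat_lit 35552981276) (nat_lit 152) (nat_lit 6608756690) (nat_lit 12) (nat_lit 5) (nat_lit 13) (nat_lit 5) (nat_lit 14) (nat_lit 4) (nat_lit 305) (nat_lit 257) (nat_lit 158))))))) (XT.nd (nat_lit 624) (nat_lit 152) (nat_lit 0) (XT.nd (nat_lit 312) (nat_lit 76) (nat_lit 0) (XT.nd (nat_lit 156) (nat_lit 152) (nat_lit 0) (XT.nd (nat_lit 78) (nat_lit 76) (nat_lit 0) (XT.lf (nat_lit 0) (nat_lit 15500702423) (nat_lit 76) (nat_lit 28923255365) (nat_lit 152) (nat_lit 2075154228) (nat_lit 12) (nat_lit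 5) (nat_lit 13) (nat_lit 5) (nat_lit 14) (nat_lit 4) (nat_lit 306) (nat_lit 257) (nat_lit 157)) (XT.lf (nat_lit 0) (nat_lit 2593136824) (nat_lit 152) (nat_lit 19328397558) (nat_lit 76) (nat_lit 26474196788) (nat_lit 11) (nat_lit 5) (nat_lit 13) (nat_lit 5) (nat_lit 12) (nat_lit 5) (nat_lit 307) (nat_lit 257) (nat_lit 156))) (XT.nd (nat_lit 78) (nat_lit 152) (nat_lit 0) (XT.lf (nat_lit 0) (nat_lit 7419341110) (nat_lit 152) (nat_lit 7118008961) (nat_lit 76) (nat_lit 35848433890) (nat_lit 11) (nat_lit 5) (nat_lit 13) (nat_lit 5) (nat_lit 12) (nat_lit 5) (nat_lit 308) (nat_lit 257) (nat_lit 155)) (XT.lf (nat_lit 0) (nat_lit 5882504399) (nat_lit 152) (nat_lit 6690705468) (nat_lit 228) (nat_lit 39897826577) (nat_lit 9) (nat_lit 5) (nat_lit 11) (nat_lit 5) (nat_lit 12) (nat_lit 5) (nat_lit 309) (nat_lit 257) (nat_lit 154)))) (XT.nd (nat_lit 156) (nat_lit 76) (nat_lit 0) (XT.nd (nat_lit 78)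 (nat_lit 0) (nat_lit 0) (XT.lf (nat_lit 0) (nat_lit 18126058515) (nat_lit 228) (nat_lit 34909272832) (nat_lit 76) (nat_lit 1618169940) (nat_lit 9) (nat_lit 5) (nat_lit 12) (nat_lit 5) (nat_lit 10) (nat_lit 4) (nat_lit 310) (nat_lit 257) (nat_lit 153)) (XT.lf (nat_lit 0) (nat_lit 24061081382) (nat_lit 228) (nat_lit 22764081231) (nat_lit 76) (nat_lit 10114713563) (nat_lit 9) (nat_lit 5) (nat_lit 12) (nat_lit 5) (nat_lit 10) (nat_lit 4) (nat_lit 311) (nat_lit 257) (nat_lit 152))) (XT.nd (nat_lit 78) (nat_lit 76) (nat_lit 0) (XT.lf (nat_lit 0) (nat_lit 30287948810) (nat_lit 228) (nat_lit 10019579455) (nat_lit 76) (nat_lit 19033299625) (nat_lit 9) (nat_lit 5) (nat_lit 12) (nat_lit 5) (nat_lit 10) (nat_lit 4) (nat_lit 312) (nat_lit 257) (nat_lit 151)) (XT.lf (nat_lit 0) (nat_lit 3465493995) (nat_lit 76) (nat_lit 33410098753) (nat_lit 152) (nat_lit 24983774932) (nat_lit 8) (nat_lit 5) (nat_lit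 9) (nat_lit 5) (nat_lit 10) (nat_lit 4) (nat_lit 313) (nat_lit 257) (nat_lit 150))))) (XT.nd (nat_lit 312) (nat_lit 152) (nat_lit 0) (XT.nd (nat_lit 156) (nat_lit 0) (nat_lit 0) (XT.nd (nat_lit 78) (nat_lit 0) (nat_lit 0) (XT.lf (nat_lit 0) (nat_lit 17965229540) (nat_lit 76) (nat_lit 25992509058) (nat_lit 152) (nat_lit 20537851443) (nat_lit 8) (nat_lit 5) (nat_lit 9) (nat_lit 5) (nat_lit 10) (nat_lit 4) (nat_lit 314) (nat_lit 257) (nat_lit 149)) (XT.lf (nat_lit 0) (nat_lit 33182857813) (nat_lit 76) (nat_lit 18206784681) (nat_lit 152) (nat_lit 15874209505) (nat_lit 8) (nat_lit 5) (nat_lit 9) (nat_lit 5) (nat_lit 10) (nat_lit 4) (nat_lit 315) (nat_lit 257) (nat_lit 148))) (XT.nd (nat_lit 78) (nat_lit 0) (nat_lit 0) (XT.lf (nat_lit 0) (nat_lit 49154611262) (nat_lit 76) (nat_lit 10034388182) (nat_lit 152) (nat_lit 10981745211) (nat_lit 8) (nat_lit 5) (nat_lit 9) (nat_lit 5) (nat_lit 10)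 (nat_lit 4) (nat_lit 316) (nat_lit 257) (nat_lit 147)) (XT.lf (nat_lit 0) (nat_lit 65918517870) (nat_lit 76) (nat_lit 1455861475) (nat_lit 152) (nat_lit 5848809836) (nat_lit 8) (nat_lit 5) (nat_lit 9) (nat_lit 5) (nat_lit 10) (nat_lit 4) (nat_lit 317) (nat_lit 257) (nat_lit 146)))) (XT.nd (nat_lit 156) (nat_lit 0) (nat_lit 0) (XT.nd (nat_lit 78) (nat_lit 76) (nat_lit 0) (XT.lf (nat_lit 0) (nat_lit 7198573209) (nat_lit 76) (nat_lit 68996952379) (nat_lit 76) (nat_lit 221414994) (nat_lit 7) (nat_lit 4) (nat_lit 8) (nat_lit 5) (nat_lit 8) (nat_lit 4) (nat_lit 318) (nat_lit 257) (nat_lit 145)) (XT.lf (nat_lit 0) (nat_lit 5651142028) (nat_lit 152) (nat_lit 57204623180) (nat_lit 76) (nat_lit 16902892048) (nat_lit 6) (nat_lit 5) (nat_lit 8) (nat_lit 5) (nat_lit 7) (nat_lit 4) (nat_lit 319) (nat_lit 257) (nat_lit 144))) (XT.nd (nat_lit 78) (nat_lit 0) (nat_lit 0) (XT.lf (nat_lit 0) (nat_lit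 11806286304) (nat_lit 152) (nat_lit 44599841179) (nat_lit 76) (nat_lit 26861338993) (nat_lit 6) (nat_lit 5) (nat_lit 8) (nat_lit 5) (nat_lit 7) (nat_lit 4) (nat_lit 320) (nat_lit 257) (nat_lit 143)) (XT.nd (nat_lit 78) (nat_lit 0) (nat_lit 0) (XT.lf (nat_lit 0) (nat_lit 18265759600) (nat_lit 152) (nat_lit 31370553078) (nat_lit 76) (nat_lit 37315582717) (nat_lit 6) (nat_lit 5) (nat_lit 8) (nat_lit 5) (nat_lit 7) (nat_lit 4) (nat_lit 321) (nat_lit 257) (nat_lit 142)) (XT.lf (nat_lit 0) (nat_lit 25044941616) (nat_lit 152) (nat_lit 17485260573) (nat_lit 76) (nat_lit 48290514278) (nat_lit 6) (nat_lit 5) (nat_lit 8) (nat_lit 5) (nat_lit 7) (nat_lit 4) (nat_lit 322) (nat_lit 257) (nat_lit 141))))))))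
noncomputable def xc167 : XT := (XT.nd (nat_lit 1326) (nat_lit 76) (nat_lit 0) (XT.nd (nat_lit 624) (nat_lit 152) (nat_lit 0) (XT.nd (nat_lit 312) (nat_lit 0) (nat_lit 0) (XT.nd (nat_lit 156) (nat_lit 0) (nat_lit 0) (XT.nd (nat_lit 78) (nat_lit 76) (nat_lit 0) (XT.lf (nat_lit 0) (nat_lit 32159973260) (nat_lit 152) (nat_lit 2910903441) (nat_lit 76) (nat_lit 59812264464) (nat_lit 6) (nat_lit 5) (nat_lit 8) (nat_lit 5) (nat_lit 7) (nat_lit 4) (nat_lit 323) (nat_lit 257) (nat_lit 140)) (XT.lf (nat_lit 0) (nat_lit 12796796573) (nat_lit 76) (nat_lit 27030792368) (nat_lit 152) (nat_lit 59311263299) (nat_lit 5) (nat_lit 5) (nat_lit 6) (nat_lit 5) (nat_lit 7) (nat_lit 4) (nat_lit 324) (nat_lit 257) (nat_lit 139))) (XT.nd (nat_lit 78) (nat_lit 0) (nat_lit 0) (XT.lf (nat_lit 0) (nat_lit 29386069080) (nat_lit 76) (nat_lit 18538917428) (nat_lit 152) (nat_lit 55680048745) (nat_lit 5) (nat_lit 5)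 (nat_lit 6) (nat_lit 5) (nat_lit 7) (nat_lit 4) (nat_lit 325) (nat_lit 257) (nat_lit 138)) (XT.lf (nat_lit 0) (nat_lit 46800164732) (nat_lit 76) (nat_lit 9624330692) (nat_lit 152) (nat_lit 51870176055) (nat_lit 5) (nat_lit 5) (nat_lit 6) (nat_lit 5) (nat_lit 7) (nat_lit 4) (nat_lit 326) (nat_lit 257) (nat_lit 137)))) (XT.nd (nat_lit 156) (nat_lit 0) (nat_lit 0) (XT.nd (nat_lit 78) (nat_lit 0) (nat_lit 0) (XT.lf (nat_lit 0) (nat_lit 65080545663) (nat_lit 76) (nat_lit 265806952) (nat_lit 152) (nat_lit 47872574103) (nat_lit 5) (nat_lit 5) (nat_lit 6) (nat_lit 5) (nat_lit 7) (nat_lit 4) (nat_lit 327) (nat_lit 257) (nat_lit 136)) (XT.lf (nat_lit 0) (nat_lit 74861042377) (nat_lit 152) (nat_lit 34268030577) (nat_lit 0) (nat_lit 9252990342) (nat_lit 5) (nat_lit 5) (nat_lit 7) (nat_lit 4) (nat_lit 5) (nat_lit 4) (nat_lit 328) (nat_lit 257) (nat_lit 135))) (XT.nd (nat_lit 78) (nat_lit 0) (nat_lit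 0) (XT.lf (nat_lit 0) (nat_lit 84853415815) (nat_lit 152) (nat_lit 19712627751) (nat_lit 0) (nat_lit 19237220978) (nat_lit 5) (nat_lit 5) (nat_lit 7) (nat_lit 4) (nat_lit 5) (nat_lit 4) (nat_lit 329) (nat_lit 257) (nat_lit 134)) (XT.lf (nat_lit 0) (nat_lit 95343114302) (nat_lit 152) (nat_lit 4433366864) (nat_lit 0) (nat_lit 29719164417) (nat_lit 5) (nat_lit 5) (nat_lit 7) (nat_lit 4) (nat_lit 5) (nat_lit 4) (nat_lit 330) (nat_lit 257) (nat_lit 133))))) (XT.nd (nat_lit 312) (nat_lit 76) (nat_lit 0) (XT.nd (nat_lit 156) (nat_lit 0) (nat_lit 0) (XT.nd (nat_lit 78) (nat_lit 0) (nat_lit 0) (XT.lf (nat_lit 0) (nat_lit 11989882390) (nat_lit 76) (nat_lit 94552426586) (nat_lit 76) (nat_lit 28921090940) (nat_lit 4) (nat_lit 4) (nat_lit 5) (nat_lit 5) (nat_lit 5) (nat_lit 4) (nat_lit 331) (nat_lit 257) (nat_lit 132)) (XT.lf (nat_lit 0) (nat_lit 29384544897) (nat_lit 76) (nat_lit 88989862085)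 (nat_lit 76) (nat_lit 23351492382) (nat_lit 4) (nat_lit 4) (nat_lit 5) (nat_lit 5) (nat_lit 5) (nat_lit 4) (nat_lit 332) (nat_lit 257) (nat_lit 131))) (XT.nd (nat_lit 78) (nat_lit 0) (nat_lit 0) (XT.lf (nat_lit 0) (nat_lit 47645449390) (nat_lit 76) (nat_lit 83150624676) (nat_lit 76) (nat_lit 17505555870) (nat_lit 4) (nat_lit 4) (nat_lit 5) (nat_lit 5) (nat_lit 5) (nat_lit 4) (nat_lit 333) (nat_lit 257) (nat_lit 130)) (XT.lf (nat_lit 0) (nat_lit 66816074211) (nat_lit 76) (nat_lit 77020811412) (nat_lit 76) (nat_lit 11369362509) (nat_lit 4) (nat_lit 4) (nat_lit 5) (nat_lit 5) (nat_lit 5) (nat_lit 4) (nat_lit 334) (nat_lit 257) (nat_lit 129)))) (XT.nd (nat_lit 156) (nat_lit 0) (nat_lit 0) (XT.nd (nat_lit 78) (nat_lit 76) (nat_lit 0) (XT.lf (nat_lit 0) (nat_lit 86942063706) (nat_lit 76) (nat_lit 70585827501) (nat_lit 76) (nat_lit 4928302314) (nat_lit 4) (nat_lit 4) (nat_lit 5) (nat_lit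 5) (nat_lit 5) (nat_lit 4) (nat_lit 335) (nat_lit 257) (nat_lit 128)) (XT.lf (nat_lit 0) (nat_lit 1774294386) (nat_lit 152) (nat_lit 62026008630) (nat_lit 76) (nat_lit 106266993976) (nat_lit 3) (nat_lit 5) (nat_lit 5) (nat_lit 5) (nat_lit 4) (nat_lit 4) (nat_lit 336) (nat_lit 257) (nat_lit 127))) (XT.nd (nat_lit 78) (nat_lit 0) (nat_lit 0) (XT.lf (nat_lit 0) (nat_lit 8644691842) (nat_lit 152) (nat_lit 47947205214) (nat_lit 76) (nat_lit 121463107696) (nat_lit 3) (nat_lit 5) (nat_lit 5) (nat_lit 5) (nat_lit 4) (nat_lit 4) (nat_lit 337) (nat_lit 257) (nat_lit 126)) (XT.nd (nat_lit 78) (nat_lit 0) (nat_lit 0) (XT.lf (nat_lit 0) (nat_lit 15856984593) (nat_lit 152) (nat_lit 33167253996) (nat_lit 76) (nat_lit 137417943792) (nat_lit 3) (nat_lit 5) (nat_lit 5) (nat_lit 5) (nat_lit 4) (nat_lit 4) (nat_lit 338) (nat_lit 257) (nat_lit 125)) (XT.lf (nat_lit 0) (nat_lit 23428344765) (nat_lit 152)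 (nat_lit 17650964617) (nat_lit 76) (nat_lit 154169489970) (nat_lit 3) (nat_lit 5) (nat_lit 5) (nat_lit 5) (nat_lit 4) (nat_lit 4) (nat_lit 339) (nat_lit 257) (nat_lit 124))))))) (XT.nd (nat_lit 624) (nat_lit 0) (nat_lit 0) (XT.nd (nat_lit 312) (nat_lit 0) (nat_lit 0) (XT.nd (nat_lit 156) (nat_lit 0) (nat_lit 0) (XT.nd (nat_lit 78) (nat_lit 76) (nat_lit 0) (XT.lf (nat_lit 0) (nat_lit 31376799406) (nat_lit 152) (nat_lit 1361393530) (nat_lit 76) (nat_lit 171757630863) (nat_lit 3) (nat_lit 5) (nat_lit 5) (nat_lit 5) (nat_lit 4) (nat_lit 4) (nat_lit 340) (nat_lit 257) (nat_lit 123)) (XT.lf (nat_lit 0) (nat_lit 16260687508) (nat_lit 76) (nat_lit 23714460803) (nat_lit 152) (nat_lit 174217430392) (nat_lit 2) (nat_lit 5) (nat_lit 3) (nat_lit 5) (nat_lit 4) (nat_lit 4) (nat_lit 341) (nat_lit 257) (nat_lit 122))) (XT.nd (nat_lit 78) (nat_lit 0) (nat_lit 0) (XT.lf (nat_lit 0) (nat_lit 34808763860)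 (nat_lit 76) (nat_lit 14216333062) (nat_lit 152) (nat_lit 175347992992) (nat_lit 2) (nat_lit 5) (nat_lit 3) (nat_lit 5) (nat_lit 4) (nat_lit 4) (nat_lit 342) (nat_lit 257) (nat_lit 121)) (XT.lf (nat_lit 0) (nat_lit 54281983793) (nat_lit 76) (nat_lit 4244250983) (nat_lit 152) (nat_lit 176536459868) (nat_lit 2) (nat_lit 5) (nat_lit 3) (nat_lit 5) (nat_lit 4) (nat_lit 4) (nat_lit 343) (nat_lit 257) (nat_lit 120)))) (XT.nd (nat_lit 156) (nat_lit 0) (nat_lit 0) (XT.nd (nat_lit 78) (nat_lit 0) (nat_lit 0) (XT.lf (nat_lit 0) (nat_lit 68598381578) (nat_lit 152) (nat_lit 171657330163) (nat_lit 0) (nat_lit 6026272696) (nat_lit 2) (nat_lit 5) (nat_lit 4) (nat_lit 4) (nat_lit 2) (nat_lit 4) (nat_lit 344) (nat_lit 257) (nat_lit 119)) (XT.lf (nat_lit 0) (nat_lit 79242513557) (nat_lit 152) (nat_lit 162149456584) (nat_lit 0) (nat_lit 16666851998) (nat_lit 2) (nat_lit 5) (nat_lit 4) (nat_lit 4) (nat_lit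 2) (nat_lit 4) (nat_lit 345) (nat_lit 257) (nat_lit 118))) (XT.nd (nat_lit 78) (nat_lit 0) (nat_lit 0) (XT.lf (nat_lit 0) (nat_lit 90417709233) (nat_lit 152) (nat_lit 152168187667) (nat_lit 0) (nat_lit 27838664172) (nat_lit 2) (nat_lit 5) (nat_lit 4) (nat_lit 4) (nat_lit 2) (nat_lit 4) (nat_lit 346) (nat_lit 257) (nat_lit 117)) (XT.lf (nat_lit 0) (nat_lit 102150576216) (nat_lit 152) (nat_lit 141689758487) (nat_lit 0) (nat_lit 39568308772) (nat_lit 2) (nat_lit 5) (nat_lit 4) (nat_lit 4) (nat_lit 2) (nat_lit 4) (nat_lit 347) (nat_lit 257) (nat_lit 116))))) (XT.nd (nat_lit 312) (nat_lit 0) (nat_lit 0) (XT.nd (nat_lit 156) (nat_lit 0) (nat_lit 0) (XT.nd (nat_lit 78) (nat_lit 0) (nat_lit 0) (XT.lf (nat_lit 0) (nat_lit 114469049902) (nat_lit 152) (nat_lit 130689220402) (nat_lit 0) (nat_lit 51883713521) (nat_lit 2) (nat_lit 5) (nat_lit 4) (nat_lit 4) (nat_lit 2) (nat_lit 4) (nat_lit 348)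 (nat_lit 257) (nat_lit 115)) (XT.lf (nat_lit 0) (nat_lit 127402459990) (nat_lit 152) (nat_lit 119140381656) (nat_lit 0) (nat_lit 64814200814) (nat_lit 2) (nat_lit 5) (nat_lit 4) (nat_lit 4) (nat_lit 2) (nat_lit 4) (nat_lit 349) (nat_lit 257) (nat_lit 114))) (XT.nd (nat_lit 78) (nat_lit 0) (nat_lit 0) (XT.lf (nat_lit 0) (nat_lit 140981600315) (nat_lit 152) (nat_lit 107015745014) (nat_lit 0) (nat_lit 78390557524) (nat_lit 2) (nat_lit 5) (nat_lit 4) (nat_lit 4) (nat_lit 2) (nat_lit 4) (nat_lit 350) (nat_lit 257) (nat_lit 113)) (XT.lf (nat_lit 0) (nat_lit 155238802163) (nat_lit 152) (nat_lit 94286442292) (nat_lit 0) (nat_lit 92645108309) (nat_lit 2) (nat_lit 5) (nat_lit 4) (nat_lit 4) (nat_lit 2) (nat_lit 4) (nat_lit 351) (nat_lit 257) (nat_lit 112)))) (XT.nd (nat_lit 156) (nat_lit 0) (nat_lit 0) (XT.nd (nat_lit 78) (nat_lit 0) (nat_lit 0) (XT.lf (nat_lit 0) (nat_lit 170208011253) (nat_lit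 152) (nat_lit 80922165627) (nat_lit 0) (nat_lit 107611792577) (nat_lit 2) (nat_lit 5) (nat_lit 4) (nat_lit 4) (nat_lit 2) (nat_lit 4) (nat_lit 352) (nat_lit 257) (nat_lit 111)) (XT.lf (nat_lit 0) (nat_lit 185924868558) (nat_lit 152) (nat_lit 66891095313) (nat_lit 0) (nat_lit 123326245290) (nat_lit 2) (nat_lit 5) (nat_lit 4) (nat_lit 4) (nat_lit 2) (nat_lit 4) (nat_lit 353) (nat_lit 257) (nat_lit 110))) (XT.nd (nat_lit 78) (nat_lit 0) (nat_lit 0) (XT.lf (nat_lit 0) (nat_lit 202426795167) (nat_lit 152) (nat_lit 52159824039) (nat_lit 0) (nat_lit 139825881812) (nat_lit 2) (nat_lit 5) (nat_lit 4) (nat_lit 4) (nat_lit 2) (nat_lit 4) (nat_lit 354) (nat_lit 257) (nat_lit 109)) (XT.nd (nat_lit 29952) (nat_lit 0) (nat_lit 4712) (XT.lf (nat_lit 0) (nat_lit 219753081382) (nat_lit 152) (nat_lit 36693277351) (nat_lit 0) (nat_lit 157149986992) (nat_lit 2) (nat_lit 5) (nat_lit 4) (nat_lit 4) (nat_lit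 2) (nat_lit 4) (nat_lit 355) (nat_lit 257) (nat_lit 108)) (XT.lf (nat_lit 0) (nat_lit 1112459887) (nat_lit 684) (nat_lit 2034276107) (nat_lit 684) (nat_lit 2034276107) (nat_lit 64) (nat_lit 3) (nat_lit 73) (nat_lit 3) (nat_lit 73) (nat_lit 5) (nat_lit 258) (nat_lit 258) (nat_lit 204))))))))
noncomputable def xc168 : XT := (XT.nd (nat_lit 1248) (nat_lit 1824) (nat_lit 0) (XT.nd (nat_lit 624) (nat_lit 1368) (nat_lit 0) (XT.nd (nat_lit 312) (nat_lit 0) (nat_lit 152) (XT.nd (nat_lit 156) (nat_lit 0) (nat_lit 76) (XT.nd (nat_lit 78) (nat_lit 0) (nat_lit 76) (XT.lf (nat_lit 76) (nat_lit 90156917) (nat_lit 0) (nat_lit 2760133048) (nat_lit 684) (nat_lit 7739235800) (nat_lit 65) (nat_lit 5) (nat_lit 64) (nat_lit 3) (nat_lit 73) (nat_lit 5) (nat_lit 259) (nat_lit 258) (nat_lit 203)) (XT.lf (nat_lit 0) (nat_lit 3555364020) (nat_lit 608) (nat_lit 6264990946) (nat_lit 684) (nat_lit 1005821655)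 (nat_lit 65) (nat_lit 5) (nat_lit 73) (nat_lit 5) (nat_lit 74) (nat_lit 5) (nat_lit 260) (nat_lit 258) (nat_lit 202))) (XT.nd (nat_lit 78) (nat_lit 0) (nat_lit 0) (XT.lf (nat_lit 0) (nat_lit 4306247213) (nat_lit 608) (nat_lit 1885215001) (nat_lit 684) (nat_lit 4882856689) (nat_lit 65) (nat_lit 5) (nat_lit 73) (nat_lit 5) (nat_lit 74) (nat_lit 5) (nat_lit 261) (nat_lit 258) (nat_lit 201)) (XT.lf (nat_lit 76) (nat_lit 2782539064) (nat_lit 0) (nat_lit 2322538117) (nat_lit 684) (nat_lit 6229448751) (nat_lit 66) (nat_lit 5) (nat_lit 65) (nat_lit 5) (nat_lit 74) (nat_lit 5) (nat_lit 262) (nat_lit 258) (nat_lit 200)))) (XT.nd (nat_lit 156) (nat_lit 0) (nat_lit 0) (XT.nd (nat_lit 78) (nat_lit 0) (nat_lit 0) (XT.lf (nat_lit 0) (nat_lit 5971875010) (nat_lit 608) (nat_lit 3906394273) (nat_lit 684) (nat_lit 1728242011) (nat_lit 66) (nat_lit 5) (nat_lit 74) (nat_lit 5) (nat_lit 75) (nat_lit 5)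 (nat_lit 263) (nat_lit 258) (nat_lit 199)) (XT.lf (nat_lit 76) (nat_lit 942924450) (nat_lit 0) (nat_lit 5961800827) (nat_lit 684) (nat_lit 4986396258) (nat_lit 67) (nat_lit 5) (nat_lit 66) (nat_lit 5) (nat_lit 75) (nat_lit 5) (nat_lit 264) (nat_lit 258) (nat_lit 198))) (XT.nd (nat_lit 78) (nat_lit 0) (nat_lit 76) (XT.lf (nat_lit 76) (nat_lit 6150004928) (nat_lit 0) (nat_lit 1771401483) (nat_lit 684) (nat_lit 4266850023) (nat_lit 67) (nat_lit 5) (nat_lit 66) (nat_lit 5) (nat_lit 75) (nat_lit 5) (nat_lit 265) (nat_lit 258) (nat_lit 197)) (XT.lf (nat_lit 0) (nat_lit 9002499762) (nat_lit 608) (nat_lit 944858880) (nat_lit 684) (nat_lit 2552356772) (nat_lit 67) (nat_lit 5) (nat_lit 75) (nat_lit 5) (nat_lit 76) (nat_lit 5) (nat_lit 266) (nat_lit 258) (nat_lit 196))))) (XT.nd (nat_lit 312) (nat_lit 988) (nat_lit 0) (XT.nd (nat_lit 156) (nat_lit 608) (nat_lit 0) (XT.nd (nat_lit 78) (nat_lit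 0) (nat_lit 0) (XT.lf (nat_lit 76) (nat_lit 4498120819) (nat_lit 0) (nat_lit 5712641872) (nat_lit 684) (nat_lit 2612468192) (nat_lit 68) (nat_lit 5) (nat_lit 67) (nat_lit 5) (nat_lit 76) (nat_lit 5) (nat_lit 267) (nat_lit 258) (nat_lit 195)) (XT.lf (nat_lit 76) (nat_lit 10226364484) (nat_lit 0) (nat_lit 1243861171) (nat_lit 684) (nat_lit 1693289777) (nat_lit 68) (nat_lit 5) (nat_lit 67) (nat_lit 5) (nat_lit 76) (nat_lit 5) (nat_lit 268) (nat_lit 258) (nat_lit 194))) (XT.nd (nat_lit 78) (nat_lit 76) (nat_lit 0) (XT.lf (nat_lit 0) (nat_lit 2733703099) (nat_lit 608) (nat_lit 10131546097) (nat_lit 684) (nat_lit 652061974) (nat_lit 60) (nat_lit 5) (nat_lit 68) (nat_lit 5) (nat_lit 69) (nat_lit 5) (nat_lit 269) (nat_lit 258) (nat_lit 193)) (XT.lf (nat_lit 0) (nat_lit 474456744) (nat_lit 684) (nat_lit 5145063608) (nat_lit 76) (nat_lit 8266678915) (nat_lit 59) (nat_lit 5) (nat_lit 68) (nat_lit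 5) (nat_lit 60) (nat_lit 5) (nat_lit 270) (nat_lit 258) (nat_lit 192)))) (XT.nd (nat_lit 156) (nat_lit 304) (nat_lit 0) (XT.nd (nat_lit 78) (nat_lit 0) (nat_lit 0) (XT.lf (nat_lit 0) (nat_lit 769608227) (nat_lit 684) (nat_lit 855321897) (nat_lit 760) (nat_lit 12648699187) (nat_lit 50) (nat_lit 5) (nat_lit 59) (nat_lit 5) (nat_lit 60) (nat_lit 5) (nat_lit 271) (nat_lit 258) (nat_lit 191)) (XT.lf (nat_lit 0) (nat_lit 2964566463) (nat_lit 760) (nat_lit 7604260625) (nat_lit 76) (nat_lit 4105125740) (nat_lit 50) (nat_lit 5) (nat_lit 60) (nat_lit 5) (nat_lit 51) (nat_lit 5) (nat_lit 272) (nat_lit 258) (nat_lit 190))) (XT.nd (nat_lit 78) (nat_lit 304) (nat_lit 0) (XT.lf (nat_lit 0) (nat_lit 4364567314) (nat_lit 760) (nat_lit 1443199575) (nat_lit 76) (nat_lit 9286955484) (nat_lit 50) (nat_lit 5) (nat_lit 60) (nat_lit 5) (nat_lit 51) (nat_lit 5) (nat_lit 273) (nat_lit 258) (nat_lit 189)) (XT.lf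 (nat_lit 0) (nat_lit 5172745387) (nat_lit 304) (nat_lit 722927705) (nat_lit 380) (nat_lit 9637896330) (nat_lit 46) (nat_lit 5) (nat_lit 50) (nat_lit 5) (nat_lit 51) (nat_lit 5) (nat_lit 274) (nat_lit 258) (nat_lit 188)))))) (XT.nd (nat_lit 624) (nat_lit 912) (nat_lit 0) (XT.nd (nat_lit 312) (nat_lit 380) (nat_lit 0) (XT.nd (nat_lit 156) (nat_lit 228) (nat_lit 0) (XT.nd (nat_lit 78) (nat_lit 304) (nat_lit 0) (XT.lf (nat_lit 0) (nat_lit 7581248419) (nat_lit 380) (nat_lit 3915492754) (nat_lit 76) (nat_lit 4493811723) (nat_lit 46) (nat_lit 5) (nat_lit 51) (nat_lit 5) (nat_lit 47) (nat_lit 5) (nat_lit 275) (nat_lit 258) (nat_lit 187)) (XT.lf (nat_lit 0) (nat_lit 2915003118) (nat_lit 304) (nat_lit 6475367946) (nat_lit 380) (nat_lit 7078136560) (nat_lit 42) (nat_lit 5) (nat_lit 46) (nat_lit 5) (nat_lit 47) (nat_lit 5) (nat_lit 276) (nat_lit 258) (nat_lit 186))) (XT.nd (nat_lit 78) (nat_lit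 228) (nat_lit 0) (XT.lf (nat_lit 0) (nat_lit 10204711026) (nat_lit 304) (nat_lit 1134032182) (nat_lit 380) (nat_lit 5629258646) (nat_lit 42) (nat_lit 5) (nat_lit 46) (nat_lit 5) (nat_lit 47) (nat_lit 5) (nat_lit 277) (nat_lit 258) (nat_lit 185)) (XT.lf (nat_lit 0) (nat_lit 287496125) (nat_lit 228) (nat_lit 13154689790) (nat_lit 304) (nat_lit 4047479842) (nat_lit 39) (nat_lit 5) (nat_lit 42) (nat_lit 5) (nat_lit 43) (nat_lit 5) (nat_lit 278) (nat_lit 258) (nat_lit 184)))) (XT.nd (nat_lit 156) (nat_lit 380) (nat_lit 0) (XT.nd (nat_lit 78) (nat_lit 0) (nat_lit 0) (XT.lf (nat_lit 0) (nat_lit 7888436480) (nat_lit 228) (nat_lit 7879014732) (nat_lit 304) (nat_lit 2264202987) (nat_lit 39) (nat_lit 5) (nat_lit 42) (nat_lit 5) (nat_lit 43) (nat_lit 5) (nat_lit 279) (nat_lit 258) (nat_lit 183)) (XT.lf (nat_lit 0) (nat_lit 15852293613) (nat_lit 228) (nat_lit 2341276645) (nat_lit 304) (nat_lit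 408012628) (nat_lit 39) (nat_lit 5) (nat_lit 42) (nat_lit 5) (nat_lit 43) (nat_lit 5) (nat_lit 280) (nat_lit 258) (nat_lit 182))) (XT.nd (nat_lit 78) (nat_lit 0) (nat_lit 0) (XT.lf (nat_lit 0) (nat_lit 1612809625) (nat_lit 380) (nat_lit 14113669737) (nat_lit 76) (nat_lit 3466332316) (nat_lit 34) (nat_lit 5) (nat_lit 39) (nat_lit 5) (nat_lit 35) (nat_lit 5) (nat_lit 281) (nat_lit 258) (nat_lit 181)) (XT.lf (nat_lit 0) (nat_lit 3792107143) (nat_lit 380) (nat_lit 6480019893) (nat_lit 76) (nat_lit 9537643904) (nat_lit 34) (nat_lit 5) (nat_lit 39) (nat_lit 5) (nat_lit 35) (nat_lit 5) (nat_lit 282) (nat_lit 258) (nat_lit 180))))) (XT.nd (nat_lit 312) (nat_lit 456) (nat_lit 0) (XT.nd (nat_lit 156) (nat_lit 228) (nat_lit 0) (XT.nd (nat_lit 78) (nat_lit 0) (nat_lit 0) (XT.lf (nat_lit 0) (nat_lit 1569000508) (nat_lit 228) (nat_lit 4521999462) (nat_lit 304) (nat_lit 14366104548) (nat_lit 31)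 (nat_lit 5) (nat_lit 34) (nat_lit 5) (nat_lit 35) (nat_lit 5) (nat_lit 283) (nat_lit 258) (nat_lit 179)) (XT.lf (nat_lit 0) (nat_lit 8626538612) (nat_lit 304) (nat_lit 10928283907) (nat_lit 76) (nat_lit 1575952318) (nat_lit 31) (nat_lit 5) (nat_lit 35) (nat_lit 5) (nat_lit 32) (nat_lit 5) (nat_lit 284) (nat_lit 258) (nat_lit 178))) (XT.nd (nat_lit 78) (nat_lit 228) (nat_lit 0) (XT.lf (nat_lit 0) (nat_lit 11350124890) (nat_lit 304) (nat_lit 2660744389) (nat_lit 76) (nat_lit 7824248351) (nat_lit 31) (nat_lit 5) (nat_lit 35) (nat_lit 5) (nat_lit 32) (nat_lit 5) (nat_lit 285) (nat_lit 258) (nat_lit 177)) (XT.lf (nat_lit 0) (nat_lit 6203346059) (nat_lit 228) (nat_lit 8091148007) (nat_lit 304) (nat_lit 8276003312) (nat_lit 28) (nat_lit 5) (nat_lit 31) (nat_lit 5) (nat_lit 32) (nat_lit 5) (nat_lit 286) (nat_lit 258) (nat_lit 176)))) (XT.nd (nat_lit 156) (nat_lit 304) (nat_lit 0) (XT.nd (nat_lit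 78) (nat_lit 152) (nat_lit 0) (XT.lf (nat_lit 0) (nat_lit 15587892140) (nat_lit 228) (nat_lit 1831349635) (nat_lit 304) (nat_lit 5921793949) (nat_lit 28) (nat_lit 5) (nat_lit 31) (nat_lit 5) (nat_lit 32) (nat_lit 5) (nat_lit 287) (nat_lit 258) (nat_lit 175)) (XT.lf (nat_lit 0) (nat_lit 1242331897) (nat_lit 152) (nat_lit 19539936268) (nat_lit 228) (nat_lit 3363776105) (nat_lit 26) (nat_lit 5) (nat_lit 28) (nat_lit 5) (nat_lit 29) (nat_lit 5) (nat_lit 288) (nat_lit 258) (nat_lit 174))) (XT.nd (nat_lit 78) (nat_lit 304) (nat_lit 0) (XT.lf (nat_lit 0) (nat_lit 10911011543) (nat_lit 152) (nat_lit 13552205418) (nat_lit 228) (nat_lit 520640915) (nat_lit 26) (nat_lit 5) (nat_lit 28) (nat_lit 5) (nat_lit 29) (nat_lit 5) (nat_lit 289) (nat_lit 258) (nat_lit 173)) (XT.nd (nat_lit 78) (nat_lit 228) (nat_lit 0) (XT.lf (nat_lit 0) (nat_lit 2375011257) (nat_lit 228) (nat_lit 4853337096) (nat_lit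 76) (nat_lit 18633866754) (nat_lit 25) (nat_lit 5) (nat_lit 28) (nat_lit 5) (nat_lit 26) (nat_lit 5) (nat_lit 290) (nat_lit 258) (nat_lit 172)) (XT.lf (nat_lit 0) (nat_lit 4963750182) (nat_lit 228) (nat_lit 501453576) (nat_lit 304) (nat_lit 21315534259) (nat_lit 22) (nat_lit 5) (nat_lit 25) (nat_lit 5) (nat_lit 26) (nat_lit 5) (nat_lit 291) (nat_lit 258) (nat_lit 171))))))))
noncomputable def xc169 : XT := (XT.nd (nat_lit 1326) (nat_lit 456) (nat_lit 0) (XT.nd (nat_lit 624) (nat_lit 456) (nat_lit 0) (XT.nd (nat_lit 312) (nat_lit 228) (nat_lit 0) (XT.nd (nat_lit 156) (nat_lit 152) (nat_lit 0) (XT.nd (nat_lit 78) (nat_lit 0) (nat_lit 0) (XT.lf (nat_lit 0) (nat_lit 8885872890) (nat_lit 304) (nat_lit 12418674299) (nat_lit 76) (nat_lit 6431877065) (nat_lit 22) (nat_lit 5) (nat_lit 26) (nat_lit 5) (nat_lit 23) (nat_lit 5) (nat_lit 292) (nat_lit 258) (nat_lit 170)) (XT.lf (nat_lit 0) (nat_lit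 12476251351) (nat_lit 304) (nat_lit 2571989759) (nat_lit 76) (nat_lit 13691753737) (nat_lit 22) (nat_lit 5) (nat_lit 26) (nat_lit 5) (nat_lit 23) (nat_lit 5) (nat_lit 293) (nat_lit 258) (nat_lit 169))) (XT.nd (nat_lit 78) (nat_lit 0) (nat_lit 0) (XT.lf (nat_lit 0) (nat_lit 8010732843) (nat_lit 152) (nat_lit 8351395712) (nat_lit 228) (nat_lit 13425848651) (nat_lit 20) (nat_lit 5) (nat_lit 22) (nat_lit 5) (nat_lit 23) (nat_lit 5) (nat_lit 294) (nat_lit 258) (nat_lit 168)) (XT.lf (nat_lit 0) (nat_lit 19199400282) (nat_lit 152) (nat_lit 1277604998) (nat_lit 228) (nat_lit 10409648811) (nat_lit 20) (nat_lit 5) (nat_lit 22) (nat_lit 5) (nat_lit 23) (nat_lit 5) (nat_lit 295) (nat_lit 258) (nat_lit 167)))) (XT.nd (nat_lit 156) (nat_lit 76) (nat_lit 0) (XT.nd (nat_lit 78) (nat_lit 152) (nat_lit 0) (XT.lf (nat_lit 0) (nat_lit 24885157920) (nat_lit 228) (nat_lit 1201067714) (nat_lit 76) (nat_lit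 5949691815) (nat_lit 20) (nat_lit 5) (nat_lit 23) (nat_lit 5) (nat_lit 21) (nat_lit 5) (nat_lit 296) (nat_lit 258) (nat_lit 166)) (XT.lf (nat_lit 0) (nat_lit 10100045791) (nat_lit 152) (nat_lit 19584226088) (nat_lit 228) (nat_lit 3549872251) (nat_lit 18) (nat_lit 5) (nat_lit 20) (nat_lit 5) (nat_lit 21) (nat_lit 5) (nat_lit 297) (nat_lit 258) (nat_lit 165))) (XT.nd (nat_lit 78) (nat_lit 0) (nat_lit 0) (XT.lf (nat_lit 0) (nat_lit 236307751) (nat_lit 228) (nat_lit 12499096840) (nat_lit 76) (nat_lit 21756090243) (nat_lit 17) (nat_lit 5) (nat_lit 20) (nat_lit 5) (nat_lit 18) (nat_lit 5) (nat_lit 298) (nat_lit 258) (nat_lit 164)) (XT.lf (nat_lit 0) (nat_lit 4084849757) (nat_lit 228) (nat_lit 1401781914) (nat_lit 76) (nat_lit 30322578122) (nat_lit 17) (nat_lit 5) (nat_lit 20) (nat_lit 5) (nat_lit 18) (nat_lit 5) (nat_lit 299) (nat_lit 258) (nat_lit 163))))) (XT.nd (nat_lit 312) (nat_lit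 152) (nat_lit 0) (XT.nd (nat_lit 156) (nat_lit 152) (nat_lit 0) (XT.nd (nat_lit 78) (nat_lit 0) (nat_lit 0) (XT.lf (nat_lit 0) (nat_lit 8319516053) (nat_lit 228) (nat_lit 26642501929) (nat_lit 76) (nat_lit 2221130560) (nat_lit 15) (nat_lit 5) (nat_lit 18) (nat_lit 5) (nat_lit 16) (nat_lit 5) (nat_lit 300) (nat_lit 258) (nat_lit 162)) (XT.lf (nat_lit 0) (nat_lit 12872834449) (nat_lit 228) (nat_lit 15596925215) (nat_lit 76) (nat_lit 10150700439) (nat_lit 15) (nat_lit 5) (nat_lit 18) (nat_lit 5) (nat_lit 16) (nat_lit 5) (nat_lit 301) (nat_lit 258) (nat_lit 161))) (XT.nd (nat_lit 78) (nat_lit 152) (nat_lit 0) (XT.lf (nat_lit 0) (nat_lit 17647004452) (nat_lit 228) (nat_lit 4009409942) (nat_lit 76) (nat_lit 18473584338) (nat_lit 15) (nat_lit 5) (nat_lit 18) (nat_lit 5) (nat_lit 16) (nat_lit 5) (nat_lit 302) (nat_lit 258) (nat_lit 160)) (XT.lf (nat_lit 0) (nat_lit 8417030761) (nat_lit 152)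 (nat_lit 14367775810) (nat_lit 228) (nat_lit 18923981325) (nat_lit 13) (nat_lit 5) (nat_lit 15) (nat_lit 5) (nat_lit 16) (nat_lit 5) (nat_lit 303) (nat_lit 258) (nat_lit 159)))) (XT.nd (nat_lit 156) (nat_lit 152) (nat_lit 0) (XT.nd (nat_lit 78) (nat_lit 0) (nat_lit 0) (XT.lf (nat_lit 0) (nat_lit 21594302114) (nat_lit 152) (nat_lit 6646765923) (nat_lit 228) (nat_lit 15122388861) (nat_lit 13) (nat_lit 5) (nat_lit 15) (nat_lit 5) (nat_lit 16) (nat_lit 5) (nat_lit 304) (nat_lit 258) (nat_lit 158)) (XT.lf (nat_lit 0) (nat_lit 33986861419) (nat_lit 228) (nat_lit 9702718822) (nat_lit 76) (nat_lit 1410461111) (nat_lit 13) (nat_lit 5) (nat_lit 16) (nat_lit 5) (nat_lit 14) (nat_lit 4) (nat_lit 305) (nat_lit 258) (nat_lit 157))) (XT.nd (nat_lit 78) (nat_lit 76) (nat_lit 0) (XT.lf (nat_lit 0) (nat_lit 2943232409) (nat_lit 76) (nat_lit 37225836642) (nat_lit 152) (nat_lit 6746946841) (nat_lit 12)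 (nat_lit 5) (nat_lit 13) (nat_lit 5) (nat_lit 14) (nat_lit 4) (nat_lit 306) (nat_lit 258) (nat_lit 156)) (XT.nd (nat_lit 78) (nat_lit 76) (nat_lit 0) (XT.lf (nat_lit 0) (nat_lit 16549438608) (nat_lit 76) (nat_lit 30269614612) (nat_lit 152) (nat_lit 1995818908) (nat_lit 12) (nat_lit 5) (nat_lit 13) (nat_lit 5) (nat_lit 14) (nat_lit 4) (nat_lit 307) (nat_lit 258) (nat_lit 155)) (XT.lf (nat_lit 0) (nat_lit 2891586914) (nat_lit 152) (nat_lit 20028114618) (nat_lit 76) (nat_lit 27886922463) (nat_lit 11) (nat_lit 5) (nat_lit 13) (nat_lit 5) (nat_lit 12) (nat_lit 5) (nat_lit 308) (nat_lit 258) (nat_lit 154))))))) (XT.nd (nat_lit 624) (nat_lit 228) (nat_lit 0) (XT.nd (nat_lit 312) (nat_lit 76) (nat_lit 0) (XT.nd (nat_lit 156) (nat_lit 0) (nat_lit 0) (XT.nd (nat_lit 78) (nat_lit 152) (nat_lit 0) (XT.lf (nat_lit 0) (nat_lit 7951063641) (nat_lit 152) (nat_lit 7219906726) (nat_lit 76) (nat_lit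 37725632570) (nat_lit 11) (nat_lit 5) (nat_lit 13) (nat_lit 5) (nat_lit 12) (nat_lit 5) (nat_lit 309) (nat_lit 258) (nat_lit 153)) (XT.lf (nat_lit 0) (nat_lit 6426535485) (nat_lit 152) (nat_lit 6932337058) (nat_lit 228) (nat_lit 41727453757) (nat_lit 9) (nat_lit 5) (nat_lit 11) (nat_lit 5) (nat_lit 12) (nat_lit 5) (nat_lit 310) (nat_lit 258) (nat_lit 152))) (XT.nd (nat_lit 78) (nat_lit 0) (nat_lit 0) (XT.lf (nat_lit 0) (nat_lit 19183268746) (nat_lit 228) (nat_lit 36410243765) (nat_lit 76) (nat_lit 1784726232) (nat_lit 9) (nat_lit 5) (nat_lit 12) (nat_lit 5) (nat_lit 10) (nat_lit 4) (nat_lit 311) (nat_lit 258) (nat_lit 151)) (XT.lf (nat_lit 0) (nat_lit 25407856694) (nat_lit 228) (nat_lit 23669435093) (nat_lit 76) (nat_lit 10702018569) (nat_lit 9) (nat_lit 5) (nat_lit 12) (nat_lit 5) (nat_lit 10) (nat_lit 4) (nat_lit 312) (nat_lit 258) (nat_lit 150)))) (XT.nd (nat_lit 156) (nat_lit 0)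 (nat_lit 0) (XT.nd (nat_lit 78) (nat_lit 76) (nat_lit 0) (XT.lf (nat_lit 0) (nat_lit 31939223625) (nat_lit 228) (nat_lit 10298796334) (nat_lit 76) (nat_lit 20062649681) (nat_lit 9) (nat_lit 5) (nat_lit 12) (nat_lit 5) (nat_lit 10) (nat_lit 4) (nat_lit 313) (nat_lit 258) (nat_lit 149)) (XT.lf (nat_lit 0) (nat_lit 3856953981) (nat_lit 76) (nat_lit 34996184292) (nat_lit 152) (nat_lit 26092170662) (nat_lit 8) (nat_lit 5) (nat_lit 9) (nat_lit 5) (nat_lit 10) (nat_lit 4) (nat_lit 314) (nat_lit 258) (nat_lit 148))) (XT.nd (nat_lit 78) (nat_lit 0) (nat_lit 0) (XT.lf (nat_lit 0) (nat_lit 19071286528) (nat_lit 76) (nat_lit 27211735084) (nat_lit 152) (nat_lit 21430655427) (nat_lit 8) (nat_lit 5) (nat_lit 9) (nat_lit 5) (nat_lit 10) (nat_lit 4) (nat_lit 315) (nat_lit 258) (nat_lit 147)) (XT.lf (nat_lit 0) (nat_lit 35039901190) (nat_lit 76) (nat_lit 19040553032) (nat_lit 152) (nat_lit 16540216564)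 (nat_lit 8) (nat_lit 5) (nat_lit 9) (nat_lit 5) (nat_lit 10) (nat_lit 4) (nat_lit 316) (nat_lit 258) (nat_lit 146))))) (XT.nd (nat_lit 312) (nat_lit 76) (nat_lit 0) (XT.nd (nat_lit 156) (nat_lit 152) (nat_lit 0) (XT.nd (nat_lit 78) (nat_lit 0) (nat_lit 0) (XT.lf (nat_lit 0) (nat_lit 51800818478) (nat_lit 76) (nat_lit 10463182941) (nat_lit 152) (nat_lit 11409210170) (nat_lit 8) (nat_lit 5) (nat_lit 9) (nat_lit 5) (nat_lit 10) (nat_lit 4) (nat_lit 317) (nat_lit 258) (nat_lit 145)) (XT.lf (nat_lit 0) (nat_lit 69393945339) (nat_lit 76) (nat_lit 1459202501) (nat_lit 152) (nat_lit 6025419564) (nat_lit 8) (nat_lit 5) (nat_lit 9) (nat_lit 5) (nat_lit 10) (nat_lit 4) (nat_lit 318) (nat_lit 258) (nat_lit 144))) (XT.nd (nat_lit 78) (nat_lit 76) (nat_lit 0) (XT.lf (nat_lit 0) (nat_lit 7739729397) (nat_lit 76) (nat_lit 72374243720) (nat_lit 76) (nat_lit 118115447) (nat_lit 7) (nat_lit 4) (nat_lit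 8) (nat_lit 5) (nat_lit 8) (nat_lit 4) (nat_lit 319) (nat_lit 258) (nat_lit 143)) (XT.lf (nat_lit 0) (nat_lit 6039136971) (nat_lit 152) (nat_lit 59888529639) (nat_lit 76) (nat_lit 17813410813) (nat_lit 6) (nat_lit 5) (nat_lit 8) (nat_lit 5) (nat_lit 7) (nat_lit 4) (nat_lit 320) (nat_lit 258) (nat_lit 142)))) (XT.nd (nat_lit 156) (nat_lit 76) (nat_lit 0) (XT.nd (nat_lit 78) (nat_lit 0) (nat_lit 0) (XT.lf (nat_lit 0) (nat_lit 12497017610) (nat_lit 152) (nat_lit 46661904953) (nat_lit 76) (nat_lit 28266667050) (nat_lit 6) (nat_lit 5) (nat_lit 8) (nat_lit 5) (nat_lit 7) (nat_lit 4) (nat_lit 321) (nat_lit 258) (nat_lit 141)) (XT.lf (nat_lit 0) (nat_lit 19274682810) (nat_lit 152) (nat_lit 32779149032) (nat_lit 76) (nat_lit 39240658146) (nat_lit 6) (nat_lit 5) (nat_lit 8) (nat_lit 5) (nat_lit 7) (nat_lit 4) (nat_lit 322) (nat_lit 258) (nat_lit 140))) (XT.nd (nat_lit 78) (nat_lit 76) (nat_lit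 0) (XT.lf (nat_lit 0) (nat_lit 26388269868) (nat_lit 152) (nat_lit 18207207696) (nat_lit 76) (nat_lit 50761512652) (nat_lit 6) (nat_lit 5) (nat_lit 8) (nat_lit 5) (nat_lit 7) (nat_lit 4) (nat_lit 323) (nat_lit 258) (nat_lit 139)) (XT.nd (nat_lit 78) (nat_lit 76) (nat_lit 0) (XT.lf (nat_lit 0) (nat_lit 33854715895) (nat_lit 152) (nat_lit 2911385846) (nat_lit 76) (nat_lit 62856661173) (nat_lit 6) (nat_lit 5) (nat_lit 8) (nat_lit 5) (nat_lit 7) (nat_lit 4) (nat_lit 324) (nat_lit 258) (nat_lit 138)) (XT.lf (nat_lit 0) (nat_lit 13579359446) (nat_lit 76) (nat_lit 28324450555) (nat_lit 152) (nat_lit 62187554093) (nat_lit 5) (nat_lit 5) (nat_lit 6) (nat_lit 5) (nat_lit 7) (nat_lit 4) (nat_lit 325) (nat_lit 258) (nat_lit 137))))))))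
noncomputable def xc170 : XT := (XT.nd (nat_lit 1326) (nat_lit 0) (nat_lit 0) (XT.nd (nat_lit 624) (nat_lit 152) (nat_lit 0) (XT.nd (nat_lit 312) (nat_lit 76) (nat_lit 0) (XT.nd (nat_lit 156) (nat_lit 0) (nat_lit 0) (XT.nd (nat_lit 78) (nat_lit 0) (nat_lit 0) (XT.lf (nat_lit 0) (nat_lit 30991299243) (nat_lit 76) (nat_lit 19410738128) (nat_lit 152) (nat_lit 58379029877) (nat_lit 5) (nat_lit 5) (nat_lit 6) (nat_lit 5) (nat_lit 7) (nat_lit 4) (nat_lit 326) (nat_lit 258) (nat_lit 136)) (XT.lf (nat_lit 0) (nat_lit 49269626978) (nat_lit 76) (nat_lit 10053047063) (nat_lit 152) (nat_lit 54382712186) (nat_lit 5) (nat_lit 5) (nat_lit 6) (nat_lit 5) (nat_lit 7) (nat_lit 4) (nat_lit 327) (nat_lit 258) (nat_lit 135))) (XT.nd (nat_lit 78) (nat_lit 0) (nat_lit 0) (XT.lf (nat_lit 0) (nat_lit 68457862478) (nat_lit 76) (nat_lit 229097144) (nat_lit 152) (nat_lit 50189085978) (nat_lit 5) (nat_lit 5) (nat_lit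 6) (nat_lit 5) (nat_lit 7) (nat_lit 4) (nat_lit 328) (nat_lit 258) (nat_lit 134)) (XT.lf (nat_lit 0) (nat_lit 78674637371) (nat_lit 152) (nat_lit 35861111779) (nat_lit 0) (nat_lit 9761734944) (nat_lit 5) (nat_lit 5) (nat_lit 7) (nat_lit 4) (nat_lit 5) (nat_lit 4) (nat_lit 329) (nat_lit 258) (nat_lit 133)))) (XT.nd (nat_lit 156) (nat_lit 76) (nat_lit 0) (XT.nd (nat_lit 78) (nat_lit 0) (nat_lit 0) (XT.lf (nat_lit 0) (nat_lit 89163270296) (nat_lit 152) (nat_lit 20583668351) (nat_lit 0) (nat_lit 20242982108) (nat_lit 5) (nat_lit 5) (nat_lit 7) (nat_lit 4) (nat_lit 5) (nat_lit 4) (nat_lit 330) (nat_lit 258) (nat_lit 132)) (XT.lf (nat_lit 0) (nat_lit 100174254484) (nat_lit 152) (nat_lit 4545901124) (nat_lit 0) (nat_lit 31246932238) (nat_lit 5) (nat_lit 5) (nat_lit 7) (nat_lit 4) (nat_lit 5) (nat_lit 4) (nat_lit 331) (nat_lit 258) (nat_lit 131))) (XT.nd (nat_lit 78) (nat_lit 0) (nat_lit 0)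 (XT.lf (nat_lit 0) (nat_lit 12696750366) (nat_lit 76) (nat_lit 99235288053) (nat_lit 76) (nat_lit 30301266705) (nat_lit 4) (nat_lit 4) (nat_lit 5) (nat_lit 5) (nat_lit 5) (nat_lit 4) (nat_lit 332) (nat_lit 258) (nat_lit 130)) (XT.lf (nat_lit 0) (nat_lit 30956032958) (nat_lit 76) (nat_lit 93396726750) (nat_lit 76) (nat_lit 24456325303) (nat_lit 4) (nat_lit 4) (nat_lit 5) (nat_lit 5) (nat_lit 5) (nat_lit 4) (nat_lit 333) (nat_lit 258) (nat_lit 129))))) (XT.nd (nat_lit 312) (nat_lit 76) (nat_lit 0) (XT.nd (nat_lit 156) (nat_lit 76) (nat_lit 0) (XT.nd (nat_lit 78) (nat_lit 0) (nat_lit 0) (XT.lf (nat_lit 0) (nat_lit 50125113112) (nat_lit 76) (nat_lit 87267557396) (nat_lit 76) (nat_lit 18321079666) (nat_lit 4) (nat_lit 4) (nat_lit 5) (nat_lit 5) (nat_lit 5) (nat_lit 4) (nat_lit 334) (nat_lit 258) (nat_lit 128)) (XT.lf (nat_lit 0) (nat_lit 70249631496) (nat_lit 76) (nat_lit 80833186731) (nat_lit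 76) (nat_lit 11880922065) (nat_lit 4) (nat_lit 4) (nat_lit 5) (nat_lit 5) (nat_lit 5) (nat_lit 4) (nat_lit 335) (nat_lit 258) (nat_lit 127))) (XT.nd (nat_lit 78) (nat_lit 76) (nat_lit 0) (XT.lf (nat_lit 0) (nat_lit 91377503628) (nat_lit 76) (nat_lit 74078294827) (nat_lit 76) (nat_lit 5120518792) (nat_lit 4) (nat_lit 4) (nat_lit 5) (nat_lit 5) (nat_lit 5) (nat_lit 4) (nat_lit 336) (nat_lit 258) (nat_lit 126)) (XT.lf (nat_lit 0) (nat_lit 1912974766) (nat_lit 152) (nat_lit 65041426686) (nat_lit 76) (nat_lit 111613662049) (nat_lit 3) (nat_lit 5) (nat_lit 5) (nat_lit 5) (nat_lit 4) (nat_lit 4) (nat_lit 337) (nat_lit 258) (nat_lit 125)))) (XT.nd (nat_lit 156) (nat_lit 76) (nat_lit 0) (XT.nd (nat_lit 78) (nat_lit 0) (nat_lit 0) (XT.lf (nat_lit 0) (nat_lit 9124512777) (nat_lit 152) (nat_lit 50262772736) (nat_lit 76) (nat_lit 127567994865) (nat_lit 3) (nat_lit 5) (nat_lit 5) (nat_lit 5) (nat_lit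 4) (nat_lit 4) (nat_lit 338) (nat_lit 258) (nat_lit 124)) (XT.lf (nat_lit 0) (nat_lit 16695154149) (nat_lit 152) (nat_lit 34747718850) (nat_lit 76) (nat_lit 144319061729) (nat_lit 3) (nat_lit 5) (nat_lit 5) (nat_lit 5) (nat_lit 4) (nat_lit 4) (nat_lit 339) (nat_lit 258) (nat_lit 123))) (XT.nd (nat_lit 78) (nat_lit 76) (nat_lit 0) (XT.lf (nat_lit 0) (nat_lit 24642924219) (nat_lit 152) (nat_lit 18459324423) (nat_lit 76) (nat_lit 161906746133) (nat_lit 3) (nat_lit 5) (nat_lit 5) (nat_lit 5) (nat_lit 4) (nat_lit 4) (nat_lit 340) (nat_lit 258) (nat_lit 122)) (XT.nd (nat_lit 78) (nat_lit 76) (nat_lit 0) (XT.lf (nat_lit 0) (nat_lit 32986746249) (nat_lit 152) (nat_lit 1358807563) (nat_lit 76) (nat_lit 180372923515) (nat_lit 3) (nat_lit 5) (nat_lit 5) (nat_lit 5) (nat_lit 4) (nat_lit 4) (nat_lit 341) (nat_lit 258) (nat_lit 121)) (XT.lf (nat_lit 0) (nat_lit 17143237919) (nat_lit 76) (nat_lit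 24870902549) (nat_lit 152) (nat_lit 182885977033) (nat_lit 2) (nat_lit 5) (nat_lit 3) (nat_lit 5) (nat_lit 4) (nat_lit 4) (nat_lit 342) (nat_lit 258) (nat_lit 120))))))) (XT.nd (nat_lit 624) (nat_lit 0) (nat_lit 0) (XT.nd (nat_lit 312) (nat_lit 0) (nat_lit 0) (XT.nd (nat_lit 156) (nat_lit 0) (nat_lit 0) (XT.nd (nat_lit 78) (nat_lit 0) (nat_lit 0) (XT.lf (nat_lit 0) (nat_lit 36615407801) (nat_lit 76) (nat_lit 14899262769) (nat_lit 152) (nat_lit 184075083234) (nat_lit 2) (nat_lit 5) (nat_lit 3) (nat_lit 5) (nat_lit 4) (nat_lit 4) (nat_lit 343) (nat_lit 258) (nat_lit 119)) (XT.lf (nat_lit 0) (nat_lit 57059136077) (nat_lit 76) (nat_lit 4429904536) (nat_lit 152) (nat_lit 185324892950) (nat_lit 2) (nat_lit 5) (nat_lit 3) (nat_lit 5) (nat_lit 4) (nat_lit 4) (nat_lit 344) (nat_lit 258) (nat_lit 118))) (XT.nd (nat_lit 78) (nat_lit 0) (nat_lit 0) (XT.lf (nat_lit 0) (nat_lit 72063451854) (nat_lit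 152) (nat_lit 180178735483) (nat_lit 0) (nat_lit 6352071038) (nat_lit 2) (nat_lit 5) (nat_lit 4) (nat_lit 4) (nat_lit 2) (nat_lit 4) (nat_lit 345) (nat_lit 258) (nat_lit 117)) (XT.lf (nat_lit 0) (nat_lit 83238116566) (nat_lit 152) (nat_lit 170198394948) (nat_lit 0) (nat_lit 17523513367) (nat_lit 2) (nat_lit 5) (nat_lit 4) (nat_lit 4) (nat_lit 2) (nat_lit 4) (nat_lit 346) (nat_lit 258) (nat_lit 116)))) (XT.nd (nat_lit 156) (nat_lit 0) (nat_lit 0) (XT.nd (nat_lit 78) (nat_lit 0) (nat_lit 0) (XT.lf (nat_lit 0) (nat_lit 94970477867) (nat_lit 152) (nat_lit 159720849941) (nat_lit 0) (nat_lit 29252805732) (nat_lit 2) (nat_lit 5) (nat_lit 4) (nat_lit 4) (nat_lit 2) (nat_lit 4) (nat_lit 347) (nat_lit 258) (nat_lit 115)) (XT.lf (nat_lit 0) (nat_lit 107288469953) (nat_lit 152) (nat_lit 148721153926) (nat_lit 0) (nat_lit 41567875021) (nat_lit 2) (nat_lit 5) (nat_lit 4) (nat_lit 4) (nat_lit 2)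 (nat_lit 4) (nat_lit 348) (nat_lit 258) (nat_lit 114))) (XT.nd (nat_lit 78) (nat_lit 0) (nat_lit 0) (XT.lf (nat_lit 0) (nat_lit 120221421374) (nat_lit 152) (nat_lit 137173117151) (nat_lit 0) (nat_lit 54498042827) (nat_lit 2) (nat_lit 5) (nat_lit 4) (nat_lit 4) (nat_lit 2) (nat_lit 4) (nat_lit 349) (nat_lit 258) (nat_lit 113)) (XT.lf (nat_lit 0) (nat_lit 133800124873) (nat_lit 152) (nat_lit 125049244290) (nat_lit 0) (nat_lit 68074095264) (nat_lit 2) (nat_lit 5) (nat_lit 4) (nat_lit 4) (nat_lit 2) (nat_lit 4) (nat_lit 350) (nat_lit 258) (nat_lit 112))))) (XT.nd (nat_lit 312) (nat_lit 0) (nat_lit 0) (XT.nd (nat_lit 156) (nat_lit 0) (nat_lit 0) (XT.nd (nat_lit 78) (nat_lit 0) (nat_lit 0) (XT.lf (nat_lit 0) (nat_lit 148056910696) (nat_lit 152) (nat_lit 112320668979) (nat_lit 0) (nat_lit 82328356265) (nat_lit 2) (nat_lit 5) (nat_lit 4) (nat_lit 4) (nat_lit 2) (nat_lit 4) (nat_lit 351) (nat_lit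 258) (nat_lit 111)) (XT.lf (nat_lit 0) (nat_lit 163025723571) (nat_lit 152) (nat_lit 98957085087) (nat_lit 0) (nat_lit 97294764549) (nat_lit 2) (nat_lit 5) (nat_lit 4) (nat_lit 4) (nat_lit 2) (nat_lit 4) (nat_lit 352) (nat_lit 258) (nat_lit 110))) (XT.nd (nat_lit 78) (nat_lit 0) (nat_lit 0) (XT.lf (nat_lit 0) (nat_lit 178742203529) (nat_lit 152) (nat_lit 84926674556) (nat_lit 0) (nat_lit 113008954420) (nat_lit 2) (nat_lit 5) (nat_lit 4) (nat_lit 4) (nat_lit 2) (nat_lit 4) (nat_lit 353) (nat_lit 258) (nat_lit 109)) (XT.lf (nat_lit 0) (nat_lit 195243770761) (nat_lit 152) (nat_lit 70196031648) (nat_lit 0) (nat_lit 129508340616) (nat_lit 2) (nat_lit 5) (nat_lit 4) (nat_lit 4) (nat_lit 2) (nat_lit 4) (nat_lit 354) (nat_lit 258) (nat_lit 108)))) (XT.nd (nat_lit 30108) (nat_lit 0) (nat_lit 4712) (XT.nd (nat_lit 30030) (nat_lit 0) (nat_lit 4712) (XT.lf (nat_lit 0) (nat_lit 212569714711) (nat_lit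 152) (nat_lit 54730083403) (nat_lit 0) (nat_lit 146832207389) (nat_lit 2) (nat_lit 5) (nat_lit 4) (nat_lit 4) (nat_lit 2) (nat_lit 4) (nat_lit 355) (nat_lit 258) (nat_lit 107)) (XT.lf (nat_lit 0) (nat_lit 1727549102) (nat_lit 684) (nat_lit 1840763205) (nat_lit 684) (nat_lit 1840763205) (nat_lit 64) (nat_lit 3) (nat_lit 73) (nat_lit 3) (nat_lit 73) (nat_lit 5) (nat_lit 259) (nat_lit 259) (nat_lit 202))) (XT.nd (nat_lit 78) (nat_lit 0) (nat_lit 76) (XT.lf (nat_lit 76) (nat_lit 675594736) (nat_lit 0) (nat_lit 3391929617) (nat_lit 684) (nat_lit 6992000974) (nat_lit 65) (nat_lit 5) (nat_lit 64) (nat_lit 3) (nat_lit 73) (nat_lit 5) (nat_lit 260) (nat_lit 259) (nat_lit 201)) (XT.nd (nat_lit 78) (nat_lit 0) (nat_lit 0) (XT.lf (nat_lit 0) (nat_lit 4749332645) (nat_lit 608) (nat_lit 5960987023) (nat_lit 684) (nat_lit 600888400) (nat_lit 65) (nat_lit 5) (nat_lit 73) (nat_lit 5) (nat_lit 74) (nat_lit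 5) (nat_lit 261) (nat_lit 259) (nat_lit 200)) (XT.lf (nat_lit 0) (nat_lit 5489369501) (nat_lit 608) (nat_lit 1391615303) (nat_lit 684) (nat_lit 4693452534) (nat_lit 65) (nat_lit 5) (nat_lit 73) (nat_lit 5) (nat_lit 74) (nat_lit 5) (nat_lit 262) (nat_lit 259) (nat_lit 199))))))))
noncomputable def xc171 : XT := (XT.nd (nat_lit 1326) (nat_lit 1444) (nat_lit 0) (XT.nd (nat_lit 624) (nat_lit 1520) (nat_lit 0) (XT.nd (nat_lit 312) (nat_lit 456) (nat_lit 0) (XT.nd (nat_lit 156) (nat_lit 0) (nat_lit 76) (XT.nd (nat_lit 78) (nat_lit 0) (nat_lit 76) (XT.lf (nat_lit 76) (nat_lit 3500044845) (nat_lit 0) (nat_lit 2791040050) (nat_lit 684) (nat_lit 5558670581) (nat_lit 66) (nat_lit 5) (nat_lit 65) (nat_lit 5) (nat_lit 74) (nat_lit 5) (nat_lit 263) (nat_lit 259) (nat_lit 198)) (XT.lf (nat_lit 0) (nat_lit 7151661421) (nat_lit 608) (nat_lit 3496592900) (nat_lit 684) (nat_lit 1489799991) (nat_lit 66)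 (nat_lit 5) (nat_lit 74) (nat_lit 5) (nat_lit 75) (nat_lit 5) (nat_lit 264) (nat_lit 259) (nat_lit 197))) (XT.nd (nat_lit 78) (nat_lit 0) (nat_lit 0) (XT.lf (nat_lit 76) (nat_lit 1585431742) (nat_lit 0) (nat_lit 6513056160) (nat_lit 684) (nat_lit 4340265381) (nat_lit 67) (nat_lit 5) (nat_lit 66) (nat_lit 5) (nat_lit 75) (nat_lit 5) (nat_lit 265) (nat_lit 259) (nat_lit 196)) (XT.lf (nat_lit 76) (nat_lit 7024515716) (nat_lit 0) (nat_lit 2101081357) (nat_lit 684) (nat_lit 3627382342) (nat_lit 67) (nat_lit 5) (nat_lit 66) (nat_lit 5) (nat_lit 75) (nat_lit 5) (nat_lit 266) (nat_lit 259) (nat_lit 195)))) (XT.nd (nat_lit 156) (nat_lit 608) (nat_lit 0) (XT.nd (nat_lit 78) (nat_lit 0) (nat_lit 0) (XT.lf (nat_lit 0) (nat_lit 10218678030) (nat_lit 608) (nat_lit 405944890) (nat_lit 684) (nat_lit 2457695771) (nat_lit 67) (nat_lit 5) (nat_lit 75) (nat_lit 5) (nat_lit 76) (nat_lit 5) (nat_lit 267)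 (nat_lit 259) (nat_lit 194)) (XT.lf (nat_lit 76) (nat_lit 5299729650) (nat_lit 0) (nat_lit 6160149674) (nat_lit 684) (nat_lit 1963698626) (nat_lit 68) (nat_lit 5) (nat_lit 67) (nat_lit 5) (nat_lit 76) (nat_lit 5) (nat_lit 268) (nat_lit 259) (nat_lit 193))) (XT.nd (nat_lit 78) (nat_lit 608) (nat_lit 0) (XT.lf (nat_lit 76) (nat_lit 11286923460) (nat_lit 0) (nat_lit 1460221570) (nat_lit 684) (nat_lit 1035675241) (nat_lit 68) (nat_lit 5) (nat_lit 67) (nat_lit 5) (nat_lit 76) (nat_lit 5) (nat_lit 269) (nat_lit 259) (nat_lit 192)) (XT.lf (nat_lit 0) (nat_lit 28444343) (nat_lit 684) (nat_lit 10704894219) (nat_lit 76) (nat_lit 3422456365) (nat_lit 59) (nat_lit 5) (nat_lit 68) (nat_lit 5) (nat_lit 60) (nat_lit 5) (nat_lit 270) (nat_lit 259) (nat_lit 191))))) (XT.nd (nat_lit 312) (nat_lit 836) (nat_lit 0) (XT.nd (nat_lit 156) (nat_lit 0) (nat_lit 0) (XT.nd (nat_lit 78) (nat_lit 684) (nat_lit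 0) (XT.lf (nat_lit 0) (nat_lit 1156461351) (nat_lit 684) (nat_lit 4824026583) (nat_lit 76) (nat_lit 8563910555) (nat_lit 59) (nat_lit 5) (nat_lit 68) (nat_lit 5) (nat_lit 60) (nat_lit 5) (nat_lit 271) (nat_lit 259) (nat_lit 190)) (XT.lf (nat_lit 0) (nat_lit 1377051583) (nat_lit 684) (nat_lit 964943173) (nat_lit 760) (nat_lit 12610480683) (nat_lit 50) (nat_lit 5) (nat_lit 59) (nat_lit 5) (nat_lit 60) (nat_lit 5) (nat_lit 272) (nat_lit 259) (nat_lit 189))) (XT.nd (nat_lit 78) (nat_lit 0) (nat_lit 0) (XT.lf (nat_lit 0) (nat_lit 3717341766) (nat_lit 760) (nat_lit 7408433581) (nat_lit 76) (nat_lit 4248748315) (nat_lit 50) (nat_lit 5) (nat_lit 60) (nat_lit 5) (nat_lit 51) (nat_lit 5) (nat_lit 273) (nat_lit 259) (nat_lit 188)) (XT.lf (nat_lit 0) (nat_lit 5158554708) (nat_lit 760) (nat_lit 966749958) (nat_lit 76) (nat_lit 9692604485) (nat_lit 50) (nat_lit 5) (nat_lit 60) (nat_lit 5) (nat_lit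 51) (nat_lit 5) (nat_lit 274) (nat_lit 259) (nat_lit 187)))) (XT.nd (nat_lit 156) (nat_lit 532) (nat_lit 0) (XT.nd (nat_lit 78) (nat_lit 0) (nat_lit 0) (XT.lf (nat_lit 0) (nat_lit 5971143711) (nat_lit 304) (nat_lit 776082150) (nat_lit 380) (nat_lit 9532553682) (nat_lit 46) (nat_lit 5) (nat_lit 50) (nat_lit 5) (nat_lit 51) (nat_lit 5) (nat_lit 275) (nat_lit 259) (nat_lit 186)) (XT.lf (nat_lit 0) (nat_lit 8490314240) (nat_lit 380) (nat_lit 3567938870) (nat_lit 76) (nat_lit 4702822599) (nat_lit 46) (nat_lit 5) (nat_lit 51) (nat_lit 5) (nat_lit 47) (nat_lit 5) (nat_lit 276) (nat_lit 259) (nat_lit 185))) (XT.nd (nat_lit 78) (nat_lit 228) (nat_lit 0) (XT.lf (nat_lit 0) (nat_lit 3595318432) (nat_lit 304) (nat_lit 6777682387) (nat_lit 380) (nat_lit 6890891232) (nat_lit 42) (nat_lit 5) (nat_lit 46) (nat_lit 5) (nat_lit 47) (nat_lit 5) (nat_lit 277) (nat_lit 259) (nat_lit 184)) (XT.nd (nat_lit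 78) (nat_lit 228) (nat_lit 0) (XT.lf (nat_lit 0) (nat_lit 11224056252) (nat_lit 304) (nat_lit 1170301453) (nat_lit 380) (nat_lit 5395338573) (nat_lit 42) (nat_lit 5) (nat_lit 46) (nat_lit 5) (nat_lit 47) (nat_lit 5) (nat_lit 278) (nat_lit 259) (nat_lit 183)) (XT.lf (nat_lit 0) (nat_lit 828730232) (nat_lit 228) (nat_lit 13759501532) (nat_lit 304) (nat_lit 3750056833) (nat_lit 39) (nat_lit 5) (nat_lit 42) (nat_lit 5) (nat_lit 43) (nat_lit 5) (nat_lit 279) (nat_lit 259) (nat_lit 182))))))) (XT.nd (nat_lit 624) (nat_lit 608) (nat_lit 0) (XT.nd (nat_lit 312) (nat_lit 456) (nat_lit 0) (XT.nd (nat_lit 156) (nat_lit 304) (nat_lit 0) (XT.nd (nat_lit 78) (nat_lit 76) (nat_lit 0) (XT.lf (nat_lit 0) (nat_lit 8784629066) (nat_lit 228) (nat_lit 8222562852) (nat_lit 304) (nat_lit 1901415992) (nat_lit 39) (nat_lit 5) (nat_lit 42) (nat_lit 5) (nat_lit 43) (nat_lit 5) (nat_lit 280) (nat_lit 259) (nat_lit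 181)) (XT.lf (nat_lit 0) (nat_lit 24119842) (nat_lit 304) (nat_lit 2385809661) (nat_lit 76) (nat_lit 17098256886) (nat_lit 38) (nat_lit 5) (nat_lit 42) (nat_lit 5) (nat_lit 39) (nat_lit 5) (nat_lit 281) (nat_lit 259) (nat_lit 180))) (XT.nd (nat_lit 78) (nat_lit 0) (nat_lit 0) (XT.lf (nat_lit 0) (nat_lit 2119916041) (nat_lit 380) (nat_lit 14310962596) (nat_lit 76) (nat_lit 3698470312) (nat_lit 34) (nat_lit 5) (nat_lit 39) (nat_lit 5) (nat_lit 35) (nat_lit 5) (nat_lit 282) (nat_lit 259) (nat_lit 179)) (XT.lf (nat_lit 0) (nat_lit 4387870533) (nat_lit 380) (nat_lit 6319839336) (nat_lit 76) (nat_lit 10070546462) (nat_lit 34) (nat_lit 5) (nat_lit 39) (nat_lit 5) (nat_lit 35) (nat_lit 5) (nat_lit 283) (nat_lit 259) (nat_lit 178)))) (XT.nd (nat_lit 156) (nat_lit 228) (nat_lit 0) (XT.nd (nat_lit 78) (nat_lit 0) (nat_lit 0) (XT.lf (nat_lit 0) (nat_lit 2123822704) (nat_lit 228) (nat_lit 4665981944)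 (nat_lit 304) (nat_lit 14668827835) (nat_lit 31) (nat_lit 5) (nat_lit 34) (nat_lit 5) (nat_lit 35) (nat_lit 5) (nat_lit 284) (nat_lit 259) (nat_lit 177)) (XT.lf (nat_lit 0) (nat_lit 9434567222) (nat_lit 304) (nat_lit 11001919675) (nat_lit 76) (nat_lit 1730453952) (nat_lit 31) (nat_lit 5) (nat_lit 35) (nat_lit 5) (nat_lit 32) (nat_lit 5) (nat_lit 285) (nat_lit 259) (nat_lit 176))) (XT.nd (nat_lit 78) (nat_lit 228) (nat_lit 0) (XT.lf (nat_lit 0) (nat_lit 12276394639) (nat_lit 304) (nat_lit 2343516439) (nat_lit 76) (nat_lit 8287559834) (nat_lit 31) (nat_lit 5) (nat_lit 35) (nat_lit 5) (nat_lit 32) (nat_lit 5) (nat_lit 286) (nat_lit 259) (nat_lit 175)) (XT.lf (nat_lit 0) (nat_lit 6956516189) (nat_lit 228) (nat_lit 8401298624) (nat_lit 304) (nat_lit 8322382942) (nat_lit 28) (nat_lit 5) (nat_lit 31) (nat_lit 5) (nat_lit 32) (nat_lit 5) (nat_lit 287) (nat_lit 259) (nat_lit 174))))) (XT.nd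 (nat_lit 312) (nat_lit 380) (nat_lit 0) (XT.nd (nat_lit 156) (nat_lit 76) (nat_lit 0) (XT.nd (nat_lit 78) (nat_lit 152) (nat_lit 0) (XT.lf (nat_lit 0) (nat_lit 16789194201) (nat_lit 228) (nat_lit 1833005895) (nat_lit 304) (nat_lit 5867959327) (nat_lit 28) (nat_lit 5) (nat_lit 31) (nat_lit 5) (nat_lit 32) (nat_lit 5) (nat_lit 288) (nat_lit 259) (nat_lit 173)) (XT.lf (nat_lit 0) (nat_lit 1735808787) (nat_lit 152) (nat_lit 20409831337) (nat_lit 228) (nat_lit 3190228408) (nat_lit 26) (nat_lit 5) (nat_lit 28) (nat_lit 5) (nat_lit 29) (nat_lit 5) (nat_lit 289) (nat_lit 259) (nat_lit 172))) (XT.nd (nat_lit 78) (nat_lit 76) (nat_lit 0) (XT.lf (nat_lit 0) (nat_lit 11867381449) (nat_lit 152) (nat_lit 14127814028) (nat_lit 228) (nat_lit 221209624) (nat_lit 26) (nat_lit 5) (nat_lit 28) (nat_lit 5) (nat_lit 29) (nat_lit 5) (nat_lit 290) (nat_lit 259) (nat_lit 171)) (XT.lf (nat_lit 0) (nat_lit 2793806084)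 (nat_lit 228) (nat_lit 4693733853) (nat_lit 76) (nat_lit 19651690937) (nat_lit 25) (nat_lit 5) (nat_lit 28) (nat_lit 5) (nat_lit 26) (nat_lit 5) (nat_lit 291) (nat_lit 259) (nat_lit 170)))) (XT.nd (nat_lit 156) (nat_lit 152) (nat_lit 0) (XT.nd (nat_lit 78) (nat_lit 0) (nat_lit 0) (XT.lf (nat_lit 0) (nat_lit 5607719562) (nat_lit 228) (nat_lit 422680090) (nat_lit 304) (nat_lit 22073737742) (nat_lit 22) (nat_lit 5) (nat_lit 25) (nat_lit 5) (nat_lit 26) (nat_lit 5) (nat_lit 292) (nat_lit 259) (nat_lit 169)) (XT.lf (nat_lit 0) (nat_lit 9609744663) (nat_lit 304) (nat_lit 12649324142) (nat_lit 76) (nat_lit 6849206575) (nat_lit 22) (nat_lit 5) (nat_lit 26) (nat_lit 5) (nat_lit 23) (nat_lit 5) (nat_lit 293) (nat_lit 259) (nat_lit 168))) (XT.nd (nat_lit 78) (nat_lit 152) (nat_lit 0) (XT.lf (nat_lit 0) (nat_lit 13366328803) (nat_lit 304) (nat_lit 2328890322) (nat_lit 76) (nat_lit 14467518239)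 (nat_lit 22) (nat_lit 5) (nat_lit 26) (nat_lit 5) (nat_lit 23) (nat_lit 5) (nat_lit 294) (nat_lit 259) (nat_lit 167)) (XT.nd (nat_lit 78) (nat_lit 0) (nat_lit 0) (XT.lf (nat_lit 0) (nat_lit 8776973266) (nat_lit 152) (nat_lit 8662556982) (nat_lit 228) (nat_lit 13823982026) (nat_lit 20) (nat_lit 5) (nat_lit 22) (nat_lit 5) (nat_lit 23) (nat_lit 5) (nat_lit 295) (nat_lit 259) (nat_lit 166)) (XT.lf (nat_lit 0) (nat_lit 20507659612) (nat_lit 152) (nat_lit 1240143805) (nat_lit 228) (nat_lit 10669979768) (nat_lit 20) (nat_lit 5) (nat_lit 22) (nat_lit 5) (nat_lit 23) (nat_lit 5) (nat_lit 296) (nat_lit 259) (nat_lit 165))))))))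
noncomputable def xc172 : XT := (XT.nd (nat_lit 1248) (nat_lit 304) (nat_lit 0) (XT.nd (nat_lit 624) (nat_lit 304) (nat_lit 0) (XT.nd (nat_lit 312) (nat_lit 304) (nat_lit 0) (XT.nd (nat_lit 156) (nat_lit 76) (nat_lit 0) (XT.nd (nat_lit 78) (nat_lit 152) (nat_lit 0) (XT.lf (nat_lit 0) (nat_lit 26366111146) (nat_lit 228) (nat_lit 918349001) (nat_lit 76) (nat_lit 6340602962) (nat_lit 20) (nat_lit 5) (nat_lit 23) (nat_lit 5) (nat_lit 21) (nat_lit 5) (nat_lit 297) (nat_lit 259) (nat_lit 164)) (XT.lf (nat_lit 0) (nat_lit 10942291596) (nat_lit 152) (nat_lit 20456883315) (nat_lit 228) (nat_lit 3484365337) (nat_lit 18) (nat_lit 5) (nat_lit 20) (nat_lit 5) (nat_lit 21) (nat_lit 5) (nat_lit 298) (nat_lit 259) (nat_lit 163))) (XT.nd (nat_lit 78) (nat_lit 0) (nat_lit 0) (XT.lf (nat_lit 0) (nat_lit 472145036) (nat_lit 228) (nat_lit 12794755792) (nat_lit 76) (nat_lit 22937263240) (nat_lit 17) (nat_lit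 5) (nat_lit 20) (nat_lit 5) (nat_lit 18) (nat_lit 5) (nat_lit 299) (nat_lit 259) (nat_lit 162)) (XT.lf (nat_lit 0) (nat_lit 4502446433) (nat_lit 228) (nat_lit 1158255877) (nat_lit 76) (nat_lit 31927629394) (nat_lit 17) (nat_lit 5) (nat_lit 20) (nat_lit 5) (nat_lit 18) (nat_lit 5) (nat_lit 300) (nat_lit 259) (nat_lit 161)))) (XT.nd (nat_lit 156) (nat_lit 152) (nat_lit 0) (XT.nd (nat_lit 78) (nat_lit 0) (nat_lit 0) (XT.lf (nat_lit 0) (nat_lit 8945073545) (nat_lit 228) (nat_lit 27656600471) (nat_lit 76) (nat_lit 2429513946) (nat_lit 15) (nat_lit 5) (nat_lit 18) (nat_lit 5) (nat_lit 16) (nat_lit 5) (nat_lit 301) (nat_lit 259) (nat_lit 160)) (XT.lf (nat_lit 0) (nat_lit 13716077781) (nat_lit 228) (nat_lit 16073889043) (nat_lit 76) (nat_lit 10750927706) (nat_lit 15) (nat_lit 5) (nat_lit 18) (nat_lit 5) (nat_lit 16) (nat_lit 5) (nat_lit 302) (nat_lit 259) (nat_lit 159))) (XT.nd (nat_lit 78)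 (nat_lit 152) (nat_lit 0) (XT.lf (nat_lit 0) (nat_lit 18719451445) (nat_lit 228) (nat_lit 3921420979) (nat_lit 76) (nat_lit 19485541883) (nat_lit 15) (nat_lit 5) (nat_lit 18) (nat_lit 5) (nat_lit 16) (nat_lit 5) (nat_lit 303) (nat_lit 259) (nat_lit 158)) (XT.lf (nat_lit 0) (nat_lit 9121689187) (nat_lit 152) (nat_lit 14987833276) (nat_lit 228) (nat_lit 19674879122) (nat_lit 13) (nat_lit 5) (nat_lit 15) (nat_lit 5) (nat_lit 16) (nat_lit 5) (nat_lit 304) (nat_lit 259) (nat_lit 157))))) (XT.nd (nat_lit 312) (nat_lit 228) (nat_lit 0) (XT.nd (nat_lit 156) (nat_lit 76) (nat_lit 0) (XT.nd (nat_lit 78) (nat_lit 0) (nat_lit 0) (XT.lf (nat_lit 0) (nat_lit 22944309494) (nat_lit 152) (nat_lit 6885455339) (nat_lit 228) (nat_lit 15692507096) (nat_lit 13) (nat_lit 5) (nat_lit 15) (nat_lit 5) (nat_lit 16) (nat_lit 5) (nat_lit 305) (nat_lit 259) (nat_lit 156)) (XT.lf (nat_lit 0) (nat_lit 35855828791)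 (nat_lit 228) (nat_lit 9922913843) (nat_lit 76) (nat_lit 1567318958) (nat_lit 13) (nat_lit 5) (nat_lit 16) (nat_lit 5) (nat_lit 14) (nat_lit 4) (nat_lit 306) (nat_lit 259) (nat_lit 155))) (XT.nd (nat_lit 78) (nat_lit 0) (nat_lit 0) (XT.lf (nat_lit 0) (nat_lit 3351061710) (nat_lit 76) (nat_lit 38992077500) (nat_lit 152) (nat_lit 6909919867) (nat_lit 12) (nat_lit 5) (nat_lit 13) (nat_lit 5) (nat_lit 14) (nat_lit 4) (nat_lit 307) (nat_lit 259) (nat_lit 154)) (XT.lf (nat_lit 0) (nat_lit 17625165472) (nat_lit 76) (nat_lit 31692570605) (nat_lit 152) (nat_lit 1929539076) (nat_lit 12) (nat_lit 5) (nat_lit 13) (nat_lit 5) (nat_lit 14) (nat_lit 4) (nat_lit 308) (nat_lit 259) (nat_lit 153)))) (XT.nd (nat_lit 156) (nat_lit 152) (nat_lit 0) (XT.nd (nat_lit 78) (nat_lit 0) (nat_lit 0) (XT.lf (nat_lit 0) (nat_lit 3189266712) (nat_lit 152) (nat_lit 20787613031) (nat_lit 76) (nat_lit 29362008573) (nat_lit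 11) (nat_lit 5) (nat_lit 13) (nat_lit 5) (nat_lit 12) (nat_lit 5) (nat_lit 309) (nat_lit 259) (nat_lit 152)) (XT.lf (nat_lit 0) (nat_lit 8494426777) (nat_lit 152) (nat_lit 7350514140) (nat_lit 76) (nat_lit 39688809424) (nat_lit 11) (nat_lit 5) (nat_lit 13) (nat_lit 5) (nat_lit 12) (nat_lit 5) (nat_lit 310) (nat_lit 259) (nat_lit 151))) (XT.nd (nat_lit 78) (nat_lit 0) (nat_lit 0) (XT.lf (nat_lit 0) (nat_lit 6974534247) (nat_lit 152) (nat_lit 7194687532) (nat_lit 228) (nat_lit 43663926991) (nat_lit 9) (nat_lit 5) (nat_lit 11) (nat_lit 5) (nat_lit 12) (nat_lit 5) (nat_lit 311) (nat_lit 259) (nat_lit 150)) (XT.lf (nat_lit 0) (nat_lit 20279309558) (nat_lit 228) (nat_lit 38008993859) (nat_lit 76) (nat_lit 1951647618) (nat_lit 9) (nat_lit 5) (nat_lit 12) (nat_lit 5) (nat_lit 10) (nat_lit 4) (nat_lit 312) (nat_lit 259) (nat_lit 149)))))) (XT.nd (nat_lit 624) (nat_lit 152) (nat_lit 0) (XT.nd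 (nat_lit 312) (nat_lit 76) (nat_lit 0) (XT.nd (nat_lit 156) (nat_lit 76) (nat_lit 0) (XT.nd (nat_lit 78) (nat_lit 0) (nat_lit 0) (XT.lf (nat_lit 0) (nat_lit 26808608933) (nat_lit 228) (nat_lit 24641704854) (nat_lit 76) (nat_lit 11311105283) (nat_lit 9) (nat_lit 5) (nat_lit 12) (nat_lit 5) (nat_lit 10) (nat_lit 4) (nat_lit 313) (nat_lit 259) (nat_lit 148)) (XT.lf (nat_lit 0) (nat_lit 33660336619) (nat_lit 228) (nat_lit 10612591394) (nat_lit 76) (nat_lit 21136244817) (nat_lit 9) (nat_lit 5) (nat_lit 12) (nat_lit 5) (nat_lit 10) (nat_lit 4) (nat_lit 314) (nat_lit 259) (nat_lit 147))) (XT.nd (nat_lit 78) (nat_lit 0) (nat_lit 0) (XT.lf (nat_lit 0) (nat_lit 4247702166) (nat_lit 76) (nat_lit 36669422624) (nat_lit 152) (nat_lit 27269075779) (nat_lit 8) (nat_lit 5) (nat_lit 9) (nat_lit 5) (nat_lit 10) (nat_lit 4) (nat_lit 315) (nat_lit 259) (nat_lit 146)) (XT.lf (nat_lit 0) (nat_lit 20213327508)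 (nat_lit 76) (nat_lit 28499397188) (nat_lit 152) (nat_lit 22380565897) (nat_lit 8) (nat_lit 5) (nat_lit 9) (nat_lit 5) (nat_lit 10) (nat_lit 4) (nat_lit 316) (nat_lit 259) (nat_lit 145)))) (XT.nd (nat_lit 156) (nat_lit 76) (nat_lit 0) (XT.nd (nat_lit 78) (nat_lit 0) (nat_lit 0) (XT.lf (nat_lit 0) (nat_lit 36971397824) (nat_lit 76) (nat_lit 19923128636) (nat_lit 152) (nat_lit 17251396629) (nat_lit 8) (nat_lit 5) (nat_lit 9) (nat_lit 5) (nat_lit 10) (nat_lit 4) (nat_lit 317) (nat_lit 259) (nat_lit 144)) (XT.lf (nat_lit 0) (nat_lit 54561813283) (nat_lit 76) (nat_lit 10920197281) (nat_lit 152) (nat_lit 11869355666) (nat_lit 8) (nat_lit 5) (nat_lit 9) (nat_lit 5) (nat_lit 10) (nat_lit 4) (nat_lit 318) (nat_lit 259) (nat_lit 143))) (XT.nd (nat_lit 78) (nat_lit 76) (nat_lit 0) (XT.lf (nat_lit 0) (nat_lit 73026455826) (nat_lit 76) (nat_lit 1469167571) (nat_lit 152) (nat_lit 6221628625) (nat_lit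 8) (nat_lit 5) (nat_lit 9) (nat_lit 5) (nat_lit 10) (nat_lit 4) (nat_lit 319) (nat_lit 259) (nat_lit 142)) (XT.lf (nat_lit 0) (nat_lit 8291094576) (nat_lit 76) (nat_lit 75927145223) (nat_lit 76) (nat_lit 20283988) (nat_lit 7) (nat_lit 4) (nat_lit 8) (nat_lit 5) (nat_lit 8) (nat_lit 4) (nat_lit 320) (nat_lit 259) (nat_lit 141))))) (XT.nd (nat_lit 312) (nat_lit 76) (nat_lit 0) (XT.nd (nat_lit 156) (nat_lit 0) (nat_lit 0) (XT.nd (nat_lit 78) (nat_lit 0) (nat_lit 0) (XT.lf (nat_lit 0) (nat_lit 6436729049) (nat_lit 152) (nat_lit 62723024421) (nat_lit 76) (nat_lit 18763377647) (nat_lit 6) (nat_lit 5) (nat_lit 8) (nat_lit 5) (nat_lit 7) (nat_lit 4) (nat_lit 321) (nat_lit 259) (nat_lit 140)) (XT.lf (nat_lit 0) (nat_lit 13212949663) (nat_lit 152) (nat_lit 48842684295) (nat_lit 76) (nat_lit 29736473062) (nat_lit 6) (nat_lit 5) (nat_lit 8) (nat_lit 5) (nat_lit 7) (nat_lit 4) (nat_lit 322) (nat_lit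 259) (nat_lit 139))) (XT.nd (nat_lit 78) (nat_lit 0) (nat_lit 0) (XT.lf (nat_lit 0) (nat_lit 20325160924) (nat_lit 152) (nat_lit 34273043717) (nat_lit 76) (nat_lit 41256474539) (nat_lit 6) (nat_lit 5) (nat_lit 8) (nat_lit 5) (nat_lit 7) (nat_lit 4) (nat_lit 323) (nat_lit 259) (nat_lit 138)) (XT.lf (nat_lit 0) (nat_lit 27790296669) (nat_lit 152) (nat_lit 18979413065) (nat_lit 76) (nat_lit 53350810652) (nat_lit 6) (nat_lit 5) (nat_lit 8) (nat_lit 5) (nat_lit 7) (nat_lit 4) (nat_lit 324) (nat_lit 259) (nat_lit 137)))) (XT.nd (nat_lit 156) (nat_lit 0) (nat_lit 0) (XT.nd (nat_lit 78) (nat_lit 76) (nat_lit 0) (XT.lf (nat_lit 0) (nat_lit 35626131031) (nat_lit 152) (nat_lit 2925378933) (nat_lit 76) (nat_lit 66048277439) (nat_lit 6) (nat_lit 5) (nat_lit 8) (nat_lit 5) (nat_lit 7) (nat_lit 4) (nat_lit 325) (nat_lit 259) (nat_lit 136)) (XT.lf (nat_lit 0) (nat_lit 14387781428) (nat_lit 76) (nat_lit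 29688172920) (nat_lit 152) (nat_lit 65215959126) (nat_lit 5) (nat_lit 5) (nat_lit 6) (nat_lit 5) (nat_lit 7) (nat_lit 4) (nat_lit 326) (nat_lit 259) (nat_lit 135))) (XT.nd (nat_lit 78) (nat_lit 0) (nat_lit 0) (XT.lf (nat_lit 0) (nat_lit 32664153737) (nat_lit 76) (nat_lit 20331274878) (nat_lit 152) (nat_lit 61220864541) (nat_lit 5) (nat_lit 5) (nat_lit 6) (nat_lit 5) (nat_lit 7) (nat_lit 4) (nat_lit 327) (nat_lit 259) (nat_lit 134)) (XT.nd (nat_lit 78) (nat_lit 0) (nat_lit 0) (XT.lf (nat_lit 0) (nat_lit 51850526929) (nat_lit 76) (nat_lit 10508080220) (nat_lit 152) (nat_lit 57028403195) (nat_lit 5) (nat_lit 5) (nat_lit 6) (nat_lit 5) (nat_lit 7) (nat_lit 4) (nat_lit 328) (nat_lit 259) (nat_lit 133)) (XT.lf (nat_lit 0) (nat_lit 71992582842) (nat_lit 76) (nat_lit 195200385) (nat_lit 152) (nat_lit 52628593038) (nat_lit 5) (nat_lit 5) (nat_lit 6) (nat_lit 5) (nat_lit 7) (nat_lit 4) (nat_lit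 329) (nat_lit 259) (nat_lit 132))))))))
noncomputable def xc173 : XT := (XT.nd (nat_lit 1326) (nat_lit 0) (nat_lit 0) (XT.nd (nat_lit 624) (nat_lit 152) (nat_lit 0) (XT.nd (nat_lit 312) (nat_lit 0) (nat_lit 0) (XT.nd (nat_lit 156) (nat_lit 76) (nat_lit 0) (XT.nd (nat_lit 78) (nat_lit 0) (nat_lit 0) (XT.lf (nat_lit 0) (nat_lit 82672353707) (nat_lit 152) (nat_lit 37545033284) (nat_lit 0) (nat_lit 10291631291) (nat_lit 5) (nat_lit 5) (nat_lit 7) (nat_lit 4) (nat_lit 5) (nat_lit 4) (nat_lit 330) (nat_lit 259) (nat_lit 131)) (XT.lf (nat_lit 0) (nat_lit 93682371399) (nat_lit 152) (nat_lit 21508914546) (nat_lit 0) (nat_lit 21294949880) (nat_lit 5) (nat_lit 5) (nat_lit 7) (nat_lit 4) (nat_lit 5) (nat_lit 4) (nat_lit 331) (nat_lit 259) (nat_lit 130))) (XT.nd (nat_lit 78) (nat_lit 76) (nat_lit 0) (XT.lf (nat_lit 0) (nat_lit 105241003006) (nat_lit 152) (nat_lit 4674208349) (nat_lit 0) (nat_lit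 32847201390) (nat_lit 5) (nat_lit 5) (nat_lit 7) (nat_lit 4) (nat_lit 5) (nat_lit 4) (nat_lit 332) (nat_lit 259) (nat_lit 129)) (XT.lf (nat_lit 0) (nat_lit 13428979138) (nat_lit 76) (nat_lit 104156453942) (nat_lit 76) (nat_lit 31756576042) (nat_lit 4) (nat_lit 4) (nat_lit 5) (nat_lit 5) (nat_lit 5) (nat_lit 4) (nat_lit 333) (nat_lit 259) (nat_lit 128)))) (XT.nd (nat_lit 156) (nat_lit 0) (nat_lit 0) (XT.nd (nat_lit 78) (nat_lit 0) (nat_lit 0) (XT.lf (nat_lit 0) (nat_lit 32596588180) (nat_lit 76) (nat_lit 98027897835) (nat_lit 76) (nat_lit 25622232999) (nat_lit 4) (nat_lit 4) (nat_lit 5) (nat_lit 5) (nat_lit 5) (nat_lit 4) (nat_lit 334) (nat_lit 259) (nat_lit 127)) (XT.lf (nat_lit 0) (nat_lit 52719705505) (nat_lit 76) (nat_lit 91594111216) (nat_lit 76) (nat_lit 19182935012) (nat_lit 4) (nat_lit 4) (nat_lit 5) (nat_lit 5) (nat_lit 5) (nat_lit 4) (nat_lit 335) (nat_lit 259) (nat_lit 126)))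 (XT.nd (nat_lit 78) (nat_lit 0) (nat_lit 0) (XT.lf (nat_lit 0) (nat_lit 73846243297) (nat_lit 76) (nat_lit 84839775545) (nat_lit 76) (nat_lit 12423350418) (nat_lit 4) (nat_lit 4) (nat_lit 5) (nat_lit 5) (nat_lit 5) (nat_lit 4) (nat_lit 336) (nat_lit 259) (nat_lit 125)) (XT.lf (nat_lit 0) (nat_lit 96026502835) (nat_lit 76) (nat_lit 77748809070) (nat_lit 76) (nat_lit 5327384970) (nat_lit 4) (nat_lit 4) (nat_lit 5) (nat_lit 5) (nat_lit 5) (nat_lit 4) (nat_lit 337) (nat_lit 259) (nat_lit 124))))) (XT.nd (nat_lit 312) (nat_lit 76) (nat_lit 0) (XT.nd (nat_lit 156) (nat_lit 0) (nat_lit 0) (XT.nd (nat_lit 78) (nat_lit 0) (nat_lit 0) (XT.lf (nat_lit 0) (nat_lit 2053943830) (nat_lit 152) (nat_lit 68215600174) (nat_lit 76) (nat_lit 117224565898) (nat_lit 3) (nat_lit 5) (nat_lit 5) (nat_lit 5) (nat_lit 4) (nat_lit 4) (nat_lit 338) (nat_lit 259) (nat_lit 123)) (XT.lf (nat_lit 0) (nat_lit 9623900631)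 (nat_lit 152) (nat_lit 52701722948) (nat_lit 76) (nat_lit 133975176273) (nat_lit 3) (nat_lit 5) (nat_lit 5) (nat_lit 5) (nat_lit 4) (nat_lit 4) (nat_lit 339) (nat_lit 259) (nat_lit 122))) (XT.nd (nat_lit 78) (nat_lit 0) (nat_lit 0) (XT.lf (nat_lit 0) (nat_lit 17571018729) (nat_lit 152) (nat_lit 36414449150) (nat_lit 76) (nat_lit 151562425924) (nat_lit 3) (nat_lit 5) (nat_lit 5) (nat_lit 5) (nat_lit 4) (nat_lit 4) (nat_lit 340) (nat_lit 259) (nat_lit 121)) (XT.lf (nat_lit 0) (nat_lit 25914219832) (nat_lit 152) (nat_lit 19314999556) (nat_lit 76) (nat_lit 170028189257) (nat_lit 3) (nat_lit 5) (nat_lit 5) (nat_lit 5) (nat_lit 4) (nat_lit 4) (nat_lit 341) (nat_lit 259) (nat_lit 120)))) (XT.nd (nat_lit 156) (nat_lit 0) (nat_lit 0) (XT.nd (nat_lit 78) (nat_lit 76) (nat_lit 0) (XT.lf (nat_lit 0) (nat_lit 34673368706) (nat_lit 152) (nat_lit 1362661191) (nat_lit 76) (nat_lit 189416432374) (nat_lit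 3) (nat_lit 5) (nat_lit 5) (nat_lit 5) (nat_lit 4) (nat_lit 4) (nat_lit 342) (nat_lit 259) (nat_lit 119)) (XT.lf (nat_lit 0) (nat_lit 18063452908) (nat_lit 76) (nat_lit 26087888680) (nat_lit 152) (nat_lit 191991885973) (nat_lit 2) (nat_lit 5) (nat_lit 3) (nat_lit 5) (nat_lit 4) (nat_lit 4) (nat_lit 343) (nat_lit 259) (nat_lit 118))) (XT.nd (nat_lit 78) (nat_lit 0) (nat_lit 0) (XT.lf (nat_lit 0) (nat_lit 38506228756) (nat_lit 76) (nat_lit 15618931625) (nat_lit 152) (nat_lit 193242275575) (nat_lit 2) (nat_lit 5) (nat_lit 3) (nat_lit 5) (nat_lit 4) (nat_lit 4) (nat_lit 344) (nat_lit 259) (nat_lit 117)) (XT.nd (nat_lit 78) (nat_lit 0) (nat_lit 0) (XT.lf (nat_lit 0) (nat_lit 59969283895) (nat_lit 76) (nat_lit 4627309970) (nat_lit 152) (nat_lit 194556316816) (nat_lit 2) (nat_lit 5) (nat_lit 3) (nat_lit 5) (nat_lit 4) (nat_lit 4) (nat_lit 345) (nat_lit 259) (nat_lit 116)) (XT.lf (nat_lit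 0) (nat_lit 75698507619) (nat_lit 152) (nat_lit 189131925147) (nat_lit 0) (nat_lit 6691882941) (nat_lit 2) (nat_lit 5) (nat_lit 4) (nat_lit 4) (nat_lit 2) (nat_lit 4) (nat_lit 346) (nat_lit 259) (nat_lit 115))))))) (XT.nd (nat_lit 30732) (nat_lit 0) (nat_lit 4712) (XT.nd (nat_lit 312) (nat_lit 0) (nat_lit 0) (XT.nd (nat_lit 156) (nat_lit 0) (nat_lit 0) (XT.nd (nat_lit 78) (nat_lit 0) (nat_lit 0) (XT.lf (nat_lit 0) (nat_lit 87430387320) (nat_lit 152) (nat_lit 178655222210) (nat_lit 0) (nat_lit 18420839846) (nat_lit 2) (nat_lit 5) (nat_lit 4) (nat_lit 4) (nat_lit 2) (nat_lit 4) (nat_lit 347) (nat_lit 259) (nat_lit 114)) (XT.lf (nat_lit 0) (nat_lit 99747920738) (nat_lit 152) (nat_lit 167656328166) (nat_lit 0) (nat_lit 30735589648) (nat_lit 2) (nat_lit 5) (nat_lit 4) (nat_lit 4) (nat_lit 2) (nat_lit 4) (nat_lit 348) (nat_lit 259) (nat_lit 113))) (XT.nd (nat_lit 78) (nat_lit 0) (nat_lit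 0) (XT.lf (nat_lit 0) (nat_lit 112680435333) (nat_lit 152) (nat_lit 156109055173) (nat_lit 0) (nat_lit 43665453181) (nat_lit 2) (nat_lit 5) (nat_lit 4) (nat_lit 4) (nat_lit 2) (nat_lit 4) (nat_lit 349) (nat_lit 259) (nat_lit 112)) (XT.lf (nat_lit 0) (nat_lit 126258722807) (nat_lit 152) (nat_lit 143985909723) (nat_lit 0) (nat_lit 57241215834) (nat_lit 2) (nat_lit 5) (nat_lit 4) (nat_lit 4) (nat_lit 2) (nat_lit 4) (nat_lit 350) (nat_lit 259) (nat_lit 111)))) (XT.nd (nat_lit 156) (nat_lit 0) (nat_lit 0) (XT.nd (nat_lit 78) (nat_lit 0) (nat_lit 0) (XT.lf (nat_lit 0) (nat_lit 140515112416) (nat_lit 152) (nat_lit 131258027185) (nat_lit 0) (nat_lit 71495200851) (nat_lit 2) (nat_lit 5) (nat_lit 4) (nat_lit 4) (nat_lit 2) (nat_lit 4) (nat_lit 351) (nat_lit 259) (nat_lit 110)) (XT.lf (nat_lit 0) (nat_lit 155483547945) (nat_lit 152) (nat_lit 117895103077) (nat_lit 0) (nat_lit 86461346292) (nat_lit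 2) (nat_lit 5) (nat_lit 4) (nat_lit 4) (nat_lit 2) (nat_lit 4) (nat_lit 352) (nat_lit 259) (nat_lit 109))) (XT.nd (nat_lit 78) (nat_lit 0) (nat_lit 0) (XT.lf (nat_lit 0) (nat_lit 171199668525) (nat_lit 152) (nat_lit 103865320911) (nat_lit 0) (nat_lit 102175285837) (nat_lit 2) (nat_lit 5) (nat_lit 4) (nat_lit 4) (nat_lit 2) (nat_lit 4) (nat_lit 353) (nat_lit 259) (nat_lit 108)) (XT.lf (nat_lit 0) (nat_lit 187700893492) (nat_lit 152) (nat_lit 89135276446) (nat_lit 0) (nat_lit 118674433627) (nat_lit 2) (nat_lit 5) (nat_lit 4) (nat_lit 4) (nat_lit 2) (nat_lit 4) (nat_lit 354) (nat_lit 259) (nat_lit 107))))) (XT.nd (nat_lit 312) (nat_lit 0) (nat_lit 76) (XT.nd (nat_lit 156) (nat_lit 0) (nat_lit 76) (XT.nd (nat_lit 78) (nat_lit 0) (nat_lit 0) (XT.lf (nat_lit 0) (nat_lit 2321378912) (nat_lit 684) (nat_lit 1665022038) (nat_lit 684) (nat_lit 1665022038) (nat_lit 64) (nat_lit 3) (nat_lit 73)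 (nat_lit 3) (nat_lit 73) (nat_lit 5) (nat_lit 260) (nat_lit 260) (nat_lit 200)) (XT.lf (nat_lit 76) (nat_lit 1236295084) (nat_lit 0) (nat_lit 4009408108) (nat_lit 684) (nat_lit 6312851259) (nat_lit 65) (nat_lit 5) (nat_lit 64) (nat_lit 3) (nat_lit 73) (nat_lit 5) (nat_lit 261) (nat_lit 260) (nat_lit 199))) (XT.nd (nat_lit 78) (nat_lit 0) (nat_lit 0) (XT.lf (nat_lit 0) (nat_lit 5908523018) (nat_lit 608) (nat_lit 5699169282) (nat_lit 684) (nat_lit 218030926) (nat_lit 65) (nat_lit 5) (nat_lit 73) (nat_lit 5) (nat_lit 74) (nat_lit 5) (nat_lit 262) (nat_lit 260) (nat_lit 198)) (XT.lf (nat_lit 0) (nat_lit 6641670110) (nat_lit 608) (nat_lit 927989313) (nat_lit 684) (nat_lit 4534885262) (nat_lit 65) (nat_lit 5) (nat_lit 73) (nat_lit 5) (nat_lit 74) (nat_lit 5) (nat_lit 263) (nat_lit 260) (nat_lit 197)))) (XT.nd (nat_lit 156) (nat_lit 0) (nat_lit 76) (XT.nd (nat_lit 78) (nat_lit 0) (nat_lit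 76) (XT.lf (nat_lit 76) (nat_lit 4199653734) (nat_lit 0) (nat_lit 3250206590) (nat_lit 684) (nat_lit 4945673854) (nat_lit 66) (nat_lit 5) (nat_lit 65) (nat_lit 5) (nat_lit 74) (nat_lit 5) (nat_lit 264) (nat_lit 260) (nat_lit 196)) (XT.lf (nat_lit 0) (nat_lit 8308512211) (nat_lit 608) (nat_lit 3122559882) (nat_lit 684) (nat_lit 1269637728) (nat_lit 66) (nat_lit 5) (nat_lit 74) (nat_lit 5) (nat_lit 75) (nat_lit 5) (nat_lit 265) (nat_lit 260) (nat_lit 195))) (XT.nd (nat_lit 78) (nat_lit 0) (nat_lit 0) (XT.lf (nat_lit 76) (nat_lit 2204713369) (nat_lit 0) (nat_lit 7068337349) (nat_lit 684) (nat_lit 3745078476) (nat_lit 67) (nat_lit 5) (nat_lit 66) (nat_lit 5) (nat_lit 75) (nat_lit 5) (nat_lit 266) (nat_lit 260) (nat_lit 194)) (XT.nd (nat_lit 78) (nat_lit 0) (nat_lit 76) (XT.lf (nat_lit 76) (nat_lit 7890036778) (nat_lit 0) (nat_lit 2424829122) (nat_lit 684) (nat_lit 3035227485) (nat_lit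 67) (nat_lit 5) (nat_lit 66) (nat_lit 5) (nat_lit 75) (nat_lit 5) (nat_lit 267) (nat_lit 260) (nat_lit 193)) (XT.lf (nat_lit 76) (nat_lit 108905127) (nat_lit 0) (nat_lit 11317240024) (nat_lit 684) (nat_lit 2271762287) (nat_lit 68) (nat_lit 5) (nat_lit 67) (nat_lit 5) (nat_lit 76) (nat_lit 5) (nat_lit 268) (nat_lit 260) (nat_lit 192))))))))
noncomputable def xc174 : XT := (XT.nd (nat_lit 1326) (nat_lit 1216) (nat_lit 0) (XT.nd (nat_lit 624) (nat_lit 1140) (nat_lit 0) (XT.nd (nat_lit 312) (nat_lit 988) (nat_lit 0) (XT.nd (nat_lit 156) (nat_lit 608) (nat_lit 0) (XT.nd (nat_lit 78) (nat_lit 0) (nat_lit 0) (XT.lf (nat_lit 76) (nat_lit 6087802563) (nat_lit 0) (nat_lit 6614983197) (nat_lit 684) (nat_lit 1354951153) (nat_lit 68) (nat_lit 5) (nat_lit 67) (nat_lit 5) (nat_lit 76) (nat_lit 5) (nat_lit 269) (nat_lit 260) (nat_lit 191)) (XT.lf (nat_lit 76) (nat_lit 12349447186) (nat_lit 0) (nat_lit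 1673066972) (nat_lit 684) (nat_lit 414190047) (nat_lit 68) (nat_lit 5) (nat_lit 67) (nat_lit 5) (nat_lit 76) (nat_lit 5) (nat_lit 270) (nat_lit 260) (nat_lit 190))) (XT.nd (nat_lit 78) (nat_lit 0) (nat_lit 0) (XT.lf (nat_lit 0) (nat_lit 656801579) (nat_lit 684) (nat_lit 10689386353) (nat_lit 76) (nat_lit 3483005558) (nat_lit 59) (nat_lit 5) (nat_lit 68) (nat_lit 5) (nat_lit 60) (nat_lit 5) (nat_lit 271) (nat_lit 260) (nat_lit 189)) (XT.lf (nat_lit 0) (nat_lit 1811365389) (nat_lit 684) (nat_lit 4540701648) (nat_lit 76) (nat_lit 8886797868) (nat_lit 59) (nat_lit 5) (nat_lit 68) (nat_lit 5) (nat_lit 60) (nat_lit 5) (nat_lit 272) (nat_lit 260) (nat_lit 188)))) (XT.nd (nat_lit 156) (nat_lit 304) (nat_lit 0) (XT.nd (nat_lit 78) (nat_lit 0) (nat_lit 0) (XT.lf (nat_lit 0) (nat_lit 1961970325) (nat_lit 684) (nat_lit 1073829951) (nat_lit 760) (nat_lit 12632702256) (nat_lit 50) (nat_lit 5) (nat_lit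 59) (nat_lit 5) (nat_lit 60) (nat_lit 5) (nat_lit 273) (nat_lit 260) (nat_lit 187)) (XT.lf (nat_lit 0) (nat_lit 4451550785) (nat_lit 760) (nat_lit 7256369930) (nat_lit 76) (nat_lit 4405282138) (nat_lit 50) (nat_lit 5) (nat_lit 60) (nat_lit 5) (nat_lit 51) (nat_lit 5) (nat_lit 274) (nat_lit 260) (nat_lit 186))) (XT.nd (nat_lit 78) (nat_lit 304) (nat_lit 0) (XT.lf (nat_lit 0) (nat_lit 5938712854) (nat_lit 760) (nat_lit 517482380) (nat_lit 76) (nat_lit 10123993192) (nat_lit 50) (nat_lit 5) (nat_lit 60) (nat_lit 5) (nat_lit 51) (nat_lit 5) (nat_lit 275) (nat_lit 260) (nat_lit 185)) (XT.lf (nat_lit 0) (nat_lit 6759280084) (nat_lit 304) (nat_lit 830313069) (nat_lit 380) (nat_lit 9476539675) (nat_lit 46) (nat_lit 5) (nat_lit 50) (nat_lit 5) (nat_lit 51) (nat_lit 5) (nat_lit 276) (nat_lit 260) (nat_lit 184))))) (XT.nd (nat_lit 312) (nat_lit 608) (nat_lit 0) (XT.nd (nat_lit 156) (nat_lit 228)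 (nat_lit 0) (XT.nd (nat_lit 78) (nat_lit 304) (nat_lit 0) (XT.lf (nat_lit 0) (nat_lit 9395558660) (nat_lit 380) (nat_lit 3253520827) (nat_lit 76) (nat_lit 4923741769) (nat_lit 46) (nat_lit 5) (nat_lit 51) (nat_lit 5) (nat_lit 47) (nat_lit 5) (nat_lit 277) (nat_lit 260) (nat_lit 183)) (XT.lf (nat_lit 0) (nat_lit 4259950711) (nat_lit 304) (nat_lit 7097107137) (nat_lit 380) (nat_lit 6744594835) (nat_lit 42) (nat_lit 5) (nat_lit 46) (nat_lit 5) (nat_lit 47) (nat_lit 5) (nat_lit 278) (nat_lit 260) (nat_lit 182))) (XT.nd (nat_lit 78) (nat_lit 228) (nat_lit 0) (XT.lf (nat_lit 0) (nat_lit 12247036548) (nat_lit 304) (nat_lit 1210283792) (nat_lit 380) (nat_lit 5197637923) (nat_lit 42) (nat_lit 5) (nat_lit 46) (nat_lit 5) (nat_lit 47) (nat_lit 5) (nat_lit 279) (nat_lit 260) (nat_lit 181)) (XT.lf (nat_lit 0) (nat_lit 1348043660) (nat_lit 228) (nat_lit 14399474117) (nat_lit 304) (nat_lit 3484229061)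 (nat_lit 39) (nat_lit 5) (nat_lit 42) (nat_lit 5) (nat_lit 43) (nat_lit 5) (nat_lit 280) (nat_lit 260) (nat_lit 180)))) (XT.nd (nat_lit 156) (nat_lit 532) (nat_lit 0) (XT.nd (nat_lit 78) (nat_lit 76) (nat_lit 0) (XT.lf (nat_lit 0) (nat_lit 9678981392) (nat_lit 228) (nat_lit 8587974336) (nat_lit 304) (nat_lit 1564743350) (nat_lit 39) (nat_lit 5) (nat_lit 42) (nat_lit 5) (nat_lit 43) (nat_lit 5) (nat_lit 281) (nat_lit 260) (nat_lit 179)) (XT.lf (nat_lit 0) (nat_lit 423349601) (nat_lit 304) (nat_lit 2056795977) (nat_lit 76) (nat_lit 17981853688) (nat_lit 38) (nat_lit 5) (nat_lit 42) (nat_lit 5) (nat_lit 39) (nat_lit 5) (nat_lit 282) (nat_lit 260) (nat_lit 178))) (XT.nd (nat_lit 78) (nat_lit 228) (nat_lit 0) (XT.lf (nat_lit 0) (nat_lit 2612729018) (nat_lit 380) (nat_lit 14565385439) (nat_lit 76) (nat_lit 3936746554) (nat_lit 34) (nat_lit 5) (nat_lit 39) (nat_lit 5) (nat_lit 35) (nat_lit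 5) (nat_lit 283) (nat_lit 260) (nat_lit 177)) (XT.nd (nat_lit 78) (nat_lit 228) (nat_lit 0) (XT.lf (nat_lit 0) (nat_lit 4975661369) (nat_lit 380) (nat_lit 6196664363) (nat_lit 76) (nat_lit 10624885905) (nat_lit 34) (nat_lit 5) (nat_lit 39) (nat_lit 5) (nat_lit 35) (nat_lit 5) (nat_lit 284) (nat_lit 260) (nat_lit 176)) (XT.lf (nat_lit 0) (nat_lit 2662097442) (nat_lit 228) (nat_lit 4824798055) (nat_lit 304) (nat_lit 15025324156) (nat_lit 31) (nat_lit 5) (nat_lit 34) (nat_lit 5) (nat_lit 35) (nat_lit 5) (nat_lit 285) (nat_lit 260) (nat_lit 175))))))) (XT.nd (nat_lit 624) (nat_lit 532) (nat_lit 0) (XT.nd (nat_lit 312) (nat_lit 456) (nat_lit 0) (XT.nd (nat_lit 156) (nat_lit 228) (nat_lit 0) (XT.nd (nat_lit 78) (nat_lit 0) (nat_lit 0) (XT.lf (nat_lit 0) (nat_lit 10247975111) (nat_lit 304) (nat_lit 11123191688) (nat_lit 76) (nat_lit 1885642426) (nat_lit 31) (nat_lit 5) (nat_lit 35) (nat_lit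 5) (nat_lit 32) (nat_lit 5) (nat_lit 286) (nat_lit 260) (nat_lit 174)) (XT.lf (nat_lit 0) (nat_lit 13215623445) (nat_lit 304) (nat_lit 2052288480) (nat_lit 76) (nat_lit 8767333803) (nat_lit 31) (nat_lit 5) (nat_lit 35) (nat_lit 5) (nat_lit 32) (nat_lit 5) (nat_lit 287) (nat_lit 260) (nat_lit 173))) (XT.nd (nat_lit 78) (nat_lit 0) (nat_lit 0) (XT.lf (nat_lit 0) (nat_lit 7706158622) (nat_lit 228) (nat_lit 8735733819) (nat_lit 304) (nat_lit 8405240833) (nat_lit 28) (nat_lit 5) (nat_lit 31) (nat_lit 5) (nat_lit 32) (nat_lit 5) (nat_lit 288) (nat_lit 260) (nat_lit 172)) (XT.lf (nat_lit 0) (nat_lit 18011336410) (nat_lit 228) (nat_lit 1843104060) (nat_lit 304) (nat_lit 5843965621) (nat_lit 28) (nat_lit 5) (nat_lit 31) (nat_lit 5) (nat_lit 32) (nat_lit 5) (nat_lit 289) (nat_lit 260) (nat_lit 171)))) (XT.nd (nat_lit 156) (nat_lit 228) (nat_lit 0) (XT.nd (nat_lit 78) (nat_lit 76) (nat_lit 0)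 (XT.lf (nat_lit 0) (nat_lit 2213855730) (nat_lit 152) (nat_lit 21333178465) (nat_lit 228) (nat_lit 3039774746) (nat_lit 26) (nat_lit 5) (nat_lit 28) (nat_lit 5) (nat_lit 29) (nat_lit 5) (nat_lit 290) (nat_lit 260) (nat_lit 170)) (XT.lf (nat_lit 0) (nat_lit 60920429) (nat_lit 228) (nat_lit 14679734069) (nat_lit 76) (nat_lit 12771423617) (nat_lit 25) (nat_lit 5) (nat_lit 28) (nat_lit 5) (nat_lit 26) (nat_lit 5) (nat_lit 291) (nat_lit 260) (nat_lit 169))) (XT.nd (nat_lit 78) (nat_lit 228) (nat_lit 0) (XT.lf (nat_lit 0) (nat_lit 3205645380) (nat_lit 228) (nat_lit 4563549708) (nat_lit 76) (nat_lit 20712398699) (nat_lit 25) (nat_lit 5) (nat_lit 28) (nat_lit 5) (nat_lit 26) (nat_lit 5) (nat_lit 292) (nat_lit 260) (nat_lit 168)) (XT.lf (nat_lit 0) (nat_lit 6247091363) (nat_lit 228) (nat_lit 349622562) (nat_lit 304) (nat_lit 22898446643) (nat_lit 22) (nat_lit 5) (nat_lit 25) (nat_lit 5) (nat_lit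 26) (nat_lit 5) (nat_lit 293) (nat_lit 260) (nat_lit 167))))) (XT.nd (nat_lit 312) (nat_lit 380) (nat_lit 0) (XT.nd (nat_lit 156) (nat_lit 152) (nat_lit 0) (XT.nd (nat_lit 78) (nat_lit 0) (nat_lit 0) (XT.lf (nat_lit 0) (nat_lit 10343817501) (nat_lit 304) (nat_lit 12927791373) (nat_lit 76) (nat_lit 7278501966) (nat_lit 22) (nat_lit 5) (nat_lit 26) (nat_lit 5) (nat_lit 23) (nat_lit 5) (nat_lit 294) (nat_lit 260) (nat_lit 166)) (XT.lf (nat_lit 0) (nat_lit 14276155342) (nat_lit 304) (nat_lit 2108192956) (nat_lit 76) (nat_lit 15273594210) (nat_lit 22) (nat_lit 5) (nat_lit 26) (nat_lit 5) (nat_lit 23) (nat_lit 5) (nat_lit 295) (nat_lit 260) (nat_lit 165))) (XT.nd (nat_lit 78) (nat_lit 0) (nat_lit 0) (XT.lf (nat_lit 0) (nat_lit 9547526039) (nat_lit 152) (nat_lit 8999169170) (nat_lit 228) (nat_lit 14267417809) (nat_lit 20) (nat_lit 5) (nat_lit 22) (nat_lit 5) (nat_lit 23) (nat_lit 5) (nat_lit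 296) (nat_lit 260) (nat_lit 164)) (XT.lf (nat_lit 0) (nat_lit 21848951268) (nat_lit 152) (nat_lit 1210231318) (nat_lit 228) (nat_lit 10967513692) (nat_lit 20) (nat_lit 5) (nat_lit 22) (nat_lit 5) (nat_lit 23) (nat_lit 5) (nat_lit 297) (nat_lit 260) (nat_lit 163)))) (XT.nd (nat_lit 156) (nat_lit 228) (nat_lit 0) (XT.nd (nat_lit 78) (nat_lit 152) (nat_lit 0) (XT.lf (nat_lit 0) (nat_lit 27899106344) (nat_lit 228) (nat_lit 653362054) (nat_lit 76) (nat_lit 6742373751) (nat_lit 20) (nat_lit 5) (nat_lit 23) (nat_lit 5) (nat_lit 21) (nat_lit 5) (nat_lit 298) (nat_lit 260) (nat_lit 162)) (XT.lf (nat_lit 0) (nat_lit 11795295987) (nat_lit 152) (nat_lit 21383079793) (nat_lit 228) (nat_lit 3438174962) (nat_lit 18) (nat_lit 5) (nat_lit 20) (nat_lit 5) (nat_lit 21) (nat_lit 5) (nat_lit 299) (nat_lit 260) (nat_lit 161))) (XT.nd (nat_lit 78) (nat_lit 152) (nat_lit 0) (XT.lf (nat_lit 0) (nat_lit 698946753)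 (nat_lit 228) (nat_lit 13135812503) (nat_lit 76) (nat_lit 24168814370) (nat_lit 17) (nat_lit 5) (nat_lit 20) (nat_lit 5) (nat_lit 18) (nat_lit 5) (nat_lit 300) (nat_lit 260) (nat_lit 160)) (XT.nd (nat_lit 78) (nat_lit 152) (nat_lit 0) (XT.lf (nat_lit 0) (nat_lit 4921087293) (nat_lit 228) (nat_lit 931710500) (nat_lit 76) (nat_lit 33604666071) (nat_lit 17) (nat_lit 5) (nat_lit 20) (nat_lit 5) (nat_lit 18) (nat_lit 5) (nat_lit 301) (nat_lit 260) (nat_lit 159)) (XT.lf (nat_lit 0) (nat_lit 9582423993) (nat_lit 228) (nat_lit 28750971034) (nat_lit 76) (nat_lit 2639267972) (nat_lit 15) (nat_lit 5) (nat_lit 18) (nat_lit 5) (nat_lit 16) (nat_lit 5) (nat_lit 302) (nat_lit 260) (nat_lit 158))))))))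
noncomputable def xc175 : XT := (XT.nd (nat_lit 1326) (nat_lit 304) (nat_lit 0) (XT.nd (nat_lit 624) (nat_lit 228) (nat_lit 0) (XT.nd (nat_lit 312) (nat_lit 152) (nat_lit 0) (XT.nd (nat_lit 156) (nat_lit 152) (nat_lit 0) (XT.nd (nat_lit 78) (nat_lit 0) (nat_lit 0) (XT.lf (nat_lit 0) (nat_lit 14582926213) (nat_lit 228) (nat_lit 16602860200) (nat_lit 76) (nat_lit 11372548690) (nat_lit 15) (nat_lit 5) (nat_lit 18) (nat_lit 5) (nat_lit 16) (nat_lit 5) (nat_lit 303) (nat_lit 260) (nat_lit 157)) (XT.lf (nat_lit 0) (nat_lit 19827847392) (nat_lit 228) (nat_lit 3855850795) (nat_lit 76) (nat_lit 20539890024) (nat_lit 15) (nat_lit 5) (nat_lit 18) (nat_lit 5) (nat_lit 16) (nat_lit 5) (nat_lit 304) (nat_lit 260) (nat_lit 156))) (XT.nd (nat_lit 78) (nat_lit 0) (nat_lit 0) (XT.lf (nat_lit 0) (nat_lit 9835194860) (nat_lit 152) (nat_lit 15648035531) (nat_lit 228) (nat_lit 20481479071) (nat_lit 13)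 (nat_lit 5) (nat_lit 15) (nat_lit 5) (nat_lit 16) (nat_lit 5) (nat_lit 305) (nat_lit 260) (nat_lit 155)) (XT.lf (nat_lit 0) (nat_lit 24336688029) (nat_lit 152) (nat_lit 7144785811) (nat_lit 228) (nat_lit 16308423872) (nat_lit 13) (nat_lit 5) (nat_lit 15) (nat_lit 5) (nat_lit 16) (nat_lit 5) (nat_lit 306) (nat_lit 260) (nat_lit 154)))) (XT.nd (nat_lit 156) (nat_lit 76) (nat_lit 0) (XT.nd (nat_lit 78) (nat_lit 76) (nat_lit 0) (XT.lf (nat_lit 0) (nat_lit 37802474472) (nat_lit 228) (nat_lit 10178750310) (nat_lit 76) (nat_lit 1723993107) (nat_lit 13) (nat_lit 5) (nat_lit 16) (nat_lit 5) (nat_lit 14) (nat_lit 4) (nat_lit 307) (nat_lit 260) (nat_lit 153)) (XT.lf (nat_lit 0) (nat_lit 3755048065) (nat_lit 76) (nat_lit 40855467341) (nat_lit 152) (nat_lit 7097253215) (nat_lit 12) (nat_lit 5) (nat_lit 13) (nat_lit 5) (nat_lit 14) (nat_lit 4) (nat_lit 308) (nat_lit 260) (nat_lit 152))) (XT.nd (nat_lit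 78) (nat_lit 76) (nat_lit 0) (XT.lf (nat_lit 0) (nat_lit 18731598288) (nat_lit 76) (nat_lit 33195090531) (nat_lit 152) (nat_lit 1875384939) (nat_lit 12) (nat_lit 5) (nat_lit 13) (nat_lit 5) (nat_lit 14) (nat_lit 4) (nat_lit 309) (nat_lit 260) (nat_lit 151)) (XT.lf (nat_lit 0) (nat_lit 3487596671) (nat_lit 152) (nat_lit 21607576614) (nat_lit 76) (nat_lit 30903342549) (nat_lit 11) (nat_lit 5) (nat_lit 13) (nat_lit 5) (nat_lit 12) (nat_lit 5) (nat_lit 310) (nat_lit 260) (nat_lit 150))))) (XT.nd (nat_lit 312) (nat_lit 76) (nat_lit 0) (XT.nd (nat_lit 156) (nat_lit 0) (nat_lit 0) (XT.nd (nat_lit 78) (nat_lit 152) (nat_lit 0) (XT.lf (nat_lit 0) (nat_lit 9051402044) (nat_lit 152) (nat_lit 7509071211) (nat_lit 76) (nat_lit 41742996132) (nat_lit 11) (nat_lit 5) (nat_lit 13) (nat_lit 5) (nat_lit 12) (nat_lit 5) (nat_lit 311) (nat_lit 260) (nat_lit 149)) (XT.lf (nat_lit 0) (nat_lit 7528859133)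 (nat_lit 152) (nat_lit 7477989820) (nat_lit 228) (nat_lit 45711160116) (nat_lit 9) (nat_lit 5) (nat_lit 11) (nat_lit 5) (nat_lit 12) (nat_lit 5) (nat_lit 312) (nat_lit 260) (nat_lit 148))) (XT.nd (nat_lit 78) (nat_lit 0) (nat_lit 0) (XT.lf (nat_lit 0) (nat_lit 21417426849) (nat_lit 228) (nat_lit 39708298795) (nat_lit 76) (nat_lit 2119692652) (nat_lit 9) (nat_lit 5) (nat_lit 12) (nat_lit 5) (nat_lit 10) (nat_lit 4) (nat_lit 313) (nat_lit 260) (nat_lit 147)) (XT.lf (nat_lit 0) (nat_lit 28267279202) (nat_lit 228) (nat_lit 25682223662) (nat_lit 76) (nat_lit 11943767836) (nat_lit 9) (nat_lit 5) (nat_lit 12) (nat_lit 5) (nat_lit 10) (nat_lit 4) (nat_lit 314) (nat_lit 260) (nat_lit 146)))) (XT.nd (nat_lit 156) (nat_lit 0) (nat_lit 0) (XT.nd (nat_lit 78) (nat_lit 76) (nat_lit 0) (XT.lf (nat_lit 0) (nat_lit 35455962805) (nat_lit 228) (nat_lit 10960776741) (nat_lit 76) (nat_lit 22256968761)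 (nat_lit 9) (nat_lit 5) (nat_lit 12) (nat_lit 5) (nat_lit 10) (nat_lit 4) (nat_lit 315) (nat_lit 260) (nat_lit 145)) (XT.lf (nat_lit 0) (nat_lit 4639588849) (nat_lit 76) (nat_lit 38433441707) (nat_lit 152) (nat_lit 28516698804) (nat_lit 8) (nat_lit 5) (nat_lit 9) (nat_lit 5) (nat_lit 10) (nat_lit 4) (nat_lit 316) (nat_lit 260) (nat_lit 144))) (XT.nd (nat_lit 78) (nat_lit 0) (nat_lit 0) (XT.lf (nat_lit 0) (nat_lit 21394947764) (nat_lit 76) (nat_lit 29858222240) (nat_lit 152) (nat_lit 23389279179) (nat_lit 8) (nat_lit 5) (nat_lit 9) (nat_lit 5) (nat_lit 10) (nat_lit 4) (nat_lit 317) (nat_lit 260) (nat_lit 143)) (XT.nd (nat_lit 78) (nat_lit 0) (nat_lit 0) (XT.lf (nat_lit 0) (nat_lit 38982780935) (nat_lit 76) (nat_lit 20856290013) (nat_lit 152) (nat_lit 18008904543) (nat_lit 8) (nat_lit 5) (nat_lit 9) (nat_lit 5) (nat_lit 10) (nat_lit 4) (nat_lit 318) (nat_lit 260) (nat_lit 142)) (XT.lf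 (nat_lit 0) (nat_lit 57444964156) (nat_lit 76) (nat_lit 11406211855) (nat_lit 152) (nat_lit 12362764481) (nat_lit 8) (nat_lit 5) (nat_lit 9) (nat_lit 5) (nat_lit 10) (nat_lit 4) (nat_lit 319) (nat_lit 260) (nat_lit 141))))))) (XT.nd (nat_lit 624) (nat_lit 76) (nat_lit 0) (XT.nd (nat_lit 312) (nat_lit 76) (nat_lit 0) (XT.nd (nat_lit 156) (nat_lit 0) (nat_lit 0) (XT.nd (nat_lit 78) (nat_lit 152) (nat_lit 0) (XT.lf (nat_lit 0) (nat_lit 76825455007) (nat_lit 76) (nat_lit 1485487578) (nat_lit 152) (nat_lit 6437415801) (nat_lit 8) (nat_lit 5) (nat_lit 9) (nat_lit 5) (nat_lit 10) (nat_lit 4) (nat_lit 320) (nat_lit 260) (nat_lit 140)) (XT.lf (nat_lit 0) (nat_lit 70464658) (nat_lit 152) (nat_lit 79592152243) (nat_lit 76) (nat_lit 8783087629) (nat_lit 6) (nat_lit 5) (nat_lit 8) (nat_lit 5) (nat_lit 7) (nat_lit 4) (nat_lit 321) (nat_lit 260) (nat_lit 139))) (XT.nd (nat_lit 78) (nat_lit 0) (nat_lit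 0) (XT.lf (nat_lit 0) (nat_lit 6845309475) (nat_lit 152) (nat_lit 65714112875) (nat_lit 76) (nat_lit 19755330015) (nat_lit 6) (nat_lit 5) (nat_lit 8) (nat_lit 5) (nat_lit 7) (nat_lit 4) (nat_lit 322) (nat_lit 260) (nat_lit 138)) (XT.lf (nat_lit 0) (nat_lit 13956210453) (nat_lit 152) (nat_lit 51146663494) (nat_lit 76) (nat_lit 31274519083) (nat_lit 6) (nat_lit 5) (nat_lit 8) (nat_lit 5) (nat_lit 7) (nat_lit 4) (nat_lit 323) (nat_lit 260) (nat_lit 137)))) (XT.nd (nat_lit 156) (nat_lit 76) (nat_lit 0) (XT.nd (nat_lit 78) (nat_lit 0) (nat_lit 0) (XT.lf (nat_lit 0) (nat_lit 21420098310) (nat_lit 152) (nat_lit 35855119697) (nat_lit 76) (nat_lit 43368081473) (nat_lit 6) (nat_lit 5) (nat_lit 8) (nat_lit 5) (nat_lit 7) (nat_lit 4) (nat_lit 324) (nat_lit 260) (nat_lit 136)) (XT.lf (nat_lit 0) (nat_lit 29254744207) (nat_lit 152) (nat_lit 19803073046) (nat_lit 76) (nat_lit 56064811381) (nat_lit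 6) (nat_lit 5) (nat_lit 8) (nat_lit 5) (nat_lit 7) (nat_lit 4) (nat_lit 325) (nat_lit 260) (nat_lit 135))) (XT.nd (nat_lit 78) (nat_lit 76) (nat_lit 0) (XT.lf (nat_lit 0) (nat_lit 37478802063) (nat_lit 152) (nat_lit 2952304383) (nat_lit 76) (nat_lit 69394939117) (nat_lit 6) (nat_lit 5) (nat_lit 8) (nat_lit 5) (nat_lit 7) (nat_lit 4) (nat_lit 326) (nat_lit 260) (nat_lit 134)) (XT.lf (nat_lit 0) (nat_lit 15224589101) (nat_lit 76) (nat_lit 31124962370) (nat_lit 152) (nat_lit 68403312482) (nat_lit 5) (nat_lit 5) (nat_lit 6) (nat_lit 5) (nat_lit 7) (nat_lit 4) (nat_lit 327) (nat_lit 260) (nat_lit 133))))) (XT.nd (nat_lit 312) (nat_lit 76) (nat_lit 0) (XT.nd (nat_lit 156) (nat_lit 0) (nat_lit 0) (XT.nd (nat_lit 78) (nat_lit 0) (nat_lit 0) (XT.lf (nat_lit 0) (nat_lit 34409188664) (nat_lit 76) (nat_lit 21302487007) (nat_lit 152) (nat_lit 64211960529) (nat_lit 5) (nat_lit 5) (nat_lit 6) (nat_lit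 5) (nat_lit 7) (nat_lit 4) (nat_lit 328) (nat_lit 260) (nat_lit 132)) (XT.lf (nat_lit 0) (nat_lit 54549555409) (nat_lit 76) (nat_lit 10990292216) (nat_lit 152) (nat_lit 59813206937) (nat_lit 5) (nat_lit 5) (nat_lit 6) (nat_lit 5) (nat_lit 7) (nat_lit 4) (nat_lit 329) (nat_lit 260) (nat_lit 131))) (XT.nd (nat_lit 78) (nat_lit 0) (nat_lit 0) (XT.lf (nat_lit 0) (nat_lit 75693642588) (nat_lit 76) (nat_lit 163825153) (nat_lit 152) (nat_lit 55196578483) (nat_lit 5) (nat_lit 5) (nat_lit 6) (nat_lit 5) (nat_lit 7) (nat_lit 4) (nat_lit 330) (nat_lit 260) (nat_lit 130)) (XT.lf (nat_lit 0) (nat_lit 86864007190) (nat_lit 152) (nat_lit 39323297118) (nat_lit 0) (nat_lit 10844135396) (nat_lit 5) (nat_lit 5) (nat_lit 7) (nat_lit 4) (nat_lit 5) (nat_lit 4) (nat_lit 331) (nat_lit 260) (nat_lit 129)))) (XT.nd (nat_lit 156) (nat_lit 76) (nat_lit 0) (XT.nd (nat_lit 78) (nat_lit 0) (nat_lit 0) (XT.lf (nat_lit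 0) (nat_lit 98421762157) (nat_lit 152) (nat_lit 22490086149) (nat_lit 0) (nat_lit 22395814079) (nat_lit 5) (nat_lit 5) (nat_lit 7) (nat_lit 4) (nat_lit 5) (nat_lit 4) (nat_lit 332) (nat_lit 260) (nat_lit 128)) (XT.lf (nat_lit 0) (nat_lit 110555693336) (nat_lit 152) (nat_lit 4818133886) (nat_lit 0) (nat_lit 34523958321) (nat_lit 5) (nat_lit 5) (nat_lit 7) (nat_lit 4) (nat_lit 5) (nat_lit 4) (nat_lit 333) (nat_lit 260) (nat_lit 127))) (XT.nd (nat_lit 78) (nat_lit 0) (nat_lit 0) (XT.lf (nat_lit 0) (nat_lit 14188764832) (nat_lit 76) (nat_lit 109327452590) (nat_lit 76) (nat_lit 33290206207) (nat_lit 4) (nat_lit 4) (nat_lit 5) (nat_lit 5) (nat_lit 5) (nat_lit 4) (nat_lit 334) (nat_lit 260) (nat_lit 126)) (XT.nd (nat_lit 78) (nat_lit 0) (nat_lit 0) (XT.lf (nat_lit 0) (nat_lit 34310547816) (nat_lit 76) (nat_lit 102894222204) (nat_lit 76) (nat_lit 26851726899) (nat_lit 4) (nat_lit 4) (nat_lit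 5) (nat_lit 5) (nat_lit 5) (nat_lit 4) (nat_lit 335) (nat_lit 260) (nat_lit 125)) (XT.lf (nat_lit 0) (nat_lit 55435814806) (nat_lit 76) (nat_lit 96140416279) (nat_lit 76) (nat_lit 20092922000) (nat_lit 4) (nat_lit 4) (nat_lit 5) (nat_lit 5) (nat_lit 5) (nat_lit 4) (nat_lit 336) (nat_lit 260) (nat_lit 124))))))))
noncomputable def xc176 : XT := (XT.nd (nat_lit 1248) (nat_lit 0) (nat_lit 0) (XT.nd (nat_lit 624) (nat_lit 0) (nat_lit 0) (XT.nd (nat_lit 312) (nat_lit 76) (nat_lit 0) (XT.nd (nat_lit 156) (nat_lit 76) (nat_lit 0) (XT.nd (nat_lit 78) (nat_lit 0) (nat_lit 0) (XT.lf (nat_lit 0) (nat_lit 77614864057) (nat_lit 76) (nat_lit 89049954324) (nat_lit 76) (nat_lit 12997699118) (nat_lit 4) (nat_lit 4) (nat_lit 5) (nat_lit 5) (nat_lit 5) (nat_lit 4) (nat_lit 337) (nat_lit 260) (nat_lit 123)) (XT.lf (nat_lit 0) (nat_lit 100900502829) (nat_lit 76) (nat_lit 81605954287) (nat_lit 76) (nat_lit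 5549164865) (nat_lit 4) (nat_lit 4) (nat_lit 5) (nat_lit 5) (nat_lit 5) (nat_lit 4) (nat_lit 338) (nat_lit 260) (nat_lit 122))) (XT.nd (nat_lit 78) (nat_lit 0) (nat_lit 0) (XT.lf (nat_lit 0) (nat_lit 2197747893) (nat_lit 152) (nat_lit 71555724540) (nat_lit 76) (nat_lit 123113205302) (nat_lit 3) (nat_lit 5) (nat_lit 5) (nat_lit 5) (nat_lit 4) (nat_lit 4) (nat_lit 339) (nat_lit 260) (nat_lit 121)) (XT.lf (nat_lit 0) (nat_lit 10144245065) (nat_lit 152) (nat_lit 55269518007) (nat_lit 76) (nat_lit 140700040904) (nat_lit 3) (nat_lit 5) (nat_lit 5) (nat_lit 5) (nat_lit 4) (nat_lit 4) (nat_lit 340) (nat_lit 260) (nat_lit 120)))) (XT.nd (nat_lit 156) (nat_lit 76) (nat_lit 0) (XT.nd (nat_lit 78) (nat_lit 0) (nat_lit 0) (XT.lf (nat_lit 0) (nat_lit 18486854810) (nat_lit 152) (nat_lit 38171084856) (nat_lit 76) (nat_lit 159165409904) (nat_lit 3) (nat_lit 5) (nat_lit 5) (nat_lit 5) (nat_lit 4) (nat_lit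 4) (nat_lit 341) (nat_lit 260) (nat_lit 119)) (XT.lf (nat_lit 0) (nat_lit 27245440485) (nat_lit 152) (nat_lit 20219714533) (nat_lit 76) (nat_lit 178553277466) (nat_lit 3) (nat_lit 5) (nat_lit 5) (nat_lit 5) (nat_lit 4) (nat_lit 4) (nat_lit 342) (nat_lit 260) (nat_lit 118))) (XT.nd (nat_lit 78) (nat_lit 76) (nat_lit 0) (XT.lf (nat_lit 0) (nat_lit 36440855866) (nat_lit 152) (nat_lit 1372665678) (nat_lit 76) (nat_lit 198909805180) (nat_lit 3) (nat_lit 5) (nat_lit 5) (nat_lit 5) (nat_lit 4) (nat_lit 4) (nat_lit 343) (nat_lit 260) (nat_lit 117)) (XT.lf (nat_lit 0) (nat_lit 19023816568) (nat_lit 76) (nat_lit 27368193322) (nat_lit 152) (nat_lit 201556659490) (nat_lit 2) (nat_lit 5) (nat_lit 3) (nat_lit 5) (nat_lit 4) (nat_lit 4) (nat_lit 344) (nat_lit 260) (nat_lit 116))))) (XT.nd (nat_lit 312) (nat_lit 0) (nat_lit 0) (XT.nd (nat_lit 156) (nat_lit 0) (nat_lit 0) (XT.nd (nat_lit 78) (nat_lit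 0) (nat_lit 0) (XT.lf (nat_lit 0) (nat_lit 40486007827) (nat_lit 76) (nat_lit 16376935547) (nat_lit 152) (nat_lit 202871226705) (nat_lit 2) (nat_lit 5) (nat_lit 3) (nat_lit 5) (nat_lit 4) (nat_lit 4) (nat_lit 345) (nat_lit 260) (nat_lit 115)) (XT.lf (nat_lit 0) (nat_lit 63019622026) (nat_lit 76) (nat_lit 4836825316) (nat_lit 152) (nat_lit 204252549181) (nat_lit 2) (nat_lit 5) (nat_lit 3) (nat_lit 5) (nat_lit 4) (nat_lit 4) (nat_lit 346) (nat_lit 260) (nat_lit 114))) (XT.nd (nat_lit 78) (nat_lit 0) (nat_lit 0) (XT.lf (nat_lit 0) (nat_lit 79512351978) (nat_lit 152) (nat_lit 198537957133) (nat_lit 0) (nat_lit 7046620718) (nat_lit 2) (nat_lit 5) (nat_lit 4) (nat_lit 4) (nat_lit 2) (nat_lit 4) (nat_lit 347) (nat_lit 260) (nat_lit 113)) (XT.lf (nat_lit 0) (nat_lit 91829448569) (nat_lit 152) (nat_lit 187539826871) (nat_lit 0) (nat_lit 19361066247) (nat_lit 2) (nat_lit 5) (nat_lit 4) (nat_lit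 4) (nat_lit 2) (nat_lit 4) (nat_lit 348) (nat_lit 260) (nat_lit 112)))) (XT.nd (nat_lit 156) (nat_lit 0) (nat_lit 0) (XT.nd (nat_lit 78) (nat_lit 0) (nat_lit 0) (XT.lf (nat_lit 0) (nat_lit 104761547140) (nat_lit 152) (nat_lit 175993281289) (nat_lit 0) (nat_lit 32290639996) (nat_lit 2) (nat_lit 5) (nat_lit 4) (nat_lit 4) (nat_lit 2) (nat_lit 4) (nat_lit 349) (nat_lit 260) (nat_lit 111)) (XT.lf (nat_lit 0) (nat_lit 118339438400) (nat_lit 152) (nat_lit 163870828612) (nat_lit 0) (nat_lit 45866126665) (nat_lit 2) (nat_lit 5) (nat_lit 4) (nat_lit 4) (nat_lit 2) (nat_lit 4) (nat_lit 350) (nat_lit 260) (nat_lit 110))) (XT.nd (nat_lit 78) (nat_lit 0) (nat_lit 0) (XT.lf (nat_lit 0) (nat_lit 132595450662) (nat_lit 152) (nat_lit 151143605858) (nat_lit 0) (nat_lit 60119848839) (nat_lit 2) (nat_lit 5) (nat_lit 4) (nat_lit 4) (nat_lit 2) (nat_lit 4) (nat_lit 351) (nat_lit 260) (nat_lit 109)) (XT.lf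 (nat_lit 0) (nat_lit 147563526813) (nat_lit 152) (nat_lit 137781310114) (nat_lit 0) (nat_lit 75085743955) (nat_lit 2) (nat_lit 5) (nat_lit 4) (nat_lit 4) (nat_lit 2) (nat_lit 4) (nat_lit 352) (nat_lit 260) (nat_lit 108)))))) (XT.nd (nat_lit 30810) (nat_lit 0) (nat_lit 3648) (XT.nd (nat_lit 30498) (nat_lit 0) (nat_lit 4712) (XT.nd (nat_lit 30342) (nat_lit 0) (nat_lit 4712) (XT.nd (nat_lit 78) (nat_lit 0) (nat_lit 0) (XT.lf (nat_lit 0) (nat_lit 163279305128) (nat_lit 152) (nat_lit 123752126392) (nat_lit 0) (nat_lit 90799445093) (nat_lit 2) (nat_lit 5) (nat_lit 4) (nat_lit 4) (nat_lit 2) (nat_lit 4) (nat_lit 353) (nat_lit 260) (nat_lit 107)) (XT.lf (nat_lit 0) (nat_lit 179780204129) (nat_lit 152) (nat_lit 109022651873) (nat_lit 0) (nat_lit 107298365830) (nat_lit 2) (nat_lit 5) (nat_lit 4) (nat_lit 4) (nat_lit 2) (nat_lit 4) (nat_lit 354) (nat_lit 260) (nat_lit 106))) (XT.nd (nat_lit 78)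 (nat_lit 0) (nat_lit 0) (XT.lf (nat_lit 0) (nat_lit 2897722102) (nat_lit 684) (nat_lit 1505389397) (nat_lit 684) (nat_lit 1505389397) (nat_lit 64) (nat_lit 3) (nat_lit 73) (nat_lit 3) (nat_lit 73) (nat_lit 5) (nat_lit 261) (nat_lit 261) (nat_lit 198)) (XT.lf (nat_lit 76) (nat_lit 1776042365) (nat_lit 0) (nat_lit 4616120699) (nat_lit 684) (nat_lit 5695387460) (nat_lit 65) (nat_lit 5) (nat_lit 64) (nat_lit 3) (nat_lit 73) (nat_lit 5) (nat_lit 262) (nat_lit 261) (nat_lit 197)))) (XT.nd (nat_lit 156) (nat_lit 0) (nat_lit 76) (XT.nd (nat_lit 78) (nat_lit 0) (nat_lit 76) (XT.lf (nat_lit 76) (nat_lit 6891932559) (nat_lit 0) (nat_lit 150395306) (nat_lit 684) (nat_lit 5328264574) (nat_lit 65) (nat_lit 5) (nat_lit 64) (nat_lit 3) (nat_lit 73) (nat_lit 5) (nat_lit 263) (nat_lit 261) (nat_lit 196)) (XT.lf (nat_lit 0) (nat_lit 7769973238) (nat_lit 608) (nat_lit 490754534) (nat_lit 684) (nat_lit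 4404949345) (nat_lit 65) (nat_lit 5) (nat_lit 73) (nat_lit 5) (nat_lit 74) (nat_lit 5) (nat_lit 264) (nat_lit 261) (nat_lit 195))) (XT.nd (nat_lit 78) (nat_lit 0) (nat_lit 76) (XT.lf (nat_lit 76) (nat_lit 4885470113) (nat_lit 0) (nat_lit 3702616727) (nat_lit 684) (nat_lit 4384857542) (nat_lit 66) (nat_lit 5) (nat_lit 65) (nat_lit 5) (nat_lit 74) (nat_lit 5) (nat_lit 265) (nat_lit 261) (nat_lit 194)) (XT.lf (nat_lit 0) (nat_lit 9448897204) (nat_lit 608) (nat_lit 2780853260) (nat_lit 684) (nat_lit 1065861326) (nat_lit 66) (nat_lit 5) (nat_lit 74) (nat_lit 5) (nat_lit 75) (nat_lit 5) (nat_lit 266) (nat_lit 261) (nat_lit 193))))) (XT.nd (nat_lit 312) (nat_lit 1216) (nat_lit 0) (XT.nd (nat_lit 156) (nat_lit 0) (nat_lit 76) (XT.nd (nat_lit 78) (nat_lit 0) (nat_lit 0) (XT.lf (nat_lit 76) (nat_lit 2804754063) (nat_lit 0) (nat_lit 7630033928) (nat_lit 684) (nat_lit 3195642901) (nat_lit 67)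 (nat_lit 5) (nat_lit 66) (nat_lit 5) (nat_lit 75) (nat_lit 5) (nat_lit 267) (nat_lit 261) (nat_lit 192)) (XT.lf (nat_lit 76) (nat_lit 8751019594) (nat_lit 0) (nat_lit 2744432208) (nat_lit 684) (nat_lit 2485379812) (nat_lit 67) (nat_lit 5) (nat_lit 66) (nat_lit 5) (nat_lit 75) (nat_lit 5) (nat_lit 268) (nat_lit 261) (nat_lit 191))) (XT.nd (nat_lit 78) (nat_lit 0) (nat_lit 0) (XT.lf (nat_lit 76) (nat_lit 612527937) (nat_lit 0) (nat_lit 12022936348) (nat_lit 684) (nat_lit 1712081445) (nat_lit 68) (nat_lit 5) (nat_lit 67) (nat_lit 5) (nat_lit 76) (nat_lit 5) (nat_lit 269) (nat_lit 261) (nat_lit 190)) (XT.lf (nat_lit 76) (nat_lit 6866647504) (nat_lit 0) (nat_lit 7078907902) (nat_lit 684) (nat_lit 781490180) (nat_lit 68) (nat_lit 5) (nat_lit 67) (nat_lit 5) (nat_lit 76) (nat_lit 5) (nat_lit 270) (nat_lit 261) (nat_lit 189)))) (XT.nd (nat_lit 156) (nat_lit 608) (nat_lit 0) (XT.nd (nat_lit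 78) (nat_lit 0) (nat_lit 76) (XT.lf (nat_lit 0) (nat_lit 170149335) (nat_lit 684) (nat_lit 1710523277) (nat_lit 760) (nat_lit 13245750375) (nat_lit 58) (nat_lit 5) (nat_lit 67) (nat_lit 5) (nat_lit 68) (nat_lit 5) (nat_lit 271) (nat_lit 261) (nat_lit 188)) (XT.lf (nat_lit 0) (nat_lit 1258290201) (nat_lit 684) (nat_lit 10724306848) (nat_lit 76) (nat_lit 3556862299) (nat_lit 59) (nat_lit 5) (nat_lit 68) (nat_lit 5) (nat_lit 60) (nat_lit 5) (nat_lit 272) (nat_lit 261) (nat_lit 187))) (XT.nd (nat_lit 78) (nat_lit 684) (nat_lit 0) (XT.lf (nat_lit 0) (nat_lit 2443503700) (nat_lit 684) (nat_lit 4291975947) (nat_lit 76) (nat_lit 9235620107) (nat_lit 59) (nat_lit 5) (nat_lit 68) (nat_lit 5) (nat_lit 60) (nat_lit 5) (nat_lit 273) (nat_lit 261) (nat_lit 186)) (XT.nd (nat_lit 78) (nat_lit 0) (nat_lit 0) (XT.lf (nat_lit 0) (nat_lit 2528156064) (nat_lit 684) (nat_lit 1182523371) (nat_lit 760) (nat_lit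 12712589105) (nat_lit 50) (nat_lit 5) (nat_lit 59) (nat_lit 5) (nat_lit 60) (nat_lit 5) (nat_lit 274) (nat_lit 261) (nat_lit 185)) (XT.lf (nat_lit 0) (nat_lit 5171490620) (nat_lit 760) (nat_lit 7145278831) (nat_lit 76) (nat_lit 4574840037) (nat_lit 50) (nat_lit 5) (nat_lit 60) (nat_lit 5) (nat_lit 51) (nat_lit 5) (nat_lit 275) (nat_lit 261) (nat_lit 184))))))))
noncomputable def xc177 : XT := (XT.nd (nat_lit 1326) (nat_lit 988) (nat_lit 0) (XT.nd (nat_lit 624) (nat_lit 988) (nat_lit 0) (XT.nd (nat_lit 312) (nat_lit 304) (nat_lit 0) (XT.nd (nat_lit 156) (nat_lit 304) (nat_lit 0) (XT.nd (nat_lit 78) (nat_lit 304) (nat_lit 0) (XT.lf (nat_lit 0) (nat_lit 6709326874) (nat_lit 760) (nat_lit 92014026) (nat_lit 76) (nat_lit 10581901226) (nat_lit 50) (nat_lit 5) (nat_lit 60) (nat_lit 5) (nat_lit 51) (nat_lit 5) (nat_lit 276) (nat_lit 261) (nat_lit 183)) (XT.lf (nat_lit 0) (nat_lit 7541306843)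 (nat_lit 304) (nat_lit 885821296) (nat_lit 380) (nat_lit 9467244943) (nat_lit 46) (nat_lit 5) (nat_lit 50) (nat_lit 5) (nat_lit 51) (nat_lit 5) (nat_lit 277) (nat_lit 261) (nat_lit 182))) (XT.nd (nat_lit 78) (nat_lit 304) (nat_lit 0) (XT.lf (nat_lit 0) (nat_lit 10301371702) (nat_lit 380) (nat_lit 2969199149) (nat_lit 76) (nat_lit 5157029121) (nat_lit 46) (nat_lit 5) (nat_lit 51) (nat_lit 5) (nat_lit 47) (nat_lit 5) (nat_lit 278) (nat_lit 261) (nat_lit 181)) (XT.lf (nat_lit 0) (nat_lit 4912736326) (nat_lit 304) (nat_lit 7434312272) (nat_lit 380) (nat_lit 6636617359) (nat_lit 42) (nat_lit 5) (nat_lit 46) (nat_lit 5) (nat_lit 47) (nat_lit 5) (nat_lit 279) (nat_lit 261) (nat_lit 180)))) (XT.nd (nat_lit 156) (nat_lit 76) (nat_lit 0) (XT.nd (nat_lit 78) (nat_lit 228) (nat_lit 0) (XT.lf (nat_lit 0) (nat_lit 13278234165) (nat_lit 304) (nat_lit 1253988247) (nat_lit 380) (nat_lit 5033512944)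 (nat_lit 42) (nat_lit 5) (nat_lit 46) (nat_lit 5) (nat_lit 47) (nat_lit 5) (nat_lit 280) (nat_lit 261) (nat_lit 179)) (XT.lf (nat_lit 0) (nat_lit 1848894293) (nat_lit 228) (nat_lit 15075908147) (nat_lit 304) (nat_lit 3247256284) (nat_lit 39) (nat_lit 5) (nat_lit 42) (nat_lit 5) (nat_lit 43) (nat_lit 5) (nat_lit 281) (nat_lit 261) (nat_lit 178))) (XT.nd (nat_lit 78) (nat_lit 76) (nat_lit 0) (XT.lf (nat_lit 0) (nat_lit 10575738510) (nat_lit 228) (nat_lit 8975906695) (nat_lit 304) (nat_lit 1251376489) (nat_lit 39) (nat_lit 5) (nat_lit 42) (nat_lit 5) (nat_lit 43) (nat_lit 5) (nat_lit 282) (nat_lit 261) (nat_lit 177)) (XT.lf (nat_lit 0) (nat_lit 805536371) (nat_lit 304) (nat_lit 1753010681) (nat_lit 76) (nat_lit 18906963568) (nat_lit 38) (nat_lit 5) (nat_lit 42) (nat_lit 5) (nat_lit 39) (nat_lit 5) (nat_lit 283) (nat_lit 261) (nat_lit 176))))) (XT.nd (nat_lit 312) (nat_lit 456) (nat_lit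 0) (XT.nd (nat_lit 156) (nat_lit 228) (nat_lit 0) (XT.nd (nat_lit 78) (nat_lit 0) (nat_lit 0) (XT.lf (nat_lit 0) (nat_lit 3094220049) (nat_lit 380) (nat_lit 14875400482) (nat_lit 76) (nat_lit 4181976376) (nat_lit 34) (nat_lit 5) (nat_lit 39) (nat_lit 5) (nat_lit 35) (nat_lit 5) (nat_lit 284) (nat_lit 261) (nat_lit 175)) (XT.lf (nat_lit 0) (nat_lit 5558591657) (nat_lit 380) (nat_lit 6108160221) (nat_lit 76) (nat_lit 11202218291) (nat_lit 34) (nat_lit 5) (nat_lit 39) (nat_lit 5) (nat_lit 35) (nat_lit 5) (nat_lit 285) (nat_lit 261) (nat_lit 174))) (XT.nd (nat_lit 78) (nat_lit 0) (nat_lit 0) (XT.lf (nat_lit 0) (nat_lit 3187114878) (nat_lit 228) (nat_lit 4998479694) (nat_lit 304) (nat_lit 15434690072) (nat_lit 31) (nat_lit 5) (nat_lit 34) (nat_lit 5) (nat_lit 35) (nat_lit 5) (nat_lit 286) (nat_lit 261) (nat_lit 173)) (XT.lf (nat_lit 0) (nat_lit 11070287271) (nat_lit 304) (nat_lit 11290395291)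 (nat_lit 76) (nat_lit 2042206431) (nat_lit 31) (nat_lit 5) (nat_lit 35) (nat_lit 5) (nat_lit 32) (nat_lit 5) (nat_lit 287) (nat_lit 261) (nat_lit 172)))) (XT.nd (nat_lit 156) (nat_lit 228) (nat_lit 0) (XT.nd (nat_lit 78) (nat_lit 228) (nat_lit 0) (XT.lf (nat_lit 0) (nat_lit 14171560240) (nat_lit 304) (nat_lit 1784468636) (nat_lit 76) (nat_lit 9265016572) (nat_lit 31) (nat_lit 5) (nat_lit 35) (nat_lit 5) (nat_lit 32) (nat_lit 5) (nat_lit 288) (nat_lit 261) (nat_lit 171)) (XT.lf (nat_lit 0) (nat_lit 8455926075) (nat_lit 228) (nat_lit 9094851816) (nat_lit 304) (nat_lit 8523225091) (nat_lit 28) (nat_lit 5) (nat_lit 31) (nat_lit 5) (nat_lit 32) (nat_lit 5) (nat_lit 289) (nat_lit 261) (nat_lit 170))) (XT.nd (nat_lit 78) (nat_lit 228) (nat_lit 0) (XT.lf (nat_lit 0) (nat_lit 19259007537) (nat_lit 228) (nat_lit 1861289078) (nat_lit 304) (nat_lit 5848280298) (nat_lit 28) (nat_lit 5) (nat_lit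 31) (nat_lit 5) (nat_lit 32) (nat_lit 5) (nat_lit 290) (nat_lit 261) (nat_lit 169)) (XT.nd (nat_lit 78) (nat_lit 76) (nat_lit 0) (XT.lf (nat_lit 0) (nat_lit 2679429699) (nat_lit 152) (nat_lit 22311724518) (nat_lit 228) (nat_lit 2910616017) (nat_lit 26) (nat_lit 5) (nat_lit 28) (nat_lit 5) (nat_lit 29) (nat_lit 5) (nat_lit 291) (nat_lit 261) (nat_lit 168)) (XT.lf (nat_lit 0) (nat_lit 323155966) (nat_lit 228) (nat_lit 15066224737) (nat_lit 76) (nat_lit 13484397861) (nat_lit 25) (nat_lit 5) (nat_lit 28) (nat_lit 5) (nat_lit 26) (nat_lit 5) (nat_lit 292) (nat_lit 261) (nat_lit 167))))))) (XT.nd (nat_lit 624) (nat_lit 456) (nat_lit 0) (XT.nd (nat_lit 312) (nat_lit 304) (nat_lit 0) (XT.nd (nat_lit 156) (nat_lit 0) (nat_lit 0) (XT.nd (nat_lit 78) (nat_lit 228) (nat_lit 0) (XT.lf (nat_lit 0) (nat_lit 3612774807) (nat_lit 228) (nat_lit 4460778589) (nat_lit 76) (nat_lit 21818878694) (nat_lit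 25) (nat_lit 5) (nat_lit 28) (nat_lit 5) (nat_lit 26) (nat_lit 5) (nat_lit 293) (nat_lit 261) (nat_lit 166)) (XT.lf (nat_lit 0) (nat_lit 6885056656) (nat_lit 228) (nat_lit 281669193) (nat_lit 304) (nat_lit 23790327718) (nat_lit 22) (nat_lit 5) (nat_lit 25) (nat_lit 5) (nat_lit 26) (nat_lit 5) (nat_lit 294) (nat_lit 261) (nat_lit 165))) (XT.nd (nat_lit 78) (nat_lit 0) (nat_lit 0) (XT.lf (nat_lit 0) (nat_lit 11091017995) (nat_lit 304) (nat_lit 13253093435) (nat_lit 76) (nat_lit 7721189025) (nat_lit 22) (nat_lit 5) (nat_lit 26) (nat_lit 5) (nat_lit 23) (nat_lit 5) (nat_lit 295) (nat_lit 261) (nat_lit 164)) (XT.lf (nat_lit 0) (nat_lit 15209019889) (nat_lit 304) (nat_lit 1907804979) (nat_lit 76) (nat_lit 16112285313) (nat_lit 22) (nat_lit 5) (nat_lit 26) (nat_lit 5) (nat_lit 23) (nat_lit 5) (nat_lit 296) (nat_lit 261) (nat_lit 163)))) (XT.nd (nat_lit 156) (nat_lit 152) (nat_lit 0) (XT.nd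 (nat_lit 78) (nat_lit 0) (nat_lit 0) (XT.lf (nat_lit 0) (nat_lit 10325767747) (nat_lit 152) (nat_lit 9361585079) (nat_lit 228) (nat_lit 14756060067) (nat_lit 20) (nat_lit 5) (nat_lit 22) (nat_lit 5) (nat_lit 23) (nat_lit 5) (nat_lit 297) (nat_lit 261) (nat_lit 162)) (XT.lf (nat_lit 0) (nat_lit 23227937313) (nat_lit 152) (nat_lit 1187369028) (nat_lit 228) (nat_lit 11301862107) (nat_lit 20) (nat_lit 5) (nat_lit 22) (nat_lit 5) (nat_lit 23) (nat_lit 5) (nat_lit 298) (nat_lit 261) (nat_lit 161))) (XT.nd (nat_lit 78) (nat_lit 152) (nat_lit 0) (XT.lf (nat_lit 0) (nat_lit 29488791494) (nat_lit 228) (nat_lit 404030703) (nat_lit 76) (nat_lit 7156354698) (nat_lit 20) (nat_lit 5) (nat_lit 23) (nat_lit 5) (nat_lit 21) (nat_lit 5) (nat_lit 299) (nat_lit 261) (nat_lit 160)) (XT.lf (nat_lit 0) (nat_lit 12662511861) (nat_lit 152) (nat_lit 22364571480) (nat_lit 228) (nat_lit 3410166576) (nat_lit 18)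 (nat_lit 5) (nat_lit 20) (nat_lit 5) (nat_lit 21) (nat_lit 5) (nat_lit 300) (nat_lit 261) (nat_lit 159))))) (XT.nd (nat_lit 312) (nat_lit 228) (nat_lit 0) (XT.nd (nat_lit 156) (nat_lit 152) (nat_lit 0) (XT.nd (nat_lit 78) (nat_lit 0) (nat_lit 0) (XT.lf (nat_lit 0) (nat_lit 918197460) (nat_lit 228) (nat_lit 13521690585) (nat_lit 76) (nat_lit 25454069571) (nat_lit 17) (nat_lit 5) (nat_lit 20) (nat_lit 5) (nat_lit 18) (nat_lit 5) (nat_lit 301) (nat_lit 261) (nat_lit 158)) (XT.lf (nat_lit 0) (nat_lit 5342668676) (nat_lit 228) (nat_lit 720284079) (nat_lit 76) (nat_lit 35358056025) (nat_lit 17) (nat_lit 5) (nat_lit 20) (nat_lit 5) (nat_lit 18) (nat_lit 5) (nat_lit 302) (nat_lit 261) (nat_lit 157))) (XT.nd (nat_lit 78) (nat_lit 0) (nat_lit 0) (XT.lf (nat_lit 0) (nat_lit 10233968568) (nat_lit 228) (nat_lit 29926878352) (nat_lit 76) (nat_lit 2851302417) (nat_lit 15) (nat_lit 5) (nat_lit 18)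 (nat_lit 5) (nat_lit 16) (nat_lit 5) (nat_lit 303) (nat_lit 261) (nat_lit 156)) (XT.lf (nat_lit 0) (nat_lit 15476285262) (nat_lit 228) (nat_lit 17183821082) (nat_lit 76) (nat_lit 12017434264) (nat_lit 15) (nat_lit 5) (nat_lit 18) (nat_lit 5) (nat_lit 16) (nat_lit 5) (nat_lit 304) (nat_lit 261) (nat_lit 155)))) (XT.nd (nat_lit 156) (nat_lit 76) (nat_lit 0) (XT.nd (nat_lit 78) (nat_lit 152) (nat_lit 0) (XT.lf (nat_lit 0) (nat_lit 20975632845) (nat_lit 228) (nat_lit 3811327023) (nat_lit 76) (nat_lit 21639511324) (nat_lit 15) (nat_lit 5) (nat_lit 18) (nat_lit 5) (nat_lit 16) (nat_lit 5) (nat_lit 305) (nat_lit 261) (nat_lit 154)) (XT.lf (nat_lit 0) (nat_lit 10560443232) (nat_lit 152) (nat_lit 16349539884) (nat_lit 228) (nat_lit 21344878187) (nat_lit 13) (nat_lit 5) (nat_lit 15) (nat_lit 5) (nat_lit 16) (nat_lit 5) (nat_lit 306) (nat_lit 261) (nat_lit 153))) (XT.nd (nat_lit 78) (nat_lit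 76) (nat_lit 0) (XT.lf (nat_lit 0) (nat_lit 25775892554) (nat_lit 152) (nat_lit 7424979936) (nat_lit 228) (nat_lit 16970821411) (nat_lit 13) (nat_lit 5) (nat_lit 15) (nat_lit 5) (nat_lit 16) (nat_lit 5) (nat_lit 307) (nat_lit 261) (nat_lit 152)) (XT.nd (nat_lit 78) (nat_lit 76) (nat_lit 0) (XT.lf (nat_lit 0) (nat_lit 39832148528) (nat_lit 228) (nat_lit 10469720274) (nat_lit 76) (nat_lit 1881220608) (nat_lit 13) (nat_lit 5) (nat_lit 16) (nat_lit 5) (nat_lit 14) (nat_lit 4) (nat_lit 308) (nat_lit 261) (nat_lit 151)) (XT.lf (nat_lit 0) (nat_lit 4157252413) (nat_lit 76) (nat_lit 42820042036) (nat_lit 152) (nat_lit 7308657694) (nat_lit 12) (nat_lit 5) (nat_lit 13) (nat_lit 5) (nat_lit 14) (nat_lit 4) (nat_lit 309) (nat_lit 261) (nat_lit 150))))))))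
noncomputable def xc178 : XT := (XT.nd (nat_lit 1326) (nat_lit 228) (nat_lit 0) (XT.nd (nat_lit 624) (nat_lit 152) (nat_lit 0) (XT.nd (nat_lit 312) (nat_lit 76) (nat_lit 0) (XT.nd (nat_lit 156) (nat_lit 152) (nat_lit 0) (XT.nd (nat_lit 78) (nat_lit 76) (nat_lit 0) (XT.lf (nat_lit 0) (nat_lit 19872418151) (nat_lit 76) (nat_lit 34780370133) (nat_lit 152) (nat_lit 1832527347) (nat_lit 12) (nat_lit 5) (nat_lit 13) (nat_lit 5) (nat_lit 14) (nat_lit 4) (nat_lit 310) (nat_lit 261) (nat_lit 149)) (XT.lf (nat_lit 0) (nat_lit 3787932626) (nat_lit 152) (nat_lit 22488937696) (nat_lit 76) (nat_lit 32514934664) (nat_lit 11) (nat_lit 5) (nat_lit 13) (nat_lit 5) (nat_lit 12) (nat_lit 5) (nat_lit 311) (nat_lit 261) (nat_lit 148))) (XT.nd (nat_lit 78) (nat_lit 152) (nat_lit 0) (XT.lf (nat_lit 0) (nat_lit 9623930357) (nat_lit 152) (nat_lit 7694984058) (nat_lit 76) (nat_lit 43893407831) (nat_lit 11) (nat_lit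 5) (nat_lit 13) (nat_lit 5) (nat_lit 12) (nat_lit 5) (nat_lit 312) (nat_lit 261) (nat_lit 147)) (XT.lf (nat_lit 0) (nat_lit 8091785695) (nat_lit 152) (nat_lit 7782563152) (nat_lit 228) (nat_lit 47873395470) (nat_lit 9) (nat_lit 5) (nat_lit 11) (nat_lit 5) (nat_lit 12) (nat_lit 5) (nat_lit 313) (nat_lit 261) (nat_lit 146)))) (XT.nd (nat_lit 156) (nat_lit 76) (nat_lit 0) (XT.nd (nat_lit 78) (nat_lit 0) (nat_lit 0) (XT.lf (nat_lit 0) (nat_lit 22600907546) (nat_lit 228) (nat_lit 41511269511) (nat_lit 76) (nat_lit 2289588988) (nat_lit 9) (nat_lit 5) (nat_lit 12) (nat_lit 5) (nat_lit 10) (nat_lit 4) (nat_lit 314) (nat_lit 261) (nat_lit 145)) (XT.lf (nat_lit 0) (nat_lit 29787890166) (nat_lit 228) (nat_lit 26792578441) (nat_lit 76) (nat_lit 12601824516) (nat_lit 9) (nat_lit 5) (nat_lit 12) (nat_lit 5) (nat_lit 10) (nat_lit 4) (nat_lit 315) (nat_lit 261) (nat_lit 144))) (XT.nd (nat_lit 78)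 (nat_lit 76) (nat_lit 0) (XT.lf (nat_lit 0) (nat_lit 37330900949) (nat_lit 228) (nat_lit 11343333289) (nat_lit 76) (nat_lit 23427786998) (nat_lit 9) (nat_lit 5) (nat_lit 12) (nat_lit 5) (nat_lit 10) (nat_lit 4) (nat_lit 316) (nat_lit 261) (nat_lit 143)) (XT.lf (nat_lit 0) (nat_lit 5034381511) (nat_lit 76) (nat_lit 40292118738) (nat_lit 152) (nat_lit 29837471828) (nat_lit 8) (nat_lit 5) (nat_lit 9) (nat_lit 5) (nat_lit 10) (nat_lit 4) (nat_lit 317) (nat_lit 261) (nat_lit 142))))) (XT.nd (nat_lit 312) (nat_lit 152) (nat_lit 0) (XT.nd (nat_lit 156) (nat_lit 0) (nat_lit 0) (XT.nd (nat_lit 78) (nat_lit 0) (nat_lit 0) (XT.lf (nat_lit 0) (nat_lit 22619755361) (nat_lit 76) (nat_lit 31291138062) (nat_lit 152) (nat_lit 24458684170) (nat_lit 8) (nat_lit 5) (nat_lit 9) (nat_lit 5) (nat_lit 10) (nat_lit 4) (nat_lit 318) (nat_lit 261) (nat_lit 141)) (XT.lf (nat_lit 0) (nat_lit 41079596372) (nat_lit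 76) (nat_lit 21841966142) (nat_lit 152) (nat_lit 18814055515) (nat_lit 8) (nat_lit 5) (nat_lit 9) (nat_lit 5) (nat_lit 10) (nat_lit 4) (nat_lit 319) (nat_lit 261) (nat_lit 140))) (XT.nd (nat_lit 78) (nat_lit 0) (nat_lit 0) (XT.lf (nat_lit 0) (nat_lit 60457856545) (nat_lit 76) (nat_lit 11922104951) (nat_lit 152) (nat_lit 12890146271) (nat_lit 8) (nat_lit 5) (nat_lit 9) (nat_lit 5) (nat_lit 10) (nat_lit 4) (nat_lit 320) (nat_lit 261) (nat_lit 139)) (XT.lf (nat_lit 0) (nat_lit 80800674596) (nat_lit 76) (nat_lit 1507935769) (nat_lit 152) (nat_lit 6672851892) (nat_lit 8) (nat_lit 5) (nat_lit 9) (nat_lit 5) (nat_lit 10) (nat_lit 4) (nat_lit 321) (nat_lit 261) (nat_lit 138)))) (XT.nd (nat_lit 156) (nat_lit 0) (nat_lit 0) (XT.nd (nat_lit 78) (nat_lit 0) (nat_lit 0) (XT.lf (nat_lit 0) (nat_lit 156601198) (nat_lit 152) (nat_lit 83433604839) (nat_lit 76) (nat_lit 9273464377) (nat_lit 6) (nat_lit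 5) (nat_lit 8) (nat_lit 5) (nat_lit 7) (nat_lit 4) (nat_lit 322) (nat_lit 261) (nat_lit 137)) (XT.lf (nat_lit 0) (nat_lit 7266254289) (nat_lit 152) (nat_lit 68868242313) (nat_lit 76) (nat_lit 20791879723) (nat_lit 6) (nat_lit 5) (nat_lit 8) (nat_lit 5) (nat_lit 7) (nat_lit 4) (nat_lit 323) (nat_lit 261) (nat_lit 136))) (XT.nd (nat_lit 78) (nat_lit 0) (nat_lit 0) (XT.lf (nat_lit 0) (nat_lit 14728953681) (nat_lit 152) (nat_lit 53578685997) (nat_lit 76) (nat_lit 32884705234) (nat_lit 6) (nat_lit 5) (nat_lit 8) (nat_lit 5) (nat_lit 7) (nat_lit 4) (nat_lit 324) (nat_lit 261) (nat_lit 135)) (XT.nd (nat_lit 78) (nat_lit 0) (nat_lit 0) (XT.lf (nat_lit 0) (nat_lit 22562467707) (nat_lit 152) (nat_lit 37528532185) (nat_lit 76) (nat_lit 45580733353) (nat_lit 6) (nat_lit 5) (nat_lit 8) (nat_lit 5) (nat_lit 7) (nat_lit 4) (nat_lit 325) (nat_lit 261) (nat_lit 134)) (XT.lf (nat_lit 0) (nat_lit 30785447590)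 (nat_lit 152) (nat_lit 20679566225) (nat_lit 76) (nat_lit 58910192719) (nat_lit 6) (nat_lit 5) (nat_lit 8) (nat_lit 5) (nat_lit 7) (nat_lit 4) (nat_lit 326) (nat_lit 261) (nat_lit 133))))))) (XT.nd (nat_lit 624) (nat_lit 152) (nat_lit 0) (XT.nd (nat_lit 312) (nat_lit 0) (nat_lit 0) (XT.nd (nat_lit 156) (nat_lit 0) (nat_lit 0) (XT.nd (nat_lit 78) (nat_lit 76) (nat_lit 0) (XT.lf (nat_lit 0) (nat_lit 39417471855) (nat_lit 152) (nat_lit 2991671532) (nat_lit 76) (nat_lit 72904820138) (nat_lit 6) (nat_lit 5) (nat_lit 8) (nat_lit 5) (nat_lit 7) (nat_lit 4) (nat_lit 327) (nat_lit 261) (nat_lit 132)) (XT.lf (nat_lit 0) (nat_lit 16092320689) (nat_lit 76) (nat_lit 32638018473) (nat_lit 152) (nat_lit 71756861688) (nat_lit 5) (nat_lit 5) (nat_lit 6) (nat_lit 5) (nat_lit 7) (nat_lit 4) (nat_lit 328) (nat_lit 261) (nat_lit 131))) (XT.nd (nat_lit 78) (nat_lit 0) (nat_lit 0) (XT.lf (nat_lit 0) (nat_lit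 36231078701) (nat_lit 76) (nat_lit 22326476105) (nat_lit 152) (nat_lit 67359114349) (nat_lit 5) (nat_lit 5) (nat_lit 6) (nat_lit 5) (nat_lit 7) (nat_lit 4) (nat_lit 329) (nat_lit 261) (nat_lit 130)) (XT.lf (nat_lit 0) (nat_lit 57373633754) (nat_lit 76) (nat_lit 11500630397) (nat_lit 152) (nat_lit 62743444230) (nat_lit 5) (nat_lit 5) (nat_lit 6) (nat_lit 5) (nat_lit 7) (nat_lit 4) (nat_lit 330) (nat_lit 261) (nat_lit 129)))) (XT.nd (nat_lit 156) (nat_lit 0) (nat_lit 0) (XT.nd (nat_lit 78) (nat_lit 0) (nat_lit 0) (XT.lf (nat_lit 0) (nat_lit 79570325264) (nat_lit 76) (nat_lit 134705524) (nat_lit 152) (nat_lit 57898861641) (nat_lit 5) (nat_lit 5) (nat_lit 6) (nat_lit 5) (nat_lit 7) (nat_lit 4) (nat_lit 331) (nat_lit 261) (nat_lit 128)) (XT.lf (nat_lit 0) (nat_lit 91259847729) (nat_lit 152) (nat_lit 41199677093) (nat_lit 0) (nat_lit 11420739027) (nat_lit 5) (nat_lit 5) (nat_lit 7) (nat_lit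 4) (nat_lit 5) (nat_lit 4) (nat_lit 332) (nat_lit 261) (nat_lit 127))) (XT.nd (nat_lit 78) (nat_lit 0) (nat_lit 0) (XT.lf (nat_lit 0) (nat_lit 103392983769) (nat_lit 152) (nat_lit 23529081046) (nat_lit 0) (nat_lit 23548363699) (nat_lit 5) (nat_lit 5) (nat_lit 7) (nat_lit 4) (nat_lit 5) (nat_lit 4) (nat_lit 333) (nat_lit 261) (nat_lit 126)) (XT.lf (nat_lit 0) (nat_lit 116131224197) (nat_lit 152) (nat_lit 4977603046) (nat_lit 0) (nat_lit 36281355205) (nat_lit 5) (nat_lit 5) (nat_lit 7) (nat_lit 4) (nat_lit 5) (nat_lit 4) (nat_lit 334) (nat_lit 261) (nat_lit 125))))) (XT.nd (nat_lit 312) (nat_lit 76) (nat_lit 0) (XT.nd (nat_lit 156) (nat_lit 0) (nat_lit 0) (XT.nd (nat_lit 78) (nat_lit 0) (nat_lit 0) (XT.lf (nat_lit 0) (nat_lit 14978327099) (nat_lit 76) (nat_lit 114760424721) (nat_lit 76) (nat_lit 34905556755) (nat_lit 4) (nat_lit 4) (nat_lit 5) (nat_lit 5) (nat_lit 5) (nat_lit 4) (nat_lit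 335) (nat_lit 261) (nat_lit 124)) (XT.lf (nat_lit 0) (nat_lit 36102383802) (nat_lit 76) (nat_lit 108007123316) (nat_lit 76) (nat_lit 28147494423) (nat_lit 4) (nat_lit 4) (nat_lit 5) (nat_lit 5) (nat_lit 5) (nat_lit 4) (nat_lit 336) (nat_lit 261) (nat_lit 123))) (XT.nd (nat_lit 78) (nat_lit 0) (nat_lit 0) (XT.lf (nat_lit 0) (nat_lit 58280280398) (nat_lit 76) (nat_lit 100917141857) (nat_lit 76) (nat_lit 21052978747) (nat_lit 4) (nat_lit 4) (nat_lit 5) (nat_lit 5) (nat_lit 5) (nat_lit 4) (nat_lit 337) (nat_lit 261) (nat_lit 122)) (XT.lf (nat_lit 0) (nat_lit 81564821405) (nat_lit 76) (nat_lit 93473599434) (nat_lit 76) (nat_lit 13605118024) (nat_lit 4) (nat_lit 4) (nat_lit 5) (nat_lit 5) (nat_lit 5) (nat_lit 4) (nat_lit 338) (nat_lit 261) (nat_lit 121)))) (XT.nd (nat_lit 156) (nat_lit 0) (nat_lit 0) (XT.nd (nat_lit 78) (nat_lit 76) (nat_lit 0) (XT.lf (nat_lit 0) (nat_lit 106011446204) (nat_lit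 76) (nat_lit 85658773329) (nat_lit 76) (nat_lit 5786179250) (nat_lit 4) (nat_lit 4) (nat_lit 5) (nat_lit 5) (nat_lit 5) (nat_lit 4) (nat_lit 339) (nat_lit 261) (nat_lit 120)) (XT.lf (nat_lit 0) (nat_lit 2344920433) (nat_lit 152) (nat_lit 75069424016) (nat_lit 76) (nat_lit 129293728251) (nat_lit 3) (nat_lit 5) (nat_lit 5) (nat_lit 5) (nat_lit 4) (nat_lit 4) (nat_lit 340) (nat_lit 261) (nat_lit 119))) (XT.nd (nat_lit 78) (nat_lit 0) (nat_lit 0) (XT.lf (nat_lit 0) (nat_lit 10686966979) (nat_lit 152) (nat_lit 57971958907) (nat_lit 76) (nat_lit 147758721696) (nat_lit 3) (nat_lit 5) (nat_lit 5) (nat_lit 5) (nat_lit 4) (nat_lit 4) (nat_lit 341) (nat_lit 261) (nat_lit 118)) (XT.nd (nat_lit 78) (nat_lit 0) (nat_lit 0) (XT.lf (nat_lit 0) (nat_lit 19445016275) (nat_lit 152) (nat_lit 40021510527) (nat_lit 76) (nat_lit 167146231586) (nat_lit 3) (nat_lit 5) (nat_lit 5) (nat_lit 5) (nat_lit 4) (nat_lit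 4) (nat_lit 342) (nat_lit 261) (nat_lit 117)) (XT.lf (nat_lit 0) (nat_lit 28639920819) (nat_lit 152) (nat_lit 21175339715) (nat_lit 76) (nat_lit 187502418660) (nat_lit 3) (nat_lit 5) (nat_lit 5) (nat_lit 5) (nat_lit 4) (nat_lit 4) (nat_lit 343) (nat_lit 261) (nat_lit 116))))))))
noncomputable def xc179 : XT := (XT.nd (nat_lit 31668) (nat_lit 0) (nat_lit 2432) (XT.nd (nat_lit 702) (nat_lit 0) (nat_lit 0) (XT.nd (nat_lit 312) (nat_lit 0) (nat_lit 0) (XT.nd (nat_lit 156) (nat_lit 0) (nat_lit 0) (XT.nd (nat_lit 78) (nat_lit 76) (nat_lit 0) (XT.lf (nat_lit 0) (nat_lit 38293573240) (nat_lit 152) (nat_lit 1388574634) (nat_lit 76) (nat_lit 208875750030) (nat_lit 3) (nat_lit 5) (nat_lit 5) (nat_lit 5) (nat_lit 4) (nat_lit 4) (nat_lit 344) (nat_lit 261) (nat_lit 115)) (XT.lf (nat_lit 0) (nat_lit 20026881333) (nat_lit 76) (nat_lit 28714752836) (nat_lit 152) (nat_lit 211602908990) (nat_lit 2)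 (nat_lit 5) (nat_lit 3) (nat_lit 5) (nat_lit 4) (nat_lit 4) (nat_lit 345) (nat_lit 261) (nat_lit 114))) (XT.nd (nat_lit 78) (nat_lit 0) (nat_lit 0) (XT.lf (nat_lit 0) (nat_lit 42559711967) (nat_lit 76) (nat_lit 17174972655) (nat_lit 152) (nat_lit 212984708540) (nat_lit 2) (nat_lit 5) (nat_lit 3) (nat_lit 5) (nat_lit 4) (nat_lit 4) (nat_lit 346) (nat_lit 261) (nat_lit 113)) (XT.lf (nat_lit 0) (nat_lit 66217654316) (nat_lit 76) (nat_lit 5058847850) (nat_lit 152) (nat_lit 214436529497) (nat_lit 2) (nat_lit 5) (nat_lit 3) (nat_lit 5) (nat_lit 4) (nat_lit 4) (nat_lit 347) (nat_lit 261) (nat_lit 112)))) (XT.nd (nat_lit 156) (nat_lit 0) (nat_lit 0) (XT.nd (nat_lit 78) (nat_lit 0) (nat_lit 0) (XT.lf (nat_lit 0) (nat_lit 83514199941) (nat_lit 152) (nat_lit 208418991704) (nat_lit 0) (nat_lit 7417222619) (nat_lit 2) (nat_lit 5) (nat_lit 4) (nat_lit 4) (nat_lit 2) (nat_lit 4) (nat_lit 348) (nat_lit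 261) (nat_lit 111)) (XT.lf (nat_lit 0) (nat_lit 96445902298) (nat_lit 152) (nat_lit 196873138895) (nat_lit 0) (nat_lit 20346520384) (nat_lit 2) (nat_lit 5) (nat_lit 4) (nat_lit 4) (nat_lit 2) (nat_lit 4) (nat_lit 349) (nat_lit 261) (nat_lit 110))) (XT.nd (nat_lit 78) (nat_lit 0) (nat_lit 0) (XT.lf (nat_lit 0) (nat_lit 110023416211) (nat_lit 152) (nat_lit 184751346002) (nat_lit 0) (nat_lit 33921744210) (nat_lit 2) (nat_lit 5) (nat_lit 4) (nat_lit 4) (nat_lit 2) (nat_lit 4) (nat_lit 350) (nat_lit 261) (nat_lit 109)) (XT.lf (nat_lit 0) (nat_lit 124279069095) (nat_lit 152) (nat_lit 172024751613) (nat_lit 0) (nat_lit 48175216059) (nat_lit 2) (nat_lit 5) (nat_lit 4) (nat_lit 4) (nat_lit 2) (nat_lit 4) (nat_lit 351) (nat_lit 261) (nat_lit 108))))) (XT.nd (nat_lit 30576) (nat_lit 0) (nat_lit 4712) (XT.nd (nat_lit 30420) (nat_lit 0) (nat_lit 4712) (XT.nd (nat_lit 78) (nat_lit 0) (nat_lit 0)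 (XT.lf (nat_lit 0) (nat_lit 154962255330) (nat_lit 152) (nat_lit 144634440536) (nat_lit 0) (nat_lit 78854346854) (nat_lit 2) (nat_lit 5) (nat_lit 4) (nat_lit 4) (nat_lit 2) (nat_lit 4) (nat_lit 353) (nat_lit 261) (nat_lit 106)) (XT.lf (nat_lit 0) (nat_lit 171462843887) (nat_lit 152) (nat_lit 129905508822) (nat_lit 0) (nat_lit 95353051349) (nat_lit 2) (nat_lit 5) (nat_lit 4) (nat_lit 4) (nat_lit 2) (nat_lit 4) (nat_lit 354) (nat_lit 261) (nat_lit 105))) (XT.nd (nat_lit 78) (nat_lit 0) (nat_lit 0) (XT.lf (nat_lit 0) (nat_lit 3460090515) (nat_lit 684) (nat_lit 1360356152) (nat_lit 684) (nat_lit 1360356152) (nat_lit 64) (nat_lit 3) (nat_lit 73) (nat_lit 3) (nat_lit 73) (nat_lit 5) (nat_lit 262) (nat_lit 262) (nat_lit 196)) (XT.lf (nat_lit 76) (nat_lit 2298343374) (nat_lit 0) (nat_lit 5215400372) (nat_lit 684) (nat_lit 5133801855) (nat_lit 65) (nat_lit 5) (nat_lit 64) (nat_lit 3) (nat_lit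 73) (nat_lit 5) (nat_lit 263) (nat_lit 262) (nat_lit 195)))) (XT.nd (nat_lit 156) (nat_lit 0) (nat_lit 76) (XT.nd (nat_lit 78) (nat_lit 0) (nat_lit 76) (XT.lf (nat_lit 76) (nat_lit 7649385273) (nat_lit 0) (nat_lit 508842345) (nat_lit 684) (nat_lit 4788625444) (nat_lit 65) (nat_lit 5) (nat_lit 64) (nat_lit 3) (nat_lit 73) (nat_lit 5) (nat_lit 264) (nat_lit 262) (nat_lit 194)) (XT.lf (nat_lit 0) (nat_lit 8880666570) (nat_lit 608) (nat_lit 76621743) (nat_lit 684) (nat_lit 4301677374) (nat_lit 65) (nat_lit 5) (nat_lit 73) (nat_lit 5) (nat_lit 74) (nat_lit 5) (nat_lit 265) (nat_lit 262) (nat_lit 193))) (XT.nd (nat_lit 78) (nat_lit 0) (nat_lit 76) (XT.lf (nat_lit 76) (nat_lit 5561338805) (nat_lit 0) (nat_lit 4150695234) (nat_lit 684) (nat_lit 3871129892) (nat_lit 66) (nat_lit 5) (nat_lit 65) (nat_lit 5) (nat_lit 74) (nat_lit 5) (nat_lit 266) (nat_lit 262) (nat_lit 192)) (XT.nd (nat_lit 78)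 (nat_lit 0) (nat_lit 0) (XT.lf (nat_lit 0) (nat_lit 10578901595) (nat_lit 608) (nat_lit 2468345251) (nat_lit 684) (nat_lit 876743246) (nat_lit 66) (nat_lit 5) (nat_lit 74) (nat_lit 5) (nat_lit 75) (nat_lit 5) (nat_lit 267) (nat_lit 262) (nat_lit 191)) (XT.lf (nat_lit 76) (nat_lit 3389259363) (nat_lit 0) (nat_lit 8200451462) (nat_lit 684) (nat_lit 2687225954) (nat_lit 67) (nat_lit 5) (nat_lit 66) (nat_lit 5) (nat_lit 75) (nat_lit 5) (nat_lit 268) (nat_lit 262) (nat_lit 190))))))) (XT.nd (nat_lit 624) (nat_lit 1216) (nat_lit 0) (XT.nd (nat_lit 312) (nat_lit 608) (nat_lit 0) (XT.nd (nat_lit 156) (nat_lit 608) (nat_lit 0) (XT.nd (nat_lit 78) (nat_lit 0) (nat_lit 76) (XT.lf (nat_lit 76) (nat_lit 9611682570) (nat_lit 0) (nat_lit 3061573664) (nat_lit 684) (nat_lit 1973268715) (nat_lit 67) (nat_lit 5) (nat_lit 66) (nat_lit 5) (nat_lit 75) (nat_lit 5) (nat_lit 269) (nat_lit 262) (nat_lit 189))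 (XT.lf (nat_lit 76) (nat_lit 1095016060) (nat_lit 0) (nat_lit 12750917019) (nat_lit 684) (nat_lit 1187010726) (nat_lit 68) (nat_lit 5) (nat_lit 67) (nat_lit 5) (nat_lit 76) (nat_lit 5) (nat_lit 270) (nat_lit 262) (nat_lit 188))) (XT.nd (nat_lit 78) (nat_lit 684) (nat_lit 0) (XT.lf (nat_lit 76) (nat_lit 7640324380) (nat_lit 0) (nat_lit 7553647443) (nat_lit 684) (nat_lit 238969651) (nat_lit 68) (nat_lit 5) (nat_lit 67) (nat_lit 5) (nat_lit 76) (nat_lit 5) (nat_lit 271) (nat_lit 262) (nat_lit 187)) (XT.lf (nat_lit 0) (nat_lit 714828578) (nat_lit 684) (nat_lit 1365839380) (nat_lit 760) (nat_lit 13772637695) (nat_lit 58) (nat_lit 5) (nat_lit 67) (nat_lit 5) (nat_lit 68) (nat_lit 5) (nat_lit 272) (nat_lit 262) (nat_lit 186)))) (XT.nd (nat_lit 156) (nat_lit 684) (nat_lit 0) (XT.nd (nat_lit 78) (nat_lit 0) (nat_lit 0) (XT.lf (nat_lit 0) (nat_lit 1836985702) (nat_lit 684) (nat_lit 10807416682)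 (nat_lit 76) (nat_lit 3643736219) (nat_lit 59) (nat_lit 5) (nat_lit 68) (nat_lit 5) (nat_lit 60) (nat_lit 5) (nat_lit 273) (nat_lit 262) (nat_lit 185)) (XT.lf (nat_lit 0) (nat_lit 3056898877) (nat_lit 684) (nat_lit 4075045689) (nat_lit 76) (nat_lit 9610763784) (nat_lit 59) (nat_lit 5) (nat_lit 68) (nat_lit 5) (nat_lit 60) (nat_lit 5) (nat_lit 274) (nat_lit 262) (nat_lit 184))) (XT.nd (nat_lit 78) (nat_lit 0) (nat_lit 0) (XT.lf (nat_lit 0) (nat_lit 3079132776) (nat_lit 684) (nat_lit 1291537904) (nat_lit 760) (nat_lit 12847766620) (nat_lit 50) (nat_lit 5) (nat_lit 59) (nat_lit 5) (nat_lit 60) (nat_lit 5) (nat_lit 275) (nat_lit 262) (nat_lit 183)) (XT.lf (nat_lit 0) (nat_lit 5881187415) (nat_lit 760) (nat_lit 7072692799) (nat_lit 76) (nat_lit 4757590015) (nat_lit 50) (nat_lit 5) (nat_lit 60) (nat_lit 5) (nat_lit 51) (nat_lit 5) (nat_lit 276) (nat_lit 262) (nat_lit 182))))) (XT.nd (nat_lit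 312) (nat_lit 608) (nat_lit 0) (XT.nd (nat_lit 156) (nat_lit 304) (nat_lit 0) (XT.nd (nat_lit 78) (nat_lit 0) (nat_lit 0) (XT.lf (nat_lit 0) (nat_lit 323107661) (nat_lit 304) (nat_lit 7156370423) (nat_lit 380) (nat_lit 10749131313) (nat_lit 46) (nat_lit 5) (nat_lit 50) (nat_lit 5) (nat_lit 51) (nat_lit 5) (nat_lit 277) (nat_lit 262) (nat_lit 181)) (XT.lf (nat_lit 0) (nat_lit 8321150194) (nat_lit 304) (nat_lit 942804037) (nat_lit 380) (nat_lit 9502401553) (nat_lit 46) (nat_lit 5) (nat_lit 50) (nat_lit 5) (nat_lit 51) (nat_lit 5) (nat_lit 278) (nat_lit 262) (nat_lit 180))) (XT.nd (nat_lit 78) (nat_lit 304) (nat_lit 0) (XT.lf (nat_lit 0) (nat_lit 11211936985) (nat_lit 380) (nat_lit 2712218998) (nat_lit 76) (nat_lit 5403180136) (nat_lit 46) (nat_lit 5) (nat_lit 51) (nat_lit 5) (nat_lit 47) (nat_lit 5) (nat_lit 279) (nat_lit 262) (nat_lit 179)) (XT.lf (nat_lit 0) (nat_lit 5557273895) (nat_lit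 304) (nat_lit 7790018614) (nat_lit 380) (nat_lit 6564632156) (nat_lit 42) (nat_lit 5) (nat_lit 46) (nat_lit 5) (nat_lit 47) (nat_lit 5) (nat_lit 280) (nat_lit 262) (nat_lit 178)))) (XT.nd (nat_lit 156) (nat_lit 380) (nat_lit 0) (XT.nd (nat_lit 78) (nat_lit 228) (nat_lit 0) (XT.lf (nat_lit 0) (nat_lit 14322051351) (nat_lit 304) (nat_lit 1301440734) (nat_lit 380) (nat_lit 4900601858) (nat_lit 42) (nat_lit 5) (nat_lit 46) (nat_lit 5) (nat_lit 47) (nat_lit 5) (nat_lit 281) (nat_lit 262) (nat_lit 177)) (XT.lf (nat_lit 0) (nat_lit 2334489530) (nat_lit 228) (nat_lit 15790211785) (nat_lit 304) (nat_lit 3036662880) (nat_lit 39) (nat_lit 5) (nat_lit 42) (nat_lit 5) (nat_lit 43) (nat_lit 5) (nat_lit 282) (nat_lit 262) (nat_lit 176))) (XT.nd (nat_lit 78) (nat_lit 380) (nat_lit 0) (XT.lf (nat_lit 0) (nat_lit 11478954503) (nat_lit 228) (nat_lit 9387090821) (nat_lit 304) (nat_lit 958748916) (nat_lit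 39) (nat_lit 5) (nat_lit 42) (nat_lit 5) (nat_lit 43) (nat_lit 5) (nat_lit 283) (nat_lit 262) (nat_lit 175)) (XT.nd (nat_lit 78) (nat_lit 304) (nat_lit 0) (XT.lf (nat_lit 0) (nat_lit 1173268328) (nat_lit 304) (nat_lit 1471840267) (nat_lit 76) (nat_lit 19875910110) (nat_lit 38) (nat_lit 5) (nat_lit 42) (nat_lit 5) (nat_lit 39) (nat_lit 5) (nat_lit 284) (nat_lit 262) (nat_lit 174)) (XT.lf (nat_lit 0) (nat_lit 3567166498) (nat_lit 380) (nat_lit 15239801592) (nat_lit 76) (nat_lit 4434968615) (nat_lit 34) (nat_lit 5) (nat_lit 39) (nat_lit 5) (nat_lit 35) (nat_lit 5) (nat_lit 285) (nat_lit 262) (nat_lit 173))))))))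
noncomputable def xc180 : XT := (XT.nd (nat_lit 1248) (nat_lit 760) (nat_lit 0) (XT.nd (nat_lit 624) (nat_lit 532) (nat_lit 0) (XT.nd (nat_lit 312) (nat_lit 456) (nat_lit 0) (XT.nd (nat_lit 156) (nat_lit 0) (nat_lit 0) (XT.nd (nat_lit 78) (nat_lit 228) (nat_lit 0) (XT.lf (nat_lit 0) (nat_lit 6139602618) (nat_lit 380) (nat_lit 6052264504) (nat_lit 76) (nat_lit 11804132462) (nat_lit 34) (nat_lit 5) (nat_lit 39) (nat_lit 5) (nat_lit 35) (nat_lit 5) (nat_lit 286) (nat_lit 262) (nat_lit 172)) (XT.lf (nat_lit 0) (nat_lit 3701946871) (nat_lit 228) (nat_lit 5187126342) (nat_lit 304) (nat_lit 15896310933) (nat_lit 31) (nat_lit 5) (nat_lit 34) (nat_lit 5) (nat_lit 35) (nat_lit 5) (nat_lit 287) (nat_lit 262) (nat_lit 171))) (XT.nd (nat_lit 78) (nat_lit 0) (nat_lit 0) (XT.lf (nat_lit 0) (nat_lit 11904902227) (nat_lit 304) (nat_lit 11502120514) (nat_lit 76) (nat_lit 2200808257) (nat_lit 31) (nat_lit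 5) (nat_lit 35) (nat_lit 5) (nat_lit 32) (nat_lit 5) (nat_lit 288) (nat_lit 262) (nat_lit 170)) (XT.lf (nat_lit 0) (nat_lit 15147853103) (nat_lit 304) (nat_lit 1537697266) (nat_lit 76) (nat_lit 9782068834) (nat_lit 31) (nat_lit 5) (nat_lit 35) (nat_lit 5) (nat_lit 32) (nat_lit 5) (nat_lit 289) (nat_lit 262) (nat_lit 169)))) (XT.nd (nat_lit 156) (nat_lit 228) (nat_lit 0) (XT.nd (nat_lit 78) (nat_lit 0) (nat_lit 0) (XT.lf (nat_lit 0) (nat_lit 9209297910) (nat_lit 228) (nat_lit 9479146611) (nat_lit 304) (nat_lit 8675211485) (nat_lit 28) (nat_lit 5) (nat_lit 31) (nat_lit 5) (nat_lit 32) (nat_lit 5) (nat_lit 290) (nat_lit 262) (nat_lit 168)) (XT.lf (nat_lit 0) (nat_lit 20536791753) (nat_lit 228) (nat_lit 1887260393) (nat_lit 304) (nat_lit 5879575399) (nat_lit 28) (nat_lit 5) (nat_lit 31) (nat_lit 5) (nat_lit 32) (nat_lit 5) (nat_lit 291) (nat_lit 262) (nat_lit 167))) (XT.nd (nat_lit 78)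 (nat_lit 76) (nat_lit 0) (XT.lf (nat_lit 0) (nat_lit 3135288878) (nat_lit 152) (nat_lit 23347389773) (nat_lit 228) (nat_lit 2801137778) (nat_lit 26) (nat_lit 5) (nat_lit 28) (nat_lit 5) (nat_lit 29) (nat_lit 5) (nat_lit 292) (nat_lit 262) (nat_lit 166)) (XT.lf (nat_lit 0) (nat_lit 574406296) (nat_lit 228) (nat_lit 15504346826) (nat_lit 76) (nat_lit 14226103525) (nat_lit 25) (nat_lit 5) (nat_lit 28) (nat_lit 5) (nat_lit 26) (nat_lit 5) (nat_lit 293) (nat_lit 262) (nat_lit 165))))) (XT.nd (nat_lit 312) (nat_lit 304) (nat_lit 0) (XT.nd (nat_lit 156) (nat_lit 0) (nat_lit 0) (XT.nd (nat_lit 78) (nat_lit 228) (nat_lit 0) (XT.lf (nat_lit 0) (nat_lit 4017311196) (nat_lit 228) (nat_lit 4383637378) (nat_lit 76) (nat_lit 22974094792) (nat_lit 25) (nat_lit 5) (nat_lit 28) (nat_lit 5) (nat_lit 26) (nat_lit 5) (nat_lit 294) (nat_lit 262) (nat_lit 164)) (XT.lf (nat_lit 0) (nat_lit 7524648014) (nat_lit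 228) (nat_lit 218261046) (nat_lit 304) (nat_lit 24750328225) (nat_lit 22) (nat_lit 5) (nat_lit 25) (nat_lit 5) (nat_lit 26) (nat_lit 5) (nat_lit 295) (nat_lit 262) (nat_lit 163))) (XT.nd (nat_lit 78) (nat_lit 0) (nat_lit 0) (XT.lf (nat_lit 0) (nat_lit 11854194399) (nat_lit 304) (nat_lit 13624512273) (nat_lit 76) (nat_lit 8178687897) (nat_lit 22) (nat_lit 5) (nat_lit 26) (nat_lit 5) (nat_lit 23) (nat_lit 5) (nat_lit 296) (nat_lit 262) (nat_lit 162)) (XT.lf (nat_lit 0) (nat_lit 16168161840) (nat_lit 304) (nat_lit 1725827767) (nat_lit 76) (nat_lit 16985937122) (nat_lit 22) (nat_lit 5) (nat_lit 26) (nat_lit 5) (nat_lit 23) (nat_lit 5) (nat_lit 297) (nat_lit 262) (nat_lit 161)))) (XT.nd (nat_lit 156) (nat_lit 152) (nat_lit 0) (XT.nd (nat_lit 78) (nat_lit 0) (nat_lit 0) (XT.lf (nat_lit 0) (nat_lit 11114949926) (nat_lit 152) (nat_lit 9750260661) (nat_lit 228) (nat_lit 15290027576) (nat_lit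 20) (nat_lit 5) (nat_lit 22) (nat_lit 5) (nat_lit 23) (nat_lit 5) (nat_lit 298) (nat_lit 262) (nat_lit 160)) (XT.lf (nat_lit 0) (nat_lit 24649233029) (nat_lit 152) (nat_lit 1171114934) (nat_lit 228) (nat_lit 11672826170) (nat_lit 20) (nat_lit 5) (nat_lit 22) (nat_lit 5) (nat_lit 23) (nat_lit 5) (nat_lit 299) (nat_lit 262) (nat_lit 159))) (XT.nd (nat_lit 78) (nat_lit 152) (nat_lit 0) (XT.lf (nat_lit 0) (nat_lit 31139856768) (nat_lit 228) (nat_lit 168450421) (nat_lit 76) (nat_lit 7583888768) (nat_lit 20) (nat_lit 5) (nat_lit 23) (nat_lit 5) (nat_lit 21) (nat_lit 5) (nat_lit 300) (nat_lit 262) (nat_lit 158)) (XT.lf (nat_lit 0) (nat_lit 13547293759) (nat_lit 152) (nat_lit 23403287761) (nat_lit 228) (nat_lit 3399344170) (nat_lit 18) (nat_lit 5) (nat_lit 20) (nat_lit 5) (nat_lit 21) (nat_lit 5) (nat_lit 301) (nat_lit 262) (nat_lit 157)))))) (XT.nd (nat_lit 624) (nat_lit 380) (nat_lit 0)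 (XT.nd (nat_lit 312) (nat_lit 152) (nat_lit 0) (XT.nd (nat_lit 156) (nat_lit 152) (nat_lit 0) (XT.nd (nat_lit 78) (nat_lit 0) (nat_lit 0) (XT.lf (nat_lit 0) (nat_lit 1131275922) (nat_lit 228) (nat_lit 13952049451) (nat_lit 76) (nat_lit 26796446050) (nat_lit 17) (nat_lit 5) (nat_lit 20) (nat_lit 5) (nat_lit 18) (nat_lit 5) (nat_lit 302) (nat_lit 262) (nat_lit 156)) (XT.lf (nat_lit 0) (nat_lit 5769010290) (nat_lit 228) (nat_lit 522273842) (nat_lit 76) (nat_lit 37192314065) (nat_lit 17) (nat_lit 5) (nat_lit 20) (nat_lit 5) (nat_lit 18) (nat_lit 5) (nat_lit 303) (nat_lit 262) (nat_lit 155))) (XT.nd (nat_lit 78) (nat_lit 0) (nat_lit 0) (XT.lf (nat_lit 0) (nat_lit 10902060080) (nat_lit 228) (nat_lit 31185905958) (nat_lit 76) (nat_lit 3066494337) (nat_lit 15) (nat_lit 5) (nat_lit 18) (nat_lit 5) (nat_lit 16) (nat_lit 5) (nat_lit 304) (nat_lit 262) (nat_lit 154)) (XT.lf (nat_lit 0) (nat_lit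 16399045319) (nat_lit 228) (nat_lit 17816996602) (nat_lit 76) (nat_lit 12687474358) (nat_lit 15) (nat_lit 5) (nat_lit 18) (nat_lit 5) (nat_lit 16) (nat_lit 5) (nat_lit 305) (nat_lit 262) (nat_lit 153)))) (XT.nd (nat_lit 156) (nat_lit 0) (nat_lit 0) (XT.nd (nat_lit 78) (nat_lit 152) (nat_lit 0) (XT.lf (nat_lit 0) (nat_lit 22166267624) (nat_lit 228) (nat_lit 3786640483) (nat_lit 76) (nat_lit 22787361539) (nat_lit 15) (nat_lit 5) (nat_lit 18) (nat_lit 5) (nat_lit 16) (nat_lit 5) (nat_lit 306) (nat_lit 262) (nat_lit 152)) (XT.lf (nat_lit 0) (nat_lit 11300246463) (nat_lit 152) (nat_lit 17093640530) (nat_lit 228) (nat_lit 22266385283) (nat_lit 13) (nat_lit 5) (nat_lit 15) (nat_lit 5) (nat_lit 16) (nat_lit 5) (nat_lit 307) (nat_lit 262) (nat_lit 151))) (XT.nd (nat_lit 78) (nat_lit 0) (nat_lit 0) (XT.lf (nat_lit 0) (nat_lit 27266383438) (nat_lit 152) (nat_lit 7726346697) (nat_lit 228) (nat_lit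 17680565516) (nat_lit 13) (nat_lit 5) (nat_lit 15) (nat_lit 5) (nat_lit 16) (nat_lit 5) (nat_lit 308) (nat_lit 262) (nat_lit 150)) (XT.lf (nat_lit 0) (nat_lit 41950332219) (nat_lit 228) (nat_lit 10795503294) (nat_lit 76) (nat_lit 2039705989) (nat_lit 13) (nat_lit 5) (nat_lit 16) (nat_lit 5) (nat_lit 14) (nat_lit 4) (nat_lit 309) (nat_lit 262) (nat_lit 149))))) (XT.nd (nat_lit 312) (nat_lit 228) (nat_lit 0) (XT.nd (nat_lit 156) (nat_lit 76) (nat_lit 0) (XT.nd (nat_lit 78) (nat_lit 0) (nat_lit 0) (XT.lf (nat_lit 0) (nat_lit 4559629270) (nat_lit 76) (nat_lit 44890115638) (nat_lit 152) (nat_lit 7543969780) (nat_lit 12) (nat_lit 5) (nat_lit 13) (nat_lit 5) (nat_lit 14) (nat_lit 4) (nat_lit 310) (nat_lit 262) (nat_lit 148)) (XT.lf (nat_lit 0) (nat_lit 21051290712) (nat_lit 76) (nat_lit 36451837687) (nat_lit 152) (nat_lit 1800229143) (nat_lit 12) (nat_lit 5) (nat_lit 13) (nat_lit 5) (nat_lit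 14) (nat_lit 4) (nat_lit 311) (nat_lit 262) (nat_lit 147))) (XT.nd (nat_lit 78) (nat_lit 0) (nat_lit 0) (XT.lf (nat_lit 0) (nat_lit 4091575172) (nat_lit 152) (nat_lit 23432869616) (nat_lit 76) (nat_lit 34200930819) (nat_lit 11) (nat_lit 5) (nat_lit 13) (nat_lit 5) (nat_lit 12) (nat_lit 5) (nat_lit 312) (nat_lit 262) (nat_lit 146)) (XT.lf (nat_lit 0) (nat_lit 10213932508) (nat_lit 152) (nat_lit 7907814247) (nat_lit 76) (nat_lit 46145458624) (nat_lit 11) (nat_lit 5) (nat_lit 13) (nat_lit 5) (nat_lit 12) (nat_lit 5) (nat_lit 313) (nat_lit 262) (nat_lit 145)))) (XT.nd (nat_lit 156) (nat_lit 76) (nat_lit 0) (XT.nd (nat_lit 78) (nat_lit 0) (nat_lit 0) (XT.lf (nat_lit 0) (nat_lit 8665521107) (nat_lit 152) (nat_lit 8108810441) (nat_lit 228) (nat_lit 50155207963) (nat_lit 9) (nat_lit 5) (nat_lit 11) (nat_lit 5) (nat_lit 12) (nat_lit 5) (nat_lit 314) (nat_lit 262) (nat_lit 144)) (XT.lf (nat_lit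 0) (nat_lit 23833092928) (nat_lit 228) (nat_lit 43421350698) (nat_lit 76) (nat_lit 2462038236) (nat_lit 9) (nat_lit 5) (nat_lit 12) (nat_lit 5) (nat_lit 10) (nat_lit 4) (nat_lit 315) (nat_lit 262) (nat_lit 143))) (XT.nd (nat_lit 78) (nat_lit 76) (nat_lit 0) (XT.lf (nat_lit 0) (nat_lit 31374560869) (nat_lit 228) (nat_lit 27974605183) (nat_lit 76) (nat_lit 13287125074) (nat_lit 9) (nat_lit 5) (nat_lit 12) (nat_lit 5) (nat_lit 10) (nat_lit 4) (nat_lit 316) (nat_lit 262) (nat_lit 142)) (XT.nd (nat_lit 78) (nat_lit 76) (nat_lit 0) (XT.lf (nat_lit 0) (nat_lit 39290089992) (nat_lit 228) (nat_lit 11760402639) (nat_lit 76) (nat_lit 24651756665) (nat_lit 9) (nat_lit 5) (nat_lit 12) (nat_lit 5) (nat_lit 10) (nat_lit 4) (nat_lit 317) (nat_lit 262) (nat_lit 141)) (XT.lf (nat_lit 0) (nat_lit 5433776977) (nat_lit 76) (nat_lit 42249586303) (nat_lit 152) (nat_lit 31234051163) (nat_lit 8) (nat_lit 5)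 (nat_lit 9) (nat_lit 5) (nat_lit 10) (nat_lit 4) (nat_lit 318) (nat_lit 262) (nat_lit 140))))))))
noncomputable def xc181 : XT := (XT.nd (nat_lit 1326) (nat_lit 228) (nat_lit 0) (XT.nd (nat_lit 624) (nat_lit 76) (nat_lit 0) (XT.nd (nat_lit 312) (nat_lit 152) (nat_lit 0) (XT.nd (nat_lit 156) (nat_lit 0) (nat_lit 0) (XT.nd (nat_lit 78) (nat_lit 0) (nat_lit 0) (XT.lf (nat_lit 0) (nat_lit 23891387310) (nat_lit 76) (nat_lit 32801277468) (nat_lit 152) (nat_lit 25590861944) (nat_lit 8) (nat_lit 5) (nat_lit 9) (nat_lit 5) (nat_lit 10) (nat_lit 4) (nat_lit 319) (nat_lit 262) (nat_lit 139)) (XT.lf (nat_lit 0) (nat_lit 43267523029) (nat_lit 76) (nat_lit 22882238262) (nat_lit 152) (nat_lit 19668323592) (nat_lit 8) (nat_lit 5) (nat_lit 9) (nat_lit 5) (nat_lit 10) (nat_lit 4) (nat_lit 320) (nat_lit 262) (nat_lit 138))) (XT.nd (nat_lit 78) (nat_lit 0) (nat_lit 0) (XT.lf (nat_lit 0) (nat_lit 63608317790)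 (nat_lit 76) (nat_lit 12468851924) (nat_lit 152) (nat_lit 13452334824) (nat_lit 8) (nat_lit 5) (nat_lit 9) (nat_lit 5) (nat_lit 10) (nat_lit 4) (nat_lit 321) (nat_lit 262) (nat_lit 137)) (XT.lf (nat_lit 0) (nat_lit 84962202057) (nat_lit 76) (nat_lit 1536324678) (nat_lit 152) (nat_lit 6928095667) (nat_lit 8) (nat_lit 5) (nat_lit 9) (nat_lit 5) (nat_lit 10) (nat_lit 4) (nat_lit 322) (nat_lit 262) (nat_lit 136)))) (XT.nd (nat_lit 156) (nat_lit 0) (nat_lit 0) (XT.nd (nat_lit 78) (nat_lit 0) (nat_lit 0) (XT.lf (nat_lit 0) (nat_lit 239363963) (nat_lit 152) (nat_lit 87479974409) (nat_lit 76) (nat_lit 9783597793) (nat_lit 6) (nat_lit 5) (nat_lit 8) (nat_lit 5) (nat_lit 7) (nat_lit 4) (nat_lit 323) (nat_lit 262) (nat_lit 135)) (XT.lf (nat_lit 0) (nat_lit 7700931484) (nat_lit 152) (nat_lit 72192310932) (nat_lit 76) (nat_lit 21875721515) (nat_lit 6) (nat_lit 5) (nat_lit 8) (nat_lit 5) (nat_lit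 7) (nat_lit 4) (nat_lit 324) (nat_lit 262) (nat_lit 134))) (XT.nd (nat_lit 78) (nat_lit 0) (nat_lit 0) (XT.lf (nat_lit 0) (nat_lit 15533367538) (nat_lit 152) (nat_lit 56143959824) (nat_lit 76) (nat_lit 34571081264) (nat_lit 6) (nat_lit 5) (nat_lit 8) (nat_lit 5) (nat_lit 7) (nat_lit 4) (nat_lit 325) (nat_lit 262) (nat_lit 133)) (XT.lf (nat_lit 0) (nat_lit 23755320780) (nat_lit 152) (nat_lit 39296710724) (nat_lit 76) (nat_lit 47899904086) (nat_lit 6) (nat_lit 5) (nat_lit 8) (nat_lit 5) (nat_lit 7) (nat_lit 4) (nat_lit 326) (nat_lit 262) (nat_lit 132))))) (XT.nd (nat_lit 312) (nat_lit 0) (nat_lit 0) (XT.nd (nat_lit 156) (nat_lit 76) (nat_lit 0) (XT.nd (nat_lit 78) (nat_lit 0) (nat_lit 0) (XT.lf (nat_lit 0) (nat_lit 32386367292) (nat_lit 152) (nat_lit 21610451137) (nat_lit 76) (nat_lit 61893925274) (nat_lit 6) (nat_lit 5) (nat_lit 8) (nat_lit 5) (nat_lit 7) (nat_lit 4) (nat_lit 327) (nat_lit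 262) (nat_lit 131)) (XT.lf (nat_lit 0) (nat_lit 41447057183) (nat_lit 152) (nat_lit 3043070918) (nat_lit 76) (nat_lit 76586463925) (nat_lit 6) (nat_lit 5) (nat_lit 8) (nat_lit 5) (nat_lit 7) (nat_lit 4) (nat_lit 328) (nat_lit 262) (nat_lit 130))) (XT.nd (nat_lit 78) (nat_lit 0) (nat_lit 0) (XT.lf (nat_lit 0) (nat_lit 16993537298) (nat_lit 76) (nat_lit 34230742967) (nat_lit 152) (nat_lit 75284281718) (nat_lit 5) (nat_lit 5) (nat_lit 6) (nat_lit 5) (nat_lit 7) (nat_lit 4) (nat_lit 329) (nat_lit 262) (nat_lit 129)) (XT.lf (nat_lit 0) (nat_lit 38134633183) (nat_lit 76) (nat_lit 23405489025) (nat_lit 152) (nat_lit 70669524300) (nat_lit 5) (nat_lit 5) (nat_lit 6) (nat_lit 5) (nat_lit 7) (nat_lit 4) (nat_lit 330) (nat_lit 262) (nat_lit 128)))) (XT.nd (nat_lit 156) (nat_lit 0) (nat_lit 0) (XT.nd (nat_lit 78) (nat_lit 0) (nat_lit 0) (XT.lf (nat_lit 0) (nat_lit 60329935010) (nat_lit 76) (nat_lit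 12040127739) (nat_lit 152) (nat_lit 65825810950) (nat_lit 5) (nat_lit 5) (nat_lit 6) (nat_lit 5) (nat_lit 7) (nat_lit 4) (nat_lit 331) (nat_lit 262) (nat_lit 127)) (XT.lf (nat_lit 0) (nat_lit 83632288736) (nat_lit 76) (nat_lit 107598727) (nat_lit 152) (nat_lit 60741609017) (nat_lit 5) (nat_lit 5) (nat_lit 6) (nat_lit 5) (nat_lit 7) (nat_lit 4) (nat_lit 332) (nat_lit 262) (nat_lit 126))) (XT.nd (nat_lit 78) (nat_lit 0) (nat_lit 0) (XT.lf (nat_lit 0) (nat_lit 95870586310) (nat_lit 152) (nat_lit 43178223414) (nat_lit 0) (nat_lit 12022974946) (nat_lit 5) (nat_lit 5) (nat_lit 7) (nat_lit 4) (nat_lit 5) (nat_lit 4) (nat_lit 333) (nat_lit 262) (nat_lit 125)) (XT.nd (nat_lit 78) (nat_lit 0) (nat_lit 0) (XT.lf (nat_lit 0) (nat_lit 108608105524) (nat_lit 152) (nat_lit 24627975542) (nat_lit 0) (nat_lit 24755495186) (nat_lit 5) (nat_lit 5) (nat_lit 7) (nat_lit 4) (nat_lit 5) (nat_lit 4) (nat_lit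 334) (nat_lit 262) (nat_lit 124)) (XT.lf (nat_lit 0) (nat_lit 121981092613) (nat_lit 152) (nat_lit 5152616955) (nat_lit 0) (nat_lit 38123721348) (nat_lit 5) (nat_lit 5) (nat_lit 7) (nat_lit 4) (nat_lit 5) (nat_lit 4) (nat_lit 335) (nat_lit 262) (nat_lit 123))))))) (XT.nd (nat_lit 624) (nat_lit 76) (nat_lit 0) (XT.nd (nat_lit 312) (nat_lit 76) (nat_lit 0) (XT.nd (nat_lit 156) (nat_lit 0) (nat_lit 0) (XT.nd (nat_lit 78) (nat_lit 0) (nat_lit 0) (XT.lf (nat_lit 0) (nat_lit 15799918306) (nat_lit 76) (nat_lit 120468150721) (nat_lit 76) (nat_lit 36606245240) (nat_lit 4) (nat_lit 4) (nat_lit 5) (nat_lit 5) (nat_lit 5) (nat_lit 4) (nat_lit 336) (nat_lit 262) (nat_lit 122)) (XT.lf (nat_lit 0) (nat_lit 37976717137) (nat_lit 76) (nat_lit 113378626876) (nat_lit 76) (nat_lit 29512403094) (nat_lit 4) (nat_lit 4) (nat_lit 5) (nat_lit 5) (nat_lit 5) (nat_lit 4) (nat_lit 337) (nat_lit 262) (nat_lit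 121))) (XT.nd (nat_lit 78) (nat_lit 0) (nat_lit 0) (XT.lf (nat_lit 0) (nat_lit 61260212652) (nat_lit 76) (nat_lit 105935520277) (nat_lit 76) (nat_lit 22065183827) (nat_lit 4) (nat_lit 4) (nat_lit 5) (nat_lit 5) (nat_lit 5) (nat_lit 4) (nat_lit 338) (nat_lit 262) (nat_lit 120)) (XT.lf (nat_lit 0) (nat_lit 85705841745) (nat_lit 76) (nat_lit 98121109242) (nat_lit 76) (nat_lit 14246855965) (nat_lit 4) (nat_lit 4) (nat_lit 5) (nat_lit 5) (nat_lit 5) (nat_lit 4) (nat_lit 339) (nat_lit 262) (nat_lit 119)))) (XT.nd (nat_lit 156) (nat_lit 0) (nat_lit 0) (XT.nd (nat_lit 78) (nat_lit 76) (nat_lit 0) (XT.lf (nat_lit 0) (nat_lit 111371808296) (nat_lit 76) (nat_lit 89916788029) (nat_lit 76) (nat_lit 6038804442) (nat_lit 4) (nat_lit 4) (nat_lit 5) (nat_lit 5) (nat_lit 5) (nat_lit 4) (nat_lit 340) (nat_lit 262) (nat_lit 118)) (XT.lf (nat_lit 0) (nat_lit 2495985180) (nat_lit 152) (nat_lit 78764766645)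 (nat_lit 76) (nat_lit 135780965850) (nat_lit 3) (nat_lit 5) (nat_lit 5) (nat_lit 5) (nat_lit 4) (nat_lit 4) (nat_lit 341) (nat_lit 262) (nat_lit 117))) (XT.nd (nat_lit 78) (nat_lit 0) (nat_lit 0) (XT.lf (nat_lit 0) (nat_lit 11253523638) (nat_lit 152) (nat_lit 60815196307) (nat_lit 76) (nat_lit 155168135101) (nat_lit 3) (nat_lit 5) (nat_lit 5) (nat_lit 5) (nat_lit 4) (nat_lit 4) (nat_lit 342) (nat_lit 262) (nat_lit 116)) (XT.lf (nat_lit 0) (nat_lit 20447941670) (nat_lit 152) (nat_lit 41969861725) (nat_lit 76) (nat_lit 175523997757) (nat_lit 3) (nat_lit 5) (nat_lit 5) (nat_lit 5) (nat_lit 4) (nat_lit 4) (nat_lit 343) (nat_lit 262) (nat_lit 115))))) (XT.nd (nat_lit 312) (nat_lit 0) (nat_lit 0) (XT.nd (nat_lit 156) (nat_lit 76) (nat_lit 0) (XT.nd (nat_lit 78) (nat_lit 0) (nat_lit 0) (XT.lf (nat_lit 0) (nat_lit 30101130746) (nat_lit 152) (nat_lit 22183893054) (nat_lit 76) (nat_lit 196897020157)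 (nat_lit 3) (nat_lit 5) (nat_lit 5) (nat_lit 5) (nat_lit 4) (nat_lit 4) (nat_lit 344) (nat_lit 262) (nat_lit 114)) (XT.lf (nat_lit 0) (nat_lit 40236074651) (nat_lit 152) (nat_lit 1410180845) (nat_lit 76) (nat_lit 219338090449) (nat_lit 3) (nat_lit 5) (nat_lit 5) (nat_lit 5) (nat_lit 4) (nat_lit 4) (nat_lit 345) (nat_lit 262) (nat_lit 113))) (XT.nd (nat_lit 78) (nat_lit 0) (nat_lit 0) (XT.lf (nat_lit 0) (nat_lit 21075276589) (nat_lit 76) (nat_lit 30130671745) (nat_lit 152) (nat_lit 222154407296) (nat_lit 2) (nat_lit 5) (nat_lit 3) (nat_lit 5) (nat_lit 4) (nat_lit 4) (nat_lit 346) (nat_lit 262) (nat_lit 112)) (XT.lf (nat_lit 0) (nat_lit 44732508222) (nat_lit 76) (nat_lit 18014846305) (nat_lit 152) (nat_lit 223606660973) (nat_lit 2) (nat_lit 5) (nat_lit 3) (nat_lit 5) (nat_lit 4) (nat_lit 4) (nat_lit 347) (nat_lit 262) (nat_lit 111)))) (XT.nd (nat_lit 156) (nat_lit 0) (nat_lit 0) (XT.nd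 (nat_lit 78) (nat_lit 0) (nat_lit 0) (XT.lf (nat_lit 0) (nat_lit 69571213848) (nat_lit 76) (nat_lit 5293814068) (nat_lit 152) (nat_lit 225132372168) (nat_lit 2) (nat_lit 5) (nat_lit 3) (nat_lit 5) (nat_lit 4) (nat_lit 4) (nat_lit 348) (nat_lit 262) (nat_lit 110)) (XT.lf (nat_lit 0) (nat_lit 87713701652) (nat_lit 152) (nat_lit 218798341938) (nat_lit 0) (nat_lit 7804655964) (nat_lit 2) (nat_lit 5) (nat_lit 4) (nat_lit 4) (nat_lit 2) (nat_lit 4) (nat_lit 349) (nat_lit 262) (nat_lit 109))) (XT.nd (nat_lit 78) (nat_lit 0) (nat_lit 0) (XT.lf (nat_lit 0) (nat_lit 101290856188) (nat_lit 152) (nat_lit 206677177410) (nat_lit 0) (nat_lit 21379629464) (nat_lit 2) (nat_lit 5) (nat_lit 4) (nat_lit 4) (nat_lit 2) (nat_lit 4) (nat_lit 350) (nat_lit 262) (nat_lit 108)) (XT.nd (nat_lit 156) (nat_lit 0) (nat_lit 0) (XT.lf (nat_lit 0) (nat_lit 115546166807) (nat_lit 152) (nat_lit 193951181464) (nat_lit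 0) (nat_lit 35632862907) (nat_lit 2) (nat_lit 5) (nat_lit 4) (nat_lit 4) (nat_lit 2) (nat_lit 4) (nat_lit 351) (nat_lit 262) (nat_lit 107)) (XT.lf (nat_lit 0) (nat_lit 146228716632) (nat_lit 152) (nat_lit 166561983138) (nat_lit 0) (nat_lit 66311550408) (nat_lit 2) (nat_lit 5) (nat_lit 4) (nat_lit 4) (nat_lit 2) (nat_lit 4) (nat_lit 353) (nat_lit 262) (nat_lit 105))))))))
noncomputable def xc182 : XT := (XT.nd (nat_lit 1326) (nat_lit 1824) (nat_lit 0) (XT.nd (nat_lit 624) (nat_lit 1368) (nat_lit 0) (XT.nd (nat_lit 312) (nat_lit 0) (nat_lit 76) (XT.nd (nat_lit 156) (nat_lit 0) (nat_lit 0) (XT.nd (nat_lit 78) (nat_lit 0) (nat_lit 0) (XT.lf (nat_lit 0) (nat_lit 4011763801) (nat_lit 684) (nat_lit 1228552903) (nat_lit 684) (nat_lit 1228552903) (nat_lit 64) (nat_lit 3) (nat_lit 73) (nat_lit 3) (nat_lit 73) (nat_lit 5) (nat_lit 263) (nat_lit 263) (nat_lit 194)) (XT.lf (nat_lit 76) (nat_lit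 2806456816) (nat_lit 0) (nat_lit 5810386843) (nat_lit 684) (nat_lit 4622823035) (nat_lit 65) (nat_lit 5) (nat_lit 64) (nat_lit 3) (nat_lit 73) (nat_lit 5) (nat_lit 264) (nat_lit 263) (nat_lit 193))) (XT.nd (nat_lit 78) (nat_lit 0) (nat_lit 76) (XT.lf (nat_lit 76) (nat_lit 8406327178) (nat_lit 0) (nat_lit 852585845) (nat_lit 684) (nat_lit 4296943465) (nat_lit 65) (nat_lit 5) (nat_lit 64) (nat_lit 3) (nat_lit 73) (nat_lit 5) (nat_lit 265) (nat_lit 263) (nat_lit 192)) (XT.lf (nat_lit 76) (nat_lit 327930069) (nat_lit 0) (nat_lit 9656941590) (nat_lit 684) (nat_lit 3900509413) (nat_lit 66) (nat_lit 5) (nat_lit 65) (nat_lit 5) (nat_lit 74) (nat_lit 5) (nat_lit 266) (nat_lit 263) (nat_lit 191)))) (XT.nd (nat_lit 156) (nat_lit 0) (nat_lit 76) (XT.nd (nat_lit 78) (nat_lit 0) (nat_lit 76) (XT.lf (nat_lit 76) (nat_lit 6230875302) (nat_lit 0) (nat_lit 4596731285) (nat_lit 684) (nat_lit 3399860513)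 (nat_lit 66) (nat_lit 5) (nat_lit 65) (nat_lit 5) (nat_lit 74) (nat_lit 5) (nat_lit 267) (nat_lit 263) (nat_lit 190)) (XT.lf (nat_lit 0) (nat_lit 11704272553) (nat_lit 608) (nat_lit 2182192743) (nat_lit 684) (nat_lit 700706353) (nat_lit 66) (nat_lit 5) (nat_lit 74) (nat_lit 5) (nat_lit 75) (nat_lit 5) (nat_lit 268) (nat_lit 263) (nat_lit 189))) (XT.nd (nat_lit 78) (nat_lit 0) (nat_lit 0) (XT.lf (nat_lit 76) (nat_lit 3961686137) (nat_lit 0) (nat_lit 8781826269) (nat_lit 684) (nat_lit 2215510977) (nat_lit 67) (nat_lit 5) (nat_lit 66) (nat_lit 5) (nat_lit 75) (nat_lit 5) (nat_lit 269) (nat_lit 263) (nat_lit 188)) (XT.lf (nat_lit 76) (nat_lit 10476041752) (nat_lit 0) (nat_lit 3377844951) (nat_lit 684) (nat_lit 1494716651) (nat_lit 67) (nat_lit 5) (nat_lit 66) (nat_lit 5) (nat_lit 75) (nat_lit 5) (nat_lit 270) (nat_lit 263) (nat_lit 187))))) (XT.nd (nat_lit 312) (nat_lit 912) (nat_lit 0)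 (XT.nd (nat_lit 156) (nat_lit 0) (nat_lit 0) (XT.nd (nat_lit 78) (nat_lit 684) (nat_lit 0) (XT.lf (nat_lit 76) (nat_lit 1559618769) (nat_lit 0) (nat_lit 13503504913) (nat_lit 684) (nat_lit 692461226) (nat_lit 68) (nat_lit 5) (nat_lit 67) (nat_lit 5) (nat_lit 76) (nat_lit 5) (nat_lit 271) (nat_lit 263) (nat_lit 186)) (XT.lf (nat_lit 0) (nat_lit 267752600) (nat_lit 684) (nat_lit 7768606546) (nat_lit 760) (nat_lit 8140388627) (nat_lit 58) (nat_lit 5) (nat_lit 67) (nat_lit 5) (nat_lit 68) (nat_lit 5) (nat_lit 272) (nat_lit 263) (nat_lit 185))) (XT.nd (nat_lit 78) (nat_lit 0) (nat_lit 76) (XT.lf (nat_lit 0) (nat_lit 1236893614) (nat_lit 684) (nat_lit 1043918141) (nat_lit 760) (nat_lit 14338457608) (nat_lit 58) (nat_lit 5) (nat_lit 67) (nat_lit 5) (nat_lit 68) (nat_lit 5) (nat_lit 273) (nat_lit 263) (nat_lit 184)) (XT.lf (nat_lit 0) (nat_lit 2396663551) (nat_lit 684) (nat_lit 10936807464)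 (nat_lit 76) (nat_lit 3743411288) (nat_lit 59) (nat_lit 5) (nat_lit 68) (nat_lit 5) (nat_lit 60) (nat_lit 5) (nat_lit 274) (nat_lit 263) (nat_lit 183)))) (XT.nd (nat_lit 156) (nat_lit 304) (nat_lit 0) (XT.nd (nat_lit 78) (nat_lit 684) (nat_lit 0) (XT.lf (nat_lit 0) (nat_lit 3655294834) (nat_lit 684) (nat_lit 3887388400) (nat_lit 76) (nat_lit 10012719363) (nat_lit 59) (nat_lit 5) (nat_lit 68) (nat_lit 5) (nat_lit 60) (nat_lit 5) (nat_lit 275) (nat_lit 263) (nat_lit 182)) (XT.lf (nat_lit 0) (nat_lit 3618185931) (nat_lit 684) (nat_lit 1401365017) (nat_lit 760) (nat_lit 13036230289) (nat_lit 50) (nat_lit 5) (nat_lit 59) (nat_lit 5) (nat_lit 60) (nat_lit 5) (nat_lit 276) (nat_lit 263) (nat_lit 181))) (XT.nd (nat_lit 78) (nat_lit 304) (nat_lit 0) (XT.lf (nat_lit 0) (nat_lit 6584427978) (nat_lit 760) (nat_lit 7036440841) (nat_lit 76) (nat_lit 4953753394) (nat_lit 50) (nat_lit 5) (nat_lit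 60) (nat_lit 5) (nat_lit 51) (nat_lit 5) (nat_lit 277) (nat_lit 263) (nat_lit 180)) (XT.nd (nat_lit 78) (nat_lit 0) (nat_lit 0) (XT.lf (nat_lit 0) (nat_lit 722861148) (nat_lit 304) (nat_lit 7526276254) (nat_lit 380) (nat_lit 10869249176) (nat_lit 46) (nat_lit 5) (nat_lit 50) (nat_lit 5) (nat_lit 51) (nat_lit 5) (nat_lit 278) (nat_lit 263) (nat_lit 179)) (XT.lf (nat_lit 0) (nat_lit 9102539232) (nat_lit 304) (nat_lit 1001455963) (nat_lit 380) (nat_lit 9580056200) (nat_lit 46) (nat_lit 5) (nat_lit 50) (nat_lit 5) (nat_lit 51) (nat_lit 5) (nat_lit 279) (nat_lit 263) (nat_lit 178))))))) (XT.nd (nat_lit 624) (nat_lit 912) (nat_lit 0) (XT.nd (nat_lit 312) (nat_lit 380) (nat_lit 0) (XT.nd (nat_lit 156) (nat_lit 228) (nat_lit 0) (XT.nd (nat_lit 78) (nat_lit 304) (nat_lit 0) (XT.lf (nat_lit 0) (nat_lit 12131260998) (nat_lit 380) (nat_lit 2480083817) (nat_lit 76) (nat_lit 5662726498) (nat_lit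 46) (nat_lit 5) (nat_lit 51) (nat_lit 5) (nat_lit 47) (nat_lit 5) (nat_lit 280) (nat_lit 263) (nat_lit 177)) (XT.lf (nat_lit 0) (nat_lit 6196952330) (nat_lit 304) (nat_lit 8164998663) (nat_lit 380) (nat_lit 6526590684) (nat_lit 42) (nat_lit 5) (nat_lit 46) (nat_lit 5) (nat_lit 47) (nat_lit 5) (nat_lit 281) (nat_lit 263) (nat_lit 176))) (XT.nd (nat_lit 78) (nat_lit 228) (nat_lit 0) (XT.lf (nat_lit 0) (nat_lit 15382739387) (nat_lit 304) (nat_lit 1352683359) (nat_lit 380) (nat_lit 4796800446) (nat_lit 42) (nat_lit 5) (nat_lit 46) (nat_lit 5) (nat_lit 47) (nat_lit 5) (nat_lit 282) (nat_lit 263) (nat_lit 175)) (XT.lf (nat_lit 0) (nat_lit 2807813119) (nat_lit 228) (nat_lit 16543902176) (nat_lit 304) (nat_lit 2850213740) (nat_lit 39) (nat_lit 5) (nat_lit 42) (nat_lit 5) (nat_lit 43) (nat_lit 5) (nat_lit 283) (nat_lit 263) (nat_lit 174)))) (XT.nd (nat_lit 156) (nat_lit 304) (nat_lit 0) (XT.nd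 (nat_lit 78) (nat_lit 76) (nat_lit 0) (XT.lf (nat_lit 0) (nat_lit 12392520431) (nat_lit 228) (nat_lit 9822330887) (nat_lit 304) (nat_lit 684512758) (nat_lit 39) (nat_lit 5) (nat_lit 42) (nat_lit 5) (nat_lit 43) (nat_lit 5) (nat_lit 284) (nat_lit 263) (nat_lit 173)) (XT.lf (nat_lit 0) (nat_lit 1528943207) (nat_lit 304) (nat_lit 1210900808) (nat_lit 76) (nat_lit 20891110027) (nat_lit 38) (nat_lit 5) (nat_lit 42) (nat_lit 5) (nat_lit 39) (nat_lit 5) (nat_lit 285) (nat_lit 263) (nat_lit 172))) (XT.nd (nat_lit 78) (nat_lit 0) (nat_lit 0) (XT.lf (nat_lit 0) (nat_lit 4034173755) (nat_lit 380) (nat_lit 15657692883) (nat_lit 76) (nat_lit 4696529671) (nat_lit 34) (nat_lit 5) (nat_lit 39) (nat_lit 5) (nat_lit 35) (nat_lit 5) (nat_lit 286) (nat_lit 263) (nat_lit 171)) (XT.lf (nat_lit 0) (nat_lit 6721486493) (nat_lit 380) (nat_lit 6027164597) (nat_lit 76) (nat_lit 12432255872) (nat_lit 34) (nat_lit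 5) (nat_lit 39) (nat_lit 5) (nat_lit 35) (nat_lit 5) (nat_lit 287) (nat_lit 263) (nat_lit 170))))) (XT.nd (nat_lit 312) (nat_lit 456) (nat_lit 0) (XT.nd (nat_lit 156) (nat_lit 228) (nat_lit 0) (XT.nd (nat_lit 78) (nat_lit 0) (nat_lit 0) (XT.lf (nat_lit 0) (nat_lit 4209471651) (nat_lit 228) (nat_lit 5390902308) (nat_lit 304) (nat_lit 16409844264) (nat_lit 31) (nat_lit 5) (nat_lit 34) (nat_lit 5) (nat_lit 35) (nat_lit 5) (nat_lit 288) (nat_lit 263) (nat_lit 169)) (XT.lf (nat_lit 0) (nat_lit 12755113863) (nat_lit 304) (nat_lit 11757231491) (nat_lit 76) (nat_lit 2362088129) (nat_lit 31) (nat_lit 5) (nat_lit 35) (nat_lit 5) (nat_lit 32) (nat_lit 5) (nat_lit 289) (nat_lit 263) (nat_lit 168))) (XT.nd (nat_lit 78) (nat_lit 228) (nat_lit 0) (XT.lf (nat_lit 0) (nat_lit 16148071019) (nat_lit 304) (nat_lit 1309824940) (nat_lit 76) (nat_lit 10319971761) (nat_lit 31) (nat_lit 5) (nat_lit 35) (nat_lit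 5) (nat_lit 32) (nat_lit 5) (nat_lit 290) (nat_lit 263) (nat_lit 167)) (XT.lf (nat_lit 0) (nat_lit 9969604556) (nat_lit 228) (nat_lit 9889205714) (nat_lit 304) (nat_lit 8860287379) (nat_lit 28) (nat_lit 5) (nat_lit 31) (nat_lit 5) (nat_lit 32) (nat_lit 5) (nat_lit 291) (nat_lit 263) (nat_lit 166)))) (XT.nd (nat_lit 156) (nat_lit 304) (nat_lit 0) (XT.nd (nat_lit 78) (nat_lit 152) (nat_lit 0) (XT.lf (nat_lit 0) (nat_lit 21849194913) (nat_lit 228) (nat_lit 1920767959) (nat_lit 304) (nat_lit 5936711616) (nat_lit 28) (nat_lit 5) (nat_lit 31) (nat_lit 5) (nat_lit 32) (nat_lit 5) (nat_lit 292) (nat_lit 263) (nat_lit 165)) (XT.lf (nat_lit 0) (nat_lit 3584014949) (nat_lit 152) (nat_lit 24442268585) (nat_lit 228) (nat_lit 2709893950) (nat_lit 26) (nat_lit 5) (nat_lit 28) (nat_lit 5) (nat_lit 29) (nat_lit 5) (nat_lit 293) (nat_lit 263) (nat_lit 164))) (XT.nd (nat_lit 78) (nat_lit 228) (nat_lit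 0) (XT.lf (nat_lit 0) (nat_lit 816362467) (nat_lit 228) (nat_lit 15993678320) (nat_lit 76) (nat_lit 14998620285) (nat_lit 25) (nat_lit 5) (nat_lit 28) (nat_lit 5) (nat_lit 26) (nat_lit 5) (nat_lit 294) (nat_lit 263) (nat_lit 163)) (XT.nd (nat_lit 78) (nat_lit 228) (nat_lit 0) (XT.lf (nat_lit 0) (nat_lit 4421258524) (nat_lit 228) (nat_lit 4330547010) (nat_lit 76) (nat_lit 24181096278) (nat_lit 25) (nat_lit 5) (nat_lit 28) (nat_lit 5) (nat_lit 26) (nat_lit 5) (nat_lit 295) (nat_lit 263) (nat_lit 162)) (XT.lf (nat_lit 0) (nat_lit 8168761163) (nat_lit 228) (nat_lit 158886927) (nat_lit 304) (nat_lit 25779666968) (nat_lit 22) (nat_lit 5) (nat_lit 25) (nat_lit 5) (nat_lit 26) (nat_lit 5) (nat_lit 296) (nat_lit 263) (nat_lit 161))))))))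
noncomputable def xc183 : XT := (XT.nd (nat_lit 1326) (nat_lit 456) (nat_lit 0) (XT.nd (nat_lit 624) (nat_lit 456) (nat_lit 0) (XT.nd (nat_lit 312) (nat_lit 228) (nat_lit 0) (XT.nd (nat_lit 156) (nat_lit 152) (nat_lit 0) (XT.nd (nat_lit 78) (nat_lit 0) (nat_lit 0) (XT.lf (nat_lit 0) (nat_lit 12636133601) (nat_lit 304) (nat_lit 14041578401) (nat_lit 76) (nat_lit 8652419952) (nat_lit 22) (nat_lit 5) (nat_lit 26) (nat_lit 5) (nat_lit 23) (nat_lit 5) (nat_lit 297) (nat_lit 263) (nat_lit 160)) (XT.lf (nat_lit 0) (nat_lit 17156788487) (nat_lit 304) (nat_lit 1560538692) (nat_lit 76) (nat_lit 17896946035) (nat_lit 22) (nat_lit 5) (nat_lit 26) (nat_lit 5) (nat_lit 23) (nat_lit 5) (nat_lit 298) (nat_lit 263) (nat_lit 159))) (XT.nd (nat_lit 78) (nat_lit 0) (nat_lit 0) (XT.lf (nat_lit 0) (nat_lit 11918220136) (nat_lit 152) (nat_lit 10165752222) (nat_lit 228) (nat_lit 15869644152) (nat_lit 20)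 (nat_lit 5) (nat_lit 22) (nat_lit 5) (nat_lit 23) (nat_lit 5) (nat_lit 299) (nat_lit 263) (nat_lit 158)) (XT.lf (nat_lit 0) (nat_lit 26117430598) (nat_lit 152) (nat_lit 1161078803) (nat_lit 228) (nat_lit 12080386714) (nat_lit 20) (nat_lit 5) (nat_lit 22) (nat_lit 5) (nat_lit 23) (nat_lit 5) (nat_lit 300) (nat_lit 263) (nat_lit 157)))) (XT.nd (nat_lit 156) (nat_lit 76) (nat_lit 0) (XT.nd (nat_lit 78) (nat_lit 0) (nat_lit 0) (XT.lf (nat_lit 0) (nat_lit 56951510) (nat_lit 152) (nat_lit 32800991985) (nat_lit 228) (nat_lit 7970255640) (nat_lit 18) (nat_lit 5) (nat_lit 20) (nat_lit 5) (nat_lit 21) (nat_lit 5) (nat_lit 301) (nat_lit 263) (nat_lit 156)) (XT.lf (nat_lit 0) (nat_lit 14452918133) (nat_lit 152) (nat_lit 24501332156) (nat_lit 228) (nat_lit 3404839057) (nat_lit 18) (nat_lit 5) (nat_lit 20) (nat_lit 5) (nat_lit 21) (nat_lit 5) (nat_lit 302) (nat_lit 263) (nat_lit 155))) (XT.nd (nat_lit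 78) (nat_lit 0) (nat_lit 0) (XT.lf (nat_lit 0) (nat_lit 1339466556) (nat_lit 228) (nat_lit 14426771504) (nat_lit 76) (nat_lit 28199463818) (nat_lit 17) (nat_lit 5) (nat_lit 20) (nat_lit 5) (nat_lit 18) (nat_lit 5) (nat_lit 303) (nat_lit 263) (nat_lit 154)) (XT.lf (nat_lit 0) (nat_lit 6201867317) (nat_lit 228) (nat_lit 336120468) (nat_lit 76) (nat_lit 39112115926) (nat_lit 17) (nat_lit 5) (nat_lit 20) (nat_lit 5) (nat_lit 18) (nat_lit 5) (nat_lit 304) (nat_lit 263) (nat_lit 153))))) (XT.nd (nat_lit 312) (nat_lit 152) (nat_lit 0) (XT.nd (nat_lit 156) (nat_lit 152) (nat_lit 0) (XT.nd (nat_lit 78) (nat_lit 0) (nat_lit 0) (XT.lf (nat_lit 0) (nat_lit 11589016221) (nat_lit 228) (nat_lit 32529948366) (nat_lit 76) (nat_lit 3285693702) (nat_lit 15) (nat_lit 5) (nat_lit 18) (nat_lit 5) (nat_lit 16) (nat_lit 5) (nat_lit 305) (nat_lit 263) (nat_lit 152)) (XT.lf (nat_lit 0) (nat_lit 17354095811)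 (nat_lit 228) (nat_lit 18502843679) (nat_lit 76) (nat_lit 13384585836) (nat_lit 15) (nat_lit 5) (nat_lit 18) (nat_lit 5) (nat_lit 16) (nat_lit 5) (nat_lit 306) (nat_lit 263) (nat_lit 151))) (XT.nd (nat_lit 78) (nat_lit 152) (nat_lit 0) (XT.lf (nat_lit 0) (nat_lit 23403245983) (nat_lit 228) (nat_lit 3780731791) (nat_lit 76) (nat_lit 23986479863) (nat_lit 15) (nat_lit 5) (nat_lit 18) (nat_lit 5) (nat_lit 16) (nat_lit 5) (nat_lit 307) (nat_lit 263) (nat_lit 150)) (XT.lf (nat_lit 0) (nat_lit 12057350460) (nat_lit 152) (nat_lit 17881768046) (nat_lit 228) (nat_lit 23247516962) (nat_lit 13) (nat_lit 5) (nat_lit 15) (nat_lit 5) (nat_lit 16) (nat_lit 5) (nat_lit 308) (nat_lit 263) (nat_lit 149)))) (XT.nd (nat_lit 156) (nat_lit 152) (nat_lit 0) (XT.nd (nat_lit 78) (nat_lit 0) (nat_lit 0) (XT.lf (nat_lit 0) (nat_lit 28812647061) (nat_lit 152) (nat_lit 8049278784) (nat_lit 228) (nat_lit 18438700853)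 (nat_lit 13) (nat_lit 5) (nat_lit 15) (nat_lit 5) (nat_lit 16) (nat_lit 5) (nat_lit 309) (nat_lit 263) (nat_lit 148)) (XT.lf (nat_lit 0) (nat_lit 44162657234) (nat_lit 228) (nat_lit 11155956015) (nat_lit 76) (nat_lit 2200126074) (nat_lit 13) (nat_lit 5) (nat_lit 16) (nat_lit 5) (nat_lit 14) (nat_lit 4) (nat_lit 310) (nat_lit 263) (nat_lit 147))) (XT.nd (nat_lit 78) (nat_lit 76) (nat_lit 0) (XT.lf (nat_lit 0) (nat_lit 4964040880) (nat_lit 76) (nat_lit 47070287180) (nat_lit 152) (nat_lit 7803144868) (nat_lit 12) (nat_lit 5) (nat_lit 13) (nat_lit 5) (nat_lit 14) (nat_lit 4) (nat_lit 311) (nat_lit 263) (nat_lit 146)) (XT.nd (nat_lit 78) (nat_lit 76) (nat_lit 0) (XT.lf (nat_lit 0) (nat_lit 22271883958) (nat_lit 76) (nat_lit 38213158867) (nat_lit 152) (nat_lit 1777837362) (nat_lit 12) (nat_lit 5) (nat_lit 13) (nat_lit 5) (nat_lit 14) (nat_lit 4) (nat_lit 312) (nat_lit 263) (nat_lit 145))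 (XT.lf (nat_lit 0) (nat_lit 4399778344) (nat_lit 152) (nat_lit 24440780702) (nat_lit 76) (nat_lit 35965625361) (nat_lit 11) (nat_lit 5) (nat_lit 13) (nat_lit 5) (nat_lit 12) (nat_lit 5) (nat_lit 313) (nat_lit 263) (nat_lit 144))))))) (XT.nd (nat_lit 624) (nat_lit 228) (nat_lit 0) (XT.nd (nat_lit 312) (nat_lit 76) (nat_lit 0) (XT.nd (nat_lit 156) (nat_lit 0) (nat_lit 0) (XT.nd (nat_lit 78) (nat_lit 152) (nat_lit 0) (XT.lf (nat_lit 0) (nat_lit 10823319050) (nat_lit 152) (nat_lit 8147269345) (nat_lit 76) (nat_lit 48504777270) (nat_lit 11) (nat_lit 5) (nat_lit 13) (nat_lit 5) (nat_lit 12) (nat_lit 5) (nat_lit 314) (nat_lit 263) (nat_lit 143)) (XT.lf (nat_lit 0) (nat_lit 9252217686) (nat_lit 152) (nat_lit 8457216160) (nat_lit 228) (nat_lit 52561510510) (nat_lit 9) (nat_lit 5) (nat_lit 11) (nat_lit 5) (nat_lit 12) (nat_lit 5) (nat_lit 315) (nat_lit 263) (nat_lit 142))) (XT.nd (nat_lit 78)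 (nat_lit 0) (nat_lit 0) (XT.lf (nat_lit 0) (nat_lit 25117391569) (nat_lit 228) (nat_lit 45442320919) (nat_lit 76) (nat_lit 2637720464) (nat_lit 9) (nat_lit 5) (nat_lit 12) (nat_lit 5) (nat_lit 10) (nat_lit 4) (nat_lit 316) (nat_lit 263) (nat_lit 141)) (XT.lf (nat_lit 0) (nat_lit 33031521288) (nat_lit 228) (nat_lit 29230385620) (nat_lit 76) (nat_lit 14001557820) (nat_lit 9) (nat_lit 5) (nat_lit 12) (nat_lit 5) (nat_lit 10) (nat_lit 4) (nat_lit 317) (nat_lit 263) (nat_lit 140)))) (XT.nd (nat_lit 156) (nat_lit 0) (nat_lit 0) (XT.nd (nat_lit 78) (nat_lit 76) (nat_lit 0) (XT.lf (nat_lit 0) (nat_lit 41338625325) (nat_lit 228) (nat_lit 12212280082) (nat_lit 76) (nat_lit 25932036395) (nat_lit 9) (nat_lit 5) (nat_lit 12) (nat_lit 5) (nat_lit 10) (nat_lit 4) (nat_lit 318) (nat_lit 263) (nat_lit 139)) (XT.lf (nat_lit 0) (nat_lit 5839412664) (nat_lit 76) (nat_lit 44310239431) (nat_lit 152) (nat_lit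 32709319022) (nat_lit 8) (nat_lit 5) (nat_lit 9) (nat_lit 5) (nat_lit 10) (nat_lit 4) (nat_lit 319) (nat_lit 263) (nat_lit 138))) (XT.nd (nat_lit 78) (nat_lit 0) (nat_lit 0) (XT.lf (nat_lit 0) (nat_lit 25213525094) (nat_lit 76) (nat_lit 34391983068) (nat_lit 152) (nat_lit 26788086281) (nat_lit 8) (nat_lit 5) (nat_lit 9) (nat_lit 5) (nat_lit 10) (nat_lit 4) (nat_lit 320) (nat_lit 263) (nat_lit 137)) (XT.lf (nat_lit 0) (nat_lit 45552392912) (nat_lit 76) (nat_lit 23979342295) (nat_lit 152) (nat_lit 20573340951) (nat_lit 8) (nat_lit 5) (nat_lit 9) (nat_lit 5) (nat_lit 10) (nat_lit 4) (nat_lit 321) (nat_lit 263) (nat_lit 136))))) (XT.nd (nat_lit 312) (nat_lit 76) (nat_lit 0) (XT.nd (nat_lit 156) (nat_lit 152) (nat_lit 0) (XT.nd (nat_lit 78) (nat_lit 0) (nat_lit 0) (XT.lf (nat_lit 0) (nat_lit 66904441995) (nat_lit 76) (nat_lit 13047525111) (nat_lit 152) (nat_lit 14050286022) (nat_lit 8)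 (nat_lit 5) (nat_lit 9) (nat_lit 5) (nat_lit 10) (nat_lit 4) (nat_lit 322) (nat_lit 263) (nat_lit 135)) (XT.lf (nat_lit 0) (nat_lit 89320510556) (nat_lit 76) (nat_lit 1570503379) (nat_lit 152) (nat_lit 7203390409) (nat_lit 8) (nat_lit 5) (nat_lit 9) (nat_lit 5) (nat_lit 10) (nat_lit 4) (nat_lit 323) (nat_lit 263) (nat_lit 134))) (XT.nd (nat_lit 78) (nat_lit 0) (nat_lit 0) (XT.lf (nat_lit 0) (nat_lit 319298334) (nat_lit 152) (nat_lit 91740312656) (nat_lit 76) (nat_lit 10314918451) (nat_lit 6) (nat_lit 5) (nat_lit 8) (nat_lit 5) (nat_lit 7) (nat_lit 4) (nat_lit 324) (nat_lit 263) (nat_lit 133)) (XT.lf (nat_lit 0) (nat_lit 8150707747) (nat_lit 152) (nat_lit 75693678408) (nat_lit 76) (nat_lit 23009641656) (nat_lit 6) (nat_lit 5) (nat_lit 8) (nat_lit 5) (nat_lit 7) (nat_lit 4) (nat_lit 325) (nat_lit 263) (nat_lit 132)))) (XT.nd (nat_lit 156) (nat_lit 76) (nat_lit 0) (XT.nd (nat_lit 78)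 (nat_lit 0) (nat_lit 0) (XT.lf (nat_lit 0) (nat_lit 16371683237) (nat_lit 152) (nat_lit 58848064415) (nat_lit 76) (nat_lit 36337858246) (nat_lit 6) (nat_lit 5) (nat_lit 8) (nat_lit 5) (nat_lit 7) (nat_lit 4) (nat_lit 326) (nat_lit 263) (nat_lit 131)) (XT.lf (nat_lit 0) (nat_lit 25001798555) (nat_lit 152) (nat_lit 41163362070) (nat_lit 76) (nat_lit 50331302070) (nat_lit 6) (nat_lit 5) (nat_lit 8) (nat_lit 5) (nat_lit 7) (nat_lit 4) (nat_lit 327) (nat_lit 263) (nat_lit 130))) (XT.nd (nat_lit 78) (nat_lit 76) (nat_lit 0) (XT.lf (nat_lit 0) (nat_lit 34061601595) (nat_lit 152) (nat_lit 22597464941) (nat_lit 76) (nat_lit 65023290852) (nat_lit 6) (nat_lit 5) (nat_lit 8) (nat_lit 5) (nat_lit 7) (nat_lit 4) (nat_lit 328) (nat_lit 263) (nat_lit 129)) (XT.nd (nat_lit 78) (nat_lit 76) (nat_lit 0) (XT.lf (nat_lit 0) (nat_lit 43572663316) (nat_lit 152) (nat_lit 3106168509) (nat_lit 76) (nat_lit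 80448805516) (nat_lit 6) (nat_lit 5) (nat_lit 8) (nat_lit 5) (nat_lit 7) (nat_lit 4) (nat_lit 329) (nat_lit 263) (nat_lit 128)) (XT.lf (nat_lit 0) (nat_lit 17930833732) (nat_lit 76) (nat_lit 35906745938) (nat_lit 152) (nat_lit 78993690313) (nat_lit 5) (nat_lit 5) (nat_lit 6) (nat_lit 5) (nat_lit 7) (nat_lit 4) (nat_lit 330) (nat_lit 263) (nat_lit 127))))))))
noncomputable def xc184 : XT := (XT.nd (nat_lit 1248) (nat_lit 76) (nat_lit 0) (XT.nd (nat_lit 624) (nat_lit 76) (nat_lit 0) (XT.nd (nat_lit 312) (nat_lit 76) (nat_lit 0) (XT.nd (nat_lit 156) (nat_lit 0) (nat_lit 0) (XT.nd (nat_lit 78) (nat_lit 0) (nat_lit 0) (XT.lf (nat_lit 0) (nat_lit 40124812050) (nat_lit 76) (nat_lit 24541921402) (nat_lit 152) (nat_lit 74150804809) (nat_lit 5) (nat_lit 5) (nat_lit 6) (nat_lit 5) (nat_lit 7) (nat_lit 4) (nat_lit 331) (nat_lit 263) (nat_lit 126)) (XT.lf (nat_lit 0) (nat_lit 63425905292) (nat_lit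 76) (nat_lit 12609903580) (nat_lit 152) (nat_lit 69067391301) (nat_lit 5) (nat_lit 5) (nat_lit 6) (nat_lit 5) (nat_lit 7) (nat_lit 4) (nat_lit 332) (nat_lit 263) (nat_lit 125))) (XT.nd (nat_lit 78) (nat_lit 0) (nat_lit 0) (XT.lf (nat_lit 0) (nat_lit 87889592250) (nat_lit 76) (nat_lit 82282905) (nat_lit 152) (nat_lit 63731346424) (nat_lit 5) (nat_lit 5) (nat_lit 6) (nat_lit 5) (nat_lit 7) (nat_lit 4) (nat_lit 333) (nat_lit 263) (nat_lit 124)) (XT.lf (nat_lit 0) (nat_lit 100707422832) (nat_lit 152) (nat_lit 45263268341) (nat_lit 0) (nat_lit 12652422077) (nat_lit 5) (nat_lit 5) (nat_lit 7) (nat_lit 4) (nat_lit 5) (nat_lit 4) (nat_lit 334) (nat_lit 263) (nat_lit 123)))) (XT.nd (nat_lit 156) (nat_lit 76) (nat_lit 0) (XT.nd (nat_lit 78) (nat_lit 0) (nat_lit 0) (XT.lf (nat_lit 0) (nat_lit 114079755758) (nat_lit 152) (nat_lit 25789025516) (nat_lit 0) (nat_lit 26020220787) (nat_lit 5) (nat_lit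 5) (nat_lit 7) (nat_lit 4) (nat_lit 5) (nat_lit 4) (nat_lit 335) (nat_lit 263) (nat_lit 122)) (XT.lf (nat_lit 0) (nat_lit 128119428156) (nat_lit 152) (nat_lit 5343248943) (nat_lit 0) (nat_lit 40055574884) (nat_lit 5) (nat_lit 5) (nat_lit 7) (nat_lit 4) (nat_lit 5) (nat_lit 4) (nat_lit 336) (nat_lit 263) (nat_lit 121))) (XT.nd (nat_lit 78) (nat_lit 0) (nat_lit 0) (XT.lf (nat_lit 0) (nat_lit 16655832455) (nat_lit 76) (nat_lit 126464079584) (nat_lit 76) (nat_lit 38396113644) (nat_lit 4) (nat_lit 4) (nat_lit 5) (nat_lit 5) (nat_lit 5) (nat_lit 4) (nat_lit 337) (nat_lit 263) (nat_lit 120)) (XT.lf (nat_lit 0) (nat_lit 39938332264) (nat_lit 76) (nat_lit 119021388055) (nat_lit 76) (nat_lit 30949505288) (nat_lit 4) (nat_lit 4) (nat_lit 5) (nat_lit 5) (nat_lit 5) (nat_lit 4) (nat_lit 338) (nat_lit 263) (nat_lit 119))))) (XT.nd (nat_lit 312) (nat_lit 0) (nat_lit 0) (XT.nd (nat_lit 156) (nat_lit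 76) (nat_lit 0) (XT.nd (nat_lit 78) (nat_lit 0) (nat_lit 0) (XT.lf (nat_lit 0) (nat_lit 64383013066) (nat_lit 76) (nat_lit 111207372325) (nat_lit 76) (nat_lit 23131759247) (nat_lit 4) (nat_lit 4) (nat_lit 5) (nat_lit 5) (nat_lit 5) (nat_lit 4) (nat_lit 339) (nat_lit 263) (nat_lit 118)) (XT.lf (nat_lit 0) (nat_lit 90048076481) (nat_lit 76) (nat_lit 103003427593) (nat_lit 76) (nat_lit 14924261838) (nat_lit 4) (nat_lit 4) (nat_lit 5) (nat_lit 5) (nat_lit 5) (nat_lit 4) (nat_lit 340) (nat_lit 263) (nat_lit 117))) (XT.nd (nat_lit 78) (nat_lit 76) (nat_lit 0) (XT.lf (nat_lit 0) (nat_lit 116994629804) (nat_lit 76) (nat_lit 94390020659) (nat_lit 76) (nat_lit 6307471402) (nat_lit 4) (nat_lit 4) (nat_lit 5) (nat_lit 5) (nat_lit 5) (nat_lit 4) (nat_lit 341) (nat_lit 263) (nat_lit 116)) (XT.lf (nat_lit 0) (nat_lit 2651459019) (nat_lit 152) (nat_lit 82650280649) (nat_lit 76) (nat_lit 142590468734)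 (nat_lit 3) (nat_lit 5) (nat_lit 5) (nat_lit 5) (nat_lit 4) (nat_lit 4) (nat_lit 342) (nat_lit 263) (nat_lit 115)))) (XT.nd (nat_lit 156) (nat_lit 0) (nat_lit 0) (XT.nd (nat_lit 78) (nat_lit 0) (nat_lit 0) (XT.lf (nat_lit 0) (nat_lit 11845413706) (nat_lit 152) (nat_lit 63805742476) (nat_lit 76) (nat_lit 162946022419) (nat_lit 3) (nat_lit 5) (nat_lit 5) (nat_lit 5) (nat_lit 4) (nat_lit 4) (nat_lit 343) (nat_lit 263) (nat_lit 114)) (XT.lf (nat_lit 0) (nat_lit 21498161502) (nat_lit 152) (nat_lit 44020532291) (nat_lit 76) (nat_lit 184318750562) (nat_lit 3) (nat_lit 5) (nat_lit 5) (nat_lit 5) (nat_lit 4) (nat_lit 4) (nat_lit 344) (nat_lit 263) (nat_lit 113))) (XT.nd (nat_lit 78) (nat_lit 0) (nat_lit 0) (XT.lf (nat_lit 0) (nat_lit 31632685140) (nat_lit 152) (nat_lit 23247542450) (nat_lit 76) (nat_lit 206759540609) (nat_lit 3) (nat_lit 5) (nat_lit 5) (nat_lit 5) (nat_lit 4) (nat_lit 4) (nat_lit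 345) (nat_lit 263) (nat_lit 112)) (XT.lf (nat_lit 0) (nat_lit 42273114437) (nat_lit 152) (nat_lit 1437313452) (nat_lit 76) (nat_lit 230321823014) (nat_lit 3) (nat_lit 5) (nat_lit 5) (nat_lit 5) (nat_lit 4) (nat_lit 4) (nat_lit 346) (nat_lit 263) (nat_lit 111)))))) (XT.nd (nat_lit 31200) (nat_lit 0) (nat_lit 4256) (XT.nd (nat_lit 312) (nat_lit 0) (nat_lit 0) (XT.nd (nat_lit 156) (nat_lit 0) (nat_lit 0) (XT.nd (nat_lit 78) (nat_lit 0) (nat_lit 0) (XT.lf (nat_lit 0) (nat_lit 22171717234) (nat_lit 76) (nat_lit 31619229158) (nat_lit 152) (nat_lit 233236143857) (nat_lit 2) (nat_lit 5) (nat_lit 3) (nat_lit 5) (nat_lit 4) (nat_lit 4) (nat_lit 347) (nat_lit 263) (nat_lit 110)) (XT.lf (nat_lit 0) (nat_lit 47009778219) (nat_lit 76) (nat_lit 18898468454) (nat_lit 152) (nat_lit 234762247542) (nat_lit 2) (nat_lit 5) (nat_lit 3) (nat_lit 5) (nat_lit 4) (nat_lit 4) (nat_lit 348) (nat_lit 263) (nat_lit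 109))) (XT.nd (nat_lit 78) (nat_lit 0) (nat_lit 0) (XT.lf (nat_lit 0) (nat_lit 73088483670) (nat_lit 76) (nat_lit 5542199851) (nat_lit 152) (nat_lit 236365422701) (nat_lit 2) (nat_lit 5) (nat_lit 3) (nat_lit 5) (nat_lit 4) (nat_lit 4) (nat_lit 349) (nat_lit 263) (nat_lit 108)) (XT.lf (nat_lit 0) (nat_lit 92120966521) (nat_lit 152) (nat_lit 229700527196) (nat_lit 0) (nat_lit 8209920249) (nat_lit 2) (nat_lit 5) (nat_lit 4) (nat_lit 4) (nat_lit 2) (nat_lit 4) (nat_lit 350) (nat_lit 263) (nat_lit 107)))) (XT.nd (nat_lit 30732) (nat_lit 0) (nat_lit 4712) (XT.nd (nat_lit 156) (nat_lit 0) (nat_lit 0) (XT.lf (nat_lit 0) (nat_lit 106375951174) (nat_lit 152) (nat_lit 216975101196) (nat_lit 0) (nat_lit 22462926638) (nat_lit 2) (nat_lit 5) (nat_lit 4) (nat_lit 4) (nat_lit 2) (nat_lit 4) (nat_lit 351) (nat_lit 263) (nat_lit 106)) (XT.lf (nat_lit 0) (nat_lit 137057894894) (nat_lit 152) (nat_lit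 189586962634) (nat_lit 0) (nat_lit 53141191954) (nat_lit 2) (nat_lit 5) (nat_lit 4) (nat_lit 4) (nat_lit 2) (nat_lit 4) (nat_lit 353) (nat_lit 263) (nat_lit 104))) (XT.nd (nat_lit 78) (nat_lit 0) (nat_lit 0) (XT.lf (nat_lit 0) (nat_lit 4555815719) (nat_lit 684) (nat_lit 1108736959) (nat_lit 684) (nat_lit 1108736959) (nat_lit 64) (nat_lit 3) (nat_lit 73) (nat_lit 3) (nat_lit 73) (nat_lit 5) (nat_lit 264) (nat_lit 264) (nat_lit 192)) (XT.lf (nat_lit 76) (nat_lit 3303420267) (nat_lit 0) (nat_lit 6404050359) (nat_lit 684) (nat_lit 4157665852) (nat_lit 65) (nat_lit 5) (nat_lit 64) (nat_lit 3) (nat_lit 73) (nat_lit 5) (nat_lit 265) (nat_lit 264) (nat_lit 191))))) (XT.nd (nat_lit 312) (nat_lit 456) (nat_lit 0) (XT.nd (nat_lit 156) (nat_lit 0) (nat_lit 76) (XT.nd (nat_lit 78) (nat_lit 0) (nat_lit 76) (XT.lf (nat_lit 76) (nat_lit 9166301261) (nat_lit 0) (nat_lit 1183923875) (nat_lit 684) (nat_lit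 3848649368) (nat_lit 65) (nat_lit 5) (nat_lit 64) (nat_lit 3) (nat_lit 73) (nat_lit 5) (nat_lit 266) (nat_lit 264) (nat_lit 190)) (XT.lf (nat_lit 76) (nat_lit 717154722) (nat_lit 0) (nat_lit 10366932754) (nat_lit 684) (nat_lit 3462367385) (nat_lit 66) (nat_lit 5) (nat_lit 65) (nat_lit 5) (nat_lit 74) (nat_lit 5) (nat_lit 267) (nat_lit 264) (nat_lit 189))) (XT.nd (nat_lit 78) (nat_lit 0) (nat_lit 76) (XT.lf (nat_lit 76) (nat_lit 6897493495) (nat_lit 0) (nat_lit 5042895549) (nat_lit 684) (nat_lit 2966836872) (nat_lit 66) (nat_lit 5) (nat_lit 65) (nat_lit 5) (nat_lit 74) (nat_lit 5) (nat_lit 268) (nat_lit 264) (nat_lit 188)) (XT.lf (nat_lit 0) (nat_lit 12830462034) (nat_lit 608) (nat_lit 1919810525) (nat_lit 684) (nat_lit 536309421) (nat_lit 66) (nat_lit 5) (nat_lit 74) (nat_lit 5) (nat_lit 75) (nat_lit 5) (nat_lit 269) (nat_lit 264) (nat_lit 187)))) (XT.nd (nat_lit 156) (nat_lit 608)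 (nat_lit 0) (XT.nd (nat_lit 78) (nat_lit 0) (nat_lit 0) (XT.lf (nat_lit 76) (nat_lit 4525270495) (nat_lit 0) (nat_lit 9376339110) (nat_lit 684) (nat_lit 1776557479) (nat_lit 67) (nat_lit 5) (nat_lit 66) (nat_lit 5) (nat_lit 75) (nat_lit 5) (nat_lit 270) (nat_lit 264) (nat_lit 186)) (XT.lf (nat_lit 76) (nat_lit 11347939127) (nat_lit 0) (nat_lit 3694757700) (nat_lit 684) (nat_lit 1045901010) (nat_lit 67) (nat_lit 5) (nat_lit 66) (nat_lit 5) (nat_lit 75) (nat_lit 5) (nat_lit 271) (nat_lit 264) (nat_lit 185))) (XT.nd (nat_lit 78) (nat_lit 684) (nat_lit 0) (XT.lf (nat_lit 76) (nat_lit 2009347468) (nat_lit 0) (nat_lit 14283026684) (nat_lit 684) (nat_lit 224680626) (nat_lit 68) (nat_lit 5) (nat_lit 67) (nat_lit 5) (nat_lit 76) (nat_lit 5) (nat_lit 272) (nat_lit 264) (nat_lit 184)) (XT.nd (nat_lit 78) (nat_lit 0) (nat_lit 0) (XT.lf (nat_lit 0) (nat_lit 744305570) (nat_lit 684) (nat_lit 7785405248)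 (nat_lit 760) (nat_lit 8430444276) (nat_lit 58) (nat_lit 5) (nat_lit 67) (nat_lit 5) (nat_lit 68) (nat_lit 5) (nat_lit 273) (nat_lit 264) (nat_lit 183)) (XT.lf (nat_lit 0) (nat_lit 1739848142) (nat_lit 684) (nat_lit 742179166) (nat_lit 760) (nat_lit 14943986409) (nat_lit 58) (nat_lit 5) (nat_lit 67) (nat_lit 5) (nat_lit 68) (nat_lit 5) (nat_lit 274) (nat_lit 264) (nat_lit 182))))))))
noncomputable def xc185 : XT := (XT.nd (nat_lit 1326) (nat_lit 1216) (nat_lit 0) (XT.nd (nat_lit 624) (nat_lit 836) (nat_lit 0) (XT.nd (nat_lit 312) (nat_lit 608) (nat_lit 0) (XT.nd (nat_lit 156) (nat_lit 684) (nat_lit 0) (XT.nd (nat_lit 78) (nat_lit 0) (nat_lit 0) (XT.lf (nat_lit 0) (nat_lit 2940831027) (nat_lit 684) (nat_lit 11110876814) (nat_lit 76) (nat_lit 3855741271) (nat_lit 59) (nat_lit 5) (nat_lit 68) (nat_lit 5) (nat_lit 60) (nat_lit 5) (nat_lit 275) (nat_lit 264) (nat_lit 181)) (XT.lf (nat_lit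 0) (nat_lit 4242187478) (nat_lit 684) (nat_lit 3726737798) (nat_lit 76) (nat_lit 10442078586) (nat_lit 59) (nat_lit 5) (nat_lit 68) (nat_lit 5) (nat_lit 60) (nat_lit 5) (nat_lit 276) (nat_lit 264) (nat_lit 180))) (XT.nd (nat_lit 78) (nat_lit 0) (nat_lit 0) (XT.lf (nat_lit 0) (nat_lit 4148389120) (nat_lit 684) (nat_lit 1512476550) (nat_lit 760) (nat_lit 13276318754) (nat_lit 50) (nat_lit 5) (nat_lit 59) (nat_lit 5) (nat_lit 60) (nat_lit 5) (nat_lit 277) (nat_lit 264) (nat_lit 179)) (XT.lf (nat_lit 0) (nat_lit 7284788780) (nat_lit 760) (nat_lit 7034624246) (nat_lit 76) (nat_lit 5163603311) (nat_lit 50) (nat_lit 5) (nat_lit 60) (nat_lit 5) (nat_lit 51) (nat_lit 5) (nat_lit 278) (nat_lit 264) (nat_lit 178)))) (XT.nd (nat_lit 156) (nat_lit 304) (nat_lit 0) (XT.nd (nat_lit 78) (nat_lit 0) (nat_lit 0) (XT.lf (nat_lit 0) (nat_lit 1106938994) (nat_lit 304) (nat_lit 7913553614) (nat_lit 380)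 (nat_lit 11034173129) (nat_lit 46) (nat_lit 5) (nat_lit 50) (nat_lit 5) (nat_lit 51) (nat_lit 5) (nat_lit 279) (nat_lit 264) (nat_lit 177)) (XT.lf (nat_lit 0) (nat_lit 9889032658) (nat_lit 304) (nat_lit 1061970235) (nat_lit 380) (nat_lit 9698546147) (nat_lit 46) (nat_lit 5) (nat_lit 50) (nat_lit 5) (nat_lit 51) (nat_lit 5) (nat_lit 280) (nat_lit 264) (nat_lit 176))) (XT.nd (nat_lit 78) (nat_lit 304) (nat_lit 0) (XT.lf (nat_lit 0) (nat_lit 13063200160) (nat_lit 380) (nat_lit 2270531427) (nat_lit 76) (nat_lit 5936236841) (nat_lit 46) (nat_lit 5) (nat_lit 51) (nat_lit 5) (nat_lit 47) (nat_lit 5) (nat_lit 281) (nat_lit 264) (nat_lit 175)) (XT.lf (nat_lit 0) (nat_lit 6834976583) (nat_lit 304) (nat_lit 8560077728) (nat_lit 380) (nat_lit 6520699738) (nat_lit 42) (nat_lit 5) (nat_lit 46) (nat_lit 5) (nat_lit 47) (nat_lit 5) (nat_lit 282) (nat_lit 264) (nat_lit 174))))) (XT.nd (nat_lit 312)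 (nat_lit 532) (nat_lit 0) (XT.nd (nat_lit 156) (nat_lit 76) (nat_lit 0) (XT.nd (nat_lit 78) (nat_lit 228) (nat_lit 0) (XT.lf (nat_lit 0) (nat_lit 16464425533) (nat_lit 304) (nat_lit 1407773844) (nat_lit 380) (nat_lit 4720240010) (nat_lit 42) (nat_lit 5) (nat_lit 46) (nat_lit 5) (nat_lit 47) (nat_lit 5) (nat_lit 283) (nat_lit 264) (nat_lit 173)) (XT.lf (nat_lit 0) (nat_lit 3271649682) (nat_lit 228) (nat_lit 17338607309) (nat_lit 304) (nat_lit 2685892424) (nat_lit 39) (nat_lit 5) (nat_lit 42) (nat_lit 5) (nat_lit 43) (nat_lit 5) (nat_lit 284) (nat_lit 264) (nat_lit 172))) (XT.nd (nat_lit 78) (nat_lit 76) (nat_lit 0) (XT.lf (nat_lit 0) (nat_lit 13320190174) (nat_lit 228) (nat_lit 10282504597) (nat_lit 304) (nat_lit 426517440) (nat_lit 39) (nat_lit 5) (nat_lit 42) (nat_lit 5) (nat_lit 43) (nat_lit 5) (nat_lit 285) (nat_lit 264) (nat_lit 171)) (XT.lf (nat_lit 0) (nat_lit 1874788520) (nat_lit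 304) (nat_lit 968015942) (nat_lit 76) (nat_lit 21955079961) (nat_lit 38) (nat_lit 5) (nat_lit 42) (nat_lit 5) (nat_lit 39) (nat_lit 5) (nat_lit 286) (nat_lit 264) (nat_lit 170)))) (XT.nd (nat_lit 156) (nat_lit 228) (nat_lit 0) (XT.nd (nat_lit 78) (nat_lit 0) (nat_lit 0) (XT.lf (nat_lit 0) (nat_lit 4497695532) (nat_lit 380) (nat_lit 16128469782) (nat_lit 76) (nat_lit 4967467380) (nat_lit 34) (nat_lit 5) (nat_lit 39) (nat_lit 5) (nat_lit 35) (nat_lit 5) (nat_lit 287) (nat_lit 264) (nat_lit 169)) (XT.lf (nat_lit 0) (nat_lit 7306906618) (nat_lit 380) (nat_lit 6031277355) (nat_lit 76) (nat_lit 13088260308) (nat_lit 34) (nat_lit 5) (nat_lit 39) (nat_lit 5) (nat_lit 35) (nat_lit 5) (nat_lit 288) (nat_lit 264) (nat_lit 168))) (XT.nd (nat_lit 78) (nat_lit 0) (nat_lit 0) (XT.lf (nat_lit 0) (nat_lit 4712396423) (nat_lit 228) (nat_lit 5610034407) (nat_lit 304) (nat_lit 16975205216) (nat_lit 31)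 (nat_lit 5) (nat_lit 34) (nat_lit 5) (nat_lit 35) (nat_lit 5) (nat_lit 289) (nat_lit 264) (nat_lit 167)) (XT.nd (nat_lit 78) (nat_lit 0) (nat_lit 0) (XT.lf (nat_lit 0) (nat_lit 13624131710) (nat_lit 304) (nat_lit 12054848123) (nat_lit 76) (nat_lit 2526668236) (nat_lit 31) (nat_lit 5) (nat_lit 35) (nat_lit 5) (nat_lit 32) (nat_lit 5) (nat_lit 290) (nat_lit 264) (nat_lit 166)) (XT.lf (nat_lit 0) (nat_lit 17175724241) (nat_lit 304) (nat_lit 1098892432) (nat_lit 76) (nat_lit 10880232920) (nat_lit 31) (nat_lit 5) (nat_lit 35) (nat_lit 5) (nat_lit 32) (nat_lit 5) (nat_lit 291) (nat_lit 264) (nat_lit 165))))))) (XT.nd (nat_lit 624) (nat_lit 532) (nat_lit 0) (XT.nd (nat_lit 312) (nat_lit 228) (nat_lit 0) (XT.nd (nat_lit 156) (nat_lit 228) (nat_lit 0) (XT.nd (nat_lit 78) (nat_lit 0) (nat_lit 0) (XT.lf (nat_lit 0) (nat_lit 10740050091) (nat_lit 228) (nat_lit 10325708425) (nat_lit 304) (nat_lit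 9077737412) (nat_lit 28) (nat_lit 5) (nat_lit 31) (nat_lit 5) (nat_lit 32) (nat_lit 5) (nat_lit 292) (nat_lit 264) (nat_lit 164)) (XT.lf (nat_lit 0) (nat_lit 23200669237) (nat_lit 228) (nat_lit 1961608665) (nat_lit 304) (nat_lit 6018724019) (nat_lit 28) (nat_lit 5) (nat_lit 31) (nat_lit 5) (nat_lit 32) (nat_lit 5) (nat_lit 293) (nat_lit 264) (nat_lit 163))) (XT.nd (nat_lit 78) (nat_lit 76) (nat_lit 0) (XT.lf (nat_lit 0) (nat_lit 4028033499) (nat_lit 152) (nat_lit 25598630834) (nat_lit 228) (nat_lit 2635592079) (nat_lit 26) (nat_lit 5) (nat_lit 28) (nat_lit 5) (nat_lit 29) (nat_lit 5) (nat_lit 294) (nat_lit 264) (nat_lit 162)) (XT.lf (nat_lit 0) (nat_lit 1050591798) (nat_lit 228) (nat_lit 16534055344) (nat_lit 76) (nat_lit 15804072010) (nat_lit 25) (nat_lit 5) (nat_lit 28) (nat_lit 5) (nat_lit 26) (nat_lit 5) (nat_lit 295) (nat_lit 264) (nat_lit 161)))) (XT.nd (nat_lit 156) (nat_lit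 0) (nat_lit 0) (XT.nd (nat_lit 78) (nat_lit 228) (nat_lit 0) (XT.lf (nat_lit 0) (nat_lit 4826522601) (nat_lit 228) (nat_lit 4300115416) (nat_lit 76) (nat_lit 25443027959) (nat_lit 25) (nat_lit 5) (nat_lit 28) (nat_lit 5) (nat_lit 26) (nat_lit 5) (nat_lit 296) (nat_lit 264) (nat_lit 160)) (XT.lf (nat_lit 0) (nat_lit 8820174957) (nat_lit 228) (nat_lit 103078736) (nat_lit 304) (nat_lit 26879827034) (nat_lit 22) (nat_lit 5) (nat_lit 25) (nat_lit 5) (nat_lit 26) (nat_lit 5) (nat_lit 297) (nat_lit 264) (nat_lit 159))) (XT.nd (nat_lit 78) (nat_lit 0) (nat_lit 0) (XT.lf (nat_lit 0) (nat_lit 13439577000) (nat_lit 304) (nat_lit 14504056879) (nat_lit 76) (nat_lit 9143814338) (nat_lit 22) (nat_lit 5) (nat_lit 26) (nat_lit 5) (nat_lit 23) (nat_lit 5) (nat_lit 298) (nat_lit 264) (nat_lit 158)) (XT.lf (nat_lit 0) (nat_lit 18178091453) (nat_lit 304) (nat_lit 1410374730) (nat_lit 76) (nat_lit 18847767993)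 (nat_lit 22) (nat_lit 5) (nat_lit 26) (nat_lit 5) (nat_lit 23) (nat_lit 5) (nat_lit 299) (nat_lit 264) (nat_lit 157))))) (XT.nd (nat_lit 312) (nat_lit 228) (nat_lit 0) (XT.nd (nat_lit 156) (nat_lit 152) (nat_lit 0) (XT.nd (nat_lit 78) (nat_lit 0) (nat_lit 0) (XT.lf (nat_lit 0) (nat_lit 12738641541) (nat_lit 152) (nat_lit 10608714235) (nat_lit 228) (nat_lit 16495430394) (nat_lit 20) (nat_lit 5) (nat_lit 22) (nat_lit 5) (nat_lit 23) (nat_lit 5) (nat_lit 300) (nat_lit 264) (nat_lit 156)) (XT.lf (nat_lit 0) (nat_lit 27637121555) (nat_lit 152) (nat_lit 1156917888) (nat_lit 228) (nat_lit 12524695606) (nat_lit 20) (nat_lit 5) (nat_lit 22) (nat_lit 5) (nat_lit 23) (nat_lit 5) (nat_lit 301) (nat_lit 264) (nat_lit 155))) (XT.nd (nat_lit 78) (nat_lit 0) (nat_lit 0) (XT.lf (nat_lit 0) (nat_lit 277189263) (nat_lit 152) (nat_lit 34372355876) (nat_lit 228) (nat_lit 8212128116) (nat_lit 18) (nat_lit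 5) (nat_lit 20) (nat_lit 5) (nat_lit 21) (nat_lit 5) (nat_lit 302) (nat_lit 264) (nat_lit 154)) (XT.lf (nat_lit 0) (nat_lit 15382602304) (nat_lit 152) (nat_lit 25660983804) (nat_lit 228) (nat_lit 3425899766) (nat_lit 18) (nat_lit 5) (nat_lit 20) (nat_lit 5) (nat_lit 21) (nat_lit 5) (nat_lit 303) (nat_lit 264) (nat_lit 153)))) (XT.nd (nat_lit 156) (nat_lit 152) (nat_lit 0) (XT.nd (nat_lit 78) (nat_lit 0) (nat_lit 0) (XT.lf (nat_lit 0) (nat_lit 1543969896) (nat_lit 228) (nat_lit 14945950968) (nat_lit 76) (nat_lit 29666757159) (nat_lit 17) (nat_lit 5) (nat_lit 20) (nat_lit 5) (nat_lit 18) (nat_lit 5) (nat_lit 304) (nat_lit 264) (nat_lit 152)) (XT.lf (nat_lit 0) (nat_lit 6642941646) (nat_lit 228) (nat_lit 160394004) (nat_lit 76) (nat_lit 41122312341) (nat_lit 17) (nat_lit 5) (nat_lit 20) (nat_lit 5) (nat_lit 18) (nat_lit 5) (nat_lit 305) (nat_lit 264) (nat_lit 151))) (XT.nd (nat_lit 78)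 (nat_lit 0) (nat_lit 0) (XT.lf (nat_lit 0) (nat_lit 12297132009) (nat_lit 228) (nat_lit 33961205067) (nat_lit 76) (nat_lit 3509728635) (nat_lit 15) (nat_lit 5) (nat_lit 18) (nat_lit 5) (nat_lit 16) (nat_lit 5) (nat_lit 306) (nat_lit 264) (nat_lit 150)) (XT.nd (nat_lit 78) (nat_lit 0) (nat_lit 0) (XT.lf (nat_lit 0) (nat_lit 18344338674) (nat_lit 228) (nat_lit 19242042323) (nat_lit 76) (nat_lit 14110720125) (nat_lit 15) (nat_lit 5) (nat_lit 18) (nat_lit 5) (nat_lit 16) (nat_lit 5) (nat_lit 307) (nat_lit 264) (nat_lit 149)) (XT.lf (nat_lit 0) (nat_lit 24690111209) (nat_lit 228) (nat_lit 3792679295) (nat_lit 76) (nat_lit 25239999093) (nat_lit 15) (nat_lit 5) (nat_lit 18) (nat_lit 5) (nat_lit 16) (nat_lit 5) (nat_lit 308) (nat_lit 264) (nat_lit 148))))))))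
noncomputable def xc186 : XT := (XT.nd (nat_lit 1326) (nat_lit 152) (nat_lit 0) (XT.nd (nat_lit 624) (nat_lit 228) (nat_lit 0) (XT.nd (nat_lit 312) (nat_lit 228) (nat_lit 0) (XT.nd (nat_lit 156) (nat_lit 76) (nat_lit 0) (XT.nd (nat_lit 78) (nat_lit 0) (nat_lit 0) (XT.lf (nat_lit 0) (nat_lit 12834450793) (nat_lit 152) (nat_lit 18715489546) (nat_lit 228) (nat_lit 24289994772) (nat_lit 13) (nat_lit 5) (nat_lit 15) (nat_lit 5) (nat_lit 16) (nat_lit 5) (nat_lit 309) (nat_lit 264) (nat_lit 147)) (XT.lf (nat_lit 0) (nat_lit 30419215424) (nat_lit 152) (nat_lit 8394250435) (nat_lit 228) (nat_lit 19246447289) (nat_lit 13) (nat_lit 5) (nat_lit 15) (nat_lit 5) (nat_lit 16) (nat_lit 5) (nat_lit 310) (nat_lit 264) (nat_lit 146))) (XT.nd (nat_lit 78) (nat_lit 76) (nat_lit 0) (XT.lf (nat_lit 0) (nat_lit 46474924702) (nat_lit 228) (nat_lit 11551103074) (nat_lit 76) (nat_lit 2363134450) (nat_lit 13)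 (nat_lit 5) (nat_lit 16) (nat_lit 5) (nat_lit 14) (nat_lit 4) (nat_lit 311) (nat_lit 264) (nat_lit 145)) (XT.lf (nat_lit 0) (nat_lit 5372270267) (nat_lit 76) (nat_lit 49365448487) (nat_lit 152) (nat_lit 8086251408) (nat_lit 12) (nat_lit 5) (nat_lit 13) (nat_lit 5) (nat_lit 14) (nat_lit 4) (nat_lit 312) (nat_lit 264) (nat_lit 144)))) (XT.nd (nat_lit 156) (nat_lit 152) (nat_lit 0) (XT.nd (nat_lit 78) (nat_lit 76) (nat_lit 0) (XT.lf (nat_lit 0) (nat_lit 23537885149) (nat_lit 76) (nat_lit 40068242474) (nat_lit 152) (nat_lit 1764776179) (nat_lit 12) (nat_lit 5) (nat_lit 13) (nat_lit 5) (nat_lit 14) (nat_lit 4) (nat_lit 313) (nat_lit 264) (nat_lit 143)) (XT.lf (nat_lit 0) (nat_lit 4713757658) (nat_lit 152) (nat_lit 25514309629) (nat_lit 76) (nat_lit 37813473977) (nat_lit 11) (nat_lit 5) (nat_lit 13) (nat_lit 5) (nat_lit 12) (nat_lit 5) (nat_lit 314) (nat_lit 264) (nat_lit 142))) (XT.nd (nat_lit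 78) (nat_lit 152) (nat_lit 0) (XT.lf (nat_lit 0) (nat_lit 11453999666) (nat_lit 152) (nat_lit 8413194614) (nat_lit 76) (nat_lit 50977223132) (nat_lit 11) (nat_lit 5) (nat_lit 13) (nat_lit 5) (nat_lit 12) (nat_lit 5) (nat_lit 315) (nat_lit 264) (nat_lit 141)) (XT.lf (nat_lit 0) (nat_lit 9853985507) (nat_lit 152) (nat_lit 8828344722) (nat_lit 228) (nat_lit 55097560774) (nat_lit 9) (nat_lit 5) (nat_lit 11) (nat_lit 5) (nat_lit 12) (nat_lit 5) (nat_lit 316) (nat_lit 264) (nat_lit 140))))) (XT.nd (nat_lit 312) (nat_lit 152) (nat_lit 0) (XT.nd (nat_lit 156) (nat_lit 76) (nat_lit 0) (XT.nd (nat_lit 78) (nat_lit 0) (nat_lit 0) (XT.lf (nat_lit 0) (nat_lit 26457291981) (nat_lit 228) (nat_lit 47578294276) (nat_lit 76) (nat_lit 2817298384) (nat_lit 9) (nat_lit 5) (nat_lit 12) (nat_lit 5) (nat_lit 10) (nat_lit 4) (nat_lit 317) (nat_lit 264) (nat_lit 139)) (XT.lf (nat_lit 0) (nat_lit 34763126718)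 (nat_lit 228) (nat_lit 30562245197) (nat_lit 76) (nat_lit 14747056565) (nat_lit 9) (nat_lit 5) (nat_lit 12) (nat_lit 5) (nat_lit 10) (nat_lit 4) (nat_lit 318) (nat_lit 264) (nat_lit 138))) (XT.nd (nat_lit 78) (nat_lit 76) (nat_lit 0) (XT.lf (nat_lit 0) (nat_lit 43481775035) (nat_lit 228) (nat_lit 12699408654) (nat_lit 76) (nat_lit 27271896171) (nat_lit 9) (nat_lit 5) (nat_lit 12) (nat_lit 5) (nat_lit 10) (nat_lit 4) (nat_lit 319) (nat_lit 264) (nat_lit 137)) (XT.lf (nat_lit 0) (nat_lit 6252877029) (nat_lit 76) (nat_lit 46478743523) (nat_lit 152) (nat_lit 34266386153) (nat_lit 8) (nat_lit 5) (nat_lit 9) (nat_lit 5) (nat_lit 10) (nat_lit 4) (nat_lit 320) (nat_lit 264) (nat_lit 136)))) (XT.nd (nat_lit 156) (nat_lit 152) (nat_lit 0) (XT.nd (nat_lit 78) (nat_lit 0) (nat_lit 0) (XT.lf (nat_lit 0) (nat_lit 26589909664) (nat_lit 76) (nat_lit 36066812812) (nat_lit 152) (nat_lit 28052825052)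 (nat_lit 8) (nat_lit 5) (nat_lit 9) (nat_lit 5) (nat_lit 10) (nat_lit 4) (nat_lit 321) (nat_lit 264) (nat_lit 135)) (XT.lf (nat_lit 0) (nat_lit 47940210954) (nat_lit 76) (nat_lit 25135671878) (nat_lit 152) (nat_lit 21530897958) (nat_lit 8) (nat_lit 5) (nat_lit 9) (nat_lit 5) (nat_lit 10) (nat_lit 4) (nat_lit 322) (nat_lit 264) (nat_lit 134))) (XT.nd (nat_lit 78) (nat_lit 152) (nat_lit 0) (XT.lf (nat_lit 0) (nat_lit 70354614948) (nat_lit 76) (nat_lit 13659294193) (nat_lit 152) (nat_lit 14685076475) (nat_lit 8) (nat_lit 5) (nat_lit 9) (nat_lit 5) (nat_lit 10) (nat_lit 4) (nat_lit 323) (nat_lit 264) (nat_lit 133)) (XT.nd (nat_lit 78) (nat_lit 152) (nat_lit 0) (XT.lf (nat_lit 0) (nat_lit 93886489277) (nat_lit 76) (nat_lit 1610355049) (nat_lit 152) (nat_lit 7499061026) (nat_lit 8) (nat_lit 5) (nat_lit 9) (nat_lit 5) (nat_lit 10) (nat_lit 4) (nat_lit 324) (nat_lit 264) (nat_lit 132)) (XT.lf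 (nat_lit 0) (nat_lit 396910573) (nat_lit 152) (nat_lit 96224234889) (nat_lit 76) (nat_lit 10868887293) (nat_lit 6) (nat_lit 5) (nat_lit 8) (nat_lit 5) (nat_lit 7) (nat_lit 4) (nat_lit 325) (nat_lit 264) (nat_lit 131))))))) (XT.nd (nat_lit 624) (nat_lit 76) (nat_lit 0) (XT.nd (nat_lit 312) (nat_lit 76) (nat_lit 0) (XT.nd (nat_lit 156) (nat_lit 0) (nat_lit 0) (XT.nd (nat_lit 78) (nat_lit 0) (nat_lit 0) (XT.lf (nat_lit 0) (nat_lit 8616954869) (nat_lit 152) (nat_lit 79380178138) (nat_lit 76) (nat_lit 24196526519) (nat_lit 6) (nat_lit 5) (nat_lit 8) (nat_lit 5) (nat_lit 7) (nat_lit 4) (nat_lit 326) (nat_lit 264) (nat_lit 130)) (XT.lf (nat_lit 0) (nat_lit 17246183337) (nat_lit 152) (nat_lit 61696958883) (nat_lit 76) (nat_lit 38189420473) (nat_lit 6) (nat_lit 5) (nat_lit 8) (nat_lit 5) (nat_lit 7) (nat_lit 4) (nat_lit 327) (nat_lit 264) (nat_lit 129))) (XT.nd (nat_lit 78) (nat_lit 0) (nat_lit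 0) (XT.lf (nat_lit 0) (nat_lit 26305141757) (nat_lit 152) (nat_lit 43132474219) (nat_lit 76) (nat_lit 52880885568) (nat_lit 6) (nat_lit 5) (nat_lit 8) (nat_lit 5) (nat_lit 7) (nat_lit 4) (nat_lit 328) (nat_lit 264) (nat_lit 128)) (XT.lf (nat_lit 0) (nat_lit 35815399079) (nat_lit 152) (nat_lit 23642522992) (nat_lit 76) (nat_lit 68305901484) (nat_lit 6) (nat_lit 5) (nat_lit 8) (nat_lit 5) (nat_lit 7) (nat_lit 4) (nat_lit 329) (nat_lit 264) (nat_lit 127)))) (XT.nd (nat_lit 156) (nat_lit 0) (nat_lit 0) (XT.nd (nat_lit 78) (nat_lit 76) (nat_lit 0) (XT.lf (nat_lit 0) (nat_lit 45799598772) (nat_lit 152) (nat_lit 3180700558) (nat_lit 76) (nat_lit 84501194449) (nat_lit 6) (nat_lit 5) (nat_lit 8) (nat_lit 5) (nat_lit 7) (nat_lit 4) (nat_lit 330) (nat_lit 264) (nat_lit 126)) (XT.lf (nat_lit 0) (nat_lit 18906848950) (nat_lit 76) (nat_lit 37669852688) (nat_lit 152) (nat_lit 82893664632) (nat_lit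 5) (nat_lit 5) (nat_lit 6) (nat_lit 5) (nat_lit 7) (nat_lit 4) (nat_lit 331) (nat_lit 264) (nat_lit 125))) (XT.nd (nat_lit 78) (nat_lit 0) (nat_lit 0) (XT.lf (nat_lit 0) (nat_lit 42206741731) (nat_lit 76) (nat_lit 25738321714) (nat_lit 152) (nat_lit 77811002005) (nat_lit 5) (nat_lit 5) (nat_lit 6) (nat_lit 5) (nat_lit 7) (nat_lit 4) (nat_lit 332) (nat_lit 264) (nat_lit 124)) (XT.lf (nat_lit 0) (nat_lit 66669285393) (nat_lit 76) (nat_lit 13211164703) (nat_lit 152) (nat_lit 72475672252) (nat_lit 5) (nat_lit 5) (nat_lit 6) (nat_lit 5) (nat_lit 7) (nat_lit 4) (nat_lit 333) (nat_lit 264) (nat_lit 123))))) (XT.nd (nat_lit 312) (nat_lit 76) (nat_lit 0) (XT.nd (nat_lit 156) (nat_lit 0) (nat_lit 0) (XT.nd (nat_lit 78) (nat_lit 0) (nat_lit 0) (XT.lf (nat_lit 0) (nat_lit 92352724088) (nat_lit 76) (nat_lit 58555092) (nat_lit 152) (nat_lit 66874972208) (nat_lit 5) (nat_lit 5) (nat_lit 6) (nat_lit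 5) (nat_lit 7) (nat_lit 4) (nat_lit 334) (nat_lit 264) (nat_lit 122)) (XT.lf (nat_lit 0) (nat_lit 105782074886) (nat_lit 152) (nat_lit 47459432898) (nat_lit 0) (nat_lit 13310710648) (nat_lit 5) (nat_lit 5) (nat_lit 7) (nat_lit 4) (nat_lit 5) (nat_lit 4) (nat_lit 335) (nat_lit 264) (nat_lit 121))) (XT.nd (nat_lit 78) (nat_lit 0) (nat_lit 0) (XT.lf (nat_lit 0) (nat_lit 119821153939) (nat_lit 152) (nat_lit 27014668353) (nat_lit 0) (nat_lit 27345677034) (nat_lit 5) (nat_lit 5) (nat_lit 7) (nat_lit 4) (nat_lit 5) (nat_lit 4) (nat_lit 336) (nat_lit 264) (nat_lit 120)) (XT.lf (nat_lit 0) (nat_lit 134561028510) (nat_lit 152) (nat_lit 5549641448) (nat_lit 0) (nat_lit 42081634778) (nat_lit 5) (nat_lit 5) (nat_lit 7) (nat_lit 4) (nat_lit 5) (nat_lit 4) (nat_lit 337) (nat_lit 264) (nat_lit 119)))) (XT.nd (nat_lit 156) (nat_lit 0) (nat_lit 0) (XT.nd (nat_lit 78) (nat_lit 0) (nat_lit 0) (XT.lf (nat_lit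 0) (nat_lit 17548413859) (nat_lit 76) (nat_lit 132762359598) (nat_lit 76) (nat_lit 40279235555) (nat_lit 4) (nat_lit 4) (nat_lit 5) (nat_lit 5) (nat_lit 5) (nat_lit 4) (nat_lit 338) (nat_lit 264) (nat_lit 118)) (XT.lf (nat_lit 0) (nat_lit 41992191526) (nat_lit 76) (nat_lit 124948720348) (nat_lit 76) (nat_lit 32462043628) (nat_lit 4) (nat_lit 4) (nat_lit 5) (nat_lit 5) (nat_lit 5) (nat_lit 4) (nat_lit 339) (nat_lit 264) (nat_lit 117))) (XT.nd (nat_lit 78) (nat_lit 0) (nat_lit 0) (XT.lf (nat_lit 0) (nat_lit 67656394813) (nat_lit 76) (nat_lit 116745134169) (nat_lit 76) (nat_lit 24255073947) (nat_lit 4) (nat_lit 4) (nat_lit 5) (nat_lit 5) (nat_lit 5) (nat_lit 4) (nat_lit 340) (nat_lit 264) (nat_lit 116)) (XT.nd (nat_lit 78) (nat_lit 0) (nat_lit 0) (XT.lf (nat_lit 0) (nat_lit 94602128966) (nat_lit 76) (nat_lit 108132068714) (nat_lit 76) (nat_lit 15638786109) (nat_lit 4) (nat_lit 4) (nat_lit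 5) (nat_lit 5) (nat_lit 5) (nat_lit 4) (nat_lit 341) (nat_lit 264) (nat_lit 115)) (XT.lf (nat_lit 0) (nat_lit 122893550495) (nat_lit 76) (nat_lit 99089016683) (nat_lit 76) (nat_lit 6592665142) (nat_lit 4) (nat_lit 4) (nat_lit 5) (nat_lit 5) (nat_lit 5) (nat_lit 4) (nat_lit 342) (nat_lit 264) (nat_lit 114))))))))
noncomputable def xc187 : XT := (XT.nd (nat_lit 32058) (nat_lit 0) (nat_lit 2432) (XT.nd (nat_lit 780) (nat_lit 0) (nat_lit 0) (XT.nd (nat_lit 312) (nat_lit 76) (nat_lit 0) (XT.nd (nat_lit 156) (nat_lit 0) (nat_lit 0) (XT.nd (nat_lit 78) (nat_lit 0) (nat_lit 0) (XT.lf (nat_lit 0) (nat_lit 2811854719) (nat_lit 152) (nat_lit 86734972161) (nat_lit 76) (nat_lit 149738545088) (nat_lit 3) (nat_lit 5) (nat_lit 5) (nat_lit 5) (nat_lit 4) (nat_lit 4) (nat_lit 343) (nat_lit 264) (nat_lit 113)) (XT.lf (nat_lit 0) (nat_lit 12464182248) (nat_lit 152) (nat_lit 66950484343) (nat_lit 76) (nat_lit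 171110992985) (nat_lit 3) (nat_lit 5) (nat_lit 5) (nat_lit 5) (nat_lit 4) (nat_lit 4) (nat_lit 344) (nat_lit 264) (nat_lit 112))) (XT.nd (nat_lit 78) (nat_lit 0) (nat_lit 0) (XT.lf (nat_lit 0) (nat_lit 22598305631) (nat_lit 152) (nat_lit 46178182470) (nat_lit 76) (nat_lit 193551516133) (nat_lit 3) (nat_lit 5) (nat_lit 5) (nat_lit 5) (nat_lit 4) (nat_lit 4) (nat_lit 345) (nat_lit 264) (nat_lit 111)) (XT.lf (nat_lit 0) (nat_lit 33238353733) (nat_lit 152) (nat_lit 24368608681) (nat_lit 76) (nat_lit 217113544348) (nat_lit 3) (nat_lit 5) (nat_lit 5) (nat_lit 5) (nat_lit 4) (nat_lit 4) (nat_lit 346) (nat_lit 264) (nat_lit 110)))) (XT.nd (nat_lit 156) (nat_lit 0) (nat_lit 0) (XT.nd (nat_lit 78) (nat_lit 76) (nat_lit 0) (XT.lf (nat_lit 0) (nat_lit 44409660004) (nat_lit 152) (nat_lit 1469835419) (nat_lit 76) (nat_lit 241853177696) (nat_lit 3) (nat_lit 5) (nat_lit 5) (nat_lit 5) (nat_lit 4)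 (nat_lit 4) (nat_lit 347) (nat_lit 264) (nat_lit 109)) (XT.lf (nat_lit 0) (nat_lit 23319012225) (nat_lit 76) (nat_lit 33183885696) (nat_lit 152) (nat_lit 244874382974) (nat_lit 2) (nat_lit 5) (nat_lit 3) (nat_lit 5) (nat_lit 4) (nat_lit 4) (nat_lit 348) (nat_lit 264) (nat_lit 108))) (XT.nd (nat_lit 78) (nat_lit 0) (nat_lit 0) (XT.lf (nat_lit 0) (nat_lit 49397132968) (nat_lit 76) (nat_lit 19827863382) (nat_lit 152) (nat_lit 246477914133) (nat_lit 2) (nat_lit 5) (nat_lit 3) (nat_lit 5) (nat_lit 4) (nat_lit 4) (nat_lit 349) (nat_lit 264) (nat_lit 107)) (XT.lf (nat_lit 0) (nat_lit 76778018175) (nat_lit 76) (nat_lit 5804520801) (nat_lit 152) (nat_lit 248162316897) (nat_lit 2) (nat_lit 5) (nat_lit 3) (nat_lit 5) (nat_lit 4) (nat_lit 4) (nat_lit 350) (nat_lit 264) (nat_lit 106))))) (XT.nd (nat_lit 30888) (nat_lit 0) (nat_lit 4788) (XT.nd (nat_lit 30732) (nat_lit 0) (nat_lit 4712) (XT.nd (nat_lit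 30654) (nat_lit 0) (nat_lit 4712) (XT.lf (nat_lit 0) (nat_lit 127427954826) (nat_lit 152) (nat_lit 213764200403) (nat_lit 0) (nat_lit 39311913497) (nat_lit 2) (nat_lit 5) (nat_lit 4) (nat_lit 4) (nat_lit 2) (nat_lit 4) (nat_lit 353) (nat_lit 264) (nat_lit 103)) (XT.lf (nat_lit 0) (nat_lit 5095138232) (nat_lit 684) (nat_lit 999780529) (nat_lit 684) (nat_lit 999780529) (nat_lit 64) (nat_lit 3) (nat_lit 73) (nat_lit 3) (nat_lit 73) (nat_lit 5) (nat_lit 265) (nat_lit 265) (nat_lit 190))) (XT.nd (nat_lit 78) (nat_lit 0) (nat_lit 0) (XT.lf (nat_lit 76) (nat_lit 3792074827) (nat_lit 0) (nat_lit 6999213579) (nat_lit 684) (nat_lit 3733986030) (nat_lit 65) (nat_lit 5) (nat_lit 64) (nat_lit 3) (nat_lit 73) (nat_lit 5) (nat_lit 266) (nat_lit 265) (nat_lit 189)) (XT.lf (nat_lit 76) (nat_lit 9932695892) (nat_lit 0) (nat_lit 1504987404) (nat_lit 684) (nat_lit 3439593155) (nat_lit 65) (nat_lit 5)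 (nat_lit 64) (nat_lit 3) (nat_lit 73) (nat_lit 5) (nat_lit 267) (nat_lit 265) (nat_lit 188)))) (XT.nd (nat_lit 156) (nat_lit 0) (nat_lit 76) (XT.nd (nat_lit 78) (nat_lit 0) (nat_lit 0) (XT.lf (nat_lit 76) (nat_lit 1091178579) (nat_lit 0) (nat_lit 11091305773) (nat_lit 684) (nat_lit 3061184167) (nat_lit 66) (nat_lit 5) (nat_lit 65) (nat_lit 5) (nat_lit 74) (nat_lit 5) (nat_lit 268) (nat_lit 265) (nat_lit 187)) (XT.lf (nat_lit 76) (nat_lit 7564431142) (nat_lit 0) (nat_lit 5491255927) (nat_lit 684) (nat_lit 2568224824) (nat_lit 66) (nat_lit 5) (nat_lit 65) (nat_lit 5) (nat_lit 74) (nat_lit 5) (nat_lit 269) (nat_lit 265) (nat_lit 186))) (XT.nd (nat_lit 78) (nat_lit 0) (nat_lit 0) (XT.lf (nat_lit 0) (nat_lit 13962666181) (nat_lit 608) (nat_lit 1678846988) (nat_lit 684) (nat_lit 382233962) (nat_lit 66) (nat_lit 5) (nat_lit 74) (nat_lit 5) (nat_lit 75) (nat_lit 5) (nat_lit 270) (nat_lit 265)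 (nat_lit 185)) (XT.nd (nat_lit 78) (nat_lit 0) (nat_lit 0) (XT.lf (nat_lit 76) (nat_lit 5083053341) (nat_lit 0) (nat_lit 9986127972) (nat_lit 684) (nat_lit 1366764902) (nat_lit 67) (nat_lit 5) (nat_lit 66) (nat_lit 5) (nat_lit 75) (nat_lit 5) (nat_lit 271) (nat_lit 265) (nat_lit 184)) (XT.lf (nat_lit 76) (nat_lit 12231068769) (nat_lit 0) (nat_lit 4013754544) (nat_lit 684) (nat_lit 623319441) (nat_lit 67) (nat_lit 5) (nat_lit 66) (nat_lit 5) (nat_lit 75) (nat_lit 5) (nat_lit 272) (nat_lit 265) (nat_lit 183))))))) (XT.nd (nat_lit 624) (nat_lit 912) (nat_lit 0) (XT.nd (nat_lit 312) (nat_lit 912) (nat_lit 0) (XT.nd (nat_lit 156) (nat_lit 0) (nat_lit 0) (XT.nd (nat_lit 78) (nat_lit 0) (nat_lit 0) (XT.lf (nat_lit 0) (nat_lit 212745932) (nat_lit 684) (nat_lit 14875474505) (nat_lit 760) (nat_lit 2230652131) (nat_lit 58) (nat_lit 5) (nat_lit 67) (nat_lit 5) (nat_lit 68) (nat_lit 5) (nat_lit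 273) (nat_lit 265) (nat_lit 182)) (XT.lf (nat_lit 0) (nat_lit 1201625465) (nat_lit 684) (nat_lit 7837594670) (nat_lit 760) (nat_lit 8745876891) (nat_lit 58) (nat_lit 5) (nat_lit 67) (nat_lit 5) (nat_lit 68) (nat_lit 5) (nat_lit 274) (nat_lit 265) (nat_lit 181))) (XT.nd (nat_lit 78) (nat_lit 0) (nat_lit 76) (XT.lf (nat_lit 0) (nat_lit 2226940184) (nat_lit 684) (nat_lit 458258753) (nat_lit 760) (nat_lit 15590148017) (nat_lit 58) (nat_lit 5) (nat_lit 67) (nat_lit 5) (nat_lit 68) (nat_lit 5) (nat_lit 275) (nat_lit 265) (nat_lit 180)) (XT.lf (nat_lit 0) (nat_lit 3472756296) (nat_lit 684) (nat_lit 11328306348) (nat_lit 76) (nat_lit 3980645721) (nat_lit 59) (nat_lit 5) (nat_lit 68) (nat_lit 5) (nat_lit 60) (nat_lit 5) (nat_lit 276) (nat_lit 265) (nat_lit 179)))) (XT.nd (nat_lit 156) (nat_lit 304) (nat_lit 0) (XT.nd (nat_lit 78) (nat_lit 684) (nat_lit 0) (XT.lf (nat_lit 0) (nat_lit 4820852773)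 (nat_lit 684) (nat_lit 3591061063) (nat_lit 76) (nat_lit 10899532407) (nat_lit 59) (nat_lit 5) (nat_lit 68) (nat_lit 5) (nat_lit 60) (nat_lit 5) (nat_lit 277) (nat_lit 265) (nat_lit 178)) (XT.lf (nat_lit 0) (nat_lit 4672628433) (nat_lit 684) (nat_lit 1625327843) (nat_lit 760) (nat_lit 13566689748) (nat_lit 50) (nat_lit 5) (nat_lit 59) (nat_lit 5) (nat_lit 60) (nat_lit 5) (nat_lit 278) (nat_lit 265) (nat_lit 177))) (XT.nd (nat_lit 78) (nat_lit 304) (nat_lit 0) (XT.lf (nat_lit 0) (nat_lit 7985662598) (nat_lit 760) (nat_lit 7065594790) (nat_lit 76) (nat_lit 5387463520) (nat_lit 50) (nat_lit 5) (nat_lit 60) (nat_lit 5) (nat_lit 51) (nat_lit 5) (nat_lit 279) (nat_lit 265) (nat_lit 176)) (XT.lf (nat_lit 0) (nat_lit 1477873053) (nat_lit 304) (nat_lit 8319175555) (nat_lit 380) (nat_lit 11242536203) (nat_lit 46) (nat_lit 5) (nat_lit 50) (nat_lit 5) (nat_lit 51) (nat_lit 5) (nat_lit 280) (nat_lit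 265) (nat_lit 175))))) (XT.nd (nat_lit 312) (nat_lit 608) (nat_lit 0) (XT.nd (nat_lit 156) (nat_lit 304) (nat_lit 0) (XT.nd (nat_lit 78) (nat_lit 0) (nat_lit 0) (XT.lf (nat_lit 0) (nat_lit 10684043443) (nat_lit 304) (nat_lit 1124539470) (nat_lit 380) (nat_lit 9856477661) (nat_lit 46) (nat_lit 5) (nat_lit 50) (nat_lit 5) (nat_lit 51) (nat_lit 5) (nat_lit 281) (nat_lit 265) (nat_lit 174)) (XT.lf (nat_lit 0) (nat_lit 14011485893) (nat_lit 380) (nat_lit 2081512347) (nat_lit 76) (nat_lit 6224317634) (nat_lit 46) (nat_lit 5) (nat_lit 51) (nat_lit 5) (nat_lit 47) (nat_lit 5) (nat_lit 282) (nat_lit 265) (nat_lit 173))) (XT.nd (nat_lit 78) (nat_lit 0) (nat_lit 0) (XT.lf (nat_lit 0) (nat_lit 7474391295) (nat_lit 304) (nat_lit 8976135250) (nat_lit 380) (nat_lit 6545400955) (nat_lit 42) (nat_lit 5) (nat_lit 46) (nat_lit 5) (nat_lit 47) (nat_lit 5) (nat_lit 283) (nat_lit 265) (nat_lit 172)) (XT.lf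 (nat_lit 0) (nat_lit 17571138127) (nat_lit 304) (nat_lit 1466785046) (nat_lit 380) (nat_lit 4669267468) (nat_lit 42) (nat_lit 5) (nat_lit 46) (nat_lit 5) (nat_lit 47) (nat_lit 5) (nat_lit 284) (nat_lit 265) (nat_lit 171)))) (XT.nd (nat_lit 156) (nat_lit 380) (nat_lit 0) (XT.nd (nat_lit 78) (nat_lit 0) (nat_lit 0) (XT.lf (nat_lit 0) (nat_lit 3728607139) (nat_lit 228) (nat_lit 18176068308) (nat_lit 304) (nat_lit 2541881373) (nat_lit 39) (nat_lit 5) (nat_lit 42) (nat_lit 5) (nat_lit 43) (nat_lit 5) (nat_lit 285) (nat_lit 265) (nat_lit 170)) (XT.lf (nat_lit 0) (nat_lit 14265604418) (nat_lit 228) (nat_lit 10768563764) (nat_lit 304) (nat_lit 182790291) (nat_lit 39) (nat_lit 5) (nat_lit 42) (nat_lit 5) (nat_lit 43) (nat_lit 5) (nat_lit 286) (nat_lit 265) (nat_lit 169))) (XT.nd (nat_lit 78) (nat_lit 304) (nat_lit 0) (XT.lf (nat_lit 0) (nat_lit 2212880012) (nat_lit 304) (nat_lit 741196869)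 (nat_lit 76) (nat_lit 23070443421) (nat_lit 38) (nat_lit 5) (nat_lit 42) (nat_lit 5) (nat_lit 39) (nat_lit 5) (nat_lit 287) (nat_lit 265) (nat_lit 168)) (XT.nd (nat_lit 78) (nat_lit 0) (nat_lit 0) (XT.lf (nat_lit 0) (nat_lit 4960052499) (nat_lit 380) (nat_lit 16651802346) (nat_lit 76) (nat_lit 5248594694) (nat_lit 34) (nat_lit 5) (nat_lit 39) (nat_lit 5) (nat_lit 35) (nat_lit 5) (nat_lit 288) (nat_lit 265) (nat_lit 167)) (XT.lf (nat_lit 0) (nat_lit 7898415939) (nat_lit 380) (nat_lit 6063230818) (nat_lit 76) (nat_lit 13773867557) (nat_lit 34) (nat_lit 5) (nat_lit 39) (nat_lit 5) (nat_lit 35) (nat_lit 5) (nat_lit 289) (nat_lit 265) (nat_lit 166))))))))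
noncomputable def xc188 : XT := (XT.nd (nat_lit 1326) (nat_lit 532) (nat_lit 0) (XT.nd (nat_lit 624) (nat_lit 760) (nat_lit 0) (XT.nd (nat_lit 312) (nat_lit 228) (nat_lit 0) (XT.nd (nat_lit 156) (nat_lit 228) (nat_lit 0) (XT.nd (nat_lit 78) (nat_lit 0) (nat_lit 0) (XT.lf (nat_lit 0) (nat_lit 5213278094) (nat_lit 228) (nat_lit 5844810035) (nat_lit 304) (nat_lit 17592553902) (nat_lit 31) (nat_lit 5) (nat_lit 34) (nat_lit 5) (nat_lit 35) (nat_lit 5) (nat_lit 290) (nat_lit 265) (nat_lit 165)) (XT.lf (nat_lit 0) (nat_lit 14515099886) (nat_lit 304) (nat_lit 12394329810) (nat_lit 76) (nat_lit 2695156478) (nat_lit 31) (nat_lit 5) (nat_lit 35) (nat_lit 5) (nat_lit 32) (nat_lit 5) (nat_lit 291) (nat_lit 265) (nat_lit 164))) (XT.nd (nat_lit 78) (nat_lit 228) (nat_lit 0) (XT.lf (nat_lit 0) (nat_lit 18234283396) (nat_lit 304) (nat_lit 903112560) (nat_lit 76) (nat_lit 11464392024) (nat_lit 31) (nat_lit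 5) (nat_lit 35) (nat_lit 5) (nat_lit 32) (nat_lit 5) (nat_lit 292) (nat_lit 265) (nat_lit 163)) (XT.lf (nat_lit 0) (nat_lit 11523733146) (nat_lit 228) (nat_lit 10789424616) (nat_lit 304) (nat_lit 9327030780) (nat_lit 28) (nat_lit 5) (nat_lit 31) (nat_lit 5) (nat_lit 32) (nat_lit 5) (nat_lit 293) (nat_lit 265) (nat_lit 162)))) (XT.nd (nat_lit 156) (nat_lit 76) (nat_lit 0) (XT.nd (nat_lit 78) (nat_lit 152) (nat_lit 0) (XT.lf (nat_lit 0) (nat_lit 24595636556) (nat_lit 228) (nat_lit 2009623166) (nat_lit 304) (nat_lit 6124809265) (nat_lit 28) (nat_lit 5) (nat_lit 31) (nat_lit 5) (nat_lit 32) (nat_lit 5) (nat_lit 294) (nat_lit 265) (nat_lit 161)) (XT.lf (nat_lit 0) (nat_lit 4469632727) (nat_lit 152) (nat_lit 26818924117) (nat_lit 228) (nat_lit 2577080011) (nat_lit 26) (nat_lit 5) (nat_lit 28) (nat_lit 5) (nat_lit 29) (nat_lit 5) (nat_lit 295) (nat_lit 265) (nat_lit 160))) (XT.nd (nat_lit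 78) (nat_lit 0) (nat_lit 0) (XT.lf (nat_lit 0) (nat_lit 1278551055) (nat_lit 228) (nat_lit 17125559116) (nat_lit 76) (nat_lit 16644634532) (nat_lit 25) (nat_lit 5) (nat_lit 28) (nat_lit 5) (nat_lit 26) (nat_lit 5) (nat_lit 296) (nat_lit 265) (nat_lit 159)) (XT.lf (nat_lit 0) (nat_lit 5234924604) (nat_lit 228) (nat_lit 4291122144) (nat_lit 76) (nat_lit 26763140235) (nat_lit 25) (nat_lit 5) (nat_lit 28) (nat_lit 5) (nat_lit 26) (nat_lit 5) (nat_lit 297) (nat_lit 265) (nat_lit 158))))) (XT.nd (nat_lit 312) (nat_lit 380) (nat_lit 0) (XT.nd (nat_lit 156) (nat_lit 152) (nat_lit 0) (XT.nd (nat_lit 78) (nat_lit 0) (nat_lit 0) (XT.lf (nat_lit 0) (nat_lit 9481569860) (nat_lit 228) (nat_lit 50407243) (nat_lit 304) (nat_lit 28052550102) (nat_lit 22) (nat_lit 5) (nat_lit 25) (nat_lit 5) (nat_lit 26) (nat_lit 5) (nat_lit 298) (nat_lit 265) (nat_lit 157)) (XT.lf (nat_lit 0) (nat_lit 14267235413)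 (nat_lit 304) (nat_lit 15011935060) (nat_lit 76) (nat_lit 9654314251) (nat_lit 22) (nat_lit 5) (nat_lit 26) (nat_lit 5) (nat_lit 23) (nat_lit 5) (nat_lit 299) (nat_lit 265) (nat_lit 156))) (XT.nd (nat_lit 78) (nat_lit 152) (nat_lit 0) (XT.lf (nat_lit 0) (nat_lit 19235262276) (nat_lit 304) (nat_lit 1273917597) (nat_lit 76) (nat_lit 19840927055) (nat_lit 22) (nat_lit 5) (nat_lit 26) (nat_lit 5) (nat_lit 23) (nat_lit 5) (nat_lit 300) (nat_lit 265) (nat_lit 155)) (XT.lf (nat_lit 0) (nat_lit 13579211168) (nat_lit 152) (nat_lit 11079897704) (nat_lit 228) (nat_lit 17168096729) (nat_lit 20) (nat_lit 5) (nat_lit 22) (nat_lit 5) (nat_lit 23) (nat_lit 5) (nat_lit 301) (nat_lit 265) (nat_lit 154)))) (XT.nd (nat_lit 156) (nat_lit 228) (nat_lit 0) (XT.nd (nat_lit 78) (nat_lit 152) (nat_lit 0) (XT.lf (nat_lit 0) (nat_lit 29212918156) (nat_lit 152) (nat_lit 1158333074) (nat_lit 228) (nat_lit 13006068306)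 (nat_lit 20) (nat_lit 5) (nat_lit 22) (nat_lit 5) (nat_lit 23) (nat_lit 5) (nat_lit 302) (nat_lit 265) (nat_lit 153)) (XT.lf (nat_lit 0) (nat_lit 488228025) (nat_lit 152) (nat_lit 36028673708) (nat_lit 228) (nat_lit 8480657147) (nat_lit 18) (nat_lit 5) (nat_lit 20) (nat_lit 5) (nat_lit 21) (nat_lit 5) (nat_lit 303) (nat_lit 265) (nat_lit 152))) (XT.nd (nat_lit 78) (nat_lit 228) (nat_lit 0) (XT.lf (nat_lit 0) (nat_lit 16339522228) (nat_lit 152) (nat_lit 26884699697) (nat_lit 228) (nat_lit 3461882969) (nat_lit 18) (nat_lit 5) (nat_lit 20) (nat_lit 5) (nat_lit 21) (nat_lit 5) (nat_lit 304) (nat_lit 265) (nat_lit 151)) (XT.nd (nat_lit 78) (nat_lit 152) (nat_lit 0) (XT.lf (nat_lit 0) (nat_lit 1745912166) (nat_lit 228) (nat_lit 15509884244) (nat_lit 76) (nat_lit 31202086083) (nat_lit 17) (nat_lit 5) (nat_lit 20) (nat_lit 5) (nat_lit 18) (nat_lit 5) (nat_lit 305) (nat_lit 265) (nat_lit 150))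 (XT.lf (nat_lit 0) (nat_lit 6424561) (nat_lit 152) (nat_lit 7087568067) (nat_lit 228) (nat_lit 43221619003) (nat_lit 15) (nat_lit 5) (nat_lit 17) (nat_lit 5) (nat_lit 18) (nat_lit 5) (nat_lit 306) (nat_lit 265) (nat_lit 149))))))) (XT.nd (nat_lit 624) (nat_lit 304) (nat_lit 0) (XT.nd (nat_lit 312) (nat_lit 76) (nat_lit 0) (XT.nd (nat_lit 156) (nat_lit 152) (nat_lit 0) (XT.nd (nat_lit 78) (nat_lit 0) (nat_lit 0) (XT.lf (nat_lit 0) (nat_lit 13028691536) (nat_lit 228) (nat_lit 35482176235) (nat_lit 76) (nat_lit 3739410303) (nat_lit 15) (nat_lit 5) (nat_lit 18) (nat_lit 5) (nat_lit 16) (nat_lit 5) (nat_lit 307) (nat_lit 265) (nat_lit 148)) (XT.lf (nat_lit 0) (nat_lit 19372701253) (nat_lit 228) (nat_lit 20035488167) (nat_lit 76) (nat_lit 14867870642) (nat_lit 15) (nat_lit 5) (nat_lit 18) (nat_lit 5) (nat_lit 16) (nat_lit 5) (nat_lit 308) (nat_lit 265) (nat_lit 147))) (XT.nd (nat_lit 78)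 (nat_lit 152) (nat_lit 0) (XT.lf (nat_lit 0) (nat_lit 26030469764) (nat_lit 228) (nat_lit 3821688238) (nat_lit 76) (nat_lit 26551155724) (nat_lit 15) (nat_lit 5) (nat_lit 18) (nat_lit 5) (nat_lit 16) (nat_lit 5) (nat_lit 309) (nat_lit 265) (nat_lit 146)) (XT.lf (nat_lit 0) (nat_lit 13634207627) (nat_lit 152) (nat_lit 19596509462) (nat_lit 228) (nat_lit 25395743457) (nat_lit 13) (nat_lit 5) (nat_lit 15) (nat_lit 5) (nat_lit 16) (nat_lit 5) (nat_lit 310) (nat_lit 265) (nat_lit 145)))) (XT.nd (nat_lit 156) (nat_lit 76) (nat_lit 0) (XT.nd (nat_lit 78) (nat_lit 0) (nat_lit 0) (XT.lf (nat_lit 0) (nat_lit 32090685047) (nat_lit 152) (nat_lit 8761815756) (nat_lit 228) (nat_lit 20105197221) (nat_lit 13) (nat_lit 5) (nat_lit 15) (nat_lit 5) (nat_lit 16) (nat_lit 5) (nat_lit 311) (nat_lit 265) (nat_lit 144)) (XT.lf (nat_lit 0) (nat_lit 48893124095) (nat_lit 228) (nat_lit 11981129209) (nat_lit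 76) (nat_lit 2529365615) (nat_lit 13) (nat_lit 5) (nat_lit 16) (nat_lit 5) (nat_lit 14) (nat_lit 4) (nat_lit 312) (nat_lit 265) (nat_lit 143))) (XT.nd (nat_lit 78) (nat_lit 0) (nat_lit 0) (XT.lf (nat_lit 0) (nat_lit 5786033298) (nat_lit 76) (nat_lit 51780792973) (nat_lit 152) (nat_lit 8393465834) (nat_lit 12) (nat_lit 5) (nat_lit 13) (nat_lit 5) (nat_lit 14) (nat_lit 4) (nat_lit 313) (nat_lit 265) (nat_lit 142)) (XT.lf (nat_lit 0) (nat_lit 24853017043) (nat_lit 76) (nat_lit 42021247037) (nat_lit 152) (nat_lit 1760540565) (nat_lit 12) (nat_lit 5) (nat_lit 13) (nat_lit 5) (nat_lit 14) (nat_lit 4) (nat_lit 314) (nat_lit 265) (nat_lit 141))))) (XT.nd (nat_lit 312) (nat_lit 76) (nat_lit 0) (XT.nd (nat_lit 156) (nat_lit 152) (nat_lit 0) (XT.nd (nat_lit 78) (nat_lit 0) (nat_lit 0) (XT.lf (nat_lit 0) (nat_lit 5034697601) (nat_lit 152) (nat_lit 26655322064) (nat_lit 76) (nat_lit 39749106721)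 (nat_lit 11) (nat_lit 5) (nat_lit 13) (nat_lit 5) (nat_lit 12) (nat_lit 5) (nat_lit 315) (nat_lit 265) (nat_lit 140)) (XT.lf (nat_lit 0) (nat_lit 12107892088) (nat_lit 152) (nat_lit 8705565729) (nat_lit 76) (nat_lit 53568902428) (nat_lit 11) (nat_lit 5) (nat_lit 13) (nat_lit 5) (nat_lit 12) (nat_lit 5) (nat_lit 316) (nat_lit 265) (nat_lit 139))) (XT.nd (nat_lit 78) (nat_lit 0) (nat_lit 0) (XT.lf (nat_lit 0) (nat_lit 10472904227) (nat_lit 152) (nat_lit 9222839285) (nat_lit 228) (nat_lit 57768969188) (nat_lit 9) (nat_lit 5) (nat_lit 11) (nat_lit 5) (nat_lit 12) (nat_lit 5) (nat_lit 317) (nat_lit 265) (nat_lit 138)) (XT.lf (nat_lit 0) (nat_lit 27856375024) (nat_lit 228) (nat_lit 49833723558) (nat_lit 76) (nat_lit 3001421260) (nat_lit 9) (nat_lit 5) (nat_lit 12) (nat_lit 5) (nat_lit 10) (nat_lit 4) (nat_lit 318) (nat_lit 265) (nat_lit 137)))) (XT.nd (nat_lit 156) (nat_lit 76) (nat_lit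 0) (XT.nd (nat_lit 78) (nat_lit 0) (nat_lit 0) (XT.lf (nat_lit 0) (nat_lit 36573872048) (nat_lit 228) (nat_lit 31972752284) (nat_lit 76) (nat_lit 15525607447) (nat_lit 9) (nat_lit 5) (nat_lit 12) (nat_lit 5) (nat_lit 10) (nat_lit 4) (nat_lit 319) (nat_lit 265) (nat_lit 136)) (XT.lf (nat_lit 0) (nat_lit 45724996162) (nat_lit 228) (nat_lit 13222374160) (nat_lit 76) (nat_lit 28674727221) (nat_lit 9) (nat_lit 5) (nat_lit 12) (nat_lit 5) (nat_lit 10) (nat_lit 4) (nat_lit 320) (nat_lit 265) (nat_lit 135))) (XT.nd (nat_lit 78) (nat_lit 0) (nat_lit 0) (XT.lf (nat_lit 0) (nat_lit 6675719276) (nat_lit 76) (nat_lit 48760043166) (nat_lit 152) (nat_lit 35908595420) (nat_lit 8) (nat_lit 5) (nat_lit 9) (nat_lit 5) (nat_lit 10) (nat_lit 4) (nat_lit 321) (nat_lit 265) (nat_lit 134)) (XT.nd (nat_lit 78) (nat_lit 0) (nat_lit 0) (XT.lf (nat_lit 0) (nat_lit 28024356000) (nat_lit 76) (nat_lit 37829546279)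 (nat_lit 152) (nat_lit 29387742456) (nat_lit 8) (nat_lit 5) (nat_lit 9) (nat_lit 5) (nat_lit 10) (nat_lit 4) (nat_lit 322) (nat_lit 265) (nat_lit 133)) (XT.lf (nat_lit 0) (nat_lit 50437174695) (nat_lit 76) (nat_lit 26353781972) (nat_lit 152) (nat_lit 22542943953) (nat_lit 8) (nat_lit 5) (nat_lit 9) (nat_lit 5) (nat_lit 10) (nat_lit 4) (nat_lit 323) (nat_lit 265) (nat_lit 132))))))))
noncomputable def xc189 : XT := (XT.nd (nat_lit 1326) (nat_lit 152) (nat_lit 0) (XT.nd (nat_lit 624) (nat_lit 152) (nat_lit 0) (XT.nd (nat_lit 312) (nat_lit 0) (nat_lit 0) (XT.nd (nat_lit 156) (nat_lit 152) (nat_lit 0) (XT.nd (nat_lit 78) (nat_lit 0) (nat_lit 0) (XT.lf (nat_lit 0) (nat_lit 73967539213) (nat_lit 76) (nat_lit 14305426999) (nat_lit 152) (nat_lit 15357902771) (nat_lit 8) (nat_lit 5) (nat_lit 9) (nat_lit 5) (nat_lit 10) (nat_lit 4) (nat_lit 324) (nat_lit 265) (nat_lit 131)) (XT.lf (nat_lit 0)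 (nat_lit 98671474234) (nat_lit 76) (nat_lit 1655794798) (nat_lit 152) (nat_lit 7815511671) (nat_lit 8) (nat_lit 5) (nat_lit 9) (nat_lit 5) (nat_lit 10) (nat_lit 4) (nat_lit 325) (nat_lit 265) (nat_lit 130))) (XT.nd (nat_lit 78) (nat_lit 0) (nat_lit 0) (XT.lf (nat_lit 0) (nat_lit 472672040) (nat_lit 152) (nat_lit 100941937880) (nat_lit 76) (nat_lit 11447000972) (nat_lit 6) (nat_lit 5) (nat_lit 8) (nat_lit 5) (nat_lit 7) (nat_lit 4) (nat_lit 326) (nat_lit 265) (nat_lit 129)) (XT.lf (nat_lit 0) (nat_lit 9101055887) (nat_lit 152) (nat_lit 83260131090) (nat_lit 76) (nat_lit 25439371240) (nat_lit 6) (nat_lit 5) (nat_lit 8) (nat_lit 5) (nat_lit 7) (nat_lit 4) (nat_lit 327) (nat_lit 265) (nat_lit 128)))) (XT.nd (nat_lit 156) (nat_lit 0) (nat_lit 0) (XT.nd (nat_lit 78) (nat_lit 0) (nat_lit 0) (XT.lf (nat_lit 0) (nat_lit 18159209908) (nat_lit 152) (nat_lit 64696991632) (nat_lit 76) (nat_lit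 40130337587) (nat_lit 6) (nat_lit 5) (nat_lit 8) (nat_lit 5) (nat_lit 7) (nat_lit 4) (nat_lit 328) (nat_lit 265) (nat_lit 127)) (XT.lf (nat_lit 0) (nat_lit 27668701135) (nat_lit 152) (nat_lit 45208321553) (nat_lit 76) (nat_lit 55554878504) (nat_lit 6) (nat_lit 5) (nat_lit 8) (nat_lit 5) (nat_lit 7) (nat_lit 4) (nat_lit 329) (nat_lit 265) (nat_lit 126))) (XT.nd (nat_lit 78) (nat_lit 0) (nat_lit 0) (XT.lf (nat_lit 0) (nat_lit 37652171214) (nat_lit 152) (nat_lit 24747719260) (nat_lit 76) (nat_lit 71749719089) (nat_lit 6) (nat_lit 5) (nat_lit 8) (nat_lit 5) (nat_lit 7) (nat_lit 4) (nat_lit 330) (nat_lit 265) (nat_lit 125)) (XT.lf (nat_lit 0) (nat_lit 48133390311) (nat_lit 152) (nat_lit 3266469031) (nat_lit 76) (nat_lit 88753418487) (nat_lit 6) (nat_lit 5) (nat_lit 8) (nat_lit 5) (nat_lit 7) (nat_lit 4) (nat_lit 331) (nat_lit 265) (nat_lit 124))))) (XT.nd (nat_lit 312) (nat_lit 76) (nat_lit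 0) (XT.nd (nat_lit 156) (nat_lit 0) (nat_lit 0) (XT.nd (nat_lit 78) (nat_lit 0) (nat_lit 0) (XT.lf (nat_lit 0) (nat_lit 19924276234) (nat_lit 76) (nat_lit 39524111267) (nat_lit 152) (nat_lit 86993259250) (nat_lit 5) (nat_lit 5) (nat_lit 6) (nat_lit 5) (nat_lit 7) (nat_lit 4) (nat_lit 332) (nat_lit 265) (nat_lit 123)) (XT.lf (nat_lit 0) (nat_lit 44385731042) (nat_lit 76) (nat_lit 26997395842) (nat_lit 152) (nat_lit 81658610568) (nat_lit 5) (nat_lit 5) (nat_lit 6) (nat_lit 5) (nat_lit 7) (nat_lit 4) (nat_lit 333) (nat_lit 265) (nat_lit 122))) (XT.nd (nat_lit 78) (nat_lit 0) (nat_lit 0) (XT.lf (nat_lit 0) (nat_lit 70068132734) (nat_lit 76) (nat_lit 13845206788) (nat_lit 152) (nat_lit 76058559163) (nat_lit 5) (nat_lit 5) (nat_lit 6) (nat_lit 5) (nat_lit 7) (nat_lit 4) (nat_lit 334) (nat_lit 265) (nat_lit 121)) (XT.lf (nat_lit 0) (nat_lit 97032629884) (nat_lit 76) (nat_lit 36229371) (nat_lit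 152) (nat_lit 70179771579) (nat_lit 5) (nat_lit 5) (nat_lit 6) (nat_lit 5) (nat_lit 7) (nat_lit 4) (nat_lit 335) (nat_lit 265) (nat_lit 120)))) (XT.nd (nat_lit 156) (nat_lit 76) (nat_lit 0) (XT.nd (nat_lit 78) (nat_lit 0) (nat_lit 0) (XT.lf (nat_lit 0) (nat_lit 111106807576) (nat_lit 152) (nat_lit 49771634601) (nat_lit 0) (nat_lit 13999527331) (nat_lit 5) (nat_lit 5) (nat_lit 7) (nat_lit 4) (nat_lit 5) (nat_lit 4) (nat_lit 336) (nat_lit 265) (nat_lit 119)) (XT.lf (nat_lit 0) (nat_lit 125846143965) (nat_lit 152) (nat_lit 28307525636) (nat_lit 0) (nat_lit 28735133409) (nat_lit 5) (nat_lit 5) (nat_lit 7) (nat_lit 4) (nat_lit 5) (nat_lit 4) (nat_lit 337) (nat_lit 265) (nat_lit 118))) (XT.nd (nat_lit 78) (nat_lit 76) (nat_lit 0) (XT.lf (nat_lit 0) (nat_lit 141321396439) (nat_lit 152) (nat_lit 5772003392) (nat_lit 0) (nat_lit 44206833206) (nat_lit 5) (nat_lit 5) (nat_lit 7) (nat_lit 4) (nat_lit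 5) (nat_lit 4) (nat_lit 338) (nat_lit 265) (nat_lit 117)) (XT.nd (nat_lit 78) (nat_lit 0) (nat_lit 0) (XT.lf (nat_lit 0) (nat_lit 18480065646) (nat_lit 76) (nat_lit 139377870806) (nat_lit 76) (nat_lit 42259924071) (nat_lit 4) (nat_lit 4) (nat_lit 5) (nat_lit 5) (nat_lit 5) (nat_lit 4) (nat_lit 339) (nat_lit 265) (nat_lit 116)) (XT.lf (nat_lit 0) (nat_lit 44143449763) (nat_lit 76) (nat_lit 131174626106) (nat_lit 76) (nat_lit 34053456988) (nat_lit 4) (nat_lit 4) (nat_lit 5) (nat_lit 5) (nat_lit 5) (nat_lit 4) (nat_lit 340) (nat_lit 265) (nat_lit 115))))))) (XT.nd (nat_lit 624) (nat_lit 76) (nat_lit 0) (XT.nd (nat_lit 312) (nat_lit 0) (nat_lit 0) (XT.nd (nat_lit 156) (nat_lit 76) (nat_lit 0) (XT.nd (nat_lit 78) (nat_lit 0) (nat_lit 0) (XT.lf (nat_lit 0) (nat_lit 71088403754) (nat_lit 76) (nat_lit 122561885869) (nat_lit 76) (nat_lit 25437647815) (nat_lit 4) (nat_lit 4) (nat_lit 5) (nat_lit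 5) (nat_lit 5) (nat_lit 4) (nat_lit 341) (nat_lit 265) (nat_lit 114)) (XT.lf (nat_lit 0) (nat_lit 99379082272) (nat_lit 76) (nat_lit 113519143570) (nat_lit 76) (nat_lit 16391982720) (nat_lit 4) (nat_lit 4) (nat_lit 5) (nat_lit 5) (nat_lit 5) (nat_lit 4) (nat_lit 342) (nat_lit 265) (nat_lit 113))) (XT.nd (nat_lit 78) (nat_lit 76) (nat_lit 0) (XT.lf (nat_lit 0) (nat_lit 129082844075) (nat_lit 76) (nat_lit 104024868870) (nat_lit 76) (nat_lit 6894924405) (nat_lit 4) (nat_lit 4) (nat_lit 5) (nat_lit 5) (nat_lit 5) (nat_lit 4) (nat_lit 343) (nat_lit 265) (nat_lit 112)) (XT.lf (nat_lit 0) (nat_lit 2977683509) (nat_lit 152) (nat_lit 91028344333) (nat_lit 76) (nat_lit 157242300385) (nat_lit 3) (nat_lit 5) (nat_lit 5) (nat_lit 5) (nat_lit 4) (nat_lit 4) (nat_lit 344) (nat_lit 265) (nat_lit 111)))) (XT.nd (nat_lit 156) (nat_lit 0) (nat_lit 0) (XT.nd (nat_lit 78) (nat_lit 0) (nat_lit 0) (XT.lf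 (nat_lit 0) (nat_lit 13111425697) (nat_lit 152) (nat_lit 70256697669) (nat_lit 76) (nat_lit 179682569342) (nat_lit 3) (nat_lit 5) (nat_lit 5) (nat_lit 5) (nat_lit 4) (nat_lit 4) (nat_lit 345) (nat_lit 265) (nat_lit 110)) (XT.lf (nat_lit 0) (nat_lit 23751110757) (nat_lit 152) (nat_lit 48447747888) (nat_lit 76) (nat_lit 203244355471) (nat_lit 3) (nat_lit 5) (nat_lit 5) (nat_lit 5) (nat_lit 4) (nat_lit 4) (nat_lit 346) (nat_lit 265) (nat_lit 109))) (XT.nd (nat_lit 78) (nat_lit 0) (nat_lit 0) (XT.lf (nat_lit 0) (nat_lit 34922071272) (nat_lit 152) (nat_lit 25549568919) (nat_lit 76) (nat_lit 227983758261) (nat_lit 3) (nat_lit 5) (nat_lit 5) (nat_lit 5) (nat_lit 4) (nat_lit 4) (nat_lit 347) (nat_lit 265) (nat_lit 108)) (XT.lf (nat_lit 0) (nat_lit 46650904768) (nat_lit 152) (nat_lit 1507641289) (nat_lit 76) (nat_lit 253959681054) (nat_lit 3) (nat_lit 5) (nat_lit 5) (nat_lit 5) (nat_lit 4)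 (nat_lit 4) (nat_lit 348) (nat_lit 265) (nat_lit 107))))) (XT.nd (nat_lit 31200) (nat_lit 0) (nat_lit 4712) (XT.nd (nat_lit 31044) (nat_lit 0) (nat_lit 4712) (XT.nd (nat_lit 78) (nat_lit 0) (nat_lit 0) (XT.lf (nat_lit 0) (nat_lit 24520073158) (nat_lit 76) (nat_lit 34828290938) (nat_lit 152) (nat_lit 257096725184) (nat_lit 2) (nat_lit 5) (nat_lit 3) (nat_lit 5) (nat_lit 4) (nat_lit 4) (nat_lit 349) (nat_lit 265) (nat_lit 106)) (XT.lf (nat_lit 0) (nat_lit 51900428018) (nat_lit 76) (nat_lit 20805171748) (nat_lit 152) (nat_lit 258781450850) (nat_lit 2) (nat_lit 5) (nat_lit 3) (nat_lit 5) (nat_lit 4) (nat_lit 4) (nat_lit 350) (nat_lit 265) (nat_lit 105))) (XT.nd (nat_lit 78) (nat_lit 0) (nat_lit 0) (XT.lf (nat_lit 0) (nat_lit 5632463602) (nat_lit 684) (nat_lit 900660007) (nat_lit 684) (nat_lit 900660007) (nat_lit 64) (nat_lit 3) (nat_lit 73) (nat_lit 3) (nat_lit 73) (nat_lit 5) (nat_lit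 266) (nat_lit 266) (nat_lit 188)) (XT.lf (nat_lit 76) (nat_lit 4275087681) (nat_lit 0) (nat_lit 7598571720) (nat_lit 684) (nat_lit 3347838969) (nat_lit 65) (nat_lit 5) (nat_lit 64) (nat_lit 3) (nat_lit 73) (nat_lit 5) (nat_lit 267) (nat_lit 266) (nat_lit 187)))) (XT.nd (nat_lit 156) (nat_lit 0) (nat_lit 76) (XT.nd (nat_lit 78) (nat_lit 0) (nat_lit 76) (XT.lf (nat_lit 76) (nat_lit 10708767937) (nat_lit 0) (nat_lit 1817758167) (nat_lit 684) (nat_lit 3066004849) (nat_lit 65) (nat_lit 5) (nat_lit 64) (nat_lit 3) (nat_lit 73) (nat_lit 5) (nat_lit 268) (nat_lit 266) (nat_lit 186)) (XT.lf (nat_lit 76) (nat_lit 1452464149) (nat_lit 0) (nat_lit 11832743062) (nat_lit 684) (nat_lit 2693334907) (nat_lit 66) (nat_lit 5) (nat_lit 65) (nat_lit 5) (nat_lit 74) (nat_lit 5) (nat_lit 269) (nat_lit 266) (nat_lit 185))) (XT.nd (nat_lit 78) (nat_lit 0) (nat_lit 76) (XT.lf (nat_lit 76) (nat_lit 8234773310)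 (nat_lit 0) (nat_lit 5943792057) (nat_lit 684) (nat_lit 2200532762) (nat_lit 66) (nat_lit 5) (nat_lit 65) (nat_lit 5) (nat_lit 74) (nat_lit 5) (nat_lit 270) (nat_lit 266) (nat_lit 184)) (XT.nd (nat_lit 78) (nat_lit 0) (nat_lit 0) (XT.lf (nat_lit 0) (nat_lit 15105861664) (nat_lit 608) (nat_lit 1457162069) (nat_lit 684) (nat_lit 237272255) (nat_lit 66) (nat_lit 5) (nat_lit 74) (nat_lit 5) (nat_lit 75) (nat_lit 5) (nat_lit 271) (nat_lit 266) (nat_lit 183)) (XT.lf (nat_lit 76) (nat_lit 5637903804) (nat_lit 0) (nat_lit 10613300046) (nat_lit 684) (nat_lit 982839700) (nat_lit 67) (nat_lit 5) (nat_lit 66) (nat_lit 5) (nat_lit 75) (nat_lit 5) (nat_lit 272) (nat_lit 266) (nat_lit 182))))))))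
noncomputable def xc190 : XT := (XT.nd (nat_lit 1326) (nat_lit 1292) (nat_lit 0) (XT.nd (nat_lit 624) (nat_lit 1216) (nat_lit 0) (XT.nd (nat_lit 312) (nat_lit 608) (nat_lit 0) (XT.nd (nat_lit 156) (nat_lit 0) (nat_lit 0) (XT.nd (nat_lit 78) (nat_lit 608) (nat_lit 0) (XT.lf (nat_lit 76) (nat_lit 13129001062) (nat_lit 0) (nat_lit 4336219105) (nat_lit 684) (nat_lit 223758320) (nat_lit 67) (nat_lit 5) (nat_lit 66) (nat_lit 5) (nat_lit 75) (nat_lit 5) (nat_lit 273) (nat_lit 266) (nat_lit 181)) (XT.lf (nat_lit 0) (nat_lit 623482863) (nat_lit 684) (nat_lit 15298218858) (nat_lit 760) (nat_lit 2241147024) (nat_lit 58) (nat_lit 5) (nat_lit 67) (nat_lit 5) (nat_lit 68) (nat_lit 5) (nat_lit 274) (nat_lit 266) (nat_lit 180))) (XT.nd (nat_lit 78) (nat_lit 0) (nat_lit 0) (XT.lf (nat_lit 0) (nat_lit 1642754010) (nat_lit 684) (nat_lit 7923732145) (nat_lit 760) (nat_lit 9086944342) (nat_lit 58) (nat_lit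 5) (nat_lit 67) (nat_lit 5) (nat_lit 68) (nat_lit 5) (nat_lit 275) (nat_lit 266) (nat_lit 179)) (XT.lf (nat_lit 0) (nat_lit 2701189356) (nat_lit 684) (nat_lit 189988587) (nat_lit 760) (nat_lit 16278011233) (nat_lit 58) (nat_lit 5) (nat_lit 67) (nat_lit 5) (nat_lit 68) (nat_lit 5) (nat_lit 276) (nat_lit 266) (nat_lit 178)))) (XT.nd (nat_lit 156) (nat_lit 684) (nat_lit 0) (XT.nd (nat_lit 78) (nat_lit 0) (nat_lit 0) (XT.lf (nat_lit 0) (nat_lit 3995494988) (nat_lit 684) (nat_lit 11588042023) (nat_lit 76) (nat_lit 4118106475) (nat_lit 59) (nat_lit 5) (nat_lit 68) (nat_lit 5) (nat_lit 60) (nat_lit 5) (nat_lit 277) (nat_lit 266) (nat_lit 177)) (XT.lf (nat_lit 0) (nat_lit 5394372438) (nat_lit 684) (nat_lit 3478538265) (nat_lit 76) (nat_lit 11385869473) (nat_lit 59) (nat_lit 5) (nat_lit 68) (nat_lit 5) (nat_lit 60) (nat_lit 5) (nat_lit 278) (nat_lit 266) (nat_lit 176))) (XT.nd (nat_lit 78)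 (nat_lit 0) (nat_lit 0) (XT.lf (nat_lit 0) (nat_lit 5193624804) (nat_lit 684) (nat_lit 1740360645) (nat_lit 760) (nat_lit 13906298664) (nat_lit 50) (nat_lit 5) (nat_lit 59) (nat_lit 5) (nat_lit 60) (nat_lit 5) (nat_lit 279) (nat_lit 266) (nat_lit 175)) (XT.lf (nat_lit 0) (nat_lit 8690283033) (nat_lit 760) (nat_lit 7127935148) (nat_lit 76) (nat_lit 5625707483) (nat_lit 50) (nat_lit 5) (nat_lit 60) (nat_lit 5) (nat_lit 51) (nat_lit 5) (nat_lit 280) (nat_lit 266) (nat_lit 174))))) (XT.nd (nat_lit 312) (nat_lit 608) (nat_lit 0) (XT.nd (nat_lit 156) (nat_lit 304) (nat_lit 0) (XT.nd (nat_lit 78) (nat_lit 0) (nat_lit 0) (XT.lf (nat_lit 0) (nat_lit 1838013517) (nat_lit 304) (nat_lit 8744154070) (nat_lit 380) (nat_lit 11493238447) (nat_lit 46) (nat_lit 5) (nat_lit 50) (nat_lit 5) (nat_lit 51) (nat_lit 5) (nat_lit 281) (nat_lit 266) (nat_lit 173)) (XT.lf (nat_lit 0) (nat_lit 11490861626) (nat_lit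 304) (nat_lit 1189356670) (nat_lit 380) (nat_lit 10052706720) (nat_lit 46) (nat_lit 5) (nat_lit 50) (nat_lit 5) (nat_lit 51) (nat_lit 5) (nat_lit 282) (nat_lit 266) (nat_lit 172))) (XT.nd (nat_lit 78) (nat_lit 304) (nat_lit 0) (XT.lf (nat_lit 0) (nat_lit 14979747920) (nat_lit 380) (nat_lit 1911170140) (nat_lit 76) (nat_lit 6527614196) (nat_lit 46) (nat_lit 5) (nat_lit 51) (nat_lit 5) (nat_lit 47) (nat_lit 5) (nat_lit 283) (nat_lit 266) (nat_lit 171)) (XT.lf (nat_lit 0) (nat_lit 8118102590) (nat_lit 304) (nat_lit 9414106307) (nat_lit 380) (nat_lit 6599352391) (nat_lit 42) (nat_lit 5) (nat_lit 46) (nat_lit 5) (nat_lit 47) (nat_lit 5) (nat_lit 284) (nat_lit 266) (nat_lit 170)))) (XT.nd (nat_lit 156) (nat_lit 380) (nat_lit 0) (XT.nd (nat_lit 78) (nat_lit 228) (nat_lit 0) (XT.lf (nat_lit 0) (nat_lit 18706830015) (nat_lit 304) (nat_lit 1529804579) (nat_lit 380) (nat_lit 4642427402) (nat_lit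 42) (nat_lit 5) (nat_lit 46) (nat_lit 5) (nat_lit 47) (nat_lit 5) (nat_lit 285) (nat_lit 266) (nat_lit 169)) (XT.lf (nat_lit 0) (nat_lit 4181137245) (nat_lit 228) (nat_lit 19058142140) (nat_lit 304) (nat_lit 2416543994) (nat_lit 39) (nat_lit 5) (nat_lit 42) (nat_lit 5) (nat_lit 43) (nat_lit 5) (nat_lit 286) (nat_lit 266) (nat_lit 168))) (XT.nd (nat_lit 78) (nat_lit 304) (nat_lit 0) (XT.lf (nat_lit 0) (nat_lit 46929399) (nat_lit 304) (nat_lit 11233811035) (nat_lit 76) (nat_lit 15184588800) (nat_lit 38) (nat_lit 5) (nat_lit 42) (nat_lit 5) (nat_lit 39) (nat_lit 5) (nat_lit 287) (nat_lit 266) (nat_lit 167)) (XT.nd (nat_lit 78) (nat_lit 304) (nat_lit 0) (XT.lf (nat_lit 0) (nat_lit 2545158539) (nat_lit 304) (nat_lit 528624178) (nat_lit 76) (nat_lit 24239937893) (nat_lit 38) (nat_lit 5) (nat_lit 42) (nat_lit 5) (nat_lit 39) (nat_lit 5) (nat_lit 288) (nat_lit 266) (nat_lit 166)) (XT.lf (nat_lit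 0) (nat_lit 5423449401) (nat_lit 380) (nat_lit 17227620649) (nat_lit 76) (nat_lit 5540733223) (nat_lit 34) (nat_lit 5) (nat_lit 39) (nat_lit 5) (nat_lit 35) (nat_lit 5) (nat_lit 289) (nat_lit 266) (nat_lit 165))))))) (XT.nd (nat_lit 624) (nat_lit 608) (nat_lit 0) (XT.nd (nat_lit 312) (nat_lit 456) (nat_lit 0) (XT.nd (nat_lit 156) (nat_lit 0) (nat_lit 0) (XT.nd (nat_lit 78) (nat_lit 228) (nat_lit 0) (XT.lf (nat_lit 0) (nat_lit 8498474143) (nat_lit 380) (nat_lit 6121847774) (nat_lit 76) (nat_lit 14490855025) (nat_lit 34) (nat_lit 5) (nat_lit 39) (nat_lit 5) (nat_lit 35) (nat_lit 5) (nat_lit 290) (nat_lit 266) (nat_lit 164)) (XT.lf (nat_lit 0) (nat_lit 5714542316) (nat_lit 228) (nat_lit 6095575623) (nat_lit 304) (nat_lit 18262284477) (nat_lit 31) (nat_lit 5) (nat_lit 34) (nat_lit 5) (nat_lit 35) (nat_lit 5) (nat_lit 291) (nat_lit 266) (nat_lit 163))) (XT.nd (nat_lit 78) (nat_lit 0) (nat_lit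 0) (XT.lf (nat_lit 0) (nat_lit 15431114827) (nat_lit 304) (nat_lit 12775261068) (nat_lit 76) (nat_lit 2868149975) (nat_lit 31) (nat_lit 5) (nat_lit 35) (nat_lit 5) (nat_lit 32) (nat_lit 5) (nat_lit 292) (nat_lit 266) (nat_lit 162)) (XT.lf (nat_lit 0) (nat_lit 19327197515) (nat_lit 304) (nat_lit 720853681) (nat_lit 76) (nat_lit 12074026552) (nat_lit 31) (nat_lit 5) (nat_lit 35) (nat_lit 5) (nat_lit 32) (nat_lit 5) (nat_lit 293) (nat_lit 266) (nat_lit 161)))) (XT.nd (nat_lit 156) (nat_lit 228) (nat_lit 0) (XT.nd (nat_lit 78) (nat_lit 0) (nat_lit 0) (XT.lf (nat_lit 0) (nat_lit 12323666334) (nat_lit 228) (nat_lit 11281214006) (nat_lit 304) (nat_lit 9607809981) (nat_lit 28) (nat_lit 5) (nat_lit 31) (nat_lit 5) (nat_lit 32) (nat_lit 5) (nat_lit 294) (nat_lit 266) (nat_lit 160)) (XT.lf (nat_lit 0) (nat_lit 26038510318) (nat_lit 228) (nat_lit 2064693047) (nat_lit 304) (nat_lit 6254314169)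 (nat_lit 28) (nat_lit 5) (nat_lit 31) (nat_lit 5) (nat_lit 32) (nat_lit 5) (nat_lit 295) (nat_lit 266) (nat_lit 159))) (XT.nd (nat_lit 78) (nat_lit 76) (nat_lit 0) (XT.lf (nat_lit 0) (nat_lit 4910980624) (nat_lit 152) (nat_lit 28105776664) (nat_lit 228) (nat_lit 2533333856) (nat_lit 26) (nat_lit 5) (nat_lit 28) (nat_lit 5) (nat_lit 29) (nat_lit 5) (nat_lit 296) (nat_lit 266) (nat_lit 158)) (XT.lf (nat_lit 0) (nat_lit 1501598487) (nat_lit 228) (nat_lit 17768504650) (nat_lit 76) (nat_lit 17522543285) (nat_lit 25) (nat_lit 5) (nat_lit 28) (nat_lit 5) (nat_lit 26) (nat_lit 5) (nat_lit 297) (nat_lit 266) (nat_lit 157))))) (XT.nd (nat_lit 312) (nat_lit 380) (nat_lit 0) (XT.nd (nat_lit 156) (nat_lit 0) (nat_lit 0) (XT.nd (nat_lit 78) (nat_lit 228) (nat_lit 0) (XT.lf (nat_lit 0) (nat_lit 5648213576) (nat_lit 228) (nat_lit 4302504517) (nat_lit 76) (nat_lit 28144799176) (nat_lit 25) (nat_lit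 5) (nat_lit 28) (nat_lit 5) (nat_lit 26) (nat_lit 5) (nat_lit 298) (nat_lit 266) (nat_lit 156)) (XT.lf (nat_lit 0) (nat_lit 10155545092) (nat_lit 228) (nat_lit 478235) (nat_lit 304) (nat_lit 29299832226) (nat_lit 22) (nat_lit 5) (nat_lit 25) (nat_lit 5) (nat_lit 26) (nat_lit 5) (nat_lit 299) (nat_lit 266) (nat_lit 155))) (XT.nd (nat_lit 78) (nat_lit 0) (nat_lit 0) (XT.lf (nat_lit 0) (nat_lit 15121803137) (nat_lit 304) (nat_lit 15565411937) (nat_lit 76) (nat_lit 10185382975) (nat_lit 22) (nat_lit 5) (nat_lit 26) (nat_lit 5) (nat_lit 23) (nat_lit 5) (nat_lit 300) (nat_lit 266) (nat_lit 154)) (XT.lf (nat_lit 0) (nat_lit 20331507250) (nat_lit 304) (nat_lit 1149880262) (nat_lit 76) (nat_lit 20879023895) (nat_lit 22) (nat_lit 5) (nat_lit 26) (nat_lit 5) (nat_lit 23) (nat_lit 5) (nat_lit 301) (nat_lit 266) (nat_lit 153)))) (XT.nd (nat_lit 156) (nat_lit 228) (nat_lit 0) (XT.nd (nat_lit 78)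 (nat_lit 0) (nat_lit 0) (XT.lf (nat_lit 0) (nat_lit 14442876986) (nat_lit 152) (nat_lit 11580149058) (nat_lit 228) (nat_lit 17888537679) (nat_lit 20) (nat_lit 5) (nat_lit 22) (nat_lit 5) (nat_lit 23) (nat_lit 5) (nat_lit 302) (nat_lit 266) (nat_lit 152)) (XT.lf (nat_lit 0) (nat_lit 30849473835) (nat_lit 152) (nat_lit 1165065412) (nat_lit 228) (nat_lit 13524977544) (nat_lit 20) (nat_lit 5) (nat_lit 22) (nat_lit 5) (nat_lit 23) (nat_lit 5) (nat_lit 303) (nat_lit 266) (nat_lit 151))) (XT.nd (nat_lit 78) (nat_lit 76) (nat_lit 0) (XT.lf (nat_lit 0) (nat_lit 691486863) (nat_lit 152) (nat_lit 37773599492) (nat_lit 228) (nat_lit 8775821636) (nat_lit 18) (nat_lit 5) (nat_lit 20) (nat_lit 5) (nat_lit 21) (nat_lit 5) (nat_lit 304) (nat_lit 266) (nat_lit 150)) (XT.nd (nat_lit 78) (nat_lit 76) (nat_lit 0) (XT.lf (nat_lit 0) (nat_lit 17326829232) (nat_lit 152) (nat_lit 28175117633) (nat_lit 228)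 (nat_lit 3512245338) (nat_lit 18) (nat_lit 5) (nat_lit 20) (nat_lit 5) (nat_lit 21) (nat_lit 5) (nat_lit 305) (nat_lit 266) (nat_lit 149)) (XT.lf (nat_lit 0) (nat_lit 1946354055) (nat_lit 228) (nat_lit 16119061655) (nat_lit 76) (nat_lit 32809347817) (nat_lit 17) (nat_lit 5) (nat_lit 20) (nat_lit 5) (nat_lit 18) (nat_lit 5) (nat_lit 306) (nat_lit 266) (nat_lit 148))))))))
noncomputable def xc191 : XT := (XT.nd (nat_lit 1326) (nat_lit 304) (nat_lit 0) (XT.nd (nat_lit 624) (nat_lit 304) (nat_lit 0) (XT.nd (nat_lit 312) (nat_lit 228) (nat_lit 0) (XT.nd (nat_lit 156) (nat_lit 0) (nat_lit 0) (XT.nd (nat_lit 78) (nat_lit 0) (nat_lit 0) (XT.lf (nat_lit 0) (nat_lit 170380061) (nat_lit 152) (nat_lit 7388625352) (nat_lit 228) (nat_lit 45266532308) (nat_lit 15) (nat_lit 5) (nat_lit 17) (nat_lit 5) (nat_lit 18) (nat_lit 5) (nat_lit 307) (nat_lit 266) (nat_lit 147)) (XT.lf (nat_lit 0) (nat_lit 13785979108)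 (nat_lit 228) (nat_lit 37095660025) (nat_lit 76) (nat_lit 3975537495) (nat_lit 15) (nat_lit 5) (nat_lit 18) (nat_lit 5) (nat_lit 16) (nat_lit 5) (nat_lit 308) (nat_lit 266) (nat_lit 146))) (XT.nd (nat_lit 78) (nat_lit 0) (nat_lit 0) (XT.lf (nat_lit 0) (nat_lit 20442148692) (nat_lit 228) (nat_lit 20884286365) (nat_lit 76) (nat_lit 15658080057) (nat_lit 15) (nat_lit 5) (nat_lit 18) (nat_lit 5) (nat_lit 16) (nat_lit 5) (nat_lit 309) (nat_lit 266) (nat_lit 145)) (XT.lf (nat_lit 0) (nat_lit 27428005039) (nat_lit 228) (nat_lit 3867081021) (nat_lit 76) (nat_lit 27923300065) (nat_lit 15) (nat_lit 5) (nat_lit 18) (nat_lit 5) (nat_lit 16) (nat_lit 5) (nat_lit 310) (nat_lit 266) (nat_lit 144)))) (XT.nd (nat_lit 156) (nat_lit 76) (nat_lit 0) (XT.nd (nat_lit 78) (nat_lit 0) (nat_lit 0) (XT.lf (nat_lit 0) (nat_lit 14459259773) (nat_lit 152) (nat_lit 20526670935) (nat_lit 228) (nat_lit 26566890218)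 (nat_lit 13) (nat_lit 5) (nat_lit 15) (nat_lit 5) (nat_lit 16) (nat_lit 5) (nat_lit 311) (nat_lit 266) (nat_lit 143)) (XT.lf (nat_lit 0) (nat_lit 33831735265) (nat_lit 152) (nat_lit 9152607496) (nat_lit 228) (nat_lit 21016513833) (nat_lit 13) (nat_lit 5) (nat_lit 15) (nat_lit 5) (nat_lit 16) (nat_lit 5) (nat_lit 312) (nat_lit 266) (nat_lit 142))) (XT.nd (nat_lit 78) (nat_lit 76) (nat_lit 0) (XT.lf (nat_lit 0) (nat_lit 51423452098) (nat_lit 228) (nat_lit 12446372501) (nat_lit 76) (nat_lit 2699438832) (nat_lit 13) (nat_lit 5) (nat_lit 16) (nat_lit 5) (nat_lit 14) (nat_lit 4) (nat_lit 313) (nat_lit 266) (nat_lit 141)) (XT.lf (nat_lit 0) (nat_lit 6206989855) (nat_lit 76) (nat_lit 54321825421) (nat_lit 152) (nat_lit 8725068247) (nat_lit 12) (nat_lit 5) (nat_lit 13) (nat_lit 5) (nat_lit 14) (nat_lit 4) (nat_lit 314) (nat_lit 266) (nat_lit 140))))) (XT.nd (nat_lit 312) (nat_lit 76) (nat_lit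 0) (XT.nd (nat_lit 156) (nat_lit 152) (nat_lit 0) (XT.nd (nat_lit 78) (nat_lit 76) (nat_lit 0) (XT.lf (nat_lit 0) (nat_lit 26221053506) (nat_lit 76) (nat_lit 44076588246) (nat_lit 152) (nat_lit 1764690565) (nat_lit 12) (nat_lit 5) (nat_lit 13) (nat_lit 5) (nat_lit 14) (nat_lit 4) (nat_lit 315) (nat_lit 266) (nat_lit 139)) (XT.lf (nat_lit 0) (nat_lit 5363758614) (nat_lit 152) (nat_lit 27865908533) (nat_lit 76) (nat_lit 41777341237) (nat_lit 11) (nat_lit 5) (nat_lit 13) (nat_lit 5) (nat_lit 12) (nat_lit 5) (nat_lit 316) (nat_lit 266) (nat_lit 138))) (XT.nd (nat_lit 78) (nat_lit 152) (nat_lit 0) (XT.lf (nat_lit 0) (nat_lit 12786930628) (nat_lit 152) (nat_lit 9024482460) (nat_lit 76) (nat_lit 56286184863) (nat_lit 11) (nat_lit 5) (nat_lit 13) (nat_lit 5) (nat_lit 12) (nat_lit 5) (nat_lit 317) (nat_lit 266) (nat_lit 137)) (XT.lf (nat_lit 0) (nat_lit 11111034195) (nat_lit 152) (nat_lit 9641421002)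 (nat_lit 228) (nat_lit 60581708237) (nat_lit 9) (nat_lit 5) (nat_lit 11) (nat_lit 5) (nat_lit 12) (nat_lit 5) (nat_lit 318) (nat_lit 266) (nat_lit 136)))) (XT.nd (nat_lit 156) (nat_lit 76) (nat_lit 0) (XT.nd (nat_lit 78) (nat_lit 0) (nat_lit 0) (XT.lf (nat_lit 0) (nat_lit 29318326151) (nat_lit 228) (nat_lit 52213404809) (nat_lit 76) (nat_lit 3190728565) (nat_lit 9) (nat_lit 5) (nat_lit 12) (nat_lit 5) (nat_lit 10) (nat_lit 4) (nat_lit 319) (nat_lit 266) (nat_lit 135)) (XT.lf (nat_lit 0) (nat_lit 38468406008) (nat_lit 228) (nat_lit 33464718539) (nat_lit 76) (nat_lit 16339255669) (nat_lit 9) (nat_lit 5) (nat_lit 12) (nat_lit 5) (nat_lit 10) (nat_lit 4) (nat_lit 320) (nat_lit 266) (nat_lit 134))) (XT.nd (nat_lit 78) (nat_lit 76) (nat_lit 0) (XT.lf (nat_lit 0) (nat_lit 48073951073) (nat_lit 228) (nat_lit 13781901098) (nat_lit 76) (nat_lit 30144052010) (nat_lit 9) (nat_lit 5) (nat_lit 12)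 (nat_lit 5) (nat_lit 10) (nat_lit 4) (nat_lit 321) (nat_lit 266) (nat_lit 133)) (XT.nd (nat_lit 78) (nat_lit 0) (nat_lit 0) (XT.lf (nat_lit 0) (nat_lit 7109458434) (nat_lit 76) (nat_lit 51159371826) (nat_lit 152) (nat_lit 37639526288) (nat_lit 8) (nat_lit 5) (nat_lit 9) (nat_lit 5) (nat_lit 10) (nat_lit 4) (nat_lit 322) (nat_lit 266) (nat_lit 132)) (XT.lf (nat_lit 0) (nat_lit 29520767318) (nat_lit 76) (nat_lit 39684191689) (nat_lit 152) (nat_lit 30795702052) (nat_lit 8) (nat_lit 5) (nat_lit 9) (nat_lit 5) (nat_lit 10) (nat_lit 4) (nat_lit 323) (nat_lit 266) (nat_lit 131))))))) (XT.nd (nat_lit 624) (nat_lit 152) (nat_lit 0) (XT.nd (nat_lit 312) (nat_lit 0) (nat_lit 0) (XT.nd (nat_lit 156) (nat_lit 152) (nat_lit 0) (XT.nd (nat_lit 78) (nat_lit 0) (nat_lit 0) (XT.lf (nat_lit 0) (nat_lit 53049693923) (nat_lit 76) (nat_lit 27636393067) (nat_lit 152) (nat_lit 23611588744) (nat_lit 8) (nat_lit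 5) (nat_lit 9) (nat_lit 5) (nat_lit 10) (nat_lit 4) (nat_lit 324) (nat_lit 266) (nat_lit 130)) (XT.lf (nat_lit 0) (nat_lit 77752259501) (nat_lit 76) (nat_lit 14987290726) (nat_lit 152) (nat_lit 16070081332) (nat_lit 8) (nat_lit 5) (nat_lit 9) (nat_lit 5) (nat_lit 10) (nat_lit 4) (nat_lit 325) (nat_lit 266) (nat_lit 129))) (XT.nd (nat_lit 78) (nat_lit 152) (nat_lit 0) (XT.lf (nat_lit 0) (nat_lit 103687279685) (nat_lit 76) (nat_lit 1706767755) (nat_lit 152) (nat_lit 8153223847) (nat_lit 8) (nat_lit 5) (nat_lit 9) (nat_lit 5) (nat_lit 10) (nat_lit 4) (nat_lit 326) (nat_lit 266) (nat_lit 128)) (XT.lf (nat_lit 0) (nat_lit 547023046) (nat_lit 152) (nat_lit 105904219579) (nat_lit 76) (nat_lit 12050797111) (nat_lit 6) (nat_lit 5) (nat_lit 8) (nat_lit 5) (nat_lit 7) (nat_lit 4) (nat_lit 327) (nat_lit 266) (nat_lit 127)))) (XT.nd (nat_lit 156) (nat_lit 0) (nat_lit 0) (XT.nd (nat_lit 78) (nat_lit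 0) (nat_lit 0) (XT.lf (nat_lit 0) (nat_lit 9604410972) (nat_lit 152) (nat_lit 87342361268) (nat_lit 76) (nat_lit 26741288459) (nat_lit 6) (nat_lit 5) (nat_lit 8) (nat_lit 5) (nat_lit 7) (nat_lit 4) (nat_lit 328) (nat_lit 266) (nat_lit 126)) (XT.lf (nat_lit 0) (nat_lit 19113172584) (nat_lit 152) (nat_lit 67854911331) (nat_lit 76) (nat_lit 42165376997) (nat_lit 6) (nat_lit 5) (nat_lit 8) (nat_lit 5) (nat_lit 7) (nat_lit 4) (nat_lit 329) (nat_lit 266) (nat_lit 125))) (XT.nd (nat_lit 78) (nat_lit 0) (nat_lit 0) (XT.lf (nat_lit 0) (nat_lit 29095947792) (nat_lit 152) (nat_lit 47395471076) (nat_lit 76) (nat_lit 58359786744) (nat_lit 6) (nat_lit 5) (nat_lit 8) (nat_lit 5) (nat_lit 7) (nat_lit 4) (nat_lit 330) (nat_lit 266) (nat_lit 124)) (XT.lf (nat_lit 0) (nat_lit 39576505108) (nat_lit 152) (nat_lit 25915327552) (nat_lit 76) (nat_lit 75363075820) (nat_lit 6) (nat_lit 5) (nat_lit 8) (nat_lit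 5) (nat_lit 7) (nat_lit 4) (nat_lit 331) (nat_lit 266) (nat_lit 123))))) (XT.nd (nat_lit 312) (nat_lit 76) (nat_lit 0) (XT.nd (nat_lit 156) (nat_lit 0) (nat_lit 0) (XT.nd (nat_lit 78) (nat_lit 76) (nat_lit 0) (XT.lf (nat_lit 0) (nat_lit 50579798240) (nat_lit 152) (nat_lit 3363337558) (nat_lit 76) (nat_lit 93215728245) (nat_lit 6) (nat_lit 5) (nat_lit 8) (nat_lit 5) (nat_lit 7) (nat_lit 4) (nat_lit 332) (nat_lit 266) (nat_lit 122)) (XT.lf (nat_lit 0) (nat_lit 20985873117) (nat_lit 76) (nat_lit 41473800680) (nat_lit 152) (nat_lit 91302025511) (nat_lit 5) (nat_lit 5) (nat_lit 6) (nat_lit 5) (nat_lit 7) (nat_lit 4) (nat_lit 333) (nat_lit 266) (nat_lit 121))) (XT.nd (nat_lit 78) (nat_lit 0) (nat_lit 0) (XT.lf (nat_lit 0) (nat_lit 46667287186) (nat_lit 76) (nat_lit 28322012158) (nat_lit 152) (nat_lit 85702591857) (nat_lit 5) (nat_lit 5) (nat_lit 6) (nat_lit 5) (nat_lit 7) (nat_lit 4) (nat_lit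 334) (nat_lit 266) (nat_lit 120)) (XT.lf (nat_lit 0) (nat_lit 73630843743) (nat_lit 76) (nat_lit 14513416198) (nat_lit 152) (nat_lit 79824392608) (nat_lit 5) (nat_lit 5) (nat_lit 6) (nat_lit 5) (nat_lit 7) (nat_lit 4) (nat_lit 335) (nat_lit 266) (nat_lit 119)))) (XT.nd (nat_lit 156) (nat_lit 76) (nat_lit 0) (XT.nd (nat_lit 78) (nat_lit 0) (nat_lit 0) (XT.lf (nat_lit 0) (nat_lit 101940741733) (nat_lit 76) (nat_lit 15135192) (nat_lit 152) (nat_lit 73653432049) (nat_lit 5) (nat_lit 5) (nat_lit 6) (nat_lit 5) (nat_lit 7) (nat_lit 4) (nat_lit 336) (nat_lit 266) (nat_lit 118)) (XT.lf (nat_lit 0) (nat_lit 116694464458) (nat_lit 152) (nat_lit 52205096203) (nat_lit 0) (nat_lit 14720620387) (nat_lit 5) (nat_lit 5) (nat_lit 7) (nat_lit 4) (nat_lit 5) (nat_lit 4) (nat_lit 337) (nat_lit 266) (nat_lit 117))) (XT.nd (nat_lit 78) (nat_lit 76) (nat_lit 0) (XT.lf (nat_lit 0) (nat_lit 132169228786) (nat_lit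 152) (nat_lit 29670406558) (nat_lit 0) (nat_lit 30192001212) (nat_lit 5) (nat_lit 5) (nat_lit 7) (nat_lit 4) (nat_lit 5) (nat_lit 4) (nat_lit 338) (nat_lit 266) (nat_lit 116)) (XT.nd (nat_lit 78) (nat_lit 76) (nat_lit 0) (XT.lf (nat_lit 0) (nat_lit 148416778283) (nat_lit 152) (nat_lit 6010607981) (nat_lit 0) (nat_lit 46436328326) (nat_lit 5) (nat_lit 5) (nat_lit 7) (nat_lit 4) (nat_lit 5) (nat_lit 4) (nat_lit 339) (nat_lit 266) (nat_lit 115)) (XT.lf (nat_lit 0) (nat_lit 19453258129) (nat_lit 76) (nat_lit 146326259337) (nat_lit 76) (nat_lit 44342740445) (nat_lit 4) (nat_lit 4) (nat_lit 5) (nat_lit 5) (nat_lit 5) (nat_lit 4) (nat_lit 340) (nat_lit 266) (nat_lit 114))))))))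
noncomputable def xc192 : XT := (XT.nd (nat_lit 32214) (nat_lit 0) (nat_lit 2736) (XT.nd (nat_lit 624) (nat_lit 76) (nat_lit 0) (XT.nd (nat_lit 312) (nat_lit 76) (nat_lit 0) (XT.nd (nat_lit 156) (nat_lit 0) (nat_lit 0) (XT.nd (nat_lit 78) (nat_lit 0) (nat_lit 0) (XT.lf (nat_lit 0) (nat_lit 46397469109) (nat_lit 76) (nat_lit 137713828832) (nat_lit 76) (nat_lit 35727387143) (nat_lit 4) (nat_lit 4) (nat_lit 5) (nat_lit 5) (nat_lit 5) (nat_lit 4) (nat_lit 341) (nat_lit 266) (nat_lit 113)) (XT.lf (nat_lit 0) (nat_lit 74687439997) (nat_lit 76) (nat_lit 128671381516) (nat_lit 76) (nat_lit 26682156211) (nat_lit 4) (nat_lit 4) (nat_lit 5) (nat_lit 5) (nat_lit 5) (nat_lit 4) (nat_lit 342) (nat_lit 266) (nat_lit 112))) (XT.nd (nat_lit 78) (nat_lit 0) (nat_lit 0) (XT.lf (nat_lit 0) (nat_lit 104390527867) (nat_lit 76) (nat_lit 119177387751) (nat_lit 76) (nat_lit 17185511385) (nat_lit 4) (nat_lit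 4) (nat_lit 5) (nat_lit 5) (nat_lit 5) (nat_lit 4) (nat_lit 343) (nat_lit 266) (nat_lit 111)) (XT.lf (nat_lit 0) (nat_lit 135577454356) (nat_lit 76) (nat_lit 109209242793) (nat_lit 76) (nat_lit 7214841605) (nat_lit 4) (nat_lit 4) (nat_lit 5) (nat_lit 5) (nat_lit 5) (nat_lit 4) (nat_lit 344) (nat_lit 266) (nat_lit 110)))) (XT.nd (nat_lit 156) (nat_lit 0) (nat_lit 0) (XT.nd (nat_lit 78) (nat_lit 0) (nat_lit 0) (XT.lf (nat_lit 0) (nat_lit 3149457529) (nat_lit 152) (nat_lit 95540417844) (nat_lit 76) (nat_lit 165119678935) (nat_lit 3) (nat_lit 5) (nat_lit 5) (nat_lit 5) (nat_lit 4) (nat_lit 4) (nat_lit 345) (nat_lit 266) (nat_lit 109)) (XT.lf (nat_lit 0) (nat_lit 13788796834) (nat_lit 152) (nat_lit 73732062357) (nat_lit 76) (nat_lit 188681234506) (nat_lit 3) (nat_lit 5) (nat_lit 5) (nat_lit 5) (nat_lit 4) (nat_lit 4) (nat_lit 346) (nat_lit 266) (nat_lit 108))) (XT.nd (nat_lit 78) (nat_lit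 0) (nat_lit 0) (XT.lf (nat_lit 0) (nat_lit 24959428058) (nat_lit 152) (nat_lit 50834449382) (nat_lit 76) (nat_lit 213420417717) (nat_lit 3) (nat_lit 5) (nat_lit 5) (nat_lit 5) (nat_lit 4) (nat_lit 4) (nat_lit 347) (nat_lit 266) (nat_lit 107)) (XT.lf (nat_lit 0) (nat_lit 36687947944) (nat_lit 152) (nat_lit 26793060793) (nat_lit 76) (nat_lit 239396131386) (nat_lit 3) (nat_lit 5) (nat_lit 5) (nat_lit 5) (nat_lit 4) (nat_lit 4) (nat_lit 348) (nat_lit 266) (nat_lit 106))))) (XT.nd (nat_lit 31278) (nat_lit 0) (nat_lit 4712) (XT.nd (nat_lit 31122) (nat_lit 0) (nat_lit 4712) (XT.nd (nat_lit 78) (nat_lit 76) (nat_lit 0) (XT.lf (nat_lit 0) (nat_lit 49002281538) (nat_lit 152) (nat_lit 1550655189) (nat_lit 76) (nat_lit 266670222451) (nat_lit 3) (nat_lit 5) (nat_lit 5) (nat_lit 5) (nat_lit 4) (nat_lit 4) (nat_lit 349) (nat_lit 266) (nat_lit 105)) (XT.lf (nat_lit 0) (nat_lit 25777922913) (nat_lit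 76) (nat_lit 36556291387) (nat_lit 152) (nat_lit 269932171929) (nat_lit 2) (nat_lit 5) (nat_lit 3) (nat_lit 5) (nat_lit 4) (nat_lit 4) (nat_lit 350) (nat_lit 266) (nat_lit 104))) (XT.nd (nat_lit 78) (nat_lit 0) (nat_lit 0) (XT.lf (nat_lit 0) (nat_lit 6170384704) (nat_lit 684) (nat_lit 810446251) (nat_lit 684) (nat_lit 810446251) (nat_lit 64) (nat_lit 3) (nat_lit 73) (nat_lit 3) (nat_lit 73) (nat_lit 5) (nat_lit 267) (nat_lit 267) (nat_lit 186)) (XT.lf (nat_lit 76) (nat_lit 4754972780) (nat_lit 0) (nat_lit 8204711156) (nat_lit 684) (nat_lit 2995642380) (nat_lit 65) (nat_lit 5) (nat_lit 64) (nat_lit 3) (nat_lit 73) (nat_lit 5) (nat_lit 268) (nat_lit 267) (nat_lit 185)))) (XT.nd (nat_lit 156) (nat_lit 0) (nat_lit 76) (XT.nd (nat_lit 78) (nat_lit 0) (nat_lit 76) (XT.lf (nat_lit 76) (nat_lit 11497664157) (nat_lit 0) (nat_lit 2124084980) (nat_lit 684) (nat_lit 2724458865) (nat_lit 65) (nat_lit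 5) (nat_lit 64) (nat_lit 3) (nat_lit 73) (nat_lit 5) (nat_lit 269) (nat_lit 267) (nat_lit 184)) (XT.lf (nat_lit 76) (nat_lit 1803297462) (nat_lit 0) (nat_lit 12593878628) (nat_lit 684) (nat_lit 2355522316) (nat_lit 66) (nat_lit 5) (nat_lit 65) (nat_lit 5) (nat_lit 74) (nat_lit 5) (nat_lit 270) (nat_lit 267) (nat_lit 183))) (XT.nd (nat_lit 78) (nat_lit 0) (nat_lit 76) (XT.lf (nat_lit 76) (nat_lit 8911473980) (nat_lit 0) (nat_lit 6402408721) (nat_lit 684) (nat_lit 1860579079) (nat_lit 66) (nat_lit 5) (nat_lit 65) (nat_lit 5) (nat_lit 74) (nat_lit 5) (nat_lit 271) (nat_lit 267) (nat_lit 182)) (XT.lf (nat_lit 0) (nat_lit 16264839258) (nat_lit 608) (nat_lit 1252807230) (nat_lit 684) (nat_lit 100316452) (nat_lit 66) (nat_lit 5) (nat_lit 74) (nat_lit 5) (nat_lit 75) (nat_lit 5) (nat_lit 272) (nat_lit 267) (nat_lit 181)))))) (XT.nd (nat_lit 624) (nat_lit 912) (nat_lit 0) (XT.nd (nat_lit 312)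 (nat_lit 532) (nat_lit 0) (XT.nd (nat_lit 156) (nat_lit 0) (nat_lit 76) (XT.nd (nat_lit 78) (nat_lit 684) (nat_lit 0) (XT.lf (nat_lit 76) (nat_lit 6192540760) (nat_lit 0) (nat_lit 11259942985) (nat_lit 684) (nat_lit 621765406) (nat_lit 67) (nat_lit 5) (nat_lit 66) (nat_lit 5) (nat_lit 75) (nat_lit 5) (nat_lit 273) (nat_lit 267) (nat_lit 180)) (XT.lf (nat_lit 0) (nat_lit 150751411) (nat_lit 684) (nat_lit 4510180779) (nat_lit 760) (nat_lit 13891900718) (nat_lit 57) (nat_lit 5) (nat_lit 66) (nat_lit 5) (nat_lit 67) (nat_lit 5) (nat_lit 274) (nat_lit 267) (nat_lit 179))) (XT.nd (nat_lit 78) (nat_lit 0) (nat_lit 0) (XT.lf (nat_lit 0) (nat_lit 1017559170) (nat_lit 684) (nat_lit 15771946698) (nat_lit 760) (nat_lit 2261560191) (nat_lit 58) (nat_lit 5) (nat_lit 67) (nat_lit 5) (nat_lit 68) (nat_lit 5) (nat_lit 275) (nat_lit 267) (nat_lit 178)) (XT.lf (nat_lit 0) (nat_lit 2070512818) (nat_lit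 684) (nat_lit 8042601511) (nat_lit 760) (nat_lit 9454011383) (nat_lit 58) (nat_lit 5) (nat_lit 67) (nat_lit 5) (nat_lit 68) (nat_lit 5) (nat_lit 276) (nat_lit 267) (nat_lit 177)))) (XT.nd (nat_lit 156) (nat_lit 608) (nat_lit 0) (XT.nd (nat_lit 78) (nat_lit 0) (nat_lit 76) (XT.lf (nat_lit 76) (nat_lit 66760390) (nat_lit 0) (nat_lit 3099693710) (nat_lit 760) (nat_lit 16943069744) (nat_lit 59) (nat_lit 5) (nat_lit 58) (nat_lit 5) (nat_lit 68) (nat_lit 5) (nat_lit 277) (nat_lit 267) (nat_lit 176)) (XT.lf (nat_lit 0) (nat_lit 4511914524) (nat_lit 684) (nat_lit 11889276647) (nat_lit 76) (nat_lit 4268164604) (nat_lit 59) (nat_lit 5) (nat_lit 68) (nat_lit 5) (nat_lit 60) (nat_lit 5) (nat_lit 278) (nat_lit 267) (nat_lit 175))) (XT.nd (nat_lit 78) (nat_lit 684) (nat_lit 0) (XT.lf (nat_lit 0) (nat_lit 5965657523) (nat_lit 684) (nat_lit 3387543772) (nat_lit 76) (nat_lit 11901975143) (nat_lit 59)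 (nat_lit 5) (nat_lit 68) (nat_lit 5) (nat_lit 60) (nat_lit 5) (nat_lit 279) (nat_lit 267) (nat_lit 174)) (XT.lf (nat_lit 0) (nat_lit 5713954525) (nat_lit 684) (nat_lit 1858005805) (nat_lit 760) (nat_lit 14294379518) (nat_lit 50) (nat_lit 5) (nat_lit 59) (nat_lit 5) (nat_lit 60) (nat_lit 5) (nat_lit 280) (nat_lit 267) (nat_lit 173))))) (XT.nd (nat_lit 312) (nat_lit 608) (nat_lit 0) (XT.nd (nat_lit 156) (nat_lit 0) (nat_lit 0) (XT.nd (nat_lit 78) (nat_lit 304) (nat_lit 0) (XT.lf (nat_lit 0) (nat_lit 9401747121) (nat_lit 760) (nat_lit 7220441309) (nat_lit 76) (nat_lit 5878757744) (nat_lit 50) (nat_lit 5) (nat_lit 60) (nat_lit 5) (nat_lit 51) (nat_lit 5) (nat_lit 281) (nat_lit 267) (nat_lit 172)) (XT.lf (nat_lit 0) (nat_lit 2189548489) (nat_lit 304) (nat_lit 9189542942) (nat_lit 380) (nat_lit 11785429109) (nat_lit 46) (nat_lit 5) (nat_lit 50) (nat_lit 5) (nat_lit 51) (nat_lit 5) (nat_lit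 282) (nat_lit 267) (nat_lit 171))) (XT.nd (nat_lit 78) (nat_lit 0) (nat_lit 0) (XT.lf (nat_lit 0) (nat_lit 12312675465) (nat_lit 304) (nat_lit 1256616092) (nat_lit 380) (nat_lit 10286321807) (nat_lit 46) (nat_lit 5) (nat_lit 50) (nat_lit 5) (nat_lit 51) (nat_lit 5) (nat_lit 283) (nat_lit 267) (nat_lit 170)) (XT.lf (nat_lit 0) (nat_lit 15971535981) (nat_lit 380) (nat_lit 1757823591) (nat_lit 76) (nat_lit 6846811850) (nat_lit 46) (nat_lit 5) (nat_lit 51) (nat_lit 5) (nat_lit 47) (nat_lit 5) (nat_lit 284) (nat_lit 267) (nat_lit 169)))) (XT.nd (nat_lit 156) (nat_lit 304) (nat_lit 0) (XT.nd (nat_lit 78) (nat_lit 0) (nat_lit 0) (XT.lf (nat_lit 0) (nat_lit 8768898178) (nat_lit 304) (nat_lit 9874983318) (nat_lit 380) (nat_lit 6681411973) (nat_lit 42) (nat_lit 5) (nat_lit 46) (nat_lit 5) (nat_lit 47) (nat_lit 5) (nat_lit 285) (nat_lit 267) (nat_lit 168)) (XT.lf (nat_lit 0) (nat_lit 19875400524)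 (nat_lit 304) (nat_lit 1596934518) (nat_lit 380) (nat_lit 4638445879) (nat_lit 42) (nat_lit 5) (nat_lit 46) (nat_lit 5) (nat_lit 47) (nat_lit 5) (nat_lit 286) (nat_lit 267) (nat_lit 167))) (XT.nd (nat_lit 78) (nat_lit 76) (nat_lit 0) (XT.lf (nat_lit 0) (nat_lit 4631554423) (nat_lit 228) (nat_lit 19986804726) (nat_lit 304) (nat_lit 2308408428) (nat_lit 39) (nat_lit 5) (nat_lit 42) (nat_lit 5) (nat_lit 43) (nat_lit 5) (nat_lit 287) (nat_lit 267) (nat_lit 166)) (XT.nd (nat_lit 78) (nat_lit 0) (nat_lit 0) (XT.lf (nat_lit 0) (nat_lit 260356370) (nat_lit 304) (nat_lit 11557756315) (nat_lit 76) (nat_lit 15959029955) (nat_lit 38) (nat_lit 5) (nat_lit 42) (nat_lit 5) (nat_lit 39) (nat_lit 5) (nat_lit 288) (nat_lit 267) (nat_lit 165)) (XT.lf (nat_lit 0) (nat_lit 2873445515) (nat_lit 304) (nat_lit 328631318) (nat_lit 76) (nat_lit 25466422136) (nat_lit 38) (nat_lit 5) (nat_lit 42) (nat_lit 5)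 (nat_lit 39) (nat_lit 5) (nat_lit 289) (nat_lit 267) (nat_lit 164))))))))
noncomputable def xc193 : XT := (XT.nd (nat_lit 1326) (nat_lit 760) (nat_lit 0) (XT.nd (nat_lit 624) (nat_lit 608) (nat_lit 0) (XT.nd (nat_lit 312) (nat_lit 380) (nat_lit 0) (XT.nd (nat_lit 156) (nat_lit 228) (nat_lit 0) (XT.nd (nat_lit 78) (nat_lit 0) (nat_lit 0) (XT.lf (nat_lit 0) (nat_lit 5889990830) (nat_lit 380) (nat_lit 17856102077) (nat_lit 76) (nat_lit 5844716637) (nat_lit 34) (nat_lit 5) (nat_lit 39) (nat_lit 5) (nat_lit 35) (nat_lit 5) (nat_lit 290) (nat_lit 267) (nat_lit 163)) (XT.lf (nat_lit 0) (nat_lit 9109463525) (nat_lit 380) (nat_lit 6206131016) (nat_lit 76) (nat_lit 15241061350) (nat_lit 34) (nat_lit 5) (nat_lit 39) (nat_lit 5) (nat_lit 35) (nat_lit 5) (nat_lit 291) (nat_lit 267) (nat_lit 162))) (XT.nd (nat_lit 78) (nat_lit 0) (nat_lit 0) (XT.lf (nat_lit 0) (nat_lit 6218501012) (nat_lit 228)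 (nat_lit 6362735435) (nat_lit 304) (nat_lit 18985015826) (nat_lit 31) (nat_lit 5) (nat_lit 34) (nat_lit 5) (nat_lit 35) (nat_lit 5) (nat_lit 292) (nat_lit 267) (nat_lit 161)) (XT.lf (nat_lit 0) (nat_lit 16375241948) (nat_lit 304) (nat_lit 13197438877) (nat_lit 76) (nat_lit 3046238357) (nat_lit 31) (nat_lit 5) (nat_lit 35) (nat_lit 5) (nat_lit 32) (nat_lit 5) (nat_lit 293) (nat_lit 267) (nat_lit 160)))) (XT.nd (nat_lit 156) (nat_lit 152) (nat_lit 0) (XT.nd (nat_lit 78) (nat_lit 228) (nat_lit 0) (XT.lf (nat_lit 0) (nat_lit 20457911086) (nat_lit 304) (nat_lit 550624703) (nat_lit 76) (nat_lit 12710757292) (nat_lit 31) (nat_lit 5) (nat_lit 35) (nat_lit 5) (nat_lit 32) (nat_lit 5) (nat_lit 294) (nat_lit 267) (nat_lit 159)) (XT.lf (nat_lit 0) (nat_lit 13142794351) (nat_lit 228) (nat_lit 11802025871) (nat_lit 304) (nat_lit 9919880900) (nat_lit 28) (nat_lit 5) (nat_lit 31) (nat_lit 5) (nat_lit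 32) (nat_lit 5) (nat_lit 295) (nat_lit 267) (nat_lit 158))) (XT.nd (nat_lit 78) (nat_lit 152) (nat_lit 0) (XT.lf (nat_lit 0) (nat_lit 27533716500) (nat_lit 228) (nat_lit 2126738332) (nat_lit 304) (nat_lit 6406725515) (nat_lit 28) (nat_lit 5) (nat_lit 31) (nat_lit 5) (nat_lit 32) (nat_lit 5) (nat_lit 296) (nat_lit 267) (nat_lit 157)) (XT.lf (nat_lit 0) (nat_lit 5354140777) (nat_lit 152) (nat_lit 29462000954) (nat_lit 228) (nat_lit 2503447119) (nat_lit 26) (nat_lit 5) (nat_lit 28) (nat_lit 5) (nat_lit 29) (nat_lit 5) (nat_lit 297) (nat_lit 267) (nat_lit 156))))) (XT.nd (nat_lit 312) (nat_lit 304) (nat_lit 0) (XT.nd (nat_lit 156) (nat_lit 228) (nat_lit 0) (XT.nd (nat_lit 78) (nat_lit 0) (nat_lit 0) (XT.lf (nat_lit 0) (nat_lit 1721004832) (nat_lit 228) (nat_lit 18463431088) (nat_lit 76) (nat_lit 18440100859) (nat_lit 25) (nat_lit 5) (nat_lit 28) (nat_lit 5) (nat_lit 26) (nat_lit 5) (nat_lit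 298) (nat_lit 267) (nat_lit 155)) (XT.lf (nat_lit 0) (nat_lit 6068077989) (nat_lit 228) (nat_lit 4333345176) (nat_lit 76) (nat_lit 29591496668) (nat_lit 25) (nat_lit 5) (nat_lit 28) (nat_lit 5) (nat_lit 26) (nat_lit 5) (nat_lit 299) (nat_lit 267) (nat_lit 154))) (XT.nd (nat_lit 78) (nat_lit 0) (nat_lit 0) (XT.lf (nat_lit 0) (nat_lit 10798298514) (nat_lit 304) (nat_lit 30577584929) (nat_lit 76) (nat_lit 45564412) (nat_lit 22) (nat_lit 5) (nat_lit 26) (nat_lit 5) (nat_lit 23) (nat_lit 5) (nat_lit 300) (nat_lit 267) (nat_lit 153)) (XT.lf (nat_lit 0) (nat_lit 16005971256) (nat_lit 304) (nat_lit 16164888996) (nat_lit 76) (nat_lit 10738509731) (nat_lit 22) (nat_lit 5) (nat_lit 26) (nat_lit 5) (nat_lit 23) (nat_lit 5) (nat_lit 301) (nat_lit 267) (nat_lit 152)))) (XT.nd (nat_lit 156) (nat_lit 152) (nat_lit 0) (XT.nd (nat_lit 78) (nat_lit 152) (nat_lit 0) (XT.lf (nat_lit 0) (nat_lit 21470061625)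 (nat_lit 304) (nat_lit 1037094715) (nat_lit 76) (nat_lit 21964744239) (nat_lit 22) (nat_lit 5) (nat_lit 26) (nat_lit 5) (nat_lit 23) (nat_lit 5) (nat_lit 302) (nat_lit 267) (nat_lit 151)) (XT.lf (nat_lit 0) (nat_lit 15332553951) (nat_lit 152) (nat_lit 12110409543) (nat_lit 228) (nat_lit 18657827251) (nat_lit 20) (nat_lit 5) (nat_lit 22) (nat_lit 5) (nat_lit 23) (nat_lit 5) (nat_lit 303) (nat_lit 267) (nat_lit 150))) (XT.nd (nat_lit 78) (nat_lit 152) (nat_lit 0) (XT.lf (nat_lit 0) (nat_lit 32551502875) (nat_lit 152) (nat_lit 1176893000) (nat_lit 228) (nat_lit 14082048029) (nat_lit 20) (nat_lit 5) (nat_lit 22) (nat_lit 5) (nat_lit 23) (nat_lit 5) (nat_lit 304) (nat_lit 267) (nat_lit 149)) (XT.nd (nat_lit 78) (nat_lit 0) (nat_lit 0) (XT.lf (nat_lit 0) (nat_lit 888281104) (nat_lit 152) (nat_lit 39611025134) (nat_lit 228) (nat_lit 9097725310) (nat_lit 18) (nat_lit 5) (nat_lit 20) (nat_lit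 5) (nat_lit 21) (nat_lit 5) (nat_lit 305) (nat_lit 267) (nat_lit 148)) (XT.lf (nat_lit 0) (nat_lit 18347665834) (nat_lit 152) (nat_lit 29535059864) (nat_lit 228) (nat_lit 3576536264) (nat_lit 18) (nat_lit 5) (nat_lit 20) (nat_lit 5) (nat_lit 21) (nat_lit 5) (nat_lit 306) (nat_lit 267) (nat_lit 147))))))) (XT.nd (nat_lit 624) (nat_lit 380) (nat_lit 0) (XT.nd (nat_lit 312) (nat_lit 152) (nat_lit 0) (XT.nd (nat_lit 156) (nat_lit 0) (nat_lit 0) (XT.nd (nat_lit 78) (nat_lit 152) (nat_lit 0) (XT.lf (nat_lit 0) (nat_lit 2146298771) (nat_lit 228) (nat_lit 16774160497) (nat_lit 76) (nat_lit 34492588386) (nat_lit 17) (nat_lit 5) (nat_lit 20) (nat_lit 5) (nat_lit 18) (nat_lit 5) (nat_lit 307) (nat_lit 267) (nat_lit 146)) (XT.lf (nat_lit 0) (nat_lit 327320173) (nat_lit 152) (nat_lit 7709692792) (nat_lit 228) (nat_lit 47424491445) (nat_lit 15) (nat_lit 5) (nat_lit 17) (nat_lit 5) (nat_lit 18) (nat_lit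 5) (nat_lit 308) (nat_lit 267) (nat_lit 145))) (XT.nd (nat_lit 78) (nat_lit 0) (nat_lit 0) (XT.lf (nat_lit 0) (nat_lit 14571289850) (nat_lit 228) (nat_lit 38804751398) (nat_lit 76) (nat_lit 4218900924) (nat_lit 15) (nat_lit 5) (nat_lit 18) (nat_lit 5) (nat_lit 16) (nat_lit 5) (nat_lit 309) (nat_lit 267) (nat_lit 144)) (XT.lf (nat_lit 0) (nat_lit 21555695923) (nat_lit 228) (nat_lit 21789746751) (nat_lit 76) (nat_lit 16483447445) (nat_lit 15) (nat_lit 5) (nat_lit 18) (nat_lit 5) (nat_lit 16) (nat_lit 5) (nat_lit 310) (nat_lit 267) (nat_lit 143)))) (XT.nd (nat_lit 156) (nat_lit 0) (nat_lit 0) (XT.nd (nat_lit 78) (nat_lit 152) (nat_lit 0) (XT.lf (nat_lit 0) (nat_lit 28886490812) (nat_lit 228) (nat_lit 3928288470) (nat_lit 76) (nat_lit 29359906388) (nat_lit 15) (nat_lit 5) (nat_lit 18) (nat_lit 5) (nat_lit 16) (nat_lit 5) (nat_lit 311) (nat_lit 267) (nat_lit 142)) (XT.lf (nat_lit 0) (nat_lit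 15312237967) (nat_lit 152) (nat_lit 21507957769) (nat_lit 228) (nat_lit 27805764967) (nat_lit 13) (nat_lit 5) (nat_lit 15) (nat_lit 5) (nat_lit 16) (nat_lit 5) (nat_lit 312) (nat_lit 267) (nat_lit 141))) (XT.nd (nat_lit 78) (nat_lit 0) (nat_lit 0) (XT.lf (nat_lit 0) (nat_lit 35647146034) (nat_lit 152) (nat_lit 9567336240) (nat_lit 228) (nat_lit 21982130228) (nat_lit 13) (nat_lit 5) (nat_lit 15) (nat_lit 5) (nat_lit 16) (nat_lit 5) (nat_lit 313) (nat_lit 267) (nat_lit 140)) (XT.lf (nat_lit 0) (nat_lit 54072331550) (nat_lit 228) (nat_lit 12947318638) (nat_lit 76) (nat_lit 2873961736) (nat_lit 13) (nat_lit 5) (nat_lit 16) (nat_lit 5) (nat_lit 14) (nat_lit 4) (nat_lit 314) (nat_lit 267) (nat_lit 139))))) (XT.nd (nat_lit 312) (nat_lit 228) (nat_lit 0) (XT.nd (nat_lit 156) (nat_lit 76) (nat_lit 0) (XT.nd (nat_lit 78) (nat_lit 0) (nat_lit 0) (XT.lf (nat_lit 0) (nat_lit 6636754215) (nat_lit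 76) (nat_lit 56994372745) (nat_lit 152) (nat_lit 9081438776) (nat_lit 12) (nat_lit 5) (nat_lit 13) (nat_lit 5) (nat_lit 14) (nat_lit 4) (nat_lit 315) (nat_lit 267) (nat_lit 138)) (XT.lf (nat_lit 0) (nat_lit 27645834627) (nat_lit 76) (nat_lit 46238947233) (nat_lit 152) (nat_lit 1776846157) (nat_lit 12) (nat_lit 5) (nat_lit 13) (nat_lit 5) (nat_lit 14) (nat_lit 4) (nat_lit 316) (nat_lit 267) (nat_lit 137))) (XT.nd (nat_lit 78) (nat_lit 0) (nat_lit 0) (XT.lf (nat_lit 0) (nat_lit 5702083626) (nat_lit 152) (nat_lit 29148383431) (nat_lit 76) (nat_lit 43903196218) (nat_lit 11) (nat_lit 5) (nat_lit 13) (nat_lit 5) (nat_lit 12) (nat_lit 5) (nat_lit 317) (nat_lit 267) (nat_lit 136)) (XT.lf (nat_lit 0) (nat_lit 13493074380) (nat_lit 152) (nat_lit 9370163222) (nat_lit 76) (nat_lit 59135720695) (nat_lit 11) (nat_lit 5) (nat_lit 13) (nat_lit 5) (nat_lit 12) (nat_lit 5) (nat_lit 318) (nat_lit 267)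 (nat_lit 135)))) (XT.nd (nat_lit 156) (nat_lit 76) (nat_lit 0) (XT.nd (nat_lit 78) (nat_lit 0) (nat_lit 0) (XT.lf (nat_lit 0) (nat_lit 11770426954) (nat_lit 152) (nat_lit 10084888653) (nat_lit 228) (nat_lit 63542122981) (nat_lit 9) (nat_lit 5) (nat_lit 11) (nat_lit 5) (nat_lit 12) (nat_lit 5) (nat_lit 319) (nat_lit 267) (nat_lit 134)) (XT.lf (nat_lit 0) (nat_lit 30846947560) (nat_lit 228) (nat_lit 54722483279) (nat_lit 76) (nat_lit 3385853421) (nat_lit 9) (nat_lit 5) (nat_lit 12) (nat_lit 5) (nat_lit 10) (nat_lit 4) (nat_lit 320) (nat_lit 267) (nat_lit 133))) (XT.nd (nat_lit 78) (nat_lit 76) (nat_lit 0) (XT.lf (nat_lit 0) (nat_lit 40451545454) (nat_lit 228) (nat_lit 35041200399) (nat_lit 76) (nat_lit 17190112193) (nat_lit 9) (nat_lit 5) (nat_lit 12) (nat_lit 5) (nat_lit 10) (nat_lit 4) (nat_lit 321) (nat_lit 267) (nat_lit 132)) (XT.nd (nat_lit 78) (nat_lit 76) (nat_lit 0) (XT.lf (nat_lit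 0) (nat_lit 50534524002) (nat_lit 228) (nat_lit 14378849422) (nat_lit 76) (nat_lit 31683534364) (nat_lit 9) (nat_lit 5) (nat_lit 12) (nat_lit 5) (nat_lit 10) (nat_lit 4) (nat_lit 322) (nat_lit 267) (nat_lit 131)) (XT.lf (nat_lit 0) (nat_lit 7555591848) (nat_lit 76) (nat_lit 53682262413) (nat_lit 152) (nat_lit 39463000196) (nat_lit 8) (nat_lit 5) (nat_lit 9) (nat_lit 5) (nat_lit 10) (nat_lit 4) (nat_lit 323) (nat_lit 267) (nat_lit 130))))))))
noncomputable def xc194 : XT := (XT.nd (nat_lit 1326) (nat_lit 228) (nat_lit 0) (XT.nd (nat_lit 624) (nat_lit 76) (nat_lit 0) (XT.nd (nat_lit 312) (nat_lit 152) (nat_lit 0) (XT.nd (nat_lit 156) (nat_lit 0) (nat_lit 0) (XT.nd (nat_lit 78) (nat_lit 0) (nat_lit 0) (XT.lf (nat_lit 0) (nat_lit 31083149011) (nat_lit 76) (nat_lit 41634993651) (nat_lit 152) (nat_lit 32279770577) (nat_lit 8) (nat_lit 5) (nat_lit 9) (nat_lit 5) (nat_lit 10) (nat_lit 4) (nat_lit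 324) (nat_lit 267) (nat_lit 129)) (XT.lf (nat_lit 0) (nat_lit 55784410358) (nat_lit 76) (nat_lit 28986395937) (nat_lit 152) (nat_lit 24739104774) (nat_lit 8) (nat_lit 5) (nat_lit 9) (nat_lit 5) (nat_lit 10) (nat_lit 4) (nat_lit 325) (nat_lit 267) (nat_lit 128))) (XT.nd (nat_lit 78) (nat_lit 0) (nat_lit 0) (XT.lf (nat_lit 0) (nat_lit 81718188418) (nat_lit 76) (nat_lit 15706353564) (nat_lit 152) (nat_lit 16823048821) (nat_lit 8) (nat_lit 5) (nat_lit 9) (nat_lit 5) (nat_lit 10) (nat_lit 4) (nat_lit 326) (nat_lit 267) (nat_lit 127)) (XT.lf (nat_lit 0) (nat_lit 108946230282) (nat_lit 76) (nat_lit 1763247382) (nat_lit 152) (nat_lit 8512754965) (nat_lit 8) (nat_lit 5) (nat_lit 9) (nat_lit 5) (nat_lit 10) (nat_lit 4) (nat_lit 327) (nat_lit 267) (nat_lit 126)))) (XT.nd (nat_lit 156) (nat_lit 0) (nat_lit 0) (XT.nd (nat_lit 78) (nat_lit 0) (nat_lit 0) (XT.lf (nat_lit 0) (nat_lit 620376379) (nat_lit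 152) (nat_lit 111122500676) (nat_lit 76) (nat_lit 12681859497) (nat_lit 6) (nat_lit 5) (nat_lit 8) (nat_lit 5) (nat_lit 7) (nat_lit 4) (nat_lit 328) (nat_lit 267) (nat_lit 125)) (XT.lf (nat_lit 0) (nat_lit 10128443121) (nat_lit 152) (nat_lit 91636212777) (nat_lit 76) (nat_lit 28105517197) (nat_lit 6) (nat_lit 5) (nat_lit 8) (nat_lit 5) (nat_lit 7) (nat_lit 4) (nat_lit 329) (nat_lit 267) (nat_lit 124))) (XT.nd (nat_lit 78) (nat_lit 0) (nat_lit 0) (XT.lf (nat_lit 0) (nat_lit 20110556547) (nat_lit 152) (nat_lit 71177879226) (nat_lit 76) (nat_lit 44299516623) (nat_lit 6) (nat_lit 5) (nat_lit 8) (nat_lit 5) (nat_lit 7) (nat_lit 4) (nat_lit 330) (nat_lit 267) (nat_lit 123)) (XT.lf (nat_lit 0) (nat_lit 30590483595) (nat_lit 152) (nat_lit 49698789705) (nat_lit 76) (nat_lit 61302414916) (nat_lit 6) (nat_lit 5) (nat_lit 8) (nat_lit 5) (nat_lit 7) (nat_lit 4) (nat_lit 331) (nat_lit 267) (nat_lit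 122))))) (XT.nd (nat_lit 312) (nat_lit 0) (nat_lit 0) (XT.nd (nat_lit 156) (nat_lit 76) (nat_lit 0) (XT.nd (nat_lit 78) (nat_lit 0) (nat_lit 0) (XT.lf (nat_lit 0) (nat_lit 41593176472) (nat_lit 152) (nat_lit 27147803525) (nat_lit 76) (nat_lit 79154695168) (nat_lit 6) (nat_lit 5) (nat_lit 8) (nat_lit 5) (nat_lit 7) (nat_lit 4) (nat_lit 332) (nat_lit 267) (nat_lit 121)) (XT.lf (nat_lit 0) (nat_lit 53144832065) (nat_lit 152) (nat_lit 3471227860) (nat_lit 76) (nat_lit 97898862807) (nat_lit 6) (nat_lit 5) (nat_lit 8) (nat_lit 5) (nat_lit 7) (nat_lit 4) (nat_lit 333) (nat_lit 267) (nat_lit 120))) (XT.nd (nat_lit 78) (nat_lit 0) (nat_lit 0) (XT.lf (nat_lit 0) (nat_lit 22094471146) (nat_lit 76) (nat_lit 43523439784) (nat_lit 152) (nat_lit 95830032272) (nat_lit 5) (nat_lit 5) (nat_lit 6) (nat_lit 5) (nat_lit 7) (nat_lit 4) (nat_lit 334) (nat_lit 267) (nat_lit 119)) (XT.lf (nat_lit 0) (nat_lit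 49057131900) (nat_lit 76) (nat_lit 29715207118) (nat_lit 152) (nat_lit 89952393342) (nat_lit 5) (nat_lit 5) (nat_lit 6) (nat_lit 5) (nat_lit 7) (nat_lit 4) (nat_lit 335) (nat_lit 267) (nat_lit 118)))) (XT.nd (nat_lit 156) (nat_lit 0) (nat_lit 0) (XT.nd (nat_lit 78) (nat_lit 0) (nat_lit 0) (XT.lf (nat_lit 0) (nat_lit 77366176745) (nat_lit 76) (nat_lit 15217272106) (nat_lit 152) (nat_lit 83781966420) (nat_lit 5) (nat_lit 5) (nat_lit 6) (nat_lit 5) (nat_lit 7) (nat_lit 4) (nat_lit 336) (nat_lit 267) (nat_lit 117)) (XT.lf (nat_lit 0) (nat_lit 107084200277) (nat_lit 152) (nat_lit 77299252126) (nat_lit 0) (nat_lit 4727822) (nat_lit 5) (nat_lit 5) (nat_lit 7) (nat_lit 4) (nat_lit 5) (nat_lit 4) (nat_lit 337) (nat_lit 267) (nat_lit 116))) (XT.nd (nat_lit 78) (nat_lit 0) (nat_lit 0) (XT.lf (nat_lit 0) (nat_lit 122558499703) (nat_lit 152) (nat_lit 54765355432) (nat_lit 0) (nat_lit 15475804866)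 (nat_lit 5) (nat_lit 5) (nat_lit 7) (nat_lit 4) (nat_lit 5) (nat_lit 4) (nat_lit 338) (nat_lit 267) (nat_lit 115)) (XT.nd (nat_lit 78) (nat_lit 0) (nat_lit 0) (XT.lf (nat_lit 0) (nat_lit 138805606437) (nat_lit 152) (nat_lit 31106312047) (nat_lit 0) (nat_lit 31719842663) (nat_lit 5) (nat_lit 5) (nat_lit 7) (nat_lit 4) (nat_lit 5) (nat_lit 4) (nat_lit 339) (nat_lit 267) (nat_lit 114)) (XT.lf (nat_lit 0) (nat_lit 155864204065) (nat_lit 152) (nat_lit 6265790914) (nat_lit 0) (nat_lit 48775517495) (nat_lit 5) (nat_lit 5) (nat_lit 7) (nat_lit 4) (nat_lit 5) (nat_lit 4) (nat_lit 340) (nat_lit 267) (nat_lit 113))))))) (XT.nd (nat_lit 624) (nat_lit 76) (nat_lit 0) (XT.nd (nat_lit 312) (nat_lit 76) (nat_lit 0) (XT.nd (nat_lit 156) (nat_lit 0) (nat_lit 0) (XT.nd (nat_lit 78) (nat_lit 0) (nat_lit 0) (XT.lf (nat_lit 0) (nat_lit 20470537091) (nat_lit 76) (nat_lit 153623973657) (nat_lit 76) (nat_lit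 46532503472) (nat_lit 4) (nat_lit 4) (nat_lit 5) (nat_lit 5) (nat_lit 5) (nat_lit 4) (nat_lit 341) (nat_lit 267) (nat_lit 112)) (XT.lf (nat_lit 0) (nat_lit 48759834046) (nat_lit 76) (nat_lit 144581807276) (nat_lit 76) (nat_lit 37487686029) (nat_lit 4) (nat_lit 4) (nat_lit 5) (nat_lit 5) (nat_lit 5) (nat_lit 4) (nat_lit 342) (nat_lit 267) (nat_lit 111))) (XT.nd (nat_lit 78) (nat_lit 0) (nat_lit 0) (XT.lf (nat_lit 0) (nat_lit 78462280075) (nat_lit 76) (nat_lit 135088081070) (nat_lit 76) (nat_lit 27991435001) (nat_lit 4) (nat_lit 4) (nat_lit 5) (nat_lit 5) (nat_lit 5) (nat_lit 4) (nat_lit 343) (nat_lit 267) (nat_lit 110)) (XT.lf (nat_lit 0) (nat_lit 109648595287) (nat_lit 76) (nat_lit 125120190928) (nat_lit 76) (nat_lit 18021140268) (nat_lit 4) (nat_lit 4) (nat_lit 5) (nat_lit 5) (nat_lit 5) (nat_lit 4) (nat_lit 344) (nat_lit 267) (nat_lit 109)))) (XT.nd (nat_lit 156) (nat_lit 0) (nat_lit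 0) (XT.nd (nat_lit 78) (nat_lit 76) (nat_lit 0) (XT.lf (nat_lit 0) (nat_lit 142393032813) (nat_lit 76) (nat_lit 114654403779) (nat_lit 76) (nat_lit 7553063032) (nat_lit 4) (nat_lit 4) (nat_lit 5) (nat_lit 5) (nat_lit 5) (nat_lit 4) (nat_lit 345) (nat_lit 267) (nat_lit 108)) (XT.lf (nat_lit 0) (nat_lit 3327692169) (nat_lit 152) (nat_lit 100281752836) (nat_lit 76) (nat_lit 173389507355) (nat_lit 3) (nat_lit 5) (nat_lit 5) (nat_lit 5) (nat_lit 4) (nat_lit 4) (nat_lit 346) (nat_lit 267) (nat_lit 107))) (XT.nd (nat_lit 78) (nat_lit 0) (nat_lit 0) (XT.lf (nat_lit 0) (nat_lit 14498009784) (nat_lit 152) (nat_lit 77384678902) (nat_lit 76) (nat_lit 198128481443) (nat_lit 3) (nat_lit 5) (nat_lit 5) (nat_lit 5) (nat_lit 4) (nat_lit 4) (nat_lit 347) (nat_lit 267) (nat_lit 106)) (XT.lf (nat_lit 0) (nat_lit 26226230993) (nat_lit 152) (nat_lit 53343803687) (nat_lit 76) (nat_lit 224103995947) (nat_lit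 3) (nat_lit 5) (nat_lit 5) (nat_lit 5) (nat_lit 4) (nat_lit 4) (nat_lit 348) (nat_lit 267) (nat_lit 105))))) (XT.nd (nat_lit 31356) (nat_lit 0) (nat_lit 4712) (XT.nd (nat_lit 31200) (nat_lit 0) (nat_lit 4712) (XT.nd (nat_lit 234) (nat_lit 76) (nat_lit 0) (XT.lf (nat_lit 0) (nat_lit 38540280133) (nat_lit 152) (nat_lit 28101887010) (nat_lit 76) (nat_lit 251377897331) (nat_lit 3) (nat_lit 5) (nat_lit 5) (nat_lit 5) (nat_lit 4) (nat_lit 4) (nat_lit 349) (nat_lit 267) (nat_lit 104)) (XT.lf (nat_lit 0) (nat_lit 57279577843) (nat_lit 76) (nat_lit 22912700152) (nat_lit 152) (nat_lit 285270410657) (nat_lit 2) (nat_lit 5) (nat_lit 3) (nat_lit 5) (nat_lit 4) (nat_lit 4) (nat_lit 352) (nat_lit 267) (nat_lit 101))) (XT.nd (nat_lit 78) (nat_lit 0) (nat_lit 0) (XT.lf (nat_lit 0) (nat_lit 6711373710) (nat_lit 684) (nat_lit 728295768) (nat_lit 684) (nat_lit 728295768) (nat_lit 64) (nat_lit 3) (nat_lit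 73) (nat_lit 3) (nat_lit 73) (nat_lit 5) (nat_lit 268) (nat_lit 268) (nat_lit 184)) (XT.lf (nat_lit 76) (nat_lit 5234109822) (nat_lit 0) (nat_lit 8820126623) (nat_lit 684) (nat_lit 2674142378) (nat_lit 65) (nat_lit 5) (nat_lit 64) (nat_lit 3) (nat_lit 73) (nat_lit 5) (nat_lit 269) (nat_lit 268) (nat_lit 183)))) (XT.nd (nat_lit 156) (nat_lit 0) (nat_lit 76) (XT.nd (nat_lit 78) (nat_lit 0) (nat_lit 76) (XT.lf (nat_lit 76) (nat_lit 12302441082) (nat_lit 0) (nat_lit 2425698666) (nat_lit 684) (nat_lit 2411841694) (nat_lit 65) (nat_lit 5) (nat_lit 64) (nat_lit 3) (nat_lit 73) (nat_lit 5) (nat_lit 270) (nat_lit 268) (nat_lit 182)) (XT.lf (nat_lit 76) (nat_lit 2145807102) (nat_lit 0) (nat_lit 13377312617) (nat_lit 684) (nat_lit 2044745745) (nat_lit 66) (nat_lit 5) (nat_lit 65) (nat_lit 5) (nat_lit 74) (nat_lit 5) (nat_lit 271) (nat_lit 268) (nat_lit 181))) (XT.nd (nat_lit 78) (nat_lit 0) (nat_lit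 0) (XT.lf (nat_lit 76) (nat_lit 9597376029) (nat_lit 0) (nat_lit 6868948259) (nat_lit 684) (nat_lit 1545462618) (nat_lit 66) (nat_lit 5) (nat_lit 65) (nat_lit 5) (nat_lit 74) (nat_lit 5) (nat_lit 272) (nat_lit 268) (nat_lit 180)) (XT.nd (nat_lit 78) (nat_lit 0) (nat_lit 76) (XT.lf (nat_lit 76) (nat_lit 17414081491) (nat_lit 0) (nat_lit 30631728) (nat_lit 684) (nat_lit 1033853801) (nat_lit 66) (nat_lit 5) (nat_lit 65) (nat_lit 5) (nat_lit 74) (nat_lit 5) (nat_lit 273) (nat_lit 268) (nat_lit 179)) (XT.lf (nat_lit 76) (nat_lit 6749552620) (nat_lit 0) (nat_lit 11928135541) (nat_lit 684) (nat_lit 280775419) (nat_lit 67) (nat_lit 5) (nat_lit 66) (nat_lit 5) (nat_lit 75) (nat_lit 5) (nat_lit 274) (nat_lit 268) (nat_lit 178))))))))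
noncomputable def xc195 : XT := (XT.nd (nat_lit 1326) (nat_lit 1292) (nat_lit 0) (XT.nd (nat_lit 624) (nat_lit 1216) (nat_lit 0) (XT.nd (nat_lit 312) (nat_lit 532) (nat_lit 0) (XT.nd (nat_lit 156) (nat_lit 0) (nat_lit 76) (XT.nd (nat_lit 78) (nat_lit 0) (nat_lit 76) (XT.lf (nat_lit 0) (nat_lit 501307486) (nat_lit 684) (nat_lit 4487048231) (nat_lit 760) (nat_lit 14473272657) (nat_lit 57) (nat_lit 5) (nat_lit 66) (nat_lit 5) (nat_lit 67) (nat_lit 5) (nat_lit 275) (nat_lit 268) (nat_lit 177)) (XT.lf (nat_lit 0) (nat_lit 1397600088) (nat_lit 684) (nat_lit 16296432375) (nat_lit 760) (nat_lit 2291514224) (nat_lit 58) (nat_lit 5) (nat_lit 67) (nat_lit 5) (nat_lit 68) (nat_lit 5) (nat_lit 276) (nat_lit 268) (nat_lit 176))) (XT.nd (nat_lit 78) (nat_lit 0) (nat_lit 0) (XT.lf (nat_lit 0) (nat_lit 2487526992) (nat_lit 684) (nat_lit 8193196674) (nat_lit 760) (nat_lit 9847546261) (nat_lit 58) (nat_lit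 5) (nat_lit 67) (nat_lit 5) (nat_lit 68) (nat_lit 5) (nat_lit 277) (nat_lit 268) (nat_lit 175)) (XT.lf (nat_lit 76) (nat_lit 317576308) (nat_lit 0) (nat_lit 3309624829) (nat_lit 760) (nat_lit 17471213260) (nat_lit 59) (nat_lit 5) (nat_lit 58) (nat_lit 5) (nat_lit 68) (nat_lit 5) (nat_lit 278) (nat_lit 268) (nat_lit 174)))) (XT.nd (nat_lit 156) (nat_lit 684) (nat_lit 0) (XT.nd (nat_lit 78) (nat_lit 0) (nat_lit 0) (XT.lf (nat_lit 0) (nat_lit 5024716406) (nat_lit 684) (nat_lit 12231434378) (nat_lit 76) (nat_lit 4430917783) (nat_lit 59) (nat_lit 5) (nat_lit 68) (nat_lit 5) (nat_lit 60) (nat_lit 5) (nat_lit 279) (nat_lit 268) (nat_lit 173)) (XT.lf (nat_lit 0) (nat_lit 6537470072) (nat_lit 684) (nat_lit 3316629436) (nat_lit 76) (nat_lit 12448830994) (nat_lit 59) (nat_lit 5) (nat_lit 68) (nat_lit 5) (nat_lit 60) (nat_lit 5) (nat_lit 280) (nat_lit 268) (nat_lit 172))) (XT.nd (nat_lit 78) (nat_lit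 0) (nat_lit 0) (XT.lf (nat_lit 0) (nat_lit 6236068107) (nat_lit 684) (nat_lit 1978685804) (nat_lit 760) (nat_lit 14730428128) (nat_lit 50) (nat_lit 5) (nat_lit 59) (nat_lit 5) (nat_lit 60) (nat_lit 5) (nat_lit 281) (nat_lit 268) (nat_lit 171)) (XT.lf (nat_lit 0) (nat_lit 10123036234) (nat_lit 760) (nat_lit 7342106825) (nat_lit 76) (nat_lit 6147085551) (nat_lit 50) (nat_lit 5) (nat_lit 60) (nat_lit 5) (nat_lit 51) (nat_lit 5) (nat_lit 282) (nat_lit 268) (nat_lit 170))))) (XT.nd (nat_lit 312) (nat_lit 608) (nat_lit 0) (XT.nd (nat_lit 156) (nat_lit 304) (nat_lit 0) (XT.nd (nat_lit 78) (nat_lit 0) (nat_lit 0) (XT.lf (nat_lit 0) (nat_lit 2534521873) (nat_lit 304) (nat_lit 9656440649) (nat_lit 380) (nat_lit 12118490803) (nat_lit 46) (nat_lit 5) (nat_lit 50) (nat_lit 5) (nat_lit 51) (nat_lit 5) (nat_lit 283) (nat_lit 268) (nat_lit 169)) (XT.lf (nat_lit 0) (nat_lit 13152591105) (nat_lit 304)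 (nat_lit 1326514096) (nat_lit 380) (nat_lit 10556628601) (nat_lit 46) (nat_lit 5) (nat_lit 50) (nat_lit 5) (nat_lit 51) (nat_lit 5) (nat_lit 284) (nat_lit 268) (nat_lit 168))) (XT.nd (nat_lit 78) (nat_lit 304) (nat_lit 0) (XT.lf (nat_lit 0) (nat_lit 16990340140) (nat_lit 380) (nat_lit 1619950547) (nat_lit 76) (nat_lit 7182637199) (nat_lit 46) (nat_lit 5) (nat_lit 51) (nat_lit 5) (nat_lit 47) (nat_lit 5) (nat_lit 285) (nat_lit 268) (nat_lit 167)) (XT.lf (nat_lit 0) (nat_lit 9429465952) (nat_lit 304) (nat_lit 10359817923) (nat_lit 380) (nat_lit 6790622673) (nat_lit 42) (nat_lit 5) (nat_lit 46) (nat_lit 5) (nat_lit 47) (nat_lit 5) (nat_lit 286) (nat_lit 268) (nat_lit 166)))) (XT.nd (nat_lit 156) (nat_lit 380) (nat_lit 0) (XT.nd (nat_lit 78) (nat_lit 228) (nat_lit 0) (XT.lf (nat_lit 0) (nat_lit 21080716136) (nat_lit 304) (nat_lit 1668291185) (nat_lit 380) (nat_lit 4656215889) (nat_lit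 42) (nat_lit 5) (nat_lit 46) (nat_lit 5) (nat_lit 47) (nat_lit 5) (nat_lit 287) (nat_lit 268) (nat_lit 165)) (XT.lf (nat_lit 0) (nat_lit 5082053065) (nat_lit 228) (nat_lit 20964154468) (nat_lit 304) (nat_lit 2216152872) (nat_lit 39) (nat_lit 5) (nat_lit 42) (nat_lit 5) (nat_lit 43) (nat_lit 5) (nat_lit 288) (nat_lit 268) (nat_lit 164))) (XT.nd (nat_lit 78) (nat_lit 304) (nat_lit 0) (XT.lf (nat_lit 0) (nat_lit 464830426) (nat_lit 304) (nat_lit 11920002161) (nat_lit 76) (nat_lit 16770778928) (nat_lit 38) (nat_lit 5) (nat_lit 42) (nat_lit 5) (nat_lit 39) (nat_lit 5) (nat_lit 289) (nat_lit 268) (nat_lit 163)) (XT.nd (nat_lit 78) (nat_lit 304) (nat_lit 0) (XT.lf (nat_lit 0) (nat_lit 3199457065) (nat_lit 304) (nat_lit 139689580) (nat_lit 76) (nat_lit 26752883695) (nat_lit 38) (nat_lit 5) (nat_lit 42) (nat_lit 5) (nat_lit 39) (nat_lit 5) (nat_lit 290) (nat_lit 268) (nat_lit 162)) (XT.lf (nat_lit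 0) (nat_lit 6361695776) (nat_lit 380) (nat_lit 18537660374) (nat_lit 76) (nat_lit 6161393967) (nat_lit 34) (nat_lit 5) (nat_lit 39) (nat_lit 5) (nat_lit 35) (nat_lit 5) (nat_lit 291) (nat_lit 268) (nat_lit 161))))))) (XT.nd (nat_lit 624) (nat_lit 608) (nat_lit 0) (XT.nd (nat_lit 312) (nat_lit 456) (nat_lit 0) (XT.nd (nat_lit 156) (nat_lit 0) (nat_lit 0) (XT.nd (nat_lit 78) (nat_lit 228) (nat_lit 0) (XT.lf (nat_lit 0) (nat_lit 9733703753) (nat_lit 380) (nat_lit 6315250131) (nat_lit 76) (nat_lit 16026392035) (nat_lit 34) (nat_lit 5) (nat_lit 39) (nat_lit 5) (nat_lit 35) (nat_lit 5) (nat_lit 292) (nat_lit 268) (nat_lit 160)) (XT.lf (nat_lit 0) (nat_lit 6727368539) (nat_lit 228) (nat_lit 6646750693) (nat_lit 304) (nat_lit 19761583737) (nat_lit 31) (nat_lit 5) (nat_lit 34) (nat_lit 5) (nat_lit 35) (nat_lit 5) (nat_lit 293) (nat_lit 268) (nat_lit 159))) (XT.nd (nat_lit 78) (nat_lit 0) (nat_lit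 0) (XT.lf (nat_lit 0) (nat_lit 17350531374) (nat_lit 304) (nat_lit 13660861619) (nat_lit 76) (nat_lit 3230006858) (nat_lit 31) (nat_lit 5) (nat_lit 35) (nat_lit 5) (nat_lit 32) (nat_lit 5) (nat_lit 294) (nat_lit 268) (nat_lit 158)) (XT.lf (nat_lit 0) (nat_lit 21629880286) (nat_lit 304) (nat_lit 391061461) (nat_lit 76) (nat_lit 13376253808) (nat_lit 31) (nat_lit 5) (nat_lit 35) (nat_lit 5) (nat_lit 32) (nat_lit 5) (nat_lit 295) (nat_lit 268) (nat_lit 157)))) (XT.nd (nat_lit 156) (nat_lit 228) (nat_lit 0) (XT.nd (nat_lit 78) (nat_lit 0) (nat_lit 0) (XT.lf (nat_lit 0) (nat_lit 13984010893) (nat_lit 228) (nat_lit 12352899196) (nat_lit 304) (nat_lit 10263204124) (nat_lit 28) (nat_lit 5) (nat_lit 31) (nat_lit 5) (nat_lit 32) (nat_lit 5) (nat_lit 296) (nat_lit 268) (nat_lit 156)) (XT.lf (nat_lit 0) (nat_lit 29085713587) (nat_lit 228) (nat_lit 2195715279) (nat_lit 304) (nat_lit 6581661009)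 (nat_lit 28) (nat_lit 5) (nat_lit 31) (nat_lit 5) (nat_lit 32) (nat_lit 5) (nat_lit 297) (nat_lit 268) (nat_lit 155))) (XT.nd (nat_lit 78) (nat_lit 76) (nat_lit 0) (XT.lf (nat_lit 0) (nat_lit 5801086928) (nat_lit 152) (nat_lit 30890598014) (nat_lit 228) (nat_lit 2486620900) (nat_lit 26) (nat_lit 5) (nat_lit 28) (nat_lit 5) (nat_lit 29) (nat_lit 5) (nat_lit 298) (nat_lit 268) (nat_lit 154)) (XT.lf (nat_lit 0) (nat_lit 1937963392) (nat_lit 228) (nat_lit 19211093531) (nat_lit 76) (nat_lit 19399684504) (nat_lit 25) (nat_lit 5) (nat_lit 28) (nat_lit 5) (nat_lit 26) (nat_lit 5) (nat_lit 299) (nat_lit 268) (nat_lit 153))))) (XT.nd (nat_lit 312) (nat_lit 380) (nat_lit 0) (XT.nd (nat_lit 156) (nat_lit 0) (nat_lit 0) (XT.nd (nat_lit 78) (nat_lit 228) (nat_lit 0) (XT.lf (nat_lit 0) (nat_lit 6496156477) (nat_lit 228) (nat_lit 4382860900) (nat_lit 76) (nat_lit 31106860646) (nat_lit 25) (nat_lit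 5) (nat_lit 28) (nat_lit 5) (nat_lit 26) (nat_lit 5) (nat_lit 300) (nat_lit 268) (nat_lit 152)) (XT.lf (nat_lit 0) (nat_lit 11460192452) (nat_lit 304) (nat_lit 31936184616) (nat_lit 76) (nat_lit 89611782) (nat_lit 22) (nat_lit 5) (nat_lit 26) (nat_lit 5) (nat_lit 23) (nat_lit 5) (nat_lit 301) (nat_lit 268) (nat_lit 151))) (XT.nd (nat_lit 78) (nat_lit 0) (nat_lit 0) (XT.lf (nat_lit 0) (nat_lit 16922440306) (nat_lit 304) (nat_lit 16810962436) (nat_lit 76) (nat_lit 11315215360) (nat_lit 22) (nat_lit 5) (nat_lit 26) (nat_lit 5) (nat_lit 23) (nat_lit 5) (nat_lit 302) (nat_lit 268) (nat_lit 150)) (XT.lf (nat_lit 0) (nat_lit 22654203265) (nat_lit 304) (nat_lit 934500870) (nat_lit 76) (nat_lit 23100867301) (nat_lit 22) (nat_lit 5) (nat_lit 26) (nat_lit 5) (nat_lit 23) (nat_lit 5) (nat_lit 303) (nat_lit 268) (nat_lit 149)))) (XT.nd (nat_lit 156) (nat_lit 228) (nat_lit 0) (XT.nd (nat_lit 78)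 (nat_lit 0) (nat_lit 0) (XT.lf (nat_lit 0) (nat_lit 16251139123) (nat_lit 152) (nat_lit 12671715084) (nat_lit 228) (nat_lit 19477215383) (nat_lit 20) (nat_lit 5) (nat_lit 22) (nat_lit 5) (nat_lit 23) (nat_lit 5) (nat_lit 304) (nat_lit 268) (nat_lit 148)) (XT.lf (nat_lit 0) (nat_lit 34323799423) (nat_lit 152) (nat_lit 1193628187) (nat_lit 228) (nat_lit 14678052115) (nat_lit 20) (nat_lit 5) (nat_lit 22) (nat_lit 5) (nat_lit 23) (nat_lit 5) (nat_lit 305) (nat_lit 268) (nat_lit 147))) (XT.nd (nat_lit 78) (nat_lit 76) (nat_lit 0) (XT.lf (nat_lit 0) (nat_lit 1079833388) (nat_lit 152) (nat_lit 41545087200) (nat_lit 228) (nat_lit 9446591251) (nat_lit 18) (nat_lit 5) (nat_lit 20) (nat_lit 5) (nat_lit 21) (nat_lit 5) (nat_lit 306) (nat_lit 268) (nat_lit 146)) (XT.nd (nat_lit 78) (nat_lit 76) (nat_lit 0) (XT.lf (nat_lit 0) (nat_lit 19405180772) (nat_lit 152) (nat_lit 30967537438) (nat_lit 228)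 (nat_lit 3654391340) (nat_lit 18) (nat_lit 5) (nat_lit 20) (nat_lit 5) (nat_lit 21) (nat_lit 5) (nat_lit 307) (nat_lit 268) (nat_lit 145)) (XT.lf (nat_lit 0) (nat_lit 2346699435) (nat_lit 228) (nat_lit 17476039278) (nat_lit 76) (nat_lit 36256014339) (nat_lit 17) (nat_lit 5) (nat_lit 20) (nat_lit 5) (nat_lit 18) (nat_lit 5) (nat_lit 308) (nat_lit 268) (nat_lit 144))))))))
noncomputable def xc196 : XT := (XT.nd (nat_lit 1248) (nat_lit 228) (nat_lit 0) (XT.nd (nat_lit 624) (nat_lit 304) (nat_lit 0) (XT.nd (nat_lit 312) (nat_lit 228) (nat_lit 0) (XT.nd (nat_lit 156) (nat_lit 0) (nat_lit 0) (XT.nd (nat_lit 78) (nat_lit 0) (nat_lit 0) (XT.lf (nat_lit 0) (nat_lit 478308502) (nat_lit 152) (nat_lit 8051310015) (nat_lit 228) (nat_lit 49700144608) (nat_lit 15) (nat_lit 5) (nat_lit 17) (nat_lit 5) (nat_lit 18) (nat_lit 5) (nat_lit 309) (nat_lit 268) (nat_lit 143)) (XT.lf (nat_lit 0) (nat_lit 15386939864)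 (nat_lit 228) (nat_lit 40612842365) (nat_lit 76) (nat_lit 4470287290) (nat_lit 15) (nat_lit 5) (nat_lit 18) (nat_lit 5) (nat_lit 16) (nat_lit 5) (nat_lit 310) (nat_lit 268) (nat_lit 142))) (XT.nd (nat_lit 78) (nat_lit 0) (nat_lit 0) (XT.lf (nat_lit 0) (nat_lit 22716419311) (nat_lit 228) (nat_lit 22753380181) (nat_lit 76) (nat_lit 17346135360) (nat_lit 15) (nat_lit 5) (nat_lit 18) (nat_lit 5) (nat_lit 16) (nat_lit 5) (nat_lit 311) (nat_lit 268) (nat_lit 141)) (XT.lf (nat_lit 0) (nat_lit 30409804487) (nat_lit 228) (nat_lit 4004842030) (nat_lit 76) (nat_lit 30864583176) (nat_lit 15) (nat_lit 5) (nat_lit 18) (nat_lit 5) (nat_lit 16) (nat_lit 5) (nat_lit 312) (nat_lit 268) (nat_lit 140)))) (XT.nd (nat_lit 156) (nat_lit 76) (nat_lit 0) (XT.nd (nat_lit 78) (nat_lit 0) (nat_lit 0) (XT.lf (nat_lit 0) (nat_lit 16195777489) (nat_lit 152) (nat_lit 22542496962) (nat_lit 228) (nat_lit 29114901505)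 (nat_lit 13) (nat_lit 5) (nat_lit 15) (nat_lit 5) (nat_lit 16) (nat_lit 5) (nat_lit 313) (nat_lit 268) (nat_lit 139)) (XT.lf (nat_lit 0) (nat_lit 37541815358) (nat_lit 152) (nat_lit 10006790008) (nat_lit 228) (nat_lit 23003949395) (nat_lit 13) (nat_lit 5) (nat_lit 15) (nat_lit 5) (nat_lit 16) (nat_lit 5) (nat_lit 314) (nat_lit 268) (nat_lit 138))) (XT.nd (nat_lit 78) (nat_lit 76) (nat_lit 0) (XT.lf (nat_lit 0) (nat_lit 56846430528) (nat_lit 228) (nat_lit 13484596145) (nat_lit 76) (nat_lit 3053533712) (nat_lit 13) (nat_lit 5) (nat_lit 16) (nat_lit 5) (nat_lit 14) (nat_lit 4) (nat_lit 315) (nat_lit 268) (nat_lit 137)) (XT.lf (nat_lit 0) (nat_lit 7076904731) (nat_lit 76) (nat_lit 59804595740) (nat_lit 152) (nat_lit 9463054585) (nat_lit 12) (nat_lit 5) (nat_lit 13) (nat_lit 5) (nat_lit 14) (nat_lit 4) (nat_lit 316) (nat_lit 268) (nat_lit 136))))) (XT.nd (nat_lit 312) (nat_lit 76) (nat_lit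 0) (XT.nd (nat_lit 156) (nat_lit 152) (nat_lit 0) (XT.nd (nat_lit 78) (nat_lit 76) (nat_lit 0) (XT.lf (nat_lit 0) (nat_lit 29131281410) (nat_lit 76) (nat_lit 48513279697) (nat_lit 152) (nat_lit 1796682627) (nat_lit 12) (nat_lit 5) (nat_lit 13) (nat_lit 5) (nat_lit 14) (nat_lit 4) (nat_lit 317) (nat_lit 268) (nat_lit 135)) (XT.lf (nat_lit 0) (nat_lit 6050804207) (nat_lit 152) (nat_lit 30505285115) (nat_lit 76) (nat_lit 46131905161) (nat_lit 11) (nat_lit 5) (nat_lit 13) (nat_lit 5) (nat_lit 12) (nat_lit 5) (nat_lit 318) (nat_lit 268) (nat_lit 134))) (XT.nd (nat_lit 78) (nat_lit 152) (nat_lit 0) (XT.lf (nat_lit 0) (nat_lit 14228315147) (nat_lit 152) (nat_lit 9742940443) (nat_lit 76) (nat_lit 62124458284) (nat_lit 11) (nat_lit 5) (nat_lit 13) (nat_lit 5) (nat_lit 12) (nat_lit 5) (nat_lit 319) (nat_lit 268) (nat_lit 133)) (XT.lf (nat_lit 0) (nat_lit 12453135194) (nat_lit 152) (nat_lit 10554118665)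 (nat_lit 228) (nat_lit 66656942811) (nat_lit 9) (nat_lit 5) (nat_lit 11) (nat_lit 5) (nat_lit 12) (nat_lit 5) (nat_lit 320) (nat_lit 268) (nat_lit 132)))) (XT.nd (nat_lit 156) (nat_lit 76) (nat_lit 0) (XT.nd (nat_lit 78) (nat_lit 0) (nat_lit 0) (XT.lf (nat_lit 0) (nat_lit 32446170315) (nat_lit 228) (nat_lit 57366460712) (nat_lit 76) (nat_lit 3587425845) (nat_lit 9) (nat_lit 5) (nat_lit 12) (nat_lit 5) (nat_lit 10) (nat_lit 4) (nat_lit 321) (nat_lit 268) (nat_lit 131)) (XT.lf (nat_lit 0) (nat_lit 42528289751) (nat_lit 228) (nat_lit 36705501628) (nat_lit 76) (nat_lit 18080360425) (nat_lit 9) (nat_lit 5) (nat_lit 12) (nat_lit 5) (nat_lit 10) (nat_lit 4) (nat_lit 322) (nat_lit 268) (nat_lit 130))) (XT.nd (nat_lit 78) (nat_lit 76) (nat_lit 0) (XT.lf (nat_lit 0) (nat_lit 53112837845) (nat_lit 228) (nat_lit 15014212092) (nat_lit 76) (nat_lit 33296989770) (nat_lit 9) (nat_lit 5) (nat_lit 12)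 (nat_lit 5) (nat_lit 10) (nat_lit 4) (nat_lit 323) (nat_lit 268) (nat_lit 129)) (XT.lf (nat_lit 0) (nat_lit 8015603180) (nat_lit 76) (nat_lit 56334558751) (nat_lit 152) (nat_lit 41383086798) (nat_lit 8) (nat_lit 5) (nat_lit 9) (nat_lit 5) (nat_lit 10) (nat_lit 4) (nat_lit 324) (nat_lit 268) (nat_lit 128)))))) (XT.nd (nat_lit 624) (nat_lit 76) (nat_lit 0) (XT.nd (nat_lit 312) (nat_lit 152) (nat_lit 0) (XT.nd (nat_lit 156) (nat_lit 0) (nat_lit 0) (XT.nd (nat_lit 78) (nat_lit 0) (nat_lit 0) (XT.lf (nat_lit 0) (nat_lit 32715622404) (nat_lit 76) (nat_lit 43686441635) (nat_lit 152) (nat_lit 33843222527) (nat_lit 8) (nat_lit 5) (nat_lit 9) (nat_lit 5) (nat_lit 10) (nat_lit 4) (nat_lit 325) (nat_lit 268) (nat_lit 127)) (XT.lf (nat_lit 0) (nat_lit 58648217488) (nat_lit 76) (nat_lit 30406856974) (nat_lit 152) (nat_lit 25927929938) (nat_lit 8) (nat_lit 5) (nat_lit 9) (nat_lit 5) (nat_lit 10)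 (nat_lit 4) (nat_lit 326) (nat_lit 268) (nat_lit 126))) (XT.nd (nat_lit 78) (nat_lit 0) (nat_lit 0) (XT.lf (nat_lit 0) (nat_lit 85875132708) (nat_lit 76) (nat_lit 16464186709) (nat_lit 152) (nat_lit 17618363095) (nat_lit 8) (nat_lit 5) (nat_lit 9) (nat_lit 5) (nat_lit 10) (nat_lit 4) (nat_lit 327) (nat_lit 268) (nat_lit 125)) (XT.lf (nat_lit 0) (nat_lit 114461194051) (nat_lit 76) (nat_lit 1825234005) (nat_lit 152) (nat_lit 8894737317) (nat_lit 8) (nat_lit 5) (nat_lit 9) (nat_lit 5) (nat_lit 10) (nat_lit 4) (nat_lit 328) (nat_lit 268) (nat_lit 124)))) (XT.nd (nat_lit 156) (nat_lit 0) (nat_lit 0) (XT.nd (nat_lit 78) (nat_lit 0) (nat_lit 0) (XT.lf (nat_lit 0) (nat_lit 693120532) (nat_lit 152) (nat_lit 116608848038) (nat_lit 76) (nat_lit 13341823248) (nat_lit 6) (nat_lit 5) (nat_lit 8) (nat_lit 5) (nat_lit 7) (nat_lit 4) (nat_lit 329) (nat_lit 268) (nat_lit 123)) (XT.lf (nat_lit 0) (nat_lit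 10674603690) (nat_lit 152) (nat_lit 96151568491) (nat_lit 76) (nat_lit 29535431891) (nat_lit 6) (nat_lit 5) (nat_lit 8) (nat_lit 5) (nat_lit 7) (nat_lit 4) (nat_lit 330) (nat_lit 268) (nat_lit 122))) (XT.nd (nat_lit 78) (nat_lit 0) (nat_lit 0) (XT.lf (nat_lit 0) (nat_lit 21153930483) (nat_lit 152) (nat_lit 74673482783) (nat_lit 76) (nat_lit 46537958011) (nat_lit 6) (nat_lit 5) (nat_lit 8) (nat_lit 5) (nat_lit 7) (nat_lit 4) (nat_lit 331) (nat_lit 268) (nat_lit 121)) (XT.lf (nat_lit 0) (nat_lit 32156051688) (nat_lit 152) (nat_lit 52123452615) (nat_lit 76) (nat_lit 64389883811) (nat_lit 6) (nat_lit 5) (nat_lit 8) (nat_lit 5) (nat_lit 7) (nat_lit 4) (nat_lit 332) (nat_lit 268) (nat_lit 120))))) (XT.nd (nat_lit 312) (nat_lit 0) (nat_lit 0) (XT.nd (nat_lit 156) (nat_lit 76) (nat_lit 0) (XT.nd (nat_lit 78) (nat_lit 0) (nat_lit 0) (XT.lf (nat_lit 0) (nat_lit 43707162831) (nat_lit 152) (nat_lit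 28447787438) (nat_lit 76) (nat_lit 83133713878) (nat_lit 6) (nat_lit 5) (nat_lit 8) (nat_lit 5) (nat_lit 7) (nat_lit 4) (nat_lit 333) (nat_lit 268) (nat_lit 119)) (XT.lf (nat_lit 0) (nat_lit 55834766559) (nat_lit 152) (nat_lit 3590116622) (nat_lit 76) (nat_lit 102814076377) (nat_lit 6) (nat_lit 5) (nat_lit 8) (nat_lit 5) (nat_lit 7) (nat_lit 4) (nat_lit 334) (nat_lit 268) (nat_lit 118))) (XT.nd (nat_lit 78) (nat_lit 0) (nat_lit 0) (XT.lf (nat_lit 0) (nat_lit 23252985517) (nat_lit 76) (nat_lit 45677796871) (nat_lit 152) (nat_lit 100587888068) (nat_lit 5) (nat_lit 5) (nat_lit 6) (nat_lit 5) (nat_lit 7) (nat_lit 4) (nat_lit 335) (nat_lit 268) (nat_lit 117)) (XT.lf (nat_lit 0) (nat_lit 51561217843) (nat_lit 76) (nat_lit 31180191377) (nat_lit 152) (nat_lit 94417969373) (nat_lit 5) (nat_lit 5) (nat_lit 6) (nat_lit 5) (nat_lit 7) (nat_lit 4) (nat_lit 336) (nat_lit 268) (nat_lit 116)))) (XT.nd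 (nat_lit 156) (nat_lit 0) (nat_lit 0) (XT.nd (nat_lit 78) (nat_lit 0) (nat_lit 0) (XT.lf (nat_lit 0) (nat_lit 81283275437) (nat_lit 76) (nat_lit 15958348951) (nat_lit 152) (nat_lit 87940546993) (nat_lit 5) (nat_lit 5) (nat_lit 6) (nat_lit 5) (nat_lit 7) (nat_lit 4) (nat_lit 337) (nat_lit 268) (nat_lit 115)) (XT.lf (nat_lit 0) (nat_lit 112466326501) (nat_lit 152) (nat_lit 81116599893) (nat_lit 0) (nat_lit 23205603) (nat_lit 5) (nat_lit 5) (nat_lit 7) (nat_lit 4) (nat_lit 5) (nat_lit 4) (nat_lit 338) (nat_lit 268) (nat_lit 114))) (XT.nd (nat_lit 78) (nat_lit 0) (nat_lit 0) (XT.lf (nat_lit 0) (nat_lit 128713011556) (nat_lit 152) (nat_lit 57458275738) (nat_lit 0) (nat_lit 16266967861) (nat_lit 5) (nat_lit 5) (nat_lit 7) (nat_lit 4) (nat_lit 5) (nat_lit 4) (nat_lit 339) (nat_lit 268) (nat_lit 113)) (XT.nd (nat_lit 78) (nat_lit 0) (nat_lit 0) (XT.lf (nat_lit 0) (nat_lit 145771207585) (nat_lit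 152) (nat_lit 32618439586) (nat_lit 0) (nat_lit 33322380275) (nat_lit 5) (nat_lit 5) (nat_lit 7) (nat_lit 4) (nat_lit 5) (nat_lit 4) (nat_lit 340) (nat_lit 268) (nat_lit 112)) (XT.lf (nat_lit 0) (nat_lit 163681529341) (nat_lit 152) (nat_lit 6537948971) (nat_lit 0) (nat_lit 51230050968) (nat_lit 5) (nat_lit 5) (nat_lit 7) (nat_lit 4) (nat_lit 5) (nat_lit 4) (nat_lit 341) (nat_lit 268) (nat_lit 111))))))))
noncomputable def xc197 : XT := (XT.nd (nat_lit 32526) (nat_lit 0) (nat_lit 2128) (XT.nd (nat_lit 31824) (nat_lit 0) (nat_lit 4104) (XT.nd (nat_lit 312) (nat_lit 76) (nat_lit 0) (XT.nd (nat_lit 156) (nat_lit 0) (nat_lit 0) (XT.nd (nat_lit 78) (nat_lit 0) (nat_lit 0) (XT.lf (nat_lit 0) (nat_lit 21534532022) (nat_lit 76) (nat_lit 161288302819) (nat_lit 76) (nat_lit 48834299625) (nat_lit 4) (nat_lit 4) (nat_lit 5) (nat_lit 5) (nat_lit 5) (nat_lit 4) (nat_lit 342) (nat_lit 268) (nat_lit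 110)) (XT.lf (nat_lit 0) (nat_lit 51236366774) (nat_lit 76) (nat_lit 151794831430) (nat_lit 76) (nat_lit 39338423644) (nat_lit 4) (nat_lit 4) (nat_lit 5) (nat_lit 5) (nat_lit 5) (nat_lit 4) (nat_lit 343) (nat_lit 268) (nat_lit 109))) (XT.nd (nat_lit 78) (nat_lit 0) (nat_lit 0) (XT.lf (nat_lit 0) (nat_lit 82422099817) (nat_lit 76) (nat_lit 141827183971) (nat_lit 76) (nat_lit 29368486098) (nat_lit 4) (nat_lit 4) (nat_lit 5) (nat_lit 5) (nat_lit 5) (nat_lit 4) (nat_lit 344) (nat_lit 268) (nat_lit 108)) (XT.lf (nat_lit 0) (nat_lit 115165982898) (nat_lit 76) (nat_lit 131361627948) (nat_lit 76) (nat_lit 18900749040) (nat_lit 4) (nat_lit 4) (nat_lit 5) (nat_lit 5) (nat_lit 5) (nat_lit 4) (nat_lit 345) (nat_lit 268) (nat_lit 107)))) (XT.nd (nat_lit 156) (nat_lit 0) (nat_lit 0) (XT.nd (nat_lit 78) (nat_lit 76) (nat_lit 0) (XT.lf (nat_lit 0) (nat_lit 149545977641) (nat_lit 76) (nat_lit 120373245371)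 (nat_lit 76) (nat_lit 7910289287) (nat_lit 4) (nat_lit 4) (nat_lit 5) (nat_lit 5) (nat_lit 5) (nat_lit 4) (nat_lit 346) (nat_lit 268) (nat_lit 106)) (XT.lf (nat_lit 0) (nat_lit 3512908309) (nat_lit 152) (nat_lit 105263472314) (nat_lit 76) (nat_lit 182071540067) (nat_lit 3) (nat_lit 5) (nat_lit 5) (nat_lit 5) (nat_lit 4) (nat_lit 4) (nat_lit 347) (nat_lit 268) (nat_lit 105))) (XT.nd (nat_lit 78) (nat_lit 0) (nat_lit 0) (XT.lf (nat_lit 0) (nat_lit 15240845065) (nat_lit 152) (nat_lit 81223086025) (nat_lit 76) (nat_lit 208046864891) (nat_lit 3) (nat_lit 5) (nat_lit 5) (nat_lit 5) (nat_lit 4) (nat_lit 4) (nat_lit 348) (nat_lit 268) (nat_lit 104)) (XT.lf (nat_lit 0) (nat_lit 27554623297) (nat_lit 152) (nat_lit 55981634992) (nat_lit 76) (nat_lit 235320585627) (nat_lit 3) (nat_lit 5) (nat_lit 5) (nat_lit 5) (nat_lit 4) (nat_lit 4) (nat_lit 349) (nat_lit 268) (nat_lit 103))))) (XT.nd (nat_lit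 312) (nat_lit 532) (nat_lit 0) (XT.nd (nat_lit 156) (nat_lit 0) (nat_lit 0) (XT.nd (nat_lit 78) (nat_lit 0) (nat_lit 0) (XT.lf (nat_lit 0) (nat_lit 7257799330) (nat_lit 684) (nat_lit 653442715) (nat_lit 684) (nat_lit 653442715) (nat_lit 64) (nat_lit 3) (nat_lit 73) (nat_lit 3) (nat_lit 73) (nat_lit 5) (nat_lit 269) (nat_lit 269) (nat_lit 182)) (XT.lf (nat_lit 76) (nat_lit 5714761710) (nat_lit 0) (nat_lit 9447237181) (nat_lit 684) (nat_lit 2380382721) (nat_lit 65) (nat_lit 5) (nat_lit 64) (nat_lit 3) (nat_lit 73) (nat_lit 5) (nat_lit 270) (nat_lit 269) (nat_lit 181))) (XT.nd (nat_lit 78) (nat_lit 0) (nat_lit 76) (XT.lf (nat_lit 76) (nat_lit 13126083514) (nat_lit 0) (nat_lit 2724225720) (nat_lit 684) (nat_lit 2125322563) (nat_lit 65) (nat_lit 5) (nat_lit 64) (nat_lit 3) (nat_lit 73) (nat_lit 5) (nat_lit 271) (nat_lit 269) (nat_lit 180)) (XT.lf (nat_lit 76) (nat_lit 2481981599) (nat_lit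 0) (nat_lit 14185625012) (nat_lit 684) (nat_lit 1758273113) (nat_lit 66) (nat_lit 5) (nat_lit 65) (nat_lit 5) (nat_lit 74) (nat_lit 5) (nat_lit 272) (nat_lit 269) (nat_lit 179)))) (XT.nd (nat_lit 156) (nat_lit 608) (nat_lit 0) (XT.nd (nat_lit 78) (nat_lit 0) (nat_lit 0) (XT.lf (nat_lit 76) (nat_lit 10295229727) (nat_lit 0) (nat_lit 7345202114) (nat_lit 684) (nat_lit 1252535825) (nat_lit 66) (nat_lit 5) (nat_lit 65) (nat_lit 5) (nat_lit 74) (nat_lit 5) (nat_lit 273) (nat_lit 269) (nat_lit 178)) (XT.lf (nat_lit 76) (nat_lit 18492390230) (nat_lit 0) (nat_lit 158645640) (nat_lit 684) (nat_lit 732975135) (nat_lit 66) (nat_lit 5) (nat_lit 65) (nat_lit 5) (nat_lit 74) (nat_lit 5) (nat_lit 274) (nat_lit 269) (nat_lit 177))) (XT.nd (nat_lit 78) (nat_lit 0) (nat_lit 0) (XT.lf (nat_lit 0) (nat_lit 41305994) (nat_lit 684) (nat_lit 12577952122) (nat_lit 760) (nat_lit 7269410044) (nat_lit 57) (nat_lit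 5) (nat_lit 66) (nat_lit 5) (nat_lit 67) (nat_lit 5) (nat_lit 275) (nat_lit 269) (nat_lit 176)) (XT.nd (nat_lit 78) (nat_lit 0) (nat_lit 76) (XT.lf (nat_lit 0) (nat_lit 837500755) (nat_lit 684) (nat_lit 4485875394) (nat_lit 760) (nat_lit 15094239604) (nat_lit 57) (nat_lit 5) (nat_lit 66) (nat_lit 5) (nat_lit 67) (nat_lit 5) (nat_lit 276) (nat_lit 269) (nat_lit 175)) (XT.lf (nat_lit 0) (nat_lit 1766040600) (nat_lit 684) (nat_lit 16871696934) (nat_lit 760) (nat_lit 2330694038) (nat_lit 58) (nat_lit 5) (nat_lit 67) (nat_lit 5) (nat_lit 68) (nat_lit 5) (nat_lit 277) (nat_lit 269) (nat_lit 174))))))) (XT.nd (nat_lit 624) (nat_lit 1140) (nat_lit 0) (XT.nd (nat_lit 312) (nat_lit 912) (nat_lit 0) (XT.nd (nat_lit 156) (nat_lit 0) (nat_lit 76) (XT.nd (nat_lit 78) (nat_lit 0) (nat_lit 0) (XT.lf (nat_lit 0) (nat_lit 2896246682) (nat_lit 684) (nat_lit 8374706927) (nat_lit 760) (nat_lit 10268117957)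 (nat_lit 58) (nat_lit 5) (nat_lit 67) (nat_lit 5) (nat_lit 68) (nat_lit 5) (nat_lit 278) (nat_lit 269) (nat_lit 173)) (XT.lf (nat_lit 76) (nat_lit 557924872) (nat_lit 0) (nat_lit 3524944105) (nat_lit 760) (nat_lit 18055422475) (nat_lit 59) (nat_lit 5) (nat_lit 58) (nat_lit 5) (nat_lit 68) (nat_lit 5) (nat_lit 279) (nat_lit 269) (nat_lit 172))) (XT.nd (nat_lit 78) (nat_lit 0) (nat_lit 0) (XT.lf (nat_lit 0) (nat_lit 5536456675) (nat_lit 684) (nat_lit 12614157026) (nat_lit 76) (nat_lit 4606518047) (nat_lit 59) (nat_lit 5) (nat_lit 68) (nat_lit 5) (nat_lit 60) (nat_lit 5) (nat_lit 280) (nat_lit 269) (nat_lit 171)) (XT.lf (nat_lit 0) (nat_lit 7112443051) (nat_lit 684) (nat_lit 3264509411) (nat_lit 76) (nat_lit 13027514805) (nat_lit 59) (nat_lit 5) (nat_lit 68) (nat_lit 5) (nat_lit 60) (nat_lit 5) (nat_lit 281) (nat_lit 269) (nat_lit 170)))) (XT.nd (nat_lit 156) (nat_lit 304) (nat_lit 0)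 (XT.nd (nat_lit 78) (nat_lit 0) (nat_lit 0) (XT.lf (nat_lit 0) (nat_lit 6762307662) (nat_lit 684) (nat_lit 2102817109) (nat_lit 760) (nat_lit 15214187297) (nat_lit 50) (nat_lit 5) (nat_lit 59) (nat_lit 5) (nat_lit 60) (nat_lit 5) (nat_lit 282) (nat_lit 269) (nat_lit 169)) (XT.lf (nat_lit 0) (nat_lit 10857035444) (nat_lit 760) (nat_lit 7492108720) (nat_lit 76) (nat_lit 6431210731) (nat_lit 50) (nat_lit 5) (nat_lit 60) (nat_lit 5) (nat_lit 51) (nat_lit 5) (nat_lit 283) (nat_lit 269) (nat_lit 168))) (XT.nd (nat_lit 78) (nat_lit 0) (nat_lit 0) (XT.lf (nat_lit 0) (nat_lit 2874849745) (nat_lit 304) (nat_lit 10145993348) (nat_lit 380) (nat_lit 12492025538) (nat_lit 46) (nat_lit 5) (nat_lit 50) (nat_lit 5) (nat_lit 51) (nat_lit 5) (nat_lit 284) (nat_lit 269) (nat_lit 167)) (XT.lf (nat_lit 0) (nat_lit 14013650925) (nat_lit 304) (nat_lit 1399249960) (nat_lit 380) (nat_lit 10863136407) (nat_lit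 46) (nat_lit 5) (nat_lit 50) (nat_lit 5) (nat_lit 51) (nat_lit 5) (nat_lit 285) (nat_lit 269) (nat_lit 166))))) (XT.nd (nat_lit 312) (nat_lit 608) (nat_lit 0) (XT.nd (nat_lit 156) (nat_lit 228) (nat_lit 0) (XT.nd (nat_lit 78) (nat_lit 304) (nat_lit 0) (XT.lf (nat_lit 0) (nat_lit 18039609855) (nat_lit 380) (nat_lit 1496173269) (nat_lit 76) (nat_lit 7535859541) (nat_lit 46) (nat_lit 5) (nat_lit 51) (nat_lit 5) (nat_lit 47) (nat_lit 5) (nat_lit 286) (nat_lit 269) (nat_lit 165)) (XT.lf (nat_lit 0) (nat_lit 10102411236) (nat_lit 304) (nat_lit 10869723049) (nat_lit 380) (nat_lit 6926199251) (nat_lit 42) (nat_lit 5) (nat_lit 46) (nat_lit 5) (nat_lit 47) (nat_lit 5) (nat_lit 287) (nat_lit 269) (nat_lit 164))) (XT.nd (nat_lit 78) (nat_lit 228) (nat_lit 0) (XT.lf (nat_lit 0) (nat_lit 22326630025) (nat_lit 304) (nat_lit 1744005011) (nat_lit 380) (nat_lit 4694784249) (nat_lit 42) (nat_lit 5) (nat_lit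 46) (nat_lit 5) (nat_lit 47) (nat_lit 5) (nat_lit 288) (nat_lit 269) (nat_lit 163)) (XT.lf (nat_lit 0) (nat_lit 5534723448) (nat_lit 228) (nat_lit 21992416165) (nat_lit 304) (nat_lit 2138592282) (nat_lit 39) (nat_lit 5) (nat_lit 42) (nat_lit 5) (nat_lit 43) (nat_lit 5) (nat_lit 289) (nat_lit 269) (nat_lit 162)))) (XT.nd (nat_lit 156) (nat_lit 228) (nat_lit 0) (XT.nd (nat_lit 78) (nat_lit 304) (nat_lit 0) (XT.lf (nat_lit 0) (nat_lit 661728398) (nat_lit 304) (nat_lit 12320408646) (nat_lit 76) (nat_lit 17621832590) (nat_lit 38) (nat_lit 5) (nat_lit 42) (nat_lit 5) (nat_lit 39) (nat_lit 5) (nat_lit 290) (nat_lit 269) (nat_lit 161)) (XT.lf (nat_lit 0) (nat_lit 40915121) (nat_lit 304) (nat_lit 3484540693) (nat_lit 380) (nat_lit 28062170335) (nat_lit 34) (nat_lit 5) (nat_lit 38) (nat_lit 5) (nat_lit 39) (nat_lit 5) (nat_lit 291) (nat_lit 269) (nat_lit 160))) (XT.nd (nat_lit 78) (nat_lit 228)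 (nat_lit 0) (XT.lf (nat_lit 0) (nat_lit 6840511091) (nat_lit 380) (nat_lit 19272936311) (nat_lit 76) (nat_lit 6491632825) (nat_lit 34) (nat_lit 5) (nat_lit 39) (nat_lit 5) (nat_lit 35) (nat_lit 5) (nat_lit 292) (nat_lit 269) (nat_lit 159)) (XT.nd (nat_lit 78) (nat_lit 228) (nat_lit 0) (XT.lf (nat_lit 0) (nat_lit 10373465632) (nat_lit 380) (nat_lit 6448529703) (nat_lit 76) (nat_lit 16848825122) (nat_lit 34) (nat_lit 5) (nat_lit 39) (nat_lit 5) (nat_lit 35) (nat_lit 5) (nat_lit 293) (nat_lit 269) (nat_lit 158)) (XT.lf (nat_lit 0) (nat_lit 7243276628) (nat_lit 228) (nat_lit 6948139009) (nat_lit 304) (nat_lit 20593034461) (nat_lit 31) (nat_lit 5) (nat_lit 34) (nat_lit 5) (nat_lit 35) (nat_lit 5) (nat_lit 294) (nat_lit 269) (nat_lit 157))))))))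
noncomputable def xc198 : XT := (XT.nd (nat_lit 1326) (nat_lit 532) (nat_lit 0) (XT.nd (nat_lit 624) (nat_lit 532) (nat_lit 0) (XT.nd (nat_lit 312) (nat_lit 456) (nat_lit 0) (XT.nd (nat_lit 156) (nat_lit 228) (nat_lit 0) (XT.nd (nat_lit 78) (nat_lit 0) (nat_lit 0) (XT.lf (nat_lit 0) (nat_lit 18360032844) (nat_lit 304) (nat_lit 14165719483) (nat_lit 76) (nat_lit 3420039250) (nat_lit 31) (nat_lit 5) (nat_lit 35) (nat_lit 5) (nat_lit 32) (nat_lit 5) (nat_lit 295) (nat_lit 269) (nat_lit 156)) (XT.lf (nat_lit 0) (nat_lit 22846588492) (nat_lit 304) (nat_lit 240914327) (nat_lit 76) (nat_lit 14072239877) (nat_lit 31) (nat_lit 5) (nat_lit 35) (nat_lit 5) (nat_lit 32) (nat_lit 5) (nat_lit 296) (nat_lit 269) (nat_lit 155))) (XT.nd (nat_lit 78) (nat_lit 0) (nat_lit 0) (XT.lf (nat_lit 0) (nat_lit 14850174544) (nat_lit 228) (nat_lit 12934963232) (nat_lit 304) (nat_lit 10637887394) (nat_lit 28) (nat_lit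 5) (nat_lit 31) (nat_lit 5) (nat_lit 32) (nat_lit 5) (nat_lit 297) (nat_lit 269) (nat_lit 154)) (XT.lf (nat_lit 0) (nat_lit 30699011749) (nat_lit 228) (nat_lit 2271614449) (nat_lit 304) (nat_lit 6778861263) (nat_lit 28) (nat_lit 5) (nat_lit 31) (nat_lit 5) (nat_lit 32) (nat_lit 5) (nat_lit 298) (nat_lit 269) (nat_lit 153)))) (XT.nd (nat_lit 156) (nat_lit 228) (nat_lit 0) (XT.nd (nat_lit 78) (nat_lit 76) (nat_lit 0) (XT.lf (nat_lit 0) (nat_lit 6253716434) (nat_lit 152) (nat_lit 32394762394) (nat_lit 228) (nat_lit 2482155051) (nat_lit 26) (nat_lit 5) (nat_lit 28) (nat_lit 5) (nat_lit 29) (nat_lit 5) (nat_lit 299) (nat_lit 269) (nat_lit 152)) (XT.lf (nat_lit 0) (nat_lit 2153599266) (nat_lit 228) (nat_lit 20012456270) (nat_lit 76) (nat_lit 20403753630) (nat_lit 25) (nat_lit 5) (nat_lit 28) (nat_lit 5) (nat_lit 26) (nat_lit 5) (nat_lit 300) (nat_lit 269) (nat_lit 151))) (XT.nd (nat_lit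 78) (nat_lit 228) (nat_lit 0) (XT.lf (nat_lit 0) (nat_lit 6934047829) (nat_lit 228) (nat_lit 4450392576) (nat_lit 76) (nat_lit 32694665489) (nat_lit 25) (nat_lit 5) (nat_lit 28) (nat_lit 5) (nat_lit 26) (nat_lit 5) (nat_lit 301) (nat_lit 269) (nat_lit 150)) (XT.lf (nat_lit 0) (nat_lit 12143840633) (nat_lit 304) (nat_lit 33378545266) (nat_lit 76) (nat_lit 131978221) (nat_lit 22) (nat_lit 5) (nat_lit 26) (nat_lit 5) (nat_lit 23) (nat_lit 5) (nat_lit 302) (nat_lit 269) (nat_lit 149))))) (XT.nd (nat_lit 312) (nat_lit 380) (nat_lit 0) (XT.nd (nat_lit 156) (nat_lit 152) (nat_lit 0) (XT.nd (nat_lit 78) (nat_lit 0) (nat_lit 0) (XT.lf (nat_lit 0) (nat_lit 17873932378) (nat_lit 304) (nat_lit 17504416672) (nat_lit 76) (nat_lit 11917057890) (nat_lit 22) (nat_lit 5) (nat_lit 26) (nat_lit 5) (nat_lit 23) (nat_lit 5) (nat_lit 303) (nat_lit 269) (nat_lit 148)) (XT.lf (nat_lit 0) (nat_lit 23887265863)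 (nat_lit 304) (nat_lit 841136498) (nat_lit 76) (nat_lit 24290274249) (nat_lit 22) (nat_lit 5) (nat_lit 26) (nat_lit 5) (nat_lit 23) (nat_lit 5) (nat_lit 304) (nat_lit 269) (nat_lit 147))) (XT.nd (nat_lit 78) (nat_lit 0) (nat_lit 0) (XT.lf (nat_lit 0) (nat_lit 17201525988) (nat_lit 152) (nat_lit 13265196588) (nat_lit 228) (nat_lit 20348125377) (nat_lit 20) (nat_lit 5) (nat_lit 22) (nat_lit 5) (nat_lit 23) (nat_lit 5) (nat_lit 305) (nat_lit 269) (nat_lit 146)) (XT.lf (nat_lit 0) (nat_lit 36171255974) (nat_lit 152) (nat_lit 1215115072) (nat_lit 228) (nat_lit 15313906363) (nat_lit 20) (nat_lit 5) (nat_lit 22) (nat_lit 5) (nat_lit 23) (nat_lit 5) (nat_lit 306) (nat_lit 269) (nat_lit 145)))) (XT.nd (nat_lit 156) (nat_lit 228) (nat_lit 0) (XT.nd (nat_lit 78) (nat_lit 0) (nat_lit 0) (XT.lf (nat_lit 0) (nat_lit 1267283769) (nat_lit 152) (nat_lit 43580174493) (nat_lit 228) (nat_lit 9822757253)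 (nat_lit 18) (nat_lit 5) (nat_lit 20) (nat_lit 5) (nat_lit 21) (nat_lit 5) (nat_lit 307) (nat_lit 269) (nat_lit 144)) (XT.lf (nat_lit 0) (nat_lit 20502543345) (nat_lit 152) (nat_lit 32475755199) (nat_lit 228) (nat_lit 3745526564) (nat_lit 18) (nat_lit 5) (nat_lit 20) (nat_lit 5) (nat_lit 21) (nat_lit 5) (nat_lit 308) (nat_lit 269) (nat_lit 143))) (XT.nd (nat_lit 78) (nat_lit 152) (nat_lit 0) (XT.lf (nat_lit 0) (nat_lit 2548465904) (nat_lit 228) (nat_lit 18225733084) (nat_lit 76) (nat_lit 38104004656) (nat_lit 17) (nat_lit 5) (nat_lit 20) (nat_lit 5) (nat_lit 18) (nat_lit 5) (nat_lit 309) (nat_lit 269) (nat_lit 142)) (XT.nd (nat_lit 78) (nat_lit 0) (nat_lit 0) (XT.lf (nat_lit 0) (nat_lit 624330340) (nat_lit 152) (nat_lit 8414086476) (nat_lit 228) (nat_lit 52098465753) (nat_lit 15) (nat_lit 5) (nat_lit 17) (nat_lit 5) (nat_lit 18) (nat_lit 5) (nat_lit 310) (nat_lit 269) (nat_lit 141))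 (XT.lf (nat_lit 0) (nat_lit 16235275991) (nat_lit 228) (nat_lit 42523623620) (nat_lit 76) (nat_lit 4730483123) (nat_lit 15) (nat_lit 5) (nat_lit 18) (nat_lit 5) (nat_lit 16) (nat_lit 5) (nat_lit 311) (nat_lit 269) (nat_lit 140))))))) (XT.nd (nat_lit 624) (nat_lit 228) (nat_lit 0) (XT.nd (nat_lit 312) (nat_lit 152) (nat_lit 0) (XT.nd (nat_lit 156) (nat_lit 152) (nat_lit 0) (XT.nd (nat_lit 78) (nat_lit 0) (nat_lit 0) (XT.lf (nat_lit 0) (nat_lit 23927468024) (nat_lit 228) (nat_lit 23776895987) (nat_lit 76) (nat_lit 18248376860) (nat_lit 15) (nat_lit 5) (nat_lit 18) (nat_lit 5) (nat_lit 16) (nat_lit 5) (nat_lit 312) (nat_lit 269) (nat_lit 139)) (XT.lf (nat_lit 0) (nat_lit 32001940185) (nat_lit 228) (nat_lit 4096366794) (nat_lit 76) (nat_lit 32441083509) (nat_lit 15) (nat_lit 5) (nat_lit 18) (nat_lit 5) (nat_lit 16) (nat_lit 5) (nat_lit 313) (nat_lit 269) (nat_lit 138))) (XT.nd (nat_lit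 78) (nat_lit 0) (nat_lit 0) (XT.lf (nat_lit 0) (nat_lit 17112530195) (nat_lit 152) (nat_lit 23632561768) (nat_lit 228) (nat_lit 30497039586) (nat_lit 13) (nat_lit 5) (nat_lit 15) (nat_lit 5) (nat_lit 16) (nat_lit 5) (nat_lit 314) (nat_lit 269) (nat_lit 137)) (XT.lf (nat_lit 0) (nat_lit 39520776442) (nat_lit 152) (nat_lit 10471834230) (nat_lit 228) (nat_lit 24084044966) (nat_lit 13) (nat_lit 5) (nat_lit 15) (nat_lit 5) (nat_lit 16) (nat_lit 5) (nat_lit 315) (nat_lit 269) (nat_lit 136)))) (XT.nd (nat_lit 156) (nat_lit 76) (nat_lit 0) (XT.nd (nat_lit 78) (nat_lit 76) (nat_lit 0) (XT.lf (nat_lit 0) (nat_lit 59752681670) (nat_lit 228) (nat_lit 14058972506) (nat_lit 76) (nat_lit 3238749073) (nat_lit 13) (nat_lit 5) (nat_lit 16) (nat_lit 5) (nat_lit 14) (nat_lit 4) (nat_lit 316) (nat_lit 269) (nat_lit 135)) (XT.lf (nat_lit 0) (nat_lit 7528992875) (nat_lit 76) (nat_lit 62759001815) (nat_lit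 152) (nat_lit 9870487468) (nat_lit 12) (nat_lit 5) (nat_lit 13) (nat_lit 5) (nat_lit 14) (nat_lit 4) (nat_lit 317) (nat_lit 269) (nat_lit 134))) (XT.nd (nat_lit 78) (nat_lit 76) (nat_lit 0) (XT.lf (nat_lit 0) (nat_lit 30681410154) (nat_lit 76) (nat_lit 50904825861) (nat_lit 152) (nat_lit 1823926429) (nat_lit 12) (nat_lit 5) (nat_lit 13) (nat_lit 5) (nat_lit 14) (nat_lit 4) (nat_lit 318) (nat_lit 269) (nat_lit 133)) (XT.lf (nat_lit 0) (nat_lit 6411046368) (nat_lit 152) (nat_lit 31939377047) (nat_lit 76) (nat_lit 48468930471) (nat_lit 11) (nat_lit 5) (nat_lit 13) (nat_lit 5) (nat_lit 12) (nat_lit 5) (nat_lit 319) (nat_lit 269) (nat_lit 132))))) (XT.nd (nat_lit 312) (nat_lit 76) (nat_lit 0) (XT.nd (nat_lit 156) (nat_lit 0) (nat_lit 0) (XT.nd (nat_lit 78) (nat_lit 152) (nat_lit 0) (XT.lf (nat_lit 0) (nat_lit 14994685143) (nat_lit 152) (nat_lit 10143256680) (nat_lit 76) (nat_lit 65259662200)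 (nat_lit 11) (nat_lit 5) (nat_lit 13) (nat_lit 5) (nat_lit 12) (nat_lit 5) (nat_lit 320) (nat_lit 269) (nat_lit 131)) (XT.lf (nat_lit 0) (nat_lit 13161222242) (nat_lit 152) (nat_lit 11050065486) (nat_lit 228) (nat_lit 69933294424) (nat_lit 9) (nat_lit 5) (nat_lit 11) (nat_lit 5) (nat_lit 12) (nat_lit 5) (nat_lit 321) (nat_lit 269) (nat_lit 130))) (XT.nd (nat_lit 78) (nat_lit 0) (nat_lit 0) (XT.lf (nat_lit 0) (nat_lit 34120066473) (nat_lit 228) (nat_lit 60151203947) (nat_lit 76) (nat_lit 3796075825) (nat_lit 9) (nat_lit 5) (nat_lit 12) (nat_lit 5) (nat_lit 10) (nat_lit 4) (nat_lit 322) (nat_lit 269) (nat_lit 129)) (XT.lf (nat_lit 0) (nat_lit 44703835327) (nat_lit 228) (nat_lit 38461176899) (nat_lit 76) (nat_lit 19012262910) (nat_lit 9) (nat_lit 5) (nat_lit 12) (nat_lit 5) (nat_lit 10) (nat_lit 4) (nat_lit 323) (nat_lit 269) (nat_lit 128)))) (XT.nd (nat_lit 156) (nat_lit 0) (nat_lit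 0) (XT.nd (nat_lit 78) (nat_lit 76) (nat_lit 0) (XT.lf (nat_lit 0) (nat_lit 55815271250) (nat_lit 228) (nat_lit 15689113354) (nat_lit 76) (nat_lit 34988395891) (nat_lit 9) (nat_lit 5) (nat_lit 12) (nat_lit 5) (nat_lit 10) (nat_lit 4) (nat_lit 324) (nat_lit 269) (nat_lit 127)) (XT.lf (nat_lit 0) (nat_lit 8490969951) (nat_lit 76) (nat_lit 59122427928) (nat_lit 152) (nat_lit 43404111064) (nat_lit 8) (nat_lit 5) (nat_lit 9) (nat_lit 5) (nat_lit 10) (nat_lit 4) (nat_lit 325) (nat_lit 269) (nat_lit 126))) (XT.nd (nat_lit 78) (nat_lit 0) (nat_lit 0) (XT.lf (nat_lit 0) (nat_lit 34422438392) (nat_lit 76) (nat_lit 45843279183) (nat_lit 152) (nat_lit 35489545487) (nat_lit 8) (nat_lit 5) (nat_lit 9) (nat_lit 5) (nat_lit 10) (nat_lit 4) (nat_lit 326) (nat_lit 269) (nat_lit 125)) (XT.nd (nat_lit 78) (nat_lit 0) (nat_lit 0) (XT.lf (nat_lit 0) (nat_lit 61648280618) (nat_lit 76) (nat_lit 31901024076)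 (nat_lit 152) (nat_lit 27180671038) (nat_lit 8) (nat_lit 5) (nat_lit 9) (nat_lit 5) (nat_lit 10) (nat_lit 4) (nat_lit 327) (nat_lit 269) (nat_lit 124)) (XT.lf (nat_lit 0) (nat_lit 90233320063) (nat_lit 76) (nat_lit 17262466762) (nat_lit 152) (nat_lit 18457704682) (nat_lit 8) (nat_lit 5) (nat_lit 9) (nat_lit 5) (nat_lit 10) (nat_lit 4) (nat_lit 328) (nat_lit 269) (nat_lit 123))))))))
noncomputable def xc199 : XT := (XT.nd (nat_lit 1326) (nat_lit 76) (nat_lit 0) (XT.nd (nat_lit 624) (nat_lit 76) (nat_lit 0) (XT.nd (nat_lit 312) (nat_lit 76) (nat_lit 0) (XT.nd (nat_lit 156) (nat_lit 0) (nat_lit 0) (XT.nd (nat_lit 78) (nat_lit 152) (nat_lit 0) (XT.lf (nat_lit 0) (nat_lit 120245616344) (nat_lit 76) (nat_lit 1892753532) (nat_lit 152) (nat_lit 9299877451) (nat_lit 8) (nat_lit 5) (nat_lit 9) (nat_lit 5) (nat_lit 10) (nat_lit 4) (nat_lit 329) (nat_lit 269) (nat_lit 122)) (XT.lf (nat_lit 0)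 (nat_lit 765622667) (nat_lit 152) (nat_lit 122376000036) (nat_lit 76) (nat_lit 14032379967) (nat_lit 6) (nat_lit 5) (nat_lit 8) (nat_lit 5) (nat_lit 7) (nat_lit 4) (nat_lit 330) (nat_lit 269) (nat_lit 121))) (XT.nd (nat_lit 78) (nat_lit 0) (nat_lit 0) (XT.lf (nat_lit 0) (nat_lit 11244377787) (nat_lit 152) (nat_lit 100898870340) (nat_lit 76) (nat_lit 31034551635) (nat_lit 6) (nat_lit 5) (nat_lit 8) (nat_lit 5) (nat_lit 7) (nat_lit 4) (nat_lit 331) (nat_lit 269) (nat_lit 120)) (XT.lf (nat_lit 0) (nat_lit 22245954543) (nat_lit 152) (nat_lit 78349750660) (nat_lit 76) (nat_lit 48886139863) (nat_lit 6) (nat_lit 5) (nat_lit 8) (nat_lit 5) (nat_lit 7) (nat_lit 4) (nat_lit 332) (nat_lit 269) (nat_lit 119)))) (XT.nd (nat_lit 156) (nat_lit 76) (nat_lit 0) (XT.nd (nat_lit 78) (nat_lit 0) (nat_lit 0) (XT.lf (nat_lit 0) (nat_lit 33796547163) (nat_lit 152) (nat_lit 54674952614) (nat_lit 76) (nat_lit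 67629648432) (nat_lit 6) (nat_lit 5) (nat_lit 8) (nat_lit 5) (nat_lit 7) (nat_lit 4) (nat_lit 333) (nat_lit 269) (nat_lit 118)) (XT.lf (nat_lit 0) (nat_lit 45923657059) (nat_lit 152) (nat_lit 29818107638) (nat_lit 76) (nat_lit 87309704743) (nat_lit 6) (nat_lit 5) (nat_lit 8) (nat_lit 5) (nat_lit 7) (nat_lit 4) (nat_lit 334) (nat_lit 269) (nat_lit 117))) (XT.nd (nat_lit 78) (nat_lit 76) (nat_lit 0) (XT.lf (nat_lit 0) (nat_lit 58656158303) (nat_lit 152) (nat_lit 3720032765) (nat_lit 76) (nat_lit 107973166074) (nat_lit 6) (nat_lit 5) (nat_lit 8) (nat_lit 5) (nat_lit 7) (nat_lit 4) (nat_lit 335) (nat_lit 269) (nat_lit 116)) (XT.lf (nat_lit 0) (nat_lit 24464424648) (nat_lit 76) (nat_lit 47941899955) (nat_lit 152) (nat_lit 105586764723) (nat_lit 5) (nat_lit 5) (nat_lit 6) (nat_lit 5) (nat_lit 7) (nat_lit 4) (nat_lit 336) (nat_lit 269) (nat_lit 115))))) (XT.nd (nat_lit 312) (nat_lit 76) (nat_lit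 0) (XT.nd (nat_lit 156) (nat_lit 0) (nat_lit 0) (XT.nd (nat_lit 78) (nat_lit 0) (nat_lit 0) (XT.lf (nat_lit 0) (nat_lit 54185745263) (nat_lit 76) (nat_lit 32720356412) (nat_lit 152) (nat_lit 99109803319) (nat_lit 5) (nat_lit 5) (nat_lit 6) (nat_lit 5) (nat_lit 7) (nat_lit 4) (nat_lit 337) (nat_lit 269) (nat_lit 114)) (XT.lf (nat_lit 0) (nat_lit 85391693045) (nat_lit 76) (nat_lit 16738319225) (nat_lit 152) (nat_lit 92309893845) (nat_lit 5) (nat_lit 5) (nat_lit 6) (nat_lit 5) (nat_lit 7) (nat_lit 4) (nat_lit 338) (nat_lit 269) (nat_lit 113))) (XT.nd (nat_lit 78) (nat_lit 0) (nat_lit 0) (XT.lf (nat_lit 0) (nat_lit 118114963653) (nat_lit 152) (nat_lit 85129241824) (nat_lit 0) (nat_lit 40911362) (nat_lit 5) (nat_lit 5) (nat_lit 7) (nat_lit 4) (nat_lit 5) (nat_lit 4) (nat_lit 339) (nat_lit 269) (nat_lit 112)) (XT.lf (nat_lit 0) (nat_lit 135172777206) (nat_lit 152) (nat_lit 60290058036) (nat_lit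 0) (nat_lit 17096073853) (nat_lit 5) (nat_lit 5) (nat_lit 7) (nat_lit 4) (nat_lit 5) (nat_lit 4) (nat_lit 340) (nat_lit 269) (nat_lit 111)))) (XT.nd (nat_lit 156) (nat_lit 76) (nat_lit 0) (XT.nd (nat_lit 78) (nat_lit 0) (nat_lit 0) (XT.lf (nat_lit 0) (nat_lit 153082734700) (nat_lit 152) (nat_lit 34210188719) (nat_lit 0) (nat_lit 35003506525) (nat_lit 5) (nat_lit 5) (nat_lit 7) (nat_lit 4) (nat_lit 5) (nat_lit 4) (nat_lit 341) (nat_lit 269) (nat_lit 110)) (XT.lf (nat_lit 0) (nat_lit 171887478889) (nat_lit 152) (nat_lit 6827538948) (nat_lit 0) (nat_lit 53805846123) (nat_lit 5) (nat_lit 5) (nat_lit 7) (nat_lit 4) (nat_lit 5) (nat_lit 4) (nat_lit 342) (nat_lit 269) (nat_lit 109))) (XT.nd (nat_lit 78) (nat_lit 0) (nat_lit 0) (XT.lf (nat_lit 0) (nat_lit 22647964363) (nat_lit 76) (nat_lit 169337416807) (nat_lit 76) (nat_lit 51253493953) (nat_lit 4) (nat_lit 4) (nat_lit 5) (nat_lit 5) (nat_lit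 5) (nat_lit 4) (nat_lit 343) (nat_lit 269) (nat_lit 108)) (XT.nd (nat_lit 78) (nat_lit 0) (nat_lit 0) (XT.lf (nat_lit 0) (nat_lit 53833142959) (nat_lit 76) (nat_lit 159370000474) (nat_lit 76) (nat_lit 41283896585) (nat_lit 4) (nat_lit 4) (nat_lit 5) (nat_lit 5) (nat_lit 5) (nat_lit 4) (nat_lit 344) (nat_lit 269) (nat_lit 107)) (XT.lf (nat_lit 0) (nat_lit 86576497996) (nat_lit 76) (nat_lit 148904664572) (nat_lit 76) (nat_lit 30816483507) (nat_lit 4) (nat_lit 4) (nat_lit 5) (nat_lit 5) (nat_lit 5) (nat_lit 4) (nat_lit 345) (nat_lit 269) (nat_lit 106))))))) (XT.nd (nat_lit 31902) (nat_lit 0) (nat_lit 4104) (XT.nd (nat_lit 31590) (nat_lit 0) (nat_lit 4636) (XT.nd (nat_lit 156) (nat_lit 76) (nat_lit 0) (XT.nd (nat_lit 78) (nat_lit 0) (nat_lit 0) (XT.lf (nat_lit 0) (nat_lit 120955989840) (nat_lit 76) (nat_lit 137916491634) (nat_lit 76) (nat_lit 19826332305) (nat_lit 4) (nat_lit 4) (nat_lit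 5) (nat_lit 5) (nat_lit 5) (nat_lit 4) (nat_lit 346) (nat_lit 269) (nat_lit 105)) (XT.lf (nat_lit 0) (nat_lit 157053474426) (nat_lit 76) (nat_lit 126379319344) (nat_lit 76) (nat_lit 8287275954) (nat_lit 4) (nat_lit 4) (nat_lit 5) (nat_lit 5) (nat_lit 5) (nat_lit 4) (nat_lit 347) (nat_lit 269) (nat_lit 104))) (XT.nd (nat_lit 78) (nat_lit 0) (nat_lit 0) (XT.lf (nat_lit 0) (nat_lit 3705634479) (nat_lit 152) (nat_lit 110497287050) (nat_lit 76) (nat_lit 191186506952) (nat_lit 3) (nat_lit 5) (nat_lit 5) (nat_lit 5) (nat_lit 4) (nat_lit 4) (nat_lit 348) (nat_lit 269) (nat_lit 103)) (XT.lf (nat_lit 0) (nat_lit 16019154703) (nat_lit 152) (nat_lit 85256279489) (nat_lit 76) (nat_lit 218460055642) (nat_lit 3) (nat_lit 5) (nat_lit 5) (nat_lit 5) (nat_lit 4) (nat_lit 4) (nat_lit 349) (nat_lit 269) (nat_lit 102)))) (XT.nd (nat_lit 156) (nat_lit 0) (nat_lit 0) (XT.nd (nat_lit 78) (nat_lit 0) (nat_lit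 0) (XT.lf (nat_lit 0) (nat_lit 7811942753) (nat_lit 684) (nat_lit 585191639) (nat_lit 684) (nat_lit 585191639) (nat_lit 64) (nat_lit 3) (nat_lit 73) (nat_lit 3) (nat_lit 73) (nat_lit 5) (nat_lit 270) (nat_lit 270) (nat_lit 180)) (XT.lf (nat_lit 76) (nat_lit 6199090632) (nat_lit 0) (nat_lit 10088401059) (nat_lit 684) (nat_lit 2111676891) (nat_lit 65) (nat_lit 5) (nat_lit 64) (nat_lit 3) (nat_lit 73) (nat_lit 5) (nat_lit 271) (nat_lit 270) (nat_lit 179))) (XT.nd (nat_lit 78) (nat_lit 0) (nat_lit 76) (XT.lf (nat_lit 76) (nat_lit 13971521820) (nat_lit 0) (nat_lit 3021200834) (nat_lit 684) (nat_lit 1862326818) (nat_lit 65) (nat_lit 5) (nat_lit 64) (nat_lit 3) (nat_lit 73) (nat_lit 5) (nat_lit 272) (nat_lit 270) (nat_lit 178)) (XT.lf (nat_lit 76) (nat_lit 2813685343) (nat_lit 0) (nat_lit 15021388588) (nat_lit 684) (nat_lit 1493615413) (nat_lit 66) (nat_lit 5) (nat_lit 65) (nat_lit 5) (nat_lit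 74) (nat_lit 5) (nat_lit 273) (nat_lit 270) (nat_lit 177))))) (XT.nd (nat_lit 312) (nat_lit 0) (nat_lit 76) (XT.nd (nat_lit 156) (nat_lit 608) (nat_lit 0) (XT.nd (nat_lit 78) (nat_lit 0) (nat_lit 0) (XT.lf (nat_lit 76) (nat_lit 11007709941) (nat_lit 0) (nat_lit 7832921577) (nat_lit 684) (nat_lit 979380373) (nat_lit 66) (nat_lit 5) (nat_lit 65) (nat_lit 5) (nat_lit 74) (nat_lit 5) (nat_lit 274) (nat_lit 270) (nat_lit 176)) (XT.lf (nat_lit 76) (nat_lit 19605313291) (nat_lit 0) (nat_lit 281301120) (nat_lit 684) (nat_lit 449831279) (nat_lit 66) (nat_lit 5) (nat_lit 65) (nat_lit 5) (nat_lit 74) (nat_lit 5) (nat_lit 275) (nat_lit 270) (nat_lit 175))) (XT.nd (nat_lit 78) (nat_lit 0) (nat_lit 0) (XT.lf (nat_lit 0) (nat_lit 339683575) (nat_lit 684) (nat_lit 12992063777) (nat_lit 760) (nat_lit 7535074178) (nat_lit 57) (nat_lit 5) (nat_lit 66) (nat_lit 5) (nat_lit 67) (nat_lit 5) (nat_lit 276)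 (nat_lit 270) (nat_lit 174)) (XT.lf (nat_lit 0) (nat_lit 1161577965) (nat_lit 684) (nat_lit 4505611116) (nat_lit 760) (nat_lit 15755802662) (nat_lit 57) (nat_lit 5) (nat_lit 66) (nat_lit 5) (nat_lit 67) (nat_lit 5) (nat_lit 277) (nat_lit 270) (nat_lit 173)))) (XT.nd (nat_lit 156) (nat_lit 0) (nat_lit 0) (XT.nd (nat_lit 78) (nat_lit 0) (nat_lit 0) (XT.lf (nat_lit 0) (nat_lit 2125145812) (nat_lit 684) (nat_lit 17497996465) (nat_lit 760) (nat_lit 2378842439) (nat_lit 58) (nat_lit 5) (nat_lit 67) (nat_lit 5) (nat_lit 68) (nat_lit 5) (nat_lit 278) (nat_lit 270) (nat_lit 172)) (XT.lf (nat_lit 0) (nat_lit 3298966808) (nat_lit 684) (nat_lit 8586503878) (nat_lit 760) (nat_lit 10716394044) (nat_lit 58) (nat_lit 5) (nat_lit 67) (nat_lit 5) (nat_lit 68) (nat_lit 5) (nat_lit 279) (nat_lit 270) (nat_lit 171))) (XT.nd (nat_lit 78) (nat_lit 0) (nat_lit 76) (XT.lf (nat_lit 76) (nat_lit 789421795) (nat_lit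 0) (nat_lit 3746395877) (nat_lit 760) (nat_lit 18695743305) (nat_lit 59) (nat_lit 5) (nat_lit 58) (nat_lit 5) (nat_lit 68) (nat_lit 5) (nat_lit 280) (nat_lit 270) (nat_lit 170)) (XT.nd (nat_lit 78) (nat_lit 0) (nat_lit 0) (XT.lf (nat_lit 0) (nat_lit 6049564724) (nat_lit 684) (nat_lit 13037292023) (nat_lit 76) (nat_lit 4795169913) (nat_lit 59) (nat_lit 5) (nat_lit 68) (nat_lit 5) (nat_lit 60) (nat_lit 5) (nat_lit 281) (nat_lit 270) (nat_lit 169)) (XT.lf (nat_lit 0) (nat_lit 7693098742) (nat_lit 684) (nat_lit 3230046449) (nat_lit 76) (nat_lit 13639200987) (nat_lit 59) (nat_lit 5) (nat_lit 68) (nat_lit 5) (nat_lit 60) (nat_lit 5) (nat_lit 282) (nat_lit 270) (nat_lit 168))))))))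
noncomputable def xc200 : XT := (XT.nd (nat_lit 1248) (nat_lit 1140) (nat_lit 0) (XT.nd (nat_lit 624) (nat_lit 836) (nat_lit 0) (XT.nd (nat_lit 312) (nat_lit 532) (nat_lit 0) (XT.nd (nat_lit 156) (nat_lit 304) (nat_lit 0) (XT.nd (nat_lit 78) (nat_lit 0) (nat_lit 0) (XT.lf (nat_lit 0) (nat_lit 7294922954) (nat_lit 684) (nat_lit 2230812399) (nat_lit 760) (nat_lit 15745633862) (nat_lit 50) (nat_lit 5) (nat_lit 59) (nat_lit 5) (nat_lit 60) (nat_lit 5) (nat_lit 283) (nat_lit 270) (nat_lit 167)) (XT.lf (nat_lit 0) (nat_lit 11606551523) (nat_lit 760) (nat_lit 7669794931) (nat_lit 76) (nat_lit 6731701791) (nat_lit 50) (nat_lit 5) (nat_lit 60) (nat_lit 5) (nat_lit 51) (nat_lit 5) (nat_lit 284) (nat_lit 270) (nat_lit 166))) (XT.nd (nat_lit 78) (nat_lit 0) (nat_lit 0) (XT.lf (nat_lit 0) (nat_lit 3212335341) (nat_lit 304) (nat_lit 10659397929) (nat_lit 380) (nat_lit 12905842411) (nat_lit 46) (nat_lit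 5) (nat_lit 50) (nat_lit 5) (nat_lit 51) (nat_lit 5) (nat_lit 285) (nat_lit 270) (nat_lit 165)) (XT.lf (nat_lit 0) (nat_lit 14898850718) (nat_lit 304) (nat_lit 1475026661) (nat_lit 380) (nat_lit 11205546176) (nat_lit 46) (nat_lit 5) (nat_lit 50) (nat_lit 5) (nat_lit 51) (nat_lit 5) (nat_lit 286) (nat_lit 270) (nat_lit 164)))) (XT.nd (nat_lit 156) (nat_lit 228) (nat_lit 0) (XT.nd (nat_lit 78) (nat_lit 304) (nat_lit 0) (XT.lf (nat_lit 0) (nat_lit 19122771941) (nat_lit 380) (nat_lit 1385245147) (nat_lit 76) (nat_lit 7907292411) (nat_lit 46) (nat_lit 5) (nat_lit 51) (nat_lit 5) (nat_lit 47) (nat_lit 5) (nat_lit 287) (nat_lit 270) (nat_lit 163)) (XT.lf (nat_lit 0) (nat_lit 10790272829) (nat_lit 304) (nat_lit 11405875169) (nat_lit 380) (nat_lit 7087516419) (nat_lit 42) (nat_lit 5) (nat_lit 46) (nat_lit 5) (nat_lit 47) (nat_lit 5) (nat_lit 288) (nat_lit 270) (nat_lit 162))) (XT.nd (nat_lit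 78) (nat_lit 228) (nat_lit 0) (XT.lf (nat_lit 0) (nat_lit 23617000603) (nat_lit 304) (nat_lit 1824220469) (nat_lit 380) (nat_lit 4753339847) (nat_lit 42) (nat_lit 5) (nat_lit 46) (nat_lit 5) (nat_lit 47) (nat_lit 5) (nat_lit 289) (nat_lit 270) (nat_lit 161)) (XT.lf (nat_lit 0) (nat_lit 5991566404) (nat_lit 228) (nat_lit 23073945338) (nat_lit 304) (nat_lit 2074666356) (nat_lit 39) (nat_lit 5) (nat_lit 42) (nat_lit 5) (nat_lit 43) (nat_lit 5) (nat_lit 290) (nat_lit 270) (nat_lit 160))))) (XT.nd (nat_lit 312) (nat_lit 456) (nat_lit 0) (XT.nd (nat_lit 156) (nat_lit 0) (nat_lit 0) (XT.nd (nat_lit 78) (nat_lit 304) (nat_lit 0) (XT.lf (nat_lit 0) (nat_lit 852326339) (nat_lit 304) (nat_lit 12759019896) (nat_lit 76) (nat_lit 18514275436) (nat_lit 38) (nat_lit 5) (nat_lit 42) (nat_lit 5) (nat_lit 39) (nat_lit 5) (nat_lit 291) (nat_lit 270) (nat_lit 159)) (XT.lf (nat_lit 0) (nat_lit 217508620)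 (nat_lit 304) (nat_lit 3636956135) (nat_lit 380) (nat_lit 29304266970) (nat_lit 34) (nat_lit 5) (nat_lit 38) (nat_lit 5) (nat_lit 39) (nat_lit 5) (nat_lit 292) (nat_lit 270) (nat_lit 158))) (XT.nd (nat_lit 78) (nat_lit 0) (nat_lit 0) (XT.lf (nat_lit 0) (nat_lit 7328323970) (nat_lit 380) (nat_lit 20062789856) (nat_lit 76) (nat_lit 6836322548) (nat_lit 34) (nat_lit 5) (nat_lit 39) (nat_lit 5) (nat_lit 35) (nat_lit 5) (nat_lit 293) (nat_lit 270) (nat_lit 157)) (XT.lf (nat_lit 0) (nat_lit 11030983985) (nat_lit 380) (nat_lit 6605438788) (nat_lit 76) (nat_lit 17710416932) (nat_lit 34) (nat_lit 5) (nat_lit 39) (nat_lit 5) (nat_lit 35) (nat_lit 5) (nat_lit 294) (nat_lit 270) (nat_lit 156)))) (XT.nd (nat_lit 156) (nat_lit 228) (nat_lit 0) (XT.nd (nat_lit 78) (nat_lit 0) (nat_lit 0) (XT.lf (nat_lit 0) (nat_lit 7768288224) (nat_lit 228) (nat_lit 7267474105) (nat_lit 304) (nat_lit 21480619551)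 (nat_lit 31) (nat_lit 5) (nat_lit 34) (nat_lit 5) (nat_lit 35) (nat_lit 5) (nat_lit 295) (nat_lit 270) (nat_lit 155)) (XT.lf (nat_lit 0) (nat_lit 19406809907) (nat_lit 304) (nat_lit 14712386213) (nat_lit 76) (nat_lit 3616920621) (nat_lit 31) (nat_lit 5) (nat_lit 35) (nat_lit 5) (nat_lit 32) (nat_lit 5) (nat_lit 296) (nat_lit 270) (nat_lit 154))) (XT.nd (nat_lit 78) (nat_lit 228) (nat_lit 0) (XT.lf (nat_lit 0) (nat_lit 24111561174) (nat_lit 304) (nat_lit 99036954) (nat_lit 76) (nat_lit 14800498927) (nat_lit 31) (nat_lit 5) (nat_lit 35) (nat_lit 5) (nat_lit 32) (nat_lit 5) (nat_lit 297) (nat_lit 270) (nat_lit 153)) (XT.lf (nat_lit 0) (nat_lit 15744123731) (nat_lit 228) (nat_lit 13549438447) (nat_lit 304) (nat_lit 11044179101) (nat_lit 28) (nat_lit 5) (nat_lit 31) (nat_lit 5) (nat_lit 32) (nat_lit 5) (nat_lit 298) (nat_lit 270) (nat_lit 152)))))) (XT.nd (nat_lit 624) (nat_lit 532) (nat_lit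 0) (XT.nd (nat_lit 312) (nat_lit 380) (nat_lit 0) (XT.nd (nat_lit 156) (nat_lit 76) (nat_lit 0) (XT.nd (nat_lit 78) (nat_lit 152) (nat_lit 0) (XT.lf (nat_lit 0) (nat_lit 32378191345) (nat_lit 228) (nat_lit 2354459031) (nat_lit 304) (nat_lit 6998182743) (nat_lit 28) (nat_lit 5) (nat_lit 31) (nat_lit 5) (nat_lit 32) (nat_lit 5) (nat_lit 299) (nat_lit 270) (nat_lit 151)) (XT.lf (nat_lit 0) (nat_lit 6713862717) (nat_lit 152) (nat_lit 33977887796) (nat_lit 228) (nat_lit 2489440224) (nat_lit 26) (nat_lit 5) (nat_lit 28) (nat_lit 5) (nat_lit 29) (nat_lit 5) (nat_lit 300) (nat_lit 270) (nat_lit 150))) (XT.nd (nat_lit 78) (nat_lit 0) (nat_lit 0) (XT.lf (nat_lit 0) (nat_lit 2368977826) (nat_lit 228) (nat_lit 20868687304) (nat_lit 76) (nat_lit 21454857320) (nat_lit 25) (nat_lit 5) (nat_lit 28) (nat_lit 5) (nat_lit 26) (nat_lit 5) (nat_lit 301) (nat_lit 270) (nat_lit 149)) (XT.lf (nat_lit 0) (nat_lit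 7383320313) (nat_lit 228) (nat_lit 4535396224) (nat_lit 76) (nat_lit 34358842581) (nat_lit 25) (nat_lit 5) (nat_lit 28) (nat_lit 5) (nat_lit 26) (nat_lit 5) (nat_lit 302) (nat_lit 270) (nat_lit 148)))) (XT.nd (nat_lit 156) (nat_lit 152) (nat_lit 0) (XT.nd (nat_lit 78) (nat_lit 0) (nat_lit 0) (XT.lf (nat_lit 0) (nat_lit 12851385100) (nat_lit 304) (nat_lit 34907383113) (nat_lit 76) (nat_lit 172940715) (nat_lit 22) (nat_lit 5) (nat_lit 26) (nat_lit 5) (nat_lit 23) (nat_lit 5) (nat_lit 303) (nat_lit 270) (nat_lit 147)) (XT.lf (nat_lit 0) (nat_lit 18863202744) (nat_lit 304) (nat_lit 18246219014) (nat_lit 76) (nat_lit 12545638006) (nat_lit 22) (nat_lit 5) (nat_lit 26) (nat_lit 5) (nat_lit 23) (nat_lit 5) (nat_lit 304) (nat_lit 270) (nat_lit 146))) (XT.nd (nat_lit 78) (nat_lit 152) (nat_lit 0) (XT.lf (nat_lit 0) (nat_lit 25172651773) (nat_lit 304) (nat_lit 756128093) (nat_lit 76) (nat_lit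 25535956744) (nat_lit 22) (nat_lit 5) (nat_lit 26) (nat_lit 5) (nat_lit 23) (nat_lit 5) (nat_lit 305) (nat_lit 270) (nat_lit 145)) (XT.lf (nat_lit 0) (nat_lit 18186618078) (nat_lit 152) (nat_lit 13892080680) (nat_lit 228) (nat_lit 21272152257) (nat_lit 20) (nat_lit 5) (nat_lit 22) (nat_lit 5) (nat_lit 23) (nat_lit 5) (nat_lit 306) (nat_lit 270) (nat_lit 144))))) (XT.nd (nat_lit 312) (nat_lit 304) (nat_lit 0) (XT.nd (nat_lit 156) (nat_lit 76) (nat_lit 0) (XT.nd (nat_lit 78) (nat_lit 152) (nat_lit 0) (XT.lf (nat_lit 0) (nat_lit 38098881430) (nat_lit 152) (nat_lit 1241227267) (nat_lit 228) (nat_lit 15990668930) (nat_lit 20) (nat_lit 5) (nat_lit 22) (nat_lit 5) (nat_lit 23) (nat_lit 5) (nat_lit 307) (nat_lit 270) (nat_lit 143)) (XT.lf (nat_lit 0) (nat_lit 1451698942) (nat_lit 152) (nat_lit 45720936446) (nat_lit 228) (nat_lit 10226671932) (nat_lit 18) (nat_lit 5) (nat_lit 20) (nat_lit 5)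 (nat_lit 21) (nat_lit 5) (nat_lit 308) (nat_lit 270) (nat_lit 142))) (XT.nd (nat_lit 78) (nat_lit 76) (nat_lit 0) (XT.lf (nat_lit 0) (nat_lit 21642957165) (nat_lit 152) (nat_lit 34063117462) (nat_lit 228) (nat_lit 3849733193) (nat_lit 18) (nat_lit 5) (nat_lit 20) (nat_lit 5) (nat_lit 21) (nat_lit 5) (nat_lit 309) (nat_lit 270) (nat_lit 141)) (XT.lf (nat_lit 0) (nat_lit 2752471055) (nat_lit 228) (nat_lit 19024449981) (nat_lit 76) (nat_lit 40041122893) (nat_lit 17) (nat_lit 5) (nat_lit 20) (nat_lit 5) (nat_lit 18) (nat_lit 5) (nat_lit 310) (nat_lit 270) (nat_lit 140)))) (XT.nd (nat_lit 156) (nat_lit 152) (nat_lit 0) (XT.nd (nat_lit 78) (nat_lit 0) (nat_lit 0) (XT.lf (nat_lit 0) (nat_lit 766300973) (nat_lit 152) (nat_lit 8798700967) (nat_lit 228) (nat_lit 54624762206) (nat_lit 15) (nat_lit 5) (nat_lit 17) (nat_lit 5) (nat_lit 18) (nat_lit 5) (nat_lit 311) (nat_lit 270) (nat_lit 139))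 (XT.lf (nat_lit 0) (nat_lit 17118685265) (nat_lit 228) (nat_lit 44541087464) (nat_lit 76) (nat_lit 5000278453) (nat_lit 15) (nat_lit 5) (nat_lit 18) (nat_lit 5) (nat_lit 16) (nat_lit 5) (nat_lit 312) (nat_lit 270) (nat_lit 138))) (XT.nd (nat_lit 78) (nat_lit 152) (nat_lit 0) (XT.lf (nat_lit 0) (nat_lit 25192075209) (nat_lit 228) (nat_lit 24862200466) (nat_lit 76) (nat_lit 19192482535) (nat_lit 15) (nat_lit 5) (nat_lit 18) (nat_lit 5) (nat_lit 16) (nat_lit 5) (nat_lit 313) (nat_lit 270) (nat_lit 137)) (XT.nd (nat_lit 78) (nat_lit 152) (nat_lit 0) (XT.lf (nat_lit 0) (nat_lit 33667021751) (nat_lit 228) (nat_lit 4202575305) (nat_lit 76) (nat_lit 34093315619) (nat_lit 15) (nat_lit 5) (nat_lit 18) (nat_lit 5) (nat_lit 16) (nat_lit 5) (nat_lit 314) (nat_lit 270) (nat_lit 136)) (XT.lf (nat_lit 0) (nat_lit 18065176053) (nat_lit 152) (nat_lit 24780575306) (nat_lit 228) (nat_lit 31955127852)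 (nat_lit 13) (nat_lit 5) (nat_lit 15) (nat_lit 5) (nat_lit 16) (nat_lit 5) (nat_lit 315) (nat_lit 270) (nat_lit 135))))))))
noncomputable def xc201 : XT := (XT.nd (nat_lit 1326) (nat_lit 152) (nat_lit 0) (XT.nd (nat_lit 624) (nat_lit 228) (nat_lit 0) (XT.nd (nat_lit 312) (nat_lit 228) (nat_lit 0) (XT.nd (nat_lit 156) (nat_lit 76) (nat_lit 0) (XT.nd (nat_lit 78) (nat_lit 0) (nat_lit 0) (XT.lf (nat_lit 0) (nat_lit 41589214643) (nat_lit 152) (nat_lit 10963412084) (nat_lit 228) (nat_lit 25224662725) (nat_lit 13) (nat_lit 5) (nat_lit 15) (nat_lit 5) (nat_lit 16) (nat_lit 5) (nat_lit 316) (nat_lit 270) (nat_lit 134)) (XT.lf (nat_lit 0) (nat_lit 62798301799) (nat_lit 228) (nat_lit 14671351112) (nat_lit 76) (nat_lit 3430200064) (nat_lit 13) (nat_lit 5) (nat_lit 16) (nat_lit 5) (nat_lit 14) (nat_lit 4) (nat_lit 317) (nat_lit 270) (nat_lit 133))) (XT.nd (nat_lit 78) (nat_lit 0) (nat_lit 0) (XT.lf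 (nat_lit 0) (nat_lit 7994551731) (nat_lit 76) (nat_lit 65864458743) (nat_lit 152) (nat_lit 10304402004) (nat_lit 12) (nat_lit 5) (nat_lit 13) (nat_lit 5) (nat_lit 14) (nat_lit 4) (nat_lit 318) (nat_lit 270) (nat_lit 132)) (XT.lf (nat_lit 0) (nat_lit 32300346579) (nat_lit 76) (nat_lit 53419121284) (nat_lit 152) (nat_lit 1858351477) (nat_lit 12) (nat_lit 5) (nat_lit 13) (nat_lit 5) (nat_lit 14) (nat_lit 4) (nat_lit 319) (nat_lit 270) (nat_lit 131)))) (XT.nd (nat_lit 156) (nat_lit 152) (nat_lit 0) (XT.nd (nat_lit 78) (nat_lit 0) (nat_lit 0) (XT.lf (nat_lit 0) (nat_lit 6783936057) (nat_lit 152) (nat_lit 33453649914) (nat_lit 76) (nat_lit 50919977948) (nat_lit 11) (nat_lit 5) (nat_lit 13) (nat_lit 5) (nat_lit 12) (nat_lit 5) (nat_lit 320) (nat_lit 270) (nat_lit 130)) (XT.lf (nat_lit 0) (nat_lit 15794264514) (nat_lit 152) (nat_lit 10571661433) (nat_lit 76) (nat_lit 68548931933) (nat_lit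 11) (nat_lit 5) (nat_lit 13) (nat_lit 5) (nat_lit 12) (nat_lit 5) (nat_lit 321) (nat_lit 270) (nat_lit 129))) (XT.nd (nat_lit 78) (nat_lit 0) (nat_lit 0) (XT.lf (nat_lit 0) (nat_lit 13896771144) (nat_lit 152) (nat_lit 11573762310) (nat_lit 228) (nat_lit 73378716036) (nat_lit 9) (nat_lit 5) (nat_lit 11) (nat_lit 5) (nat_lit 12) (nat_lit 5) (nat_lit 322) (nat_lit 270) (nat_lit 128)) (XT.lf (nat_lit 0) (nat_lit 35872861310) (nat_lit 228) (nat_lit 63082954801) (nat_lit 76) (nat_lit 4012436249) (nat_lit 9) (nat_lit 5) (nat_lit 12) (nat_lit 5) (nat_lit 10) (nat_lit 4) (nat_lit 323) (nat_lit 270) (nat_lit 127))))) (XT.nd (nat_lit 312) (nat_lit 152) (nat_lit 0) (XT.nd (nat_lit 156) (nat_lit 76) (nat_lit 0) (XT.nd (nat_lit 78) (nat_lit 0) (nat_lit 0) (XT.lf (nat_lit 0) (nat_lit 46983590439) (nat_lit 228) (nat_lit 40312036369) (nat_lit 76) (nat_lit 19988168087) (nat_lit 9) (nat_lit 5) (nat_lit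 12) (nat_lit 5) (nat_lit 10) (nat_lit 4) (nat_lit 324) (nat_lit 270) (nat_lit 126)) (XT.lf (nat_lit 0) (nat_lit 58648476094) (nat_lit 228) (nat_lit 16404807712) (nat_lit 76) (nat_lit 36761903334) (nat_lit 9) (nat_lit 5) (nat_lit 12) (nat_lit 5) (nat_lit 10) (nat_lit 4) (nat_lit 325) (nat_lit 270) (nat_lit 125))) (XT.nd (nat_lit 78) (nat_lit 0) (nat_lit 0) (XT.lf (nat_lit 0) (nat_lit 8983170705) (nat_lit 76) (nat_lit 62052373578) (nat_lit 152) (nat_lit 45530661220) (nat_lit 8) (nat_lit 5) (nat_lit 9) (nat_lit 5) (nat_lit 10) (nat_lit 4) (nat_lit 326) (nat_lit 270) (nat_lit 124)) (XT.lf (nat_lit 0) (nat_lit 36207991032) (nat_lit 76) (nat_lit 48110513860) (nat_lit 152) (nat_lit 37222446193) (nat_lit 8) (nat_lit 5) (nat_lit 9) (nat_lit 5) (nat_lit 10) (nat_lit 4) (nat_lit 327) (nat_lit 270) (nat_lit 123)))) (XT.nd (nat_lit 156) (nat_lit 152) (nat_lit 0) (XT.nd (nat_lit 78) (nat_lit 0)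 (nat_lit 0) (XT.lf (nat_lit 0) (nat_lit 64792057239) (nat_lit 76) (nat_lit 33472333106) (nat_lit 152) (nat_lit 28500107858) (nat_lit 8) (nat_lit 5) (nat_lit 9) (nat_lit 5) (nat_lit 10) (nat_lit 4) (nat_lit 328) (nat_lit 270) (nat_lit 122)) (XT.lf (nat_lit 0) (nat_lit 94803426628) (nat_lit 76) (nat_lit 18102978506) (nat_lit 152) (nat_lit 19342878743) (nat_lit 8) (nat_lit 5) (nat_lit 9) (nat_lit 5) (nat_lit 10) (nat_lit 4) (nat_lit 329) (nat_lit 270) (nat_lit 121))) (XT.nd (nat_lit 78) (nat_lit 152) (nat_lit 0) (XT.lf (nat_lit 0) (nat_lit 126313554840) (nat_lit 76) (nat_lit 1965856357) (nat_lit 152) (nat_lit 9728955921) (nat_lit 8) (nat_lit 5) (nat_lit 9) (nat_lit 5) (nat_lit 10) (nat_lit 4) (nat_lit 330) (nat_lit 270) (nat_lit 120)) (XT.nd (nat_lit 78) (nat_lit 0) (nat_lit 0) (XT.lf (nat_lit 0) (nat_lit 838231336) (nat_lit 152) (nat_lit 128437393775) (nat_lit 76) (nat_lit 14755282917)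 (nat_lit 6) (nat_lit 5) (nat_lit 8) (nat_lit 5) (nat_lit 7) (nat_lit 4) (nat_lit 331) (nat_lit 270) (nat_lit 119)) (XT.lf (nat_lit 0) (nat_lit 11839289568) (nat_lit 152) (nat_lit 105889141226) (nat_lit 76) (nat_lit 32606549647) (nat_lit 6) (nat_lit 5) (nat_lit 8) (nat_lit 5) (nat_lit 7) (nat_lit 4) (nat_lit 332) (nat_lit 270) (nat_lit 118))))))) (XT.nd (nat_lit 624) (nat_lit 76) (nat_lit 0) (XT.nd (nat_lit 312) (nat_lit 76) (nat_lit 0) (XT.nd (nat_lit 156) (nat_lit 0) (nat_lit 0) (XT.nd (nat_lit 78) (nat_lit 0) (nat_lit 0) (XT.lf (nat_lit 0) (nat_lit 23389388357) (nat_lit 152) (nat_lit 82215169020) (nat_lit 76) (nat_lit 51349752027) (nat_lit 6) (nat_lit 5) (nat_lit 8) (nat_lit 5) (nat_lit 7) (nat_lit 4) (nat_lit 333) (nat_lit 270) (nat_lit 117)) (XT.lf (nat_lit 0) (nat_lit 35516027937) (nat_lit 152) (nat_lit 57359110557) (nat_lit 76) (nat_lit 71029516731) (nat_lit 6) (nat_lit 5) (nat_lit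 8) (nat_lit 5) (nat_lit 7) (nat_lit 4) (nat_lit 334) (nat_lit 270) (nat_lit 116))) (XT.nd (nat_lit 78) (nat_lit 0) (nat_lit 0) (XT.lf (nat_lit 0) (nat_lit 48248081261) (nat_lit 152) (nat_lit 31261784745) (nat_lit 76) (nat_lit 91692700340) (nat_lit 6) (nat_lit 5) (nat_lit 8) (nat_lit 5) (nat_lit 7) (nat_lit 4) (nat_lit 335) (nat_lit 270) (nat_lit 115)) (XT.lf (nat_lit 0) (nat_lit 61615862741) (nat_lit 152) (nat_lit 3861055094) (nat_lit 76) (nat_lit 113388500910) (nat_lit 6) (nat_lit 5) (nat_lit 8) (nat_lit 5) (nat_lit 7) (nat_lit 4) (nat_lit 336) (nat_lit 270) (nat_lit 114)))) (XT.nd (nat_lit 156) (nat_lit 0) (nat_lit 0) (XT.nd (nat_lit 78) (nat_lit 0) (nat_lit 0) (XT.lf (nat_lit 0) (nat_lit 25731899716) (nat_lit 76) (nat_lit 50321047779) (nat_lit 152) (nat_lit 110838422462) (nat_lit 5) (nat_lit 5) (nat_lit 6) (nat_lit 5) (nat_lit 7) (nat_lit 4) (nat_lit 337) (nat_lit 270) (nat_lit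 113)) (XT.lf (nat_lit 0) (nat_lit 56937179037) (nat_lit 76) (nat_lit 34339281686) (nat_lit 152) (nat_lit 104038931107) (nat_lit 5) (nat_lit 5) (nat_lit 6) (nat_lit 5) (nat_lit 7) (nat_lit 4) (nat_lit 338) (nat_lit 270) (nat_lit 112))) (XT.nd (nat_lit 78) (nat_lit 0) (nat_lit 0) (XT.lf (nat_lit 0) (nat_lit 89701417231) (nat_lit 76) (nat_lit 17558956570) (nat_lit 152) (nat_lit 96900281510) (nat_lit 5) (nat_lit 5) (nat_lit 6) (nat_lit 5) (nat_lit 7) (nat_lit 4) (nat_lit 339) (nat_lit 270) (nat_lit 111)) (XT.lf (nat_lit 0) (nat_lit 124043678572) (nat_lit 152) (nat_lit 89346531070) (nat_lit 0) (nat_lit 57964167) (nat_lit 5) (nat_lit 5) (nat_lit 7) (nat_lit 4) (nat_lit 5) (nat_lit 4) (nat_lit 340) (nat_lit 270) (nat_lit 110))))) (XT.nd (nat_lit 312) (nat_lit 0) (nat_lit 0) (XT.nd (nat_lit 156) (nat_lit 76) (nat_lit 0) (XT.nd (nat_lit 78) (nat_lit 0) (nat_lit 0) (XT.lf (nat_lit 0) (nat_lit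 141953289149) (nat_lit 152) (nat_lit 63267253465) (nat_lit 0) (nat_lit 17965170152) (nat_lit 5) (nat_lit 5) (nat_lit 7) (nat_lit 4) (nat_lit 5) (nat_lit 4) (nat_lit 341) (nat_lit 270) (nat_lit 109)) (XT.lf (nat_lit 0) (nat_lit 160757702942) (nat_lit 152) (nat_lit 35885167229) (nat_lit 0) (nat_lit 36767293858) (nat_lit 5) (nat_lit 5) (nat_lit 7) (nat_lit 4) (nat_lit 5) (nat_lit 4) (nat_lit 342) (nat_lit 270) (nat_lit 108))) (XT.nd (nat_lit 78) (nat_lit 76) (nat_lit 0) (XT.lf (nat_lit 0) (nat_lit 180501692364) (nat_lit 152) (nat_lit 7135076918) (nat_lit 0) (nat_lit 56509102245) (nat_lit 5) (nat_lit 5) (nat_lit 7) (nat_lit 4) (nat_lit 5) (nat_lit 4) (nat_lit 343) (nat_lit 270) (nat_lit 107)) (XT.lf (nat_lit 0) (nat_lit 23813655768) (nat_lit 76) (nat_lit 177790409050) (nat_lit 76) (nat_lit 53795741754) (nat_lit 4) (nat_lit 4) (nat_lit 5) (nat_lit 5) (nat_lit 5) (nat_lit 4) (nat_lit 344)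 (nat_lit 270) (nat_lit 106)))) (XT.nd (nat_lit 156) (nat_lit 0) (nat_lit 0) (XT.nd (nat_lit 78) (nat_lit 0) (nat_lit 0) (XT.lf (nat_lit 0) (nat_lit 56556507905) (nat_lit 76) (nat_lit 167325282787) (nat_lit 76) (nat_lit 43328637227) (nat_lit 4) (nat_lit 4) (nat_lit 5) (nat_lit 5) (nat_lit 5) (nat_lit 4) (nat_lit 345) (nat_lit 270) (nat_lit 105)) (XT.lf (nat_lit 0) (nat_lit 90935520798) (nat_lit 76) (nat_lit 156337309504) (nat_lit 76) (nat_lit 32338779885) (nat_lit 4) (nat_lit 4) (nat_lit 5) (nat_lit 5) (nat_lit 5) (nat_lit 4) (nat_lit 346) (nat_lit 270) (nat_lit 104))) (XT.nd (nat_lit 78) (nat_lit 0) (nat_lit 0) (XT.lf (nat_lit 0) (nat_lit 127032549239) (nat_lit 76) (nat_lit 144800327362) (nat_lit 76) (nat_lit 20800003399) (nat_lit 4) (nat_lit 4) (nat_lit 5) (nat_lit 5) (nat_lit 5) (nat_lit 4) (nat_lit 347) (nat_lit 270) (nat_lit 103)) (XT.nd (nat_lit 31512) (nat_lit 0) (nat_lit 4560)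 (XT.lf (nat_lit 0) (nat_lit 164933538535) (nat_lit 76) (nat_lit 132686867355) (nat_lit 76) (nat_lit 8684834493) (nat_lit 4) (nat_lit 4) (nat_lit 5) (nat_lit 5) (nat_lit 5) (nat_lit 4) (nat_lit 348) (nat_lit 270) (nat_lit 102)) (XT.lf (nat_lit 0) (nat_lit 8376012412) (nat_lit 684) (nat_lit 522910893) (nat_lit 684) (nat_lit 522910893) (nat_lit 64) (nat_lit 3) (nat_lit 73) (nat_lit 3) (nat_lit 73) (nat_lit 5) (nat_lit 271) (nat_lit 271) (nat_lit 178))))))))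
noncomputable def xc202 : XT := (XT.nd (nat_lit 1326) (nat_lit 1824) (nat_lit 0) (XT.nd (nat_lit 624) (nat_lit 836) (nat_lit 0) (XT.nd (nat_lit 312) (nat_lit 532) (nat_lit 0) (XT.nd (nat_lit 156) (nat_lit 0) (nat_lit 76) (XT.nd (nat_lit 78) (nat_lit 0) (nat_lit 0) (XT.lf (nat_lit 76) (nat_lit 6689172907) (nat_lit 0) (nat_lit 10745929519) (nat_lit 684) (nat_lit 1865582761) (nat_lit 65) (nat_lit 5) (nat_lit 64) (nat_lit 3) (nat_lit 73) (nat_lit 5) (nat_lit 272) (nat_lit 271) (nat_lit 177)) (XT.lf (nat_lit 76) (nat_lit 14841648143) (nat_lit 0) (nat_lit 3318078406) (nat_lit 684) (nat_lit 1620511755) (nat_lit 65) (nat_lit 5) (nat_lit 64) (nat_lit 3) (nat_lit 73) (nat_lit 5) (nat_lit 273) (nat_lit 271) (nat_lit 176))) (XT.nd (nat_lit 78) (nat_lit 0) (nat_lit 0) (XT.lf (nat_lit 76) (nat_lit 3142673160) (nat_lit 0) (nat_lit 15887181216) (nat_lit 684) (nat_lit 1248503571) (nat_lit 66) (nat_lit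 5) (nat_lit 65) (nat_lit 5) (nat_lit 74) (nat_lit 5) (nat_lit 274) (nat_lit 271) (nat_lit 175)) (XT.lf (nat_lit 76) (nat_lit 11737432153) (nat_lit 0) (nat_lit 8333827845) (nat_lit 684) (nat_lit 723784998) (nat_lit 66) (nat_lit 5) (nat_lit 65) (nat_lit 5) (nat_lit 74) (nat_lit 5) (nat_lit 275) (nat_lit 271) (nat_lit 174)))) (XT.nd (nat_lit 156) (nat_lit 0) (nat_lit 0) (XT.nd (nat_lit 78) (nat_lit 608) (nat_lit 0) (XT.lf (nat_lit 76) (nat_lit 20756375827) (nat_lit 0) (nat_lit 399423498) (nat_lit 684) (nat_lit 182261516) (nat_lit 66) (nat_lit 5) (nat_lit 65) (nat_lit 5) (nat_lit 74) (nat_lit 5) (nat_lit 276) (nat_lit 271) (nat_lit 173)) (XT.lf (nat_lit 0) (nat_lit 625431728) (nat_lit 684) (nat_lit 13446849777) (nat_lit 760) (nat_lit 7823114628) (nat_lit 57) (nat_lit 5) (nat_lit 66) (nat_lit 5) (nat_lit 67) (nat_lit 5) (nat_lit 277) (nat_lit 271) (nat_lit 172))) (XT.nd (nat_lit 78) (nat_lit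 0) (nat_lit 76) (XT.lf (nat_lit 0) (nat_lit 1475622553) (nat_lit 684) (nat_lit 4545351491) (nat_lit 760) (nat_lit 16459103977) (nat_lit 57) (nat_lit 5) (nat_lit 66) (nat_lit 5) (nat_lit 67) (nat_lit 5) (nat_lit 278) (nat_lit 271) (nat_lit 171)) (XT.lf (nat_lit 0) (nat_lit 2477029571) (nat_lit 684) (nat_lit 18175812103) (nat_lit 760) (nat_lit 2435756169) (nat_lit 58) (nat_lit 5) (nat_lit 67) (nat_lit 5) (nat_lit 68) (nat_lit 5) (nat_lit 279) (nat_lit 271) (nat_lit 170))))) (XT.nd (nat_lit 312) (nat_lit 912) (nat_lit 0) (XT.nd (nat_lit 156) (nat_lit 0) (nat_lit 76) (XT.nd (nat_lit 78) (nat_lit 0) (nat_lit 0) (XT.lf (nat_lit 0) (nat_lit 3697845119) (nat_lit 684) (nat_lit 8828129847) (nat_lit 760) (nat_lit 11193139088) (nat_lit 58) (nat_lit 5) (nat_lit 67) (nat_lit 5) (nat_lit 68) (nat_lit 5) (nat_lit 280) (nat_lit 271) (nat_lit 169)) (XT.lf (nat_lit 76) (nat_lit 1013564702) (nat_lit 0)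 (nat_lit 3974717545) (nat_lit 760) (nat_lit 19392480318) (nat_lit 59) (nat_lit 5) (nat_lit 58) (nat_lit 5) (nat_lit 68) (nat_lit 5) (nat_lit 281) (nat_lit 271) (nat_lit 168))) (XT.nd (nat_lit 78) (nat_lit 0) (nat_lit 0) (XT.lf (nat_lit 0) (nat_lit 6566360616) (nat_lit 684) (nat_lit 13500881927) (nat_lit 76) (nat_lit 4997128829) (nat_lit 59) (nat_lit 5) (nat_lit 68) (nat_lit 5) (nat_lit 60) (nat_lit 5) (nat_lit 282) (nat_lit 271) (nat_lit 167)) (XT.lf (nat_lit 0) (nat_lit 8281865732) (nat_lit 684) (nat_lit 3212239536) (nat_lit 76) (nat_lit 14285161437) (nat_lit 59) (nat_lit 5) (nat_lit 68) (nat_lit 5) (nat_lit 60) (nat_lit 5) (nat_lit 283) (nat_lit 271) (nat_lit 166)))) (XT.nd (nat_lit 156) (nat_lit 304) (nat_lit 0) (XT.nd (nat_lit 78) (nat_lit 0) (nat_lit 0) (XT.lf (nat_lit 0) (nat_lit 7836086253) (nat_lit 684) (nat_lit 2363082665) (nat_lit 760) (nat_lit 16324967438) (nat_lit 50) (nat_lit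 5) (nat_lit 59) (nat_lit 5) (nat_lit 60) (nat_lit 5) (nat_lit 284) (nat_lit 271) (nat_lit 165)) (XT.lf (nat_lit 0) (nat_lit 12374329718) (nat_lit 760) (nat_lit 7874673135) (nat_lit 76) (nat_lit 7049176244) (nat_lit 50) (nat_lit 5) (nat_lit 60) (nat_lit 5) (nat_lit 51) (nat_lit 5) (nat_lit 285) (nat_lit 271) (nat_lit 164))) (XT.nd (nat_lit 78) (nat_lit 0) (nat_lit 0) (XT.lf (nat_lit 0) (nat_lit 3548682819) (nat_lit 304) (nat_lit 11197905161) (nat_lit 380) (nat_lit 13359946863) (nat_lit 46) (nat_lit 5) (nat_lit 50) (nat_lit 5) (nat_lit 51) (nat_lit 5) (nat_lit 286) (nat_lit 271) (nat_lit 163)) (XT.nd (nat_lit 78) (nat_lit 0) (nat_lit 0) (XT.lf (nat_lit 0) (nat_lit 15811155836) (nat_lit 304) (nat_lit 1554051648) (nat_lit 380) (nat_lit 11583739991) (nat_lit 46) (nat_lit 5) (nat_lit 50) (nat_lit 5) (nat_lit 51) (nat_lit 5) (nat_lit 287) (nat_lit 271) (nat_lit 162)) (XT.lf (nat_lit 0) (nat_lit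 20243247585) (nat_lit 380) (nat_lit 1286038665) (nat_lit 76) (nat_lit 8297795257) (nat_lit 46) (nat_lit 5) (nat_lit 51) (nat_lit 5) (nat_lit 47) (nat_lit 5) (nat_lit 288) (nat_lit 271) (nat_lit 161))))))) (XT.nd (nat_lit 624) (nat_lit 684) (nat_lit 0) (XT.nd (nat_lit 312) (nat_lit 532) (nat_lit 0) (XT.nd (nat_lit 156) (nat_lit 304) (nat_lit 0) (XT.nd (nat_lit 78) (nat_lit 0) (nat_lit 0) (XT.lf (nat_lit 0) (nat_lit 11495537972) (nat_lit 304) (nat_lit 11969516745) (nat_lit 380) (nat_lit 7274098322) (nat_lit 42) (nat_lit 5) (nat_lit 46) (nat_lit 5) (nat_lit 47) (nat_lit 5) (nat_lit 289) (nat_lit 271) (nat_lit 160)) (XT.lf (nat_lit 0) (nat_lit 24955709206) (nat_lit 304) (nat_lit 1909096080) (nat_lit 380) (nat_lit 4831203108) (nat_lit 42) (nat_lit 5) (nat_lit 46) (nat_lit 5) (nat_lit 47) (nat_lit 5) (nat_lit 290) (nat_lit 271) (nat_lit 159))) (XT.nd (nat_lit 78) (nat_lit 76) (nat_lit 0)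 (XT.lf (nat_lit 0) (nat_lit 6454506887) (nat_lit 228) (nat_lit 24211232960) (nat_lit 304) (nat_lit 2023428662) (nat_lit 39) (nat_lit 5) (nat_lit 42) (nat_lit 5) (nat_lit 43) (nat_lit 5) (nat_lit 291) (nat_lit 271) (nat_lit 158)) (XT.lf (nat_lit 0) (nat_lit 1037810248) (nat_lit 304) (nat_lit 13236055533) (nat_lit 76) (nat_lit 19450285096) (nat_lit 38) (nat_lit 5) (nat_lit 42) (nat_lit 5) (nat_lit 39) (nat_lit 5) (nat_lit 292) (nat_lit 271) (nat_lit 157)))) (XT.nd (nat_lit 156) (nat_lit 228) (nat_lit 0) (XT.nd (nat_lit 78) (nat_lit 0) (nat_lit 0) (XT.lf (nat_lit 0) (nat_lit 386704000) (nat_lit 304) (nat_lit 3799020184) (nat_lit 380) (nat_lit 30623437795) (nat_lit 34) (nat_lit 5) (nat_lit 38) (nat_lit 5) (nat_lit 39) (nat_lit 5) (nat_lit 293) (nat_lit 271) (nat_lit 156)) (XT.lf (nat_lit 0) (nat_lit 7826973570) (nat_lit 380) (nat_lit 20908293729) (nat_lit 76) (nat_lit 7196377298) (nat_lit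 34) (nat_lit 5) (nat_lit 39) (nat_lit 5) (nat_lit 35) (nat_lit 5) (nat_lit 294) (nat_lit 271) (nat_lit 155))) (XT.nd (nat_lit 78) (nat_lit 228) (nat_lit 0) (XT.lf (nat_lit 0) (nat_lit 11708469757) (nat_lit 380) (nat_lit 6785581565) (nat_lit 76) (nat_lit 18613307895) (nat_lit 34) (nat_lit 5) (nat_lit 39) (nat_lit 5) (nat_lit 35) (nat_lit 5) (nat_lit 295) (nat_lit 271) (nat_lit 154)) (XT.lf (nat_lit 0) (nat_lit 8304410359) (nat_lit 228) (nat_lit 7605385811) (nat_lit 304) (nat_lit 22425791905) (nat_lit 31) (nat_lit 5) (nat_lit 34) (nat_lit 5) (nat_lit 35) (nat_lit 5) (nat_lit 296) (nat_lit 271) (nat_lit 153))))) (XT.nd (nat_lit 312) (nat_lit 456) (nat_lit 0) (XT.nd (nat_lit 156) (nat_lit 0) (nat_lit 0) (XT.nd (nat_lit 78) (nat_lit 228) (nat_lit 0) (XT.lf (nat_lit 0) (nat_lit 20493953505) (nat_lit 304) (nat_lit 15301412105) (nat_lit 76) (nat_lit 3821240039) (nat_lit 31) (nat_lit 5) (nat_lit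 35) (nat_lit 5) (nat_lit 32) (nat_lit 5) (nat_lit 297) (nat_lit 271) (nat_lit 152)) (XT.lf (nat_lit 0) (nat_lit 36801867) (nat_lit 228) (nat_lit 25392152996) (nat_lit 304) (nat_lit 15526652193) (nat_lit 28) (nat_lit 5) (nat_lit 31) (nat_lit 5) (nat_lit 32) (nat_lit 5) (nat_lit 298) (nat_lit 271) (nat_lit 151))) (XT.nd (nat_lit 78) (nat_lit 0) (nat_lit 0) (XT.lf (nat_lit 0) (nat_lit 16668690878) (nat_lit 228) (nat_lit 14197637855) (nat_lit 304) (nat_lit 11482462739) (nat_lit 28) (nat_lit 5) (nat_lit 31) (nat_lit 5) (nat_lit 32) (nat_lit 5) (nat_lit 299) (nat_lit 271) (nat_lit 150)) (XT.lf (nat_lit 0) (nat_lit 34127920875) (nat_lit 228) (nat_lit 2444303398) (nat_lit 304) (nat_lit 7239591578) (nat_lit 28) (nat_lit 5) (nat_lit 31) (nat_lit 5) (nat_lit 32) (nat_lit 5) (nat_lit 300) (nat_lit 271) (nat_lit 149)))) (XT.nd (nat_lit 156) (nat_lit 228) (nat_lit 0) (XT.nd (nat_lit 78) (nat_lit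 76) (nat_lit 0) (XT.lf (nat_lit 0) (nat_lit 7183306838) (nat_lit 152) (nat_lit 35643573372) (nat_lit 228) (nat_lit 2507950712) (nat_lit 26) (nat_lit 5) (nat_lit 28) (nat_lit 5) (nat_lit 29) (nat_lit 5) (nat_lit 301) (nat_lit 271) (nat_lit 148)) (XT.lf (nat_lit 0) (nat_lit 2585112520) (nat_lit 228) (nat_lit 21781154068) (nat_lit 76) (nat_lit 22555641918) (nat_lit 25) (nat_lit 5) (nat_lit 28) (nat_lit 5) (nat_lit 26) (nat_lit 5) (nat_lit 302) (nat_lit 271) (nat_lit 147))) (XT.nd (nat_lit 78) (nat_lit 228) (nat_lit 0) (XT.lf (nat_lit 0) (nat_lit 7845520426) (nat_lit 228) (nat_lit 4637434986) (nat_lit 76) (nat_lit 36103491122) (nat_lit 25) (nat_lit 5) (nat_lit 28) (nat_lit 5) (nat_lit 26) (nat_lit 5) (nat_lit 303) (nat_lit 271) (nat_lit 146)) (XT.nd (nat_lit 78) (nat_lit 0) (nat_lit 0) (XT.lf (nat_lit 0) (nat_lit 13584976971) (nat_lit 304) (nat_lit 36525687039) (nat_lit 76) (nat_lit 212756533)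 (nat_lit 22) (nat_lit 5) (nat_lit 26) (nat_lit 5) (nat_lit 23) (nat_lit 5) (nat_lit 304) (nat_lit 271) (nat_lit 145)) (XT.lf (nat_lit 0) (nat_lit 19893051088) (nat_lit 304) (nat_lit 19037515460) (nat_lit 76) (nat_lit 13202604462) (nat_lit 22) (nat_lit 5) (nat_lit 26) (nat_lit 5) (nat_lit 23) (nat_lit 5) (nat_lit 305) (nat_lit 271) (nat_lit 144))))))))
noncomputable def xc203 : XT := (XT.nd (nat_lit 1326) (nat_lit 456) (nat_lit 0) (XT.nd (nat_lit 624) (nat_lit 304) (nat_lit 0) (XT.nd (nat_lit 312) (nat_lit 228) (nat_lit 0) (XT.nd (nat_lit 156) (nat_lit 152) (nat_lit 0) (XT.nd (nat_lit 78) (nat_lit 152) (nat_lit 0) (XT.lf (nat_lit 0) (nat_lit 26513844558) (nat_lit 304) (nat_lit 678682589) (nat_lit 76) (nat_lit 26841025586) (nat_lit 22) (nat_lit 5) (nat_lit 26) (nat_lit 5) (nat_lit 23) (nat_lit 5) (nat_lit 306) (nat_lit 271) (nat_lit 143)) (XT.lf (nat_lit 0) (nat_lit 19209341989) (nat_lit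 152) (nat_lit 14553690848) (nat_lit 228) (nat_lit 22251062011) (nat_lit 20) (nat_lit 5) (nat_lit 22) (nat_lit 5) (nat_lit 23) (nat_lit 5) (nat_lit 307) (nat_lit 271) (nat_lit 142))) (XT.nd (nat_lit 78) (nat_lit 152) (nat_lit 0) (XT.lf (nat_lit 0) (nat_lit 40111818842) (nat_lit 152) (nat_lit 1271865900) (nat_lit 228) (nat_lit 16709537750) (nat_lit 20) (nat_lit 5) (nat_lit 22) (nat_lit 5) (nat_lit 23) (nat_lit 5) (nat_lit 308) (nat_lit 271) (nat_lit 141)) (XT.lf (nat_lit 0) (nat_lit 1634080701) (nat_lit 152) (nat_lit 47972292318) (nat_lit 228) (nat_lit 10658891530) (nat_lit 18) (nat_lit 5) (nat_lit 20) (nat_lit 5) (nat_lit 21) (nat_lit 5) (nat_lit 309) (nat_lit 271) (nat_lit 140)))) (XT.nd (nat_lit 156) (nat_lit 152) (nat_lit 0) (XT.nd (nat_lit 78) (nat_lit 76) (nat_lit 0) (XT.lf (nat_lit 0) (nat_lit 22829673415) (nat_lit 152) (nat_lit 35733234335) (nat_lit 228) (nat_lit 3966873187)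 (nat_lit 18) (nat_lit 5) (nat_lit 20) (nat_lit 5) (nat_lit 21) (nat_lit 5) (nat_lit 310) (nat_lit 271) (nat_lit 139)) (XT.lf (nat_lit 0) (nat_lit 2959556610) (nat_lit 228) (nat_lit 19873568391) (nat_lit 76) (nat_lit 42072129608) (nat_lit 17) (nat_lit 5) (nat_lit 20) (nat_lit 5) (nat_lit 18) (nat_lit 5) (nat_lit 311) (nat_lit 271) (nat_lit 138))) (XT.nd (nat_lit 78) (nat_lit 0) (nat_lit 0) (XT.lf (nat_lit 0) (nat_lit 905073270) (nat_lit 152) (nat_lit 9205901474) (nat_lit 228) (nat_lit 57284683460) (nat_lit 15) (nat_lit 5) (nat_lit 17) (nat_lit 5) (nat_lit 18) (nat_lit 5) (nat_lit 312) (nat_lit 271) (nat_lit 137)) (XT.lf (nat_lit 0) (nat_lit 18039604084) (nat_lit 228) (nat_lit 46669532008) (nat_lit 76) (nat_lit 5280470311) (nat_lit 15) (nat_lit 5) (nat_lit 18) (nat_lit 5) (nat_lit 16) (nat_lit 5) (nat_lit 313) (nat_lit 271) (nat_lit 136))))) (XT.nd (nat_lit 312) (nat_lit 152) (nat_lit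 0) (XT.nd (nat_lit 156) (nat_lit 152) (nat_lit 0) (XT.nd (nat_lit 78) (nat_lit 0) (nat_lit 0) (XT.lf (nat_lit 0) (nat_lit 26513569023) (nat_lit 228) (nat_lit 26011396366) (nat_lit 76) (nat_lit 20180847553) (nat_lit 15) (nat_lit 5) (nat_lit 18) (nat_lit 5) (nat_lit 16) (nat_lit 5) (nat_lit 314) (nat_lit 271) (nat_lit 135)) (XT.lf (nat_lit 0) (nat_lit 35409315747) (nat_lit 228) (nat_lit 4323262048) (nat_lit 76) (nat_lit 35825353677) (nat_lit 15) (nat_lit 5) (nat_lit 18) (nat_lit 5) (nat_lit 16) (nat_lit 5) (nat_lit 315) (nat_lit 271) (nat_lit 134))) (XT.nd (nat_lit 78) (nat_lit 0) (nat_lit 0) (XT.lf (nat_lit 0) (nat_lit 19056434265) (nat_lit 152) (nat_lit 25989114683) (nat_lit 228) (nat_lit 33492327588) (nat_lit 13) (nat_lit 5) (nat_lit 15) (nat_lit 5) (nat_lit 16) (nat_lit 5) (nat_lit 316) (nat_lit 271) (nat_lit 133)) (XT.lf (nat_lit 0) (nat_lit 43752484336) (nat_lit 152) (nat_lit 11482545176)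 (nat_lit 228) (nat_lit 26428222856) (nat_lit 13) (nat_lit 5) (nat_lit 15) (nat_lit 5) (nat_lit 16) (nat_lit 5) (nat_lit 317) (nat_lit 271) (nat_lit 132)))) (XT.nd (nat_lit 156) (nat_lit 76) (nat_lit 0) (XT.nd (nat_lit 78) (nat_lit 76) (nat_lit 0) (XT.lf (nat_lit 0) (nat_lit 65990811941) (nat_lit 228) (nat_lit 15322768990) (nat_lit 76) (nat_lit 3628479715) (nat_lit 13) (nat_lit 5) (nat_lit 16) (nat_lit 5) (nat_lit 14) (nat_lit 4) (nat_lit 318) (nat_lit 271) (nat_lit 131)) (XT.lf (nat_lit 0) (nat_lit 8475104000) (nat_lit 76) (nat_lit 69128209423) (nat_lit 152) (nat_lit 10765554225) (nat_lit 12) (nat_lit 5) (nat_lit 13) (nat_lit 5) (nat_lit 14) (nat_lit 4) (nat_lit 319) (nat_lit 271) (nat_lit 130))) (XT.nd (nat_lit 78) (nat_lit 76) (nat_lit 0) (XT.lf (nat_lit 0) (nat_lit 33992339796) (nat_lit 76) (nat_lit 56062008533) (nat_lit 152) (nat_lit 1899775832) (nat_lit 12) (nat_lit 5) (nat_lit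 13) (nat_lit 5) (nat_lit 14) (nat_lit 4) (nat_lit 320) (nat_lit 271) (nat_lit 129)) (XT.nd (nat_lit 78) (nat_lit 0) (nat_lit 0) (XT.lf (nat_lit 0) (nat_lit 7170604397) (nat_lit 152) (nat_lit 35051324713) (nat_lit 76) (nat_lit 53491011725) (nat_lit 11) (nat_lit 5) (nat_lit 13) (nat_lit 5) (nat_lit 12) (nat_lit 5) (nat_lit 321) (nat_lit 271) (nat_lit 128)) (XT.lf (nat_lit 0) (nat_lit 16629188728) (nat_lit 152) (nat_lit 11028808603) (nat_lit 76) (nat_lit 72000221272) (nat_lit 11) (nat_lit 5) (nat_lit 13) (nat_lit 5) (nat_lit 12) (nat_lit 5) (nat_lit 322) (nat_lit 271) (nat_lit 127))))))) (XT.nd (nat_lit 624) (nat_lit 228) (nat_lit 0) (XT.nd (nat_lit 312) (nat_lit 76) (nat_lit 0) (XT.nd (nat_lit 156) (nat_lit 0) (nat_lit 0) (XT.nd (nat_lit 78) (nat_lit 0) (nat_lit 0) (XT.lf (nat_lit 0) (nat_lit 14661893411) (nat_lit 152) (nat_lit 12126322125) (nat_lit 228) (nat_lit 77001172827) (nat_lit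 9) (nat_lit 5) (nat_lit 11) (nat_lit 5) (nat_lit 12) (nat_lit 5) (nat_lit 323) (nat_lit 271) (nat_lit 126)) (XT.lf (nat_lit 0) (nat_lit 37708945656) (nat_lit 228) (nat_lit 66168341232) (nat_lit 76) (nat_lit 4237145710) (nat_lit 9) (nat_lit 5) (nat_lit 12) (nat_lit 5) (nat_lit 10) (nat_lit 4) (nat_lit 324) (nat_lit 271) (nat_lit 125))) (XT.nd (nat_lit 78) (nat_lit 0) (nat_lit 0) (XT.lf (nat_lit 0) (nat_lit 49373190229) (nat_lit 228) (nat_lit 42262151227) (nat_lit 76) (nat_lit 21010517109) (nat_lit 9) (nat_lit 5) (nat_lit 12) (nat_lit 5) (nat_lit 10) (nat_lit 4) (nat_lit 325) (nat_lit 271) (nat_lit 124)) (XT.lf (nat_lit 0) (nat_lit 61619395392) (nat_lit 228) (nat_lit 17162679564) (nat_lit 76) (nat_lit 38621846709) (nat_lit 9) (nat_lit 5) (nat_lit 12) (nat_lit 5) (nat_lit 10) (nat_lit 4) (nat_lit 326) (nat_lit 271) (nat_lit 123)))) (XT.nd (nat_lit 156) (nat_lit 0) (nat_lit 0) (XT.nd (nat_lit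 78) (nat_lit 0) (nat_lit 0) (XT.lf (nat_lit 0) (nat_lit 9493691830) (nat_lit 76) (nat_lit 65131250083) (nat_lit 152) (nat_lit 47767597550) (nat_lit 8) (nat_lit 5) (nat_lit 9) (nat_lit 5) (nat_lit 10) (nat_lit 4) (nat_lit 327) (nat_lit 271) (nat_lit 122)) (XT.lf (nat_lit 0) (nat_lit 38076831145) (nat_lit 76) (nat_lit 50493427959) (nat_lit 152) (nat_lit 39045857330) (nat_lit 8) (nat_lit 5) (nat_lit 9) (nat_lit 5) (nat_lit 10) (nat_lit 4) (nat_lit 328) (nat_lit 271) (nat_lit 121))) (XT.nd (nat_lit 78) (nat_lit 0) (nat_lit 0) (XT.lf (nat_lit 0) (nat_lit 68087317780) (nat_lit 76) (nat_lit 35124414910) (nat_lit 152) (nat_lit 29889197849) (nat_lit 8) (nat_lit 5) (nat_lit 9) (nat_lit 5) (nat_lit 10) (nat_lit 4) (nat_lit 329) (nat_lit 271) (nat_lit 120)) (XT.lf (nat_lit 0) (nat_lit 99596605272) (nat_lit 76) (nat_lit 18987618049) (nat_lit 152) (nat_lit 20275817535) (nat_lit 8) (nat_lit 5) (nat_lit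 9) (nat_lit 5) (nat_lit 10) (nat_lit 4) (nat_lit 330) (nat_lit 271) (nat_lit 119))))) (XT.nd (nat_lit 312) (nat_lit 76) (nat_lit 0) (XT.nd (nat_lit 156) (nat_lit 0) (nat_lit 0) (XT.nd (nat_lit 78) (nat_lit 152) (nat_lit 0) (XT.lf (nat_lit 0) (nat_lit 132679715736) (nat_lit 76) (nat_lit 2044616430) (nat_lit 152) (nat_lit 10182827388) (nat_lit 8) (nat_lit 5) (nat_lit 9) (nat_lit 5) (nat_lit 10) (nat_lit 4) (nat_lit 331) (nat_lit 271) (nat_lit 118)) (XT.lf (nat_lit 0) (nat_lit 911278989) (nat_lit 152) (nat_lit 134807194291) (nat_lit 76) (nat_lit 15512352234) (nat_lit 6) (nat_lit 5) (nat_lit 8) (nat_lit 5) (nat_lit 7) (nat_lit 4) (nat_lit 332) (nat_lit 271) (nat_lit 117))) (XT.nd (nat_lit 78) (nat_lit 0) (nat_lit 0) (XT.lf (nat_lit 0) (nat_lit 12460907462) (nat_lit 152) (nat_lit 111134008599) (nat_lit 76) (nat_lit 34255263007) (nat_lit 6) (nat_lit 5) (nat_lit 8) (nat_lit 5) (nat_lit 7)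 (nat_lit 4) (nat_lit 333) (nat_lit 271) (nat_lit 116)) (XT.lf (nat_lit 0) (nat_lit 24587099123) (nat_lit 152) (nat_lit 86278699197) (nat_lit 76) (nat_lit 53934749988) (nat_lit 6) (nat_lit 5) (nat_lit 8) (nat_lit 5) (nat_lit 7) (nat_lit 4) (nat_lit 334) (nat_lit 271) (nat_lit 115)))) (XT.nd (nat_lit 156) (nat_lit 76) (nat_lit 0) (XT.nd (nat_lit 78) (nat_lit 0) (nat_lit 0) (XT.lf (nat_lit 0) (nat_lit 37318725856) (nat_lit 152) (nat_lit 60182086776) (nat_lit 76) (nat_lit 74597669100) (nat_lit 6) (nat_lit 5) (nat_lit 8) (nat_lit 5) (nat_lit 7) (nat_lit 4) (nat_lit 335) (nat_lit 271) (nat_lit 114)) (XT.lf (nat_lit 0) (nat_lit 50686101060) (nat_lit 152) (nat_lit 32782036545) (nat_lit 76) (nat_lit 96293217769) (nat_lit 6) (nat_lit 5) (nat_lit 8) (nat_lit 5) (nat_lit 7) (nat_lit 4) (nat_lit 336) (nat_lit 271) (nat_lit 113))) (XT.nd (nat_lit 78) (nat_lit 76) (nat_lit 0) (XT.lf (nat_lit 0) (nat_lit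 64721051817) (nat_lit 152) (nat_lit 4013310290) (nat_lit 76) (nat_lit 119073052063) (nat_lit 6) (nat_lit 5) (nat_lit 8) (nat_lit 5) (nat_lit 7) (nat_lit 4) (nat_lit 337) (nat_lit 271) (nat_lit 112)) (XT.nd (nat_lit 78) (nat_lit 0) (nat_lit 0) (XT.lf (nat_lit 0) (nat_lit 27058634236) (nat_lit 76) (nat_lit 52820821552) (nat_lit 152) (nat_lit 116355236558) (nat_lit 5) (nat_lit 5) (nat_lit 6) (nat_lit 5) (nat_lit 7) (nat_lit 4) (nat_lit 338) (nat_lit 271) (nat_lit 111)) (XT.lf (nat_lit 0) (nat_lit 59822266116) (nat_lit 76) (nat_lit 36040742327) (nat_lit 152) (nat_lit 109216966208) (nat_lit 5) (nat_lit 5) (nat_lit 6) (nat_lit 5) (nat_lit 7) (nat_lit 4) (nat_lit 339) (nat_lit 271) (nat_lit 110))))))))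
noncomputable def xc204 : XT := (XT.nd (nat_lit 32760) (nat_lit 0) (nat_lit 2280) (XT.nd (nat_lit 624) (nat_lit 0) (nat_lit 0) (XT.nd (nat_lit 312) (nat_lit 76) (nat_lit 0) (XT.nd (nat_lit 156) (nat_lit 0) (nat_lit 0) (XT.nd (nat_lit 78) (nat_lit 0) (nat_lit 0) (XT.lf (nat_lit 0) (nat_lit 94222895833) (nat_lit 76) (nat_lit 18422139214) (nat_lit 152) (nat_lit 101722522772) (nat_lit 5) (nat_lit 5) (nat_lit 6) (nat_lit 5) (nat_lit 7) (nat_lit 4) (nat_lit 340) (nat_lit 271) (nat_lit 109)) (XT.lf (nat_lit 0) (nat_lit 130266694007) (nat_lit 152) (nat_lit 93778326697) (nat_lit 0) (nat_lit 74474382) (nat_lit 5) (nat_lit 5) (nat_lit 7) (nat_lit 4) (nat_lit 5) (nat_lit 4) (nat_lit 341) (nat_lit 271) (nat_lit 108))) (XT.nd (nat_lit 78) (nat_lit 0) (nat_lit 0) (XT.lf (nat_lit 0) (nat_lit 149070793136) (nat_lit 152) (nat_lit 66396777161) (nat_lit 0) (nat_lit 18876392476) (nat_lit 5) (nat_lit 5)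 (nat_lit 7) (nat_lit 4) (nat_lit 5) (nat_lit 4) (nat_lit 342) (nat_lit 271) (nat_lit 107)) (XT.lf (nat_lit 0) (nat_lit 168814482879) (nat_lit 152) (nat_lit 37647197993) (nat_lit 0) (nat_lit 38618005042) (nat_lit 5) (nat_lit 5) (nat_lit 7) (nat_lit 4) (nat_lit 5) (nat_lit 4) (nat_lit 343) (nat_lit 271) (nat_lit 106)))) (XT.nd (nat_lit 156) (nat_lit 0) (nat_lit 0) (XT.nd (nat_lit 78) (nat_lit 76) (nat_lit 0) (XT.lf (nat_lit 0) (nat_lit 189544772021) (nat_lit 152) (nat_lit 7461137814) (nat_lit 0) (nat_lit 59346315920) (nat_lit 5) (nat_lit 5) (nat_lit 7) (nat_lit 4) (nat_lit 5) (nat_lit 4) (nat_lit 344) (nat_lit 271) (nat_lit 105)) (XT.lf (nat_lit 0) (nat_lit 25034536459) (nat_lit 76) (nat_lit 186667341206) (nat_lit 76) (nat_lit 56467001045) (nat_lit 4) (nat_lit 4) (nat_lit 5) (nat_lit 5) (nat_lit 5) (nat_lit 4) (nat_lit 345) (nat_lit 271) (nat_lit 104))) (XT.nd (nat_lit 78) (nat_lit 0)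 (nat_lit 0) (XT.lf (nat_lit 0) (nat_lit 59413093207) (nat_lit 76) (nat_lit 175679558072) (nat_lit 76) (nat_lit 45477423568) (nat_lit 4) (nat_lit 4) (nat_lit 5) (nat_lit 5) (nat_lit 5) (nat_lit 4) (nat_lit 346) (nat_lit 271) (nat_lit 103)) (XT.lf (nat_lit 0) (nat_lit 95509687225) (nat_lit 76) (nat_lit 164142757024) (nat_lit 76) (nat_lit 33938913621) (nat_lit 4) (nat_lit 4) (nat_lit 5) (nat_lit 5) (nat_lit 5) (nat_lit 4) (nat_lit 347) (nat_lit 271) (nat_lit 102))))) (XT.nd (nat_lit 31824) (nat_lit 0) (nat_lit 3952) (XT.nd (nat_lit 31668) (nat_lit 0) (nat_lit 4560) (XT.nd (nat_lit 31590) (nat_lit 0) (nat_lit 4560) (XT.lf (nat_lit 0) (nat_lit 133410262784) (nat_lit 76) (nat_lit 152029469487) (nat_lit 76) (nat_lit 21823998561) (nat_lit 4) (nat_lit 4) (nat_lit 5) (nat_lit 5) (nat_lit 5) (nat_lit 4) (nat_lit 348) (nat_lit 271) (nat_lit 101)) (XT.lf (nat_lit 0) (nat_lit 8952157724) (nat_lit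 684) (nat_lit 466026661) (nat_lit 684) (nat_lit 466026661) (nat_lit 64) (nat_lit 3) (nat_lit 73) (nat_lit 3) (nat_lit 73) (nat_lit 5) (nat_lit 272) (nat_lit 272) (nat_lit 176))) (XT.nd (nat_lit 78) (nat_lit 0) (nat_lit 0) (XT.lf (nat_lit 76) (nat_lit 7187012725) (nat_lit 0) (nat_lit 11422099834) (nat_lit 684) (nat_lit 1639879609) (nat_lit 65) (nat_lit 5) (nat_lit 64) (nat_lit 3) (nat_lit 73) (nat_lit 5) (nat_lit 273) (nat_lit 272) (nat_lit 175)) (XT.lf (nat_lit 76) (nat_lit 15739331667) (nat_lit 0) (nat_lit 3616243126) (nat_lit 684) (nat_lit 1397744686) (nat_lit 65) (nat_lit 5) (nat_lit 64) (nat_lit 3) (nat_lit 73) (nat_lit 5) (nat_lit 274) (nat_lit 272) (nat_lit 174)))) (XT.nd (nat_lit 156) (nat_lit 684) (nat_lit 0) (XT.nd (nat_lit 78) (nat_lit 0) (nat_lit 0) (XT.lf (nat_lit 76) (nat_lit 3470603689) (nat_lit 0) (nat_lit 16785597599) (nat_lit 684) (nat_lit 1020867423) (nat_lit 66)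 (nat_lit 5) (nat_lit 65) (nat_lit 5) (nat_lit 74) (nat_lit 5) (nat_lit 275) (nat_lit 272) (nat_lit 173)) (XT.lf (nat_lit 76) (nat_lit 12486967447) (nat_lit 0) (nat_lit 8849621449) (nat_lit 684) (nat_lit 483725366) (nat_lit 66) (nat_lit 5) (nat_lit 65) (nat_lit 5) (nat_lit 74) (nat_lit 5) (nat_lit 276) (nat_lit 272) (nat_lit 172))) (XT.nd (nat_lit 78) (nat_lit 0) (nat_lit 76) (XT.lf (nat_lit 0) (nat_lit 69424106) (nat_lit 684) (nat_lit 443177894) (nat_lit 760) (nat_lit 21878512577) (nat_lit 56) (nat_lit 5) (nat_lit 65) (nat_lit 5) (nat_lit 66) (nat_lit 5) (nat_lit 277) (nat_lit 272) (nat_lit 171)) (XT.lf (nat_lit 0) (nat_lit 900480161) (nat_lit 684) (nat_lit 13942487332) (nat_lit 760) (nat_lit 8133804819) (nat_lit 57) (nat_lit 5) (nat_lit 66) (nat_lit 5) (nat_lit 67) (nat_lit 5) (nat_lit 278) (nat_lit 272) (nat_lit 170)))))) (XT.nd (nat_lit 624) (nat_lit 1216) (nat_lit 0) (XT.nd (nat_lit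 312) (nat_lit 532) (nat_lit 0) (XT.nd (nat_lit 156) (nat_lit 0) (nat_lit 76) (XT.nd (nat_lit 78) (nat_lit 0) (nat_lit 76) (XT.lf (nat_lit 0) (nat_lit 1781572106) (nat_lit 684) (nat_lit 4604328653) (nat_lit 760) (nat_lit 17205425327) (nat_lit 57) (nat_lit 5) (nat_lit 66) (nat_lit 5) (nat_lit 67) (nat_lit 5) (nat_lit 279) (nat_lit 272) (nat_lit 169)) (XT.lf (nat_lit 0) (nat_lit 2823671497) (nat_lit 684) (nat_lit 18905841541) (nat_lit 760) (nat_lit 2501282398) (nat_lit 58) (nat_lit 5) (nat_lit 67) (nat_lit 5) (nat_lit 68) (nat_lit 5) (nat_lit 280) (nat_lit 272) (nat_lit 168))) (XT.nd (nat_lit 78) (nat_lit 0) (nat_lit 0) (XT.lf (nat_lit 0) (nat_lit 4094918753) (nat_lit 684) (nat_lit 9099287609) (nat_lit 760) (nat_lit 11699213586) (nat_lit 58) (nat_lit 5) (nat_lit 67) (nat_lit 5) (nat_lit 68) (nat_lit 5) (nat_lit 281) (nat_lit 272) (nat_lit 167)) (XT.lf (nat_lit 76) (nat_lit 1231745720)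 (nat_lit 0) (nat_lit 4210643332) (nat_lit 760) (nat_lit 20146185828) (nat_lit 59) (nat_lit 5) (nat_lit 58) (nat_lit 5) (nat_lit 68) (nat_lit 5) (nat_lit 282) (nat_lit 272) (nat_lit 166)))) (XT.nd (nat_lit 156) (nat_lit 684) (nat_lit 0) (XT.nd (nat_lit 78) (nat_lit 0) (nat_lit 0) (XT.lf (nat_lit 0) (nat_lit 7089071078) (nat_lit 684) (nat_lit 14005155323) (nat_lit 76) (nat_lit 5212699938) (nat_lit 59) (nat_lit 5) (nat_lit 68) (nat_lit 5) (nat_lit 60) (nat_lit 5) (nat_lit 283) (nat_lit 272) (nat_lit 165)) (XT.lf (nat_lit 0) (nat_lit 8881094667) (nat_lit 684) (nat_lit 3210212750) (nat_lit 76) (nat_lit 14966766811) (nat_lit 59) (nat_lit 5) (nat_lit 68) (nat_lit 5) (nat_lit 60) (nat_lit 5) (nat_lit 284) (nat_lit 272) (nat_lit 164))) (XT.nd (nat_lit 78) (nat_lit 0) (nat_lit 0) (XT.lf (nat_lit 0) (nat_lit 8387906123) (nat_lit 684) (nat_lit 2500039198) (nat_lit 760) (nat_lit 16952600737) (nat_lit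 50) (nat_lit 5) (nat_lit 59) (nat_lit 5) (nat_lit 60) (nat_lit 5) (nat_lit 285) (nat_lit 272) (nat_lit 163)) (XT.lf (nat_lit 0) (nat_lit 13163069441) (nat_lit 760) (nat_lit 8106400857) (nat_lit 76) (nat_lit 7384301146) (nat_lit 50) (nat_lit 5) (nat_lit 60) (nat_lit 5) (nat_lit 51) (nat_lit 5) (nat_lit 286) (nat_lit 272) (nat_lit 162))))) (XT.nd (nat_lit 312) (nat_lit 608) (nat_lit 0) (XT.nd (nat_lit 156) (nat_lit 304) (nat_lit 0) (XT.nd (nat_lit 78) (nat_lit 0) (nat_lit 0) (XT.lf (nat_lit 0) (nat_lit 3885509896) (nat_lit 304) (nat_lit 11762822947) (nat_lit 380) (nat_lit 13854531355) (nat_lit 46) (nat_lit 5) (nat_lit 50) (nat_lit 5) (nat_lit 51) (nat_lit 5) (nat_lit 287) (nat_lit 272) (nat_lit 161)) (XT.lf (nat_lit 0) (nat_lit 16753516423) (nat_lit 304) (nat_lit 1636537590) (nat_lit 380) (nat_lit 11997771895) (nat_lit 46) (nat_lit 5) (nat_lit 50) (nat_lit 5) (nat_lit 51) (nat_lit 5)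 (nat_lit 288) (nat_lit 272) (nat_lit 160))) (XT.nd (nat_lit 78) (nat_lit 304) (nat_lit 0) (XT.lf (nat_lit 0) (nat_lit 21404468510) (nat_lit 380) (nat_lit 1197534485) (nat_lit 76) (nat_lit 8708275247) (nat_lit 46) (nat_lit 5) (nat_lit 51) (nat_lit 5) (nat_lit 47) (nat_lit 5) (nat_lit 289) (nat_lit 272) (nat_lit 159)) (XT.lf (nat_lit 0) (nat_lit 12220656369) (nat_lit 304) (nat_lit 12561958856) (nat_lit 380) (nat_lit 7485609208) (nat_lit 42) (nat_lit 5) (nat_lit 46) (nat_lit 5) (nat_lit 47) (nat_lit 5) (nat_lit 290) (nat_lit 272) (nat_lit 158)))) (XT.nd (nat_lit 156) (nat_lit 380) (nat_lit 0) (XT.nd (nat_lit 78) (nat_lit 228) (nat_lit 0) (XT.lf (nat_lit 0) (nat_lit 26346677045) (nat_lit 304) (nat_lit 1998804479) (nat_lit 380) (nat_lit 4927816568) (nat_lit 42) (nat_lit 5) (nat_lit 46) (nat_lit 5) (nat_lit 47) (nat_lit 5) (nat_lit 291) (nat_lit 272) (nat_lit 157)) (XT.lf (nat_lit 0) (nat_lit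 6925406528) (nat_lit 228) (nat_lit 25406910575) (nat_lit 304) (nat_lit 1984036819) (nat_lit 39) (nat_lit 5) (nat_lit 42) (nat_lit 5) (nat_lit 43) (nat_lit 5) (nat_lit 292) (nat_lit 272) (nat_lit 156))) (XT.nd (nat_lit 78) (nat_lit 304) (nat_lit 0) (XT.lf (nat_lit 0) (nat_lit 1219285878) (nat_lit 304) (nat_lit 13751903337) (nat_lit 76) (nat_lit 20432138024) (nat_lit 38) (nat_lit 5) (nat_lit 42) (nat_lit 5) (nat_lit 39) (nat_lit 5) (nat_lit 293) (nat_lit 272) (nat_lit 155)) (XT.nd (nat_lit 78) (nat_lit 0) (nat_lit 0) (XT.lf (nat_lit 0) (nat_lit 549640061) (nat_lit 304) (nat_lit 3971026743) (nat_lit 380) (nat_lit 32022144811) (nat_lit 34) (nat_lit 5) (nat_lit 38) (nat_lit 5) (nat_lit 39) (nat_lit 5) (nat_lit 294) (nat_lit 272) (nat_lit 154)) (XT.lf (nat_lit 0) (nat_lit 8338261841) (nat_lit 380) (nat_lit 21810728261) (nat_lit 76) (nat_lit 7572739131) (nat_lit 34) (nat_lit 5) (nat_lit 39)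 (nat_lit 5) (nat_lit 35) (nat_lit 5) (nat_lit 295) (nat_lit 272) (nat_lit 153))))))))
noncomputable def xc205 : XT := (XT.nd (nat_lit 1326) (nat_lit 684) (nat_lit 0) (XT.nd (nat_lit 624) (nat_lit 608) (nat_lit 0) (XT.nd (nat_lit 312) (nat_lit 228) (nat_lit 0) (XT.nd (nat_lit 156) (nat_lit 228) (nat_lit 0) (XT.nd (nat_lit 78) (nat_lit 228) (nat_lit 0) (XT.lf (nat_lit 0) (nat_lit 12408121429) (nat_lit 380) (nat_lit 6988689069) (nat_lit 76) (nat_lit 19559728498) (nat_lit 34) (nat_lit 5) (nat_lit 39) (nat_lit 5) (nat_lit 35) (nat_lit 5) (nat_lit 296) (nat_lit 272) (nat_lit 152)) (XT.lf (nat_lit 0) (nat_lit 8853606137) (nat_lit 228) (nat_lit 7962560318) (nat_lit 304) (nat_lit 23430202930) (nat_lit 31) (nat_lit 5) (nat_lit 34) (nat_lit 5) (nat_lit 35) (nat_lit 5) (nat_lit 297) (nat_lit 272) (nat_lit 151))) (XT.nd (nat_lit 78) (nat_lit 228) (nat_lit 0) (XT.lf (nat_lit 0) (nat_lit 21624595037)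 (nat_lit 304) (nat_lit 15933518158) (nat_lit 76) (nat_lit 4033593095) (nat_lit 31) (nat_lit 5) (nat_lit 35) (nat_lit 5) (nat_lit 32) (nat_lit 5) (nat_lit 298) (nat_lit 272) (nat_lit 150)) (XT.lf (nat_lit 0) (nat_lit 169461923) (nat_lit 228) (nat_lit 26633882061) (nat_lit 304) (nat_lit 16194484500) (nat_lit 28) (nat_lit 5) (nat_lit 31) (nat_lit 5) (nat_lit 32) (nat_lit 5) (nat_lit 299) (nat_lit 272) (nat_lit 149)))) (XT.nd (nat_lit 156) (nat_lit 228) (nat_lit 0) (XT.nd (nat_lit 78) (nat_lit 0) (nat_lit 0) (XT.lf (nat_lit 0) (nat_lit 17626715863) (nat_lit 228) (nat_lit 14880968715) (nat_lit 304) (nat_lit 11953252255) (nat_lit 28) (nat_lit 5) (nat_lit 31) (nat_lit 5) (nat_lit 32) (nat_lit 5) (nat_lit 300) (nat_lit 272) (nat_lit 148)) (XT.lf (nat_lit 0) (nat_lit 35952974482) (nat_lit 228) (nat_lit 2541231870) (nat_lit 304) (nat_lit 7503158184) (nat_lit 28) (nat_lit 5) (nat_lit 31) (nat_lit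 5) (nat_lit 32) (nat_lit 5) (nat_lit 301) (nat_lit 272) (nat_lit 147))) (XT.nd (nat_lit 78) (nat_lit 76) (nat_lit 0) (XT.lf (nat_lit 0) (nat_lit 7663788266) (nat_lit 152) (nat_lit 37395630667) (nat_lit 228) (nat_lit 2537238022) (nat_lit 26) (nat_lit 5) (nat_lit 28) (nat_lit 5) (nat_lit 29) (nat_lit 5) (nat_lit 302) (nat_lit 272) (nat_lit 146)) (XT.lf (nat_lit 0) (nat_lit 2802972049) (nat_lit 228) (nat_lit 22751420296) (nat_lit 76) (nat_lit 23708858691) (nat_lit 25) (nat_lit 5) (nat_lit 28) (nat_lit 5) (nat_lit 26) (nat_lit 5) (nat_lit 303) (nat_lit 272) (nat_lit 145))))) (XT.nd (nat_lit 312) (nat_lit 380) (nat_lit 0) (XT.nd (nat_lit 156) (nat_lit 0) (nat_lit 0) (XT.nd (nat_lit 78) (nat_lit 228) (nat_lit 0) (XT.lf (nat_lit 0) (nat_lit 8322181117) (nat_lit 228) (nat_lit 4756171998) (nat_lit 76) (nat_lit 37932889180) (nat_lit 25) (nat_lit 5) (nat_lit 28) (nat_lit 5) (nat_lit 26) (nat_lit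 5) (nat_lit 304) (nat_lit 272) (nat_lit 144)) (XT.lf (nat_lit 0) (nat_lit 14346786016) (nat_lit 304) (nat_lit 38236719483) (nat_lit 76) (nat_lit 251665365) (nat_lit 22) (nat_lit 5) (nat_lit 26) (nat_lit 5) (nat_lit 23) (nat_lit 5) (nat_lit 305) (nat_lit 272) (nat_lit 143))) (XT.nd (nat_lit 78) (nat_lit 0) (nat_lit 0) (XT.lf (nat_lit 0) (nat_lit 20966332400) (nat_lit 304) (nat_lit 19879627511) (nat_lit 76) (nat_lit 13889659451) (nat_lit 22) (nat_lit 5) (nat_lit 26) (nat_lit 5) (nat_lit 23) (nat_lit 5) (nat_lit 306) (nat_lit 272) (nat_lit 142)) (XT.lf (nat_lit 0) (nat_lit 27914421317) (nat_lit 304) (nat_lit 608079840) (nat_lit 76) (nat_lit 28208719500) (nat_lit 22) (nat_lit 5) (nat_lit 26) (nat_lit 5) (nat_lit 23) (nat_lit 5) (nat_lit 307) (nat_lit 272) (nat_lit 141)))) (XT.nd (nat_lit 156) (nat_lit 228) (nat_lit 0) (XT.nd (nat_lit 78) (nat_lit 0) (nat_lit 0) (XT.lf (nat_lit 0) (nat_lit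 20272659889) (nat_lit 152) (nat_lit 15251448982) (nat_lit 228) (nat_lit 23286791658) (nat_lit 20) (nat_lit 5) (nat_lit 22) (nat_lit 5) (nat_lit 23) (nat_lit 5) (nat_lit 308) (nat_lit 272) (nat_lit 140)) (XT.lf (nat_lit 0) (nat_lit 42215362927) (nat_lit 152) (nat_lit 1306957853) (nat_lit 228) (nat_lit 17471849443) (nat_lit 20) (nat_lit 5) (nat_lit 22) (nat_lit 5) (nat_lit 23) (nat_lit 5) (nat_lit 309) (nat_lit 272) (nat_lit 139))) (XT.nd (nat_lit 78) (nat_lit 76) (nat_lit 0) (XT.lf (nat_lit 0) (nat_lit 1815373682) (nat_lit 152) (nat_lit 50339441220) (nat_lit 228) (nat_lit 11120077378) (nat_lit 18) (nat_lit 5) (nat_lit 20) (nat_lit 5) (nat_lit 21) (nat_lit 5) (nat_lit 310) (nat_lit 272) (nat_lit 138)) (XT.nd (nat_lit 78) (nat_lit 76) (nat_lit 0) (XT.lf (nat_lit 0) (nat_lit 24066003700) (nat_lit 152) (nat_lit 37489928705) (nat_lit 228) (nat_lit 4096875200) (nat_lit 18) (nat_lit 5) (nat_lit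 20) (nat_lit 5) (nat_lit 21) (nat_lit 5) (nat_lit 311) (nat_lit 272) (nat_lit 137)) (XT.lf (nat_lit 0) (nat_lit 3170538523) (nat_lit 228) (nat_lit 20774635393) (nat_lit 76) (nat_lit 44201995110) (nat_lit 17) (nat_lit 5) (nat_lit 20) (nat_lit 5) (nat_lit 18) (nat_lit 5) (nat_lit 312) (nat_lit 272) (nat_lit 136))))))) (XT.nd (nat_lit 624) (nat_lit 304) (nat_lit 0) (XT.nd (nat_lit 312) (nat_lit 228) (nat_lit 0) (XT.nd (nat_lit 156) (nat_lit 0) (nat_lit 0) (XT.nd (nat_lit 78) (nat_lit 0) (nat_lit 0) (XT.lf (nat_lit 0) (nat_lit 1041444619) (nat_lit 152) (nat_lit 9636505353) (nat_lit 228) (nat_lit 60084231142) (nat_lit 15) (nat_lit 5) (nat_lit 17) (nat_lit 5) (nat_lit 18) (nat_lit 5) (nat_lit 313) (nat_lit 272) (nat_lit 135)) (XT.lf (nat_lit 0) (nat_lit 19000527197) (nat_lit 228) (nat_lit 48913566587) (nat_lit 76) (nat_lit 5571866104) (nat_lit 15) (nat_lit 5) (nat_lit 18) (nat_lit 5) (nat_lit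 16) (nat_lit 5) (nat_lit 314) (nat_lit 272) (nat_lit 134))) (XT.nd (nat_lit 78) (nat_lit 0) (nat_lit 0) (XT.lf (nat_lit 0) (nat_lit 27895383578) (nat_lit 228) (nat_lit 27226783306) (nat_lit 76) (nat_lit 21215958765) (nat_lit 15) (nat_lit 5) (nat_lit 18) (nat_lit 5) (nat_lit 16) (nat_lit 5) (nat_lit 315) (nat_lit 272) (nat_lit 133)) (XT.lf (nat_lit 0) (nat_lit 37233244490) (nat_lit 228) (nat_lit 4458298600) (nat_lit 76) (nat_lit 37641448823) (nat_lit 15) (nat_lit 5) (nat_lit 18) (nat_lit 5) (nat_lit 16) (nat_lit 5) (nat_lit 316) (nat_lit 272) (nat_lit 132)))) (XT.nd (nat_lit 156) (nat_lit 76) (nat_lit 0) (XT.nd (nat_lit 78) (nat_lit 0) (nat_lit 0) (XT.lf (nat_lit 0) (nat_lit 20089074036) (nat_lit 152) (nat_lit 27260915644) (nat_lit 228) (nat_lit 35112017296) (nat_lit 13) (nat_lit 5) (nat_lit 15) (nat_lit 5) (nat_lit 16) (nat_lit 5) (nat_lit 317) (nat_lit 272) (nat_lit 131)) (XT.lf (nat_lit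 0) (nat_lit 46016125751) (nat_lit 152) (nat_lit 12030334555) (nat_lit 228) (nat_lit 27697322882) (nat_lit 13) (nat_lit 5) (nat_lit 15) (nat_lit 5) (nat_lit 16) (nat_lit 5) (nat_lit 318) (nat_lit 272) (nat_lit 130))) (XT.nd (nat_lit 78) (nat_lit 76) (nat_lit 0) (XT.lf (nat_lit 0) (nat_lit 69338057801) (nat_lit 228) (nat_lit 16014395260) (nat_lit 76) (nat_lit 3834184561) (nat_lit 13) (nat_lit 5) (nat_lit 16) (nat_lit 5) (nat_lit 14) (nat_lit 4) (nat_lit 319) (nat_lit 272) (nat_lit 129)) (XT.lf (nat_lit 0) (nat_lit 8972169570) (nat_lit 76) (nat_lit 72557887689) (nat_lit 152) (nat_lit 11254790775) (nat_lit 12) (nat_lit 5) (nat_lit 13) (nat_lit 5) (nat_lit 14) (nat_lit 4) (nat_lit 320) (nat_lit 272) (nat_lit 128))))) (XT.nd (nat_lit 312) (nat_lit 76) (nat_lit 0) (XT.nd (nat_lit 156) (nat_lit 152) (nat_lit 0) (XT.nd (nat_lit 78) (nat_lit 76) (nat_lit 0) (XT.lf (nat_lit 0) (nat_lit 35761776186)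 (nat_lit 76) (nat_lit 58839649716) (nat_lit 152) (nat_lit 1948058756) (nat_lit 12) (nat_lit 5) (nat_lit 13) (nat_lit 5) (nat_lit 14) (nat_lit 4) (nat_lit 321) (nat_lit 272) (nat_lit 127)) (XT.lf (nat_lit 0) (nat_lit 7572192701) (nat_lit 152) (nat_lit 36735856757) (nat_lit 76) (nat_lit 56188269684) (nat_lit 11) (nat_lit 5) (nat_lit 13) (nat_lit 5) (nat_lit 12) (nat_lit 5) (nat_lit 322) (nat_lit 272) (nat_lit 126))) (XT.nd (nat_lit 78) (nat_lit 152) (nat_lit 0) (XT.lf (nat_lit 0) (nat_lit 17501655863) (nat_lit 152) (nat_lit 11515454565) (nat_lit 76) (nat_lit 75621858405) (nat_lit 11) (nat_lit 5) (nat_lit 13) (nat_lit 5) (nat_lit 12) (nat_lit 5) (nat_lit 323) (nat_lit 272) (nat_lit 125)) (XT.lf (nat_lit 0) (nat_lit 15458737477) (nat_lit 152) (nat_lit 12708939093) (nat_lit 228) (nat_lit 80809073636) (nat_lit 9) (nat_lit 5) (nat_lit 11) (nat_lit 5) (nat_lit 12) (nat_lit 5) (nat_lit 324)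 (nat_lit 272) (nat_lit 124)))) (XT.nd (nat_lit 156) (nat_lit 76) (nat_lit 0) (XT.nd (nat_lit 78) (nat_lit 0) (nat_lit 0) (XT.lf (nat_lit 0) (nat_lit 39632888433) (nat_lit 228) (nat_lit 69414389760) (nat_lit 76) (nat_lit 4470851203) (nat_lit 9) (nat_lit 5) (nat_lit 12) (nat_lit 5) (nat_lit 10) (nat_lit 4) (nat_lit 325) (nat_lit 272) (nat_lit 123)) (XT.lf (nat_lit 0) (nat_lit 51878512115) (nat_lit 228) (nat_lit 44315860184) (nat_lit 76) (nat_lit 22081850781) (nat_lit 9) (nat_lit 5) (nat_lit 12) (nat_lit 5) (nat_lit 10) (nat_lit 4) (nat_lit 326) (nat_lit 272) (nat_lit 122))) (XT.nd (nat_lit 78) (nat_lit 76) (nat_lit 0) (XT.lf (nat_lit 0) (nat_lit 64735281709) (nat_lit 228) (nat_lit 17964243443) (nat_lit 76) (nat_lit 40572756012) (nat_lit 9) (nat_lit 5) (nat_lit 12) (nat_lit 5) (nat_lit 10) (nat_lit 4) (nat_lit 327) (nat_lit 272) (nat_lit 121)) (XT.nd (nat_lit 78) (nat_lit 0) (nat_lit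 0) (XT.lf (nat_lit 0) (nat_lit 10024034100) (nat_lit 76) (nat_lit 68366277736) (nat_lit 152) (nat_lit 50120062025) (nat_lit 8) (nat_lit 5) (nat_lit 9) (nat_lit 5) (nat_lit 10) (nat_lit 4) (nat_lit 328) (nat_lit 272) (nat_lit 120)) (XT.lf (nat_lit 0) (nat_lit 40033680015) (nat_lit 76) (nat_lit 52997589975) (nat_lit 152) (nat_lit 40963945051) (nat_lit 8) (nat_lit 5) (nat_lit 9) (nat_lit 5) (nat_lit 10) (nat_lit 4) (nat_lit 329) (nat_lit 272) (nat_lit 119))))))))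
noncomputable def xc206 : XT := (XT.nd (nat_lit 1326) (nat_lit 0) (nat_lit 0) (XT.nd (nat_lit 624) (nat_lit 152) (nat_lit 0) (XT.nd (nat_lit 312) (nat_lit 0) (nat_lit 0) (XT.nd (nat_lit 156) (nat_lit 152) (nat_lit 0) (XT.nd (nat_lit 78) (nat_lit 0) (nat_lit 0) (XT.lf (nat_lit 0) (nat_lit 71542166823) (nat_lit 76) (nat_lit 36861102911) (nat_lit 152) (nat_lit 31351081412) (nat_lit 8) (nat_lit 5) (nat_lit 9) (nat_lit 5) (nat_lit 10) (nat_lit 4) (nat_lit 330) (nat_lit 272) (nat_lit 118)) (XT.lf (nat_lit 0) (nat_lit 104624514731) (nat_lit 76) (nat_lit 19918396337) (nat_lit 152) (nat_lit 21258583336) (nat_lit 8) (nat_lit 5) (nat_lit 9) (nat_lit 5) (nat_lit 10) (nat_lit 4) (nat_lit 331) (nat_lit 272) (nat_lit 117))) (XT.nd (nat_lit 78) (nat_lit 152) (nat_lit 0) (XT.lf (nat_lit 0) (nat_lit 139359491233) (nat_lit 76) (nat_lit 2129130476) (nat_lit 152) (nat_lit 10662421067) (nat_lit 8) (nat_lit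 5) (nat_lit 9) (nat_lit 5) (nat_lit 10) (nat_lit 4) (nat_lit 332) (nat_lit 272) (nat_lit 116)) (XT.lf (nat_lit 0) (nat_lit 985084287) (nat_lit 152) (nat_lit 141500325731) (nat_lit 76) (nat_lit 16305480205) (nat_lit 6) (nat_lit 5) (nat_lit 8) (nat_lit 5) (nat_lit 7) (nat_lit 4) (nat_lit 333) (nat_lit 272) (nat_lit 115)))) (XT.nd (nat_lit 156) (nat_lit 0) (nat_lit 0) (XT.nd (nat_lit 78) (nat_lit 0) (nat_lit 0) (XT.lf (nat_lit 0) (nat_lit 13110849358) (nat_lit 152) (nat_lit 116645729720) (nat_lit 76) (nat_lit 35984702690) (nat_lit 6) (nat_lit 5) (nat_lit 8) (nat_lit 5) (nat_lit 7) (nat_lit 4) (nat_lit 334) (nat_lit 272) (nat_lit 114)) (XT.lf (nat_lit 0) (nat_lit 25842069815) (nat_lit 152) (nat_lit 90549796720) (nat_lit 76) (nat_lit 56647369900) (nat_lit 6) (nat_lit 5) (nat_lit 8) (nat_lit 5) (nat_lit 7) (nat_lit 4) (nat_lit 335) (nat_lit 272) (nat_lit 113))) (XT.nd (nat_lit 78) (nat_lit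 0) (nat_lit 0) (XT.lf (nat_lit 0) (nat_lit 39209058088) (nat_lit 152) (nat_lit 63150393556) (nat_lit 76) (nat_lit 78342678663) (nat_lit 6) (nat_lit 5) (nat_lit 8) (nat_lit 5) (nat_lit 7) (nat_lit 4) (nat_lit 336) (nat_lit 272) (nat_lit 112)) (XT.lf (nat_lit 0) (nat_lit 53243640340) (nat_lit 152) (nat_lit 34382283554) (nat_lit 76) (nat_lit 101122284474) (nat_lit 6) (nat_lit 5) (nat_lit 8) (nat_lit 5) (nat_lit 7) (nat_lit 4) (nat_lit 337) (nat_lit 272) (nat_lit 111))))) (XT.nd (nat_lit 312) (nat_lit 76) (nat_lit 0) (XT.nd (nat_lit 156) (nat_lit 0) (nat_lit 0) (XT.nd (nat_lit 78) (nat_lit 76) (nat_lit 0) (XT.lf (nat_lit 0) (nat_lit 67979232243) (nat_lit 152) (nat_lit 4176971216) (nat_lit 76) (nat_lit 125040424491) (nat_lit 6) (nat_lit 5) (nat_lit 8) (nat_lit 5) (nat_lit 7) (nat_lit 4) (nat_lit 338) (nat_lit 272) (nat_lit 110)) (XT.lf (nat_lit 0) (nat_lit 28447973689) (nat_lit 76) (nat_lit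 55447097445) (nat_lit 152) (nat_lit 122150225572) (nat_lit 5) (nat_lit 5) (nat_lit 6) (nat_lit 5) (nat_lit 7) (nat_lit 4) (nat_lit 339) (nat_lit 272) (nat_lit 109))) (XT.nd (nat_lit 78) (nat_lit 0) (nat_lit 0) (XT.lf (nat_lit 0) (nat_lit 62848053460) (nat_lit 76) (nat_lit 37828717363) (nat_lit 152) (nat_lit 114656126124) (nat_lit 5) (nat_lit 5) (nat_lit 6) (nat_lit 5) (nat_lit 7) (nat_lit 4) (nat_lit 340) (nat_lit 272) (nat_lit 108)) (XT.lf (nat_lit 0) (nat_lit 98967063519) (nat_lit 76) (nat_lit 19329853717) (nat_lit 152) (nat_lit 106787993298) (nat_lit 5) (nat_lit 5) (nat_lit 6) (nat_lit 5) (nat_lit 7) (nat_lit 4) (nat_lit 341) (nat_lit 272) (nat_lit 107)))) (XT.nd (nat_lit 156) (nat_lit 76) (nat_lit 0) (XT.nd (nat_lit 78) (nat_lit 0) (nat_lit 0) (XT.lf (nat_lit 0) (nat_lit 136798923498) (nat_lit 152) (nat_lit 98435015434) (nat_lit 0) (nat_lit 90544592) (nat_lit 5) (nat_lit 5) (nat_lit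 7) (nat_lit 4) (nat_lit 5) (nat_lit 4) (nat_lit 342) (nat_lit 272) (nat_lit 106)) (XT.lf (nat_lit 0) (nat_lit 156542327832) (nat_lit 152) (nat_lit 69685923070) (nat_lit 0) (nat_lit 19831970662) (nat_lit 5) (nat_lit 5) (nat_lit 7) (nat_lit 4) (nat_lit 5) (nat_lit 4) (nat_lit 343) (nat_lit 272) (nat_lit 105))) (XT.nd (nat_lit 78) (nat_lit 76) (nat_lit 0) (XT.lf (nat_lit 0) (nat_lit 177272345155) (nat_lit 152) (nat_lit 39500326512) (nat_lit 0) (nat_lit 40560103925) (nat_lit 5) (nat_lit 5) (nat_lit 7) (nat_lit 4) (nat_lit 5) (nat_lit 4) (nat_lit 344) (nat_lit 272) (nat_lit 104)) (XT.nd (nat_lit 78) (nat_lit 76) (nat_lit 0) (XT.lf (nat_lit 0) (nat_lit 199038332652) (nat_lit 152) (nat_lit 7806355294) (nat_lit 0) (nat_lit 62324297079) (nat_lit 5) (nat_lit 5) (nat_lit 7) (nat_lit 4) (nat_lit 5) (nat_lit 4) (nat_lit 345) (nat_lit 272) (nat_lit 103)) (XT.lf (nat_lit 0) (nat_lit 26313653669)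 (nat_lit 76) (nat_lit 195989290311) (nat_lit 76) (nat_lit 59273545839) (nat_lit 4) (nat_lit 4) (nat_lit 5) (nat_lit 5) (nat_lit 5) (nat_lit 4) (nat_lit 346) (nat_lit 272) (nat_lit 102))))))) (XT.nd (nat_lit 32292) (nat_lit 0) (nat_lit 3192) (XT.nd (nat_lit 31980) (nat_lit 0) (nat_lit 3952) (XT.nd (nat_lit 31824) (nat_lit 0) (nat_lit 4560) (XT.nd (nat_lit 31746) (nat_lit 0) (nat_lit 4560) (XT.lf (nat_lit 0) (nat_lit 62409833951) (nat_lit 76) (nat_lit 184452661732) (nat_lit 76) (nat_lit 47735289738) (nat_lit 4) (nat_lit 4) (nat_lit 5) (nat_lit 5) (nat_lit 5) (nat_lit 4) (nat_lit 347) (nat_lit 272) (nat_lit 101)) (XT.lf (nat_lit 0) (nat_lit 9542481884) (nat_lit 684) (nat_lit 414017539) (nat_lit 684) (nat_lit 414017539) (nat_lit 64) (nat_lit 3) (nat_lit 73) (nat_lit 3) (nat_lit 73) (nat_lit 5) (nat_lit 273) (nat_lit 273) (nat_lit 174))) (XT.nd (nat_lit 78) (nat_lit 0) (nat_lit 0) (XT.lf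 (nat_lit 76) (nat_lit 7694554901) (nat_lit 0) (nat_lit 12119167492) (nat_lit 684) (nat_lit 1432547250) (nat_lit 65) (nat_lit 5) (nat_lit 64) (nat_lit 3) (nat_lit 73) (nat_lit 5) (nat_lit 274) (nat_lit 273) (nat_lit 173)) (XT.lf (nat_lit 76) (nat_lit 16667433050) (nat_lit 0) (nat_lit 3917019725) (nat_lit 684) (nat_lit 1192083025) (nat_lit 65) (nat_lit 5) (nat_lit 64) (nat_lit 3) (nat_lit 73) (nat_lit 5) (nat_lit 275) (nat_lit 273) (nat_lit 172)))) (XT.nd (nat_lit 156) (nat_lit 684) (nat_lit 0) (XT.nd (nat_lit 78) (nat_lit 0) (nat_lit 0) (XT.lf (nat_lit 76) (nat_lit 3799051670) (nat_lit 0) (nat_lit 17719260538) (nat_lit 684) (nat_lit 808816620) (nat_lit 66) (nat_lit 5) (nat_lit 65) (nat_lit 5) (nat_lit 74) (nat_lit 5) (nat_lit 276) (nat_lit 273) (nat_lit 171)) (XT.lf (nat_lit 76) (nat_lit 13258856578) (nat_lit 0) (nat_lit 9381991149) (nat_lit 684) (nat_lit 257345754) (nat_lit 66) (nat_lit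 5) (nat_lit 65) (nat_lit 5) (nat_lit 74) (nat_lit 5) (nat_lit 277) (nat_lit 273) (nat_lit 170))) (XT.nd (nat_lit 78) (nat_lit 0) (nat_lit 76) (XT.lf (nat_lit 0) (nat_lit 303891699) (nat_lit 684) (nat_lit 316036582) (nat_lit 760) (nat_lit 22878044791) (nat_lit 56) (nat_lit 5) (nat_lit 65) (nat_lit 5) (nat_lit 66) (nat_lit 5) (nat_lit 278) (nat_lit 273) (nat_lit 169)) (XT.lf (nat_lit 0) (nat_lit 1166616955) (nat_lit 684) (nat_lit 14479335115) (nat_lit 760) (nat_lit 8467510442) (nat_lit 57) (nat_lit 5) (nat_lit 66) (nat_lit 5) (nat_lit 67) (nat_lit 5) (nat_lit 279) (nat_lit 273) (nat_lit 168))))) (XT.nd (nat_lit 312) (nat_lit 836) (nat_lit 0) (XT.nd (nat_lit 156) (nat_lit 0) (nat_lit 76) (XT.nd (nat_lit 78) (nat_lit 0) (nat_lit 76) (XT.lf (nat_lit 0) (nat_lit 2081234317) (nat_lit 684) (nat_lit 4681900721) (nat_lit 760) (nat_lit 17996187434) (nat_lit 57) (nat_lit 5) (nat_lit 66) (nat_lit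 5) (nat_lit 67) (nat_lit 5) (nat_lit 280) (nat_lit 273) (nat_lit 167)) (XT.lf (nat_lit 0) (nat_lit 3166932575) (nat_lit 684) (nat_lit 19688991971) (nat_lit 760) (nat_lit 2575315607) (nat_lit 58) (nat_lit 5) (nat_lit 67) (nat_lit 5) (nat_lit 68) (nat_lit 5) (nat_lit 281) (nat_lit 273) (nat_lit 166))) (XT.nd (nat_lit 78) (nat_lit 0) (nat_lit 0) (XT.lf (nat_lit 0) (nat_lit 4492119456) (nat_lit 684) (nat_lit 9399831373) (nat_lit 760) (nat_lit 12235573398) (nat_lit 58) (nat_lit 5) (nat_lit 67) (nat_lit 5) (nat_lit 68) (nat_lit 5) (nat_lit 282) (nat_lit 273) (nat_lit 165)) (XT.lf (nat_lit 76) (nat_lit 1445262967) (nat_lit 0) (nat_lit 4454907842) (nat_lit 760) (nat_lit 20957650670) (nat_lit 59) (nat_lit 5) (nat_lit 58) (nat_lit 5) (nat_lit 68) (nat_lit 5) (nat_lit 283) (nat_lit 273) (nat_lit 164)))) (XT.nd (nat_lit 156) (nat_lit 988) (nat_lit 0) (XT.nd (nat_lit 78) (nat_lit 0) (nat_lit 0)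 (XT.lf (nat_lit 0) (nat_lit 7619844297) (nat_lit 684) (nat_lit 14550519029) (nat_lit 76) (nat_lit 5442237127) (nat_lit 59) (nat_lit 5) (nat_lit 68) (nat_lit 5) (nat_lit 60) (nat_lit 5) (nat_lit 284) (nat_lit 273) (nat_lit 163)) (XT.lf (nat_lit 0) (nat_lit 9493072891) (nat_lit 684) (nat_lit 3223205236) (nat_lit 76) (nat_lit 15685488192) (nat_lit 59) (nat_lit 5) (nat_lit 68) (nat_lit 5) (nat_lit 60) (nat_lit 5) (nat_lit 285) (nat_lit 273) (nat_lit 162))) (XT.nd (nat_lit 78) (nat_lit 304) (nat_lit 0) (XT.lf (nat_lit 0) (nat_lit 8952440256) (nat_lit 684) (nat_lit 2642095489) (nat_lit 760) (nat_lit 17629151342) (nat_lit 50) (nat_lit 5) (nat_lit 59) (nat_lit 5) (nat_lit 60) (nat_lit 5) (nat_lit 286) (nat_lit 273) (nat_lit 161)) (XT.nd (nat_lit 78) (nat_lit 304) (nat_lit 0) (XT.lf (nat_lit 0) (nat_lit 13975439001) (nat_lit 760) (nat_lit 8364776742) (nat_lit 76) (nat_lit 7737793836) (nat_lit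 50) (nat_lit 5) (nat_lit 60) (nat_lit 5) (nat_lit 51) (nat_lit 5) (nat_lit 287) (nat_lit 273) (nat_lit 160)) (XT.lf (nat_lit 0) (nat_lit 4224359482) (nat_lit 304) (nat_lit 12355519674) (nat_lit 380) (nat_lit 14389967355) (nat_lit 46) (nat_lit 5) (nat_lit 50) (nat_lit 5) (nat_lit 51) (nat_lit 5) (nat_lit 288) (nat_lit 273) (nat_lit 159))))))))
noncomputable def xc207 : XT := (XT.nd (nat_lit 1326) (nat_lit 988) (nat_lit 0) (XT.nd (nat_lit 624) (nat_lit 684) (nat_lit 0) (XT.nd (nat_lit 312) (nat_lit 608) (nat_lit 0) (XT.nd (nat_lit 156) (nat_lit 304) (nat_lit 0) (XT.nd (nat_lit 78) (nat_lit 0) (nat_lit 0) (XT.lf (nat_lit 0) (nat_lit 17728881855) (nat_lit 304) (nat_lit 1722703117) (nat_lit 380) (nat_lit 12447859949) (nat_lit 46) (nat_lit 5) (nat_lit 50) (nat_lit 5) (nat_lit 51) (nat_lit 5) (nat_lit 289) (nat_lit 273) (nat_lit 158)) (XT.lf (nat_lit 0) (nat_lit 22609892431) (nat_lit 380)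 (nat_lit 1118811561) (nat_lit 76) (nat_lit 9139689215) (nat_lit 46) (nat_lit 5) (nat_lit 51) (nat_lit 5) (nat_lit 47) (nat_lit 5) (nat_lit 290) (nat_lit 273) (nat_lit 157))) (XT.nd (nat_lit 78) (nat_lit 0) (nat_lit 0) (XT.lf (nat_lit 0) (nat_lit 12968053358) (nat_lit 304) (nat_lit 13184584031) (nat_lit 380) (nat_lit 7721845196) (nat_lit 42) (nat_lit 5) (nat_lit 46) (nat_lit 5) (nat_lit 47) (nat_lit 5) (nat_lit 291) (nat_lit 273) (nat_lit 156)) (XT.lf (nat_lit 0) (nat_lit 27793881536) (nat_lit 304) (nat_lit 2093532543) (nat_lit 380) (nat_lit 5042736471) (nat_lit 42) (nat_lit 5) (nat_lit 46) (nat_lit 5) (nat_lit 47) (nat_lit 5) (nat_lit 292) (nat_lit 273) (nat_lit 155)))) (XT.nd (nat_lit 156) (nat_lit 304) (nat_lit 0) (XT.nd (nat_lit 78) (nat_lit 76) (nat_lit 0) (XT.lf (nat_lit 0) (nat_lit 7406075310) (nat_lit 228) (nat_lit 26663755848) (nat_lit 304) (nat_lit 1955743625) (nat_lit 39)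 (nat_lit 5) (nat_lit 42) (nat_lit 5) (nat_lit 43) (nat_lit 5) (nat_lit 293) (nat_lit 273) (nat_lit 154)) (XT.lf (nat_lit 0) (nat_lit 1397787693) (nat_lit 304) (nat_lit 14307113040) (nat_lit 76) (nat_lit 21462215378) (nat_lit 38) (nat_lit 5) (nat_lit 42) (nat_lit 5) (nat_lit 39) (nat_lit 5) (nat_lit 294) (nat_lit 273) (nat_lit 153))) (XT.nd (nat_lit 78) (nat_lit 0) (nat_lit 0) (XT.lf (nat_lit 0) (nat_lit 707372278) (nat_lit 304) (nat_lit 4153301933) (nat_lit 380) (nat_lit 33503102507) (nat_lit 34) (nat_lit 5) (nat_lit 38) (nat_lit 5) (nat_lit 39) (nat_lit 5) (nat_lit 295) (nat_lit 273) (nat_lit 152)) (XT.lf (nat_lit 0) (nat_lit 8863963680) (nat_lit 380) (nat_lit 22771577460) (nat_lit 76) (nat_lit 7966381047) (nat_lit 34) (nat_lit 5) (nat_lit 39) (nat_lit 5) (nat_lit 35) (nat_lit 5) (nat_lit 296) (nat_lit 273) (nat_lit 151))))) (XT.nd (nat_lit 312) (nat_lit 228) (nat_lit 0) (XT.nd (nat_lit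 156) (nat_lit 228) (nat_lit 0) (XT.nd (nat_lit 78) (nat_lit 228) (nat_lit 0) (XT.lf (nat_lit 0) (nat_lit 13132135830) (nat_lit 380) (nat_lit 7214611889) (nat_lit 76) (nat_lit 20552005360) (nat_lit 34) (nat_lit 5) (nat_lit 39) (nat_lit 5) (nat_lit 35) (nat_lit 5) (nat_lit 297) (nat_lit 273) (nat_lit 150)) (XT.lf (nat_lit 0) (nat_lit 9417805954) (nat_lit 228) (nat_lit 8339740684) (nat_lit 304) (nat_lit 24495700768) (nat_lit 31) (nat_lit 5) (nat_lit 34) (nat_lit 5) (nat_lit 35) (nat_lit 5) (nat_lit 298) (nat_lit 273) (nat_lit 149))) (XT.nd (nat_lit 78) (nat_lit 228) (nat_lit 0) (XT.lf (nat_lit 0) (nat_lit 22801918991) (nat_lit 304) (nat_lit 16609591297) (nat_lit 76) (nat_lit 4254584363) (nat_lit 31) (nat_lit 5) (nat_lit 35) (nat_lit 5) (nat_lit 32) (nat_lit 5) (nat_lit 299) (nat_lit 273) (nat_lit 148)) (XT.lf (nat_lit 0) (nat_lit 296592582) (nat_lit 228) (nat_lit 27940289466) (nat_lit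 304) (nat_lit 16905795752) (nat_lit 28) (nat_lit 5) (nat_lit 31) (nat_lit 5) (nat_lit 32) (nat_lit 5) (nat_lit 300) (nat_lit 273) (nat_lit 147)))) (XT.nd (nat_lit 156) (nat_lit 228) (nat_lit 0) (XT.nd (nat_lit 78) (nat_lit 0) (nat_lit 0) (XT.lf (nat_lit 0) (nat_lit 18621058858) (nat_lit 228) (nat_lit 15600934581) (nat_lit 304) (nat_lit 12457188227) (nat_lit 28) (nat_lit 5) (nat_lit 31) (nat_lit 5) (nat_lit 32) (nat_lit 5) (nat_lit 301) (nat_lit 273) (nat_lit 146)) (XT.lf (nat_lit 0) (nat_lit 37858249113) (nat_lit 228) (nat_lit 2645357682) (nat_lit 304) (nat_lit 7789052626) (nat_lit 28) (nat_lit 5) (nat_lit 31) (nat_lit 5) (nat_lit 32) (nat_lit 5) (nat_lit 302) (nat_lit 273) (nat_lit 145))) (XT.nd (nat_lit 78) (nat_lit 76) (nat_lit 0) (XT.lf (nat_lit 0) (nat_lit 8157014946) (nat_lit 152) (nat_lit 39238091227) (nat_lit 228) (nat_lit 2576925116) (nat_lit 26) (nat_lit 5) (nat_lit 28) (nat_lit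 5) (nat_lit 29) (nat_lit 5) (nat_lit 303) (nat_lit 273) (nat_lit 144)) (XT.nd (nat_lit 78) (nat_lit 0) (nat_lit 0) (XT.lf (nat_lit 0) (nat_lit 3023487003) (nat_lit 228) (nat_lit 23781243942) (nat_lit 76) (nat_lit 24917371628) (nat_lit 25) (nat_lit 5) (nat_lit 28) (nat_lit 5) (nat_lit 26) (nat_lit 5) (nat_lit 304) (nat_lit 273) (nat_lit 143)) (XT.lf (nat_lit 0) (nat_lit 8814829555) (nat_lit 228) (nat_lit 4891364055) (nat_lit 76) (nat_lit 39851505070) (nat_lit 25) (nat_lit 5) (nat_lit 28) (nat_lit 5) (nat_lit 26) (nat_lit 5) (nat_lit 305) (nat_lit 273) (nat_lit 142))))))) (XT.nd (nat_lit 624) (nat_lit 380) (nat_lit 0) (XT.nd (nat_lit 312) (nat_lit 228) (nat_lit 0) (XT.nd (nat_lit 156) (nat_lit 152) (nat_lit 0) (XT.nd (nat_lit 78) (nat_lit 0) (nat_lit 0) (XT.lf (nat_lit 0) (nat_lit 15139009849) (nat_lit 304) (nat_lit 40044018578) (nat_lit 76) (nat_lit 289891268) (nat_lit 22) (nat_lit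 5) (nat_lit 26) (nat_lit 5) (nat_lit 23) (nat_lit 5) (nat_lit 306) (nat_lit 273) (nat_lit 141)) (XT.lf (nat_lit 0) (nat_lit 22085967622) (nat_lit 304) (nat_lit 20774049954) (nat_lit 76) (nat_lit 14608563980) (nat_lit 22) (nat_lit 5) (nat_lit 26) (nat_lit 5) (nat_lit 23) (nat_lit 5) (nat_lit 307) (nat_lit 273) (nat_lit 140))) (XT.nd (nat_lit 78) (nat_lit 152) (nat_lit 0) (XT.lf (nat_lit 0) (nat_lit 29378064861) (nat_lit 304) (nat_lit 543665801) (nat_lit 76) (nat_lit 29642414101) (nat_lit 22) (nat_lit 5) (nat_lit 26) (nat_lit 5) (nat_lit 23) (nat_lit 5) (nat_lit 308) (nat_lit 273) (nat_lit 139)) (XT.lf (nat_lit 0) (nat_lit 21379581591) (nat_lit 152) (nat_lit 15986877295) (nat_lit 228) (nat_lit 24381450103) (nat_lit 20) (nat_lit 5) (nat_lit 22) (nat_lit 5) (nat_lit 23) (nat_lit 5) (nat_lit 309) (nat_lit 273) (nat_lit 138)))) (XT.nd (nat_lit 156) (nat_lit 76) (nat_lit 0) (XT.nd (nat_lit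 78) (nat_lit 152) (nat_lit 0) (XT.lf (nat_lit 0) (nat_lit 44414977462) (nat_lit 152) (nat_lit 1346454189) (nat_lit 228) (nat_lit 18279078927) (nat_lit 20) (nat_lit 5) (nat_lit 22) (nat_lit 5) (nat_lit 23) (nat_lit 5) (nat_lit 310) (nat_lit 273) (nat_lit 137)) (XT.lf (nat_lit 0) (nat_lit 1996472475) (nat_lit 152) (nat_lit 52827872951) (nat_lit 228) (nat_lit 11610993964) (nat_lit 18) (nat_lit 5) (nat_lit 20) (nat_lit 5) (nat_lit 21) (nat_lit 5) (nat_lit 311) (nat_lit 273) (nat_lit 136))) (XT.nd (nat_lit 78) (nat_lit 76) (nat_lit 0) (XT.lf (nat_lit 0) (nat_lit 25355332561) (nat_lit 152) (nat_lit 39337243873) (nat_lit 228) (nat_lit 4239731072) (nat_lit 18) (nat_lit 5) (nat_lit 20) (nat_lit 5) (nat_lit 21) (nat_lit 5) (nat_lit 312) (nat_lit 273) (nat_lit 135)) (XT.lf (nat_lit 0) (nat_lit 3386212010) (nat_lit 228) (nat_lit 21729365877) (nat_lit 76) (nat_lit 46435912572) (nat_lit 17) (nat_lit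 5) (nat_lit 20) (nat_lit 5) (nat_lit 18) (nat_lit 5) (nat_lit 313) (nat_lit 273) (nat_lit 134))))) (XT.nd (nat_lit 312) (nat_lit 228) (nat_lit 0) (XT.nd (nat_lit 156) (nat_lit 0) (nat_lit 0) (XT.nd (nat_lit 78) (nat_lit 0) (nat_lit 0) (XT.lf (nat_lit 0) (nat_lit 1176163277) (nat_lit 152) (nat_lit 10091399832) (nat_lit 228) (nat_lit 63029770144) (nat_lit 15) (nat_lit 5) (nat_lit 17) (nat_lit 5) (nat_lit 18) (nat_lit 5) (nat_lit 314) (nat_lit 273) (nat_lit 133)) (XT.lf (nat_lit 0) (nat_lit 20004016512) (nat_lit 228) (nat_lit 51278118365) (nat_lit 76) (nat_lit 5875286871) (nat_lit 15) (nat_lit 5) (nat_lit 18) (nat_lit 5) (nat_lit 16) (nat_lit 5) (nat_lit 315) (nat_lit 273) (nat_lit 132))) (XT.nd (nat_lit 78) (nat_lit 0) (nat_lit 0) (XT.lf (nat_lit 0) (nat_lit 29341069857) (nat_lit 228) (nat_lit 28510859090) (nat_lit 76) (nat_lit 22300401906) (nat_lit 15) (nat_lit 5) (nat_lit 18) (nat_lit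 5) (nat_lit 16) (nat_lit 5) (nat_lit 316) (nat_lit 273) (nat_lit 131)) (XT.lf (nat_lit 0) (nat_lit 39143399191) (nat_lit 228) (nat_lit 4607629357) (nat_lit 76) (nat_lit 39546040504) (nat_lit 15) (nat_lit 5) (nat_lit 18) (nat_lit 5) (nat_lit 16) (nat_lit 5) (nat_lit 317) (nat_lit 273) (nat_lit 130)))) (XT.nd (nat_lit 156) (nat_lit 76) (nat_lit 0) (XT.nd (nat_lit 78) (nat_lit 0) (nat_lit 0) (XT.lf (nat_lit 0) (nat_lit 21165925069) (nat_lit 152) (nat_lit 28598877731) (nat_lit 228) (nat_lit 36817798049) (nat_lit 13) (nat_lit 5) (nat_lit 15) (nat_lit 5) (nat_lit 16) (nat_lit 5) (nat_lit 318) (nat_lit 273) (nat_lit 129)) (XT.lf (nat_lit 0) (nat_lit 48385881878) (nat_lit 152) (nat_lit 12607962050) (nat_lit 228) (nat_lit 29034741301) (nat_lit 13) (nat_lit 5) (nat_lit 15) (nat_lit 5) (nat_lit 16) (nat_lit 5) (nat_lit 319) (nat_lit 273) (nat_lit 128))) (XT.nd (nat_lit 78) (nat_lit 76) (nat_lit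 0) (XT.lf (nat_lit 0) (nat_lit 72848230771) (nat_lit 228) (nat_lit 16747530280) (nat_lit 76) (nat_lit 4047917245) (nat_lit 13) (nat_lit 5) (nat_lit 16) (nat_lit 5) (nat_lit 14) (nat_lit 4) (nat_lit 320) (nat_lit 273) (nat_lit 127)) (XT.nd (nat_lit 78) (nat_lit 0) (nat_lit 0) (XT.lf (nat_lit 0) (nat_lit 9487272715) (nat_lit 76) (nat_lit 76161535174) (nat_lit 152) (nat_lit 11773048536) (nat_lit 12) (nat_lit 5) (nat_lit 13) (nat_lit 5) (nat_lit 14) (nat_lit 4) (nat_lit 321) (nat_lit 273) (nat_lit 126)) (XT.lf (nat_lit 0) (nat_lit 37613193249) (nat_lit 76) (nat_lit 61758539917) (nat_lit 152) (nat_lit 2003098095) (nat_lit 12) (nat_lit 5) (nat_lit 13) (nat_lit 5) (nat_lit 14) (nat_lit 4) (nat_lit 322) (nat_lit 273) (nat_lit 125))))))))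
noncomputable def xc208 : XT := (XT.nd (nat_lit 1248) (nat_lit 152) (nat_lit 0) (XT.nd (nat_lit 624) (nat_lit 152) (nat_lit 0) (XT.nd (nat_lit 312) (nat_lit 76) (nat_lit 0) (XT.nd (nat_lit 156) (nat_lit 152) (nat_lit 0) (XT.nd (nat_lit 78) (nat_lit 0) (nat_lit 0) (XT.lf (nat_lit 0) (nat_lit 7989857287) (nat_lit 152) (nat_lit 38510940577) (nat_lit 76) (nat_lit 59018279425) (nat_lit 11) (nat_lit 5) (nat_lit 13) (nat_lit 5) (nat_lit 12) (nat_lit 5) (nat_lit 323) (nat_lit 273) (nat_lit 124)) (XT.lf (nat_lit 0) (nat_lit 18413933848) (nat_lit 152) (nat_lit 12032456800) (nat_lit 76) (nat_lit 79422566809) (nat_lit 11) (nat_lit 5) (nat_lit 13) (nat_lit 5) (nat_lit 12) (nat_lit 5) (nat_lit 324) (nat_lit 273) (nat_lit 123))) (XT.nd (nat_lit 78) (nat_lit 0) (nat_lit 0) (XT.lf (nat_lit 0) (nat_lit 16289496933) (nat_lit 152) (nat_lit 13322890231) (nat_lit 228) (nat_lit 84811288921) (nat_lit 9) (nat_lit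 5) (nat_lit 11) (nat_lit 5) (nat_lit 12) (nat_lit 5) (nat_lit 325) (nat_lit 273) (nat_lit 122)) (XT.lf (nat_lit 0) (nat_lit 41649449402) (nat_lit 228) (nat_lit 72828539148) (nat_lit 76) (nat_lit 4714210731) (nat_lit 9) (nat_lit 5) (nat_lit 12) (nat_lit 5) (nat_lit 10) (nat_lit 4) (nat_lit 326) (nat_lit 273) (nat_lit 121)))) (XT.nd (nat_lit 156) (nat_lit 76) (nat_lit 0) (XT.nd (nat_lit 78) (nat_lit 0) (nat_lit 0) (XT.lf (nat_lit 0) (nat_lit 54505691575) (nat_lit 228) (nat_lit 46477776908) (nat_lit 76) (nat_lit 23204816624) (nat_lit 9) (nat_lit 5) (nat_lit 12) (nat_lit 5) (nat_lit 10) (nat_lit 4) (nat_lit 327) (nat_lit 273) (nat_lit 120)) (XT.lf (nat_lit 0) (nat_lit 68003716132) (nat_lit 228) (nat_lit 18811144868) (nat_lit 76) (nat_lit 42619368387) (nat_lit 9) (nat_lit 5) (nat_lit 12) (nat_lit 5) (nat_lit 10) (nat_lit 4) (nat_lit 328) (nat_lit 273) (nat_lit 119))) (XT.nd (nat_lit 78)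 (nat_lit 0) (nat_lit 0) (XT.lf (nat_lit 0) (nat_lit 10575718960) (nat_lit 76) (nat_lit 71765058878) (nat_lit 152) (nat_lit 52593488797) (nat_lit 8) (nat_lit 5) (nat_lit 9) (nat_lit 5) (nat_lit 10) (nat_lit 4) (nat_lit 329) (nat_lit 273) (nat_lit 118)) (XT.lf (nat_lit 0) (nat_lit 42083443211) (nat_lit 76) (nat_lit 55628866859) (nat_lit 152) (nat_lit 42981117229) (nat_lit 8) (nat_lit 5) (nat_lit 9) (nat_lit 5) (nat_lit 10) (nat_lit 4) (nat_lit 330) (nat_lit 273) (nat_lit 117))))) (XT.nd (nat_lit 312) (nat_lit 0) (nat_lit 0) (XT.nd (nat_lit 156) (nat_lit 152) (nat_lit 0) (XT.nd (nat_lit 78) (nat_lit 0) (nat_lit 0) (XT.lf (nat_lit 0) (nat_lit 75165064874) (nat_lit 76) (nat_lit 38686441281) (nat_lit 152) (nat_lit 32889087792) (nat_lit 8) (nat_lit 5) (nat_lit 9) (nat_lit 5) (nat_lit 10) (nat_lit 4) (nat_lit 331) (nat_lit 273) (nat_lit 116)) (XT.lf (nat_lit 0) (nat_lit 109899349715) (nat_lit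 76) (nat_lit 20897443035) (nat_lit 152) (nat_lit 22293371845) (nat_lit 8) (nat_lit 5) (nat_lit 9) (nat_lit 5) (nat_lit 10) (nat_lit 4) (nat_lit 332) (nat_lit 273) (nat_lit 115))) (XT.nd (nat_lit 78) (nat_lit 152) (nat_lit 0) (XT.lf (nat_lit 0) (nat_lit 146368998411) (nat_lit 76) (nat_lit 2219517362) (nat_lit 152) (nat_lit 11168741494) (nat_lit 8) (nat_lit 5) (nat_lit 9) (nat_lit 5) (nat_lit 10) (nat_lit 4) (nat_lit 333) (nat_lit 273) (nat_lit 114)) (XT.lf (nat_lit 0) (nat_lit 1059954237) (nat_lit 152) (nat_lit 148532504581) (nat_lit 76) (nat_lit 17136636628) (nat_lit 6) (nat_lit 5) (nat_lit 8) (nat_lit 5) (nat_lit 7) (nat_lit 4) (nat_lit 334) (nat_lit 273) (nat_lit 113)))) (XT.nd (nat_lit 156) (nat_lit 0) (nat_lit 0) (XT.nd (nat_lit 78) (nat_lit 0) (nat_lit 0) (XT.lf (nat_lit 0) (nat_lit 13790787764) (nat_lit 152) (nat_lit 122437218647) (nat_lit 76) (nat_lit 37799063932) (nat_lit 6)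 (nat_lit 5) (nat_lit 8) (nat_lit 5) (nat_lit 7) (nat_lit 4) (nat_lit 335) (nat_lit 273) (nat_lit 112)) (XT.lf (nat_lit 0) (nat_lit 27157407533) (nat_lit 152) (nat_lit 95038431737) (nat_lit 76) (nat_lit 59494144212) (nat_lit 6) (nat_lit 5) (nat_lit 8) (nat_lit 5) (nat_lit 7) (nat_lit 4) (nat_lit 336) (nat_lit 273) (nat_lit 111))) (XT.nd (nat_lit 78) (nat_lit 0) (nat_lit 0) (XT.lf (nat_lit 0) (nat_lit 41191638828) (nat_lit 152) (nat_lit 66270908645) (nat_lit 76) (nat_lit 82273532421) (nat_lit 6) (nat_lit 5) (nat_lit 8) (nat_lit 5) (nat_lit 7) (nat_lit 4) (nat_lit 337) (nat_lit 273) (nat_lit 110)) (XT.lf (nat_lit 0) (nat_lit 55926896486) (nat_lit 152) (nat_lit 36066155267) (nat_lit 76) (nat_lit 106191465198) (nat_lit 6) (nat_lit 5) (nat_lit 8) (nat_lit 5) (nat_lit 7) (nat_lit 4) (nat_lit 338) (nat_lit 273) (nat_lit 109)))))) (XT.nd (nat_lit 624) (nat_lit 76) (nat_lit 0) (XT.nd (nat_lit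 312) (nat_lit 0) (nat_lit 0) (XT.nd (nat_lit 156) (nat_lit 0) (nat_lit 0) (XT.nd (nat_lit 78) (nat_lit 76) (nat_lit 0) (XT.lf (nat_lit 0) (nat_lit 71398264454) (nat_lit 152) (nat_lit 4352255524) (nat_lit 76) (nat_lit 131304890001) (nat_lit 6) (nat_lit 5) (nat_lit 8) (nat_lit 5) (nat_lit 7) (nat_lit 4) (nat_lit 339) (nat_lit 273) (nat_lit 108)) (XT.lf (nat_lit 0) (nat_lit 29903395267) (nat_lit 76) (nat_lit 58206059860) (nat_lit 152) (nat_lit 128237081238) (nat_lit 5) (nat_lit 5) (nat_lit 6) (nat_lit 5) (nat_lit 7) (nat_lit 4) (nat_lit 340) (nat_lit 273) (nat_lit 107))) (XT.nd (nat_lit 78) (nat_lit 0) (nat_lit 0) (XT.lf (nat_lit 0) (nat_lit 66021906509) (nat_lit 76) (nat_lit 39707398509) (nat_lit 152) (nat_lit 120369260418) (nat_lit 5) (nat_lit 5) (nat_lit 6) (nat_lit 5) (nat_lit 7) (nat_lit 4) (nat_lit 341) (nat_lit 273) (nat_lit 106)) (XT.lf (nat_lit 0) (nat_lit 103945369433) (nat_lit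 76) (nat_lit 20284199049) (nat_lit 152) (nat_lit 112108657712) (nat_lit 5) (nat_lit 5) (nat_lit 6) (nat_lit 5) (nat_lit 7) (nat_lit 4) (nat_lit 342) (nat_lit 273) (nat_lit 105)))) (XT.nd (nat_lit 156) (nat_lit 0) (nat_lit 0) (XT.nd (nat_lit 78) (nat_lit 0) (nat_lit 0) (XT.lf (nat_lit 0) (nat_lit 143656007804) (nat_lit 152) (nat_lit 103327534825) (nat_lit 0) (nat_lit 106270452) (nat_lit 5) (nat_lit 5) (nat_lit 7) (nat_lit 4) (nat_lit 5) (nat_lit 4) (nat_lit 343) (nat_lit 273) (nat_lit 104)) (XT.lf (nat_lit 0) (nat_lit 164385766254) (nat_lit 152) (nat_lit 73142379813) (nat_lit 0) (nat_lit 20834234558) (nat_lit 5) (nat_lit 5) (nat_lit 7) (nat_lit 4) (nat_lit 5) (nat_lit 4) (nat_lit 344) (nat_lit 273) (nat_lit 103))) (XT.nd (nat_lit 78) (nat_lit 0) (nat_lit 0) (XT.lf (nat_lit 0) (nat_lit 186151507204) (nat_lit 152) (nat_lit 41448829114) (nat_lit 0) (nat_lit 42598266610) (nat_lit 5) (nat_lit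 5) (nat_lit 7) (nat_lit 4) (nat_lit 5) (nat_lit 4) (nat_lit 345) (nat_lit 273) (nat_lit 102)) (XT.lf (nat_lit 0) (nat_lit 209005053848) (nat_lit 152) (nat_lit 8171421893) (nat_lit 0) (nat_lit 65450185732) (nat_lit 5) (nat_lit 5) (nat_lit 7) (nat_lit 4) (nat_lit 5) (nat_lit 4) (nat_lit 346) (nat_lit 273) (nat_lit 101))))) (XT.nd (nat_lit 32058) (nat_lit 0) (nat_lit 3952) (XT.nd (nat_lit 31902) (nat_lit 0) (nat_lit 4560) (XT.nd (nat_lit 31824) (nat_lit 0) (nat_lit 4560) (XT.lf (nat_lit 0) (nat_lit 27654180242) (nat_lit 76) (nat_lit 205778398404) (nat_lit 76) (nat_lit 62221980266) (nat_lit 4) (nat_lit 4) (nat_lit 5) (nat_lit 5) (nat_lit 5) (nat_lit 4) (nat_lit 347) (nat_lit 273) (nat_lit 100)) (XT.lf (nat_lit 0) (nat_lit 10149053845) (nat_lit 684) (nat_lit 366409614) (nat_lit 684) (nat_lit 366409614) (nat_lit 64) (nat_lit 3) (nat_lit 73) (nat_lit 3) (nat_lit 73) (nat_lit 5) (nat_lit 274)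 (nat_lit 274) (nat_lit 172))) (XT.nd (nat_lit 78) (nat_lit 0) (nat_lit 0) (XT.lf (nat_lit 76) (nat_lit 8213696741) (nat_lit 0) (nat_lit 12839377717) (nat_lit 684) (nat_lit 1241747094) (nat_lit 65) (nat_lit 5) (nat_lit 64) (nat_lit 3) (nat_lit 73) (nat_lit 5) (nat_lit 275) (nat_lit 274) (nat_lit 171)) (XT.lf (nat_lit 76) (nat_lit 17628818127) (nat_lit 0) (nat_lit 4221681998) (nat_lit 684) (nat_lit 1001756206) (nat_lit 65) (nat_lit 5) (nat_lit 64) (nat_lit 3) (nat_lit 73) (nat_lit 5) (nat_lit 276) (nat_lit 274) (nat_lit 170)))) (XT.nd (nat_lit 156) (nat_lit 684) (nat_lit 0) (XT.nd (nat_lit 78) (nat_lit 0) (nat_lit 0) (XT.lf (nat_lit 76) (nat_lit 4129519262) (nat_lit 0) (nat_lit 18690831781) (nat_lit 684) (nat_lit 610623279) (nat_lit 66) (nat_lit 5) (nat_lit 65) (nat_lit 5) (nat_lit 74) (nat_lit 5) (nat_lit 277) (nat_lit 274) (nat_lit 169)) (XT.lf (nat_lit 76) (nat_lit 14055623225) (nat_lit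 0) (nat_lit 9932622341) (nat_lit 684) (nat_lit 42942402) (nat_lit 66) (nat_lit 5) (nat_lit 65) (nat_lit 5) (nat_lit 74) (nat_lit 5) (nat_lit 278) (nat_lit 274) (nat_lit 168))) (XT.nd (nat_lit 78) (nat_lit 0) (nat_lit 76) (XT.lf (nat_lit 0) (nat_lit 528606817) (nat_lit 684) (nat_lit 196418723) (nat_lit 760) (nat_lit 23936329421) (nat_lit 56) (nat_lit 5) (nat_lit 65) (nat_lit 5) (nat_lit 66) (nat_lit 5) (nat_lit 279) (nat_lit 274) (nat_lit 167)) (XT.nd (nat_lit 78) (nat_lit 0) (nat_lit 0) (XT.lf (nat_lit 0) (nat_lit 1425503618) (nat_lit 684) (nat_lit 15057926285) (nat_lit 760) (nat_lit 8824686764) (nat_lit 57) (nat_lit 5) (nat_lit 66) (nat_lit 5) (nat_lit 67) (nat_lit 5) (nat_lit 280) (nat_lit 274) (nat_lit 166)) (XT.lf (nat_lit 0) (nat_lit 2376301572) (nat_lit 684) (nat_lit 4777542818) (nat_lit 760) (nat_lit 18832949948) (nat_lit 57) (nat_lit 5) (nat_lit 66) (nat_lit 5) (nat_lit 67)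 (nat_lit 5) (nat_lit 281) (nat_lit 274) (nat_lit 165))))))))
noncomputable def xc209 : XT := (XT.nd (nat_lit 1326) (nat_lit 1444) (nat_lit 0) (XT.nd (nat_lit 624) (nat_lit 912) (nat_lit 0) (XT.nd (nat_lit 312) (nat_lit 912) (nat_lit 0) (XT.nd (nat_lit 156) (nat_lit 0) (nat_lit 0) (XT.nd (nat_lit 78) (nat_lit 0) (nat_lit 0) (XT.lf (nat_lit 0) (nat_lit 3508569457) (nat_lit 684) (nat_lit 20526374316) (nat_lit 760) (nat_lit 2657794847) (nat_lit 58) (nat_lit 5) (nat_lit 67) (nat_lit 5) (nat_lit 68) (nat_lit 5) (nat_lit 282) (nat_lit 274) (nat_lit 164)) (XT.lf (nat_lit 0) (nat_lit 4891287575) (nat_lit 684) (nat_lit 9729758891) (nat_lit 760) (nat_lit 12803269648) (nat_lit 58) (nat_lit 5) (nat_lit 67) (nat_lit 5) (nat_lit 68) (nat_lit 5) (nat_lit 283) (nat_lit 274) (nat_lit 163))) (XT.nd (nat_lit 78) (nat_lit 0) (nat_lit 76) (XT.lf (nat_lit 76) (nat_lit 1655331070) (nat_lit 0) (nat_lit 4708249464)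 (nat_lit 760) (nat_lit 21827896514) (nat_lit 59) (nat_lit 5) (nat_lit 58) (nat_lit 5) (nat_lit 68) (nat_lit 5) (nat_lit 284) (nat_lit 274) (nat_lit 162)) (XT.lf (nat_lit 0) (nat_lit 8160763646) (nat_lit 684) (nat_lit 15137551503) (nat_lit 76) (nat_lit 5686142356) (nat_lit 59) (nat_lit 5) (nat_lit 68) (nat_lit 5) (nat_lit 60) (nat_lit 5) (nat_lit 285) (nat_lit 274) (nat_lit 161)))) (XT.nd (nat_lit 156) (nat_lit 304) (nat_lit 0) (XT.nd (nat_lit 78) (nat_lit 684) (nat_lit 0) (XT.lf (nat_lit 0) (nat_lit 10120038092) (nat_lit 684) (nat_lit 3250562185) (nat_lit 76) (nat_lit 16442899146) (nat_lit 59) (nat_lit 5) (nat_lit 68) (nat_lit 5) (nat_lit 60) (nat_lit 5) (nat_lit 286) (nat_lit 274) (nat_lit 160)) (XT.lf (nat_lit 0) (nat_lit 9531707463) (nat_lit 684) (nat_lit 2789669045) (nat_lit 760) (nat_lit 18355434822) (nat_lit 50) (nat_lit 5) (nat_lit 59) (nat_lit 5) (nat_lit 60) (nat_lit 5) (nat_lit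 287) (nat_lit 274) (nat_lit 159))) (XT.nd (nat_lit 78) (nat_lit 304) (nat_lit 0) (XT.lf (nat_lit 0) (nat_lit 14814089488) (nat_lit 760) (nat_lit 8649732896) (nat_lit 76) (nat_lit 8110422877) (nat_lit 50) (nat_lit 5) (nat_lit 60) (nat_lit 5) (nat_lit 51) (nat_lit 5) (nat_lit 288) (nat_lit 274) (nat_lit 158)) (XT.lf (nat_lit 0) (nat_lit 4566710418) (nat_lit 304) (nat_lit 12977427704) (nat_lit 380) (nat_lit 14966798542) (nat_lit 46) (nat_lit 5) (nat_lit 50) (nat_lit 5) (nat_lit 51) (nat_lit 5) (nat_lit 289) (nat_lit 274) (nat_lit 157))))) (XT.nd (nat_lit 312) (nat_lit 608) (nat_lit 0) (XT.nd (nat_lit 156) (nat_lit 304) (nat_lit 0) (XT.nd (nat_lit 78) (nat_lit 0) (nat_lit 0) (XT.lf (nat_lit 0) (nat_lit 18740214483) (nat_lit 304) (nat_lit 1812773554) (nat_lit 380) (nat_lit 12934379440) (nat_lit 46) (nat_lit 5) (nat_lit 50) (nat_lit 5) (nat_lit 51) (nat_lit 5) (nat_lit 290) (nat_lit 274)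 (nat_lit 156)) (XT.lf (nat_lit 0) (nat_lit 23863017887) (nat_lit 380) (nat_lit 1049038172) (nat_lit 76) (nat_lit 9593045744) (nat_lit 46) (nat_lit 5) (nat_lit 51) (nat_lit 5) (nat_lit 47) (nat_lit 5) (nat_lit 291) (nat_lit 274) (nat_lit 155))) (XT.nd (nat_lit 78) (nat_lit 0) (nat_lit 0) (XT.lf (nat_lit 0) (nat_lit 13740142348) (nat_lit 304) (nat_lit 13838849271) (nat_lit 380) (nat_lit 7982727051) (nat_lit 42) (nat_lit 5) (nat_lit 46) (nat_lit 5) (nat_lit 47) (nat_lit 5) (nat_lit 292) (nat_lit 274) (nat_lit 154)) (XT.lf (nat_lit 0) (nat_lit 29301372111) (nat_lit 304) (nat_lit 2193481588) (nat_lit 380) (nat_lit 5175625290) (nat_lit 42) (nat_lit 5) (nat_lit 46) (nat_lit 5) (nat_lit 47) (nat_lit 5) (nat_lit 293) (nat_lit 274) (nat_lit 153)))) (XT.nd (nat_lit 156) (nat_lit 304) (nat_lit 0) (XT.nd (nat_lit 78) (nat_lit 76) (nat_lit 0) (XT.lf (nat_lit 0) (nat_lit 7898282436) (nat_lit 228)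 (nat_lit 27984698510) (nat_lit 304) (nat_lit 1937889051) (nat_lit 39) (nat_lit 5) (nat_lit 42) (nat_lit 5) (nat_lit 43) (nat_lit 5) (nat_lit 294) (nat_lit 274) (nat_lit 152)) (XT.lf (nat_lit 0) (nat_lit 1574287075) (nat_lit 304) (nat_lit 14902391175) (nat_lit 76) (nat_lit 22543009097) (nat_lit 38) (nat_lit 5) (nat_lit 42) (nat_lit 5) (nat_lit 39) (nat_lit 5) (nat_lit 295) (nat_lit 274) (nat_lit 151))) (XT.nd (nat_lit 78) (nat_lit 0) (nat_lit 0) (XT.lf (nat_lit 0) (nat_lit 860881675) (nat_lit 304) (nat_lit 4346204086) (nat_lit 380) (nat_lit 35069278453) (nat_lit 34) (nat_lit 5) (nat_lit 38) (nat_lit 5) (nat_lit 39) (nat_lit 5) (nat_lit 296) (nat_lit 274) (nat_lit 150)) (XT.nd (nat_lit 78) (nat_lit 0) (nat_lit 0) (XT.lf (nat_lit 0) (nat_lit 9405836464) (nat_lit 380) (nat_lit 23792526206) (nat_lit 76) (nat_lit 8378310040) (nat_lit 34) (nat_lit 5) (nat_lit 39) (nat_lit 5) (nat_lit 35)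 (nat_lit 5) (nat_lit 297) (nat_lit 274) (nat_lit 149)) (XT.lf (nat_lit 0) (nat_lit 13882718431) (nat_lit 380) (nat_lit 7463313792) (nat_lit 76) (nat_lit 21592567477) (nat_lit 34) (nat_lit 5) (nat_lit 39) (nat_lit 5) (nat_lit 35) (nat_lit 5) (nat_lit 298) (nat_lit 274) (nat_lit 148))))))) (XT.nd (nat_lit 624) (nat_lit 760) (nat_lit 0) (XT.nd (nat_lit 312) (nat_lit 228) (nat_lit 0) (XT.nd (nat_lit 156) (nat_lit 228) (nat_lit 0) (XT.nd (nat_lit 78) (nat_lit 0) (nat_lit 0) (XT.lf (nat_lit 0) (nat_lit 9998918029) (nat_lit 228) (nat_lit 8737727583) (nat_lit 304) (nat_lit 25624329517) (nat_lit 31) (nat_lit 5) (nat_lit 34) (nat_lit 5) (nat_lit 35) (nat_lit 5) (nat_lit 299) (nat_lit 274) (nat_lit 147)) (XT.lf (nat_lit 0) (nat_lit 24029175214) (nat_lit 304) (nat_lit 17330680596) (nat_lit 76) (nat_lit 4484829784) (nat_lit 31) (nat_lit 5) (nat_lit 35) (nat_lit 5) (nat_lit 32) (nat_lit 5) (nat_lit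 300) (nat_lit 274) (nat_lit 146))) (XT.nd (nat_lit 78) (nat_lit 0) (nat_lit 0) (XT.lf (nat_lit 0) (nat_lit 419048118) (nat_lit 228) (nat_lit 29314368158) (nat_lit 304) (nat_lit 17661822073) (nat_lit 28) (nat_lit 5) (nat_lit 31) (nat_lit 5) (nat_lit 32) (nat_lit 5) (nat_lit 301) (nat_lit 274) (nat_lit 145)) (XT.lf (nat_lit 0) (nat_lit 19654612665) (nat_lit 228) (nat_lit 16359137709) (nat_lit 304) (nat_lit 12995034812) (nat_lit 28) (nat_lit 5) (nat_lit 31) (nat_lit 5) (nat_lit 32) (nat_lit 5) (nat_lit 302) (nat_lit 274) (nat_lit 144)))) (XT.nd (nat_lit 156) (nat_lit 76) (nat_lit 0) (XT.nd (nat_lit 78) (nat_lit 152) (nat_lit 0) (XT.lf (nat_lit 0) (nat_lit 39848781439) (nat_lit 228) (nat_lit 2756822137) (nat_lit 304) (nat_lit 8097540661) (nat_lit 28) (nat_lit 5) (nat_lit 31) (nat_lit 5) (nat_lit 32) (nat_lit 5) (nat_lit 303) (nat_lit 274) (nat_lit 143)) (XT.lf (nat_lit 0) (nat_lit 8664672738)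 (nat_lit 152) (nat_lit 41175214860) (nat_lit 228) (nat_lit 2626701252) (nat_lit 26) (nat_lit 5) (nat_lit 28) (nat_lit 5) (nat_lit 29) (nat_lit 5) (nat_lit 304) (nat_lit 274) (nat_lit 142))) (XT.nd (nat_lit 78) (nat_lit 0) (nat_lit 0) (XT.lf (nat_lit 0) (nat_lit 3247556003) (nat_lit 228) (nat_lit 24872576098) (nat_lit 76) (nat_lit 26184165382) (nat_lit 25) (nat_lit 5) (nat_lit 28) (nat_lit 5) (nat_lit 26) (nat_lit 5) (nat_lit 305) (nat_lit 274) (nat_lit 141)) (XT.lf (nat_lit 0) (nat_lit 9324994509) (nat_lit 228) (nat_lit 5042856029) (nat_lit 76) (nat_lit 41864009059) (nat_lit 25) (nat_lit 5) (nat_lit 28) (nat_lit 5) (nat_lit 26) (nat_lit 5) (nat_lit 306) (nat_lit 274) (nat_lit 140))))) (XT.nd (nat_lit 312) (nat_lit 380) (nat_lit 0) (XT.nd (nat_lit 156) (nat_lit 152) (nat_lit 0) (XT.nd (nat_lit 78) (nat_lit 0) (nat_lit 0) (XT.lf (nat_lit 0) (nat_lit 15963882819) (nat_lit 304) (nat_lit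 41951401476) (nat_lit 76) (nat_lit 327644456) (nat_lit 22) (nat_lit 5) (nat_lit 26) (nat_lit 5) (nat_lit 23) (nat_lit 5) (nat_lit 307) (nat_lit 274) (nat_lit 139)) (XT.lf (nat_lit 0) (nat_lit 23254954078) (nat_lit 304) (nat_lit 21722449565) (nat_lit 76) (nat_lit 15361143251) (nat_lit 22) (nat_lit 5) (nat_lit 26) (nat_lit 5) (nat_lit 23) (nat_lit 5) (nat_lit 308) (nat_lit 274) (nat_lit 138))) (XT.nd (nat_lit 78) (nat_lit 152) (nat_lit 0) (XT.lf (nat_lit 0) (nat_lit 30908575794) (nat_lit 304) (nat_lit 484846342) (nat_lit 76) (nat_lit 31145631065) (nat_lit 22) (nat_lit 5) (nat_lit 26) (nat_lit 5) (nat_lit 23) (nat_lit 5) (nat_lit 309) (nat_lit 274) (nat_lit 137)) (XT.lf (nat_lit 0) (nat_lit 22533176278) (nat_lit 152) (nat_lit 16761600629) (nat_lit 228) (nat_lit 25537319762) (nat_lit 20) (nat_lit 5) (nat_lit 22) (nat_lit 5) (nat_lit 23) (nat_lit 5) (nat_lit 310) (nat_lit 274) (nat_lit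 136)))) (XT.nd (nat_lit 156) (nat_lit 228) (nat_lit 0) (XT.nd (nat_lit 78) (nat_lit 152) (nat_lit 0) (XT.lf (nat_lit 0) (nat_lit 46716312628) (nat_lit 152) (nat_lit 1390328773) (nat_lit 228) (nat_lit 19132839687) (nat_lit 20) (nat_lit 5) (nat_lit 22) (nat_lit 5) (nat_lit 23) (nat_lit 5) (nat_lit 311) (nat_lit 274) (nat_lit 135)) (XT.lf (nat_lit 0) (nat_lit 2178228170) (nat_lit 152) (nat_lit 55443379677) (nat_lit 228) (nat_lit 12132507578) (nat_lit 18) (nat_lit 5) (nat_lit 20) (nat_lit 5) (nat_lit 21) (nat_lit 5) (nat_lit 312) (nat_lit 274) (nat_lit 134))) (XT.nd (nat_lit 78) (nat_lit 228) (nat_lit 0) (XT.lf (nat_lit 0) (nat_lit 26701129733) (nat_lit 152) (nat_lit 41279451857) (nat_lit 228) (nat_lit 4395492783) (nat_lit 18) (nat_lit 5) (nat_lit 20) (nat_lit 5) (nat_lit 21) (nat_lit 5) (nat_lit 313) (nat_lit 274) (nat_lit 133)) (XT.nd (nat_lit 78) (nat_lit 152) (nat_lit 0) (XT.lf (nat_lit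 0) (nat_lit 3607356226) (nat_lit 228) (nat_lit 22739642528) (nat_lit 76) (nat_lit 48779311562) (nat_lit 17) (nat_lit 5) (nat_lit 20) (nat_lit 5) (nat_lit 18) (nat_lit 5) (nat_lit 314) (nat_lit 274) (nat_lit 132)) (XT.lf (nat_lit 0) (nat_lit 1309934186) (nat_lit 152) (nat_lit 10571542805) (nat_lit 228) (nat_lit 66128040915) (nat_lit 15) (nat_lit 5) (nat_lit 17) (nat_lit 5) (nat_lit 18) (nat_lit 5) (nat_lit 315) (nat_lit 274) (nat_lit 131))))))))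
noncomputable def xc210 : XT := (XT.nd (nat_lit 1326) (nat_lit 228) (nat_lit 0) (XT.nd (nat_lit 624) (nat_lit 304) (nat_lit 0) (XT.nd (nat_lit 312) (nat_lit 76) (nat_lit 0) (XT.nd (nat_lit 156) (nat_lit 152) (nat_lit 0) (XT.nd (nat_lit 78) (nat_lit 0) (nat_lit 0) (XT.lf (nat_lit 0) (nat_lit 21052709815) (nat_lit 228) (nat_lit 53768440111) (nat_lit 76) (nat_lit 6191570455) (nat_lit 15) (nat_lit 5) (nat_lit 18) (nat_lit 5) (nat_lit 16) (nat_lit 5) (nat_lit 316) (nat_lit 274) (nat_lit 130)) (XT.lf (nat_lit 0) (nat_lit 30854306661) (nat_lit 228) (nat_lit 29866321880) (nat_lit 76) (nat_lit 23436868896) (nat_lit 15) (nat_lit 5) (nat_lit 18) (nat_lit 5) (nat_lit 16) (nat_lit 5) (nat_lit 317) (nat_lit 274) (nat_lit 129))) (XT.nd (nat_lit 78) (nat_lit 152) (nat_lit 0) (XT.lf (nat_lit 0) (nat_lit 41144553256) (nat_lit 228) (nat_lit 4771267811) (nat_lit 76) (nat_lit 41543768144) (nat_lit 15)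 (nat_lit 5) (nat_lit 18) (nat_lit 5) (nat_lit 16) (nat_lit 5) (nat_lit 318) (nat_lit 274) (nat_lit 128)) (XT.lf (nat_lit 0) (nat_lit 22289887836) (nat_lit 152) (nat_lit 30006069967) (nat_lit 228) (nat_lit 38613499643) (nat_lit 13) (nat_lit 5) (nat_lit 15) (nat_lit 5) (nat_lit 16) (nat_lit 5) (nat_lit 319) (nat_lit 274) (nat_lit 127)))) (XT.nd (nat_lit 156) (nat_lit 76) (nat_lit 0) (XT.nd (nat_lit 78) (nat_lit 0) (nat_lit 0) (XT.lf (nat_lit 0) (nat_lit 50867715508) (nat_lit 152) (nat_lit 13216691913) (nat_lit 228) (nat_lit 30443441881) (nat_lit 13) (nat_lit 5) (nat_lit 15) (nat_lit 5) (nat_lit 16) (nat_lit 5) (nat_lit 320) (nat_lit 274) (nat_lit 126)) (XT.lf (nat_lit 0) (nat_lit 76529889548) (nat_lit 228) (nat_lit 17523605440) (nat_lit 76) (nat_lit 4270289031) (nat_lit 13) (nat_lit 5) (nat_lit 16) (nat_lit 5) (nat_lit 14) (nat_lit 4) (nat_lit 321) (nat_lit 274) (nat_lit 125))) (XT.nd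 (nat_lit 78) (nat_lit 0) (nat_lit 0) (XT.lf (nat_lit 0) (nat_lit 10021948974) (nat_lit 76) (nat_lit 79947619281) (nat_lit 152) (nat_lit 12321354678) (nat_lit 12) (nat_lit 5) (nat_lit 13) (nat_lit 5) (nat_lit 14) (nat_lit 4) (nat_lit 322) (nat_lit 274) (nat_lit 124)) (XT.lf (nat_lit 0) (nat_lit 39551293504) (nat_lit 76) (nat_lit 64825521531) (nat_lit 152) (nat_lit 2064827967) (nat_lit 12) (nat_lit 5) (nat_lit 13) (nat_lit 5) (nat_lit 14) (nat_lit 4) (nat_lit 323) (nat_lit 274) (nat_lit 123))))) (XT.nd (nat_lit 312) (nat_lit 76) (nat_lit 0) (XT.nd (nat_lit 156) (nat_lit 152) (nat_lit 0) (XT.nd (nat_lit 78) (nat_lit 0) (nat_lit 0) (XT.lf (nat_lit 0) (nat_lit 8424774143) (nat_lit 152) (nat_lit 40380515708) (nat_lit 76) (nat_lit 61987874809) (nat_lit 11) (nat_lit 5) (nat_lit 13) (nat_lit 5) (nat_lit 12) (nat_lit 5) (nat_lit 324) (nat_lit 274) (nat_lit 122)) (XT.lf (nat_lit 0) (nat_lit 19368367676)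 (nat_lit 152) (nat_lit 12580773071) (nat_lit 76) (nat_lit 83411486970) (nat_lit 11) (nat_lit 5) (nat_lit 13) (nat_lit 5) (nat_lit 12) (nat_lit 5) (nat_lit 325) (nat_lit 274) (nat_lit 121))) (XT.nd (nat_lit 78) (nat_lit 0) (nat_lit 0) (XT.lf (nat_lit 0) (nat_lit 17156418566) (nat_lit 152) (nat_lit 13969537403) (nat_lit 228) (nat_lit 89017170013) (nat_lit 9) (nat_lit 5) (nat_lit 11) (nat_lit 5) (nat_lit 12) (nat_lit 5) (nat_lit 326) (nat_lit 274) (nat_lit 120)) (XT.lf (nat_lit 0) (nat_lit 43763592209) (nat_lit 228) (nat_lit 76418655358) (nat_lit 76) (nat_lit 4967895842) (nat_lit 9) (nat_lit 5) (nat_lit 12) (nat_lit 5) (nat_lit 10) (nat_lit 4) (nat_lit 327) (nat_lit 274) (nat_lit 119)))) (XT.nd (nat_lit 156) (nat_lit 76) (nat_lit 0) (XT.nd (nat_lit 78) (nat_lit 0) (nat_lit 0) (XT.lf (nat_lit 0) (nat_lit 57261138380) (nat_lit 228) (nat_lit 48752798375) (nat_lit 76) (nat_lit 24382176097)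 (nat_lit 9) (nat_lit 5) (nat_lit 12) (nat_lit 5) (nat_lit 10) (nat_lit 4) (nat_lit 328) (nat_lit 274) (nat_lit 118)) (XT.lf (nat_lit 0) (nat_lit 71432627869) (nat_lit 228) (nat_lit 19705161750) (nat_lit 76) (nat_lit 44766640276) (nat_lit 9) (nat_lit 5) (nat_lit 12) (nat_lit 5) (nat_lit 10) (nat_lit 4) (nat_lit 329) (nat_lit 274) (nat_lit 117))) (XT.nd (nat_lit 78) (nat_lit 0) (nat_lit 0) (XT.lf (nat_lit 0) (nat_lit 11150294617) (nat_lit 76) (nat_lit 75335595046) (nat_lit 152) (nat_lit 55193615546) (nat_lit 8) (nat_lit 5) (nat_lit 9) (nat_lit 5) (nat_lit 10) (nat_lit 4) (nat_lit 330) (nat_lit 274) (nat_lit 116)) (XT.nd (nat_lit 78) (nat_lit 0) (nat_lit 0) (XT.lf (nat_lit 0) (nat_lit 44231224619) (nat_lit 76) (nat_lit 58393437083) (nat_lit 152) (nat_lit 45102032432) (nat_lit 8) (nat_lit 5) (nat_lit 9) (nat_lit 5) (nat_lit 10) (nat_lit 4) (nat_lit 331) (nat_lit 274) (nat_lit 115)) (XT.lf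 (nat_lit 0) (nat_lit 78964850734) (nat_lit 76) (nat_lit 40604693708) (nat_lit 152) (nat_lit 34506741555) (nat_lit 8) (nat_lit 5) (nat_lit 9) (nat_lit 5) (nat_lit 10) (nat_lit 4) (nat_lit 332) (nat_lit 274) (nat_lit 114))))))) (XT.nd (nat_lit 624) (nat_lit 76) (nat_lit 0) (XT.nd (nat_lit 312) (nat_lit 0) (nat_lit 0) (XT.nd (nat_lit 156) (nat_lit 152) (nat_lit 0) (XT.nd (nat_lit 78) (nat_lit 0) (nat_lit 0) (XT.lf (nat_lit 0) (nat_lit 115433872073) (nat_lit 76) (nat_lit 21927010770) (nat_lit 152) (nat_lit 23382516031) (nat_lit 8) (nat_lit 5) (nat_lit 9) (nat_lit 5) (nat_lit 10) (nat_lit 4) (nat_lit 333) (nat_lit 274) (nat_lit 113)) (XT.lf (nat_lit 0) (nat_lit 153725119639) (nat_lit 76) (nat_lit 2315917595) (nat_lit 152) (nat_lit 11702869610) (nat_lit 8) (nat_lit 5) (nat_lit 9) (nat_lit 5) (nat_lit 10) (nat_lit 4) (nat_lit 334) (nat_lit 274) (nat_lit 112))) (XT.nd (nat_lit 78) (nat_lit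 0) (nat_lit 0) (XT.lf (nat_lit 0) (nat_lit 1136186177) (nat_lit 152) (nat_lit 155920274992) (nat_lit 76) (nat_lit 18007874276) (nat_lit 6) (nat_lit 5) (nat_lit 8) (nat_lit 5) (nat_lit 7) (nat_lit 4) (nat_lit 335) (nat_lit 274) (nat_lit 111)) (XT.lf (nat_lit 0) (nat_lit 14502454988) (nat_lit 152) (nat_lit 128522074991) (nat_lit 76) (nat_lit 39702736953) (nat_lit 6) (nat_lit 5) (nat_lit 8) (nat_lit 5) (nat_lit 7) (nat_lit 4) (nat_lit 336) (nat_lit 274) (nat_lit 110)))) (XT.nd (nat_lit 156) (nat_lit 0) (nat_lit 0) (XT.nd (nat_lit 78) (nat_lit 0) (nat_lit 0) (XT.lf (nat_lit 0) (nat_lit 28536352039) (nat_lit 152) (nat_lit 99755110859) (nat_lit 76) (nat_lit 62481917922) (nat_lit 6) (nat_lit 5) (nat_lit 8) (nat_lit 5) (nat_lit 7) (nat_lit 4) (nat_lit 337) (nat_lit 274) (nat_lit 109)) (XT.lf (nat_lit 0) (nat_lit 43271291368) (nat_lit 152) (nat_lit 69550889824) (nat_lit 76) (nat_lit 86399653327)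 (nat_lit 6) (nat_lit 5) (nat_lit 8) (nat_lit 5) (nat_lit 7) (nat_lit 4) (nat_lit 338) (nat_lit 274) (nat_lit 108))) (XT.nd (nat_lit 78) (nat_lit 0) (nat_lit 0) (XT.lf (nat_lit 0) (nat_lit 58742356167) (nat_lit 152) (nat_lit 37837497075) (nat_lit 76) (nat_lit 111512890158) (nat_lit 6) (nat_lit 5) (nat_lit 8) (nat_lit 5) (nat_lit 7) (nat_lit 4) (nat_lit 339) (nat_lit 274) (nat_lit 107)) (XT.lf (nat_lit 0) (nat_lit 74986382302) (nat_lit 152) (nat_lit 4539424533) (nat_lit 76) (nat_lit 137881421835) (nat_lit 6) (nat_lit 5) (nat_lit 8) (nat_lit 5) (nat_lit 7) (nat_lit 4) (nat_lit 340) (nat_lit 274) (nat_lit 106))))) (XT.nd (nat_lit 312) (nat_lit 0) (nat_lit 0) (XT.nd (nat_lit 156) (nat_lit 0) (nat_lit 0) (XT.nd (nat_lit 78) (nat_lit 0) (nat_lit 0) (XT.lf (nat_lit 0) (nat_lit 31428517769) (nat_lit 76) (nat_lit 61104215499) (nat_lit 152) (nat_lit 134630200049) (nat_lit 5) (nat_lit 5) (nat_lit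 6) (nat_lit 5) (nat_lit 7) (nat_lit 4) (nat_lit 341) (nat_lit 274) (nat_lit 105)) (XT.lf (nat_lit 0) (nat_lit 69351528252) (nat_lit 76) (nat_lit 41681199526) (nat_lit 152) (nat_lit 126369880343) (nat_lit 5) (nat_lit 5) (nat_lit 6) (nat_lit 5) (nat_lit 7) (nat_lit 4) (nat_lit 342) (nat_lit 274) (nat_lit 104))) (XT.nd (nat_lit 78) (nat_lit 0) (nat_lit 0) (XT.lf (nat_lit 0) (nat_lit 109169805921) (nat_lit 76) (nat_lit 21287390993) (nat_lit 152) (nat_lit 117697097174) (nat_lit 5) (nat_lit 5) (nat_lit 6) (nat_lit 5) (nat_lit 7) (nat_lit 4) (nat_lit 343) (nat_lit 274) (nat_lit 103)) (XT.lf (nat_lit 0) (nat_lit 150854352986) (nat_lit 152) (nat_lit 108467397842) (nat_lit 0) (nat_lit 121741464) (nat_lit 5) (nat_lit 5) (nat_lit 7) (nat_lit 4) (nat_lit 5) (nat_lit 4) (nat_lit 344) (nat_lit 274) (nat_lit 102)))) (XT.nd (nat_lit 32058) (nat_lit 0) (nat_lit 4484) (XT.nd (nat_lit 78) (nat_lit 0)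 (nat_lit 0) (XT.lf (nat_lit 0) (nat_lit 172619859129) (nat_lit 152) (nat_lit 76774247638) (nat_lit 0) (nat_lit 21885620085) (nat_lit 5) (nat_lit 5) (nat_lit 7) (nat_lit 4) (nat_lit 5) (nat_lit 4) (nat_lit 345) (nat_lit 274) (nat_lit 101)) (XT.lf (nat_lit 0) (nat_lit 195473182148) (nat_lit 152) (nat_lit 43497221840) (nat_lit 0) (nat_lit 44737393082) (nat_lit 5) (nat_lit 5) (nat_lit 7) (nat_lit 4) (nat_lit 5) (nat_lit 4) (nat_lit 346) (nat_lit 274) (nat_lit 100))) (XT.nd (nat_lit 78) (nat_lit 0) (nat_lit 0) (XT.lf (nat_lit 0) (nat_lit 10773919568) (nat_lit 684) (nat_lit 322771997) (nat_lit 684) (nat_lit 322771997) (nat_lit 64) (nat_lit 3) (nat_lit 73) (nat_lit 3) (nat_lit 73) (nat_lit 5) (nat_lit 275) (nat_lit 275) (nat_lit 170)) (XT.nd (nat_lit 78) (nat_lit 0) (nat_lit 0) (XT.lf (nat_lit 76) (nat_lit 8746299125) (nat_lit 0) (nat_lit 13584976400) (nat_lit 684) (nat_lit 1065804953) (nat_lit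 65) (nat_lit 5) (nat_lit 64) (nat_lit 3) (nat_lit 73) (nat_lit 5) (nat_lit 276) (nat_lit 275) (nat_lit 169)) (XT.lf (nat_lit 76) (nat_lit 18626370982) (nat_lit 0) (nat_lit 4531461143) (nat_lit 684) (nat_lit 825149259) (nat_lit 65) (nat_lit 5) (nat_lit 64) (nat_lit 3) (nat_lit 73) (nat_lit 5) (nat_lit 277) (nat_lit 275) (nat_lit 168))))))))
noncomputable def xc211 : XT := (XT.nd (nat_lit 1326) (nat_lit 1672) (nat_lit 0) (XT.nd (nat_lit 624) (nat_lit 1064) (nat_lit 0) (XT.nd (nat_lit 312) (nat_lit 0) (nat_lit 76) (XT.nd (nat_lit 156) (nat_lit 0) (nat_lit 0) (XT.nd (nat_lit 78) (nat_lit 684) (nat_lit 0) (XT.lf (nat_lit 76) (nat_lit 4463446480) (nat_lit 0) (nat_lit 19703022546) (nat_lit 684) (nat_lit 424706215) (nat_lit 66) (nat_lit 5) (nat_lit 65) (nat_lit 5) (nat_lit 74) (nat_lit 5) (nat_lit 278) (nat_lit 275) (nat_lit 167)) (XT.lf (nat_lit 0) (nat_lit 155896987) (nat_lit 684) (nat_lit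 10344667875) (nat_lit 760) (nat_lit 14721249354) (nat_lit 56) (nat_lit 5) (nat_lit 65) (nat_lit 5) (nat_lit 66) (nat_lit 5) (nat_lit 279) (nat_lit 275) (nat_lit 166))) (XT.nd (nat_lit 78) (nat_lit 0) (nat_lit 76) (XT.lf (nat_lit 0) (nat_lit 745078458) (nat_lit 684) (nat_lit 83410009) (nat_lit 760) (nat_lit 25055488196) (nat_lit 56) (nat_lit 5) (nat_lit 65) (nat_lit 5) (nat_lit 66) (nat_lit 5) (nat_lit 280) (nat_lit 275) (nat_lit 165)) (XT.lf (nat_lit 0) (nat_lit 1678688836) (nat_lit 684) (nat_lit 15678962658) (nat_lit 760) (nat_lit 9205876477) (nat_lit 57) (nat_lit 5) (nat_lit 66) (nat_lit 5) (nat_lit 67) (nat_lit 5) (nat_lit 281) (nat_lit 275) (nat_lit 164)))) (XT.nd (nat_lit 156) (nat_lit 0) (nat_lit 76) (XT.nd (nat_lit 78) (nat_lit 0) (nat_lit 76) (XT.lf (nat_lit 0) (nat_lit 2668364304) (nat_lit 684) (nat_lit 4890839061) (nat_lit 760) (nat_lit 19717412088) (nat_lit 57) (nat_lit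 5) (nat_lit 66) (nat_lit 5) (nat_lit 67) (nat_lit 5) (nat_lit 282) (nat_lit 275) (nat_lit 163)) (XT.lf (nat_lit 0) (nat_lit 3850247592) (nat_lit 684) (nat_lit 21419298697) (nat_lit 760) (nat_lit 2748701333) (nat_lit 58) (nat_lit 5) (nat_lit 67) (nat_lit 5) (nat_lit 68) (nat_lit 5) (nat_lit 283) (nat_lit 275) (nat_lit 162))) (XT.nd (nat_lit 78) (nat_lit 0) (nat_lit 0) (XT.lf (nat_lit 0) (nat_lit 5294184965) (nat_lit 684) (nat_lit 10089204612) (nat_lit 760) (nat_lit 13403449076) (nat_lit 58) (nat_lit 5) (nat_lit 67) (nat_lit 5) (nat_lit 68) (nat_lit 5) (nat_lit 284) (nat_lit 275) (nat_lit 161)) (XT.lf (nat_lit 76) (nat_lit 1863090779) (nat_lit 0) (nat_lit 4971413620) (nat_lit 760) (nat_lit 22758169627) (nat_lit 59) (nat_lit 5) (nat_lit 58) (nat_lit 5) (nat_lit 68) (nat_lit 5) (nat_lit 285) (nat_lit 275) (nat_lit 160))))) (XT.nd (nat_lit 312) (nat_lit 608) (nat_lit 0) (XT.nd (nat_lit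 156) (nat_lit 684) (nat_lit 0) (XT.nd (nat_lit 78) (nat_lit 0) (nat_lit 0) (XT.lf (nat_lit 0) (nat_lit 8713860454) (nat_lit 684) (nat_lit 15766997352) (nat_lit 76) (nat_lit 5944865230) (nat_lit 59) (nat_lit 5) (nat_lit 68) (nat_lit 5) (nat_lit 60) (nat_lit 5) (nat_lit 286) (nat_lit 275) (nat_lit 159)) (XT.lf (nat_lit 0) (nat_lit 10764191068) (nat_lit 684) (nat_lit 3291726746) (nat_lit 76) (nat_lit 17240678158) (nat_lit 59) (nat_lit 5) (nat_lit 68) (nat_lit 5) (nat_lit 60) (nat_lit 5) (nat_lit 287) (nat_lit 275) (nat_lit 158))) (XT.nd (nat_lit 78) (nat_lit 0) (nat_lit 0) (XT.lf (nat_lit 0) (nat_lit 10127698908) (nat_lit 684) (nat_lit 2943183138) (nat_lit 760) (nat_lit 19132459092) (nat_lit 50) (nat_lit 5) (nat_lit 59) (nat_lit 5) (nat_lit 60) (nat_lit 5) (nat_lit 288) (nat_lit 275) (nat_lit 157)) (XT.lf (nat_lit 0) (nat_lit 15681667920) (nat_lit 760) (nat_lit 8961328219) (nat_lit 76)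 (nat_lit 8503009190) (nat_lit 50) (nat_lit 5) (nat_lit 60) (nat_lit 5) (nat_lit 51) (nat_lit 5) (nat_lit 289) (nat_lit 275) (nat_lit 156)))) (XT.nd (nat_lit 156) (nat_lit 304) (nat_lit 0) (XT.nd (nat_lit 78) (nat_lit 0) (nat_lit 0) (XT.lf (nat_lit 0) (nat_lit 4913987401) (nat_lit 304) (nat_lit 13630046976) (nat_lit 380) (nat_lit 15585735129) (nat_lit 46) (nat_lit 5) (nat_lit 50) (nat_lit 5) (nat_lit 51) (nat_lit 5) (nat_lit 290) (nat_lit 275) (nat_lit 155)) (XT.lf (nat_lit 0) (nat_lit 19790502791) (nat_lit 304) (nat_lit 1906981648) (nat_lit 380) (nat_lit 13457857136) (nat_lit 46) (nat_lit 5) (nat_lit 50) (nat_lit 5) (nat_lit 51) (nat_lit 5) (nat_lit 291) (nat_lit 275) (nat_lit 154))) (XT.nd (nat_lit 78) (nat_lit 304) (nat_lit 0) (XT.lf (nat_lit 0) (nat_lit 25167398564) (nat_lit 380) (nat_lit 987463806) (nat_lit 76) (nat_lit 10069407391) (nat_lit 46) (nat_lit 5) (nat_lit 51) (nat_lit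 5) (nat_lit 47) (nat_lit 5) (nat_lit 292) (nat_lit 275) (nat_lit 153)) (XT.nd (nat_lit 78) (nat_lit 0) (nat_lit 0) (XT.lf (nat_lit 0) (nat_lit 14539336606) (nat_lit 304) (nat_lit 14526289275) (nat_lit 380) (nat_lit 8268293875) (nat_lit 42) (nat_lit 5) (nat_lit 46) (nat_lit 5) (nat_lit 47) (nat_lit 5) (nat_lit 293) (nat_lit 275) (nat_lit 152)) (XT.lf (nat_lit 0) (nat_lit 30873285612) (nat_lit 304) (nat_lit 2298867611) (nat_lit 380) (nat_lit 5326245099) (nat_lit 42) (nat_lit 5) (nat_lit 46) (nat_lit 5) (nat_lit 47) (nat_lit 5) (nat_lit 294) (nat_lit 275) (nat_lit 151))))))) (XT.nd (nat_lit 624) (nat_lit 608) (nat_lit 0) (XT.nd (nat_lit 312) (nat_lit 456) (nat_lit 0) (XT.nd (nat_lit 156) (nat_lit 304) (nat_lit 0) (XT.nd (nat_lit 78) (nat_lit 76) (nat_lit 0) (XT.lf (nat_lit 0) (nat_lit 8403766499) (nat_lit 228) (nat_lit 29372826741) (nat_lit 304) (nat_lit 1929893023) (nat_lit 39) (nat_lit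 5) (nat_lit 42) (nat_lit 5) (nat_lit 43) (nat_lit 5) (nat_lit 295) (nat_lit 275) (nat_lit 150)) (XT.lf (nat_lit 0) (nat_lit 1749699838) (nat_lit 304) (nat_lit 15538596885) (nat_lit 76) (nat_lit 23677128214) (nat_lit 38) (nat_lit 5) (nat_lit 42) (nat_lit 5) (nat_lit 39) (nat_lit 5) (nat_lit 296) (nat_lit 275) (nat_lit 149))) (XT.nd (nat_lit 78) (nat_lit 0) (nat_lit 0) (XT.lf (nat_lit 0) (nat_lit 1011082932) (nat_lit 304) (nat_lit 4550123864) (nat_lit 380) (nat_lit 36723895047) (nat_lit 34) (nat_lit 5) (nat_lit 38) (nat_lit 5) (nat_lit 39) (nat_lit 5) (nat_lit 297) (nat_lit 275) (nat_lit 148)) (XT.lf (nat_lit 0) (nat_lit 9965629058) (nat_lit 380) (nat_lit 24875458524) (nat_lit 76) (nat_lit 8809570160) (nat_lit 34) (nat_lit 5) (nat_lit 39) (nat_lit 5) (nat_lit 35) (nat_lit 5) (nat_lit 298) (nat_lit 275) (nat_lit 147)))) (XT.nd (nat_lit 156) (nat_lit 228) (nat_lit 0) (XT.nd (nat_lit 78)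 (nat_lit 228) (nat_lit 0) (XT.lf (nat_lit 0) (nat_lit 14662093182) (nat_lit 380) (nat_lit 7734866155) (nat_lit 76) (nat_lit 22683952630) (nat_lit 34) (nat_lit 5) (nat_lit 39) (nat_lit 5) (nat_lit 35) (nat_lit 5) (nat_lit 299) (nat_lit 275) (nat_lit 146)) (XT.lf (nat_lit 0) (nat_lit 10598838332) (nat_lit 228) (nat_lit 9157380279) (nat_lit 304) (nat_lit 26818329404) (nat_lit 31) (nat_lit 5) (nat_lit 34) (nat_lit 5) (nat_lit 35) (nat_lit 5) (nat_lit 300) (nat_lit 275) (nat_lit 145))) (XT.nd (nat_lit 78) (nat_lit 228) (nat_lit 0) (XT.lf (nat_lit 0) (nat_lit 25309690912) (nat_lit 304) (nat_lit 18097994430) (nat_lit 76) (nat_lit 4724958985) (nat_lit 31) (nat_lit 5) (nat_lit 35) (nat_lit 5) (nat_lit 32) (nat_lit 5) (nat_lit 301) (nat_lit 275) (nat_lit 144)) (XT.lf (nat_lit 0) (nat_lit 537620395) (nat_lit 228) (nat_lit 30759283137) (nat_lit 304) (nat_lit 18463948580) (nat_lit 28) (nat_lit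 5) (nat_lit 31) (nat_lit 5) (nat_lit 32) (nat_lit 5) (nat_lit 302) (nat_lit 275) (nat_lit 143))))) (XT.nd (nat_lit 312) (nat_lit 380) (nat_lit 0) (XT.nd (nat_lit 156) (nat_lit 228) (nat_lit 0) (XT.nd (nat_lit 78) (nat_lit 0) (nat_lit 0) (XT.lf (nat_lit 0) (nat_lit 20730314604) (nat_lit 228) (nat_lit 17157281805) (nat_lit 304) (nat_lit 13567677413) (nat_lit 28) (nat_lit 5) (nat_lit 31) (nat_lit 5) (nat_lit 32) (nat_lit 5) (nat_lit 303) (nat_lit 275) (nat_lit 142)) (XT.lf (nat_lit 0) (nat_lit 41929764611) (nat_lit 228) (nat_lit 2875793920) (nat_lit 304) (nat_lit 8428980419) (nat_lit 28) (nat_lit 5) (nat_lit 31) (nat_lit 5) (nat_lit 32) (nat_lit 5) (nat_lit 304) (nat_lit 275) (nat_lit 141))) (XT.nd (nat_lit 78) (nat_lit 76) (nat_lit 0) (XT.lf (nat_lit 0) (nat_lit 9188434307) (nat_lit 152) (nat_lit 43211498571) (nat_lit 228) (nat_lit 2686317384) (nat_lit 26) (nat_lit 5) (nat_lit 28) (nat_lit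 5) (nat_lit 29) (nat_lit 5) (nat_lit 305) (nat_lit 275) (nat_lit 140)) (XT.lf (nat_lit 0) (nat_lit 3476051400) (nat_lit 228) (nat_lit 26027560876) (nat_lit 76) (nat_lit 27512353399) (nat_lit 25) (nat_lit 5) (nat_lit 28) (nat_lit 5) (nat_lit 26) (nat_lit 5) (nat_lit 306) (nat_lit 275) (nat_lit 139)))) (XT.nd (nat_lit 156) (nat_lit 152) (nat_lit 0) (XT.nd (nat_lit 78) (nat_lit 228) (nat_lit 0) (XT.lf (nat_lit 0) (nat_lit 9854213374) (nat_lit 228) (nat_lit 5210575947) (nat_lit 76) (nat_lit 43975285462) (nat_lit 25) (nat_lit 5) (nat_lit 28) (nat_lit 5) (nat_lit 26) (nat_lit 5) (nat_lit 307) (nat_lit 275) (nat_lit 138)) (XT.lf (nat_lit 0) (nat_lit 16823684650) (nat_lit 304) (nat_lit 43962968801) (nat_lit 76) (nat_lit 365122938) (nat_lit 22) (nat_lit 5) (nat_lit 26) (nat_lit 5) (nat_lit 23) (nat_lit 5) (nat_lit 308) (nat_lit 275) (nat_lit 137))) (XT.nd (nat_lit 78) (nat_lit 152) (nat_lit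 0) (XT.lf (nat_lit 0) (nat_lit 24476375772) (nat_lit 304) (nat_lit 22726664664) (nat_lit 76) (nat_lit 16149292089) (nat_lit 22) (nat_lit 5) (nat_lit 26) (nat_lit 5) (nat_lit 23) (nat_lit 5) (nat_lit 309) (nat_lit 275) (nat_lit 136)) (XT.nd (nat_lit 78) (nat_lit 152) (nat_lit 0) (XT.lf (nat_lit 0) (nat_lit 32509884574) (nat_lit 304) (nat_lit 431081631) (nat_lit 76) (nat_lit 32722047547) (nat_lit 22) (nat_lit 5) (nat_lit 26) (nat_lit 5) (nat_lit 23) (nat_lit 5) (nat_lit 310) (nat_lit 275) (nat_lit 135)) (XT.lf (nat_lit 0) (nat_lit 23736583943) (nat_lit 152) (nat_lit 17577349113) (nat_lit 228) (nat_lit 26756858906) (nat_lit 20) (nat_lit 5) (nat_lit 22) (nat_lit 5) (nat_lit 23) (nat_lit 5) (nat_lit 311) (nat_lit 275) (nat_lit 134))))))))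
noncomputable def xc212 : XT := (XT.nd (nat_lit 1248) (nat_lit 304) (nat_lit 0) (XT.nd (nat_lit 624) (nat_lit 456) (nat_lit 0) (XT.nd (nat_lit 312) (nat_lit 152) (nat_lit 0) (XT.nd (nat_lit 156) (nat_lit 76) (nat_lit 0) (XT.nd (nat_lit 78) (nat_lit 152) (nat_lit 0) (XT.lf (nat_lit 0) (nat_lit 49125222403) (nat_lit 152) (nat_lit 1438577072) (nat_lit 228) (nat_lit 20034884676) (nat_lit 20) (nat_lit 5) (nat_lit 22) (nat_lit 5) (nat_lit 23) (nat_lit 5) (nat_lit 312) (nat_lit 275) (nat_lit 133)) (XT.lf (nat_lit 0) (nat_lit 2361454383) (nat_lit 152) (nat_lit 58192068461) (nat_lit 228) (nat_lit 12685585489) (nat_lit 18) (nat_lit 5) (nat_lit 20) (nat_lit 5) (nat_lit 21) (nat_lit 5) (nat_lit 313) (nat_lit 275) (nat_lit 132))) (XT.nd (nat_lit 78) (nat_lit 76) (nat_lit 0) (XT.lf (nat_lit 0) (nat_lit 28106962224) (nat_lit 152) (nat_lit 43321062354) (nat_lit 228) (nat_lit 4564269834) (nat_lit 18)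 (nat_lit 5) (nat_lit 20) (nat_lit 5) (nat_lit 21) (nat_lit 5) (nat_lit 314) (nat_lit 275) (nat_lit 131)) (XT.lf (nat_lit 0) (nat_lit 3834738654) (nat_lit 228) (nat_lit 23807516588) (nat_lit 76) (nat_lit 51237872026) (nat_lit 17) (nat_lit 5) (nat_lit 20) (nat_lit 5) (nat_lit 18) (nat_lit 5) (nat_lit 315) (nat_lit 275) (nat_lit 130)))) (XT.nd (nat_lit 156) (nat_lit 0) (nat_lit 0) (XT.nd (nat_lit 78) (nat_lit 0) (nat_lit 0) (XT.lf (nat_lit 0) (nat_lit 1443424315) (nat_lit 152) (nat_lit 11077963918) (nat_lit 228) (nat_lit 69386172905) (nat_lit 15) (nat_lit 5) (nat_lit 17) (nat_lit 5) (nat_lit 18) (nat_lit 5) (nat_lit 316) (nat_lit 275) (nat_lit 129)) (XT.lf (nat_lit 0) (nat_lit 22149329411) (nat_lit 228) (nat_lit 56390119102) (nat_lit 76) (nat_lit 6521574592) (nat_lit 15) (nat_lit 5) (nat_lit 18) (nat_lit 5) (nat_lit 16) (nat_lit 5) (nat_lit 317) (nat_lit 275) (nat_lit 128))) (XT.nd (nat_lit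 78) (nat_lit 0) (nat_lit 0) (XT.lf (nat_lit 0) (nat_lit 32438911619) (nat_lit 228) (nat_lit 31296073199) (nat_lit 76) (nat_lit 24628165307) (nat_lit 15) (nat_lit 5) (nat_lit 18) (nat_lit 5) (nat_lit 16) (nat_lit 5) (nat_lit 318) (nat_lit 275) (nat_lit 127)) (XT.lf (nat_lit 0) (nat_lit 43241675799) (nat_lit 228) (nat_lit 4949293321) (nat_lit 76) (nat_lit 43639483186) (nat_lit 15) (nat_lit 5) (nat_lit 18) (nat_lit 5) (nat_lit 16) (nat_lit 5) (nat_lit 319) (nat_lit 275) (nat_lit 126))))) (XT.nd (nat_lit 312) (nat_lit 228) (nat_lit 0) (XT.nd (nat_lit 156) (nat_lit 76) (nat_lit 0) (XT.nd (nat_lit 78) (nat_lit 0) (nat_lit 0) (XT.lf (nat_lit 0) (nat_lit 23463943691) (nat_lit 152) (nat_lit 31485737047) (nat_lit 228) (nat_lit 40503187496) (nat_lit 13) (nat_lit 5) (nat_lit 15) (nat_lit 5) (nat_lit 16) (nat_lit 5) (nat_lit 320) (nat_lit 275) (nat_lit 125)) (XT.lf (nat_lit 0) (nat_lit 53467826487)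 (nat_lit 152) (nat_lit 13857872778) (nat_lit 228) (nat_lit 31926578615) (nat_lit 13) (nat_lit 5) (nat_lit 15) (nat_lit 5) (nat_lit 16) (nat_lit 5) (nat_lit 321) (nat_lit 275) (nat_lit 124))) (XT.nd (nat_lit 78) (nat_lit 76) (nat_lit 0) (XT.lf (nat_lit 0) (nat_lit 80391982427) (nat_lit 228) (nat_lit 18344183577) (nat_lit 76) (nat_lit 4501922234) (nat_lit 13) (nat_lit 5) (nat_lit 16) (nat_lit 5) (nat_lit 14) (nat_lit 4) (nat_lit 322) (nat_lit 275) (nat_lit 123)) (XT.lf (nat_lit 0) (nat_lit 10577751749) (nat_lit 76) (nat_lit 83925052262) (nat_lit 152) (nat_lit 12900827143) (nat_lit 12) (nat_lit 5) (nat_lit 13) (nat_lit 5) (nat_lit 14) (nat_lit 4) (nat_lit 323) (nat_lit 275) (nat_lit 122)))) (XT.nd (nat_lit 156) (nat_lit 152) (nat_lit 0) (XT.nd (nat_lit 78) (nat_lit 76) (nat_lit 0) (XT.lf (nat_lit 0) (nat_lit 41580958491) (nat_lit 76) (nat_lit 68047799528) (nat_lit 152) (nat_lit 2133216728)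 (nat_lit 12) (nat_lit 5) (nat_lit 13) (nat_lit 5) (nat_lit 14) (nat_lit 4) (nat_lit 324) (nat_lit 275) (nat_lit 121)) (XT.lf (nat_lit 0) (nat_lit 8878143456) (nat_lit 152) (nat_lit 42348773332) (nat_lit 76) (nat_lit 65104213141) (nat_lit 11) (nat_lit 5) (nat_lit 13) (nat_lit 5) (nat_lit 12) (nat_lit 5) (nat_lit 325) (nat_lit 275) (nat_lit 120))) (XT.nd (nat_lit 78) (nat_lit 152) (nat_lit 0) (XT.lf (nat_lit 0) (nat_lit 20367386636) (nat_lit 152) (nat_lit 13161461094) (nat_lit 76) (nat_lit 87598199025) (nat_lit 11) (nat_lit 5) (nat_lit 13) (nat_lit 5) (nat_lit 12) (nat_lit 5) (nat_lit 326) (nat_lit 275) (nat_lit 119)) (XT.lf (nat_lit 0) (nat_lit 18061810275) (nat_lit 152) (nat_lit 14650329611) (nat_lit 228) (nat_lit 93436569690) (nat_lit 9) (nat_lit 5) (nat_lit 11) (nat_lit 5) (nat_lit 12) (nat_lit 5) (nat_lit 327) (nat_lit 275) (nat_lit 118)))))) (XT.nd (nat_lit 624) (nat_lit 228) (nat_lit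 0) (XT.nd (nat_lit 312) (nat_lit 0) (nat_lit 0) (XT.nd (nat_lit 156) (nat_lit 76) (nat_lit 0) (XT.nd (nat_lit 78) (nat_lit 0) (nat_lit 0) (XT.lf (nat_lit 0) (nat_lit 45980497750) (nat_lit 228) (nat_lit 80193047766) (nat_lit 76) (nat_lit 5232594103) (nat_lit 9) (nat_lit 5) (nat_lit 12) (nat_lit 5) (nat_lit 10) (nat_lit 4) (nat_lit 328) (nat_lit 275) (nat_lit 117)) (XT.lf (nat_lit 0) (nat_lit 60151553328) (nat_lit 228) (nat_lit 51146114141) (nat_lit 76) (nat_lit 25616812015) (nat_lit 9) (nat_lit 5) (nat_lit 12) (nat_lit 5) (nat_lit 10) (nat_lit 4) (nat_lit 329) (nat_lit 275) (nat_lit 116))) (XT.nd (nat_lit 78) (nat_lit 76) (nat_lit 0) (XT.lf (nat_lit 0) (nat_lit 75030314528) (nat_lit 228) (nat_lit 20648206359) (nat_lit 76) (nat_lit 47019760016) (nat_lit 9) (nat_lit 5) (nat_lit 12) (nat_lit 5) (nat_lit 10) (nat_lit 4) (nat_lit 330) (nat_lit 275) (nat_lit 115)) (XT.lf (nat_lit 0) (nat_lit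 11749341965) (nat_lit 76) (nat_lit 79086305161) (nat_lit 152) (nat_lit 57926495697) (nat_lit 8) (nat_lit 5) (nat_lit 9) (nat_lit 5) (nat_lit 10) (nat_lit 4) (nat_lit 331) (nat_lit 275) (nat_lit 114)))) (XT.nd (nat_lit 156) (nat_lit 0) (nat_lit 0) (XT.nd (nat_lit 78) (nat_lit 0) (nat_lit 0) (XT.lf (nat_lit 0) (nat_lit 46482340723) (nat_lit 76) (nat_lit 61297804520) (nat_lit 152) (nat_lit 47331609648) (nat_lit 8) (nat_lit 5) (nat_lit 9) (nat_lit 5) (nat_lit 10) (nat_lit 4) (nat_lit 332) (nat_lit 275) (nat_lit 113)) (XT.lf (nat_lit 0) (nat_lit 82950764579) (nat_lit 76) (nat_lit 42620352758) (nat_lit 152) (nat_lit 36207769675) (nat_lit 8) (nat_lit 5) (nat_lit 9) (nat_lit 5) (nat_lit 10) (nat_lit 4) (nat_lit 333) (nat_lit 275) (nat_lit 112))) (XT.nd (nat_lit 78) (nat_lit 0) (nat_lit 0) (XT.lf (nat_lit 0) (nat_lit 121241443113) (nat_lit 76) (nat_lit 23009479751) (nat_lit 152) (nat_lit 24528490444)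 (nat_lit 8) (nat_lit 5) (nat_lit 9) (nat_lit 5) (nat_lit 10) (nat_lit 4) (nat_lit 334) (nat_lit 275) (nat_lit 111)) (XT.lf (nat_lit 0) (nat_lit 161445544607) (nat_lit 76) (nat_lit 2418492944) (nat_lit 152) (nat_lit 12265964149) (nat_lit 8) (nat_lit 5) (nat_lit 9) (nat_lit 5) (nat_lit 10) (nat_lit 4) (nat_lit 335) (nat_lit 275) (nat_lit 110))))) (XT.nd (nat_lit 312) (nat_lit 76) (nat_lit 0) (XT.nd (nat_lit 156) (nat_lit 0) (nat_lit 0) (XT.nd (nat_lit 78) (nat_lit 0) (nat_lit 0) (XT.lf (nat_lit 0) (nat_lit 1214069615) (nat_lit 152) (nat_lit 163681046276) (nat_lit 76) (nat_lit 18921334490) (nat_lit 6) (nat_lit 5) (nat_lit 8) (nat_lit 5) (nat_lit 7) (nat_lit 4) (nat_lit 336) (nat_lit 275) (nat_lit 109)) (XT.lf (nat_lit 0) (nat_lit 15247648337) (nat_lit 152) (nat_lit 134914614487) (nat_lit 76) (nat_lit 41700318087) (nat_lit 6) (nat_lit 5) (nat_lit 8) (nat_lit 5) (nat_lit 7) (nat_lit 4)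 (nat_lit 337) (nat_lit 275) (nat_lit 108))) (XT.nd (nat_lit 78) (nat_lit 0) (nat_lit 0) (XT.lf (nat_lit 0) (nat_lit 29982284497) (nat_lit 152) (nat_lit 104710900447) (nat_lit 76) (nat_lit 65617865519) (nat_lit 6) (nat_lit 5) (nat_lit 8) (nat_lit 5) (nat_lit 7) (nat_lit 4) (nat_lit 338) (nat_lit 275) (nat_lit 107)) (XT.lf (nat_lit 0) (nat_lit 45453060562) (nat_lit 152) (nat_lit 72997990549) (nat_lit 76) (nat_lit 90730923328) (nat_lit 6) (nat_lit 5) (nat_lit 8) (nat_lit 5) (nat_lit 7) (nat_lit 4) (nat_lit 339) (nat_lit 275) (nat_lit 106)))) (XT.nd (nat_lit 156) (nat_lit 76) (nat_lit 0) (XT.nd (nat_lit 78) (nat_lit 0) (nat_lit 0) (XT.lf (nat_lit 0) (nat_lit 61696811713) (nat_lit 152) (nat_lit 39700377865) (nat_lit 76) (nat_lit 117099284508) (nat_lit 6) (nat_lit 5) (nat_lit 8) (nat_lit 5) (nat_lit 7) (nat_lit 4) (nat_lit 340) (nat_lit 275) (nat_lit 105)) (XT.lf (nat_lit 0) (nat_lit 78752213549)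 (nat_lit 152) (nat_lit 4738782366) (nat_lit 76) (nat_lit 144785730872) (nat_lit 6) (nat_lit 5) (nat_lit 8) (nat_lit 5) (nat_lit 7) (nat_lit 4) (nat_lit 341) (nat_lit 275) (nat_lit 104))) (XT.nd (nat_lit 78) (nat_lit 0) (nat_lit 0) (XT.lf (nat_lit 0) (nat_lit 33027111674) (nat_lit 76) (nat_lit 64148408265) (nat_lit 152) (nat_lit 141344716628) (nat_lit 5) (nat_lit 5) (nat_lit 6) (nat_lit 5) (nat_lit 7) (nat_lit 4) (nat_lit 342) (nat_lit 275) (nat_lit 103)) (XT.nd (nat_lit 78) (nat_lit 0) (nat_lit 0) (XT.lf (nat_lit 0) (nat_lit 72844978966) (nat_lit 76) (nat_lit 43754766161) (nat_lit 152) (nat_lit 132672190147) (nat_lit 5) (nat_lit 5) (nat_lit 6) (nat_lit 5) (nat_lit 7) (nat_lit 4) (nat_lit 343) (nat_lit 275) (nat_lit 102)) (XT.lf (nat_lit 0) (nat_lit 114652938409) (nat_lit 76) (nat_lit 22341766885) (nat_lit 152) (nat_lit 123566538496) (nat_lit 5) (nat_lit 5) (nat_lit 6) (nat_lit 5) (nat_lit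 7) (nat_lit 4) (nat_lit 344) (nat_lit 275) (nat_lit 101))))))))
noncomputable def xc213 : XT := (XT.nd (nat_lit 33306) (nat_lit 0) (nat_lit 1520) (XT.nd (nat_lit 32604) (nat_lit 0) (nat_lit 3420) (XT.nd (nat_lit 32292) (nat_lit 0) (nat_lit 3876) (XT.nd (nat_lit 32136) (nat_lit 0) (nat_lit 4484) (XT.nd (nat_lit 78) (nat_lit 0) (nat_lit 0) (XT.lf (nat_lit 0) (nat_lit 158411170218) (nat_lit 152) (nat_lit 113866719005) (nat_lit 0) (nat_lit 137041678) (nat_lit 5) (nat_lit 5) (nat_lit 7) (nat_lit 4) (nat_lit 5) (nat_lit 4) (nat_lit 345) (nat_lit 275) (nat_lit 100)) (XT.lf (nat_lit 0) (nat_lit 181264280260) (nat_lit 152) (nat_lit 80590056468) (nat_lit 0) (nat_lit 22988675510) (nat_lit 5) (nat_lit 5) (nat_lit 7) (nat_lit 4) (nat_lit 5) (nat_lit 4) (nat_lit 346) (nat_lit 275) (nat_lit 99))) (XT.nd (nat_lit 78) (nat_lit 0) (nat_lit 0) (XT.lf (nat_lit 0) (nat_lit 11419112627) (nat_lit 684) (nat_lit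 282712776) (nat_lit 684) (nat_lit 282712776) (nat_lit 64) (nat_lit 3) (nat_lit 73) (nat_lit 3) (nat_lit 73) (nat_lit 5) (nat_lit 276) (nat_lit 276) (nat_lit 168)) (XT.lf (nat_lit 76) (nat_lit 9294196890) (nat_lit 0) (nat_lit 14358220500) (nat_lit 684) (nat_lit 903195431) (nat_lit 65) (nat_lit 5) (nat_lit 64) (nat_lit 3) (nat_lit 73) (nat_lit 5) (nat_lit 277) (nat_lit 276) (nat_lit 167)))) (XT.nd (nat_lit 156) (nat_lit 608) (nat_lit 0) (XT.nd (nat_lit 78) (nat_lit 0) (nat_lit 76) (XT.lf (nat_lit 76) (nat_lit 19663006492) (nat_lit 0) (nat_lit 4847553515) (nat_lit 684) (nat_lit 660787894) (nat_lit 65) (nat_lit 5) (nat_lit 64) (nat_lit 3) (nat_lit 73) (nat_lit 5) (nat_lit 278) (nat_lit 276) (nat_lit 166)) (XT.lf (nat_lit 76) (nat_lit 4802220849) (nat_lit 0) (nat_lit 20758603765) (nat_lit 684) (nat_lit 249616603) (nat_lit 66) (nat_lit 5) (nat_lit 65) (nat_lit 5) (nat_lit 74) (nat_lit 5)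 (nat_lit 279) (nat_lit 276) (nat_lit 165))) (XT.nd (nat_lit 78) (nat_lit 0) (nat_lit 0) (XT.lf (nat_lit 0) (nat_lit 344683551) (nat_lit 684) (nat_lit 10744920651) (nat_lit 760) (nat_lit 15383352112) (nat_lit 56) (nat_lit 5) (nat_lit 65) (nat_lit 5) (nat_lit 66) (nat_lit 5) (nat_lit 280) (nat_lit 276) (nat_lit 164)) (XT.lf (nat_lit 76) (nat_lit 24617516) (nat_lit 0) (nat_lit 930472274) (nat_lit 760) (nat_lit 26213591617) (nat_lit 57) (nat_lit 5) (nat_lit 56) (nat_lit 5) (nat_lit 66) (nat_lit 5) (nat_lit 281) (nat_lit 276) (nat_lit 163))))) (XT.nd (nat_lit 312) (nat_lit 532) (nat_lit 0) (XT.nd (nat_lit 156) (nat_lit 0) (nat_lit 76) (XT.nd (nat_lit 78) (nat_lit 0) (nat_lit 0) (XT.lf (nat_lit 0) (nat_lit 1927621043) (nat_lit 684) (nat_lit 16343309936) (nat_lit 760) (nat_lit 9611708055) (nat_lit 57) (nat_lit 5) (nat_lit 66) (nat_lit 5) (nat_lit 67) (nat_lit 5) (nat_lit 282) (nat_lit 276)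 (nat_lit 162)) (XT.lf (nat_lit 0) (nat_lit 2958923248) (nat_lit 684) (nat_lit 5021475439) (nat_lit 760) (nat_lit 20651413887) (nat_lit 57) (nat_lit 5) (nat_lit 66) (nat_lit 5) (nat_lit 67) (nat_lit 5) (nat_lit 283) (nat_lit 276) (nat_lit 161))) (XT.nd (nat_lit 78) (nat_lit 0) (nat_lit 0) (XT.lf (nat_lit 0) (nat_lit 4193553316) (nat_lit 684) (nat_lit 22369271038) (nat_lit 760) (nat_lit 2848056348) (nat_lit 58) (nat_lit 5) (nat_lit 67) (nat_lit 5) (nat_lit 68) (nat_lit 5) (nat_lit 284) (nat_lit 276) (nat_lit 160)) (XT.lf (nat_lit 0) (nat_lit 5702506922) (nat_lit 684) (nat_lit 10478433800) (nat_lit 760) (nat_lit 14037354814) (nat_lit 58) (nat_lit 5) (nat_lit 67) (nat_lit 5) (nat_lit 68) (nat_lit 5) (nat_lit 285) (nat_lit 276) (nat_lit 159)))) (XT.nd (nat_lit 156) (nat_lit 608) (nat_lit 0) (XT.nd (nat_lit 78) (nat_lit 0) (nat_lit 76) (XT.lf (nat_lit 76) (nat_lit 2069617794) (nat_lit 0)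 (nat_lit 5245155895) (nat_lit 760) (nat_lit 23749935964) (nat_lit 59) (nat_lit 5) (nat_lit 58) (nat_lit 5) (nat_lit 68) (nat_lit 5) (nat_lit 286) (nat_lit 276) (nat_lit 158)) (XT.lf (nat_lit 0) (nat_lit 9281125926) (nat_lit 684) (nat_lit 16439762888) (nat_lit 76) (nat_lit 6218902829) (nat_lit 59) (nat_lit 5) (nat_lit 68) (nat_lit 5) (nat_lit 60) (nat_lit 5) (nat_lit 287) (nat_lit 276) (nat_lit 157))) (XT.nd (nat_lit 78) (nat_lit 684) (nat_lit 0) (XT.lf (nat_lit 0) (nat_lit 11427707716) (nat_lit 684) (nat_lit 3346232767) (nat_lit 76) (nat_lit 18080611434) (nat_lit 59) (nat_lit 5) (nat_lit 68) (nat_lit 5) (nat_lit 60) (nat_lit 5) (nat_lit 288) (nat_lit 276) (nat_lit 156)) (XT.nd (nat_lit 78) (nat_lit 0) (nat_lit 0) (XT.lf (nat_lit 0) (nat_lit 10742388681) (nat_lit 684) (nat_lit 3103068499) (nat_lit 760) (nat_lit 19961419941) (nat_lit 50) (nat_lit 5) (nat_lit 59) (nat_lit 5) (nat_lit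 60) (nat_lit 5) (nat_lit 289) (nat_lit 276) (nat_lit 155)) (XT.lf (nat_lit 0) (nat_lit 16580829735) (nat_lit 760) (nat_lit 9299742636) (nat_lit 76) (nat_lit 8916427377) (nat_lit 50) (nat_lit 5) (nat_lit 60) (nat_lit 5) (nat_lit 51) (nat_lit 5) (nat_lit 290) (nat_lit 276) (nat_lit 154))))))) (XT.nd (nat_lit 624) (nat_lit 684) (nat_lit 0) (XT.nd (nat_lit 312) (nat_lit 608) (nat_lit 0) (XT.nd (nat_lit 156) (nat_lit 304) (nat_lit 0) (XT.nd (nat_lit 78) (nat_lit 0) (nat_lit 0) (XT.lf (nat_lit 0) (nat_lit 5267570184) (nat_lit 304) (nat_lit 14314948769) (nat_lit 380) (nat_lit 16247649242) (nat_lit 46) (nat_lit 5) (nat_lit 50) (nat_lit 5) (nat_lit 51) (nat_lit 5) (nat_lit 291) (nat_lit 276) (nat_lit 153)) (XT.lf (nat_lit 0) (nat_lit 20882774037) (nat_lit 304) (nat_lit 2005568297) (nat_lit 380) (nat_lit 14018966523) (nat_lit 46) (nat_lit 5) (nat_lit 50) (nat_lit 5) (nat_lit 51) (nat_lit 5)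 (nat_lit 292) (nat_lit 276) (nat_lit 152))) (XT.nd (nat_lit 78) (nat_lit 304) (nat_lit 0) (XT.lf (nat_lit 0) (nat_lit 26526657183) (nat_lit 380) (nat_lit 933411804) (nat_lit 76) (nat_lit 10569893052) (nat_lit 46) (nat_lit 5) (nat_lit 51) (nat_lit 5) (nat_lit 47) (nat_lit 5) (nat_lit 293) (nat_lit 276) (nat_lit 151)) (XT.lf (nat_lit 0) (nat_lit 15368060481) (nat_lit 304) (nat_lit 15248519876) (nat_lit 380) (nat_lit 8578697659) (nat_lit 42) (nat_lit 5) (nat_lit 46) (nat_lit 5) (nat_lit 47) (nat_lit 5) (nat_lit 294) (nat_lit 276) (nat_lit 150)))) (XT.nd (nat_lit 156) (nat_lit 380) (nat_lit 0) (XT.nd (nat_lit 78) (nat_lit 228) (nat_lit 0) (XT.lf (nat_lit 0) (nat_lit 32513861363) (nat_lit 304) (nat_lit 2409921598) (nat_lit 380) (nat_lit 5494451725) (nat_lit 42) (nat_lit 5) (nat_lit 46) (nat_lit 5) (nat_lit 47) (nat_lit 5) (nat_lit 295) (nat_lit 276) (nat_lit 149)) (XT.lf (nat_lit 0) (nat_lit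 8924245021) (nat_lit 228) (nat_lit 30831393980) (nat_lit 304) (nat_lit 1931248916) (nat_lit 39) (nat_lit 5) (nat_lit 42) (nat_lit 5) (nat_lit 43) (nat_lit 5) (nat_lit 296) (nat_lit 276) (nat_lit 148))) (XT.nd (nat_lit 78) (nat_lit 304) (nat_lit 0) (XT.lf (nat_lit 0) (nat_lit 1924893138) (nat_lit 304) (nat_lit 16216738659) (nat_lit 76) (nat_lit 24867305407) (nat_lit 38) (nat_lit 5) (nat_lit 42) (nat_lit 5) (nat_lit 39) (nat_lit 5) (nat_lit 297) (nat_lit 276) (nat_lit 147)) (XT.lf (nat_lit 0) (nat_lit 1158831794) (nat_lit 304) (nat_lit 4765484547) (nat_lit 380) (nat_lit 38470432359) (nat_lit 34) (nat_lit 5) (nat_lit 38) (nat_lit 5) (nat_lit 39) (nat_lit 5) (nat_lit 298) (nat_lit 276) (nat_lit 146))))) (XT.nd (nat_lit 312) (nat_lit 456) (nat_lit 0) (XT.nd (nat_lit 156) (nat_lit 228) (nat_lit 0) (XT.nd (nat_lit 78) (nat_lit 0) (nat_lit 0) (XT.lf (nat_lit 0) (nat_lit 10545090349) (nat_lit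 380) (nat_lit 26022456854) (nat_lit 76) (nat_lit 9261245600) (nat_lit 34) (nat_lit 5) (nat_lit 39) (nat_lit 5) (nat_lit 35) (nat_lit 5) (nat_lit 299) (nat_lit 276) (nat_lit 145)) (XT.lf (nat_lit 0) (nat_lit 15472511973) (nat_lit 380) (nat_lit 8029443181) (nat_lit 76) (nat_lit 23828814006) (nat_lit 34) (nat_lit 5) (nat_lit 39) (nat_lit 5) (nat_lit 35) (nat_lit 5) (nat_lit 300) (nat_lit 276) (nat_lit 144))) (XT.nd (nat_lit 78) (nat_lit 0) (nat_lit 0) (XT.lf (nat_lit 0) (nat_lit 11219459978) (nat_lit 228) (nat_lit 9599617834) (nat_lit 304) (nat_lit 28080137857) (nat_lit 31) (nat_lit 5) (nat_lit 34) (nat_lit 5) (nat_lit 35) (nat_lit 5) (nat_lit 301) (nat_lit 276) (nat_lit 143)) (XT.lf (nat_lit 0) (nat_lit 26646882430) (nat_lit 304) (nat_lit 18912898509) (nat_lit 76) (nat_lit 4975617557) (nat_lit 31) (nat_lit 5) (nat_lit 35) (nat_lit 5) (nat_lit 32) (nat_lit 5) (nat_lit 302) (nat_lit 276)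 (nat_lit 142)))) (XT.nd (nat_lit 156) (nat_lit 228) (nat_lit 0) (XT.nd (nat_lit 78) (nat_lit 0) (nat_lit 0) (XT.lf (nat_lit 0) (nat_lit 653045514) (nat_lit 228) (nat_lit 32278377970) (nat_lit 304) (nat_lit 19313708734) (nat_lit 28) (nat_lit 5) (nat_lit 31) (nat_lit 5) (nat_lit 32) (nat_lit 5) (nat_lit 303) (nat_lit 276) (nat_lit 141)) (XT.lf (nat_lit 0) (nat_lit 21851158048) (nat_lit 228) (nat_lit 17997175110) (nat_lit 304) (nat_lit 14176121022) (nat_lit 28) (nat_lit 5) (nat_lit 31) (nat_lit 5) (nat_lit 32) (nat_lit 5) (nat_lit 304) (nat_lit 276) (nat_lit 140))) (XT.nd (nat_lit 78) (nat_lit 228) (nat_lit 0) (XT.lf (nat_lit 0) (nat_lit 44106564951) (nat_lit 228) (nat_lit 3002468584) (nat_lit 304) (nat_lit 8783819666) (nat_lit 28) (nat_lit 5) (nat_lit 31) (nat_lit 5) (nat_lit 32) (nat_lit 5) (nat_lit 305) (nat_lit 276) (nat_lit 139)) (XT.nd (nat_lit 78) (nat_lit 76) (nat_lit 0) (XT.lf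 (nat_lit 0) (nat_lit 9729967525) (nat_lit 152) (nat_lit 45351686168) (nat_lit 228) (nat_lit 2755582070) (nat_lit 26) (nat_lit 5) (nat_lit 28) (nat_lit 5) (nat_lit 29) (nat_lit 5) (nat_lit 306) (nat_lit 276) (nat_lit 138)) (XT.lf (nat_lit 0) (nat_lit 3709824579) (nat_lit 228) (nat_lit 27248536174) (nat_lit 76) (nat_lit 28905186259) (nat_lit 25) (nat_lit 5) (nat_lit 28) (nat_lit 5) (nat_lit 26) (nat_lit 5) (nat_lit 307) (nat_lit 276) (nat_lit 137))))))))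
noncomputable def xc214 : XT := (XT.nd (nat_lit 1326) (nat_lit 456) (nat_lit 0) (XT.nd (nat_lit 624) (nat_lit 456) (nat_lit 0) (XT.nd (nat_lit 312) (nat_lit 304) (nat_lit 0) (XT.nd (nat_lit 156) (nat_lit 0) (nat_lit 0) (XT.nd (nat_lit 78) (nat_lit 228) (nat_lit 0) (XT.lf (nat_lit 0) (nat_lit 10404038908) (nat_lit 228) (nat_lit 5394530701) (nat_lit 76) (nat_lit 46190445155) (nat_lit 25) (nat_lit 5) (nat_lit 28) (nat_lit 5) (nat_lit 26) (nat_lit 5) (nat_lit 308) (nat_lit 276) (nat_lit 136)) (XT.lf (nat_lit 0) (nat_lit 17720748873) (nat_lit 304) (nat_lit 46083110213) (nat_lit 76) (nat_lit 402514014) (nat_lit 22) (nat_lit 5) (nat_lit 26) (nat_lit 5) (nat_lit 23) (nat_lit 5) (nat_lit 309) (nat_lit 276) (nat_lit 135))) (XT.nd (nat_lit 78) (nat_lit 0) (nat_lit 0) (XT.lf (nat_lit 0) (nat_lit 25753413599) (nat_lit 304) (nat_lit 23788705489) (nat_lit 76) (nat_lit 16974980435) (nat_lit 22) (nat_lit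 5) (nat_lit 26) (nat_lit 5) (nat_lit 23) (nat_lit 5) (nat_lit 310) (nat_lit 276) (nat_lit 134)) (XT.lf (nat_lit 0) (nat_lit 34186063602) (nat_lit 304) (nat_lit 381881038) (nat_lit 76) (nat_lit 34375505868) (nat_lit 22) (nat_lit 5) (nat_lit 26) (nat_lit 5) (nat_lit 23) (nat_lit 5) (nat_lit 311) (nat_lit 276) (nat_lit 133)))) (XT.nd (nat_lit 156) (nat_lit 152) (nat_lit 0) (XT.nd (nat_lit 78) (nat_lit 0) (nat_lit 0) (XT.lf (nat_lit 0) (nat_lit 24993026610) (nat_lit 152) (nat_lit 18435961197) (nat_lit 228) (nat_lit 28042704714) (nat_lit 20) (nat_lit 5) (nat_lit 22) (nat_lit 5) (nat_lit 23) (nat_lit 5) (nat_lit 312) (nat_lit 276) (nat_lit 132)) (XT.lf (nat_lit 0) (nat_lit 51647782066) (nat_lit 152) (nat_lit 1491215095) (nat_lit 228) (nat_lit 20987107827) (nat_lit 20) (nat_lit 5) (nat_lit 22) (nat_lit 5) (nat_lit 23) (nat_lit 5) (nat_lit 313) (nat_lit 276) (nat_lit 131))) (XT.nd (nat_lit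 78) (nat_lit 0) (nat_lit 0) (XT.lf (nat_lit 0) (nat_lit 2546932820) (nat_lit 152) (nat_lit 61080374650) (nat_lit 228) (nat_lit 13271295631) (nat_lit 18) (nat_lit 5) (nat_lit 20) (nat_lit 5) (nat_lit 21) (nat_lit 5) (nat_lit 314) (nat_lit 276) (nat_lit 130)) (XT.lf (nat_lit 0) (nat_lit 29576506257) (nat_lit 152) (nat_lit 45466832392) (nat_lit 228) (nat_lit 4746227009) (nat_lit 18) (nat_lit 5) (nat_lit 20) (nat_lit 5) (nat_lit 21) (nat_lit 5) (nat_lit 315) (nat_lit 276) (nat_lit 129))))) (XT.nd (nat_lit 312) (nat_lit 228) (nat_lit 0) (XT.nd (nat_lit 156) (nat_lit 0) (nat_lit 0) (XT.nd (nat_lit 78) (nat_lit 152) (nat_lit 0) (XT.lf (nat_lit 0) (nat_lit 4069119230) (nat_lit 228) (nat_lit 24935209364) (nat_lit 76) (nat_lit 53817538767) (nat_lit 17) (nat_lit 5) (nat_lit 20) (nat_lit 5) (nat_lit 18) (nat_lit 5) (nat_lit 316) (nat_lit 276) (nat_lit 128)) (XT.lf (nat_lit 0) (nat_lit 1577267567)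 (nat_lit 152) (nat_lit 11611765945) (nat_lit 228) (nat_lit 72811699186) (nat_lit 15) (nat_lit 5) (nat_lit 17) (nat_lit 5) (nat_lit 18) (nat_lit 5) (nat_lit 317) (nat_lit 276) (nat_lit 127))) (XT.nd (nat_lit 78) (nat_lit 0) (nat_lit 0) (XT.lf (nat_lit 0) (nat_lit 23296690762) (nat_lit 228) (nat_lit 59149087176) (nat_lit 76) (nat_lit 6866179956) (nat_lit 15) (nat_lit 5) (nat_lit 18) (nat_lit 5) (nat_lit 16) (nat_lit 5) (nat_lit 318) (nat_lit 276) (nat_lit 126)) (XT.lf (nat_lit 0) (nat_lit 34098852324) (nat_lit 228) (nat_lit 32803221734) (nat_lit 76) (nat_lit 25877217986) (nat_lit 15) (nat_lit 5) (nat_lit 18) (nat_lit 5) (nat_lit 16) (nat_lit 5) (nat_lit 319) (nat_lit 276) (nat_lit 125)))) (XT.nd (nat_lit 156) (nat_lit 76) (nat_lit 0) (XT.nd (nat_lit 78) (nat_lit 152) (nat_lit 0) (XT.lf (nat_lit 0) (nat_lit 45439945422) (nat_lit 228) (nat_lit 5141848344) (nat_lit 76) (nat_lit 45838261548)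 (nat_lit 15) (nat_lit 5) (nat_lit 18) (nat_lit 5) (nat_lit 16) (nat_lit 5) (nat_lit 320) (nat_lit 276) (nat_lit 124)) (XT.lf (nat_lit 0) (nat_lit 24691164879) (nat_lit 152) (nat_lit 33041306060) (nat_lit 228) (nat_lit 42491170337) (nat_lit 13) (nat_lit 5) (nat_lit 15) (nat_lit 5) (nat_lit 16) (nat_lit 5) (nat_lit 321) (nat_lit 276) (nat_lit 123))) (XT.nd (nat_lit 78) (nat_lit 76) (nat_lit 0) (XT.lf (nat_lit 0) (nat_lit 56192669244) (nat_lit 152) (nat_lit 14532939903) (nat_lit 228) (nat_lit 33487501323) (nat_lit 13) (nat_lit 5) (nat_lit 15) (nat_lit 5) (nat_lit 16) (nat_lit 5) (nat_lit 322) (nat_lit 276) (nat_lit 122)) (XT.nd (nat_lit 78) (nat_lit 76) (nat_lit 0) (XT.lf (nat_lit 0) (nat_lit 84443870348) (nat_lit 228) (nat_lit 19210959980) (nat_lit 76) (nat_lit 4743452588) (nat_lit 13) (nat_lit 5) (nat_lit 16) (nat_lit 5) (nat_lit 14) (nat_lit 4) (nat_lit 323) (nat_lit 276) (nat_lit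 121)) (XT.lf (nat_lit 0) (nat_lit 11156258681) (nat_lit 76) (nat_lit 88103211466) (nat_lit 152) (nat_lit 13512675512) (nat_lit 12) (nat_lit 5) (nat_lit 13) (nat_lit 5) (nat_lit 14) (nat_lit 4) (nat_lit 324) (nat_lit 276) (nat_lit 120))))))) (XT.nd (nat_lit 624) (nat_lit 152) (nat_lit 0) (XT.nd (nat_lit 312) (nat_lit 76) (nat_lit 0) (XT.nd (nat_lit 156) (nat_lit 152) (nat_lit 0) (XT.nd (nat_lit 78) (nat_lit 76) (nat_lit 0) (XT.lf (nat_lit 0) (nat_lit 43707262934) (nat_lit 76) (nat_lit 71432957686) (nat_lit 152) (nat_lit 2208265195) (nat_lit 12) (nat_lit 5) (nat_lit 13) (nat_lit 5) (nat_lit 14) (nat_lit 4) (nat_lit 325) (nat_lit 276) (nat_lit 119)) (XT.lf (nat_lit 0) (nat_lit 9351194034) (nat_lit 152) (nat_lit 44420163780) (nat_lit 76) (nat_lit 68374793042) (nat_lit 11) (nat_lit 5) (nat_lit 13) (nat_lit 5) (nat_lit 12) (nat_lit 5) (nat_lit 326) (nat_lit 276) (nat_lit 118))) (XT.nd (nat_lit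 78) (nat_lit 152) (nat_lit 0) (XT.lf (nat_lit 0) (nat_lit 21413511592) (nat_lit 152) (nat_lit 13775678703) (nat_lit 76) (nat_lit 91992746351) (nat_lit 11) (nat_lit 5) (nat_lit 13) (nat_lit 5) (nat_lit 12) (nat_lit 5) (nat_lit 327) (nat_lit 276) (nat_lit 117)) (XT.lf (nat_lit 0) (nat_lit 19008048890) (nat_lit 152) (nat_lit 15366805582) (nat_lit 228) (nat_lit 98079864094) (nat_lit 9) (nat_lit 5) (nat_lit 11) (nat_lit 5) (nat_lit 12) (nat_lit 5) (nat_lit 328) (nat_lit 276) (nat_lit 116)))) (XT.nd (nat_lit 156) (nat_lit 76) (nat_lit 0) (XT.nd (nat_lit 78) (nat_lit 0) (nat_lit 0) (XT.lf (nat_lit 0) (nat_lit 48305577902) (nat_lit 228) (nat_lit 84160486675) (nat_lit 76) (nat_lit 5509011535) (nat_lit 9) (nat_lit 5) (nat_lit 12) (nat_lit 5) (nat_lit 10) (nat_lit 4) (nat_lit 329) (nat_lit 276) (nat_lit 115)) (XT.lf (nat_lit 0) (nat_lit 63183945533) (nat_lit 228) (nat_lit 53663216535) (nat_lit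 76) (nat_lit 26911736165) (nat_lit 9) (nat_lit 5) (nat_lit 12) (nat_lit 5) (nat_lit 10) (nat_lit 4) (nat_lit 330) (nat_lit 276) (nat_lit 114))) (XT.nd (nat_lit 78) (nat_lit 76) (nat_lit 0) (XT.lf (nat_lit 0) (nat_lit 78805463147) (nat_lit 228) (nat_lit 21642327807) (nat_lit 76) (nat_lit 49384160921) (nat_lit 9) (nat_lit 5) (nat_lit 12) (nat_lit 5) (nat_lit 10) (nat_lit 4) (nat_lit 331) (nat_lit 276) (nat_lit 113)) (XT.lf (nat_lit 0) (nat_lit 12374480370) (nat_lit 76) (nat_lit 83026044784) (nat_lit 152) (nat_lit 60798511524) (nat_lit 8) (nat_lit 5) (nat_lit 9) (nat_lit 5) (nat_lit 10) (nat_lit 4) (nat_lit 332) (nat_lit 276) (nat_lit 112))))) (XT.nd (nat_lit 312) (nat_lit 152) (nat_lit 0) (XT.nd (nat_lit 156) (nat_lit 0) (nat_lit 0) (XT.nd (nat_lit 78) (nat_lit 0) (nat_lit 0) (XT.lf (nat_lit 0) (nat_lit 48842335195) (nat_lit 76) (nat_lit 64348813189) (nat_lit 152) (nat_lit 49675038741)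 (nat_lit 8) (nat_lit 5) (nat_lit 9) (nat_lit 5) (nat_lit 10) (nat_lit 4) (nat_lit 333) (nat_lit 276) (nat_lit 111)) (XT.lf (nat_lit 0) (nat_lit 87132471794) (nat_lit 76) (nat_lit 44738149865) (nat_lit 152) (nat_lit 37996109217) (nat_lit 8) (nat_lit 5) (nat_lit 9) (nat_lit 5) (nat_lit 10) (nat_lit 4) (nat_lit 334) (nat_lit 276) (nat_lit 110))) (XT.nd (nat_lit 78) (nat_lit 0) (nat_lit 0) (XT.lf (nat_lit 0) (nat_lit 127336057160) (nat_lit 76) (nat_lit 24147362757) (nat_lit 152) (nat_lit 25733915974) (nat_lit 8) (nat_lit 5) (nat_lit 9) (nat_lit 5) (nat_lit 10) (nat_lit 4) (nat_lit 335) (nat_lit 276) (nat_lit 109)) (XT.lf (nat_lit 0) (nat_lit 169548814115) (nat_lit 76) (nat_lit 2527426180) (nat_lit 152) (nat_lit 12859263316) (nat_lit 8) (nat_lit 5) (nat_lit 9) (nat_lit 5) (nat_lit 10) (nat_lit 4) (nat_lit 336) (nat_lit 276) (nat_lit 108)))) (XT.nd (nat_lit 156) (nat_lit 0) (nat_lit 0) (XT.nd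 (nat_lit 78) (nat_lit 0) (nat_lit 0) (XT.lf (nat_lit 0) (nat_lit 1293887952) (nat_lit 152) (nat_lit 171833132635) (nat_lit 76) (nat_lit 19879252915) (nat_lit 6) (nat_lit 5) (nat_lit 8) (nat_lit 5) (nat_lit 7) (nat_lit 4) (nat_lit 337) (nat_lit 276) (nat_lit 107)) (XT.lf (nat_lit 0) (nat_lit 16028235379) (nat_lit 152) (nat_lit 141629901445) (nat_lit 76) (nat_lit 43796621325) (nat_lit 6) (nat_lit 5) (nat_lit 8) (nat_lit 5) (nat_lit 7) (nat_lit 4) (nat_lit 338) (nat_lit 276) (nat_lit 106))) (XT.nd (nat_lit 78) (nat_lit 0) (nat_lit 0) (XT.lf (nat_lit 0) (nat_lit 31498736460) (nat_lit 152) (nat_lit 109917451405) (nat_lit 76) (nat_lit 68909508637) (nat_lit 6) (nat_lit 5) (nat_lit 8) (nat_lit 5) (nat_lit 7) (nat_lit 4) (nat_lit 339) (nat_lit 276) (nat_lit 105)) (XT.nd (nat_lit 78) (nat_lit 0) (nat_lit 0) (XT.lf (nat_lit 0) (nat_lit 47742225722) (nat_lit 152) (nat_lit 76620276682) (nat_lit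 76) (nat_lit 95277707439) (nat_lit 6) (nat_lit 5) (nat_lit 8) (nat_lit 5) (nat_lit 7) (nat_lit 4) (nat_lit 340) (nat_lit 276) (nat_lit 104)) (XT.lf (nat_lit 0) (nat_lit 64797378139) (nat_lit 152) (nat_lit 41659098288) (nat_lit 76) (nat_lit 122963999157) (nat_lit 6) (nat_lit 5) (nat_lit 8) (nat_lit 5) (nat_lit 7) (nat_lit 4) (nat_lit 341) (nat_lit 276) (nat_lit 103))))))))
noncomputable def xc215 : XT := (XT.nd (nat_lit 33462) (nat_lit 0) (nat_lit 1748) (XT.nd (nat_lit 32760) (nat_lit 0) (nat_lit 3876) (XT.nd (nat_lit 32448) (nat_lit 0) (nat_lit 4484) (XT.nd (nat_lit 156) (nat_lit 0) (nat_lit 0) (XT.nd (nat_lit 78) (nat_lit 76) (nat_lit 0) (XT.lf (nat_lit 0) (nat_lit 82704801216) (nat_lit 152) (nat_lit 4950675322) (nat_lit 76) (nat_lit 152034303533) (nat_lit 6) (nat_lit 5) (nat_lit 8) (nat_lit 5) (nat_lit 7) (nat_lit 4) (nat_lit 342) (nat_lit 276) (nat_lit 102)) (XT.lf (nat_lit 0) (nat_lit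 34703109449) (nat_lit 76) (nat_lit 67345835021) (nat_lit 152) (nat_lit 148396538922) (nat_lit 5) (nat_lit 5) (nat_lit 6) (nat_lit 5) (nat_lit 7) (nat_lit 4) (nat_lit 343) (nat_lit 276) (nat_lit 101))) (XT.nd (nat_lit 78) (nat_lit 0) (nat_lit 0) (XT.lf (nat_lit 0) (nat_lit 76510696668) (nat_lit 76) (nat_lit 45932986700) (nat_lit 152) (nat_lit 139291120095) (nat_lit 5) (nat_lit 5) (nat_lit 6) (nat_lit 5) (nat_lit 7) (nat_lit 4) (nat_lit 344) (nat_lit 276) (nat_lit 100)) (XT.lf (nat_lit 0) (nat_lit 120407936524) (nat_lit 76) (nat_lit 23449790686) (nat_lit 152) (nat_lit 129730884888) (nat_lit 5) (nat_lit 5) (nat_lit 6) (nat_lit 5) (nat_lit 7) (nat_lit 4) (nat_lit 345) (nat_lit 276) (nat_lit 99)))) (XT.nd (nat_lit 156) (nat_lit 0) (nat_lit 0) (XT.nd (nat_lit 78) (nat_lit 0) (nat_lit 0) (XT.lf (nat_lit 0) (nat_lit 12086664249) (nat_lit 684) (nat_lit 245875335) (nat_lit 684) (nat_lit 245875335)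 (nat_lit 64) (nat_lit 3) (nat_lit 73) (nat_lit 3) (nat_lit 73) (nat_lit 5) (nat_lit 277) (nat_lit 277) (nat_lit 166)) (XT.lf (nat_lit 76) (nat_lit 9859208602) (nat_lit 0) (nat_lit 15161388016) (nat_lit 684) (nat_lit 752527747) (nat_lit 65) (nat_lit 5) (nat_lit 64) (nat_lit 3) (nat_lit 73) (nat_lit 5) (nat_lit 278) (nat_lit 277) (nat_lit 165))) (XT.nd (nat_lit 78) (nat_lit 0) (nat_lit 76) (XT.lf (nat_lit 76) (nat_lit 20741682404) (nat_lit 0) (nat_lit 5171127848) (nat_lit 684) (nat_lit 507324950) (nat_lit 65) (nat_lit 5) (nat_lit 64) (nat_lit 3) (nat_lit 73) (nat_lit 5) (nat_lit 279) (nat_lit 277) (nat_lit 164)) (XT.lf (nat_lit 76) (nat_lit 5147186354) (nat_lit 0) (nat_lit 21860416123) (nat_lit 684) (nat_lit 84024940) (nat_lit 66) (nat_lit 5) (nat_lit 65) (nat_lit 5) (nat_lit 74) (nat_lit 5) (nat_lit 280) (nat_lit 277) (nat_lit 163))))) (XT.nd (nat_lit 312) (nat_lit 0) (nat_lit 152)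 (XT.nd (nat_lit 156) (nat_lit 0) (nat_lit 76) (XT.nd (nat_lit 78) (nat_lit 0) (nat_lit 0) (XT.lf (nat_lit 0) (nat_lit 526082548) (nat_lit 684) (nat_lit 11176061814) (nat_lit 760) (nat_lit 16085436080) (nat_lit 56) (nat_lit 5) (nat_lit 65) (nat_lit 5) (nat_lit 66) (nat_lit 5) (nat_lit 281) (nat_lit 277) (nat_lit 162)) (XT.lf (nat_lit 76) (nat_lit 130241893) (nat_lit 0) (nat_lit 1030579709) (nat_lit 760) (nat_lit 27357618394) (nat_lit 57) (nat_lit 5) (nat_lit 56) (nat_lit 5) (nat_lit 66) (nat_lit 5) (nat_lit 282) (nat_lit 277) (nat_lit 161))) (XT.nd (nat_lit 78) (nat_lit 0) (nat_lit 0) (XT.lf (nat_lit 0) (nat_lit 2173659933) (nat_lit 684) (nat_lit 17051993932) (nat_lit 760) (nat_lit 10042894596) (nat_lit 57) (nat_lit 5) (nat_lit 66) (nat_lit 5) (nat_lit 67) (nat_lit 5) (nat_lit 283) (nat_lit 277) (nat_lit 160)) (XT.lf (nat_lit 0) (nat_lit 3249400684) (nat_lit 684) (nat_lit 5169233496)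 (nat_lit 760) (nat_lit 21636938046) (nat_lit 57) (nat_lit 5) (nat_lit 66) (nat_lit 5) (nat_lit 67) (nat_lit 5) (nat_lit 284) (nat_lit 277) (nat_lit 159)))) (XT.nd (nat_lit 156) (nat_lit 0) (nat_lit 0) (XT.nd (nat_lit 78) (nat_lit 0) (nat_lit 0) (XT.lf (nat_lit 0) (nat_lit 4540004991) (nat_lit 684) (nat_lit 23377990740) (nat_lit 760) (nat_lit 2955919436) (nat_lit 58) (nat_lit 5) (nat_lit 67) (nat_lit 5) (nat_lit 68) (nat_lit 5) (nat_lit 285) (nat_lit 277) (nat_lit 158)) (XT.lf (nat_lit 0) (nat_lit 6117893229) (nat_lit 684) (nat_lit 10897837539) (nat_lit 760) (nat_lit 14706327575) (nat_lit 58) (nat_lit 5) (nat_lit 67) (nat_lit 5) (nat_lit 68) (nat_lit 5) (nat_lit 286) (nat_lit 277) (nat_lit 157))) (XT.nd (nat_lit 78) (nat_lit 0) (nat_lit 76) (XT.lf (nat_lit 76) (nat_lit 2275930862) (nat_lit 0) (nat_lit 5530245067) (nat_lit 760) (nat_lit 24804877530) (nat_lit 59) (nat_lit 5) (nat_lit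 58) (nat_lit 5) (nat_lit 68) (nat_lit 5) (nat_lit 287) (nat_lit 277) (nat_lit 156)) (XT.nd (nat_lit 78) (nat_lit 0) (nat_lit 0) (XT.lf (nat_lit 0) (nat_lit 9864522312) (nat_lit 684) (nat_lit 17156912635) (nat_lit 76) (nat_lit 6508799750) (nat_lit 59) (nat_lit 5) (nat_lit 68) (nat_lit 5) (nat_lit 60) (nat_lit 5) (nat_lit 288) (nat_lit 277) (nat_lit 155)) (XT.lf (nat_lit 0) (nat_lit 12112750331) (nat_lit 684) (nat_lit 3413698314) (nat_lit 76) (nat_lit 18964596082) (nat_lit 59) (nat_lit 5) (nat_lit 68) (nat_lit 5) (nat_lit 60) (nat_lit 5) (nat_lit 289) (nat_lit 277) (nat_lit 154))))))) (XT.nd (nat_lit 624) (nat_lit 836) (nat_lit 0) (XT.nd (nat_lit 312) (nat_lit 532) (nat_lit 0) (XT.nd (nat_lit 156) (nat_lit 304) (nat_lit 0) (XT.nd (nat_lit 78) (nat_lit 0) (nat_lit 0) (XT.lf (nat_lit 0) (nat_lit 11377743786) (nat_lit 684) (nat_lit 3269764967) (nat_lit 760) (nat_lit 20843697645) (nat_lit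 50) (nat_lit 5) (nat_lit 59) (nat_lit 5) (nat_lit 60) (nat_lit 5) (nat_lit 290) (nat_lit 277) (nat_lit 153)) (XT.lf (nat_lit 0) (nat_lit 17514250740) (nat_lit 760) (nat_lit 9665272178) (nat_lit 76) (nat_lit 9351607228) (nat_lit 50) (nat_lit 5) (nat_lit 60) (nat_lit 5) (nat_lit 51) (nat_lit 5) (nat_lit 291) (nat_lit 277) (nat_lit 152))) (XT.nd (nat_lit 78) (nat_lit 0) (nat_lit 0) (XT.lf (nat_lit 0) (nat_lit 5628802129) (nat_lit 304) (nat_lit 15033779604) (nat_lit 380) (nat_lit 16953571257) (nat_lit 46) (nat_lit 5) (nat_lit 50) (nat_lit 5) (nat_lit 51) (nat_lit 5) (nat_lit 292) (nat_lit 277) (nat_lit 151)) (XT.lf (nat_lit 0) (nat_lit 22020106488) (nat_lit 304) (nat_lit 2108783279) (nat_lit 380) (nat_lit 14618523947) (nat_lit 46) (nat_lit 5) (nat_lit 50) (nat_lit 5) (nat_lit 51) (nat_lit 5) (nat_lit 293) (nat_lit 277) (nat_lit 150)))) (XT.nd (nat_lit 156) (nat_lit 228) (nat_lit 0) (XT.nd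 (nat_lit 78) (nat_lit 304) (nat_lit 0) (XT.lf (nat_lit 0) (nat_lit 27944499059) (nat_lit 380) (nat_lit 886272697) (nat_lit 76) (nat_lit 11095680486) (nat_lit 46) (nat_lit 5) (nat_lit 51) (nat_lit 5) (nat_lit 47) (nat_lit 5) (nat_lit 294) (nat_lit 277) (nat_lit 149)) (XT.lf (nat_lit 0) (nat_lit 16228760143) (nat_lit 304) (nat_lit 16007241685) (nat_lit 380) (nat_lit 8914198609) (nat_lit 42) (nat_lit 5) (nat_lit 46) (nat_lit 5) (nat_lit 47) (nat_lit 5) (nat_lit 295) (nat_lit 277) (nat_lit 148))) (XT.nd (nat_lit 78) (nat_lit 228) (nat_lit 0) (XT.lf (nat_lit 0) (nat_lit 34227455992) (nat_lit 304) (nat_lit 2526889883) (nat_lit 380) (nat_lit 5680189614) (nat_lit 42) (nat_lit 5) (nat_lit 46) (nat_lit 5) (nat_lit 47) (nat_lit 5) (nat_lit 296) (nat_lit 277) (nat_lit 147)) (XT.lf (nat_lit 0) (nat_lit 9461423437) (nat_lit 228) (nat_lit 32363826174) (nat_lit 304) (nat_lit 1941517704) (nat_lit 39)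 (nat_lit 5) (nat_lit 42) (nat_lit 5) (nat_lit 43) (nat_lit 5) (nat_lit 297) (nat_lit 277) (nat_lit 146))))) (XT.nd (nat_lit 312) (nat_lit 456) (nat_lit 0) (XT.nd (nat_lit 156) (nat_lit 0) (nat_lit 0) (XT.nd (nat_lit 78) (nat_lit 304) (nat_lit 0) (XT.lf (nat_lit 0) (nat_lit 2100691817) (nat_lit 304) (nat_lit 16937971899) (nat_lit 76) (nat_lit 26116403812) (nat_lit 38) (nat_lit 5) (nat_lit 42) (nat_lit 5) (nat_lit 39) (nat_lit 5) (nat_lit 298) (nat_lit 277) (nat_lit 145)) (XT.lf (nat_lit 0) (nat_lit 1304931855) (nat_lit 304) (nat_lit 4992742438) (nat_lit 380) (nat_lit 40312632035) (nat_lit 34) (nat_lit 5) (nat_lit 38) (nat_lit 5) (nat_lit 39) (nat_lit 5) (nat_lit 299) (nat_lit 277) (nat_lit 144))) (XT.nd (nat_lit 78) (nat_lit 0) (nat_lit 0) (XT.lf (nat_lit 0) (nat_lit 11145977372) (nat_lit 380) (nat_lit 27235802285) (nat_lit 76) (nat_lit 9734463828) (nat_lit 34) (nat_lit 5) (nat_lit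 39) (nat_lit 5) (nat_lit 35) (nat_lit 5) (nat_lit 300) (nat_lit 277) (nat_lit 143)) (XT.lf (nat_lit 0) (nat_lit 16316263767) (nat_lit 380) (nat_lit 8347317805) (nat_lit 76) (nat_lit 25029927037) (nat_lit 34) (nat_lit 5) (nat_lit 39) (nat_lit 5) (nat_lit 35) (nat_lit 5) (nat_lit 301) (nat_lit 277) (nat_lit 142)))) (XT.nd (nat_lit 156) (nat_lit 228) (nat_lit 0) (XT.nd (nat_lit 78) (nat_lit 0) (nat_lit 0) (XT.lf (nat_lit 0) (nat_lit 11862682164) (nat_lit 228) (nat_lit 10065420532) (nat_lit 304) (nat_lit 29412391447) (nat_lit 31) (nat_lit 5) (nat_lit 34) (nat_lit 5) (nat_lit 35) (nat_lit 5) (nat_lit 302) (nat_lit 277) (nat_lit 141)) (XT.lf (nat_lit 0) (nat_lit 28044266890) (nat_lit 304) (nat_lit 19776914733) (nat_lit 76) (nat_lit 5237469295) (nat_lit 31) (nat_lit 5) (nat_lit 35) (nat_lit 5) (nat_lit 32) (nat_lit 5) (nat_lit 303) (nat_lit 277) (nat_lit 140))) (XT.nd (nat_lit 78) (nat_lit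 0) (nat_lit 0) (XT.lf (nat_lit 0) (nat_lit 766009899) (nat_lit 228) (nat_lit 33875181836) (nat_lit 304) (nat_lit 20212784397) (nat_lit 28) (nat_lit 5) (nat_lit 31) (nat_lit 5) (nat_lit 32) (nat_lit 5) (nat_lit 304) (nat_lit 277) (nat_lit 139)) (XT.nd (nat_lit 78) (nat_lit 0) (nat_lit 0) (XT.lf (nat_lit 0) (nat_lit 23020203674) (nat_lit 228) (nat_lit 18880733835) (nat_lit 304) (nat_lit 14821489193) (nat_lit 28) (nat_lit 5) (nat_lit 31) (nat_lit 5) (nat_lit 32) (nat_lit 5) (nat_lit 305) (nat_lit 277) (nat_lit 138)) (XT.lf (nat_lit 0) (nat_lit 46384738649) (nat_lit 228) (nat_lit 3137068174) (nat_lit 304) (nat_lit 9162593621) (nat_lit 28) (nat_lit 5) (nat_lit 31) (nat_lit 5) (nat_lit 32) (nat_lit 5) (nat_lit 306) (nat_lit 277) (nat_lit 137))))))))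
noncomputable def xc216 : XT := (XT.nd (nat_lit 1248) (nat_lit 532) (nat_lit 0) (XT.nd (nat_lit 624) (nat_lit 532) (nat_lit 0) (XT.nd (nat_lit 312) (nat_lit 152) (nat_lit 0) (XT.nd (nat_lit 156) (nat_lit 228) (nat_lit 0) (XT.nd (nat_lit 78) (nat_lit 76) (nat_lit 0) (XT.lf (nat_lit 0) (nat_lit 10290943454) (nat_lit 152) (nat_lit 47600778566) (nat_lit 228) (nat_lit 2834357833) (nat_lit 26) (nat_lit 5) (nat_lit 28) (nat_lit 5) (nat_lit 29) (nat_lit 5) (nat_lit 307) (nat_lit 277) (nat_lit 136)) (XT.lf (nat_lit 0) (nat_lit 3949710918) (nat_lit 228) (nat_lit 28538035321) (nat_lit 76) (nat_lit 30366060258) (nat_lit 25) (nat_lit 5) (nat_lit 28) (nat_lit 5) (nat_lit 26) (nat_lit 5) (nat_lit 308) (nat_lit 277) (nat_lit 135))) (XT.nd (nat_lit 78) (nat_lit 228) (nat_lit 0) (XT.lf (nat_lit 0) (nat_lit 10976045721) (nat_lit 228) (nat_lit 5594802321) (nat_lit 76) (nat_lit 48514838542) (nat_lit 25)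 (nat_lit 5) (nat_lit 28) (nat_lit 5) (nat_lit 26) (nat_lit 5) (nat_lit 309) (nat_lit 277) (nat_lit 134)) (XT.lf (nat_lit 0) (nat_lit 18657471115) (nat_lit 304) (nat_lit 48316511049) (nat_lit 76) (nat_lit 439995659) (nat_lit 22) (nat_lit 5) (nat_lit 26) (nat_lit 5) (nat_lit 23) (nat_lit 5) (nat_lit 310) (nat_lit 277) (nat_lit 133)))) (XT.nd (nat_lit 156) (nat_lit 152) (nat_lit 0) (XT.nd (nat_lit 78) (nat_lit 0) (nat_lit 0) (XT.lf (nat_lit 0) (nat_lit 27089355516) (nat_lit 304) (nat_lit 24910755359) (nat_lit 76) (nat_lit 17840258928) (nat_lit 22) (nat_lit 5) (nat_lit 26) (nat_lit 5) (nat_lit 23) (nat_lit 5) (nat_lit 311) (nat_lit 277) (nat_lit 132)) (XT.lf (nat_lit 0) (nat_lit 35941339389) (nat_lit 304) (nat_lit 336798514) (nat_lit 76) (nat_lit 36110023515) (nat_lit 22) (nat_lit 5) (nat_lit 26) (nat_lit 5) (nat_lit 23) (nat_lit 5) (nat_lit 312) (nat_lit 277) (nat_lit 131))) (XT.nd (nat_lit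 78) (nat_lit 0) (nat_lit 0) (XT.lf (nat_lit 0) (nat_lit 26305819410) (nat_lit 152) (nat_lit 19339387038) (nat_lit 228) (nat_lit 29397677013) (nat_lit 20) (nat_lit 5) (nat_lit 22) (nat_lit 5) (nat_lit 23) (nat_lit 5) (nat_lit 313) (nat_lit 277) (nat_lit 130)) (XT.lf (nat_lit 0) (nat_lit 54290305902) (nat_lit 152) (nat_lit 1548278498) (nat_lit 228) (nat_lit 21991546135) (nat_lit 20) (nat_lit 5) (nat_lit 22) (nat_lit 5) (nat_lit 23) (nat_lit 5) (nat_lit 314) (nat_lit 277) (nat_lit 129))))) (XT.nd (nat_lit 312) (nat_lit 152) (nat_lit 0) (XT.nd (nat_lit 156) (nat_lit 228) (nat_lit 0) (XT.nd (nat_lit 78) (nat_lit 0) (nat_lit 0) (XT.lf (nat_lit 0) (nat_lit 2735418434) (nat_lit 152) (nat_lit 64115076163) (nat_lit 228) (nat_lit 13890806777) (nat_lit 18) (nat_lit 5) (nat_lit 20) (nat_lit 5) (nat_lit 21) (nat_lit 5) (nat_lit 315) (nat_lit 277) (nat_lit 128)) (XT.lf (nat_lit 0) (nat_lit 31113559163)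 (nat_lit 152) (nat_lit 47721776660) (nat_lit 228) (nat_lit 4941582517) (nat_lit 18) (nat_lit 5) (nat_lit 20) (nat_lit 5) (nat_lit 21) (nat_lit 5) (nat_lit 316) (nat_lit 277) (nat_lit 127))) (XT.nd (nat_lit 78) (nat_lit 152) (nat_lit 0) (XT.lf (nat_lit 0) (nat_lit 4311254233) (nat_lit 228) (nat_lit 26125114456) (nat_lit 76) (nat_lit 56524536466) (nat_lit 17) (nat_lit 5) (nat_lit 20) (nat_lit 5) (nat_lit 18) (nat_lit 5) (nat_lit 317) (nat_lit 277) (nat_lit 126)) (XT.lf (nat_lit 0) (nat_lit 1712069300) (nat_lit 152) (nat_lit 12174126425) (nat_lit 228) (nat_lit 76412572251) (nat_lit 15) (nat_lit 5) (nat_lit 17) (nat_lit 5) (nat_lit 18) (nat_lit 5) (nat_lit 318) (nat_lit 277) (nat_lit 125)))) (XT.nd (nat_lit 156) (nat_lit 152) (nat_lit 0) (XT.nd (nat_lit 78) (nat_lit 0) (nat_lit 0) (XT.lf (nat_lit 0) (nat_lit 24497711133) (nat_lit 228) (nat_lit 62051631893) (nat_lit 76) (nat_lit 7226293157)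 (nat_lit 15) (nat_lit 5) (nat_lit 18) (nat_lit 5) (nat_lit 16) (nat_lit 5) (nat_lit 319) (nat_lit 277) (nat_lit 124)) (XT.lf (nat_lit 0) (nat_lit 35838257638) (nat_lit 228) (nat_lit 34391087923) (nat_lit 76) (nat_lit 27187082889) (nat_lit 15) (nat_lit 5) (nat_lit 18) (nat_lit 5) (nat_lit 16) (nat_lit 5) (nat_lit 320) (nat_lit 277) (nat_lit 123))) (XT.nd (nat_lit 78) (nat_lit 152) (nat_lit 0) (XT.lf (nat_lit 0) (nat_lit 47744764310) (nat_lit 228) (nat_lit 5349136097) (nat_lit 76) (nat_lit 48145416534) (nat_lit 15) (nat_lit 5) (nat_lit 18) (nat_lit 5) (nat_lit 16) (nat_lit 5) (nat_lit 321) (nat_lit 277) (nat_lit 122)) (XT.lf (nat_lit 0) (nat_lit 25974724487) (nat_lit 152) (nat_lit 34676393731) (nat_lit 228) (nat_lit 44582008642) (nat_lit 13) (nat_lit 5) (nat_lit 15) (nat_lit 5) (nat_lit 16) (nat_lit 5) (nat_lit 322) (nat_lit 277) (nat_lit 121)))))) (XT.nd (nat_lit 624) (nat_lit 228)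 (nat_lit 0) (XT.nd (nat_lit 312) (nat_lit 228) (nat_lit 0) (XT.nd (nat_lit 156) (nat_lit 76) (nat_lit 0) (XT.nd (nat_lit 78) (nat_lit 0) (nat_lit 0) (XT.lf (nat_lit 0) (nat_lit 59048970671) (nat_lit 152) (nat_lit 15243417724) (nat_lit 228) (nat_lit 35129761902) (nat_lit 13) (nat_lit 5) (nat_lit 15) (nat_lit 5) (nat_lit 16) (nat_lit 5) (nat_lit 323) (nat_lit 277) (nat_lit 120)) (XT.lf (nat_lit 0) (nat_lit 88695350759) (nat_lit 228) (nat_lit 20125763964) (nat_lit 76) (nat_lit 4995531559) (nat_lit 13) (nat_lit 5) (nat_lit 16) (nat_lit 5) (nat_lit 14) (nat_lit 4) (nat_lit 324) (nat_lit 277) (nat_lit 119))) (XT.nd (nat_lit 78) (nat_lit 0) (nat_lit 0) (XT.lf (nat_lit 0) (nat_lit 11759077822) (nat_lit 76) (nat_lit 92491960784) (nat_lit 152) (nat_lit 14158202269) (nat_lit 12) (nat_lit 5) (nat_lit 13) (nat_lit 5) (nat_lit 14) (nat_lit 4) (nat_lit 325) (nat_lit 277) (nat_lit 118)) (XT.lf (nat_lit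 0) (nat_lit 45935489135) (nat_lit 76) (nat_lit 74988975804) (nat_lit 152) (nat_lit 2290005104) (nat_lit 12) (nat_lit 5) (nat_lit 13) (nat_lit 5) (nat_lit 14) (nat_lit 4) (nat_lit 326) (nat_lit 277) (nat_lit 117)))) (XT.nd (nat_lit 156) (nat_lit 152) (nat_lit 0) (XT.nd (nat_lit 78) (nat_lit 0) (nat_lit 0) (XT.lf (nat_lit 0) (nat_lit 9845187664) (nat_lit 152) (nat_lit 46599404877) (nat_lit 76) (nat_lit 71807473051) (nat_lit 11) (nat_lit 5) (nat_lit 13) (nat_lit 5) (nat_lit 12) (nat_lit 5) (nat_lit 327) (nat_lit 277) (nat_lit 116)) (XT.lf (nat_lit 0) (nat_lit 22509362342) (nat_lit 152) (nat_lit 14424684455) (nat_lit 76) (nat_lit 96605660200) (nat_lit 11) (nat_lit 5) (nat_lit 13) (nat_lit 5) (nat_lit 12) (nat_lit 5) (nat_lit 328) (nat_lit 277) (nat_lit 115))) (XT.nd (nat_lit 78) (nat_lit 0) (nat_lit 0) (XT.lf (nat_lit 0) (nat_lit 19997587934) (nat_lit 152) (nat_lit 16120596646) (nat_lit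 228) (nat_lit 102957976047) (nat_lit 9) (nat_lit 5) (nat_lit 11) (nat_lit 5) (nat_lit 12) (nat_lit 5) (nat_lit 329) (nat_lit 277) (nat_lit 114)) (XT.lf (nat_lit 0) (nat_lit 50744489691) (nat_lit 228) (nat_lit 88330222139) (nat_lit 76) (nat_lit 5797875016) (nat_lit 9) (nat_lit 5) (nat_lit 12) (nat_lit 5) (nat_lit 10) (nat_lit 4) (nat_lit 330) (nat_lit 277) (nat_lit 113))))) (XT.nd (nat_lit 312) (nat_lit 152) (nat_lit 0) (XT.nd (nat_lit 156) (nat_lit 76) (nat_lit 0) (XT.nd (nat_lit 78) (nat_lit 0) (nat_lit 0) (XT.lf (nat_lit 0) (nat_lit 66365650327) (nat_lit 228) (nat_lit 56309911771) (nat_lit 76) (nat_lit 28270097168) (nat_lit 9) (nat_lit 5) (nat_lit 12) (nat_lit 5) (nat_lit 10) (nat_lit 4) (nat_lit 331) (nat_lit 277) (nat_lit 112)) (XT.lf (nat_lit 0) (nat_lit 82767172036) (nat_lit 228) (nat_lit 22689715064) (nat_lit 76) (nat_lit 51865534867) (nat_lit 9) (nat_lit 5) (nat_lit 12) (nat_lit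 5) (nat_lit 10) (nat_lit 4) (nat_lit 332) (nat_lit 277) (nat_lit 111))) (XT.nd (nat_lit 78) (nat_lit 0) (nat_lit 0) (XT.lf (nat_lit 0) (nat_lit 13027373375) (nat_lit 76) (nat_lit 87164126492) (nat_lit 152) (nat_lit 63816388158) (nat_lit 8) (nat_lit 5) (nat_lit 9) (nat_lit 5) (nat_lit 10) (nat_lit 4) (nat_lit 333) (nat_lit 277) (nat_lit 110)) (XT.lf (nat_lit 0) (nat_lit 51316993846) (nat_lit 76) (nat_lit 67553662867) (nat_lit 152) (nat_lit 52137791686) (nat_lit 8) (nat_lit 5) (nat_lit 9) (nat_lit 5) (nat_lit 10) (nat_lit 4) (nat_lit 334) (nat_lit 277) (nat_lit 109)))) (XT.nd (nat_lit 156) (nat_lit 152) (nat_lit 0) (XT.nd (nat_lit 78) (nat_lit 0) (nat_lit 0) (XT.lf (nat_lit 0) (nat_lit 91520087661) (nat_lit 76) (nat_lit 46963065947) (nat_lit 152) (nat_lit 39875915637) (nat_lit 8) (nat_lit 5) (nat_lit 9) (nat_lit 5) (nat_lit 10) (nat_lit 4) (nat_lit 335) (nat_lit 277) (nat_lit 108)) (XT.lf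 (nat_lit 0) (nat_lit 133732376473) (nat_lit 76) (nat_lit 25343310503) (nat_lit 152) (nat_lit 27001565068) (nat_lit 8) (nat_lit 5) (nat_lit 9) (nat_lit 5) (nat_lit 10) (nat_lit 4) (nat_lit 336) (nat_lit 277) (nat_lit 107))) (XT.nd (nat_lit 78) (nat_lit 152) (nat_lit 0) (XT.lf (nat_lit 0) (nat_lit 178054365731) (nat_lit 76) (nat_lit 2642920926) (nat_lit 152) (nat_lit 13484086763) (nat_lit 8) (nat_lit 5) (nat_lit 9) (nat_lit 5) (nat_lit 10) (nat_lit 4) (nat_lit 337) (nat_lit 277) (nat_lit 106)) (XT.nd (nat_lit 78) (nat_lit 0) (nat_lit 0) (XT.lf (nat_lit 0) (nat_lit 1375920087) (nat_lit 152) (nat_lit 180395795203) (nat_lit 76) (nat_lit 20883965402) (nat_lit 6) (nat_lit 5) (nat_lit 8) (nat_lit 5) (nat_lit 7) (nat_lit 4) (nat_lit 338) (nat_lit 277) (nat_lit 105)) (XT.lf (nat_lit 0) (nat_lit 16846159279) (nat_lit 152) (nat_lit 148683783123) (nat_lit 76) (nat_lit 45996690336) (nat_lit 6) (nat_lit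 5) (nat_lit 8) (nat_lit 5) (nat_lit 7) (nat_lit 4) (nat_lit 339) (nat_lit 277) (nat_lit 104))))))))
noncomputable def xc217 : XT := (XT.nd (nat_lit 33540) (nat_lit 0) (nat_lit 1748) (XT.nd (nat_lit 32838) (nat_lit 0) (nat_lit 3876) (XT.nd (nat_lit 312) (nat_lit 76) (nat_lit 0) (XT.nd (nat_lit 156) (nat_lit 0) (nat_lit 0) (XT.nd (nat_lit 78) (nat_lit 0) (nat_lit 0) (XT.lf (nat_lit 0) (nat_lit 33089399122) (nat_lit 152) (nat_lit 115387025505) (nat_lit 76) (nat_lit 72364734492) (nat_lit 6) (nat_lit 5) (nat_lit 8) (nat_lit 5) (nat_lit 7) (nat_lit 4) (nat_lit 340) (nat_lit 277) (nat_lit 103)) (XT.lf (nat_lit 0) (nat_lit 50144313998) (nat_lit 152) (nat_lit 80426244354) (nat_lit 76) (nat_lit 100050878928) (nat_lit 6) (nat_lit 5) (nat_lit 8) (nat_lit 5) (nat_lit 7) (nat_lit 4) (nat_lit 341) (nat_lit 277) (nat_lit 102))) (XT.nd (nat_lit 78) (nat_lit 0) (nat_lit 0) (XT.lf (nat_lit 0) (nat_lit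 68051510846) (nat_lit 152) (nat_lit 43718199715) (nat_lit 76) (nat_lit 129121043036) (nat_lit 6) (nat_lit 5) (nat_lit 8) (nat_lit 5) (nat_lit 7) (nat_lit 4) (nat_lit 342) (nat_lit 277) (nat_lit 101)) (XT.lf (nat_lit 0) (nat_lit 86853625849) (nat_lit 152) (nat_lit 5175491481) (nat_lit 76) (nat_lit 159644441492) (nat_lit 6) (nat_lit 5) (nat_lit 8) (nat_lit 5) (nat_lit 7) (nat_lit 4) (nat_lit 343) (nat_lit 277) (nat_lit 100)))) (XT.nd (nat_lit 32370) (nat_lit 0) (nat_lit 4484) (XT.nd (nat_lit 78) (nat_lit 0) (nat_lit 0) (XT.lf (nat_lit 0) (nat_lit 36460616116) (nat_lit 76) (nat_lit 70704062229) (nat_lit 152) (nat_lit 155802385336) (nat_lit 5) (nat_lit 5) (nat_lit 6) (nat_lit 5) (nat_lit 7) (nat_lit 4) (nat_lit 344) (nat_lit 277) (nat_lit 99)) (XT.lf (nat_lit 0) (nat_lit 80357518353) (nat_lit 76) (nat_lit 48221003137) (nat_lit 152) (nat_lit 146242361308) (nat_lit 5) (nat_lit 5) (nat_lit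 6) (nat_lit 5) (nat_lit 7) (nat_lit 4) (nat_lit 345) (nat_lit 277) (nat_lit 98))) (XT.nd (nat_lit 78) (nat_lit 0) (nat_lit 0) (XT.lf (nat_lit 0) (nat_lit 12778612874) (nat_lit 684) (nat_lit 211935015) (nat_lit 684) (nat_lit 211935015) (nat_lit 64) (nat_lit 3) (nat_lit 73) (nat_lit 3) (nat_lit 73) (nat_lit 5) (nat_lit 278) (nat_lit 278) (nat_lit 164)) (XT.lf (nat_lit 76) (nat_lit 10443145782) (nat_lit 0) (nat_lit 15996787567) (nat_lit 684) (nat_lit 612532860) (nat_lit 65) (nat_lit 5) (nat_lit 64) (nat_lit 3) (nat_lit 73) (nat_lit 5) (nat_lit 279) (nat_lit 278) (nat_lit 163))))) (XT.nd (nat_lit 312) (nat_lit 0) (nat_lit 76) (XT.nd (nat_lit 156) (nat_lit 0) (nat_lit 0) (XT.nd (nat_lit 78) (nat_lit 608) (nat_lit 0) (XT.lf (nat_lit 76) (nat_lit 21865411049) (nat_lit 0) (nat_lit 5503332002) (nat_lit 684) (nat_lit 363528079) (nat_lit 65) (nat_lit 5) (nat_lit 64) (nat_lit 3) (nat_lit 73) (nat_lit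 5) (nat_lit 280) (nat_lit 278) (nat_lit 162)) (XT.lf (nat_lit 0) (nat_lit 70945049) (nat_lit 684) (nat_lit 22939233402) (nat_lit 760) (nat_lit 5427505223) (nat_lit 56) (nat_lit 5) (nat_lit 65) (nat_lit 5) (nat_lit 66) (nat_lit 5) (nat_lit 281) (nat_lit 278) (nat_lit 161))) (XT.nd (nat_lit 78) (nat_lit 0) (nat_lit 0) (XT.lf (nat_lit 0) (nat_lit 701289007) (nat_lit 684) (nat_lit 11638624660) (nat_lit 760) (nat_lit 16828861047) (nat_lit 56) (nat_lit 5) (nat_lit 65) (nat_lit 5) (nat_lit 66) (nat_lit 5) (nat_lit 282) (nat_lit 278) (nat_lit 160)) (XT.lf (nat_lit 76) (nat_lit 231441970) (nat_lit 0) (nat_lit 1130710801) (nat_lit 760) (nat_lit 28574340308) (nat_lit 57) (nat_lit 5) (nat_lit 56) (nat_lit 5) (nat_lit 66) (nat_lit 5) (nat_lit 283) (nat_lit 278) (nat_lit 159)))) (XT.nd (nat_lit 156) (nat_lit 0) (nat_lit 76) (XT.nd (nat_lit 78) (nat_lit 0) (nat_lit 0) (XT.lf (nat_lit 0) (nat_lit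 2418086999) (nat_lit 684) (nat_lit 17806197710) (nat_lit 760) (nat_lit 10500233101) (nat_lit 57) (nat_lit 5) (nat_lit 66) (nat_lit 5) (nat_lit 67) (nat_lit 5) (nat_lit 284) (nat_lit 278) (nat_lit 158)) (XT.lf (nat_lit 0) (nat_lit 3541150785) (nat_lit 684) (nat_lit 5333984772) (nat_lit 760) (nat_lit 22676112354) (nat_lit 57) (nat_lit 5) (nat_lit 66) (nat_lit 5) (nat_lit 67) (nat_lit 5) (nat_lit 285) (nat_lit 278) (nat_lit 157))) (XT.nd (nat_lit 78) (nat_lit 0) (nat_lit 0) (XT.lf (nat_lit 0) (nat_lit 4891063298) (nat_lit 684) (nat_lit 24447349371) (nat_lit 760) (nat_lit 3072386855) (nat_lit 58) (nat_lit 5) (nat_lit 67) (nat_lit 5) (nat_lit 68) (nat_lit 5) (nat_lit 286) (nat_lit 278) (nat_lit 156)) (XT.nd (nat_lit 78) (nat_lit 0) (nat_lit 0) (XT.lf (nat_lit 0) (nat_lit 6541938422) (nat_lit 684) (nat_lit 11347928553) (nat_lit 760) (nat_lit 15411807237) (nat_lit 58) (nat_lit 5) (nat_lit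 67) (nat_lit 5) (nat_lit 68) (nat_lit 5) (nat_lit 287) (nat_lit 278) (nat_lit 155)) (XT.lf (nat_lit 76) (nat_lit 2482999222) (nat_lit 0) (nat_lit 5827466054) (nat_lit 760) (nat_lit 25924889903) (nat_lit 59) (nat_lit 5) (nat_lit 58) (nat_lit 5) (nat_lit 68) (nat_lit 5) (nat_lit 288) (nat_lit 278) (nat_lit 154))))))) (XT.nd (nat_lit 624) (nat_lit 1064) (nat_lit 0) (XT.nd (nat_lit 312) (nat_lit 608) (nat_lit 0) (XT.nd (nat_lit 156) (nat_lit 684) (nat_lit 0) (XT.nd (nat_lit 78) (nat_lit 0) (nat_lit 0) (XT.lf (nat_lit 0) (nat_lit 10465993407) (nat_lit 684) (nat_lit 17919666751) (nat_lit 76) (nat_lit 6815148381) (nat_lit 59) (nat_lit 5) (nat_lit 68) (nat_lit 5) (nat_lit 60) (nat_lit 5) (nat_lit 289) (nat_lit 278) (nat_lit 153)) (XT.lf (nat_lit 0) (nat_lit 12821478304) (nat_lit 684) (nat_lit 3493819881) (nat_lit 76) (nat_lit 19894643642) (nat_lit 59) (nat_lit 5) (nat_lit 68) (nat_lit 5) (nat_lit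 60) (nat_lit 5) (nat_lit 290) (nat_lit 278) (nat_lit 152))) (XT.nd (nat_lit 78) (nat_lit 0) (nat_lit 0) (XT.lf (nat_lit 0) (nat_lit 12035733625) (nat_lit 684) (nat_lit 3443723095) (nat_lit 760) (nat_lit 21780854597) (nat_lit 50) (nat_lit 5) (nat_lit 59) (nat_lit 5) (nat_lit 60) (nat_lit 5) (nat_lit 291) (nat_lit 278) (nat_lit 151)) (XT.lf (nat_lit 0) (nat_lit 18484638577) (nat_lit 760) (nat_lit 10058324821) (nat_lit 76) (nat_lit 9809535420) (nat_lit 50) (nat_lit 5) (nat_lit 60) (nat_lit 5) (nat_lit 51) (nat_lit 5) (nat_lit 292) (nat_lit 278) (nat_lit 150)))) (XT.nd (nat_lit 156) (nat_lit 304) (nat_lit 0) (XT.nd (nat_lit 78) (nat_lit 0) (nat_lit 0) (XT.lf (nat_lit 0) (nat_lit 5998998186) (nat_lit 304) (nat_lit 15788265315) (nat_lit 380) (nat_lit 17704687056) (nat_lit 46) (nat_lit 5) (nat_lit 50) (nat_lit 5) (nat_lit 51) (nat_lit 5) (nat_lit 293) (nat_lit 278) (nat_lit 149)) (XT.lf (nat_lit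 0) (nat_lit 23205641289) (nat_lit 304) (nat_lit 2216885997) (nat_lit 380) (nat_lit 15257485607) (nat_lit 46) (nat_lit 5) (nat_lit 50) (nat_lit 5) (nat_lit 51) (nat_lit 5) (nat_lit 294) (nat_lit 278) (nat_lit 148))) (XT.nd (nat_lit 78) (nat_lit 304) (nat_lit 0) (XT.lf (nat_lit 0) (nat_lit 29424725388) (nat_lit 380) (nat_lit 845498170) (nat_lit 76) (nat_lit 11648008984) (nat_lit 46) (nat_lit 5) (nat_lit 51) (nat_lit 5) (nat_lit 47) (nat_lit 5) (nat_lit 295) (nat_lit 278) (nat_lit 147)) (XT.lf (nat_lit 0) (nat_lit 17123913922) (nat_lit 304) (nat_lit 16804243965) (nat_lit 380) (nat_lit 9275161209) (nat_lit 42) (nat_lit 5) (nat_lit 46) (nat_lit 5) (nat_lit 47) (nat_lit 5) (nat_lit 296) (nat_lit 278) (nat_lit 146))))) (XT.nd (nat_lit 312) (nat_lit 456) (nat_lit 0) (XT.nd (nat_lit 156) (nat_lit 380) (nat_lit 0) (XT.nd (nat_lit 78) (nat_lit 228) (nat_lit 0) (XT.lf (nat_lit 0) (nat_lit 36018558098)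 (nat_lit 304) (nat_lit 2650034563) (nat_lit 380) (nat_lit 5883487351) (nat_lit 42) (nat_lit 5) (nat_lit 46) (nat_lit 5) (nat_lit 47) (nat_lit 5) (nat_lit 297) (nat_lit 278) (nat_lit 145)) (XT.lf (nat_lit 0) (nat_lit 10017003601) (nat_lit 228) (nat_lit 33973729496) (nat_lit 304) (nat_lit 1960322697) (nat_lit 39) (nat_lit 5) (nat_lit 42) (nat_lit 5) (nat_lit 43) (nat_lit 5) (nat_lit 298) (nat_lit 278) (nat_lit 144))) (XT.nd (nat_lit 78) (nat_lit 304) (nat_lit 0) (XT.lf (nat_lit 0) (nat_lit 2277884250) (nat_lit 304) (nat_lit 17703597304) (nat_lit 76) (nat_lit 27427424126) (nat_lit 38) (nat_lit 5) (nat_lit 42) (nat_lit 5) (nat_lit 39) (nat_lit 5) (nat_lit 299) (nat_lit 278) (nat_lit 143)) (XT.lf (nat_lit 0) (nat_lit 1450140780) (nat_lit 304) (nat_lit 5232387418) (nat_lit 380) (nat_lit 42254502238) (nat_lit 34) (nat_lit 5) (nat_lit 38) (nat_lit 5) (nat_lit 39) (nat_lit 5) (nat_lit 300)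 (nat_lit 278) (nat_lit 142)))) (XT.nd (nat_lit 156) (nat_lit 456) (nat_lit 0) (XT.nd (nat_lit 78) (nat_lit 0) (nat_lit 0) (XT.lf (nat_lit 0) (nat_lit 11770063094) (nat_lit 380) (nat_lit 28517975700) (nat_lit 76) (nat_lit 10230398763) (nat_lit 34) (nat_lit 5) (nat_lit 39) (nat_lit 5) (nat_lit 35) (nat_lit 5) (nat_lit 301) (nat_lit 278) (nat_lit 141)) (XT.lf (nat_lit 0) (nat_lit 17195683483) (nat_lit 380) (nat_lit 8688858267) (nat_lit 76) (nat_lit 26290196478) (nat_lit 34) (nat_lit 5) (nat_lit 39) (nat_lit 5) (nat_lit 35) (nat_lit 5) (nat_lit 302) (nat_lit 278) (nat_lit 140))) (XT.nd (nat_lit 78) (nat_lit 228) (nat_lit 0) (XT.lf (nat_lit 0) (nat_lit 12530418710) (nat_lit 228) (nat_lit 10555831519) (nat_lit 304) (nat_lit 30817928658) (nat_lit 31) (nat_lit 5) (nat_lit 34) (nat_lit 5) (nat_lit 35) (nat_lit 5) (nat_lit 303) (nat_lit 278) (nat_lit 139)) (XT.nd (nat_lit 78) (nat_lit 228) (nat_lit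 0) (XT.lf (nat_lit 0) (nat_lit 29505473738) (nat_lit 304) (nat_lit 20691720832) (nat_lit 76) (nat_lit 5511198416) (nat_lit 31) (nat_lit 5) (nat_lit 35) (nat_lit 5) (nat_lit 32) (nat_lit 5) (nat_lit 304) (nat_lit 278) (nat_lit 138)) (XT.lf (nat_lit 0) (nat_lit 877155844) (nat_lit 228) (nat_lit 35553417089) (nat_lit 304) (nat_lit 21163006588) (nat_lit 28) (nat_lit 5) (nat_lit 31) (nat_lit 5) (nat_lit 32) (nat_lit 5) (nat_lit 305) (nat_lit 278) (nat_lit 137))))))))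
noncomputable def xc218 : XT := (XT.nd (nat_lit 1326) (nat_lit 684) (nat_lit 0) (XT.nd (nat_lit 624) (nat_lit 532) (nat_lit 0) (XT.nd (nat_lit 312) (nat_lit 228) (nat_lit 0) (XT.nd (nat_lit 156) (nat_lit 228) (nat_lit 0) (XT.nd (nat_lit 78) (nat_lit 0) (nat_lit 0) (XT.lf (nat_lit 0) (nat_lit 24240590477) (nat_lit 228) (nat_lit 19809985918) (nat_lit 304) (nat_lit 15505023626) (nat_lit 28) (nat_lit 5) (nat_lit 31) (nat_lit 5) (nat_lit 32) (nat_lit 5) (nat_lit 306) (nat_lit 278) (nat_lit 136)) (XT.lf (nat_lit 0) (nat_lit 48770048552) (nat_lit 228) (nat_lit 3279841003) (nat_lit 304) (nat_lit 9565923276) (nat_lit 28) (nat_lit 5) (nat_lit 31) (nat_lit 5) (nat_lit 32) (nat_lit 5) (nat_lit 307) (nat_lit 278) (nat_lit 135))) (XT.nd (nat_lit 78) (nat_lit 76) (nat_lit 0) (XT.lf (nat_lit 0) (nat_lit 10873043963) (nat_lit 152) (nat_lit 49964044787) (nat_lit 228) (nat_lit 2922557954) (nat_lit 26)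 (nat_lit 5) (nat_lit 28) (nat_lit 5) (nat_lit 29) (nat_lit 5) (nat_lit 308) (nat_lit 278) (nat_lit 134)) (XT.lf (nat_lit 0) (nat_lit 4196534432) (nat_lit 228) (nat_lit 29898789549) (nat_lit 76) (nat_lit 31898526251) (nat_lit 25) (nat_lit 5) (nat_lit 28) (nat_lit 5) (nat_lit 26) (nat_lit 5) (nat_lit 309) (nat_lit 278) (nat_lit 133)))) (XT.nd (nat_lit 156) (nat_lit 0) (nat_lit 0) (XT.nd (nat_lit 78) (nat_lit 228) (nat_lit 0) (XT.lf (nat_lit 0) (nat_lit 11571836548) (nat_lit 228) (nat_lit 5811544782) (nat_lit 76) (nat_lit 50954069021) (nat_lit 25) (nat_lit 5) (nat_lit 28) (nat_lit 5) (nat_lit 26) (nat_lit 5) (nat_lit 310) (nat_lit 278) (nat_lit 132)) (XT.lf (nat_lit 0) (nat_lit 19636317278) (nat_lit 304) (nat_lit 50668160026) (nat_lit 76) (nat_lit 477737795) (nat_lit 22) (nat_lit 5) (nat_lit 26) (nat_lit 5) (nat_lit 23) (nat_lit 5) (nat_lit 311) (nat_lit 278) (nat_lit 131))) (XT.nd (nat_lit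 78) (nat_lit 0) (nat_lit 0) (XT.lf (nat_lit 0) (nat_lit 28487606726) (nat_lit 304) (nat_lit 26095172579) (nat_lit 76) (nat_lit 18747264591) (nat_lit 22) (nat_lit 5) (nat_lit 26) (nat_lit 5) (nat_lit 23) (nat_lit 5) (nat_lit 312) (nat_lit 278) (nat_lit 130)) (XT.lf (nat_lit 0) (nat_lit 37780104867) (nat_lit 304) (nat_lit 295428394) (nat_lit 76) (nat_lit 37929803469) (nat_lit 22) (nat_lit 5) (nat_lit 26) (nat_lit 5) (nat_lit 23) (nat_lit 5) (nat_lit 313) (nat_lit 278) (nat_lit 129))))) (XT.nd (nat_lit 312) (nat_lit 228) (nat_lit 0) (XT.nd (nat_lit 156) (nat_lit 152) (nat_lit 0) (XT.nd (nat_lit 78) (nat_lit 0) (nat_lit 0) (XT.lf (nat_lit 0) (nat_lit 27678381555) (nat_lit 152) (nat_lit 20289692246) (nat_lit 228) (nat_lit 30824782690) (nat_lit 20) (nat_lit 5) (nat_lit 22) (nat_lit 5) (nat_lit 23) (nat_lit 5) (nat_lit 314) (nat_lit 278) (nat_lit 128)) (XT.lf (nat_lit 0) (nat_lit 57059365172)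 (nat_lit 152) (nat_lit 1609821810) (nat_lit 228) (nat_lit 23050382324) (nat_lit 20) (nat_lit 5) (nat_lit 22) (nat_lit 5) (nat_lit 23) (nat_lit 5) (nat_lit 315) (nat_lit 278) (nat_lit 127))) (XT.nd (nat_lit 78) (nat_lit 0) (nat_lit 0) (XT.lf (nat_lit 0) (nat_lit 2927644207) (nat_lit 152) (nat_lit 67303308685) (nat_lit 228) (nat_lit 14545389171) (nat_lit 18) (nat_lit 5) (nat_lit 20) (nat_lit 5) (nat_lit 21) (nat_lit 5) (nat_lit 316) (nat_lit 278) (nat_lit 126)) (XT.lf (nat_lit 0) (nat_lit 32722051265) (nat_lit 152) (nat_lit 50091178553) (nat_lit 228) (nat_lit 5150606456) (nat_lit 18) (nat_lit 5) (nat_lit 20) (nat_lit 5) (nat_lit 21) (nat_lit 5) (nat_lit 317) (nat_lit 278) (nat_lit 125)))) (XT.nd (nat_lit 156) (nat_lit 0) (nat_lit 0) (XT.nd (nat_lit 78) (nat_lit 152) (nat_lit 0) (XT.lf (nat_lit 0) (nat_lit 4561899976) (nat_lit 228) (nat_lit 27379800676) (nat_lit 76) (nat_lit 59365385295)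 (nat_lit 17) (nat_lit 5) (nat_lit 20) (nat_lit 5) (nat_lit 18) (nat_lit 5) (nat_lit 318) (nat_lit 278) (nat_lit 124)) (XT.lf (nat_lit 0) (nat_lit 1848410502) (nat_lit 152) (nat_lit 12766299578) (nat_lit 228) (nat_lit 80197181005) (nat_lit 15) (nat_lit 5) (nat_lit 17) (nat_lit 5) (nat_lit 18) (nat_lit 5) (nat_lit 319) (nat_lit 278) (nat_lit 123))) (XT.nd (nat_lit 78) (nat_lit 0) (nat_lit 0) (XT.lf (nat_lit 0) (nat_lit 25755418307) (nat_lit 228) (nat_lit 65104408823) (nat_lit 76) (nat_lit 7602849723) (nat_lit 15) (nat_lit 5) (nat_lit 18) (nat_lit 5) (nat_lit 16) (nat_lit 5) (nat_lit 320) (nat_lit 278) (nat_lit 122)) (XT.nd (nat_lit 78) (nat_lit 0) (nat_lit 0) (XT.lf (nat_lit 0) (nat_lit 37661429203) (nat_lit 228) (nat_lit 36063209305) (nat_lit 76) (nat_lit 28560953136) (nat_lit 15) (nat_lit 5) (nat_lit 18) (nat_lit 5) (nat_lit 16) (nat_lit 5) (nat_lit 321) (nat_lit 278) (nat_lit 121))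 (XT.lf (nat_lit 0) (nat_lit 50161772700) (nat_lit 228) (nat_lit 5571418603) (nat_lit 76) (nat_lit 50566512220) (nat_lit 15) (nat_lit 5) (nat_lit 18) (nat_lit 5) (nat_lit 16) (nat_lit 5) (nat_lit 322) (nat_lit 278) (nat_lit 120))))))) (XT.nd (nat_lit 624) (nat_lit 228) (nat_lit 0) (XT.nd (nat_lit 312) (nat_lit 228) (nat_lit 0) (XT.nd (nat_lit 156) (nat_lit 76) (nat_lit 0) (XT.nd (nat_lit 78) (nat_lit 0) (nat_lit 0) (XT.lf (nat_lit 0) (nat_lit 27317906393) (nat_lit 152) (nat_lit 36394814205) (nat_lit 228) (nat_lit 46780523848) (nat_lit 13) (nat_lit 5) (nat_lit 15) (nat_lit 5) (nat_lit 16) (nat_lit 5) (nat_lit 323) (nat_lit 278) (nat_lit 119)) (XT.lf (nat_lit 0) (nat_lit 62043748425) (nat_lit 152) (nat_lit 15990922694) (nat_lit 228) (nat_lit 36857121210) (nat_lit 13) (nat_lit 5) (nat_lit 15) (nat_lit 5) (nat_lit 16) (nat_lit 5) (nat_lit 324) (nat_lit 278) (nat_lit 118))) (XT.nd (nat_lit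 78) (nat_lit 76) (nat_lit 0) (XT.lf (nat_lit 0) (nat_lit 93156682372) (nat_lit 228) (nat_lit 21090560993) (nat_lit 76) (nat_lit 5258828629) (nat_lit 13) (nat_lit 5) (nat_lit 16) (nat_lit 5) (nat_lit 14) (nat_lit 4) (nat_lit 325) (nat_lit 278) (nat_lit 117)) (XT.lf (nat_lit 0) (nat_lit 12387853671) (nat_lit 76) (nat_lit 97101673331) (nat_lit 152) (nat_lit 14838804429) (nat_lit 12) (nat_lit 5) (nat_lit 13) (nat_lit 5) (nat_lit 14) (nat_lit 4) (nat_lit 326) (nat_lit 278) (nat_lit 116)))) (XT.nd (nat_lit 156) (nat_lit 152) (nat_lit 0) (XT.nd (nat_lit 78) (nat_lit 76) (nat_lit 0) (XT.lf (nat_lit 0) (nat_lit 48271141646) (nat_lit 76) (nat_lit 78724247934) (nat_lit 152) (nat_lit 2378497785) (nat_lit 12) (nat_lit 5) (nat_lit 13) (nat_lit 5) (nat_lit 14) (nat_lit 4) (nat_lit 327) (nat_lit 278) (nat_lit 115)) (XT.lf (nat_lit 0) (nat_lit 10361423400) (nat_lit 152) (nat_lit 48891491137) (nat_lit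 76) (nat_lit 75410491019) (nat_lit 11) (nat_lit 5) (nat_lit 13) (nat_lit 5) (nat_lit 12) (nat_lit 5) (nat_lit 328) (nat_lit 278) (nat_lit 114))) (XT.nd (nat_lit 78) (nat_lit 152) (nat_lit 0) (XT.lf (nat_lit 0) (nat_lit 23657665080) (nat_lit 152) (nat_lit 15109838693) (nat_lit 76) (nat_lit 101447985415) (nat_lit 11) (nat_lit 5) (nat_lit 13) (nat_lit 5) (nat_lit 12) (nat_lit 5) (nat_lit 329) (nat_lit 278) (nat_lit 113)) (XT.lf (nat_lit 0) (nat_lit 21032965380) (nat_lit 152) (nat_lit 16913429911) (nat_lit 228) (nat_lit 108082399790) (nat_lit 9) (nat_lit 5) (nat_lit 11) (nat_lit 5) (nat_lit 12) (nat_lit 5) (nat_lit 330) (nat_lit 278) (nat_lit 112))))) (XT.nd (nat_lit 312) (nat_lit 152) (nat_lit 0) (XT.nd (nat_lit 156) (nat_lit 76) (nat_lit 0) (XT.nd (nat_lit 78) (nat_lit 0) (nat_lit 0) (XT.lf (nat_lit 0) (nat_lit 53303149907) (nat_lit 228) (nat_lit 92712004112) (nat_lit 76) (nat_lit 6099934667)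 (nat_lit 9) (nat_lit 5) (nat_lit 12) (nat_lit 5) (nat_lit 10) (nat_lit 4) (nat_lit 331) (nat_lit 278) (nat_lit 111)) (XT.lf (nat_lit 0) (nat_lit 69704347825) (nat_lit 228) (nat_lit 59092331994) (nat_lit 76) (nat_lit 29695188597) (nat_lit 9) (nat_lit 5) (nat_lit 12) (nat_lit 5) (nat_lit 10) (nat_lit 4) (nat_lit 332) (nat_lit 278) (nat_lit 110))) (XT.nd (nat_lit 78) (nat_lit 76) (nat_lit 0) (XT.lf (nat_lit 0) (nat_lit 86924973478) (nat_lit 228) (nat_lit 23792700469) (nat_lit 76) (nat_lit 54469846439) (nat_lit 9) (nat_lit 5) (nat_lit 12) (nat_lit 5) (nat_lit 10) (nat_lit 4) (nat_lit 333) (nat_lit 278) (nat_lit 109)) (XT.lf (nat_lit 0) (nat_lit 13709734322) (nat_lit 76) (nat_lit 91510341406) (nat_lit 152) (nat_lit 66987208526) (nat_lit 8) (nat_lit 5) (nat_lit 9) (nat_lit 5) (nat_lit 10) (nat_lit 4) (nat_lit 334) (nat_lit 278) (nat_lit 108)))) (XT.nd (nat_lit 156) (nat_lit 152) (nat_lit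 0) (XT.nd (nat_lit 78) (nat_lit 0) (nat_lit 0) (XT.lf (nat_lit 0) (nat_lit 53912359993) (nat_lit 76) (nat_lit 70919925619) (nat_lit 152) (nat_lit 54725634566) (nat_lit 8) (nat_lit 5) (nat_lit 9) (nat_lit 5) (nat_lit 10) (nat_lit 4) (nat_lit 335) (nat_lit 278) (nat_lit 107)) (XT.lf (nat_lit 0) (nat_lit 96124202954) (nat_lit 76) (nat_lit 49300342682) (nat_lit 152) (nat_lit 41851571700) (nat_lit 8) (nat_lit 5) (nat_lit 9) (nat_lit 5) (nat_lit 10) (nat_lit 4) (nat_lit 336) (nat_lit 278) (nat_lit 106))) (XT.nd (nat_lit 78) (nat_lit 152) (nat_lit 0) (XT.lf (nat_lit 0) (nat_lit 140445767592) (nat_lit 76) (nat_lit 26600117397) (nat_lit 152) (nat_lit 28334367399) (nat_lit 8) (nat_lit 5) (nat_lit 9) (nat_lit 5) (nat_lit 10) (nat_lit 4) (nat_lit 337) (nat_lit 278) (nat_lit 105)) (XT.nd (nat_lit 78) (nat_lit 152) (nat_lit 0) (XT.lf (nat_lit 0) (nat_lit 186982581441) (nat_lit 76) (nat_lit 2765201609)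 (nat_lit 152) (nat_lit 14141837841) (nat_lit 8) (nat_lit 5) (nat_lit 9) (nat_lit 5) (nat_lit 10) (nat_lit 4) (nat_lit 338) (nat_lit 278) (nat_lit 104)) (XT.lf (nat_lit 0) (nat_lit 1460441931) (nat_lit 152) (nat_lit 189389286493) (nat_lit 76) (nat_lit 21937914096) (nat_lit 6) (nat_lit 5) (nat_lit 8) (nat_lit 5) (nat_lit 7) (nat_lit 4) (nat_lit 339) (nat_lit 278) (nat_lit 103))))))))
noncomputable def xc219 : XT := (XT.nd (nat_lit 33696) (nat_lit 0) (nat_lit 1672) (XT.nd (nat_lit 32994) (nat_lit 0) (nat_lit 3800) (XT.nd (nat_lit 312) (nat_lit 0) (nat_lit 0) (XT.nd (nat_lit 156) (nat_lit 0) (nat_lit 0) (XT.nd (nat_lit 78) (nat_lit 0) (nat_lit 0) (XT.lf (nat_lit 0) (nat_lit 17703444233) (nat_lit 152) (nat_lit 156092926117) (nat_lit 76) (nat_lit 48305810970) (nat_lit 6) (nat_lit 5) (nat_lit 8) (nat_lit 5) (nat_lit 7) (nat_lit 4) (nat_lit 340) (nat_lit 278) (nat_lit 102)) (XT.lf (nat_lit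 0) (nat_lit 34758132879) (nat_lit 152) (nat_lit 121132523293) (nat_lit 76) (nat_lit 75991815138) (nat_lit 6) (nat_lit 5) (nat_lit 8) (nat_lit 5) (nat_lit 7) (nat_lit 4) (nat_lit 341) (nat_lit 278) (nat_lit 101))) (XT.nd (nat_lit 78) (nat_lit 0) (nat_lit 0) (XT.lf (nat_lit 0) (nat_lit 52665114269) (nat_lit 152) (nat_lit 84424838964) (nat_lit 76) (nat_lit 105061845657) (nat_lit 6) (nat_lit 5) (nat_lit 8) (nat_lit 5) (nat_lit 7) (nat_lit 4) (nat_lit 342) (nat_lit 278) (nat_lit 100)) (XT.lf (nat_lit 0) (nat_lit 71467024075) (nat_lit 152) (nat_lit 45882473884) (nat_lit 76) (nat_lit 135585116886) (nat_lit 6) (nat_lit 5) (nat_lit 8) (nat_lit 5) (nat_lit 7) (nat_lit 4) (nat_lit 343) (nat_lit 278) (nat_lit 99)))) (XT.nd (nat_lit 32526) (nat_lit 0) (nat_lit 4408) (XT.nd (nat_lit 32448) (nat_lit 0) (nat_lit 4408) (XT.lf (nat_lit 0) (nat_lit 91208628748) (nat_lit 152) (nat_lit 5413660515) (nat_lit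 76) (nat_lit 167634303279) (nat_lit 6) (nat_lit 5) (nat_lit 8) (nat_lit 5) (nat_lit 7) (nat_lit 4) (nat_lit 344) (nat_lit 278) (nat_lit 98)) (XT.lf (nat_lit 0) (nat_lit 13497013278) (nat_lit 684) (nat_lit 180596087) (nat_lit 684) (nat_lit 180596087) (nat_lit 64) (nat_lit 3) (nat_lit 73) (nat_lit 3) (nat_lit 73) (nat_lit 5) (nat_lit 279) (nat_lit 279) (nat_lit 162))) (XT.nd (nat_lit 78) (nat_lit 0) (nat_lit 0) (XT.lf (nat_lit 76) (nat_lit 11047821666) (nat_lit 0) (nat_lit 16866767670) (nat_lit 684) (nat_lit 482051771) (nat_lit 65) (nat_lit 5) (nat_lit 64) (nat_lit 3) (nat_lit 73) (nat_lit 5) (nat_lit 280) (nat_lit 279) (nat_lit 161)) (XT.lf (nat_lit 76) (nat_lit 23037270739) (nat_lit 0) (nat_lit 5845299293) (nat_lit 684) (nat_lit 228268547) (nat_lit 65) (nat_lit 5) (nat_lit 64) (nat_lit 3) (nat_lit 73) (nat_lit 5) (nat_lit 281) (nat_lit 279) (nat_lit 160))))) (XT.nd (nat_lit 312) (nat_lit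 0) (nat_lit 76) (XT.nd (nat_lit 156) (nat_lit 0) (nat_lit 0) (XT.nd (nat_lit 78) (nat_lit 0) (nat_lit 0) (XT.lf (nat_lit 0) (nat_lit 216304045) (nat_lit 684) (nat_lit 23994537697) (nat_lit 760) (nat_lit 5640931116) (nat_lit 56) (nat_lit 5) (nat_lit 65) (nat_lit 5) (nat_lit 66) (nat_lit 5) (nat_lit 282) (nat_lit 279) (nat_lit 159)) (XT.lf (nat_lit 0) (nat_lit 871412261) (nat_lit 684) (nat_lit 12133263154) (nat_lit 760) (nat_lit 17615114224) (nat_lit 56) (nat_lit 5) (nat_lit 65) (nat_lit 5) (nat_lit 66) (nat_lit 5) (nat_lit 283) (nat_lit 279) (nat_lit 158))) (XT.nd (nat_lit 78) (nat_lit 0) (nat_lit 76) (XT.lf (nat_lit 76) (nat_lit 328898860) (nat_lit 0) (nat_lit 1231329884) (nat_lit 760) (nat_lit 29865951649) (nat_lit 57) (nat_lit 5) (nat_lit 56) (nat_lit 5) (nat_lit 66) (nat_lit 5) (nat_lit 284) (nat_lit 279) (nat_lit 157)) (XT.lf (nat_lit 0) (nat_lit 2662115223) (nat_lit 684) (nat_lit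 18607259597) (nat_lit 760) (nat_lit 10984604190) (nat_lit 57) (nat_lit 5) (nat_lit 66) (nat_lit 5) (nat_lit 67) (nat_lit 5) (nat_lit 285) (nat_lit 279) (nat_lit 156)))) (XT.nd (nat_lit 156) (nat_lit 0) (nat_lit 76) (XT.nd (nat_lit 78) (nat_lit 0) (nat_lit 76) (XT.lf (nat_lit 0) (nat_lit 3835469156) (nat_lit 684) (nat_lit 5515685916) (nat_lit 760) (nat_lit 23771212671) (nat_lit 57) (nat_lit 5) (nat_lit 66) (nat_lit 5) (nat_lit 67) (nat_lit 5) (nat_lit 286) (nat_lit 279) (nat_lit 155)) (XT.lf (nat_lit 0) (nat_lit 5248140778) (nat_lit 684) (nat_lit 25579430303) (nat_lit 760) (nat_lit 3197590277) (nat_lit 58) (nat_lit 5) (nat_lit 67) (nat_lit 5) (nat_lit 68) (nat_lit 5) (nat_lit 287) (nat_lit 279) (nat_lit 154))) (XT.nd (nat_lit 78) (nat_lit 0) (nat_lit 0) (XT.lf (nat_lit 0) (nat_lit 6976201357) (nat_lit 684) (nat_lit 11829337803) (nat_lit 760) (nat_lit 16155334817) (nat_lit 58) (nat_lit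 5) (nat_lit 67) (nat_lit 5) (nat_lit 68) (nat_lit 5) (nat_lit 288) (nat_lit 279) (nat_lit 153)) (XT.nd (nat_lit 78) (nat_lit 0) (nat_lit 76) (XT.lf (nat_lit 76) (nat_lit 2691749471) (nat_lit 0) (nat_lit 6137622787) (nat_lit 760) (nat_lit 27112080881) (nat_lit 59) (nat_lit 5) (nat_lit 58) (nat_lit 5) (nat_lit 68) (nat_lit 5) (nat_lit 289) (nat_lit 279) (nat_lit 152)) (XT.lf (nat_lit 0) (nat_lit 11087474464) (nat_lit 684) (nat_lit 18729399281) (nat_lit 76) (nat_lit 7138589378) (nat_lit 59) (nat_lit 5) (nat_lit 68) (nat_lit 5) (nat_lit 60) (nat_lit 5) (nat_lit 290) (nat_lit 279) (nat_lit 151))))))) (XT.nd (nat_lit 624) (nat_lit 1064) (nat_lit 0) (XT.nd (nat_lit 312) (nat_lit 304) (nat_lit 0) (XT.nd (nat_lit 156) (nat_lit 304) (nat_lit 0) (XT.nd (nat_lit 78) (nat_lit 684) (nat_lit 0) (XT.lf (nat_lit 0) (nat_lit 13556058302) (nat_lit 684) (nat_lit 3586367248) (nat_lit 76) (nat_lit 20872883993)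 (nat_lit 59) (nat_lit 5) (nat_lit 68) (nat_lit 5) (nat_lit 60) (nat_lit 5) (nat_lit 291) (nat_lit 279) (nat_lit 150)) (XT.lf (nat_lit 0) (nat_lit 12718339036) (nat_lit 684) (nat_lit 3625405739) (nat_lit 760) (nat_lit 22774633898) (nat_lit 50) (nat_lit 5) (nat_lit 59) (nat_lit 5) (nat_lit 60) (nat_lit 5) (nat_lit 292) (nat_lit 279) (nat_lit 149))) (XT.nd (nat_lit 78) (nat_lit 304) (nat_lit 0) (XT.lf (nat_lit 0) (nat_lit 19494743794) (nat_lit 760) (nat_lit 10479417056) (nat_lit 76) (nat_lit 10291257388) (nat_lit 50) (nat_lit 5) (nat_lit 60) (nat_lit 5) (nat_lit 51) (nat_lit 5) (nat_lit 293) (nat_lit 279) (nat_lit 148)) (XT.lf (nat_lit 0) (nat_lit 6379452359) (nat_lit 304) (nat_lit 16580215298) (nat_lit 380) (nat_lit 18502336135) (nat_lit 46) (nat_lit 5) (nat_lit 50) (nat_lit 5) (nat_lit 51) (nat_lit 5) (nat_lit 294) (nat_lit 279) (nat_lit 147)))) (XT.nd (nat_lit 156) (nat_lit 304) (nat_lit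 0) (XT.nd (nat_lit 78) (nat_lit 0) (nat_lit 0) (XT.lf (nat_lit 0) (nat_lit 24442594080) (nat_lit 304) (nat_lit 2330146218) (nat_lit 380) (nat_lit 15936945341) (nat_lit 46) (nat_lit 5) (nat_lit 50) (nat_lit 5) (nat_lit 51) (nat_lit 5) (nat_lit 295) (nat_lit 279) (nat_lit 146)) (XT.lf (nat_lit 0) (nat_lit 30971246352) (nat_lit 380) (nat_lit 810595608) (nat_lit 76) (nat_lit 12228182198) (nat_lit 46) (nat_lit 5) (nat_lit 51) (nat_lit 5) (nat_lit 47) (nat_lit 5) (nat_lit 296) (nat_lit 279) (nat_lit 145))) (XT.nd (nat_lit 78) (nat_lit 0) (nat_lit 0) (XT.lf (nat_lit 0) (nat_lit 18056042291) (nat_lit 304) (nat_lit 17641408721) (nat_lit 380) (nat_lit 9662050942) (nat_lit 42) (nat_lit 5) (nat_lit 46) (nat_lit 5) (nat_lit 47) (nat_lit 5) (nat_lit 297) (nat_lit 279) (nat_lit 144)) (XT.lf (nat_lit 0) (nat_lit 37891802834) (nat_lit 304) (nat_lit 2779633966) (nat_lit 380) (nat_lit 6104453788) (nat_lit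 42) (nat_lit 5) (nat_lit 46) (nat_lit 5) (nat_lit 47) (nat_lit 5) (nat_lit 298) (nat_lit 279) (nat_lit 143))))) (XT.nd (nat_lit 312) (nat_lit 456) (nat_lit 0) (XT.nd (nat_lit 156) (nat_lit 304) (nat_lit 0) (XT.nd (nat_lit 78) (nat_lit 76) (nat_lit 0) (XT.lf (nat_lit 0) (nat_lit 10592691870) (nat_lit 228) (nat_lit 35664898523) (nat_lit 304) (nat_lit 1987344826) (nat_lit 39) (nat_lit 5) (nat_lit 42) (nat_lit 5) (nat_lit 43) (nat_lit 5) (nat_lit 299) (nat_lit 279) (nat_lit 142)) (XT.lf (nat_lit 0) (nat_lit 2457227752) (nat_lit 304) (nat_lit 18515059990) (nat_lit 76) (nat_lit 28803511997) (nat_lit 38) (nat_lit 5) (nat_lit 42) (nat_lit 5) (nat_lit 39) (nat_lit 5) (nat_lit 300) (nat_lit 279) (nat_lit 141))) (XT.nd (nat_lit 78) (nat_lit 0) (nat_lit 0) (XT.lf (nat_lit 0) (nat_lit 1595176012) (nat_lit 304) (nat_lit 5484943621) (nat_lit 380) (nat_lit 44300323588) (nat_lit 34) (nat_lit 5) (nat_lit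 38) (nat_lit 5) (nat_lit 39) (nat_lit 5) (nat_lit 301) (nat_lit 279) (nat_lit 140)) (XT.lf (nat_lit 0) (nat_lit 12419143893) (nat_lit 380) (nat_lit 29871659791) (nat_lit 76) (nat_lit 10750274024) (nat_lit 34) (nat_lit 5) (nat_lit 39) (nat_lit 5) (nat_lit 35) (nat_lit 5) (nat_lit 302) (nat_lit 279) (nat_lit 139)))) (XT.nd (nat_lit 156) (nat_lit 228) (nat_lit 0) (XT.nd (nat_lit 78) (nat_lit 228) (nat_lit 0) (XT.lf (nat_lit 0) (nat_lit 18113160652) (nat_lit 380) (nat_lit 9054525281) (nat_lit 76) (nat_lit 27612663753) (nat_lit 34) (nat_lit 5) (nat_lit 39) (nat_lit 5) (nat_lit 35) (nat_lit 5) (nat_lit 303) (nat_lit 279) (nat_lit 138)) (XT.lf (nat_lit 0) (nat_lit 13224606255) (nat_lit 228) (nat_lit 11071958659) (nat_lit 304) (nat_lit 32299793470) (nat_lit 31) (nat_lit 5) (nat_lit 34) (nat_lit 5) (nat_lit 35) (nat_lit 5) (nat_lit 304) (nat_lit 279) (nat_lit 137))) (XT.nd (nat_lit 78) (nat_lit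 228) (nat_lit 0) (XT.lf (nat_lit 0) (nat_lit 31034256272) (nat_lit 304) (nat_lit 21659150739) (nat_lit 76) (nat_lit 5797511765) (nat_lit 31) (nat_lit 5) (nat_lit 35) (nat_lit 5) (nat_lit 32) (nat_lit 5) (nat_lit 305) (nat_lit 279) (nat_lit 136)) (XT.nd (nat_lit 78) (nat_lit 0) (nat_lit 0) (XT.lf (nat_lit 0) (nat_lit 987086607) (nat_lit 228) (nat_lit 37317007363) (nat_lit 304) (nat_lit 22166356892) (nat_lit 28) (nat_lit 5) (nat_lit 31) (nat_lit 5) (nat_lit 32) (nat_lit 5) (nat_lit 306) (nat_lit 279) (nat_lit 135)) (XT.lf (nat_lit 0) (nat_lit 25515546639) (nat_lit 228) (nat_lit 20787075138) (nat_lit 304) (nat_lit 16228084307) (nat_lit 28) (nat_lit 5) (nat_lit 31) (nat_lit 5) (nat_lit 32) (nat_lit 5) (nat_lit 307) (nat_lit 279) (nat_lit 134))))))))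
noncomputable def xc220 : XT := (XT.nd (nat_lit 1248) (nat_lit 684) (nat_lit 0) (XT.nd (nat_lit 624) (nat_lit 380) (nat_lit 0) (XT.nd (nat_lit 312) (nat_lit 380) (nat_lit 0) (XT.nd (nat_lit 156) (nat_lit 76) (nat_lit 0) (XT.nd (nat_lit 78) (nat_lit 152) (nat_lit 0) (XT.lf (nat_lit 0) (nat_lit 51268481112) (nat_lit 228) (nat_lit 3431061552) (nat_lit 304) (nat_lit 9994514202) (nat_lit 28) (nat_lit 5) (nat_lit 31) (nat_lit 5) (nat_lit 32) (nat_lit 5) (nat_lit 308) (nat_lit 279) (nat_lit 133)) (XT.lf (nat_lit 0) (nat_lit 11477969029) (nat_lit 152) (nat_lit 52447033686) (nat_lit 228) (nat_lit 3020143658) (nat_lit 26) (nat_lit 5) (nat_lit 28) (nat_lit 5) (nat_lit 29) (nat_lit 5) (nat_lit 309) (nat_lit 279) (nat_lit 132))) (XT.nd (nat_lit 78) (nat_lit 0) (nat_lit 0) (XT.lf (nat_lit 0) (nat_lit 4451112146) (nat_lit 228) (nat_lit 31333731260) (nat_lit 76) (nat_lit 33506298804) (nat_lit 25)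 (nat_lit 5) (nat_lit 28) (nat_lit 5) (nat_lit 26) (nat_lit 5) (nat_lit 310) (nat_lit 279) (nat_lit 131)) (XT.lf (nat_lit 0) (nat_lit 12193048368) (nat_lit 228) (nat_lit 6044981290) (nat_lit 76) (nat_lit 53514006987) (nat_lit 25) (nat_lit 5) (nat_lit 28) (nat_lit 5) (nat_lit 26) (nat_lit 5) (nat_lit 311) (nat_lit 279) (nat_lit 130)))) (XT.nd (nat_lit 156) (nat_lit 152) (nat_lit 0) (XT.nd (nat_lit 78) (nat_lit 0) (nat_lit 0) (XT.lf (nat_lit 0) (nat_lit 20659831651) (nat_lit 304) (nat_lit 53143357981) (nat_lit 76) (nat_lit 515903463) (nat_lit 22) (nat_lit 5) (nat_lit 26) (nat_lit 5) (nat_lit 23) (nat_lit 5) (nat_lit 312) (nat_lit 279) (nat_lit 129)) (XT.lf (nat_lit 0) (nat_lit 29951699929) (nat_lit 304) (nat_lit 27344493069) (nat_lit 76) (nat_lit 19698226658) (nat_lit 22) (nat_lit 5) (nat_lit 26) (nat_lit 5) (nat_lit 23) (nat_lit 5) (nat_lit 313) (nat_lit 279) (nat_lit 128))) (XT.nd (nat_lit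 78) (nat_lit 152) (nat_lit 0) (XT.lf (nat_lit 0) (nat_lit 39706931888) (nat_lit 304) (nat_lit 257401587) (nat_lit 76) (nat_lit 39839244916) (nat_lit 22) (nat_lit 5) (nat_lit 26) (nat_lit 5) (nat_lit 23) (nat_lit 5) (nat_lit 314) (nat_lit 279) (nat_lit 127)) (XT.lf (nat_lit 0) (nat_lit 29114247275) (nat_lit 152) (nat_lit 21289061988) (nat_lit 228) (nat_lit 32327220759) (nat_lit 20) (nat_lit 5) (nat_lit 22) (nat_lit 5) (nat_lit 23) (nat_lit 5) (nat_lit 315) (nat_lit 279) (nat_lit 126))))) (XT.nd (nat_lit 312) (nat_lit 152) (nat_lit 0) (XT.nd (nat_lit 156) (nat_lit 76) (nat_lit 0) (XT.nd (nat_lit 78) (nat_lit 152) (nat_lit 0) (XT.lf (nat_lit 0) (nat_lit 59961806424) (nat_lit 152) (nat_lit 1675917786) (nat_lit 228) (nat_lit 24165948045) (nat_lit 20) (nat_lit 5) (nat_lit 22) (nat_lit 5) (nat_lit 23) (nat_lit 5) (nat_lit 316) (nat_lit 279) (nat_lit 125)) (XT.lf (nat_lit 0) (nat_lit 3124325602)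 (nat_lit 152) (nat_lit 70652581795) (nat_lit 228) (nat_lit 15236415595) (nat_lit 18) (nat_lit 5) (nat_lit 20) (nat_lit 5) (nat_lit 21) (nat_lit 5) (nat_lit 317) (nat_lit 279) (nat_lit 124))) (XT.nd (nat_lit 78) (nat_lit 76) (nat_lit 0) (XT.lf (nat_lit 0) (nat_lit 34406057814) (nat_lit 152) (nat_lit 52580601934) (nat_lit 228) (nat_lit 5373619604) (nat_lit 18) (nat_lit 5) (nat_lit 20) (nat_lit 5) (nat_lit 21) (nat_lit 5) (nat_lit 318) (nat_lit 279) (nat_lit 123)) (XT.lf (nat_lit 0) (nat_lit 4821816318) (nat_lit 228) (nat_lit 28702015650) (nat_lit 76) (nat_lit 62346917150) (nat_lit 17) (nat_lit 5) (nat_lit 20) (nat_lit 5) (nat_lit 18) (nat_lit 5) (nat_lit 319) (nat_lit 279) (nat_lit 122)))) (XT.nd (nat_lit 156) (nat_lit 0) (nat_lit 0) (XT.nd (nat_lit 78) (nat_lit 0) (nat_lit 0) (XT.lf (nat_lit 0) (nat_lit 1986851650) (nat_lit 152) (nat_lit 13389618486) (nat_lit 228) (nat_lit 84174368981)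 (nat_lit 15) (nat_lit 5) (nat_lit 17) (nat_lit 5) (nat_lit 18) (nat_lit 5) (nat_lit 320) (nat_lit 279) (nat_lit 121)) (XT.lf (nat_lit 0) (nat_lit 27072959396) (nat_lit 228) (nat_lit 68314454965) (nat_lit 76) (nat_lit 7996817069) (nat_lit 15) (nat_lit 5) (nat_lit 18) (nat_lit 5) (nat_lit 16) (nat_lit 5) (nat_lit 321) (nat_lit 279) (nat_lit 120))) (XT.nd (nat_lit 78) (nat_lit 0) (nat_lit 0) (XT.lf (nat_lit 0) (nat_lit 39572853210) (nat_lit 228) (nat_lit 37823346628) (nat_lit 76) (nat_lit 30002167326) (nat_lit 15) (nat_lit 5) (nat_lit 18) (nat_lit 5) (nat_lit 16) (nat_lit 5) (nat_lit 322) (nat_lit 279) (nat_lit 119)) (XT.lf (nat_lit 0) (nat_lit 52696863760) (nat_lit 228) (nat_lit 5809015112) (nat_lit 76) (nat_lit 53107377387) (nat_lit 15) (nat_lit 5) (nat_lit 18) (nat_lit 5) (nat_lit 16) (nat_lit 5) (nat_lit 323) (nat_lit 279) (nat_lit 118)))))) (XT.nd (nat_lit 624) (nat_lit 228) (nat_lit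 0) (XT.nd (nat_lit 312) (nat_lit 228) (nat_lit 0) (XT.nd (nat_lit 156) (nat_lit 76) (nat_lit 0) (XT.nd (nat_lit 78) (nat_lit 0) (nat_lit 0) (XT.lf (nat_lit 0) (nat_lit 28724115255) (nat_lit 152) (nat_lit 38200587375) (nat_lit 228) (nat_lit 49091808338) (nat_lit 13) (nat_lit 5) (nat_lit 15) (nat_lit 5) (nat_lit 16) (nat_lit 5) (nat_lit 324) (nat_lit 279) (nat_lit 117)) (XT.lf (nat_lit 0) (nat_lit 65184329697) (nat_lit 152) (nat_lit 16777166409) (nat_lit 228) (nat_lit 38673556602) (nat_lit 13) (nat_lit 5) (nat_lit 15) (nat_lit 5) (nat_lit 16) (nat_lit 5) (nat_lit 325) (nat_lit 279) (nat_lit 116))) (XT.nd (nat_lit 78) (nat_lit 76) (nat_lit 0) (XT.lf (nat_lit 0) (nat_lit 97838610891) (nat_lit 228) (nat_lit 22107455329) (nat_lit 76) (nat_lit 5534033545) (nat_lit 13) (nat_lit 5) (nat_lit 16) (nat_lit 5) (nat_lit 14) (nat_lit 4) (nat_lit 326) (nat_lit 279) (nat_lit 115)) (XT.lf (nat_lit 0)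 (nat_lit 13044273073) (nat_lit 76) (nat_lit 101943255417) (nat_lit 152) (nat_lit 15555975532) (nat_lit 12) (nat_lit 5) (nat_lit 13) (nat_lit 5) (nat_lit 14) (nat_lit 4) (nat_lit 327) (nat_lit 279) (nat_lit 114)))) (XT.nd (nat_lit 156) (nat_lit 152) (nat_lit 0) (XT.nd (nat_lit 78) (nat_lit 76) (nat_lit 0) (XT.lf (nat_lit 0) (nat_lit 50719962270) (nat_lit 76) (nat_lit 82647601683) (nat_lit 152) (nat_lit 2473833037) (nat_lit 12) (nat_lit 5) (nat_lit 13) (nat_lit 5) (nat_lit 14) (nat_lit 4) (nat_lit 328) (nat_lit 279) (nat_lit 113)) (XT.lf (nat_lit 0) (nat_lit 10901241828) (nat_lit 152) (nat_lit 51301703804) (nat_lit 76) (nat_lit 79192484337) (nat_lit 11) (nat_lit 5) (nat_lit 13) (nat_lit 5) (nat_lit 12) (nat_lit 5) (nat_lit 329) (nat_lit 279) (nat_lit 112))) (XT.nd (nat_lit 78) (nat_lit 152) (nat_lit 0) (XT.lf (nat_lit 0) (nat_lit 24861260009) (nat_lit 152) (nat_lit 15832605018) (nat_lit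 76) (nat_lit 106531307320) (nat_lit 11) (nat_lit 5) (nat_lit 13) (nat_lit 5) (nat_lit 12) (nat_lit 5) (nat_lit 330) (nat_lit 279) (nat_lit 111)) (XT.lf (nat_lit 0) (nat_lit 22116811426) (nat_lit 152) (nat_lit 17747131732) (nat_lit 228) (nat_lit 113465227210) (nat_lit 9) (nat_lit 5) (nat_lit 11) (nat_lit 5) (nat_lit 12) (nat_lit 5) (nat_lit 331) (nat_lit 279) (nat_lit 110))))) (XT.nd (nat_lit 312) (nat_lit 152) (nat_lit 0) (XT.nd (nat_lit 156) (nat_lit 76) (nat_lit 0) (XT.nd (nat_lit 78) (nat_lit 0) (nat_lit 0) (XT.lf (nat_lit 0) (nat_lit 55987750242) (nat_lit 228) (nat_lit 97316103970) (nat_lit 76) (nat_lit 6415966229) (nat_lit 9) (nat_lit 5) (nat_lit 12) (nat_lit 5) (nat_lit 10) (nat_lit 4) (nat_lit 332) (nat_lit 279) (nat_lit 109)) (XT.lf (nat_lit 0) (nat_lit 73208082207) (nat_lit 228) (nat_lit 62016948263) (nat_lit 76) (nat_lit 31190457389) (nat_lit 9) (nat_lit 5) (nat_lit 12) (nat_lit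 5) (nat_lit 10) (nat_lit 4) (nat_lit 333) (nat_lit 279) (nat_lit 108))) (XT.nd (nat_lit 78) (nat_lit 76) (nat_lit 0) (XT.lf (nat_lit 0) (nat_lit 91288857381) (nat_lit 228) (nat_lit 24953763748) (nat_lit 76) (nat_lit 57203347677) (nat_lit 9) (nat_lit 5) (nat_lit 12) (nat_lit 5) (nat_lit 10) (nat_lit 4) (nat_lit 334) (nat_lit 279) (nat_lit 107)) (XT.lf (nat_lit 0) (nat_lit 14423331947) (nat_lit 76) (nat_lit 96074981913) (nat_lit 152) (nat_lit 70318429233) (nat_lit 8) (nat_lit 5) (nat_lit 9) (nat_lit 5) (nat_lit 10) (nat_lit 4) (nat_lit 335) (nat_lit 279) (nat_lit 106)))) (XT.nd (nat_lit 156) (nat_lit 152) (nat_lit 0) (XT.nd (nat_lit 78) (nat_lit 0) (nat_lit 0) (XT.lf (nat_lit 0) (nat_lit 56634750288) (nat_lit 76) (nat_lit 74455563268) (nat_lit 152) (nat_lit 57444640371) (nat_lit 8) (nat_lit 5) (nat_lit 9) (nat_lit 5) (nat_lit 10) (nat_lit 4) (nat_lit 336) (nat_lit 279) (nat_lit 105))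 (XT.lf (nat_lit 0) (nat_lit 100955910525) (nat_lit 76) (nat_lit 51755494452) (nat_lit 152) (nat_lit 43927697025) (nat_lit 8) (nat_lit 5) (nat_lit 9) (nat_lit 5) (nat_lit 10) (nat_lit 4) (nat_lit 337) (nat_lit 279) (nat_lit 104))) (XT.nd (nat_lit 78) (nat_lit 152) (nat_lit 0) (XT.lf (nat_lit 0) (nat_lit 147492339232) (nat_lit 76) (nat_lit 27920727682) (nat_lit 152) (nat_lit 29735415997) (nat_lit 8) (nat_lit 5) (nat_lit 9) (nat_lit 5) (nat_lit 10) (nat_lit 4) (nat_lit 338) (nat_lit 279) (nat_lit 103)) (XT.nd (nat_lit 78) (nat_lit 152) (nat_lit 0) (XT.lf (nat_lit 0) (nat_lit 196354837428) (nat_lit 76) (nat_lit 2894513514) (nat_lit 152) (nat_lit 14834006142) (nat_lit 8) (nat_lit 5) (nat_lit 9) (nat_lit 5) (nat_lit 10) (nat_lit 4) (nat_lit 339) (nat_lit 279) (nat_lit 102)) (XT.lf (nat_lit 0) (nat_lit 1547727828) (nat_lit 152) (nat_lit 198834897330) (nat_lit 76) (nat_lit 23043653722) (nat_lit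 6) (nat_lit 5) (nat_lit 8) (nat_lit 5) (nat_lit 7) (nat_lit 4) (nat_lit 340) (nat_lit 279) (nat_lit 101))))))))
noncomputable def xc221 : XT := (XT.nd (nat_lit 33774) (nat_lit 0) (nat_lit 1672) (XT.nd (nat_lit 33072) (nat_lit 0) (nat_lit 3800) (XT.nd (nat_lit 32760) (nat_lit 0) (nat_lit 3800) (XT.nd (nat_lit 156) (nat_lit 0) (nat_lit 0) (XT.nd (nat_lit 78) (nat_lit 0) (nat_lit 0) (XT.lf (nat_lit 0) (nat_lit 18602201016) (nat_lit 152) (nat_lit 163874854816) (nat_lit 76) (nat_lit 50729524301) (nat_lit 6) (nat_lit 5) (nat_lit 8) (nat_lit 5) (nat_lit 7) (nat_lit 4) (nat_lit 341) (nat_lit 279) (nat_lit 100)) (XT.lf (nat_lit 0) (nat_lit 36508977210) (nat_lit 152) (nat_lit 127167513641) (nat_lit 76) (nat_lit 79799427593) (nat_lit 6) (nat_lit 5) (nat_lit 8) (nat_lit 5) (nat_lit 7) (nat_lit 4) (nat_lit 342) (nat_lit 279) (nat_lit 99))) (XT.nd (nat_lit 78) (nat_lit 0) (nat_lit 0) (XT.lf (nat_lit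 0) (nat_lit 55310691590) (nat_lit 152) (nat_lit 88625475373) (nat_lit 76) (nat_lit 110322577652) (nat_lit 6) (nat_lit 5) (nat_lit 8) (nat_lit 5) (nat_lit 7) (nat_lit 4) (nat_lit 343) (nat_lit 279) (nat_lit 98)) (XT.lf (nat_lit 0) (nat_lit 75052110142) (nat_lit 152) (nat_lit 48156973255) (nat_lit 76) (nat_lit 142371648646) (nat_lit 6) (nat_lit 5) (nat_lit 8) (nat_lit 5) (nat_lit 7) (nat_lit 4) (nat_lit 344) (nat_lit 279) (nat_lit 97)))) (XT.nd (nat_lit 156) (nat_lit 608) (nat_lit 0) (XT.nd (nat_lit 78) (nat_lit 0) (nat_lit 0) (XT.lf (nat_lit 0) (nat_lit 14243945358) (nat_lit 684) (nat_lit 151588994) (nat_lit 684) (nat_lit 151588994) (nat_lit 64) (nat_lit 3) (nat_lit 73) (nat_lit 3) (nat_lit 73) (nat_lit 5) (nat_lit 280) (nat_lit 280) (nat_lit 160)) (XT.lf (nat_lit 76) (nat_lit 11675059547) (nat_lit 0) (nat_lit 17773725760) (nat_lit 684) (nat_lit 360024897) (nat_lit 65) (nat_lit 5) (nat_lit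 64) (nat_lit 3) (nat_lit 73) (nat_lit 5) (nat_lit 281) (nat_lit 280) (nat_lit 159))) (XT.nd (nat_lit 78) (nat_lit 608) (nat_lit 0) (XT.lf (nat_lit 76) (nat_lit 24260416940) (nat_lit 0) (nat_lit 6198154454) (nat_lit 684) (nat_lit 100511058) (nat_lit 65) (nat_lit 5) (nat_lit 64) (nat_lit 3) (nat_lit 73) (nat_lit 5) (nat_lit 282) (nat_lit 280) (nat_lit 158)) (XT.lf (nat_lit 0) (nat_lit 355746679) (nat_lit 684) (nat_lit 25111128640) (nat_lit 760) (nat_lit 5870415886) (nat_lit 56) (nat_lit 5) (nat_lit 65) (nat_lit 5) (nat_lit 66) (nat_lit 5) (nat_lit 283) (nat_lit 280) (nat_lit 157))))) (XT.nd (nat_lit 312) (nat_lit 0) (nat_lit 152) (XT.nd (nat_lit 156) (nat_lit 0) (nat_lit 76) (XT.nd (nat_lit 78) (nat_lit 0) (nat_lit 0) (XT.lf (nat_lit 0) (nat_lit 1037485190) (nat_lit 684) (nat_lit 12660749225) (nat_lit 760) (nat_lit 18445811092) (nat_lit 56) (nat_lit 5) (nat_lit 65) (nat_lit 5) (nat_lit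 66) (nat_lit 5) (nat_lit 284) (nat_lit 280) (nat_lit 156)) (XT.lf (nat_lit 76) (nat_lit 423243840) (nat_lit 0) (nat_lit 1332881452) (nat_lit 760) (nat_lit 31234890343) (nat_lit 57) (nat_lit 5) (nat_lit 56) (nat_lit 5) (nat_lit 66) (nat_lit 5) (nat_lit 285) (nat_lit 280) (nat_lit 155))) (XT.nd (nat_lit 78) (nat_lit 0) (nat_lit 0) (XT.lf (nat_lit 0) (nat_lit 2906897966) (nat_lit 684) (nat_lit 19456672011) (nat_lit 760) (nat_lit 11496972208) (nat_lit 57) (nat_lit 5) (nat_lit 66) (nat_lit 5) (nat_lit 67) (nat_lit 5) (nat_lit 286) (nat_lit 280) (nat_lit 154)) (XT.lf (nat_lit 0) (nat_lit 4133601645) (nat_lit 684) (nat_lit 5714374435) (nat_lit 760) (nat_lit 24924666455) (nat_lit 57) (nat_lit 5) (nat_lit 66) (nat_lit 5) (nat_lit 67) (nat_lit 5) (nat_lit 287) (nat_lit 280) (nat_lit 153)))) (XT.nd (nat_lit 156) (nat_lit 0) (nat_lit 0) (XT.nd (nat_lit 78) (nat_lit 0) (nat_lit 0) (XT.lf (nat_lit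 0) (nat_lit 5612610688) (nat_lit 684) (nat_lit 26776509269) (nat_lit 760) (nat_lit 3331695714) (nat_lit 58) (nat_lit 5) (nat_lit 67) (nat_lit 5) (nat_lit 68) (nat_lit 5) (nat_lit 288) (nat_lit 280) (nat_lit 152)) (XT.lf (nat_lit 0) (nat_lit 7422214160) (nat_lit 684) (nat_lit 12342811788) (nat_lit 760) (nat_lit 16938554817) (nat_lit 58) (nat_lit 5) (nat_lit 67) (nat_lit 5) (nat_lit 68) (nat_lit 5) (nat_lit 289) (nat_lit 280) (nat_lit 151))) (XT.nd (nat_lit 78) (nat_lit 0) (nat_lit 76) (XT.lf (nat_lit 76) (nat_lit 2903071899) (nat_lit 0) (nat_lit 6461541053) (nat_lit 760) (nat_lit 28368770170) (nat_lit 59) (nat_lit 5) (nat_lit 58) (nat_lit 5) (nat_lit 68) (nat_lit 5) (nat_lit 290) (nat_lit 280) (nat_lit 150)) (XT.nd (nat_lit 78) (nat_lit 0) (nat_lit 0) (XT.lf (nat_lit 0) (nat_lit 11730901600) (nat_lit 684) (nat_lit 19587637219) (nat_lit 76) (nat_lit 7479812340) (nat_lit 59) (nat_lit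 5) (nat_lit 68) (nat_lit 5) (nat_lit 60) (nat_lit 5) (nat_lit 291) (nat_lit 280) (nat_lit 149)) (XT.lf (nat_lit 0) (nat_lit 14318673991) (nat_lit 684) (nat_lit 3691178919) (nat_lit 76) (nat_lit 21901569615) (nat_lit 59) (nat_lit 5) (nat_lit 68) (nat_lit 5) (nat_lit 60) (nat_lit 5) (nat_lit 292) (nat_lit 280) (nat_lit 148))))))) (XT.nd (nat_lit 624) (nat_lit 836) (nat_lit 0) (XT.nd (nat_lit 312) (nat_lit 532) (nat_lit 0) (XT.nd (nat_lit 156) (nat_lit 304) (nat_lit 0) (XT.nd (nat_lit 78) (nat_lit 0) (nat_lit 0) (XT.lf (nat_lit 0) (nat_lit 13427560958) (nat_lit 684) (nat_lit 3815289622) (nat_lit 760) (nat_lit 23826958855) (nat_lit 50) (nat_lit 5) (nat_lit 59) (nat_lit 5) (nat_lit 60) (nat_lit 5) (nat_lit 293) (nat_lit 280) (nat_lit 147)) (XT.lf (nat_lit 0) (nat_lit 20547370588) (nat_lit 760) (nat_lit 10929171124) (nat_lit 76) (nat_lit 10797879393) (nat_lit 50) (nat_lit 5) (nat_lit 60)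 (nat_lit 5) (nat_lit 51) (nat_lit 5) (nat_lit 294) (nat_lit 280) (nat_lit 146))) (XT.nd (nat_lit 78) (nat_lit 0) (nat_lit 0) (XT.lf (nat_lit 0) (nat_lit 6771444717) (nat_lit 304) (nat_lit 17411526941) (nat_lit 380) (nat_lit 19348010516) (nat_lit 46) (nat_lit 5) (nat_lit 50) (nat_lit 5) (nat_lit 51) (nat_lit 5) (nat_lit 295) (nat_lit 280) (nat_lit 145)) (XT.lf (nat_lit 0) (nat_lit 25734266394) (nat_lit 304) (nat_lit 2448844841) (nat_lit 380) (nat_lit 16658133156) (nat_lit 46) (nat_lit 5) (nat_lit 50) (nat_lit 5) (nat_lit 51) (nat_lit 5) (nat_lit 296) (nat_lit 280) (nat_lit 144)))) (XT.nd (nat_lit 156) (nat_lit 228) (nat_lit 0) (XT.nd (nat_lit 78) (nat_lit 304) (nat_lit 0) (XT.lf (nat_lit 0) (nat_lit 32588094107) (nat_lit 380) (nat_lit 781123148) (nat_lit 76) (nat_lit 12837571140) (nat_lit 46) (nat_lit 5) (nat_lit 51) (nat_lit 5) (nat_lit 47) (nat_lit 5) (nat_lit 297) (nat_lit 280) (nat_lit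 143)) (XT.lf (nat_lit 0) (nat_lit 19027717578) (nat_lit 304) (nat_lit 18520715038) (nat_lit 380) (nat_lit 10075431651) (nat_lit 42) (nat_lit 5) (nat_lit 46) (nat_lit 5) (nat_lit 47) (nat_lit 5) (nat_lit 298) (nat_lit 280) (nat_lit 142))) (XT.nd (nat_lit 78) (nat_lit 228) (nat_lit 0) (XT.lf (nat_lit 0) (nat_lit 39851986473) (nat_lit 304) (nat_lit 2915983170) (nat_lit 380) (nat_lit 6343274726) (nat_lit 42) (nat_lit 5) (nat_lit 46) (nat_lit 5) (nat_lit 47) (nat_lit 5) (nat_lit 299) (nat_lit 280) (nat_lit 141)) (XT.lf (nat_lit 0) (nat_lit 11190206816) (nat_lit 228) (nat_lit 37441324903) (nat_lit 304) (nat_lit 2022318411) (nat_lit 39) (nat_lit 5) (nat_lit 42) (nat_lit 5) (nat_lit 43) (nat_lit 5) (nat_lit 300) (nat_lit 280) (nat_lit 140))))) (XT.nd (nat_lit 312) (nat_lit 456) (nat_lit 0) (XT.nd (nat_lit 156) (nat_lit 0) (nat_lit 0) (XT.nd (nat_lit 78) (nat_lit 304) (nat_lit 0) (XT.lf (nat_lit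 0) (nat_lit 2639453575) (nat_lit 304) (nat_lit 19373949334) (nat_lit 76) (nat_lit 30247965751) (nat_lit 38) (nat_lit 5) (nat_lit 42) (nat_lit 5) (nat_lit 39) (nat_lit 5) (nat_lit 301) (nat_lit 280) (nat_lit 139)) (XT.lf (nat_lit 0) (nat_lit 1740720021) (nat_lit 304) (nat_lit 5750970243) (nat_lit 380) (nat_lit 46454656082) (nat_lit 34) (nat_lit 5) (nat_lit 38) (nat_lit 5) (nat_lit 39) (nat_lit 5) (nat_lit 302) (nat_lit 280) (nat_lit 138))) (XT.nd (nat_lit 78) (nat_lit 0) (nat_lit 0) (XT.lf (nat_lit 0) (nat_lit 13095046798) (nat_lit 380) (nat_lit 31299741925) (nat_lit 76) (nat_lit 11295366250) (nat_lit 34) (nat_lit 5) (nat_lit 39) (nat_lit 5) (nat_lit 35) (nat_lit 5) (nat_lit 303) (nat_lit 280) (nat_lit 137)) (XT.lf (nat_lit 0) (nat_lit 19071147931) (nat_lit 380) (nat_lit 9444869778) (nat_lit 76) (nat_lit 29000514583) (nat_lit 34) (nat_lit 5) (nat_lit 39) (nat_lit 5) (nat_lit 35) (nat_lit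 5) (nat_lit 304) (nat_lit 280) (nat_lit 136)))) (XT.nd (nat_lit 156) (nat_lit 228) (nat_lit 0) (XT.nd (nat_lit 78) (nat_lit 0) (nat_lit 0) (XT.lf (nat_lit 0) (nat_lit 13947212178) (nat_lit 228) (nat_lit 11614976606) (nat_lit 304) (nat_lit 33861239724) (nat_lit 31) (nat_lit 5) (nat_lit 34) (nat_lit 5) (nat_lit 35) (nat_lit 5) (nat_lit 305) (nat_lit 280) (nat_lit 135)) (XT.lf (nat_lit 0) (nat_lit 32634503188) (nat_lit 304) (nat_lit 22681195683) (nat_lit 76) (nat_lit 6097141031) (nat_lit 31) (nat_lit 5) (nat_lit 35) (nat_lit 5) (nat_lit 32) (nat_lit 5) (nat_lit 306) (nat_lit 280) (nat_lit 134))) (XT.nd (nat_lit 78) (nat_lit 0) (nat_lit 0) (XT.lf (nat_lit 0) (nat_lit 1096371070) (nat_lit 228) (nat_lit 39170086230) (nat_lit 304) (nat_lit 23224969498) (nat_lit 28) (nat_lit 5) (nat_lit 31) (nat_lit 5) (nat_lit 32) (nat_lit 5) (nat_lit 307) (nat_lit 280) (nat_lit 133)) (XT.nd (nat_lit 78)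 (nat_lit 0) (nat_lit 0) (XT.lf (nat_lit 0) (nat_lit 26848400288) (nat_lit 228) (nat_lit 21814265560) (nat_lit 304) (nat_lit 16992150199) (nat_lit 28) (nat_lit 5) (nat_lit 31) (nat_lit 5) (nat_lit 32) (nat_lit 5) (nat_lit 308) (nat_lit 280) (nat_lit 132)) (XT.lf (nat_lit 0) (nat_lit 53886263564) (nat_lit 228) (nat_lit 3591030502) (nat_lit 304) (nat_lit 10449155795) (nat_lit 28) (nat_lit 5) (nat_lit 31) (nat_lit 5) (nat_lit 32) (nat_lit 5) (nat_lit 309) (nat_lit 280) (nat_lit 131))))))))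
noncomputable def xc222 : XT := (XT.nd (nat_lit 1326) (nat_lit 532) (nat_lit 0) (XT.nd (nat_lit 624) (nat_lit 532) (nat_lit 0) (XT.nd (nat_lit 312) (nat_lit 152) (nat_lit 0) (XT.nd (nat_lit 156) (nat_lit 228) (nat_lit 0) (XT.nd (nat_lit 78) (nat_lit 76) (nat_lit 0) (XT.lf (nat_lit 0) (nat_lit 12107443778) (nat_lit 152) (nat_lit 55055586422) (nat_lit 228) (nat_lit 3127121639) (nat_lit 26) (nat_lit 5) (nat_lit 28) (nat_lit 5) (nat_lit 29) (nat_lit 5) (nat_lit 310) (nat_lit 280) (nat_lit 130)) (XT.lf (nat_lit 0) (nat_lit 4714258222) (nat_lit 228) (nat_lit 32845998079) (nat_lit 76) (nat_lit 35193265663) (nat_lit 25) (nat_lit 5) (nat_lit 28) (nat_lit 5) (nat_lit 26) (nat_lit 5) (nat_lit 311) (nat_lit 280) (nat_lit 129))) (XT.nd (nat_lit 78) (nat_lit 228) (nat_lit 0) (XT.lf (nat_lit 0) (nat_lit 12841358375) (nat_lit 228) (nat_lit 6295402028) (nat_lit 76) (nat_lit 56200804402) (nat_lit 25)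 (nat_lit 5) (nat_lit 28) (nat_lit 5) (nat_lit 26) (nat_lit 5) (nat_lit 312) (nat_lit 280) (nat_lit 128)) (XT.lf (nat_lit 0) (nat_lit 21730645011) (nat_lit 304) (nat_lit 55747727653) (nat_lit 76) (nat_lit 554649910) (nat_lit 22) (nat_lit 5) (nat_lit 26) (nat_lit 5) (nat_lit 23) (nat_lit 5) (nat_lit 313) (nat_lit 280) (nat_lit 127)))) (XT.nd (nat_lit 156) (nat_lit 152) (nat_lit 0) (XT.nd (nat_lit 78) (nat_lit 0) (nat_lit 0) (XT.lf (nat_lit 0) (nat_lit 31485305666) (nat_lit 304) (nat_lit 28661433697) (nat_lit 76) (nat_lit 20695472536) (nat_lit 22) (nat_lit 5) (nat_lit 26) (nat_lit 5) (nat_lit 23) (nat_lit 5) (nat_lit 314) (nat_lit 280) (nat_lit 126)) (XT.lf (nat_lit 0) (nat_lit 41726583949) (nat_lit 304) (nat_lit 222382117) (nat_lit 76) (nat_lit 41842954348) (nat_lit 22) (nat_lit 5) (nat_lit 26) (nat_lit 5) (nat_lit 23) (nat_lit 5) (nat_lit 315) (nat_lit 280) (nat_lit 125))) (XT.nd (nat_lit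 78) (nat_lit 0) (nat_lit 0) (XT.lf (nat_lit 0) (nat_lit 30617076776) (nat_lit 152) (nat_lit 22339805454) (nat_lit 228) (nat_lit 33908388088) (nat_lit 20) (nat_lit 5) (nat_lit 22) (nat_lit 5) (nat_lit 23) (nat_lit 5) (nat_lit 316) (nat_lit 280) (nat_lit 124)) (XT.lf (nat_lit 0) (nat_lit 63004770209) (nat_lit 152) (nat_lit 1746656882) (nat_lit 228) (nat_lit 25340727629) (nat_lit 20) (nat_lit 5) (nat_lit 22) (nat_lit 5) (nat_lit 23) (nat_lit 5) (nat_lit 317) (nat_lit 280) (nat_lit 123))))) (XT.nd (nat_lit 312) (nat_lit 152) (nat_lit 0) (XT.nd (nat_lit 156) (nat_lit 228) (nat_lit 0) (XT.nd (nat_lit 78) (nat_lit 0) (nat_lit 0) (XT.lf (nat_lit 0) (nat_lit 3326164725) (nat_lit 152) (nat_lit 74170796079) (nat_lit 228) (nat_lit 15965362874) (nat_lit 18) (nat_lit 5) (nat_lit 20) (nat_lit 5) (nat_lit 21) (nat_lit 5) (nat_lit 318) (nat_lit 280) (nat_lit 122)) (XT.lf (nat_lit 0) (nat_lit 36169811031)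 (nat_lit 152) (nat_lit 55195903644) (nat_lit 228) (nat_lit 5610992488) (nat_lit 18) (nat_lit 5) (nat_lit 20) (nat_lit 5) (nat_lit 21) (nat_lit 5) (nat_lit 319) (nat_lit 280) (nat_lit 121))) (XT.nd (nat_lit 78) (nat_lit 152) (nat_lit 0) (XT.lf (nat_lit 0) (nat_lit 5091770030) (nat_lit 228) (nat_lit 30094690075) (nat_lit 76) (nat_lit 65476292568) (nat_lit 17) (nat_lit 5) (nat_lit 20) (nat_lit 5) (nat_lit 18) (nat_lit 5) (nat_lit 320) (nat_lit 280) (nat_lit 120)) (XT.lf (nat_lit 0) (nat_lit 2127936294) (nat_lit 152) (nat_lit 14045497532) (nat_lit 228) (nat_lit 88353453803) (nat_lit 15) (nat_lit 5) (nat_lit 17) (nat_lit 5) (nat_lit 18) (nat_lit 5) (nat_lit 321) (nat_lit 280) (nat_lit 119)))) (XT.nd (nat_lit 156) (nat_lit 152) (nat_lit 0) (XT.nd (nat_lit 78) (nat_lit 0) (nat_lit 0) (XT.lf (nat_lit 0) (nat_lit 28453609791) (nat_lit 228) (nat_lit 71689203292) (nat_lit 76) (nat_lit 8409197478)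 (nat_lit 15) (nat_lit 5) (nat_lit 18) (nat_lit 5) (nat_lit 16) (nat_lit 5) (nat_lit 322) (nat_lit 280) (nat_lit 118)) (XT.lf (nat_lit 0) (nat_lit 41577212466) (nat_lit 228) (nat_lit 39675490702) (nat_lit 76) (nat_lit 31514218127) (nat_lit 15) (nat_lit 5) (nat_lit 18) (nat_lit 5) (nat_lit 16) (nat_lit 5) (nat_lit 323) (nat_lit 280) (nat_lit 117))) (XT.nd (nat_lit 78) (nat_lit 152) (nat_lit 0) (XT.lf (nat_lit 0) (nat_lit 55356198944) (nat_lit 228) (nat_lit 6062300860) (nat_lit 76) (nat_lit 55774120003) (nat_lit 15) (nat_lit 5) (nat_lit 18) (nat_lit 5) (nat_lit 16) (nat_lit 5) (nat_lit 324) (nat_lit 280) (nat_lit 116)) (XT.nd (nat_lit 78) (nat_lit 0) (nat_lit 0) (XT.lf (nat_lit 0) (nat_lit 30196886590) (nat_lit 152) (nat_lit 40097947773) (nat_lit 228) (nat_lit 51521236214) (nat_lit 13) (nat_lit 5) (nat_lit 15) (nat_lit 5) (nat_lit 16) (nat_lit 5) (nat_lit 325) (nat_lit 280) (nat_lit 115))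 (XT.lf (nat_lit 0) (nat_lit 68478370536) (nat_lit 152) (nat_lit 17603959044) (nat_lit 228) (nat_lit 40583270107) (nat_lit 13) (nat_lit 5) (nat_lit 15) (nat_lit 5) (nat_lit 16) (nat_lit 5) (nat_lit 326) (nat_lit 280) (nat_lit 114))))))) (XT.nd (nat_lit 624) (nat_lit 228) (nat_lit 0) (XT.nd (nat_lit 312) (nat_lit 152) (nat_lit 0) (XT.nd (nat_lit 156) (nat_lit 76) (nat_lit 0) (XT.nd (nat_lit 78) (nat_lit 76) (nat_lit 0) (XT.lf (nat_lit 0) (nat_lit 102752395766) (nat_lit 228) (nat_lit 23178693208) (nat_lit 76) (nat_lit 5821858564) (nat_lit 13) (nat_lit 5) (nat_lit 16) (nat_lit 5) (nat_lit 14) (nat_lit 4) (nat_lit 327) (nat_lit 280) (nat_lit 113)) (XT.lf (nat_lit 0) (nat_lit 13730071051) (nat_lit 76) (nat_lit 107028171857) (nat_lit 152) (nat_lit 16311307987) (nat_lit 12) (nat_lit 5) (nat_lit 13) (nat_lit 5) (nat_lit 14) (nat_lit 4) (nat_lit 328) (nat_lit 280) (nat_lit 112))) (XT.nd (nat_lit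 78) (nat_lit 76) (nat_lit 0) (XT.lf (nat_lit 0) (nat_lit 53287945455) (nat_lit 76) (nat_lit 86768318594) (nat_lit 152) (nat_lit 2576128193) (nat_lit 12) (nat_lit 5) (nat_lit 13) (nat_lit 5) (nat_lit 14) (nat_lit 4) (nat_lit 329) (nat_lit 280) (nat_lit 111)) (XT.lf (nat_lit 0) (nat_lit 11466029324) (nat_lit 152) (nat_lit 53835621747) (nat_lit 76) (nat_lit 83162511063) (nat_lit 11) (nat_lit 5) (nat_lit 13) (nat_lit 5) (nat_lit 12) (nat_lit 5) (nat_lit 330) (nat_lit 280) (nat_lit 110)))) (XT.nd (nat_lit 156) (nat_lit 0) (nat_lit 0) (XT.nd (nat_lit 78) (nat_lit 152) (nat_lit 0) (XT.lf (nat_lit 0) (nat_lit 26123109109) (nat_lit 152) (nat_lit 16594552177) (nat_lit 76) (nat_lit 111867779838) (nat_lit 11) (nat_lit 5) (nat_lit 13) (nat_lit 5) (nat_lit 12) (nat_lit 5) (nat_lit 331) (nat_lit 280) (nat_lit 109)) (XT.lf (nat_lit 0) (nat_lit 23251856330) (nat_lit 152) (nat_lit 18623631470) (nat_lit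 228) (nat_lit 119119175581) (nat_lit 9) (nat_lit 5) (nat_lit 11) (nat_lit 5) (nat_lit 12) (nat_lit 5) (nat_lit 332) (nat_lit 280) (nat_lit 108))) (XT.nd (nat_lit 78) (nat_lit 0) (nat_lit 0) (XT.lf (nat_lit 0) (nat_lit 58804772983) (nat_lit 228) (nat_lit 102153337424) (nat_lit 76) (nat_lit 6746773457) (nat_lit 9) (nat_lit 5) (nat_lit 12) (nat_lit 5) (nat_lit 10) (nat_lit 4) (nat_lit 333) (nat_lit 280) (nat_lit 107)) (XT.lf (nat_lit 0) (nat_lit 76885281774) (nat_lit 228) (nat_lit 65090584491) (nat_lit 76) (nat_lit 32759512559) (nat_lit 9) (nat_lit 5) (nat_lit 12) (nat_lit 5) (nat_lit 10) (nat_lit 4) (nat_lit 334) (nat_lit 280) (nat_lit 106))))) (XT.nd (nat_lit 312) (nat_lit 152) (nat_lit 0) (XT.nd (nat_lit 156) (nat_lit 0) (nat_lit 0) (XT.nd (nat_lit 78) (nat_lit 76) (nat_lit 0) (XT.lf (nat_lit 0) (nat_lit 95869295922) (nat_lit 228) (nat_lit 26175536522) (nat_lit 76) (nat_lit 60072593442)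 (nat_lit 9) (nat_lit 5) (nat_lit 12) (nat_lit 5) (nat_lit 10) (nat_lit 4) (nat_lit 335) (nat_lit 280) (nat_lit 105)) (XT.lf (nat_lit 0) (nat_lit 15169995968) (nat_lit 76) (nat_lit 100868865645) (nat_lit 152) (nat_lit 73817897435) (nat_lit 8) (nat_lit 5) (nat_lit 9) (nat_lit 5) (nat_lit 10) (nat_lit 4) (nat_lit 336) (nat_lit 280) (nat_lit 104))) (XT.nd (nat_lit 78) (nat_lit 0) (nat_lit 0) (XT.lf (nat_lit 0) (nat_lit 59490771063) (nat_lit 76) (nat_lit 78168945847) (nat_lit 152) (nat_lit 60301202618) (nat_lit 8) (nat_lit 5) (nat_lit 9) (nat_lit 5) (nat_lit 10) (nat_lit 4) (nat_lit 337) (nat_lit 280) (nat_lit 103)) (XT.lf (nat_lit 0) (nat_lit 106026832967) (nat_lit 76) (nat_lit 54334320999) (nat_lit 152) (nat_lit 46109158285) (nat_lit 8) (nat_lit 5) (nat_lit 9) (nat_lit 5) (nat_lit 10) (nat_lit 4) (nat_lit 338) (nat_lit 280) (nat_lit 102)))) (XT.nd (nat_lit 156) (nat_lit 152) (nat_lit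 0) (XT.nd (nat_lit 78) (nat_lit 0) (nat_lit 0) (XT.lf (nat_lit 0) (nat_lit 154888981827) (nat_lit 76) (nat_lit 29308241995) (nat_lit 152) (nat_lit 31207973853) (nat_lit 8) (nat_lit 5) (nat_lit 9) (nat_lit 5) (nat_lit 10) (nat_lit 4) (nat_lit 339) (nat_lit 280) (nat_lit 101)) (XT.lf (nat_lit 0) (nat_lit 206193556093) (nat_lit 76) (nat_lit 3031122931) (nat_lit 152) (nat_lit 15562170311) (nat_lit 8) (nat_lit 5) (nat_lit 9) (nat_lit 5) (nat_lit 10) (nat_lit 4) (nat_lit 340) (nat_lit 280) (nat_lit 100))) (XT.nd (nat_lit 78) (nat_lit 0) (nat_lit 0) (XT.lf (nat_lit 0) (nat_lit 1638051907) (nat_lit 152) (nat_lit 208755006379) (nat_lit 76) (nat_lit 24203858106) (nat_lit 6) (nat_lit 5) (nat_lit 8) (nat_lit 5) (nat_lit 7) (nat_lit 4) (nat_lit 341) (nat_lit 280) (nat_lit 99)) (XT.nd (nat_lit 78) (nat_lit 0) (nat_lit 0) (XT.lf (nat_lit 0) (nat_lit 19544632674) (nat_lit 152) (nat_lit 172047992017)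 (nat_lit 76) (nat_lit 53273640228) (nat_lit 6) (nat_lit 5) (nat_lit 8) (nat_lit 5) (nat_lit 7) (nat_lit 4) (nat_lit 342) (nat_lit 280) (nat_lit 98)) (XT.lf (nat_lit 0) (nat_lit 38346160934) (nat_lit 152) (nat_lit 133506264999) (nat_lit 76) (nat_lit 83796674888) (nat_lit 6) (nat_lit 5) (nat_lit 8) (nat_lit 5) (nat_lit 7) (nat_lit 4) (nat_lit 343) (nat_lit 280) (nat_lit 97))))))))
noncomputable def xc223 : XT := (XT.nd (nat_lit 1326) (nat_lit 1824) (nat_lit 0) (XT.nd (nat_lit 624) (nat_lit 684) (nat_lit 0) (XT.nd (nat_lit 312) (nat_lit 0) (nat_lit 76) (XT.nd (nat_lit 156) (nat_lit 684) (nat_lit 0) (XT.nd (nat_lit 78) (nat_lit 0) (nat_lit 0) (XT.lf (nat_lit 0) (nat_lit 15021522595) (nat_lit 684) (nat_lit 124667857) (nat_lit 684) (nat_lit 124667857) (nat_lit 64) (nat_lit 3) (nat_lit 73) (nat_lit 3) (nat_lit 73) (nat_lit 5) (nat_lit 281) (nat_lit 281) (nat_lit 158)) (XT.lf (nat_lit 76)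 (nat_lit 12326700776) (nat_lit 0) (nat_lit 18720116996) (nat_lit 684) (nat_lit 245482412) (nat_lit 65) (nat_lit 5) (nat_lit 64) (nat_lit 3) (nat_lit 73) (nat_lit 5) (nat_lit 282) (nat_lit 281) (nat_lit 157))) (XT.nd (nat_lit 78) (nat_lit 0) (nat_lit 76) (XT.lf (nat_lit 0) (nat_lit 20033126) (nat_lit 684) (nat_lit 6542646874) (nat_lit 760) (nat_lit 25517720869) (nat_lit 55) (nat_lit 5) (nat_lit 64) (nat_lit 3) (nat_lit 65) (nat_lit 5) (nat_lit 283) (nat_lit 281) (nat_lit 156)) (XT.lf (nat_lit 0) (nat_lit 490202886) (nat_lit 684) (nat_lit 26291278322) (nat_lit 760) (nat_lit 6116261591) (nat_lit 56) (nat_lit 5) (nat_lit 65) (nat_lit 5) (nat_lit 66) (nat_lit 5) (nat_lit 284) (nat_lit 281) (nat_lit 155)))) (XT.nd (nat_lit 156) (nat_lit 0) (nat_lit 76) (XT.nd (nat_lit 78) (nat_lit 0) (nat_lit 0) (XT.lf (nat_lit 0) (nat_lit 1200472662) (nat_lit 684) (nat_lit 13221970734) (nat_lit 760) (nat_lit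 19322696800) (nat_lit 56) (nat_lit 5) (nat_lit 65) (nat_lit 5) (nat_lit 66) (nat_lit 5) (nat_lit 285) (nat_lit 281) (nat_lit 154)) (XT.lf (nat_lit 76) (nat_lit 515063662) (nat_lit 0) (nat_lit 1435793164) (nat_lit 760) (nat_lit 32683837683) (nat_lit 57) (nat_lit 5) (nat_lit 56) (nat_lit 5) (nat_lit 66) (nat_lit 5) (nat_lit 286) (nat_lit 281) (nat_lit 153))) (XT.nd (nat_lit 78) (nat_lit 0) (nat_lit 0) (XT.lf (nat_lit 0) (nat_lit 3153537179) (nat_lit 684) (nat_lit 20356081062) (nat_lit 760) (nat_lit 12038385724) (nat_lit 57) (nat_lit 5) (nat_lit 66) (nat_lit 5) (nat_lit 67) (nat_lit 5) (nat_lit 287) (nat_lit 281) (nat_lit 152)) (XT.lf (nat_lit 0) (nat_lit 4436752503) (nat_lit 684) (nat_lit 5930165014) (nat_lit 760) (nat_lit 26139056831) (nat_lit 57) (nat_lit 5) (nat_lit 66) (nat_lit 5) (nat_lit 67) (nat_lit 5) (nat_lit 288) (nat_lit 281) (nat_lit 151))))) (XT.nd (nat_lit 312) (nat_lit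 912) (nat_lit 0) (XT.nd (nat_lit 156) (nat_lit 0) (nat_lit 0) (XT.nd (nat_lit 78) (nat_lit 0) (nat_lit 0) (XT.lf (nat_lit 0) (nat_lit 5985815255) (nat_lit 684) (nat_lit 28041055775) (nat_lit 760) (nat_lit 3474902651) (nat_lit 58) (nat_lit 5) (nat_lit 67) (nat_lit 5) (nat_lit 68) (nat_lit 5) (nat_lit 289) (nat_lit 281) (nat_lit 150)) (XT.lf (nat_lit 0) (nat_lit 7881490613) (nat_lit 684) (nat_lit 12889210514) (nat_lit 760) (nat_lit 17763217941) (nat_lit 58) (nat_lit 5) (nat_lit 67) (nat_lit 5) (nat_lit 68) (nat_lit 5) (nat_lit 290) (nat_lit 281) (nat_lit 149))) (XT.nd (nat_lit 78) (nat_lit 0) (nat_lit 76) (XT.lf (nat_lit 76) (nat_lit 3117826360) (nat_lit 0) (nat_lit 6800071280) (nat_lit 760) (nat_lit 29697490079) (nat_lit 59) (nat_lit 5) (nat_lit 58) (nat_lit 5) (nat_lit 68) (nat_lit 5) (nat_lit 291) (nat_lit 281) (nat_lit 148)) (XT.lf (nat_lit 0) (nat_lit 12398220751) (nat_lit 684)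 (nat_lit 20496060327) (nat_lit 76) (nat_lit 7839556694) (nat_lit 59) (nat_lit 5) (nat_lit 68) (nat_lit 5) (nat_lit 60) (nat_lit 5) (nat_lit 292) (nat_lit 281) (nat_lit 147)))) (XT.nd (nat_lit 156) (nat_lit 304) (nat_lit 0) (XT.nd (nat_lit 78) (nat_lit 684) (nat_lit 0) (XT.lf (nat_lit 0) (nat_lit 15111535377) (nat_lit 684) (nat_lit 3808158100) (nat_lit 76) (nat_lit 22983080226) (nat_lit 59) (nat_lit 5) (nat_lit 68) (nat_lit 5) (nat_lit 60) (nat_lit 5) (nat_lit 293) (nat_lit 281) (nat_lit 146)) (XT.lf (nat_lit 0) (nat_lit 14165428774) (nat_lit 684) (nat_lit 4013866889) (nat_lit 760) (nat_lit 24939933339) (nat_lit 50) (nat_lit 5) (nat_lit 59) (nat_lit 5) (nat_lit 60) (nat_lit 5) (nat_lit 294) (nat_lit 281) (nat_lit 145))) (XT.nd (nat_lit 78) (nat_lit 304) (nat_lit 0) (XT.lf (nat_lit 0) (nat_lit 21645387284) (nat_lit 760) (nat_lit 11408312868) (nat_lit 76) (nat_lit 11330570765) (nat_lit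 50) (nat_lit 5) (nat_lit 60) (nat_lit 5) (nat_lit 51) (nat_lit 5) (nat_lit 295) (nat_lit 281) (nat_lit 144)) (XT.nd (nat_lit 78) (nat_lit 0) (nat_lit 0) (XT.lf (nat_lit 0) (nat_lit 7176248010) (nat_lit 304) (nat_lit 18284190252) (nat_lit 380) (nat_lit 20243354421) (nat_lit 46) (nat_lit 5) (nat_lit 50) (nat_lit 5) (nat_lit 51) (nat_lit 5) (nat_lit 296) (nat_lit 281) (nat_lit 143)) (XT.lf (nat_lit 0) (nat_lit 27084056911) (nat_lit 304) (nat_lit 2573274668) (nat_lit 380) (nat_lit 17422414460) (nat_lit 46) (nat_lit 5) (nat_lit 50) (nat_lit 5) (nat_lit 51) (nat_lit 5) (nat_lit 297) (nat_lit 281) (nat_lit 142))))))) (XT.nd (nat_lit 624) (nat_lit 912) (nat_lit 0) (XT.nd (nat_lit 312) (nat_lit 380) (nat_lit 0) (XT.nd (nat_lit 156) (nat_lit 228) (nat_lit 0) (XT.nd (nat_lit 78) (nat_lit 304) (nat_lit 0) (XT.lf (nat_lit 0) (nat_lit 34279435717) (nat_lit 380) (nat_lit 756685209) (nat_lit 76) (nat_lit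 13477617345) (nat_lit 46) (nat_lit 5) (nat_lit 51) (nat_lit 5) (nat_lit 47) (nat_lit 5) (nat_lit 298) (nat_lit 281) (nat_lit 141)) (XT.lf (nat_lit 0) (nat_lit 20041573454) (nat_lit 304) (nat_lit 19444243652) (nat_lit 380) (nat_lit 10515963470) (nat_lit 42) (nat_lit 5) (nat_lit 46) (nat_lit 5) (nat_lit 47) (nat_lit 5) (nat_lit 299) (nat_lit 281) (nat_lit 140))) (XT.nd (nat_lit 78) (nat_lit 228) (nat_lit 0) (XT.lf (nat_lit 0) (nat_lit 41904081033) (nat_lit 304) (nat_lit 3059394578) (nat_lit 380) (nat_lit 6600210117) (nat_lit 42) (nat_lit 5) (nat_lit 46) (nat_lit 5) (nat_lit 47) (nat_lit 5) (nat_lit 300) (nat_lit 281) (nat_lit 139)) (XT.lf (nat_lit 0) (nat_lit 11811286638) (nat_lit 228) (nat_lit 39307206525) (nat_lit 304) (nat_lit 2065027387) (nat_lit 39) (nat_lit 5) (nat_lit 42) (nat_lit 5) (nat_lit 43) (nat_lit 5) (nat_lit 301) (nat_lit 281) (nat_lit 138)))) (XT.nd (nat_lit 156) (nat_lit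 0) (nat_lit 0) (XT.nd (nat_lit 78) (nat_lit 304) (nat_lit 0) (XT.lf (nat_lit 0) (nat_lit 2825271547) (nat_lit 304) (nat_lit 20281999495) (nat_lit 76) (nat_lit 31764244451) (nat_lit 38) (nat_lit 5) (nat_lit 42) (nat_lit 5) (nat_lit 39) (nat_lit 5) (nat_lit 302) (nat_lit 281) (nat_lit 137)) (XT.lf (nat_lit 0) (nat_lit 1887425146) (nat_lit 304) (nat_lit 6031062465) (nat_lit 380) (nat_lit 48722346995) (nat_lit 34) (nat_lit 5) (nat_lit 38) (nat_lit 5) (nat_lit 39) (nat_lit 5) (nat_lit 303) (nat_lit 281) (nat_lit 136))) (XT.nd (nat_lit 78) (nat_lit 0) (nat_lit 0) (XT.lf (nat_lit 0) (nat_lit 13799636516) (nat_lit 380) (nat_lit 32805317814) (nat_lit 76) (nat_lit 11867008507) (nat_lit 34) (nat_lit 5) (nat_lit 39) (nat_lit 5) (nat_lit 35) (nat_lit 5) (nat_lit 304) (nat_lit 281) (nat_lit 135)) (XT.lf (nat_lit 0) (nat_lit 20072169498) (nat_lit 380) (nat_lit 9860531165) (nat_lit 76) (nat_lit 30457086926)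 (nat_lit 34) (nat_lit 5) (nat_lit 39) (nat_lit 5) (nat_lit 35) (nat_lit 5) (nat_lit 305) (nat_lit 281) (nat_lit 134))))) (XT.nd (nat_lit 312) (nat_lit 456) (nat_lit 0) (XT.nd (nat_lit 156) (nat_lit 228) (nat_lit 0) (XT.nd (nat_lit 78) (nat_lit 0) (nat_lit 0) (XT.lf (nat_lit 0) (nat_lit 14700242275) (nat_lit 228) (nat_lit 12186129076) (nat_lit 304) (nat_lit 35505736250) (nat_lit 31) (nat_lit 5) (nat_lit 34) (nat_lit 5) (nat_lit 35) (nat_lit 5) (nat_lit 306) (nat_lit 281) (nat_lit 133)) (XT.lf (nat_lit 0) (nat_lit 34310250208) (nat_lit 304) (nat_lit 23760005949) (nat_lit 76) (nat_lit 6410844955) (nat_lit 31) (nat_lit 5) (nat_lit 35) (nat_lit 5) (nat_lit 32) (nat_lit 5) (nat_lit 307) (nat_lit 281) (nat_lit 132))) (XT.nd (nat_lit 78) (nat_lit 0) (nat_lit 0) (XT.lf (nat_lit 0) (nat_lit 1205548020) (nat_lit 228) (nat_lit 41117006414) (nat_lit 304) (nat_lit 24341133856) (nat_lit 28) (nat_lit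 5) (nat_lit 31) (nat_lit 5) (nat_lit 32) (nat_lit 5) (nat_lit 308) (nat_lit 281) (nat_lit 131)) (XT.lf (nat_lit 0) (nat_lit 28242590204) (nat_lit 228) (nat_lit 22893946336) (nat_lit 304) (nat_lit 17798820455) (nat_lit 28) (nat_lit 5) (nat_lit 31) (nat_lit 5) (nat_lit 32) (nat_lit 5) (nat_lit 309) (nat_lit 281) (nat_lit 130)))) (XT.nd (nat_lit 156) (nat_lit 304) (nat_lit 0) (XT.nd (nat_lit 78) (nat_lit 152) (nat_lit 0) (XT.lf (nat_lit 0) (nat_lit 56629881410) (nat_lit 228) (nat_lit 3760074881) (nat_lit 304) (nat_lit 10930720962) (nat_lit 28) (nat_lit 5) (nat_lit 31) (nat_lit 5) (nat_lit 32) (nat_lit 5) (nat_lit 310) (nat_lit 281) (nat_lit 129)) (XT.lf (nat_lit 0) (nat_lit 12763225306) (nat_lit 152) (nat_lit 57795849690) (nat_lit 228) (nat_lit 3243541937) (nat_lit 26) (nat_lit 5) (nat_lit 28) (nat_lit 5) (nat_lit 29) (nat_lit 5) (nat_lit 311) (nat_lit 281) (nat_lit 128))) (XT.nd (nat_lit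 78) (nat_lit 228) (nat_lit 0) (XT.lf (nat_lit 0) (nat_lit 4986787884) (nat_lit 228) (nat_lit 34438937672) (nat_lit 76) (nat_lit 36963497580) (nat_lit 25) (nat_lit 5) (nat_lit 28) (nat_lit 5) (nat_lit 26) (nat_lit 5) (nat_lit 312) (nat_lit 281) (nat_lit 127)) (XT.nd (nat_lit 78) (nat_lit 228) (nat_lit 0) (XT.lf (nat_lit 0) (nat_lit 13518489867) (nat_lit 228) (nat_lit 6563162309) (nat_lit 76) (nat_lit 59020909987) (nat_lit 25) (nat_lit 5) (nat_lit 28) (nat_lit 5) (nat_lit 26) (nat_lit 5) (nat_lit 313) (nat_lit 281) (nat_lit 126)) (XT.lf (nat_lit 0) (nat_lit 22851482728) (nat_lit 304) (nat_lit 58487224487) (nat_lit 76) (nat_lit 594129591) (nat_lit 22) (nat_lit 5) (nat_lit 26) (nat_lit 5) (nat_lit 23) (nat_lit 5) (nat_lit 314) (nat_lit 281) (nat_lit 125))))))))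
noncomputable def xc224 : XT := (XT.nd (nat_lit 1248) (nat_lit 456) (nat_lit 0) (XT.nd (nat_lit 624) (nat_lit 228) (nat_lit 0) (XT.nd (nat_lit 312) (nat_lit 380) (nat_lit 0) (XT.nd (nat_lit 156) (nat_lit 152) (nat_lit 0) (XT.nd (nat_lit 78) (nat_lit 0) (nat_lit 0) (XT.lf (nat_lit 0) (nat_lit 33092242822) (nat_lit 304) (nat_lit 30048896288) (nat_lit 76) (nat_lit 21741433960) (nat_lit 22) (nat_lit 5) (nat_lit 26) (nat_lit 5) (nat_lit 23) (nat_lit 5) (nat_lit 315) (nat_lit 281) (nat_lit 124)) (XT.lf (nat_lit 0) (nat_lit 43844029216) (nat_lit 304) (nat_lit 190063991) (nat_lit 76) (nat_lit 43945757110) (nat_lit 22) (nat_lit 5) (nat_lit 26) (nat_lit 5) (nat_lit 23) (nat_lit 5) (nat_lit 316) (nat_lit 281) (nat_lit 123))) (XT.nd (nat_lit 78) (nat_lit 0) (nat_lit 0) (XT.lf (nat_lit 0) (nat_lit 32190667246) (nat_lit 152) (nat_lit 23444360686) (nat_lit 228) (nat_lit 35571885760) (nat_lit 20)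 (nat_lit 5) (nat_lit 22) (nat_lit 5) (nat_lit 23) (nat_lit 5) (nat_lit 317) (nat_lit 281) (nat_lit 122)) (XT.lf (nat_lit 0) (nat_lit 66195710274) (nat_lit 152) (nat_lit 1822146830) (nat_lit 228) (nat_lit 26577362361) (nat_lit 20) (nat_lit 5) (nat_lit 22) (nat_lit 5) (nat_lit 23) (nat_lit 5) (nat_lit 318) (nat_lit 281) (nat_lit 121)))) (XT.nd (nat_lit 156) (nat_lit 228) (nat_lit 0) (XT.nd (nat_lit 78) (nat_lit 0) (nat_lit 0) (XT.lf (nat_lit 0) (nat_lit 3533854225) (nat_lit 152) (nat_lit 77866261228) (nat_lit 228) (nat_lit 16733813784) (nat_lit 18) (nat_lit 5) (nat_lit 20) (nat_lit 5) (nat_lit 21) (nat_lit 5) (nat_lit 319) (nat_lit 281) (nat_lit 120)) (XT.lf (nat_lit 0) (nat_lit 38017712310) (nat_lit 152) (nat_lit 57943246774) (nat_lit 228) (nat_lit 5863144747) (nat_lit 18) (nat_lit 5) (nat_lit 20) (nat_lit 5) (nat_lit 21) (nat_lit 5) (nat_lit 320) (nat_lit 281) (nat_lit 119))) (XT.nd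 (nat_lit 78) (nat_lit 152) (nat_lit 0) (XT.lf (nat_lit 0) (nat_lit 5372538030) (nat_lit 228) (nat_lit 31560942622) (nat_lit 76) (nat_lit 68761018362) (nat_lit 17) (nat_lit 5) (nat_lit 20) (nat_lit 5) (nat_lit 18) (nat_lit 5) (nat_lit 321) (nat_lit 281) (nat_lit 118)) (XT.lf (nat_lit 0) (nat_lit 2272194389) (nat_lit 152) (nat_lit 14735435104) (nat_lit 228) (nat_lit 92744247920) (nat_lit 15) (nat_lit 5) (nat_lit 17) (nat_lit 5) (nat_lit 18) (nat_lit 5) (nat_lit 322) (nat_lit 281) (nat_lit 117))))) (XT.nd (nat_lit 312) (nat_lit 76) (nat_lit 0) (XT.nd (nat_lit 156) (nat_lit 152) (nat_lit 0) (XT.nd (nat_lit 78) (nat_lit 0) (nat_lit 0) (XT.lf (nat_lit 0) (nat_lit 29900782277) (nat_lit 228) (nat_lit 75236498449) (nat_lit 76) (nat_lit 8841031098) (nat_lit 15) (nat_lit 5) (nat_lit 18) (nat_lit 5) (nat_lit 16) (nat_lit 5) (nat_lit 323) (nat_lit 281) (nat_lit 116)) (XT.lf (nat_lit 0) (nat_lit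 43679398800) (nat_lit 228) (nat_lit 41623869992) (nat_lit 76) (nat_lit 33100761172) (nat_lit 15) (nat_lit 5) (nat_lit 18) (nat_lit 5) (nat_lit 16) (nat_lit 5) (nat_lit 324) (nat_lit 281) (nat_lit 115))) (XT.nd (nat_lit 78) (nat_lit 152) (nat_lit 0) (XT.lf (nat_lit 0) (nat_lit 58146223854) (nat_lit 228) (nat_lit 6331706146) (nat_lit 76) (nat_lit 58573142326) (nat_lit 15) (nat_lit 5) (nat_lit 18) (nat_lit 5) (nat_lit 16) (nat_lit 5) (nat_lit 325) (nat_lit 281) (nat_lit 114)) (XT.lf (nat_lit 0) (nat_lit 31739896971) (nat_lit 152) (nat_lit 42091354032) (nat_lit 228) (nat_lit 54074474858) (nat_lit 13) (nat_lit 5) (nat_lit 15) (nat_lit 5) (nat_lit 16) (nat_lit 5) (nat_lit 326) (nat_lit 281) (nat_lit 113)))) (XT.nd (nat_lit 156) (nat_lit 76) (nat_lit 0) (XT.nd (nat_lit 78) (nat_lit 0) (nat_lit 0) (XT.lf (nat_lit 0) (nat_lit 71933875778) (nat_lit 152) (nat_lit 18473213063) (nat_lit 228) (nat_lit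 42590697263) (nat_lit 13) (nat_lit 5) (nat_lit 15) (nat_lit 5) (nat_lit 16) (nat_lit 5) (nat_lit 327) (nat_lit 281) (nat_lit 112)) (XT.lf (nat_lit 0) (nat_lit 107909838076) (nat_lit 228) (nat_lit 24306666519) (nat_lit 76) (nat_lit 6123040691) (nat_lit 13) (nat_lit 5) (nat_lit 16) (nat_lit 5) (nat_lit 14) (nat_lit 4) (nat_lit 328) (nat_lit 281) (nat_lit 111))) (XT.nd (nat_lit 78) (nat_lit 0) (nat_lit 0) (XT.lf (nat_lit 0) (nat_lit 14447036577) (nat_lit 76) (nat_lit 112368472666) (nat_lit 152) (nat_lit 17106495772) (nat_lit 12) (nat_lit 5) (nat_lit 13) (nat_lit 5) (nat_lit 14) (nat_lit 4) (nat_lit 329) (nat_lit 281) (nat_lit 110)) (XT.lf (nat_lit 0) (nat_lit 55981354131) (nat_lit 76) (nat_lit 91096155683) (nat_lit 152) (nat_lit 2685527350) (nat_lit 12) (nat_lit 5) (nat_lit 13) (nat_lit 5) (nat_lit 14) (nat_lit 4) (nat_lit 330) (nat_lit 281) (nat_lit 109)))))) (XT.nd (nat_lit 624) (nat_lit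 152) (nat_lit 0) (XT.nd (nat_lit 312) (nat_lit 76) (nat_lit 0) (XT.nd (nat_lit 156) (nat_lit 152) (nat_lit 0) (XT.nd (nat_lit 78) (nat_lit 0) (nat_lit 0) (XT.lf (nat_lit 0) (nat_lit 12057222313) (nat_lit 152) (nat_lit 56499133223) (nat_lit 76) (nat_lit 87330071999) (nat_lit 11) (nat_lit 5) (nat_lit 13) (nat_lit 5) (nat_lit 12) (nat_lit 5) (nat_lit 331) (nat_lit 281) (nat_lit 108)) (XT.lf (nat_lit 0) (nat_lit 27446304110) (nat_lit 152) (nat_lit 17397356346) (nat_lit 76) (nat_lit 117470154909) (nat_lit 11) (nat_lit 5) (nat_lit 13) (nat_lit 5) (nat_lit 12) (nat_lit 5) (nat_lit 332) (nat_lit 281) (nat_lit 107))) (XT.nd (nat_lit 78) (nat_lit 0) (nat_lit 0) (XT.lf (nat_lit 0) (nat_lit 24440938337) (nat_lit 152) (nat_lit 19544965562) (nat_lit 228) (nat_lit 125057616910) (nat_lit 9) (nat_lit 5) (nat_lit 11) (nat_lit 5) (nat_lit 12) (nat_lit 5) (nat_lit 333) (nat_lit 281) (nat_lit 106)) (XT.lf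 (nat_lit 0) (nat_lit 61761007305) (nat_lit 228) (nat_lit 107235088881) (nat_lit 76) (nat_lit 7093190511) (nat_lit 9) (nat_lit 5) (nat_lit 12) (nat_lit 5) (nat_lit 10) (nat_lit 4) (nat_lit 334) (nat_lit 281) (nat_lit 105)))) (XT.nd (nat_lit 156) (nat_lit 76) (nat_lit 0) (XT.nd (nat_lit 78) (nat_lit 0) (nat_lit 0) (XT.lf (nat_lit 0) (nat_lit 80744779836) (nat_lit 228) (nat_lit 68320432369) (nat_lit 76) (nat_lit 34406134264) (nat_lit 9) (nat_lit 5) (nat_lit 12) (nat_lit 5) (nat_lit 10) (nat_lit 4) (nat_lit 335) (nat_lit 281) (nat_lit 104)) (XT.lf (nat_lit 0) (nat_lit 100677269265) (nat_lit 228) (nat_lit 27460807303) (nat_lit 76) (nat_lit 63084457474) (nat_lit 9) (nat_lit 5) (nat_lit 12) (nat_lit 5) (nat_lit 10) (nat_lit 4) (nat_lit 336) (nat_lit 281) (nat_lit 103))) (XT.nd (nat_lit 78) (nat_lit 0) (nat_lit 0) (XT.lf (nat_lit 0) (nat_lit 15951622682) (nat_lit 76) (nat_lit 105903360752)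 (nat_lit 152) (nat_lit 77493868715) (nat_lit 8) (nat_lit 5) (nat_lit 9) (nat_lit 5) (nat_lit 10) (nat_lit 4) (nat_lit 337) (nat_lit 281) (nat_lit 102)) (XT.lf (nat_lit 0) (nat_lit 62487335249) (nat_lit 76) (nat_lit 82068871068) (nat_lit 152) (nat_lit 63302049805) (nat_lit 8) (nat_lit 5) (nat_lit 9) (nat_lit 5) (nat_lit 10) (nat_lit 4) (nat_lit 338) (nat_lit 281) (nat_lit 101))))) (XT.nd (nat_lit 33072) (nat_lit 0) (nat_lit 3724) (XT.nd (nat_lit 156) (nat_lit 152) (nat_lit 0) (XT.nd (nat_lit 78) (nat_lit 0) (nat_lit 0) (XT.lf (nat_lit 0) (nat_lit 111349151409) (nat_lit 76) (nat_lit 57042920790) (nat_lit 152) (nat_lit 48401080062) (nat_lit 8) (nat_lit 5) (nat_lit 9) (nat_lit 5) (nat_lit 10) (nat_lit 4) (nat_lit 339) (nat_lit 281) (nat_lit 100)) (XT.lf (nat_lit 0) (nat_lit 162653408817) (nat_lit 76) (nat_lit 30765924324) (nat_lit 152) (nat_lit 32755480986) (nat_lit 8) (nat_lit 5) (nat_lit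 9) (nat_lit 5) (nat_lit 10) (nat_lit 4) (nat_lit 340) (nat_lit 281) (nat_lit 99))) (XT.nd (nat_lit 78) (nat_lit 152) (nat_lit 0) (XT.lf (nat_lit 0) (nat_lit 216522260468) (nat_lit 76) (nat_lit 3175317391) (nat_lit 152) (nat_lit 16328001151) (nat_lit 8) (nat_lit 5) (nat_lit 9) (nat_lit 5) (nat_lit 10) (nat_lit 4) (nat_lit 341) (nat_lit 281) (nat_lit 98)) (XT.lf (nat_lit 0) (nat_lit 1731689366) (nat_lit 152) (nat_lit 219173132375) (nat_lit 76) (nat_lit 25421326927) (nat_lit 6) (nat_lit 5) (nat_lit 8) (nat_lit 5) (nat_lit 7) (nat_lit 4) (nat_lit 342) (nat_lit 281) (nat_lit 97)))) (XT.nd (nat_lit 156) (nat_lit 684) (nat_lit 0) (XT.nd (nat_lit 78) (nat_lit 0) (nat_lit 0) (XT.lf (nat_lit 0) (nat_lit 15831900284) (nat_lit 684) (nat_lit 99608200) (nat_lit 684) (nat_lit 99608200) (nat_lit 64) (nat_lit 3) (nat_lit 73) (nat_lit 3) (nat_lit 73) (nat_lit 5) (nat_lit 282) (nat_lit 282) (nat_lit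 156)) (XT.lf (nat_lit 76) (nat_lit 13004612461) (nat_lit 0) (nat_lit 19708462935) (nat_lit 684) (nat_lit 137535463) (nat_lit 65) (nat_lit 5) (nat_lit 64) (nat_lit 3) (nat_lit 73) (nat_lit 5) (nat_lit 283) (nat_lit 282) (nat_lit 155))) (XT.nd (nat_lit 78) (nat_lit 0) (nat_lit 76) (XT.lf (nat_lit 0) (nat_lit 131866444) (nat_lit 684) (nat_lit 6806918272) (nat_lit 760) (nat_lit 26739542687) (nat_lit 55) (nat_lit 5) (nat_lit 64) (nat_lit 3) (nat_lit 65) (nat_lit 5) (nat_lit 284) (nat_lit 282) (nat_lit 154)) (XT.nd (nat_lit 78) (nat_lit 0) (nat_lit 0) (XT.lf (nat_lit 0) (nat_lit 620535137) (nat_lit 684) (nat_lit 27537446093) (nat_lit 760) (nat_lit 6378831960) (nat_lit 56) (nat_lit 5) (nat_lit 65) (nat_lit 5) (nat_lit 66) (nat_lit 5) (nat_lit 285) (nat_lit 282) (nat_lit 153)) (XT.lf (nat_lit 0) (nat_lit 1361279254) (nat_lit 684) (nat_lit 13817930085) (nat_lit 760) (nat_lit 20247648106) (nat_lit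 56) (nat_lit 5) (nat_lit 65) (nat_lit 5) (nat_lit 66) (nat_lit 5) (nat_lit 286) (nat_lit 282) (nat_lit 152))))))))
noncomputable def xc225 : XT := (XT.nd (nat_lit 1326) (nat_lit 1520) (nat_lit 0) (XT.nd (nat_lit 624) (nat_lit 1368) (nat_lit 0) (XT.nd (nat_lit 312) (nat_lit 0) (nat_lit 152) (XT.nd (nat_lit 156) (nat_lit 0) (nat_lit 76) (XT.nd (nat_lit 78) (nat_lit 0) (nat_lit 76) (XT.lf (nat_lit 76) (nat_lit 604905399) (nat_lit 0) (nat_lit 1540478641) (nat_lit 760) (nat_lit 34215719202) (nat_lit 57) (nat_lit 5) (nat_lit 56) (nat_lit 5) (nat_lit 66) (nat_lit 5) (nat_lit 287) (nat_lit 282) (nat_lit 151)) (XT.lf (nat_lit 0) (nat_lit 3403090968) (nat_lit 684) (nat_lit 21307286884) (nat_lit 760) (nat_lit 12609978395) (nat_lit 57) (nat_lit 5) (nat_lit 66) (nat_lit 5) (nat_lit 67) (nat_lit 5) (nat_lit 288) (nat_lit 282) (nat_lit 150))) (XT.nd (nat_lit 78) (nat_lit 0) (nat_lit 76) (XT.lf (nat_lit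 0) (nat_lit 4746091966) (nat_lit 684) (nat_lit 6163246378) (nat_lit 760) (nat_lit 27417127181) (nat_lit 57) (nat_lit 5) (nat_lit 66) (nat_lit 5) (nat_lit 67) (nat_lit 5) (nat_lit 289) (nat_lit 282) (nat_lit 149)) (XT.lf (nat_lit 0) (nat_lit 6369073395) (nat_lit 684) (nat_lit 29375735360) (nat_lit 760) (nat_lit 3627443386) (nat_lit 58) (nat_lit 5) (nat_lit 67) (nat_lit 5) (nat_lit 68) (nat_lit 5) (nat_lit 290) (nat_lit 282) (nat_lit 148)))) (XT.nd (nat_lit 156) (nat_lit 0) (nat_lit 76) (XT.nd (nat_lit 78) (nat_lit 0) (nat_lit 0) (XT.lf (nat_lit 0) (nat_lit 8355534074) (nat_lit 684) (nat_lit 13469506084) (nat_lit 760) (nat_lit 18631184174) (nat_lit 58) (nat_lit 5) (nat_lit 67) (nat_lit 5) (nat_lit 68) (nat_lit 5) (nat_lit 291) (nat_lit 282) (nat_lit 147)) (XT.lf (nat_lit 76) (nat_lit 3336847715) (nat_lit 0) (nat_lit 7154091330) (nat_lit 760) (nat_lit 31100987169) (nat_lit 59) (nat_lit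 5) (nat_lit 58) (nat_lit 5) (nat_lit 68) (nat_lit 5) (nat_lit 292) (nat_lit 282) (nat_lit 146))) (XT.nd (nat_lit 78) (nat_lit 0) (nat_lit 0) (XT.lf (nat_lit 0) (nat_lit 13091396251) (nat_lit 684) (nat_lit 21456501662) (nat_lit 76) (nat_lit 8218612747) (nat_lit 59) (nat_lit 5) (nat_lit 68) (nat_lit 5) (nat_lit 60) (nat_lit 5) (nat_lit 293) (nat_lit 282) (nat_lit 145)) (XT.lf (nat_lit 0) (nat_lit 15936887824) (nat_lit 684) (nat_lit 3937269166) (nat_lit 76) (nat_lit 24119927779) (nat_lit 59) (nat_lit 5) (nat_lit 68) (nat_lit 5) (nat_lit 60) (nat_lit 5) (nat_lit 294) (nat_lit 282) (nat_lit 144))))) (XT.nd (nat_lit 312) (nat_lit 608) (nat_lit 0) (XT.nd (nat_lit 156) (nat_lit 304) (nat_lit 0) (XT.nd (nat_lit 78) (nat_lit 0) (nat_lit 0) (XT.lf (nat_lit 0) (nat_lit 14934008393) (nat_lit 684) (nat_lit 4221646660) (nat_lit 760) (nat_lit 26115842968) (nat_lit 50) (nat_lit 5) (nat_lit 59) (nat_lit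 5) (nat_lit 60) (nat_lit 5) (nat_lit 295) (nat_lit 282) (nat_lit 143)) (XT.lf (nat_lit 0) (nat_lit 22791736618) (nat_lit 760) (nat_lit 11917670179) (nat_lit 76) (nat_lit 11890566335) (nat_lit 50) (nat_lit 5) (nat_lit 60) (nat_lit 5) (nat_lit 51) (nat_lit 5) (nat_lit 296) (nat_lit 282) (nat_lit 142))) (XT.nd (nat_lit 78) (nat_lit 0) (nat_lit 0) (XT.lf (nat_lit 0) (nat_lit 7595133931) (nat_lit 304) (nat_lit 19200292702) (nat_lit 380) (nat_lit 21190164662) (nat_lit 46) (nat_lit 5) (nat_lit 50) (nat_lit 5) (nat_lit 51) (nat_lit 5) (nat_lit 297) (nat_lit 282) (nat_lit 141)) (XT.lf (nat_lit 0) (nat_lit 28495472634) (nat_lit 304) (nat_lit 2703741199) (nat_lit 380) (nat_lit 18231289964) (nat_lit 46) (nat_lit 5) (nat_lit 50) (nat_lit 5) (nat_lit 51) (nat_lit 5) (nat_lit 298) (nat_lit 282) (nat_lit 140)))) (XT.nd (nat_lit 156) (nat_lit 304) (nat_lit 0) (XT.nd (nat_lit 78) (nat_lit 304) (nat_lit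 0) (XT.lf (nat_lit 0) (nat_lit 36049586101) (nat_lit 380) (nat_lit 736928453) (nat_lit 76) (nat_lit 14149836215) (nat_lit 46) (nat_lit 5) (nat_lit 51) (nat_lit 5) (nat_lit 47) (nat_lit 5) (nat_lit 299) (nat_lit 282) (nat_lit 139)) (XT.lf (nat_lit 0) (nat_lit 21100314257) (nat_lit 304) (nat_lit 20414181787) (nat_lit 380) (nat_lit 10984401314) (nat_lit 42) (nat_lit 5) (nat_lit 46) (nat_lit 5) (nat_lit 47) (nat_lit 5) (nat_lit 300) (nat_lit 282) (nat_lit 138))) (XT.nd (nat_lit 78) (nat_lit 304) (nat_lit 0) (XT.lf (nat_lit 0) (nat_lit 44053249017) (nat_lit 304) (nat_lit 3210198547) (nat_lit 380) (nat_lit 6875591738) (nat_lit 42) (nat_lit 5) (nat_lit 46) (nat_lit 5) (nat_lit 47) (nat_lit 5) (nat_lit 301) (nat_lit 282) (nat_lit 137)) (XT.nd (nat_lit 78) (nat_lit 76) (nat_lit 0) (XT.lf (nat_lit 0) (nat_lit 12457696304) (nat_lit 228) (nat_lit 41266957216) (nat_lit 304) (nat_lit 2115301936)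 (nat_lit 39) (nat_lit 5) (nat_lit 42) (nat_lit 5) (nat_lit 43) (nat_lit 5) (nat_lit 302) (nat_lit 282) (nat_lit 136)) (XT.lf (nat_lit 0) (nat_lit 3015374392) (nat_lit 304) (nat_lit 21241090576) (nat_lit 76) (nat_lit 33355976321) (nat_lit 38) (nat_lit 5) (nat_lit 42) (nat_lit 5) (nat_lit 39) (nat_lit 5) (nat_lit 303) (nat_lit 282) (nat_lit 135))))))) (XT.nd (nat_lit 624) (nat_lit 760) (nat_lit 0) (XT.nd (nat_lit 312) (nat_lit 228) (nat_lit 0) (XT.nd (nat_lit 156) (nat_lit 228) (nat_lit 0) (XT.nd (nat_lit 78) (nat_lit 0) (nat_lit 0) (XT.lf (nat_lit 0) (nat_lit 2035918058) (nat_lit 304) (nat_lit 6325852513) (nat_lit 380) (nat_lit 51108539727) (nat_lit 34) (nat_lit 5) (nat_lit 38) (nat_lit 5) (nat_lit 39) (nat_lit 5) (nat_lit 304) (nat_lit 282) (nat_lit 134)) (XT.lf (nat_lit 0) (nat_lit 14534822313) (nat_lit 380) (nat_lit 34391695988) (nat_lit 76) (nat_lit 12466593803) (nat_lit 34) (nat_lit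 5) (nat_lit 39) (nat_lit 5) (nat_lit 35) (nat_lit 5) (nat_lit 305) (nat_lit 282) (nat_lit 133))) (XT.nd (nat_lit 78) (nat_lit 228) (nat_lit 0) (XT.lf (nat_lit 0) (nat_lit 21118829374) (nat_lit 380) (nat_lit 10302236088) (nat_lit 76) (nat_lit 31985879245) (nat_lit 34) (nat_lit 5) (nat_lit 39) (nat_lit 5) (nat_lit 35) (nat_lit 5) (nat_lit 306) (nat_lit 282) (nat_lit 132)) (XT.lf (nat_lit 0) (nat_lit 15485748255) (nat_lit 228) (nat_lit 12786731349) (nat_lit 304) (nat_lit 37236972759) (nat_lit 31) (nat_lit 5) (nat_lit 34) (nat_lit 5) (nat_lit 35) (nat_lit 5) (nat_lit 307) (nat_lit 282) (nat_lit 131)))) (XT.nd (nat_lit 156) (nat_lit 0) (nat_lit 0) (XT.nd (nat_lit 78) (nat_lit 228) (nat_lit 0) (XT.lf (nat_lit 0) (nat_lit 36065691844) (nat_lit 304) (nat_lit 24897893305) (nat_lit 76) (nat_lit 6739411577) (nat_lit 31) (nat_lit 5) (nat_lit 35) (nat_lit 5) (nat_lit 32) (nat_lit 5) (nat_lit 308)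 (nat_lit 282) (nat_lit 130)) (XT.lf (nat_lit 0) (nat_lit 1315130089) (nat_lit 228) (nat_lit 43162349589) (nat_lit 304) (nat_lit 25517297926) (nat_lit 28) (nat_lit 5) (nat_lit 31) (nat_lit 5) (nat_lit 32) (nat_lit 5) (nat_lit 309) (nat_lit 282) (nat_lit 129))) (XT.nd (nat_lit 78) (nat_lit 0) (nat_lit 0) (XT.lf (nat_lit 0) (nat_lit 29701676541) (nat_lit 228) (nat_lit 24028636847) (nat_lit 304) (nat_lit 18649816123) (nat_lit 28) (nat_lit 5) (nat_lit 31) (nat_lit 5) (nat_lit 32) (nat_lit 5) (nat_lit 310) (nat_lit 282) (nat_lit 128)) (XT.lf (nat_lit 0) (nat_lit 59506096268) (nat_lit 228) (nat_lit 3938548335) (nat_lit 304) (nat_lit 11440166196) (nat_lit 28) (nat_lit 5) (nat_lit 31) (nat_lit 5) (nat_lit 32) (nat_lit 5) (nat_lit 311) (nat_lit 282) (nat_lit 127))))) (XT.nd (nat_lit 312) (nat_lit 304) (nat_lit 0) (XT.nd (nat_lit 156) (nat_lit 228) (nat_lit 0) (XT.nd (nat_lit 78) (nat_lit 76)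 (nat_lit 0) (XT.lf (nat_lit 0) (nat_lit 13447109329) (nat_lit 152) (nat_lit 60674289746) (nat_lit 228) (nat_lit 3369496101) (nat_lit 26) (nat_lit 5) (nat_lit 28) (nat_lit 5) (nat_lit 29) (nat_lit 5) (nat_lit 312) (nat_lit 282) (nat_lit 126)) (XT.lf (nat_lit 0) (nat_lit 5269521158) (nat_lit 228) (nat_lit 36116113298) (nat_lit 76) (nat_lit 38821258521) (nat_lit 25) (nat_lit 5) (nat_lit 28) (nat_lit 5) (nat_lit 26) (nat_lit 5) (nat_lit 313) (nat_lit 282) (nat_lit 125))) (XT.nd (nat_lit 78) (nat_lit 228) (nat_lit 0) (XT.lf (nat_lit 0) (nat_lit 14226218055) (nat_lit 228) (nat_lit 6848681131) (nat_lit 76) (nat_lit 61981085070) (nat_lit 25) (nat_lit 5) (nat_lit 28) (nat_lit 5) (nat_lit 26) (nat_lit 5) (nat_lit 314) (nat_lit 282) (nat_lit 124)) (XT.lf (nat_lit 0) (nat_lit 24025172934) (nat_lit 304) (nat_lit 61368148479) (nat_lit 76) (nat_lit 634491115) (nat_lit 22) (nat_lit 5) (nat_lit 26)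 (nat_lit 5) (nat_lit 23) (nat_lit 5) (nat_lit 315) (nat_lit 282) (nat_lit 123)))) (XT.nd (nat_lit 156) (nat_lit 304) (nat_lit 0) (XT.nd (nat_lit 78) (nat_lit 0) (nat_lit 0) (XT.lf (nat_lit 0) (nat_lit 34776489315) (nat_lit 304) (nat_lit 31509972309) (nat_lit 76) (nat_lit 22838653319) (nat_lit 22) (nat_lit 5) (nat_lit 26) (nat_lit 5) (nat_lit 23) (nat_lit 5) (nat_lit 316) (nat_lit 282) (nat_lit 122)) (XT.lf (nat_lit 0) (nat_lit 46064453870) (nat_lit 304) (nat_lit 160168340) (nat_lit 76) (nat_lit 46152709404) (nat_lit 22) (nat_lit 5) (nat_lit 26) (nat_lit 5) (nat_lit 23) (nat_lit 5) (nat_lit 317) (nat_lit 282) (nat_lit 121))) (XT.nd (nat_lit 78) (nat_lit 152) (nat_lit 0) (XT.lf (nat_lit 0) (nat_lit 33838963994) (nat_lit 152) (nat_lit 24605299771) (nat_lit 228) (nat_lit 37321526096) (nat_lit 20) (nat_lit 5) (nat_lit 22) (nat_lit 5) (nat_lit 23) (nat_lit 5) (nat_lit 318) (nat_lit 282)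 (nat_lit 120)) (XT.nd (nat_lit 78) (nat_lit 152) (nat_lit 0) (XT.lf (nat_lit 0) (nat_lit 69542413297) (nat_lit 152) (nat_lit 1902512315) (nat_lit 228) (nat_lit 27878655287) (nat_lit 20) (nat_lit 5) (nat_lit 22) (nat_lit 5) (nat_lit 23) (nat_lit 5) (nat_lit 319) (nat_lit 282) (nat_lit 119)) (XT.lf (nat_lit 0) (nat_lit 3748080962) (nat_lit 152) (nat_lit 81747715193) (nat_lit 228) (nat_lit 17543459363) (nat_lit 18) (nat_lit 5) (nat_lit 20) (nat_lit 5) (nat_lit 21) (nat_lit 5) (nat_lit 320) (nat_lit 282) (nat_lit 118))))))))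
noncomputable def xc226 : XT := (XT.nd (nat_lit 1326) (nat_lit 76) (nat_lit 0) (XT.nd (nat_lit 624) (nat_lit 304) (nat_lit 0) (XT.nd (nat_lit 312) (nat_lit 152) (nat_lit 0) (XT.nd (nat_lit 156) (nat_lit 152) (nat_lit 0) (XT.nd (nat_lit 78) (nat_lit 76) (nat_lit 0) (XT.lf (nat_lit 0) (nat_lit 39954344617) (nat_lit 152) (nat_lit 60829114735) (nat_lit 228) (nat_lit 6130544736) (nat_lit 18) (nat_lit 5) (nat_lit 20) (nat_lit 5) (nat_lit 21) (nat_lit 5) (nat_lit 321) (nat_lit 282) (nat_lit 117)) (XT.lf (nat_lit 0) (nat_lit 5664910508) (nat_lit 228) (nat_lit 33104085483) (nat_lit 76) (nat_lit 72208966029) (nat_lit 17) (nat_lit 5) (nat_lit 20) (nat_lit 5) (nat_lit 18) (nat_lit 5) (nat_lit 322) (nat_lit 282) (nat_lit 116))) (XT.nd (nat_lit 78) (nat_lit 0) (nat_lit 0) (XT.lf (nat_lit 0) (nat_lit 2420145406) (nat_lit 152) (nat_lit 15461016561) (nat_lit 228) (nat_lit 97357080658) (nat_lit 15)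 (nat_lit 5) (nat_lit 17) (nat_lit 5) (nat_lit 18) (nat_lit 5) (nat_lit 323) (nat_lit 282) (nat_lit 115)) (XT.lf (nat_lit 0) (nat_lit 31418036353) (nat_lit 228) (nat_lit 78964613614) (nat_lit 76) (nat_lit 9293398977) (nat_lit 15) (nat_lit 5) (nat_lit 18) (nat_lit 5) (nat_lit 16) (nat_lit 5) (nat_lit 324) (nat_lit 282) (nat_lit 114)))) (XT.nd (nat_lit 156) (nat_lit 152) (nat_lit 0) (XT.nd (nat_lit 78) (nat_lit 0) (nat_lit 0) (XT.lf (nat_lit 0) (nat_lit 45884525847) (nat_lit 228) (nat_lit 43672958960) (nat_lit 76) (nat_lit 34765624301) (nat_lit 15) (nat_lit 5) (nat_lit 18) (nat_lit 5) (nat_lit 16) (nat_lit 5) (nat_lit 325) (nat_lit 282) (nat_lit 113)) (XT.lf (nat_lit 0) (nat_lit 61073684672) (nat_lit 228) (nat_lit 6617715709) (nat_lit 76) (nat_lit 61511156652) (nat_lit 15) (nat_lit 5) (nat_lit 18) (nat_lit 5) (nat_lit 16) (nat_lit 5) (nat_lit 326) (nat_lit 282) (nat_lit 112))) (XT.nd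 (nat_lit 78) (nat_lit 0) (nat_lit 0) (XT.lf (nat_lit 0) (nat_lit 33356974406) (nat_lit 152) (nat_lit 44185498940) (nat_lit 228) (nat_lit 56757497315) (nat_lit 13) (nat_lit 5) (nat_lit 15) (nat_lit 5) (nat_lit 16) (nat_lit 5) (nat_lit 327) (nat_lit 282) (nat_lit 111)) (XT.lf (nat_lit 0) (nat_lit 75559219650) (nat_lit 152) (nat_lit 19386947246) (nat_lit 228) (nat_lit 44700516616) (nat_lit 13) (nat_lit 5) (nat_lit 15) (nat_lit 5) (nat_lit 16) (nat_lit 5) (nat_lit 328) (nat_lit 282) (nat_lit 110))))) (XT.nd (nat_lit 312) (nat_lit 152) (nat_lit 0) (XT.nd (nat_lit 156) (nat_lit 76) (nat_lit 0) (XT.nd (nat_lit 78) (nat_lit 76) (nat_lit 0) (XT.lf (nat_lit 0) (nat_lit 113323309592) (nat_lit 228) (nat_lit 25493916988) (nat_lit 76) (nat_lit 6438343926) (nat_lit 13) (nat_lit 5) (nat_lit 16) (nat_lit 5) (nat_lit 14) (nat_lit 4) (nat_lit 329) (nat_lit 282) (nat_lit 109)) (XT.lf (nat_lit 0) (nat_lit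 15197018313) (nat_lit 76) (nat_lit 117976821212) (nat_lit 152) (nat_lit 17943337463) (nat_lit 12) (nat_lit 5) (nat_lit 13) (nat_lit 5) (nat_lit 14) (nat_lit 4) (nat_lit 330) (nat_lit 282) (nat_lit 108))) (XT.nd (nat_lit 78) (nat_lit 76) (nat_lit 0) (XT.lf (nat_lit 0) (nat_lit 58806736035) (nat_lit 76) (nat_lit 95641368146) (nat_lit 152) (nat_lit 2802200767) (nat_lit 12) (nat_lit 5) (nat_lit 13) (nat_lit 5) (nat_lit 14) (nat_lit 4) (nat_lit 331) (nat_lit 282) (nat_lit 107)) (XT.lf (nat_lit 0) (nat_lit 12676311568) (nat_lit 152) (nat_lit 59298448512) (nat_lit 76) (nat_lit 91705133769) (nat_lit 11) (nat_lit 5) (nat_lit 13) (nat_lit 5) (nat_lit 12) (nat_lit 5) (nat_lit 332) (nat_lit 282) (nat_lit 106)))) (XT.nd (nat_lit 156) (nat_lit 0) (nat_lit 0) (XT.nd (nat_lit 78) (nat_lit 152) (nat_lit 0) (XT.lf (nat_lit 0) (nat_lit 28834074686) (nat_lit 152) (nat_lit 18242803809) (nat_lit 76) (nat_lit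 123351813292) (nat_lit 11) (nat_lit 5) (nat_lit 13) (nat_lit 5) (nat_lit 12) (nat_lit 5) (nat_lit 333) (nat_lit 282) (nat_lit 105)) (XT.lf (nat_lit 0) (nat_lit 25687011731) (nat_lit 152) (nat_lit 20513281884) (nat_lit 228) (nat_lit 131294608912) (nat_lit 9) (nat_lit 5) (nat_lit 11) (nat_lit 5) (nat_lit 12) (nat_lit 5) (nat_lit 334) (nat_lit 282) (nat_lit 104))) (XT.nd (nat_lit 78) (nat_lit 0) (nat_lit 0) (XT.lf (nat_lit 0) (nat_lit 64863566217) (nat_lit 228) (nat_lit 112573337281) (nat_lit 76) (nat_lit 7456084396) (nat_lit 9) (nat_lit 5) (nat_lit 12) (nat_lit 5) (nat_lit 10) (nat_lit 4) (nat_lit 335) (nat_lit 282) (nat_lit 103)) (XT.nd (nat_lit 78) (nat_lit 0) (nat_lit 0) (XT.lf (nat_lit 0) (nat_lit 84795836492) (nat_lit 228) (nat_lit 71714067278) (nat_lit 76) (nat_lit 36134283225) (nat_lit 9) (nat_lit 5) (nat_lit 12) (nat_lit 5) (nat_lit 10) (nat_lit 4) (nat_lit 336) (nat_lit 282)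 (nat_lit 102)) (XT.lf (nat_lit 0) (nat_lit 105724292408) (nat_lit 228) (nat_lit 28812526993) (nat_lit 76) (nat_lit 66246149155) (nat_lit 9) (nat_lit 5) (nat_lit 12) (nat_lit 5) (nat_lit 10) (nat_lit 4) (nat_lit 337) (nat_lit 282) (nat_lit 101))))))) (XT.nd (nat_lit 33462) (nat_lit 0) (nat_lit 3648) (XT.nd (nat_lit 312) (nat_lit 0) (nat_lit 0) (XT.nd (nat_lit 156) (nat_lit 0) (nat_lit 0) (XT.nd (nat_lit 78) (nat_lit 0) (nat_lit 0) (XT.lf (nat_lit 0) (nat_lit 16770180609) (nat_lit 76) (nat_lit 111190412531) (nat_lit 152) (nat_lit 81355026013) (nat_lit 8) (nat_lit 5) (nat_lit 9) (nat_lit 5) (nat_lit 10) (nat_lit 4) (nat_lit 338) (nat_lit 282) (nat_lit 100)) (XT.lf (nat_lit 0) (nat_lit 65631679911) (nat_lit 76) (nat_lit 86164584851) (nat_lit 152) (nat_lit 66454260736) (nat_lit 8) (nat_lit 5) (nat_lit 9) (nat_lit 5) (nat_lit 10) (nat_lit 4) (nat_lit 339) (nat_lit 282) (nat_lit 99))) (XT.nd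 (nat_lit 78) (nat_lit 0) (nat_lit 0) (XT.lf (nat_lit 0) (nat_lit 116935635549) (nat_lit 76) (nat_lit 59887705144) (nat_lit 152) (nat_lit 50808856389) (nat_lit 8) (nat_lit 5) (nat_lit 9) (nat_lit 5) (nat_lit 10) (nat_lit 4) (nat_lit 340) (nat_lit 282) (nat_lit 98)) (XT.lf (nat_lit 0) (nat_lit 170804199801) (nat_lit 76) (nat_lit 32297209410) (nat_lit 152) (nat_lit 34381562011) (nat_lit 8) (nat_lit 5) (nat_lit 9) (nat_lit 5) (nat_lit 10) (nat_lit 4) (nat_lit 341) (nat_lit 282) (nat_lit 97)))) (XT.nd (nat_lit 32994) (nat_lit 0) (nat_lit 3572) (XT.nd (nat_lit 32916) (nat_lit 0) (nat_lit 4256) (XT.lf (nat_lit 0) (nat_lit 227365631151) (nat_lit 76) (nat_lit 3327405994) (nat_lit 152) (nat_lit 17133264995) (nat_lit 8) (nat_lit 5) (nat_lit 9) (nat_lit 5) (nat_lit 10) (nat_lit 4) (nat_lit 342) (nat_lit 282) (nat_lit 96)) (XT.lf (nat_lit 0) (nat_lit 16677283561) (nat_lit 684) (nat_lit 76204892)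 (nat_lit 684) (nat_lit 76204892) (nat_lit 64) (nat_lit 3) (nat_lit 73) (nat_lit 3) (nat_lit 73) (nat_lit 5) (nat_lit 283) (nat_lit 283) (nat_lit 154))) (XT.nd (nat_lit 78) (nat_lit 684) (nat_lit 0) (XT.lf (nat_lit 76) (nat_lit 13710694917) (nat_lit 0) (nat_lit 20741360086) (nat_lit 684) (nat_lit 35368181) (nat_lit 65) (nat_lit 5) (nat_lit 64) (nat_lit 3) (nat_lit 73) (nat_lit 5) (nat_lit 284) (nat_lit 283) (nat_lit 153)) (XT.lf (nat_lit 0) (nat_lit 238987351) (nat_lit 684) (nat_lit 7090247454) (nat_lit 760) (nat_lit 28027481975) (nat_lit 55) (nat_lit 5) (nat_lit 64) (nat_lit 3) (nat_lit 65) (nat_lit 5) (nat_lit 285) (nat_lit 283) (nat_lit 152))))) (XT.nd (nat_lit 312) (nat_lit 0) (nat_lit 76) (XT.nd (nat_lit 156) (nat_lit 0) (nat_lit 0) (XT.nd (nat_lit 78) (nat_lit 0) (nat_lit 0) (XT.lf (nat_lit 0) (nat_lit 747545664) (nat_lit 684) (nat_lit 28852281079) (nat_lit 760) (nat_lit 6658551145)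 (nat_lit 56) (nat_lit 5) (nat_lit 65) (nat_lit 5) (nat_lit 66) (nat_lit 5) (nat_lit 286) (nat_lit 283) (nat_lit 151)) (XT.lf (nat_lit 0) (nat_lit 1520756331) (nat_lit 684) (nat_lit 14449743428) (nat_lit 760) (nat_lit 21222675832) (nat_lit 56) (nat_lit 5) (nat_lit 65) (nat_lit 5) (nat_lit 66) (nat_lit 5) (nat_lit 287) (nat_lit 283) (nat_lit 150))) (XT.nd (nat_lit 78) (nat_lit 0) (nat_lit 76) (XT.lf (nat_lit 76) (nat_lit 693280876) (nat_lit 0) (nat_lit 1647340050) (nat_lit 760) (nat_lit 35833706644) (nat_lit 57) (nat_lit 5) (nat_lit 56) (nat_lit 5) (nat_lit 66) (nat_lit 5) (nat_lit 288) (nat_lit 283) (nat_lit 149)) (XT.lf (nat_lit 0) (nat_lit 3656580600) (nat_lit 684) (nat_lit 22312244669) (nat_lit 760) (nat_lit 13212970179) (nat_lit 57) (nat_lit 5) (nat_lit 66) (nat_lit 5) (nat_lit 67) (nat_lit 5) (nat_lit 289) (nat_lit 283) (nat_lit 148)))) (XT.nd (nat_lit 156) (nat_lit 0) (nat_lit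 76) (XT.nd (nat_lit 78) (nat_lit 0) (nat_lit 76) (XT.lf (nat_lit 0) (nat_lit 5062763311) (nat_lit 684) (nat_lit 6413878641) (nat_lit 760) (nat_lit 28761786269) (nat_lit 57) (nat_lit 5) (nat_lit 66) (nat_lit 5) (nat_lit 67) (nat_lit 5) (nat_lit 290) (nat_lit 283) (nat_lit 147)) (XT.lf (nat_lit 0) (nat_lit 6763687950) (nat_lit 684) (nat_lit 30783412647) (nat_lit 760) (nat_lit 3789582542) (nat_lit 58) (nat_lit 5) (nat_lit 67) (nat_lit 5) (nat_lit 68) (nat_lit 5) (nat_lit 291) (nat_lit 283) (nat_lit 146))) (XT.nd (nat_lit 78) (nat_lit 0) (nat_lit 0) (XT.lf (nat_lit 0) (nat_lit 8845844955) (nat_lit 684) (nat_lit 14084781882) (nat_lit 760) (nat_lit 19544426226) (nat_lit 58) (nat_lit 5) (nat_lit 67) (nat_lit 5) (nat_lit 68) (nat_lit 5) (nat_lit 292) (nat_lit 283) (nat_lit 145)) (XT.nd (nat_lit 78) (nat_lit 0) (nat_lit 76) (XT.lf (nat_lit 76) (nat_lit 3560950906) (nat_lit 0) (nat_lit 7524509262)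 (nat_lit 760) (nat_lit 32582224814) (nat_lit 59) (nat_lit 5) (nat_lit 58) (nat_lit 5) (nat_lit 68) (nat_lit 5) (nat_lit 293) (nat_lit 283) (nat_lit 144)) (XT.lf (nat_lit 0) (nat_lit 13812419091) (nat_lit 684) (nat_lit 22470948803) (nat_lit 76) (nat_lit 8617822948) (nat_lit 59) (nat_lit 5) (nat_lit 68) (nat_lit 5) (nat_lit 60) (nat_lit 5) (nat_lit 294) (nat_lit 283) (nat_lit 143))))))))
noncomputable def xc227 : XT := (XT.nd (nat_lit 1326) (nat_lit 1140) (nat_lit 0) (XT.nd (nat_lit 624) (nat_lit 1064) (nat_lit 0) (XT.nd (nat_lit 312) (nat_lit 304) (nat_lit 0) (XT.nd (nat_lit 156) (nat_lit 304) (nat_lit 0) (XT.nd (nat_lit 78) (nat_lit 684) (nat_lit 0) (XT.lf (nat_lit 0) (nat_lit 16797020813) (nat_lit 684) (nat_lit 4078534585) (nat_lit 76) (nat_lit 25314761847) (nat_lit 59) (nat_lit 5) (nat_lit 68) (nat_lit 5) (nat_lit 60) (nat_lit 5) (nat_lit 295) (nat_lit 283) (nat_lit 142)) (XT.lf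 (nat_lit 0) (nat_lit 15735410111) (nat_lit 684) (nat_lit 4439156592) (nat_lit 760) (nat_lit 27357157079) (nat_lit 50) (nat_lit 5) (nat_lit 59) (nat_lit 5) (nat_lit 60) (nat_lit 5) (nat_lit 296) (nat_lit 283) (nat_lit 141))) (XT.nd (nat_lit 78) (nat_lit 304) (nat_lit 0) (XT.lf (nat_lit 0) (nat_lit 23989445871) (nat_lit 760) (nat_lit 12458171980) (nat_lit 76) (nat_lit 12479169057) (nat_lit 50) (nat_lit 5) (nat_lit 60) (nat_lit 5) (nat_lit 51) (nat_lit 5) (nat_lit 297) (nat_lit 283) (nat_lit 140)) (XT.lf (nat_lit 0) (nat_lit 8029379082) (nat_lit 304) (nat_lit 20162024287) (nat_lit 380) (nat_lit 22190391735) (nat_lit 46) (nat_lit 5) (nat_lit 50) (nat_lit 5) (nat_lit 51) (nat_lit 5) (nat_lit 298) (nat_lit 283) (nat_lit 139)))) (XT.nd (nat_lit 156) (nat_lit 304) (nat_lit 0) (XT.nd (nat_lit 78) (nat_lit 0) (nat_lit 0) (XT.lf (nat_lit 0) (nat_lit 29972140031) (nat_lit 304) (nat_lit 2840563449)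 (nat_lit 380) (nat_lit 19086396214) (nat_lit 46) (nat_lit 5) (nat_lit 50) (nat_lit 5) (nat_lit 51) (nat_lit 5) (nat_lit 299) (nat_lit 283) (nat_lit 138)) (XT.lf (nat_lit 0) (nat_lit 37903021051) (nat_lit 380) (nat_lit 721538125) (nat_lit 76) (nat_lit 14855820546) (nat_lit 46) (nat_lit 5) (nat_lit 51) (nat_lit 5) (nat_lit 47) (nat_lit 5) (nat_lit 300) (nat_lit 283) (nat_lit 137))) (XT.nd (nat_lit 78) (nat_lit 0) (nat_lit 0) (XT.lf (nat_lit 0) (nat_lit 22206724191) (nat_lit 304) (nat_lit 21432828248) (nat_lit 380) (nat_lit 11481593871) (nat_lit 42) (nat_lit 5) (nat_lit 46) (nat_lit 5) (nat_lit 47) (nat_lit 5) (nat_lit 301) (nat_lit 283) (nat_lit 136)) (XT.lf (nat_lit 0) (nat_lit 46304858346) (nat_lit 304) (nat_lit 3368744066) (nat_lit 380) (nat_lit 7169821315) (nat_lit 42) (nat_lit 5) (nat_lit 46) (nat_lit 5) (nat_lit 47) (nat_lit 5) (nat_lit 302) (nat_lit 283) (nat_lit 135))))) (XT.nd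 (nat_lit 312) (nat_lit 456) (nat_lit 0) (XT.nd (nat_lit 156) (nat_lit 304) (nat_lit 0) (XT.nd (nat_lit 78) (nat_lit 76) (nat_lit 0) (XT.lf (nat_lit 0) (nat_lit 13131234484) (nat_lit 228) (nat_lit 43325216972) (nat_lit 304) (nat_lit 2173015495) (nat_lit 39) (nat_lit 5) (nat_lit 42) (nat_lit 5) (nat_lit 43) (nat_lit 5) (nat_lit 303) (nat_lit 283) (nat_lit 134)) (XT.lf (nat_lit 0) (nat_lit 3210441768) (nat_lit 304) (nat_lit 22253250416) (nat_lit 76) (nat_lit 35026967562) (nat_lit 38) (nat_lit 5) (nat_lit 42) (nat_lit 5) (nat_lit 39) (nat_lit 5) (nat_lit 304) (nat_lit 283) (nat_lit 133))) (XT.nd (nat_lit 78) (nat_lit 0) (nat_lit 0) (XT.lf (nat_lit 0) (nat_lit 2186803896) (nat_lit 304) (nat_lit 6636010831) (nat_lit 380) (nat_lit 53618683614) (nat_lit 34) (nat_lit 5) (nat_lit 38) (nat_lit 5) (nat_lit 39) (nat_lit 5) (nat_lit 305) (nat_lit 283) (nat_lit 132)) (XT.lf (nat_lit 0) (nat_lit 15302564763)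 (nat_lit 380) (nat_lit 36062403040) (nat_lit 76) (nat_lit 13095578705) (nat_lit 34) (nat_lit 5) (nat_lit 39) (nat_lit 5) (nat_lit 35) (nat_lit 5) (nat_lit 306) (nat_lit 283) (nat_lit 131)))) (XT.nd (nat_lit 156) (nat_lit 228) (nat_lit 0) (XT.nd (nat_lit 78) (nat_lit 228) (nat_lit 0) (XT.lf (nat_lit 0) (nat_lit 22213819732) (nat_lit 380) (nat_lit 10770797657) (nat_lit 76) (nat_lit 33590559123) (nat_lit 34) (nat_lit 5) (nat_lit 39) (nat_lit 5) (nat_lit 35) (nat_lit 5) (nat_lit 307) (nat_lit 283) (nat_lit 130)) (XT.lf (nat_lit 0) (nat_lit 16305835093) (nat_lit 228) (nat_lit 13418172968) (nat_lit 304) (nat_lit 39058866472) (nat_lit 31) (nat_lit 5) (nat_lit 34) (nat_lit 5) (nat_lit 35) (nat_lit 5) (nat_lit 308) (nat_lit 283) (nat_lit 129))) (XT.nd (nat_lit 78) (nat_lit 228) (nat_lit 0) (XT.lf (nat_lit 0) (nat_lit 37905193330) (nat_lit 304) (nat_lit 26097334055) (nat_lit 76) (nat_lit 7083660500)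 (nat_lit 31) (nat_lit 5) (nat_lit 35) (nat_lit 5) (nat_lit 32) (nat_lit 5) (nat_lit 309) (nat_lit 283) (nat_lit 128)) (XT.nd (nat_lit 78) (nat_lit 0) (nat_lit 0) (XT.lf (nat_lit 0) (nat_lit 1425607381) (nat_lit 228) (nat_lit 45310936778) (nat_lit 304) (nat_lit 26756072008) (nat_lit 28) (nat_lit 5) (nat_lit 31) (nat_lit 5) (nat_lit 32) (nat_lit 5) (nat_lit 310) (nat_lit 283) (nat_lit 127)) (XT.lf (nat_lit 0) (nat_lit 31229351594) (nat_lit 228) (nat_lit 25220992222) (nat_lit 304) (nat_lit 19546982344) (nat_lit 28) (nat_lit 5) (nat_lit 31) (nat_lit 5) (nat_lit 32) (nat_lit 5) (nat_lit 311) (nat_lit 283) (nat_lit 126))))))) (XT.nd (nat_lit 624) (nat_lit 532) (nat_lit 0) (XT.nd (nat_lit 312) (nat_lit 380) (nat_lit 0) (XT.nd (nat_lit 156) (nat_lit 76) (nat_lit 0) (XT.nd (nat_lit 78) (nat_lit 152) (nat_lit 0) (XT.lf (nat_lit 0) (nat_lit 62521964154) (nat_lit 228) (nat_lit 4126831497) (nat_lit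 304) (nat_lit 11978532043) (nat_lit 28) (nat_lit 5) (nat_lit 31) (nat_lit 5) (nat_lit 32) (nat_lit 5) (nat_lit 312) (nat_lit 283) (nat_lit 125)) (XT.lf (nat_lit 0) (nat_lit 14160936684) (nat_lit 152) (nat_lit 63697707246) (nat_lit 228) (nat_lit 3505115638) (nat_lit 26) (nat_lit 5) (nat_lit 28) (nat_lit 5) (nat_lit 29) (nat_lit 5) (nat_lit 313) (nat_lit 283) (nat_lit 124))) (XT.nd (nat_lit 78) (nat_lit 0) (nat_lit 0) (XT.lf (nat_lit 0) (nat_lit 5563286448) (nat_lit 228) (nat_lit 37881310113) (nat_lit 76) (nat_lit 40771016289) (nat_lit 25) (nat_lit 5) (nat_lit 28) (nat_lit 5) (nat_lit 26) (nat_lit 5) (nat_lit 314) (nat_lit 283) (nat_lit 123)) (XT.lf (nat_lit 0) (nat_lit 14966375846) (nat_lit 228) (nat_lit 7152440092) (nat_lit 76) (nat_lit 65088420125) (nat_lit 25) (nat_lit 5) (nat_lit 28) (nat_lit 5) (nat_lit 26) (nat_lit 5) (nat_lit 315) (nat_lit 283) (nat_lit 122)))) (XT.nd (nat_lit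 156) (nat_lit 152) (nat_lit 0) (XT.nd (nat_lit 78) (nat_lit 0) (nat_lit 0) (XT.lf (nat_lit 0) (nat_lit 25254654774) (nat_lit 304) (nat_lit 64397157053) (nat_lit 76) (nat_lit 675880110) (nat_lit 22) (nat_lit 5) (nat_lit 26) (nat_lit 5) (nat_lit 23) (nat_lit 5) (nat_lit 316) (nat_lit 283) (nat_lit 121)) (XT.lf (nat_lit 0) (nat_lit 36542193012) (nat_lit 304) (nat_lit 33047948210) (nat_lit 76) (nat_lit 23989790213) (nat_lit 22) (nat_lit 5) (nat_lit 26) (nat_lit 5) (nat_lit 23) (nat_lit 5) (nat_lit 317) (nat_lit 283) (nat_lit 120))) (XT.nd (nat_lit 78) (nat_lit 152) (nat_lit 0) (XT.lf (nat_lit 0) (nat_lit 48393275831) (nat_lit 304) (nat_lit 132440839) (nat_lit 76) (nat_lit 48469110806) (nat_lit 22) (nat_lit 5) (nat_lit 26) (nat_lit 5) (nat_lit 23) (nat_lit 5) (nat_lit 318) (nat_lit 283) (nat_lit 119)) (XT.lf (nat_lit 0) (nat_lit 35566071726) (nat_lit 152) (nat_lit 25825334421) (nat_lit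 228) (nat_lit 39161340313) (nat_lit 20) (nat_lit 5) (nat_lit 22) (nat_lit 5) (nat_lit 23) (nat_lit 5) (nat_lit 319) (nat_lit 283) (nat_lit 118))))) (XT.nd (nat_lit 312) (nat_lit 304) (nat_lit 0) (XT.nd (nat_lit 156) (nat_lit 76) (nat_lit 0) (XT.nd (nat_lit 78) (nat_lit 152) (nat_lit 0) (XT.lf (nat_lit 0) (nat_lit 73053019231) (nat_lit 152) (nat_lit 1987894751) (nat_lit 228) (nat_lit 29247576539) (nat_lit 20) (nat_lit 5) (nat_lit 22) (nat_lit 5) (nat_lit 23) (nat_lit 5) (nat_lit 320) (nat_lit 283) (nat_lit 117)) (XT.lf (nat_lit 0) (nat_lit 3969529478) (nat_lit 152) (nat_lit 85824344402) (nat_lit 228) (nat_lit 18396101619) (nat_lit 18) (nat_lit 5) (nat_lit 20) (nat_lit 5) (nat_lit 21) (nat_lit 5) (nat_lit 321) (nat_lit 283) (nat_lit 116))) (XT.nd (nat_lit 78) (nat_lit 76) (nat_lit 0) (XT.lf (nat_lit 0) (nat_lit 41984485151) (nat_lit 152) (nat_lit 63860326139) (nat_lit 228) (nat_lit 6413709390)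 (nat_lit 18) (nat_lit 5) (nat_lit 20) (nat_lit 5) (nat_lit 21) (nat_lit 5) (nat_lit 322) (nat_lit 283) (nat_lit 115)) (XT.lf (nat_lit 0) (nat_lit 5969693971) (nat_lit 228) (nat_lit 34727630556) (nat_lit 76) (nat_lit 75828390973) (nat_lit 17) (nat_lit 5) (nat_lit 20) (nat_lit 5) (nat_lit 18) (nat_lit 5) (nat_lit 323) (nat_lit 283) (nat_lit 114)))) (XT.nd (nat_lit 156) (nat_lit 152) (nat_lit 0) (XT.nd (nat_lit 78) (nat_lit 0) (nat_lit 0) (XT.lf (nat_lit 0) (nat_lit 2572301245) (nat_lit 152) (nat_lit 16223917458) (nat_lit 228) (nat_lit 102202821622) (nat_lit 15) (nat_lit 5) (nat_lit 17) (nat_lit 5) (nat_lit 18) (nat_lit 5) (nat_lit 324) (nat_lit 283) (nat_lit 113)) (XT.lf (nat_lit 0) (nat_lit 33009087796) (nat_lit 228) (nat_lit 82882268552) (nat_lit 76) (nat_lit 9767426135) (nat_lit 15) (nat_lit 5) (nat_lit 18) (nat_lit 5) (nat_lit 16) (nat_lit 5) (nat_lit 325) (nat_lit 283) (nat_lit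 112))) (XT.nd (nat_lit 78) (nat_lit 152) (nat_lit 0) (XT.lf (nat_lit 0) (nat_lit 48197942259) (nat_lit 228) (nat_lit 45827487152) (nat_lit 76) (nat_lit 36512817144) (nat_lit 15) (nat_lit 5) (nat_lit 18) (nat_lit 5) (nat_lit 16) (nat_lit 5) (nat_lit 326) (nat_lit 283) (nat_lit 111)) (XT.nd (nat_lit 78) (nat_lit 152) (nat_lit 0) (XT.lf (nat_lit 0) (nat_lit 64145645210) (nat_lit 228) (nat_lit 6920868394) (nat_lit 76) (nat_lit 64595201749) (nat_lit 15) (nat_lit 5) (nat_lit 18) (nat_lit 5) (nat_lit 16) (nat_lit 5) (nat_lit 327) (nat_lit 283) (nat_lit 110)) (XT.lf (nat_lit 0) (nat_lit 35052108919) (nat_lit 152) (nat_lit 46385320106) (nat_lit 228) (nat_lit 59576595505) (nat_lit 13) (nat_lit 5) (nat_lit 15) (nat_lit 5) (nat_lit 16) (nat_lit 5) (nat_lit 328) (nat_lit 283) (nat_lit 109))))))))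
noncomputable def xc228 : XT := (XT.nd (nat_lit 34242) (nat_lit 0) (nat_lit 2584) (XT.nd (nat_lit 624) (nat_lit 76) (nat_lit 0) (XT.nd (nat_lit 312) (nat_lit 228) (nat_lit 0) (XT.nd (nat_lit 156) (nat_lit 76) (nat_lit 0) (XT.nd (nat_lit 78) (nat_lit 0) (nat_lit 0) (XT.lf (nat_lit 0) (nat_lit 79363167102) (nat_lit 152) (nat_lit 20347291008) (nat_lit 228) (nat_lit 46917659898) (nat_lit 13) (nat_lit 5) (nat_lit 15) (nat_lit 5) (nat_lit 16) (nat_lit 5) (nat_lit 329) (nat_lit 283) (nat_lit 108)) (XT.lf (nat_lit 0) (nat_lit 119005783110) (nat_lit 228) (nat_lit 26743140858) (nat_lit 76) (nat_lit 6768561531) (nat_lit 13) (nat_lit 5) (nat_lit 16) (nat_lit 5) (nat_lit 14) (nat_lit 4) (nat_lit 330) (nat_lit 283) (nat_lit 107))) (XT.nd (nat_lit 78) (nat_lit 0) (nat_lit 0) (XT.lf (nat_lit 0) (nat_lit 15981930369) (nat_lit 76) (nat_lit 123866523872) (nat_lit 152) (nat_lit 18823739621) (nat_lit 12)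 (nat_lit 5) (nat_lit 13) (nat_lit 5) (nat_lit 14) (nat_lit 4) (nat_lit 331) (nat_lit 283) (nat_lit 106)) (XT.lf (nat_lit 0) (nat_lit 61770940589) (nat_lit 76) (nat_lit 100414733314) (nat_lit 152) (nat_lit 2926344411) (nat_lit 12) (nat_lit 5) (nat_lit 13) (nat_lit 5) (nat_lit 14) (nat_lit 4) (nat_lit 332) (nat_lit 283) (nat_lit 105)))) (XT.nd (nat_lit 156) (nat_lit 152) (nat_lit 0) (XT.nd (nat_lit 78) (nat_lit 0) (nat_lit 0) (XT.lf (nat_lit 0) (nat_lit 13324846547) (nat_lit 152) (nat_lit 62240113458) (nat_lit 76) (nat_lit 96298152970) (nat_lit 11) (nat_lit 5) (nat_lit 13) (nat_lit 5) (nat_lit 12) (nat_lit 5) (nat_lit 333) (nat_lit 283) (nat_lit 104)) (XT.lf (nat_lit 0) (nat_lit 30289796897) (nat_lit 152) (nat_lit 19132794019) (nat_lit 76) (nat_lit 129526796826) (nat_lit 11) (nat_lit 5) (nat_lit 13) (nat_lit 5) (nat_lit 12) (nat_lit 5) (nat_lit 334) (nat_lit 283) (nat_lit 103))) (XT.nd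 (nat_lit 78) (nat_lit 0) (nat_lit 0) (XT.lf (nat_lit 0) (nat_lit 26993155041) (nat_lit 152) (nat_lit 21530844431) (nat_lit 228) (nat_lit 137844927708) (nat_lit 9) (nat_lit 5) (nat_lit 11) (nat_lit 5) (nat_lit 12) (nat_lit 5) (nat_lit 335) (nat_lit 283) (nat_lit 102)) (XT.lf (nat_lit 0) (nat_lit 68119904207) (nat_lit 228) (nat_lit 118180683469) (nat_lit 76) (nat_lit 7836357423) (nat_lit 9) (nat_lit 5) (nat_lit 12) (nat_lit 5) (nat_lit 10) (nat_lit 4) (nat_lit 336) (nat_lit 283) (nat_lit 101))))) (XT.nd (nat_lit 312) (nat_lit 0) (nat_lit 0) (XT.nd (nat_lit 156) (nat_lit 76) (nat_lit 0) (XT.nd (nat_lit 78) (nat_lit 0) (nat_lit 0) (XT.lf (nat_lit 0) (nat_lit 89048161344) (nat_lit 228) (nat_lit 75279465237) (nat_lit 76) (nat_lit 37948110535) (nat_lit 9) (nat_lit 5) (nat_lit 12) (nat_lit 5) (nat_lit 10) (nat_lit 4) (nat_lit 337) (nat_lit 283) (nat_lit 100)) (XT.lf (nat_lit 0) (nat_lit 111022443245)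 (nat_lit 228) (nat_lit 30233814861) (nat_lit 76) (nat_lit 69565231041) (nat_lit 9) (nat_lit 5) (nat_lit 12) (nat_lit 5) (nat_lit 10) (nat_lit 4) (nat_lit 338) (nat_lit 283) (nat_lit 99))) (XT.nd (nat_lit 78) (nat_lit 0) (nat_lit 0) (XT.lf (nat_lit 0) (nat_lit 17627716210) (nat_lit 76) (nat_lit 116742571471) (nat_lit 152) (nat_lit 85410499638) (nat_lit 8) (nat_lit 5) (nat_lit 9) (nat_lit 5) (nat_lit 10) (nat_lit 4) (nat_lit 339) (nat_lit 283) (nat_lit 98)) (XT.lf (nat_lit 0) (nat_lit 68931384449) (nat_lit 76) (nat_lit 90465802963) (nat_lit 152) (nat_lit 69765280748) (nat_lit 8) (nat_lit 5) (nat_lit 9) (nat_lit 5) (nat_lit 10) (nat_lit 4) (nat_lit 340) (nat_lit 283) (nat_lit 97)))) (XT.nd (nat_lit 33150) (nat_lit 0) (nat_lit 3572) (XT.nd (nat_lit 33072) (nat_lit 0) (nat_lit 4256) (XT.lf (nat_lit 0) (nat_lit 122799674987) (nat_lit 76) (nat_lit 62875413134) (nat_lit 152) (nat_lit 53338162995)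 (nat_lit 8) (nat_lit 5) (nat_lit 9) (nat_lit 5) (nat_lit 10) (nat_lit 4) (nat_lit 341) (nat_lit 283) (nat_lit 96)) (XT.lf (nat_lit 0) (nat_lit 17559935279) (nat_lit 684) (nat_lit 54270268) (nat_lit 684) (nat_lit 54270268) (nat_lit 64) (nat_lit 3) (nat_lit 73) (nat_lit 3) (nat_lit 73) (nat_lit 5) (nat_lit 284) (nat_lit 284) (nat_lit 152))) (XT.nd (nat_lit 78) (nat_lit 0) (nat_lit 0) (XT.lf (nat_lit 0) (nat_lit 59792568) (nat_lit 684) (nat_lit 21760683226) (nat_lit 760) (nat_lit 14386083736) (nat_lit 55) (nat_lit 5) (nat_lit 64) (nat_lit 3) (nat_lit 65) (nat_lit 5) (nat_lit 285) (nat_lit 284) (nat_lit 151)) (XT.lf (nat_lit 0) (nat_lit 342118201) (nat_lit 684) (nat_lit 7393043971) (nat_lit 760) (nat_lit 29384377302) (nat_lit 55) (nat_lit 5) (nat_lit 64) (nat_lit 3) (nat_lit 65) (nat_lit 5) (nat_lit 286) (nat_lit 284) (nat_lit 150)))))) (XT.nd (nat_lit 624) (nat_lit 1064) (nat_lit 0) (XT.nd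 (nat_lit 312) (nat_lit 0) (nat_lit 76) (XT.nd (nat_lit 156) (nat_lit 0) (nat_lit 0) (XT.nd (nat_lit 78) (nat_lit 0) (nat_lit 0) (XT.lf (nat_lit 0) (nat_lit 871983056) (nat_lit 684) (nat_lit 30238625455) (nat_lit 760) (nat_lit 6955902817) (nat_lit 56) (nat_lit 5) (nat_lit 65) (nat_lit 5) (nat_lit 66) (nat_lit 5) (nat_lit 287) (nat_lit 284) (nat_lit 149)) (XT.lf (nat_lit 0) (nat_lit 1679708537) (nat_lit 684) (nat_lit 15118640430) (nat_lit 760) (nat_lit 22249927828) (nat_lit 56) (nat_lit 5) (nat_lit 65) (nat_lit 5) (nat_lit 66) (nat_lit 5) (nat_lit 288) (nat_lit 284) (nat_lit 148))) (XT.nd (nat_lit 78) (nat_lit 0) (nat_lit 76) (XT.lf (nat_lit 76) (nat_lit 780670732) (nat_lit 0) (nat_lit 1756770524) (nat_lit 760) (nat_lit 37541220986) (nat_lit 57) (nat_lit 5) (nat_lit 56) (nat_lit 5) (nat_lit 66) (nat_lit 5) (nat_lit 289) (nat_lit 284) (nat_lit 147)) (XT.lf (nat_lit 0) (nat_lit 3914997008)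 (nat_lit 684) (nat_lit 23373066373) (nat_lit 760) (nat_lit 13848668906) (nat_lit 57) (nat_lit 5) (nat_lit 66) (nat_lit 5) (nat_lit 67) (nat_lit 5) (nat_lit 290) (nat_lit 284) (nat_lit 146)))) (XT.nd (nat_lit 156) (nat_lit 0) (nat_lit 76) (XT.nd (nat_lit 78) (nat_lit 0) (nat_lit 76) (XT.lf (nat_lit 0) (nat_lit 5387889455) (nat_lit 684) (nat_lit 6682391117) (nat_lit 760) (nat_lit 30176113885) (nat_lit 57) (nat_lit 5) (nat_lit 66) (nat_lit 5) (nat_lit 67) (nat_lit 5) (nat_lit 291) (nat_lit 284) (nat_lit 145)) (XT.lf (nat_lit 0) (nat_lit 7170952516) (nat_lit 684) (nat_lit 32267155178) (nat_lit 760) (nat_lit 3961616758) (nat_lit 58) (nat_lit 5) (nat_lit 67) (nat_lit 5) (nat_lit 68) (nat_lit 5) (nat_lit 292) (nat_lit 284) (nat_lit 144))) (XT.nd (nat_lit 78) (nat_lit 0) (nat_lit 0) (XT.lf (nat_lit 0) (nat_lit 9353927839) (nat_lit 684) (nat_lit 14736232308) (nat_lit 760) (nat_lit 20505033337)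 (nat_lit 58) (nat_lit 5) (nat_lit 67) (nat_lit 5) (nat_lit 68) (nat_lit 5) (nat_lit 293) (nat_lit 284) (nat_lit 143)) (XT.lf (nat_lit 76) (nat_lit 3790935689) (nat_lit 0) (nat_lit 7912266122) (nat_lit 760) (nat_lit 34144386655) (nat_lit 59) (nat_lit 5) (nat_lit 58) (nat_lit 5) (nat_lit 68) (nat_lit 5) (nat_lit 294) (nat_lit 284) (nat_lit 142))))) (XT.nd (nat_lit 312) (nat_lit 608) (nat_lit 0) (XT.nd (nat_lit 156) (nat_lit 684) (nat_lit 0) (XT.nd (nat_lit 78) (nat_lit 0) (nat_lit 0) (XT.lf (nat_lit 0) (nat_lit 14563314901) (nat_lit 684) (nat_lit 23541545729) (nat_lit 76) (nat_lit 9038083314) (nat_lit 59) (nat_lit 5) (nat_lit 68) (nat_lit 5) (nat_lit 60) (nat_lit 5) (nat_lit 295) (nat_lit 284) (nat_lit 141)) (XT.lf (nat_lit 0) (nat_lit 17694276478) (nat_lit 684) (nat_lit 4232032253) (nat_lit 76) (nat_lit 26570375386) (nat_lit 59) (nat_lit 5) (nat_lit 68) (nat_lit 5) (nat_lit 60) (nat_lit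 5) (nat_lit 296) (nat_lit 284) (nat_lit 140))) (XT.nd (nat_lit 78) (nat_lit 0) (nat_lit 0) (XT.lf (nat_lit 0) (nat_lit 16571796305) (nat_lit 684) (nat_lit 4666944442) (nat_lit 760) (nat_lit 28666531451) (nat_lit 50) (nat_lit 5) (nat_lit 59) (nat_lit 5) (nat_lit 60) (nat_lit 5) (nat_lit 297) (nat_lit 284) (nat_lit 139)) (XT.lf (nat_lit 0) (nat_lit 25241636914) (nat_lit 760) (nat_lit 13030847738) (nat_lit 76) (nat_lit 13097752820) (nat_lit 50) (nat_lit 5) (nat_lit 60) (nat_lit 5) (nat_lit 51) (nat_lit 5) (nat_lit 298) (nat_lit 284) (nat_lit 138)))) (XT.nd (nat_lit 156) (nat_lit 304) (nat_lit 0) (XT.nd (nat_lit 78) (nat_lit 0) (nat_lit 0) (XT.lf (nat_lit 0) (nat_lit 8480270671) (nat_lit 304) (nat_lit 21171682826) (nat_lit 380) (nat_lit 23246141561) (nat_lit 46) (nat_lit 5) (nat_lit 50) (nat_lit 5) (nat_lit 51) (nat_lit 5) (nat_lit 299) (nat_lit 284) (nat_lit 137)) (XT.lf (nat_lit 0) (nat_lit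 31517816209) (nat_lit 304) (nat_lit 2984074788) (nat_lit 380) (nat_lit 19989506729) (nat_lit 46) (nat_lit 5) (nat_lit 50) (nat_lit 5) (nat_lit 51) (nat_lit 5) (nat_lit 300) (nat_lit 284) (nat_lit 136))) (XT.nd (nat_lit 78) (nat_lit 304) (nat_lit 0) (XT.lf (nat_lit 0) (nat_lit 39844390375) (nat_lit 380) (nat_lit 710234759) (nat_lit 76) (nat_lit 15597244244) (nat_lit 46) (nat_lit 5) (nat_lit 51) (nat_lit 5) (nat_lit 47) (nat_lit 5) (nat_lit 301) (nat_lit 284) (nat_lit 135)) (XT.nd (nat_lit 78) (nat_lit 0) (nat_lit 0) (XT.lf (nat_lit 0) (nat_lit 23363676475) (nat_lit 304) (nat_lit 22502598795) (nat_lit 380) (nat_lit 12008483079) (nat_lit 42) (nat_lit 5) (nat_lit 46) (nat_lit 5) (nat_lit 47) (nat_lit 5) (nat_lit 302) (nat_lit 284) (nat_lit 134)) (XT.lf (nat_lit 0) (nat_lit 48664497525) (nat_lit 304) (nat_lit 3535399493) (nat_lit 380) (nat_lit 7483369062) (nat_lit 42) (nat_lit 5) (nat_lit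 46) (nat_lit 5) (nat_lit 47) (nat_lit 5) (nat_lit 303) (nat_lit 284) (nat_lit 133))))))))
noncomputable def xc229 : XT := (XT.nd (nat_lit 1326) (nat_lit 836) (nat_lit 0) (XT.nd (nat_lit 624) (nat_lit 608) (nat_lit 0) (XT.nd (nat_lit 312) (nat_lit 456) (nat_lit 0) (XT.nd (nat_lit 156) (nat_lit 304) (nat_lit 0) (XT.nd (nat_lit 78) (nat_lit 76) (nat_lit 0) (XT.lf (nat_lit 0) (nat_lit 13833740303) (nat_lit 228) (nat_lit 45486862760) (nat_lit 304) (nat_lit 2238082108) (nat_lit 39) (nat_lit 5) (nat_lit 42) (nat_lit 5) (nat_lit 43) (nat_lit 5) (nat_lit 304) (nat_lit 284) (nat_lit 132)) (XT.lf (nat_lit 0) (nat_lit 3411144043) (nat_lit 304) (nat_lit 23320656983) (nat_lit 76) (nat_lit 36781211563) (nat_lit 38) (nat_lit 5) (nat_lit 42) (nat_lit 5) (nat_lit 39) (nat_lit 5) (nat_lit 305) (nat_lit 284) (nat_lit 131))) (XT.nd (nat_lit 78) (nat_lit 0) (nat_lit 0) (XT.lf (nat_lit 0) (nat_lit 2340670110)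 (nat_lit 304) (nat_lit 6962247374) (nat_lit 380) (nat_lit 56258544688) (nat_lit 34) (nat_lit 5) (nat_lit 38) (nat_lit 5) (nat_lit 39) (nat_lit 5) (nat_lit 306) (nat_lit 284) (nat_lit 130)) (XT.lf (nat_lit 0) (nat_lit 16104882420) (nat_lit 380) (nat_lit 37821189635) (nat_lit 76) (nat_lit 13755487084) (nat_lit 34) (nat_lit 5) (nat_lit 39) (nat_lit 5) (nat_lit 35) (nat_lit 5) (nat_lit 307) (nat_lit 284) (nat_lit 129)))) (XT.nd (nat_lit 156) (nat_lit 228) (nat_lit 0) (XT.nd (nat_lit 78) (nat_lit 228) (nat_lit 0) (XT.lf (nat_lit 0) (nat_lit 23359929213) (nat_lit 380) (nat_lit 11267115104) (nat_lit 76) (nat_lit 35274972263) (nat_lit 34) (nat_lit 5) (nat_lit 39) (nat_lit 5) (nat_lit 35) (nat_lit 5) (nat_lit 308) (nat_lit 284) (nat_lit 128)) (XT.lf (nat_lit 0) (nat_lit 17162668276) (nat_lit 228) (nat_lit 14081920665) (nat_lit 304) (nat_lit 40975569502) (nat_lit 31) (nat_lit 5) (nat_lit 34)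 (nat_lit 5) (nat_lit 35) (nat_lit 5) (nat_lit 309) (nat_lit 284) (nat_lit 127))) (XT.nd (nat_lit 78) (nat_lit 228) (nat_lit 0) (XT.lf (nat_lit 0) (nat_lit 39833302787) (nat_lit 304) (nat_lit 27360972717) (nat_lit 76) (nat_lit 7444445197) (nat_lit 31) (nat_lit 5) (nat_lit 35) (nat_lit 5) (nat_lit 32) (nat_lit 5) (nat_lit 310) (nat_lit 284) (nat_lit 126)) (XT.lf (nat_lit 0) (nat_lit 1537450823) (nat_lit 228) (nat_lit 47567839363) (nat_lit 304) (nat_lit 28060233147) (nat_lit 28) (nat_lit 5) (nat_lit 31) (nat_lit 5) (nat_lit 32) (nat_lit 5) (nat_lit 311) (nat_lit 284) (nat_lit 125))))) (XT.nd (nat_lit 312) (nat_lit 380) (nat_lit 0) (XT.nd (nat_lit 156) (nat_lit 228) (nat_lit 0) (XT.nd (nat_lit 78) (nat_lit 0) (nat_lit 0) (XT.lf (nat_lit 0) (nat_lit 32829450671) (nat_lit 228) (nat_lit 26473809210) (nat_lit 304) (nat_lit 20492291021) (nat_lit 28) (nat_lit 5) (nat_lit 31) (nat_lit 5) (nat_lit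 32) (nat_lit 5) (nat_lit 312) (nat_lit 284) (nat_lit 124)) (XT.lf (nat_lit 0) (nat_lit 65684854264) (nat_lit 228) (nat_lit 4325332478) (nat_lit 304) (nat_lit 12546943941) (nat_lit 28) (nat_lit 5) (nat_lit 31) (nat_lit 5) (nat_lit 32) (nat_lit 5) (nat_lit 313) (nat_lit 284) (nat_lit 123))) (XT.nd (nat_lit 78) (nat_lit 76) (nat_lit 0) (XT.lf (nat_lit 0) (nat_lit 14906599743) (nat_lit 152) (nat_lit 66873252937) (nat_lit 228) (nat_lit 3650570723) (nat_lit 26) (nat_lit 5) (nat_lit 28) (nat_lit 5) (nat_lit 29) (nat_lit 5) (nat_lit 314) (nat_lit 284) (nat_lit 122)) (XT.lf (nat_lit 0) (nat_lit 5868923998) (nat_lit 228) (nat_lit 39738542194) (nat_lit 76) (nat_lit 42817453580) (nat_lit 25) (nat_lit 5) (nat_lit 28) (nat_lit 5) (nat_lit 26) (nat_lit 5) (nat_lit 315) (nat_lit 284) (nat_lit 121)))) (XT.nd (nat_lit 156) (nat_lit 152) (nat_lit 0) (XT.nd (nat_lit 78) (nat_lit 228) (nat_lit 0) (XT.lf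 (nat_lit 0) (nat_lit 15740859616) (nat_lit 228) (nat_lit 7474982645) (nat_lit 76) (nat_lit 68350352062) (nat_lit 25) (nat_lit 5) (nat_lit 28) (nat_lit 5) (nat_lit 26) (nat_lit 5) (nat_lit 316) (nat_lit 284) (nat_lit 120)) (XT.lf (nat_lit 0) (nat_lit 26542986780) (nat_lit 304) (nat_lit 67581278987) (nat_lit 76) (nat_lit 718440047) (nat_lit 22) (nat_lit 5) (nat_lit 26) (nat_lit 5) (nat_lit 23) (nat_lit 5) (nat_lit 317) (nat_lit 284) (nat_lit 119))) (XT.nd (nat_lit 78) (nat_lit 152) (nat_lit 0) (XT.lf (nat_lit 0) (nat_lit 38393682918) (nat_lit 304) (nat_lit 34666311413) (nat_lit 76) (nat_lit 25197628229) (nat_lit 22) (nat_lit 5) (nat_lit 26) (nat_lit 5) (nat_lit 23) (nat_lit 5) (nat_lit 318) (nat_lit 284) (nat_lit 118)) (XT.nd (nat_lit 78) (nat_lit 152) (nat_lit 0) (XT.lf (nat_lit 0) (nat_lit 50836158913) (nat_lit 304) (nat_lit 106649349) (nat_lit 76) (nat_lit 50900517304) (nat_lit 22)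 (nat_lit 5) (nat_lit 26) (nat_lit 5) (nat_lit 23) (nat_lit 5) (nat_lit 319) (nat_lit 284) (nat_lit 117)) (XT.lf (nat_lit 0) (nat_lit 37376266045) (nat_lit 152) (nat_lit 27107321923) (nat_lit 228) (nat_lit 41095586841) (nat_lit 20) (nat_lit 5) (nat_lit 22) (nat_lit 5) (nat_lit 23) (nat_lit 5) (nat_lit 320) (nat_lit 284) (nat_lit 116))))))) (XT.nd (nat_lit 624) (nat_lit 456) (nat_lit 0) (XT.nd (nat_lit 312) (nat_lit 152) (nat_lit 0) (XT.nd (nat_lit 156) (nat_lit 76) (nat_lit 0) (XT.nd (nat_lit 78) (nat_lit 152) (nat_lit 0) (XT.lf (nat_lit 0) (nat_lit 76736042319) (nat_lit 152) (nat_lit 2078452137) (nat_lit 228) (nat_lit 30687269187) (nat_lit 20) (nat_lit 5) (nat_lit 22) (nat_lit 5) (nat_lit 23) (nat_lit 5) (nat_lit 321) (nat_lit 284) (nat_lit 115)) (XT.lf (nat_lit 0) (nat_lit 4198885288) (nat_lit 152) (nat_lit 90105805114) (nat_lit 228) (nat_lit 19293656620) (nat_lit 18) (nat_lit 5)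 (nat_lit 20) (nat_lit 5) (nat_lit 21) (nat_lit 5) (nat_lit 322) (nat_lit 284) (nat_lit 114))) (XT.nd (nat_lit 78) (nat_lit 76) (nat_lit 0) (XT.lf (nat_lit 0) (nat_lit 44113118300) (nat_lit 152) (nat_lit 67044050533) (nat_lit 228) (nat_lit 6713204308) (nat_lit 18) (nat_lit 5) (nat_lit 20) (nat_lit 5) (nat_lit 21) (nat_lit 5) (nat_lit 323) (nat_lit 284) (nat_lit 113)) (XT.lf (nat_lit 0) (nat_lit 6287714214) (nat_lit 228) (nat_lit 36435296255) (nat_lit 76) (nat_lit 79627952602) (nat_lit 17) (nat_lit 5) (nat_lit 20) (nat_lit 5) (nat_lit 18) (nat_lit 5) (nat_lit 324) (nat_lit 284) (nat_lit 112)))) (XT.nd (nat_lit 156) (nat_lit 0) (nat_lit 0) (XT.nd (nat_lit 78) (nat_lit 0) (nat_lit 0) (XT.lf (nat_lit 0) (nat_lit 2729168978) (nat_lit 152) (nat_lit 17025907044) (nat_lit 228) (nat_lit 107292905498) (nat_lit 15) (nat_lit 5) (nat_lit 17) (nat_lit 5) (nat_lit 18) (nat_lit 5) (nat_lit 325) (nat_lit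 284) (nat_lit 111)) (XT.lf (nat_lit 0) (nat_lit 34677818491) (nat_lit 228) (nat_lit 86998648878) (nat_lit 76) (nat_lit 10264284706) (nat_lit 15) (nat_lit 5) (nat_lit 18) (nat_lit 5) (nat_lit 16) (nat_lit 5) (nat_lit 326) (nat_lit 284) (nat_lit 110))) (XT.nd (nat_lit 78) (nat_lit 0) (nat_lit 0) (XT.lf (nat_lit 0) (nat_lit 50625245376) (nat_lit 228) (nat_lit 48092449033) (nat_lit 76) (nat_lit 38346541110) (nat_lit 15) (nat_lit 5) (nat_lit 18) (nat_lit 5) (nat_lit 16) (nat_lit 5) (nat_lit 327) (nat_lit 284) (nat_lit 109)) (XT.lf (nat_lit 0) (nat_lit 67369504618) (nat_lit 228) (nat_lit 7241757074) (nat_lit 76) (nat_lit 67832660036) (nat_lit 15) (nat_lit 5) (nat_lit 18) (nat_lit 5) (nat_lit 16) (nat_lit 5) (nat_lit 328) (nat_lit 284) (nat_lit 108))))) (XT.nd (nat_lit 312) (nat_lit 228) (nat_lit 0) (XT.nd (nat_lit 156) (nat_lit 76) (nat_lit 0) (XT.nd (nat_lit 78) (nat_lit 0) (nat_lit 0)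 (XT.lf (nat_lit 0) (nat_lit 36829463384) (nat_lit 152) (nat_lit 48696011254) (nat_lit 228) (nat_lit 62538394282) (nat_lit 13) (nat_lit 5) (nat_lit 15) (nat_lit 5) (nat_lit 16) (nat_lit 5) (nat_lit 329) (nat_lit 284) (nat_lit 107)) (XT.lf (nat_lit 0) (nat_lit 83354895950) (nat_lit 152) (nat_lit 21356489027) (nat_lit 228) (nat_lit 49247322895) (nat_lit 13) (nat_lit 5) (nat_lit 15) (nat_lit 5) (nat_lit 16) (nat_lit 5) (nat_lit 330) (nat_lit 284) (nat_lit 106))) (XT.nd (nat_lit 78) (nat_lit 76) (nat_lit 0) (XT.lf (nat_lit 0) (nat_lit 124970864136) (nat_lit 228) (nat_lit 28057194066) (nat_lit 76) (nat_lit 7114518324) (nat_lit 13) (nat_lit 5) (nat_lit 16) (nat_lit 5) (nat_lit 14) (nat_lit 4) (nat_lit 331) (nat_lit 284) (nat_lit 105)) (XT.lf (nat_lit 0) (nat_lit 16803758081) (nat_lit 76) (nat_lit 130051561266) (nat_lit 152) (nat_lit 19749720512) (nat_lit 12) (nat_lit 5) (nat_lit 13) (nat_lit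 5) (nat_lit 14) (nat_lit 4) (nat_lit 332) (nat_lit 284) (nat_lit 104)))) (XT.nd (nat_lit 156) (nat_lit 152) (nat_lit 0) (XT.nd (nat_lit 78) (nat_lit 76) (nat_lit 0) (XT.lf (nat_lit 0) (nat_lit 64881136374) (nat_lit 76) (nat_lit 105427575885) (nat_lit 152) (nat_lit 3058179641) (nat_lit 12) (nat_lit 5) (nat_lit 13) (nat_lit 5) (nat_lit 14) (nat_lit 4) (nat_lit 333) (nat_lit 284) (nat_lit 103)) (XT.lf (nat_lit 0) (nat_lit 14004439804) (nat_lit 152) (nat_lit 65331023911) (nat_lit 76) (nat_lit 101120101446) (nat_lit 11) (nat_lit 5) (nat_lit 13) (nat_lit 5) (nat_lit 12) (nat_lit 5) (nat_lit 334) (nat_lit 284) (nat_lit 102))) (XT.nd (nat_lit 78) (nat_lit 152) (nat_lit 0) (XT.lf (nat_lit 0) (nat_lit 31817001913) (nat_lit 152) (nat_lit 20069343034) (nat_lit 76) (nat_lit 136009842218) (nat_lit 11) (nat_lit 5) (nat_lit 13) (nat_lit 5) (nat_lit 12) (nat_lit 5) (nat_lit 335) (nat_lit 284) (nat_lit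 101)) (XT.nd (nat_lit 78) (nat_lit 0) (nat_lit 0) (XT.lf (nat_lit 0) (nat_lit 28362579435) (nat_lit 152) (nat_lit 22600038310) (nat_lit 228) (nat_lit 144724102302) (nat_lit 9) (nat_lit 5) (nat_lit 11) (nat_lit 5) (nat_lit 12) (nat_lit 5) (nat_lit 336) (nat_lit 284) (nat_lit 100)) (XT.lf (nat_lit 0) (nat_lit 71537835635) (nat_lit 228) (nat_lit 124070379162) (nat_lit 76) (nat_lit 8234949722) (nat_lit 9) (nat_lit 5) (nat_lit 12) (nat_lit 5) (nat_lit 10) (nat_lit 4) (nat_lit 337) (nat_lit 284) (nat_lit 99))))))))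
noncomputable def xc230 : XT := (XT.nd (nat_lit 34398) (nat_lit 0) (nat_lit 1520) (XT.nd (nat_lit 33696) (nat_lit 0) (nat_lit 3648) (XT.nd (nat_lit 33384) (nat_lit 0) (nat_lit 3572) (XT.nd (nat_lit 156) (nat_lit 76) (nat_lit 0) (XT.nd (nat_lit 78) (nat_lit 0) (nat_lit 0) (XT.lf (nat_lit 0) (nat_lit 93511937237) (nat_lit 228) (nat_lit 79025020898) (nat_lit 76) (nat_lit 39851967898) (nat_lit 9) (nat_lit 5) (nat_lit 12) (nat_lit 5) (nat_lit 10) (nat_lit 4) (nat_lit 338) (nat_lit 284) (nat_lit 98)) (XT.lf (nat_lit 0) (nat_lit 116584391909) (nat_lit 228) (nat_lit 31727965032) (nat_lit 76) (nat_lit 73049637199) (nat_lit 9) (nat_lit 5) (nat_lit 12) (nat_lit 5) (nat_lit 10) (nat_lit 4) (nat_lit 339) (nat_lit 284) (nat_lit 97))) (XT.nd (nat_lit 78) (nat_lit 0) (nat_lit 0) (XT.lf (nat_lit 0) (nat_lit 18526359680) (nat_lit 76) (nat_lit 122573022778) (nat_lit 152) (nat_lit 89669888406) (nat_lit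 8) (nat_lit 5) (nat_lit 9) (nat_lit 5) (nat_lit 10) (nat_lit 4) (nat_lit 340) (nat_lit 284) (nat_lit 96)) (XT.lf (nat_lit 0) (nat_lit 72394389538) (nat_lit 76) (nat_lit 94982733810) (nat_lit 152) (nat_lit 73242938867) (nat_lit 8) (nat_lit 5) (nat_lit 9) (nat_lit 5) (nat_lit 10) (nat_lit 4) (nat_lit 341) (nat_lit 284) (nat_lit 95)))) (XT.nd (nat_lit 156) (nat_lit 0) (nat_lit 0) (XT.nd (nat_lit 78) (nat_lit 684) (nat_lit 0) (XT.lf (nat_lit 0) (nat_lit 18482183779) (nat_lit 684) (nat_lit 33632426) (nat_lit 684) (nat_lit 33632426) (nat_lit 64) (nat_lit 3) (nat_lit 73) (nat_lit 3) (nat_lit 73) (nat_lit 5) (nat_lit 285) (nat_lit 285) (nat_lit 150)) (XT.lf (nat_lit 0) (nat_lit 149621704) (nat_lit 684) (nat_lit 22799464192) (nat_lit 760) (nat_lit 15063027188) (nat_lit 55) (nat_lit 5) (nat_lit 64) (nat_lit 3) (nat_lit 65) (nat_lit 5) (nat_lit 286) (nat_lit 285) (nat_lit 149))) (XT.nd (nat_lit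 78) (nat_lit 0) (nat_lit 76) (XT.lf (nat_lit 0) (nat_lit 441928404) (nat_lit 684) (nat_lit 7715788364) (nat_lit 760) (nat_lit 30813252609) (nat_lit 55) (nat_lit 5) (nat_lit 64) (nat_lit 3) (nat_lit 65) (nat_lit 5) (nat_lit 287) (nat_lit 285) (nat_lit 148)) (XT.lf (nat_lit 0) (nat_lit 994548294) (nat_lit 684) (nat_lit 31699518471) (nat_lit 760) (nat_lit 7271429581) (nat_lit 56) (nat_lit 5) (nat_lit 65) (nat_lit 5) (nat_lit 66) (nat_lit 5) (nat_lit 288) (nat_lit 285) (nat_lit 147))))) (XT.nd (nat_lit 312) (nat_lit 0) (nat_lit 152) (XT.nd (nat_lit 156) (nat_lit 0) (nat_lit 76) (XT.nd (nat_lit 78) (nat_lit 0) (nat_lit 0) (XT.lf (nat_lit 0) (nat_lit 1838899760) (nat_lit 684) (nat_lit 15825964589) (nat_lit 760) (nat_lit 23331692432) (nat_lit 56) (nat_lit 5) (nat_lit 65) (nat_lit 5) (nat_lit 66) (nat_lit 5) (nat_lit 289) (nat_lit 285) (nat_lit 146)) (XT.lf (nat_lit 76) (nat_lit 867528134)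 (nat_lit 0) (nat_lit 1869156417) (nat_lit 760) (nat_lit 39341936466) (nat_lit 57) (nat_lit 5) (nat_lit 56) (nat_lit 5) (nat_lit 66) (nat_lit 5) (nat_lit 290) (nat_lit 285) (nat_lit 145))) (XT.nd (nat_lit 78) (nat_lit 0) (nat_lit 0) (XT.lf (nat_lit 0) (nat_lit 4179306838) (nat_lit 684) (nat_lit 24492023067) (nat_lit 760) (nat_lit 14518472164) (nat_lit 57) (nat_lit 5) (nat_lit 66) (nat_lit 5) (nat_lit 67) (nat_lit 5) (nat_lit 291) (nat_lit 285) (nat_lit 144)) (XT.lf (nat_lit 0) (nat_lit 5722579147) (nat_lit 684) (nat_lit 6969180553) (nat_lit 760) (nat_lit 31663367019) (nat_lit 57) (nat_lit 5) (nat_lit 66) (nat_lit 5) (nat_lit 67) (nat_lit 5) (nat_lit 292) (nat_lit 285) (nat_lit 143)))) (XT.nd (nat_lit 156) (nat_lit 0) (nat_lit 0) (XT.nd (nat_lit 78) (nat_lit 0) (nat_lit 0) (XT.lf (nat_lit 0) (nat_lit 7592157891) (nat_lit 684) (nat_lit 33830238015) (nat_lit 760) (nat_lit 4143874548) (nat_lit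 58) (nat_lit 5) (nat_lit 67) (nat_lit 5) (nat_lit 68) (nat_lit 5) (nat_lit 293) (nat_lit 285) (nat_lit 142)) (XT.lf (nat_lit 0) (nat_lit 9881298278) (nat_lit 684) (nat_lit 15425163045) (nat_lit 760) (nat_lit 21515215435) (nat_lit 58) (nat_lit 5) (nat_lit 67) (nat_lit 5) (nat_lit 68) (nat_lit 5) (nat_lit 294) (nat_lit 285) (nat_lit 141))) (XT.nd (nat_lit 78) (nat_lit 0) (nat_lit 76) (XT.lf (nat_lit 76) (nat_lit 4027591079) (nat_lit 0) (nat_lit 8318338746) (nat_lit 760) (nat_lit 35790880909) (nat_lit 59) (nat_lit 5) (nat_lit 58) (nat_lit 5) (nat_lit 68) (nat_lit 5) (nat_lit 295) (nat_lit 285) (nat_lit 140)) (XT.nd (nat_lit 78) (nat_lit 0) (nat_lit 0) (XT.lf (nat_lit 0) (nat_lit 15346151716) (nat_lit 684) (nat_lit 24670595338) (nat_lit 76) (nat_lit 9480345047) (nat_lit 59) (nat_lit 5) (nat_lit 68) (nat_lit 5) (nat_lit 60) (nat_lit 5) (nat_lit 296) (nat_lit 285) (nat_lit 139)) (XT.lf (nat_lit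 0) (nat_lit 18631057987) (nat_lit 684) (nat_lit 4397893220) (nat_lit 76) (nat_lit 27889710886) (nat_lit 59) (nat_lit 5) (nat_lit 68) (nat_lit 5) (nat_lit 60) (nat_lit 5) (nat_lit 297) (nat_lit 285) (nat_lit 138))))))) (XT.nd (nat_lit 624) (nat_lit 836) (nat_lit 0) (XT.nd (nat_lit 312) (nat_lit 532) (nat_lit 0) (XT.nd (nat_lit 156) (nat_lit 304) (nat_lit 0) (XT.nd (nat_lit 78) (nat_lit 0) (nat_lit 0) (XT.lf (nat_lit 0) (nat_lit 17445389013) (nat_lit 684) (nat_lit 4905579665) (nat_lit 760) (nat_lit 30046811782) (nat_lit 50) (nat_lit 5) (nat_lit 59) (nat_lit 5) (nat_lit 60) (nat_lit 5) (nat_lit 298) (nat_lit 285) (nat_lit 137)) (XT.lf (nat_lit 0) (nat_lit 26551536220) (nat_lit 760) (nat_lit 13636827457) (nat_lit 76) (nat_lit 13747765460) (nat_lit 50) (nat_lit 5) (nat_lit 60) (nat_lit 5) (nat_lit 51) (nat_lit 5) (nat_lit 299) (nat_lit 285) (nat_lit 136))) (XT.nd (nat_lit 78) (nat_lit 0)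 (nat_lit 0) (XT.lf (nat_lit 0) (nat_lit 8949111991) (nat_lit 304) (nat_lit 22231679507) (nat_lit 380) (nat_lit 24359677882) (nat_lit 46) (nat_lit 5) (nat_lit 50) (nat_lit 5) (nat_lit 51) (nat_lit 5) (nat_lit 300) (nat_lit 285) (nat_lit 135)) (XT.lf (nat_lit 0) (nat_lit 33136400149) (nat_lit 304) (nat_lit 3134623803) (nat_lit 380) (nat_lit 20942533725) (nat_lit 46) (nat_lit 5) (nat_lit 50) (nat_lit 5) (nat_lit 51) (nat_lit 5) (nat_lit 301) (nat_lit 285) (nat_lit 134)))) (XT.nd (nat_lit 156) (nat_lit 228) (nat_lit 0) (XT.nd (nat_lit 78) (nat_lit 304) (nat_lit 0) (XT.lf (nat_lit 0) (nat_lit 41878531229) (nat_lit 380) (nat_lit 702771194) (nat_lit 76) (nat_lit 16375866248) (nat_lit 46) (nat_lit 5) (nat_lit 51) (nat_lit 5) (nat_lit 47) (nat_lit 5) (nat_lit 302) (nat_lit 285) (nat_lit 133)) (XT.lf (nat_lit 0) (nat_lit 24574142452) (nat_lit 304) (nat_lit 23626031805) (nat_lit 380) (nat_lit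 12566104072) (nat_lit 42) (nat_lit 5) (nat_lit 46) (nat_lit 5) (nat_lit 47) (nat_lit 5) (nat_lit 303) (nat_lit 285) (nat_lit 132))) (XT.nd (nat_lit 78) (nat_lit 228) (nat_lit 0) (XT.lf (nat_lit 0) (nat_lit 51137991118) (nat_lit 304) (nat_lit 3710553344) (nat_lit 380) (nat_lit 7816772600) (nat_lit 42) (nat_lit 5) (nat_lit 46) (nat_lit 5) (nat_lit 47) (nat_lit 5) (nat_lit 304) (nat_lit 285) (nat_lit 131)) (XT.lf (nat_lit 0) (nat_lit 14567099966) (nat_lit 228) (nat_lit 47757019902) (nat_lit 304) (nat_lit 2310454095) (nat_lit 39) (nat_lit 5) (nat_lit 42) (nat_lit 5) (nat_lit 43) (nat_lit 5) (nat_lit 305) (nat_lit 285) (nat_lit 130))))) (XT.nd (nat_lit 312) (nat_lit 456) (nat_lit 0) (XT.nd (nat_lit 156) (nat_lit 0) (nat_lit 0) (XT.nd (nat_lit 78) (nat_lit 304) (nat_lit 0) (XT.lf (nat_lit 0) (nat_lit 3618145858) (nat_lit 304) (nat_lit 24445641348) (nat_lit 76) (nat_lit 38622898556) (nat_lit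 38) (nat_lit 5) (nat_lit 42) (nat_lit 5) (nat_lit 39) (nat_lit 5) (nat_lit 306) (nat_lit 285) (nat_lit 129)) (XT.lf (nat_lit 0) (nat_lit 2498090027) (nat_lit 304) (nat_lit 7305313032) (nat_lit 380) (nat_lit 59034217404) (nat_lit 34) (nat_lit 5) (nat_lit 38) (nat_lit 5) (nat_lit 39) (nat_lit 5) (nat_lit 307) (nat_lit 285) (nat_lit 128))) (XT.nd (nat_lit 78) (nat_lit 0) (nat_lit 0) (XT.lf (nat_lit 0) (nat_lit 16943858440) (nat_lit 380) (nat_lit 39672037273) (nat_lit 76) (nat_lit 14447913995) (nat_lit 34) (nat_lit 5) (nat_lit 39) (nat_lit 5) (nat_lit 35) (nat_lit 5) (nat_lit 308) (nat_lit 285) (nat_lit 127)) (XT.lf (nat_lit 0) (nat_lit 24560051292) (nat_lit 380) (nat_lit 11792173866) (nat_lit 76) (nat_lit 37043151883) (nat_lit 34) (nat_lit 5) (nat_lit 39) (nat_lit 5) (nat_lit 35) (nat_lit 5) (nat_lit 309) (nat_lit 285) (nat_lit 126)))) (XT.nd (nat_lit 156) (nat_lit 228) (nat_lit 0) (XT.nd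 (nat_lit 78) (nat_lit 0) (nat_lit 0) (XT.lf (nat_lit 0) (nat_lit 18058480991) (nat_lit 228) (nat_lit 14779521504) (nat_lit 304) (nat_lit 42991476962) (nat_lit 31) (nat_lit 5) (nat_lit 34) (nat_lit 5) (nat_lit 35) (nat_lit 5) (nat_lit 310) (nat_lit 285) (nat_lit 125)) (XT.lf (nat_lit 0) (nat_lit 41854763655) (nat_lit 304) (nat_lit 28691626305) (nat_lit 76) (nat_lit 7822655369) (nat_lit 31) (nat_lit 5) (nat_lit 35) (nat_lit 5) (nat_lit 32) (nat_lit 5) (nat_lit 311) (nat_lit 285) (nat_lit 124))) (XT.nd (nat_lit 78) (nat_lit 0) (nat_lit 0) (XT.lf (nat_lit 0) (nat_lit 1651115267) (nat_lit 228) (nat_lit 49938390737) (nat_lit 304) (nat_lit 29432730099) (nat_lit 28) (nat_lit 5) (nat_lit 31) (nat_lit 5) (nat_lit 32) (nat_lit 5) (nat_lit 312) (nat_lit 285) (nat_lit 123)) (XT.nd (nat_lit 78) (nat_lit 0) (nat_lit 0) (XT.lf (nat_lit 0) (nat_lit 34505963112) (nat_lit 228) (nat_lit 27790032439) (nat_lit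 304) (nat_lit 21487843949) (nat_lit 28) (nat_lit 5) (nat_lit 31) (nat_lit 5) (nat_lit 32) (nat_lit 5) (nat_lit 313) (nat_lit 285) (nat_lit 122)) (XT.lf (nat_lit 0) (nat_lit 69002468318) (nat_lit 228) (nat_lit 4534487452) (nat_lit 304) (nat_lit 13146613401) (nat_lit 28) (nat_lit 5) (nat_lit 31) (nat_lit 5) (nat_lit 32) (nat_lit 5) (nat_lit 314) (nat_lit 285) (nat_lit 121))))))))
noncomputable def xc231 : XT := (XT.nd (nat_lit 1326) (nat_lit 304) (nat_lit 0) (XT.nd (nat_lit 624) (nat_lit 532) (nat_lit 0) (XT.nd (nat_lit 312) (nat_lit 152) (nat_lit 0) (XT.nd (nat_lit 156) (nat_lit 228) (nat_lit 0) (XT.nd (nat_lit 78) (nat_lit 76) (nat_lit 0) (XT.lf (nat_lit 0) (nat_lit 15686048756) (nat_lit 152) (nat_lit 70208444226) (nat_lit 228) (nat_lit 3806069149) (nat_lit 26) (nat_lit 5) (nat_lit 28) (nat_lit 5) (nat_lit 29) (nat_lit 5) (nat_lit 315) (nat_lit 285) (nat_lit 120)) (XT.lf (nat_lit 0)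 (nat_lit 6187289224) (nat_lit 228) (nat_lit 41692060302) (nat_lit 76) (nat_lit 44965479527) (nat_lit 25) (nat_lit 5) (nat_lit 28) (nat_lit 5) (nat_lit 26) (nat_lit 5) (nat_lit 316) (nat_lit 285) (nat_lit 119))) (XT.nd (nat_lit 78) (nat_lit 228) (nat_lit 0) (XT.lf (nat_lit 0) (nat_lit 16551635003) (nat_lit 228) (nat_lit 7816913681) (nat_lit 76) (nat_lit 71774682300) (nat_lit 25) (nat_lit 5) (nat_lit 28) (nat_lit 5) (nat_lit 26) (nat_lit 5) (nat_lit 317) (nat_lit 285) (nat_lit 118)) (XT.lf (nat_lit 0) (nat_lit 27893355409) (nat_lit 304) (nat_lit 70927929405) (nat_lit 76) (nat_lit 762313008) (nat_lit 22) (nat_lit 5) (nat_lit 26) (nat_lit 5) (nat_lit 23) (nat_lit 5) (nat_lit 318) (nat_lit 285) (nat_lit 117)))) (XT.nd (nat_lit 156) (nat_lit 152) (nat_lit 0) (XT.nd (nat_lit 78) (nat_lit 0) (nat_lit 0) (XT.lf (nat_lit 0) (nat_lit 40335480673) (nat_lit 304) (nat_lit 36368756953) (nat_lit 76)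 (nat_lit 26465081982) (nat_lit 22) (nat_lit 5) (nat_lit 26) (nat_lit 5) (nat_lit 23) (nat_lit 5) (nat_lit 319) (nat_lit 285) (nat_lit 116)) (XT.lf (nat_lit 0) (nat_lit 53399027439) (nat_lit 304) (nat_lit 82581788) (nat_lit 76) (nat_lit 53452754923) (nat_lit 22) (nat_lit 5) (nat_lit 26) (nat_lit 5) (nat_lit 23) (nat_lit 5) (nat_lit 320) (nat_lit 285) (nat_lit 115))) (XT.nd (nat_lit 78) (nat_lit 0) (nat_lit 0) (XT.lf (nat_lit 0) (nat_lit 39274005182) (nat_lit 152) (nat_lit 28454271494) (nat_lit 228) (nat_lit 43128760298) (nat_lit 20) (nat_lit 5) (nat_lit 22) (nat_lit 5) (nat_lit 23) (nat_lit 5) (nat_lit 321) (nat_lit 285) (nat_lit 114)) (XT.lf (nat_lit 0) (nat_lit 80600392849) (nat_lit 152) (nat_lit 2174359005) (nat_lit 228) (nat_lit 32201055613) (nat_lit 20) (nat_lit 5) (nat_lit 22) (nat_lit 5) (nat_lit 23) (nat_lit 5) (nat_lit 322) (nat_lit 285) (nat_lit 113))))) (XT.nd (nat_lit 312)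 (nat_lit 152) (nat_lit 0) (XT.nd (nat_lit 156) (nat_lit 228) (nat_lit 0) (XT.nd (nat_lit 78) (nat_lit 0) (nat_lit 0) (XT.lf (nat_lit 0) (nat_lit 4436838021) (nat_lit 152) (nat_lit 94602245930) (nat_lit 228) (nat_lit 20238157974) (nat_lit 18) (nat_lit 5) (nat_lit 20) (nat_lit 5) (nat_lit 21) (nat_lit 5) (nat_lit 323) (nat_lit 285) (nat_lit 112)) (XT.lf (nat_lit 0) (nat_lit 46345448947) (nat_lit 152) (nat_lit 70387825021) (nat_lit 228) (nat_lit 7029644068) (nat_lit 18) (nat_lit 5) (nat_lit 20) (nat_lit 5) (nat_lit 21) (nat_lit 5) (nat_lit 324) (nat_lit 285) (nat_lit 111))) (XT.nd (nat_lit 78) (nat_lit 152) (nat_lit 0) (XT.lf (nat_lit 0) (nat_lit 6619819239) (nat_lit 228) (nat_lit 38231014965) (nat_lit 76) (nat_lit 83616735338) (nat_lit 17) (nat_lit 5) (nat_lit 20) (nat_lit 5) (nat_lit 18) (nat_lit 5) (nat_lit 325) (nat_lit 285) (nat_lit 110)) (XT.lf (nat_lit 0) (nat_lit 2891253432) (nat_lit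 152) (nat_lit 17868852023) (nat_lit 228) (nat_lit 112639358296) (nat_lit 15) (nat_lit 5) (nat_lit 17) (nat_lit 5) (nat_lit 18) (nat_lit 5) (nat_lit 326) (nat_lit 285) (nat_lit 109)))) (XT.nd (nat_lit 156) (nat_lit 152) (nat_lit 0) (XT.nd (nat_lit 78) (nat_lit 0) (nat_lit 0) (XT.lf (nat_lit 0) (nat_lit 36428286562) (nat_lit 228) (nat_lit 91323426582) (nat_lit 76) (nat_lit 10785197141) (nat_lit 15) (nat_lit 5) (nat_lit 18) (nat_lit 5) (nat_lit 16) (nat_lit 5) (nat_lit 327) (nat_lit 285) (nat_lit 108)) (XT.lf (nat_lit 0) (nat_lit 53172295403) (nat_lit 228) (nat_lit 50473114589) (nat_lit 76) (nat_lit 40271199784) (nat_lit 15) (nat_lit 5) (nat_lit 18) (nat_lit 5) (nat_lit 16) (nat_lit 5) (nat_lit 328) (nat_lit 285) (nat_lit 107))) (XT.nd (nat_lit 78) (nat_lit 152) (nat_lit 0) (XT.lf (nat_lit 0) (nat_lit 70753015809) (nat_lit 228) (nat_lit 7581028837) (nat_lit 76) (nat_lit 71231275531) (nat_lit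 15) (nat_lit 5) (nat_lit 18) (nat_lit 5) (nat_lit 16) (nat_lit 5) (nat_lit 329) (nat_lit 285) (nat_lit 106)) (XT.nd (nat_lit 78) (nat_lit 0) (nat_lit 0) (XT.lf (nat_lit 0) (nat_lit 38693384642) (nat_lit 152) (nat_lit 51123034168) (nat_lit 228) (nat_lit 65649866379) (nat_lit 13) (nat_lit 5) (nat_lit 15) (nat_lit 5) (nat_lit 16) (nat_lit 5) (nat_lit 330) (nat_lit 285) (nat_lit 105)) (XT.lf (nat_lit 0) (nat_lit 87544019881) (nat_lit 152) (nat_lit 22416906193) (nat_lit 228) (nat_lit 51694977023) (nat_lit 13) (nat_lit 5) (nat_lit 15) (nat_lit 5) (nat_lit 16) (nat_lit 5) (nat_lit 331) (nat_lit 285) (nat_lit 104))))))) (XT.nd (nat_lit 624) (nat_lit 0) (nat_lit 0) (XT.nd (nat_lit 312) (nat_lit 152) (nat_lit 0) (XT.nd (nat_lit 156) (nat_lit 76) (nat_lit 0) (XT.nd (nat_lit 78) (nat_lit 76) (nat_lit 0) (XT.lf (nat_lit 0) (nat_lit 131232824007) (nat_lit 228) (nat_lit 29439097909) (nat_lit 76)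 (nat_lit 7477073007) (nat_lit 13) (nat_lit 5) (nat_lit 16) (nat_lit 5) (nat_lit 14) (nat_lit 4) (nat_lit 332) (nat_lit 285) (nat_lit 103)) (XT.lf (nat_lit 0) (nat_lit 17664563847) (nat_lit 76) (nat_lit 136546621144) (nat_lit 152) (nat_lit 20723414166) (nat_lit 12) (nat_lit 5) (nat_lit 13) (nat_lit 5) (nat_lit 14) (nat_lit 4) (nat_lit 333) (nat_lit 285) (nat_lit 102))) (XT.nd (nat_lit 78) (nat_lit 76) (nat_lit 0) (XT.lf (nat_lit 0) (nat_lit 68144829252) (nat_lit 76) (nat_lit 110691794503) (nat_lit 152) (nat_lit 3197953030) (nat_lit 12) (nat_lit 5) (nat_lit 13) (nat_lit 5) (nat_lit 14) (nat_lit 4) (nat_lit 334) (nat_lit 285) (nat_lit 101)) (XT.lf (nat_lit 0) (nat_lit 14716771482) (nat_lit 152) (nat_lit 68578441121) (nat_lit 76) (nat_lit 106182492757) (nat_lit 11) (nat_lit 5) (nat_lit 13) (nat_lit 5) (nat_lit 12) (nat_lit 5) (nat_lit 335) (nat_lit 285) (nat_lit 100)))) (XT.nd (nat_lit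 156) (nat_lit 0) (nat_lit 0) (XT.nd (nat_lit 78) (nat_lit 152) (nat_lit 0) (XT.lf (nat_lit 0) (nat_lit 33419385044) (nat_lit 152) (nat_lit 21054587342) (nat_lit 76) (nat_lit 142816416460) (nat_lit 11) (nat_lit 5) (nat_lit 13) (nat_lit 5) (nat_lit 12) (nat_lit 5) (nat_lit 336) (nat_lit 285) (nat_lit 99)) (XT.lf (nat_lit 0) (nat_lit 29798637334) (nat_lit 152) (nat_lit 23723375063) (nat_lit 228) (nat_lit 151948450917) (nat_lit 9) (nat_lit 5) (nat_lit 11) (nat_lit 5) (nat_lit 12) (nat_lit 5) (nat_lit 337) (nat_lit 285) (nat_lit 98))) (XT.nd (nat_lit 78) (nat_lit 0) (nat_lit 0) (XT.lf (nat_lit 0) (nat_lit 75125553917) (nat_lit 228) (nat_lit 130256357548) (nat_lit 76) (nat_lit 8652841814) (nat_lit 9) (nat_lit 5) (nat_lit 12) (nat_lit 5) (nat_lit 10) (nat_lit 4) (nat_lit 338) (nat_lit 285) (nat_lit 97)) (XT.lf (nat_lit 0) (nat_lit 98197845052) (nat_lit 228) (nat_lit 82959566635) (nat_lit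 76) (nat_lit 41850418299) (nat_lit 9) (nat_lit 5) (nat_lit 12) (nat_lit 5) (nat_lit 10) (nat_lit 4) (nat_lit 339) (nat_lit 285) (nat_lit 96))))) (XT.nd (nat_lit 33540) (nat_lit 0) (nat_lit 3572) (XT.nd (nat_lit 33384) (nat_lit 0) (nat_lit 3496) (XT.nd (nat_lit 33306) (nat_lit 0) (nat_lit 4180) (XT.lf (nat_lit 0) (nat_lit 122423431459) (nat_lit 228) (nat_lit 33298453467) (nat_lit 76) (nat_lit 76707692397) (nat_lit 9) (nat_lit 5) (nat_lit 12) (nat_lit 5) (nat_lit 10) (nat_lit 4) (nat_lit 340) (nat_lit 285) (nat_lit 95)) (XT.lf (nat_lit 0) (nat_lit 19446430598) (nat_lit 684) (nat_lit 14133679) (nat_lit 684) (nat_lit 14133679) (nat_lit 64) (nat_lit 3) (nat_lit 73) (nat_lit 3) (nat_lit 73) (nat_lit 5) (nat_lit 286) (nat_lit 286) (nat_lit 148))) (XT.nd (nat_lit 78) (nat_lit 0) (nat_lit 0) (XT.lf (nat_lit 0) (nat_lit 235868782) (nat_lit 684) (nat_lit 23894763301) (nat_lit 760) (nat_lit 15777756112)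 (nat_lit 55) (nat_lit 5) (nat_lit 64) (nat_lit 3) (nat_lit 65) (nat_lit 5) (nat_lit 287) (nat_lit 286) (nat_lit 147)) (XT.lf (nat_lit 0) (nat_lit 539040056) (nat_lit 684) (nat_lit 8059031020) (nat_lit 760) (nat_lit 32317322444) (nat_lit 55) (nat_lit 5) (nat_lit 64) (nat_lit 3) (nat_lit 65) (nat_lit 5) (nat_lit 288) (nat_lit 286) (nat_lit 146)))) (XT.nd (nat_lit 156) (nat_lit 0) (nat_lit 0) (XT.nd (nat_lit 78) (nat_lit 0) (nat_lit 0) (XT.lf (nat_lit 0) (nat_lit 1115900276) (nat_lit 684) (nat_lit 33238201192) (nat_lit 760) (nat_lit 7605732691) (nat_lit 56) (nat_lit 5) (nat_lit 65) (nat_lit 5) (nat_lit 66) (nat_lit 5) (nat_lit 289) (nat_lit 286) (nat_lit 145)) (XT.lf (nat_lit 0) (nat_lit 1999058621) (nat_lit 684) (nat_lit 16573174053) (nat_lit 760) (nat_lit 24470402417) (nat_lit 56) (nat_lit 5) (nat_lit 65) (nat_lit 5) (nat_lit 66) (nat_lit 5) (nat_lit 290) (nat_lit 286) (nat_lit 144)))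 (XT.nd (nat_lit 78) (nat_lit 0) (nat_lit 76) (XT.lf (nat_lit 76) (nat_lit 954282196) (nat_lit 0) (nat_lit 1984879423) (nat_lit 760) (nat_lit 41239785607) (nat_lit 57) (nat_lit 5) (nat_lit 56) (nat_lit 5) (nat_lit 66) (nat_lit 5) (nat_lit 291) (nat_lit 286) (nat_lit 143)) (XT.nd (nat_lit 78) (nat_lit 0) (nat_lit 0) (XT.lf (nat_lit 0) (nat_lit 4450458102) (nat_lit 684) (nat_lit 25671547916) (nat_lit 760) (nat_lit 15223869524) (nat_lit 57) (nat_lit 5) (nat_lit 66) (nat_lit 5) (nat_lit 67) (nat_lit 5) (nat_lit 292) (nat_lit 286) (nat_lit 142)) (XT.lf (nat_lit 0) (nat_lit 6067932792) (nat_lit 684) (nat_lit 7274709768) (nat_lit 760) (nat_lit 33226986563) (nat_lit 57) (nat_lit 5) (nat_lit 66) (nat_lit 5) (nat_lit 67) (nat_lit 5) (nat_lit 293) (nat_lit 286) (nat_lit 141))))))))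
noncomputable def xc232 : XT := (XT.nd (nat_lit 1248) (nat_lit 1292) (nat_lit 0) (XT.nd (nat_lit 624) (nat_lit 912) (nat_lit 0) (XT.nd (nat_lit 312) (nat_lit 912) (nat_lit 0) (XT.nd (nat_lit 156) (nat_lit 0) (nat_lit 0) (XT.nd (nat_lit 78) (nat_lit 0) (nat_lit 0) (XT.lf (nat_lit 0) (nat_lit 8028598212) (nat_lit 684) (nat_lit 35476149080) (nat_lit 760) (nat_lit 4336716305) (nat_lit 58) (nat_lit 5) (nat_lit 67) (nat_lit 5) (nat_lit 68) (nat_lit 5) (nat_lit 294) (nat_lit 286) (nat_lit 140)) (XT.lf (nat_lit 0) (nat_lit 10429489311) (nat_lit 684) (nat_lit 16152991830) (nat_lit 760) (nat_lit 22577307663) (nat_lit 58) (nat_lit 5) (nat_lit 67) (nat_lit 5) (nat_lit 68) (nat_lit 5) (nat_lit 295) (nat_lit 286) (nat_lit 139))) (XT.nd (nat_lit 78) (nat_lit 0) (nat_lit 76) (XT.lf (nat_lit 76) (nat_lit 4271699527) (nat_lit 0) (nat_lit 8743742592) (nat_lit 760) (nat_lit 37525345517) (nat_lit 59) (nat_lit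 5) (nat_lit 58) (nat_lit 5) (nat_lit 68) (nat_lit 5) (nat_lit 296) (nat_lit 286) (nat_lit 138)) (XT.lf (nat_lit 0) (nat_lit 16163047574) (nat_lit 684) (nat_lit 25860562586) (nat_lit 76) (nat_lit 9945616329) (nat_lit 59) (nat_lit 5) (nat_lit 68) (nat_lit 5) (nat_lit 60) (nat_lit 5) (nat_lit 297) (nat_lit 286) (nat_lit 137)))) (XT.nd (nat_lit 156) (nat_lit 304) (nat_lit 0) (XT.nd (nat_lit 78) (nat_lit 684) (nat_lit 0) (XT.lf (nat_lit 0) (nat_lit 19609837813) (nat_lit 684) (nat_lit 4576299768) (nat_lit 76) (nat_lit 29275866935) (nat_lit 59) (nat_lit 5) (nat_lit 68) (nat_lit 5) (nat_lit 60) (nat_lit 5) (nat_lit 298) (nat_lit 286) (nat_lit 136)) (XT.lf (nat_lit 0) (nat_lit 18358477414) (nat_lit 684) (nat_lit 5155655021) (nat_lit 760) (nat_lit 31501037866) (nat_lit 50) (nat_lit 5) (nat_lit 59) (nat_lit 5) (nat_lit 60) (nat_lit 5) (nat_lit 299) (nat_lit 286) (nat_lit 135))) (XT.nd (nat_lit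 78) (nat_lit 304) (nat_lit 0) (XT.lf (nat_lit 0) (nat_lit 27922484876) (nat_lit 760) (nat_lit 14277342146) (nat_lit 76) (nat_lit 14430731963) (nat_lit 50) (nat_lit 5) (nat_lit 60) (nat_lit 5) (nat_lit 51) (nat_lit 5) (nat_lit 300) (nat_lit 286) (nat_lit 134)) (XT.lf (nat_lit 0) (nat_lit 9437227714) (nat_lit 304) (nat_lit 23344544697) (nat_lit 380) (nat_lit 25533425261) (nat_lit 46) (nat_lit 5) (nat_lit 50) (nat_lit 5) (nat_lit 51) (nat_lit 5) (nat_lit 301) (nat_lit 286) (nat_lit 133))))) (XT.nd (nat_lit 312) (nat_lit 608) (nat_lit 0) (XT.nd (nat_lit 156) (nat_lit 304) (nat_lit 0) (XT.nd (nat_lit 78) (nat_lit 0) (nat_lit 0) (XT.lf (nat_lit 0) (nat_lit 34831944083) (nat_lit 304) (nat_lit 3292575198) (nat_lit 380) (nat_lit 21947530397) (nat_lit 46) (nat_lit 5) (nat_lit 50) (nat_lit 5) (nat_lit 51) (nat_lit 5) (nat_lit 302) (nat_lit 286) (nat_lit 132)) (XT.lf (nat_lit 0) (nat_lit 44010481677)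 (nat_lit 380) (nat_lit 698929886) (nat_lit 76) (nat_lit 17193534656) (nat_lit 46) (nat_lit 5) (nat_lit 51) (nat_lit 5) (nat_lit 47) (nat_lit 5) (nat_lit 303) (nat_lit 286) (nat_lit 131))) (XT.nd (nat_lit 78) (nat_lit 0) (nat_lit 0) (XT.lf (nat_lit 0) (nat_lit 25841200734) (nat_lit 304) (nat_lit 24805794231) (nat_lit 380) (nat_lit 13155585547) (nat_lit 42) (nat_lit 5) (nat_lit 46) (nat_lit 5) (nat_lit 47) (nat_lit 5) (nat_lit 304) (nat_lit 286) (nat_lit 130)) (XT.lf (nat_lit 0) (nat_lit 53731415588) (nat_lit 304) (nat_lit 3894615140) (nat_lit 380) (nat_lit 8170636251) (nat_lit 42) (nat_lit 5) (nat_lit 46) (nat_lit 5) (nat_lit 47) (nat_lit 5) (nat_lit 305) (nat_lit 286) (nat_lit 129)))) (XT.nd (nat_lit 156) (nat_lit 304) (nat_lit 0) (XT.nd (nat_lit 78) (nat_lit 76) (nat_lit 0) (XT.lf (nat_lit 0) (nat_lit 15333253284) (nat_lit 228) (nat_lit 50141074075) (nat_lit 304) (nat_lit 2390120002)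 (nat_lit 39) (nat_lit 5) (nat_lit 42) (nat_lit 5) (nat_lit 43) (nat_lit 5) (nat_lit 306) (nat_lit 286) (nat_lit 128)) (XT.lf (nat_lit 0) (nat_lit 3832109490) (nat_lit 304) (nat_lit 25630691231) (nat_lit 76) (nat_lit 40556425721) (nat_lit 38) (nat_lit 5) (nat_lit 42) (nat_lit 5) (nat_lit 39) (nat_lit 5) (nat_lit 307) (nat_lit 286) (nat_lit 127))) (XT.nd (nat_lit 78) (nat_lit 0) (nat_lit 0) (XT.lf (nat_lit 0) (nat_lit 2659626194) (nat_lit 304) (nat_lit 7666001168) (nat_lit 380) (nat_lit 61952137327) (nat_lit 34) (nat_lit 5) (nat_lit 38) (nat_lit 5) (nat_lit 39) (nat_lit 5) (nat_lit 308) (nat_lit 286) (nat_lit 126)) (XT.lf (nat_lit 0) (nat_lit 17821647189) (nat_lit 380) (nat_lit 41619165809) (nat_lit 76) (nat_lit 15174529700) (nat_lit 34) (nat_lit 5) (nat_lit 39) (nat_lit 5) (nat_lit 35) (nat_lit 5) (nat_lit 309) (nat_lit 286) (nat_lit 125)))))) (XT.nd (nat_lit 624) (nat_lit 608) (nat_lit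 0) (XT.nd (nat_lit 312) (nat_lit 228) (nat_lit 0) (XT.nd (nat_lit 156) (nat_lit 228) (nat_lit 0) (XT.nd (nat_lit 78) (nat_lit 228) (nat_lit 0) (XT.lf (nat_lit 0) (nat_lit 25817192740) (nat_lit 380) (nat_lit 12347046057) (nat_lit 76) (nat_lit 38899328530) (nat_lit 34) (nat_lit 5) (nat_lit 39) (nat_lit 5) (nat_lit 35) (nat_lit 5) (nat_lit 310) (nat_lit 286) (nat_lit 124)) (XT.lf (nat_lit 0) (nat_lit 18995581276) (nat_lit 228) (nat_lit 15512606247) (nat_lit 304) (nat_lit 45111235831) (nat_lit 31) (nat_lit 5) (nat_lit 34) (nat_lit 5) (nat_lit 35) (nat_lit 5) (nat_lit 311) (nat_lit 286) (nat_lit 123))) (XT.nd (nat_lit 78) (nat_lit 228) (nat_lit 0) (XT.lf (nat_lit 0) (nat_lit 43974527441) (nat_lit 304) (nat_lit 30092289209) (nat_lit 76) (nat_lit 8219219350) (nat_lit 31) (nat_lit 5) (nat_lit 35) (nat_lit 5) (nat_lit 32) (nat_lit 5) (nat_lit 312) (nat_lit 286) (nat_lit 122)) (XT.lf (nat_lit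 0) (nat_lit 1767042370) (nat_lit 228) (nat_lit 52428198624) (nat_lit 304) (nat_lit 30876688867) (nat_lit 28) (nat_lit 5) (nat_lit 31) (nat_lit 5) (nat_lit 32) (nat_lit 5) (nat_lit 313) (nat_lit 286) (nat_lit 121)))) (XT.nd (nat_lit 156) (nat_lit 228) (nat_lit 0) (XT.nd (nat_lit 78) (nat_lit 0) (nat_lit 0) (XT.lf (nat_lit 0) (nat_lit 36263043496) (nat_lit 228) (nat_lit 29172761061) (nat_lit 304) (nat_lit 22535876397) (nat_lit 28) (nat_lit 5) (nat_lit 31) (nat_lit 5) (nat_lit 32) (nat_lit 5) (nat_lit 314) (nat_lit 286) (nat_lit 120)) (XT.lf (nat_lit 0) (nat_lit 72482860523) (nat_lit 228) (nat_lit 4754761349) (nat_lit 304) (nat_lit 13778839548) (nat_lit 28) (nat_lit 5) (nat_lit 31) (nat_lit 5) (nat_lit 32) (nat_lit 5) (nat_lit 315) (nat_lit 286) (nat_lit 119))) (XT.nd (nat_lit 78) (nat_lit 76) (nat_lit 0) (XT.lf (nat_lit 0) (nat_lit 16501298155) (nat_lit 152) (nat_lit 73711182667) (nat_lit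 228) (nat_lit 3971855499) (nat_lit 26) (nat_lit 5) (nat_lit 28) (nat_lit 5) (nat_lit 29) (nat_lit 5) (nat_lit 316) (nat_lit 286) (nat_lit 118)) (XT.lf (nat_lit 0) (nat_lit 6519255977) (nat_lit 228) (nat_lit 43746360368) (nat_lit 76) (nat_lit 47220241727) (nat_lit 25) (nat_lit 5) (nat_lit 28) (nat_lit 5) (nat_lit 26) (nat_lit 5) (nat_lit 317) (nat_lit 286) (nat_lit 117))))) (XT.nd (nat_lit 312) (nat_lit 380) (nat_lit 0) (XT.nd (nat_lit 156) (nat_lit 0) (nat_lit 0) (XT.nd (nat_lit 78) (nat_lit 228) (nat_lit 0) (XT.lf (nat_lit 0) (nat_lit 17400742746) (nat_lit 228) (nat_lit 8178899413) (nat_lit 76) (nat_lit 75369595677) (nat_lit 25) (nat_lit 5) (nat_lit 28) (nat_lit 5) (nat_lit 26) (nat_lit 5) (nat_lit 318) (nat_lit 286) (nat_lit 116)) (XT.lf (nat_lit 0) (nat_lit 29309083761) (nat_lit 304) (nat_lit 74444925847) (nat_lit 76) (nat_lit 807640411) (nat_lit 22) (nat_lit 5) (nat_lit 26) (nat_lit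 5) (nat_lit 23) (nat_lit 5) (nat_lit 319) (nat_lit 286) (nat_lit 115))) (XT.nd (nat_lit 78) (nat_lit 0) (nat_lit 0) (XT.lf (nat_lit 0) (nat_lit 42372312403) (nat_lit 304) (nat_lit 38159194774) (nat_lit 76) (nat_lit 27795204418) (nat_lit 22) (nat_lit 5) (nat_lit 26) (nat_lit 5) (nat_lit 23) (nat_lit 5) (nat_lit 320) (nat_lit 286) (nat_lit 114)) (XT.lf (nat_lit 0) (nat_lit 56088081379) (nat_lit 304) (nat_lit 60044185) (nat_lit 76) (nat_lit 56131933942) (nat_lit 22) (nat_lit 5) (nat_lit 26) (nat_lit 5) (nat_lit 23) (nat_lit 5) (nat_lit 321) (nat_lit 286) (nat_lit 113)))) (XT.nd (nat_lit 156) (nat_lit 228) (nat_lit 0) (XT.nd (nat_lit 78) (nat_lit 0) (nat_lit 0) (XT.lf (nat_lit 0) (nat_lit 41263942026) (nat_lit 152) (nat_lit 29869351032) (nat_lit 228) (nat_lit 45265601139) (nat_lit 20) (nat_lit 5) (nat_lit 22) (nat_lit 5) (nat_lit 23) (nat_lit 5) (nat_lit 322) (nat_lit 286) (nat_lit 112))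 (XT.lf (nat_lit 0) (nat_lit 84655399715) (nat_lit 152) (nat_lit 2275806444) (nat_lit 228) (nat_lit 33792444418) (nat_lit 20) (nat_lit 5) (nat_lit 22) (nat_lit 5) (nat_lit 23) (nat_lit 5) (nat_lit 323) (nat_lit 286) (nat_lit 111))) (XT.nd (nat_lit 78) (nat_lit 76) (nat_lit 0) (XT.lf (nat_lit 0) (nat_lit 4684084428) (nat_lit 152) (nat_lit 99324331523) (nat_lit 228) (nat_lit 21231760677) (nat_lit 18) (nat_lit 5) (nat_lit 20) (nat_lit 5) (nat_lit 21) (nat_lit 5) (nat_lit 324) (nat_lit 286) (nat_lit 110)) (XT.nd (nat_lit 78) (nat_lit 76) (nat_lit 0) (XT.lf (nat_lit 0) (nat_lit 48686916162) (nat_lit 152) (nat_lit 73899571792) (nat_lit 228) (nat_lit 7363692752) (nat_lit 18) (nat_lit 5) (nat_lit 20) (nat_lit 5) (nat_lit 21) (nat_lit 5) (nat_lit 325) (nat_lit 286) (nat_lit 109)) (XT.lf (nat_lit 0) (nat_lit 6966882142) (nat_lit 228) (nat_lit 40118941129) (nat_lit 76) (nat_lit 87804270614) (nat_lit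 17) (nat_lit 5) (nat_lit 20) (nat_lit 5) (nat_lit 18) (nat_lit 5) (nat_lit 326) (nat_lit 286) (nat_lit 108))))))))
noncomputable def xc233 : XT := (XT.nd (nat_lit 34710) (nat_lit 0) (nat_lit 2280) (XT.nd (nat_lit 624) (nat_lit 228) (nat_lit 0) (XT.nd (nat_lit 312) (nat_lit 228) (nat_lit 0) (XT.nd (nat_lit 156) (nat_lit 0) (nat_lit 0) (XT.nd (nat_lit 78) (nat_lit 0) (nat_lit 0) (XT.lf (nat_lit 0) (nat_lit 3059059645) (nat_lit 152) (nat_lit 18754720590) (nat_lit 228) (nat_lit 118254825099) (nat_lit 15) (nat_lit 5) (nat_lit 17) (nat_lit 5) (nat_lit 18) (nat_lit 5) (nat_lit 327) (nat_lit 286) (nat_lit 107)) (XT.lf (nat_lit 0) (nat_lit 38264736851) (nat_lit 228) (nat_lit 95866781821) (nat_lit 76) (nat_lit 11331439492) (nat_lit 15) (nat_lit 5) (nat_lit 18) (nat_lit 5) (nat_lit 16) (nat_lit 5) (nat_lit 328) (nat_lit 286) (nat_lit 106))) (XT.nd (nat_lit 78) (nat_lit 0) (nat_lit 0) (XT.lf (nat_lit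 0) (nat_lit 55845230136) (nat_lit 228) (nat_lit 52975040709) (nat_lit 76) (nat_lit 42291409767) (nat_lit 15) (nat_lit 5) (nat_lit 18) (nat_lit 5) (nat_lit 16) (nat_lit 5) (nat_lit 329) (nat_lit 286) (nat_lit 105)) (XT.lf (nat_lit 0) (nat_lit 74304304660) (nat_lit 228) (nat_lit 7939385412) (nat_lit 76) (nat_lit 74799172636) (nat_lit 15) (nat_lit 5) (nat_lit 18) (nat_lit 5) (nat_lit 16) (nat_lit 5) (nat_lit 330) (nat_lit 286) (nat_lit 104)))) (XT.nd (nat_lit 156) (nat_lit 76) (nat_lit 0) (XT.nd (nat_lit 78) (nat_lit 0) (nat_lit 0) (XT.lf (nat_lit 0) (nat_lit 40648414953) (nat_lit 152) (nat_lit 53672131319) (nat_lit 228) (nat_lit 68918348253) (nat_lit 13) (nat_lit 5) (nat_lit 15) (nat_lit 5) (nat_lit 16) (nat_lit 5) (nat_lit 331) (nat_lit 286) (nat_lit 103)) (XT.lf (nat_lit 0) (nat_lit 91940612378) (nat_lit 152) (nat_lit 23531032877) (nat_lit 228) (nat_lit 54266381641) (nat_lit 13) (nat_lit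 5) (nat_lit 15) (nat_lit 5) (nat_lit 16) (nat_lit 5) (nat_lit 332) (nat_lit 286) (nat_lit 102))) (XT.nd (nat_lit 78) (nat_lit 76) (nat_lit 0) (XT.lf (nat_lit 0) (nat_lit 137806634516) (nat_lit 228) (nat_lit 30892045222) (nat_lit 76) (nat_lit 7857120550) (nat_lit 13) (nat_lit 5) (nat_lit 16) (nat_lit 5) (nat_lit 14) (nat_lit 4) (nat_lit 333) (nat_lit 286) (nat_lit 101)) (XT.lf (nat_lit 0) (nat_lit 18566493049) (nat_lit 76) (nat_lit 143367132986) (nat_lit 152) (nat_lit 21747074786) (nat_lit 12) (nat_lit 5) (nat_lit 13) (nat_lit 5) (nat_lit 14) (nat_lit 4) (nat_lit 334) (nat_lit 286) (nat_lit 100))))) (XT.nd (nat_lit 312) (nat_lit 0) (nat_lit 0) (XT.nd (nat_lit 156) (nat_lit 152) (nat_lit 0) (XT.nd (nat_lit 78) (nat_lit 76) (nat_lit 0) (XT.lf (nat_lit 0) (nat_lit 71569881199) (nat_lit 76) (nat_lit 116219889737) (nat_lit 152) (nat_lit 3345936312) (nat_lit 12) (nat_lit 5) (nat_lit 13) (nat_lit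 5) (nat_lit 14) (nat_lit 4) (nat_lit 335) (nat_lit 286) (nat_lit 99)) (XT.lf (nat_lit 0) (nat_lit 15463593899) (nat_lit 152) (nat_lit 71990008088) (nat_lit 76) (nat_lit 111497409901) (nat_lit 11) (nat_lit 5) (nat_lit 13) (nat_lit 5) (nat_lit 12) (nat_lit 5) (nat_lit 336) (nat_lit 286) (nat_lit 98))) (XT.nd (nat_lit 78) (nat_lit 152) (nat_lit 0) (XT.lf (nat_lit 0) (nat_lit 35100815099) (nat_lit 152) (nat_lit 22090788053) (nat_lit 76) (nat_lit 149962753956) (nat_lit 11) (nat_lit 5) (nat_lit 13) (nat_lit 5) (nat_lit 12) (nat_lit 5) (nat_lit 337) (nat_lit 286) (nat_lit 97)) (XT.lf (nat_lit 0) (nat_lit 31304831266) (nat_lit 152) (nat_lit 24903498316) (nat_lit 228) (nat_lit 159535119268) (nat_lit 9) (nat_lit 5) (nat_lit 11) (nat_lit 5) (nat_lit 12) (nat_lit 5) (nat_lit 338) (nat_lit 286) (nat_lit 96)))) (XT.nd (nat_lit 33540) (nat_lit 0) (nat_lit 3496) (XT.nd (nat_lit 33462) (nat_lit 0)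 (nat_lit 3496) (XT.lf (nat_lit 0) (nat_lit 78891651568) (nat_lit 228) (nat_lit 136753265609) (nat_lit 76) (nat_lit 9091057244) (nat_lit 9) (nat_lit 5) (nat_lit 12) (nat_lit 5) (nat_lit 10) (nat_lit 4) (nat_lit 339) (nat_lit 286) (nat_lit 95)) (XT.lf (nat_lit 0) (nat_lit 4300356) (nat_lit 0) (nat_lit 4300356) (nat_lit 684) (nat_lit 20437801956) (nat_lit 55) (nat_lit 5) (nat_lit 55) (nat_lit 3) (nat_lit 64) (nat_lit 3) (nat_lit 287) (nat_lit 287) (nat_lit 146))) (XT.nd (nat_lit 78) (nat_lit 0) (nat_lit 0) (XT.lf (nat_lit 0) (nat_lit 319105299) (nat_lit 684) (nat_lit 25048980740) (nat_lit 760) (nat_lit 16531793636) (nat_lit 55) (nat_lit 5) (nat_lit 64) (nat_lit 3) (nat_lit 65) (nat_lit 5) (nat_lit 288) (nat_lit 287) (nat_lit 145)) (XT.nd (nat_lit 78) (nat_lit 0) (nat_lit 76) (XT.lf (nat_lit 0) (nat_lit 634033085) (nat_lit 684) (nat_lit 8423391404) (nat_lit 760) (nat_lit 33899997822) (nat_lit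 55) (nat_lit 5) (nat_lit 64) (nat_lit 3) (nat_lit 65) (nat_lit 5) (nat_lit 289) (nat_lit 287) (nat_lit 144)) (XT.lf (nat_lit 0) (nat_lit 1236660884) (nat_lit 684) (nat_lit 34858121952) (nat_lit 760) (nat_lit 7959472052) (nat_lit 56) (nat_lit 5) (nat_lit 65) (nat_lit 5) (nat_lit 66) (nat_lit 5) (nat_lit 290) (nat_lit 287) (nat_lit 143))))))) (XT.nd (nat_lit 624) (nat_lit 1292) (nat_lit 0) (XT.nd (nat_lit 312) (nat_lit 0) (nat_lit 152) (XT.nd (nat_lit 156) (nat_lit 0) (nat_lit 76) (XT.nd (nat_lit 78) (nat_lit 0) (nat_lit 0) (XT.lf (nat_lit 0) (nat_lit 2160883546) (nat_lit 684) (nat_lit 17361842947) (nat_lit 760) (nat_lit 25668639420) (nat_lit 56) (nat_lit 5) (nat_lit 65) (nat_lit 5) (nat_lit 66) (nat_lit 5) (nat_lit 291) (nat_lit 287) (nat_lit 142)) (XT.lf (nat_lit 76) (nat_lit 1041341118) (nat_lit 0) (nat_lit 2104318573) (nat_lit 760) (nat_lit 43238965198) (nat_lit 57) (nat_lit 5) (nat_lit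 56) (nat_lit 5) (nat_lit 66) (nat_lit 5) (nat_lit 292) (nat_lit 287) (nat_lit 141))) (XT.nd (nat_lit 78) (nat_lit 0) (nat_lit 0) (XT.lf (nat_lit 0) (nat_lit 4729385472) (nat_lit 684) (nat_lit 26914239775) (nat_lit 760) (nat_lit 15966445089) (nat_lit 57) (nat_lit 5) (nat_lit 66) (nat_lit 5) (nat_lit 67) (nat_lit 5) (nat_lit 293) (nat_lit 287) (nat_lit 140)) (XT.lf (nat_lit 0) (nat_lit 6425047970) (nat_lit 684) (nat_lit 7599506650) (nat_lit 760) (nat_lit 34870604547) (nat_lit 57) (nat_lit 5) (nat_lit 66) (nat_lit 5) (nat_lit 67) (nat_lit 5) (nat_lit 294) (nat_lit 287) (nat_lit 139)))) (XT.nd (nat_lit 156) (nat_lit 0) (nat_lit 0) (XT.nd (nat_lit 78) (nat_lit 0) (nat_lit 0) (XT.lf (nat_lit 0) (nat_lit 8481576808) (nat_lit 684) (nat_lit 37208595231) (nat_lit 760) (nat_lit 4540534459) (nat_lit 58) (nat_lit 5) (nat_lit 67) (nat_lit 5) (nat_lit 68) (nat_lit 5) (nat_lit 295) (nat_lit 287) (nat_lit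 138)) (XT.lf (nat_lit 0) (nat_lit 11000057763) (nat_lit 684) (nat_lit 16921249705) (nat_lit 760) (nat_lit 23693775274) (nat_lit 58) (nat_lit 5) (nat_lit 67) (nat_lit 5) (nat_lit 68) (nat_lit 5) (nat_lit 296) (nat_lit 287) (nat_lit 137))) (XT.nd (nat_lit 78) (nat_lit 0) (nat_lit 76) (XT.lf (nat_lit 76) (nat_lit 4524040870) (nat_lit 0) (nat_lit 9189534628) (nat_lit 760) (nat_lit 39351654120) (nat_lit 59) (nat_lit 5) (nat_lit 58) (nat_lit 5) (nat_lit 68) (nat_lit 5) (nat_lit 297) (nat_lit 287) (nat_lit 136)) (XT.lf (nat_lit 0) (nat_lit 17016177977) (nat_lit 684) (nat_lit 27114078226) (nat_lit 76) (nat_lit 10434964293) (nat_lit 59) (nat_lit 5) (nat_lit 68) (nat_lit 5) (nat_lit 60) (nat_lit 5) (nat_lit 298) (nat_lit 287) (nat_lit 135))))) (XT.nd (nat_lit 312) (nat_lit 532) (nat_lit 0) (XT.nd (nat_lit 156) (nat_lit 304) (nat_lit 0) (XT.nd (nat_lit 78) (nat_lit 684) (nat_lit 0) (XT.lf (nat_lit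 0) (nat_lit 20633165918) (nat_lit 684) (nat_lit 4767483814) (nat_lit 76) (nat_lit 30732105184) (nat_lit 59) (nat_lit 5) (nat_lit 68) (nat_lit 5) (nat_lit 60) (nat_lit 5) (nat_lit 299) (nat_lit 287) (nat_lit 134)) (XT.lf (nat_lit 0) (nat_lit 19313425276) (nat_lit 684) (nat_lit 5417788223) (nat_lit 760) (nat_lit 33032448485) (nat_lit 50) (nat_lit 5) (nat_lit 59) (nat_lit 5) (nat_lit 60) (nat_lit 5) (nat_lit 300) (nat_lit 287) (nat_lit 133))) (XT.nd (nat_lit 78) (nat_lit 304) (nat_lit 0) (XT.lf (nat_lit 0) (nat_lit 29357948663) (nat_lit 760) (nat_lit 14953724734) (nat_lit 76) (nat_lit 15148257885) (nat_lit 50) (nat_lit 5) (nat_lit 60) (nat_lit 5) (nat_lit 51) (nat_lit 5) (nat_lit 301) (nat_lit 287) (nat_lit 132)) (XT.lf (nat_lit 0) (nat_lit 9945969030) (nat_lit 304) (nat_lit 24512934031) (nat_lit 380) (nat_lit 26769972701) (nat_lit 46) (nat_lit 5) (nat_lit 50) (nat_lit 5) (nat_lit 51)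 (nat_lit 5) (nat_lit 302) (nat_lit 287) (nat_lit 131)))) (XT.nd (nat_lit 156) (nat_lit 532) (nat_lit 0) (XT.nd (nat_lit 78) (nat_lit 0) (nat_lit 0) (XT.lf (nat_lit 0) (nat_lit 36608665031) (nat_lit 304) (nat_lit 3458310719) (nat_lit 380) (nat_lit 23006693752) (nat_lit 46) (nat_lit 5) (nat_lit 50) (nat_lit 5) (nat_lit 51) (nat_lit 5) (nat_lit 303) (nat_lit 287) (nat_lit 130)) (XT.lf (nat_lit 0) (nat_lit 46245494547) (nat_lit 380) (nat_lit 698520492) (nat_lit 76) (nat_lit 18052191066) (nat_lit 46) (nat_lit 5) (nat_lit 51) (nat_lit 5) (nat_lit 47) (nat_lit 5) (nat_lit 304) (nat_lit 287) (nat_lit 129))) (XT.nd (nat_lit 78) (nat_lit 228) (nat_lit 0) (XT.lf (nat_lit 0) (nat_lit 27168046403) (nat_lit 304) (nat_lit 26044687874) (nat_lit 380) (nat_lit 13778150558) (nat_lit 42) (nat_lit 5) (nat_lit 46) (nat_lit 5) (nat_lit 47) (nat_lit 5) (nat_lit 305) (nat_lit 287) (nat_lit 128)) (XT.nd (nat_lit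 78) (nat_lit 228) (nat_lit 0) (XT.lf (nat_lit 0) (nat_lit 56451115541) (nat_lit 304) (nat_lit 4088016308) (nat_lit 380) (nat_lit 8545630667) (nat_lit 42) (nat_lit 5) (nat_lit 46) (nat_lit 5) (nat_lit 47) (nat_lit 5) (nat_lit 306) (nat_lit 287) (nat_lit 127)) (XT.lf (nat_lit 0) (nat_lit 16134200139) (nat_lit 228) (nat_lit 52644683950) (nat_lit 304) (nat_lit 2477102830) (nat_lit 39) (nat_lit 5) (nat_lit 42) (nat_lit 5) (nat_lit 43) (nat_lit 5) (nat_lit 307) (nat_lit 287) (nat_lit 126))))))))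
noncomputable def xc234 : XT := (XT.nd (nat_lit 1326) (nat_lit 836) (nat_lit 0) (XT.nd (nat_lit 624) (nat_lit 608) (nat_lit 0) (XT.nd (nat_lit 312) (nat_lit 456) (nat_lit 0) (XT.nd (nat_lit 156) (nat_lit 0) (nat_lit 0) (XT.nd (nat_lit 78) (nat_lit 304) (nat_lit 0) (XT.lf (nat_lit 0) (nat_lit 4053698039) (nat_lit 304) (nat_lit 26878455103) (nat_lit 76) (nat_lit 42586407765) (nat_lit 38) (nat_lit 5) (nat_lit 42) (nat_lit 5) (nat_lit 39) (nat_lit 5) (nat_lit 308) (nat_lit 287) (nat_lit 125)) (XT.lf (nat_lit 0) (nat_lit 2825833505) (nat_lit 304) (nat_lit 8045149285) (nat_lit 380) (nat_lit 65019094809) (nat_lit 34) (nat_lit 5) (nat_lit 38) (nat_lit 5) (nat_lit 39) (nat_lit 5) (nat_lit 309) (nat_lit 287) (nat_lit 124))) (XT.nd (nat_lit 78) (nat_lit 0) (nat_lit 0) (XT.lf (nat_lit 0) (nat_lit 18740480866) (nat_lit 380) (nat_lit 43667041716) (nat_lit 76) (nat_lit 15937083855) (nat_lit 34) (nat_lit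 5) (nat_lit 39) (nat_lit 5) (nat_lit 35) (nat_lit 5) (nat_lit 310) (nat_lit 287) (nat_lit 123)) (XT.lf (nat_lit 0) (nat_lit 27134482203) (nat_lit 380) (nat_lit 12932891328) (nat_lit 76) (nat_lit 40847940356) (nat_lit 34) (nat_lit 5) (nat_lit 39) (nat_lit 5) (nat_lit 35) (nat_lit 5) (nat_lit 311) (nat_lit 287) (nat_lit 122)))) (XT.nd (nat_lit 156) (nat_lit 228) (nat_lit 0) (XT.nd (nat_lit 78) (nat_lit 0) (nat_lit 0) (XT.lf (nat_lit 0) (nat_lit 19976359194) (nat_lit 228) (nat_lit 16282892947) (nat_lit 304) (nat_lit 47339754557) (nat_lit 31) (nat_lit 5) (nat_lit 34) (nat_lit 5) (nat_lit 35) (nat_lit 5) (nat_lit 312) (nat_lit 287) (nat_lit 121)) (XT.lf (nat_lit 0) (nat_lit 46197766833) (nat_lit 304) (nat_lit 31566138670) (nat_lit 76) (nat_lit 8635106587) (nat_lit 31) (nat_lit 5) (nat_lit 35) (nat_lit 5) (nat_lit 32) (nat_lit 5) (nat_lit 313) (nat_lit 287) (nat_lit 120))) (XT.nd (nat_lit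 78) (nat_lit 0) (nat_lit 0) (XT.lf (nat_lit 0) (nat_lit 1885663278) (nat_lit 228) (nat_lit 55043158080) (nat_lit 304) (nat_lit 32395418788) (nat_lit 28) (nat_lit 5) (nat_lit 31) (nat_lit 5) (nat_lit 32) (nat_lit 5) (nat_lit 314) (nat_lit 287) (nat_lit 119)) (XT.lf (nat_lit 0) (nat_lit 38105023089) (nat_lit 228) (nat_lit 30625255804) (nat_lit 304) (nat_lit 23638761147) (nat_lit 28) (nat_lit 5) (nat_lit 31) (nat_lit 5) (nat_lit 32) (nat_lit 5) (nat_lit 315) (nat_lit 287) (nat_lit 118))))) (XT.nd (nat_lit 312) (nat_lit 380) (nat_lit 0) (XT.nd (nat_lit 156) (nat_lit 76) (nat_lit 0) (XT.nd (nat_lit 78) (nat_lit 152) (nat_lit 0) (XT.lf (nat_lit 0) (nat_lit 76134458233) (nat_lit 228) (nat_lit 4986648645) (nat_lit 304) (nat_lit 14445010983) (nat_lit 28) (nat_lit 5) (nat_lit 31) (nat_lit 5) (nat_lit 32) (nat_lit 5) (nat_lit 316) (nat_lit 287) (nat_lit 117)) (XT.lf (nat_lit 0) (nat_lit 17354432870)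 (nat_lit 152) (nat_lit 77389772394) (nat_lit 228) (nat_lit 4148210536) (nat_lit 26) (nat_lit 5) (nat_lit 28) (nat_lit 5) (nat_lit 29) (nat_lit 5) (nat_lit 317) (nat_lit 287) (nat_lit 116))) (XT.nd (nat_lit 78) (nat_lit 0) (nat_lit 0) (XT.lf (nat_lit 0) (nat_lit 6865719721) (nat_lit 228) (nat_lit 45906192718) (nat_lit 76) (nat_lit 49587138825) (nat_lit 25) (nat_lit 5) (nat_lit 28) (nat_lit 5) (nat_lit 26) (nat_lit 5) (nat_lit 318) (nat_lit 287) (nat_lit 115)) (XT.lf (nat_lit 0) (nat_lit 18290304593) (nat_lit 228) (nat_lit 8561667556) (nat_lit 76) (nat_lit 79143680233) (nat_lit 25) (nat_lit 5) (nat_lit 28) (nat_lit 5) (nat_lit 26) (nat_lit 5) (nat_lit 319) (nat_lit 287) (nat_lit 114)))) (XT.nd (nat_lit 156) (nat_lit 152) (nat_lit 0) (XT.nd (nat_lit 78) (nat_lit 0) (nat_lit 0) (XT.lf (nat_lit 0) (nat_lit 30793640516) (nat_lit 304) (nat_lit 78140505446) (nat_lit 76) (nat_lit 854563705)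 (nat_lit 22) (nat_lit 5) (nat_lit 26) (nat_lit 5) (nat_lit 23) (nat_lit 5) (nat_lit 320) (nat_lit 287) (nat_lit 113)) (XT.lf (nat_lit 0) (nat_lit 44509120945) (nat_lit 304) (nat_lit 40041757662) (nat_lit 76) (nat_lit 29191194422) (nat_lit 22) (nat_lit 5) (nat_lit 26) (nat_lit 5) (nat_lit 23) (nat_lit 5) (nat_lit 321) (nat_lit 287) (nat_lit 112))) (XT.nd (nat_lit 78) (nat_lit 152) (nat_lit 0) (XT.lf (nat_lit 0) (nat_lit 58909812040) (nat_lit 304) (nat_lit 38858918) (nat_lit 76) (nat_lit 58944463766) (nat_lit 22) (nat_lit 5) (nat_lit 26) (nat_lit 5) (nat_lit 23) (nat_lit 5) (nat_lit 322) (nat_lit 287) (nat_lit 111)) (XT.nd (nat_lit 78) (nat_lit 0) (nat_lit 0) (XT.lf (nat_lit 0) (nat_lit 43350936483) (nat_lit 152) (nat_lit 31355894287) (nat_lit 228) (nat_lit 47511105981) (nat_lit 20) (nat_lit 5) (nat_lit 22) (nat_lit 5) (nat_lit 23) (nat_lit 5) (nat_lit 323) (nat_lit 287) (nat_lit 110))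 (XT.lf (nat_lit 0) (nat_lit 88910833849) (nat_lit 152) (nat_lit 2383002199) (nat_lit 228) (nat_lit 35465137863) (nat_lit 20) (nat_lit 5) (nat_lit 22) (nat_lit 5) (nat_lit 23) (nat_lit 5) (nat_lit 324) (nat_lit 287) (nat_lit 109))))))) (XT.nd (nat_lit 624) (nat_lit 304) (nat_lit 0) (XT.nd (nat_lit 312) (nat_lit 152) (nat_lit 0) (XT.nd (nat_lit 156) (nat_lit 228) (nat_lit 0) (XT.nd (nat_lit 78) (nat_lit 0) (nat_lit 0) (XT.lf (nat_lit 0) (nat_lit 4941331286) (nat_lit 152) (nat_lit 104283267642) (nat_lit 228) (nat_lit 22276745360) (nat_lit 18) (nat_lit 5) (nat_lit 20) (nat_lit 5) (nat_lit 21) (nat_lit 5) (nat_lit 325) (nat_lit 287) (nat_lit 108)) (XT.lf (nat_lit 0) (nat_lit 51143207338) (nat_lit 152) (nat_lit 77587616614) (nat_lit 228) (nat_lit 7716064674) (nat_lit 18) (nat_lit 5) (nat_lit 20) (nat_lit 5) (nat_lit 21) (nat_lit 5) (nat_lit 326) (nat_lit 287) (nat_lit 107))) (XT.nd (nat_lit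 78) (nat_lit 152) (nat_lit 0) (XT.lf (nat_lit 0) (nat_lit 7329803973) (nat_lit 228) (nat_lit 42103459992) (nat_lit 76) (nat_lit 92200559890) (nat_lit 17) (nat_lit 5) (nat_lit 20) (nat_lit 5) (nat_lit 18) (nat_lit 5) (nat_lit 327) (nat_lit 287) (nat_lit 106)) (XT.lf (nat_lit 0) (nat_lit 3233095205) (nat_lit 152) (nat_lit 19685586746) (nat_lit 228) (nat_lit 124152599358) (nat_lit 15) (nat_lit 5) (nat_lit 17) (nat_lit 5) (nat_lit 18) (nat_lit 5) (nat_lit 328) (nat_lit 287) (nat_lit 105)))) (XT.nd (nat_lit 156) (nat_lit 152) (nat_lit 0) (XT.nd (nat_lit 78) (nat_lit 0) (nat_lit 0) (XT.lf (nat_lit 0) (nat_lit 40191611754) (nat_lit 228) (nat_lit 100639426045) (nat_lit 76) (nat_lit 11904344794) (nat_lit 15) (nat_lit 5) (nat_lit 18) (nat_lit 5) (nat_lit 16) (nat_lit 5) (nat_lit 329) (nat_lit 287) (nat_lit 104)) (XT.lf (nat_lit 0) (nat_lit 58650480272) (nat_lit 228) (nat_lit 55604083347) (nat_lit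 76) (nat_lit 44412011996) (nat_lit 15) (nat_lit 5) (nat_lit 18) (nat_lit 5) (nat_lit 16) (nat_lit 5) (nat_lit 330) (nat_lit 287) (nat_lit 103))) (XT.nd (nat_lit 78) (nat_lit 152) (nat_lit 0) (XT.lf (nat_lit 0) (nat_lit 78031890015) (nat_lit 228) (nat_lit 8317583828) (nat_lit 76) (nat_lit 78544875782) (nat_lit 15) (nat_lit 5) (nat_lit 18) (nat_lit 5) (nat_lit 16) (nat_lit 5) (nat_lit 331) (nat_lit 287) (nat_lit 102)) (XT.lf (nat_lit 0) (nat_lit 42699303799) (nat_lit 152) (nat_lit 56349339194) (nat_lit 228) (nat_lit 72351556872) (nat_lit 13) (nat_lit 5) (nat_lit 15) (nat_lit 5) (nat_lit 16) (nat_lit 5) (nat_lit 332) (nat_lit 287) (nat_lit 101))))) (XT.nd (nat_lit 312) (nat_lit 228) (nat_lit 0) (XT.nd (nat_lit 156) (nat_lit 76) (nat_lit 0) (XT.nd (nat_lit 78) (nat_lit 0) (nat_lit 0) (XT.lf (nat_lit 0) (nat_lit 96555231662) (nat_lit 152) (nat_lit 24701490530) (nat_lit 228) (nat_lit 56967597110)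 (nat_lit 13) (nat_lit 5) (nat_lit 15) (nat_lit 5) (nat_lit 16) (nat_lit 5) (nat_lit 333) (nat_lit 287) (nat_lit 100)) (XT.lf (nat_lit 0) (nat_lit 144708004164) (nat_lit 228) (nat_lit 32419407045) (nat_lit 76) (nat_lit 8255594621) (nat_lit 13) (nat_lit 5) (nat_lit 16) (nat_lit 5) (nat_lit 14) (nat_lit 4) (nat_lit 334) (nat_lit 287) (nat_lit 99))) (XT.nd (nat_lit 78) (nat_lit 0) (nat_lit 0) (XT.lf (nat_lit 0) (nat_lit 19511780067) (nat_lit 76) (nat_lit 150529304406) (nat_lit 152) (nat_lit 22823081506) (nat_lit 12) (nat_lit 5) (nat_lit 13) (nat_lit 5) (nat_lit 14) (nat_lit 4) (nat_lit 335) (nat_lit 287) (nat_lit 98)) (XT.lf (nat_lit 0) (nat_lit 75164529894) (nat_lit 76) (nat_lit 122024993529) (nat_lit 152) (nat_lit 3502426443) (nat_lit 12) (nat_lit 5) (nat_lit 13) (nat_lit 5) (nat_lit 14) (nat_lit 4) (nat_lit 336) (nat_lit 287) (nat_lit 97)))) (XT.nd (nat_lit 156) (nat_lit 152) (nat_lit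 0) (XT.nd (nat_lit 78) (nat_lit 0) (nat_lit 0) (XT.lf (nat_lit 0) (nat_lit 16246736263) (nat_lit 152) (nat_lit 75573766914) (nat_lit 76) (nat_lit 117077534370) (nat_lit 11) (nat_lit 5) (nat_lit 13) (nat_lit 5) (nat_lit 12) (nat_lit 5) (nat_lit 337) (nat_lit 287) (nat_lit 96)) (XT.lf (nat_lit 0) (nat_lit 36865344111) (nat_lit 152) (nat_lit 23180335477) (nat_lit 76) (nat_lit 157465895439) (nat_lit 11) (nat_lit 5) (nat_lit 13) (nat_lit 5) (nat_lit 12) (nat_lit 5) (nat_lit 338) (nat_lit 287) (nat_lit 95))) (XT.nd (nat_lit 33540) (nat_lit 0) (nat_lit 3496) (XT.lf (nat_lit 0) (nat_lit 32884823002) (nat_lit 152) (nat_lit 26143189786) (nat_lit 228) (nat_lit 167502120860) (nat_lit 9) (nat_lit 5) (nat_lit 11) (nat_lit 5) (nat_lit 12) (nat_lit 5) (nat_lit 339) (nat_lit 287) (nat_lit 94)) (XT.nd (nat_lit 78) (nat_lit 0) (nat_lit 0) (XT.lf (nat_lit 0) (nat_lit 21659464) (nat_lit 0) (nat_lit 21659464)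 (nat_lit 684) (nat_lit 21423520047) (nat_lit 55) (nat_lit 5) (nat_lit 55) (nat_lit 3) (nat_lit 64) (nat_lit 3) (nat_lit 288) (nat_lit 288) (nat_lit 144)) (XT.lf (nat_lit 0) (nat_lit 399861541) (nat_lit 684) (nat_lit 26264676284) (nat_lit 760) (nat_lit 17326773085) (nat_lit 55) (nat_lit 5) (nat_lit 64) (nat_lit 3) (nat_lit 65) (nat_lit 5) (nat_lit 289) (nat_lit 288) (nat_lit 143))))))))
noncomputable def xc235 : XT := (XT.nd (nat_lit 1326) (nat_lit 1520) (nat_lit 0) (XT.nd (nat_lit 624) (nat_lit 988) (nat_lit 0) (XT.nd (nat_lit 312) (nat_lit 0) (nat_lit 152) (XT.nd (nat_lit 156) (nat_lit 0) (nat_lit 76) (XT.nd (nat_lit 78) (nat_lit 0) (nat_lit 76) (XT.lf (nat_lit 0) (nat_lit 727449955) (nat_lit 684) (nat_lit 8809557647) (nat_lit 760) (nat_lit 35564892729) (nat_lit 55) (nat_lit 5) (nat_lit 64) (nat_lit 3) (nat_lit 65) (nat_lit 5) (nat_lit 290) (nat_lit 288) (nat_lit 142)) (XT.lf (nat_lit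 0) (nat_lit 1357419637) (nat_lit 684) (nat_lit 36562942516) (nat_lit 760) (nat_lit 8333366495) (nat_lit 56) (nat_lit 5) (nat_lit 65) (nat_lit 5) (nat_lit 66) (nat_lit 5) (nat_lit 291) (nat_lit 288) (nat_lit 141))) (XT.nd (nat_lit 78) (nat_lit 0) (nat_lit 0) (XT.lf (nat_lit 0) (nat_lit 2325047446) (nat_lit 684) (nat_lit 18193663158) (nat_lit 760) (nat_lit 26929138858) (nat_lit 56) (nat_lit 5) (nat_lit 65) (nat_lit 5) (nat_lit 66) (nat_lit 5) (nat_lit 292) (nat_lit 288) (nat_lit 140)) (XT.lf (nat_lit 76) (nat_lit 1129095079) (nat_lit 0) (nat_lit 2227852124) (nat_lit 760) (nat_lit 45343943218) (nat_lit 57) (nat_lit 5) (nat_lit 56) (nat_lit 5) (nat_lit 66) (nat_lit 5) (nat_lit 293) (nat_lit 288) (nat_lit 139)))) (XT.nd (nat_lit 156) (nat_lit 0) (nat_lit 76) (XT.nd (nat_lit 78) (nat_lit 0) (nat_lit 0) (XT.lf (nat_lit 0) (nat_lit 5017015258) (nat_lit 684) (nat_lit 28222867377) (nat_lit 760)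 (nat_lit 16747880349) (nat_lit 57) (nat_lit 5) (nat_lit 66) (nat_lit 5) (nat_lit 67) (nat_lit 5) (nat_lit 294) (nat_lit 288) (nat_lit 138)) (XT.lf (nat_lit 0) (nat_lit 6795024666) (nat_lit 684) (nat_lit 7944163518) (nat_lit 760) (nat_lit 36598051922) (nat_lit 57) (nat_lit 5) (nat_lit 66) (nat_lit 5) (nat_lit 67) (nat_lit 5) (nat_lit 295) (nat_lit 288) (nat_lit 137))) (XT.nd (nat_lit 78) (nat_lit 0) (nat_lit 0) (XT.lf (nat_lit 0) (nat_lit 8952411825) (nat_lit 684) (nat_lit 39031509072) (nat_lit 760) (nat_lit 4755753780) (nat_lit 58) (nat_lit 5) (nat_lit 67) (nat_lit 5) (nat_lit 68) (nat_lit 5) (nat_lit 296) (nat_lit 288) (nat_lit 136)) (XT.lf (nat_lit 0) (nat_lit 11594590344) (nat_lit 684) (nat_lit 17731582742) (nat_lit 760) (nat_lit 24867218893) (nat_lit 58) (nat_lit 5) (nat_lit 67) (nat_lit 5) (nat_lit 68) (nat_lit 5) (nat_lit 297) (nat_lit 288) (nat_lit 135))))) (XT.nd (nat_lit 312)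 (nat_lit 608) (nat_lit 0) (XT.nd (nat_lit 156) (nat_lit 608) (nat_lit 0) (XT.nd (nat_lit 78) (nat_lit 0) (nat_lit 76) (XT.lf (nat_lit 76) (nat_lit 4785396080) (nat_lit 0) (nat_lit 9656816263) (nat_lit 760) (nat_lit 41273922837) (nat_lit 59) (nat_lit 5) (nat_lit 58) (nat_lit 5) (nat_lit 68) (nat_lit 5) (nat_lit 298) (nat_lit 288) (nat_lit 134)) (XT.lf (nat_lit 0) (nat_lit 17907783271) (nat_lit 684) (nat_lit 28433943145) (nat_lit 76) (nat_lit 10949517176) (nat_lit 59) (nat_lit 5) (nat_lit 68) (nat_lit 5) (nat_lit 60) (nat_lit 5) (nat_lit 299) (nat_lit 288) (nat_lit 133))) (XT.nd (nat_lit 78) (nat_lit 684) (nat_lit 0) (XT.lf (nat_lit 0) (nat_lit 21703677922) (nat_lit 684) (nat_lit 4971725631) (nat_lit 76) (nat_lit 32261857747) (nat_lit 59) (nat_lit 5) (nat_lit 68) (nat_lit 5) (nat_lit 60) (nat_lit 5) (nat_lit 300) (nat_lit 288) (nat_lit 132)) (XT.lf (nat_lit 0) (nat_lit 20312678392) (nat_lit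 684) (nat_lit 5692623622) (nat_lit 760) (nat_lit 34644486987) (nat_lit 50) (nat_lit 5) (nat_lit 59) (nat_lit 5) (nat_lit 60) (nat_lit 5) (nat_lit 301) (nat_lit 288) (nat_lit 131)))) (XT.nd (nat_lit 156) (nat_lit 304) (nat_lit 0) (XT.nd (nat_lit 78) (nat_lit 304) (nat_lit 0) (XT.lf (nat_lit 0) (nat_lit 30861528221) (nat_lit 760) (nat_lit 15667411406) (nat_lit 76) (nat_lit 15902032978) (nat_lit 50) (nat_lit 5) (nat_lit 60) (nat_lit 5) (nat_lit 51) (nat_lit 5) (nat_lit 302) (nat_lit 288) (nat_lit 130)) (XT.lf (nat_lit 0) (nat_lit 10476718666) (nat_lit 304) (nat_lit 25739634791) (nat_lit 380) (nat_lit 28072077846) (nat_lit 46) (nat_lit 5) (nat_lit 50) (nat_lit 5) (nat_lit 51) (nat_lit 5) (nat_lit 303) (nat_lit 288) (nat_lit 129))) (XT.nd (nat_lit 78) (nat_lit 304) (nat_lit 0) (XT.lf (nat_lit 0) (nat_lit 38470956554) (nat_lit 304) (nat_lit 3632230120) (nat_lit 380) (nat_lit 24122367973)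 (nat_lit 46) (nat_lit 5) (nat_lit 50) (nat_lit 5) (nat_lit 51) (nat_lit 5) (nat_lit 304) (nat_lit 288) (nat_lit 128)) (XT.nd (nat_lit 78) (nat_lit 304) (nat_lit 0) (XT.lf (nat_lit 0) (nat_lit 48589051620) (nat_lit 380) (nat_lit 701377684) (nat_lit 76) (nat_lit 18953875158) (nat_lit 46) (nat_lit 5) (nat_lit 51) (nat_lit 5) (nat_lit 47) (nat_lit 5) (nat_lit 305) (nat_lit 288) (nat_lit 127)) (XT.lf (nat_lit 0) (nat_lit 28558000317) (nat_lit 304) (nat_lit 27345655993) (nat_lit 380) (nat_lit 14435117709) (nat_lit 42) (nat_lit 5) (nat_lit 46) (nat_lit 5) (nat_lit 47) (nat_lit 5) (nat_lit 306) (nat_lit 288) (nat_lit 126))))))) (XT.nd (nat_lit 624) (nat_lit 684) (nat_lit 0) (XT.nd (nat_lit 312) (nat_lit 228) (nat_lit 0) (XT.nd (nat_lit 156) (nat_lit 380) (nat_lit 0) (XT.nd (nat_lit 78) (nat_lit 228) (nat_lit 0) (XT.lf (nat_lit 0) (nat_lit 59303720455) (nat_lit 304) (nat_lit 4291211148) (nat_lit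 380) (nat_lit 8942492793) (nat_lit 42) (nat_lit 5) (nat_lit 46) (nat_lit 5) (nat_lit 47) (nat_lit 5) (nat_lit 307) (nat_lit 288) (nat_lit 125)) (XT.lf (nat_lit 0) (nat_lit 16972006918) (nat_lit 228) (nat_lit 55273794492) (nat_lit 304) (nat_lit 2571458496) (nat_lit 39) (nat_lit 5) (nat_lit 42) (nat_lit 5) (nat_lit 43) (nat_lit 5) (nat_lit 308) (nat_lit 288) (nat_lit 124))) (XT.nd (nat_lit 78) (nat_lit 304) (nat_lit 0) (XT.lf (nat_lit 0) (nat_lit 4283578472) (nat_lit 304) (nat_lit 28191746847) (nat_lit 76) (nat_lit 44717688025) (nat_lit 38) (nat_lit 5) (nat_lit 42) (nat_lit 5) (nat_lit 39) (nat_lit 5) (nat_lit 309) (nat_lit 288) (nat_lit 123)) (XT.lf (nat_lit 0) (nat_lit 2997262142) (nat_lit 304) (nat_lit 8443640816) (nat_lit 380) (nat_lit 68242249654) (nat_lit 34) (nat_lit 5) (nat_lit 38) (nat_lit 5) (nat_lit 39) (nat_lit 5) (nat_lit 310) (nat_lit 288) (nat_lit 122)))) (XT.nd (nat_lit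 156) (nat_lit 228) (nat_lit 0) (XT.nd (nat_lit 78) (nat_lit 0) (nat_lit 0) (XT.lf (nat_lit 0) (nat_lit 19702676172) (nat_lit 380) (nat_lit 45820387105) (nat_lit 76) (nat_lit 16737409857) (nat_lit 34) (nat_lit 5) (nat_lit 39) (nat_lit 5) (nat_lit 35) (nat_lit 5) (nat_lit 311) (nat_lit 288) (nat_lit 121)) (XT.lf (nat_lit 0) (nat_lit 28515178944) (nat_lit 380) (nat_lit 13550958088) (nat_lit 76) (nat_lit 42893643859) (nat_lit 34) (nat_lit 5) (nat_lit 39) (nat_lit 5) (nat_lit 35) (nat_lit 5) (nat_lit 312) (nat_lit 288) (nat_lit 120))) (XT.nd (nat_lit 78) (nat_lit 0) (nat_lit 0) (XT.lf (nat_lit 0) (nat_lit 21003294028) (nat_lit 228) (nat_lit 17092190781) (nat_lit 304) (nat_lit 49682213427) (nat_lit 31) (nat_lit 5) (nat_lit 34) (nat_lit 5) (nat_lit 35) (nat_lit 5) (nat_lit 313) (nat_lit 288) (nat_lit 119)) (XT.lf (nat_lit 0) (nat_lit 48529889206) (nat_lit 304) (nat_lit 33116540843) (nat_lit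 76) (nat_lit 9071330188) (nat_lit 31) (nat_lit 5) (nat_lit 35) (nat_lit 5) (nat_lit 32) (nat_lit 5) (nat_lit 314) (nat_lit 288) (nat_lit 118))))) (XT.nd (nat_lit 312) (nat_lit 304) (nat_lit 0) (XT.nd (nat_lit 156) (nat_lit 152) (nat_lit 0) (XT.nd (nat_lit 78) (nat_lit 0) (nat_lit 0) (XT.lf (nat_lit 0) (nat_lit 2007401126) (nat_lit 228) (nat_lit 57789465212) (nat_lit 304) (nat_lit 33992419185) (nat_lit 28) (nat_lit 5) (nat_lit 31) (nat_lit 5) (nat_lit 32) (nat_lit 5) (nat_lit 315) (nat_lit 288) (nat_lit 117)) (XT.lf (nat_lit 0) (nat_lit 40036421562) (nat_lit 228) (nat_lit 32150946430) (nat_lit 304) (nat_lit 24799012973) (nat_lit 28) (nat_lit 5) (nat_lit 31) (nat_lit 5) (nat_lit 32) (nat_lit 5) (nat_lit 316) (nat_lit 288) (nat_lit 116))) (XT.nd (nat_lit 78) (nat_lit 152) (nat_lit 0) (XT.lf (nat_lit 0) (nat_lit 79966083353) (nat_lit 228) (nat_lit 5230674255) (nat_lit 304) (nat_lit 15146607979)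 (nat_lit 28) (nat_lit 5) (nat_lit 31) (nat_lit 5) (nat_lit 32) (nat_lit 5) (nat_lit 317) (nat_lit 288) (nat_lit 115)) (XT.lf (nat_lit 0) (nat_lit 18247614655) (nat_lit 152) (nat_lit 81252939556) (nat_lit 228) (nat_lit 4335450778) (nat_lit 26) (nat_lit 5) (nat_lit 28) (nat_lit 5) (nat_lit 29) (nat_lit 5) (nat_lit 318) (nat_lit 288) (nat_lit 114)))) (XT.nd (nat_lit 156) (nat_lit 228) (nat_lit 0) (XT.nd (nat_lit 78) (nat_lit 0) (nat_lit 0) (XT.lf (nat_lit 0) (nat_lit 7227600669) (nat_lit 228) (nat_lit 48176572042) (nat_lit 76) (nat_lit 52071833644) (nat_lit 25) (nat_lit 5) (nat_lit 28) (nat_lit 5) (nat_lit 26) (nat_lit 5) (nat_lit 319) (nat_lit 288) (nat_lit 113)) (XT.lf (nat_lit 0) (nat_lit 19222529309) (nat_lit 228) (nat_lit 8966007781) (nat_lit 76) (nat_lit 83105947938) (nat_lit 25) (nat_lit 5) (nat_lit 28) (nat_lit 5) (nat_lit 26) (nat_lit 5) (nat_lit 320) (nat_lit 288) (nat_lit 112)))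 (XT.nd (nat_lit 78) (nat_lit 0) (nat_lit 0) (XT.lf (nat_lit 0) (nat_lit 32350649134) (nat_lit 304) (nat_lit 82023343242) (nat_lit 76) (nat_lit 903225018) (nat_lit 22) (nat_lit 5) (nat_lit 26) (nat_lit 5) (nat_lit 23) (nat_lit 5) (nat_lit 321) (nat_lit 288) (nat_lit 111)) (XT.nd (nat_lit 78) (nat_lit 0) (nat_lit 0) (XT.lf (nat_lit 0) (nat_lit 46751078508) (nat_lit 304) (nat_lit 42020809854) (nat_lit 76) (nat_lit 30656404741) (nat_lit 22) (nat_lit 5) (nat_lit 26) (nat_lit 5) (nat_lit 23) (nat_lit 5) (nat_lit 322) (nat_lit 288) (nat_lit 110)) (XT.lf (nat_lit 0) (nat_lit 61871018371) (nat_lit 304) (nat_lit 18863109) (nat_lit 76) (nat_lit 61897068476) (nat_lit 22) (nat_lit 5) (nat_lit 26) (nat_lit 5) (nat_lit 23) (nat_lit 5) (nat_lit 323) (nat_lit 288) (nat_lit 109))))))))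
noncomputable def xc236 : XT := (XT.nd (nat_lit 34866) (nat_lit 0) (nat_lit 2660) (XT.nd (nat_lit 624) (nat_lit 304) (nat_lit 0) (XT.nd (nat_lit 312) (nat_lit 228) (nat_lit 0) (XT.nd (nat_lit 156) (nat_lit 152) (nat_lit 0) (XT.nd (nat_lit 78) (nat_lit 0) (nat_lit 0) (XT.lf (nat_lit 0) (nat_lit 45540068210) (nat_lit 152) (nat_lit 32917408461) (nat_lit 228) (nat_lit 49870538636) (nat_lit 20) (nat_lit 5) (nat_lit 22) (nat_lit 5) (nat_lit 23) (nat_lit 5) (nat_lit 324) (nat_lit 288) (nat_lit 108)) (XT.lf (nat_lit 0) (nat_lit 93376932592) (nat_lit 152) (nat_lit 2496170841) (nat_lit 228) (nat_lit 37223039858) (nat_lit 20) (nat_lit 5) (nat_lit 22) (nat_lit 5) (nat_lit 23) (nat_lit 5) (nat_lit 325) (nat_lit 288) (nat_lit 107))) (XT.nd (nat_lit 78) (nat_lit 0) (nat_lit 0) (XT.lf (nat_lit 0) (nat_lit 5209298200) (nat_lit 152) (nat_lit 109490827435) (nat_lit 228) (nat_lit 23375522898) (nat_lit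 18) (nat_lit 5) (nat_lit 20) (nat_lit 5) (nat_lit 21) (nat_lit 5) (nat_lit 326) (nat_lit 288) (nat_lit 106)) (XT.lf (nat_lit 0) (nat_lit 53720272800) (nat_lit 152) (nat_lit 81460708312) (nat_lit 228) (nat_lit 8087525308) (nat_lit 18) (nat_lit 5) (nat_lit 20) (nat_lit 5) (nat_lit 21) (nat_lit 5) (nat_lit 327) (nat_lit 288) (nat_lit 105)))) (XT.nd (nat_lit 156) (nat_lit 0) (nat_lit 0) (XT.nd (nat_lit 78) (nat_lit 152) (nat_lit 0) (XT.lf (nat_lit 0) (nat_lit 7709516597) (nat_lit 228) (nat_lit 44189196989) (nat_lit 76) (nat_lit 96816098765) (nat_lit 17) (nat_lit 5) (nat_lit 20) (nat_lit 5) (nat_lit 18) (nat_lit 5) (nat_lit 328) (nat_lit 288) (nat_lit 104)) (XT.lf (nat_lit 0) (nat_lit 3413872485) (nat_lit 152) (nat_lit 20663634906) (nat_lit 228) (nat_lit 130346653820) (nat_lit 15) (nat_lit 5) (nat_lit 17) (nat_lit 5) (nat_lit 18) (nat_lit 5) (nat_lit 329) (nat_lit 288) (nat_lit 103))) (XT.nd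 (nat_lit 78) (nat_lit 0) (nat_lit 0) (XT.lf (nat_lit 0) (nat_lit 42213562463) (nat_lit 228) (nat_lit 105652626493) (nat_lit 76) (nat_lit 12505306548) (nat_lit 15) (nat_lit 5) (nat_lit 18) (nat_lit 5) (nat_lit 16) (nat_lit 5) (nat_lit 330) (nat_lit 288) (nat_lit 102)) (XT.lf (nat_lit 0) (nat_lit 61594785354) (nat_lit 228) (nat_lit 58366410511) (nat_lit 76) (nat_lit 46638083563) (nat_lit 15) (nat_lit 5) (nat_lit 18) (nat_lit 5) (nat_lit 16) (nat_lit 5) (nat_lit 331) (nat_lit 288) (nat_lit 101))))) (XT.nd (nat_lit 312) (nat_lit 152) (nat_lit 0) (XT.nd (nat_lit 156) (nat_lit 0) (nat_lit 0) (XT.nd (nat_lit 78) (nat_lit 152) (nat_lit 0) (XT.lf (nat_lit 0) (nat_lit 81944704581) (nat_lit 228) (nat_lit 8716437301) (nat_lit 76) (nat_lit 82477330016) (nat_lit 15) (nat_lit 5) (nat_lit 18) (nat_lit 5) (nat_lit 16) (nat_lit 5) (nat_lit 332) (nat_lit 288) (nat_lit 100)) (XT.lf (nat_lit 0) (nat_lit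 44851020099) (nat_lit 152) (nat_lit 59161002353) (nat_lit 228) (nat_lit 75957607466) (nat_lit 13) (nat_lit 5) (nat_lit 15) (nat_lit 5) (nat_lit 16) (nat_lit 5) (nat_lit 333) (nat_lit 288) (nat_lit 99))) (XT.nd (nat_lit 78) (nat_lit 0) (nat_lit 0) (XT.lf (nat_lit 0) (nat_lit 101398946683) (nat_lit 152) (nat_lit 25931037627) (nat_lit 228) (nat_lit 59804998632) (nat_lit 13) (nat_lit 5) (nat_lit 15) (nat_lit 5) (nat_lit 16) (nat_lit 5) (nat_lit 334) (nat_lit 288) (nat_lit 98)) (XT.lf (nat_lit 0) (nat_lit 151953416093) (nat_lit 228) (nat_lit 34024739812) (nat_lit 76) (nat_lit 8673470083) (nat_lit 13) (nat_lit 5) (nat_lit 16) (nat_lit 5) (nat_lit 14) (nat_lit 4) (nat_lit 335) (nat_lit 288) (nat_lit 97)))) (XT.nd (nat_lit 156) (nat_lit 76) (nat_lit 0) (XT.nd (nat_lit 78) (nat_lit 0) (nat_lit 0) (XT.lf (nat_lit 0) (nat_lit 20502754437) (nat_lit 76) (nat_lit 158050159441) (nat_lit 152) (nat_lit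 23953943501) (nat_lit 12) (nat_lit 5) (nat_lit 13) (nat_lit 5) (nat_lit 14) (nat_lit 4) (nat_lit 336) (nat_lit 288) (nat_lit 96)) (XT.lf (nat_lit 0) (nat_lit 78937409119) (nat_lit 76) (nat_lit 128120900172) (nat_lit 152) (nat_lit 3667745784) (nat_lit 12) (nat_lit 5) (nat_lit 13) (nat_lit 5) (nat_lit 14) (nat_lit 4) (nat_lit 337) (nat_lit 288) (nat_lit 95))) (XT.nd (nat_lit 33696) (nat_lit 0) (nat_lit 3344) (XT.lf (nat_lit 0) (nat_lit 17068109512) (nat_lit 152) (nat_lit 79338177185) (nat_lit 76) (nat_lit 122936176598) (nat_lit 11) (nat_lit 5) (nat_lit 13) (nat_lit 5) (nat_lit 12) (nat_lit 5) (nat_lit 338) (nat_lit 288) (nat_lit 94)) (XT.lf (nat_lit 0) (nat_lit 38292632) (nat_lit 0) (nat_lit 38292632) (nat_lit 684) (nat_lit 22461886973) (nat_lit 55) (nat_lit 5) (nat_lit 55) (nat_lit 3) (nat_lit 64) (nat_lit 3) (nat_lit 289) (nat_lit 289) (nat_lit 142)))))) (XT.nd (nat_lit 624) (nat_lit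 684) (nat_lit 0) (XT.nd (nat_lit 312) (nat_lit 0) (nat_lit 76) (XT.nd (nat_lit 156) (nat_lit 0) (nat_lit 76) (XT.nd (nat_lit 78) (nat_lit 0) (nat_lit 0) (XT.lf (nat_lit 0) (nat_lit 478631015) (nat_lit 684) (nat_lit 27544573597) (nat_lit 760) (nat_lit 18164440326) (nat_lit 55) (nat_lit 5) (nat_lit 64) (nat_lit 3) (nat_lit 65) (nat_lit 5) (nat_lit 290) (nat_lit 289) (nat_lit 141)) (XT.lf (nat_lit 0) (nat_lit 819799974) (nat_lit 684) (nat_lit 9218286480) (nat_lit 760) (nat_lit 37315831258) (nat_lit 55) (nat_lit 5) (nat_lit 64) (nat_lit 3) (nat_lit 65) (nat_lit 5) (nat_lit 291) (nat_lit 289) (nat_lit 140))) (XT.nd (nat_lit 78) (nat_lit 0) (nat_lit 0) (XT.lf (nat_lit 0) (nat_lit 1478737974) (nat_lit 684) (nat_lit 38356544941) (nat_lit 760) (nat_lit 8728194312) (nat_lit 56) (nat_lit 5) (nat_lit 65) (nat_lit 5) (nat_lit 66) (nat_lit 5) (nat_lit 292) (nat_lit 289) (nat_lit 139)) (XT.lf (nat_lit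 0) (nat_lit 2492202061) (nat_lit 684) (nat_lit 19070446601) (nat_lit 760) (nat_lit 28254795318) (nat_lit 56) (nat_lit 5) (nat_lit 65) (nat_lit 5) (nat_lit 66) (nat_lit 5) (nat_lit 293) (nat_lit 289) (nat_lit 138)))) (XT.nd (nat_lit 156) (nat_lit 0) (nat_lit 76) (XT.nd (nat_lit 78) (nat_lit 0) (nat_lit 76) (XT.lf (nat_lit 76) (nat_lit 1217918908) (nat_lit 0) (nat_lit 2355859354) (nat_lit 760) (nat_lit 47559466692) (nat_lit 57) (nat_lit 5) (nat_lit 56) (nat_lit 5) (nat_lit 66) (nat_lit 5) (nat_lit 294) (nat_lit 289) (nat_lit 137)) (XT.lf (nat_lit 0) (nat_lit 5314270114) (nat_lit 684) (nat_lit 29600374113) (nat_lit 760) (nat_lit 17569957364) (nat_lit 57) (nat_lit 5) (nat_lit 66) (nat_lit 5) (nat_lit 67) (nat_lit 5) (nat_lit 295) (nat_lit 289) (nat_lit 136))) (XT.nd (nat_lit 78) (nat_lit 0) (nat_lit 76) (XT.lf (nat_lit 0) (nat_lit 7178970273) (nat_lit 684) (nat_lit 8309336807) (nat_lit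 760) (nat_lit 38413366897) (nat_lit 57) (nat_lit 5) (nat_lit 66) (nat_lit 5) (nat_lit 67) (nat_lit 5) (nat_lit 296) (nat_lit 289) (nat_lit 135)) (XT.lf (nat_lit 0) (nat_lit 9442441647) (nat_lit 684) (nat_lit 40949056479) (nat_lit 760) (nat_lit 4982831808) (nat_lit 58) (nat_lit 5) (nat_lit 67) (nat_lit 5) (nat_lit 68) (nat_lit 5) (nat_lit 297) (nat_lit 289) (nat_lit 134))))) (XT.nd (nat_lit 312) (nat_lit 912) (nat_lit 0) (XT.nd (nat_lit 156) (nat_lit 0) (nat_lit 76) (XT.nd (nat_lit 78) (nat_lit 0) (nat_lit 0) (XT.lf (nat_lit 0) (nat_lit 12214709605) (nat_lit 684) (nat_lit 18585754216) (nat_lit 760) (nat_lit 26100380160) (nat_lit 58) (nat_lit 5) (nat_lit 67) (nat_lit 5) (nat_lit 68) (nat_lit 5) (nat_lit 298) (nat_lit 289) (nat_lit 133)) (XT.lf (nat_lit 76) (nat_lit 5056550843) (nat_lit 0) (nat_lit 10146736354) (nat_lit 760) (nat_lit 43296517855) (nat_lit 59) (nat_lit 5) (nat_lit 58)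 (nat_lit 5) (nat_lit 68) (nat_lit 5) (nat_lit 299) (nat_lit 289) (nat_lit 132))) (XT.nd (nat_lit 78) (nat_lit 0) (nat_lit 0) (XT.lf (nat_lit 0) (nat_lit 18840175966) (nat_lit 684) (nat_lit 29823133280) (nat_lit 76) (nat_lit 11490466657) (nat_lit 59) (nat_lit 5) (nat_lit 68) (nat_lit 5) (nat_lit 60) (nat_lit 5) (nat_lit 300) (nat_lit 289) (nat_lit 131)) (XT.lf (nat_lit 0) (nat_lit 22824103278) (nat_lit 684) (nat_lit 5189352844) (nat_lit 76) (nat_lit 33868735036) (nat_lit 59) (nat_lit 5) (nat_lit 68) (nat_lit 5) (nat_lit 60) (nat_lit 5) (nat_lit 301) (nat_lit 289) (nat_lit 130)))) (XT.nd (nat_lit 156) (nat_lit 304) (nat_lit 0) (XT.nd (nat_lit 78) (nat_lit 0) (nat_lit 0) (XT.lf (nat_lit 0) (nat_lit 21358772041) (nat_lit 684) (nat_lit 5980833930) (nat_lit 760) (nat_lit 36340807552) (nat_lit 50) (nat_lit 5) (nat_lit 59) (nat_lit 5) (nat_lit 60) (nat_lit 5) (nat_lit 302) (nat_lit 289) (nat_lit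 129)) (XT.lf (nat_lit 0) (nat_lit 32436969371) (nat_lit 760) (nat_lit 16419943370) (nat_lit 76) (nat_lit 16693835034) (nat_lit 50) (nat_lit 5) (nat_lit 60) (nat_lit 5) (nat_lit 51) (nat_lit 5) (nat_lit 303) (nat_lit 289) (nat_lit 128))) (XT.nd (nat_lit 78) (nat_lit 0) (nat_lit 0) (XT.lf (nat_lit 0) (nat_lit 11030895810) (nat_lit 304) (nat_lit 27027572593) (nat_lit 380) (nat_lit 29442671769) (nat_lit 46) (nat_lit 5) (nat_lit 50) (nat_lit 5) (nat_lit 51) (nat_lit 5) (nat_lit 304) (nat_lit 289) (nat_lit 127)) (XT.nd (nat_lit 78) (nat_lit 0) (nat_lit 0) (XT.lf (nat_lit 0) (nat_lit 40423400772) (nat_lit 304) (nat_lit 3814752162) (nat_lit 380) (nat_lit 25297048306) (nat_lit 46) (nat_lit 5) (nat_lit 50) (nat_lit 5) (nat_lit 51) (nat_lit 5) (nat_lit 305) (nat_lit 289) (nat_lit 126)) (XT.lf (nat_lit 0) (nat_lit 51046878210) (nat_lit 380) (nat_lit 707359191) (nat_lit 76) (nat_lit 19900729494)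 (nat_lit 46) (nat_lit 5) (nat_lit 51) (nat_lit 5) (nat_lit 47) (nat_lit 5) (nat_lit 306) (nat_lit 289) (nat_lit 125))))))))
noncomputable def xc237 : XT := (XT.nd (nat_lit 1326) (nat_lit 760) (nat_lit 0) (XT.nd (nat_lit 624) (nat_lit 684) (nat_lit 0) (XT.nd (nat_lit 312) (nat_lit 532) (nat_lit 0) (XT.nd (nat_lit 156) (nat_lit 304) (nat_lit 0) (XT.nd (nat_lit 78) (nat_lit 0) (nat_lit 0) (XT.lf (nat_lit 0) (nat_lit 30014518559) (nat_lit 304) (nat_lit 28711790244) (nat_lit 380) (nat_lit 15127902730) (nat_lit 42) (nat_lit 5) (nat_lit 46) (nat_lit 5) (nat_lit 47) (nat_lit 5) (nat_lit 307) (nat_lit 289) (nat_lit 124)) (XT.lf (nat_lit 0) (nat_lit 62296161931) (nat_lit 304) (nat_lit 4504677849) (nat_lit 380) (nat_lit 9362026133) (nat_lit 42) (nat_lit 5) (nat_lit 46) (nat_lit 5) (nat_lit 47) (nat_lit 5) (nat_lit 308) (nat_lit 289) (nat_lit 123))) (XT.nd (nat_lit 78) (nat_lit 76) (nat_lit 0)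 (XT.lf (nat_lit 0) (nat_lit 17848812953) (nat_lit 228) (nat_lit 58034650970) (nat_lit 304) (nat_lit 2673274526) (nat_lit 39) (nat_lit 5) (nat_lit 42) (nat_lit 5) (nat_lit 43) (nat_lit 5) (nat_lit 309) (nat_lit 289) (nat_lit 122)) (XT.lf (nat_lit 0) (nat_lit 4522424545) (nat_lit 304) (nat_lit 29573550960) (nat_lit 76) (nat_lit 46955350088) (nat_lit 38) (nat_lit 5) (nat_lit 42) (nat_lit 5) (nat_lit 39) (nat_lit 5) (nat_lit 310) (nat_lit 289) (nat_lit 121)))) (XT.nd (nat_lit 156) (nat_lit 228) (nat_lit 0) (XT.nd (nat_lit 78) (nat_lit 0) (nat_lit 0) (XT.lf (nat_lit 0) (nat_lit 3174460362) (nat_lit 304) (nat_lit 8862407045) (nat_lit 380) (nat_lit 71629146813) (nat_lit 34) (nat_lit 5) (nat_lit 38) (nat_lit 5) (nat_lit 39) (nat_lit 5) (nat_lit 311) (nat_lit 289) (nat_lit 120)) (XT.lf (nat_lit 0) (nat_lit 20710641058) (nat_lit 380) (nat_lit 48084189502) (nat_lit 76) (nat_lit 17577429384) (nat_lit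 34) (nat_lit 5) (nat_lit 39) (nat_lit 5) (nat_lit 35) (nat_lit 5) (nat_lit 312) (nat_lit 289) (nat_lit 119))) (XT.nd (nat_lit 78) (nat_lit 228) (nat_lit 0) (XT.lf (nat_lit 0) (nat_lit 29962681774) (nat_lit 380) (nat_lit 14202585079) (nat_lit 76) (nat_lit 45041325132) (nat_lit 34) (nat_lit 5) (nat_lit 39) (nat_lit 5) (nat_lit 35) (nat_lit 5) (nat_lit 313) (nat_lit 289) (nat_lit 118)) (XT.lf (nat_lit 0) (nat_lit 22078961563) (nat_lit 228) (nat_lit 17942404117) (nat_lit 304) (nat_lit 52144075702) (nat_lit 31) (nat_lit 5) (nat_lit 34) (nat_lit 5) (nat_lit 35) (nat_lit 5) (nat_lit 314) (nat_lit 289) (nat_lit 117))))) (XT.nd (nat_lit 312) (nat_lit 456) (nat_lit 0) (XT.nd (nat_lit 156) (nat_lit 0) (nat_lit 0) (XT.nd (nat_lit 78) (nat_lit 228) (nat_lit 0) (XT.lf (nat_lit 0) (nat_lit 50976550588) (nat_lit 304) (nat_lit 34747057444) (nat_lit 76) (nat_lit 9528949552) (nat_lit 31) (nat_lit 5)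 (nat_lit 35) (nat_lit 5) (nat_lit 32) (nat_lit 5) (nat_lit 315) (nat_lit 289) (nat_lit 116)) (XT.lf (nat_lit 0) (nat_lit 2132673390) (nat_lit 228) (nat_lit 60673631650) (nat_lit 304) (nat_lit 35671386591) (nat_lit 28) (nat_lit 5) (nat_lit 31) (nat_lit 5) (nat_lit 32) (nat_lit 5) (nat_lit 316) (nat_lit 289) (nat_lit 115))) (XT.nd (nat_lit 78) (nat_lit 0) (nat_lit 0) (XT.lf (nat_lit 0) (nat_lit 42061959028) (nat_lit 228) (nat_lit 33753439635) (nat_lit 304) (nat_lit 26019293571) (nat_lit 28) (nat_lit 5) (nat_lit 31) (nat_lit 5) (nat_lit 32) (nat_lit 5) (nat_lit 317) (nat_lit 289) (nat_lit 114)) (XT.lf (nat_lit 0) (nat_lit 83986974557) (nat_lit 228) (nat_lit 5487394523) (nat_lit 304) (nat_lit 15885204996) (nat_lit 28) (nat_lit 5) (nat_lit 31) (nat_lit 5) (nat_lit 32) (nat_lit 5) (nat_lit 318) (nat_lit 289) (nat_lit 113)))) (XT.nd (nat_lit 156) (nat_lit 228) (nat_lit 0) (XT.nd (nat_lit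 78) (nat_lit 76) (nat_lit 0) (XT.lf (nat_lit 0) (nat_lit 19183088487) (nat_lit 152) (nat_lit 85309852786) (nat_lit 228) (nat_lit 4533928274) (nat_lit 26) (nat_lit 5) (nat_lit 28) (nat_lit 5) (nat_lit 29) (nat_lit 5) (nat_lit 319) (nat_lit 289) (nat_lit 112)) (XT.lf (nat_lit 0) (nat_lit 7605846880) (nat_lit 228) (nat_lit 50562788117) (nat_lit 76) (nat_lit 54680266939) (nat_lit 25) (nat_lit 5) (nat_lit 28) (nat_lit 5) (nat_lit 26) (nat_lit 5) (nat_lit 320) (nat_lit 289) (nat_lit 111))) (XT.nd (nat_lit 78) (nat_lit 228) (nat_lit 0) (XT.lf (nat_lit 0) (nat_lit 20199718802) (nat_lit 228) (nat_lit 9392772429) (nat_lit 76) (nat_lit 87265856395) (nat_lit 25) (nat_lit 5) (nat_lit 28) (nat_lit 5) (nat_lit 26) (nat_lit 5) (nat_lit 321) (nat_lit 289) (nat_lit 110)) (XT.nd (nat_lit 78) (nat_lit 0) (nat_lit 0) (XT.lf (nat_lit 0) (nat_lit 33983897320) (nat_lit 304) (nat_lit 86102571650) (nat_lit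 76) (nat_lit 953767790) (nat_lit 22) (nat_lit 5) (nat_lit 26) (nat_lit 5) (nat_lit 23) (nat_lit 5) (nat_lit 322) (nat_lit 289) (nat_lit 109)) (XT.lf (nat_lit 0) (nat_lit 49103599795) (nat_lit 304) (nat_lit 44100956295) (nat_lit 76) (nat_lit 32194350237) (nat_lit 22) (nat_lit 5) (nat_lit 26) (nat_lit 5) (nat_lit 23) (nat_lit 5) (nat_lit 323) (nat_lit 289) (nat_lit 108))))))) (XT.nd (nat_lit 624) (nat_lit 228) (nat_lit 0) (XT.nd (nat_lit 312) (nat_lit 228) (nat_lit 0) (XT.nd (nat_lit 156) (nat_lit 152) (nat_lit 0) (XT.nd (nat_lit 78) (nat_lit 0) (nat_lit 0) (XT.lf (nat_lit 0) (nat_lit 95900) (nat_lit 152) (nat_lit 64978729517) (nat_lit 228) (nat_lit 64996708695) (nat_lit 20) (nat_lit 5) (nat_lit 22) (nat_lit 5) (nat_lit 23) (nat_lit 5) (nat_lit 324) (nat_lit 289) (nat_lit 107)) (XT.lf (nat_lit 0) (nat_lit 47836649764) (nat_lit 152) (nat_lit 34557582248) (nat_lit 228) (nat_lit 52349441855)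 (nat_lit 20) (nat_lit 5) (nat_lit 22) (nat_lit 5) (nat_lit 23) (nat_lit 5) (nat_lit 325) (nat_lit 289) (nat_lit 106))) (XT.nd (nat_lit 78) (nat_lit 152) (nat_lit 0) (XT.lf (nat_lit 0) (nat_lit 98064425073) (nat_lit 152) (nat_lit 2615554016) (nat_lit 228) (nat_lit 39070264505) (nat_lit 20) (nat_lit 5) (nat_lit 22) (nat_lit 5) (nat_lit 23) (nat_lit 5) (nat_lit 326) (nat_lit 289) (nat_lit 105)) (XT.lf (nat_lit 0) (nat_lit 5488720344) (nat_lit 152) (nat_lit 114959379158) (nat_lit 228) (nat_lit 24530639425) (nat_lit 18) (nat_lit 5) (nat_lit 20) (nat_lit 5) (nat_lit 21) (nat_lit 5) (nat_lit 327) (nat_lit 289) (nat_lit 104)))) (XT.nd (nat_lit 156) (nat_lit 152) (nat_lit 0) (XT.nd (nat_lit 78) (nat_lit 76) (nat_lit 0) (XT.lf (nat_lit 0) (nat_lit 56424340948) (nat_lit 152) (nat_lit 85528039300) (nat_lit 228) (nat_lit 8478892413) (nat_lit 18) (nat_lit 5) (nat_lit 20) (nat_lit 5) (nat_lit 21)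 (nat_lit 5) (nat_lit 328) (nat_lit 289) (nat_lit 103)) (XT.lf (nat_lit 0) (nat_lit 8106985556) (nat_lit 228) (nat_lit 46381027810) (nat_lit 76) (nat_lit 101661902234) (nat_lit 17) (nat_lit 5) (nat_lit 20) (nat_lit 5) (nat_lit 18) (nat_lit 5) (nat_lit 329) (nat_lit 289) (nat_lit 102))) (XT.nd (nat_lit 78) (nat_lit 0) (nat_lit 0) (XT.lf (nat_lit 0) (nat_lit 3601910798) (nat_lit 152) (nat_lit 21691164790) (nat_lit 228) (nat_lit 136851673127) (nat_lit 15) (nat_lit 5) (nat_lit 17) (nat_lit 5) (nat_lit 18) (nat_lit 5) (nat_lit 330) (nat_lit 289) (nat_lit 101)) (XT.lf (nat_lit 0) (nat_lit 44335460652) (nat_lit 228) (nat_lit 110918232099) (nat_lit 76) (nat_lit 13135782320) (nat_lit 15) (nat_lit 5) (nat_lit 18) (nat_lit 5) (nat_lit 16) (nat_lit 5) (nat_lit 331) (nat_lit 289) (nat_lit 100))))) (XT.nd (nat_lit 312) (nat_lit 76) (nat_lit 0) (XT.nd (nat_lit 156) (nat_lit 152) (nat_lit 0) (XT.nd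 (nat_lit 78) (nat_lit 0) (nat_lit 0) (XT.lf (nat_lit 0) (nat_lit 64685210398) (nat_lit 228) (nat_lit 61268516066) (nat_lit 76) (nat_lit 48974950069) (nat_lit 15) (nat_lit 5) (nat_lit 18) (nat_lit 5) (nat_lit 16) (nat_lit 5) (nat_lit 332) (nat_lit 289) (nat_lit 99)) (XT.lf (nat_lit 0) (nat_lit 86052116740) (nat_lit 228) (nat_lit 9136816338) (nat_lit 76) (nat_lit 86605922543) (nat_lit 15) (nat_lit 5) (nat_lit 18) (nat_lit 5) (nat_lit 16) (nat_lit 5) (nat_lit 333) (nat_lit 289) (nat_lit 98))) (XT.nd (nat_lit 78) (nat_lit 0) (nat_lit 0) (XT.lf (nat_lit 0) (nat_lit 47108764855) (nat_lit 152) (nat_lit 62113788251) (nat_lit 228) (nat_lit 79745032284) (nat_lit 13) (nat_lit 5) (nat_lit 15) (nat_lit 5) (nat_lit 16) (nat_lit 5) (nat_lit 334) (nat_lit 289) (nat_lit 97)) (XT.lf (nat_lit 0) (nat_lit 106483364256) (nat_lit 152) (nat_lit 27222575966) (nat_lit 228) (nat_lit 62785290892) (nat_lit 13)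 (nat_lit 5) (nat_lit 15) (nat_lit 5) (nat_lit 16) (nat_lit 5) (nat_lit 335) (nat_lit 289) (nat_lit 96)))) (XT.nd (nat_lit 33930) (nat_lit 0) (nat_lit 3268) (XT.nd (nat_lit 78) (nat_lit 76) (nat_lit 0) (XT.lf (nat_lit 0) (nat_lit 159560167823) (nat_lit 228) (nat_lit 35711793051) (nat_lit 76) (nat_lit 9111765566) (nat_lit 13) (nat_lit 5) (nat_lit 16) (nat_lit 5) (nat_lit 14) (nat_lit 4) (nat_lit 336) (nat_lit 289) (nat_lit 95)) (XT.lf (nat_lit 0) (nat_lit 21541847140) (nat_lit 76) (nat_lit 165947578809) (nat_lit 152) (nat_lit 25142305456) (nat_lit 12) (nat_lit 5) (nat_lit 13) (nat_lit 5) (nat_lit 14) (nat_lit 4) (nat_lit 337) (nat_lit 289) (nat_lit 94))) (XT.nd (nat_lit 78) (nat_lit 0) (nat_lit 0) (XT.lf (nat_lit 0) (nat_lit 54311749) (nat_lit 0) (nat_lit 54311749) (nat_lit 684) (nat_lit 23555222523) (nat_lit 55) (nat_lit 5) (nat_lit 55) (nat_lit 3) (nat_lit 64) (nat_lit 3) (nat_lit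 290) (nat_lit 290) (nat_lit 140)) (XT.nd (nat_lit 78) (nat_lit 0) (nat_lit 0) (XT.lf (nat_lit 0) (nat_lit 555874490) (nat_lit 684) (nat_lit 28891565087) (nat_lit 760) (nat_lit 19046656525) (nat_lit 55) (nat_lit 5) (nat_lit 64) (nat_lit 3) (nat_lit 65) (nat_lit 5) (nat_lit 291) (nat_lit 290) (nat_lit 139)) (XT.lf (nat_lit 0) (nat_lit 911563234) (nat_lit 684) (nat_lit 9650403481) (nat_lit 760) (nat_lit 39156855376) (nat_lit 55) (nat_lit 5) (nat_lit 64) (nat_lit 3) (nat_lit 65) (nat_lit 5) (nat_lit 292) (nat_lit 290) (nat_lit 138))))))))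
noncomputable def xc238 : XT := (XT.nd (nat_lit 1326) (nat_lit 1672) (nat_lit 0) (XT.nd (nat_lit 624) (nat_lit 1064) (nat_lit 0) (XT.nd (nat_lit 312) (nat_lit 0) (nat_lit 76) (XT.nd (nat_lit 156) (nat_lit 0) (nat_lit 0) (XT.nd (nat_lit 78) (nat_lit 0) (nat_lit 0) (XT.lf (nat_lit 0) (nat_lit 1601153199) (nat_lit 684) (nat_lit 40243039127) (nat_lit 760) (nat_lit 9144794044) (nat_lit 56) (nat_lit 5) (nat_lit 65) (nat_lit 5) (nat_lit 66) (nat_lit 5) (nat_lit 293) (nat_lit 290) (nat_lit 137)) (XT.lf (nat_lit 0) (nat_lit 2662981999) (nat_lit 684) (nat_lit 19994127919) (nat_lit 760) (nat_lit 29648668432) (nat_lit 56) (nat_lit 5) (nat_lit 65) (nat_lit 5) (nat_lit 66) (nat_lit 5) (nat_lit 294) (nat_lit 290) (nat_lit 136))) (XT.nd (nat_lit 78) (nat_lit 0) (nat_lit 76) (XT.lf (nat_lit 76) (nat_lit 1308174558) (nat_lit 0) (nat_lit 2488722276) (nat_lit 760) (nat_lit 49890570470) (nat_lit 57) (nat_lit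 5) (nat_lit 56) (nat_lit 5) (nat_lit 66) (nat_lit 5) (nat_lit 295) (nat_lit 290) (nat_lit 135)) (XT.lf (nat_lit 0) (nat_lit 5622073500) (nat_lit 684) (nat_lit 31049883402) (nat_lit 760) (nat_lit 18434562260) (nat_lit 57) (nat_lit 5) (nat_lit 66) (nat_lit 5) (nat_lit 67) (nat_lit 5) (nat_lit 296) (nat_lit 290) (nat_lit 134)))) (XT.nd (nat_lit 156) (nat_lit 0) (nat_lit 76) (XT.nd (nat_lit 78) (nat_lit 0) (nat_lit 76) (XT.lf (nat_lit 0) (nat_lit 7578004387) (nat_lit 684) (nat_lit 8695747059) (nat_lit 760) (nat_lit 40320803840) (nat_lit 57) (nat_lit 5) (nat_lit 66) (nat_lit 5) (nat_lit 67) (nat_lit 5) (nat_lit 297) (nat_lit 290) (nat_lit 133)) (XT.lf (nat_lit 0) (nat_lit 9953030153) (nat_lit 684) (nat_lit 42965644863) (nat_lit 760) (nat_lit 5222259419) (nat_lit 58) (nat_lit 5) (nat_lit 67) (nat_lit 5) (nat_lit 68) (nat_lit 5) (nat_lit 298) (nat_lit 290) (nat_lit 132))) (XT.nd (nat_lit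 78) (nat_lit 0) (nat_lit 0) (XT.lf (nat_lit 0) (nat_lit 12862079773) (nat_lit 684) (nat_lit 19485647221) (nat_lit 760) (nat_lit 27396147760) (nat_lit 58) (nat_lit 5) (nat_lit 67) (nat_lit 5) (nat_lit 68) (nat_lit 5) (nat_lit 299) (nat_lit 290) (nat_lit 131)) (XT.lf (nat_lit 76) (nat_lit 5338298982) (nat_lit 0) (nat_lit 10660494285) (nat_lit 760) (nat_lit 45424063817) (nat_lit 59) (nat_lit 5) (nat_lit 58) (nat_lit 5) (nat_lit 68) (nat_lit 5) (nat_lit 300) (nat_lit 290) (nat_lit 130))))) (XT.nd (nat_lit 312) (nat_lit 608) (nat_lit 0) (XT.nd (nat_lit 156) (nat_lit 684) (nat_lit 0) (XT.nd (nat_lit 78) (nat_lit 0) (nat_lit 0) (XT.lf (nat_lit 0) (nat_lit 19815748059) (nat_lit 684) (nat_lit 31284805117) (nat_lit 76) (nat_lit 12059070373) (nat_lit 59) (nat_lit 5) (nat_lit 68) (nat_lit 5) (nat_lit 60) (nat_lit 5) (nat_lit 301) (nat_lit 290) (nat_lit 129)) (XT.lf (nat_lit 0) (nat_lit 23997273484)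 (nat_lit 684) (nat_lit 5420739698) (nat_lit 76) (nat_lit 35556534058) (nat_lit 59) (nat_lit 5) (nat_lit 68) (nat_lit 5) (nat_lit 60) (nat_lit 5) (nat_lit 302) (nat_lit 290) (nat_lit 128))) (XT.nd (nat_lit 78) (nat_lit 0) (nat_lit 0) (XT.lf (nat_lit 0) (nat_lit 22454338515) (nat_lit 684) (nat_lit 6283122001) (nat_lit 760) (nat_lit 38125282139) (nat_lit 50) (nat_lit 5) (nat_lit 59) (nat_lit 5) (nat_lit 60) (nat_lit 5) (nat_lit 303) (nat_lit 290) (nat_lit 127)) (XT.lf (nat_lit 0) (nat_lit 34088173612) (nat_lit 760) (nat_lit 17212969012) (nat_lit 76) (nat_lit 17525533957) (nat_lit 50) (nat_lit 5) (nat_lit 60) (nat_lit 5) (nat_lit 51) (nat_lit 5) (nat_lit 304) (nat_lit 290) (nat_lit 126)))) (XT.nd (nat_lit 156) (nat_lit 304) (nat_lit 0) (XT.nd (nat_lit 78) (nat_lit 0) (nat_lit 0) (XT.lf (nat_lit 0) (nat_lit 11609960972) (nat_lit 304) (nat_lit 28379818399) (nat_lit 380) (nat_lit 30884864343)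 (nat_lit 46) (nat_lit 5) (nat_lit 50) (nat_lit 5) (nat_lit 51) (nat_lit 5) (nat_lit 305) (nat_lit 290) (nat_lit 125)) (XT.lf (nat_lit 0) (nat_lit 42470780689) (nat_lit 304) (nat_lit 4006315652) (nat_lit 380) (nat_lit 26533385470) (nat_lit 46) (nat_lit 5) (nat_lit 50) (nat_lit 5) (nat_lit 51) (nat_lit 5) (nat_lit 306) (nat_lit 290) (nat_lit 124))) (XT.nd (nat_lit 78) (nat_lit 304) (nat_lit 0) (XT.lf (nat_lit 0) (nat_lit 53624958184) (nat_lit 380) (nat_lit 716344042) (nat_lit 76) (nat_lit 20895004589) (nat_lit 46) (nat_lit 5) (nat_lit 51) (nat_lit 5) (nat_lit 47) (nat_lit 5) (nat_lit 307) (nat_lit 290) (nat_lit 123)) (XT.nd (nat_lit 78) (nat_lit 0) (nat_lit 0) (XT.lf (nat_lit 0) (nat_lit 31541202062) (nat_lit 304) (nat_lit 30146337988) (nat_lit 380) (nat_lit 15858020439) (nat_lit 42) (nat_lit 5) (nat_lit 46) (nat_lit 5) (nat_lit 47) (nat_lit 5) (nat_lit 308) (nat_lit 290) (nat_lit 122))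 (XT.lf (nat_lit 0) (nat_lit 65435691527) (nat_lit 304) (nat_lit 4728919582) (nat_lit 380) (nat_lit 9805101318) (nat_lit 42) (nat_lit 5) (nat_lit 46) (nat_lit 5) (nat_lit 47) (nat_lit 5) (nat_lit 309) (nat_lit 290) (nat_lit 121))))))) (XT.nd (nat_lit 624) (nat_lit 608) (nat_lit 0) (XT.nd (nat_lit 312) (nat_lit 456) (nat_lit 0) (XT.nd (nat_lit 156) (nat_lit 304) (nat_lit 0) (XT.nd (nat_lit 78) (nat_lit 76) (nat_lit 0) (XT.lf (nat_lit 0) (nat_lit 18766836991) (nat_lit 228) (nat_lit 60933813680) (nat_lit 304) (nat_lit 2782668961) (nat_lit 39) (nat_lit 5) (nat_lit 42) (nat_lit 5) (nat_lit 43) (nat_lit 5) (nat_lit 310) (nat_lit 290) (nat_lit 120)) (XT.lf (nat_lit 0) (nat_lit 4770919604) (nat_lit 304) (nat_lit 31027028300) (nat_lit 76) (nat_lit 49304729983) (nat_lit 38) (nat_lit 5) (nat_lit 42) (nat_lit 5) (nat_lit 39) (nat_lit 5) (nat_lit 311) (nat_lit 290) (nat_lit 119))) (XT.nd (nat_lit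 78) (nat_lit 0) (nat_lit 0) (XT.lf (nat_lit 0) (nat_lit 3357977134) (nat_lit 304) (nat_lit 9302429154) (nat_lit 380) (nat_lit 75187733111) (nat_lit 34) (nat_lit 5) (nat_lit 38) (nat_lit 5) (nat_lit 39) (nat_lit 5) (nat_lit 312) (nat_lit 290) (nat_lit 118)) (XT.lf (nat_lit 0) (nat_lit 21766881571) (nat_lit 380) (nat_lit 50463712393) (nat_lit 76) (nat_lit 18459157119) (nat_lit 34) (nat_lit 5) (nat_lit 39) (nat_lit 5) (nat_lit 35) (nat_lit 5) (nat_lit 313) (nat_lit 290) (nat_lit 117)))) (XT.nd (nat_lit 156) (nat_lit 228) (nat_lit 0) (XT.nd (nat_lit 78) (nat_lit 228) (nat_lit 0) (XT.lf (nat_lit 0) (nat_lit 31480538206) (nat_lit 380) (nat_lit 14889203301) (nat_lit 76) (nat_lit 47296111642) (nat_lit 34) (nat_lit 5) (nat_lit 39) (nat_lit 5) (nat_lit 35) (nat_lit 5) (nat_lit 314) (nat_lit 290) (nat_lit 116)) (XT.lf (nat_lit 0) (nat_lit 23206041463) (nat_lit 228) (nat_lit 18835536837) (nat_lit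 304) (nat_lit 54731099535) (nat_lit 31) (nat_lit 5) (nat_lit 34) (nat_lit 5) (nat_lit 35) (nat_lit 5) (nat_lit 315) (nat_lit 290) (nat_lit 115))) (XT.nd (nat_lit 78) (nat_lit 228) (nat_lit 0) (XT.lf (nat_lit 0) (nat_lit 53543670110) (nat_lit 304) (nat_lit 36461453001) (nat_lit 76) (nat_lit 10009073088) (nat_lit 31) (nat_lit 5) (nat_lit 35) (nat_lit 5) (nat_lit 32) (nat_lit 5) (nat_lit 316) (nat_lit 290) (nat_lit 114)) (XT.lf (nat_lit 0) (nat_lit 2261894096) (nat_lit 228) (nat_lit 63702499788) (nat_lit 304) (nat_lit 37436222538) (nat_lit 28) (nat_lit 5) (nat_lit 31) (nat_lit 5) (nat_lit 32) (nat_lit 5) (nat_lit 317) (nat_lit 290) (nat_lit 113))))) (XT.nd (nat_lit 312) (nat_lit 380) (nat_lit 0) (XT.nd (nat_lit 156) (nat_lit 228) (nat_lit 0) (XT.nd (nat_lit 78) (nat_lit 0) (nat_lit 0) (XT.lf (nat_lit 0) (nat_lit 44186568443) (nat_lit 228) (nat_lit 35436527384) (nat_lit 304) (nat_lit 27302416934)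 (nat_lit 28) (nat_lit 5) (nat_lit 31) (nat_lit 5) (nat_lit 32) (nat_lit 5) (nat_lit 318) (nat_lit 290) (nat_lit 112)) (XT.lf (nat_lit 0) (nat_lit 88206810393) (nat_lit 228) (nat_lit 5757398313) (nat_lit 304) (nat_lit 16662473516) (nat_lit 28) (nat_lit 5) (nat_lit 31) (nat_lit 5) (nat_lit 32) (nat_lit 5) (nat_lit 319) (nat_lit 290) (nat_lit 111))) (XT.nd (nat_lit 78) (nat_lit 76) (nat_lit 0) (XT.lf (nat_lit 0) (nat_lit 20163189034) (nat_lit 152) (nat_lit 89570144747) (nat_lit 228) (nat_lit 4744030545) (nat_lit 26) (nat_lit 5) (nat_lit 28) (nat_lit 5) (nat_lit 29) (nat_lit 5) (nat_lit 320) (nat_lit 290) (nat_lit 110)) (XT.lf (nat_lit 0) (nat_lit 8001437345) (nat_lit 228) (nat_lit 53070417294) (nat_lit 76) (nat_lit 57418671772) (nat_lit 25) (nat_lit 5) (nat_lit 28) (nat_lit 5) (nat_lit 26) (nat_lit 5) (nat_lit 321) (nat_lit 290) (nat_lit 109)))) (XT.nd (nat_lit 156) (nat_lit 152) (nat_lit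 0) (XT.nd (nat_lit 78) (nat_lit 228) (nat_lit 0) (XT.lf (nat_lit 0) (nat_lit 21224274380) (nat_lit 228) (nat_lit 9842877499) (nat_lit 76) (nat_lit 91633331582) (nat_lit 25) (nat_lit 5) (nat_lit 28) (nat_lit 5) (nat_lit 26) (nat_lit 5) (nat_lit 322) (nat_lit 290) (nat_lit 108)) (XT.lf (nat_lit 0) (nat_lit 35697346816) (nat_lit 304) (nat_lit 90387801136) (nat_lit 76) (nat_lit 1006337378) (nat_lit 22) (nat_lit 5) (nat_lit 26) (nat_lit 5) (nat_lit 23) (nat_lit 5) (nat_lit 323) (nat_lit 290) (nat_lit 107))) (XT.nd (nat_lit 78) (nat_lit 152) (nat_lit 0) (XT.lf (nat_lit 0) (nat_lit 51572355623) (nat_lit 304) (nat_lit 46287052589) (nat_lit 76) (nat_lit 33808716509) (nat_lit 22) (nat_lit 5) (nat_lit 26) (nat_lit 5) (nat_lit 23) (nat_lit 5) (nat_lit 324) (nat_lit 290) (nat_lit 106)) (XT.nd (nat_lit 78) (nat_lit 0) (nat_lit 0) (XT.lf (nat_lit 0) (nat_lit 18746546) (nat_lit 152) (nat_lit 68222240625)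 (nat_lit 228) (nat_lit 68232616784) (nat_lit 20) (nat_lit 5) (nat_lit 22) (nat_lit 5) (nat_lit 23) (nat_lit 5) (nat_lit 325) (nat_lit 290) (nat_lit 105)) (XT.lf (nat_lit 0) (nat_lit 50246240206) (nat_lit 152) (nat_lit 36280294344) (nat_lit 228) (nat_lit 54953649809) (nat_lit 20) (nat_lit 5) (nat_lit 22) (nat_lit 5) (nat_lit 23) (nat_lit 5) (nat_lit 326) (nat_lit 290) (nat_lit 104))))))))
noncomputable def xc239 : XT := (XT.nd (nat_lit 35256) (nat_lit 0) (nat_lit 1596) (XT.nd (nat_lit 624) (nat_lit 152) (nat_lit 0) (XT.nd (nat_lit 312) (nat_lit 152) (nat_lit 0) (XT.nd (nat_lit 156) (nat_lit 76) (nat_lit 0) (XT.nd (nat_lit 78) (nat_lit 152) (nat_lit 0) (XT.lf (nat_lit 0) (nat_lit 102984558663) (nat_lit 152) (nat_lit 2741410749) (nat_lit 228) (nat_lit 41011145216) (nat_lit 20) (nat_lit 5) (nat_lit 22) (nat_lit 5) (nat_lit 23) (nat_lit 5) (nat_lit 327) (nat_lit 290) (nat_lit 103)) (XT.lf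 (nat_lit 0) (nat_lit 5780351131) (nat_lit 152) (nat_lit 120701915327) (nat_lit 228) (nat_lit 25744781719) (nat_lit 18) (nat_lit 5) (nat_lit 20) (nat_lit 5) (nat_lit 21) (nat_lit 5) (nat_lit 328) (nat_lit 290) (nat_lit 102))) (XT.nd (nat_lit 78) (nat_lit 76) (nat_lit 0) (XT.lf (nat_lit 0) (nat_lit 59261933967) (nat_lit 152) (nat_lit 89799267180) (nat_lit 228) (nat_lit 8891037342) (nat_lit 18) (nat_lit 5) (nat_lit 20) (nat_lit 5) (nat_lit 21) (nat_lit 5) (nat_lit 329) (nat_lit 290) (nat_lit 101)) (XT.lf (nat_lit 0) (nat_lit 8523212956) (nat_lit 228) (nat_lit 48684089153) (nat_lit 76) (nat_lit 106749531161) (nat_lit 17) (nat_lit 5) (nat_lit 20) (nat_lit 5) (nat_lit 18) (nat_lit 5) (nat_lit 330) (nat_lit 290) (nat_lit 100)))) (XT.nd (nat_lit 156) (nat_lit 0) (nat_lit 0) (XT.nd (nat_lit 78) (nat_lit 0) (nat_lit 0) (XT.lf (nat_lit 0) (nat_lit 3797738482) (nat_lit 152) (nat_lit 22770596625)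 (nat_lit 228) (nat_lit 143683088181) (nat_lit 15) (nat_lit 5) (nat_lit 17) (nat_lit 5) (nat_lit 18) (nat_lit 5) (nat_lit 331) (nat_lit 290) (nat_lit 99)) (XT.lf (nat_lit 0) (nat_lit 46562410615) (nat_lit 228) (nat_lit 116448700876) (nat_lit 76) (nat_lit 13797297463) (nat_lit 15) (nat_lit 5) (nat_lit 18) (nat_lit 5) (nat_lit 16) (nat_lit 5) (nat_lit 332) (nat_lit 290) (nat_lit 98))) (XT.nd (nat_lit 78) (nat_lit 0) (nat_lit 0) (XT.lf (nat_lit 0) (nat_lit 67929163233) (nat_lit 228) (nat_lit 64317234414) (nat_lit 76) (nat_lit 51428198550) (nat_lit 15) (nat_lit 5) (nat_lit 18) (nat_lit 5) (nat_lit 16) (nat_lit 5) (nat_lit 333) (nat_lit 290) (nat_lit 97)) (XT.lf (nat_lit 0) (nat_lit 90363953353) (nat_lit 228) (nat_lit 9579650055) (nat_lit 76) (nat_lit 90940505316) (nat_lit 15) (nat_lit 5) (nat_lit 18) (nat_lit 5) (nat_lit 16) (nat_lit 5) (nat_lit 334) (nat_lit 290) (nat_lit 96))))) (XT.nd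 (nat_lit 34242) (nat_lit 0) (nat_lit 3192) (XT.nd (nat_lit 34086) (nat_lit 0) (nat_lit 3192) (XT.nd (nat_lit 78) (nat_lit 0) (nat_lit 0) (XT.lf (nat_lit 0) (nat_lit 49477984277) (nat_lit 152) (nat_lit 65214702862) (nat_lit 228) (nat_lit 83722800400) (nat_lit 13) (nat_lit 5) (nat_lit 15) (nat_lit 5) (nat_lit 16) (nat_lit 5) (nat_lit 335) (nat_lit 290) (nat_lit 95)) (XT.lf (nat_lit 0) (nat_lit 111820657402) (nat_lit 152) (nat_lit 28579157334) (nat_lit 228) (nat_lit 65915523535) (nat_lit 13) (nat_lit 5) (nat_lit 15) (nat_lit 5) (nat_lit 16) (nat_lit 5) (nat_lit 336) (nat_lit 290) (nat_lit 94))) (XT.nd (nat_lit 78) (nat_lit 0) (nat_lit 0) (XT.lf (nat_lit 0) (nat_lit 69820521) (nat_lit 0) (nat_lit 69820521) (nat_lit 684) (nat_lit 24705991540) (nat_lit 55) (nat_lit 5) (nat_lit 55) (nat_lit 3) (nat_lit 64) (nat_lit 3) (nat_lit 291) (nat_lit 291) (nat_lit 138)) (XT.lf (nat_lit 0) (nat_lit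 632023702) (nat_lit 684) (nat_lit 30308717319) (nat_lit 760) (nat_lit 19975401309) (nat_lit 55) (nat_lit 5) (nat_lit 64) (nat_lit 3) (nat_lit 65) (nat_lit 5) (nat_lit 292) (nat_lit 291) (nat_lit 137)))) (XT.nd (nat_lit 156) (nat_lit 0) (nat_lit 76) (XT.nd (nat_lit 78) (nat_lit 0) (nat_lit 76) (XT.lf (nat_lit 0) (nat_lit 1003194240) (nat_lit 684) (nat_lit 10106803634) (nat_lit 760) (nat_lit 41092233343) (nat_lit 55) (nat_lit 5) (nat_lit 64) (nat_lit 3) (nat_lit 65) (nat_lit 5) (nat_lit 293) (nat_lit 291) (nat_lit 136)) (XT.lf (nat_lit 0) (nat_lit 1725182130) (nat_lit 684) (nat_lit 42226771072) (nat_lit 760) (nat_lit 9584065507) (nat_lit 56) (nat_lit 5) (nat_lit 65) (nat_lit 5) (nat_lit 66) (nat_lit 5) (nat_lit 294) (nat_lit 291) (nat_lit 135))) (XT.nd (nat_lit 78) (nat_lit 0) (nat_lit 0) (XT.lf (nat_lit 0) (nat_lit 2838008500) (nat_lit 684) (nat_lit 20966767638) (nat_lit 760) (nat_lit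 31113989245) (nat_lit 56) (nat_lit 5) (nat_lit 65) (nat_lit 5) (nat_lit 66) (nat_lit 5) (nat_lit 295) (nat_lit 291) (nat_lit 134)) (XT.nd (nat_lit 78) (nat_lit 0) (nat_lit 76) (XT.lf (nat_lit 76) (nat_lit 1400213404) (nat_lit 0) (nat_lit 2626827282) (nat_lit 760) (nat_lit 52342586923) (nat_lit 57) (nat_lit 5) (nat_lit 56) (nat_lit 5) (nat_lit 66) (nat_lit 5) (nat_lit 296) (nat_lit 291) (nat_lit 133)) (XT.lf (nat_lit 0) (nat_lit 5941353937) (nat_lit 684) (nat_lit 32574704632) (nat_lit 760) (nat_lit 19343689038) (nat_lit 57) (nat_lit 5) (nat_lit 66) (nat_lit 5) (nat_lit 67) (nat_lit 5) (nat_lit 297) (nat_lit 291) (nat_lit 132))))))) (XT.nd (nat_lit 624) (nat_lit 1216) (nat_lit 0) (XT.nd (nat_lit 312) (nat_lit 532) (nat_lit 0) (XT.nd (nat_lit 156) (nat_lit 0) (nat_lit 76) (XT.nd (nat_lit 78) (nat_lit 0) (nat_lit 76) (XT.lf (nat_lit 0) (nat_lit 7993263427) (nat_lit 684) (nat_lit 9104179231)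 (nat_lit 760) (nat_lit 42324842760) (nat_lit 57) (nat_lit 5) (nat_lit 66) (nat_lit 5) (nat_lit 67) (nat_lit 5) (nat_lit 298) (nat_lit 291) (nat_lit 131)) (XT.lf (nat_lit 0) (nat_lit 10485571840) (nat_lit 684) (nat_lit 45085932148) (nat_lit 760) (nat_lit 5474561525) (nat_lit 58) (nat_lit 5) (nat_lit 67) (nat_lit 5) (nat_lit 68) (nat_lit 5) (nat_lit 299) (nat_lit 291) (nat_lit 130))) (XT.nd (nat_lit 78) (nat_lit 0) (nat_lit 0) (XT.lf (nat_lit 0) (nat_lit 13538412504) (nat_lit 684) (nat_lit 20433267718) (nat_lit 760) (nat_lit 28757563847) (nat_lit 58) (nat_lit 5) (nat_lit 67) (nat_lit 5) (nat_lit 68) (nat_lit 5) (nat_lit 300) (nat_lit 291) (nat_lit 129)) (XT.lf (nat_lit 76) (nat_lit 5631445766) (nat_lit 0) (nat_lit 11199343139) (nat_lit 760) (nat_lit 47661453011) (nat_lit 59) (nat_lit 5) (nat_lit 58) (nat_lit 5) (nat_lit 68) (nat_lit 5) (nat_lit 301) (nat_lit 291) (nat_lit 128)))) (XT.nd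 (nat_lit 156) (nat_lit 684) (nat_lit 0) (XT.nd (nat_lit 78) (nat_lit 0) (nat_lit 0) (XT.lf (nat_lit 0) (nat_lit 20836978360) (nat_lit 684) (nat_lit 32822301765) (nat_lit 76) (nat_lit 12656654625) (nat_lit 59) (nat_lit 5) (nat_lit 68) (nat_lit 5) (nat_lit 60) (nat_lit 5) (nat_lit 302) (nat_lit 291) (nat_lit 127)) (XT.lf (nat_lit 0) (nat_lit 25226130394) (nat_lit 684) (nat_lit 5666306580) (nat_lit 76) (nat_lit 37329247173) (nat_lit 59) (nat_lit 5) (nat_lit 68) (nat_lit 5) (nat_lit 60) (nat_lit 5) (nat_lit 303) (nat_lit 291) (nat_lit 126))) (XT.nd (nat_lit 78) (nat_lit 0) (nat_lit 0) (XT.lf (nat_lit 0) (nat_lit 23602114735) (nat_lit 684) (nat_lit 6600222658) (nat_lit 760) (nat_lit 40002008113) (nat_lit 50) (nat_lit 5) (nat_lit 59) (nat_lit 5) (nat_lit 60) (nat_lit 5) (nat_lit 304) (nat_lit 291) (nat_lit 125)) (XT.lf (nat_lit 0) (nat_lit 35819208844) (nat_lit 760) (nat_lit 18048246465)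 (nat_lit 76) (nat_lit 18399096072) (nat_lit 50) (nat_lit 5) (nat_lit 60) (nat_lit 5) (nat_lit 51) (nat_lit 5) (nat_lit 305) (nat_lit 291) (nat_lit 124))))) (XT.nd (nat_lit 312) (nat_lit 608) (nat_lit 0) (XT.nd (nat_lit 156) (nat_lit 304) (nat_lit 0) (XT.nd (nat_lit 78) (nat_lit 0) (nat_lit 0) (XT.lf (nat_lit 0) (nat_lit 12215420810) (nat_lit 304) (nat_lit 29799595874) (nat_lit 380) (nat_lit 32401950178) (nat_lit 46) (nat_lit 5) (nat_lit 50) (nat_lit 5) (nat_lit 51) (nat_lit 5) (nat_lit 306) (nat_lit 291) (nat_lit 123)) (XT.lf (nat_lit 0) (nat_lit 44618092855) (nat_lit 304) (nat_lit 4207380535) (nat_lit 380) (nat_lit 27834190569) (nat_lit 46) (nat_lit 5) (nat_lit 50) (nat_lit 5) (nat_lit 51) (nat_lit 5) (nat_lit 307) (nat_lit 291) (nat_lit 122))) (XT.nd (nat_lit 78) (nat_lit 304) (nat_lit 0) (XT.lf (nat_lit 0) (nat_lit 56329549461) (nat_lit 380) (nat_lit 728230987) (nat_lit 76) (nat_lit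 21939064224) (nat_lit 46) (nat_lit 5) (nat_lit 51) (nat_lit 5) (nat_lit 47) (nat_lit 5) (nat_lit 308) (nat_lit 291) (nat_lit 121)) (XT.lf (nat_lit 0) (nat_lit 33141806450) (nat_lit 304) (nat_lit 31652709974) (nat_lit 380) (nat_lit 16627087059) (nat_lit 42) (nat_lit 5) (nat_lit 46) (nat_lit 5) (nat_lit 47) (nat_lit 5) (nat_lit 309) (nat_lit 291) (nat_lit 120)))) (XT.nd (nat_lit 156) (nat_lit 380) (nat_lit 0) (XT.nd (nat_lit 78) (nat_lit 228) (nat_lit 0) (XT.lf (nat_lit 0) (nat_lit 68729899232) (nat_lit 304) (nat_lit 4964465643) (nat_lit 380) (nat_lit 10272656954) (nat_lit 42) (nat_lit 5) (nat_lit 46) (nat_lit 5) (nat_lit 47) (nat_lit 5) (nat_lit 310) (nat_lit 291) (nat_lit 119)) (XT.lf (nat_lit 0) (nat_lit 19728383731) (nat_lit 228) (nat_lit 63978173445) (nat_lit 304) (nat_lit 2899789446) (nat_lit 39) (nat_lit 5) (nat_lit 42) (nat_lit 5) (nat_lit 43) (nat_lit 5) (nat_lit 311) (nat_lit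 291) (nat_lit 118))) (XT.nd (nat_lit 78) (nat_lit 304) (nat_lit 0) (XT.lf (nat_lit 0) (nat_lit 5029759309) (nat_lit 304) (nat_lit 32555522383) (nat_lit 76) (nat_lit 51771428969) (nat_lit 38) (nat_lit 5) (nat_lit 42) (nat_lit 5) (nat_lit 39) (nat_lit 5) (nat_lit 312) (nat_lit 291) (nat_lit 117)) (XT.nd (nat_lit 78) (nat_lit 0) (nat_lit 0) (XT.lf (nat_lit 0) (nat_lit 3548364655) (nat_lit 304) (nat_lit 9764740415) (nat_lit 380) (nat_lit 78926375056) (nat_lit 34) (nat_lit 5) (nat_lit 38) (nat_lit 5) (nat_lit 39) (nat_lit 5) (nat_lit 313) (nat_lit 291) (nat_lit 116)) (XT.lf (nat_lit 0) (nat_lit 22874008833) (nat_lit 380) (nat_lit 52964506554) (nat_lit 76) (nat_lit 19384705692) (nat_lit 34) (nat_lit 5) (nat_lit 39) (nat_lit 5) (nat_lit 35) (nat_lit 5) (nat_lit 314) (nat_lit 291) (nat_lit 115))))))))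
noncomputable def xc240 : XT := (XT.nd (nat_lit 1248) (nat_lit 380) (nat_lit 0) (XT.nd (nat_lit 624) (nat_lit 532) (nat_lit 0) (XT.nd (nat_lit 312) (nat_lit 228) (nat_lit 0) (XT.nd (nat_lit 156) (nat_lit 228) (nat_lit 0) (XT.nd (nat_lit 78) (nat_lit 228) (nat_lit 0) (XT.lf (nat_lit 0) (nat_lit 33072453863) (nat_lit 380) (nat_lit 15612338267) (nat_lit 76) (nat_lit 49663384574) (nat_lit 34) (nat_lit 5) (nat_lit 39) (nat_lit 5) (nat_lit 35) (nat_lit 5) (nat_lit 315) (nat_lit 291) (nat_lit 114)) (XT.lf (nat_lit 0) (nat_lit 24387324781) (nat_lit 228) (nat_lit 19773696912) (nat_lit 304) (nat_lit 57449350700) (nat_lit 31) (nat_lit 5) (nat_lit 34) (nat_lit 5) (nat_lit 35) (nat_lit 5) (nat_lit 316) (nat_lit 291) (nat_lit 113))) (XT.nd (nat_lit 78) (nat_lit 228) (nat_lit 0) (XT.lf (nat_lit 0) (nat_lit 56237444992) (nat_lit 304) (nat_lit 38263702689) (nat_lit 76) (nat_lit 10512861035) (nat_lit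 31) (nat_lit 5) (nat_lit 35) (nat_lit 5) (nat_lit 32) (nat_lit 5) (nat_lit 317) (nat_lit 291) (nat_lit 112)) (XT.lf (nat_lit 0) (nat_lit 2395475909) (nat_lit 228) (nat_lit 66883258842) (nat_lit 304) (nat_lit 39291041936) (nat_lit 28) (nat_lit 5) (nat_lit 31) (nat_lit 5) (nat_lit 32) (nat_lit 5) (nat_lit 318) (nat_lit 291) (nat_lit 111)))) (XT.nd (nat_lit 156) (nat_lit 228) (nat_lit 0) (XT.nd (nat_lit 78) (nat_lit 0) (nat_lit 0) (XT.lf (nat_lit 0) (nat_lit 46415408397) (nat_lit 228) (nat_lit 37204195719) (nat_lit 304) (nat_lit 28651355181) (nat_lit 28) (nat_lit 5) (nat_lit 31) (nat_lit 5) (nat_lit 32) (nat_lit 5) (nat_lit 319) (nat_lit 291) (nat_lit 110)) (XT.lf (nat_lit 0) (nat_lit 92635733323) (nat_lit 228) (nat_lit 6041308196) (nat_lit 304) (nat_lit 17480185193) (nat_lit 28) (nat_lit 5) (nat_lit 31) (nat_lit 5) (nat_lit 32) (nat_lit 5) (nat_lit 320) (nat_lit 291) (nat_lit 109)))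 (XT.nd (nat_lit 78) (nat_lit 76) (nat_lit 0) (XT.lf (nat_lit 0) (nat_lit 21190347235) (nat_lit 152) (nat_lit 94043934816) (nat_lit 228) (nat_lit 4966180695) (nat_lit 26) (nat_lit 5) (nat_lit 28) (nat_lit 5) (nat_lit 29) (nat_lit 5) (nat_lit 321) (nat_lit 291) (nat_lit 108)) (XT.lf (nat_lit 0) (nat_lit 8415385059) (nat_lit 228) (nat_lit 55705334777) (nat_lit 76) (nat_lit 60293588567) (nat_lit 25) (nat_lit 5) (nat_lit 28) (nat_lit 5) (nat_lit 26) (nat_lit 5) (nat_lit 322) (nat_lit 291) (nat_lit 107))))) (XT.nd (nat_lit 312) (nat_lit 152) (nat_lit 0) (XT.nd (nat_lit 156) (nat_lit 152) (nat_lit 0) (XT.nd (nat_lit 78) (nat_lit 228) (nat_lit 0) (XT.lf (nat_lit 0) (nat_lit 22298703191) (nat_lit 228) (nat_lit 10317303867) (nat_lit 76) (nat_lit 96218791691) (nat_lit 25) (nat_lit 5) (nat_lit 28) (nat_lit 5) (nat_lit 26) (nat_lit 5) (nat_lit 323) (nat_lit 291) (nat_lit 106)) (XT.lf (nat_lit 0)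 (nat_lit 37495143527) (nat_lit 304) (nat_lit 94889142126) (nat_lit 76) (nat_lit 1061081638) (nat_lit 22) (nat_lit 5) (nat_lit 26) (nat_lit 5) (nat_lit 23) (nat_lit 5) (nat_lit 324) (nat_lit 291) (nat_lit 105))) (XT.nd (nat_lit 78) (nat_lit 152) (nat_lit 0) (XT.lf (nat_lit 0) (nat_lit 54163287089) (nat_lit 304) (nat_lit 48584215631) (nat_lit 76) (nat_lit 35503368897) (nat_lit 22) (nat_lit 5) (nat_lit 26) (nat_lit 5) (nat_lit 23) (nat_lit 5) (nat_lit 325) (nat_lit 291) (nat_lit 104)) (XT.lf (nat_lit 0) (nat_lit 36596210) (nat_lit 152) (nat_lit 71628431688) (nat_lit 228) (nat_lit 71631615110) (nat_lit 20) (nat_lit 5) (nat_lit 22) (nat_lit 5) (nat_lit 23) (nat_lit 5) (nat_lit 326) (nat_lit 291) (nat_lit 103)))) (XT.nd (nat_lit 156) (nat_lit 152) (nat_lit 0) (XT.nd (nat_lit 78) (nat_lit 0) (nat_lit 0) (XT.lf (nat_lit 0) (nat_lit 52774659203) (nat_lit 152) (nat_lit 38089622425) (nat_lit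 228) (nat_lit 57689301334) (nat_lit 20) (nat_lit 5) (nat_lit 22) (nat_lit 5) (nat_lit 23) (nat_lit 5) (nat_lit 327) (nat_lit 291) (nat_lit 102)) (XT.lf (nat_lit 0) (nat_lit 108149126584) (nat_lit 152) (nat_lit 2874017823) (nat_lit 228) (nat_lit 43050244415) (nat_lit 20) (nat_lit 5) (nat_lit 22) (nat_lit 5) (nat_lit 23) (nat_lit 5) (nat_lit 328) (nat_lit 291) (nat_lit 101))) (XT.nd (nat_lit 78) (nat_lit 0) (nat_lit 0) (XT.lf (nat_lit 0) (nat_lit 6084964850) (nat_lit 152) (nat_lit 126732083393) (nat_lit 228) (nat_lit 27020783003) (nat_lit 18) (nat_lit 5) (nat_lit 20) (nat_lit 5) (nat_lit 21) (nat_lit 5) (nat_lit 329) (nat_lit 291) (nat_lit 100)) (XT.lf (nat_lit 0) (nat_lit 62239884154) (nat_lit 152) (nat_lit 94284537492) (nat_lit 228) (nat_lit 9324886541) (nat_lit 18) (nat_lit 5) (nat_lit 20) (nat_lit 5) (nat_lit 21) (nat_lit 5) (nat_lit 330) (nat_lit 291) (nat_lit 99)))))) (XT.nd (nat_lit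 34632) (nat_lit 0) (nat_lit 3192) (XT.nd (nat_lit 312) (nat_lit 152) (nat_lit 0) (XT.nd (nat_lit 156) (nat_lit 0) (nat_lit 0) (XT.nd (nat_lit 78) (nat_lit 152) (nat_lit 0) (XT.lf (nat_lit 0) (nat_lit 8959240381) (nat_lit 228) (nat_lit 51103790165) (nat_lit 76) (nat_lit 112091120022) (nat_lit 17) (nat_lit 5) (nat_lit 20) (nat_lit 5) (nat_lit 18) (nat_lit 5) (nat_lit 331) (nat_lit 291) (nat_lit 98)) (XT.lf (nat_lit 0) (nat_lit 4001894924) (nat_lit 152) (nat_lit 23904476656) (nat_lit 228) (nat_lit 150857112339) (nat_lit 15) (nat_lit 5) (nat_lit 17) (nat_lit 5) (nat_lit 18) (nat_lit 5) (nat_lit 332) (nat_lit 291) (nat_lit 97))) (XT.nd (nat_lit 78) (nat_lit 0) (nat_lit 0) (XT.lf (nat_lit 0) (nat_lit 48899761921) (nat_lit 228) (nat_lit 122257128819) (nat_lit 76) (nat_lit 14491448981) (nat_lit 15) (nat_lit 5) (nat_lit 18) (nat_lit 5) (nat_lit 16) (nat_lit 5) (nat_lit 333) (nat_lit 291) (nat_lit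 96)) (XT.lf (nat_lit 0) (nat_lit 71334412609) (nat_lit 228) (nat_lit 67519756039) (nat_lit 76) (nat_lit 54003690997) (nat_lit 15) (nat_lit 5) (nat_lit 18) (nat_lit 5) (nat_lit 16) (nat_lit 5) (nat_lit 334) (nat_lit 291) (nat_lit 95)))) (XT.nd (nat_lit 34164) (nat_lit 0) (nat_lit 3192) (XT.nd (nat_lit 78) (nat_lit 152) (nat_lit 0) (XT.lf (nat_lit 0) (nat_lit 94890523606) (nat_lit 228) (nat_lit 10045927704) (nat_lit 76) (nat_lit 95491418695) (nat_lit 15) (nat_lit 5) (nat_lit 18) (nat_lit 5) (nat_lit 16) (nat_lit 5) (nat_lit 335) (nat_lit 291) (nat_lit 94)) (XT.lf (nat_lit 0) (nat_lit 51964383427) (nat_lit 152) (nat_lit 68471107119) (nat_lit 228) (nat_lit 87900338609) (nat_lit 13) (nat_lit 5) (nat_lit 15) (nat_lit 5) (nat_lit 16) (nat_lit 5) (nat_lit 336) (nat_lit 291) (nat_lit 93))) (XT.nd (nat_lit 78) (nat_lit 0) (nat_lit 0) (XT.lf (nat_lit 0) (nat_lit 84915342) (nat_lit 0) (nat_lit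 84915342) (nat_lit 684) (nat_lit 25916808479) (nat_lit 55) (nat_lit 5) (nat_lit 55) (nat_lit 3) (nat_lit 64) (nat_lit 3) (nat_lit 292) (nat_lit 292) (nat_lit 136)) (XT.lf (nat_lit 0) (nat_lit 707484739) (nat_lit 684) (nat_lit 31799276974) (nat_lit 760) (nat_lit 20952776325) (nat_lit 55) (nat_lit 5) (nat_lit 64) (nat_lit 3) (nat_lit 65) (nat_lit 5) (nat_lit 293) (nat_lit 292) (nat_lit 135))))) (XT.nd (nat_lit 312) (nat_lit 0) (nat_lit 152) (XT.nd (nat_lit 156) (nat_lit 0) (nat_lit 76) (XT.nd (nat_lit 78) (nat_lit 0) (nat_lit 76) (XT.lf (nat_lit 0) (nat_lit 1095125240) (nat_lit 684) (nat_lit 10588452186) (nat_lit 760) (nat_lit 43126468772) (nat_lit 55) (nat_lit 5) (nat_lit 64) (nat_lit 3) (nat_lit 65) (nat_lit 5) (nat_lit 294) (nat_lit 292) (nat_lit 134)) (XT.lf (nat_lit 0) (nat_lit 1851324475) (nat_lit 684) (nat_lit 44312331838) (nat_lit 760) (nat_lit 10046971059) (nat_lit 56) (nat_lit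 5) (nat_lit 65) (nat_lit 5) (nat_lit 66) (nat_lit 5) (nat_lit 295) (nat_lit 292) (nat_lit 133))) (XT.nd (nat_lit 78) (nat_lit 0) (nat_lit 0) (XT.lf (nat_lit 0) (nat_lit 3017892962) (nat_lit 684) (nat_lit 21990555746) (nat_lit 760) (nat_lit 32654167066) (nat_lit 56) (nat_lit 5) (nat_lit 65) (nat_lit 5) (nat_lit 66) (nat_lit 5) (nat_lit 296) (nat_lit 292) (nat_lit 132)) (XT.lf (nat_lit 76) (nat_lit 1494378376) (nat_lit 0) (nat_lit 2770566734) (nat_lit 760) (nat_lit 54921156569) (nat_lit 57) (nat_lit 5) (nat_lit 56) (nat_lit 5) (nat_lit 66) (nat_lit 5) (nat_lit 297) (nat_lit 292) (nat_lit 131)))) (XT.nd (nat_lit 156) (nat_lit 0) (nat_lit 76) (XT.nd (nat_lit 78) (nat_lit 0) (nat_lit 0) (XT.lf (nat_lit 0) (nat_lit 6273049083) (nat_lit 684) (nat_lit 34178339691) (nat_lit 760) (nat_lit 20299443707) (nat_lit 57) (nat_lit 5) (nat_lit 66) (nat_lit 5) (nat_lit 67) (nat_lit 5) (nat_lit 298) (nat_lit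 292) (nat_lit 130)) (XT.lf (nat_lit 0) (nat_lit 8425905121) (nat_lit 684) (nat_lit 9535483266) (nat_lit 760) (nat_lit 44430199391) (nat_lit 57) (nat_lit 5) (nat_lit 66) (nat_lit 5) (nat_lit 67) (nat_lit 5) (nat_lit 299) (nat_lit 292) (nat_lit 129))) (XT.nd (nat_lit 78) (nat_lit 0) (nat_lit 0) (XT.lf (nat_lit 0) (nat_lit 11041496853) (nat_lit 684) (nat_lit 47314836504) (nat_lit 760) (nat_lit 5740297887) (nat_lit 58) (nat_lit 5) (nat_lit 67) (nat_lit 5) (nat_lit 68) (nat_lit 5) (nat_lit 300) (nat_lit 292) (nat_lit 128)) (XT.nd (nat_lit 78) (nat_lit 0) (nat_lit 0) (XT.lf (nat_lit 0) (nat_lit 14245472578) (nat_lit 684) (nat_lit 21430748007) (nat_lit 760) (nat_lit 30187830883) (nat_lit 58) (nat_lit 5) (nat_lit 67) (nat_lit 5) (nat_lit 68) (nat_lit 5) (nat_lit 301) (nat_lit 292) (nat_lit 127)) (XT.lf (nat_lit 76) (nat_lit 5936811101) (nat_lit 0) (nat_lit 11764592962) (nat_lit 760) (nat_lit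 50013855371) (nat_lit 59) (nat_lit 5) (nat_lit 58) (nat_lit 5) (nat_lit 68) (nat_lit 5) (nat_lit 302) (nat_lit 292) (nat_lit 126))))))))
noncomputable def xc241 : XT := (XT.nd (nat_lit 1326) (nat_lit 988) (nat_lit 0) (XT.nd (nat_lit 624) (nat_lit 1064) (nat_lit 0) (XT.nd (nat_lit 312) (nat_lit 608) (nat_lit 0) (XT.nd (nat_lit 156) (nat_lit 684) (nat_lit 0) (XT.nd (nat_lit 78) (nat_lit 0) (nat_lit 0) (XT.lf (nat_lit 0) (nat_lit 21906439884) (nat_lit 684) (nat_lit 34439159612) (nat_lit 76) (nat_lit 13284617273) (nat_lit 59) (nat_lit 5) (nat_lit 68) (nat_lit 5) (nat_lit 60) (nat_lit 5) (nat_lit 303) (nat_lit 292) (nat_lit 125)) (XT.lf (nat_lit 0) (nat_lit 26513734634) (nat_lit 684) (nat_lit 5926519775) (nat_lit 76) (nat_lit 39191071357) (nat_lit 59) (nat_lit 5) (nat_lit 68) (nat_lit 5) (nat_lit 60) (nat_lit 5) (nat_lit 304) (nat_lit 292) (nat_lit 124))) (XT.nd (nat_lit 78) (nat_lit 0)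 (nat_lit 0) (XT.lf (nat_lit 0) (nat_lit 24804949991) (nat_lit 684) (nat_lit 6932904590) (nat_lit 760) (nat_lit 41975316562) (nat_lit 50) (nat_lit 5) (nat_lit 59) (nat_lit 5) (nat_lit 60) (nat_lit 5) (nat_lit 305) (nat_lit 292) (nat_lit 123)) (XT.lf (nat_lit 0) (nat_lit 37634320353) (nat_lit 760) (nat_lit 18927646544) (nat_lit 76) (nat_lit 19316588668) (nat_lit 50) (nat_lit 5) (nat_lit 60) (nat_lit 5) (nat_lit 51) (nat_lit 5) (nat_lit 306) (nat_lit 292) (nat_lit 122)))) (XT.nd (nat_lit 156) (nat_lit 304) (nat_lit 0) (XT.nd (nat_lit 78) (nat_lit 0) (nat_lit 0) (XT.lf (nat_lit 0) (nat_lit 12848832929) (nat_lit 304) (nat_lit 31290289096) (nat_lit 380) (nat_lit 33997415140) (nat_lit 46) (nat_lit 5) (nat_lit 50) (nat_lit 5) (nat_lit 51) (nat_lit 5) (nat_lit 307) (nat_lit 292) (nat_lit 121)) (XT.lf (nat_lit 0) (nat_lit 46870560430) (nat_lit 304) (nat_lit 4418429017) (nat_lit 380) (nat_lit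 29202440529) (nat_lit 46) (nat_lit 5) (nat_lit 50) (nat_lit 5) (nat_lit 51) (nat_lit 5) (nat_lit 308) (nat_lit 292) (nat_lit 120))) (XT.nd (nat_lit 78) (nat_lit 304) (nat_lit 0) (XT.lf (nat_lit 0) (nat_lit 59167200057) (nat_lit 380) (nat_lit 742937088) (nat_lit 76) (nat_lit 23035391046) (nat_lit 46) (nat_lit 5) (nat_lit 51) (nat_lit 5) (nat_lit 47) (nat_lit 5) (nat_lit 309) (nat_lit 292) (nat_lit 119)) (XT.lf (nat_lit 0) (nat_lit 34820252133) (nat_lit 304) (nat_lit 33234488408) (nat_lit 380) (nat_lit 17436822907) (nat_lit 42) (nat_lit 5) (nat_lit 46) (nat_lit 5) (nat_lit 47) (nat_lit 5) (nat_lit 310) (nat_lit 292) (nat_lit 118))))) (XT.nd (nat_lit 312) (nat_lit 456) (nat_lit 0) (XT.nd (nat_lit 156) (nat_lit 380) (nat_lit 0) (XT.nd (nat_lit 78) (nat_lit 228) (nat_lit 0) (XT.lf (nat_lit 0) (nat_lit 72186732633) (nat_lit 304) (nat_lit 5211872673) (nat_lit 380) (nat_lit 10765700750) (nat_lit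 42) (nat_lit 5) (nat_lit 46) (nat_lit 5) (nat_lit 47) (nat_lit 5) (nat_lit 311) (nat_lit 292) (nat_lit 117)) (XT.lf (nat_lit 0) (nat_lit 20735850436) (nat_lit 228) (nat_lit 67174967904) (nat_lit 304) (nat_lit 3024812512) (nat_lit 39) (nat_lit 5) (nat_lit 42) (nat_lit 5) (nat_lit 43) (nat_lit 5) (nat_lit 312) (nat_lit 292) (nat_lit 116))) (XT.nd (nat_lit 78) (nat_lit 304) (nat_lit 0) (XT.lf (nat_lit 0) (nat_lit 5299654281) (nat_lit 304) (nat_lit 34162566228) (nat_lit 76) (nat_lit 54361326936) (nat_lit 38) (nat_lit 5) (nat_lit 42) (nat_lit 5) (nat_lit 39) (nat_lit 5) (nat_lit 313) (nat_lit 292) (nat_lit 115)) (XT.lf (nat_lit 0) (nat_lit 3746180770) (nat_lit 304) (nat_lit 10250428504) (nat_lit 380) (nat_lit 82853877746) (nat_lit 34) (nat_lit 5) (nat_lit 38) (nat_lit 5) (nat_lit 39) (nat_lit 5) (nat_lit 314) (nat_lit 292) (nat_lit 114)))) (XT.nd (nat_lit 156) (nat_lit 456) (nat_lit 0)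 (XT.nd (nat_lit 78) (nat_lit 0) (nat_lit 0) (XT.lf (nat_lit 0) (nat_lit 24034746176) (nat_lit 380) (nat_lit 55592422168) (nat_lit 76) (nat_lit 20356290834) (nat_lit 34) (nat_lit 5) (nat_lit 39) (nat_lit 5) (nat_lit 35) (nat_lit 5) (nat_lit 315) (nat_lit 292) (nat_lit 113)) (XT.lf (nat_lit 0) (nat_lit 34742302176) (nat_lit 380) (nat_lit 16373612596) (nat_lit 76) (nat_lit 52148791762) (nat_lit 34) (nat_lit 5) (nat_lit 39) (nat_lit 5) (nat_lit 35) (nat_lit 5) (nat_lit 316) (nat_lit 292) (nat_lit 112))) (XT.nd (nat_lit 78) (nat_lit 228) (nat_lit 0) (XT.lf (nat_lit 0) (nat_lit 25625721627) (nat_lit 228) (nat_lit 20759101243) (nat_lit 304) (nat_lit 60305216139) (nat_lit 31) (nat_lit 5) (nat_lit 34) (nat_lit 5) (nat_lit 35) (nat_lit 5) (nat_lit 317) (nat_lit 292) (nat_lit 111)) (XT.nd (nat_lit 78) (nat_lit 228) (nat_lit 0) (XT.lf (nat_lit 0) (nat_lit 59064366109) (nat_lit 304) (nat_lit 40158000783)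 (nat_lit 76) (nat_lit 11041528389) (nat_lit 31) (nat_lit 5) (nat_lit 35) (nat_lit 5) (nat_lit 32) (nat_lit 5) (nat_lit 318) (nat_lit 292) (nat_lit 110)) (XT.lf (nat_lit 0) (nat_lit 2533832115) (nat_lit 228) (nat_lit 70223461751) (nat_lit 304) (nat_lit 41240182033) (nat_lit 28) (nat_lit 5) (nat_lit 31) (nat_lit 5) (nat_lit 32) (nat_lit 5) (nat_lit 319) (nat_lit 292) (nat_lit 109))))))) (XT.nd (nat_lit 624) (nat_lit 380) (nat_lit 0) (XT.nd (nat_lit 312) (nat_lit 380) (nat_lit 0) (XT.nd (nat_lit 156) (nat_lit 228) (nat_lit 0) (XT.nd (nat_lit 78) (nat_lit 0) (nat_lit 0) (XT.lf (nat_lit 0) (nat_lit 48753876351) (nat_lit 228) (nat_lit 39060634046) (nat_lit 304) (nat_lit 30069244846) (nat_lit 28) (nat_lit 5) (nat_lit 31) (nat_lit 5) (nat_lit 32) (nat_lit 5) (nat_lit 320) (nat_lit 292) (nat_lit 108)) (XT.lf (nat_lit 0) (nat_lit 97284374784) (nat_lit 228) (nat_lit 6339781740) (nat_lit 304)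 (nat_lit 18340215314) (nat_lit 28) (nat_lit 5) (nat_lit 31) (nat_lit 5) (nat_lit 32) (nat_lit 5) (nat_lit 321) (nat_lit 292) (nat_lit 107))) (XT.nd (nat_lit 78) (nat_lit 76) (nat_lit 0) (XT.lf (nat_lit 0) (nat_lit 22267097023) (nat_lit 152) (nat_lit 98741852946) (nat_lit 228) (nat_lit 5200837688) (nat_lit 26) (nat_lit 5) (nat_lit 28) (nat_lit 5) (nat_lit 29) (nat_lit 5) (nat_lit 322) (nat_lit 292) (nat_lit 106)) (XT.lf (nat_lit 0) (nat_lit 8848740114) (nat_lit 228) (nat_lit 58473727699) (nat_lit 76) (nat_lit 63311880882) (nat_lit 25) (nat_lit 5) (nat_lit 28) (nat_lit 5) (nat_lit 26) (nat_lit 5) (nat_lit 323) (nat_lit 292) (nat_lit 105)))) (XT.nd (nat_lit 156) (nat_lit 152) (nat_lit 0) (XT.nd (nat_lit 78) (nat_lit 228) (nat_lit 0) (XT.lf (nat_lit 0) (nat_lit 23425624829) (nat_lit 228) (nat_lit 10817098760) (nat_lit 76) (nat_lit 101033172120) (nat_lit 25) (nat_lit 5) (nat_lit 28) (nat_lit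 5) (nat_lit 26) (nat_lit 5) (nat_lit 324) (nat_lit 292) (nat_lit 104)) (XT.lf (nat_lit 0) (nat_lit 39381628023) (nat_lit 304) (nat_lit 99617228196) (nat_lit 76) (nat_lit 1118151494) (nat_lit 22) (nat_lit 5) (nat_lit 26) (nat_lit 5) (nat_lit 23) (nat_lit 5) (nat_lit 325) (nat_lit 292) (nat_lit 103))) (XT.nd (nat_lit 78) (nat_lit 152) (nat_lit 0) (XT.lf (nat_lit 0) (nat_lit 56882620320) (nat_lit 304) (nat_lit 50997834949) (nat_lit 76) (nat_lit 37282361889) (nat_lit 22) (nat_lit 5) (nat_lit 26) (nat_lit 5) (nat_lit 23) (nat_lit 5) (nat_lit 326) (nat_lit 292) (nat_lit 102)) (XT.lf (nat_lit 0) (nat_lit 53766008) (nat_lit 152) (nat_lit 75205389810) (nat_lit 228) (nat_lit 75201737804) (nat_lit 20) (nat_lit 5) (nat_lit 22) (nat_lit 5) (nat_lit 23) (nat_lit 5) (nat_lit 327) (nat_lit 292) (nat_lit 101))))) (XT.nd (nat_lit 312) (nat_lit 228) (nat_lit 0) (XT.nd (nat_lit 156) (nat_lit 152) (nat_lit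 0) (XT.nd (nat_lit 78) (nat_lit 0) (nat_lit 0) (XT.lf (nat_lit 0) (nat_lit 55428001675) (nat_lit 152) (nat_lit 39989852629) (nat_lit 228) (nat_lit 60562853961) (nat_lit 20) (nat_lit 5) (nat_lit 22) (nat_lit 5) (nat_lit 23) (nat_lit 5) (nat_lit 328) (nat_lit 292) (nat_lit 100)) (XT.lf (nat_lit 0) (nat_lit 113570496734) (nat_lit 152) (nat_lit 3013670222) (nat_lit 228) (nat_lit 45192363836) (nat_lit 20) (nat_lit 5) (nat_lit 22) (nat_lit 5) (nat_lit 23) (nat_lit 5) (nat_lit 329) (nat_lit 292) (nat_lit 99))) (XT.nd (nat_lit 78) (nat_lit 0) (nat_lit 0) (XT.lf (nat_lit 0) (nat_lit 6403359273) (nat_lit 152) (nat_lit 133064217994) (nat_lit 228) (nat_lit 28361629136) (nat_lit 18) (nat_lit 5) (nat_lit 20) (nat_lit 5) (nat_lit 21) (nat_lit 5) (nat_lit 330) (nat_lit 292) (nat_lit 98)) (XT.lf (nat_lit 0) (nat_lit 65365350914) (nat_lit 152) (nat_lit 98994507634) (nat_lit 228) (nat_lit 9781423232)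 (nat_lit 18) (nat_lit 5) (nat_lit 20) (nat_lit 5) (nat_lit 21) (nat_lit 5) (nat_lit 331) (nat_lit 292) (nat_lit 97)))) (XT.nd (nat_lit 156) (nat_lit 0) (nat_lit 0) (XT.nd (nat_lit 78) (nat_lit 152) (nat_lit 0) (XT.lf (nat_lit 0) (nat_lit 9416151859) (nat_lit 228) (nat_lit 53645824622) (nat_lit 76) (nat_lit 117699406004) (nat_lit 17) (nat_lit 5) (nat_lit 20) (nat_lit 5) (nat_lit 18) (nat_lit 5) (nat_lit 332) (nat_lit 292) (nat_lit 96)) (XT.lf (nat_lit 0) (nat_lit 4214932544) (nat_lit 152) (nat_lit 25095482983) (nat_lit 228) (nat_lit 158390779519) (nat_lit 15) (nat_lit 5) (nat_lit 17) (nat_lit 5) (nat_lit 18) (nat_lit 5) (nat_lit 333) (nat_lit 292) (nat_lit 95))) (XT.nd (nat_lit 34320) (nat_lit 0) (nat_lit 3040) (XT.lf (nat_lit 0) (nat_lit 51353122603) (nat_lit 228) (nat_lit 128357280407) (nat_lit 76) (nat_lit 15219909544) (nat_lit 15) (nat_lit 5) (nat_lit 18) (nat_lit 5) (nat_lit 16)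 (nat_lit 5) (nat_lit 334) (nat_lit 292) (nat_lit 94)) (XT.nd (nat_lit 78) (nat_lit 0) (nat_lit 0) (XT.lf (nat_lit 0) (nat_lit 99686093) (nat_lit 0) (nat_lit 99686093) (nat_lit 684) (nat_lit 27190442429) (nat_lit 55) (nat_lit 5) (nat_lit 55) (nat_lit 3) (nat_lit 64) (nat_lit 3) (nat_lit 293) (nat_lit 293) (nat_lit 134)) (XT.lf (nat_lit 0) (nat_lit 782641155) (nat_lit 684) (nat_lit 33366677366) (nat_lit 760) (nat_lit 21981009200) (nat_lit 55) (nat_lit 5) (nat_lit 64) (nat_lit 3) (nat_lit 65) (nat_lit 5) (nat_lit 294) (nat_lit 293) (nat_lit 133))))))))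
noncomputable def xc242 : XT := (XT.nd (nat_lit 1326) (nat_lit 1672) (nat_lit 0) (XT.nd (nat_lit 624) (nat_lit 988) (nat_lit 0) (XT.nd (nat_lit 312) (nat_lit 0) (nat_lit 152) (XT.nd (nat_lit 156) (nat_lit 0) (nat_lit 76) (XT.nd (nat_lit 78) (nat_lit 0) (nat_lit 76) (XT.lf (nat_lit 0) (nat_lit 1187769292) (nat_lit 684) (nat_lit 11096385789) (nat_lit 760) (nat_lit 45264310362) (nat_lit 55) (nat_lit 5) (nat_lit 64) (nat_lit 3) (nat_lit 65) (nat_lit 5) (nat_lit 295) (nat_lit 293) (nat_lit 132)) (XT.lf (nat_lit 0) (nat_lit 1980065973) (nat_lit 684) (nat_lit 46504567217) (nat_lit 760) (nat_lit 10534537097) (nat_lit 56) (nat_lit 5) (nat_lit 65) (nat_lit 5) (nat_lit 66) (nat_lit 5) (nat_lit 296) (nat_lit 293) (nat_lit 131))) (XT.nd (nat_lit 78) (nat_lit 0) (nat_lit 0) (XT.lf (nat_lit 0) (nat_lit 3203240252) (nat_lit 684) (nat_lit 23067815711) (nat_lit 760) (nat_lit 34272796834) (nat_lit 56)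 (nat_lit 5) (nat_lit 65) (nat_lit 5) (nat_lit 66) (nat_lit 5) (nat_lit 297) (nat_lit 293) (nat_lit 130)) (XT.lf (nat_lit 76) (nat_lit 1591005958) (nat_lit 0) (nat_lit 2920340502) (nat_lit 760) (nat_lit 57632239612) (nat_lit 57) (nat_lit 5) (nat_lit 56) (nat_lit 5) (nat_lit 66) (nat_lit 5) (nat_lit 298) (nat_lit 293) (nat_lit 129)))) (XT.nd (nat_lit 156) (nat_lit 0) (nat_lit 76) (XT.nd (nat_lit 78) (nat_lit 0) (nat_lit 0) (XT.lf (nat_lit 0) (nat_lit 6618109653) (nat_lit 684) (nat_lit 35864490078) (nat_lit 760) (nat_lit 21304048743) (nat_lit 57) (nat_lit 5) (nat_lit 66) (nat_lit 5) (nat_lit 67) (nat_lit 5) (nat_lit 299) (nat_lit 293) (nat_lit 128)) (XT.lf (nat_lit 0) (nat_lit 8877112869) (nat_lit 684) (nat_lit 9990574956) (nat_lit 760) (nat_lit 46641835885) (nat_lit 57) (nat_lit 5) (nat_lit 66) (nat_lit 5) (nat_lit 67) (nat_lit 5) (nat_lit 300) (nat_lit 293) (nat_lit 127))) (XT.nd (nat_lit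 78) (nat_lit 0) (nat_lit 0) (XT.lf (nat_lit 0) (nat_lit 11622275932) (nat_lit 684) (nat_lit 49657546808) (nat_lit 760) (nat_lit 6020064061) (nat_lit 58) (nat_lit 5) (nat_lit 67) (nat_lit 5) (nat_lit 68) (nat_lit 5) (nat_lit 301) (nat_lit 293) (nat_lit 126)) (XT.lf (nat_lit 0) (nat_lit 14985083576) (nat_lit 684) (nat_lit 22480350625) (nat_lit 760) (nat_lit 31690318884) (nat_lit 58) (nat_lit 5) (nat_lit 67) (nat_lit 5) (nat_lit 68) (nat_lit 5) (nat_lit 302) (nat_lit 293) (nat_lit 125))))) (XT.nd (nat_lit 312) (nat_lit 608) (nat_lit 0) (XT.nd (nat_lit 156) (nat_lit 608) (nat_lit 0) (XT.nd (nat_lit 78) (nat_lit 0) (nat_lit 76) (XT.lf (nat_lit 76) (nat_lit 6255232651) (nat_lit 0) (nat_lit 12357614144) (nat_lit 760) (nat_lit 52486729281) (nat_lit 59) (nat_lit 5) (nat_lit 58) (nat_lit 5) (nat_lit 68) (nat_lit 5) (nat_lit 303) (nat_lit 293) (nat_lit 124)) (XT.lf (nat_lit 0) (nat_lit 23026807325)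 (nat_lit 684) (nat_lit 36139115560) (nat_lit 76) (nat_lit 13944430827) (nat_lit 59) (nat_lit 5) (nat_lit 68) (nat_lit 5) (nat_lit 60) (nat_lit 5) (nat_lit 304) (nat_lit 293) (nat_lit 123))) (XT.nd (nat_lit 78) (nat_lit 684) (nat_lit 0) (XT.lf (nat_lit 0) (nat_lit 27863274172) (nat_lit 684) (nat_lit 6201891447) (nat_lit 76) (nat_lit 41146417963) (nat_lit 59) (nat_lit 5) (nat_lit 68) (nat_lit 5) (nat_lit 60) (nat_lit 5) (nat_lit 305) (nat_lit 293) (nat_lit 122)) (XT.lf (nat_lit 0) (nat_lit 26065813834) (nat_lit 684) (nat_lit 7281972314) (nat_lit 760) (nat_lit 44049781296) (nat_lit 50) (nat_lit 5) (nat_lit 59) (nat_lit 5) (nat_lit 60) (nat_lit 5) (nat_lit 306) (nat_lit 293) (nat_lit 121)))) (XT.nd (nat_lit 156) (nat_lit 304) (nat_lit 0) (XT.nd (nat_lit 78) (nat_lit 304) (nat_lit 0) (XT.lf (nat_lit 0) (nat_lit 39537942100) (nat_lit 760) (nat_lit 19853156088) (nat_lit 76) (nat_lit 20280184807)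 (nat_lit 50) (nat_lit 5) (nat_lit 60) (nat_lit 5) (nat_lit 51) (nat_lit 5) (nat_lit 307) (nat_lit 293) (nat_lit 120)) (XT.lf (nat_lit 0) (nat_lit 13511810700) (nat_lit 304) (nat_lit 32855450651) (nat_lit 380) (nat_lit 35674943451) (nat_lit 46) (nat_lit 5) (nat_lit 50) (nat_lit 5) (nat_lit 51) (nat_lit 5) (nat_lit 308) (nat_lit 293) (nat_lit 119))) (XT.nd (nat_lit 78) (nat_lit 304) (nat_lit 0) (XT.lf (nat_lit 0) (nat_lit 49233646666) (nat_lit 304) (nat_lit 4639966754) (nat_lit 380) (nat_lit 30641284036) (nat_lit 46) (nat_lit 5) (nat_lit 50) (nat_lit 5) (nat_lit 51) (nat_lit 5) (nat_lit 309) (nat_lit 293) (nat_lit 118)) (XT.nd (nat_lit 78) (nat_lit 304) (nat_lit 0) (XT.lf (nat_lit 0) (nat_lit 62144764707) (nat_lit 380) (nat_lit 760396461) (nat_lit 76) (nat_lit 24186592445) (nat_lit 46) (nat_lit 5) (nat_lit 51) (nat_lit 5) (nat_lit 47) (nat_lit 5) (nat_lit 310) (nat_lit 293) (nat_lit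 117)) (XT.lf (nat_lit 0) (nat_lit 36580634681) (nat_lit 304) (nat_lit 34895435445) (nat_lit 380) (nat_lit 18289055431) (nat_lit 42) (nat_lit 5) (nat_lit 46) (nat_lit 5) (nat_lit 47) (nat_lit 5) (nat_lit 311) (nat_lit 293) (nat_lit 116))))))) (XT.nd (nat_lit 624) (nat_lit 836) (nat_lit 0) (XT.nd (nat_lit 312) (nat_lit 228) (nat_lit 0) (XT.nd (nat_lit 156) (nat_lit 380) (nat_lit 0) (XT.nd (nat_lit 78) (nat_lit 228) (nat_lit 0) (XT.lf (nat_lit 0) (nat_lit 75814516828) (nat_lit 304) (nat_lit 5471725942) (nat_lit 380) (nat_lit 11285310910) (nat_lit 42) (nat_lit 5) (nat_lit 46) (nat_lit 5) (nat_lit 47) (nat_lit 5) (nat_lit 312) (nat_lit 293) (nat_lit 115)) (XT.lf (nat_lit 0) (nat_lit 21791733679) (nat_lit 228) (nat_lit 70531798646) (nat_lit 304) (nat_lit 3157943018) (nat_lit 39) (nat_lit 5) (nat_lit 42) (nat_lit 5) (nat_lit 43) (nat_lit 5) (nat_lit 313) (nat_lit 293) (nat_lit 114))) (XT.nd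 (nat_lit 78) (nat_lit 304) (nat_lit 0) (XT.lf (nat_lit 0) (nat_lit 5581332692) (nat_lit 304) (nat_lit 35851889756) (nat_lit 76) (nat_lit 57080596474) (nat_lit 38) (nat_lit 5) (nat_lit 42) (nat_lit 5) (nat_lit 39) (nat_lit 5) (nat_lit 314) (nat_lit 293) (nat_lit 113)) (XT.lf (nat_lit 0) (nat_lit 3951991290) (nat_lit 304) (nat_lit 10760637973) (nat_lit 380) (nat_lit 86979504909) (nat_lit 34) (nat_lit 5) (nat_lit 38) (nat_lit 5) (nat_lit 39) (nat_lit 5) (nat_lit 315) (nat_lit 293) (nat_lit 112)))) (XT.nd (nat_lit 156) (nat_lit 228) (nat_lit 0) (XT.nd (nat_lit 78) (nat_lit 0) (nat_lit 0) (XT.lf (nat_lit 0) (nat_lit 25251936457) (nat_lit 380) (nat_lit 58353621768) (nat_lit 76) (nat_lit 21376236766) (nat_lit 34) (nat_lit 5) (nat_lit 39) (nat_lit 5) (nat_lit 35) (nat_lit 5) (nat_lit 316) (nat_lit 293) (nat_lit 111)) (XT.lf (nat_lit 0) (nat_lit 36494134401) (nat_lit 380) (nat_lit 17174748932)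 (nat_lit 76) (nat_lit 54758261245) (nat_lit 34) (nat_lit 5) (nat_lit 39) (nat_lit 5) (nat_lit 35) (nat_lit 5) (nat_lit 317) (nat_lit 293) (nat_lit 110))) (XT.nd (nat_lit 78) (nat_lit 0) (nat_lit 0) (XT.lf (nat_lit 0) (nat_lit 26924269030) (nat_lit 228) (nat_lit 21794080782) (nat_lit 304) (nat_lit 63305418355) (nat_lit 31) (nat_lit 5) (nat_lit 34) (nat_lit 5) (nat_lit 35) (nat_lit 5) (nat_lit 318) (nat_lit 293) (nat_lit 109)) (XT.lf (nat_lit 0) (nat_lit 62031234181) (nat_lit 304) (nat_lit 42148769719) (nat_lit 76) (nat_lit 11596347940) (nat_lit 31) (nat_lit 5) (nat_lit 35) (nat_lit 5) (nat_lit 32) (nat_lit 5) (nat_lit 319) (nat_lit 293) (nat_lit 108))))) (XT.nd (nat_lit 312) (nat_lit 456) (nat_lit 0) (XT.nd (nat_lit 156) (nat_lit 152) (nat_lit 0) (XT.nd (nat_lit 78) (nat_lit 0) (nat_lit 0) (XT.lf (nat_lit 0) (nat_lit 2677378515) (nat_lit 228) (nat_lit 73731042973) (nat_lit 304) (nat_lit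 43288211997) (nat_lit 28) (nat_lit 5) (nat_lit 31) (nat_lit 5) (nat_lit 32) (nat_lit 5) (nat_lit 320) (nat_lit 293) (nat_lit 107)) (XT.lf (nat_lit 0) (nat_lit 51207622354) (nat_lit 228) (nat_lit 41010244923) (nat_lit 304) (nat_lit 31559393623) (nat_lit 28) (nat_lit 5) (nat_lit 31) (nat_lit 5) (nat_lit 32) (nat_lit 5) (nat_lit 321) (nat_lit 293) (nat_lit 106))) (XT.nd (nat_lit 78) (nat_lit 152) (nat_lit 0) (XT.lf (nat_lit 0) (nat_lit 102163881318) (nat_lit 228) (nat_lit 6653512898) (nat_lit 304) (nat_lit 19244546590) (nat_lit 28) (nat_lit 5) (nat_lit 31) (nat_lit 5) (nat_lit 32) (nat_lit 5) (nat_lit 322) (nat_lit 293) (nat_lit 105)) (XT.lf (nat_lit 0) (nat_lit 23396082193) (nat_lit 152) (nat_lit 103675064767) (nat_lit 228) (nat_lit 5448496767) (nat_lit 26) (nat_lit 5) (nat_lit 28) (nat_lit 5) (nat_lit 29) (nat_lit 5) (nat_lit 323) (nat_lit 293) (nat_lit 104)))) (XT.nd (nat_lit 156)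 (nat_lit 380) (nat_lit 0) (XT.nd (nat_lit 78) (nat_lit 0) (nat_lit 0) (XT.lf (nat_lit 0) (nat_lit 9302592813) (nat_lit 228) (nat_lit 61382109036) (nat_lit 76) (nat_lit 66480751920) (nat_lit 25) (nat_lit 5) (nat_lit 28) (nat_lit 5) (nat_lit 26) (nat_lit 5) (nat_lit 324) (nat_lit 293) (nat_lit 103)) (XT.lf (nat_lit 0) (nat_lit 24607778159) (nat_lit 228) (nat_lit 11343377461) (nat_lit 76) (nat_lit 106087951673) (nat_lit 25) (nat_lit 5) (nat_lit 28) (nat_lit 5) (nat_lit 26) (nat_lit 5) (nat_lit 325) (nat_lit 293) (nat_lit 102))) (XT.nd (nat_lit 78) (nat_lit 152) (nat_lit 0) (XT.lf (nat_lit 0) (nat_lit 41361346448) (nat_lit 304) (nat_lit 104583240594) (nat_lit 76) (nat_lit 1177701494) (nat_lit 22) (nat_lit 5) (nat_lit 26) (nat_lit 5) (nat_lit 23) (nat_lit 5) (nat_lit 326) (nat_lit 293) (nat_lit 101)) (XT.nd (nat_lit 78) (nat_lit 152) (nat_lit 0) (XT.lf (nat_lit 0) (nat_lit 59736881835)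 (nat_lit 304) (nat_lit 53533584780) (nat_lit 76) (nat_lit 39149948960) (nat_lit 22) (nat_lit 5) (nat_lit 26) (nat_lit 5) (nat_lit 23) (nat_lit 5) (nat_lit 327) (nat_lit 293) (nat_lit 100)) (XT.lf (nat_lit 0) (nat_lit 70368129) (nat_lit 152) (nat_lit 78961610808) (nat_lit 228) (nat_lit 78951431894) (nat_lit 20) (nat_lit 5) (nat_lit 22) (nat_lit 5) (nat_lit 23) (nat_lit 5) (nat_lit 328) (nat_lit 293) (nat_lit 99))))))))
noncomputable def xc243 : XT := (XT.nd (nat_lit 35724) (nat_lit 0) (nat_lit 836) (XT.nd (nat_lit 35022) (nat_lit 0) (nat_lit 2964) (XT.nd (nat_lit 312) (nat_lit 76) (nat_lit 0) (XT.nd (nat_lit 156) (nat_lit 152) (nat_lit 0) (XT.nd (nat_lit 78) (nat_lit 0) (nat_lit 0) (XT.lf (nat_lit 0) (nat_lit 58212653017) (nat_lit 152) (nat_lit 41985489554) (nat_lit 228) (nat_lit 63581098754) (nat_lit 20) (nat_lit 5) (nat_lit 22) (nat_lit 5) (nat_lit 23) (nat_lit 5) (nat_lit 329) (nat_lit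 293) (nat_lit 98)) (XT.lf (nat_lit 0) (nat_lit 119261641816) (nat_lit 152) (nat_lit 3160681631) (nat_lit 228) (nat_lit 47442555452) (nat_lit 20) (nat_lit 5) (nat_lit 22) (nat_lit 5) (nat_lit 23) (nat_lit 5) (nat_lit 330) (nat_lit 293) (nat_lit 97))) (XT.nd (nat_lit 78) (nat_lit 0) (nat_lit 0) (XT.lf (nat_lit 0) (nat_lit 6736358238) (nat_lit 152) (nat_lit 139713374863) (nat_lit 228) (nat_lit 29770465225) (nat_lit 18) (nat_lit 5) (nat_lit 20) (nat_lit 5) (nat_lit 21) (nat_lit 5) (nat_lit 331) (nat_lit 293) (nat_lit 96)) (XT.lf (nat_lit 0) (nat_lit 68645838461) (nat_lit 152) (nat_lit 103940372034) (nat_lit 228) (nat_lit 10261689282) (nat_lit 18) (nat_lit 5) (nat_lit 20) (nat_lit 5) (nat_lit 21) (nat_lit 5) (nat_lit 332) (nat_lit 293) (nat_lit 95)))) (XT.nd (nat_lit 34554) (nat_lit 0) (nat_lit 2888) (XT.nd (nat_lit 34476) (nat_lit 0) (nat_lit 2888) (XT.lf (nat_lit 0) (nat_lit 9895076874)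 (nat_lit 228) (nat_lit 56316183833) (nat_lit 76) (nat_lit 123587759506) (nat_lit 17) (nat_lit 5) (nat_lit 20) (nat_lit 5) (nat_lit 18) (nat_lit 5) (nat_lit 333) (nat_lit 293) (nat_lit 94)) (XT.lf (nat_lit 0) (nat_lit 114216869) (nat_lit 0) (nat_lit 114216869) (nat_lit 684) (nat_lit 28529822624) (nat_lit 55) (nat_lit 5) (nat_lit 55) (nat_lit 3) (nat_lit 64) (nat_lit 3) (nat_lit 294) (nat_lit 294) (nat_lit 132))) (XT.nd (nat_lit 78) (nat_lit 0) (nat_lit 0) (XT.lf (nat_lit 0) (nat_lit 857856822) (nat_lit 684) (nat_lit 35014545514) (nat_lit 760) (nat_lit 23062457900) (nat_lit 55) (nat_lit 5) (nat_lit 64) (nat_lit 3) (nat_lit 65) (nat_lit 5) (nat_lit 295) (nat_lit 294) (nat_lit 131)) (XT.lf (nat_lit 0) (nat_lit 1281523098) (nat_lit 684) (nat_lit 11631713916) (nat_lit 760) (nat_lit 47510762299) (nat_lit 55) (nat_lit 5) (nat_lit 64) (nat_lit 3) (nat_lit 65) (nat_lit 5) (nat_lit 296) (nat_lit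 294) (nat_lit 130))))) (XT.nd (nat_lit 312) (nat_lit 0) (nat_lit 76) (XT.nd (nat_lit 156) (nat_lit 0) (nat_lit 0) (XT.nd (nat_lit 78) (nat_lit 0) (nat_lit 0) (XT.lf (nat_lit 0) (nat_lit 2111881311) (nat_lit 684) (nat_lit 48808588128) (nat_lit 760) (nat_lit 11047855775) (nat_lit 56) (nat_lit 5) (nat_lit 65) (nat_lit 5) (nat_lit 66) (nat_lit 5) (nat_lit 297) (nat_lit 294) (nat_lit 129)) (XT.lf (nat_lit 0) (nat_lit 3394651826) (nat_lit 684) (nat_lit 24201008926) (nat_lit 760) (nat_lit 35973666983) (nat_lit 56) (nat_lit 5) (nat_lit 65) (nat_lit 5) (nat_lit 66) (nat_lit 5) (nat_lit 298) (nat_lit 294) (nat_lit 128))) (XT.nd (nat_lit 78) (nat_lit 0) (nat_lit 76) (XT.lf (nat_lit 76) (nat_lit 1690428060) (nat_lit 0) (nat_lit 3076557465) (nat_lit 760) (nat_lit 60482128432) (nat_lit 57) (nat_lit 5) (nat_lit 56) (nat_lit 5) (nat_lit 66) (nat_lit 5) (nat_lit 299) (nat_lit 294) (nat_lit 127)) (XT.lf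 (nat_lit 0) (nat_lit 6977503224) (nat_lit 684) (nat_lit 37637064608) (nat_lit 760) (nat_lit 22359847869) (nat_lit 57) (nat_lit 5) (nat_lit 66) (nat_lit 5) (nat_lit 67) (nat_lit 5) (nat_lit 300) (nat_lit 294) (nat_lit 126)))) (XT.nd (nat_lit 156) (nat_lit 0) (nat_lit 76) (XT.nd (nat_lit 78) (nat_lit 0) (nat_lit 76) (XT.lf (nat_lit 0) (nat_lit 9348100025) (nat_lit 684) (nat_lit 10470437062) (nat_lit 760) (nat_lit 48964972145) (nat_lit 57) (nat_lit 5) (nat_lit 66) (nat_lit 5) (nat_lit 67) (nat_lit 5) (nat_lit 301) (nat_lit 294) (nat_lit 125)) (XT.lf (nat_lit 0) (nat_lit 12229425318) (nat_lit 684) (nat_lit 52119533880) (nat_lit 760) (nat_lit 6314492461) (nat_lit 58) (nat_lit 5) (nat_lit 67) (nat_lit 5) (nat_lit 68) (nat_lit 5) (nat_lit 302) (nat_lit 294) (nat_lit 124))) (XT.nd (nat_lit 78) (nat_lit 0) (nat_lit 0) (XT.lf (nat_lit 0) (nat_lit 15759133554) (nat_lit 684) (nat_lit 23584472663)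 (nat_lit 760) (nat_lit 33268573111) (nat_lit 58) (nat_lit 5) (nat_lit 67) (nat_lit 5) (nat_lit 68) (nat_lit 5) (nat_lit 303) (nat_lit 294) (nat_lit 123)) (XT.nd (nat_lit 78) (nat_lit 0) (nat_lit 76) (XT.lf (nat_lit 76) (nat_lit 6587568883) (nat_lit 0) (nat_lit 12979840913) (nat_lit 760) (nat_lit 55085833220) (nat_lit 59) (nat_lit 5) (nat_lit 58) (nat_lit 5) (nat_lit 68) (nat_lit 5) (nat_lit 304) (nat_lit 294) (nat_lit 122)) (XT.lf (nat_lit 0) (nat_lit 24200864650) (nat_lit 684) (nat_lit 37926114846) (nat_lit 76) (nat_lit 14637645739) (nat_lit 59) (nat_lit 5) (nat_lit 68) (nat_lit 5) (nat_lit 60) (nat_lit 5) (nat_lit 305) (nat_lit 294) (nat_lit 121))))))) (XT.nd (nat_lit 624) (nat_lit 1064) (nat_lit 0) (XT.nd (nat_lit 312) (nat_lit 304) (nat_lit 0) (XT.nd (nat_lit 156) (nat_lit 304) (nat_lit 0) (XT.nd (nat_lit 78) (nat_lit 684) (nat_lit 0) (XT.lf (nat_lit 0) (nat_lit 29278073080) (nat_lit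 684) (nat_lit 6492979837) (nat_lit 76) (nat_lit 43199923024) (nat_lit 59) (nat_lit 5) (nat_lit 68) (nat_lit 5) (nat_lit 60) (nat_lit 5) (nat_lit 306) (nat_lit 294) (nat_lit 120)) (XT.lf (nat_lit 0) (nat_lit 27387804158) (nat_lit 684) (nat_lit 7648268203) (nat_lit 760) (nat_lit 46230228552) (nat_lit 50) (nat_lit 5) (nat_lit 59) (nat_lit 5) (nat_lit 60) (nat_lit 5) (nat_lit 307) (nat_lit 294) (nat_lit 119))) (XT.nd (nat_lit 78) (nat_lit 304) (nat_lit 0) (XT.lf (nat_lit 0) (nat_lit 41534708347) (nat_lit 760) (nat_lit 20826881663) (nat_lit 76) (nat_lit 21292168384) (nat_lit 50) (nat_lit 5) (nat_lit 60) (nat_lit 5) (nat_lit 51) (nat_lit 5) (nat_lit 308) (nat_lit 294) (nat_lit 118)) (XT.lf (nat_lit 0) (nat_lit 14206028107) (nat_lit 304) (nat_lit 34498810123) (nat_lit 380) (nat_lit 37438425366) (nat_lit 46) (nat_lit 5) (nat_lit 50) (nat_lit 5) (nat_lit 51) (nat_lit 5) (nat_lit 309) (nat_lit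 294) (nat_lit 117)))) (XT.nd (nat_lit 156) (nat_lit 304) (nat_lit 0) (XT.nd (nat_lit 78) (nat_lit 0) (nat_lit 0) (XT.lf (nat_lit 0) (nat_lit 51713068877) (nat_lit 304) (nat_lit 4872524082) (nat_lit 380) (nat_lit 32154047993) (nat_lit 46) (nat_lit 5) (nat_lit 50) (nat_lit 5) (nat_lit 51) (nat_lit 5) (nat_lit 310) (nat_lit 294) (nat_lit 116)) (XT.lf (nat_lit 0) (nat_lit 65269422123) (nat_lit 380) (nat_lit 780559158) (nat_lit 76) (nat_lit 25395406735) (nat_lit 46) (nat_lit 5) (nat_lit 51) (nat_lit 5) (nat_lit 47) (nat_lit 5) (nat_lit 311) (nat_lit 294) (nat_lit 115))) (XT.nd (nat_lit 78) (nat_lit 0) (nat_lit 0) (XT.lf (nat_lit 0) (nat_lit 38427235523) (nat_lit 304) (nat_lit 36639502108) (nat_lit 380) (nat_lit 19185722606) (nat_lit 42) (nat_lit 5) (nat_lit 46) (nat_lit 5) (nat_lit 47) (nat_lit 5) (nat_lit 312) (nat_lit 294) (nat_lit 114)) (XT.lf (nat_lit 0) (nat_lit 79621975153) (nat_lit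 304) (nat_lit 5744640707) (nat_lit 380) (nat_lit 11832637791) (nat_lit 42) (nat_lit 5) (nat_lit 46) (nat_lit 5) (nat_lit 47) (nat_lit 5) (nat_lit 313) (nat_lit 294) (nat_lit 113))))) (XT.nd (nat_lit 312) (nat_lit 456) (nat_lit 0) (XT.nd (nat_lit 156) (nat_lit 304) (nat_lit 0) (XT.nd (nat_lit 78) (nat_lit 76) (nat_lit 0) (XT.lf (nat_lit 0) (nat_lit 22898636209) (nat_lit 228) (nat_lit 74056649211) (nat_lit 304) (nat_lit 3299413757) (nat_lit 39) (nat_lit 5) (nat_lit 42) (nat_lit 5) (nat_lit 43) (nat_lit 5) (nat_lit 314) (nat_lit 294) (nat_lit 112)) (XT.lf (nat_lit 0) (nat_lit 5875542816) (nat_lit 304) (nat_lit 37627427751) (nat_lit 76) (nat_lit 59935717627) (nat_lit 38) (nat_lit 5) (nat_lit 42) (nat_lit 5) (nat_lit 39) (nat_lit 5) (nat_lit 315) (nat_lit 294) (nat_lit 111))) (XT.nd (nat_lit 78) (nat_lit 0) (nat_lit 0) (XT.lf (nat_lit 0) (nat_lit 4166372242) (nat_lit 304) (nat_lit 11296572859)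 (nat_lit 380) (nat_lit 91313000133) (nat_lit 34) (nat_lit 5) (nat_lit 38) (nat_lit 5) (nat_lit 39) (nat_lit 5) (nat_lit 316) (nat_lit 294) (nat_lit 110)) (XT.lf (nat_lit 0) (nat_lit 26528549580) (nat_lit 380) (nat_lit 61254594004) (nat_lit 76) (nat_lit 22446981837) (nat_lit 34) (nat_lit 5) (nat_lit 39) (nat_lit 5) (nat_lit 35) (nat_lit 5) (nat_lit 317) (nat_lit 294) (nat_lit 109)))) (XT.nd (nat_lit 156) (nat_lit 228) (nat_lit 0) (XT.nd (nat_lit 78) (nat_lit 228) (nat_lit 0) (XT.lf (nat_lit 0) (nat_lit 38332189979) (nat_lit 380) (nat_lit 18017573186) (nat_lit 76) (nat_lit 57498015482) (nat_lit 34) (nat_lit 5) (nat_lit 39) (nat_lit 5) (nat_lit 35) (nat_lit 5) (nat_lit 318) (nat_lit 294) (nat_lit 108)) (XT.lf (nat_lit 0) (nat_lit 28286139009) (nat_lit 228) (nat_lit 22881085934) (nat_lit 304) (nat_lit 66457030688) (nat_lit 31) (nat_lit 5) (nat_lit 34) (nat_lit 5) (nat_lit 35) (nat_lit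 5) (nat_lit 319) (nat_lit 294) (nat_lit 107))) (XT.nd (nat_lit 78) (nat_lit 228) (nat_lit 0) (XT.lf (nat_lit 0) (nat_lit 65145176630) (nat_lit 304) (nat_lit 44240669790) (nat_lit 76) (nat_lit 12178653438) (nat_lit 31) (nat_lit 5) (nat_lit 35) (nat_lit 5) (nat_lit 32) (nat_lit 5) (nat_lit 320) (nat_lit 294) (nat_lit 106)) (XT.nd (nat_lit 78) (nat_lit 0) (nat_lit 0) (XT.lf (nat_lit 0) (nat_lit 2826535236) (nat_lit 228) (nat_lit 77414337193) (nat_lit 304) (nat_lit 45439943107) (nat_lit 28) (nat_lit 5) (nat_lit 31) (nat_lit 5) (nat_lit 32) (nat_lit 5) (nat_lit 321) (nat_lit 294) (nat_lit 105)) (XT.lf (nat_lit 0) (nat_lit 53782563276) (nat_lit 228) (nat_lit 43057654380) (nat_lit 304) (nat_lit 33125287600) (nat_lit 28) (nat_lit 5) (nat_lit 31) (nat_lit 5) (nat_lit 32) (nat_lit 5) (nat_lit 322) (nat_lit 294) (nat_lit 104))))))))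
noncomputable def xc244 : XT := (XT.nd (nat_lit 35724) (nat_lit 0) (nat_lit 1520) (XT.nd (nat_lit 624) (nat_lit 152) (nat_lit 0) (XT.nd (nat_lit 312) (nat_lit 380) (nat_lit 0) (XT.nd (nat_lit 156) (nat_lit 76) (nat_lit 0) (XT.nd (nat_lit 78) (nat_lit 152) (nat_lit 0) (XT.lf (nat_lit 0) (nat_lit 107285941865) (nat_lit 228) (nat_lit 6983233506) (nat_lit 304) (nat_lit 20195273248) (nat_lit 28) (nat_lit 5) (nat_lit 31) (nat_lit 5) (nat_lit 32) (nat_lit 5) (nat_lit 323) (nat_lit 294) (nat_lit 103)) (XT.lf (nat_lit 0) (nat_lit 24580063463) (nat_lit 152) (nat_lit 108855297981) (nat_lit 228) (nat_lit 5709690036) (nat_lit 26) (nat_lit 5) (nat_lit 28) (nat_lit 5) (nat_lit 29) (nat_lit 5) (nat_lit 324) (nat_lit 294) (nat_lit 102))) (XT.nd (nat_lit 78) (nat_lit 0) (nat_lit 0) (XT.lf (nat_lit 0) (nat_lit 9778076823) (nat_lit 228) (nat_lit 64437332357) (nat_lit 76) (nat_lit 69807761847) (nat_lit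 25) (nat_lit 5) (nat_lit 28) (nat_lit 5) (nat_lit 26) (nat_lit 5) (nat_lit 325) (nat_lit 294) (nat_lit 101)) (XT.lf (nat_lit 0) (nat_lit 25848028372) (nat_lit 228) (nat_lit 11897325258) (nat_lit 76) (nat_lit 111395180047) (nat_lit 25) (nat_lit 5) (nat_lit 28) (nat_lit 5) (nat_lit 26) (nat_lit 5) (nat_lit 326) (nat_lit 294) (nat_lit 100)))) (XT.nd (nat_lit 156) (nat_lit 152) (nat_lit 0) (XT.nd (nat_lit 78) (nat_lit 0) (nat_lit 0) (XT.lf (nat_lit 0) (nat_lit 43439061865) (nat_lit 304) (nat_lit 109798934132) (nat_lit 76) (nat_lit 1239890356) (nat_lit 22) (nat_lit 5) (nat_lit 26) (nat_lit 5) (nat_lit 23) (nat_lit 5) (nat_lit 327) (nat_lit 294) (nat_lit 99)) (XT.lf (nat_lit 0) (nat_lit 62732914588) (nat_lit 304) (nat_lit 56197436884) (nat_lit 76) (nat_lit 41110592872) (nat_lit 22) (nat_lit 5) (nat_lit 26) (nat_lit 5) (nat_lit 23) (nat_lit 5) (nat_lit 328) (nat_lit 294) (nat_lit 98))) (XT.nd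 (nat_lit 78) (nat_lit 0) (nat_lit 0) (XT.lf (nat_lit 0) (nat_lit 86506782) (nat_lit 152) (nat_lit 82906019246) (nat_lit 228) (nat_lit 82889576913) (nat_lit 20) (nat_lit 5) (nat_lit 22) (nat_lit 5) (nat_lit 23) (nat_lit 5) (nat_lit 329) (nat_lit 294) (nat_lit 97)) (XT.lf (nat_lit 0) (nat_lit 61135304950) (nat_lit 152) (nat_lit 44081266791) (nat_lit 228) (nat_lit 66751176001) (nat_lit 20) (nat_lit 5) (nat_lit 22) (nat_lit 5) (nat_lit 23) (nat_lit 5) (nat_lit 330) (nat_lit 294) (nat_lit 96))))) (XT.nd (nat_lit 34788) (nat_lit 0) (nat_lit 2812) (XT.nd (nat_lit 156) (nat_lit 0) (nat_lit 0) (XT.nd (nat_lit 78) (nat_lit 152) (nat_lit 0) (XT.lf (nat_lit 0) (nat_lit 125236170842) (nat_lit 152) (nat_lit 3315385008) (nat_lit 228) (nat_lit 49806133042) (nat_lit 20) (nat_lit 5) (nat_lit 22) (nat_lit 5) (nat_lit 23) (nat_lit 5) (nat_lit 331) (nat_lit 294) (nat_lit 95)) (XT.lf (nat_lit 0) (nat_lit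 7084814247) (nat_lit 152) (nat_lit 146695366481) (nat_lit 228) (nat_lit 31250602666) (nat_lit 18) (nat_lit 5) (nat_lit 20) (nat_lit 5) (nat_lit 21) (nat_lit 5) (nat_lit 332) (nat_lit 294) (nat_lit 94))) (XT.nd (nat_lit 34554) (nat_lit 0) (nat_lit 2812) (XT.lf (nat_lit 0) (nat_lit 72089214286) (nat_lit 152) (nat_lit 109133888612) (nat_lit 228) (nat_lit 10766787250) (nat_lit 18) (nat_lit 5) (nat_lit 20) (nat_lit 5) (nat_lit 21) (nat_lit 5) (nat_lit 333) (nat_lit 294) (nat_lit 93)) (XT.lf (nat_lit 0) (nat_lit 128586643) (nat_lit 0) (nat_lit 128586643) (nat_lit 684) (nat_lit 29938044433) (nat_lit 55) (nat_lit 5) (nat_lit 55) (nat_lit 3) (nat_lit 64) (nat_lit 3) (nat_lit 295) (nat_lit 295) (nat_lit 130)))) (XT.nd (nat_lit 156) (nat_lit 0) (nat_lit 76) (XT.nd (nat_lit 78) (nat_lit 0) (nat_lit 0) (XT.lf (nat_lit 0) (nat_lit 933478560) (nat_lit 684) (nat_lit 36746709778) (nat_lit 760) (nat_lit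 24199615479) (nat_lit 55) (nat_lit 5) (nat_lit 64) (nat_lit 3) (nat_lit 65) (nat_lit 5) (nat_lit 296) (nat_lit 295) (nat_lit 129)) (XT.lf (nat_lit 0) (nat_lit 1376769631) (nat_lit 684) (nat_lit 12195620554) (nat_lit 760) (nat_lit 49871095351) (nat_lit 55) (nat_lit 5) (nat_lit 64) (nat_lit 3) (nat_lit 65) (nat_lit 5) (nat_lit 297) (nat_lit 295) (nat_lit 128))) (XT.nd (nat_lit 78) (nat_lit 0) (nat_lit 0) (XT.lf (nat_lit 0) (nat_lit 2247236863) (nat_lit 684) (nat_lit 51229781752) (nat_lit 760) (nat_lit 11588086952) (nat_lit 56) (nat_lit 5) (nat_lit 65) (nat_lit 5) (nat_lit 66) (nat_lit 5) (nat_lit 298) (nat_lit 295) (nat_lit 127)) (XT.lf (nat_lit 0) (nat_lit 3592728691) (nat_lit 684) (nat_lit 25392739580) (nat_lit 760) (nat_lit 37760767845) (nat_lit 56) (nat_lit 5) (nat_lit 65) (nat_lit 5) (nat_lit 66) (nat_lit 5) (nat_lit 299) (nat_lit 295) (nat_lit 126)))))) (XT.nd (nat_lit 624) (nat_lit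 1368) (nat_lit 0) (XT.nd (nat_lit 312) (nat_lit 0) (nat_lit 152) (XT.nd (nat_lit 156) (nat_lit 0) (nat_lit 76) (XT.nd (nat_lit 78) (nat_lit 0) (nat_lit 76) (XT.lf (nat_lit 76) (nat_lit 1792973775) (nat_lit 0) (nat_lit 3239636982) (nat_lit 760) (nat_lit 63477461011) (nat_lit 57) (nat_lit 5) (nat_lit 56) (nat_lit 5) (nat_lit 66) (nat_lit 5) (nat_lit 300) (nat_lit 295) (nat_lit 125)) (XT.lf (nat_lit 0) (nat_lit 7352217920) (nat_lit 684) (nat_lit 39500187703) (nat_lit 760) (nat_lit 23469311183) (nat_lit 57) (nat_lit 5) (nat_lit 66) (nat_lit 5) (nat_lit 67) (nat_lit 5) (nat_lit 301) (nat_lit 295) (nat_lit 124))) (XT.nd (nat_lit 78) (nat_lit 0) (nat_lit 76) (XT.lf (nat_lit 0) (nat_lit 9840114107) (nat_lit 684) (nat_lit 10976120691) (nat_lit 760) (nat_lit 51405097819) (nat_lit 57) (nat_lit 5) (nat_lit 66) (nat_lit 5) (nat_lit 67) (nat_lit 5) (nat_lit 302) (nat_lit 295) (nat_lit 123)) (XT.lf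 (nat_lit 0) (nat_lit 12864511631) (nat_lit 684) (nat_lit 54706562485) (nat_lit 760) (nat_lit 6624253544) (nat_lit 58) (nat_lit 5) (nat_lit 67) (nat_lit 5) (nat_lit 68) (nat_lit 5) (nat_lit 303) (nat_lit 295) (nat_lit 122)))) (XT.nd (nat_lit 156) (nat_lit 0) (nat_lit 76) (XT.nd (nat_lit 78) (nat_lit 0) (nat_lit 0) (XT.lf (nat_lit 0) (nat_lit 16569580752) (nat_lit 684) (nat_lit 24745650497) (nat_lit 760) (nat_lit 34926322204) (nat_lit 58) (nat_lit 5) (nat_lit 67) (nat_lit 5) (nat_lit 68) (nat_lit 5) (nat_lit 304) (nat_lit 295) (nat_lit 121)) (XT.lf (nat_lit 76) (nat_lit 6934702065) (nat_lit 0) (nat_lit 13632774966) (nat_lit 760) (nat_lit 57817238237) (nat_lit 59) (nat_lit 5) (nat_lit 58) (nat_lit 5) (nat_lit 68) (nat_lit 5) (nat_lit 305) (nat_lit 295) (nat_lit 120))) (XT.nd (nat_lit 78) (nat_lit 0) (nat_lit 0) (XT.lf (nat_lit 0) (nat_lit 25431512834) (nat_lit 684) (nat_lit 39804319462)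 (nat_lit 76) (nat_lit 15365893894) (nat_lit 59) (nat_lit 5) (nat_lit 68) (nat_lit 5) (nat_lit 60) (nat_lit 5) (nat_lit 306) (nat_lit 295) (nat_lit 119)) (XT.lf (nat_lit 0) (nat_lit 30761600497) (nat_lit 684) (nat_lit 6800389661) (nat_lit 76) (nat_lit 45356458097) (nat_lit 59) (nat_lit 5) (nat_lit 68) (nat_lit 5) (nat_lit 60) (nat_lit 5) (nat_lit 307) (nat_lit 295) (nat_lit 118))))) (XT.nd (nat_lit 312) (nat_lit 608) (nat_lit 0) (XT.nd (nat_lit 156) (nat_lit 304) (nat_lit 0) (XT.nd (nat_lit 78) (nat_lit 0) (nat_lit 0) (XT.lf (nat_lit 0) (nat_lit 28774155482) (nat_lit 684) (nat_lit 8032674605) (nat_lit 760) (nat_lit 48521747409) (nat_lit 50) (nat_lit 5) (nat_lit 59) (nat_lit 5) (nat_lit 60) (nat_lit 5) (nat_lit 308) (nat_lit 295) (nat_lit 117)) (XT.lf (nat_lit 0) (nat_lit 43629465663) (nat_lit 760) (nat_lit 21851053656) (nat_lit 76) (nat_lit 22354939466) (nat_lit 50) (nat_lit 5) (nat_lit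 60) (nat_lit 5) (nat_lit 51) (nat_lit 5) (nat_lit 309) (nat_lit 295) (nat_lit 116))) (XT.nd (nat_lit 78) (nat_lit 0) (nat_lit 0) (XT.lf (nat_lit 0) (nat_lit 14933224633) (nat_lit 304) (nat_lit 36224283001) (nat_lit 380) (nat_lit 39291965449) (nat_lit 46) (nat_lit 5) (nat_lit 50) (nat_lit 5) (nat_lit 51) (nat_lit 5) (nat_lit 310) (nat_lit 295) (nat_lit 115)) (XT.lf (nat_lit 0) (nat_lit 54314812912) (nat_lit 304) (nat_lit 5116657306) (nat_lit 380) (nat_lit 33744244501) (nat_lit 46) (nat_lit 5) (nat_lit 50) (nat_lit 5) (nat_lit 51) (nat_lit 5) (nat_lit 311) (nat_lit 295) (nat_lit 114)))) (XT.nd (nat_lit 156) (nat_lit 304) (nat_lit 0) (XT.nd (nat_lit 78) (nat_lit 304) (nat_lit 0) (XT.lf (nat_lit 0) (nat_lit 68548692939) (nat_lit 380) (nat_lit 803390176) (nat_lit 76) (nat_lit 26664709650) (nat_lit 46) (nat_lit 5) (nat_lit 51) (nat_lit 5) (nat_lit 47) (nat_lit 5) (nat_lit 312) (nat_lit 295)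 (nat_lit 113)) (XT.lf (nat_lit 0) (nat_lit 40364532999) (nat_lit 304) (nat_lit 38470837659) (nat_lit 380) (nat_lit 20128876675) (nat_lit 42) (nat_lit 5) (nat_lit 46) (nat_lit 5) (nat_lit 47) (nat_lit 5) (nat_lit 313) (nat_lit 295) (nat_lit 112))) (XT.nd (nat_lit 78) (nat_lit 304) (nat_lit 0) (XT.lf (nat_lit 0) (nat_lit 83618250767) (nat_lit 304) (nat_lit 6031263642) (nat_lit 380) (nat_lit 12408905813) (nat_lit 42) (nat_lit 5) (nat_lit 46) (nat_lit 5) (nat_lit 47) (nat_lit 5) (nat_lit 314) (nat_lit 295) (nat_lit 111)) (XT.nd (nat_lit 78) (nat_lit 76) (nat_lit 0) (XT.lf (nat_lit 0) (nat_lit 24059274002) (nat_lit 228) (nat_lit 77757904014) (nat_lit 304) (nat_lit 3449485205) (nat_lit 39) (nat_lit 5) (nat_lit 42) (nat_lit 5) (nat_lit 43) (nat_lit 5) (nat_lit 315) (nat_lit 295) (nat_lit 110)) (XT.lf (nat_lit 0) (nat_lit 6183055549) (nat_lit 304) (nat_lit 39493328397) (nat_lit 76) (nat_lit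 62933493377) (nat_lit 38) (nat_lit 5) (nat_lit 42) (nat_lit 5) (nat_lit 39) (nat_lit 5) (nat_lit 316) (nat_lit 295) (nat_lit 109))))))))
noncomputable def xc245 : XT := (XT.nd (nat_lit 35958) (nat_lit 0) (nat_lit 1976) (XT.nd (nat_lit 624) (nat_lit 608) (nat_lit 0) (XT.nd (nat_lit 312) (nat_lit 228) (nat_lit 0) (XT.nd (nat_lit 156) (nat_lit 228) (nat_lit 0) (XT.nd (nat_lit 78) (nat_lit 0) (nat_lit 0) (XT.lf (nat_lit 0) (nat_lit 4389912068) (nat_lit 304) (nat_lit 11859499450) (nat_lit 380) (nat_lit 95864609303) (nat_lit 34) (nat_lit 5) (nat_lit 38) (nat_lit 5) (nat_lit 39) (nat_lit 5) (nat_lit 317) (nat_lit 295) (nat_lit 108)) (XT.lf (nat_lit 0) (nat_lit 27867690257) (nat_lit 380) (nat_lit 64302168284) (nat_lit 76) (nat_lit 23571084429) (nat_lit 34) (nat_lit 5) (nat_lit 39) (nat_lit 5) (nat_lit 35) (nat_lit 5) (nat_lit 318) (nat_lit 295) (nat_lit 107))) (XT.nd (nat_lit 78) (nat_lit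 228) (nat_lit 0) (XT.lf (nat_lit 0) (nat_lit 40260907286) (nat_lit 380) (nat_lit 18904018111) (nat_lit 76) (nat_lit 60374586256) (nat_lit 34) (nat_lit 5) (nat_lit 39) (nat_lit 5) (nat_lit 35) (nat_lit 5) (nat_lit 319) (nat_lit 295) (nat_lit 106)) (XT.lf (nat_lit 0) (nat_lit 29714646892) (nat_lit 228) (nat_lit 24022692261) (nat_lit 304) (nat_lit 69767493482) (nat_lit 31) (nat_lit 5) (nat_lit 34) (nat_lit 5) (nat_lit 35) (nat_lit 5) (nat_lit 320) (nat_lit 295) (nat_lit 105)))) (XT.nd (nat_lit 156) (nat_lit 0) (nat_lit 0) (XT.nd (nat_lit 78) (nat_lit 228) (nat_lit 0) (XT.lf (nat_lit 0) (nat_lit 68413665158) (nat_lit 304) (nat_lit 46438609479) (nat_lit 76) (nat_lit 12789842891) (nat_lit 31) (nat_lit 5) (nat_lit 35) (nat_lit 5) (nat_lit 32) (nat_lit 5) (nat_lit 321) (nat_lit 295) (nat_lit 104)) (XT.lf (nat_lit 0) (nat_lit 2981728479) (nat_lit 228) (nat_lit 81282099015) (nat_lit 304) (nat_lit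 47700439591) (nat_lit 28) (nat_lit 5) (nat_lit 31) (nat_lit 5) (nat_lit 32) (nat_lit 5) (nat_lit 322) (nat_lit 295) (nat_lit 103))) (XT.nd (nat_lit 78) (nat_lit 0) (nat_lit 0) (XT.lf (nat_lit 0) (nat_lit 56484897613) (nat_lit 228) (nat_lit 45207722778) (nat_lit 304) (nat_lit 34770598959) (nat_lit 28) (nat_lit 5) (nat_lit 31) (nat_lit 5) (nat_lit 32) (nat_lit 5) (nat_lit 323) (nat_lit 295) (nat_lit 102)) (XT.lf (nat_lit 0) (nat_lit 112662816266) (nat_lit 228) (nat_lit 7329714875) (nat_lit 304) (nat_lit 21194605463) (nat_lit 28) (nat_lit 5) (nat_lit 31) (nat_lit 5) (nat_lit 32) (nat_lit 5) (nat_lit 324) (nat_lit 295) (nat_lit 101))))) (XT.nd (nat_lit 312) (nat_lit 152) (nat_lit 0) (XT.nd (nat_lit 156) (nat_lit 228) (nat_lit 0) (XT.nd (nat_lit 78) (nat_lit 76) (nat_lit 0) (XT.lf (nat_lit 0) (nat_lit 25821925738) (nat_lit 152) (nat_lit 114294870115) (nat_lit 228) (nat_lit 5984987174) (nat_lit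 26) (nat_lit 5) (nat_lit 28) (nat_lit 5) (nat_lit 29) (nat_lit 5) (nat_lit 325) (nat_lit 295) (nat_lit 100)) (XT.lf (nat_lit 0) (nat_lit 10276372384) (nat_lit 228) (nat_lit 67646607474) (nat_lit 76) (nat_lit 73300845930) (nat_lit 25) (nat_lit 5) (nat_lit 28) (nat_lit 5) (nat_lit 26) (nat_lit 5) (nat_lit 326) (nat_lit 295) (nat_lit 99))) (XT.nd (nat_lit 78) (nat_lit 228) (nat_lit 0) (XT.lf (nat_lit 0) (nat_lit 27149374285) (nat_lit 228) (nat_lit 12480199615) (nat_lit 76) (nat_lit 116967506660) (nat_lit 25) (nat_lit 5) (nat_lit 28) (nat_lit 5) (nat_lit 26) (nat_lit 5) (nat_lit 327) (nat_lit 295) (nat_lit 98)) (XT.lf (nat_lit 0) (nat_lit 45619766065) (nat_lit 304) (nat_lit 115276664519) (nat_lit 76) (nat_lit 1304881507) (nat_lit 22) (nat_lit 5) (nat_lit 26) (nat_lit 5) (nat_lit 23) (nat_lit 5) (nat_lit 328) (nat_lit 295) (nat_lit 97)))) (XT.nd (nat_lit 156) (nat_lit 0) (nat_lit 0) (XT.nd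 (nat_lit 78) (nat_lit 152) (nat_lit 0) (XT.lf (nat_lit 0) (nat_lit 65877894705) (nat_lit 304) (nat_lit 58995674139) (nat_lit 76) (nat_lit 43168976452) (nat_lit 22) (nat_lit 5) (nat_lit 26) (nat_lit 5) (nat_lit 23) (nat_lit 5) (nat_lit 329) (nat_lit 295) (nat_lit 96)) (XT.lf (nat_lit 0) (nat_lit 102279056) (nat_lit 152) (nat_lit 87047989504) (nat_lit 228) (nat_lit 87025505576) (nat_lit 20) (nat_lit 5) (nat_lit 22) (nat_lit 5) (nat_lit 23) (nat_lit 5) (nat_lit 330) (nat_lit 295) (nat_lit 95))) (XT.nd (nat_lit 78) (nat_lit 0) (nat_lit 0) (XT.lf (nat_lit 0) (nat_lit 64202972040) (nat_lit 152) (nat_lit 46282158031) (nat_lit 228) (nat_lit 70080591770) (nat_lit 20) (nat_lit 5) (nat_lit 22) (nat_lit 5) (nat_lit 23) (nat_lit 5) (nat_lit 331) (nat_lit 295) (nat_lit 94)) (XT.nd (nat_lit 34710) (nat_lit 0) (nat_lit 2660) (XT.lf (nat_lit 0) (nat_lit 131508362092) (nat_lit 152) (nat_lit 3478133211)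 (nat_lit 228) (nat_lit 52288684427) (nat_lit 20) (nat_lit 5) (nat_lit 22) (nat_lit 5) (nat_lit 23) (nat_lit 5) (nat_lit 332) (nat_lit 295) (nat_lit 93)) (XT.lf (nat_lit 0) (nat_lit 142869881) (nat_lit 0) (nat_lit 142869881) (nat_lit 684) (nat_lit 31418375842) (nat_lit 55) (nat_lit 5) (nat_lit 55) (nat_lit 3) (nat_lit 64) (nat_lit 3) (nat_lit 296) (nat_lit 296) (nat_lit 128))))))) (XT.nd (nat_lit 624) (nat_lit 684) (nat_lit 0) (XT.nd (nat_lit 312) (nat_lit 0) (nat_lit 76) (XT.nd (nat_lit 156) (nat_lit 0) (nat_lit 76) (XT.nd (nat_lit 78) (nat_lit 0) (nat_lit 0) (XT.lf (nat_lit 0) (nat_lit 1009838562) (nat_lit 684) (nat_lit 38567208069) (nat_lit 760) (nat_lit 25395115241) (nat_lit 55) (nat_lit 5) (nat_lit 64) (nat_lit 3) (nat_lit 65) (nat_lit 5) (nat_lit 297) (nat_lit 296) (nat_lit 127)) (XT.lf (nat_lit 0) (nat_lit 1473880565) (nat_lit 684) (nat_lit 12789366154) (nat_lit 760) (nat_lit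 52350858679) (nat_lit 55) (nat_lit 5) (nat_lit 64) (nat_lit 3) (nat_lit 65) (nat_lit 5) (nat_lit 298) (nat_lit 296) (nat_lit 126))) (XT.nd (nat_lit 78) (nat_lit 0) (nat_lit 0) (XT.lf (nat_lit 0) (nat_lit 2386593253) (nat_lit 684) (nat_lit 53773823418) (nat_lit 760) (nat_lit 12156460359) (nat_lit 56) (nat_lit 5) (nat_lit 65) (nat_lit 5) (nat_lit 66) (nat_lit 5) (nat_lit 299) (nat_lit 296) (nat_lit 125)) (XT.lf (nat_lit 0) (nat_lit 3798074217) (nat_lit 684) (nat_lit 26645759967) (nat_lit 760) (nat_lit 39638300579) (nat_lit 56) (nat_lit 5) (nat_lit 65) (nat_lit 5) (nat_lit 66) (nat_lit 5) (nat_lit 300) (nat_lit 296) (nat_lit 124)))) (XT.nd (nat_lit 156) (nat_lit 0) (nat_lit 76) (XT.nd (nat_lit 78) (nat_lit 0) (nat_lit 76) (XT.lf (nat_lit 76) (nat_lit 1898971046) (nat_lit 0) (nat_lit 3410010345) (nat_lit 760) (nat_lit 66625235339) (nat_lit 57) (nat_lit 5) (nat_lit 56) (nat_lit 5) (nat_lit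 66) (nat_lit 5) (nat_lit 301) (nat_lit 296) (nat_lit 123)) (XT.lf (nat_lit 0) (nat_lit 7743266036) (nat_lit 684) (nat_lit 41458208303) (nat_lit 760) (nat_lit 24635040615) (nat_lit 57) (nat_lit 5) (nat_lit 66) (nat_lit 5) (nat_lit 67) (nat_lit 5) (nat_lit 302) (nat_lit 296) (nat_lit 122))) (XT.nd (nat_lit 78) (nat_lit 0) (nat_lit 76) (XT.lf (nat_lit 0) (nat_lit 10354440975) (nat_lit 684) (nat_lit 11508746930) (nat_lit 760) (nat_lit 53967984970) (nat_lit 57) (nat_lit 5) (nat_lit 66) (nat_lit 5) (nat_lit 67) (nat_lit 5) (nat_lit 303) (nat_lit 296) (nat_lit 121)) (XT.lf (nat_lit 0) (nat_lit 13529156756) (nat_lit 684) (nat_lit 57424704133) (nat_lit 760) (nat_lit 6950057114) (nat_lit 58) (nat_lit 5) (nat_lit 67) (nat_lit 5) (nat_lit 68) (nat_lit 5) (nat_lit 304) (nat_lit 296) (nat_lit 120))))) (XT.nd (nat_lit 312) (nat_lit 912) (nat_lit 0) (XT.nd (nat_lit 156) (nat_lit 0) (nat_lit 76) (XT.nd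 (nat_lit 78) (nat_lit 0) (nat_lit 0) (XT.lf (nat_lit 0) (nat_lit 17418459355) (nat_lit 684) (nat_lit 25966564950) (nat_lit 760) (nat_lit 36667486784) (nat_lit 58) (nat_lit 5) (nat_lit 67) (nat_lit 5) (nat_lit 68) (nat_lit 5) (nat_lit 305) (nat_lit 296) (nat_lit 119)) (XT.lf (nat_lit 76) (nat_lit 7297541239) (nat_lit 0) (nat_lit 14317989230) (nat_lit 760) (nat_lit 60687341289) (nat_lit 59) (nat_lit 5) (nat_lit 58) (nat_lit 5) (nat_lit 68) (nat_lit 5) (nat_lit 306) (nat_lit 296) (nat_lit 118))) (XT.nd (nat_lit 78) (nat_lit 0) (nat_lit 0) (XT.lf (nat_lit 0) (nat_lit 26721777774) (nat_lit 684) (nat_lit 41778117180) (nat_lit 76) (nat_lit 16130892325) (nat_lit 59) (nat_lit 5) (nat_lit 68) (nat_lit 5) (nat_lit 60) (nat_lit 5) (nat_lit 307) (nat_lit 296) (nat_lit 117)) (XT.lf (nat_lit 0) (nat_lit 32317479854) (nat_lit 684) (nat_lit 7124772710) (nat_lit 76) (nat_lit 47621141703) (nat_lit 59)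 (nat_lit 5) (nat_lit 68) (nat_lit 5) (nat_lit 60) (nat_lit 5) (nat_lit 308) (nat_lit 296) (nat_lit 116)))) (XT.nd (nat_lit 156) (nat_lit 304) (nat_lit 0) (XT.nd (nat_lit 78) (nat_lit 0) (nat_lit 0) (XT.lf (nat_lit 0) (nat_lit 30228247490) (nat_lit 684) (nat_lit 8436116038) (nat_lit 760) (nat_lit 50929700928) (nat_lit 50) (nat_lit 5) (nat_lit 59) (nat_lit 5) (nat_lit 60) (nat_lit 5) (nat_lit 309) (nat_lit 296) (nat_lit 115)) (XT.lf (nat_lit 0) (nat_lit 45827285338) (nat_lit 760) (nat_lit 22928030747) (nat_lit 76) (nat_lit 23471019921) (nat_lit 50) (nat_lit 5) (nat_lit 60) (nat_lit 5) (nat_lit 51) (nat_lit 5) (nat_lit 310) (nat_lit 296) (nat_lit 114))) (XT.nd (nat_lit 78) (nat_lit 0) (nat_lit 0) (XT.lf (nat_lit 0) (nat_lit 15695210238) (nat_lit 304) (nat_lit 38035980027) (nat_lit 380) (nat_lit 41239891444) (nat_lit 46) (nat_lit 5) (nat_lit 50) (nat_lit 5) (nat_lit 51) (nat_lit 5) (nat_lit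 311) (nat_lit 296) (nat_lit 113)) (XT.nd (nat_lit 78) (nat_lit 0) (nat_lit 0) (XT.lf (nat_lit 0) (nat_lit 57045148199) (nat_lit 304) (nat_lit 5372950053) (nat_lit 380) (nat_lit 35415578367) (nat_lit 46) (nat_lit 5) (nat_lit 50) (nat_lit 5) (nat_lit 51) (nat_lit 5) (nat_lit 312) (nat_lit 296) (nat_lit 112)) (XT.lf (nat_lit 0) (nat_lit 71990458389) (nat_lit 380) (nat_lit 828868582) (nat_lit 76) (nat_lit 27997521168) (nat_lit 46) (nat_lit 5) (nat_lit 51) (nat_lit 5) (nat_lit 47) (nat_lit 5) (nat_lit 313) (nat_lit 296) (nat_lit 111))))))))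
noncomputable def xc246 : XT := (XT.nd (nat_lit 1326) (nat_lit 152) (nat_lit 0) (XT.nd (nat_lit 624) (nat_lit 684) (nat_lit 0) (XT.nd (nat_lit 312) (nat_lit 532) (nat_lit 0) (XT.nd (nat_lit 156) (nat_lit 304) (nat_lit 0) (XT.nd (nat_lit 78) (nat_lit 0) (nat_lit 0) (XT.lf (nat_lit 0) (nat_lit 42397213797) (nat_lit 304) (nat_lit 40393799446) (nat_lit 380) (nat_lit 21120688254) (nat_lit 42) (nat_lit 5) (nat_lit 46) (nat_lit 5) (nat_lit 47) (nat_lit 5) (nat_lit 314) (nat_lit 296) (nat_lit 110)) (XT.lf (nat_lit 0) (nat_lit 87812929161) (nat_lit 304) (nat_lit 6332274353) (nat_lit 380) (nat_lit 13015415623) (nat_lit 42) (nat_lit 5) (nat_lit 46) (nat_lit 5) (nat_lit 47) (nat_lit 5) (nat_lit 315) (nat_lit 296) (nat_lit 109))) (XT.nd (nat_lit 78) (nat_lit 76) (nat_lit 0) (XT.lf (nat_lit 0) (nat_lit 25276483491) (nat_lit 228) (nat_lit 81644368232) (nat_lit 304) (nat_lit 3608445415) (nat_lit 39)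 (nat_lit 5) (nat_lit 42) (nat_lit 5) (nat_lit 43) (nat_lit 5) (nat_lit 316) (nat_lit 296) (nat_lit 108)) (XT.lf (nat_lit 0) (nat_lit 6504666913) (nat_lit 304) (nat_lit 41453962398) (nat_lit 76) (nat_lit 66081065886) (nat_lit 38) (nat_lit 5) (nat_lit 42) (nat_lit 5) (nat_lit 39) (nat_lit 5) (nat_lit 317) (nat_lit 296) (nat_lit 107)))) (XT.nd (nat_lit 156) (nat_lit 228) (nat_lit 0) (XT.nd (nat_lit 78) (nat_lit 0) (nat_lit 0) (XT.lf (nat_lit 0) (nat_lit 4623213761) (nat_lit 304) (nat_lit 12450749205) (nat_lit 380) (nat_lit 100645104316) (nat_lit 34) (nat_lit 5) (nat_lit 38) (nat_lit 5) (nat_lit 39) (nat_lit 5) (nat_lit 318) (nat_lit 296) (nat_lit 106)) (XT.lf (nat_lit 0) (nat_lit 29272606016) (nat_lit 380) (nat_lit 67503530284) (nat_lit 76) (nat_lit 24751229126) (nat_lit 34) (nat_lit 5) (nat_lit 39) (nat_lit 5) (nat_lit 35) (nat_lit 5) (nat_lit 319) (nat_lit 296) (nat_lit 105))) (XT.nd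 (nat_lit 78) (nat_lit 228) (nat_lit 0) (XT.lf (nat_lit 0) (nat_lit 42284934788) (nat_lit 380) (nat_lit 19836127194) (nat_lit 76) (nat_lit 63394830307) (nat_lit 34) (nat_lit 5) (nat_lit 39) (nat_lit 5) (nat_lit 35) (nat_lit 5) (nat_lit 320) (nat_lit 296) (nat_lit 104)) (XT.lf (nat_lit 0) (nat_lit 31213259900) (nat_lit 228) (nat_lit 25221606492) (nat_lit 304) (nat_lit 73244631204) (nat_lit 31) (nat_lit 5) (nat_lit 34) (nat_lit 5) (nat_lit 35) (nat_lit 5) (nat_lit 321) (nat_lit 296) (nat_lit 103))))) (XT.nd (nat_lit 312) (nat_lit 456) (nat_lit 0) (XT.nd (nat_lit 156) (nat_lit 0) (nat_lit 0) (XT.nd (nat_lit 78) (nat_lit 228) (nat_lit 0) (XT.lf (nat_lit 0) (nat_lit 71844534082) (nat_lit 304) (nat_lit 48747756461) (nat_lit 76) (nat_lit 13431382002) (nat_lit 31) (nat_lit 5) (nat_lit 35) (nat_lit 5) (nat_lit 32) (nat_lit 5) (nat_lit 322) (nat_lit 296) (nat_lit 102)) (XT.lf (nat_lit 0) (nat_lit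 3143392210) (nat_lit 228) (nat_lit 85343523660) (nat_lit 304) (nat_lit 50075030123) (nat_lit 28) (nat_lit 5) (nat_lit 31) (nat_lit 5) (nat_lit 32) (nat_lit 5) (nat_lit 323) (nat_lit 296) (nat_lit 101))) (XT.nd (nat_lit 78) (nat_lit 0) (nat_lit 0) (XT.lf (nat_lit 0) (nat_lit 59321120881) (nat_lit 228) (nat_lit 47465556244) (nat_lit 304) (nat_lit 36499194195) (nat_lit 28) (nat_lit 5) (nat_lit 31) (nat_lit 5) (nat_lit 32) (nat_lit 5) (nat_lit 324) (nat_lit 296) (nat_lit 100)) (XT.lf (nat_lit 0) (nat_lit 118307365068) (nat_lit 228) (nat_lit 7693769503) (nat_lit 304) (nat_lit 22244874105) (nat_lit 28) (nat_lit 5) (nat_lit 31) (nat_lit 5) (nat_lit 32) (nat_lit 5) (nat_lit 325) (nat_lit 296) (nat_lit 99)))) (XT.nd (nat_lit 156) (nat_lit 228) (nat_lit 0) (XT.nd (nat_lit 78) (nat_lit 76) (nat_lit 0) (XT.lf (nat_lit 0) (nat_lit 27124685609) (nat_lit 152) (nat_lit 120006717688) (nat_lit 228)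 (nat_lit 6274996293) (nat_lit 26) (nat_lit 5) (nat_lit 28) (nat_lit 5) (nat_lit 29) (nat_lit 5) (nat_lit 326) (nat_lit 296) (nat_lit 98)) (XT.lf (nat_lit 0) (nat_lit 10798709569) (nat_lit 228) (nat_lit 71017516984) (nat_lit 76) (nat_lit 76968333570) (nat_lit 25) (nat_lit 5) (nat_lit 28) (nat_lit 5) (nat_lit 26) (nat_lit 5) (nat_lit 327) (nat_lit 296) (nat_lit 97))) (XT.nd (nat_lit 78) (nat_lit 228) (nat_lit 0) (XT.lf (nat_lit 0) (nat_lit 28514955920) (nat_lit 228) (nat_lit 13093332583) (nat_lit 76) (nat_lit 122818210892) (nat_lit 25) (nat_lit 5) (nat_lit 28) (nat_lit 5) (nat_lit 26) (nat_lit 5) (nat_lit 328) (nat_lit 296) (nat_lit 96)) (XT.nd (nat_lit 78) (nat_lit 0) (nat_lit 0) (XT.lf (nat_lit 0) (nat_lit 47908691880) (nat_lit 304) (nat_lit 121029417183) (nat_lit 76) (nat_lit 1372843616) (nat_lit 22) (nat_lit 5) (nat_lit 26) (nat_lit 5) (nat_lit 23) (nat_lit 5) (nat_lit 329) (nat_lit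 296) (nat_lit 95)) (XT.lf (nat_lit 0) (nat_lit 69179348975) (nat_lit 304) (nat_lit 61934904930) (nat_lit 76) (nat_lit 45330013878) (nat_lit 22) (nat_lit 5) (nat_lit 26) (nat_lit 5) (nat_lit 23) (nat_lit 5) (nat_lit 330) (nat_lit 296) (nat_lit 94))))))) (XT.nd (nat_lit 35412) (nat_lit 0) (nat_lit 1976) (XT.nd (nat_lit 35100) (nat_lit 0) (nat_lit 2736) (XT.nd (nat_lit 34944) (nat_lit 0) (nat_lit 2660) (XT.nd (nat_lit 34866) (nat_lit 0) (nat_lit 2660) (XT.lf (nat_lit 0) (nat_lit 117775716) (nat_lit 152) (nat_lit 91397367931) (nat_lit 228) (nat_lit 91369025588) (nat_lit 20) (nat_lit 5) (nat_lit 22) (nat_lit 5) (nat_lit 23) (nat_lit 5) (nat_lit 331) (nat_lit 296) (nat_lit 93)) (XT.lf (nat_lit 0) (nat_lit 157137098) (nat_lit 0) (nat_lit 157137098) (nat_lit 684) (nat_lit 32974264418) (nat_lit 55) (nat_lit 5) (nat_lit 55) (nat_lit 3) (nat_lit 64) (nat_lit 3) (nat_lit 297) (nat_lit 297) (nat_lit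 126))) (XT.nd (nat_lit 78) (nat_lit 0) (nat_lit 0) (XT.lf (nat_lit 0) (nat_lit 1087256635) (nat_lit 684) (nat_lit 40480296637) (nat_lit 760) (nat_lit 26651736299) (nat_lit 55) (nat_lit 5) (nat_lit 64) (nat_lit 3) (nat_lit 65) (nat_lit 5) (nat_lit 298) (nat_lit 297) (nat_lit 125)) (XT.lf (nat_lit 0) (nat_lit 1573218540) (nat_lit 684) (nat_lit 13414289857) (nat_lit 760) (nat_lit 54955892370) (nat_lit 55) (nat_lit 5) (nat_lit 64) (nat_lit 3) (nat_lit 65) (nat_lit 5) (nat_lit 299) (nat_lit 297) (nat_lit 124)))) (XT.nd (nat_lit 156) (nat_lit 0) (nat_lit 0) (XT.nd (nat_lit 78) (nat_lit 0) (nat_lit 0) (XT.lf (nat_lit 0) (nat_lit 2530407764) (nat_lit 684) (nat_lit 56446689264) (nat_lit 760) (nat_lit 12754277989) (nat_lit 56) (nat_lit 5) (nat_lit 65) (nat_lit 5) (nat_lit 66) (nat_lit 5) (nat_lit 300) (nat_lit 297) (nat_lit 123)) (XT.lf (nat_lit 0) (nat_lit 4011296831) (nat_lit 684) (nat_lit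 27962976227) (nat_lit 760) (nat_lit 41610686667) (nat_lit 56) (nat_lit 5) (nat_lit 65) (nat_lit 5) (nat_lit 66) (nat_lit 5) (nat_lit 301) (nat_lit 297) (nat_lit 122))) (XT.nd (nat_lit 78) (nat_lit 0) (nat_lit 76) (XT.lf (nat_lit 76) (nat_lit 2008748244) (nat_lit 0) (nat_lit 3588122213) (nat_lit 760) (nat_lit 69932824794) (nat_lit 57) (nat_lit 5) (nat_lit 56) (nat_lit 5) (nat_lit 66) (nat_lit 5) (nat_lit 302) (nat_lit 297) (nat_lit 121)) (XT.lf (nat_lit 0) (nat_lit 8151687588) (nat_lit 684) (nat_lit 43515709390) (nat_lit 760) (nat_lit 25859775751) (nat_lit 57) (nat_lit 5) (nat_lit 66) (nat_lit 5) (nat_lit 67) (nat_lit 5) (nat_lit 303) (nat_lit 297) (nat_lit 120))))) (XT.nd (nat_lit 312) (nat_lit 836) (nat_lit 0) (XT.nd (nat_lit 156) (nat_lit 0) (nat_lit 76) (XT.nd (nat_lit 78) (nat_lit 0) (nat_lit 76) (XT.lf (nat_lit 0) (nat_lit 10892408975) (nat_lit 684) (nat_lit 12069508726) (nat_lit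 760) (nat_lit 56659701462) (nat_lit 57) (nat_lit 5) (nat_lit 66) (nat_lit 5) (nat_lit 67) (nat_lit 5) (nat_lit 304) (nat_lit 297) (nat_lit 119)) (XT.lf (nat_lit 0) (nat_lit 14225042751) (nat_lit 684) (nat_lit 60280350700) (nat_lit 760) (nat_lit 7292653750) (nat_lit 58) (nat_lit 5) (nat_lit 67) (nat_lit 5) (nat_lit 68) (nat_lit 5) (nat_lit 305) (nat_lit 297) (nat_lit 118))) (XT.nd (nat_lit 78) (nat_lit 0) (nat_lit 0) (XT.lf (nat_lit 0) (nat_lit 18307885330) (nat_lit 684) (nat_lit 27250046873) (nat_lit 760) (nat_lit 38496188533) (nat_lit 58) (nat_lit 5) (nat_lit 67) (nat_lit 5) (nat_lit 68) (nat_lit 5) (nat_lit 306) (nat_lit 297) (nat_lit 117)) (XT.lf (nat_lit 76) (nat_lit 7677025168) (nat_lit 0) (nat_lit 15037131790) (nat_lit 760) (nat_lit 63702879455) (nat_lit 59) (nat_lit 5) (nat_lit 58) (nat_lit 5) (nat_lit 68) (nat_lit 5) (nat_lit 307) (nat_lit 297) (nat_lit 116)))) (XT.nd (nat_lit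 156) (nat_lit 988) (nat_lit 0) (XT.nd (nat_lit 78) (nat_lit 0) (nat_lit 0) (XT.lf (nat_lit 0) (nat_lit 28074818407) (nat_lit 684) (nat_lit 43852131198) (nat_lit 76) (nat_lit 16934447132) (nat_lit 59) (nat_lit 5) (nat_lit 68) (nat_lit 5) (nat_lit 60) (nat_lit 5) (nat_lit 308) (nat_lit 297) (nat_lit 115)) (XT.lf (nat_lit 0) (nat_lit 33949498365) (nat_lit 684) (nat_lit 7466828639) (nat_lit 76) (nat_lit 49999351351) (nat_lit 59) (nat_lit 5) (nat_lit 68) (nat_lit 5) (nat_lit 60) (nat_lit 5) (nat_lit 309) (nat_lit 297) (nat_lit 114))) (XT.nd (nat_lit 78) (nat_lit 304) (nat_lit 0) (XT.lf (nat_lit 0) (nat_lit 31753613817) (nat_lit 684) (nat_lit 8859561479) (nat_lit 760) (nat_lit 53459738037) (nat_lit 50) (nat_lit 5) (nat_lit 59) (nat_lit 5) (nat_lit 60) (nat_lit 5) (nat_lit 310) (nat_lit 297) (nat_lit 113)) (XT.nd (nat_lit 78) (nat_lit 304) (nat_lit 0) (XT.lf (nat_lit 0) (nat_lit 48133476265)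 (nat_lit 760) (nat_lit 24060304763) (nat_lit 76) (nat_lit 24643059335) (nat_lit 50) (nat_lit 5) (nat_lit 60) (nat_lit 5) (nat_lit 51) (nat_lit 5) (nat_lit 311) (nat_lit 297) (nat_lit 112)) (XT.lf (nat_lit 0) (nat_lit 16493870408) (nat_lit 304) (nat_lit 39938217011) (nat_lit 380) (nat_lit 43286763770) (nat_lit 46) (nat_lit 5) (nat_lit 50) (nat_lit 5) (nat_lit 51) (nat_lit 5) (nat_lit 312) (nat_lit 297) (nat_lit 111))))))))
noncomputable def xc247 : XT := (XT.nd (nat_lit 1326) (nat_lit 228) (nat_lit 0) (XT.nd (nat_lit 624) (nat_lit 684) (nat_lit 0) (XT.nd (nat_lit 312) (nat_lit 608) (nat_lit 0) (XT.nd (nat_lit 156) (nat_lit 304) (nat_lit 0) (XT.nd (nat_lit 78) (nat_lit 0) (nat_lit 0) (XT.lf (nat_lit 0) (nat_lit 59910643378) (nat_lit 304) (nat_lit 5642014683) (nat_lit 380) (nat_lit 37171955146) (nat_lit 46) (nat_lit 5) (nat_lit 50) (nat_lit 5) (nat_lit 51) (nat_lit 5) (nat_lit 313) (nat_lit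 297) (nat_lit 110)) (XT.lf (nat_lit 0) (nat_lit 75602979769) (nat_lit 380) (nat_lit 856986749) (nat_lit 76) (nat_lit 29397012678) (nat_lit 46) (nat_lit 5) (nat_lit 51) (nat_lit 5) (nat_lit 47) (nat_lit 5) (nat_lit 314) (nat_lit 297) (nat_lit 109))) (XT.nd (nat_lit 78) (nat_lit 0) (nat_lit 0) (XT.lf (nat_lit 0) (nat_lit 44530184826) (nat_lit 304) (nat_lit 42412963255) (nat_lit 380) (nat_lit 22163450780) (nat_lit 42) (nat_lit 5) (nat_lit 46) (nat_lit 5) (nat_lit 47) (nat_lit 5) (nat_lit 315) (nat_lit 297) (nat_lit 108)) (XT.lf (nat_lit 0) (nat_lit 92216061656) (nat_lit 304) (nat_lit 6648386962) (nat_lit 380) (nat_lit 13653546512) (nat_lit 42) (nat_lit 5) (nat_lit 46) (nat_lit 5) (nat_lit 47) (nat_lit 5) (nat_lit 316) (nat_lit 297) (nat_lit 107)))) (XT.nd (nat_lit 156) (nat_lit 304) (nat_lit 0) (XT.nd (nat_lit 78) (nat_lit 76) (nat_lit 0) (XT.lf (nat_lit 0) (nat_lit 26553229017) (nat_lit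 228) (nat_lit 85725288700) (nat_lit 304) (nat_lit 3776610045) (nat_lit 39) (nat_lit 5) (nat_lit 42) (nat_lit 5) (nat_lit 43) (nat_lit 5) (nat_lit 317) (nat_lit 297) (nat_lit 106)) (XT.lf (nat_lit 0) (nat_lit 6841200564) (nat_lit 304) (nat_lit 43513932700) (nat_lit 76) (nat_lit 69385933547) (nat_lit 38) (nat_lit 5) (nat_lit 42) (nat_lit 5) (nat_lit 39) (nat_lit 5) (nat_lit 318) (nat_lit 297) (nat_lit 105))) (XT.nd (nat_lit 78) (nat_lit 0) (nat_lit 0) (XT.lf (nat_lit 0) (nat_lit 4866896979) (nat_lit 304) (nat_lit 13071721842) (nat_lit 380) (nat_lit 105665808101) (nat_lit 34) (nat_lit 5) (nat_lit 38) (nat_lit 5) (nat_lit 39) (nat_lit 5) (nat_lit 319) (nat_lit 297) (nat_lit 104)) (XT.lf (nat_lit 0) (nat_lit 30746695496) (nat_lit 380) (nat_lit 70866238396) (nat_lit 76) (nat_lit 25990233191) (nat_lit 34) (nat_lit 5) (nat_lit 39) (nat_lit 5) (nat_lit 35) (nat_lit 5) (nat_lit 320) (nat_lit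 297) (nat_lit 103))))) (XT.nd (nat_lit 312) (nat_lit 228) (nat_lit 0) (XT.nd (nat_lit 156) (nat_lit 228) (nat_lit 0) (XT.nd (nat_lit 78) (nat_lit 228) (nat_lit 0) (XT.lf (nat_lit 0) (nat_lit 44409142651) (nat_lit 380) (nat_lit 20816058885) (nat_lit 76) (nat_lit 66565945736) (nat_lit 34) (nat_lit 5) (nat_lit 39) (nat_lit 5) (nat_lit 35) (nat_lit 5) (nat_lit 321) (nat_lit 297) (nat_lit 102)) (XT.lf (nat_lit 0) (nat_lit 32785606037) (nat_lit 228) (nat_lit 26480672866) (nat_lit 304) (nat_lit 76896670517) (nat_lit 31) (nat_lit 5) (nat_lit 34) (nat_lit 5) (nat_lit 35) (nat_lit 5) (nat_lit 322) (nat_lit 297) (nat_lit 101))) (XT.nd (nat_lit 78) (nat_lit 228) (nat_lit 0) (XT.lf (nat_lit 0) (nat_lit 75445999486) (nat_lit 304) (nat_lit 51173549279) (nat_lit 76) (nat_lit 14104807762) (nat_lit 31) (nat_lit 5) (nat_lit 35) (nat_lit 5) (nat_lit 32) (nat_lit 5) (nat_lit 323) (nat_lit 297) (nat_lit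 100)) (XT.lf (nat_lit 0) (nat_lit 3311969809) (nat_lit 228) (nat_lit 89608268727) (nat_lit 304) (nat_lit 52569319998) (nat_lit 28) (nat_lit 5) (nat_lit 31) (nat_lit 5) (nat_lit 32) (nat_lit 5) (nat_lit 324) (nat_lit 297) (nat_lit 99)))) (XT.nd (nat_lit 156) (nat_lit 228) (nat_lit 0) (XT.nd (nat_lit 78) (nat_lit 0) (nat_lit 0) (XT.lf (nat_lit 0) (nat_lit 62298041676) (nat_lit 228) (nat_lit 49836518707) (nat_lit 304) (nat_lit 38315142828) (nat_lit 28) (nat_lit 5) (nat_lit 31) (nat_lit 5) (nat_lit 32) (nat_lit 5) (nat_lit 325) (nat_lit 297) (nat_lit 98)) (XT.lf (nat_lit 0) (nat_lit 124233080703) (nat_lit 228) (nat_lit 8076252883) (nat_lit 304) (nat_lit 23348535833) (nat_lit 28) (nat_lit 5) (nat_lit 31) (nat_lit 5) (nat_lit 32) (nat_lit 5) (nat_lit 326) (nat_lit 297) (nat_lit 97))) (XT.nd (nat_lit 78) (nat_lit 76) (nat_lit 0) (XT.lf (nat_lit 0) (nat_lit 28491499104) (nat_lit 152) (nat_lit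 126004426877) (nat_lit 228) (nat_lit 6580364938) (nat_lit 26) (nat_lit 5) (nat_lit 28) (nat_lit 5) (nat_lit 29) (nat_lit 5) (nat_lit 327) (nat_lit 297) (nat_lit 96)) (XT.nd (nat_lit 78) (nat_lit 0) (nat_lit 0) (XT.lf (nat_lit 0) (nat_lit 11346371638) (nat_lit 228) (nat_lit 74558033774) (nat_lit 76) (nat_lit 80818968248) (nat_lit 25) (nat_lit 5) (nat_lit 28) (nat_lit 5) (nat_lit 26) (nat_lit 5) (nat_lit 328) (nat_lit 297) (nat_lit 95)) (XT.lf (nat_lit 0) (nat_lit 29948062373) (nat_lit 228) (nat_lit 13738133441) (nat_lit 76) (nat_lit 128961233816) (nat_lit 25) (nat_lit 5) (nat_lit 28) (nat_lit 5) (nat_lit 26) (nat_lit 5) (nat_lit 329) (nat_lit 297) (nat_lit 94))))))) (XT.nd (nat_lit 35568) (nat_lit 0) (nat_lit 1824) (XT.nd (nat_lit 35256) (nat_lit 0) (nat_lit 2584) (XT.nd (nat_lit 35100) (nat_lit 0) (nat_lit 2508) (XT.nd (nat_lit 35022) (nat_lit 0) (nat_lit 2508) (XT.lf (nat_lit 0) (nat_lit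 50311326031) (nat_lit 304) (nat_lit 127070837647) (nat_lit 76) (nat_lit 1443951134) (nat_lit 22) (nat_lit 5) (nat_lit 26) (nat_lit 5) (nat_lit 23) (nat_lit 5) (nat_lit 330) (nat_lit 297) (nat_lit 93)) (XT.lf (nat_lit 0) (nat_lit 171455380) (nat_lit 0) (nat_lit 171455380) (nat_lit 684) (nat_lit 34609344790) (nat_lit 55) (nat_lit 5) (nat_lit 55) (nat_lit 3) (nat_lit 64) (nat_lit 3) (nat_lit 298) (nat_lit 298) (nat_lit 124))) (XT.nd (nat_lit 78) (nat_lit 0) (nat_lit 0) (XT.lf (nat_lit 0) (nat_lit 1166042274) (nat_lit 684) (nat_lit 42490459464) (nat_lit 760) (nat_lit 27972409549) (nat_lit 55) (nat_lit 5) (nat_lit 64) (nat_lit 3) (nat_lit 65) (nat_lit 5) (nat_lit 299) (nat_lit 298) (nat_lit 123)) (XT.lf (nat_lit 0) (nat_lit 1675139283) (nat_lit 684) (nat_lit 14071811964) (nat_lit 760) (nat_lit 57692340737) (nat_lit 55) (nat_lit 5) (nat_lit 64) (nat_lit 3) (nat_lit 65) (nat_lit 5) (nat_lit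 300) (nat_lit 298) (nat_lit 122)))) (XT.nd (nat_lit 156) (nat_lit 0) (nat_lit 0) (XT.nd (nat_lit 78) (nat_lit 0) (nat_lit 0) (XT.lf (nat_lit 0) (nat_lit 2679136632) (nat_lit 684) (nat_lit 59254669690) (nat_lit 760) (nat_lit 13382916706) (nat_lit 56) (nat_lit 5) (nat_lit 65) (nat_lit 5) (nat_lit 66) (nat_lit 5) (nat_lit 301) (nat_lit 298) (nat_lit 121)) (XT.lf (nat_lit 0) (nat_lit 4233012606) (nat_lit 684) (nat_lit 29347454527) (nat_lit 760) (nat_lit 43682577970) (nat_lit 56) (nat_lit 5) (nat_lit 65) (nat_lit 5) (nat_lit 66) (nat_lit 5) (nat_lit 302) (nat_lit 298) (nat_lit 120))) (XT.nd (nat_lit 78) (nat_lit 0) (nat_lit 76) (XT.lf (nat_lit 76) (nat_lit 2122635676) (nat_lit 0) (nat_lit 3774432043) (nat_lit 760) (nat_lit 73407994550) (nat_lit 57) (nat_lit 5) (nat_lit 56) (nat_lit 5) (nat_lit 66) (nat_lit 5) (nat_lit 303) (nat_lit 298) (nat_lit 119)) (XT.lf (nat_lit 0) (nat_lit 8578553826)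 (nat_lit 684) (nat_lit 45677518144) (nat_lit 760) (nat_lit 27146400008) (nat_lit 57) (nat_lit 5) (nat_lit 66) (nat_lit 5) (nat_lit 67) (nat_lit 5) (nat_lit 304) (nat_lit 298) (nat_lit 118))))) (XT.nd (nat_lit 312) (nat_lit 836) (nat_lit 0) (XT.nd (nat_lit 156) (nat_lit 0) (nat_lit 76) (XT.nd (nat_lit 78) (nat_lit 0) (nat_lit 76) (XT.lf (nat_lit 0) (nat_lit 11455393099) (nat_lit 684) (nat_lit 12659673004) (nat_lit 760) (nat_lit 59486625077) (nat_lit 57) (nat_lit 5) (nat_lit 66) (nat_lit 5) (nat_lit 67) (nat_lit 5) (nat_lit 305) (nat_lit 298) (nat_lit 117)) (XT.lf (nat_lit 0) (nat_lit 14953916800) (nat_lit 684) (nat_lit 63280228879) (nat_lit 760) (nat_lit 7652836352) (nat_lit 58) (nat_lit 5) (nat_lit 67) (nat_lit 5) (nat_lit 68) (nat_lit 5) (nat_lit 306) (nat_lit 298) (nat_lit 116))) (XT.nd (nat_lit 78) (nat_lit 0) (nat_lit 0) (XT.lf (nat_lit 0) (nat_lit 19240062369) (nat_lit 684) (nat_lit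 28599083164) (nat_lit 760) (nat_lit 40416759783) (nat_lit 58) (nat_lit 5) (nat_lit 67) (nat_lit 5) (nat_lit 68) (nat_lit 5) (nat_lit 307) (nat_lit 298) (nat_lit 115)) (XT.lf (nat_lit 76) (nat_lit 8074125285) (nat_lit 0) (nat_lit 15791929966) (nat_lit 760) (nat_lit 66870945062) (nat_lit 59) (nat_lit 5) (nat_lit 58) (nat_lit 5) (nat_lit 68) (nat_lit 5) (nat_lit 308) (nat_lit 298) (nat_lit 114)))) (XT.nd (nat_lit 156) (nat_lit 988) (nat_lit 0) (XT.nd (nat_lit 78) (nat_lit 0) (nat_lit 0) (XT.lf (nat_lit 0) (nat_lit 29493935060) (nat_lit 684) (nat_lit 46031230418) (nat_lit 76) (nat_lit 17778457644) (nat_lit 59) (nat_lit 5) (nat_lit 68) (nat_lit 5) (nat_lit 60) (nat_lit 5) (nat_lit 309) (nat_lit 298) (nat_lit 113)) (XT.lf (nat_lit 0) (nat_lit 35661616837) (nat_lit 684) (nat_lit 7827305939) (nat_lit 76) (nat_lit 52496736210) (nat_lit 59) (nat_lit 5) (nat_lit 68) (nat_lit 5) (nat_lit 60) (nat_lit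 5) (nat_lit 310) (nat_lit 298) (nat_lit 112))) (XT.nd (nat_lit 78) (nat_lit 304) (nat_lit 0) (XT.lf (nat_lit 0) (nat_lit 33353951155) (nat_lit 684) (nat_lit 9304026754) (nat_lit 760) (nat_lit 56117806175) (nat_lit 50) (nat_lit 5) (nat_lit 59) (nat_lit 5) (nat_lit 60) (nat_lit 5) (nat_lit 311) (nat_lit 298) (nat_lit 111)) (XT.nd (nat_lit 78) (nat_lit 304) (nat_lit 0) (XT.lf (nat_lit 0) (nat_lit 50553598296) (nat_lit 760) (nat_lit 25250505923) (nat_lit 76) (nat_lit 25873841253) (nat_lit 50) (nat_lit 5) (nat_lit 60) (nat_lit 5) (nat_lit 51) (nat_lit 5) (nat_lit 312) (nat_lit 298) (nat_lit 110)) (XT.lf (nat_lit 0) (nat_lit 17331171328) (nat_lit 304) (nat_lit 41935525126) (nat_lit 380) (nat_lit 45437385634) (nat_lit 46) (nat_lit 5) (nat_lit 50) (nat_lit 5) (nat_lit 51) (nat_lit 5) (nat_lit 313) (nat_lit 298) (nat_lit 109))))))))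
noncomputable def xc248 : XT := (XT.nd (nat_lit 36348) (nat_lit 0) (nat_lit 1596) (XT.nd (nat_lit 624) (nat_lit 684) (nat_lit 0) (XT.nd (nat_lit 312) (nat_lit 608) (nat_lit 0) (XT.nd (nat_lit 156) (nat_lit 304) (nat_lit 0) (XT.nd (nat_lit 78) (nat_lit 0) (nat_lit 0) (XT.lf (nat_lit 0) (nat_lit 62918182594) (nat_lit 304) (nat_lit 5924493763) (nat_lit 380) (nat_lit 39017489738) (nat_lit 46) (nat_lit 5) (nat_lit 50) (nat_lit 5) (nat_lit 51) (nat_lit 5) (nat_lit 314) (nat_lit 298) (nat_lit 108)) (XT.lf (nat_lit 0) (nat_lit 79394918745) (nat_lit 380) (nat_lit 887749681) (nat_lit 76) (nat_lit 30866514515) (nat_lit 46) (nat_lit 5) (nat_lit 51) (nat_lit 5) (nat_lit 47) (nat_lit 5) (nat_lit 315) (nat_lit 298) (nat_lit 107))) (XT.nd (nat_lit 78) (nat_lit 0) (nat_lit 0) (XT.lf (nat_lit 0) (nat_lit 46768585531) (nat_lit 304) (nat_lit 44533134173) (nat_lit 380) (nat_lit 23259585326) (nat_lit 42)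 (nat_lit 5) (nat_lit 46) (nat_lit 5) (nat_lit 47) (nat_lit 5) (nat_lit 316) (nat_lit 298) (nat_lit 106)) (XT.lf (nat_lit 0) (nat_lit 96838189943) (nat_lit 304) (nat_lit 6980351791) (nat_lit 380) (nat_lit 14324759083) (nat_lit 42) (nat_lit 5) (nat_lit 46) (nat_lit 5) (nat_lit 47) (nat_lit 5) (nat_lit 317) (nat_lit 298) (nat_lit 105)))) (XT.nd (nat_lit 156) (nat_lit 304) (nat_lit 0) (XT.nd (nat_lit 78) (nat_lit 76) (nat_lit 0) (XT.lf (nat_lit 0) (nat_lit 27892610514) (nat_lit 228) (nat_lit 90010375863) (nat_lit 304) (nat_lit 3954322505) (nat_lit 39) (nat_lit 5) (nat_lit 42) (nat_lit 5) (nat_lit 43) (nat_lit 5) (nat_lit 318) (nat_lit 298) (nat_lit 104)) (XT.lf (nat_lit 0) (nat_lit 7193510302) (nat_lit 304) (nat_lit 45678084829) (nat_lit 76) (nat_lit 72855968880) (nat_lit 38) (nat_lit 5) (nat_lit 42) (nat_lit 5) (nat_lit 39) (nat_lit 5) (nat_lit 319) (nat_lit 298) (nat_lit 103))) (XT.nd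 (nat_lit 78) (nat_lit 0) (nat_lit 0) (XT.lf (nat_lit 0) (nat_lit 5121600133) (nat_lit 304) (nat_lit 13723888593) (nat_lit 380) (nat_lit 110938621018) (nat_lit 34) (nat_lit 5) (nat_lit 38) (nat_lit 5) (nat_lit 39) (nat_lit 5) (nat_lit 320) (nat_lit 298) (nat_lit 102)) (XT.lf (nat_lit 0) (nat_lit 32293517055) (nat_lit 380) (nat_lit 74398241108) (nat_lit 76) (nat_lit 27291053339) (nat_lit 34) (nat_lit 5) (nat_lit 39) (nat_lit 5) (nat_lit 35) (nat_lit 5) (nat_lit 321) (nat_lit 298) (nat_lit 101))))) (XT.nd (nat_lit 312) (nat_lit 228) (nat_lit 0) (XT.nd (nat_lit 156) (nat_lit 228) (nat_lit 0) (XT.nd (nat_lit 78) (nat_lit 228) (nat_lit 0) (XT.lf (nat_lit 0) (nat_lit 46638634816) (nat_lit 380) (nat_lit 21846091155) (nat_lit 76) (nat_lit 69895489202) (nat_lit 34) (nat_lit 5) (nat_lit 39) (nat_lit 5) (nat_lit 35) (nat_lit 5) (nat_lit 322) (nat_lit 298) (nat_lit 100)) (XT.lf (nat_lit 0) (nat_lit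 34435483293) (nat_lit 228) (nat_lit 27802879796) (nat_lit 304) (nat_lit 80732259375) (nat_lit 31) (nat_lit 5) (nat_lit 34) (nat_lit 5) (nat_lit 35) (nat_lit 5) (nat_lit 323) (nat_lit 298) (nat_lit 99))) (XT.nd (nat_lit 78) (nat_lit 228) (nat_lit 0) (XT.lf (nat_lit 0) (nat_lit 79226679232) (nat_lit 304) (nat_lit 53721709732) (nat_lit 76) (nat_lit 14811732195) (nat_lit 31) (nat_lit 5) (nat_lit 35) (nat_lit 5) (nat_lit 32) (nat_lit 5) (nat_lit 324) (nat_lit 298) (nat_lit 98)) (XT.lf (nat_lit 0) (nat_lit 3487915682) (nat_lit 228) (nat_lit 94086477069) (nat_lit 304) (nat_lit 55189204020) (nat_lit 28) (nat_lit 5) (nat_lit 31) (nat_lit 5) (nat_lit 32) (nat_lit 5) (nat_lit 325) (nat_lit 298) (nat_lit 97)))) (XT.nd (nat_lit 156) (nat_lit 228) (nat_lit 0) (XT.nd (nat_lit 78) (nat_lit 0) (nat_lit 0) (XT.lf (nat_lit 0) (nat_lit 65422798409) (nat_lit 228) (nat_lit 52326244553) (nat_lit 304) (nat_lit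 40222726657) (nat_lit 28) (nat_lit 5) (nat_lit 31) (nat_lit 5) (nat_lit 32) (nat_lit 5) (nat_lit 326) (nat_lit 298) (nat_lit 96)) (XT.lf (nat_lit 0) (nat_lit 130454120118) (nat_lit 228) (nat_lit 8478065442) (nat_lit 304) (nat_lit 24508178517) (nat_lit 28) (nat_lit 5) (nat_lit 31) (nat_lit 5) (nat_lit 32) (nat_lit 5) (nat_lit 327) (nat_lit 298) (nat_lit 95))) (XT.nd (nat_lit 78) (nat_lit 76) (nat_lit 0) (XT.lf (nat_lit 0) (nat_lit 29925669719) (nat_lit 152) (nat_lit 132302265730) (nat_lit 228) (nat_lit 6901781216) (nat_lit 26) (nat_lit 5) (nat_lit 28) (nat_lit 5) (nat_lit 29) (nat_lit 5) (nat_lit 328) (nat_lit 298) (nat_lit 94)) (XT.lf (nat_lit 0) (nat_lit 11920698465) (nat_lit 228) (nat_lit 78276539491) (nat_lit 76) (nat_lit 84861928450) (nat_lit 25) (nat_lit 5) (nat_lit 28) (nat_lit 5) (nat_lit 26) (nat_lit 5) (nat_lit 329) (nat_lit 298) (nat_lit 93)))))) (XT.nd (nat_lit 624) (nat_lit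 684) (nat_lit 0) (XT.nd (nat_lit 312) (nat_lit 0) (nat_lit 76) (XT.nd (nat_lit 156) (nat_lit 0) (nat_lit 0) (XT.nd (nat_lit 78) (nat_lit 0) (nat_lit 0) (XT.lf (nat_lit 0) (nat_lit 185888854) (nat_lit 0) (nat_lit 185888854) (nat_lit 684) (nat_lit 36327446634) (nat_lit 55) (nat_lit 5) (nat_lit 55) (nat_lit 3) (nat_lit 64) (nat_lit 3) (nat_lit 299) (nat_lit 299) (nat_lit 122)) (XT.lf (nat_lit 0) (nat_lit 1246496593) (nat_lit 684) (nat_lit 44602418260) (nat_lit 760) (nat_lit 29360224073) (nat_lit 55) (nat_lit 5) (nat_lit 64) (nat_lit 3) (nat_lit 65) (nat_lit 5) (nat_lit 300) (nat_lit 299) (nat_lit 121))) (XT.nd (nat_lit 78) (nat_lit 0) (nat_lit 76) (XT.lf (nat_lit 0) (nat_lit 1779993586) (nat_lit 684) (nat_lit 14763436679) (nat_lit 760) (nat_lit 60566666389) (nat_lit 55) (nat_lit 5) (nat_lit 64) (nat_lit 3) (nat_lit 65) (nat_lit 5) (nat_lit 301) (nat_lit 299) (nat_lit 120)) (XT.lf (nat_lit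 0) (nat_lit 2833237210) (nat_lit 684) (nat_lit 62204383640) (nat_lit 760) (nat_lit 14043831084) (nat_lit 56) (nat_lit 5) (nat_lit 65) (nat_lit 5) (nat_lit 66) (nat_lit 5) (nat_lit 302) (nat_lit 299) (nat_lit 119)))) (XT.nd (nat_lit 156) (nat_lit 0) (nat_lit 76) (XT.nd (nat_lit 78) (nat_lit 0) (nat_lit 0) (XT.lf (nat_lit 0) (nat_lit 4463847757) (nat_lit 684) (nat_lit 30802427697) (nat_lit 760) (nat_lit 45858867385) (nat_lit 56) (nat_lit 5) (nat_lit 65) (nat_lit 5) (nat_lit 66) (nat_lit 5) (nat_lit 303) (nat_lit 299) (nat_lit 118)) (XT.lf (nat_lit 76) (nat_lit 2240967023) (nat_lit 0) (nat_lit 3969415522) (nat_lit 760) (nat_lit 77058919008) (nat_lit 57) (nat_lit 5) (nat_lit 56) (nat_lit 5) (nat_lit 66) (nat_lit 5) (nat_lit 304) (nat_lit 299) (nat_lit 117))) (XT.nd (nat_lit 78) (nat_lit 0) (nat_lit 0) (XT.lf (nat_lit 0) (nat_lit 9024970732) (nat_lit 684) (nat_lit 47948716758) (nat_lit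 760) (nat_lit 28497947191) (nat_lit 57) (nat_lit 5) (nat_lit 66) (nat_lit 5) (nat_lit 67) (nat_lit 5) (nat_lit 305) (nat_lit 299) (nat_lit 116)) (XT.lf (nat_lit 0) (nat_lit 12044819149) (nat_lit 684) (nat_lit 13280583042) (nat_lit 760) (nat_lit 62455458410) (nat_lit 57) (nat_lit 5) (nat_lit 66) (nat_lit 5) (nat_lit 67) (nat_lit 5) (nat_lit 306) (nat_lit 299) (nat_lit 115))))) (XT.nd (nat_lit 312) (nat_lit 912) (nat_lit 0) (XT.nd (nat_lit 156) (nat_lit 0) (nat_lit 0) (XT.nd (nat_lit 78) (nat_lit 0) (nat_lit 0) (XT.lf (nat_lit 0) (nat_lit 15717596233) (nat_lit 684) (nat_lit 66431415510) (nat_lit 760) (nat_lit 8031441811) (nat_lit 58) (nat_lit 5) (nat_lit 67) (nat_lit 5) (nat_lit 68) (nat_lit 5) (nat_lit 307) (nat_lit 299) (nat_lit 114)) (XT.lf (nat_lit 0) (nat_lit 20217287957) (nat_lit 684) (nat_lit 30016823215) (nat_lit 760) (nat_lit 42433753621) (nat_lit 58) (nat_lit 5) (nat_lit 67)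 (nat_lit 5) (nat_lit 68) (nat_lit 5) (nat_lit 308) (nat_lit 299) (nat_lit 113))) (XT.nd (nat_lit 78) (nat_lit 0) (nat_lit 76) (XT.lf (nat_lit 76) (nat_lit 8489848655) (nat_lit 0) (nat_lit 16584194570) (nat_lit 760) (nat_lit 70199001733) (nat_lit 59) (nat_lit 5) (nat_lit 58) (nat_lit 5) (nat_lit 68) (nat_lit 5) (nat_lit 309) (nat_lit 299) (nat_lit 112)) (XT.lf (nat_lit 0) (nat_lit 30982578055) (nat_lit 684) (nat_lit 48320540384) (nat_lit 76) (nat_lit 18664920804) (nat_lit 59) (nat_lit 5) (nat_lit 68) (nat_lit 5) (nat_lit 60) (nat_lit 5) (nat_lit 310) (nat_lit 299) (nat_lit 111)))) (XT.nd (nat_lit 156) (nat_lit 304) (nat_lit 0) (XT.nd (nat_lit 78) (nat_lit 684) (nat_lit 0) (XT.lf (nat_lit 0) (nat_lit 37457979815) (nat_lit 684) (nat_lit 8207003088) (nat_lit 76) (nat_lit 55119230427) (nat_lit 59) (nat_lit 5) (nat_lit 68) (nat_lit 5) (nat_lit 60) (nat_lit 5) (nat_lit 311) (nat_lit 299)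 (nat_lit 110)) (XT.lf (nat_lit 0) (nat_lit 35033128664) (nat_lit 684) (nat_lit 9770577027) (nat_lit 760) (nat_lit 58910164725) (nat_lit 50) (nat_lit 5) (nat_lit 59) (nat_lit 5) (nat_lit 60) (nat_lit 5) (nat_lit 312) (nat_lit 299) (nat_lit 109))) (XT.nd (nat_lit 78) (nat_lit 304) (nat_lit 0) (XT.lf (nat_lit 0) (nat_lit 53093476141) (nat_lit 760) (nat_lit 26501408472) (nat_lit 76) (nat_lit 27166289734) (nat_lit 50) (nat_lit 5) (nat_lit 60) (nat_lit 5) (nat_lit 51) (nat_lit 5) (nat_lit 313) (nat_lit 299) (nat_lit 108)) (XT.nd (nat_lit 78) (nat_lit 0) (nat_lit 0) (XT.lf (nat_lit 0) (nat_lit 18209165177) (nat_lit 304) (nat_lit 44032661712) (nat_lit 380) (nat_lit 47696813806) (nat_lit 46) (nat_lit 5) (nat_lit 50) (nat_lit 5) (nat_lit 51) (nat_lit 5) (nat_lit 314) (nat_lit 299) (nat_lit 107)) (XT.lf (nat_lit 0) (nat_lit 66074982470) (nat_lit 304) (nat_lit 6221061623) (nat_lit 380) (nat_lit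 40956515548) (nat_lit 46) (nat_lit 5) (nat_lit 50) (nat_lit 5) (nat_lit 51) (nat_lit 5) (nat_lit 315) (nat_lit 299) (nat_lit 106))))))))
noncomputable def xc249 : XT := (XT.nd (nat_lit 36582) (nat_lit 0) (nat_lit 836) (XT.nd (nat_lit 624) (nat_lit 456) (nat_lit 0) (XT.nd (nat_lit 312) (nat_lit 380) (nat_lit 0) (XT.nd (nat_lit 156) (nat_lit 228) (nat_lit 0) (XT.nd (nat_lit 78) (nat_lit 304) (nat_lit 0) (XT.lf (nat_lit 0) (nat_lit 83375358548) (nat_lit 380) (nat_lit 921174438) (nat_lit 76) (nat_lit 32409523871) (nat_lit 46) (nat_lit 5) (nat_lit 51) (nat_lit 5) (nat_lit 47) (nat_lit 5) (nat_lit 316) (nat_lit 299) (nat_lit 105)) (XT.lf (nat_lit 0) (nat_lit 49117800716) (nat_lit 304) (nat_lit 46759358005) (nat_lit 380) (nat_lit 24411645778) (nat_lit 42) (nat_lit 5) (nat_lit 46) (nat_lit 5) (nat_lit 47) (nat_lit 5) (nat_lit 317) (nat_lit 299) (nat_lit 104))) (XT.nd (nat_lit 78) (nat_lit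 228) (nat_lit 0) (XT.lf (nat_lit 0) (nat_lit 101690371734) (nat_lit 304) (nat_lit 7328957117) (nat_lit 380) (nat_lit 15030598166) (nat_lit 42) (nat_lit 5) (nat_lit 46) (nat_lit 5) (nat_lit 47) (nat_lit 5) (nat_lit 318) (nat_lit 299) (nat_lit 103)) (XT.lf (nat_lit 0) (nat_lit 29297871467) (nat_lit 228) (nat_lit 94509826835) (nat_lit 304) (nat_lit 4141954238) (nat_lit 39) (nat_lit 5) (nat_lit 42) (nat_lit 5) (nat_lit 43) (nat_lit 5) (nat_lit 319) (nat_lit 299) (nat_lit 102)))) (XT.nd (nat_lit 156) (nat_lit 0) (nat_lit 0) (XT.nd (nat_lit 78) (nat_lit 304) (nat_lit 0) (XT.lf (nat_lit 0) (nat_lit 7562482606) (nat_lit 304) (nat_lit 47951517864) (nat_lit 76) (nat_lit 76499437306) (nat_lit 38) (nat_lit 5) (nat_lit 42) (nat_lit 5) (nat_lit 39) (nat_lit 5) (nat_lit 320) (nat_lit 299) (nat_lit 101)) (XT.lf (nat_lit 0) (nat_lit 5387982456) (nat_lit 304) (nat_lit 14408795639) (nat_lit 380) (nat_lit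 116476048678) (nat_lit 34) (nat_lit 5) (nat_lit 38) (nat_lit 5) (nat_lit 39) (nat_lit 5) (nat_lit 321) (nat_lit 299) (nat_lit 100))) (XT.nd (nat_lit 78) (nat_lit 0) (nat_lit 0) (XT.lf (nat_lit 0) (nat_lit 33916797701) (nat_lit 380) (nat_lit 78107895378) (nat_lit 76) (nat_lit 28656792844) (nat_lit 34) (nat_lit 5) (nat_lit 39) (nat_lit 5) (nat_lit 35) (nat_lit 5) (nat_lit 322) (nat_lit 299) (nat_lit 99)) (XT.lf (nat_lit 0) (nat_lit 48978761598) (nat_lit 380) (nat_lit 22928626393) (nat_lit 76) (nat_lit 73391393983) (nat_lit 34) (nat_lit 5) (nat_lit 39) (nat_lit 5) (nat_lit 35) (nat_lit 5) (nat_lit 323) (nat_lit 299) (nat_lit 98))))) (XT.nd (nat_lit 312) (nat_lit 0) (nat_lit 0) (XT.nd (nat_lit 156) (nat_lit 228) (nat_lit 0) (XT.nd (nat_lit 78) (nat_lit 0) (nat_lit 0) (XT.lf (nat_lit 0) (nat_lit 36166869208) (nat_lit 228) (nat_lit 29191366903) (nat_lit 304) (nat_lit 84760487157) (nat_lit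 31) (nat_lit 5) (nat_lit 34) (nat_lit 5) (nat_lit 35) (nat_lit 5) (nat_lit 324) (nat_lit 299) (nat_lit 97)) (XT.lf (nat_lit 0) (nat_lit 83195613895) (nat_lit 304) (nat_lit 56398255980) (nat_lit 76) (nat_lit 15553846282) (nat_lit 31) (nat_lit 5) (nat_lit 35) (nat_lit 5) (nat_lit 32) (nat_lit 5) (nat_lit 325) (nat_lit 299) (nat_lit 96))) (XT.nd (nat_lit 78) (nat_lit 0) (nat_lit 0) (XT.lf (nat_lit 0) (nat_lit 3671696846) (nat_lit 228) (nat_lit 98788800836) (nat_lit 304) (nat_lit 57940880114) (nat_lit 28) (nat_lit 5) (nat_lit 31) (nat_lit 5) (nat_lit 32) (nat_lit 5) (nat_lit 326) (nat_lit 299) (nat_lit 95)) (XT.lf (nat_lit 0) (nat_lit 68702876787) (nat_lit 228) (nat_lit 54940651937) (nat_lit 304) (nat_lit 42226449554) (nat_lit 28) (nat_lit 5) (nat_lit 31) (nat_lit 5) (nat_lit 32) (nat_lit 5) (nat_lit 327) (nat_lit 299) (nat_lit 94)))) (XT.nd (nat_lit 35412) (nat_lit 0) (nat_lit 2052) (XT.nd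 (nat_lit 35334) (nat_lit 0) (nat_lit 2052) (XT.lf (nat_lit 0) (nat_lit 136985338940) (nat_lit 228) (nat_lit 8900154578) (nat_lit 304) (nat_lit 25726527029) (nat_lit 28) (nat_lit 5) (nat_lit 31) (nat_lit 5) (nat_lit 32) (nat_lit 5) (nat_lit 328) (nat_lit 299) (nat_lit 93)) (XT.lf (nat_lit 0) (nat_lit 200499129) (nat_lit 0) (nat_lit 200499129) (nat_lit 684) (nat_lit 38132603187) (nat_lit 55) (nat_lit 5) (nat_lit 55) (nat_lit 3) (nat_lit 64) (nat_lit 3) (nat_lit 300) (nat_lit 300) (nat_lit 120))) (XT.nd (nat_lit 78) (nat_lit 0) (nat_lit 0) (XT.lf (nat_lit 0) (nat_lit 1328914127) (nat_lit 684) (nat_lit 46821143094) (nat_lit 760) (nat_lit 30818433958) (nat_lit 55) (nat_lit 5) (nat_lit 64) (nat_lit 3) (nat_lit 65) (nat_lit 5) (nat_lit 301) (nat_lit 300) (nat_lit 119)) (XT.nd (nat_lit 78) (nat_lit 0) (nat_lit 76) (XT.lf (nat_lit 0) (nat_lit 1888129174) (nat_lit 684) (nat_lit 15490755105)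 (nat_lit 760) (nat_lit 63585665119) (nat_lit 55) (nat_lit 5) (nat_lit 64) (nat_lit 3) (nat_lit 65) (nat_lit 5) (nat_lit 302) (nat_lit 300) (nat_lit 118)) (XT.lf (nat_lit 0) (nat_lit 2993170042) (nat_lit 684) (nat_lit 65302793721) (nat_lit 760) (nat_lit 14738556463) (nat_lit 56) (nat_lit 5) (nat_lit 65) (nat_lit 5) (nat_lit 66) (nat_lit 5) (nat_lit 303) (nat_lit 300) (nat_lit 117))))))) (XT.nd (nat_lit 624) (nat_lit 1292) (nat_lit 0) (XT.nd (nat_lit 312) (nat_lit 0) (nat_lit 152) (XT.nd (nat_lit 156) (nat_lit 0) (nat_lit 76) (XT.nd (nat_lit 78) (nat_lit 0) (nat_lit 0) (XT.lf (nat_lit 0) (nat_lit 4704441069) (nat_lit 684) (nat_lit 32331302318) (nat_lit 760) (nat_lit 48144700112) (nat_lit 56) (nat_lit 5) (nat_lit 65) (nat_lit 5) (nat_lit 66) (nat_lit 5) (nat_lit 304) (nat_lit 300) (nat_lit 116)) (XT.lf (nat_lit 76) (nat_lit 2364080738) (nat_lit 0) (nat_lit 4173566005) (nat_lit 760) (nat_lit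 80894200316) (nat_lit 57) (nat_lit 5) (nat_lit 56) (nat_lit 5) (nat_lit 66) (nat_lit 5) (nat_lit 305) (nat_lit 300) (nat_lit 115))) (XT.nd (nat_lit 78) (nat_lit 0) (nat_lit 0) (XT.lf (nat_lit 0) (nat_lit 9492082502) (nat_lit 684) (nat_lit 50334653918) (nat_lit 760) (nat_lit 29917608436) (nat_lit 57) (nat_lit 5) (nat_lit 66) (nat_lit 5) (nat_lit 67) (nat_lit 5) (nat_lit 306) (nat_lit 300) (nat_lit 114)) (XT.lf (nat_lit 0) (nat_lit 12662167948) (nat_lit 684) (nat_lit 13933661072) (nat_lit 760) (nat_lit 65573244554) (nat_lit 57) (nat_lit 5) (nat_lit 66) (nat_lit 5) (nat_lit 67) (nat_lit 5) (nat_lit 307) (nat_lit 300) (nat_lit 113)))) (XT.nd (nat_lit 156) (nat_lit 0) (nat_lit 0) (XT.nd (nat_lit 78) (nat_lit 0) (nat_lit 0) (XT.lf (nat_lit 0) (nat_lit 16517973635) (nat_lit 684) (nat_lit 69741353803) (nat_lit 760) (nat_lit 8429352805) (nat_lit 58) (nat_lit 5) (nat_lit 67) (nat_lit 5) (nat_lit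 68) (nat_lit 5) (nat_lit 308) (nat_lit 300) (nat_lit 112)) (XT.lf (nat_lit 0) (nat_lit 21241959584) (nat_lit 684) (nat_lit 31506585820) (nat_lit 760) (nat_lit 44551954544) (nat_lit 58) (nat_lit 5) (nat_lit 67) (nat_lit 5) (nat_lit 68) (nat_lit 5) (nat_lit 309) (nat_lit 300) (nat_lit 111))) (XT.nd (nat_lit 78) (nat_lit 0) (nat_lit 76) (XT.lf (nat_lit 76) (nat_lit 8925240957) (nat_lit 0) (nat_lit 17415824348) (nat_lit 760) (nat_lit 73694901406) (nat_lit 59) (nat_lit 5) (nat_lit 58) (nat_lit 5) (nat_lit 68) (nat_lit 5) (nat_lit 310) (nat_lit 300) (nat_lit 110)) (XT.lf (nat_lit 0) (nat_lit 32544356610) (nat_lit 684) (nat_lit 50725454882) (nat_lit 76) (nat_lit 19595935802) (nat_lit 59) (nat_lit 5) (nat_lit 68) (nat_lit 5) (nat_lit 60) (nat_lit 5) (nat_lit 311) (nat_lit 300) (nat_lit 109))))) (XT.nd (nat_lit 312) (nat_lit 532) (nat_lit 0) (XT.nd (nat_lit 156) (nat_lit 304) (nat_lit 0) (XT.nd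 (nat_lit 78) (nat_lit 684) (nat_lit 0) (XT.lf (nat_lit 0) (nat_lit 39342926094) (nat_lit 684) (nat_lit 8606769889) (nat_lit 76) (nat_lit 57873067147) (nat_lit 59) (nat_lit 5) (nat_lit 68) (nat_lit 5) (nat_lit 60) (nat_lit 5) (nat_lit 312) (nat_lit 300) (nat_lit 108)) (XT.lf (nat_lit 0) (nat_lit 36795197752) (nat_lit 684) (nat_lit 10260329403) (nat_lit 760) (nat_lit 61843399257) (nat_lit 50) (nat_lit 5) (nat_lit 59) (nat_lit 5) (nat_lit 60) (nat_lit 5) (nat_lit 313) (nat_lit 300) (nat_lit 107))) (XT.nd (nat_lit 78) (nat_lit 304) (nat_lit 0) (XT.lf (nat_lit 0) (nat_lit 55759213830) (nat_lit 760) (nat_lit 27815936722) (nat_lit 76) (nat_lit 28523476255) (nat_lit 50) (nat_lit 5) (nat_lit 60) (nat_lit 5) (nat_lit 51) (nat_lit 5) (nat_lit 314) (nat_lit 300) (nat_lit 106)) (XT.lf (nat_lit 0) (nat_lit 19129995575) (nat_lit 304) (nat_lit 46234621627) (nat_lit 380) (nat_lit 50070370043) (nat_lit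 46) (nat_lit 5) (nat_lit 50) (nat_lit 5) (nat_lit 51) (nat_lit 5) (nat_lit 315) (nat_lit 300) (nat_lit 105)))) (XT.nd (nat_lit 156) (nat_lit 532) (nat_lit 0) (XT.nd (nat_lit 78) (nat_lit 0) (nat_lit 0) (XT.lf (nat_lit 0) (nat_lit 69388609821) (nat_lit 304) (nat_lit 6532425970) (nat_lit 380) (nat_lit 42993594227) (nat_lit 46) (nat_lit 5) (nat_lit 50) (nat_lit 5) (nat_lit 51) (nat_lit 5) (nat_lit 316) (nat_lit 300) (nat_lit 104)) (XT.lf (nat_lit 0) (nat_lit 87553826127) (nat_lit 380) (nat_lit 957289644) (nat_lit 76) (nat_lit 34029713109) (nat_lit 46) (nat_lit 5) (nat_lit 51) (nat_lit 5) (nat_lit 47) (nat_lit 5) (nat_lit 317) (nat_lit 300) (nat_lit 103))) (XT.nd (nat_lit 78) (nat_lit 228) (nat_lit 0) (XT.lf (nat_lit 0) (nat_lit 51583473889) (nat_lit 304) (nat_lit 49096933274) (nat_lit 380) (nat_lit 25622324381) (nat_lit 42) (nat_lit 5) (nat_lit 46) (nat_lit 5) (nat_lit 47) (nat_lit 5)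 (nat_lit 318) (nat_lit 300) (nat_lit 102)) (XT.nd (nat_lit 78) (nat_lit 228) (nat_lit 0) (XT.lf (nat_lit 0) (nat_lit 106784207594) (nat_lit 304) (nat_lit 7695031039) (nat_lit 380) (nat_lit 15772695993) (nat_lit 42) (nat_lit 5) (nat_lit 46) (nat_lit 5) (nat_lit 47) (nat_lit 5) (nat_lit 319) (nat_lit 300) (nat_lit 101)) (XT.lf (nat_lit 0) (nat_lit 30772407151) (nat_lit 228) (nat_lit 99234349632) (nat_lit 304) (nat_lit 4339905109) (nat_lit 39) (nat_lit 5) (nat_lit 42) (nat_lit 5) (nat_lit 43) (nat_lit 5) (nat_lit 320) (nat_lit 300) (nat_lit 100))))))))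
noncomputable def xc250 : XT := (XT.nd (nat_lit 36660) (nat_lit 0) (nat_lit 228) (XT.nd (nat_lit 35958) (nat_lit 0) (nat_lit 2052) (XT.nd (nat_lit 312) (nat_lit 456) (nat_lit 0) (XT.nd (nat_lit 156) (nat_lit 0) (nat_lit 0) (XT.nd (nat_lit 78) (nat_lit 304) (nat_lit 0) (XT.lf (nat_lit 0) (nat_lit 7949039198) (nat_lit 304) (nat_lit 50339596064) (nat_lit 76) (nat_lit 80325016864) (nat_lit 38) (nat_lit 5) (nat_lit 42) (nat_lit 5) (nat_lit 39) (nat_lit 5) (nat_lit 321) (nat_lit 300) (nat_lit 99)) (XT.lf (nat_lit 0) (nat_lit 5666726084) (nat_lit 304) (nat_lit 15128067726) (nat_lit 380) (nat_lit 122291231257) (nat_lit 34) (nat_lit 5) (nat_lit 38) (nat_lit 5) (nat_lit 39) (nat_lit 5) (nat_lit 322) (nat_lit 300) (nat_lit 98))) (XT.nd (nat_lit 78) (nat_lit 0) (nat_lit 0) (XT.lf (nat_lit 0) (nat_lit 35620442387) (nat_lit 380) (nat_lit 82003986033) (nat_lit 76) (nat_lit 30090708983) (nat_lit 34)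 (nat_lit 5) (nat_lit 39) (nat_lit 5) (nat_lit 35) (nat_lit 5) (nat_lit 323) (nat_lit 300) (nat_lit 97)) (XT.lf (nat_lit 0) (nat_lit 51435132821) (nat_lit 380) (nat_lit 24066196652) (nat_lit 76) (nat_lit 77061988918) (nat_lit 34) (nat_lit 5) (nat_lit 39) (nat_lit 5) (nat_lit 35) (nat_lit 5) (nat_lit 324) (nat_lit 300) (nat_lit 96)))) (XT.nd (nat_lit 156) (nat_lit 228) (nat_lit 0) (XT.nd (nat_lit 78) (nat_lit 0) (nat_lit 0) (XT.lf (nat_lit 0) (nat_lit 37983930809) (nat_lit 228) (nat_lit 30649432407) (nat_lit 304) (nat_lit 88990905903) (nat_lit 31) (nat_lit 5) (nat_lit 34) (nat_lit 5) (nat_lit 35) (nat_lit 5) (nat_lit 325) (nat_lit 300) (nat_lit 95)) (XT.lf (nat_lit 0) (nat_lit 87362288649) (nat_lit 304) (nat_lit 59209516408) (nat_lit 76) (nat_lit 16332924064) (nat_lit 31) (nat_lit 5) (nat_lit 35) (nat_lit 5) (nat_lit 32) (nat_lit 5) (nat_lit 326) (nat_lit 300) (nat_lit 94))) (XT.nd (nat_lit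 78) (nat_lit 0) (nat_lit 0) (XT.lf (nat_lit 0) (nat_lit 3863794505) (nat_lit 228) (nat_lit 103726426742) (nat_lit 304) (nat_lit 60830863705) (nat_lit 28) (nat_lit 5) (nat_lit 31) (nat_lit 5) (nat_lit 32) (nat_lit 5) (nat_lit 327) (nat_lit 300) (nat_lit 93)) (XT.lf (nat_lit 0) (nat_lit 72146128071) (nat_lit 228) (nat_lit 57685956785) (nat_lit 304) (nat_lit 44331047828) (nat_lit 28) (nat_lit 5) (nat_lit 31) (nat_lit 5) (nat_lit 32) (nat_lit 5) (nat_lit 328) (nat_lit 300) (nat_lit 92))))) (XT.nd (nat_lit 312) (nat_lit 0) (nat_lit 76) (XT.nd (nat_lit 156) (nat_lit 0) (nat_lit 0) (XT.nd (nat_lit 78) (nat_lit 0) (nat_lit 0) (XT.lf (nat_lit 0) (nat_lit 215345702) (nat_lit 0) (nat_lit 215345702) (nat_lit 684) (nat_lit 40029060305) (nat_lit 55) (nat_lit 5) (nat_lit 55) (nat_lit 3) (nat_lit 64) (nat_lit 3) (nat_lit 301) (nat_lit 301) (nat_lit 118)) (XT.lf (nat_lit 0) (nat_lit 1413584507) (nat_lit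 684) (nat_lit 49151863669) (nat_lit 760) (nat_lit 32350465571) (nat_lit 55) (nat_lit 5) (nat_lit 64) (nat_lit 3) (nat_lit 65) (nat_lit 5) (nat_lit 302) (nat_lit 301) (nat_lit 117))) (XT.nd (nat_lit 78) (nat_lit 0) (nat_lit 76) (XT.lf (nat_lit 0) (nat_lit 1999892465) (nat_lit 684) (nat_lit 16255448499) (nat_lit 760) (nat_lit 66756481628) (nat_lit 55) (nat_lit 5) (nat_lit 64) (nat_lit 3) (nat_lit 65) (nat_lit 5) (nat_lit 303) (nat_lit 301) (nat_lit 116)) (XT.lf (nat_lit 0) (nat_lit 3159400854) (nat_lit 684) (nat_lit 68557222204) (nat_lit 760) (nat_lit 15468712246) (nat_lit 56) (nat_lit 5) (nat_lit 65) (nat_lit 5) (nat_lit 66) (nat_lit 5) (nat_lit 304) (nat_lit 301) (nat_lit 115)))) (XT.nd (nat_lit 156) (nat_lit 0) (nat_lit 76) (XT.nd (nat_lit 78) (nat_lit 0) (nat_lit 0) (XT.lf (nat_lit 0) (nat_lit 4955446275) (nat_lit 684) (nat_lit 33937666288) (nat_lit 760) (nat_lit 50545485555) (nat_lit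 56) (nat_lit 5) (nat_lit 65) (nat_lit 5) (nat_lit 66) (nat_lit 5) (nat_lit 305) (nat_lit 301) (nat_lit 114)) (XT.lf (nat_lit 76) (nat_lit 2492321386) (nat_lit 0) (nat_lit 4387395967) (nat_lit 760) (nat_lit 84922887979) (nat_lit 57) (nat_lit 5) (nat_lit 56) (nat_lit 5) (nat_lit 66) (nat_lit 5) (nat_lit 306) (nat_lit 301) (nat_lit 113))) (XT.nd (nat_lit 78) (nat_lit 0) (nat_lit 0) (XT.lf (nat_lit 0) (nat_lit 9981075047) (nat_lit 684) (nat_lit 52840956973) (nat_lit 760) (nat_lit 31408739547) (nat_lit 57) (nat_lit 5) (nat_lit 66) (nat_lit 5) (nat_lit 67) (nat_lit 5) (nat_lit 307) (nat_lit 301) (nat_lit 112)) (XT.nd (nat_lit 78) (nat_lit 0) (nat_lit 76) (XT.lf (nat_lit 0) (nat_lit 13308979602) (nat_lit 684) (nat_lit 14620411135) (nat_lit 760) (nat_lit 68847383629) (nat_lit 57) (nat_lit 5) (nat_lit 66) (nat_lit 5) (nat_lit 67) (nat_lit 5) (nat_lit 308) (nat_lit 301) (nat_lit 111)) (XT.lf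 (nat_lit 0) (nat_lit 17357022058) (nat_lit 684) (nat_lit 73217870488) (nat_lit 760) (nat_lit 8847499723) (nat_lit 58) (nat_lit 5) (nat_lit 67) (nat_lit 5) (nat_lit 68) (nat_lit 5) (nat_lit 309) (nat_lit 301) (nat_lit 110))))))) (XT.nd (nat_lit 624) (nat_lit 1140) (nat_lit 0) (XT.nd (nat_lit 312) (nat_lit 912) (nat_lit 0) (XT.nd (nat_lit 156) (nat_lit 0) (nat_lit 76) (XT.nd (nat_lit 78) (nat_lit 0) (nat_lit 0) (XT.lf (nat_lit 0) (nat_lit 22316581126) (nat_lit 684) (nat_lit 33071866535) (nat_lit 760) (nat_lit 46776389678) (nat_lit 58) (nat_lit 5) (nat_lit 67) (nat_lit 5) (nat_lit 68) (nat_lit 5) (nat_lit 310) (nat_lit 301) (nat_lit 109)) (XT.lf (nat_lit 76) (nat_lit 9381389507) (nat_lit 0) (nat_lit 18288810622) (nat_lit 760) (nat_lit 77366902337) (nat_lit 59) (nat_lit 5) (nat_lit 58) (nat_lit 5) (nat_lit 68) (nat_lit 5) (nat_lit 311) (nat_lit 301) (nat_lit 108))) (XT.nd (nat_lit 78)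 (nat_lit 0) (nat_lit 0) (XT.lf (nat_lit 0) (nat_lit 34183048049) (nat_lit 684) (nat_lit 53251648242) (nat_lit 76) (nat_lit 20573708972) (nat_lit 59) (nat_lit 5) (nat_lit 68) (nat_lit 5) (nat_lit 60) (nat_lit 5) (nat_lit 312) (nat_lit 301) (nat_lit 107)) (XT.lf (nat_lit 0) (nat_lit 41320999644) (nat_lit 684) (nat_lit 9027508970) (nat_lit 76) (nat_lit 60764793247) (nat_lit 59) (nat_lit 5) (nat_lit 68) (nat_lit 5) (nat_lit 60) (nat_lit 5) (nat_lit 313) (nat_lit 301) (nat_lit 106)))) (XT.nd (nat_lit 156) (nat_lit 304) (nat_lit 0) (XT.nd (nat_lit 78) (nat_lit 0) (nat_lit 0) (XT.lf (nat_lit 0) (nat_lit 38644402224) (nat_lit 684) (nat_lit 10774455646) (nat_lit 760) (nat_lit 64924436609) (nat_lit 50) (nat_lit 5) (nat_lit 59) (nat_lit 5) (nat_lit 60) (nat_lit 5) (nat_lit 314) (nat_lit 301) (nat_lit 105)) (XT.lf (nat_lit 0) (nat_lit 58557209788) (nat_lit 760) (nat_lit 29197171495) (nat_lit 76)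 (nat_lit 29948626970) (nat_lit 50) (nat_lit 5) (nat_lit 60) (nat_lit 5) (nat_lit 51) (nat_lit 5) (nat_lit 315) (nat_lit 301) (nat_lit 104))) (XT.nd (nat_lit 78) (nat_lit 0) (nat_lit 0) (XT.lf (nat_lit 0) (nat_lit 20095903189) (nat_lit 304) (nat_lit 48546649153) (nat_lit 380) (nat_lit 52563653213) (nat_lit 46) (nat_lit 5) (nat_lit 50) (nat_lit 5) (nat_lit 51) (nat_lit 5) (nat_lit 316) (nat_lit 301) (nat_lit 103)) (XT.lf (nat_lit 0) (nat_lit 72867000155) (nat_lit 304) (nat_lit 6859329597) (nat_lit 380) (nat_lit 45133526003) (nat_lit 46) (nat_lit 5) (nat_lit 50) (nat_lit 5) (nat_lit 51) (nat_lit 5) (nat_lit 317) (nat_lit 301) (nat_lit 102))))) (XT.nd (nat_lit 312) (nat_lit 608) (nat_lit 0) (XT.nd (nat_lit 156) (nat_lit 228) (nat_lit 0) (XT.nd (nat_lit 78) (nat_lit 304) (nat_lit 0) (XT.lf (nat_lit 0) (nat_lit 91940315303) (nat_lit 380) (nat_lit 996135064) (nat_lit 76) (nat_lit 35730938487)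 (nat_lit 46) (nat_lit 5) (nat_lit 51) (nat_lit 5) (nat_lit 47) (nat_lit 5) (nat_lit 318) (nat_lit 301) (nat_lit 101)) (XT.lf (nat_lit 0) (nat_lit 54171521177) (nat_lit 304) (nat_lit 51551423810) (nat_lit 380) (nat_lit 26894457665) (nat_lit 42) (nat_lit 5) (nat_lit 46) (nat_lit 5) (nat_lit 47) (nat_lit 5) (nat_lit 319) (nat_lit 301) (nat_lit 100))) (XT.nd (nat_lit 78) (nat_lit 228) (nat_lit 0) (XT.lf (nat_lit 0) (nat_lit 112131869015) (nat_lit 304) (nat_lit 8079443421) (nat_lit 380) (nat_lit 16552775616) (nat_lit 42) (nat_lit 5) (nat_lit 46) (nat_lit 5) (nat_lit 47) (nat_lit 5) (nat_lit 320) (nat_lit 301) (nat_lit 99)) (XT.lf (nat_lit 0) (nat_lit 32319773188) (nat_lit 228) (nat_lit 104195188614) (nat_lit 304) (nat_lit 4548603910) (nat_lit 39) (nat_lit 5) (nat_lit 42) (nat_lit 5) (nat_lit 43) (nat_lit 5) (nat_lit 321) (nat_lit 301) (nat_lit 98)))) (XT.nd (nat_lit 156) (nat_lit 228) (nat_lit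 0) (XT.nd (nat_lit 78) (nat_lit 304) (nat_lit 0) (XT.lf (nat_lit 0) (nat_lit 8354139649) (nat_lit 304) (nat_lit 52847961179) (nat_lit 76) (nat_lit 84341818903) (nat_lit 38) (nat_lit 5) (nat_lit 42) (nat_lit 5) (nat_lit 39) (nat_lit 5) (nat_lit 322) (nat_lit 301) (nat_lit 97)) (XT.lf (nat_lit 0) (nat_lit 5958538129) (nat_lit 304) (nat_lit 15883411979) (nat_lit 380) (nat_lit 128397974357) (nat_lit 34) (nat_lit 5) (nat_lit 38) (nat_lit 5) (nat_lit 39) (nat_lit 5) (nat_lit 323) (nat_lit 301) (nat_lit 96))) (XT.nd (nat_lit 78) (nat_lit 228) (nat_lit 0) (XT.lf (nat_lit 0) (nat_lit 37408543690) (nat_lit 380) (nat_lit 86095746229) (nat_lit 76) (nat_lit 31596220846) (nat_lit 34) (nat_lit 5) (nat_lit 39) (nat_lit 5) (nat_lit 35) (nat_lit 5) (nat_lit 324) (nat_lit 301) (nat_lit 95)) (XT.nd (nat_lit 78) (nat_lit 228) (nat_lit 0) (XT.lf (nat_lit 0) (nat_lit 54013631543) (nat_lit 380) (nat_lit 25261469241)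 (nat_lit 76) (nat_lit 80916018282) (nat_lit 34) (nat_lit 5) (nat_lit 39) (nat_lit 5) (nat_lit 35) (nat_lit 5) (nat_lit 325) (nat_lit 301) (nat_lit 94)) (XT.lf (nat_lit 0) (nat_lit 39891034959) (nat_lit 228) (nat_lit 32180540906) (nat_lit 304) (nat_lit 93433552684) (nat_lit 31) (nat_lit 5) (nat_lit 34) (nat_lit 5) (nat_lit 35) (nat_lit 5) (nat_lit 326) (nat_lit 301) (nat_lit 93))))))))
noncomputable def xc251 : XT := (XT.nd (nat_lit 36816) (nat_lit 0) (nat_lit 228) (XT.nd (nat_lit 36114) (nat_lit 0) (nat_lit 1140) (XT.nd (nat_lit 35802) (nat_lit 0) (nat_lit 1900) (XT.nd (nat_lit 35646) (nat_lit 0) (nat_lit 1824) (XT.nd (nat_lit 35568) (nat_lit 0) (nat_lit 1824) (XT.lf (nat_lit 0) (nat_lit 91736656197) (nat_lit 304) (nat_lit 62162144273) (nat_lit 76) (nat_lit 17150826928) (nat_lit 31) (nat_lit 5) (nat_lit 35) (nat_lit 5) (nat_lit 32) (nat_lit 5) (nat_lit 327) (nat_lit 301) (nat_lit 92))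 (XT.lf (nat_lit 0) (nat_lit 230486336) (nat_lit 0) (nat_lit 230486336) (nat_lit 684) (nat_lit 42021286071) (nat_lit 55) (nat_lit 5) (nat_lit 55) (nat_lit 3) (nat_lit 64) (nat_lit 3) (nat_lit 302) (nat_lit 302) (nat_lit 116))) (XT.nd (nat_lit 78) (nat_lit 0) (nat_lit 0) (XT.lf (nat_lit 0) (nat_lit 1500794050) (nat_lit 684) (nat_lit 51600081271) (nat_lit 760) (nat_lit 33959925280) (nat_lit 55) (nat_lit 5) (nat_lit 64) (nat_lit 3) (nat_lit 65) (nat_lit 5) (nat_lit 303) (nat_lit 302) (nat_lit 115)) (XT.lf (nat_lit 0) (nat_lit 2115630248) (nat_lit 684) (nat_lit 17059291798) (nat_lit 760) (nat_lit 70086626119) (nat_lit 55) (nat_lit 5) (nat_lit 64) (nat_lit 3) (nat_lit 65) (nat_lit 5) (nat_lit 304) (nat_lit 302) (nat_lit 114)))) (XT.nd (nat_lit 156) (nat_lit 0) (nat_lit 0) (XT.nd (nat_lit 78) (nat_lit 0) (nat_lit 0) (XT.lf (nat_lit 0) (nat_lit 3332402470) (nat_lit 684) (nat_lit 71975367937)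 (nat_lit 760) (nat_lit 16236005418) (nat_lit 56) (nat_lit 5) (nat_lit 65) (nat_lit 5) (nat_lit 66) (nat_lit 5) (nat_lit 305) (nat_lit 302) (nat_lit 113)) (XT.lf (nat_lit 0) (nat_lit 5217534373) (nat_lit 684) (nat_lit 35625296863) (nat_lit 760) (nat_lit 53066909890) (nat_lit 56) (nat_lit 5) (nat_lit 65) (nat_lit 5) (nat_lit 66) (nat_lit 5) (nat_lit 306) (nat_lit 302) (nat_lit 112))) (XT.nd (nat_lit 78) (nat_lit 0) (nat_lit 76) (XT.lf (nat_lit 76) (nat_lit 2626040958) (nat_lit 0) (nat_lit 4611438475) (nat_lit 760) (nat_lit 89154499633) (nat_lit 57) (nat_lit 5) (nat_lit 56) (nat_lit 5) (nat_lit 66) (nat_lit 5) (nat_lit 307) (nat_lit 302) (nat_lit 111)) (XT.lf (nat_lit 0) (nat_lit 10493179521) (nat_lit 684) (nat_lit 55473544831) (nat_lit 760) (nat_lit 32974868759) (nat_lit 57) (nat_lit 5) (nat_lit 66) (nat_lit 5) (nat_lit 67) (nat_lit 5) (nat_lit 308) (nat_lit 302) (nat_lit 110))))) (XT.nd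 (nat_lit 312) (nat_lit 836) (nat_lit 0) (XT.nd (nat_lit 156) (nat_lit 0) (nat_lit 76) (XT.nd (nat_lit 78) (nat_lit 0) (nat_lit 76) (XT.lf (nat_lit 0) (nat_lit 13986857841) (nat_lit 684) (nat_lit 15342422177) (nat_lit 760) (nat_lit 72285650177) (nat_lit 57) (nat_lit 5) (nat_lit 66) (nat_lit 5) (nat_lit 67) (nat_lit 5) (nat_lit 309) (nat_lit 302) (nat_lit 109)) (XT.lf (nat_lit 0) (nat_lit 18236800364) (nat_lit 684) (nat_lit 76869193940) (nat_lit 760) (nat_lit 9286862716) (nat_lit 58) (nat_lit 5) (nat_lit 67) (nat_lit 5) (nat_lit 68) (nat_lit 5) (nat_lit 310) (nat_lit 302) (nat_lit 108))) (XT.nd (nat_lit 78) (nat_lit 0) (nat_lit 0) (XT.lf (nat_lit 0) (nat_lit 23443769424) (nat_lit 684) (nat_lit 34716345507) (nat_lit 760) (nat_lit 49112340597) (nat_lit 58) (nat_lit 5) (nat_lit 67) (nat_lit 5) (nat_lit 68) (nat_lit 5) (nat_lit 311) (nat_lit 302) (nat_lit 107)) (XT.lf (nat_lit 76) (nat_lit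 9859426331) (nat_lit 0) (nat_lit 19205242135) (nat_lit 760) (nat_lit 81223688143) (nat_lit 59) (nat_lit 5) (nat_lit 58) (nat_lit 5) (nat_lit 68) (nat_lit 5) (nat_lit 312) (nat_lit 302) (nat_lit 106)))) (XT.nd (nat_lit 156) (nat_lit 988) (nat_lit 0) (XT.nd (nat_lit 78) (nat_lit 0) (nat_lit 0) (XT.lf (nat_lit 0) (nat_lit 35902607352) (nat_lit 684) (nat_lit 55905088355) (nat_lit 76) (nat_lit 21600558938) (nat_lit 59) (nat_lit 5) (nat_lit 68) (nat_lit 5) (nat_lit 60) (nat_lit 5) (nat_lit 313) (nat_lit 302) (nat_lit 105)) (XT.lf (nat_lit 0) (nat_lit 43396960960) (nat_lit 684) (nat_lit 9470177467) (nat_lit 76) (nat_lit 63801284830) (nat_lit 59) (nat_lit 5) (nat_lit 68) (nat_lit 5) (nat_lit 60) (nat_lit 5) (nat_lit 314) (nat_lit 302) (nat_lit 104))) (XT.nd (nat_lit 78) (nat_lit 304) (nat_lit 0) (XT.lf (nat_lit 0) (nat_lit 40585188852) (nat_lit 684) (nat_lit 11314185024) (nat_lit 760) (nat_lit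 68160560833) (nat_lit 50) (nat_lit 5) (nat_lit 59) (nat_lit 5) (nat_lit 60) (nat_lit 5) (nat_lit 315) (nat_lit 302) (nat_lit 103)) (XT.nd (nat_lit 78) (nat_lit 304) (nat_lit 0) (XT.lf (nat_lit 0) (nat_lit 61494172561) (nat_lit 760) (nat_lit 30648356998) (nat_lit 76) (nat_lit 31445130338) (nat_lit 50) (nat_lit 5) (nat_lit 60) (nat_lit 5) (nat_lit 51) (nat_lit 5) (nat_lit 316) (nat_lit 302) (nat_lit 102)) (XT.lf (nat_lit 0) (nat_lit 21109231533) (nat_lit 304) (nat_lit 50974250494) (nat_lit 380) (nat_lit 55182552126) (nat_lit 46) (nat_lit 5) (nat_lit 50) (nat_lit 5) (nat_lit 51) (nat_lit 5) (nat_lit 317) (nat_lit 302) (nat_lit 101))))))) (XT.nd (nat_lit 624) (nat_lit 0) (nat_lit 0) (XT.nd (nat_lit 312) (nat_lit 608) (nat_lit 0) (XT.nd (nat_lit 156) (nat_lit 304) (nat_lit 0) (XT.nd (nat_lit 78) (nat_lit 0) (nat_lit 0) (XT.lf (nat_lit 0) (nat_lit 76518477005) (nat_lit 304) (nat_lit 7202552156)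 (nat_lit 380) (nat_lit 47381360639) (nat_lit 46) (nat_lit 5) (nat_lit 50) (nat_lit 5) (nat_lit 51) (nat_lit 5) (nat_lit 318) (nat_lit 302) (nat_lit 100)) (XT.lf (nat_lit 0) (nat_lit 96545310996) (nat_lit 380) (nat_lit 1037761262) (nat_lit 76) (nat_lit 37517249332) (nat_lit 46) (nat_lit 5) (nat_lit 51) (nat_lit 5) (nat_lit 47) (nat_lit 5) (nat_lit 319) (nat_lit 302) (nat_lit 99))) (XT.nd (nat_lit 78) (nat_lit 0) (nat_lit 0) (XT.lf (nat_lit 0) (nat_lit 56888145847) (nat_lit 304) (nat_lit 54128671982) (nat_lit 380) (nat_lit 28231032761) (nat_lit 42) (nat_lit 5) (nat_lit 46) (nat_lit 5) (nat_lit 47) (nat_lit 5) (nat_lit 320) (nat_lit 302) (nat_lit 98)) (XT.lf (nat_lit 0) (nat_lit 117746127809) (nat_lit 304) (nat_lit 8483107955) (nat_lit 380) (nat_lit 17372654599) (nat_lit 42) (nat_lit 5) (nat_lit 46) (nat_lit 5) (nat_lit 47) (nat_lit 5) (nat_lit 321) (nat_lit 302) (nat_lit 97)))) (XT.nd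 (nat_lit 156) (nat_lit 304) (nat_lit 0) (XT.nd (nat_lit 78) (nat_lit 76) (nat_lit 0) (XT.lf (nat_lit 0) (nat_lit 33943694436) (nat_lit 228) (nat_lit 109404151221) (nat_lit 304) (nat_lit 4768508977) (nat_lit 39) (nat_lit 5) (nat_lit 42) (nat_lit 5) (nat_lit 43) (nat_lit 5) (nat_lit 322) (nat_lit 302) (nat_lit 96)) (XT.lf (nat_lit 0) (nat_lit 8778784039) (nat_lit 304) (nat_lit 55482545462) (nat_lit 76) (nat_lit 88559409799) (nat_lit 38) (nat_lit 5) (nat_lit 42) (nat_lit 5) (nat_lit 39) (nat_lit 5) (nat_lit 323) (nat_lit 302) (nat_lit 95))) (XT.nd (nat_lit 78) (nat_lit 0) (nat_lit 0) (XT.lf (nat_lit 0) (nat_lit 6264152783) (nat_lit 304) (nat_lit 16676621912) (nat_lit 380) (nat_lit 134810781498) (nat_lit 34) (nat_lit 5) (nat_lit 38) (nat_lit 5) (nat_lit 39) (nat_lit 5) (nat_lit 324) (nat_lit 302) (nat_lit 94)) (XT.lf (nat_lit 0) (nat_lit 39285391904) (nat_lit 380) (nat_lit 90392879023)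 (nat_lit 76) (nat_lit 33176917525) (nat_lit 34) (nat_lit 5) (nat_lit 39) (nat_lit 5) (nat_lit 35) (nat_lit 5) (nat_lit 325) (nat_lit 302) (nat_lit 93))))) (XT.nd (nat_lit 35958) (nat_lit 0) (nat_lit 1672) (XT.nd (nat_lit 35802) (nat_lit 0) (nat_lit 1596) (XT.nd (nat_lit 35724) (nat_lit 0) (nat_lit 1596) (XT.lf (nat_lit 0) (nat_lit 56720428386) (nat_lit 380) (nat_lit 26517252687) (nat_lit 76) (nat_lit 84962662659) (nat_lit 34) (nat_lit 5) (nat_lit 39) (nat_lit 5) (nat_lit 35) (nat_lit 5) (nat_lit 326) (nat_lit 302) (nat_lit 92)) (XT.lf (nat_lit 0) (nat_lit 245977409) (nat_lit 0) (nat_lit 245977409) (nat_lit 684) (nat_lit 44113980988) (nat_lit 55) (nat_lit 5) (nat_lit 55) (nat_lit 3) (nat_lit 64) (nat_lit 3) (nat_lit 303) (nat_lit 303) (nat_lit 114))) (XT.nd (nat_lit 78) (nat_lit 0) (nat_lit 0) (XT.lf (nat_lit 0) (nat_lit 1590827237) (nat_lit 684) (nat_lit 54171581405) (nat_lit 760)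 (nat_lit 35650607649) (nat_lit 55) (nat_lit 5) (nat_lit 64) (nat_lit 3) (nat_lit 65) (nat_lit 5) (nat_lit 304) (nat_lit 303) (nat_lit 113)) (XT.lf (nat_lit 0) (nat_lit 2235691269) (nat_lit 684) (nat_lit 17904157407) (nat_lit 760) (nat_lit 73583991811) (nat_lit 55) (nat_lit 5) (nat_lit 64) (nat_lit 3) (nat_lit 65) (nat_lit 5) (nat_lit 305) (nat_lit 303) (nat_lit 112)))) (XT.nd (nat_lit 156) (nat_lit 0) (nat_lit 0) (XT.nd (nat_lit 78) (nat_lit 0) (nat_lit 0) (XT.lf (nat_lit 0) (nat_lit 3512656673) (nat_lit 684) (nat_lit 75565324200) (nat_lit 760) (nat_lit 17042234314) (nat_lit 56) (nat_lit 5) (nat_lit 65) (nat_lit 5) (nat_lit 66) (nat_lit 5) (nat_lit 306) (nat_lit 303) (nat_lit 111)) (XT.lf (nat_lit 0) (nat_lit 5491395930) (nat_lit 684) (nat_lit 37398169198) (nat_lit 760) (nat_lit 55714949314) (nat_lit 56) (nat_lit 5) (nat_lit 65) (nat_lit 5) (nat_lit 66) (nat_lit 5) (nat_lit 307) (nat_lit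 303) (nat_lit 110))) (XT.nd (nat_lit 78) (nat_lit 0) (nat_lit 76) (XT.lf (nat_lit 76) (nat_lit 2765600151) (nat_lit 0) (nat_lit 4846248683) (nat_lit 760) (nat_lit 93599042986) (nat_lit 57) (nat_lit 5) (nat_lit 56) (nat_lit 5) (nat_lit 66) (nat_lit 5) (nat_lit 308) (nat_lit 303) (nat_lit 109)) (XT.nd (nat_lit 78) (nat_lit 0) (nat_lit 0) (XT.lf (nat_lit 0) (nat_lit 11029675885) (nat_lit 684) (nat_lit 58238641582) (nat_lit 760) (nat_lit 34619704928) (nat_lit 57) (nat_lit 5) (nat_lit 66) (nat_lit 5) (nat_lit 67) (nat_lit 5) (nat_lit 309) (nat_lit 303) (nat_lit 108)) (XT.lf (nat_lit 0) (nat_lit 14697474436) (nat_lit 684) (nat_lit 16101371389) (nat_lit 760) (nat_lit 75896211477) (nat_lit 57) (nat_lit 5) (nat_lit 66) (nat_lit 5) (nat_lit 67) (nat_lit 5) (nat_lit 310) (nat_lit 303) (nat_lit 107))))))))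
noncomputable def xc252 : XT := (XT.nd (nat_lit 37128) (nat_lit 0) (nat_lit 608) (XT.nd (nat_lit 624) (nat_lit 912) (nat_lit 0) (XT.nd (nat_lit 312) (nat_lit 912) (nat_lit 0) (XT.nd (nat_lit 156) (nat_lit 0) (nat_lit 0) (XT.nd (nat_lit 78) (nat_lit 0) (nat_lit 0) (XT.lf (nat_lit 0) (nat_lit 19159458708) (nat_lit 684) (nat_lit 80703973299) (nat_lit 760) (nat_lit 9748473885) (nat_lit 58) (nat_lit 5) (nat_lit 67) (nat_lit 5) (nat_lit 68) (nat_lit 5) (nat_lit 311) (nat_lit 303) (nat_lit 106)) (XT.lf (nat_lit 0) (nat_lit 24626261062) (nat_lit 684) (nat_lit 36443895793) (nat_lit 760) (nat_lit 51565355754) (nat_lit 58) (nat_lit 5) (nat_lit 67) (nat_lit 5) (nat_lit 68) (nat_lit 5) (nat_lit 312) (nat_lit 303) (nat_lit 105))) (XT.nd (nat_lit 78) (nat_lit 0) (nat_lit 76) (XT.lf (nat_lit 76) (nat_lit 10360531298) (nat_lit 0) (nat_lit 20167310120) (nat_lit 760) (nat_lit 85274387915) (nat_lit 59)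 (nat_lit 5) (nat_lit 58) (nat_lit 5) (nat_lit 68) (nat_lit 5) (nat_lit 313) (nat_lit 303) (nat_lit 104)) (XT.lf (nat_lit 0) (nat_lit 37707177085) (nat_lit 684) (nat_lit 58692050438) (nat_lit 76) (nat_lit 22678922047) (nat_lit 59) (nat_lit 5) (nat_lit 68) (nat_lit 5) (nat_lit 60) (nat_lit 5) (nat_lit 314) (nat_lit 303) (nat_lit 103)))) (XT.nd (nat_lit 156) (nat_lit 304) (nat_lit 0) (XT.nd (nat_lit 78) (nat_lit 684) (nat_lit 0) (XT.lf (nat_lit 0) (nat_lit 45575798880) (nat_lit 684) (nat_lit 9935788879) (nat_lit 76) (nat_lit 66989763512) (nat_lit 59) (nat_lit 5) (nat_lit 68) (nat_lit 5) (nat_lit 60) (nat_lit 5) (nat_lit 315) (nat_lit 303) (nat_lit 102)) (XT.lf (nat_lit 0) (nat_lit 42622218377) (nat_lit 684) (nat_lit 11880807288) (nat_lit 760) (nat_lit 71559430047) (nat_lit 50) (nat_lit 5) (nat_lit 59) (nat_lit 5) (nat_lit 60) (nat_lit 5) (nat_lit 316) (nat_lit 303) (nat_lit 101))) (XT.nd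 (nat_lit 78) (nat_lit 304) (nat_lit 0) (XT.lf (nat_lit 0) (nat_lit 64577137228) (nat_lit 760) (nat_lit 32172908115) (nat_lit 76) (nat_lit 33016545150) (nat_lit 50) (nat_lit 5) (nat_lit 60) (nat_lit 5) (nat_lit 51) (nat_lit 5) (nat_lit 317) (nat_lit 303) (nat_lit 100)) (XT.lf (nat_lit 0) (nat_lit 22172432959) (nat_lit 304) (nat_lit 53523206904) (nat_lit 380) (nat_lit 57933259100) (nat_lit 46) (nat_lit 5) (nat_lit 50) (nat_lit 5) (nat_lit 51) (nat_lit 5) (nat_lit 318) (nat_lit 303) (nat_lit 99))))) (XT.nd (nat_lit 312) (nat_lit 608) (nat_lit 0) (XT.nd (nat_lit 156) (nat_lit 304) (nat_lit 0) (XT.nd (nat_lit 78) (nat_lit 0) (nat_lit 0) (XT.lf (nat_lit 0) (nat_lit 80351772141) (nat_lit 304) (nat_lit 7562912036) (nat_lit 380) (nat_lit 49742409021) (nat_lit 46) (nat_lit 5) (nat_lit 50) (nat_lit 5) (nat_lit 51) (nat_lit 5) (nat_lit 319) (nat_lit 303) (nat_lit 98)) (XT.lf (nat_lit 0) (nat_lit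 101379814575) (nat_lit 380) (nat_lit 1082229320) (nat_lit 76) (nat_lit 39392897667) (nat_lit 46) (nat_lit 5) (nat_lit 51) (nat_lit 5) (nat_lit 47) (nat_lit 5) (nat_lit 320) (nat_lit 303) (nat_lit 97))) (XT.nd (nat_lit 78) (nat_lit 0) (nat_lit 0) (XT.lf (nat_lit 0) (nat_lit 59739853466) (nat_lit 304) (nat_lit 56834812593) (nat_lit 380) (nat_lit 29635194116) (nat_lit 42) (nat_lit 5) (nat_lit 46) (nat_lit 5) (nat_lit 47) (nat_lit 5) (nat_lit 321) (nat_lit 303) (nat_lit 96)) (XT.lf (nat_lit 0) (nat_lit 123640386892) (nat_lit 304) (nat_lit 8906984318) (nat_lit 380) (nat_lit 18234248964) (nat_lit 42) (nat_lit 5) (nat_lit 46) (nat_lit 5) (nat_lit 47) (nat_lit 5) (nat_lit 322) (nat_lit 303) (nat_lit 95)))) (XT.nd (nat_lit 156) (nat_lit 304) (nat_lit 0) (XT.nd (nat_lit 78) (nat_lit 76) (nat_lit 0) (XT.lf (nat_lit 0) (nat_lit 35648074249) (nat_lit 228) (nat_lit 114873636038) (nat_lit 304) (nat_lit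 5000108912) (nat_lit 39) (nat_lit 5) (nat_lit 42) (nat_lit 5) (nat_lit 43) (nat_lit 5) (nat_lit 323) (nat_lit 303) (nat_lit 94)) (XT.lf (nat_lit 0) (nat_lit 9224015674) (nat_lit 304) (nat_lit 58249585410) (nat_lit 76) (nat_lit 92987833759) (nat_lit 38) (nat_lit 5) (nat_lit 42) (nat_lit 5) (nat_lit 39) (nat_lit 5) (nat_lit 324) (nat_lit 303) (nat_lit 93))) (XT.nd (nat_lit 35880) (nat_lit 0) (nat_lit 1596) (XT.lf (nat_lit 0) (nat_lit 6584333435) (nat_lit 304) (nat_lit 17509581656) (nat_lit 380) (nat_lit 141544888304) (nat_lit 34) (nat_lit 5) (nat_lit 38) (nat_lit 5) (nat_lit 39) (nat_lit 5) (nat_lit 325) (nat_lit 303) (nat_lit 92)) (XT.nd (nat_lit 78) (nat_lit 0) (nat_lit 0) (XT.lf (nat_lit 0) (nat_lit 261874244) (nat_lit 0) (nat_lit 261874244) (nat_lit 684) (nat_lit 46312088757) (nat_lit 55) (nat_lit 5) (nat_lit 55) (nat_lit 3) (nat_lit 64) (nat_lit 3) (nat_lit 304) (nat_lit 304) (nat_lit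 112)) (XT.lf (nat_lit 0) (nat_lit 1683968132) (nat_lit 684) (nat_lit 56872447160) (nat_lit 760) (nat_lit 37426504113) (nat_lit 55) (nat_lit 5) (nat_lit 64) (nat_lit 3) (nat_lit 65) (nat_lit 5) (nat_lit 305) (nat_lit 304) (nat_lit 111))))))) (XT.nd (nat_lit 624) (nat_lit 988) (nat_lit 0) (XT.nd (nat_lit 312) (nat_lit 0) (nat_lit 152) (XT.nd (nat_lit 156) (nat_lit 0) (nat_lit 76) (XT.nd (nat_lit 78) (nat_lit 0) (nat_lit 76) (XT.lf (nat_lit 0) (nat_lit 2360427769) (nat_lit 684) (nat_lit 18792019264) (nat_lit 760) (nat_lit 77256873384) (nat_lit 55) (nat_lit 5) (nat_lit 64) (nat_lit 3) (nat_lit 65) (nat_lit 5) (nat_lit 306) (nat_lit 304) (nat_lit 110)) (XT.lf (nat_lit 0) (nat_lit 3700656020) (nat_lit 684) (nat_lit 79335597545) (nat_lit 760) (nat_lit 17889292629) (nat_lit 56) (nat_lit 5) (nat_lit 65) (nat_lit 5) (nat_lit 66) (nat_lit 5) (nat_lit 307) (nat_lit 304) (nat_lit 109))) (XT.nd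 (nat_lit 78) (nat_lit 0) (nat_lit 0) (XT.lf (nat_lit 0) (nat_lit 5777743357) (nat_lit 684) (nat_lit 39260465406) (nat_lit 760) (nat_lit 58495884016) (nat_lit 56) (nat_lit 5) (nat_lit 65) (nat_lit 5) (nat_lit 66) (nat_lit 5) (nat_lit 308) (nat_lit 304) (nat_lit 108)) (XT.lf (nat_lit 76) (nat_lit 2911369633) (nat_lit 0) (nat_lit 5092405367) (nat_lit 760) (nat_lit 98267039009) (nat_lit 57) (nat_lit 5) (nat_lit 56) (nat_lit 5) (nat_lit 66) (nat_lit 5) (nat_lit 309) (nat_lit 304) (nat_lit 107)))) (XT.nd (nat_lit 156) (nat_lit 0) (nat_lit 76) (XT.nd (nat_lit 78) (nat_lit 0) (nat_lit 0) (XT.lf (nat_lit 0) (nat_lit 11591896540) (nat_lit 684) (nat_lit 61142790903) (nat_lit 760) (nat_lit 36347146165) (nat_lit 57) (nat_lit 5) (nat_lit 66) (nat_lit 5) (nat_lit 67) (nat_lit 5) (nat_lit 310) (nat_lit 304) (nat_lit 106)) (XT.lf (nat_lit 0) (nat_lit 15442573740) (nat_lit 684) (nat_lit 16899027808)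 (nat_lit 760) (nat_lit 79687646804) (nat_lit 57) (nat_lit 5) (nat_lit 66) (nat_lit 5) (nat_lit 67) (nat_lit 5) (nat_lit 311) (nat_lit 304) (nat_lit 105))) (XT.nd (nat_lit 78) (nat_lit 0) (nat_lit 0) (XT.lf (nat_lit 0) (nat_lit 20127244183) (nat_lit 684) (nat_lit 84731298641) (nat_lit 760) (nat_lit 10233419605) (nat_lit 58) (nat_lit 5) (nat_lit 67) (nat_lit 5) (nat_lit 68) (nat_lit 5) (nat_lit 312) (nat_lit 304) (nat_lit 104)) (XT.lf (nat_lit 0) (nat_lit 25866919391) (nat_lit 684) (nat_lit 38258592181) (nat_lit 760) (nat_lit 54141263566) (nat_lit 58) (nat_lit 5) (nat_lit 67) (nat_lit 5) (nat_lit 68) (nat_lit 5) (nat_lit 313) (nat_lit 304) (nat_lit 103))))) (XT.nd (nat_lit 312) (nat_lit 608) (nat_lit 0) (XT.nd (nat_lit 156) (nat_lit 608) (nat_lit 0) (XT.nd (nat_lit 78) (nat_lit 0) (nat_lit 76) (XT.lf (nat_lit 76) (nat_lit 10885935323) (nat_lit 0) (nat_lit 21177313612) (nat_lit 760) (nat_lit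 89528597438) (nat_lit 59) (nat_lit 5) (nat_lit 58) (nat_lit 5) (nat_lit 68) (nat_lit 5) (nat_lit 314) (nat_lit 304) (nat_lit 102)) (XT.lf (nat_lit 0) (nat_lit 39601097722) (nat_lit 684) (nat_lit 61619131568) (nat_lit 76) (nat_lit 23811358093) (nat_lit 59) (nat_lit 5) (nat_lit 68) (nat_lit 5) (nat_lit 60) (nat_lit 5) (nat_lit 315) (nat_lit 304) (nat_lit 101))) (XT.nd (nat_lit 78) (nat_lit 684) (nat_lit 0) (XT.lf (nat_lit 0) (nat_lit 47862742903) (nat_lit 684) (nat_lit 10425415092) (nat_lit 76) (nat_lit 70337813538) (nat_lit 59) (nat_lit 5) (nat_lit 68) (nat_lit 5) (nat_lit 60) (nat_lit 5) (nat_lit 316) (nat_lit 304) (nat_lit 100)) (XT.lf (nat_lit 0) (nat_lit 44760376991) (nat_lit 684) (nat_lit 12475675782) (nat_lit 760) (nat_lit 75129094224) (nat_lit 50) (nat_lit 5) (nat_lit 59) (nat_lit 5) (nat_lit 60) (nat_lit 5) (nat_lit 317) (nat_lit 304) (nat_lit 99)))) (XT.nd (nat_lit 156) (nat_lit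 304) (nat_lit 0) (XT.nd (nat_lit 78) (nat_lit 304) (nat_lit 0) (XT.lf (nat_lit 0) (nat_lit 67813482560) (nat_lit 760) (nat_lit 33774418163) (nat_lit 76) (nat_lit 34666608956) (nat_lit 50) (nat_lit 5) (nat_lit 60) (nat_lit 5) (nat_lit 51) (nat_lit 5) (nat_lit 318) (nat_lit 304) (nat_lit 98)) (XT.lf (nat_lit 0) (nat_lit 23288074879) (nat_lit 304) (nat_lit 56199588460) (nat_lit 380) (nat_lit 60822284292) (nat_lit 46) (nat_lit 5) (nat_lit 50) (nat_lit 5) (nat_lit 51) (nat_lit 5) (nat_lit 319) (nat_lit 304) (nat_lit 97))) (XT.nd (nat_lit 78) (nat_lit 304) (nat_lit 0) (XT.lf (nat_lit 0) (nat_lit 84376046721) (nat_lit 304) (nat_lit 7941268315) (nat_lit 380) (nat_lit 52222255412) (nat_lit 46) (nat_lit 5) (nat_lit 50) (nat_lit 5) (nat_lit 51) (nat_lit 5) (nat_lit 320) (nat_lit 304) (nat_lit 96)) (XT.nd (nat_lit 78) (nat_lit 304) (nat_lit 0) (XT.lf (nat_lit 0) (nat_lit 106455370409) (nat_lit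 380) (nat_lit 1129610623) (nat_lit 76) (nat_lit 41362348327) (nat_lit 46) (nat_lit 5) (nat_lit 51) (nat_lit 5) (nat_lit 47) (nat_lit 5) (nat_lit 321) (nat_lit 304) (nat_lit 95)) (XT.lf (nat_lit 0) (nat_lit 62733467752) (nat_lit 304) (nat_lit 59676287475) (nat_lit 380) (nat_lit 31110250617) (nat_lit 42) (nat_lit 5) (nat_lit 46) (nat_lit 5) (nat_lit 47) (nat_lit 5) (nat_lit 322) (nat_lit 304) (nat_lit 94))))))))
noncomputable def xc253 : XT := (XT.nd (nat_lit 37284) (nat_lit 0) (nat_lit 228) (XT.nd (nat_lit 36582) (nat_lit 0) (nat_lit 836) (XT.nd (nat_lit 36270) (nat_lit 0) (nat_lit 1216) (XT.nd (nat_lit 36114) (nat_lit 0) (nat_lit 1216) (XT.nd (nat_lit 78) (nat_lit 228) (nat_lit 0) (XT.lf (nat_lit 0) (nat_lit 129828712534) (nat_lit 304) (nat_lit 9352080440) (nat_lit 380) (nat_lit 19139577408) (nat_lit 42) (nat_lit 5) (nat_lit 46) (nat_lit 5) (nat_lit 47) (nat_lit 5) (nat_lit 323) (nat_lit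 304) (nat_lit 93)) (XT.lf (nat_lit 0) (nat_lit 37437004122) (nat_lit 228) (nat_lit 120616662291) (nat_lit 304) (nat_lit 5243923416) (nat_lit 39) (nat_lit 5) (nat_lit 42) (nat_lit 5) (nat_lit 43) (nat_lit 5) (nat_lit 324) (nat_lit 304) (nat_lit 92))) (XT.nd (nat_lit 78) (nat_lit 0) (nat_lit 0) (XT.lf (nat_lit 0) (nat_lit 278231416) (nat_lit 0) (nat_lit 278231416) (nat_lit 684) (nat_lit 48620807680) (nat_lit 55) (nat_lit 5) (nat_lit 55) (nat_lit 3) (nat_lit 64) (nat_lit 3) (nat_lit 305) (nat_lit 305) (nat_lit 110)) (XT.lf (nat_lit 0) (nat_lit 1780501715) (nat_lit 684) (nat_lit 59709073315) (nat_lit 760) (nat_lit 39291812159) (nat_lit 55) (nat_lit 5) (nat_lit 64) (nat_lit 3) (nat_lit 65) (nat_lit 5) (nat_lit 306) (nat_lit 305) (nat_lit 109)))) (XT.nd (nat_lit 156) (nat_lit 0) (nat_lit 76) (XT.nd (nat_lit 78) (nat_lit 0) (nat_lit 76) (XT.lf (nat_lit 0) (nat_lit 2490196945) (nat_lit 684)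 (nat_lit 19724957176) (nat_lit 760) (nat_lit 81113986425) (nat_lit 55) (nat_lit 5) (nat_lit 64) (nat_lit 3) (nat_lit 65) (nat_lit 5) (nat_lit 307) (nat_lit 305) (nat_lit 108)) (XT.lf (nat_lit 0) (nat_lit 3896905612) (nat_lit 684) (nat_lit 83295127659) (nat_lit 760) (nat_lit 18779173677) (nat_lit 56) (nat_lit 5) (nat_lit 65) (nat_lit 5) (nat_lit 66) (nat_lit 5) (nat_lit 308) (nat_lit 305) (nat_lit 107))) (XT.nd (nat_lit 78) (nat_lit 0) (nat_lit 0) (XT.lf (nat_lit 0) (nat_lit 6077313184) (nat_lit 684) (nat_lit 41216584139) (nat_lit 760) (nat_lit 61416312900) (nat_lit 56) (nat_lit 5) (nat_lit 65) (nat_lit 5) (nat_lit 66) (nat_lit 5) (nat_lit 309) (nat_lit 305) (nat_lit 106)) (XT.lf (nat_lit 76) (nat_lit 3063731288) (nat_lit 0) (nat_lit 5350512482) (nat_lit 760) (nat_lit 103169546401) (nat_lit 57) (nat_lit 5) (nat_lit 56) (nat_lit 5) (nat_lit 66) (nat_lit 5) (nat_lit 310) (nat_lit 305)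 (nat_lit 105))))) (XT.nd (nat_lit 312) (nat_lit 532) (nat_lit 0) (XT.nd (nat_lit 156) (nat_lit 0) (nat_lit 76) (XT.nd (nat_lit 78) (nat_lit 0) (nat_lit 0) (XT.lf (nat_lit 0) (nat_lit 12181230016) (nat_lit 684) (nat_lit 64192871257) (nat_lit 760) (nat_lit 38161288953) (nat_lit 57) (nat_lit 5) (nat_lit 66) (nat_lit 5) (nat_lit 67) (nat_lit 5) (nat_lit 311) (nat_lit 305) (nat_lit 104)) (XT.lf (nat_lit 0) (nat_lit 16223977331) (nat_lit 684) (nat_lit 17737256160) (nat_lit 760) (nat_lit 83668967696) (nat_lit 57) (nat_lit 5) (nat_lit 66) (nat_lit 5) (nat_lit 67) (nat_lit 5) (nat_lit 312) (nat_lit 305) (nat_lit 103))) (XT.nd (nat_lit 78) (nat_lit 0) (nat_lit 0) (XT.lf (nat_lit 0) (nat_lit 21142506655) (nat_lit 684) (nat_lit 88960722238) (nat_lit 760) (nat_lit 10742842990) (nat_lit 58) (nat_lit 5) (nat_lit 67) (nat_lit 5) (nat_lit 68) (nat_lit 5) (nat_lit 313) (nat_lit 305) (nat_lit 102)) (XT.lf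 (nat_lit 0) (nat_lit 27168741801) (nat_lit 684) (nat_lit 40164720518) (nat_lit 760) (nat_lit 56846186177) (nat_lit 58) (nat_lit 5) (nat_lit 67) (nat_lit 5) (nat_lit 68) (nat_lit 5) (nat_lit 314) (nat_lit 305) (nat_lit 101)))) (XT.nd (nat_lit 156) (nat_lit 608) (nat_lit 0) (XT.nd (nat_lit 78) (nat_lit 0) (nat_lit 76) (XT.lf (nat_lit 76) (nat_lit 11436923664) (nat_lit 0) (nat_lit 22237664993) (nat_lit 760) (nat_lit 93996401575) (nat_lit 59) (nat_lit 5) (nat_lit 58) (nat_lit 5) (nat_lit 68) (nat_lit 5) (nat_lit 315) (nat_lit 305) (nat_lit 100)) (XT.lf (nat_lit 0) (nat_lit 41588918398) (nat_lit 684) (nat_lit 64693266022) (nat_lit 76) (nat_lit 25000556332) (nat_lit 59) (nat_lit 5) (nat_lit 68) (nat_lit 5) (nat_lit 60) (nat_lit 5) (nat_lit 316) (nat_lit 305) (nat_lit 99))) (XT.nd (nat_lit 78) (nat_lit 684) (nat_lit 0) (XT.lf (nat_lit 0) (nat_lit 50263276038) (nat_lit 684) (nat_lit 10940188586)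 (nat_lit 76) (nat_lit 73853399772) (nat_lit 59) (nat_lit 5) (nat_lit 68) (nat_lit 5) (nat_lit 60) (nat_lit 5) (nat_lit 317) (nat_lit 305) (nat_lit 98)) (XT.nd (nat_lit 78) (nat_lit 0) (nat_lit 0) (XT.lf (nat_lit 0) (nat_lit 47004788307) (nat_lit 684) (nat_lit 13100210709) (nat_lit 760) (nat_lit 78878013945) (nat_lit 50) (nat_lit 5) (nat_lit 59) (nat_lit 5) (nat_lit 60) (nat_lit 5) (nat_lit 318) (nat_lit 305) (nat_lit 97)) (XT.lf (nat_lit 0) (nat_lit 71210948952) (nat_lit 760) (nat_lit 35456667091) (nat_lit 76) (nat_lit 36399246931) (nat_lit 50) (nat_lit 5) (nat_lit 60) (nat_lit 5) (nat_lit 51) (nat_lit 5) (nat_lit 319) (nat_lit 305) (nat_lit 96))))))) (XT.nd (nat_lit 36738) (nat_lit 0) (nat_lit 1064) (XT.nd (nat_lit 36426) (nat_lit 0) (nat_lit 988) (XT.nd (nat_lit 156) (nat_lit 304) (nat_lit 0) (XT.nd (nat_lit 78) (nat_lit 0) (nat_lit 0) (XT.lf (nat_lit 0) (nat_lit 24458846217) (nat_lit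 304) (nat_lit 59009768529) (nat_lit 380) (nat_lit 63856470831) (nat_lit 46) (nat_lit 5) (nat_lit 50) (nat_lit 5) (nat_lit 51) (nat_lit 5) (nat_lit 320) (nat_lit 305) (nat_lit 95)) (XT.lf (nat_lit 0) (nat_lit 88600913432) (nat_lit 304) (nat_lit 8338522821) (nat_lit 380) (nat_lit 54826770397) (nat_lit 46) (nat_lit 5) (nat_lit 50) (nat_lit 5) (nat_lit 51) (nat_lit 5) (nat_lit 321) (nat_lit 305) (nat_lit 94))) (XT.nd (nat_lit 78) (nat_lit 304) (nat_lit 0) (XT.lf (nat_lit 0) (nat_lit 111784093675) (nat_lit 380) (nat_lit 1179986698) (nat_lit 76) (nat_lit 43430289577) (nat_lit 46) (nat_lit 5) (nat_lit 51) (nat_lit 5) (nat_lit 47) (nat_lit 5) (nat_lit 322) (nat_lit 305) (nat_lit 93)) (XT.lf (nat_lit 0) (nat_lit 65876147137) (nat_lit 304) (nat_lit 62659860807) (nat_lit 380) (nat_lit 32659683144) (nat_lit 42) (nat_lit 5) (nat_lit 46) (nat_lit 5) (nat_lit 47) (nat_lit 5) (nat_lit 323) (nat_lit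 305) (nat_lit 92)))) (XT.nd (nat_lit 156) (nat_lit 0) (nat_lit 0) (XT.nd (nat_lit 78) (nat_lit 0) (nat_lit 0) (XT.lf (nat_lit 0) (nat_lit 295103041) (nat_lit 0) (nat_lit 295103041) (nat_lit 684) (nat_lit 51045602699) (nat_lit 55) (nat_lit 5) (nat_lit 55) (nat_lit 3) (nat_lit 64) (nat_lit 3) (nat_lit 306) (nat_lit 306) (nat_lit 108)) (XT.lf (nat_lit 0) (nat_lit 1880715171) (nat_lit 684) (nat_lit 62688181217) (nat_lit 760) (nat_lit 41250945026) (nat_lit 55) (nat_lit 5) (nat_lit 64) (nat_lit 3) (nat_lit 65) (nat_lit 5) (nat_lit 307) (nat_lit 306) (nat_lit 107))) (XT.nd (nat_lit 78) (nat_lit 0) (nat_lit 76) (XT.lf (nat_lit 0) (nat_lit 2625362382) (nat_lit 684) (nat_lit 20705161451) (nat_lit 760) (nat_lit 85164487898) (nat_lit 55) (nat_lit 5) (nat_lit 64) (nat_lit 3) (nat_lit 65) (nat_lit 5) (nat_lit 308) (nat_lit 306) (nat_lit 106)) (XT.lf (nat_lit 0) (nat_lit 4101924853) (nat_lit 684)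 (nat_lit 87453308292) (nat_lit 760) (nat_lit 19713974916) (nat_lit 56) (nat_lit 5) (nat_lit 65) (nat_lit 5) (nat_lit 66) (nat_lit 5) (nat_lit 309) (nat_lit 306) (nat_lit 105))))) (XT.nd (nat_lit 312) (nat_lit 0) (nat_lit 152) (XT.nd (nat_lit 156) (nat_lit 0) (nat_lit 76) (XT.nd (nat_lit 78) (nat_lit 0) (nat_lit 0) (XT.lf (nat_lit 0) (nat_lit 6390868329) (nat_lit 684) (nat_lit 43271150727) (nat_lit 760) (nat_lit 64483169073) (nat_lit 56) (nat_lit 5) (nat_lit 65) (nat_lit 5) (nat_lit 66) (nat_lit 5) (nat_lit 310) (nat_lit 306) (nat_lit 104)) (XT.lf (nat_lit 76) (nat_lit 3223079461) (nat_lit 0) (nat_lit 5621200780) (nat_lit 760) (nat_lit 108318187387) (nat_lit 57) (nat_lit 5) (nat_lit 56) (nat_lit 5) (nat_lit 66) (nat_lit 5) (nat_lit 311) (nat_lit 306) (nat_lit 103))) (XT.nd (nat_lit 78) (nat_lit 0) (nat_lit 0) (XT.lf (nat_lit 0) (nat_lit 12799124759) (nat_lit 684) (nat_lit 67396111925)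 (nat_lit 760) (nat_lit 40066437736) (nat_lit 57) (nat_lit 5) (nat_lit 66) (nat_lit 5) (nat_lit 67) (nat_lit 5) (nat_lit 312) (nat_lit 306) (nat_lit 102)) (XT.lf (nat_lit 0) (nat_lit 17043588809) (nat_lit 684) (nat_lit 18618020973) (nat_lit 760) (nat_lit 87849639257) (nat_lit 57) (nat_lit 5) (nat_lit 66) (nat_lit 5) (nat_lit 67) (nat_lit 5) (nat_lit 313) (nat_lit 306) (nat_lit 101)))) (XT.nd (nat_lit 156) (nat_lit 0) (nat_lit 0) (XT.nd (nat_lit 78) (nat_lit 0) (nat_lit 0) (XT.lf (nat_lit 0) (nat_lit 22207704788) (nat_lit 684) (nat_lit 93402280948) (nat_lit 760) (nat_lit 11277946504) (nat_lit 58) (nat_lit 5) (nat_lit 67) (nat_lit 5) (nat_lit 68) (nat_lit 5) (nat_lit 314) (nat_lit 306) (nat_lit 100)) (XT.lf (nat_lit 0) (nat_lit 28534867273) (nat_lit 684) (nat_lit 42166787590) (nat_lit 760) (nat_lit 59686553929) (nat_lit 58) (nat_lit 5) (nat_lit 67) (nat_lit 5) (nat_lit 68) (nat_lit 5)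 (nat_lit 315) (nat_lit 306) (nat_lit 99))) (XT.nd (nat_lit 78) (nat_lit 0) (nat_lit 76) (XT.lf (nat_lit 76) (nat_lit 12014839302) (nat_lit 0) (nat_lit 23350895817) (nat_lit 760) (nat_lit 98688397857) (nat_lit 59) (nat_lit 5) (nat_lit 58) (nat_lit 5) (nat_lit 68) (nat_lit 5) (nat_lit 316) (nat_lit 306) (nat_lit 98)) (XT.nd (nat_lit 78) (nat_lit 0) (nat_lit 0) (XT.lf (nat_lit 0) (nat_lit 43675408118) (nat_lit 684) (nat_lit 67921741456) (nat_lit 76) (nat_lit 26249341821) (nat_lit 59) (nat_lit 5) (nat_lit 68) (nat_lit 5) (nat_lit 60) (nat_lit 5) (nat_lit 317) (nat_lit 306) (nat_lit 97)) (XT.lf (nat_lit 0) (nat_lit 52783148221) (nat_lit 684) (nat_lit 11481304807) (nat_lit 76) (nat_lit 77544886591) (nat_lit 59) (nat_lit 5) (nat_lit 68) (nat_lit 5) (nat_lit 60) (nat_lit 5) (nat_lit 318) (nat_lit 306) (nat_lit 96))))))))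
noncomputable def xc254 : XT := (XT.nd (nat_lit 37596) (nat_lit 0) (nat_lit 304) (XT.nd (nat_lit 36894) (nat_lit 0) (nat_lit 760) (XT.nd (nat_lit 36582) (nat_lit 0) (nat_lit 684) (XT.nd (nat_lit 156) (nat_lit 304) (nat_lit 0) (XT.nd (nat_lit 78) (nat_lit 0) (nat_lit 0) (XT.lf (nat_lit 0) (nat_lit 49360825878) (nat_lit 684) (nat_lit 13755902548) (nat_lit 760) (nat_lit 82815080185) (nat_lit 50) (nat_lit 5) (nat_lit 59) (nat_lit 5) (nat_lit 60) (nat_lit 5) (nat_lit 319) (nat_lit 306) (nat_lit 95)) (XT.lf (nat_lit 0) (nat_lit 74777657183) (nat_lit 760) (nat_lit 37223630168) (nat_lit 76) (nat_lit 38218581184) (nat_lit 50) (nat_lit 5) (nat_lit 60) (nat_lit 5) (nat_lit 51) (nat_lit 5) (nat_lit 320) (nat_lit 306) (nat_lit 94))) (XT.nd (nat_lit 78) (nat_lit 0) (nat_lit 0) (XT.lf (nat_lit 0) (nat_lit 25687564123) (nat_lit 304) (nat_lit 61960438946) (nat_lit 380) (nat_lit 67043010767) (nat_lit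 46) (nat_lit 5) (nat_lit 50) (nat_lit 5) (nat_lit 51) (nat_lit 5) (nat_lit 321) (nat_lit 306) (nat_lit 93)) (XT.lf (nat_lit 0) (nat_lit 93036459670) (nat_lit 304) (nat_lit 8755622287) (nat_lit 380) (nat_lit 57562124530) (nat_lit 46) (nat_lit 5) (nat_lit 50) (nat_lit 5) (nat_lit 51) (nat_lit 5) (nat_lit 322) (nat_lit 306) (nat_lit 92)))) (XT.nd (nat_lit 156) (nat_lit 0) (nat_lit 0) (XT.nd (nat_lit 78) (nat_lit 0) (nat_lit 0) (XT.lf (nat_lit 0) (nat_lit 312543049) (nat_lit 0) (nat_lit 312543049) (nat_lit 684) (nat_lit 53592218104) (nat_lit 55) (nat_lit 5) (nat_lit 55) (nat_lit 3) (nat_lit 64) (nat_lit 3) (nat_lit 307) (nat_lit 307) (nat_lit 106)) (XT.lf (nat_lit 0) (nat_lit 1984899110) (nat_lit 684) (nat_lit 65816834484) (nat_lit 760) (nat_lit 43308541945) (nat_lit 55) (nat_lit 5) (nat_lit 64) (nat_lit 3) (nat_lit 65) (nat_lit 5) (nat_lit 308) (nat_lit 307) (nat_lit 105))) (XT.nd (nat_lit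 78) (nat_lit 0) (nat_lit 76) (XT.lf (nat_lit 0) (nat_lit 2766295435) (nat_lit 684) (nat_lit 21734937814) (nat_lit 760) (nat_lit 89417997691) (nat_lit 55) (nat_lit 5) (nat_lit 64) (nat_lit 3) (nat_lit 65) (nat_lit 5) (nat_lit 309) (nat_lit 307) (nat_lit 104)) (XT.lf (nat_lit 0) (nat_lit 4316249178) (nat_lit 684) (nat_lit 91820009308) (nat_lit 760) (nat_lit 20695902736) (nat_lit 56) (nat_lit 5) (nat_lit 65) (nat_lit 5) (nat_lit 66) (nat_lit 5) (nat_lit 310) (nat_lit 307) (nat_lit 103))))) (XT.nd (nat_lit 312) (nat_lit 0) (nat_lit 152) (XT.nd (nat_lit 156) (nat_lit 0) (nat_lit 76) (XT.nd (nat_lit 78) (nat_lit 0) (nat_lit 0) (XT.lf (nat_lit 0) (nat_lit 6719200395) (nat_lit 684) (nat_lit 45429027884) (nat_lit 760) (nat_lit 67703736169) (nat_lit 56) (nat_lit 5) (nat_lit 65) (nat_lit 5) (nat_lit 66) (nat_lit 5) (nat_lit 311) (nat_lit 307) (nat_lit 102)) (XT.lf (nat_lit 76) (nat_lit 3389822195)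 (nat_lit 0) (nat_lit 5905129457) (nat_lit 760) (nat_lit 113725174911) (nat_lit 57) (nat_lit 5) (nat_lit 56) (nat_lit 5) (nat_lit 66) (nat_lit 5) (nat_lit 312) (nat_lit 307) (nat_lit 101))) (XT.nd (nat_lit 78) (nat_lit 0) (nat_lit 0) (XT.lf (nat_lit 0) (nat_lit 13447093008) (nat_lit 684) (nat_lit 70760109908) (nat_lit 760) (nat_lit 42067115029) (nat_lit 57) (nat_lit 5) (nat_lit 66) (nat_lit 5) (nat_lit 67) (nat_lit 5) (nat_lit 313) (nat_lit 307) (nat_lit 100)) (XT.lf (nat_lit 0) (nat_lit 17903398735) (nat_lit 684) (nat_lit 19543390961) (nat_lit 760) (nat_lit 92239602559) (nat_lit 57) (nat_lit 5) (nat_lit 66) (nat_lit 5) (nat_lit 67) (nat_lit 5) (nat_lit 314) (nat_lit 307) (nat_lit 99)))) (XT.nd (nat_lit 156) (nat_lit 0) (nat_lit 0) (XT.nd (nat_lit 78) (nat_lit 0) (nat_lit 0) (XT.lf (nat_lit 0) (nat_lit 23325412296) (nat_lit 684) (nat_lit 98066519801) (nat_lit 760) (nat_lit 11839994727)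 (nat_lit 58) (nat_lit 5) (nat_lit 67) (nat_lit 5) (nat_lit 68) (nat_lit 5) (nat_lit 315) (nat_lit 307) (nat_lit 98)) (XT.lf (nat_lit 0) (nat_lit 29968584225) (nat_lit 684) (nat_lit 44269531546) (nat_lit 760) (nat_lit 62669120575) (nat_lit 58) (nat_lit 5) (nat_lit 67) (nat_lit 5) (nat_lit 68) (nat_lit 5) (nat_lit 316) (nat_lit 307) (nat_lit 97))) (XT.nd (nat_lit 78) (nat_lit 0) (nat_lit 76) (XT.lf (nat_lit 76) (nat_lit 12621086441) (nat_lit 0) (nat_lit 24519662898) (nat_lit 760) (nat_lit 103615721336) (nat_lit 59) (nat_lit 5) (nat_lit 58) (nat_lit 5) (nat_lit 68) (nat_lit 5) (nat_lit 317) (nat_lit 307) (nat_lit 96)) (XT.nd (nat_lit 78) (nat_lit 0) (nat_lit 0) (XT.lf (nat_lit 0) (nat_lit 45865567458) (nat_lit 684) (nat_lit 71312215950) (nat_lit 76) (nat_lit 27560682085) (nat_lit 59) (nat_lit 5) (nat_lit 68) (nat_lit 5) (nat_lit 60) (nat_lit 5) (nat_lit 318) (nat_lit 307) (nat_lit 95))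 (XT.lf (nat_lit 0) (nat_lit 55428390332) (nat_lit 684) (nat_lit 12050024735) (nat_lit 76) (nat_lit 81421057752) (nat_lit 59) (nat_lit 5) (nat_lit 68) (nat_lit 5) (nat_lit 60) (nat_lit 5) (nat_lit 319) (nat_lit 307) (nat_lit 94))))))) (XT.nd (nat_lit 37050) (nat_lit 0) (nat_lit 380) (XT.nd (nat_lit 36738) (nat_lit 0) (nat_lit 380) (XT.nd (nat_lit 36582) (nat_lit 0) (nat_lit 380) (XT.nd (nat_lit 78) (nat_lit 0) (nat_lit 0) (XT.lf (nat_lit 0) (nat_lit 51834126270) (nat_lit 684) (nat_lit 14444315638) (nat_lit 760) (nat_lit 86949635140) (nat_lit 50) (nat_lit 5) (nat_lit 59) (nat_lit 5) (nat_lit 60) (nat_lit 5) (nat_lit 320) (nat_lit 307) (nat_lit 93)) (XT.lf (nat_lit 0) (nat_lit 78522128054) (nat_lit 760) (nat_lit 39079487162) (nat_lit 76) (nat_lit 40128940544) (nat_lit 50) (nat_lit 5) (nat_lit 60) (nat_lit 5) (nat_lit 51) (nat_lit 5) (nat_lit 321) (nat_lit 307) (nat_lit 92))) (XT.nd (nat_lit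 78) (nat_lit 0) (nat_lit 0) (XT.lf (nat_lit 0) (nat_lit 330605446) (nat_lit 0) (nat_lit 330605446) (nat_lit 684) (nat_lit 56266690931) (nat_lit 55) (nat_lit 5) (nat_lit 55) (nat_lit 3) (nat_lit 64) (nat_lit 3) (nat_lit 308) (nat_lit 308) (nat_lit 104)) (XT.lf (nat_lit 0) (nat_lit 2093348764) (nat_lit 684) (nat_lit 69102455533) (nat_lit 760) (nat_lit 45469478945) (nat_lit 55) (nat_lit 5) (nat_lit 64) (nat_lit 3) (nat_lit 65) (nat_lit 5) (nat_lit 309) (nat_lit 308) (nat_lit 103)))) (XT.nd (nat_lit 156) (nat_lit 0) (nat_lit 76) (XT.nd (nat_lit 78) (nat_lit 0) (nat_lit 76) (XT.lf (nat_lit 0) (nat_lit 2913376587) (nat_lit 684) (nat_lit 22816712634) (nat_lit 760) (nat_lit 93884621292) (nat_lit 55) (nat_lit 5) (nat_lit 64) (nat_lit 3) (nat_lit 65) (nat_lit 5) (nat_lit 310) (nat_lit 308) (nat_lit 102)) (XT.lf (nat_lit 0) (nat_lit 4540431779) (nat_lit 684) (nat_lit 96405599888) (nat_lit 760)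 (nat_lit 21727277532) (nat_lit 56) (nat_lit 5) (nat_lit 65) (nat_lit 5) (nat_lit 66) (nat_lit 5) (nat_lit 311) (nat_lit 308) (nat_lit 101))) (XT.nd (nat_lit 78) (nat_lit 0) (nat_lit 0) (XT.lf (nat_lit 0) (nat_lit 7063131979) (nat_lit 684) (nat_lit 47695327006) (nat_lit 760) (nat_lit 71085665510) (nat_lit 56) (nat_lit 5) (nat_lit 65) (nat_lit 5) (nat_lit 66) (nat_lit 5) (nat_lit 312) (nat_lit 308) (nat_lit 100)) (XT.lf (nat_lit 76) (nat_lit 3564382475) (nat_lit 0) (nat_lit 6202987869) (nat_lit 760) (nat_lit 119403341280) (nat_lit 57) (nat_lit 5) (nat_lit 56) (nat_lit 5) (nat_lit 66) (nat_lit 5) (nat_lit 313) (nat_lit 308) (nat_lit 99))))) (XT.nd (nat_lit 312) (nat_lit 152) (nat_lit 0) (XT.nd (nat_lit 156) (nat_lit 0) (nat_lit 76) (XT.nd (nat_lit 78) (nat_lit 0) (nat_lit 0) (XT.lf (nat_lit 0) (nat_lit 14126714788) (nat_lit 684) (nat_lit 74292847726) (nat_lit 760) (nat_lit 44168072056)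 (nat_lit 57) (nat_lit 5) (nat_lit 66) (nat_lit 5) (nat_lit 67) (nat_lit 5) (nat_lit 314) (nat_lit 308) (nat_lit 98)) (XT.lf (nat_lit 0) (nat_lit 18805489748) (nat_lit 684) (nat_lit 20515543673) (nat_lit 760) (nat_lit 96849298188) (nat_lit 57) (nat_lit 5) (nat_lit 66) (nat_lit 5) (nat_lit 67) (nat_lit 5) (nat_lit 315) (nat_lit 308) (nat_lit 97))) (XT.nd (nat_lit 78) (nat_lit 0) (nat_lit 0) (XT.lf (nat_lit 0) (nat_lit 24498324424) (nat_lit 684) (nat_lit 102964516816) (nat_lit 760) (nat_lit 12430317272) (nat_lit 58) (nat_lit 5) (nat_lit 67) (nat_lit 5) (nat_lit 68) (nat_lit 5) (nat_lit 316) (nat_lit 308) (nat_lit 96)) (XT.lf (nat_lit 0) (nat_lit 31473338687) (nat_lit 684) (nat_lit 46477932909) (nat_lit 760) (nat_lit 65800979280) (nat_lit 58) (nat_lit 5) (nat_lit 67) (nat_lit 5) (nat_lit 68) (nat_lit 5) (nat_lit 317) (nat_lit 308) (nat_lit 95)))) (XT.nd (nat_lit 156) (nat_lit 228) (nat_lit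 0) (XT.nd (nat_lit 78) (nat_lit 0) (nat_lit 76) (XT.lf (nat_lit 76) (nat_lit 13257134119) (nat_lit 0) (nat_lit 25746754696) (nat_lit 760) (nat_lit 108790070747) (nat_lit 59) (nat_lit 5) (nat_lit 58) (nat_lit 5) (nat_lit 68) (nat_lit 5) (nat_lit 318) (nat_lit 308) (nat_lit 94)) (XT.lf (nat_lit 0) (nat_lit 48164640782) (nat_lit 684) (nat_lit 74872735973) (nat_lit 76) (nat_lit 28937694123) (nat_lit 59) (nat_lit 5) (nat_lit 68) (nat_lit 5) (nat_lit 60) (nat_lit 5) (nat_lit 319) (nat_lit 308) (nat_lit 93))) (XT.nd (nat_lit 36660) (nat_lit 304) (nat_lit 0) (XT.lf (nat_lit 0) (nat_lit 58205328850) (nat_lit 684) (nat_lit 12647677616) (nat_lit 76) (nat_lit 85491137244) (nat_lit 59) (nat_lit 5) (nat_lit 68) (nat_lit 5) (nat_lit 60) (nat_lit 5) (nat_lit 320) (nat_lit 308) (nat_lit 92)) (XT.nd (nat_lit 78) (nat_lit 0) (nat_lit 0) (XT.lf (nat_lit 0) (nat_lit 349344556) (nat_lit 0) (nat_lit 349344556)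 (nat_lit 684) (nat_lit 59075365090) (nat_lit 55) (nat_lit 5) (nat_lit 55) (nat_lit 3) (nat_lit 64) (nat_lit 3) (nat_lit 309) (nat_lit 309) (nat_lit 102)) (XT.lf (nat_lit 0) (nat_lit 2206365136) (nat_lit 684) (nat_lit 72552843004) (nat_lit 760) (nat_lit 47738880242) (nat_lit 55) (nat_lit 5) (nat_lit 64) (nat_lit 3) (nat_lit 65) (nat_lit 5) (nat_lit 310) (nat_lit 309) (nat_lit 101))))))))
noncomputable def xc255 : XT := (XT.nd (nat_lit 38064) (nat_lit 0) (nat_lit 0) (XT.nd (nat_lit 624) (nat_lit 0) (nat_lit 0) (XT.nd (nat_lit 312) (nat_lit 0) (nat_lit 152) (XT.nd (nat_lit 156) (nat_lit 0) (nat_lit 76) (XT.nd (nat_lit 78) (nat_lit 0) (nat_lit 76) (XT.lf (nat_lit 0) (nat_lit 3066996781) (nat_lit 684) (nat_lit 23953038450) (nat_lit 760) (nat_lit 98574973642) (nat_lit 55) (nat_lit 5) (nat_lit 64) (nat_lit 3) (nat_lit 65) (nat_lit 5) (nat_lit 311) (nat_lit 309) (nat_lit 100)) (XT.lf (nat_lit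 0) (nat_lit 4775045334) (nat_lit 684) (nat_lit 101220972957) (nat_lit 760) (nat_lit 22810539059) (nat_lit 56) (nat_lit 5) (nat_lit 65) (nat_lit 5) (nat_lit 66) (nat_lit 5) (nat_lit 312) (nat_lit 309) (nat_lit 99))) (XT.nd (nat_lit 78) (nat_lit 0) (nat_lit 0) (XT.lf (nat_lit 0) (nat_lit 7423519022) (nat_lit 684) (nat_lit 50075420094) (nat_lit 760) (nat_lit 74636994167) (nat_lit 56) (nat_lit 5) (nat_lit 65) (nat_lit 5) (nat_lit 66) (nat_lit 5) (nat_lit 313) (nat_lit 309) (nat_lit 98)) (XT.lf (nat_lit 76) (nat_lit 3747199486) (nat_lit 0) (nat_lit 6515497298) (nat_lit 760) (nat_lit 125366168320) (nat_lit 57) (nat_lit 5) (nat_lit 56) (nat_lit 5) (nat_lit 66) (nat_lit 5) (nat_lit 314) (nat_lit 309) (nat_lit 97)))) (XT.nd (nat_lit 156) (nat_lit 0) (nat_lit 76) (XT.nd (nat_lit 78) (nat_lit 0) (nat_lit 0) (XT.lf (nat_lit 0) (nat_lit 14839642029) (nat_lit 684) (nat_lit 78002712174) (nat_lit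 760) (nat_lit 46374299944) (nat_lit 57) (nat_lit 5) (nat_lit 66) (nat_lit 5) (nat_lit 67) (nat_lit 5) (nat_lit 315) (nat_lit 309) (nat_lit 96)) (XT.lf (nat_lit 0) (nat_lit 19752041856) (nat_lit 684) (nat_lit 21536770440) (nat_lit 760) (nat_lit 101689690989) (nat_lit 57) (nat_lit 5) (nat_lit 66) (nat_lit 5) (nat_lit 67) (nat_lit 5) (nat_lit 316) (nat_lit 309) (nat_lit 95))) (XT.nd (nat_lit 78) (nat_lit 0) (nat_lit 0) (XT.lf (nat_lit 0) (nat_lit 25729264693) (nat_lit 684) (nat_lit 108107909120) (nat_lit 760) (nat_lit 13050311875) (nat_lit 58) (nat_lit 5) (nat_lit 67) (nat_lit 5) (nat_lit 68) (nat_lit 5) (nat_lit 317) (nat_lit 309) (nat_lit 94)) (XT.lf (nat_lit 0) (nat_lit 33052742810) (nat_lit 684) (nat_lit 48797226186) (nat_lit 760) (nat_lit 69089579424) (nat_lit 58) (nat_lit 5) (nat_lit 67) (nat_lit 5) (nat_lit 68) (nat_lit 5) (nat_lit 318) (nat_lit 309) (nat_lit 93))))) (XT.nd (nat_lit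 37050) (nat_lit 0) (nat_lit 76) (XT.nd (nat_lit 36894) (nat_lit 0) (nat_lit 0) (XT.nd (nat_lit 36816) (nat_lit 228) (nat_lit 0) (XT.lf (nat_lit 76) (nat_lit 13924519946) (nat_lit 0) (nat_lit 27035098011) (nat_lit 760) (nat_lit 114223736047) (nat_lit 59) (nat_lit 5) (nat_lit 58) (nat_lit 5) (nat_lit 68) (nat_lit 5) (nat_lit 319) (nat_lit 309) (nat_lit 92)) (XT.lf (nat_lit 0) (nat_lit 368815265) (nat_lit 0) (nat_lit 368815265) (nat_lit 684) (nat_lit 62024906236) (nat_lit 55) (nat_lit 5) (nat_lit 55) (nat_lit 3) (nat_lit 64) (nat_lit 3) (nat_lit 310) (nat_lit 310) (nat_lit 100))) (XT.nd (nat_lit 78) (nat_lit 0) (nat_lit 0) (XT.lf (nat_lit 0) (nat_lit 2324256121) (nat_lit 684) (nat_lit 76176190092) (nat_lit 760) (nat_lit 50122130240) (nat_lit 55) (nat_lit 5) (nat_lit 64) (nat_lit 3) (nat_lit 65) (nat_lit 5) (nat_lit 311) (nat_lit 310) (nat_lit 99)) (XT.lf (nat_lit 0) (nat_lit 3227558743)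 (nat_lit 684) (nat_lit 25146599837) (nat_lit 760) (nat_lit 103500204216) (nat_lit 55) (nat_lit 5) (nat_lit 64) (nat_lit 3) (nat_lit 65) (nat_lit 5) (nat_lit 312) (nat_lit 310) (nat_lit 98)))) (XT.nd (nat_lit 156) (nat_lit 0) (nat_lit 0) (XT.nd (nat_lit 78) (nat_lit 0) (nat_lit 0) (XT.lf (nat_lit 0) (nat_lit 5020683738) (nat_lit 684) (nat_lit 106277570879) (nat_lit 760) (nat_lit 23948252089) (nat_lit 56) (nat_lit 5) (nat_lit 65) (nat_lit 5) (nat_lit 66) (nat_lit 5) (nat_lit 313) (nat_lit 310) (nat_lit 97)) (XT.lf (nat_lit 0) (nat_lit 7801253199) (nat_lit 684) (nat_lit 52574952312) (nat_lit 760) (nat_lit 78366163949) (nat_lit 56) (nat_lit 5) (nat_lit 65) (nat_lit 5) (nat_lit 66) (nat_lit 5) (nat_lit 314) (nat_lit 310) (nat_lit 96))) (XT.nd (nat_lit 78) (nat_lit 0) (nat_lit 76) (XT.lf (nat_lit 76) (nat_lit 3938729880) (nat_lit 0) (nat_lit 6843412785) (nat_lit 760) (nat_lit 131627819118)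 (nat_lit 57) (nat_lit 5) (nat_lit 56) (nat_lit 5) (nat_lit 66) (nat_lit 5) (nat_lit 315) (nat_lit 310) (nat_lit 95)) (XT.nd (nat_lit 78) (nat_lit 0) (nat_lit 0) (XT.lf (nat_lit 0) (nat_lit 15587602816) (nat_lit 684) (nat_lit 81898514052) (nat_lit 760) (nat_lit 48691041505) (nat_lit 57) (nat_lit 5) (nat_lit 66) (nat_lit 5) (nat_lit 67) (nat_lit 5) (nat_lit 316) (nat_lit 310) (nat_lit 94)) (XT.lf (nat_lit 0) (nat_lit 20745337935) (nat_lit 684) (nat_lit 22609481599) (nat_lit 760) (nat_lit 106772296074) (nat_lit 57) (nat_lit 5) (nat_lit 66) (nat_lit 5) (nat_lit 67) (nat_lit 5) (nat_lit 317) (nat_lit 310) (nat_lit 93))))))) (XT.nd (nat_lit 74568) (nat_lit 0) (nat_lit 0) (XT.nd (nat_lit 37206) (nat_lit 0) (nat_lit 76) (XT.nd (nat_lit 37050) (nat_lit 0) (nat_lit 0) (XT.nd (nat_lit 36972) (nat_lit 228) (nat_lit 0) (XT.lf (nat_lit 0) (nat_lit 27021191917) (nat_lit 684) (nat_lit 113508920415)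 (nat_lit 760) (nat_lit 13701447640) (nat_lit 58) (nat_lit 5) (nat_lit 67) (nat_lit 5) (nat_lit 68) (nat_lit 5) (nat_lit 318) (nat_lit 310) (nat_lit 92)) (XT.lf (nat_lit 0) (nat_lit 389073245) (nat_lit 0) (nat_lit 389073245) (nat_lit 684) (nat_lit 65122317435) (nat_lit 55) (nat_lit 5) (nat_lit 55) (nat_lit 3) (nat_lit 64) (nat_lit 3) (nat_lit 311) (nat_lit 311) (nat_lit 98))) (XT.nd (nat_lit 78) (nat_lit 0) (nat_lit 0) (XT.lf (nat_lit 0) (nat_lit 2447337616) (nat_lit 684) (nat_lit 79981103848) (nat_lit 760) (nat_lit 52624886173) (nat_lit 55) (nat_lit 5) (nat_lit 64) (nat_lit 3) (nat_lit 65) (nat_lit 5) (nat_lit 312) (nat_lit 311) (nat_lit 97)) (XT.lf (nat_lit 0) (nat_lit 3395478288) (nat_lit 684) (nat_lit 26400219593) (nat_lit 760) (nat_lit 108672023399) (nat_lit 55) (nat_lit 5) (nat_lit 64) (nat_lit 3) (nat_lit 65) (nat_lit 5) (nat_lit 313) (nat_lit 311) (nat_lit 96)))) (XT.nd (nat_lit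 156) (nat_lit 0) (nat_lit 0) (XT.nd (nat_lit 78) (nat_lit 0) (nat_lit 0) (XT.lf (nat_lit 0) (nat_lit 5277963854) (nat_lit 684) (nat_lit 111587412483) (nat_lit 760) (nat_lit 25143112383) (nat_lit 56) (nat_lit 5) (nat_lit 65) (nat_lit 5) (nat_lit 66) (nat_lit 5) (nat_lit 314) (nat_lit 311) (nat_lit 95)) (XT.lf (nat_lit 0) (nat_lit 8197264363) (nat_lit 684) (nat_lit 55199855223) (nat_lit 760) (nat_lit 82282041374) (nat_lit 56) (nat_lit 5) (nat_lit 65) (nat_lit 5) (nat_lit 66) (nat_lit 5) (nat_lit 315) (nat_lit 311) (nat_lit 94))) (XT.nd (nat_lit 78) (nat_lit 0) (nat_lit 76) (XT.lf (nat_lit 76) (nat_lit 4139449067) (nat_lit 0) (nat_lit 7187525031) (nat_lit 760) (nat_lit 138203171418) (nat_lit 57) (nat_lit 5) (nat_lit 56) (nat_lit 5) (nat_lit 66) (nat_lit 5) (nat_lit 316) (nat_lit 311) (nat_lit 93)) (XT.lf (nat_lit 0) (nat_lit 16372405801) (nat_lit 684) (nat_lit 85989508933) (nat_lit 760)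 (nat_lit 51123803615) (nat_lit 57) (nat_lit 5) (nat_lit 66) (nat_lit 5) (nat_lit 67) (nat_lit 5) (nat_lit 317) (nat_lit 311) (nat_lit 92))))) (XT.nd (nat_lit 312) (nat_lit 0) (nat_lit 0) (XT.nd (nat_lit 156) (nat_lit 0) (nat_lit 0) (XT.nd (nat_lit 78) (nat_lit 0) (nat_lit 0) (XT.lf (nat_lit 0) (nat_lit 410175176) (nat_lit 0) (nat_lit 410175176) (nat_lit 684) (nat_lit 68374955654) (nat_lit 55) (nat_lit 5) (nat_lit 55) (nat_lit 3) (nat_lit 64) (nat_lit 3) (nat_lit 312) (nat_lit 312) (nat_lit 96)) (XT.lf (nat_lit 0) (nat_lit 2575934599) (nat_lit 684) (nat_lit 83976625482) (nat_lit 760) (nat_lit 55253091407) (nat_lit 55) (nat_lit 5) (nat_lit 64) (nat_lit 3) (nat_lit 65) (nat_lit 5) (nat_lit 313) (nat_lit 312) (nat_lit 95))) (XT.nd (nat_lit 78) (nat_lit 0) (nat_lit 76) (XT.lf (nat_lit 0) (nat_lit 3571185633) (nat_lit 684) (nat_lit 27716865279) (nat_lit 760) (nat_lit 114102730212) (nat_lit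 55) (nat_lit 5) (nat_lit 64) (nat_lit 3) (nat_lit 65) (nat_lit 5) (nat_lit 314) (nat_lit 312) (nat_lit 94)) (XT.lf (nat_lit 0) (nat_lit 5547527289) (nat_lit 684) (nat_lit 117163121483) (nat_lit 760) (nat_lit 26397952981) (nat_lit 56) (nat_lit 5) (nat_lit 65) (nat_lit 5) (nat_lit 66) (nat_lit 5) (nat_lit 315) (nat_lit 312) (nat_lit 93)))) (XT.nd (nat_lit 37362) (nat_lit 0) (nat_lit 0) (XT.nd (nat_lit 37284) (nat_lit 76) (nat_lit 0) (XT.lf (nat_lit 0) (nat_lit 8612523050) (nat_lit 684) (nat_lit 57956360723) (nat_lit 760) (nat_lit 86393938660) (nat_lit 56) (nat_lit 5) (nat_lit 65) (nat_lit 5) (nat_lit 66) (nat_lit 5) (nat_lit 316) (nat_lit 312) (nat_lit 92)) (XT.lf (nat_lit 0) (nat_lit 432178964) (nat_lit 0) (nat_lit 432178964) (nat_lit 684) (nat_lit 71790549103) (nat_lit 55) (nat_lit 5) (nat_lit 55) (nat_lit 3) (nat_lit 64) (nat_lit 3) (nat_lit 313) (nat_lit 313) (nat_lit 94))) (XT.nd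 (nat_lit 78) (nat_lit 0) (nat_lit 0) (XT.lf (nat_lit 0) (nat_lit 2710382216) (nat_lit 684) (nat_lit 88172251715) (nat_lit 760) (nat_lit 58012989447) (nat_lit 55) (nat_lit 5) (nat_lit 64) (nat_lit 3) (nat_lit 65) (nat_lit 5) (nat_lit 314) (nat_lit 313) (nat_lit 93)) (XT.nd (nat_lit 37440) (nat_lit 0) (nat_lit 0) (XT.lf (nat_lit 0) (nat_lit 3755126712) (nat_lit 684) (nat_lit 29099656122) (nat_lit 760) (nat_lit 119805241456) (nat_lit 55) (nat_lit 5) (nat_lit 64) (nat_lit 3) (nat_lit 65) (nat_lit 5) (nat_lit 315) (nat_lit 313) (nat_lit 92)) (XT.lf (nat_lit 0) (nat_lit 455143947) (nat_lit 0) (nat_lit 455143947) (nat_lit 684) (nat_lit 75377215484) (nat_lit 55) (nat_lit 5) (nat_lit 55) (nat_lit 3) (nat_lit 64) (nat_lit 3) (nat_lit 314) (nat_lit 314) (nat_lit 92))))))))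

set_option maxRecDepth 10000000 in
noncomputable def Tp : PT := (PT.nd (nat_lit 4587180) (PT.nd (nat_lit 4286958) (PT.nd (nat_lit 4024410) (PT.nd (nat_lit 3799536) pc0 pc1) (PT.nd (nat_lit 150072) pc2 pc3)) (PT.nd (nat_lit 186810) (PT.nd (nat_lit 111774) pc4 pc5) (PT.nd (nat_lit 74724) pc6 pc7))) (PT.nd (nat_lit 223236) (PT.nd (nat_lit 112242) (PT.nd (nat_lit 74022) pc8 pc9) (PT.nd (nat_lit 38064) pc10 pc11)) (PT.nd (nat_lit 75036) (PT.nd (nat_lit 37596) pc12 pc13) (PT.nd (nat_lit 74568) pc14 pc15))))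

set_option maxRecDepth 10000000 in
noncomputable def Tx : XT := (XT.nd (nat_lit 6744036) (nat_lit 0) (nat_lit 76) XT.nil (XT.nd (nat_lit 5061186) (nat_lit 0) (nat_lit 0) (XT.nd (nat_lit 2469714) (nat_lit 0) (nat_lit 0) (XT.nd (nat_lit 1720992) (nat_lit 0) (nat_lit 0) (XT.nd (nat_lit 1198236) (nat_lit 0) (nat_lit 0) (XT.nd (nat_lit 824616) (nat_lit 0) (nat_lit 0) (XT.nd (nat_lit 562770) (nat_lit 0) (nat_lit 0) (XT.nd (nat_lit 411216) (nat_lit 0) (nat_lit 0) (XT.nd (nat_lit 262392) (nat_lit 0) (nat_lit 0) (XT.nd (nat_lit 187044) (nat_lit 0) (nat_lit 0) xc0 xc1) (XT.nd (nat_lit 74724) (nat_lit 0) (nat_lit 0) xc2 xc3)) (XT.nd (nat_lit 76050) (nat_lit 0) (nat_lit 0) (XT.nd (nat_lit 38064) (nat_lit 0) (nat_lit 0) xc4 xc5) (XT.nd (nat_lit 37830) (nat_lit 0) (nat_lit 0) xc6 xc7))) (XT.nd (nat_lit 149058) (nat_lit 0) (nat_lit 0) (XT.nd (nat_lit 74802) (nat_lit 0) (nat_lit 0) (XT.nd (nat_lit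 37440) (nat_lit 0) (nat_lit 0) xc8 xc9) (XT.nd (nat_lit 37206) (nat_lit 0) (nat_lit 0) xc10 xc11)) (XT.nd (nat_lit 73554) (nat_lit 0) (nat_lit 0) (XT.nd (nat_lit 36816) (nat_lit 0) (nat_lit 0) xc12 xc13) (XT.nd (nat_lit 36582) (nat_lit 0) (nat_lit 0) xc14 xc15)))) (XT.nd (nat_lit 221832) (nat_lit 0) (nat_lit 0) (XT.nd (nat_lit 111618) (nat_lit 0) (nat_lit 0) (XT.nd (nat_lit 72774) (nat_lit 0) (nat_lit 0) (XT.nd (nat_lit 36426) (nat_lit 0) (nat_lit 0) xc16 xc17) (XT.nd (nat_lit 2652) (nat_lit 0) (nat_lit 0) xc18 xc19)) (XT.nd (nat_lit 38610) (nat_lit 0) (nat_lit 0) (XT.nd (nat_lit 35958) (nat_lit 0) (nat_lit 0) xc20 xc21) (XT.nd (nat_lit 35880) (nat_lit 0) (nat_lit 0) xc22 xc23))) (XT.nd (nat_lit 76206) (nat_lit 0) (nat_lit 0) (XT.nd (nat_lit 38142) (nat_lit 0) (nat_lit 0) (XT.nd (nat_lit 2574) (nat_lit 0) (nat_lit 0) xc24 xc25) (XT.nd (nat_lit 2652) (nat_lit 0) (nat_lit 0) xc26 xc27))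 (XT.nd (nat_lit 37830) (nat_lit 0) (nat_lit 0) (XT.nd (nat_lit 2574) (nat_lit 0) (nat_lit 0) xc28 xc29) (XT.nd (nat_lit 35100) (nat_lit 0) (nat_lit 0) xc30 xc31))))) (XT.nd (nat_lit 296166) (nat_lit 0) (nat_lit 0) (XT.nd (nat_lit 149292) (nat_lit 0) (nat_lit 0) (XT.nd (nat_lit 74958) (nat_lit 0) (nat_lit 0) (XT.nd (nat_lit 37518) (nat_lit 0) (nat_lit 0) (XT.nd (nat_lit 34866) (nat_lit 0) (nat_lit 0) xc32 xc33) (XT.nd (nat_lit 34788) (nat_lit 0) (nat_lit 0) xc34 xc35)) (XT.nd (nat_lit 37206) (nat_lit 0) (nat_lit 0) (XT.nd (nat_lit 34554) (nat_lit 0) (nat_lit 0) xc36 xc37) (XT.nd (nat_lit 2652) (nat_lit 0) (nat_lit 0) xc38 xc39))) (XT.nd (nat_lit 73710) (nat_lit 0) (nat_lit 0) (XT.nd (nat_lit 36894) (nat_lit 0) (nat_lit 0) (XT.nd (nat_lit 2574) (nat_lit 0) (nat_lit 0) xc40 xc41) (XT.nd (nat_lit 2652) (nat_lit 0) (nat_lit 0) xc42 xc43)) (XT.nd (nat_lit 36582) (nat_lit 0) (nat_lit 0) (XT.nd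 (nat_lit 2574) (nat_lit 0) (nat_lit 0) xc44 xc45) (XT.nd (nat_lit 2652) (nat_lit 0) (nat_lit 0) xc46 xc47)))) (XT.nd (nat_lit 113958) (nat_lit 0) (nat_lit 0) (XT.nd (nat_lit 41652) (nat_lit 0) (nat_lit 0) (XT.nd (nat_lit 5226) (nat_lit 0) (nat_lit 0) (XT.nd (nat_lit 2574) (nat_lit 76) (nat_lit 0) xc48 xc49) (XT.nd (nat_lit 33774) (nat_lit 0) (nat_lit 0) xc50 xc51)) (XT.nd (nat_lit 36192) (nat_lit 0) (nat_lit 0) (XT.nd (nat_lit 33540) (nat_lit 0) (nat_lit 76) xc52 xc53) (XT.nd (nat_lit 2652) (nat_lit 0) (nat_lit 0) xc54 xc55))) (XT.nd (nat_lit 41184) (nat_lit 0) (nat_lit 0) (XT.nd (nat_lit 35880) (nat_lit 0) (nat_lit 0) (XT.nd (nat_lit 2574) (nat_lit 0) (nat_lit 0) xc56 xc57) (XT.nd (nat_lit 2652) (nat_lit 76) (nat_lit 0) xc58 xc59)) (XT.nd (nat_lit 35802) (nat_lit 0) (nat_lit 0) (XT.nd (nat_lit 33150) (nat_lit 0) (nat_lit 76) xc60 xc61) (XT.nd (nat_lit 2652) (nat_lit 0) (nat_lit 0)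 xc62 xc63)))))) (XT.nd (nat_lit 408564) (nat_lit 0) (nat_lit 0) (XT.nd (nat_lit 191724) (nat_lit 0) (nat_lit 0) (XT.nd (nat_lit 111228) (nat_lit 0) (nat_lit 0) (XT.nd (nat_lit 40716) (nat_lit 0) (nat_lit 0) (XT.nd (nat_lit 35412) (nat_lit 0) (nat_lit 0) (XT.nd (nat_lit 2574) (nat_lit 0) (nat_lit 0) xc64 xc65) (XT.nd (nat_lit 2652) (nat_lit 228) (nat_lit 0) xc66 xc67)) (XT.nd (nat_lit 35256) (nat_lit 0) (nat_lit 0) (XT.nd (nat_lit 32604) (nat_lit 0) (nat_lit 152) xc68 xc69) (XT.nd (nat_lit 2652) (nat_lit 0) (nat_lit 0) xc70 xc71))) (XT.nd (nat_lit 40326) (nat_lit 0) (nat_lit 0) (XT.nd (nat_lit 5226) (nat_lit 0) (nat_lit 0) (XT.nd (nat_lit 2574) (nat_lit 76) (nat_lit 0) xc72 xc73) (XT.nd (nat_lit 32448) (nat_lit 0) (nat_lit 76) xc74 xc75)) (XT.nd (nat_lit 34866) (nat_lit 0) (nat_lit 0) (XT.nd (nat_lit 2574) (nat_lit 0) (nat_lit 0) xc76 xc77) (XT.nd (nat_lit 2652) (nat_lit 76) (nat_lit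 0) xc78 xc79)))) (XT.nd (nat_lit 109044) (nat_lit 0) (nat_lit 0) (XT.nd (nat_lit 69342) (nat_lit 0) (nat_lit 0) (XT.nd (nat_lit 34710) (nat_lit 0) (nat_lit 0) (XT.nd (nat_lit 32058) (nat_lit 0) (nat_lit 76) xc80 xc81) (XT.nd (nat_lit 2652) (nat_lit 0) (nat_lit 0) xc82 xc83)) (XT.nd (nat_lit 5226) (nat_lit 0) (nat_lit 0) (XT.nd (nat_lit 2574) (nat_lit 152) (nat_lit 0) xc84 xc85) (XT.nd (nat_lit 31824) (nat_lit 0) (nat_lit 228) xc86 xc87))) (XT.nd (nat_lit 39546) (nat_lit 0) (nat_lit 0) (XT.nd (nat_lit 34242) (nat_lit 0) (nat_lit 76) (XT.nd (nat_lit 2574) (nat_lit 0) (nat_lit 0) xc88 xc89) (XT.nd (nat_lit 2652) (nat_lit 304) (nat_lit 0) xc90 xc91)) (XT.nd (nat_lit 34164) (nat_lit 0) (nat_lit 0) (XT.nd (nat_lit 31512) (nat_lit 0) (nat_lit 608) xc92 xc93) (XT.nd (nat_lit 2652) (nat_lit 76) (nat_lit 0) xc94 xc95))))) (XT.nd (nat_lit 155688) (nat_lit 0) (nat_lit 0) (XT.nd (nat_lit 78156)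 (nat_lit 0) (nat_lit 0) (XT.nd (nat_lit 39156) (nat_lit 0) (nat_lit 0) (XT.nd (nat_lit 5226) (nat_lit 228) (nat_lit 0) (XT.nd (nat_lit 2574) (nat_lit 1064) (nat_lit 0) xc96 xc97) (XT.nd (nat_lit 2652) (nat_lit 0) (nat_lit 0) xc98 xc99)) (XT.nd (nat_lit 5226) (nat_lit 76) (nat_lit 0) (XT.nd (nat_lit 2574) (nat_lit 304) (nat_lit 0) xc100 xc101) (XT.nd (nat_lit 31122) (nat_lit 0) (nat_lit 912) xc102 xc103))) (XT.nd (nat_lit 38844) (nat_lit 0) (nat_lit 0) (XT.nd (nat_lit 5226) (nat_lit 0) (nat_lit 0) (XT.nd (nat_lit 2574) (nat_lit 152) (nat_lit 0) xc104 xc105) (XT.nd (nat_lit 30966) (nat_lit 0) (nat_lit 380) xc106 xc107)) (XT.nd (nat_lit 33384) (nat_lit 0) (nat_lit 228) (XT.nd (nat_lit 2574) (nat_lit 76) (nat_lit 0) xc108 xc109) (XT.nd (nat_lit 2652) (nat_lit 836) (nat_lit 0) xc110 xc111)))) (XT.nd (nat_lit 77688) (nat_lit 0) (nat_lit 0) (XT.nd (nat_lit 38766) (nat_lit 0) (nat_lit 0) (XT.nd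 (nat_lit 33462) (nat_lit 0) (nat_lit 76) (XT.nd (nat_lit 2574) (nat_lit 0) (nat_lit 0) xc112 xc113) (XT.nd (nat_lit 2652) (nat_lit 456) (nat_lit 0) xc114 xc115)) (XT.nd (nat_lit 33618) (nat_lit 0) (nat_lit 0) (XT.nd (nat_lit 30966) (nat_lit 0) (nat_lit 1140) xc116 xc117) (XT.nd (nat_lit 2652) (nat_lit 228) (nat_lit 0) xc118 xc119))) (XT.nd (nat_lit 67548) (nat_lit 0) (nat_lit 0) (XT.nd (nat_lit 33696) (nat_lit 0) (nat_lit 0) (XT.nd (nat_lit 31044) (nat_lit 0) (nat_lit 532) xc120 xc121) (XT.nd (nat_lit 2652) (nat_lit 76) (nat_lit 0) xc122 xc123)) (XT.nd (nat_lit 5304) (nat_lit 152) (nat_lit 0) (XT.nd (nat_lit 2652) (nat_lit 760) (nat_lit 0) xc124 xc125) (XT.nd (nat_lit 31278) (nat_lit 0) (nat_lit 1672) xc126 xc127))))))) (XT.nd (nat_lit 792636) (nat_lit 0) (nat_lit 76) (XT.nd (nat_lit 375726) (nat_lit 0) (nat_lit 0) (XT.nd (nat_lit 186654) (nat_lit 0) (nat_lit 0) (XT.nd (nat_lit 78546)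 (nat_lit 0) (nat_lit 0) (XT.nd (nat_lit 39234) (nat_lit 0) (nat_lit 0) (XT.nd (nat_lit 5226) (nat_lit 0) (nat_lit 0) (XT.nd (nat_lit 2574) (nat_lit 304) (nat_lit 0) xc128 xc129) (XT.nd (nat_lit 31356) (nat_lit 0) (nat_lit 608) xc130 xc131)) (XT.nd (nat_lit 34008) (nat_lit 0) (nat_lit 228) (XT.nd (nat_lit 2574) (nat_lit 76) (nat_lit 0) xc132 xc133) (XT.nd (nat_lit 2652) (nat_lit 836) (nat_lit 0) xc134 xc135))) (XT.nd (nat_lit 39468) (nat_lit 0) (nat_lit 0) (XT.nd (nat_lit 34164) (nat_lit 0) (nat_lit 0) (XT.nd (nat_lit 31512) (nat_lit 0) (nat_lit 1900) xc136 xc137) (XT.nd (nat_lit 2652) (nat_lit 304) (nat_lit 0) xc138 xc139)) (XT.nd (nat_lit 34242) (nat_lit 0) (nat_lit 0) (XT.nd (nat_lit 31590) (nat_lit 0) (nat_lit 532) xc140 xc141) (XT.nd (nat_lit 2652) (nat_lit 76) (nat_lit 0) xc142 xc143)))) (XT.nd (nat_lit 79560) (nat_lit 0) (nat_lit 0) (XT.nd (nat_lit 39702) (nat_lit 0) (nat_lit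 0) (XT.nd (nat_lit 5226) (nat_lit 76) (nat_lit 0) (XT.nd (nat_lit 2574) (nat_lit 684) (nat_lit 0) xc144 xc145) (XT.nd (nat_lit 31824) (nat_lit 0) (nat_lit 1064) xc146 xc147)) (XT.nd (nat_lit 34554) (nat_lit 0) (nat_lit 304) (XT.nd (nat_lit 2574) (nat_lit 228) (nat_lit 0) xc148 xc149) (XT.nd (nat_lit 2652) (nat_lit 988) (nat_lit 0) xc150 xc151))) (XT.nd (nat_lit 69420) (nat_lit 0) (nat_lit 0) (XT.nd (nat_lit 34632) (nat_lit 0) (nat_lit 0) (XT.nd (nat_lit 31980) (nat_lit 0) (nat_lit 1596) xc152 xc153) (XT.nd (nat_lit 2652) (nat_lit 304) (nat_lit 0) xc154 xc155)) (XT.nd (nat_lit 5226) (nat_lit 380) (nat_lit 0) (XT.nd (nat_lit 2574) (nat_lit 1444) (nat_lit 0) xc156 xc157) (XT.nd (nat_lit 2652) (nat_lit 76) (nat_lit 0) xc158 xc159))))) (XT.nd (nat_lit 191490) (nat_lit 0) (nat_lit 76) (XT.nd (nat_lit 110370) (nat_lit 0) (nat_lit 76) (XT.nd (nat_lit 40170) (nat_lit 0) (nat_lit 76) (XT.nd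 (nat_lit 5226) (nat_lit 76) (nat_lit 0) (XT.nd (nat_lit 2574) (nat_lit 304) (nat_lit 0) xc160 xc161) (XT.nd (nat_lit 32292) (nat_lit 0) (nat_lit 380) xc162 xc163)) (XT.nd (nat_lit 35022) (nat_lit 0) (nat_lit 0) (XT.nd (nat_lit 2574) (nat_lit 0) (nat_lit 0) xc164 xc165) (XT.nd (nat_lit 2652) (nat_lit 304) (nat_lit 0) xc166 xc167))) (XT.nd (nat_lit 40482) (nat_lit 0) (nat_lit 0) (XT.nd (nat_lit 5226) (nat_lit 228) (nat_lit 0) (XT.nd (nat_lit 2574) (nat_lit 1292) (nat_lit 0) xc168 xc169) (XT.nd (nat_lit 32604) (nat_lit 0) (nat_lit 1368) xc170 xc171)) (XT.nd (nat_lit 35334) (nat_lit 0) (nat_lit 152) (XT.nd (nat_lit 2574) (nat_lit 228) (nat_lit 0) xc172 xc173) (XT.nd (nat_lit 2652) (nat_lit 836) (nat_lit 0) xc174 xc175)))) (XT.nd (nat_lit 112086) (nat_lit 0) (nat_lit 0) (XT.nd (nat_lit 71058) (nat_lit 0) (nat_lit 0) (XT.nd (nat_lit 35412) (nat_lit 0) (nat_lit 0) (XT.nd (nat_lit 32760) (nat_lit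 0) (nat_lit 760) xc176 xc177) (XT.nd (nat_lit 2652) (nat_lit 76) (nat_lit 0) xc178 xc179)) (XT.nd (nat_lit 35724) (nat_lit 0) (nat_lit 228) (XT.nd (nat_lit 2574) (nat_lit 456) (nat_lit 0) xc180 xc181) (XT.nd (nat_lit 2652) (nat_lit 1292) (nat_lit 0) xc182 xc183))) (XT.nd (nat_lit 71838) (nat_lit 0) (nat_lit 0) (XT.nd (nat_lit 35802) (nat_lit 0) (nat_lit 0) (XT.nd (nat_lit 33150) (nat_lit 0) (nat_lit 988) xc184 xc185) (XT.nd (nat_lit 2652) (nat_lit 152) (nat_lit 0) xc186 xc187)) (XT.nd (nat_lit 36192) (nat_lit 0) (nat_lit 152) (XT.nd (nat_lit 2652) (nat_lit 456) (nat_lit 0) xc188 xc189) (XT.nd (nat_lit 2652) (nat_lit 988) (nat_lit 0) xc190 xc191)))))) (XT.nd (nat_lit 560742) (nat_lit 0) (nat_lit 304) (XT.nd (nat_lit 261222) (nat_lit 0) (nat_lit 152) (XT.nd (nat_lit 145548) (nat_lit 0) (nat_lit 152) (XT.nd (nat_lit 72540) (nat_lit 0) (nat_lit 76) (XT.nd (nat_lit 36192) (nat_lit 0) (nat_lit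 0) (XT.nd (nat_lit 33540) (nat_lit 0) (nat_lit 456) xc192 xc193) (XT.nd (nat_lit 33696) (nat_lit 0) (nat_lit 1140) xc194 xc195)) (XT.nd (nat_lit 36426) (nat_lit 0) (nat_lit 0) (XT.nd (nat_lit 2574) (nat_lit 152) (nat_lit 0) xc196 xc197) (XT.nd (nat_lit 2652) (nat_lit 380) (nat_lit 0) xc198 xc199))) (XT.nd (nat_lit 41964) (nat_lit 0) (nat_lit 0) (XT.nd (nat_lit 36660) (nat_lit 0) (nat_lit 76) (XT.nd (nat_lit 2574) (nat_lit 684) (nat_lit 0) xc200 xc201) (XT.nd (nat_lit 2652) (nat_lit 1292) (nat_lit 0) xc202 xc203)) (XT.nd (nat_lit 36738) (nat_lit 0) (nat_lit 0) (XT.nd (nat_lit 34086) (nat_lit 0) (nat_lit 304) xc204 xc205) (XT.nd (nat_lit 34320) (nat_lit 0) (nat_lit 608) xc206 xc207)))) (XT.nd (nat_lit 148824) (nat_lit 0) (nat_lit 76) (XT.nd (nat_lit 74178) (nat_lit 0) (nat_lit 76) (XT.nd (nat_lit 36972) (nat_lit 0) (nat_lit 76) (XT.nd (nat_lit 34320) (nat_lit 0) (nat_lit 836) xc208 xc209)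 (XT.nd (nat_lit 34554) (nat_lit 0) (nat_lit 1140) xc210 xc211)) (XT.nd (nat_lit 37206) (nat_lit 0) (nat_lit 0) (XT.nd (nat_lit 2574) (nat_lit 0) (nat_lit 0) xc212 xc213) (XT.nd (nat_lit 2652) (nat_lit 76) (nat_lit 0) xc214 xc215))) (XT.nd (nat_lit 75114) (nat_lit 0) (nat_lit 76) (XT.nd (nat_lit 37440) (nat_lit 0) (nat_lit 76) (XT.nd (nat_lit 2574) (nat_lit 76) (nat_lit 0) xc216 xc217) (XT.nd (nat_lit 2652) (nat_lit 0) (nat_lit 0) xc218 xc219)) (XT.nd (nat_lit 37674) (nat_lit 0) (nat_lit 0) (XT.nd (nat_lit 2574) (nat_lit 0) (nat_lit 0) xc220 xc221) (XT.nd (nat_lit 35256) (nat_lit 0) (nat_lit 1216) xc222 xc223))))) (XT.nd (nat_lit 375180) (nat_lit 0) (nat_lit 532) (XT.nd (nat_lit 185952) (nat_lit 0) (nat_lit 228) (XT.nd (nat_lit 76128) (nat_lit 0) (nat_lit 152) (XT.nd (nat_lit 37986) (nat_lit 0) (nat_lit 152) (XT.nd (nat_lit 35334) (nat_lit 0) (nat_lit 912) xc224 xc225) (XT.nd (nat_lit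 35490) (nat_lit 0) (nat_lit 380) xc226 xc227)) (XT.nd (nat_lit 38220) (nat_lit 0) (nat_lit 0) (XT.nd (nat_lit 35568) (nat_lit 0) (nat_lit 76) xc228 xc229) (XT.nd (nat_lit 35724) (nat_lit 0) (nat_lit 76) xc230 xc231))) (XT.nd (nat_lit 77376) (nat_lit 0) (nat_lit 152) (XT.nd (nat_lit 38610) (nat_lit 0) (nat_lit 0) (XT.nd (nat_lit 2574) (nat_lit 608) (nat_lit 0) xc232 xc233) (XT.nd (nat_lit 36114) (nat_lit 0) (nat_lit 988) xc234 xc235)) (XT.nd (nat_lit 72618) (nat_lit 0) (nat_lit 152) (XT.nd (nat_lit 36192) (nat_lit 0) (nat_lit 76) xc236 xc237) (XT.nd (nat_lit 2652) (nat_lit 532) (nat_lit 0) xc238 xc239)))) (XT.nd (nat_lit 262548) (nat_lit 0) (nat_lit 912) (XT.nd (nat_lit 113178) (nat_lit 0) (nat_lit 380) (XT.nd (nat_lit 73476) (nat_lit 0) (nat_lit 304) (XT.nd (nat_lit 36582) (nat_lit 0) (nat_lit 152) xc240 xc241) (XT.nd (nat_lit 2652) (nat_lit 228) (nat_lit 0) xc242 xc243)) (XT.nd (nat_lit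 74334) (nat_lit 0) (nat_lit 152) (XT.nd (nat_lit 37050) (nat_lit 0) (nat_lit 152) xc244 xc245) (XT.nd (nat_lit 37440) (nat_lit 0) (nat_lit 152) xc246 xc247))) (XT.nd (nat_lit 187356) (nat_lit 0) (nat_lit 684) (XT.nd (nat_lit 75582) (nat_lit 0) (nat_lit 228) (XT.nd (nat_lit 37674) (nat_lit 0) (nat_lit 228) xc248 xc249) (XT.nd (nat_lit 37986) (nat_lit 0) (nat_lit 228) xc250 xc251)) (XT.nd (nat_lit 113178) (nat_lit 0) (nat_lit 912) (XT.nd (nat_lit 38454) (nat_lit 0) (nat_lit 380) xc252 xc253) (XT.nd (nat_lit 111930) (nat_lit 0) (nat_lit 684) xc254 xc255)))))))) XT.nil))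

set_option maxRecDepth 10000000 in
noncomputable def Te : XT := XT.nil

set_option maxRecDepth 10000000 in
noncomputable def Tz : ZL := (ZL.cons (nat_lit 76) (nat_lit 3) (nat_lit 80967072726231340602) (ZL.cons (nat_lit 152) (nat_lit 6) (nat_lit 158708632360610032220) (ZL.cons (nat_lit 228) (nat_lit 6) (nat_lit 155678380507362528902) (ZL.cons (nat_lit 304) (nat_lit 3) (nat_lit 77752230035828147838) (ZL.cons (nat_lit 380) (nat_lit 6) (nat_lit 152496616061452650416) (ZL.cons (nat_lit 456) (nat_lit 6) (nat_lit 149677938796641468720) (ZL.cons (nat_lit 532) (nat_lit 3) (nat_lit 74756150143222528061) (ZL.cons (nat_lit 608) (nat_lit 6) (nat_lit 146718327668589727936) (ZL.cons (nat_lit 684) (nat_lit 6) (nat_lit 144108045892129867456) (ZL.cons (nat_lit 760) (nat_lit 3) (nat_lit 71975147465019022969) (ZL.cons (nat_lit 836) (nat_lit 6) (nat_lit 141675240000454855970) (ZL.cons (nat_lit 912) (nat_lit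 6) (nat_lit 141367250026847013954) (ZL.cons (nat_lit 988) (nat_lit 6) (nat_lit 138963042852104272392) (ZL.cons (nat_lit 1064) (nat_lit 3) (nat_lit 69406401920294125947) (ZL.cons (nat_lit 1140) (nat_lit 6) (nat_lit 136731949103012814718) (ZL.cons (nat_lit 1216) (nat_lit 6) (nat_lit 136438625318624393748) (ZL.cons (nat_lit 1292) (nat_lit 6) (nat_lit 134668656651598613652) (ZL.cons (nat_lit 1368) (nat_lit 6) (nat_lit 134239061654950763662) (ZL.cons (nat_lit 1444) (nat_lit 3) (nat_lit 67047988441039181595) (ZL.cons (nat_lit 1520) (nat_lit 6) (nat_lit 132208875793225281564) (ZL.cons (nat_lit 1596) (nat_lit 6) (nat_lit 131929519808093452072) (ZL.cons (nat_lit 1672) (nat_lit 6) (nat_lit 130343233957586696308) (ZL.cons (nat_lit 1748) (nat_lit 6) (nat_lit 129934095865541124890) (ZL.cons (nat_lit 1824) (nat_lit 3) (nat_lit 64898912326640847935) (ZL.cons (nat_lit 1900) (nat_lit 6) (nat_lit 128637694143664439834)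 (ZL.cons (nat_lit 1976) (nat_lit 6) (nat_lit 128104954045034352296) (ZL.cons (nat_lit 2052) (nat_lit 6) (nat_lit 127838900725861181350) (ZL.cons (nat_lit 2128) (nat_lit 6) (nat_lit 126437739247000499118) (ZL.cons (nat_lit 2204) (nat_lit 6) (nat_lit 126048083921242812052) (ZL.cons (nat_lit 2280) (nat_lit 3) (nat_lit 62959150907164535063) (ZL.cons (nat_lit 2356) (nat_lit 6) (nat_lit 124928481912396627606) (ZL.cons (nat_lit 2432) (nat_lit 6) (nat_lit 124421110389891782334) (ZL.cons (nat_lit 2508) (nat_lit 6) (nat_lit 124167726276393524288) (ZL.cons (nat_lit 2584) (nat_lit 6) (nat_lit 123573588571378442832) (ZL.cons (nat_lit 2660) (nat_lit 6) (nat_lit 122954106385304875456) (ZL.cons (nat_lit 2736) (nat_lit 6) (nat_lit 122583006075059459204) (ZL.cons (nat_lit 2812) (nat_lit 3) (nat_lit 61229702034237471542) (ZL.cons (nat_lit 2888) (nat_lit 6) (nat_lit 122369833287419711020) (ZL.cons (nat_lit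 2964) (nat_lit 6) (nat_lit 121643579040804503544) (ZL.cons (nat_lit 3040) (nat_lit 6) (nat_lit 121160368066990365188) (ZL.cons (nat_lit 3116) (nat_lit 6) (nat_lit 120919049863658690862) (ZL.cons (nat_lit 3192) (nat_lit 6) (nat_lit 120486408053189475242) (ZL.cons (nat_lit 3268) (nat_lit 6) (nat_lit 119896425018833696786) (ZL.cons (nat_lit 3344) (nat_lit 6) (nat_lit 119542996151933300356) (ZL.cons (nat_lit 3420) (nat_lit 3) (nat_lit 59712639977593071075) (ZL.cons (nat_lit 3496) (nat_lit 6) (nat_lit 119479838253441659524) (ZL.cons (nat_lit 3572) (nat_lit 6) (nat_lit 118788167542379557166) (ZL.cons (nat_lit 3648) (nat_lit 6) (nat_lit 118327966614937520636) (ZL.cons (nat_lit 3724) (nat_lit 6) (nat_lit 118098139754621640326) (ZL.cons (nat_lit 3800) (nat_lit 6) (nat_lit 118621473046799752072) (ZL.cons (nat_lit 3876) (nat_lit 6) (nat_lit 117832956929350674568) (ZL.cons (nat_lit 3952) (nat_lit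 6) (nat_lit 117271068325202314136) (ZL.cons (nat_lit 4028) (nat_lit 6) (nat_lit 116934469404344793726) (ZL.cons (nat_lit 4104) (nat_lit 3) (nat_lit 58411179370388035811) (ZL.cons (nat_lit 4180) (nat_lit 6) (nat_lit 116493286487343670884) (ZL.cons (nat_lit 4256) (nat_lit 6) (nat_lit 116634380242911250604) (ZL.cons (nat_lit 4332) (nat_lit 6) (nat_lit 116916903691559666186) (ZL.cons (nat_lit 4408) (nat_lit 6) (nat_lit 117341529508166651950) (ZL.cons (nat_lit 4484) (nat_lit 6) (nat_lit 117909268706581272150) (ZL.cons (nat_lit 4560) (nat_lit 6) (nat_lit 117028518868763646886) (ZL.cons (nat_lit 4636) (nat_lit 6) (nat_lit 116369784858228311308) (ZL.cons (nat_lit 4712) (nat_lit 6) (nat_lit 115931498260664466996) (ZL.cons (nat_lit 4788) (nat_lit 6) (nat_lit 115712615536554104792) (ZL.cons (nat_lit 4864) (nat_lit 3) (nat_lit 57606606454472465742) (ZL.cons (nat_lit 4940) (nat_lit 6) (nat_lit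 115285480442284423536) (ZL.cons (nat_lit 5016) (nat_lit 6) (nat_lit 115502455107858469910) (ZL.cons (nat_lit 5092) (nat_lit 6) (nat_lit 115864653512013675478) (ZL.cons (nat_lit 5168) (nat_lit 6) (nat_lit 116372938031902790728) (ZL.cons (nat_lit 5244) (nat_lit 6) (nat_lit 115621970300998907390) (ZL.cons (nat_lit 5320) (nat_lit 6) (nat_lit 115086838297048087932) (ZL.cons (nat_lit 5396) (nat_lit 6) (nat_lit 114766267896231401826) (ZL.cons (nat_lit 5472) (nat_lit 3) (nat_lit 57329747917844880863) (ZL.cons (nat_lit 5548) (nat_lit 6) (nat_lit 114135188970799426062) (ZL.cons (nat_lit 5624) (nat_lit 6) (nat_lit 114283337414145384768) (ZL.cons (nat_lit 5700) (nat_lit 6) (nat_lit 114579987035226221128) (ZL.cons (nat_lit 5776) (nat_lit 6) (nat_lit 115025844142663556182) (ZL.cons (nat_lit 5852) (nat_lit 6) (nat_lit 114398478418344188964) (ZL.cons (nat_lit 5928) (nat_lit 6) (nat_lit 113981062611140527712)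 (ZL.cons (nat_lit 6004) (nat_lit 6) (nat_lit 113772602873892563710) (ZL.cons (nat_lit 6080) (nat_lit 3) (nat_lit 56590383519619218380) (ZL.cons (nat_lit 6156) (nat_lit 6) (nat_lit 113256647949244903414) (ZL.cons (nat_lit 6232) (nat_lit 6) (nat_lit 113484471348097652106) (ZL.cons (nat_lit 6308) (nat_lit 6) (nat_lit 113864779672460617952) (ZL.cons (nat_lit 6384) (nat_lit 6) (nat_lit 113355130144888408940) (ZL.cons (nat_lit 6460) (nat_lit 6) (nat_lit 113049825001253469792) (ZL.cons (nat_lit 6536) (nat_lit 3) (nat_lit 56474068662273572945) (ZL.cons (nat_lit 6612) (nat_lit 6) (nat_lit 112419942214431072318) (ZL.cons (nat_lit 6688) (nat_lit 6) (nat_lit 112575498079944328958) (ZL.cons (nat_lit 6764) (nat_lit 6) (nat_lit 112886980182079207136) (ZL.cons (nat_lit 6840) (nat_lit 6) (nat_lit 112489441318075720228) (ZL.cons (nat_lit 6916) (nat_lit 6) (nat_lit 112290908234982421180) (ZL.cons (nat_lit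 6992) (nat_lit 3) (nat_lit 55885614026596214990) (ZL.cons (nat_lit 7068) (nat_lit 6) (nat_lit 111850903008699219966) (ZL.cons (nat_lit 7144) (nat_lit 6) (nat_lit 112090117577494606092) (ZL.cons (nat_lit 7220) (nat_lit 6) (nat_lit 111799350774032759284) (ZL.cons (nat_lit 7296) (nat_lit 3) (nat_lit 55851252683822892069) (ZL.cons (nat_lit 7372) (nat_lit 6) (nat_lit 111308960908002217728) (ZL.cons (nat_lit 7448) (nat_lit 6) (nat_lit 111472294566791137200) (ZL.cons (nat_lit 7524) (nat_lit 6) (nat_lit 111283215440035614294) (ZL.cons (nat_lit 7600) (nat_lit 3) (nat_lit 55474190719759164689) (ZL.cons (nat_lit 7676) (nat_lit 6) (nat_lit 111032040142800458864) (ZL.cons (nat_lit 7752) (nat_lit 3) (nat_lit 55469903211215955552) (ZL.cons (nat_lit 7828) (nat_lit 6) (nat_lit 110768306080703545660) (ZL.cons (nat_lit 7904) (nat_lit 1) (nat_lit 18446744073709551617) ZL.nil))))))))))))))))))))))))))))))))))))))))))))))))))))))))))))))))))))))))))))))))))))))))))))))))))))))))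

noncomputable def vl : XL := ⟨(nat_lit 0), (nat_lit 76), (nat_lit 613179573), (nat_lit 152), (nat_lit 61583082), (nat_lit 152), (nat_lit 61583082), (nat_lit 1), (nat_lit 4), (nat_lit 2), (nat_lit 5), (nat_lit 2), (nat_lit 4), (nat_lit 0), (nat_lit 0), (nat_lit 0)⟩

noncomputable def cp0 : Nat := (nat_lit 3292725589064796627365503169769972791441776497237302079733565151166419169196738447972610998170766694583514949839885135631161158748581784511719323043441050209019729382749001378806123233009271078524612035722635880802450274492185044910708289415253020093306259581951011924348392500524251263880536700951842975313465244475552108495277581867315962930018908482627703665823652695353697040491659681496514487768826945693230471972082624224115738200434219469419793355369196649491752220037193440170716969130868565738516206516830713307445021602676666986073666424865421369161762843407974186440522182044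679040676030172196565155150349258766497104779195590738276215296558026653496681932749410307560064034430513278875657859682285634240543805034181239405419148282295521884012388288193152926818601445952190610465397920222895683052102859239504609311192524654181617010621643881187205556769594053940303136840257288276223536098176399648487417033207123821402105776359533275273901546586360028420058082308647333728244828296338672504443786027700849596988749941423846782992139873278709556716908230576311513997111388521749800796834989293958061827481356295966135091067355385485338259937185816881695673518790413900793121994638977840006125097954740448731519991194094590348818469438170136248122129984385057907376564185570772730117083338564355450438683925748553748754677443565006769513554474072990527779854275495443617508303585122534415265960455105551486681410219698101276857829822702913795491374636880020640870881708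229757867972120890726566391163885128295626434881493255162290181134779241474530967782880076402246416106302059975003686608493715774824029119432584226482587041304437001035879643048952145837055383040030457093569907377642445430631125513710482934419933392586499787524977838328260028317749196218592608778653144133239556524574687849983815026533165837535195608648919219043172691283859330031175447252555779562832550312820351624189537905456495087018336704536005528523343315534582613046531576999160584823121074710201118116085273770270352641530608166035305845775246845767663529218182282194746191538186413498214308004374139142452996057840742071951063874366714624624125857394965920730363705102194349324695984854851991122898288455175867394350454640359781182387849461462184628094490704581101427619381207543392205653626880763718887417294008589544346244990240744355644940894399372623654240678356495563226999193233700522402628830454874112)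

noncomputable def cp1 : Nat := (nat_lit 536858382118367000046184055233290940070441172833414168496464330350963987252692171294325809557032138616761901221976799444849347297988415947591410841833722151715315570296488035342620937668298412009498720922876519916585454961090025811281004144764770934509668013575751407761606157387480231550523561725849120938392012668222042506567470489491569453504357807005024684345753440373418668802043231573267634542668300825693209710616837105021237301358581925899564206760241604886193963416262079144892420939982364651733361774355503780808360947580014033941255518739352129789270118282240524445643585396789106368941087975878060346459661253060574544588034852760350548101127450699448919984592186483424025811101770280386932480535016470206741750748598198318570575367234742457154488558121596599771237046836645249702783990793968903177298241414554361186622357027857345703735943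426908443018289588680806300628638498666938689436196532807577514138166872137913190460787439623102474852705755712264666267555779070981645842586969993519393010874695388580168318666555954801033273172650626122914245163818479444596011597098619366980242239711956214929618562294960047658015278486970289880387413389026653585134779438797692874452430053265658589013456353091119710904856104937773160820831843415963963808593108345314100449147020732367773934752465272601662572626940780996308710209148825079019794265852229538668430490621494621212008180894830177656751241687595923307919931255895865437104238451976788171005814395982585362407131122550295821561984747421059766274832990288009310229621462858689509860634473777785071979437845264619520790213239513326309297663888736206587918621937760249811772769527000327422581507456492674553652967389973968533927554750014039398328474840522433593812567258483151551140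1614680413948009610857270135120336755129015905185053532581802846600526176951492006596074752328226916309533546903360709359028713913669616041315661951081448251664653891582767839608082320214177174367604378831204386497582894381150732369530986709936925441297418267758962807900479331252956446221560825523891190406812277008837477858685182086168921155400416326574515740809316157972773954748566764676035927714264662033039013080633039016095388923056460355430431981525922520954829530276693317732936172056446275249899960219880280433773766134174277139182238077082001717386310658644820097216309424131619882198404298406447131315953354211264057237102333788148054622208)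

noncomputable def rc0 : Nat := (nat_lit 385106908844414452437649248989215081790728592317101042987376073604075074691978750060121709891594247710206822724199403326017215092059206413527286051044072358980617908082083029944740545961774395090511472421191005374549055105909358374529462972511463780945941677689929706860009817406299723135147873763237836375468012220987346143875649318803491644717696703242137918983503073816848589205211746781874904263641069995946284366169653018826670059948971193872270448932001456868222175225311676843861577837803120848463760389751354995556074150425141259190511494515353983558960519142242757220779279313486358148029948349276527110587336161818345512547646489121763085920247178444439224254538732499800722120885392075503186893487031159978505519795212355699205162503250734201680754223852626167986056009894867799430570203884186174299578526126085450082450832923547615359029218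686904826297698067492985746599021126523570682552956849243062676311132128800304156992375314462574596517245086476415656235820387673983491325796451855556240778096079859036023405620264343413131603543808547266203283277798591626286895298354583531601914277309023163744088741403969442932968039272491095945407781258814323078050916850456381727322442049151478335332036909685625236805943009112632716734198018241422364822516678793862124612844516221028312448823286992456986941336630516645848735969116354327413937841828912342754414011794755355109008727081168422565901921031956667991432563904225172323769441258992111979767288486428666141516574355553621890935131556724944831700339844105083583940484270777805177522513946986651178388769352433438452118736807892889773316030582642020717507425559363518535308371382063672083501648183899118345606417868386347908425193980164902040735994131269428814249930060960982504358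8924422765179707049600744612969420116180087715726123427465421877612926987873733932876930781878782642957843204625089026061920670764342250548833971940470046117394636836320912175329647499760158152763395995915020490877720915535122993648038140719919415782993191670162674778130961382291559593304348025913631427082064353155701773574801740938535829670516965797059268377155971232409212333166557812449385615599943197668366265553354612395374205605374399038480498137192066873686477429088798109153238585357714476207977977689846154033985093404979898580207424864963797269511568736703086547097052751129803608435392387839408551622066722956045473575696556379562343137280)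

noncomputable def rc1 : Nat := (nat_lit 461797361558554288322812113582988609239508588439552678863465937477361571794365028936290004222018940438360834079623597818538927434616990921146642296183259579618294300234999227585735504152678003379759104260115623880335427541407509380552576108412053611653122415452231129686796273214452763524956874444914178076181889540901077509916133646724595117013813279276852961049030641851768581892114638222105680326158786002868651804768776599605513803593235307100758711105708599942424942176034911225488152369889103932357137833399371635381512907342021418843729538091457376318000774953123930395743957271715750102309616927306693754046639159793103034644716453586245036792835106839198882625364083699188813950306622064032561731793769024047021709241681421108111641461344349178029675343622424666320417427284968606488813385260692521203257105097409840340439059129588482645455314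044192749824418110890985458748177659219634575282518913084533308457290362301266629789578370639933660050387568577418654571749534309502931182791097828568015106270783353129386258035753976040449785128908500071918708655964122492025444109762572350479598969091330392862146765899238852694758450495255423936087896131977797399288319168825217816928798653504482949145992025913750012982003967706601141809947176969977421268606256749755485292595542717367897751207770557287721466486216791944840102427014454947860736843015663330952939201877539226175955874907212329036485191443723623934766218905738176512668711556845992203446424291273310722036944546970836630963671896765193871756526116086755471461368743800985404808713851143858578791280967163838809002688553136346674723141979264336240005569377891694044875898887627271389729626429061069409604472953064199291609010332426812031968251668645261054087690425644020388443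9583070763312246234323979961188333546091334422580989703412098048605962555186998223328305369632306684490694023529408684006836404247048750633655827415369660488599107765182194269471446608187293122792138571561632217602192475621701808713264141605177708268553423803735357927444285448069423357149863561308518632669752758981814386247164432928319557157448154443792234488958194283055467073042823306464002983189507552670414102523046285766169586986884108826845172944256006498802957645077428135244985586174748376272271687851240254993565796273552622570765922861503823371854013057536553299649343596810465103818783271320327500991405862727782965670827890140704908771328)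

noncomputable def rc2 : Nat := (nat_lit 536858382118367000046184055233290940070441172833414168496464330350963987252692171294325809557032138616761901221976799444849347297988415947591410841833722151715315570296488035342620937668298412009498720922876519916585454961090025811281004144764770934509668013575751407761606157387480231550523561725849120938392012668222042506567470489491569453504357807005024684345753440373418668802043231573267634542668300825693209710616837105021237301358581925899564206760241604886193963416262079144892420939982364651733361774355503780808360947580014033941255518739352129789270118282240524445643585396789106368941087975878060346459661253060574544588034852760350548101127450699448919984592186483424025811101770280386932480535016470206741750748598198318570575367234742457154488558121596599771237046836645249702783990793968903177298241414554361186622357027857345703735943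426908443018289588680806300628638498666938689436196532807577514138166872137913190460787439623102474852705755712264666267555779070981645842586969993519393010874695388580168318666555954801033273172650626122914245163818479444596011597098619366980242239711956214929618562294960047658015278486970289880387413389026653585134779438797692874452430053265658589013456353091119710904856104937773160820831843415963963808593108345314100449147020732367773934752465272601662572626940780996308710209148825079019794265852229538668430490621494621212008180894830177656751241687595923307919931255895865437104238451976788171005814395982585362407131122550295821561984747421059766274832990288009310229621462858689509860634473777785071979437845264619520790213239513326309297663888736206587918621937760249811772769527000327422581507456492674553652967389973968533927554750014039398328474840522433593812567258483151551140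1614680413948009610857270135120336755129015905185053532581802846600526176951492006596074752328226916309533546903360709359028713913669616041315661951081448251664653891582767839608082320214177174367604378831204386497582894381150732369530986709936925441297418267758962807900479331252956446221560825523891190406812277008837477858685182086168921155400416326574515740809316157972773954748566764676035927714264662033039013080633039016095388923056460355430431981525922520954829530276693317732936172056446275249899960219880280433773766134174277139182238077082001717386310658644820097216309424131619882198404298406447131315953354211264057237102333788148054622208)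

end Vale.Agent.Lib.P154.PChain.BW.S4
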