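import Vale.Agent.Lib.P154.PChain.BW.R4_0

set_option linter.all false

namespace Vale.Agent.Lib.P154.PChain.BW.S5

open Vale.Agent.Lib.P154.Chain

noncomputable def pc0 : PT := (PT.nd (nat_lit 3649464) (PT.nd (nat_lit 3536988) (PT.nd (nat_lit 3462108) (PT.nd (nat_lit 3424668) (PT.nd (nat_lit 3424590) (PT.nd (nat_lit 3387150) PT.nil (PT.lf (nat_lit 76) (nat_lit 3) (nat_lit 1) (nat_lit 1) (nat_lit 135) (nat_lit 90) (nat_lit 135))) (PT.lf (nat_lit 152) (nat_lit 6) (nat_lit 2) (nat_lit 3) (nat_lit 134) (nat_lit 91) (nat_lit 135))) (PT.nd (nat_lit 37362) (PT.lf (nat_lit 152) (nat_lit 6) (nat_lit 2) (nat_lit 1) (nat_lit 135) (nat_lit 91) (nat_lit 134)) (PT.lf (nat_lit 228) (nat_lit 6) (nat_lit 3) (nat_lit 3) (nat_lit 133) (nat_lit 92) (nat_lit 135)))) (PT.nd (nat_lit 37440) (PT.nd (nat_lit 78) (PT.lf (nat_lit 304) (nat_lit 3) (nat_lit 4) (nat_lit 1) (nat_lit 134) (nat_lit 92) (nat_lit 134)) (PT.lf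 (nat_lit 228) (nat_lit 6) (nat_lit 3) (nat_lit 1) (nat_lit 135) (nat_lit 92) (nat_lit 133))) (PT.nd (nat_lit 78) (PT.lf (nat_lit 380) (nat_lit 6) (nat_lit 5) (nat_lit 3) (nat_lit 133) (nat_lit 93) (nat_lit 134)) (PT.lf (nat_lit 380) (nat_lit 6) (nat_lit 5) (nat_lit 1) (nat_lit 134) (nat_lit 93) (nat_lit 133))))) (PT.nd (nat_lit 37596) (PT.nd (nat_lit 156) (PT.nd (nat_lit 78) (PT.lf (nat_lit 456) (nat_lit 6) (nat_lit 6) (nat_lit 3) (nat_lit 132) (nat_lit 94) (nat_lit 134)) (PT.lf (nat_lit 532) (nat_lit 3) (nat_lit 7) (nat_lit 1) (nat_lit 133) (nat_lit 94) (nat_lit 133))) (PT.nd (nat_lit 37362) (PT.lf (nat_lit 456) (nat_lit 6) (nat_lit 6) (nat_lit 1) (nat_lit 134) (nat_lit 94) (nat_lit 132)) (PT.lf (nat_lit 608) (nat_lit 6) (nat_lit 8) (nat_lit 3) (nat_lit 132) (nat_lit 95) (nat_lit 133)))) (PT.nd (nat_lit 37440) (PT.nd (nat_lit 37362) (PT.lf (nat_lit 608) (nat_lit 6) (nat_lit 8) (nat_lit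 1) (nat_lit 133) (nat_lit 95) (nat_lit 132)) (PT.lf (nat_lit 684) (nat_lit 6) (nat_lit 9) (nat_lit 3) (nat_lit 131) (nat_lit 96) (nat_lit 133))) (PT.nd (nat_lit 78) (PT.lf (nat_lit 760) (nat_lit 3) (nat_lit 10) (nat_lit 1) (nat_lit 132) (nat_lit 96) (nat_lit 132)) (PT.nd (nat_lit 37284) (PT.lf (nat_lit 684) (nat_lit 6) (nat_lit 9) (nat_lit 1) (nat_lit 133) (nat_lit 96) (nat_lit 131)) (PT.lf (nat_lit 836) (nat_lit 6) (nat_lit 11) (nat_lit 3) (nat_lit 130) (nat_lit 97) (nat_lit 133))))))) (PT.nd (nat_lit 75114) (PT.nd (nat_lit 37518) (PT.nd (nat_lit 156) (PT.nd (nat_lit 78) (PT.lf (nat_lit 912) (nat_lit 6) (nat_lit 12) (nat_lit 3) (nat_lit 131) (nat_lit 97) (nat_lit 132)) (PT.lf (nat_lit 912) (nat_lit 6) (nat_lit 12) (nat_lit 1) (nat_lit 132) (nat_lit 97) (nat_lit 131))) (PT.nd (nat_lit 37284) (PT.lf (nat_lit 836) (nat_lit 6) (nat_lit 11) (nat_lit 1) (nat_lit 133) (nat_lit 97) (nat_lit 130))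 (PT.lf (nat_lit 988) (nat_lit 6) (nat_lit 13) (nat_lit 3) (nat_lit 130) (nat_lit 98) (nat_lit 132)))) (PT.nd (nat_lit 37362) (PT.nd (nat_lit 78) (PT.lf (nat_lit 1064) (nat_lit 3) (nat_lit 14) (nat_lit 1) (nat_lit 131) (nat_lit 98) (nat_lit 131)) (PT.lf (nat_lit 988) (nat_lit 6) (nat_lit 13) (nat_lit 1) (nat_lit 132) (nat_lit 98) (nat_lit 130))) (PT.nd (nat_lit 78) (PT.lf (nat_lit 1140) (nat_lit 6) (nat_lit 15) (nat_lit 3) (nat_lit 129) (nat_lit 99) (nat_lit 132)) (PT.nd (nat_lit 78) (PT.lf (nat_lit 1216) (nat_lit 6) (nat_lit 16) (nat_lit 3) (nat_lit 130) (nat_lit 99) (nat_lit 131)) (PT.lf (nat_lit 1216) (nat_lit 6) (nat_lit 16) (nat_lit 1) (nat_lit 131) (nat_lit 99) (nat_lit 130)))))) (PT.nd (nat_lit 37440) (PT.nd (nat_lit 37284) (PT.nd (nat_lit 37206) (PT.lf (nat_lit 1140) (nat_lit 6) (nat_lit 15) (nat_lit 1) (nat_lit 132) (nat_lit 99) (nat_lit 129)) (PT.lf (nat_lit 1292) (nat_lit 6) (nat_lit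 17) (nat_lit 3) (nat_lit 128) (nat_lit 100) (nat_lit 132))) (PT.nd (nat_lit 78) (PT.lf (nat_lit 1368) (nat_lit 6) (nat_lit 18) (nat_lit 3) (nat_lit 129) (nat_lit 100) (nat_lit 131)) (PT.lf (nat_lit 1444) (nat_lit 3) (nat_lit 19) (nat_lit 1) (nat_lit 130) (nat_lit 100) (nat_lit 130)))) (PT.nd (nat_lit 37284) (PT.nd (nat_lit 78) (PT.lf (nat_lit 1368) (nat_lit 6) (nat_lit 18) (nat_lit 1) (nat_lit 131) (nat_lit 100) (nat_lit 129)) (PT.lf (nat_lit 1292) (nat_lit 6) (nat_lit 17) (nat_lit 1) (nat_lit 132) (nat_lit 100) (nat_lit 128))) (PT.nd (nat_lit 78) (PT.lf (nat_lit 1520) (nat_lit 6) (nat_lit 20) (nat_lit 3) (nat_lit 128) (nat_lit 101) (nat_lit 131)) (PT.nd (nat_lit 78) (PT.lf (nat_lit 1596) (nat_lit 6) (nat_lit 21) (nat_lit 3) (nat_lit 129) (nat_lit 101) (nat_lit 130)) (PT.lf (nat_lit 1596) (nat_lit 6) (nat_lit 21) (nat_lit 1) (nat_lit 130) (nat_lit 101) (nat_lit 129))))))))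
noncomputable def pc1 : PT := (PT.nd (nat_lit 149604) (PT.nd (nat_lit 74802) (PT.nd (nat_lit 37440) (PT.nd (nat_lit 37284) (PT.nd (nat_lit 37206) (PT.lf (nat_lit 1520) (nat_lit 6) (nat_lit 20) (nat_lit 1) (nat_lit 131) (nat_lit 101) (nat_lit 128)) (PT.lf (nat_lit 1672) (nat_lit 6) (nat_lit 22) (nat_lit 3) (nat_lit 127) (nat_lit 102) (nat_lit 131))) (PT.nd (nat_lit 78) (PT.lf (nat_lit 1748) (nat_lit 6) (nat_lit 23) (nat_lit 3) (nat_lit 128) (nat_lit 102) (nat_lit 130)) (PT.lf (nat_lit 1824) (nat_lit 3) (nat_lit 24) (nat_lit 1) (nat_lit 129) (nat_lit 102) (nat_lit 129)))) (PT.nd (nat_lit 37206) (PT.nd (nat_lit 78) (PT.lf (nat_lit 1748) (nat_lit 6) (nat_lit 23) (nat_lit 1) (nat_lit 130) (nat_lit 102) (nat_lit 128)) (PT.lf (nat_lit 1672) (nat_lit 6) (nat_lit 22) (nat_lit 1) (nat_lit 131) (nat_lit 102) (nat_lit 127))) (PT.nd (nat_lit 78) (PT.lf (nat_lit 1900) (nat_lit 6) (nat_lit 25) (nat_lit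 3) (nat_lit 126) (nat_lit 103) (nat_lit 131)) (PT.lf (nat_lit 1976) (nat_lit 6) (nat_lit 26) (nat_lit 3) (nat_lit 127) (nat_lit 103) (nat_lit 130))))) (PT.nd (nat_lit 37362) (PT.nd (nat_lit 156) (PT.nd (nat_lit 78) (PT.lf (nat_lit 2052) (nat_lit 6) (nat_lit 27) (nat_lit 3) (nat_lit 128) (nat_lit 103) (nat_lit 129)) (PT.lf (nat_lit 2052) (nat_lit 6) (nat_lit 27) (nat_lit 1) (nat_lit 129) (nat_lit 103) (nat_lit 128))) (PT.nd (nat_lit 78) (PT.lf (nat_lit 1976) (nat_lit 6) (nat_lit 26) (nat_lit 1) (nat_lit 130) (nat_lit 103) (nat_lit 127)) (PT.lf (nat_lit 1900) (nat_lit 6) (nat_lit 25) (nat_lit 1) (nat_lit 131) (nat_lit 103) (nat_lit 126)))) (PT.nd (nat_lit 156) (PT.nd (nat_lit 78) (PT.lf (nat_lit 2128) (nat_lit 6) (nat_lit 28) (nat_lit 3) (nat_lit 126) (nat_lit 104) (nat_lit 130)) (PT.lf (nat_lit 2204) (nat_lit 6) (nat_lit 29) (nat_lit 3) (nat_lit 127) (nat_lit 104) (nat_lit 129))) (PT.nd (nat_lit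 78) (PT.lf (nat_lit 2280) (nat_lit 3) (nat_lit 30) (nat_lit 1) (nat_lit 128) (nat_lit 104) (nat_lit 128)) (PT.nd (nat_lit 78) (PT.lf (nat_lit 2204) (nat_lit 6) (nat_lit 29) (nat_lit 1) (nat_lit 129) (nat_lit 104) (nat_lit 127)) (PT.lf (nat_lit 2128) (nat_lit 6) (nat_lit 28) (nat_lit 1) (nat_lit 130) (nat_lit 104) (nat_lit 126))))))) (PT.nd (nat_lit 37674) (PT.nd (nat_lit 312) (PT.nd (nat_lit 156) (PT.nd (nat_lit 78) (PT.lf (nat_lit 2356) (nat_lit 6) (nat_lit 31) (nat_lit 3) (nat_lit 125) (nat_lit 105) (nat_lit 130)) (PT.lf (nat_lit 2432) (nat_lit 6) (nat_lit 32) (nat_lit 3) (nat_lit 126) (nat_lit 105) (nat_lit 129))) (PT.nd (nat_lit 78) (PT.lf (nat_lit 2508) (nat_lit 6) (nat_lit 33) (nat_lit 3) (nat_lit 127) (nat_lit 105) (nat_lit 128)) (PT.lf (nat_lit 2508) (nat_lit 6) (nat_lit 33) (nat_lit 1) (nat_lit 128) (nat_lit 105) (nat_lit 127)))) (PT.nd (nat_lit 37128) (PT.nd (nat_lit 78) (PT.lf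 (nat_lit 2432) (nat_lit 6) (nat_lit 32) (nat_lit 1) (nat_lit 129) (nat_lit 105) (nat_lit 126)) (PT.lf (nat_lit 2356) (nat_lit 6) (nat_lit 31) (nat_lit 1) (nat_lit 130) (nat_lit 105) (nat_lit 125))) (PT.nd (nat_lit 78) (PT.lf (nat_lit 2584) (nat_lit 6) (nat_lit 34) (nat_lit 3) (nat_lit 124) (nat_lit 106) (nat_lit 130)) (PT.nd (nat_lit 78) (PT.lf (nat_lit 2660) (nat_lit 6) (nat_lit 35) (nat_lit 3) (nat_lit 125) (nat_lit 106) (nat_lit 129)) (PT.lf (nat_lit 2736) (nat_lit 6) (nat_lit 36) (nat_lit 3) (nat_lit 126) (nat_lit 106) (nat_lit 128)))))) (PT.nd (nat_lit 37206) (PT.nd (nat_lit 156) (PT.nd (nat_lit 78) (PT.lf (nat_lit 2812) (nat_lit 3) (nat_lit 37) (nat_lit 1) (nat_lit 127) (nat_lit 106) (nat_lit 127)) (PT.lf (nat_lit 2736) (nat_lit 6) (nat_lit 36) (nat_lit 1) (nat_lit 128) (nat_lit 106) (nat_lit 126))) (PT.nd (nat_lit 78) (PT.lf (nat_lit 2660) (nat_lit 6) (nat_lit 35) (nat_lit 1) (nat_lit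 129) (nat_lit 106) (nat_lit 125)) (PT.lf (nat_lit 2584) (nat_lit 6) (nat_lit 34) (nat_lit 1) (nat_lit 130) (nat_lit 106) (nat_lit 124)))) (PT.nd (nat_lit 156) (PT.nd (nat_lit 78) (PT.lf (nat_lit 2888) (nat_lit 6) (nat_lit 38) (nat_lit 3) (nat_lit 123) (nat_lit 107) (nat_lit 130)) (PT.lf (nat_lit 2964) (nat_lit 6) (nat_lit 39) (nat_lit 3) (nat_lit 124) (nat_lit 107) (nat_lit 129))) (PT.nd (nat_lit 78) (PT.lf (nat_lit 3040) (nat_lit 6) (nat_lit 40) (nat_lit 3) (nat_lit 125) (nat_lit 107) (nat_lit 128)) (PT.nd (nat_lit 78) (PT.lf (nat_lit 3116) (nat_lit 6) (nat_lit 41) (nat_lit 3) (nat_lit 126) (nat_lit 107) (nat_lit 127)) (PT.lf (nat_lit 3116) (nat_lit 6) (nat_lit 41) (nat_lit 1) (nat_lit 127) (nat_lit 107) (nat_lit 126))))))))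
noncomputable def pc2 : PT := (PT.nd (nat_lit 75114) (PT.nd (nat_lit 37518) (PT.nd (nat_lit 37206) (PT.nd (nat_lit 156) (PT.nd (nat_lit 78) (PT.lf (nat_lit 3040) (nat_lit 6) (nat_lit 40) (nat_lit 1) (nat_lit 128) (nat_lit 107) (nat_lit 125)) (PT.lf (nat_lit 2964) (nat_lit 6) (nat_lit 39) (nat_lit 1) (nat_lit 129) (nat_lit 107) (nat_lit 124))) (PT.nd (nat_lit 36972) (PT.lf (nat_lit 2888) (nat_lit 6) (nat_lit 38) (nat_lit 1) (nat_lit 130) (nat_lit 107) (nat_lit 123)) (PT.lf (nat_lit 3192) (nat_lit 6) (nat_lit 42) (nat_lit 3) (nat_lit 123) (nat_lit 108) (nat_lit 129)))) (PT.nd (nat_lit 156) (PT.nd (nat_lit 78) (PT.lf (nat_lit 3268) (nat_lit 6) (nat_lit 43) (nat_lit 3) (nat_lit 124) (nat_lit 108) (nat_lit 128)) (PT.lf (nat_lit 3344) (nat_lit 6) (nat_lit 44) (nat_lit 3) (nat_lit 125) (nat_lit 108) (nat_lit 127))) (PT.nd (nat_lit 78) (PT.lf (nat_lit 3420) (nat_lit 3) (nat_lit 45) (nat_lit 1) (nat_lit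 126) (nat_lit 108) (nat_lit 126)) (PT.lf (nat_lit 3344) (nat_lit 6) (nat_lit 44) (nat_lit 1) (nat_lit 127) (nat_lit 108) (nat_lit 125))))) (PT.nd (nat_lit 37206) (PT.nd (nat_lit 37050) (PT.nd (nat_lit 78) (PT.lf (nat_lit 3268) (nat_lit 6) (nat_lit 43) (nat_lit 1) (nat_lit 128) (nat_lit 108) (nat_lit 124)) (PT.lf (nat_lit 3192) (nat_lit 6) (nat_lit 42) (nat_lit 1) (nat_lit 129) (nat_lit 108) (nat_lit 123))) (PT.nd (nat_lit 78) (PT.lf (nat_lit 3496) (nat_lit 6) (nat_lit 46) (nat_lit 3) (nat_lit 122) (nat_lit 109) (nat_lit 129)) (PT.lf (nat_lit 3572) (nat_lit 6) (nat_lit 47) (nat_lit 3) (nat_lit 123) (nat_lit 109) (nat_lit 128)))) (PT.nd (nat_lit 156) (PT.nd (nat_lit 78) (PT.lf (nat_lit 3648) (nat_lit 6) (nat_lit 48) (nat_lit 3) (nat_lit 124) (nat_lit 109) (nat_lit 127)) (PT.lf (nat_lit 3724) (nat_lit 6) (nat_lit 49) (nat_lit 3) (nat_lit 125) (nat_lit 109) (nat_lit 126))) (PT.nd (nat_lit 78)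 (PT.lf (nat_lit 3724) (nat_lit 6) (nat_lit 49) (nat_lit 1) (nat_lit 126) (nat_lit 109) (nat_lit 125)) (PT.nd (nat_lit 78) (PT.lf (nat_lit 3648) (nat_lit 6) (nat_lit 48) (nat_lit 1) (nat_lit 127) (nat_lit 109) (nat_lit 124)) (PT.lf (nat_lit 3572) (nat_lit 6) (nat_lit 47) (nat_lit 1) (nat_lit 128) (nat_lit 109) (nat_lit 123))))))) (PT.nd (nat_lit 37518) (PT.nd (nat_lit 37128) (PT.nd (nat_lit 36972) (PT.nd (nat_lit 36894) (PT.lf (nat_lit 3496) (nat_lit 6) (nat_lit 46) (nat_lit 1) (nat_lit 129) (nat_lit 109) (nat_lit 122)) (PT.lf (nat_lit 3800) (nat_lit 6) (nat_lit 50) (nat_lit 3) (nat_lit 121) (nat_lit 110) (nat_lit 129))) (PT.nd (nat_lit 78) (PT.lf (nat_lit 3876) (nat_lit 6) (nat_lit 51) (nat_lit 3) (nat_lit 122) (nat_lit 110) (nat_lit 128)) (PT.lf (nat_lit 3952) (nat_lit 6) (nat_lit 52) (nat_lit 3) (nat_lit 123) (nat_lit 110) (nat_lit 127)))) (PT.nd (nat_lit 156) (PT.nd (nat_lit 78) (PT.lf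 (nat_lit 4028) (nat_lit 6) (nat_lit 53) (nat_lit 3) (nat_lit 124) (nat_lit 110) (nat_lit 126)) (PT.lf (nat_lit 4104) (nat_lit 3) (nat_lit 54) (nat_lit 1) (nat_lit 125) (nat_lit 110) (nat_lit 125))) (PT.nd (nat_lit 78) (PT.lf (nat_lit 4028) (nat_lit 6) (nat_lit 53) (nat_lit 1) (nat_lit 126) (nat_lit 110) (nat_lit 124)) (PT.nd (nat_lit 78) (PT.lf (nat_lit 3952) (nat_lit 6) (nat_lit 52) (nat_lit 1) (nat_lit 127) (nat_lit 110) (nat_lit 123)) (PT.lf (nat_lit 3876) (nat_lit 6) (nat_lit 51) (nat_lit 1) (nat_lit 128) (nat_lit 110) (nat_lit 122)))))) (PT.nd (nat_lit 37050) (PT.nd (nat_lit 36894) (PT.nd (nat_lit 36816) (PT.lf (nat_lit 3800) (nat_lit 6) (nat_lit 50) (nat_lit 1) (nat_lit 129) (nat_lit 110) (nat_lit 121)) (PT.lf (nat_lit 4484) (nat_lit 6) (nat_lit 59) (nat_lit 3) (nat_lit 120) (nat_lit 111) (nat_lit 129))) (PT.nd (nat_lit 78) (PT.lf (nat_lit 4560) (nat_lit 6) (nat_lit 60) (nat_lit 3)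 (nat_lit 121) (nat_lit 111) (nat_lit 128)) (PT.lf (nat_lit 4636) (nat_lit 6) (nat_lit 61) (nat_lit 3) (nat_lit 122) (nat_lit 111) (nat_lit 127)))) (PT.nd (nat_lit 156) (PT.nd (nat_lit 78) (PT.lf (nat_lit 4712) (nat_lit 6) (nat_lit 62) (nat_lit 3) (nat_lit 123) (nat_lit 111) (nat_lit 126)) (PT.lf (nat_lit 4788) (nat_lit 6) (nat_lit 63) (nat_lit 3) (nat_lit 124) (nat_lit 111) (nat_lit 125))) (PT.nd (nat_lit 78) (PT.lf (nat_lit 4788) (nat_lit 6) (nat_lit 63) (nat_lit 1) (nat_lit 125) (nat_lit 111) (nat_lit 124)) (PT.nd (nat_lit 78) (PT.lf (nat_lit 4712) (nat_lit 6) (nat_lit 62) (nat_lit 1) (nat_lit 126) (nat_lit 111) (nat_lit 123)) (PT.lf (nat_lit 4636) (nat_lit 6) (nat_lit 61) (nat_lit 1) (nat_lit 127) (nat_lit 111) (nat_lit 122))))))))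
noncomputable def pc3 : PT := (PT.nd (nat_lit 74568) (PT.nd (nat_lit 37284) (PT.nd (nat_lit 36972) (PT.nd (nat_lit 36816) (PT.nd (nat_lit 78) (PT.lf (nat_lit 4560) (nat_lit 6) (nat_lit 60) (nat_lit 1) (nat_lit 128) (nat_lit 111) (nat_lit 121)) (PT.lf (nat_lit 4484) (nat_lit 6) (nat_lit 59) (nat_lit 1) (nat_lit 129) (nat_lit 111) (nat_lit 120))) (PT.nd (nat_lit 78) (PT.lf (nat_lit 4408) (nat_lit 6) (nat_lit 58) (nat_lit 3) (nat_lit 119) (nat_lit 112) (nat_lit 129)) (PT.lf (nat_lit 5168) (nat_lit 6) (nat_lit 68) (nat_lit 3) (nat_lit 120) (nat_lit 112) (nat_lit 128)))) (PT.nd (nat_lit 156) (PT.nd (nat_lit 78) (PT.lf (nat_lit 5244) (nat_lit 6) (nat_lit 69) (nat_lit 3) (nat_lit 121) (nat_lit 112) (nat_lit 127)) (PT.lf (nat_lit 5320) (nat_lit 6) (nat_lit 70) (nat_lit 3) (nat_lit 122) (nat_lit 112) (nat_lit 126))) (PT.nd (nat_lit 78) (PT.lf (nat_lit 5396) (nat_lit 6) (nat_lit 71) (nat_lit 3) (nat_lit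 123) (nat_lit 112) (nat_lit 125)) (PT.lf (nat_lit 5472) (nat_lit 3) (nat_lit 72) (nat_lit 1) (nat_lit 124) (nat_lit 112) (nat_lit 124))))) (PT.nd (nat_lit 312) (PT.nd (nat_lit 156) (PT.nd (nat_lit 78) (PT.lf (nat_lit 5396) (nat_lit 6) (nat_lit 71) (nat_lit 1) (nat_lit 125) (nat_lit 112) (nat_lit 123)) (PT.lf (nat_lit 5320) (nat_lit 6) (nat_lit 70) (nat_lit 1) (nat_lit 126) (nat_lit 112) (nat_lit 122))) (PT.nd (nat_lit 78) (PT.lf (nat_lit 5244) (nat_lit 6) (nat_lit 69) (nat_lit 1) (nat_lit 127) (nat_lit 112) (nat_lit 121)) (PT.lf (nat_lit 5168) (nat_lit 6) (nat_lit 68) (nat_lit 1) (nat_lit 128) (nat_lit 112) (nat_lit 120)))) (PT.nd (nat_lit 36738) (PT.nd (nat_lit 36660) (PT.lf (nat_lit 4408) (nat_lit 6) (nat_lit 58) (nat_lit 1) (nat_lit 129) (nat_lit 112) (nat_lit 119)) (PT.lf (nat_lit 4332) (nat_lit 6) (nat_lit 57) (nat_lit 3) (nat_lit 118) (nat_lit 113) (nat_lit 129))) (PT.nd (nat_lit 78)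 (PT.lf (nat_lit 5092) (nat_lit 6) (nat_lit 67) (nat_lit 3) (nat_lit 119) (nat_lit 113) (nat_lit 128)) (PT.nd (nat_lit 78) (PT.lf (nat_lit 5776) (nat_lit 6) (nat_lit 76) (nat_lit 3) (nat_lit 120) (nat_lit 113) (nat_lit 127)) (PT.lf (nat_lit 5852) (nat_lit 6) (nat_lit 77) (nat_lit 3) (nat_lit 121) (nat_lit 113) (nat_lit 126))))))) (PT.nd (nat_lit 37206) (PT.nd (nat_lit 312) (PT.nd (nat_lit 156) (PT.nd (nat_lit 78) (PT.lf (nat_lit 5928) (nat_lit 6) (nat_lit 78) (nat_lit 3) (nat_lit 122) (nat_lit 113) (nat_lit 125)) (PT.lf (nat_lit 6004) (nat_lit 6) (nat_lit 79) (nat_lit 3) (nat_lit 123) (nat_lit 113) (nat_lit 124))) (PT.nd (nat_lit 78) (PT.lf (nat_lit 6004) (nat_lit 6) (nat_lit 79) (nat_lit 1) (nat_lit 124) (nat_lit 113) (nat_lit 123)) (PT.lf (nat_lit 5928) (nat_lit 6) (nat_lit 78) (nat_lit 1) (nat_lit 125) (nat_lit 113) (nat_lit 122)))) (PT.nd (nat_lit 156) (PT.nd (nat_lit 78) (PT.lf (nat_lit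 5852) (nat_lit 6) (nat_lit 77) (nat_lit 1) (nat_lit 126) (nat_lit 113) (nat_lit 121)) (PT.lf (nat_lit 5776) (nat_lit 6) (nat_lit 76) (nat_lit 1) (nat_lit 127) (nat_lit 113) (nat_lit 120))) (PT.nd (nat_lit 78) (PT.lf (nat_lit 5092) (nat_lit 6) (nat_lit 67) (nat_lit 1) (nat_lit 128) (nat_lit 113) (nat_lit 119)) (PT.nd (nat_lit 36582) (PT.lf (nat_lit 4332) (nat_lit 6) (nat_lit 57) (nat_lit 1) (nat_lit 129) (nat_lit 113) (nat_lit 118)) (PT.lf (nat_lit 4256) (nat_lit 6) (nat_lit 56) (nat_lit 3) (nat_lit 117) (nat_lit 114) (nat_lit 129)))))) (PT.nd (nat_lit 312) (PT.nd (nat_lit 156) (PT.nd (nat_lit 78) (PT.lf (nat_lit 5016) (nat_lit 6) (nat_lit 66) (nat_lit 3) (nat_lit 118) (nat_lit 114) (nat_lit 128)) (PT.lf (nat_lit 5700) (nat_lit 6) (nat_lit 75) (nat_lit 3) (nat_lit 119) (nat_lit 114) (nat_lit 127))) (PT.nd (nat_lit 78) (PT.lf (nat_lit 6308) (nat_lit 6) (nat_lit 83) (nat_lit 3) (nat_lit 120)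 (nat_lit 114) (nat_lit 126)) (PT.lf (nat_lit 6384) (nat_lit 6) (nat_lit 84) (nat_lit 3) (nat_lit 121) (nat_lit 114) (nat_lit 125)))) (PT.nd (nat_lit 156) (PT.nd (nat_lit 78) (PT.lf (nat_lit 6460) (nat_lit 6) (nat_lit 85) (nat_lit 3) (nat_lit 122) (nat_lit 114) (nat_lit 124)) (PT.lf (nat_lit 6536) (nat_lit 3) (nat_lit 86) (nat_lit 1) (nat_lit 123) (nat_lit 114) (nat_lit 123))) (PT.nd (nat_lit 78) (PT.lf (nat_lit 6460) (nat_lit 6) (nat_lit 85) (nat_lit 1) (nat_lit 124) (nat_lit 114) (nat_lit 122)) (PT.nd (nat_lit 78) (PT.lf (nat_lit 6384) (nat_lit 6) (nat_lit 84) (nat_lit 1) (nat_lit 125) (nat_lit 114) (nat_lit 121)) (PT.lf (nat_lit 6308) (nat_lit 6) (nat_lit 83) (nat_lit 1) (nat_lit 126) (nat_lit 114) (nat_lit 120))))))))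
noncomputable def pc4 : PT := (PT.nd (nat_lit 74100) (PT.nd (nat_lit 37050) (PT.nd (nat_lit 36738) (PT.nd (nat_lit 156) (PT.nd (nat_lit 78) (PT.lf (nat_lit 5700) (nat_lit 6) (nat_lit 75) (nat_lit 1) (nat_lit 127) (nat_lit 114) (nat_lit 119)) (PT.lf (nat_lit 5016) (nat_lit 6) (nat_lit 66) (nat_lit 1) (nat_lit 128) (nat_lit 114) (nat_lit 118))) (PT.nd (nat_lit 36504) (PT.lf (nat_lit 4256) (nat_lit 6) (nat_lit 56) (nat_lit 1) (nat_lit 129) (nat_lit 114) (nat_lit 117)) (PT.lf (nat_lit 4180) (nat_lit 6) (nat_lit 55) (nat_lit 3) (nat_lit 116) (nat_lit 115) (nat_lit 129)))) (PT.nd (nat_lit 156) (PT.nd (nat_lit 78) (PT.lf (nat_lit 4940) (nat_lit 6) (nat_lit 65) (nat_lit 3) (nat_lit 117) (nat_lit 115) (nat_lit 128)) (PT.lf (nat_lit 5624) (nat_lit 6) (nat_lit 74) (nat_lit 3) (nat_lit 118) (nat_lit 115) (nat_lit 127))) (PT.nd (nat_lit 78) (PT.lf (nat_lit 6232) (nat_lit 6) (nat_lit 82) (nat_lit 3) (nat_lit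 119) (nat_lit 115) (nat_lit 126)) (PT.lf (nat_lit 6764) (nat_lit 6) (nat_lit 89) (nat_lit 3) (nat_lit 120) (nat_lit 115) (nat_lit 125))))) (PT.nd (nat_lit 312) (PT.nd (nat_lit 156) (PT.nd (nat_lit 78) (PT.lf (nat_lit 6840) (nat_lit 6) (nat_lit 90) (nat_lit 3) (nat_lit 121) (nat_lit 115) (nat_lit 124)) (PT.lf (nat_lit 6916) (nat_lit 6) (nat_lit 91) (nat_lit 3) (nat_lit 122) (nat_lit 115) (nat_lit 123))) (PT.nd (nat_lit 78) (PT.lf (nat_lit 6916) (nat_lit 6) (nat_lit 91) (nat_lit 1) (nat_lit 123) (nat_lit 115) (nat_lit 122)) (PT.lf (nat_lit 6840) (nat_lit 6) (nat_lit 90) (nat_lit 1) (nat_lit 124) (nat_lit 115) (nat_lit 121)))) (PT.nd (nat_lit 156) (PT.nd (nat_lit 78) (PT.lf (nat_lit 6764) (nat_lit 6) (nat_lit 89) (nat_lit 1) (nat_lit 125) (nat_lit 115) (nat_lit 120)) (PT.lf (nat_lit 6232) (nat_lit 6) (nat_lit 82) (nat_lit 1) (nat_lit 126) (nat_lit 115) (nat_lit 119))) (PT.nd (nat_lit 78) (PT.lf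 (nat_lit 5624) (nat_lit 6) (nat_lit 74) (nat_lit 1) (nat_lit 127) (nat_lit 115) (nat_lit 118)) (PT.nd (nat_lit 78) (PT.lf (nat_lit 4940) (nat_lit 6) (nat_lit 65) (nat_lit 1) (nat_lit 128) (nat_lit 115) (nat_lit 117)) (PT.lf (nat_lit 4180) (nat_lit 6) (nat_lit 55) (nat_lit 1) (nat_lit 129) (nat_lit 115) (nat_lit 116))))))) (PT.nd (nat_lit 702) (PT.nd (nat_lit 312) (PT.nd (nat_lit 156) (PT.nd (nat_lit 78) (PT.lf (nat_lit 4180) (nat_lit 6) (nat_lit 55) (nat_lit 5) (nat_lit 115) (nat_lit 116) (nat_lit 129)) (PT.lf (nat_lit 4864) (nat_lit 3) (nat_lit 64) (nat_lit 3) (nat_lit 116) (nat_lit 116) (nat_lit 128))) (PT.nd (nat_lit 78) (PT.lf (nat_lit 5548) (nat_lit 6) (nat_lit 73) (nat_lit 3) (nat_lit 117) (nat_lit 116) (nat_lit 127)) (PT.lf (nat_lit 6156) (nat_lit 6) (nat_lit 81) (nat_lit 3) (nat_lit 118) (nat_lit 116) (nat_lit 126)))) (PT.nd (nat_lit 156) (PT.nd (nat_lit 78) (PT.lf (nat_lit 6688)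 (nat_lit 6) (nat_lit 88) (nat_lit 3) (nat_lit 119) (nat_lit 116) (nat_lit 125)) (PT.lf (nat_lit 7144) (nat_lit 6) (nat_lit 94) (nat_lit 3) (nat_lit 120) (nat_lit 116) (nat_lit 124))) (PT.nd (nat_lit 78) (PT.lf (nat_lit 7220) (nat_lit 6) (nat_lit 95) (nat_lit 3) (nat_lit 121) (nat_lit 116) (nat_lit 123)) (PT.nd (nat_lit 78) (PT.lf (nat_lit 7296) (nat_lit 3) (nat_lit 96) (nat_lit 1) (nat_lit 122) (nat_lit 116) (nat_lit 122)) (PT.lf (nat_lit 7220) (nat_lit 6) (nat_lit 95) (nat_lit 1) (nat_lit 123) (nat_lit 116) (nat_lit 121)))))) (PT.nd (nat_lit 312) (PT.nd (nat_lit 156) (PT.nd (nat_lit 78) (PT.lf (nat_lit 7144) (nat_lit 6) (nat_lit 94) (nat_lit 1) (nat_lit 124) (nat_lit 116) (nat_lit 120)) (PT.lf (nat_lit 6688) (nat_lit 6) (nat_lit 88) (nat_lit 1) (nat_lit 125) (nat_lit 116) (nat_lit 119))) (PT.nd (nat_lit 78) (PT.lf (nat_lit 6156) (nat_lit 6) (nat_lit 81) (nat_lit 1) (nat_lit 126) (nat_lit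 116) (nat_lit 118)) (PT.lf (nat_lit 5548) (nat_lit 6) (nat_lit 73) (nat_lit 1) (nat_lit 127) (nat_lit 116) (nat_lit 117)))) (PT.nd (nat_lit 36426) (PT.nd (nat_lit 78) (PT.lf (nat_lit 4864) (nat_lit 3) (nat_lit 64) (nat_lit 0) (nat_lit 128) (nat_lit 116) (nat_lit 116)) (PT.lf (nat_lit 4180) (nat_lit 6) (nat_lit 55) (nat_lit 0) (nat_lit 129) (nat_lit 116) (nat_lit 115))) (PT.nd (nat_lit 78) (PT.lf (nat_lit 4256) (nat_lit 6) (nat_lit 56) (nat_lit 5) (nat_lit 114) (nat_lit 117) (nat_lit 129)) (PT.nd (nat_lit 78) (PT.lf (nat_lit 4940) (nat_lit 6) (nat_lit 65) (nat_lit 5) (nat_lit 115) (nat_lit 117) (nat_lit 128)) (PT.lf (nat_lit 5548) (nat_lit 6) (nat_lit 73) (nat_lit 5) (nat_lit 116) (nat_lit 117) (nat_lit 127))))))))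
noncomputable def pc5 : PT := (PT.nd (nat_lit 37518) (PT.nd (nat_lit 624) (PT.nd (nat_lit 312) (PT.nd (nat_lit 156) (PT.nd (nat_lit 78) (PT.lf (nat_lit 6080) (nat_lit 3) (nat_lit 80) (nat_lit 3) (nat_lit 117) (nat_lit 117) (nat_lit 126)) (PT.lf (nat_lit 6612) (nat_lit 6) (nat_lit 87) (nat_lit 3) (nat_lit 118) (nat_lit 117) (nat_lit 125))) (PT.nd (nat_lit 78) (PT.lf (nat_lit 7068) (nat_lit 6) (nat_lit 93) (nat_lit 3) (nat_lit 119) (nat_lit 117) (nat_lit 124)) (PT.lf (nat_lit 7448) (nat_lit 6) (nat_lit 98) (nat_lit 3) (nat_lit 120) (nat_lit 117) (nat_lit 123)))) (PT.nd (nat_lit 156) (PT.nd (nat_lit 78) (PT.lf (nat_lit 7524) (nat_lit 6) (nat_lit 99) (nat_lit 3) (nat_lit 121) (nat_lit 117) (nat_lit 122)) (PT.lf (nat_lit 7524) (nat_lit 6) (nat_lit 99) (nat_lit 1) (nat_lit 122) (nat_lit 117) (nat_lit 121))) (PT.nd (nat_lit 78) (PT.lf (nat_lit 7448) (nat_lit 6) (nat_lit 98) (nat_lit 1) (nat_lit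 123) (nat_lit 117) (nat_lit 120)) (PT.lf (nat_lit 7068) (nat_lit 6) (nat_lit 93) (nat_lit 1) (nat_lit 124) (nat_lit 117) (nat_lit 119))))) (PT.nd (nat_lit 312) (PT.nd (nat_lit 156) (PT.nd (nat_lit 78) (PT.lf (nat_lit 6612) (nat_lit 6) (nat_lit 87) (nat_lit 1) (nat_lit 125) (nat_lit 117) (nat_lit 118)) (PT.lf (nat_lit 6080) (nat_lit 3) (nat_lit 80) (nat_lit 0) (nat_lit 126) (nat_lit 117) (nat_lit 117))) (PT.nd (nat_lit 78) (PT.lf (nat_lit 5548) (nat_lit 6) (nat_lit 73) (nat_lit 0) (nat_lit 127) (nat_lit 117) (nat_lit 116)) (PT.lf (nat_lit 4940) (nat_lit 6) (nat_lit 65) (nat_lit 0) (nat_lit 128) (nat_lit 117) (nat_lit 115)))) (PT.nd (nat_lit 36348) (PT.nd (nat_lit 36270) (PT.lf (nat_lit 4256) (nat_lit 6) (nat_lit 56) (nat_lit 0) (nat_lit 129) (nat_lit 117) (nat_lit 114)) (PT.lf (nat_lit 4332) (nat_lit 6) (nat_lit 57) (nat_lit 5) (nat_lit 113) (nat_lit 118) (nat_lit 129))) (PT.nd (nat_lit 78)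 (PT.lf (nat_lit 5016) (nat_lit 6) (nat_lit 66) (nat_lit 5) (nat_lit 114) (nat_lit 118) (nat_lit 128)) (PT.nd (nat_lit 78) (PT.lf (nat_lit 5624) (nat_lit 6) (nat_lit 74) (nat_lit 5) (nat_lit 115) (nat_lit 118) (nat_lit 127)) (PT.lf (nat_lit 6156) (nat_lit 6) (nat_lit 81) (nat_lit 5) (nat_lit 116) (nat_lit 118) (nat_lit 126))))))) (PT.nd (nat_lit 702) (PT.nd (nat_lit 312) (PT.nd (nat_lit 156) (PT.nd (nat_lit 78) (PT.lf (nat_lit 6612) (nat_lit 6) (nat_lit 87) (nat_lit 5) (nat_lit 117) (nat_lit 118) (nat_lit 125)) (PT.lf (nat_lit 6992) (nat_lit 3) (nat_lit 92) (nat_lit 3) (nat_lit 118) (nat_lit 118) (nat_lit 124))) (PT.nd (nat_lit 78) (PT.lf (nat_lit 7372) (nat_lit 6) (nat_lit 97) (nat_lit 3) (nat_lit 119) (nat_lit 118) (nat_lit 123)) (PT.lf (nat_lit 7676) (nat_lit 6) (nat_lit 101) (nat_lit 3) (nat_lit 120) (nat_lit 118) (nat_lit 122)))) (PT.nd (nat_lit 156) (PT.nd (nat_lit 78) (PT.lf (nat_lit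 7752) (nat_lit 3) (nat_lit 102) (nat_lit 1) (nat_lit 121) (nat_lit 118) (nat_lit 121)) (PT.lf (nat_lit 7676) (nat_lit 6) (nat_lit 101) (nat_lit 1) (nat_lit 122) (nat_lit 118) (nat_lit 120))) (PT.nd (nat_lit 78) (PT.lf (nat_lit 7372) (nat_lit 6) (nat_lit 97) (nat_lit 1) (nat_lit 123) (nat_lit 118) (nat_lit 119)) (PT.nd (nat_lit 78) (PT.lf (nat_lit 6992) (nat_lit 3) (nat_lit 92) (nat_lit 0) (nat_lit 124) (nat_lit 118) (nat_lit 118)) (PT.lf (nat_lit 6612) (nat_lit 6) (nat_lit 87) (nat_lit 0) (nat_lit 125) (nat_lit 118) (nat_lit 117)))))) (PT.nd (nat_lit 36426) (PT.nd (nat_lit 156) (PT.nd (nat_lit 78) (PT.lf (nat_lit 6156) (nat_lit 6) (nat_lit 81) (nat_lit 0) (nat_lit 126) (nat_lit 118) (nat_lit 116)) (PT.lf (nat_lit 5624) (nat_lit 6) (nat_lit 74) (nat_lit 0) (nat_lit 127) (nat_lit 118) (nat_lit 115))) (PT.nd (nat_lit 78) (PT.lf (nat_lit 5016) (nat_lit 6) (nat_lit 66) (nat_lit 0) (nat_lit 128)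 (nat_lit 118) (nat_lit 114)) (PT.lf (nat_lit 4332) (nat_lit 6) (nat_lit 57) (nat_lit 0) (nat_lit 129) (nat_lit 118) (nat_lit 113)))) (PT.nd (nat_lit 156) (PT.nd (nat_lit 78) (PT.lf (nat_lit 4408) (nat_lit 6) (nat_lit 58) (nat_lit 5) (nat_lit 112) (nat_lit 119) (nat_lit 129)) (PT.lf (nat_lit 5092) (nat_lit 6) (nat_lit 67) (nat_lit 5) (nat_lit 113) (nat_lit 119) (nat_lit 128))) (PT.nd (nat_lit 78) (PT.lf (nat_lit 5700) (nat_lit 6) (nat_lit 75) (nat_lit 5) (nat_lit 114) (nat_lit 119) (nat_lit 127)) (PT.nd (nat_lit 78) (PT.lf (nat_lit 6232) (nat_lit 6) (nat_lit 82) (nat_lit 5) (nat_lit 115) (nat_lit 119) (nat_lit 126)) (PT.lf (nat_lit 6688) (nat_lit 6) (nat_lit 88) (nat_lit 5) (nat_lit 116) (nat_lit 119) (nat_lit 125))))))))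
noncomputable def pc6 : PT := (PT.nd (nat_lit 37362) (PT.nd (nat_lit 624) (PT.nd (nat_lit 312) (PT.nd (nat_lit 156) (PT.nd (nat_lit 78) (PT.lf (nat_lit 7068) (nat_lit 6) (nat_lit 93) (nat_lit 5) (nat_lit 117) (nat_lit 119) (nat_lit 124)) (PT.lf (nat_lit 7372) (nat_lit 6) (nat_lit 97) (nat_lit 5) (nat_lit 118) (nat_lit 119) (nat_lit 123))) (PT.nd (nat_lit 78) (PT.lf (nat_lit 7600) (nat_lit 3) (nat_lit 100) (nat_lit 3) (nat_lit 119) (nat_lit 119) (nat_lit 122)) (PT.lf (nat_lit 7828) (nat_lit 6) (nat_lit 103) (nat_lit 3) (nat_lit 120) (nat_lit 119) (nat_lit 121)))) (PT.nd (nat_lit 156) (PT.nd (nat_lit 78) (PT.lf (nat_lit 7828) (nat_lit 6) (nat_lit 103) (nat_lit 1) (nat_lit 121) (nat_lit 119) (nat_lit 120)) (PT.lf (nat_lit 7600) (nat_lit 3) (nat_lit 100) (nat_lit 0) (nat_lit 122) (nat_lit 119) (nat_lit 119))) (PT.nd (nat_lit 78) (PT.lf (nat_lit 7372) (nat_lit 6) (nat_lit 97) (nat_lit 0) (nat_lit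 123) (nat_lit 119) (nat_lit 118)) (PT.lf (nat_lit 7068) (nat_lit 6) (nat_lit 93) (nat_lit 0) (nat_lit 124) (nat_lit 119) (nat_lit 117))))) (PT.nd (nat_lit 312) (PT.nd (nat_lit 156) (PT.nd (nat_lit 78) (PT.lf (nat_lit 6688) (nat_lit 6) (nat_lit 88) (nat_lit 0) (nat_lit 125) (nat_lit 119) (nat_lit 116)) (PT.lf (nat_lit 6232) (nat_lit 6) (nat_lit 82) (nat_lit 0) (nat_lit 126) (nat_lit 119) (nat_lit 115))) (PT.nd (nat_lit 78) (PT.lf (nat_lit 5700) (nat_lit 6) (nat_lit 75) (nat_lit 0) (nat_lit 127) (nat_lit 119) (nat_lit 114)) (PT.lf (nat_lit 5092) (nat_lit 6) (nat_lit 67) (nat_lit 0) (nat_lit 128) (nat_lit 119) (nat_lit 113)))) (PT.nd (nat_lit 36192) (PT.nd (nat_lit 36114) (PT.lf (nat_lit 4408) (nat_lit 6) (nat_lit 58) (nat_lit 0) (nat_lit 129) (nat_lit 119) (nat_lit 112)) (PT.lf (nat_lit 4484) (nat_lit 6) (nat_lit 59) (nat_lit 5) (nat_lit 111) (nat_lit 120) (nat_lit 129))) (PT.nd (nat_lit 78)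 (PT.lf (nat_lit 5168) (nat_lit 6) (nat_lit 68) (nat_lit 5) (nat_lit 112) (nat_lit 120) (nat_lit 128)) (PT.nd (nat_lit 78) (PT.lf (nat_lit 5776) (nat_lit 6) (nat_lit 76) (nat_lit 5) (nat_lit 113) (nat_lit 120) (nat_lit 127)) (PT.lf (nat_lit 6308) (nat_lit 6) (nat_lit 83) (nat_lit 5) (nat_lit 114) (nat_lit 120) (nat_lit 126))))))) (PT.nd (nat_lit 702) (PT.nd (nat_lit 312) (PT.nd (nat_lit 156) (PT.nd (nat_lit 78) (PT.lf (nat_lit 6764) (nat_lit 6) (nat_lit 89) (nat_lit 5) (nat_lit 115) (nat_lit 120) (nat_lit 125)) (PT.lf (nat_lit 7144) (nat_lit 6) (nat_lit 94) (nat_lit 5) (nat_lit 116) (nat_lit 120) (nat_lit 124))) (PT.nd (nat_lit 78) (PT.lf (nat_lit 7448) (nat_lit 6) (nat_lit 98) (nat_lit 5) (nat_lit 117) (nat_lit 120) (nat_lit 123)) (PT.lf (nat_lit 7676) (nat_lit 6) (nat_lit 101) (nat_lit 5) (nat_lit 118) (nat_lit 120) (nat_lit 122)))) (PT.nd (nat_lit 156) (PT.nd (nat_lit 78) (PT.lf (nat_lit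 7828) (nat_lit 6) (nat_lit 103) (nat_lit 5) (nat_lit 119) (nat_lit 120) (nat_lit 121)) (PT.lf (nat_lit 7904) (nat_lit 1) (nat_lit 104) (nat_lit 0) (nat_lit 120) (nat_lit 120) (nat_lit 120))) (PT.nd (nat_lit 78) (PT.lf (nat_lit 7828) (nat_lit 6) (nat_lit 103) (nat_lit 0) (nat_lit 121) (nat_lit 120) (nat_lit 119)) (PT.nd (nat_lit 78) (PT.lf (nat_lit 7676) (nat_lit 6) (nat_lit 101) (nat_lit 0) (nat_lit 122) (nat_lit 120) (nat_lit 118)) (PT.lf (nat_lit 7448) (nat_lit 6) (nat_lit 98) (nat_lit 0) (nat_lit 123) (nat_lit 120) (nat_lit 117)))))) (PT.nd (nat_lit 312) (PT.nd (nat_lit 156) (PT.nd (nat_lit 78) (PT.lf (nat_lit 7144) (nat_lit 6) (nat_lit 94) (nat_lit 0) (nat_lit 124) (nat_lit 120) (nat_lit 116)) (PT.lf (nat_lit 6764) (nat_lit 6) (nat_lit 89) (nat_lit 0) (nat_lit 125) (nat_lit 120) (nat_lit 115))) (PT.nd (nat_lit 78) (PT.lf (nat_lit 6308) (nat_lit 6) (nat_lit 83) (nat_lit 0) (nat_lit 126)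 (nat_lit 120) (nat_lit 114)) (PT.lf (nat_lit 5776) (nat_lit 6) (nat_lit 76) (nat_lit 0) (nat_lit 127) (nat_lit 120) (nat_lit 113)))) (PT.nd (nat_lit 36114) (PT.nd (nat_lit 78) (PT.lf (nat_lit 5168) (nat_lit 6) (nat_lit 68) (nat_lit 0) (nat_lit 128) (nat_lit 120) (nat_lit 112)) (PT.lf (nat_lit 4484) (nat_lit 6) (nat_lit 59) (nat_lit 0) (nat_lit 129) (nat_lit 120) (nat_lit 111))) (PT.nd (nat_lit 78) (PT.lf (nat_lit 3800) (nat_lit 6) (nat_lit 50) (nat_lit 5) (nat_lit 110) (nat_lit 121) (nat_lit 129)) (PT.nd (nat_lit 78) (PT.lf (nat_lit 4560) (nat_lit 6) (nat_lit 60) (nat_lit 5) (nat_lit 111) (nat_lit 121) (nat_lit 128)) (PT.lf (nat_lit 5244) (nat_lit 6) (nat_lit 69) (nat_lit 5) (nat_lit 112) (nat_lit 121) (nat_lit 127))))))))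
noncomputable def pc7 : PT := (PT.nd (nat_lit 37284) (PT.nd (nat_lit 702) (PT.nd (nat_lit 312) (PT.nd (nat_lit 156) (PT.nd (nat_lit 78) (PT.lf (nat_lit 5852) (nat_lit 6) (nat_lit 77) (nat_lit 5) (nat_lit 113) (nat_lit 121) (nat_lit 126)) (PT.lf (nat_lit 6384) (nat_lit 6) (nat_lit 84) (nat_lit 5) (nat_lit 114) (nat_lit 121) (nat_lit 125))) (PT.nd (nat_lit 78) (PT.lf (nat_lit 6840) (nat_lit 6) (nat_lit 90) (nat_lit 5) (nat_lit 115) (nat_lit 121) (nat_lit 124)) (PT.lf (nat_lit 7220) (nat_lit 6) (nat_lit 95) (nat_lit 5) (nat_lit 116) (nat_lit 121) (nat_lit 123)))) (PT.nd (nat_lit 156) (PT.nd (nat_lit 78) (PT.lf (nat_lit 7524) (nat_lit 6) (nat_lit 99) (nat_lit 5) (nat_lit 117) (nat_lit 121) (nat_lit 122)) (PT.lf (nat_lit 7752) (nat_lit 3) (nat_lit 102) (nat_lit 4) (nat_lit 118) (nat_lit 121) (nat_lit 121))) (PT.nd (nat_lit 78) (PT.lf (nat_lit 7828) (nat_lit 6) (nat_lit 103) (nat_lit 4) (nat_lit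 119) (nat_lit 121) (nat_lit 120)) (PT.nd (nat_lit 78) (PT.lf (nat_lit 7828) (nat_lit 6) (nat_lit 103) (nat_lit 2) (nat_lit 120) (nat_lit 121) (nat_lit 119)) (PT.lf (nat_lit 7752) (nat_lit 3) (nat_lit 102) (nat_lit 0) (nat_lit 121) (nat_lit 121) (nat_lit 118)))))) (PT.nd (nat_lit 312) (PT.nd (nat_lit 156) (PT.nd (nat_lit 78) (PT.lf (nat_lit 7524) (nat_lit 6) (nat_lit 99) (nat_lit 0) (nat_lit 122) (nat_lit 121) (nat_lit 117)) (PT.lf (nat_lit 7220) (nat_lit 6) (nat_lit 95) (nat_lit 0) (nat_lit 123) (nat_lit 121) (nat_lit 116))) (PT.nd (nat_lit 78) (PT.lf (nat_lit 6840) (nat_lit 6) (nat_lit 90) (nat_lit 0) (nat_lit 124) (nat_lit 121) (nat_lit 115)) (PT.lf (nat_lit 6384) (nat_lit 6) (nat_lit 84) (nat_lit 0) (nat_lit 125) (nat_lit 121) (nat_lit 114)))) (PT.nd (nat_lit 156) (PT.nd (nat_lit 78) (PT.lf (nat_lit 5852) (nat_lit 6) (nat_lit 77) (nat_lit 0) (nat_lit 126) (nat_lit 121) (nat_lit 113))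 (PT.lf (nat_lit 5244) (nat_lit 6) (nat_lit 69) (nat_lit 0) (nat_lit 127) (nat_lit 121) (nat_lit 112))) (PT.nd (nat_lit 78) (PT.lf (nat_lit 4560) (nat_lit 6) (nat_lit 60) (nat_lit 0) (nat_lit 128) (nat_lit 121) (nat_lit 111)) (PT.nd (nat_lit 35958) (PT.lf (nat_lit 3800) (nat_lit 6) (nat_lit 50) (nat_lit 0) (nat_lit 129) (nat_lit 121) (nat_lit 110)) (PT.lf (nat_lit 3496) (nat_lit 6) (nat_lit 46) (nat_lit 5) (nat_lit 109) (nat_lit 122) (nat_lit 129))))))) (PT.nd (nat_lit 702) (PT.nd (nat_lit 312) (PT.nd (nat_lit 156) (PT.nd (nat_lit 78) (PT.lf (nat_lit 3876) (nat_lit 6) (nat_lit 51) (nat_lit 5) (nat_lit 110) (nat_lit 122) (nat_lit 128)) (PT.lf (nat_lit 4636) (nat_lit 6) (nat_lit 61) (nat_lit 5) (nat_lit 111) (nat_lit 122) (nat_lit 127))) (PT.nd (nat_lit 78) (PT.lf (nat_lit 5320) (nat_lit 6) (nat_lit 70) (nat_lit 5) (nat_lit 112) (nat_lit 122) (nat_lit 126)) (PT.lf (nat_lit 5928) (nat_lit 6)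 (nat_lit 78) (nat_lit 5) (nat_lit 113) (nat_lit 122) (nat_lit 125)))) (PT.nd (nat_lit 156) (PT.nd (nat_lit 78) (PT.lf (nat_lit 6460) (nat_lit 6) (nat_lit 85) (nat_lit 5) (nat_lit 114) (nat_lit 122) (nat_lit 124)) (PT.lf (nat_lit 6916) (nat_lit 6) (nat_lit 91) (nat_lit 5) (nat_lit 115) (nat_lit 122) (nat_lit 123))) (PT.nd (nat_lit 78) (PT.lf (nat_lit 7296) (nat_lit 3) (nat_lit 96) (nat_lit 4) (nat_lit 116) (nat_lit 122) (nat_lit 122)) (PT.nd (nat_lit 78) (PT.lf (nat_lit 7524) (nat_lit 6) (nat_lit 99) (nat_lit 4) (nat_lit 117) (nat_lit 122) (nat_lit 121)) (PT.lf (nat_lit 7676) (nat_lit 6) (nat_lit 101) (nat_lit 4) (nat_lit 118) (nat_lit 122) (nat_lit 120)))))) (PT.nd (nat_lit 312) (PT.nd (nat_lit 156) (PT.nd (nat_lit 78) (PT.lf (nat_lit 7600) (nat_lit 3) (nat_lit 100) (nat_lit 2) (nat_lit 119) (nat_lit 122) (nat_lit 119)) (PT.lf (nat_lit 7676) (nat_lit 6) (nat_lit 101) (nat_lit 2) (nat_lit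 120) (nat_lit 122) (nat_lit 118))) (PT.nd (nat_lit 78) (PT.lf (nat_lit 7524) (nat_lit 6) (nat_lit 99) (nat_lit 2) (nat_lit 121) (nat_lit 122) (nat_lit 117)) (PT.lf (nat_lit 7296) (nat_lit 3) (nat_lit 96) (nat_lit 0) (nat_lit 122) (nat_lit 122) (nat_lit 116)))) (PT.nd (nat_lit 156) (PT.nd (nat_lit 78) (PT.lf (nat_lit 6916) (nat_lit 6) (nat_lit 91) (nat_lit 0) (nat_lit 123) (nat_lit 122) (nat_lit 115)) (PT.lf (nat_lit 6460) (nat_lit 6) (nat_lit 85) (nat_lit 0) (nat_lit 124) (nat_lit 122) (nat_lit 114))) (PT.nd (nat_lit 78) (PT.lf (nat_lit 5928) (nat_lit 6) (nat_lit 78) (nat_lit 0) (nat_lit 125) (nat_lit 122) (nat_lit 113)) (PT.nd (nat_lit 78) (PT.lf (nat_lit 5320) (nat_lit 6) (nat_lit 70) (nat_lit 0) (nat_lit 126) (nat_lit 122) (nat_lit 112)) (PT.lf (nat_lit 4636) (nat_lit 6) (nat_lit 61) (nat_lit 0) (nat_lit 127) (nat_lit 122) (nat_lit 111))))))))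
noncomputable def pc8 : PT := (PT.nd (nat_lit 37050) (PT.nd (nat_lit 36348) (PT.nd (nat_lit 36036) (PT.nd (nat_lit 35880) (PT.nd (nat_lit 78) (PT.lf (nat_lit 3876) (nat_lit 6) (nat_lit 51) (nat_lit 0) (nat_lit 128) (nat_lit 122) (nat_lit 110)) (PT.lf (nat_lit 3496) (nat_lit 6) (nat_lit 46) (nat_lit 0) (nat_lit 129) (nat_lit 122) (nat_lit 109))) (PT.nd (nat_lit 78) (PT.lf (nat_lit 2888) (nat_lit 6) (nat_lit 38) (nat_lit 5) (nat_lit 107) (nat_lit 123) (nat_lit 130)) (PT.lf (nat_lit 3192) (nat_lit 6) (nat_lit 42) (nat_lit 5) (nat_lit 108) (nat_lit 123) (nat_lit 129)))) (PT.nd (nat_lit 156) (PT.nd (nat_lit 78) (PT.lf (nat_lit 3572) (nat_lit 6) (nat_lit 47) (nat_lit 5) (nat_lit 109) (nat_lit 123) (nat_lit 128)) (PT.lf (nat_lit 3952) (nat_lit 6) (nat_lit 52) (nat_lit 5) (nat_lit 110) (nat_lit 123) (nat_lit 127))) (PT.nd (nat_lit 78) (PT.lf (nat_lit 4712) (nat_lit 6) (nat_lit 62) (nat_lit 5) (nat_lit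 111) (nat_lit 123) (nat_lit 126)) (PT.lf (nat_lit 5396) (nat_lit 6) (nat_lit 71) (nat_lit 5) (nat_lit 112) (nat_lit 123) (nat_lit 125))))) (PT.nd (nat_lit 312) (PT.nd (nat_lit 156) (PT.nd (nat_lit 78) (PT.lf (nat_lit 6004) (nat_lit 6) (nat_lit 79) (nat_lit 5) (nat_lit 113) (nat_lit 123) (nat_lit 124)) (PT.lf (nat_lit 6536) (nat_lit 3) (nat_lit 86) (nat_lit 4) (nat_lit 114) (nat_lit 123) (nat_lit 123))) (PT.nd (nat_lit 78) (PT.lf (nat_lit 6916) (nat_lit 6) (nat_lit 91) (nat_lit 4) (nat_lit 115) (nat_lit 123) (nat_lit 122)) (PT.lf (nat_lit 7220) (nat_lit 6) (nat_lit 95) (nat_lit 4) (nat_lit 116) (nat_lit 123) (nat_lit 121)))) (PT.nd (nat_lit 156) (PT.nd (nat_lit 78) (PT.lf (nat_lit 7448) (nat_lit 6) (nat_lit 98) (nat_lit 4) (nat_lit 117) (nat_lit 123) (nat_lit 120)) (PT.lf (nat_lit 7372) (nat_lit 6) (nat_lit 97) (nat_lit 4) (nat_lit 118) (nat_lit 123) (nat_lit 119))) (PT.nd (nat_lit 78) (PT.lf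 (nat_lit 7372) (nat_lit 6) (nat_lit 97) (nat_lit 2) (nat_lit 119) (nat_lit 123) (nat_lit 118)) (PT.nd (nat_lit 78) (PT.lf (nat_lit 7448) (nat_lit 6) (nat_lit 98) (nat_lit 2) (nat_lit 120) (nat_lit 123) (nat_lit 117)) (PT.lf (nat_lit 7220) (nat_lit 6) (nat_lit 95) (nat_lit 2) (nat_lit 121) (nat_lit 123) (nat_lit 116))))))) (PT.nd (nat_lit 36270) (PT.nd (nat_lit 312) (PT.nd (nat_lit 156) (PT.nd (nat_lit 78) (PT.lf (nat_lit 6916) (nat_lit 6) (nat_lit 91) (nat_lit 2) (nat_lit 122) (nat_lit 123) (nat_lit 115)) (PT.lf (nat_lit 6536) (nat_lit 3) (nat_lit 86) (nat_lit 0) (nat_lit 123) (nat_lit 123) (nat_lit 114))) (PT.nd (nat_lit 78) (PT.lf (nat_lit 6004) (nat_lit 6) (nat_lit 79) (nat_lit 0) (nat_lit 124) (nat_lit 123) (nat_lit 113)) (PT.lf (nat_lit 5396) (nat_lit 6) (nat_lit 71) (nat_lit 0) (nat_lit 125) (nat_lit 123) (nat_lit 112)))) (PT.nd (nat_lit 156) (PT.nd (nat_lit 78) (PT.lf (nat_lit 4712)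 (nat_lit 6) (nat_lit 62) (nat_lit 0) (nat_lit 126) (nat_lit 123) (nat_lit 111)) (PT.lf (nat_lit 3952) (nat_lit 6) (nat_lit 52) (nat_lit 0) (nat_lit 127) (nat_lit 123) (nat_lit 110))) (PT.nd (nat_lit 78) (PT.lf (nat_lit 3572) (nat_lit 6) (nat_lit 47) (nat_lit 0) (nat_lit 128) (nat_lit 123) (nat_lit 109)) (PT.nd (nat_lit 78) (PT.lf (nat_lit 3192) (nat_lit 6) (nat_lit 42) (nat_lit 0) (nat_lit 129) (nat_lit 123) (nat_lit 108)) (PT.lf (nat_lit 2888) (nat_lit 6) (nat_lit 38) (nat_lit 0) (nat_lit 130) (nat_lit 123) (nat_lit 107)))))) (PT.nd (nat_lit 312) (PT.nd (nat_lit 156) (PT.nd (nat_lit 78) (PT.lf (nat_lit 2584) (nat_lit 6) (nat_lit 34) (nat_lit 5) (nat_lit 106) (nat_lit 124) (nat_lit 130)) (PT.lf (nat_lit 2964) (nat_lit 6) (nat_lit 39) (nat_lit 5) (nat_lit 107) (nat_lit 124) (nat_lit 129))) (PT.nd (nat_lit 78) (PT.lf (nat_lit 3268) (nat_lit 6) (nat_lit 43) (nat_lit 5) (nat_lit 108) (nat_lit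 124) (nat_lit 128)) (PT.lf (nat_lit 3648) (nat_lit 6) (nat_lit 48) (nat_lit 5) (nat_lit 109) (nat_lit 124) (nat_lit 127)))) (PT.nd (nat_lit 156) (PT.nd (nat_lit 78) (PT.lf (nat_lit 4028) (nat_lit 6) (nat_lit 53) (nat_lit 5) (nat_lit 110) (nat_lit 124) (nat_lit 126)) (PT.lf (nat_lit 4788) (nat_lit 6) (nat_lit 63) (nat_lit 5) (nat_lit 111) (nat_lit 124) (nat_lit 125))) (PT.nd (nat_lit 78) (PT.lf (nat_lit 5472) (nat_lit 3) (nat_lit 72) (nat_lit 4) (nat_lit 112) (nat_lit 124) (nat_lit 124)) (PT.nd (nat_lit 78) (PT.lf (nat_lit 6004) (nat_lit 6) (nat_lit 79) (nat_lit 4) (nat_lit 113) (nat_lit 124) (nat_lit 123)) (PT.lf (nat_lit 6460) (nat_lit 6) (nat_lit 85) (nat_lit 4) (nat_lit 114) (nat_lit 124) (nat_lit 122))))))))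
noncomputable def pc9 : PT := (PT.nd (nat_lit 36816) (PT.nd (nat_lit 624) (PT.nd (nat_lit 312) (PT.nd (nat_lit 156) (PT.nd (nat_lit 78) (PT.lf (nat_lit 6840) (nat_lit 6) (nat_lit 90) (nat_lit 4) (nat_lit 115) (nat_lit 124) (nat_lit 121)) (PT.lf (nat_lit 7144) (nat_lit 6) (nat_lit 94) (nat_lit 4) (nat_lit 116) (nat_lit 124) (nat_lit 120))) (PT.nd (nat_lit 78) (PT.lf (nat_lit 7068) (nat_lit 6) (nat_lit 93) (nat_lit 4) (nat_lit 117) (nat_lit 124) (nat_lit 119)) (PT.lf (nat_lit 6992) (nat_lit 3) (nat_lit 92) (nat_lit 2) (nat_lit 118) (nat_lit 124) (nat_lit 118)))) (PT.nd (nat_lit 156) (PT.nd (nat_lit 78) (PT.lf (nat_lit 7068) (nat_lit 6) (nat_lit 93) (nat_lit 2) (nat_lit 119) (nat_lit 124) (nat_lit 117)) (PT.lf (nat_lit 7144) (nat_lit 6) (nat_lit 94) (nat_lit 2) (nat_lit 120) (nat_lit 124) (nat_lit 116))) (PT.nd (nat_lit 78) (PT.lf (nat_lit 6840) (nat_lit 6) (nat_lit 90) (nat_lit 2) (nat_lit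 121) (nat_lit 124) (nat_lit 115)) (PT.lf (nat_lit 6460) (nat_lit 6) (nat_lit 85) (nat_lit 2) (nat_lit 122) (nat_lit 124) (nat_lit 114))))) (PT.nd (nat_lit 312) (PT.nd (nat_lit 156) (PT.nd (nat_lit 78) (PT.lf (nat_lit 6004) (nat_lit 6) (nat_lit 79) (nat_lit 2) (nat_lit 123) (nat_lit 124) (nat_lit 113)) (PT.lf (nat_lit 5472) (nat_lit 3) (nat_lit 72) (nat_lit 0) (nat_lit 124) (nat_lit 124) (nat_lit 112))) (PT.nd (nat_lit 78) (PT.lf (nat_lit 4788) (nat_lit 6) (nat_lit 63) (nat_lit 0) (nat_lit 125) (nat_lit 124) (nat_lit 111)) (PT.lf (nat_lit 4028) (nat_lit 6) (nat_lit 53) (nat_lit 0) (nat_lit 126) (nat_lit 124) (nat_lit 110)))) (PT.nd (nat_lit 156) (PT.nd (nat_lit 78) (PT.lf (nat_lit 3648) (nat_lit 6) (nat_lit 48) (nat_lit 0) (nat_lit 127) (nat_lit 124) (nat_lit 109)) (PT.lf (nat_lit 3268) (nat_lit 6) (nat_lit 43) (nat_lit 0) (nat_lit 128) (nat_lit 124) (nat_lit 108))) (PT.nd (nat_lit 78) (PT.lf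 (nat_lit 2964) (nat_lit 6) (nat_lit 39) (nat_lit 0) (nat_lit 129) (nat_lit 124) (nat_lit 107)) (PT.nd (nat_lit 35568) (PT.lf (nat_lit 2584) (nat_lit 6) (nat_lit 34) (nat_lit 0) (nat_lit 130) (nat_lit 124) (nat_lit 106)) (PT.lf (nat_lit 2356) (nat_lit 6) (nat_lit 31) (nat_lit 5) (nat_lit 105) (nat_lit 125) (nat_lit 130))))))) (PT.nd (nat_lit 702) (PT.nd (nat_lit 312) (PT.nd (nat_lit 156) (PT.nd (nat_lit 78) (PT.lf (nat_lit 2660) (nat_lit 6) (nat_lit 35) (nat_lit 5) (nat_lit 106) (nat_lit 125) (nat_lit 129)) (PT.lf (nat_lit 3040) (nat_lit 6) (nat_lit 40) (nat_lit 5) (nat_lit 107) (nat_lit 125) (nat_lit 128))) (PT.nd (nat_lit 78) (PT.lf (nat_lit 3344) (nat_lit 6) (nat_lit 44) (nat_lit 5) (nat_lit 108) (nat_lit 125) (nat_lit 127)) (PT.lf (nat_lit 3724) (nat_lit 6) (nat_lit 49) (nat_lit 5) (nat_lit 109) (nat_lit 125) (nat_lit 126)))) (PT.nd (nat_lit 156) (PT.nd (nat_lit 78) (PT.lf (nat_lit 4104)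 (nat_lit 3) (nat_lit 54) (nat_lit 4) (nat_lit 110) (nat_lit 125) (nat_lit 125)) (PT.lf (nat_lit 4788) (nat_lit 6) (nat_lit 63) (nat_lit 4) (nat_lit 111) (nat_lit 125) (nat_lit 124))) (PT.nd (nat_lit 78) (PT.lf (nat_lit 5396) (nat_lit 6) (nat_lit 71) (nat_lit 4) (nat_lit 112) (nat_lit 125) (nat_lit 123)) (PT.nd (nat_lit 78) (PT.lf (nat_lit 5928) (nat_lit 6) (nat_lit 78) (nat_lit 4) (nat_lit 113) (nat_lit 125) (nat_lit 122)) (PT.lf (nat_lit 6384) (nat_lit 6) (nat_lit 84) (nat_lit 4) (nat_lit 114) (nat_lit 125) (nat_lit 121)))))) (PT.nd (nat_lit 312) (PT.nd (nat_lit 156) (PT.nd (nat_lit 78) (PT.lf (nat_lit 6764) (nat_lit 6) (nat_lit 89) (nat_lit 4) (nat_lit 115) (nat_lit 125) (nat_lit 120)) (PT.lf (nat_lit 6688) (nat_lit 6) (nat_lit 88) (nat_lit 4) (nat_lit 116) (nat_lit 125) (nat_lit 119))) (PT.nd (nat_lit 78) (PT.lf (nat_lit 6612) (nat_lit 6) (nat_lit 87) (nat_lit 4) (nat_lit 117) (nat_lit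 125) (nat_lit 118)) (PT.lf (nat_lit 6612) (nat_lit 6) (nat_lit 87) (nat_lit 2) (nat_lit 118) (nat_lit 125) (nat_lit 117)))) (PT.nd (nat_lit 156) (PT.nd (nat_lit 78) (PT.lf (nat_lit 6688) (nat_lit 6) (nat_lit 88) (nat_lit 2) (nat_lit 119) (nat_lit 125) (nat_lit 116)) (PT.lf (nat_lit 6764) (nat_lit 6) (nat_lit 89) (nat_lit 2) (nat_lit 120) (nat_lit 125) (nat_lit 115))) (PT.nd (nat_lit 78) (PT.lf (nat_lit 6384) (nat_lit 6) (nat_lit 84) (nat_lit 2) (nat_lit 121) (nat_lit 125) (nat_lit 114)) (PT.nd (nat_lit 78) (PT.lf (nat_lit 5928) (nat_lit 6) (nat_lit 78) (nat_lit 2) (nat_lit 122) (nat_lit 125) (nat_lit 113)) (PT.lf (nat_lit 5396) (nat_lit 6) (nat_lit 71) (nat_lit 2) (nat_lit 123) (nat_lit 125) (nat_lit 112))))))))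
noncomputable def pc10 : PT := (PT.nd (nat_lit 36660) (PT.nd (nat_lit 35958) (PT.nd (nat_lit 312) (PT.nd (nat_lit 156) (PT.nd (nat_lit 78) (PT.lf (nat_lit 4788) (nat_lit 6) (nat_lit 63) (nat_lit 2) (nat_lit 124) (nat_lit 125) (nat_lit 111)) (PT.lf (nat_lit 4104) (nat_lit 3) (nat_lit 54) (nat_lit 0) (nat_lit 125) (nat_lit 125) (nat_lit 110))) (PT.nd (nat_lit 78) (PT.lf (nat_lit 3724) (nat_lit 6) (nat_lit 49) (nat_lit 0) (nat_lit 126) (nat_lit 125) (nat_lit 109)) (PT.lf (nat_lit 3344) (nat_lit 6) (nat_lit 44) (nat_lit 0) (nat_lit 127) (nat_lit 125) (nat_lit 108)))) (PT.nd (nat_lit 156) (PT.nd (nat_lit 78) (PT.lf (nat_lit 3040) (nat_lit 6) (nat_lit 40) (nat_lit 0) (nat_lit 128) (nat_lit 125) (nat_lit 107)) (PT.lf (nat_lit 2660) (nat_lit 6) (nat_lit 35) (nat_lit 0) (nat_lit 129) (nat_lit 125) (nat_lit 106))) (PT.nd (nat_lit 35412) (PT.lf (nat_lit 2356) (nat_lit 6) (nat_lit 31) (nat_lit 0) (nat_lit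 130) (nat_lit 125) (nat_lit 105)) (PT.lf (nat_lit 1900) (nat_lit 6) (nat_lit 25) (nat_lit 5) (nat_lit 103) (nat_lit 126) (nat_lit 131))))) (PT.nd (nat_lit 312) (PT.nd (nat_lit 156) (PT.nd (nat_lit 78) (PT.lf (nat_lit 2128) (nat_lit 6) (nat_lit 28) (nat_lit 5) (nat_lit 104) (nat_lit 126) (nat_lit 130)) (PT.lf (nat_lit 2432) (nat_lit 6) (nat_lit 32) (nat_lit 5) (nat_lit 105) (nat_lit 126) (nat_lit 129))) (PT.nd (nat_lit 78) (PT.lf (nat_lit 2736) (nat_lit 6) (nat_lit 36) (nat_lit 5) (nat_lit 106) (nat_lit 126) (nat_lit 128)) (PT.lf (nat_lit 3116) (nat_lit 6) (nat_lit 41) (nat_lit 5) (nat_lit 107) (nat_lit 126) (nat_lit 127)))) (PT.nd (nat_lit 156) (PT.nd (nat_lit 78) (PT.lf (nat_lit 3420) (nat_lit 3) (nat_lit 45) (nat_lit 4) (nat_lit 108) (nat_lit 126) (nat_lit 126)) (PT.lf (nat_lit 3724) (nat_lit 6) (nat_lit 49) (nat_lit 4) (nat_lit 109) (nat_lit 126) (nat_lit 125))) (PT.nd (nat_lit 78) (PT.lf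 (nat_lit 4028) (nat_lit 6) (nat_lit 53) (nat_lit 4) (nat_lit 110) (nat_lit 126) (nat_lit 124)) (PT.nd (nat_lit 78) (PT.lf (nat_lit 4712) (nat_lit 6) (nat_lit 62) (nat_lit 4) (nat_lit 111) (nat_lit 126) (nat_lit 123)) (PT.lf (nat_lit 5320) (nat_lit 6) (nat_lit 70) (nat_lit 4) (nat_lit 112) (nat_lit 126) (nat_lit 122))))))) (PT.nd (nat_lit 702) (PT.nd (nat_lit 312) (PT.nd (nat_lit 156) (PT.nd (nat_lit 78) (PT.lf (nat_lit 5852) (nat_lit 6) (nat_lit 77) (nat_lit 4) (nat_lit 113) (nat_lit 126) (nat_lit 121)) (PT.lf (nat_lit 6308) (nat_lit 6) (nat_lit 83) (nat_lit 4) (nat_lit 114) (nat_lit 126) (nat_lit 120))) (PT.nd (nat_lit 78) (PT.lf (nat_lit 6232) (nat_lit 6) (nat_lit 82) (nat_lit 4) (nat_lit 115) (nat_lit 126) (nat_lit 119)) (PT.lf (nat_lit 6156) (nat_lit 6) (nat_lit 81) (nat_lit 4) (nat_lit 116) (nat_lit 126) (nat_lit 118)))) (PT.nd (nat_lit 156) (PT.nd (nat_lit 78) (PT.lf (nat_lit 6080)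 (nat_lit 3) (nat_lit 80) (nat_lit 2) (nat_lit 117) (nat_lit 126) (nat_lit 117)) (PT.lf (nat_lit 6156) (nat_lit 6) (nat_lit 81) (nat_lit 2) (nat_lit 118) (nat_lit 126) (nat_lit 116))) (PT.nd (nat_lit 78) (PT.lf (nat_lit 6232) (nat_lit 6) (nat_lit 82) (nat_lit 2) (nat_lit 119) (nat_lit 126) (nat_lit 115)) (PT.nd (nat_lit 78) (PT.lf (nat_lit 6308) (nat_lit 6) (nat_lit 83) (nat_lit 2) (nat_lit 120) (nat_lit 126) (nat_lit 114)) (PT.lf (nat_lit 5852) (nat_lit 6) (nat_lit 77) (nat_lit 2) (nat_lit 121) (nat_lit 126) (nat_lit 113)))))) (PT.nd (nat_lit 312) (PT.nd (nat_lit 156) (PT.nd (nat_lit 78) (PT.lf (nat_lit 5320) (nat_lit 6) (nat_lit 70) (nat_lit 2) (nat_lit 122) (nat_lit 126) (nat_lit 112)) (PT.lf (nat_lit 4712) (nat_lit 6) (nat_lit 62) (nat_lit 2) (nat_lit 123) (nat_lit 126) (nat_lit 111))) (PT.nd (nat_lit 78) (PT.lf (nat_lit 4028) (nat_lit 6) (nat_lit 53) (nat_lit 2) (nat_lit 124) (nat_lit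 126) (nat_lit 110)) (PT.lf (nat_lit 3724) (nat_lit 6) (nat_lit 49) (nat_lit 2) (nat_lit 125) (nat_lit 126) (nat_lit 109)))) (PT.nd (nat_lit 156) (PT.nd (nat_lit 78) (PT.lf (nat_lit 3420) (nat_lit 3) (nat_lit 45) (nat_lit 0) (nat_lit 126) (nat_lit 126) (nat_lit 108)) (PT.lf (nat_lit 3116) (nat_lit 6) (nat_lit 41) (nat_lit 0) (nat_lit 127) (nat_lit 126) (nat_lit 107))) (PT.nd (nat_lit 78) (PT.lf (nat_lit 2736) (nat_lit 6) (nat_lit 36) (nat_lit 0) (nat_lit 128) (nat_lit 126) (nat_lit 106)) (PT.nd (nat_lit 78) (PT.lf (nat_lit 2432) (nat_lit 6) (nat_lit 32) (nat_lit 0) (nat_lit 129) (nat_lit 126) (nat_lit 105)) (PT.lf (nat_lit 2128) (nat_lit 6) (nat_lit 28) (nat_lit 0) (nat_lit 130) (nat_lit 126) (nat_lit 104))))))))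
noncomputable def pc11 : PT := (PT.nd (nat_lit 36504) (PT.nd (nat_lit 35802) (PT.nd (nat_lit 35490) (PT.nd (nat_lit 35334) (PT.nd (nat_lit 35256) (PT.lf (nat_lit 1900) (nat_lit 6) (nat_lit 25) (nat_lit 0) (nat_lit 131) (nat_lit 126) (nat_lit 103)) (PT.lf (nat_lit 1672) (nat_lit 6) (nat_lit 22) (nat_lit 5) (nat_lit 102) (nat_lit 127) (nat_lit 131))) (PT.nd (nat_lit 78) (PT.lf (nat_lit 1976) (nat_lit 6) (nat_lit 26) (nat_lit 5) (nat_lit 103) (nat_lit 127) (nat_lit 130)) (PT.lf (nat_lit 2204) (nat_lit 6) (nat_lit 29) (nat_lit 5) (nat_lit 104) (nat_lit 127) (nat_lit 129)))) (PT.nd (nat_lit 156) (PT.nd (nat_lit 78) (PT.lf (nat_lit 2508) (nat_lit 6) (nat_lit 33) (nat_lit 5) (nat_lit 105) (nat_lit 127) (nat_lit 128)) (PT.lf (nat_lit 2812) (nat_lit 3) (nat_lit 37) (nat_lit 4) (nat_lit 106) (nat_lit 127) (nat_lit 127))) (PT.nd (nat_lit 78) (PT.lf (nat_lit 3116) (nat_lit 6) (nat_lit 41) (nat_lit 4)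 (nat_lit 107) (nat_lit 127) (nat_lit 126)) (PT.lf (nat_lit 3344) (nat_lit 6) (nat_lit 44) (nat_lit 4) (nat_lit 108) (nat_lit 127) (nat_lit 125))))) (PT.nd (nat_lit 312) (PT.nd (nat_lit 156) (PT.nd (nat_lit 78) (PT.lf (nat_lit 3648) (nat_lit 6) (nat_lit 48) (nat_lit 4) (nat_lit 109) (nat_lit 127) (nat_lit 124)) (PT.lf (nat_lit 3952) (nat_lit 6) (nat_lit 52) (nat_lit 4) (nat_lit 110) (nat_lit 127) (nat_lit 123))) (PT.nd (nat_lit 78) (PT.lf (nat_lit 4636) (nat_lit 6) (nat_lit 61) (nat_lit 4) (nat_lit 111) (nat_lit 127) (nat_lit 122)) (PT.lf (nat_lit 5244) (nat_lit 6) (nat_lit 69) (nat_lit 4) (nat_lit 112) (nat_lit 127) (nat_lit 121)))) (PT.nd (nat_lit 156) (PT.nd (nat_lit 78) (PT.lf (nat_lit 5776) (nat_lit 6) (nat_lit 76) (nat_lit 4) (nat_lit 113) (nat_lit 127) (nat_lit 120)) (PT.lf (nat_lit 5700) (nat_lit 6) (nat_lit 75) (nat_lit 4) (nat_lit 114) (nat_lit 127) (nat_lit 119))) (PT.nd (nat_lit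 78) (PT.lf (nat_lit 5624) (nat_lit 6) (nat_lit 74) (nat_lit 4) (nat_lit 115) (nat_lit 127) (nat_lit 118)) (PT.nd (nat_lit 78) (PT.lf (nat_lit 5548) (nat_lit 6) (nat_lit 73) (nat_lit 4) (nat_lit 116) (nat_lit 127) (nat_lit 117)) (PT.lf (nat_lit 5548) (nat_lit 6) (nat_lit 73) (nat_lit 2) (nat_lit 117) (nat_lit 127) (nat_lit 116))))))) (PT.nd (nat_lit 702) (PT.nd (nat_lit 312) (PT.nd (nat_lit 156) (PT.nd (nat_lit 78) (PT.lf (nat_lit 5624) (nat_lit 6) (nat_lit 74) (nat_lit 2) (nat_lit 118) (nat_lit 127) (nat_lit 115)) (PT.lf (nat_lit 5700) (nat_lit 6) (nat_lit 75) (nat_lit 2) (nat_lit 119) (nat_lit 127) (nat_lit 114))) (PT.nd (nat_lit 78) (PT.lf (nat_lit 5776) (nat_lit 6) (nat_lit 76) (nat_lit 2) (nat_lit 120) (nat_lit 127) (nat_lit 113)) (PT.lf (nat_lit 5244) (nat_lit 6) (nat_lit 69) (nat_lit 2) (nat_lit 121) (nat_lit 127) (nat_lit 112)))) (PT.nd (nat_lit 156) (PT.nd (nat_lit 78) (PT.lf (nat_lit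 4636) (nat_lit 6) (nat_lit 61) (nat_lit 2) (nat_lit 122) (nat_lit 127) (nat_lit 111)) (PT.lf (nat_lit 3952) (nat_lit 6) (nat_lit 52) (nat_lit 2) (nat_lit 123) (nat_lit 127) (nat_lit 110))) (PT.nd (nat_lit 78) (PT.lf (nat_lit 3648) (nat_lit 6) (nat_lit 48) (nat_lit 2) (nat_lit 124) (nat_lit 127) (nat_lit 109)) (PT.nd (nat_lit 78) (PT.lf (nat_lit 3344) (nat_lit 6) (nat_lit 44) (nat_lit 2) (nat_lit 125) (nat_lit 127) (nat_lit 108)) (PT.lf (nat_lit 3116) (nat_lit 6) (nat_lit 41) (nat_lit 2) (nat_lit 126) (nat_lit 127) (nat_lit 107)))))) (PT.nd (nat_lit 312) (PT.nd (nat_lit 156) (PT.nd (nat_lit 78) (PT.lf (nat_lit 2812) (nat_lit 3) (nat_lit 37) (nat_lit 0) (nat_lit 127) (nat_lit 127) (nat_lit 106)) (PT.lf (nat_lit 2508) (nat_lit 6) (nat_lit 33) (nat_lit 0) (nat_lit 128) (nat_lit 127) (nat_lit 105))) (PT.nd (nat_lit 78) (PT.lf (nat_lit 2204) (nat_lit 6) (nat_lit 29) (nat_lit 0) (nat_lit 129) (nat_lit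 127) (nat_lit 104)) (PT.lf (nat_lit 1976) (nat_lit 6) (nat_lit 26) (nat_lit 0) (nat_lit 130) (nat_lit 127) (nat_lit 103)))) (PT.nd (nat_lit 35178) (PT.nd (nat_lit 35100) (PT.lf (nat_lit 1672) (nat_lit 6) (nat_lit 22) (nat_lit 0) (nat_lit 131) (nat_lit 127) (nat_lit 102)) (PT.lf (nat_lit 1292) (nat_lit 6) (nat_lit 17) (nat_lit 5) (nat_lit 100) (nat_lit 128) (nat_lit 132))) (PT.nd (nat_lit 78) (PT.lf (nat_lit 1520) (nat_lit 6) (nat_lit 20) (nat_lit 5) (nat_lit 101) (nat_lit 128) (nat_lit 131)) (PT.nd (nat_lit 78) (PT.lf (nat_lit 1748) (nat_lit 6) (nat_lit 23) (nat_lit 5) (nat_lit 102) (nat_lit 128) (nat_lit 130)) (PT.lf (nat_lit 2052) (nat_lit 6) (nat_lit 27) (nat_lit 5) (nat_lit 103) (nat_lit 128) (nat_lit 129))))))))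
noncomputable def pc12 : PT := (PT.nd (nat_lit 1326) (PT.nd (nat_lit 624) (PT.nd (nat_lit 312) (PT.nd (nat_lit 156) (PT.nd (nat_lit 78) (PT.lf (nat_lit 2280) (nat_lit 3) (nat_lit 30) (nat_lit 4) (nat_lit 104) (nat_lit 128) (nat_lit 128)) (PT.lf (nat_lit 2508) (nat_lit 6) (nat_lit 33) (nat_lit 4) (nat_lit 105) (nat_lit 128) (nat_lit 127))) (PT.nd (nat_lit 78) (PT.lf (nat_lit 2736) (nat_lit 6) (nat_lit 36) (nat_lit 4) (nat_lit 106) (nat_lit 128) (nat_lit 126)) (PT.lf (nat_lit 3040) (nat_lit 6) (nat_lit 40) (nat_lit 4) (nat_lit 107) (nat_lit 128) (nat_lit 125)))) (PT.nd (nat_lit 156) (PT.nd (nat_lit 78) (PT.lf (nat_lit 3268) (nat_lit 6) (nat_lit 43) (nat_lit 4) (nat_lit 108) (nat_lit 128) (nat_lit 124)) (PT.lf (nat_lit 3572) (nat_lit 6) (nat_lit 47) (nat_lit 4) (nat_lit 109) (nat_lit 128) (nat_lit 123))) (PT.nd (nat_lit 78) (PT.lf (nat_lit 3876) (nat_lit 6) (nat_lit 51) (nat_lit 4) (nat_lit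 110) (nat_lit 128) (nat_lit 122)) (PT.lf (nat_lit 4560) (nat_lit 6) (nat_lit 60) (nat_lit 4) (nat_lit 111) (nat_lit 128) (nat_lit 121))))) (PT.nd (nat_lit 312) (PT.nd (nat_lit 156) (PT.nd (nat_lit 78) (PT.lf (nat_lit 5168) (nat_lit 6) (nat_lit 68) (nat_lit 4) (nat_lit 112) (nat_lit 128) (nat_lit 120)) (PT.lf (nat_lit 5092) (nat_lit 6) (nat_lit 67) (nat_lit 4) (nat_lit 113) (nat_lit 128) (nat_lit 119))) (PT.nd (nat_lit 78) (PT.lf (nat_lit 5016) (nat_lit 6) (nat_lit 66) (nat_lit 4) (nat_lit 114) (nat_lit 128) (nat_lit 118)) (PT.lf (nat_lit 4940) (nat_lit 6) (nat_lit 65) (nat_lit 4) (nat_lit 115) (nat_lit 128) (nat_lit 117)))) (PT.nd (nat_lit 156) (PT.nd (nat_lit 78) (PT.lf (nat_lit 4864) (nat_lit 3) (nat_lit 64) (nat_lit 2) (nat_lit 116) (nat_lit 128) (nat_lit 116)) (PT.lf (nat_lit 4940) (nat_lit 6) (nat_lit 65) (nat_lit 2) (nat_lit 117) (nat_lit 128) (nat_lit 115))) (PT.nd (nat_lit 78) (PT.lf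 (nat_lit 5016) (nat_lit 6) (nat_lit 66) (nat_lit 2) (nat_lit 118) (nat_lit 128) (nat_lit 114)) (PT.nd (nat_lit 78) (PT.lf (nat_lit 5092) (nat_lit 6) (nat_lit 67) (nat_lit 2) (nat_lit 119) (nat_lit 128) (nat_lit 113)) (PT.lf (nat_lit 5168) (nat_lit 6) (nat_lit 68) (nat_lit 2) (nat_lit 120) (nat_lit 128) (nat_lit 112))))))) (PT.nd (nat_lit 702) (PT.nd (nat_lit 312) (PT.nd (nat_lit 156) (PT.nd (nat_lit 78) (PT.lf (nat_lit 4560) (nat_lit 6) (nat_lit 60) (nat_lit 2) (nat_lit 121) (nat_lit 128) (nat_lit 111)) (PT.lf (nat_lit 3876) (nat_lit 6) (nat_lit 51) (nat_lit 2) (nat_lit 122) (nat_lit 128) (nat_lit 110))) (PT.nd (nat_lit 78) (PT.lf (nat_lit 3572) (nat_lit 6) (nat_lit 47) (nat_lit 2) (nat_lit 123) (nat_lit 128) (nat_lit 109)) (PT.lf (nat_lit 3268) (nat_lit 6) (nat_lit 43) (nat_lit 2) (nat_lit 124) (nat_lit 128) (nat_lit 108)))) (PT.nd (nat_lit 156) (PT.nd (nat_lit 78) (PT.lf (nat_lit 3040)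 (nat_lit 6) (nat_lit 40) (nat_lit 2) (nat_lit 125) (nat_lit 128) (nat_lit 107)) (PT.lf (nat_lit 2736) (nat_lit 6) (nat_lit 36) (nat_lit 2) (nat_lit 126) (nat_lit 128) (nat_lit 106))) (PT.nd (nat_lit 78) (PT.lf (nat_lit 2508) (nat_lit 6) (nat_lit 33) (nat_lit 2) (nat_lit 127) (nat_lit 128) (nat_lit 105)) (PT.nd (nat_lit 78) (PT.lf (nat_lit 2280) (nat_lit 3) (nat_lit 30) (nat_lit 0) (nat_lit 128) (nat_lit 128) (nat_lit 104)) (PT.lf (nat_lit 2052) (nat_lit 6) (nat_lit 27) (nat_lit 0) (nat_lit 129) (nat_lit 128) (nat_lit 103)))))) (PT.nd (nat_lit 35178) (PT.nd (nat_lit 156) (PT.nd (nat_lit 78) (PT.lf (nat_lit 1748) (nat_lit 6) (nat_lit 23) (nat_lit 0) (nat_lit 130) (nat_lit 128) (nat_lit 102)) (PT.lf (nat_lit 1520) (nat_lit 6) (nat_lit 20) (nat_lit 0) (nat_lit 131) (nat_lit 128) (nat_lit 101))) (PT.nd (nat_lit 34944) (PT.lf (nat_lit 1292) (nat_lit 6) (nat_lit 17) (nat_lit 0) (nat_lit 132) (nat_lit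 128) (nat_lit 100)) (PT.lf (nat_lit 1140) (nat_lit 6) (nat_lit 15) (nat_lit 5) (nat_lit 99) (nat_lit 129) (nat_lit 132)))) (PT.nd (nat_lit 156) (PT.nd (nat_lit 78) (PT.lf (nat_lit 1368) (nat_lit 6) (nat_lit 18) (nat_lit 5) (nat_lit 100) (nat_lit 129) (nat_lit 131)) (PT.lf (nat_lit 1596) (nat_lit 6) (nat_lit 21) (nat_lit 5) (nat_lit 101) (nat_lit 129) (nat_lit 130))) (PT.nd (nat_lit 78) (PT.lf (nat_lit 1824) (nat_lit 3) (nat_lit 24) (nat_lit 4) (nat_lit 102) (nat_lit 129) (nat_lit 129)) (PT.nd (nat_lit 78) (PT.lf (nat_lit 2052) (nat_lit 6) (nat_lit 27) (nat_lit 4) (nat_lit 103) (nat_lit 129) (nat_lit 128)) (PT.lf (nat_lit 2204) (nat_lit 6) (nat_lit 29) (nat_lit 4) (nat_lit 104) (nat_lit 129) (nat_lit 127))))))))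
noncomputable def pc13 : PT := (PT.nd (nat_lit 1326) (PT.nd (nat_lit 624) (PT.nd (nat_lit 312) (PT.nd (nat_lit 156) (PT.nd (nat_lit 78) (PT.lf (nat_lit 2432) (nat_lit 6) (nat_lit 32) (nat_lit 4) (nat_lit 105) (nat_lit 129) (nat_lit 126)) (PT.lf (nat_lit 2660) (nat_lit 6) (nat_lit 35) (nat_lit 4) (nat_lit 106) (nat_lit 129) (nat_lit 125))) (PT.nd (nat_lit 78) (PT.lf (nat_lit 2964) (nat_lit 6) (nat_lit 39) (nat_lit 4) (nat_lit 107) (nat_lit 129) (nat_lit 124)) (PT.lf (nat_lit 3192) (nat_lit 6) (nat_lit 42) (nat_lit 4) (nat_lit 108) (nat_lit 129) (nat_lit 123)))) (PT.nd (nat_lit 156) (PT.nd (nat_lit 78) (PT.lf (nat_lit 3496) (nat_lit 6) (nat_lit 46) (nat_lit 4) (nat_lit 109) (nat_lit 129) (nat_lit 122)) (PT.lf (nat_lit 3800) (nat_lit 6) (nat_lit 50) (nat_lit 4) (nat_lit 110) (nat_lit 129) (nat_lit 121))) (PT.nd (nat_lit 78) (PT.lf (nat_lit 4484) (nat_lit 6) (nat_lit 59) (nat_lit 4) (nat_lit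 111) (nat_lit 129) (nat_lit 120)) (PT.lf (nat_lit 4408) (nat_lit 6) (nat_lit 58) (nat_lit 4) (nat_lit 112) (nat_lit 129) (nat_lit 119))))) (PT.nd (nat_lit 312) (PT.nd (nat_lit 156) (PT.nd (nat_lit 78) (PT.lf (nat_lit 4332) (nat_lit 6) (nat_lit 57) (nat_lit 4) (nat_lit 113) (nat_lit 129) (nat_lit 118)) (PT.lf (nat_lit 4256) (nat_lit 6) (nat_lit 56) (nat_lit 4) (nat_lit 114) (nat_lit 129) (nat_lit 117))) (PT.nd (nat_lit 78) (PT.lf (nat_lit 4180) (nat_lit 6) (nat_lit 55) (nat_lit 4) (nat_lit 115) (nat_lit 129) (nat_lit 116)) (PT.lf (nat_lit 4180) (nat_lit 6) (nat_lit 55) (nat_lit 2) (nat_lit 116) (nat_lit 129) (nat_lit 115)))) (PT.nd (nat_lit 156) (PT.nd (nat_lit 78) (PT.lf (nat_lit 4256) (nat_lit 6) (nat_lit 56) (nat_lit 2) (nat_lit 117) (nat_lit 129) (nat_lit 114)) (PT.lf (nat_lit 4332) (nat_lit 6) (nat_lit 57) (nat_lit 2) (nat_lit 118) (nat_lit 129) (nat_lit 113))) (PT.nd (nat_lit 78) (PT.lf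 (nat_lit 4408) (nat_lit 6) (nat_lit 58) (nat_lit 2) (nat_lit 119) (nat_lit 129) (nat_lit 112)) (PT.nd (nat_lit 78) (PT.lf (nat_lit 4484) (nat_lit 6) (nat_lit 59) (nat_lit 2) (nat_lit 120) (nat_lit 129) (nat_lit 111)) (PT.lf (nat_lit 3800) (nat_lit 6) (nat_lit 50) (nat_lit 2) (nat_lit 121) (nat_lit 129) (nat_lit 110))))))) (PT.nd (nat_lit 702) (PT.nd (nat_lit 312) (PT.nd (nat_lit 156) (PT.nd (nat_lit 78) (PT.lf (nat_lit 3496) (nat_lit 6) (nat_lit 46) (nat_lit 2) (nat_lit 122) (nat_lit 129) (nat_lit 109)) (PT.lf (nat_lit 3192) (nat_lit 6) (nat_lit 42) (nat_lit 2) (nat_lit 123) (nat_lit 129) (nat_lit 108))) (PT.nd (nat_lit 78) (PT.lf (nat_lit 2964) (nat_lit 6) (nat_lit 39) (nat_lit 2) (nat_lit 124) (nat_lit 129) (nat_lit 107)) (PT.lf (nat_lit 2660) (nat_lit 6) (nat_lit 35) (nat_lit 2) (nat_lit 125) (nat_lit 129) (nat_lit 106)))) (PT.nd (nat_lit 156) (PT.nd (nat_lit 78) (PT.lf (nat_lit 2432)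 (nat_lit 6) (nat_lit 32) (nat_lit 2) (nat_lit 126) (nat_lit 129) (nat_lit 105)) (PT.lf (nat_lit 2204) (nat_lit 6) (nat_lit 29) (nat_lit 2) (nat_lit 127) (nat_lit 129) (nat_lit 104))) (PT.nd (nat_lit 78) (PT.lf (nat_lit 2052) (nat_lit 6) (nat_lit 27) (nat_lit 2) (nat_lit 128) (nat_lit 129) (nat_lit 103)) (PT.nd (nat_lit 78) (PT.lf (nat_lit 1824) (nat_lit 3) (nat_lit 24) (nat_lit 0) (nat_lit 129) (nat_lit 129) (nat_lit 102)) (PT.lf (nat_lit 1596) (nat_lit 6) (nat_lit 21) (nat_lit 0) (nat_lit 130) (nat_lit 129) (nat_lit 101)))))) (PT.nd (nat_lit 35022) (PT.nd (nat_lit 34866) (PT.nd (nat_lit 78) (PT.lf (nat_lit 1368) (nat_lit 6) (nat_lit 18) (nat_lit 0) (nat_lit 131) (nat_lit 129) (nat_lit 100)) (PT.lf (nat_lit 1140) (nat_lit 6) (nat_lit 15) (nat_lit 0) (nat_lit 132) (nat_lit 129) (nat_lit 99))) (PT.nd (nat_lit 78) (PT.lf (nat_lit 836) (nat_lit 6) (nat_lit 11) (nat_lit 5) (nat_lit 97) (nat_lit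 130) (nat_lit 133)) (PT.lf (nat_lit 988) (nat_lit 6) (nat_lit 13) (nat_lit 5) (nat_lit 98) (nat_lit 130) (nat_lit 132)))) (PT.nd (nat_lit 156) (PT.nd (nat_lit 78) (PT.lf (nat_lit 1216) (nat_lit 6) (nat_lit 16) (nat_lit 5) (nat_lit 99) (nat_lit 130) (nat_lit 131)) (PT.lf (nat_lit 1444) (nat_lit 3) (nat_lit 19) (nat_lit 4) (nat_lit 100) (nat_lit 130) (nat_lit 130))) (PT.nd (nat_lit 78) (PT.lf (nat_lit 1596) (nat_lit 6) (nat_lit 21) (nat_lit 4) (nat_lit 101) (nat_lit 130) (nat_lit 129)) (PT.nd (nat_lit 78) (PT.lf (nat_lit 1748) (nat_lit 6) (nat_lit 23) (nat_lit 4) (nat_lit 102) (nat_lit 130) (nat_lit 128)) (PT.lf (nat_lit 1976) (nat_lit 6) (nat_lit 26) (nat_lit 4) (nat_lit 103) (nat_lit 130) (nat_lit 127))))))))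
noncomputable def pc14 : PT := (PT.nd (nat_lit 37050) (PT.nd (nat_lit 1794) (PT.nd (nat_lit 1482) (PT.nd (nat_lit 156) (PT.nd (nat_lit 78) (PT.lf (nat_lit 2128) (nat_lit 6) (nat_lit 28) (nat_lit 4) (nat_lit 104) (nat_lit 130) (nat_lit 126)) (PT.lf (nat_lit 2356) (nat_lit 6) (nat_lit 31) (nat_lit 4) (nat_lit 105) (nat_lit 130) (nat_lit 125))) (PT.nd (nat_lit 78) (PT.lf (nat_lit 2584) (nat_lit 6) (nat_lit 34) (nat_lit 4) (nat_lit 106) (nat_lit 130) (nat_lit 124)) (PT.lf (nat_lit 2888) (nat_lit 6) (nat_lit 38) (nat_lit 4) (nat_lit 107) (nat_lit 130) (nat_lit 123)))) (PT.nd (nat_lit 156) (PT.nd (nat_lit 78) (PT.lf (nat_lit 2888) (nat_lit 6) (nat_lit 38) (nat_lit 2) (nat_lit 123) (nat_lit 130) (nat_lit 107)) (PT.lf (nat_lit 2584) (nat_lit 6) (nat_lit 34) (nat_lit 2) (nat_lit 124) (nat_lit 130) (nat_lit 106))) (PT.nd (nat_lit 78) (PT.lf (nat_lit 2356) (nat_lit 6) (nat_lit 31) (nat_lit 2) (nat_lit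 125) (nat_lit 130) (nat_lit 105)) (PT.lf (nat_lit 2128) (nat_lit 6) (nat_lit 28) (nat_lit 2) (nat_lit 126) (nat_lit 130) (nat_lit 104))))) (PT.nd (nat_lit 312) (PT.nd (nat_lit 156) (PT.nd (nat_lit 78) (PT.lf (nat_lit 1976) (nat_lit 6) (nat_lit 26) (nat_lit 2) (nat_lit 127) (nat_lit 130) (nat_lit 103)) (PT.lf (nat_lit 1748) (nat_lit 6) (nat_lit 23) (nat_lit 2) (nat_lit 128) (nat_lit 130) (nat_lit 102))) (PT.nd (nat_lit 78) (PT.lf (nat_lit 1596) (nat_lit 6) (nat_lit 21) (nat_lit 2) (nat_lit 129) (nat_lit 130) (nat_lit 101)) (PT.lf (nat_lit 1444) (nat_lit 3) (nat_lit 19) (nat_lit 0) (nat_lit 130) (nat_lit 130) (nat_lit 100)))) (PT.nd (nat_lit 156) (PT.nd (nat_lit 78) (PT.lf (nat_lit 1216) (nat_lit 6) (nat_lit 16) (nat_lit 0) (nat_lit 131) (nat_lit 130) (nat_lit 99)) (PT.lf (nat_lit 988) (nat_lit 6) (nat_lit 13) (nat_lit 0) (nat_lit 132) (nat_lit 130) (nat_lit 98))) (PT.nd (nat_lit 34632) (PT.lf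 (nat_lit 836) (nat_lit 6) (nat_lit 11) (nat_lit 0) (nat_lit 133) (nat_lit 130) (nat_lit 97)) (PT.nd (nat_lit 78) (PT.lf (nat_lit 684) (nat_lit 6) (nat_lit 9) (nat_lit 5) (nat_lit 96) (nat_lit 131) (nat_lit 133)) (PT.lf (nat_lit 912) (nat_lit 6) (nat_lit 12) (nat_lit 5) (nat_lit 97) (nat_lit 131) (nat_lit 132))))))) (PT.nd (nat_lit 2418) (PT.nd (nat_lit 312) (PT.nd (nat_lit 156) (PT.nd (nat_lit 78) (PT.lf (nat_lit 1064) (nat_lit 3) (nat_lit 14) (nat_lit 4) (nat_lit 98) (nat_lit 131) (nat_lit 131)) (PT.lf (nat_lit 1216) (nat_lit 6) (nat_lit 16) (nat_lit 4) (nat_lit 99) (nat_lit 131) (nat_lit 130))) (PT.nd (nat_lit 78) (PT.lf (nat_lit 1368) (nat_lit 6) (nat_lit 18) (nat_lit 4) (nat_lit 100) (nat_lit 131) (nat_lit 129)) (PT.lf (nat_lit 1520) (nat_lit 6) (nat_lit 20) (nat_lit 4) (nat_lit 101) (nat_lit 131) (nat_lit 128)))) (PT.nd (nat_lit 1872) (PT.nd (nat_lit 78) (PT.lf (nat_lit 1672) (nat_lit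 6) (nat_lit 22) (nat_lit 4) (nat_lit 102) (nat_lit 131) (nat_lit 127)) (PT.lf (nat_lit 1900) (nat_lit 6) (nat_lit 25) (nat_lit 4) (nat_lit 103) (nat_lit 131) (nat_lit 126))) (PT.nd (nat_lit 78) (PT.lf (nat_lit 1900) (nat_lit 6) (nat_lit 25) (nat_lit 2) (nat_lit 126) (nat_lit 131) (nat_lit 103)) (PT.nd (nat_lit 78) (PT.lf (nat_lit 1672) (nat_lit 6) (nat_lit 22) (nat_lit 2) (nat_lit 127) (nat_lit 131) (nat_lit 102)) (PT.lf (nat_lit 1520) (nat_lit 6) (nat_lit 20) (nat_lit 2) (nat_lit 128) (nat_lit 131) (nat_lit 101)))))) (PT.nd (nat_lit 312) (PT.nd (nat_lit 156) (PT.nd (nat_lit 78) (PT.lf (nat_lit 1368) (nat_lit 6) (nat_lit 18) (nat_lit 2) (nat_lit 129) (nat_lit 131) (nat_lit 100)) (PT.lf (nat_lit 1216) (nat_lit 6) (nat_lit 16) (nat_lit 2) (nat_lit 130) (nat_lit 131) (nat_lit 99))) (PT.nd (nat_lit 78) (PT.lf (nat_lit 1064) (nat_lit 3) (nat_lit 14) (nat_lit 0) (nat_lit 131) (nat_lit 131) (nat_lit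 98)) (PT.lf (nat_lit 912) (nat_lit 6) (nat_lit 12) (nat_lit 0) (nat_lit 132) (nat_lit 131) (nat_lit 97)))) (PT.nd (nat_lit 34554) (PT.nd (nat_lit 34476) (PT.lf (nat_lit 684) (nat_lit 6) (nat_lit 9) (nat_lit 0) (nat_lit 133) (nat_lit 131) (nat_lit 96)) (PT.lf (nat_lit 456) (nat_lit 6) (nat_lit 6) (nat_lit 5) (nat_lit 94) (nat_lit 132) (nat_lit 134))) (PT.nd (nat_lit 78) (PT.lf (nat_lit 608) (nat_lit 6) (nat_lit 8) (nat_lit 5) (nat_lit 95) (nat_lit 132) (nat_lit 133)) (PT.nd (nat_lit 78) (PT.lf (nat_lit 760) (nat_lit 3) (nat_lit 10) (nat_lit 4) (nat_lit 96) (nat_lit 132) (nat_lit 132)) (PT.lf (nat_lit 912) (nat_lit 6) (nat_lit 12) (nat_lit 4) (nat_lit 97) (nat_lit 132) (nat_lit 131))))))))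
noncomputable def pc15 : PT := (PT.nd (nat_lit 40170) (PT.nd (nat_lit 2808) (PT.nd (nat_lit 2418) (PT.nd (nat_lit 156) (PT.nd (nat_lit 78) (PT.lf (nat_lit 988) (nat_lit 6) (nat_lit 13) (nat_lit 4) (nat_lit 98) (nat_lit 132) (nat_lit 130)) (PT.lf (nat_lit 1140) (nat_lit 6) (nat_lit 15) (nat_lit 4) (nat_lit 99) (nat_lit 132) (nat_lit 129))) (PT.nd (nat_lit 2184) (PT.lf (nat_lit 1292) (nat_lit 6) (nat_lit 17) (nat_lit 4) (nat_lit 100) (nat_lit 132) (nat_lit 128)) (PT.lf (nat_lit 1292) (nat_lit 6) (nat_lit 17) (nat_lit 2) (nat_lit 128) (nat_lit 132) (nat_lit 100)))) (PT.nd (nat_lit 156) (PT.nd (nat_lit 78) (PT.lf (nat_lit 1140) (nat_lit 6) (nat_lit 15) (nat_lit 2) (nat_lit 129) (nat_lit 132) (nat_lit 99)) (PT.lf (nat_lit 988) (nat_lit 6) (nat_lit 13) (nat_lit 2) (nat_lit 130) (nat_lit 132) (nat_lit 98))) (PT.nd (nat_lit 78) (PT.lf (nat_lit 912) (nat_lit 6) (nat_lit 12) (nat_lit 2) (nat_lit 131)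 (nat_lit 132) (nat_lit 97)) (PT.nd (nat_lit 78) (PT.lf (nat_lit 760) (nat_lit 3) (nat_lit 10) (nat_lit 0) (nat_lit 132) (nat_lit 132) (nat_lit 96)) (PT.lf (nat_lit 608) (nat_lit 6) (nat_lit 8) (nat_lit 0) (nat_lit 133) (nat_lit 132) (nat_lit 95)))))) (PT.nd (nat_lit 34476) (PT.nd (nat_lit 34320) (PT.nd (nat_lit 34242) (PT.lf (nat_lit 456) (nat_lit 6) (nat_lit 6) (nat_lit 0) (nat_lit 134) (nat_lit 132) (nat_lit 94)) (PT.lf (nat_lit 228) (nat_lit 6) (nat_lit 3) (nat_lit 5) (nat_lit 92) (nat_lit 133) (nat_lit 135))) (PT.nd (nat_lit 78) (PT.lf (nat_lit 380) (nat_lit 6) (nat_lit 5) (nat_lit 5) (nat_lit 93) (nat_lit 133) (nat_lit 134)) (PT.lf (nat_lit 532) (nat_lit 3) (nat_lit 7) (nat_lit 4) (nat_lit 94) (nat_lit 133) (nat_lit 133)))) (PT.nd (nat_lit 156) (PT.nd (nat_lit 78) (PT.lf (nat_lit 608) (nat_lit 6) (nat_lit 8) (nat_lit 4) (nat_lit 95) (nat_lit 133) (nat_lit 132)) (PT.lf (nat_lit 684)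 (nat_lit 6) (nat_lit 9) (nat_lit 4) (nat_lit 96) (nat_lit 133) (nat_lit 131))) (PT.nd (nat_lit 2574) (PT.lf (nat_lit 836) (nat_lit 6) (nat_lit 11) (nat_lit 4) (nat_lit 97) (nat_lit 133) (nat_lit 130)) (PT.nd (nat_lit 78) (PT.lf (nat_lit 836) (nat_lit 6) (nat_lit 11) (nat_lit 2) (nat_lit 130) (nat_lit 133) (nat_lit 97)) (PT.lf (nat_lit 684) (nat_lit 6) (nat_lit 9) (nat_lit 2) (nat_lit 131) (nat_lit 133) (nat_lit 96))))))) (PT.nd (nat_lit 37596) (PT.nd (nat_lit 34320) (PT.nd (nat_lit 156) (PT.nd (nat_lit 78) (PT.lf (nat_lit 608) (nat_lit 6) (nat_lit 8) (nat_lit 2) (nat_lit 132) (nat_lit 133) (nat_lit 95)) (PT.lf (nat_lit 532) (nat_lit 3) (nat_lit 7) (nat_lit 0) (nat_lit 133) (nat_lit 133) (nat_lit 94))) (PT.nd (nat_lit 78) (PT.lf (nat_lit 380) (nat_lit 6) (nat_lit 5) (nat_lit 0) (nat_lit 134) (nat_lit 133) (nat_lit 93)) (PT.lf (nat_lit 228) (nat_lit 6) (nat_lit 3) (nat_lit 0) (nat_lit 135)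 (nat_lit 133) (nat_lit 92)))) (PT.nd (nat_lit 156) (PT.nd (nat_lit 78) (PT.lf (nat_lit 152) (nat_lit 6) (nat_lit 2) (nat_lit 5) (nat_lit 91) (nat_lit 134) (nat_lit 135)) (PT.lf (nat_lit 304) (nat_lit 3) (nat_lit 4) (nat_lit 4) (nat_lit 92) (nat_lit 134) (nat_lit 134))) (PT.nd (nat_lit 78) (PT.lf (nat_lit 380) (nat_lit 6) (nat_lit 5) (nat_lit 4) (nat_lit 93) (nat_lit 134) (nat_lit 133)) (PT.nd (nat_lit 2964) (PT.lf (nat_lit 456) (nat_lit 6) (nat_lit 6) (nat_lit 4) (nat_lit 94) (nat_lit 134) (nat_lit 132)) (PT.lf (nat_lit 456) (nat_lit 6) (nat_lit 6) (nat_lit 2) (nat_lit 132) (nat_lit 134) (nat_lit 94)))))) (PT.nd (nat_lit 34242) (PT.nd (nat_lit 156) (PT.nd (nat_lit 78) (PT.lf (nat_lit 380) (nat_lit 6) (nat_lit 5) (nat_lit 2) (nat_lit 133) (nat_lit 134) (nat_lit 93)) (PT.lf (nat_lit 304) (nat_lit 3) (nat_lit 4) (nat_lit 0) (nat_lit 134) (nat_lit 134) (nat_lit 92))) (PT.nd (nat_lit 34008) (PT.lf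 (nat_lit 152) (nat_lit 6) (nat_lit 2) (nat_lit 0) (nat_lit 135) (nat_lit 134) (nat_lit 91)) (PT.lf (nat_lit 76) (nat_lit 3) (nat_lit 1) (nat_lit 4) (nat_lit 90) (nat_lit 135) (nat_lit 135)))) (PT.nd (nat_lit 3276) (PT.nd (nat_lit 78) (PT.lf (nat_lit 152) (nat_lit 6) (nat_lit 2) (nat_lit 4) (nat_lit 91) (nat_lit 135) (nat_lit 134)) (PT.lf (nat_lit 228) (nat_lit 6) (nat_lit 3) (nat_lit 4) (nat_lit 92) (nat_lit 135) (nat_lit 133))) (PT.nd (nat_lit 78) (PT.lf (nat_lit 228) (nat_lit 6) (nat_lit 3) (nat_lit 2) (nat_lit 133) (nat_lit 135) (nat_lit 92)) (PT.nd (nat_lit 78) (PT.lf (nat_lit 152) (nat_lit 6) (nat_lit 2) (nat_lit 2) (nat_lit 134) (nat_lit 135) (nat_lit 91)) (PT.lf (nat_lit 76) (nat_lit 3) (nat_lit 1) (nat_lit 0) (nat_lit 135) (nat_lit 135) (nat_lit 90))))))))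
noncomputable def xc0 : XT := (XT.nd (nat_lit 149448) (nat_lit 0) (nat_lit 0) (XT.nd (nat_lit 75036) (nat_lit 0) (nat_lit 0) (XT.nd (nat_lit 37596) (nat_lit 0) (nat_lit 0) (XT.nd (nat_lit 37362) (nat_lit 0) (nat_lit 0) (XT.nd (nat_lit 78) (nat_lit 0) (nat_lit 0) (XT.lf (nat_lit 0) (nat_lit 21882177980) (nat_lit 152) (nat_lit 16224516098) (nat_lit 0) (nat_lit 21882177980) (nat_lit 2) (nat_lit 5) (nat_lit 4) (nat_lit 4) (nat_lit 2) (nat_lit 4) (nat_lit 330) (nat_lit 195) (nat_lit 195)) (XT.lf (nat_lit 0) (nat_lit 48260642855) (nat_lit 152) (nat_lit 29611070872) (nat_lit 0) (nat_lit 48025491216) (nat_lit 2) (nat_lit 5) (nat_lit 4) (nat_lit 4) (nat_lit 2) (nat_lit 4) (nat_lit 331) (nat_lit 195) (nat_lit 194))) (XT.nd (nat_lit 78) (nat_lit 0) (nat_lit 0) (XT.lf (nat_lit 0) (nat_lit 17726265870) (nat_lit 152) (nat_lit 19036068836) (nat_lit 0) (nat_lit 17726265870) (nat_lit 2) (nat_lit 5) (nat_lit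 4) (nat_lit 4) (nat_lit 2) (nat_lit 4) (nat_lit 328) (nat_lit 196) (nat_lit 196)) (XT.nd (nat_lit 78) (nat_lit 0) (nat_lit 0) (XT.lf (nat_lit 0) (nat_lit 39648630879) (nat_lit 152) (nat_lit 35292310976) (nat_lit 0) (nat_lit 39401721658) (nat_lit 2) (nat_lit 5) (nat_lit 4) (nat_lit 4) (nat_lit 2) (nat_lit 4) (nat_lit 329) (nat_lit 196) (nat_lit 195)) (XT.lf (nat_lit 0) (nat_lit 43970055853) (nat_lit 152) (nat_lit 32520974340) (nat_lit 0) (nat_lit 43487994993) (nat_lit 2) (nat_lit 5) (nat_lit 4) (nat_lit 4) (nat_lit 2) (nat_lit 4) (nat_lit 330) (nat_lit 196) (nat_lit 194))))) (XT.nd (nat_lit 37206) (nat_lit 0) (nat_lit 0) (XT.nd (nat_lit 37128) (nat_lit 0) (nat_lit 0) (XT.lf (nat_lit 0) (nat_lit 48427095770) (nat_lit 152) (nat_lit 29751529344) (nat_lit 0) (nat_lit 47721080968) (nat_lit 2) (nat_lit 5) (nat_lit 4) (nat_lit 4) (nat_lit 2) (nat_lit 4) (nat_lit 331) (nat_lit 196) (nat_lit 193))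 (XT.lf (nat_lit 0) (nat_lit 13850655346) (nat_lit 152) (nat_lit 21802227772) (nat_lit 0) (nat_lit 13850655346) (nat_lit 2) (nat_lit 5) (nat_lit 4) (nat_lit 4) (nat_lit 2) (nat_lit 4) (nat_lit 326) (nat_lit 197) (nat_lit 197))) (XT.nd (nat_lit 78) (nat_lit 0) (nat_lit 0) (XT.lf (nat_lit 0) (nat_lit 31631022407) (nat_lit 152) (nat_lit 40867073064) (nat_lit 0) (nat_lit 31371767725) (nat_lit 2) (nat_lit 5) (nat_lit 4) (nat_lit 4) (nat_lit 2) (nat_lit 4) (nat_lit 327) (nat_lit 197) (nat_lit 196)) (XT.nd (nat_lit 78) (nat_lit 0) (nat_lit 0) (XT.lf (nat_lit 0) (nat_lit 35668516629) (nat_lit 152) (nat_lit 38147676923) (nat_lit 0) (nat_lit 35162352726) (nat_lit 2) (nat_lit 5) (nat_lit 4) (nat_lit 4) (nat_lit 2) (nat_lit 4) (nat_lit 328) (nat_lit 197) (nat_lit 195)) (XT.lf (nat_lit 0) (nat_lit 39823406440) (nat_lit 152) (nat_lit 35439792371) (nat_lit 0) (nat_lit 39082090898) (nat_lit 2) (nat_lit 5)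 (nat_lit 4) (nat_lit 4) (nat_lit 2) (nat_lit 4) (nat_lit 329) (nat_lit 197) (nat_lit 194)))))) (XT.nd (nat_lit 37284) (nat_lit 0) (nat_lit 0) (XT.nd (nat_lit 37050) (nat_lit 0) (nat_lit 0) (XT.nd (nat_lit 78) (nat_lit 0) (nat_lit 0) (XT.lf (nat_lit 0) (nat_lit 44105584435) (nat_lit 152) (nat_lit 32736972063) (nat_lit 0) (nat_lit 43140314951) (nat_lit 2) (nat_lit 5) (nat_lit 4) (nat_lit 4) (nat_lit 2) (nat_lit 4) (nat_lit 330) (nat_lit 197) (nat_lit 193)) (XT.lf (nat_lit 0) (nat_lit 48525246276) (nat_lit 152) (nat_lit 30032780713) (nat_lit 0) (nat_lit 47346687324) (nat_lit 2) (nat_lit 5) (nat_lit 4) (nat_lit 4) (nat_lit 2) (nat_lit 4) (nat_lit 331) (nat_lit 197) (nat_lit 192))) (XT.nd (nat_lit 78) (nat_lit 0) (nat_lit 0) (XT.lf (nat_lit 0) (nat_lit 10223982837) (nat_lit 152) (nat_lit 24538013079) (nat_lit 0) (nat_lit 10223982837) (nat_lit 2) (nat_lit 5) (nat_lit 4) (nat_lit 4) (nat_lit 2)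 (nat_lit 4) (nat_lit 324) (nat_lit 198) (nat_lit 198)) (XT.nd (nat_lit 78) (nat_lit 0) (nat_lit 0) (XT.lf (nat_lit 0) (nat_lit 24142242446) (nat_lit 152) (nat_lit 46366341945) (nat_lit 0) (nat_lit 23870025030) (nat_lit 2) (nat_lit 5) (nat_lit 4) (nat_lit 4) (nat_lit 2) (nat_lit 4) (nat_lit 325) (nat_lit 198) (nat_lit 197)) (XT.lf (nat_lit 0) (nat_lit 27928094825) (nat_lit 152) (nat_lit 43683771759) (nat_lit 0) (nat_lit 27396622727) (nat_lit 2) (nat_lit 5) (nat_lit 4) (nat_lit 4) (nat_lit 2) (nat_lit 4) (nat_lit 326) (nat_lit 198) (nat_lit 196))))) (XT.nd (nat_lit 156) (nat_lit 0) (nat_lit 0) (XT.nd (nat_lit 78) (nat_lit 0) (nat_lit 0) (XT.lf (nat_lit 0) (nat_lit 31814536745) (nat_lit 152) (nat_lit 41021928529) (nat_lit 0) (nat_lit 31036155426) (nat_lit 2) (nat_lit 5) (nat_lit 4) (nat_lit 4) (nat_lit 2) (nat_lit 4) (nat_lit 327) (nat_lit 198) (nat_lit 195)) (XT.lf (nat_lit 0) (nat_lit 35810821639)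 (nat_lit 152) (nat_lit 38374474532) (nat_lit 0) (nat_lit 34797288681) (nat_lit 2) (nat_lit 5) (nat_lit 4) (nat_lit 4) (nat_lit 2) (nat_lit 4) (nat_lit 328) (nat_lit 198) (nat_lit 194))) (XT.nd (nat_lit 78) (nat_lit 0) (nat_lit 0) (XT.lf (nat_lit 0) (nat_lit 39926464471) (nat_lit 152) (nat_lit 35735106308) (nat_lit 0) (nat_lit 38688977571) (nat_lit 2) (nat_lit 5) (nat_lit 4) (nat_lit 4) (nat_lit 2) (nat_lit 4) (nat_lit 329) (nat_lit 198) (nat_lit 193)) (XT.nd (nat_lit 78) (nat_lit 0) (nat_lit 0) (XT.lf (nat_lit 0) (nat_lit 44171264392) (nat_lit 152) (nat_lit 33097539645) (nat_lit 0) (nat_lit 42720488023) (nat_lit 2) (nat_lit 5) (nat_lit 4) (nat_lit 4) (nat_lit 2) (nat_lit 4) (nat_lit 330) (nat_lit 198) (nat_lit 192)) (XT.lf (nat_lit 0) (nat_lit 48555328066) (nat_lit 152) (nat_lit 30455494624) (nat_lit 0) (nat_lit 46901418870) (nat_lit 2) (nat_lit 5) (nat_lit 4) (nat_lit 4) (nat_lit 2) (nat_lit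 4) (nat_lit 331) (nat_lit 198) (nat_lit 191))))))) (XT.nd (nat_lit 858) (nat_lit 0) (nat_lit 0) (XT.nd (nat_lit 390) (nat_lit 0) (nat_lit 0) (XT.nd (nat_lit 156) (nat_lit 0) (nat_lit 0) (XT.nd (nat_lit 78) (nat_lit 0) (nat_lit 0) (XT.lf (nat_lit 0) (nat_lit 6817535469) (nat_lit 152) (nat_lit 27257588489) (nat_lit 0) (nat_lit 6817535469) (nat_lit 2) (nat_lit 5) (nat_lit 4) (nat_lit 4) (nat_lit 2) (nat_lit 4) (nat_lit 322) (nat_lit 199) (nat_lit 199)) (XT.lf (nat_lit 0) (nat_lit 17122296899) (nat_lit 152) (nat_lit 51819276030) (nat_lit 0) (nat_lit 16836468612) (nat_lit 2) (nat_lit 5) (nat_lit 4) (nat_lit 4) (nat_lit 2) (nat_lit 4) (nat_lit 323) (nat_lit 199) (nat_lit 198))) (XT.nd (nat_lit 78) (nat_lit 0) (nat_lit 0) (XT.lf (nat_lit 0) (nat_lit 20686089013) (nat_lit 152) (nat_lit 49159308184) (nat_lit 0) (nat_lit 20128043310) (nat_lit 2) (nat_lit 5) (nat_lit 4) (nat_lit 4) (nat_lit 2) (nat_lit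 4) (nat_lit 324) (nat_lit 199) (nat_lit 197)) (XT.nd (nat_lit 78) (nat_lit 0) (nat_lit 0) (XT.lf (nat_lit 0) (nat_lit 24334932501) (nat_lit 152) (nat_lit 46528940184) (nat_lit 0) (nat_lit 23517632116) (nat_lit 2) (nat_lit 5) (nat_lit 4) (nat_lit 4) (nat_lit 2) (nat_lit 4) (nat_lit 325) (nat_lit 199) (nat_lit 196)) (XT.lf (nat_lit 0) (nat_lit 28077515086) (nat_lit 152) (nat_lit 43921909249) (nat_lit 0) (nat_lit 27013305480) (nat_lit 2) (nat_lit 5) (nat_lit 4) (nat_lit 4) (nat_lit 2) (nat_lit 4) (nat_lit 326) (nat_lit 199) (nat_lit 195))))) (XT.nd (nat_lit 156) (nat_lit 0) (nat_lit 0) (XT.nd (nat_lit 78) (nat_lit 0) (nat_lit 0) (XT.lf (nat_lit 0) (nat_lit 31922747678) (nat_lit 152) (nat_lit 41332008163) (nat_lit 0) (nat_lit 30623386433) (nat_lit 2) (nat_lit 5) (nat_lit 4) (nat_lit 4) (nat_lit 2) (nat_lit 4) (nat_lit 327) (nat_lit 199) (nat_lit 194)) (XT.lf (nat_lit 0) (nat_lit 35879785594)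 (nat_lit 152) (nat_lit 38753070494) (nat_lit 0) (nat_lit 34356470407) (nat_lit 2) (nat_lit 5) (nat_lit 4) (nat_lit 4) (nat_lit 2) (nat_lit 4) (nat_lit 328) (nat_lit 199) (nat_lit 193))) (XT.nd (nat_lit 78) (nat_lit 0) (nat_lit 0) (XT.lf (nat_lit 0) (nat_lit 39958050351) (nat_lit 152) (nat_lit 36178955915) (nat_lit 0) (nat_lit 38221445695) (nat_lit 2) (nat_lit 5) (nat_lit 4) (nat_lit 4) (nat_lit 2) (nat_lit 4) (nat_lit 329) (nat_lit 199) (nat_lit 192)) (XT.nd (nat_lit 78) (nat_lit 0) (nat_lit 0) (XT.lf (nat_lit 0) (nat_lit 44167252105) (nat_lit 152) (nat_lit 33603535581) (nat_lit 0) (nat_lit 42227514622) (nat_lit 2) (nat_lit 5) (nat_lit 4) (nat_lit 4) (nat_lit 2) (nat_lit 4) (nat_lit 330) (nat_lit 199) (nat_lit 191)) (XT.lf (nat_lit 0) (nat_lit 48517412763) (nat_lit 152) (nat_lit 31020677540) (nat_lit 0) (nat_lit 46384215445) (nat_lit 2) (nat_lit 5) (nat_lit 4) (nat_lit 4) (nat_lit 2) (nat_lit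 4) (nat_lit 331) (nat_lit 199) (nat_lit 190)))))) (XT.nd (nat_lit 36816) (nat_lit 0) (nat_lit 0) (XT.nd (nat_lit 36582) (nat_lit 0) (nat_lit 0) (XT.nd (nat_lit 36504) (nat_lit 0) (nat_lit 0) (XT.lf (nat_lit 0) (nat_lit 57682401174) (nat_lit 152) (nat_lit 25808017335) (nat_lit 0) (nat_lit 55189482620) (nat_lit 2) (nat_lit 5) (nat_lit 4) (nat_lit 4) (nat_lit 2) (nat_lit 4) (nat_lit 333) (nat_lit 199) (nat_lit 188)) (XT.lf (nat_lit 0) (nat_lit 3604991373) (nat_lit 152) (nat_lit 29974367919) (nat_lit 0) (nat_lit 3604991373) (nat_lit 2) (nat_lit 5) (nat_lit 4) (nat_lit 4) (nat_lit 2) (nat_lit 4) (nat_lit 320) (nat_lit 200) (nat_lit 200))) (XT.nd (nat_lit 78) (nat_lit 0) (nat_lit 0) (XT.lf (nat_lit 0) (nat_lit 10516227916) (nat_lit 152) (nat_lit 57253429842) (nat_lit 0) (nat_lit 10216108215) (nat_lit 2) (nat_lit 5) (nat_lit 4) (nat_lit 4) (nat_lit 2) (nat_lit 4) (nat_lit 321) (nat_lit 200) (nat_lit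 199)) (XT.nd (nat_lit 78) (nat_lit 0) (nat_lit 0) (XT.lf (nat_lit 0) (nat_lit 13885100445) (nat_lit 152) (nat_lit 54602623105) (nat_lit 0) (nat_lit 13299152457) (nat_lit 2) (nat_lit 5) (nat_lit 4) (nat_lit 4) (nat_lit 2) (nat_lit 4) (nat_lit 322) (nat_lit 200) (nat_lit 198)) (XT.lf (nat_lit 0) (nat_lit 17324621457) (nat_lit 152) (nat_lit 51990004180) (nat_lit 0) (nat_lit 16466456052) (nat_lit 2) (nat_lit 5) (nat_lit 4) (nat_lit 4) (nat_lit 2) (nat_lit 4) (nat_lit 323) (nat_lit 200) (nat_lit 197))))) (XT.nd (nat_lit 234) (nat_lit 0) (nat_lit 0) (XT.nd (nat_lit 78) (nat_lit 0) (nat_lit 0) (XT.lf (nat_lit 0) (nat_lit 20842980287) (nat_lit 152) (nat_lit 49409352548) (nat_lit 0) (nat_lit 19725560201) (nat_lit 2) (nat_lit 5) (nat_lit 4) (nat_lit 4) (nat_lit 2) (nat_lit 4) (nat_lit 324) (nat_lit 200) (nat_lit 196)) (XT.nd (nat_lit 78) (nat_lit 0) (nat_lit 0) (XT.lf (nat_lit 0) (nat_lit 24448553981)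 (nat_lit 152) (nat_lit 46854523799) (nat_lit 0) (nat_lit 23084224674) (nat_lit 2) (nat_lit 5) (nat_lit 4) (nat_lit 4) (nat_lit 2) (nat_lit 4) (nat_lit 325) (nat_lit 200) (nat_lit 195)) (XT.lf (nat_lit 0) (nat_lit 28149927238) (nat_lit 152) (nat_lit 44319435008) (nat_lit 0) (nat_lit 26550446292) (nat_lit 2) (nat_lit 5) (nat_lit 4) (nat_lit 4) (nat_lit 2) (nat_lit 4) (nat_lit 326) (nat_lit 200) (nat_lit 194)))) (XT.nd (nat_lit 78) (nat_lit 0) (nat_lit 0) (XT.lf (nat_lit 0) (nat_lit 31955912852) (nat_lit 152) (nat_lit 41798050250) (nat_lit 0) (nat_lit 30132477964) (nat_lit 2) (nat_lit 5) (nat_lit 4) (nat_lit 4) (nat_lit 2) (nat_lit 4) (nat_lit 327) (nat_lit 200) (nat_lit 193)) (XT.nd (nat_lit 78) (nat_lit 0) (nat_lit 0) (XT.lf (nat_lit 0) (nat_lit 35875572692) (nat_lit 152) (nat_lit 39284366226) (nat_lit 0) (nat_lit 33838848335) (nat_lit 2) (nat_lit 5) (nat_lit 4) (nat_lit 4) (nat_lit 2) (nat_lit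 4) (nat_lit 328) (nat_lit 200) (nat_lit 192)) (XT.lf (nat_lit 0) (nat_lit 39918239283) (nat_lit 152) (nat_lit 36772397976) (nat_lit 0) (nat_lit 37678382099) (nat_lit 2) (nat_lit 5) (nat_lit 4) (nat_lit 4) (nat_lit 2) (nat_lit 4) (nat_lit 329) (nat_lit 200) (nat_lit 191))))))))
noncomputable def xc1 : XT := (XT.nd (nat_lit 74100) (nat_lit 0) (nat_lit 0) (XT.nd (nat_lit 37128) (nat_lit 0) (nat_lit 0) (XT.nd (nat_lit 36738) (nat_lit 0) (nat_lit 0) (XT.nd (nat_lit 234) (nat_lit 0) (nat_lit 0) (XT.nd (nat_lit 78) (nat_lit 0) (nat_lit 0) (XT.lf (nat_lit 0) (nat_lit 44093538020) (nat_lit 152) (nat_lit 34256164623) (nat_lit 0) (nat_lit 41660221001) (nat_lit 2) (nat_lit 5) (nat_lit 4) (nat_lit 4) (nat_lit 2) (nat_lit 4) (nat_lit 330) (nat_lit 200) (nat_lit 190)) (XT.lf (nat_lit 0) (nat_lit 48411410092) (nat_lit 152) (nat_lit 31729675134) (nat_lit 0) (nat_lit 45793845611) (nat_lit 2) (nat_lit 5) (nat_lit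 4) (nat_lit 4) (nat_lit 2) (nat_lit 4) (nat_lit 331) (nat_lit 200) (nat_lit 189))) (XT.nd (nat_lit 36348) (nat_lit 0) (nat_lit 0) (XT.lf (nat_lit 0) (nat_lit 57516360769) (nat_lit 152) (nat_lit 26621827203) (nat_lit 0) (nat_lit 54556204634) (nat_lit 2) (nat_lit 5) (nat_lit 4) (nat_lit 4) (nat_lit 2) (nat_lit 4) (nat_lit 333) (nat_lit 200) (nat_lit 187)) (XT.nd (nat_lit 78) (nat_lit 0) (nat_lit 0) (XT.lf (nat_lit 0) (nat_lit 562183463) (nat_lit 152) (nat_lit 32701113531) (nat_lit 0) (nat_lit 562183463) (nat_lit 2) (nat_lit 5) (nat_lit 4) (nat_lit 4) (nat_lit 2) (nat_lit 4) (nat_lit 318) (nat_lit 201) (nat_lit 201)) (XT.lf (nat_lit 0) (nat_lit 4273618607) (nat_lit 152) (nat_lit 62694958487) (nat_lit 0) (nat_lit 3958492921) (nat_lit 2) (nat_lit 5) (nat_lit 4) (nat_lit 4) (nat_lit 2) (nat_lit 4) (nat_lit 319) (nat_lit 201) (nat_lit 200))))) (XT.nd (nat_lit 156) (nat_lit 0) (nat_lit 0) (XT.nd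 (nat_lit 78) (nat_lit 0) (nat_lit 0) (XT.lf (nat_lit 0) (nat_lit 7472513727) (nat_lit 152) (nat_lit 60040554270) (nat_lit 0) (nat_lit 6857268339) (nat_lit 2) (nat_lit 5) (nat_lit 4) (nat_lit 4) (nat_lit 2) (nat_lit 4) (nat_lit 320) (nat_lit 201) (nat_lit 199)) (XT.lf (nat_lit 0) (nat_lit 10728668702) (nat_lit 152) (nat_lit 57432694400) (nat_lit 0) (nat_lit 9827595027) (nat_lit 2) (nat_lit 5) (nat_lit 4) (nat_lit 4) (nat_lit 2) (nat_lit 4) (nat_lit 321) (nat_lit 201) (nat_lit 198))) (XT.nd (nat_lit 78) (nat_lit 0) (nat_lit 0) (XT.lf (nat_lit 0) (nat_lit 14049836283) (nat_lit 152) (nat_lit 54865169687) (nat_lit 0) (nat_lit 12876545192) (nat_lit 2) (nat_lit 5) (nat_lit 4) (nat_lit 4) (nat_lit 2) (nat_lit 4) (nat_lit 322) (nat_lit 201) (nat_lit 197)) (XT.nd (nat_lit 78) (nat_lit 0) (nat_lit 0) (XT.lf (nat_lit 0) (nat_lit 17443924011) (nat_lit 152) (nat_lit 52331866976) (nat_lit 0) (nat_lit 16011378238)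 (nat_lit 2) (nat_lit 5) (nat_lit 4) (nat_lit 4) (nat_lit 2) (nat_lit 4) (nat_lit 323) (nat_lit 201) (nat_lit 196)) (XT.lf (nat_lit 0) (nat_lit 20919013047) (nat_lit 152) (nat_lit 49826754595) (nat_lit 0) (nat_lit 19239558053) (nat_lit 2) (nat_lit 5) (nat_lit 4) (nat_lit 4) (nat_lit 2) (nat_lit 4) (nat_lit 324) (nat_lit 201) (nat_lit 195)))))) (XT.nd (nat_lit 390) (nat_lit 0) (nat_lit 0) (XT.nd (nat_lit 156) (nat_lit 0) (nat_lit 0) (XT.nd (nat_lit 78) (nat_lit 0) (nat_lit 0) (XT.lf (nat_lit 0) (nat_lit 24483377414) (nat_lit 152) (nat_lit 47343867991) (nat_lit 0) (nat_lit 22568770781) (nat_lit 2) (nat_lit 5) (nat_lit 4) (nat_lit 4) (nat_lit 2) (nat_lit 4) (nat_lit 325) (nat_lit 201) (nat_lit 194)) (XT.lf (nat_lit 0) (nat_lit 28145503692) (nat_lit 152) (nat_lit 44877295528) (nat_lit 0) (nat_lit 26006943117) (nat_lit 2) (nat_lit 5) (nat_lit 4) (nat_lit 4) (nat_lit 2) (nat_lit 4) (nat_lit 326)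 (nat_lit 201) (nat_lit 193))) (XT.nd (nat_lit 78) (nat_lit 0) (nat_lit 0) (XT.lf (nat_lit 0) (nat_lit 31914111230) (nat_lit 152) (nat_lit 42421164415) (nat_lit 0) (nat_lit 29562261187) (nat_lit 2) (nat_lit 5) (nat_lit 4) (nat_lit 4) (nat_lit 2) (nat_lit 4) (nat_lit 327) (nat_lit 201) (nat_lit 192)) (XT.nd (nat_lit 78) (nat_lit 0) (nat_lit 0) (XT.lf (nat_lit 0) (nat_lit 35798172904) (nat_lit 152) (nat_lit 39969626720) (nat_lit 0) (nat_lit 33243190034) (nat_lit 2) (nat_lit 5) (nat_lit 4) (nat_lit 4) (nat_lit 2) (nat_lit 4) (nat_lit 328) (nat_lit 201) (nat_lit 191)) (XT.lf (nat_lit 0) (nat_lit 39806936479) (nat_lit 152) (nat_lit 37516845450) (nat_lit 0) (nat_lit 37058493773) (nat_lit 2) (nat_lit 5) (nat_lit 4) (nat_lit 4) (nat_lit 2) (nat_lit 4) (nat_lit 329) (nat_lit 201) (nat_lit 190))))) (XT.nd (nat_lit 234) (nat_lit 0) (nat_lit 0) (XT.nd (nat_lit 78) (nat_lit 0) (nat_lit 0) (XT.lf (nat_lit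 0) (nat_lit 43949946630) (nat_lit 152) (nat_lit 35056980649) (nat_lit 0) (nat_lit 41017256462) (nat_lit 2) (nat_lit 5) (nat_lit 4) (nat_lit 4) (nat_lit 2) (nat_lit 4) (nat_lit 330) (nat_lit 201) (nat_lit 189)) (XT.lf (nat_lit 0) (nat_lit 48237067667) (nat_lit 152) (nat_lit 32584175495) (nat_lit 0) (nat_lit 45128903725) (nat_lit 2) (nat_lit 5) (nat_lit 4) (nat_lit 4) (nat_lit 2) (nat_lit 4) (nat_lit 331) (nat_lit 201) (nat_lit 188))) (XT.nd (nat_lit 36192) (nat_lit 0) (nat_lit 152) (XT.lf (nat_lit 0) (nat_lit 57284839549) (nat_lit 152) (nat_lit 27576148778) (nat_lit 0) (nat_lit 53850397842) (nat_lit 2) (nat_lit 5) (nat_lit 4) (nat_lit 4) (nat_lit 2) (nat_lit 4) (nat_lit 333) (nat_lit 201) (nat_lit 186)) (XT.nd (nat_lit 78) (nat_lit 0) (nat_lit 0) (XT.lf (nat_lit 0) (nat_lit 26160606556) (nat_lit 76) (nat_lit 2310241826) (nat_lit 76) (nat_lit 2310241826) (nat_lit 4) (nat_lit 4) (nat_lit 5)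 (nat_lit 5) (nat_lit 5) (nat_lit 4) (nat_lit 316) (nat_lit 202) (nat_lit 202)) (XT.lf (nat_lit 0) (nat_lit 60933138114) (nat_lit 76) (nat_lit 1969886112) (nat_lit 76) (nat_lit 1629077682) (nat_lit 4) (nat_lit 4) (nat_lit 5) (nat_lit 5) (nat_lit 5) (nat_lit 4) (nat_lit 317) (nat_lit 202) (nat_lit 201))))))) (XT.nd (nat_lit 780) (nat_lit 0) (nat_lit 0) (XT.nd (nat_lit 390) (nat_lit 0) (nat_lit 0) (XT.nd (nat_lit 156) (nat_lit 0) (nat_lit 0) (XT.nd (nat_lit 78) (nat_lit 0) (nat_lit 0) (XT.lf (nat_lit 0) (nat_lit 1400024456) (nat_lit 152) (nat_lit 65498636415) (nat_lit 0) (nat_lit 754016799) (nat_lit 2) (nat_lit 5) (nat_lit 4) (nat_lit 4) (nat_lit 2) (nat_lit 4) (nat_lit 318) (nat_lit 202) (nat_lit 200)) (XT.lf (nat_lit 0) (nat_lit 4496681432) (nat_lit 152) (nat_lit 62883186273) (nat_lit 0) (nat_lit 3550554074) (nat_lit 2) (nat_lit 5) (nat_lit 4) (nat_lit 4) (nat_lit 2) (nat_lit 4) (nat_lit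 319) (nat_lit 202) (nat_lit 199))) (XT.nd (nat_lit 78) (nat_lit 0) (nat_lit 0) (XT.lf (nat_lit 0) (nat_lit 7645486356) (nat_lit 152) (nat_lit 60316228182) (nat_lit 0) (nat_lit 6413530711) (nat_lit 2) (nat_lit 5) (nat_lit 4) (nat_lit 4) (nat_lit 2) (nat_lit 4) (nat_lit 320) (nat_lit 202) (nat_lit 198)) (XT.nd (nat_lit 78) (nat_lit 0) (nat_lit 0) (XT.lf (nat_lit 0) (nat_lit 10853936384) (nat_lit 152) (nat_lit 57791650336) (nat_lit 0) (nat_lit 9349763322) (nat_lit 2) (nat_lit 5) (nat_lit 4) (nat_lit 4) (nat_lit 2) (nat_lit 4) (nat_lit 321) (nat_lit 202) (nat_lit 197)) (XT.lf (nat_lit 0) (nat_lit 14129670681) (nat_lit 152) (nat_lit 55303441837) (nat_lit 0) (nat_lit 12366242937) (nat_lit 2) (nat_lit 5) (nat_lit 4) (nat_lit 4) (nat_lit 2) (nat_lit 4) (nat_lit 322) (nat_lit 202) (nat_lit 196))))) (XT.nd (nat_lit 156) (nat_lit 0) (nat_lit 0) (XT.nd (nat_lit 78) (nat_lit 0) (nat_lit 0) (XT.lf (nat_lit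 0) (nat_lit 17480488614) (nat_lit 152) (nat_lit 52845678378) (nat_lit 0) (nat_lit 15470151650) (nat_lit 2) (nat_lit 5) (nat_lit 4) (nat_lit 4) (nat_lit 2) (nat_lit 4) (nat_lit 323) (nat_lit 202) (nat_lit 195)) (XT.lf (nat_lit 0) (nat_lit 20914368323) (nat_lit 152) (nat_lit 50412508141) (nat_lit 0) (nat_lit 18668879720) (nat_lit 2) (nat_lit 5) (nat_lit 4) (nat_lit 4) (nat_lit 2) (nat_lit 4) (nat_lit 324) (nat_lit 202) (nat_lit 194))) (XT.nd (nat_lit 78) (nat_lit 0) (nat_lit 0) (XT.lf (nat_lit 0) (nat_lit 24439485711) (nat_lit 152) (nat_lit 47998137864) (nat_lit 0) (nat_lit 21970043166) (nat_lit 2) (nat_lit 5) (nat_lit 4) (nat_lit 4) (nat_lit 2) (nat_lit 4) (nat_lit 325) (nat_lit 202) (nat_lit 193)) (XT.nd (nat_lit 78) (nat_lit 0) (nat_lit 0) (XT.lf (nat_lit 0) (nat_lit 28064233914) (nat_lit 152) (nat_lit 45596819046) (nat_lit 0) (nat_lit 25381501900) (nat_lit 2) (nat_lit 5) (nat_lit 4) (nat_lit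 4) (nat_lit 2) (nat_lit 4) (nat_lit 326) (nat_lit 202) (nat_lit 192)) (XT.lf (nat_lit 0) (nat_lit 31797243286) (nat_lit 152) (nat_lit 43202834262) (nat_lit 0) (nat_lit 28911378445) (nat_lit 2) (nat_lit 5) (nat_lit 4) (nat_lit 4) (nat_lit 2) (nat_lit 4) (nat_lit 327) (nat_lit 202) (nat_lit 191)))))) (XT.nd (nat_lit 36426) (nat_lit 0) (nat_lit 0) (XT.nd (nat_lit 156) (nat_lit 0) (nat_lit 0) (XT.nd (nat_lit 78) (nat_lit 0) (nat_lit 0) (XT.lf (nat_lit 0) (nat_lit 35647401944) (nat_lit 152) (nat_lit 40810483548) (nat_lit 0) (nat_lit 32568077267) (nat_lit 2) (nat_lit 5) (nat_lit 4) (nat_lit 4) (nat_lit 2) (nat_lit 4) (nat_lit 328) (nat_lit 202) (nat_lit 190)) (XT.lf (nat_lit 0) (nat_lit 39623876932) (nat_lit 152) (nat_lit 38414070830) (nat_lit 0) (nat_lit 36360304793) (nat_lit 2) (nat_lit 5) (nat_lit 4) (nat_lit 4) (nat_lit 2) (nat_lit 4) (nat_lit 329) (nat_lit 202) (nat_lit 189))) (XT.nd (nat_lit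 78) (nat_lit 0) (nat_lit 0) (XT.lf (nat_lit 0) (nat_lit 43736136048) (nat_lit 152) (nat_lit 36007890364) (nat_lit 0) (nat_lit 40297090136) (nat_lit 2) (nat_lit 5) (nat_lit 4) (nat_lit 4) (nat_lit 2) (nat_lit 4) (nat_lit 330) (nat_lit 202) (nat_lit 188)) (XT.nd (nat_lit 156) (nat_lit 0) (nat_lit 0) (XT.lf (nat_lit 0) (nat_lit 47993970386) (nat_lit 152) (nat_lit 33586213149) (nat_lit 0) (nat_lit 44387806594) (nat_lit 2) (nat_lit 5) (nat_lit 4) (nat_lit 4) (nat_lit 2) (nat_lit 4) (nat_lit 331) (nat_lit 202) (nat_lit 187)) (XT.lf (nat_lit 0) (nat_lit 56987286272) (nat_lit 152) (nat_lit 28673254255) (nat_lit 0) (nat_lit 53070381752) (nat_lit 2) (nat_lit 5) (nat_lit 4) (nat_lit 4) (nat_lit 2) (nat_lit 4) (nat_lit 333) (nat_lit 202) (nat_lit 185))))) (XT.nd (nat_lit 234) (nat_lit 152) (nat_lit 0) (XT.nd (nat_lit 78) (nat_lit 0) (nat_lit 0) (XT.lf (nat_lit 0) (nat_lit 17921386834) (nat_lit 76) (nat_lit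 5051375033) (nat_lit 76) (nat_lit 5051375033) (nat_lit 4) (nat_lit 4) (nat_lit 5) (nat_lit 5) (nat_lit 5) (nat_lit 4) (nat_lit 314) (nat_lit 203) (nat_lit 203)) (XT.nd (nat_lit 78) (nat_lit 0) (nat_lit 0) (XT.lf (nat_lit 0) (nat_lit 43930569916) (nat_lit 76) (nat_lit 7582184760) (nat_lit 76) (nat_lit 7224335908) (nat_lit 4) (nat_lit 4) (nat_lit 5) (nat_lit 5) (nat_lit 5) (nat_lit 4) (nat_lit 315) (nat_lit 203) (nat_lit 202)) (XT.lf (nat_lit 0) (nat_lit 52224505622) (nat_lit 76) (nat_lit 5019038517) (nat_lit 76) (nat_lit 4320381236) (nat_lit 4) (nat_lit 4) (nat_lit 5) (nat_lit 5) (nat_lit 5) (nat_lit 4) (nat_lit 316) (nat_lit 203) (nat_lit 201)))) (XT.nd (nat_lit 78) (nat_lit 152) (nat_lit 0) (XT.lf (nat_lit 0) (nat_lit 60744328253) (nat_lit 76) (nat_lit 2407208610) (nat_lit 76) (nat_lit 1383971872) (nat_lit 4) (nat_lit 4) (nat_lit 5) (nat_lit 5) (nat_lit 5) (nat_lit 4) (nat_lit 317) (nat_lit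 203) (nat_lit 200)) (XT.nd (nat_lit 78) (nat_lit 0) (nat_lit 0) (XT.lf (nat_lit 0) (nat_lit 1581645717) (nat_lit 152) (nat_lit 65788094022) (nat_lit 0) (nat_lit 288092289) (nat_lit 2) (nat_lit 5) (nat_lit 4) (nat_lit 4) (nat_lit 2) (nat_lit 4) (nat_lit 318) (nat_lit 203) (nat_lit 199)) (XT.lf (nat_lit 0) (nat_lit 4628212498) (nat_lit 152) (nat_lit 63260090006) (nat_lit 0) (nat_lit 3048830783) (nat_lit 2) (nat_lit 5) (nat_lit 4) (nat_lit 4) (nat_lit 2) (nat_lit 4) (nat_lit 319) (nat_lit 203) (nat_lit 198))))))))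
noncomputable def xc2 : XT := (XT.nd (nat_lit 37440) (nat_lit 0) (nat_lit 0) (XT.nd (nat_lit 780) (nat_lit 0) (nat_lit 0) (XT.nd (nat_lit 390) (nat_lit 0) (nat_lit 0) (XT.nd (nat_lit 156) (nat_lit 0) (nat_lit 0) (XT.nd (nat_lit 78) (nat_lit 0) (nat_lit 0) (XT.lf (nat_lit 0) (nat_lit 7729312474) (nat_lit 152) (nat_lit 60776413939) (nat_lit 0) (nat_lit 5877713344) (nat_lit 2) (nat_lit 5) (nat_lit 4) (nat_lit 4) (nat_lit 2) (nat_lit 4) (nat_lit 320) (nat_lit 203) (nat_lit 197)) (XT.lf (nat_lit 0) (nat_lit 10892329218) (nat_lit 152) (nat_lit 58331152308) (nat_lit 0) (nat_lit 8781475405) (nat_lit 2) (nat_lit 5) (nat_lit 4) (nat_lit 4) (nat_lit 2) (nat_lit 4) (nat_lit 321) (nat_lit 203) (nat_lit 196))) (XT.nd (nat_lit 78) (nat_lit 0) (nat_lit 0) (XT.lf (nat_lit 0) (nat_lit 14124793721) (nat_lit 152) (nat_lit 55918483059) (nat_lit 0) (nat_lit 11767030687) (nat_lit 2) (nat_lit 5) (nat_lit 4) (nat_lit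 4) (nat_lit 2) (nat_lit 4) (nat_lit 322) (nat_lit 203) (nat_lit 195)) (XT.nd (nat_lit 78) (nat_lit 0) (nat_lit 0) (XT.lf (nat_lit 0) (nat_lit 17434402327) (nat_lit 152) (nat_lit 53532661744) (nat_lit 0) (nat_lit 14841487654) (nat_lit 2) (nat_lit 5) (nat_lit 4) (nat_lit 4) (nat_lit 2) (nat_lit 4) (nat_lit 323) (nat_lit 203) (nat_lit 194)) (XT.lf (nat_lit 0) (nat_lit 20829035057) (nat_lit 152) (nat_lit 51168007835) (nat_lit 0) (nat_lit 18012166442) (nat_lit 2) (nat_lit 5) (nat_lit 4) (nat_lit 4) (nat_lit 2) (nat_lit 4) (nat_lit 324) (nat_lit 203) (nat_lit 193))))) (XT.nd (nat_lit 156) (nat_lit 0) (nat_lit 0) (XT.nd (nat_lit 78) (nat_lit 0) (nat_lit 0) (XT.lf (nat_lit 0) (nat_lit 24316774369) (nat_lit 152) (nat_lit 48818891203) (nat_lit 0) (nat_lit 21286616286) (nat_lit 2) (nat_lit 5) (nat_lit 4) (nat_lit 4) (nat_lit 2) (nat_lit 4) (nat_lit 325) (nat_lit 203) (nat_lit 192)) (XT.lf (nat_lit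 0) (nat_lit 27905924406) (nat_lit 152) (nat_lit 46479718715) (nat_lit 0) (nat_lit 24672633496) (nat_lit 2) (nat_lit 5) (nat_lit 4) (nat_lit 4) (nat_lit 2) (nat_lit 4) (nat_lit 326) (nat_lit 203) (nat_lit 191))) (XT.nd (nat_lit 78) (nat_lit 0) (nat_lit 0) (XT.lf (nat_lit 0) (nat_lit 31605030762) (nat_lit 152) (nat_lit 44144920911) (nat_lit 0) (nat_lit 28178280016) (nat_lit 2) (nat_lit 5) (nat_lit 4) (nat_lit 4) (nat_lit 2) (nat_lit 4) (nat_lit 327) (nat_lit 203) (nat_lit 190)) (XT.nd (nat_lit 78) (nat_lit 0) (nat_lit 0) (XT.lf (nat_lit 0) (nat_lit 35422900833) (nat_lit 152) (nat_lit 41808938749) (nat_lit 0) (nat_lit 31811902625) (nat_lit 2) (nat_lit 5) (nat_lit 4) (nat_lit 4) (nat_lit 2) (nat_lit 4) (nat_lit 328) (nat_lit 203) (nat_lit 189)) (XT.lf (nat_lit 0) (nat_lit 39368624786) (nat_lit 152) (nat_lit 39466210366) (nat_lit 0) (nat_lit 35582152805) (nat_lit 2) (nat_lit 5) (nat_lit 4) (nat_lit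 4) (nat_lit 2) (nat_lit 4) (nat_lit 329) (nat_lit 203) (nat_lit 188)))))) (XT.nd (nat_lit 36270) (nat_lit 0) (nat_lit 0) (XT.nd (nat_lit 234) (nat_lit 0) (nat_lit 0) (XT.nd (nat_lit 78) (nat_lit 0) (nat_lit 0) (XT.lf (nat_lit 0) (nat_lit 43451597203) (nat_lit 152) (nat_lit 37111157839) (nat_lit 0) (nat_lit 39498007342) (nat_lit 2) (nat_lit 5) (nat_lit 4) (nat_lit 4) (nat_lit 2) (nat_lit 4) (nat_lit 330) (nat_lit 203) (nat_lit 187)) (XT.lf (nat_lit 0) (nat_lit 47681539445) (nat_lit 152) (nat_lit 34738173900) (nat_lit 0) (nat_lit 43568789699) (nat_lit 2) (nat_lit 5) (nat_lit 4) (nat_lit 4) (nat_lit 2) (nat_lit 4) (nat_lit 331) (nat_lit 203) (nat_lit 186))) (XT.nd (nat_lit 35880) (nat_lit 0) (nat_lit 152) (XT.lf (nat_lit 0) (nat_lit 56622992479) (nat_lit 152) (nat_lit 29915755788) (nat_lit 0) (nat_lit 52214299182) (nat_lit 2) (nat_lit 5) (nat_lit 4) (nat_lit 4) (nat_lit 2) (nat_lit 4) (nat_lit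 333) (nat_lit 203) (nat_lit 184)) (XT.nd (nat_lit 78) (nat_lit 0) (nat_lit 0) (XT.lf (nat_lit 0) (nat_lit 10157818943) (nat_lit 76) (nat_lit 7685459535) (nat_lit 76) (nat_lit 7685459535) (nat_lit 4) (nat_lit 4) (nat_lit 5) (nat_lit 5) (nat_lit 5) (nat_lit 4) (nat_lit 312) (nat_lit 204) (nat_lit 204)) (XT.lf (nat_lit 0) (nat_lit 27941860223) (nat_lit 76) (nat_lit 12962477075) (nat_lit 76) (nat_lit 12586735781) (nat_lit 4) (nat_lit 4) (nat_lit 5) (nat_lit 5) (nat_lit 5) (nat_lit 4) (nat_lit 313) (nat_lit 204) (nat_lit 203))))) (XT.nd (nat_lit 156) (nat_lit 152) (nat_lit 0) (XT.nd (nat_lit 78) (nat_lit 0) (nat_lit 0) (XT.lf (nat_lit 0) (nat_lit 35741230805) (nat_lit 76) (nat_lit 10521232674) (nat_lit 76) (nat_lit 9787642529) (nat_lit 4) (nat_lit 4) (nat_lit 5) (nat_lit 5) (nat_lit 5) (nat_lit 4) (nat_lit 314) (nat_lit 204) (nat_lit 202)) (XT.lf (nat_lit 0) (nat_lit 43732319563) (nat_lit 76)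 (nat_lit 8041373382) (nat_lit 76) (nat_lit 6966974808) (nat_lit 4) (nat_lit 4) (nat_lit 5) (nat_lit 5) (nat_lit 5) (nat_lit 4) (nat_lit 315) (nat_lit 204) (nat_lit 201))) (XT.nd (nat_lit 78) (nat_lit 152) (nat_lit 0) (XT.lf (nat_lit 0) (nat_lit 51934152898) (nat_lit 76) (nat_lit 5516994773) (nat_lit 76) (nat_lit 4118016741) (nat_lit 4) (nat_lit 4) (nat_lit 5) (nat_lit 5) (nat_lit 5) (nat_lit 4) (nat_lit 316) (nat_lit 204) (nat_lit 200)) (XT.nd (nat_lit 78) (nat_lit 152) (nat_lit 0) (XT.lf (nat_lit 0) (nat_lit 60366258985) (nat_lit 76) (nat_lit 2942086419) (nat_lit 76) (nat_lit 1233985095) (nat_lit 4) (nat_lit 4) (nat_lit 5) (nat_lit 5) (nat_lit 5) (nat_lit 4) (nat_lit 317) (nat_lit 204) (nat_lit 199)) (XT.lf (nat_lit 0) (nat_lit 1392375122) (nat_lit 76) (nat_lit 279979351) (nat_lit 152) (nat_lit 65994001049) (nat_lit 2) (nat_lit 5) (nat_lit 3) (nat_lit 5) (nat_lit 4) (nat_lit 4) (nat_lit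 318) (nat_lit 204) (nat_lit 198))))))) (XT.nd (nat_lit 780) (nat_lit 0) (nat_lit 0) (XT.nd (nat_lit 390) (nat_lit 0) (nat_lit 0) (XT.nd (nat_lit 156) (nat_lit 0) (nat_lit 0) (XT.nd (nat_lit 78) (nat_lit 0) (nat_lit 0) (XT.lf (nat_lit 0) (nat_lit 4668524973) (nat_lit 152) (nat_lit 63826567076) (nat_lit 0) (nat_lit 2452128470) (nat_lit 2) (nat_lit 5) (nat_lit 4) (nat_lit 4) (nat_lit 2) (nat_lit 4) (nat_lit 319) (nat_lit 204) (nat_lit 197)) (XT.lf (nat_lit 0) (nat_lit 7724191666) (nat_lit 152) (nat_lit 61422207223) (nat_lit 0) (nat_lit 5248540481) (nat_lit 2) (nat_lit 5) (nat_lit 4) (nat_lit 4) (nat_lit 2) (nat_lit 4) (nat_lit 320) (nat_lit 204) (nat_lit 196))) (XT.nd (nat_lit 78) (nat_lit 0) (nat_lit 0) (XT.lf (nat_lit 0) (nat_lit 10843938616) (nat_lit 152) (nat_lit 59052484842) (nat_lit 0) (nat_lit 8121378209) (nat_lit 2) (nat_lit 5) (nat_lit 4) (nat_lit 4) (nat_lit 2) (nat_lit 4) (nat_lit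 321) (nat_lit 204) (nat_lit 195)) (XT.nd (nat_lit 78) (nat_lit 0) (nat_lit 0) (XT.lf (nat_lit 0) (nat_lit 14035193791) (nat_lit 152) (nat_lit 56711757738) (nat_lit 0) (nat_lit 11077481745) (nat_lit 2) (nat_lit 5) (nat_lit 4) (nat_lit 4) (nat_lit 2) (nat_lit 4) (nat_lit 322) (nat_lit 204) (nat_lit 194)) (XT.lf (nat_lit 0) (nat_lit 17305555418) (nat_lit 152) (nat_lit 54394452751) (nat_lit 0) (nat_lit 14123889431) (nat_lit 2) (nat_lit 5) (nat_lit 4) (nat_lit 4) (nat_lit 2) (nat_lit 4) (nat_lit 323) (nat_lit 204) (nat_lit 193))))) (XT.nd (nat_lit 156) (nat_lit 0) (nat_lit 0) (XT.nd (nat_lit 78) (nat_lit 0) (nat_lit 0) (XT.lf (nat_lit 0) (nat_lit 20662810073) (nat_lit 152) (nat_lit 52095052487) (nat_lit 0) (nat_lit 17267854617) (nat_lit 2) (nat_lit 5) (nat_lit 4) (nat_lit 4) (nat_lit 2) (nat_lit 4) (nat_lit 324) (nat_lit 204) (nat_lit 192)) (XT.lf (nat_lit 0) (nat_lit 24114951219) (nat_lit 152)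 (nat_lit 49808082185) (nat_lit 0) (nat_lit 20516862936) (nat_lit 2) (nat_lit 5) (nat_lit 4) (nat_lit 4) (nat_lit 2) (nat_lit 4) (nat_lit 325) (nat_lit 204) (nat_lit 191))) (XT.nd (nat_lit 78) (nat_lit 0) (nat_lit 0) (XT.lf (nat_lit 0) (nat_lit 27670198240) (nat_lit 152) (nat_lit 47528096676) (nat_lit 0) (nat_lit 23878650121) (nat_lit 2) (nat_lit 5) (nat_lit 4) (nat_lit 4) (nat_lit 2) (nat_lit 4) (nat_lit 326) (nat_lit 204) (nat_lit 190)) (XT.nd (nat_lit 78) (nat_lit 0) (nat_lit 0) (XT.lf (nat_lit 0) (nat_lit 31337016009) (nat_lit 152) (nat_lit 45249667424) (nat_lit 0) (nat_lit 27361220428) (nat_lit 2) (nat_lit 5) (nat_lit 4) (nat_lit 4) (nat_lit 2) (nat_lit 4) (nat_lit 327) (nat_lit 204) (nat_lit 189)) (XT.lf (nat_lit 0) (nat_lit 35124135045) (nat_lit 152) (nat_lit 42967369598) (nat_lit 0) (nat_lit 30972865691) (nat_lit 2) (nat_lit 5) (nat_lit 4) (nat_lit 4) (nat_lit 2) (nat_lit 4) (nat_lit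 328) (nat_lit 204) (nat_lit 188)))))) (XT.nd (nat_lit 36114) (nat_lit 0) (nat_lit 152) (XT.nd (nat_lit 156) (nat_lit 0) (nat_lit 0) (XT.nd (nat_lit 78) (nat_lit 0) (nat_lit 0) (XT.lf (nat_lit 0) (nat_lit 39040572299) (nat_lit 152) (nat_lit 40675769154) (nat_lit 0) (nat_lit 34722185065) (nat_lit 2) (nat_lit 5) (nat_lit 4) (nat_lit 4) (nat_lit 2) (nat_lit 4) (nat_lit 329) (nat_lit 204) (nat_lit 187)) (XT.lf (nat_lit 0) (nat_lit 43095652620) (nat_lit 152) (nat_lit 38369409902) (nat_lit 0) (nat_lit 38618105501) (nat_lit 2) (nat_lit 5) (nat_lit 4) (nat_lit 4) (nat_lit 2) (nat_lit 4) (nat_lit 330) (nat_lit 204) (nat_lit 186))) (XT.nd (nat_lit 156) (nat_lit 0) (nat_lit 0) (XT.lf (nat_lit 0) (nat_lit 47299030962) (nat_lit 152) (nat_lit 36042800510) (nat_lit 0) (nat_lit 42669903000) (nat_lit 2) (nat_lit 5) (nat_lit 4) (nat_lit 4) (nat_lit 2) (nat_lit 4) (nat_lit 331) (nat_lit 204) (nat_lit 185))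 (XT.nd (nat_lit 35724) (nat_lit 0) (nat_lit 152) (XT.lf (nat_lit 0) (nat_lit 56191090804) (nat_lit 152) (nat_lit 31306611716) (nat_lit 0) (nat_lit 51280111840) (nat_lit 2) (nat_lit 5) (nat_lit 4) (nat_lit 4) (nat_lit 2) (nat_lit 4) (nat_lit 333) (nat_lit 204) (nat_lit 183)) (XT.lf (nat_lit 0) (nat_lit 2811163648) (nat_lit 76) (nat_lit 10229837501) (nat_lit 76) (nat_lit 10229837501) (nat_lit 4) (nat_lit 4) (nat_lit 5) (nat_lit 5) (nat_lit 5) (nat_lit 4) (nat_lit 310) (nat_lit 205) (nat_lit 205))))) (XT.nd (nat_lit 234) (nat_lit 0) (nat_lit 0) (XT.nd (nat_lit 78) (nat_lit 0) (nat_lit 0) (XT.lf (nat_lit 0) (nat_lit 12844406125) (nat_lit 76) (nat_lit 18146821407) (nat_lit 76) (nat_lit 17752293048) (nat_lit 4) (nat_lit 4) (nat_lit 5) (nat_lit 5) (nat_lit 5) (nat_lit 4) (nat_lit 311) (nat_lit 205) (nat_lit 204)) (XT.nd (nat_lit 78) (nat_lit 0) (nat_lit 0) (XT.lf (nat_lit 0) (nat_lit 20209017880)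 (nat_lit 76) (nat_lit 15810325810) (nat_lit 76) (nat_lit 15040056157) (nat_lit 4) (nat_lit 4) (nat_lit 5) (nat_lit 5) (nat_lit 5) (nat_lit 4) (nat_lit 312) (nat_lit 205) (nat_lit 203)) (XT.lf (nat_lit 0) (nat_lit 27733697352) (nat_lit 76) (nat_lit 13444625129) (nat_lit 76) (nat_lit 12316506625) (nat_lit 4) (nat_lit 4) (nat_lit 5) (nat_lit 5) (nat_lit 5) (nat_lit 4) (nat_lit 313) (nat_lit 205) (nat_lit 202)))) (XT.nd (nat_lit 78) (nat_lit 0) (nat_lit 0) (XT.lf (nat_lit 0) (nat_lit 35436360445) (nat_lit 76) (nat_lit 11044086742) (nat_lit 76) (nat_lit 9575159809) (nat_lit 4) (nat_lit 4) (nat_lit 5) (nat_lit 5) (nat_lit 5) (nat_lit 4) (nat_lit 314) (nat_lit 205) (nat_lit 201)) (XT.nd (nat_lit 78) (nat_lit 0) (nat_lit 0) (XT.lf (nat_lit 0) (nat_lit 43335346831) (nat_lit 76) (nat_lit 8602995083) (nat_lit 76) (nat_lit 6809488692) (nat_lit 4) (nat_lit 4) (nat_lit 5) (nat_lit 5) (nat_lit 5) (nat_lit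 4) (nat_lit 315) (nat_lit 205) (nat_lit 200)) (XT.lf (nat_lit 0) (nat_lit 51449463623) (nat_lit 76) (nat_lit 6115538028) (nat_lit 76) (nat_lit 4012908345) (nat_lit 4) (nat_lit 4) (nat_lit 5) (nat_lit 5) (nat_lit 5) (nat_lit 4) (nat_lit 316) (nat_lit 205) (nat_lit 199))))))))
noncomputable def xc3 : XT := (XT.nd (nat_lit 37206) (nat_lit 0) (nat_lit 0) (XT.nd (nat_lit 780) (nat_lit 0) (nat_lit 0) (XT.nd (nat_lit 390) (nat_lit 0) (nat_lit 0) (XT.nd (nat_lit 156) (nat_lit 0) (nat_lit 0) (XT.nd (nat_lit 78) (nat_lit 152) (nat_lit 0) (XT.lf (nat_lit 0) (nat_lit 59798030145) (nat_lit 76) (nat_lit 3575793060) (nat_lit 76) (nat_lit 1178760242) (nat_lit 4) (nat_lit 4) (nat_lit 5) (nat_lit 5) (nat_lit 5) (nat_lit 4) (nat_lit 317) (nat_lit 205) (nat_lit 198)) (XT.lf (nat_lit 0) (nat_lit 719695685) (nat_lit 76) (nat_lit 953758719) (nat_lit 152) (nat_lit 66004781408) (nat_lit 2) (nat_lit 5) (nat_lit 3)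 (nat_lit 5) (nat_lit 4) (nat_lit 4) (nat_lit 318) (nat_lit 205) (nat_lit 197))) (XT.nd (nat_lit 78) (nat_lit 0) (nat_lit 0) (XT.lf (nat_lit 0) (nat_lit 4617714841) (nat_lit 152) (nat_lit 64583966238) (nat_lit 0) (nat_lit 1759026415) (nat_lit 2) (nat_lit 5) (nat_lit 4) (nat_lit 4) (nat_lit 2) (nat_lit 4) (nat_lit 319) (nat_lit 205) (nat_lit 196)) (XT.nd (nat_lit 78) (nat_lit 0) (nat_lit 0) (XT.lf (nat_lit 0) (nat_lit 7630111740) (nat_lit 152) (nat_lit 62255145636) (nat_lit 0) (nat_lit 4524514092) (nat_lit 2) (nat_lit 5) (nat_lit 4) (nat_lit 4) (nat_lit 2) (nat_lit 4) (nat_lit 320) (nat_lit 205) (nat_lit 195)) (XT.lf (nat_lit 0) (nat_lit 10708649362) (nat_lit 152) (nat_lit 59957365400) (nat_lit 0) (nat_lit 7367900075) (nat_lit 2) (nat_lit 5) (nat_lit 4) (nat_lit 4) (nat_lit 2) (nat_lit 4) (nat_lit 321) (nat_lit 205) (nat_lit 194))))) (XT.nd (nat_lit 156) (nat_lit 0) (nat_lit 0) (XT.nd (nat_lit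 78) (nat_lit 0) (nat_lit 0) (XT.lf (nat_lit 0) (nat_lit 13860657558) (nat_lit 152) (nat_lit 57685154623) (nat_lit 0) (nat_lit 10295954329) (nat_lit 2) (nat_lit 5) (nat_lit 4) (nat_lit 4) (nat_lit 2) (nat_lit 4) (nat_lit 322) (nat_lit 205) (nat_lit 193)) (XT.lf (nat_lit 0) (nat_lit 17093641110) (nat_lit 152) (nat_lit 55433103281) (nat_lit 0) (nat_lit 13315648413) (nat_lit 2) (nat_lit 5) (nat_lit 4) (nat_lit 4) (nat_lit 2) (nat_lit 4) (nat_lit 323) (nat_lit 205) (nat_lit 192))) (XT.nd (nat_lit 78) (nat_lit 0) (nat_lit 0) (XT.lf (nat_lit 0) (nat_lit 20415297598) (nat_lit 152) (nat_lit 53195849346) (nat_lit 0) (nat_lit 16434172074) (nat_lit 2) (nat_lit 5) (nat_lit 4) (nat_lit 4) (nat_lit 2) (nat_lit 4) (nat_lit 324) (nat_lit 205) (nat_lit 191)) (XT.nd (nat_lit 78) (nat_lit 0) (nat_lit 0) (XT.lf (nat_lit 0) (nat_lit 23833535729) (nat_lit 152) (nat_lit 50968066024) (nat_lit 0) (nat_lit 19658950369)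 (nat_lit 2) (nat_lit 5) (nat_lit 4) (nat_lit 4) (nat_lit 2) (nat_lit 4) (nat_lit 325) (nat_lit 205) (nat_lit 190)) (XT.lf (nat_lit 0) (nat_lit 27356494163) (nat_lit 152) (nat_lit 48744449067) (nat_lit 0) (nat_lit 22997661341) (nat_lit 2) (nat_lit 5) (nat_lit 4) (nat_lit 4) (nat_lit 2) (nat_lit 4) (nat_lit 326) (nat_lit 205) (nat_lit 189)))))) (XT.nd (nat_lit 468) (nat_lit 0) (nat_lit 0) (XT.nd (nat_lit 156) (nat_lit 0) (nat_lit 0) (XT.nd (nat_lit 78) (nat_lit 0) (nat_lit 0) (XT.lf (nat_lit 0) (nat_lit 30992560897) (nat_lit 152) (nat_lit 46519704151) (nat_lit 0) (nat_lit 26458254302) (nat_lit 2) (nat_lit 5) (nat_lit 4) (nat_lit 4) (nat_lit 2) (nat_lit 4) (nat_lit 327) (nat_lit 205) (nat_lit 188)) (XT.lf (nat_lit 0) (nat_lit 34750393234) (nat_lit 152) (nat_lit 44288534263) (nat_lit 0) (nat_lit 30048968759) (nat_lit 2) (nat_lit 5) (nat_lit 4) (nat_lit 4) (nat_lit 2) (nat_lit 4) (nat_lit 328)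 (nat_lit 205) (nat_lit 187))) (XT.nd (nat_lit 78) (nat_lit 0) (nat_lit 0) (XT.lf (nat_lit 0) (nat_lit 38638938392) (nat_lit 152) (nat_lit 42045627095) (nat_lit 0) (nat_lit 33778354032) (nat_lit 2) (nat_lit 5) (nat_lit 4) (nat_lit 4) (nat_lit 2) (nat_lit 4) (nat_lit 329) (nat_lit 205) (nat_lit 186)) (XT.nd (nat_lit 78) (nat_lit 0) (nat_lit 0) (XT.lf (nat_lit 0) (nat_lit 42667454813) (nat_lit 152) (nat_lit 39785642390) (nat_lit 0) (nat_lit 37655289610) (nat_lit 2) (nat_lit 5) (nat_lit 4) (nat_lit 4) (nat_lit 2) (nat_lit 4) (nat_lit 330) (nat_lit 205) (nat_lit 185)) (XT.lf (nat_lit 0) (nat_lit 46845534203) (nat_lit 152) (nat_lit 37503199234) (nat_lit 0) (nat_lit 41689006292) (nat_lit 2) (nat_lit 5) (nat_lit 4) (nat_lit 4) (nat_lit 2) (nat_lit 4) (nat_lit 331) (nat_lit 205) (nat_lit 184))))) (XT.nd (nat_lit 35724) (nat_lit 0) (nat_lit 152) (XT.nd (nat_lit 35568) (nat_lit 0) (nat_lit 228) (XT.lf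 (nat_lit 0) (nat_lit 55690552908) (nat_lit 152) (nat_lit 32849133599) (nat_lit 0) (nat_lit 50265595472) (nat_lit 2) (nat_lit 5) (nat_lit 4) (nat_lit 4) (nat_lit 2) (nat_lit 4) (nat_lit 333) (nat_lit 205) (nat_lit 182)) (XT.nd (nat_lit 78) (nat_lit 0) (nat_lit 0) (XT.lf (nat_lit 0) (nat_lit 8568134549) (nat_lit 152) (nat_lit 4091161025) (nat_lit 0) (nat_lit 8568134549) (nat_lit 5) (nat_lit 5) (nat_lit 7) (nat_lit 4) (nat_lit 5) (nat_lit 4) (nat_lit 308) (nat_lit 206) (nat_lit 206)) (XT.lf (nat_lit 0) (nat_lit 21708407110) (nat_lit 152) (nat_lit 1445642902) (nat_lit 0) (nat_lit 21294152333) (nat_lit 5) (nat_lit 5) (nat_lit 7) (nat_lit 4) (nat_lit 5) (nat_lit 4) (nat_lit 309) (nat_lit 206) (nat_lit 205)))) (XT.nd (nat_lit 78) (nat_lit 0) (nat_lit 0) (XT.lf (nat_lit 0) (nat_lit 5510376288) (nat_lit 76) (nat_lit 20921052079) (nat_lit 76) (nat_lit 20112268944) (nat_lit 4) (nat_lit 4) (nat_lit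 5) (nat_lit 5) (nat_lit 5) (nat_lit 4) (nat_lit 310) (nat_lit 206) (nat_lit 204)) (XT.nd (nat_lit 78) (nat_lit 0) (nat_lit 0) (XT.lf (nat_lit 0) (nat_lit 12625835110) (nat_lit 76) (nat_lit 18653076863) (nat_lit 76) (nat_lit 17468552434) (nat_lit 4) (nat_lit 4) (nat_lit 5) (nat_lit 5) (nat_lit 5) (nat_lit 4) (nat_lit 311) (nat_lit 206) (nat_lit 203)) (XT.lf (nat_lit 0) (nat_lit 19888904002) (nat_lit 76) (nat_lit 16359322581) (nat_lit 76) (nat_lit 14816949301) (nat_lit 4) (nat_lit 4) (nat_lit 5) (nat_lit 5) (nat_lit 5) (nat_lit 4) (nat_lit 312) (nat_lit 206) (nat_lit 202))))))) (XT.nd (nat_lit 780) (nat_lit 0) (nat_lit 0) (XT.nd (nat_lit 390) (nat_lit 152) (nat_lit 0) (XT.nd (nat_lit 156) (nat_lit 0) (nat_lit 0) (XT.nd (nat_lit 78) (nat_lit 0) (nat_lit 0) (XT.lf (nat_lit 0) (nat_lit 27316875984) (nat_lit 76) (nat_lit 14034327914) (nat_lit 76) (nat_lit 12151146204) (nat_lit 4) (nat_lit 4) (nat_lit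 5) (nat_lit 5) (nat_lit 5) (nat_lit 4) (nat_lit 313) (nat_lit 206) (nat_lit 201)) (XT.lf (nat_lit 0) (nat_lit 34927436706) (nat_lit 76) (nat_lit 11672557160) (nat_lit 76) (nat_lit 9464795993) (nat_lit 4) (nat_lit 4) (nat_lit 5) (nat_lit 5) (nat_lit 5) (nat_lit 4) (nat_lit 314) (nat_lit 206) (nat_lit 200))) (XT.nd (nat_lit 78) (nat_lit 0) (nat_lit 0) (XT.lf (nat_lit 0) (nat_lit 42738706549) (nat_lit 76) (nat_lit 9268387055) (nat_lit 76) (nat_lit 6751502596) (nat_lit 4) (nat_lit 4) (nat_lit 5) (nat_lit 5) (nat_lit 5) (nat_lit 4) (nat_lit 315) (nat_lit 206) (nat_lit 199)) (XT.nd (nat_lit 78) (nat_lit 0) (nat_lit 0) (XT.lf (nat_lit 0) (nat_lit 50769283775) (nat_lit 76) (nat_lit 6816093385) (nat_lit 76) (nat_lit 4004805791) (nat_lit 4) (nat_lit 4) (nat_lit 5) (nat_lit 5) (nat_lit 5) (nat_lit 4) (nat_lit 316) (nat_lit 206) (nat_lit 198)) (XT.lf (nat_lit 0) (nat_lit 59038288806) (nat_lit 76) (nat_lit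 4309837356) (nat_lit 76) (nat_lit 1218165823) (nat_lit 4) (nat_lit 4) (nat_lit 5) (nat_lit 5) (nat_lit 5) (nat_lit 4) (nat_lit 317) (nat_lit 206) (nat_lit 197))))) (XT.nd (nat_lit 156) (nat_lit 0) (nat_lit 0) (XT.nd (nat_lit 78) (nat_lit 76) (nat_lit 0) (XT.lf (nat_lit 0) (nat_lit 1583536679) (nat_lit 152) (nat_lit 144124396) (nat_lit 76) (nat_lit 65965882454) (nat_lit 3) (nat_lit 5) (nat_lit 5) (nat_lit 5) (nat_lit 4) (nat_lit 4) (nat_lit 318) (nat_lit 206) (nat_lit 196)) (XT.lf (nat_lit 0) (nat_lit 4475661124) (nat_lit 152) (nat_lit 65534090822) (nat_lit 0) (nat_lit 967874373) (nat_lit 2) (nat_lit 5) (nat_lit 4) (nat_lit 4) (nat_lit 2) (nat_lit 4) (nat_lit 319) (nat_lit 206) (nat_lit 195))) (XT.nd (nat_lit 78) (nat_lit 0) (nat_lit 0) (XT.lf (nat_lit 0) (nat_lit 7446848695) (nat_lit 152) (nat_lit 63277212365) (nat_lit 0) (nat_lit 3703910305) (nat_lit 2) (nat_lit 5) (nat_lit 4) (nat_lit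 4) (nat_lit 2) (nat_lit 4) (nat_lit 320) (nat_lit 206) (nat_lit 194)) (XT.nd (nat_lit 78) (nat_lit 0) (nat_lit 0) (XT.lf (nat_lit 0) (nat_lit 10486139338) (nat_lit 152) (nat_lit 61047948456) (nat_lit 0) (nat_lit 6519247006) (nat_lit 2) (nat_lit 5) (nat_lit 4) (nat_lit 4) (nat_lit 2) (nat_lit 4) (nat_lit 321) (nat_lit 206) (nat_lit 193)) (XT.lf (nat_lit 0) (nat_lit 13600769460) (nat_lit 152) (nat_lit 58840991325) (nat_lit 0) (nat_lit 9420587659) (nat_lit 2) (nat_lit 5) (nat_lit 4) (nat_lit 4) (nat_lit 2) (nat_lit 4) (nat_lit 322) (nat_lit 206) (nat_lit 192)))))) (XT.nd (nat_lit 390) (nat_lit 0) (nat_lit 0) (XT.nd (nat_lit 156) (nat_lit 0) (nat_lit 0) (XT.nd (nat_lit 78) (nat_lit 0) (nat_lit 0) (XT.lf (nat_lit 0) (nat_lit 16798154845) (nat_lit 152) (nat_lit 56651086312) (nat_lit 0) (nat_lit 12414840218) (nat_lit 2) (nat_lit 5) (nat_lit 4) (nat_lit 4) (nat_lit 2) (nat_lit 4) (nat_lit 323) (nat_lit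 206) (nat_lit 191)) (XT.lf (nat_lit 0) (nat_lit 20085908318) (nat_lit 152) (nat_lit 54473019357) (nat_lit 0) (nat_lit 15509133855) (nat_lit 2) (nat_lit 5) (nat_lit 4) (nat_lit 4) (nat_lit 2) (nat_lit 4) (nat_lit 324) (nat_lit 206) (nat_lit 190))) (XT.nd (nat_lit 78) (nat_lit 0) (nat_lit 0) (XT.lf (nat_lit 0) (nat_lit 23471857861) (nat_lit 152) (nat_lit 52301604587) (nat_lit 0) (nat_lit 18710835936) (nat_lit 2) (nat_lit 5) (nat_lit 4) (nat_lit 4) (nat_lit 2) (nat_lit 4) (nat_lit 325) (nat_lit 206) (nat_lit 189)) (XT.nd (nat_lit 78) (nat_lit 0) (nat_lit 0) (XT.lf (nat_lit 0) (nat_lit 26964065260) (nat_lit 152) (nat_lit 50131671966) (nat_lit 0) (nat_lit 22027569562) (nat_lit 2) (nat_lit 5) (nat_lit 4) (nat_lit 4) (nat_lit 2) (nat_lit 4) (nat_lit 326) (nat_lit 206) (nat_lit 188)) (XT.lf (nat_lit 0) (nat_lit 30570845295) (nat_lit 152) (nat_lit 47958054989) (nat_lit 0) (nat_lit 25467231717) (nat_lit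 2) (nat_lit 5) (nat_lit 4) (nat_lit 4) (nat_lit 2) (nat_lit 4) (nat_lit 327) (nat_lit 206) (nat_lit 187))))) (XT.nd (nat_lit 234) (nat_lit 0) (nat_lit 0) (XT.nd (nat_lit 78) (nat_lit 0) (nat_lit 0) (XT.lf (nat_lit 0) (nat_lit 34300785537) (nat_lit 152) (nat_lit 45775578376) (nat_lit 0) (nat_lit 29038012073) (nat_lit 2) (nat_lit 5) (nat_lit 4) (nat_lit 4) (nat_lit 2) (nat_lit 4) (nat_lit 328) (nat_lit 206) (nat_lit 186)) (XT.nd (nat_lit 78) (nat_lit 0) (nat_lit 0) (XT.lf (nat_lit 0) (nat_lit 38162766795) (nat_lit 152) (nat_lit 43579045755) (nat_lit 0) (nat_lit 32748412488) (nat_lit 2) (nat_lit 5) (nat_lit 4) (nat_lit 4) (nat_lit 2) (nat_lit 4) (nat_lit 329) (nat_lit 206) (nat_lit 185)) (XT.lf (nat_lit 0) (nat_lit 42165984264) (nat_lit 152) (nat_lit 41363227286) (nat_lit 0) (nat_lit 36607267249) (nat_lit 2) (nat_lit 5) (nat_lit 4) (nat_lit 4) (nat_lit 2) (nat_lit 4) (nat_lit 330) (nat_lit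 206) (nat_lit 184)))) (XT.nd (nat_lit 156) (nat_lit 0) (nat_lit 0) (XT.lf (nat_lit 0) (nat_lit 46319969413) (nat_lit 152) (nat_lit 39122847211) (nat_lit 0) (nat_lit 40623764105) (nat_lit 2) (nat_lit 5) (nat_lit 4) (nat_lit 4) (nat_lit 2) (nat_lit 4) (nat_lit 331) (nat_lit 206) (nat_lit 183)) (XT.nd (nat_lit 35412) (nat_lit 0) (nat_lit 228) (XT.lf (nat_lit 0) (nat_lit 55120187036) (nat_lit 152) (nat_lit 34546994110) (nat_lit 0) (nat_lit 49168334562) (nat_lit 2) (nat_lit 5) (nat_lit 4) (nat_lit 4) (nat_lit 2) (nat_lit 4) (nat_lit 333) (nat_lit 206) (nat_lit 181)) (XT.lf (nat_lit 0) (nat_lit 4373826626) (nat_lit 152) (nat_lit 10631577699) (nat_lit 0) (nat_lit 4373826626) (nat_lit 5) (nat_lit 5) (nat_lit 7) (nat_lit 4) (nat_lit 5) (nat_lit 4) (nat_lit 306) (nat_lit 207) (nat_lit 207))))))))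
noncomputable def xc4 : XT := (XT.nd (nat_lit 1560) (nat_lit 0) (nat_lit 0) (XT.nd (nat_lit 780) (nat_lit 152) (nat_lit 0) (XT.nd (nat_lit 390) (nat_lit 0) (nat_lit 0) (XT.nd (nat_lit 156) (nat_lit 76) (nat_lit 0) (XT.nd (nat_lit 78) (nat_lit 0) (nat_lit 0) (XT.lf (nat_lit 0) (nat_lit 13086126699) (nat_lit 152) (nat_lit 14823228155) (nat_lit 0) (nat_lit 12651159183) (nat_lit 5) (nat_lit 5) (nat_lit 7) (nat_lit 4) (nat_lit 5) (nat_lit 4) (nat_lit 307) (nat_lit 207) (nat_lit 206)) (XT.lf (nat_lit 0) (nat_lit 17504296419) (nat_lit 152) (nat_lit 8297576812) (nat_lit 0) (nat_lit 16655074127) (nat_lit 5) (nat_lit 5) (nat_lit 7) (nat_lit 4) (nat_lit 5) (nat_lit 4) (nat_lit 308) (nat_lit 207) (nat_lit 205))) (XT.nd (nat_lit 78) (nat_lit 76) (nat_lit 0) (XT.lf (nat_lit 0) (nat_lit 22012681864) (nat_lit 152) (nat_lit 1670664105) (nat_lit 0) (nat_lit 20768931214) (nat_lit 5) (nat_lit 5) (nat_lit 7)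 (nat_lit 4) (nat_lit 5) (nat_lit 4) (nat_lit 309) (nat_lit 207) (nat_lit 204)) (XT.nd (nat_lit 78) (nat_lit 0) (nat_lit 0) (XT.lf (nat_lit 0) (nat_lit 5174256716) (nat_lit 76) (nat_lit 21497498689) (nat_lit 76) (nat_lit 19878006745) (nat_lit 4) (nat_lit 4) (nat_lit 5) (nat_lit 5) (nat_lit 5) (nat_lit 4) (nat_lit 310) (nat_lit 207) (nat_lit 203)) (XT.lf (nat_lit 0) (nat_lit 12188172674) (nat_lit 76) (nat_lit 19272264788) (nat_lit 76) (nat_lit 17294923992) (nat_lit 4) (nat_lit 4) (nat_lit 5) (nat_lit 5) (nat_lit 5) (nat_lit 4) (nat_lit 311) (nat_lit 207) (nat_lit 202))))) (XT.nd (nat_lit 156) (nat_lit 0) (nat_lit 0) (XT.nd (nat_lit 78) (nat_lit 0) (nat_lit 0) (XT.lf (nat_lit 0) (nat_lit 19354534076) (nat_lit 76) (nat_lit 17019216520) (nat_lit 76) (nat_lit 14701067295) (nat_lit 4) (nat_lit 4) (nat_lit 5) (nat_lit 5) (nat_lit 5) (nat_lit 4) (nat_lit 312) (nat_lit 207) (nat_lit 201)) (XT.lf (nat_lit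 0) (nat_lit 26690403688) (nat_lit 76) (nat_lit 14732989485) (nat_lit 76) (nat_lit 12090260803) (nat_lit 4) (nat_lit 4) (nat_lit 5) (nat_lit 5) (nat_lit 5) (nat_lit 4) (nat_lit 313) (nat_lit 207) (nat_lit 200))) (XT.nd (nat_lit 78) (nat_lit 0) (nat_lit 0) (XT.lf (nat_lit 0) (nat_lit 34213247865) (nat_lit 76) (nat_lit 12408140286) (nat_lit 76) (nat_lit 9456288311) (nat_lit 4) (nat_lit 4) (nat_lit 5) (nat_lit 5) (nat_lit 5) (nat_lit 4) (nat_lit 314) (nat_lit 207) (nat_lit 199)) (XT.nd (nat_lit 78) (nat_lit 0) (nat_lit 0) (XT.lf (nat_lit 0) (nat_lit 41940978143) (nat_lit 76) (nat_lit 10039133566) (nat_lit 76) (nat_lit 6792878456) (nat_lit 4) (nat_lit 4) (nat_lit 5) (nat_lit 5) (nat_lit 5) (nat_lit 4) (nat_lit 315) (nat_lit 207) (nat_lit 198)) (XT.lf (nat_lit 0) (nat_lit 49891993878) (nat_lit 76) (nat_lit 7620328835) (nat_lit 76) (nat_lit 4093689787) (nat_lit 4) (nat_lit 4) (nat_lit 5) (nat_lit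 5) (nat_lit 5) (nat_lit 4) (nat_lit 316) (nat_lit 207) (nat_lit 197)))))) (XT.nd (nat_lit 390) (nat_lit 0) (nat_lit 0) (XT.nd (nat_lit 156) (nat_lit 76) (nat_lit 0) (XT.nd (nat_lit 78) (nat_lit 76) (nat_lit 0) (XT.lf (nat_lit 0) (nat_lit 58085226060) (nat_lit 76) (nat_lit 5145967033) (nat_lit 76) (nat_lit 1352295662) (nat_lit 4) (nat_lit 4) (nat_lit 5) (nat_lit 5) (nat_lit 5) (nat_lit 4) (nat_lit 317) (nat_lit 207) (nat_lit 196)) (XT.lf (nat_lit 0) (nat_lit 1409773783) (nat_lit 152) (nat_lit 1186147088) (nat_lit 76) (nat_lit 65116172651) (nat_lit 3) (nat_lit 5) (nat_lit 5) (nat_lit 5) (nat_lit 4) (nat_lit 4) (nat_lit 318) (nat_lit 207) (nat_lit 195))) (XT.nd (nat_lit 78) (nat_lit 0) (nat_lit 0) (XT.lf (nat_lit 0) (nat_lit 4242025600) (nat_lit 152) (nat_lit 66679203032) (nat_lit 0) (nat_lit 76788652) (nat_lit 2) (nat_lit 5) (nat_lit 4) (nat_lit 4) (nat_lit 2) (nat_lit 4) (nat_lit 319) (nat_lit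 207) (nat_lit 194)) (XT.nd (nat_lit 78) (nat_lit 0) (nat_lit 0) (XT.lf (nat_lit 0) (nat_lit 7173966192) (nat_lit 152) (nat_lit 64490840902) (nat_lit 0) (nat_lit 2784775302) (nat_lit 2) (nat_lit 5) (nat_lit 4) (nat_lit 4) (nat_lit 2) (nat_lit 4) (nat_lit 320) (nat_lit 207) (nat_lit 193)) (XT.lf (nat_lit 0) (nat_lit 10175878760) (nat_lit 152) (nat_lit 62326830639) (nat_lit 0) (nat_lit 5573398401) (nat_lit 2) (nat_lit 5) (nat_lit 4) (nat_lit 4) (nat_lit 2) (nat_lit 4) (nat_lit 321) (nat_lit 207) (nat_lit 192))))) (XT.nd (nat_lit 156) (nat_lit 0) (nat_lit 0) (XT.nd (nat_lit 78) (nat_lit 0) (nat_lit 0) (XT.lf (nat_lit 0) (nat_lit 13254910715) (nat_lit 152) (nat_lit 60182019837) (nat_lit 0) (nat_lit 8449297529) (nat_lit 2) (nat_lit 5) (nat_lit 4) (nat_lit 4) (nat_lit 2) (nat_lit 4) (nat_lit 322) (nat_lit 207) (nat_lit 191)) (XT.lf (nat_lit 0) (nat_lit 16418393084) (nat_lit 152) (nat_lit 58051301804)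 (nat_lit 0) (nat_lit 11419320063) (nat_lit 2) (nat_lit 5) (nat_lit 4) (nat_lit 4) (nat_lit 2) (nat_lit 4) (nat_lit 323) (nat_lit 207) (nat_lit 190))) (XT.nd (nat_lit 78) (nat_lit 0) (nat_lit 0) (XT.lf (nat_lit 0) (nat_lit 19673857970) (nat_lit 152) (nat_lit 55929603401) (nat_lit 0) (nat_lit 14490537486) (nat_lit 2) (nat_lit 5) (nat_lit 4) (nat_lit 4) (nat_lit 2) (nat_lit 4) (nat_lit 324) (nat_lit 207) (nat_lit 189)) (XT.nd (nat_lit 78) (nat_lit 0) (nat_lit 0) (XT.lf (nat_lit 0) (nat_lit 23029056479) (nat_lit 152) (nat_lit 53811872967) (nat_lit 0) (nat_lit 17670262222) (nat_lit 2) (nat_lit 5) (nat_lit 4) (nat_lit 4) (nat_lit 2) (nat_lit 4) (nat_lit 325) (nat_lit 207) (nat_lit 188)) (XT.lf (nat_lit 0) (nat_lit 26491977178) (nat_lit 152) (nat_lit 51693068285) (nat_lit 0) (nat_lit 20966065042) (nat_lit 2) (nat_lit 5) (nat_lit 4) (nat_lit 4) (nat_lit 2) (nat_lit 4) (nat_lit 326) (nat_lit 207)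 (nat_lit 187))))))) (XT.nd (nat_lit 36036) (nat_lit 0) (nat_lit 76) (XT.nd (nat_lit 468) (nat_lit 0) (nat_lit 0) (XT.nd (nat_lit 156) (nat_lit 0) (nat_lit 0) (XT.nd (nat_lit 78) (nat_lit 0) (nat_lit 0) (XT.lf (nat_lit 0) (nat_lit 30070865118) (nat_lit 152) (nat_lit 49568144582) (nat_lit 0) (nat_lit 24385793096) (nat_lit 2) (nat_lit 5) (nat_lit 4) (nat_lit 4) (nat_lit 2) (nat_lit 4) (nat_lit 327) (nat_lit 207) (nat_lit 186)) (XT.lf (nat_lit 0) (nat_lit 33774241459) (nat_lit 152) (nat_lit 47432042517) (nat_lit 0) (nat_lit 27937588594) (nat_lit 2) (nat_lit 5) (nat_lit 4) (nat_lit 4) (nat_lit 2) (nat_lit 4) (nat_lit 328) (nat_lit 207) (nat_lit 185))) (XT.nd (nat_lit 78) (nat_lit 0) (nat_lit 0) (XT.lf (nat_lit 0) (nat_lit 37610923765) (nat_lit 152) (nat_lit 45279676131) (nat_lit 0) (nat_lit 31629908192) (nat_lit 2) (nat_lit 5) (nat_lit 4) (nat_lit 4) (nat_lit 2) (nat_lit 4) (nat_lit 329) (nat_lit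 207) (nat_lit 184)) (XT.nd (nat_lit 78) (nat_lit 0) (nat_lit 0) (XT.lf (nat_lit 0) (nat_lit 41590046994) (nat_lit 152) (nat_lit 43105920744) (nat_lit 0) (nat_lit 35471543127) (nat_lit 2) (nat_lit 5) (nat_lit 4) (nat_lit 4) (nat_lit 2) (nat_lit 4) (nat_lit 330) (nat_lit 207) (nat_lit 183)) (XT.lf (nat_lit 0) (nat_lit 45721085247) (nat_lit 152) (nat_lit 40905600747) (nat_lit 0) (nat_lit 39471640149) (nat_lit 2) (nat_lit 5) (nat_lit 4) (nat_lit 4) (nat_lit 2) (nat_lit 4) (nat_lit 331) (nat_lit 207) (nat_lit 182))))) (XT.nd (nat_lit 35334) (nat_lit 0) (nat_lit 228) (XT.nd (nat_lit 35256) (nat_lit 0) (nat_lit 228) (XT.lf (nat_lit 0) (nat_lit 54478635173) (nat_lit 152) (nat_lit 36404235772) (nat_lit 0) (nat_lit 47985716584) (nat_lit 2) (nat_lit 5) (nat_lit 4) (nat_lit 4) (nat_lit 2) (nat_lit 4) (nat_lit 333) (nat_lit 207) (nat_lit 180)) (XT.lf (nat_lit 0) (nat_lit 399579498) (nat_lit 152) (nat_lit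 16909967125) (nat_lit 0) (nat_lit 399579498) (nat_lit 5) (nat_lit 5) (nat_lit 7) (nat_lit 4) (nat_lit 5) (nat_lit 4) (nat_lit 304) (nat_lit 208) (nat_lit 208))) (XT.nd (nat_lit 78) (nat_lit 0) (nat_lit 0) (XT.lf (nat_lit 0) (nat_lit 4935262271) (nat_lit 152) (nat_lit 27632691701) (nat_lit 0) (nat_lit 4478546380) (nat_lit 5) (nat_lit 5) (nat_lit 7) (nat_lit 4) (nat_lit 5) (nat_lit 4) (nat_lit 305) (nat_lit 208) (nat_lit 207)) (XT.nd (nat_lit 78) (nat_lit 0) (nat_lit 0) (XT.lf (nat_lit 0) (nat_lit 9134081939) (nat_lit 152) (nat_lit 21384172898) (nat_lit 0) (nat_lit 8242398532) (nat_lit 5) (nat_lit 5) (nat_lit 7) (nat_lit 4) (nat_lit 5) (nat_lit 4) (nat_lit 306) (nat_lit 208) (nat_lit 206)) (XT.lf (nat_lit 0) (nat_lit 13405615191) (nat_lit 152) (nat_lit 15059500417) (nat_lit 0) (nat_lit 12099677008) (nat_lit 5) (nat_lit 5) (nat_lit 7) (nat_lit 4) (nat_lit 5) (nat_lit 4) (nat_lit 307) (nat_lit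 208) (nat_lit 205)))))) (XT.nd (nat_lit 390) (nat_lit 76) (nat_lit 0) (XT.nd (nat_lit 156) (nat_lit 76) (nat_lit 0) (XT.nd (nat_lit 78) (nat_lit 0) (nat_lit 0) (XT.lf (nat_lit 0) (nat_lit 17760032344) (nat_lit 152) (nat_lit 8643615515) (nat_lit 0) (nat_lit 16059565803) (nat_lit 5) (nat_lit 5) (nat_lit 7) (nat_lit 4) (nat_lit 5) (nat_lit 4) (nat_lit 308) (nat_lit 208) (nat_lit 204)) (XT.lf (nat_lit 0) (nat_lit 22207701059) (nat_lit 152) (nat_lit 2121242274) (nat_lit 0) (nat_lit 20131493224) (nat_lit 5) (nat_lit 5) (nat_lit 7) (nat_lit 4) (nat_lit 5) (nat_lit 4) (nat_lit 309) (nat_lit 208) (nat_lit 203))) (XT.nd (nat_lit 78) (nat_lit 0) (nat_lit 0) (XT.lf (nat_lit 0) (nat_lit 4613168294) (nat_lit 76) (nat_lit 22190387325) (nat_lit 76) (nat_lit 19756330638) (nat_lit 4) (nat_lit 4) (nat_lit 5) (nat_lit 5) (nat_lit 5) (nat_lit 4) (nat_lit 310) (nat_lit 208) (nat_lit 202)) (XT.nd (nat_lit 78)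 (nat_lit 0) (nat_lit 0) (XT.lf (nat_lit 0) (nat_lit 11530376762) (nat_lit 76) (nat_lit 20005859437) (nat_lit 76) (nat_lit 17230994321) (nat_lit 4) (nat_lit 4) (nat_lit 5) (nat_lit 5) (nat_lit 5) (nat_lit 4) (nat_lit 311) (nat_lit 208) (nat_lit 201)) (XT.lf (nat_lit 0) (nat_lit 18604635793) (nat_lit 76) (nat_lit 17791578802) (nat_lit 76) (nat_lit 14692134229) (nat_lit 4) (nat_lit 4) (nat_lit 5) (nat_lit 5) (nat_lit 5) (nat_lit 4) (nat_lit 312) (nat_lit 208) (nat_lit 200))))) (XT.nd (nat_lit 234) (nat_lit 76) (nat_lit 0) (XT.nd (nat_lit 78) (nat_lit 0) (nat_lit 0) (XT.lf (nat_lit 0) (nat_lit 25852788861) (nat_lit 76) (nat_lit 15542273322) (nat_lit 76) (nat_lit 12133705456) (nat_lit 4) (nat_lit 4) (nat_lit 5) (nat_lit 5) (nat_lit 5) (nat_lit 4) (nat_lit 313) (nat_lit 208) (nat_lit 199)) (XT.nd (nat_lit 78) (nat_lit 0) (nat_lit 0) (XT.lf (nat_lit 0) (nat_lit 33292093474) (nat_lit 76) (nat_lit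 13252587508) (nat_lit 76) (nat_lit 9549616507) (nat_lit 4) (nat_lit 4) (nat_lit 5) (nat_lit 5) (nat_lit 5) (nat_lit 4) (nat_lit 314) (nat_lit 208) (nat_lit 198)) (XT.lf (nat_lit 0) (nat_lit 40940262260) (nat_lit 76) (nat_lit 10917069727) (nat_lit 76) (nat_lit 6933714787) (nat_lit 4) (nat_lit 4) (nat_lit 5) (nat_lit 5) (nat_lit 5) (nat_lit 4) (nat_lit 315) (nat_lit 208) (nat_lit 197)))) (XT.nd (nat_lit 78) (nat_lit 76) (nat_lit 0) (XT.lf (nat_lit 0) (nat_lit 48815505147) (nat_lit 76) (nat_lit 8530159223) (nat_lit 76) (nat_lit 4279771961) (nat_lit 4) (nat_lit 4) (nat_lit 5) (nat_lit 5) (nat_lit 5) (nat_lit 4) (nat_lit 316) (nat_lit 208) (nat_lit 196)) (XT.nd (nat_lit 78) (nat_lit 76) (nat_lit 0) (XT.lf (nat_lit 0) (nat_lit 56936572712) (nat_lit 76) (nat_lit 6086172875) (nat_lit 76) (nat_lit 1581469116) (nat_lit 4) (nat_lit 4) (nat_lit 5) (nat_lit 5) (nat_lit 5) (nat_lit 4) (nat_lit 317) (nat_lit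 208) (nat_lit 195)) (XT.lf (nat_lit 0) (nat_lit 1144833840) (nat_lit 152) (nat_lit 2422897251) (nat_lit 76) (nat_lit 64166406412) (nat_lit 3) (nat_lit 5) (nat_lit 5) (nat_lit 5) (nat_lit 4) (nat_lit 4) (nat_lit 318) (nat_lit 208) (nat_lit 194))))))))
noncomputable def xc5 : XT := (XT.nd (nat_lit 36660) (nat_lit 0) (nat_lit 0) (XT.nd (nat_lit 780) (nat_lit 0) (nat_lit 0) (XT.nd (nat_lit 390) (nat_lit 0) (nat_lit 0) (XT.nd (nat_lit 156) (nat_lit 0) (nat_lit 0) (XT.nd (nat_lit 78) (nat_lit 0) (nat_lit 0) (XT.lf (nat_lit 0) (nat_lit 2990646247) (nat_lit 76) (nat_lit 934589592) (nat_lit 152) (nat_lit 67096423578) (nat_lit 2) (nat_lit 5) (nat_lit 3) (nat_lit 5) (nat_lit 4) (nat_lit 4) (nat_lit 319) (nat_lit 208) (nat_lit 193)) (XT.lf (nat_lit 0) (nat_lit 6810814510) (nat_lit 152) (nat_lit 65898920839) (nat_lit 0) (nat_lit 1764920665) (nat_lit 2) (nat_lit 5) (nat_lit 4) (nat_lit 4) (nat_lit 2)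 (nat_lit 4) (nat_lit 320) (nat_lit 208) (nat_lit 192))) (XT.nd (nat_lit 78) (nat_lit 0) (nat_lit 0) (XT.lf (nat_lit 0) (nat_lit 9777128911) (nat_lit 152) (nat_lit 63797056905) (nat_lit 0) (nat_lit 4528102239) (nat_lit 2) (nat_lit 5) (nat_lit 4) (nat_lit 4) (nat_lit 2) (nat_lit 4) (nat_lit 321) (nat_lit 208) (nat_lit 191)) (XT.nd (nat_lit 78) (nat_lit 0) (nat_lit 0) (XT.lf (nat_lit 0) (nat_lit 12822257850) (nat_lit 152) (nat_lit 61711433083) (nat_lit 0) (nat_lit 7379771342) (nat_lit 2) (nat_lit 5) (nat_lit 4) (nat_lit 4) (nat_lit 2) (nat_lit 4) (nat_lit 322) (nat_lit 208) (nat_lit 190)) (XT.lf (nat_lit 0) (nat_lit 15953451633) (nat_lit 152) (nat_lit 59637083602) (nat_lit 0) (nat_lit 10326717663) (nat_lit 2) (nat_lit 5) (nat_lit 4) (nat_lit 4) (nat_lit 2) (nat_lit 4) (nat_lit 323) (nat_lit 208) (nat_lit 189))))) (XT.nd (nat_lit 156) (nat_lit 0) (nat_lit 0) (XT.nd (nat_lit 78) (nat_lit 0) (nat_lit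 0) (XT.lf (nat_lit 0) (nat_lit 19178165484) (nat_lit 152) (nat_lit 57569069536) (nat_lit 0) (nat_lit 13375957740) (nat_lit 2) (nat_lit 5) (nat_lit 4) (nat_lit 4) (nat_lit 2) (nat_lit 4) (nat_lit 324) (nat_lit 208) (nat_lit 188)) (XT.lf (nat_lit 0) (nat_lit 22504077293) (nat_lit 152) (nat_lit 55502467040) (nat_lit 0) (nat_lit 16534751670) (nat_lit 2) (nat_lit 5) (nat_lit 4) (nat_lit 4) (nat_lit 2) (nat_lit 4) (nat_lit 325) (nat_lit 208) (nat_lit 187))) (XT.nd (nat_lit 78) (nat_lit 0) (nat_lit 0) (XT.lf (nat_lit 0) (nat_lit 25939105897) (nat_lit 152) (nat_lit 53432355632) (nat_lit 0) (nat_lit 19810620389) (nat_lit 2) (nat_lit 5) (nat_lit 4) (nat_lit 4) (nat_lit 2) (nat_lit 4) (nat_lit 326) (nat_lit 208) (nat_lit 186)) (XT.nd (nat_lit 78) (nat_lit 0) (nat_lit 0) (XT.lf (nat_lit 0) (nat_lit 29491429937) (nat_lit 152) (nat_lit 51353806477) (nat_lit 0) (nat_lit 23211363585) (nat_lit 2) (nat_lit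 5) (nat_lit 4) (nat_lit 4) (nat_lit 2) (nat_lit 4) (nat_lit 327) (nat_lit 208) (nat_lit 185)) (XT.lf (nat_lit 0) (nat_lit 33169507326) (nat_lit 152) (nat_lit 49261870648) (nat_lit 0) (nat_lit 26745078266) (nat_lit 2) (nat_lit 5) (nat_lit 4) (nat_lit 4) (nat_lit 2) (nat_lit 4) (nat_lit 328) (nat_lit 208) (nat_lit 184)))))) (XT.nd (nat_lit 35490) (nat_lit 0) (nat_lit 228) (XT.nd (nat_lit 156) (nat_lit 0) (nat_lit 0) (XT.nd (nat_lit 78) (nat_lit 0) (nat_lit 0) (XT.lf (nat_lit 0) (nat_lit 36982095391) (nat_lit 152) (nat_lit 47151567344) (nat_lit 0) (nat_lit 30420178039) (nat_lit 2) (nat_lit 5) (nat_lit 4) (nat_lit 4) (nat_lit 2) (nat_lit 4) (nat_lit 329) (nat_lit 208) (nat_lit 183)) (XT.lf (nat_lit 0) (nat_lit 40938271724) (nat_lit 152) (nat_lit 45017872035) (nat_lit 0) (nat_lit 34245413140) (nat_lit 2) (nat_lit 5) (nat_lit 4) (nat_lit 4) (nat_lit 2) (nat_lit 4) (nat_lit 330) (nat_lit 208) (nat_lit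 182))) (XT.nd (nat_lit 156) (nat_lit 0) (nat_lit 0) (XT.lf (nat_lit 0) (nat_lit 45047455792) (nat_lit 152) (nat_lit 42855704492) (nat_lit 0) (nat_lit 38229891272) (nat_lit 2) (nat_lit 5) (nat_lit 4) (nat_lit 4) (nat_lit 2) (nat_lit 4) (nat_lit 331) (nat_lit 208) (nat_lit 181)) (XT.nd (nat_lit 35100) (nat_lit 0) (nat_lit 380) (XT.lf (nat_lit 0) (nat_lit 53764369815) (nat_lit 152) (nat_lit 38425280590) (nat_lit 0) (nat_lit 46714925780) (nat_lit 2) (nat_lit 5) (nat_lit 4) (nat_lit 4) (nat_lit 2) (nat_lit 4) (nat_lit 333) (nat_lit 208) (nat_lit 179)) (XT.lf (nat_lit 0) (nat_lit 9496172444) (nat_lit 76) (nat_lit 3350388149) (nat_lit 76) (nat_lit 3350388149) (nat_lit 7) (nat_lit 4) (nat_lit 8) (nat_lit 5) (nat_lit 8) (nat_lit 4) (nat_lit 302) (nat_lit 209) (nat_lit 209))))) (XT.nd (nat_lit 156) (nat_lit 0) (nat_lit 0) (XT.nd (nat_lit 78) (nat_lit 152) (nat_lit 0) (XT.lf (nat_lit 0) (nat_lit 27839595251)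 (nat_lit 76) (nat_lit 3261422943) (nat_lit 76) (nat_lit 2767484707) (nat_lit 7) (nat_lit 4) (nat_lit 8) (nat_lit 5) (nat_lit 8) (nat_lit 4) (nat_lit 303) (nat_lit 209) (nat_lit 208)) (XT.lf (nat_lit 0) (nat_lit 1204909118) (nat_lit 152) (nat_lit 33947002627) (nat_lit 0) (nat_lit 268641542) (nat_lit 5) (nat_lit 5) (nat_lit 7) (nat_lit 4) (nat_lit 5) (nat_lit 4) (nat_lit 304) (nat_lit 209) (nat_lit 207))) (XT.nd (nat_lit 78) (nat_lit 0) (nat_lit 0) (XT.lf (nat_lit 0) (nat_lit 5270725187) (nat_lit 152) (nat_lit 27880777576) (nat_lit 0) (nat_lit 3899490095) (nat_lit 5) (nat_lit 5) (nat_lit 7) (nat_lit 4) (nat_lit 5) (nat_lit 4) (nat_lit 305) (nat_lit 209) (nat_lit 206)) (XT.nd (nat_lit 78) (nat_lit 0) (nat_lit 0) (XT.lf (nat_lit 0) (nat_lit 9402604660) (nat_lit 152) (nat_lit 21747513535) (nat_lit 0) (nat_lit 7617114792) (nat_lit 5) (nat_lit 5) (nat_lit 7) (nat_lit 4) (nat_lit 5) (nat_lit 4)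 (nat_lit 306) (nat_lit 209) (nat_lit 205)) (XT.lf (nat_lit 0) (nat_lit 13610385346) (nat_lit 152) (nat_lit 15532607495) (nat_lit 0) (nat_lit 11430367119) (nat_lit 5) (nat_lit 5) (nat_lit 7) (nat_lit 4) (nat_lit 5) (nat_lit 4) (nat_lit 307) (nat_lit 209) (nat_lit 204))))))) (XT.nd (nat_lit 780) (nat_lit 152) (nat_lit 0) (XT.nd (nat_lit 390) (nat_lit 0) (nat_lit 0) (XT.nd (nat_lit 156) (nat_lit 76) (nat_lit 0) (XT.nd (nat_lit 78) (nat_lit 0) (nat_lit 0) (XT.lf (nat_lit 0) (nat_lit 17904085770) (nat_lit 152) (nat_lit 9221262059) (nat_lit 0) (nat_lit 15348326249) (nat_lit 5) (nat_lit 5) (nat_lit 7) (nat_lit 4) (nat_lit 5) (nat_lit 4) (nat_lit 308) (nat_lit 209) (nat_lit 203)) (XT.lf (nat_lit 0) (nat_lit 22293929028) (nat_lit 152) (nat_lit 2798450215) (nat_lit 0) (nat_lit 19380320656) (nat_lit 5) (nat_lit 5) (nat_lit 7) (nat_lit 4) (nat_lit 5) (nat_lit 4) (nat_lit 309) (nat_lit 209) (nat_lit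 202))) (XT.nd (nat_lit 78) (nat_lit 0) (nat_lit 0) (XT.lf (nat_lit 0) (nat_lit 3825775097) (nat_lit 76) (nat_lit 23001367721) (nat_lit 76) (nat_lit 19746950919) (nat_lit 4) (nat_lit 4) (nat_lit 5) (nat_lit 5) (nat_lit 5) (nat_lit 4) (nat_lit 310) (nat_lit 209) (nat_lit 201)) (XT.nd (nat_lit 78) (nat_lit 0) (nat_lit 0) (XT.lf (nat_lit 0) (nat_lit 10650881194) (nat_lit 76) (nat_lit 20855607466) (nat_lit 76) (nat_lit 17276611207) (nat_lit 4) (nat_lit 4) (nat_lit 5) (nat_lit 5) (nat_lit 5) (nat_lit 4) (nat_lit 311) (nat_lit 209) (nat_lit 200)) (XT.lf (nat_lit 0) (nat_lit 17637423682) (nat_lit 76) (nat_lit 18678248385) (nat_lit 76) (nat_lit 14790128834) (nat_lit 4) (nat_lit 4) (nat_lit 5) (nat_lit 5) (nat_lit 5) (nat_lit 4) (nat_lit 312) (nat_lit 209) (nat_lit 199))))) (XT.nd (nat_lit 156) (nat_lit 0) (nat_lit 0) (XT.nd (nat_lit 78) (nat_lit 0) (nat_lit 0) (XT.lf (nat_lit 0) (nat_lit 24802037185)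 (nat_lit 76) (nat_lit 16464106290) (nat_lit 76) (nat_lit 12281583604) (nat_lit 4) (nat_lit 4) (nat_lit 5) (nat_lit 5) (nat_lit 5) (nat_lit 4) (nat_lit 313) (nat_lit 209) (nat_lit 198)) (XT.lf (nat_lit 0) (nat_lit 32161780306) (nat_lit 76) (nat_lit 14207909415) (nat_lit 76) (nat_lit 9745002790) (nat_lit 4) (nat_lit 4) (nat_lit 5) (nat_lit 5) (nat_lit 5) (nat_lit 4) (nat_lit 314) (nat_lit 209) (nat_lit 197))) (XT.nd (nat_lit 78) (nat_lit 0) (nat_lit 0) (XT.lf (nat_lit 0) (nat_lit 39734176244) (nat_lit 76) (nat_lit 11904285861) (nat_lit 76) (nat_lit 7174346914) (nat_lit 4) (nat_lit 4) (nat_lit 5) (nat_lit 5) (nat_lit 5) (nat_lit 4) (nat_lit 315) (nat_lit 209) (nat_lit 196)) (XT.nd (nat_lit 78) (nat_lit 0) (nat_lit 0) (XT.lf (nat_lit 0) (nat_lit 47537254513) (nat_lit 76) (nat_lit 9547750812) (nat_lit 76) (nat_lit 4563495366) (nat_lit 4) (nat_lit 4) (nat_lit 5) (nat_lit 5) (nat_lit 5) (nat_lit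 4) (nat_lit 316) (nat_lit 209) (nat_lit 195)) (XT.lf (nat_lit 0) (nat_lit 55589593871) (nat_lit 76) (nat_lit 7132693468) (nat_lit 76) (nat_lit 1906231835) (nat_lit 4) (nat_lit 4) (nat_lit 5) (nat_lit 5) (nat_lit 5) (nat_lit 4) (nat_lit 317) (nat_lit 209) (nat_lit 194)))))) (XT.nd (nat_lit 390) (nat_lit 0) (nat_lit 0) (XT.nd (nat_lit 156) (nat_lit 0) (nat_lit 0) (XT.nd (nat_lit 78) (nat_lit 76) (nat_lit 0) (XT.lf (nat_lit 0) (nat_lit 788086041) (nat_lit 152) (nat_lit 3857319529) (nat_lit 76) (nat_lit 63114322388) (nat_lit 3) (nat_lit 5) (nat_lit 5) (nat_lit 5) (nat_lit 4) (nat_lit 4) (nat_lit 318) (nat_lit 209) (nat_lit 193)) (XT.lf (nat_lit 0) (nat_lit 1463314722) (nat_lit 76) (nat_lit 2053994178) (nat_lit 152) (nat_lit 67531516973) (nat_lit 2) (nat_lit 5) (nat_lit 3) (nat_lit 5) (nat_lit 4) (nat_lit 4) (nat_lit 319) (nat_lit 209) (nat_lit 192))) (XT.nd (nat_lit 78) (nat_lit 0) (nat_lit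 0) (XT.lf (nat_lit 0) (nat_lit 6356529002) (nat_lit 152) (nat_lit 67504804748) (nat_lit 0) (nat_lit 641918169) (nat_lit 2) (nat_lit 5) (nat_lit 4) (nat_lit 4) (nat_lit 2) (nat_lit 4) (nat_lit 320) (nat_lit 209) (nat_lit 191)) (XT.nd (nat_lit 78) (nat_lit 0) (nat_lit 0) (XT.lf (nat_lit 0) (nat_lit 9288940387) (nat_lit 152) (nat_lit 65462127794) (nat_lit 0) (nat_lit 3380869719) (nat_lit 2) (nat_lit 5) (nat_lit 4) (nat_lit 4) (nat_lit 2) (nat_lit 4) (nat_lit 321) (nat_lit 209) (nat_lit 190)) (XT.lf (nat_lit 0) (nat_lit 12301780740) (nat_lit 152) (nat_lit 63432872524) (nat_lit 0) (nat_lit 6209462609) (nat_lit 2) (nat_lit 5) (nat_lit 4) (nat_lit 4) (nat_lit 2) (nat_lit 4) (nat_lit 322) (nat_lit 209) (nat_lit 189))))) (XT.nd (nat_lit 234) (nat_lit 0) (nat_lit 0) (XT.nd (nat_lit 78) (nat_lit 0) (nat_lit 0) (XT.lf (nat_lit 0) (nat_lit 15402223488) (nat_lit 152) (nat_lit 61412207379) (nat_lit 0)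 (nat_lit 9134431583) (nat_lit 2) (nat_lit 5) (nat_lit 4) (nat_lit 4) (nat_lit 2) (nat_lit 4) (nat_lit 323) (nat_lit 209) (nat_lit 188)) (XT.nd (nat_lit 78) (nat_lit 0) (nat_lit 0) (XT.lf (nat_lit 0) (nat_lit 18597650639) (nat_lit 152) (nat_lit 59395321251) (nat_lit 0) (nat_lit 12162740855) (nat_lit 2) (nat_lit 5) (nat_lit 4) (nat_lit 4) (nat_lit 2) (nat_lit 4) (nat_lit 324) (nat_lit 209) (nat_lit 187)) (XT.lf (nat_lit 0) (nat_lit 21895670353) (nat_lit 152) (nat_lit 57377412030) (nat_lit 0) (nat_lit 15301600683) (nat_lit 2) (nat_lit 5) (nat_lit 4) (nat_lit 4) (nat_lit 2) (nat_lit 4) (nat_lit 325) (nat_lit 209) (nat_lit 186)))) (XT.nd (nat_lit 78) (nat_lit 0) (nat_lit 0) (XT.lf (nat_lit 0) (nat_lit 25304135057) (nat_lit 152) (nat_lit 55353675170) (nat_lit 0) (nat_lit 18558484545) (nat_lit 2) (nat_lit 5) (nat_lit 4) (nat_lit 4) (nat_lit 2) (nat_lit 4) (nat_lit 326) (nat_lit 209) (nat_lit 185))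 (XT.nd (nat_lit 78) (nat_lit 0) (nat_lit 0) (XT.lf (nat_lit 0) (nat_lit 28831160144) (nat_lit 152) (nat_lit 53319292251) (nat_lit 0) (nat_lit 21941146924) (nat_lit 2) (nat_lit 5) (nat_lit 4) (nat_lit 4) (nat_lit 2) (nat_lit 4) (nat_lit 327) (nat_lit 209) (nat_lit 184)) (XT.lf (nat_lit 0) (nat_lit 32485143293) (nat_lit 152) (nat_lit 51269419503) (nat_lit 0) (nat_lit 25457641779) (nat_lit 2) (nat_lit 5) (nat_lit 4) (nat_lit 4) (nat_lit 2) (nat_lit 4) (nat_lit 328) (nat_lit 209) (nat_lit 183))))))))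
noncomputable def xc6 : XT := (XT.nd (nat_lit 36504) (nat_lit 0) (nat_lit 0) (XT.nd (nat_lit 35724) (nat_lit 0) (nat_lit 152) (XT.nd (nat_lit 35334) (nat_lit 0) (nat_lit 228) (XT.nd (nat_lit 156) (nat_lit 0) (nat_lit 0) (XT.nd (nat_lit 78) (nat_lit 0) (nat_lit 0) (XT.lf (nat_lit 0) (nat_lit 36274784463) (nat_lit 152) (nat_lit 49199176277) (nat_lit 0) (nat_lit 29116341717) (nat_lit 2) (nat_lit 5) (nat_lit 4) (nat_lit 4) (nat_lit 2) (nat_lit 4) (nat_lit 329) (nat_lit 209) (nat_lit 182)) (XT.lf (nat_lit 0) (nat_lit 40209106609) (nat_lit 152) (nat_lit 47103633422) (nat_lit 0) (nat_lit 32925957929) (nat_lit 2) (nat_lit 5) (nat_lit 4) (nat_lit 4) (nat_lit 2) (nat_lit 4) (nat_lit 330) (nat_lit 209) (nat_lit 181))) (XT.nd (nat_lit 156) (nat_lit 0) (nat_lit 0) (XT.lf (nat_lit 0) (nat_lit 44297477166) (nat_lit 152) (nat_lit 44977801552) (nat_lit 0) (nat_lit 36895560929) (nat_lit 2) (nat_lit 5) (nat_lit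 4) (nat_lit 4) (nat_lit 2) (nat_lit 4) (nat_lit 331) (nat_lit 209) (nat_lit 180)) (XT.nd (nat_lit 34944) (nat_lit 0) (nat_lit 380) (XT.lf (nat_lit 0) (nat_lit 52975690331) (nat_lit 152) (nat_lit 40614940576) (nat_lit 0) (nat_lit 45352936459) (nat_lit 2) (nat_lit 5) (nat_lit 4) (nat_lit 4) (nat_lit 2) (nat_lit 4) (nat_lit 333) (nat_lit 209) (nat_lit 178)) (XT.lf (nat_lit 0) (nat_lit 964371808) (nat_lit 76) (nat_lit 6933629375) (nat_lit 76) (nat_lit 6933629375) (nat_lit 7) (nat_lit 4) (nat_lit 8) (nat_lit 5) (nat_lit 8) (nat_lit 4) (nat_lit 300) (nat_lit 210) (nat_lit 210))))) (XT.nd (nat_lit 156) (nat_lit 152) (nat_lit 0) (XT.nd (nat_lit 78) (nat_lit 0) (nat_lit 0) (XT.lf (nat_lit 0) (nat_lit 10317695573) (nat_lit 76) (nat_lit 10597509910) (nat_lit 76) (nat_lit 10078874762) (nat_lit 7) (nat_lit 4) (nat_lit 8) (nat_lit 5) (nat_lit 8) (nat_lit 4) (nat_lit 301) (nat_lit 210) (nat_lit 209)) (XT.lf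 (nat_lit 0) (nat_lit 18864963708) (nat_lit 76) (nat_lit 7271923657) (nat_lit 76) (nat_lit 6259350273) (nat_lit 7) (nat_lit 4) (nat_lit 8) (nat_lit 5) (nat_lit 8) (nat_lit 4) (nat_lit 302) (nat_lit 210) (nat_lit 208))) (XT.nd (nat_lit 78) (nat_lit 152) (nat_lit 0) (XT.lf (nat_lit 0) (nat_lit 27590898663) (nat_lit 76) (nat_lit 3882581930) (nat_lit 76) (nat_lit 2399591178) (nat_lit 7) (nat_lit 4) (nat_lit 8) (nat_lit 5) (nat_lit 8) (nat_lit 4) (nat_lit 303) (nat_lit 210) (nat_lit 207)) (XT.nd (nat_lit 78) (nat_lit 0) (nat_lit 0) (XT.lf (nat_lit 0) (nat_lit 1095034497) (nat_lit 76) (nat_lit 395626482) (nat_lit 152) (nat_lit 33936686817) (nat_lit 5) (nat_lit 5) (nat_lit 6) (nat_lit 5) (nat_lit 7) (nat_lit 4) (nat_lit 304) (nat_lit 210) (nat_lit 206)) (XT.lf (nat_lit 0) (nat_lit 5485733850) (nat_lit 152) (nat_lit 28377540008) (nat_lit 0) (nat_lit 3196714712) (nat_lit 5) (nat_lit 5) (nat_lit 7)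 (nat_lit 4) (nat_lit 5) (nat_lit 4) (nat_lit 305) (nat_lit 210) (nat_lit 205)))))) (XT.nd (nat_lit 390) (nat_lit 0) (nat_lit 0) (XT.nd (nat_lit 156) (nat_lit 76) (nat_lit 0) (XT.nd (nat_lit 78) (nat_lit 0) (nat_lit 0) (XT.lf (nat_lit 0) (nat_lit 9553860757) (nat_lit 152) (nat_lit 22354042407) (nat_lit 0) (nat_lit 6870313260) (nat_lit 5) (nat_lit 5) (nat_lit 7) (nat_lit 4) (nat_lit 5) (nat_lit 4) (nat_lit 306) (nat_lit 210) (nat_lit 204)) (XT.lf (nat_lit 0) (nat_lit 13700924713) (nat_lit 152) (nat_lit 16243675833) (nat_lit 0) (nat_lit 10641635922) (nat_lit 5) (nat_lit 5) (nat_lit 7) (nat_lit 4) (nat_lit 5) (nat_lit 4) (nat_lit 307) (nat_lit 210) (nat_lit 203))) (XT.nd (nat_lit 78) (nat_lit 76) (nat_lit 0) (XT.lf (nat_lit 0) (nat_lit 17936799680) (nat_lit 152) (nat_lit 10031891794) (nat_lit 0) (nat_lit 14519662038) (nat_lit 5) (nat_lit 5) (nat_lit 7) (nat_lit 4) (nat_lit 5) (nat_lit 4) (nat_lit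 308) (nat_lit 210) (nat_lit 202)) (XT.nd (nat_lit 78) (nat_lit 76) (nat_lit 0) (XT.lf (nat_lit 0) (nat_lit 22271571074) (nat_lit 152) (nat_lit 3703900328) (nat_lit 0) (nat_lit 18513625002) (nat_lit 5) (nat_lit 5) (nat_lit 7) (nat_lit 4) (nat_lit 5) (nat_lit 4) (nat_lit 309) (nat_lit 210) (nat_lit 201)) (XT.lf (nat_lit 0) (nat_lit 2810202380) (nat_lit 76) (nat_lit 23932370783) (nat_lit 76) (nat_lit 19849845255) (nat_lit 4) (nat_lit 4) (nat_lit 5) (nat_lit 5) (nat_lit 5) (nat_lit 4) (nat_lit 310) (nat_lit 210) (nat_lit 200))))) (XT.nd (nat_lit 156) (nat_lit 0) (nat_lit 0) (XT.nd (nat_lit 78) (nat_lit 0) (nat_lit 0) (XT.lf (nat_lit 0) (nat_lit 9547591934) (nat_lit 76) (nat_lit 21823532083) (nat_lit 76) (nat_lit 17431883262) (nat_lit 4) (nat_lit 4) (nat_lit 5) (nat_lit 5) (nat_lit 5) (nat_lit 4) (nat_lit 311) (nat_lit 210) (nat_lit 199)) (XT.lf (nat_lit 0) (nat_lit 16450594856) (nat_lit 76)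 (nat_lit 19681336388) (nat_lit 76) (nat_lit 14995284431) (nat_lit 4) (nat_lit 4) (nat_lit 5) (nat_lit 5) (nat_lit 5) (nat_lit 4) (nat_lit 312) (nat_lit 210) (nat_lit 198))) (XT.nd (nat_lit 78) (nat_lit 0) (nat_lit 0) (XT.lf (nat_lit 0) (nat_lit 23535646868) (nat_lit 76) (nat_lit 17500683232) (nat_lit 76) (nat_lit 12534247336) (nat_lit 4) (nat_lit 4) (nat_lit 5) (nat_lit 5) (nat_lit 5) (nat_lit 4) (nat_lit 313) (nat_lit 210) (nat_lit 197)) (XT.nd (nat_lit 78) (nat_lit 0) (nat_lit 0) (XT.lf (nat_lit 0) (nat_lit 30819617141) (nat_lit 76) (nat_lit 15276380583) (nat_lit 76) (nat_lit 10042912366) (nat_lit 4) (nat_lit 4) (nat_lit 5) (nat_lit 5) (nat_lit 5) (nat_lit 4) (nat_lit 314) (nat_lit 210) (nat_lit 196)) (XT.lf (nat_lit 0) (nat_lit 38319848461) (nat_lit 76) (nat_lit 13003132484) (nat_lit 76) (nat_lit 7515347769) (nat_lit 4) (nat_lit 4) (nat_lit 5) (nat_lit 5) (nat_lit 5) (nat_lit 4) (nat_lit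 315) (nat_lit 210) (nat_lit 195))))))) (XT.nd (nat_lit 780) (nat_lit 0) (nat_lit 0) (XT.nd (nat_lit 390) (nat_lit 0) (nat_lit 0) (XT.nd (nat_lit 156) (nat_lit 152) (nat_lit 0) (XT.nd (nat_lit 78) (nat_lit 0) (nat_lit 0) (XT.lf (nat_lit 0) (nat_lit 46054198523) (nat_lit 76) (nat_lit 10675526439) (nat_lit 76) (nat_lit 4945535535) (nat_lit 4) (nat_lit 4) (nat_lit 5) (nat_lit 5) (nat_lit 5) (nat_lit 4) (nat_lit 316) (nat_lit 210) (nat_lit 194)) (XT.lf (nat_lit 0) (nat_lit 54041082445) (nat_lit 76) (nat_lit 8288020528) (nat_lit 76) (nat_lit 2327357064) (nat_lit 4) (nat_lit 4) (nat_lit 5) (nat_lit 5) (nat_lit 5) (nat_lit 4) (nat_lit 317) (nat_lit 210) (nat_lit 193))) (XT.nd (nat_lit 78) (nat_lit 76) (nat_lit 0) (XT.lf (nat_lit 0) (nat_lit 338680986) (nat_lit 152) (nat_lit 5492829213) (nat_lit 76) (nat_lit 61957415617) (nat_lit 3) (nat_lit 5) (nat_lit 5) (nat_lit 5) (nat_lit 4) (nat_lit 4) (nat_lit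 318) (nat_lit 210) (nat_lit 192)) (XT.nd (nat_lit 78) (nat_lit 76) (nat_lit 0) (XT.lf (nat_lit 0) (nat_lit 3019078049) (nat_lit 152) (nat_lit 260849986) (nat_lit 76) (nat_lit 67799599161) (nat_lit 3) (nat_lit 5) (nat_lit 5) (nat_lit 5) (nat_lit 4) (nat_lit 4) (nat_lit 319) (nat_lit 210) (nat_lit 191)) (XT.lf (nat_lit 0) (nat_lit 5217195435) (nat_lit 76) (nat_lit 598586581) (nat_lit 152) (nat_lit 68719483560) (nat_lit 2) (nat_lit 5) (nat_lit 3) (nat_lit 5) (nat_lit 4) (nat_lit 4) (nat_lit 320) (nat_lit 210) (nat_lit 190))))) (XT.nd (nat_lit 156) (nat_lit 0) (nat_lit 0) (XT.nd (nat_lit 78) (nat_lit 0) (nat_lit 0) (XT.lf (nat_lit 0) (nat_lit 8710150835) (nat_lit 152) (nat_lit 67326007759) (nat_lit 0) (nat_lit 2128969335) (nat_lit 2) (nat_lit 5) (nat_lit 4) (nat_lit 4) (nat_lit 2) (nat_lit 4) (nat_lit 321) (nat_lit 210) (nat_lit 189)) (XT.lf (nat_lit 0) (nat_lit 11692240152) (nat_lit 152) (nat_lit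 65350436825) (nat_lit 0) (nat_lit 4935584879) (nat_lit 2) (nat_lit 5) (nat_lit 4) (nat_lit 4) (nat_lit 2) (nat_lit 4) (nat_lit 322) (nat_lit 210) (nat_lit 188))) (XT.nd (nat_lit 78) (nat_lit 0) (nat_lit 0) (XT.lf (nat_lit 0) (nat_lit 14763396201) (nat_lit 152) (nat_lit 63380899618) (nat_lit 0) (nat_lit 7839623048) (nat_lit 2) (nat_lit 5) (nat_lit 4) (nat_lit 4) (nat_lit 2) (nat_lit 4) (nat_lit 323) (nat_lit 210) (nat_lit 187)) (XT.nd (nat_lit 78) (nat_lit 0) (nat_lit 0) (XT.lf (nat_lit 0) (nat_lit 17930931257) (nat_lit 152) (nat_lit 61412706765) (nat_lit 0) (nat_lit 10847998219) (nat_lit 2) (nat_lit 5) (nat_lit 4) (nat_lit 4) (nat_lit 2) (nat_lit 4) (nat_lit 324) (nat_lit 210) (nat_lit 186)) (XT.lf (nat_lit 0) (nat_lit 21202387071) (nat_lit 152) (nat_lit 59441172092) (nat_lit 0) (nat_lit 13967873189) (nat_lit 2) (nat_lit 5) (nat_lit 4) (nat_lit 4) (nat_lit 2) (nat_lit 4) (nat_lit 325) (nat_lit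 210) (nat_lit 185)))))) (XT.nd (nat_lit 390) (nat_lit 0) (nat_lit 0) (XT.nd (nat_lit 156) (nat_lit 0) (nat_lit 0) (XT.nd (nat_lit 78) (nat_lit 0) (nat_lit 0) (XT.lf (nat_lit 0) (nat_lit 24585552823) (nat_lit 152) (nat_lit 57461601468) (nat_lit 0) (nat_lit 17206676233) (nat_lit 2) (nat_lit 5) (nat_lit 4) (nat_lit 4) (nat_lit 2) (nat_lit 4) (nat_lit 326) (nat_lit 210) (nat_lit 184)) (XT.lf (nat_lit 0) (nat_lit 28088483669) (nat_lit 152) (nat_lit 55469281630) (nat_lit 0) (nat_lit 20572118787) (nat_lit 2) (nat_lit 5) (nat_lit 4) (nat_lit 4) (nat_lit 2) (nat_lit 4) (nat_lit 327) (nat_lit 210) (nat_lit 183))) (XT.nd (nat_lit 78) (nat_lit 0) (nat_lit 0) (XT.lf (nat_lit 0) (nat_lit 31719519922) (nat_lit 152) (nat_lit 53459468960) (nat_lit 0) (nat_lit 24072213808) (nat_lit 2) (nat_lit 5) (nat_lit 4) (nat_lit 4) (nat_lit 2) (nat_lit 4) (nat_lit 328) (nat_lit 210) (nat_lit 182)) (XT.nd (nat_lit 78)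 (nat_lit 0) (nat_lit 0) (XT.lf (nat_lit 0) (nat_lit 35487306906) (nat_lit 152) (nat_lit 51427378189) (nat_lit 0) (nat_lit 27715294857) (nat_lit 2) (nat_lit 5) (nat_lit 4) (nat_lit 4) (nat_lit 2) (nat_lit 4) (nat_lit 329) (nat_lit 210) (nat_lit 181)) (XT.lf (nat_lit 0) (nat_lit 39400815541) (nat_lit 152) (nat_lit 49368171006) (nat_lit 0) (nat_lit 31510035935) (nat_lit 2) (nat_lit 5) (nat_lit 4) (nat_lit 4) (nat_lit 2) (nat_lit 4) (nat_lit 330) (nat_lit 210) (nat_lit 180))))) (XT.nd (nat_lit 35022) (nat_lit 0) (nat_lit 380) (XT.nd (nat_lit 156) (nat_lit 0) (nat_lit 0) (XT.lf (nat_lit 0) (nat_lit 43469363707) (nat_lit 152) (nat_lit 47276944536) (nat_lit 0) (nat_lit 35465472142) (nat_lit 2) (nat_lit 5) (nat_lit 4) (nat_lit 4) (nat_lit 2) (nat_lit 4) (nat_lit 331) (nat_lit 210) (nat_lit 179)) (XT.nd (nat_lit 34788) (nat_lit 0) (nat_lit 456) (XT.lf (nat_lit 0) (nat_lit 52110718910) (nat_lit 152)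 (nat_lit 42978429205) (nat_lit 0) (nat_lit 43896505789) (nat_lit 2) (nat_lit 5) (nat_lit 4) (nat_lit 4) (nat_lit 2) (nat_lit 4) (nat_lit 333) (nat_lit 210) (nat_lit 177)) (XT.lf (nat_lit 0) (nat_lit 3290595813) (nat_lit 152) (nat_lit 7017017295) (nat_lit 0) (nat_lit 3290595813) (nat_lit 8) (nat_lit 5) (nat_lit 10) (nat_lit 4) (nat_lit 8) (nat_lit 4) (nat_lit 298) (nat_lit 211) (nat_lit 211)))) (XT.nd (nat_lit 78) (nat_lit 76) (nat_lit 0) (XT.lf (nat_lit 0) (nat_lit 11372425992) (nat_lit 152) (nat_lit 6198503479) (nat_lit 0) (nat_lit 10827859086) (nat_lit 8) (nat_lit 5) (nat_lit 10) (nat_lit 4) (nat_lit 8) (nat_lit 4) (nat_lit 299) (nat_lit 211) (nat_lit 210)) (XT.nd (nat_lit 78) (nat_lit 0) (nat_lit 0) (XT.lf (nat_lit 0) (nat_lit 1794993379) (nat_lit 76) (nat_lit 14466963477) (nat_lit 76) (nat_lit 13403761424) (nat_lit 7) (nat_lit 4) (nat_lit 8) (nat_lit 5) (nat_lit 8) (nat_lit 4) (nat_lit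 300) (nat_lit 211) (nat_lit 209)) (XT.lf (nat_lit 0) (nat_lit 10056564155) (nat_lit 76) (nat_lit 11249726846) (nat_lit 76) (nat_lit 9692586556) (nat_lit 7) (nat_lit 4) (nat_lit 8) (nat_lit 5) (nat_lit 8) (nat_lit 4) (nat_lit 301) (nat_lit 211) (nat_lit 208))))))))
noncomputable def xc7 : XT := (XT.nd (nat_lit 1638) (nat_lit 0) (nat_lit 0) (XT.nd (nat_lit 780) (nat_lit 152) (nat_lit 0) (XT.nd (nat_lit 390) (nat_lit 76) (nat_lit 0) (XT.nd (nat_lit 156) (nat_lit 152) (nat_lit 0) (XT.nd (nat_lit 78) (nat_lit 0) (nat_lit 0) (XT.lf (nat_lit 0) (nat_lit 18482516882) (nat_lit 76) (nat_lit 7974152221) (nat_lit 76) (nat_lit 5946594564) (nat_lit 7) (nat_lit 4) (nat_lit 8) (nat_lit 5) (nat_lit 8) (nat_lit 4) (nat_lit 302) (nat_lit 211) (nat_lit 207)) (XT.lf (nat_lit 0) (nat_lit 27092913352) (nat_lit 76) (nat_lit 4632440617) (nat_lit 76) (nat_lit 2156866419) (nat_lit 7) (nat_lit 4) (nat_lit 8) (nat_lit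 5) (nat_lit 8) (nat_lit 4) (nat_lit 303) (nat_lit 211) (nat_lit 206))) (XT.nd (nat_lit 78) (nat_lit 0) (nat_lit 0) (XT.lf (nat_lit 0) (nat_lit 461793498) (nat_lit 76) (nat_lit 1195374046) (nat_lit 152) (nat_lit 33781482231) (nat_lit 5) (nat_lit 5) (nat_lit 6) (nat_lit 5) (nat_lit 7) (nat_lit 4) (nat_lit 304) (nat_lit 211) (nat_lit 205)) (XT.nd (nat_lit 78) (nat_lit 0) (nat_lit 0) (XT.lf (nat_lit 0) (nat_lit 5580800186) (nat_lit 152) (nat_lit 29124161763) (nat_lit 0) (nat_lit 2368546955) (nat_lit 5) (nat_lit 5) (nat_lit 7) (nat_lit 4) (nat_lit 5) (nat_lit 4) (nat_lit 305) (nat_lit 211) (nat_lit 204)) (XT.lf (nat_lit 0) (nat_lit 9588210362) (nat_lit 152) (nat_lit 23205203629) (nat_lit 0) (nat_lit 6000215838) (nat_lit 5) (nat_lit 5) (nat_lit 7) (nat_lit 4) (nat_lit 5) (nat_lit 4) (nat_lit 306) (nat_lit 211) (nat_lit 203))))) (XT.nd (nat_lit 156) (nat_lit 76) (nat_lit 0) (XT.nd (nat_lit 78)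 (nat_lit 0) (nat_lit 0) (XT.lf (nat_lit 0) (nat_lit 13677448861) (nat_lit 152) (nat_lit 17194398452) (nat_lit 0) (nat_lit 9731605486) (nat_lit 5) (nat_lit 5) (nat_lit 7) (nat_lit 4) (nat_lit 5) (nat_lit 4) (nat_lit 307) (nat_lit 211) (nat_lit 202)) (XT.lf (nat_lit 0) (nat_lit 17858251964) (nat_lit 152) (nat_lit 11077434791) (nat_lit 0) (nat_lit 13571600159) (nat_lit 5) (nat_lit 5) (nat_lit 7) (nat_lit 4) (nat_lit 5) (nat_lit 4) (nat_lit 308) (nat_lit 211) (nat_lit 201))) (XT.nd (nat_lit 78) (nat_lit 76) (nat_lit 0) (XT.lf (nat_lit 0) (nat_lit 22140573964) (nat_lit 152) (nat_lit 4839748447) (nat_lit 0) (nat_lit 17529342702) (nat_lit 5) (nat_lit 5) (nat_lit 7) (nat_lit 4) (nat_lit 5) (nat_lit 4) (nat_lit 309) (nat_lit 211) (nat_lit 200)) (XT.nd (nat_lit 78) (nat_lit 0) (nat_lit 0) (XT.lf (nat_lit 0) (nat_lit 1564032113) (nat_lit 76) (nat_lit 24985613186) (nat_lit 76) (nat_lit 20065258632)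 (nat_lit 4) (nat_lit 4) (nat_lit 5) (nat_lit 5) (nat_lit 5) (nat_lit 4) (nat_lit 310) (nat_lit 211) (nat_lit 199)) (XT.lf (nat_lit 0) (nat_lit 8217882101) (nat_lit 76) (nat_lit 22911937871) (nat_lit 76) (nat_lit 17697180181) (nat_lit 4) (nat_lit 4) (nat_lit 5) (nat_lit 5) (nat_lit 5) (nat_lit 4) (nat_lit 311) (nat_lit 211) (nat_lit 198)))))) (XT.nd (nat_lit 390) (nat_lit 152) (nat_lit 0) (XT.nd (nat_lit 156) (nat_lit 0) (nat_lit 0) (XT.nd (nat_lit 78) (nat_lit 0) (nat_lit 0) (XT.lf (nat_lit 0) (nat_lit 15041323532) (nat_lit 76) (nat_lit 20803231114) (nat_lit 76) (nat_lit 15308089486) (nat_lit 4) (nat_lit 4) (nat_lit 5) (nat_lit 5) (nat_lit 5) (nat_lit 4) (nat_lit 312) (nat_lit 211) (nat_lit 197)) (XT.lf (nat_lit 0) (nat_lit 22050602696) (nat_lit 76) (nat_lit 18654472185) (nat_lit 76) (nat_lit 12892298234) (nat_lit 4) (nat_lit 4) (nat_lit 5) (nat_lit 5) (nat_lit 5) (nat_lit 4) (nat_lit 313)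 (nat_lit 211) (nat_lit 196))) (XT.nd (nat_lit 78) (nat_lit 0) (nat_lit 0) (XT.lf (nat_lit 0) (nat_lit 29262408351) (nat_lit 76) (nat_lit 16460544992) (nat_lit 76) (nat_lit 10444054543) (nat_lit 4) (nat_lit 4) (nat_lit 5) (nat_lit 5) (nat_lit 5) (nat_lit 4) (nat_lit 314) (nat_lit 211) (nat_lit 195)) (XT.nd (nat_lit 78) (nat_lit 0) (nat_lit 0) (XT.lf (nat_lit 0) (nat_lit 36693911464) (nat_lit 76) (nat_lit 14216225897) (nat_lit 76) (nat_lit 7957529260) (nat_lit 4) (nat_lit 4) (nat_lit 5) (nat_lit 5) (nat_lit 5) (nat_lit 4) (nat_lit 315) (nat_lit 211) (nat_lit 194)) (XT.lf (nat_lit 0) (nat_lit 44362806090) (nat_lit 76) (nat_lit 11916171284) (nat_lit 76) (nat_lit 5426802087) (nat_lit 4) (nat_lit 4) (nat_lit 5) (nat_lit 5) (nat_lit 5) (nat_lit 4) (nat_lit 316) (nat_lit 211) (nat_lit 193))))) (XT.nd (nat_lit 234) (nat_lit 76) (nat_lit 0) (XT.nd (nat_lit 78) (nat_lit 76) (nat_lit 0) (XT.lf (nat_lit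 0) (nat_lit 52287351503) (nat_lit 76) (nat_lit 9554904833) (nat_lit 76) (nat_lit 2845847483) (nat_lit 4) (nat_lit 4) (nat_lit 5) (nat_lit 5) (nat_lit 5) (nat_lit 4) (nat_lit 317) (nat_lit 211) (nat_lit 192)) (XT.nd (nat_lit 78) (nat_lit 76) (nat_lit 0) (XT.lf (nat_lit 0) (nat_lit 60486415666) (nat_lit 76) (nat_lit 7126804480) (nat_lit 76) (nat_lit 208520318) (nat_lit 4) (nat_lit 4) (nat_lit 5) (nat_lit 5) (nat_lit 5) (nat_lit 4) (nat_lit 318) (nat_lit 211) (nat_lit 191)) (XT.lf (nat_lit 0) (nat_lit 2442841423) (nat_lit 152) (nat_lit 2158579703) (nat_lit 76) (nat_lit 66512010830) (nat_lit 3) (nat_lit 5) (nat_lit 5) (nat_lit 5) (nat_lit 4) (nat_lit 4) (nat_lit 319) (nat_lit 211) (nat_lit 190)))) (XT.nd (nat_lit 78) (nat_lit 0) (nat_lit 0) (XT.lf (nat_lit 0) (nat_lit 3226099352) (nat_lit 76) (nat_lit 1962778495) (nat_lit 152) (nat_lit 69381847609) (nat_lit 2) (nat_lit 5) (nat_lit 3) (nat_lit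 5) (nat_lit 4) (nat_lit 4) (nat_lit 320) (nat_lit 211) (nat_lit 189)) (XT.nd (nat_lit 78) (nat_lit 0) (nat_lit 0) (XT.lf (nat_lit 0) (nat_lit 8039382183) (nat_lit 152) (nat_lit 69393134610) (nat_lit 0) (nat_lit 769420373) (nat_lit 2) (nat_lit 5) (nat_lit 4) (nat_lit 4) (nat_lit 2) (nat_lit 4) (nat_lit 321) (nat_lit 211) (nat_lit 188)) (XT.lf (nat_lit 0) (nat_lit 10992184801) (nat_lit 152) (nat_lit 67468691615) (nat_lit 0) (nat_lit 3555105111) (nat_lit 2) (nat_lit 5) (nat_lit 4) (nat_lit 4) (nat_lit 2) (nat_lit 4) (nat_lit 322) (nat_lit 211) (nat_lit 187))))))) (XT.nd (nat_lit 35412) (nat_lit 0) (nat_lit 228) (XT.nd (nat_lit 390) (nat_lit 0) (nat_lit 0) (XT.nd (nat_lit 156) (nat_lit 0) (nat_lit 0) (XT.nd (nat_lit 78) (nat_lit 0) (nat_lit 0) (XT.lf (nat_lit 0) (nat_lit 14035448754) (nat_lit 152) (nat_lit 65547847683) (nat_lit 0) (nat_lit 6439209179) (nat_lit 2) (nat_lit 5) (nat_lit 4) (nat_lit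 4) (nat_lit 2) (nat_lit 4) (nat_lit 323) (nat_lit 211) (nat_lit 186)) (XT.lf (nat_lit 0) (nat_lit 17176419910) (nat_lit 152) (nat_lit 63626029378) (nat_lit 0) (nat_lit 9428599492) (nat_lit 2) (nat_lit 5) (nat_lit 4) (nat_lit 4) (nat_lit 2) (nat_lit 4) (nat_lit 324) (nat_lit 211) (nat_lit 185))) (XT.nd (nat_lit 78) (nat_lit 0) (nat_lit 0) (XT.lf (nat_lit 0) (nat_lit 20422576772) (nat_lit 152) (nat_lit 61698660940) (nat_lit 0) (nat_lit 12530393645) (nat_lit 2) (nat_lit 5) (nat_lit 4) (nat_lit 4) (nat_lit 2) (nat_lit 4) (nat_lit 325) (nat_lit 211) (nat_lit 184)) (XT.nd (nat_lit 78) (nat_lit 0) (nat_lit 0) (XT.lf (nat_lit 0) (nat_lit 23781648283) (nat_lit 152) (nat_lit 59761153398) (nat_lit 0) (nat_lit 15751976863) (nat_lit 2) (nat_lit 5) (nat_lit 4) (nat_lit 4) (nat_lit 2) (nat_lit 4) (nat_lit 326) (nat_lit 211) (nat_lit 183)) (XT.lf (nat_lit 0) (nat_lit 27261632234) (nat_lit 152) (nat_lit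 57808893638) (nat_lit 0) (nat_lit 19101019583) (nat_lit 2) (nat_lit 5) (nat_lit 4) (nat_lit 4) (nat_lit 2) (nat_lit 4) (nat_lit 327) (nat_lit 211) (nat_lit 182))))) (XT.nd (nat_lit 156) (nat_lit 0) (nat_lit 0) (XT.nd (nat_lit 78) (nat_lit 0) (nat_lit 0) (XT.lf (nat_lit 0) (nat_lit 30870814301) (nat_lit 152) (nat_lit 55837233422) (nat_lit 0) (nat_lit 22585495715) (nat_lit 2) (nat_lit 5) (nat_lit 4) (nat_lit 4) (nat_lit 2) (nat_lit 4) (nat_lit 328) (nat_lit 211) (nat_lit 181)) (XT.lf (nat_lit 0) (nat_lit 34617787773) (nat_lit 152) (nat_lit 53841478323) (nat_lit 0) (nat_lit 26213701630) (nat_lit 2) (nat_lit 5) (nat_lit 4) (nat_lit 4) (nat_lit 2) (nat_lit 4) (nat_lit 329) (nat_lit 211) (nat_lit 180))) (XT.nd (nat_lit 78) (nat_lit 0) (nat_lit 0) (XT.lf (nat_lit 0) (nat_lit 38511474018) (nat_lit 152) (nat_lit 51816876541) (nat_lit 0) (nat_lit 29994275916) (nat_lit 2) (nat_lit 5) (nat_lit 4) (nat_lit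 4) (nat_lit 2) (nat_lit 4) (nat_lit 330) (nat_lit 211) (nat_lit 179)) (XT.nd (nat_lit 156) (nat_lit 0) (nat_lit 0) (XT.lf (nat_lit 0) (nat_lit 42561143715) (nat_lit 152) (nat_lit 49758607597) (nat_lit 0) (nat_lit 33936219938) (nat_lit 2) (nat_lit 5) (nat_lit 4) (nat_lit 4) (nat_lit 2) (nat_lit 4) (nat_lit 331) (nat_lit 211) (nat_lit 178)) (XT.lf (nat_lit 0) (nat_lit 51167396099) (nat_lit 152) (nat_lit 45521373832) (nat_lit 0) (nat_lit 42342166078) (nat_lit 2) (nat_lit 5) (nat_lit 4) (nat_lit 4) (nat_lit 2) (nat_lit 4) (nat_lit 333) (nat_lit 211) (nat_lit 176)))))) (XT.nd (nat_lit 390) (nat_lit 152) (nat_lit 0) (XT.nd (nat_lit 156) (nat_lit 76) (nat_lit 0) (XT.nd (nat_lit 78) (nat_lit 152) (nat_lit 0) (XT.lf (nat_lit 0) (nat_lit 10359700533) (nat_lit 152) (nat_lit 1062761791) (nat_lit 152) (nat_lit 1062761791) (nat_lit 10) (nat_lit 4) (nat_lit 12) (nat_lit 5) (nat_lit 12) (nat_lit 4) (nat_lit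 296) (nat_lit 212) (nat_lit 212)) (XT.lf (nat_lit 0) (nat_lit 2431386734) (nat_lit 152) (nat_lit 21765282765) (nat_lit 0) (nat_lit 1859591484) (nat_lit 8) (nat_lit 5) (nat_lit 10) (nat_lit 4) (nat_lit 8) (nat_lit 4) (nat_lit 297) (nat_lit 212) (nat_lit 211))) (XT.nd (nat_lit 78) (nat_lit 76) (nat_lit 0) (XT.lf (nat_lit 0) (nat_lit 7071793811) (nat_lit 152) (nat_lit 14171731894) (nat_lit 0) (nat_lit 5955431655) (nat_lit 8) (nat_lit 5) (nat_lit 10) (nat_lit 4) (nat_lit 8) (nat_lit 4) (nat_lit 298) (nat_lit 212) (nat_lit 210)) (XT.nd (nat_lit 78) (nat_lit 76) (nat_lit 0) (XT.lf (nat_lit 0) (nat_lit 11785701448) (nat_lit 152) (nat_lit 6467341073) (nat_lit 0) (nat_lit 10150704144) (nat_lit 8) (nat_lit 5) (nat_lit 10) (nat_lit 4) (nat_lit 8) (nat_lit 4) (nat_lit 299) (nat_lit 212) (nat_lit 209)) (XT.lf (nat_lit 0) (nat_lit 1393424211) (nat_lit 76) (nat_lit 15204303470) (nat_lit 76) (nat_lit 13075367930)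 (nat_lit 7) (nat_lit 4) (nat_lit 8) (nat_lit 5) (nat_lit 8) (nat_lit 4) (nat_lit 300) (nat_lit 212) (nat_lit 208))))) (XT.nd (nat_lit 234) (nat_lit 152) (nat_lit 0) (XT.nd (nat_lit 78) (nat_lit 0) (nat_lit 0) (XT.lf (nat_lit 0) (nat_lit 9533679578) (nat_lit 76) (nat_lit 12037078467) (nat_lit 76) (nat_lit 9437725559) (nat_lit 7) (nat_lit 4) (nat_lit 8) (nat_lit 5) (nat_lit 8) (nat_lit 4) (nat_lit 301) (nat_lit 212) (nat_lit 207)) (XT.nd (nat_lit 78) (nat_lit 0) (nat_lit 0) (XT.lf (nat_lit 0) (nat_lit 17844093821) (nat_lit 76) (nat_lit 8809133965) (nat_lit 76) (nat_lit 5761764517) (nat_lit 7) (nat_lit 4) (nat_lit 8) (nat_lit 5) (nat_lit 8) (nat_lit 4) (nat_lit 302) (nat_lit 212) (nat_lit 206)) (XT.lf (nat_lit 0) (nat_lit 26344453638) (nat_lit 76) (nat_lit 5512784382) (nat_lit 76) (nat_lit 2038732514) (nat_lit 7) (nat_lit 4) (nat_lit 8) (nat_lit 5) (nat_lit 8) (nat_lit 4) (nat_lit 303) (nat_lit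 212) (nat_lit 205)))) (XT.nd (nat_lit 78) (nat_lit 76) (nat_lit 0) (XT.lf (nat_lit 0) (nat_lit 1706276561) (nat_lit 152) (nat_lit 416674658) (nat_lit 76) (nat_lit 33331491374) (nat_lit 6) (nat_lit 5) (nat_lit 8) (nat_lit 5) (nat_lit 7) (nat_lit 4) (nat_lit 304) (nat_lit 212) (nat_lit 204)) (XT.nd (nat_lit 78) (nat_lit 0) (nat_lit 0) (XT.lf (nat_lit 0) (nat_lit 5556150541) (nat_lit 152) (nat_lit 30122420513) (nat_lit 0) (nat_lit 1413014997) (nat_lit 5) (nat_lit 5) (nat_lit 7) (nat_lit 4) (nat_lit 5) (nat_lit 4) (nat_lit 305) (nat_lit 212) (nat_lit 203)) (XT.lf (nat_lit 0) (nat_lit 9505735261) (nat_lit 152) (nat_lit 24303023776) (nat_lit 0) (nat_lit 5004750866) (nat_lit 5) (nat_lit 5) (nat_lit 7) (nat_lit 4) (nat_lit 5) (nat_lit 4) (nat_lit 306) (nat_lit 212) (nat_lit 202))))))))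
noncomputable def xc8 : XT := (XT.nd (nat_lit 1560) (nat_lit 0) (nat_lit 0) (XT.nd (nat_lit 780) (nat_lit 152) (nat_lit 0) (XT.nd (nat_lit 390) (nat_lit 0) (nat_lit 0) (XT.nd (nat_lit 156) (nat_lit 76) (nat_lit 0) (XT.nd (nat_lit 78) (nat_lit 0) (nat_lit 0) (XT.lf (nat_lit 0) (nat_lit 13539901896) (nat_lit 152) (nat_lit 18387038977) (nat_lit 0) (nat_lit 8698109071) (nat_lit 5) (nat_lit 5) (nat_lit 7) (nat_lit 4) (nat_lit 5) (nat_lit 4) (nat_lit 307) (nat_lit 212) (nat_lit 201)) (XT.lf (nat_lit 0) (nat_lit 17668255605) (nat_lit 152) (nat_lit 12360380438) (nat_lit 0) (nat_lit 12501883323) (nat_lit 5) (nat_lit 5) (nat_lit 7) (nat_lit 4) (nat_lit 5) (nat_lit 4) (nat_lit 308) (nat_lit 212) (nat_lit 200))) (XT.nd (nat_lit 78) (nat_lit 76) (nat_lit 0) (XT.lf (nat_lit 0) (nat_lit 21900625801) (nat_lit 152) (nat_lit 6208698972) (nat_lit 0) (nat_lit 16425130227) (nat_lit 5) (nat_lit 5) (nat_lit 7)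 (nat_lit 4) (nat_lit 5) (nat_lit 4) (nat_lit 309) (nat_lit 212) (nat_lit 199)) (XT.nd (nat_lit 78) (nat_lit 0) (nat_lit 0) (XT.lf (nat_lit 0) (nat_lit 84297223) (nat_lit 76) (nat_lit 26163602649) (nat_lit 76) (nat_lit 20393703939) (nat_lit 4) (nat_lit 4) (nat_lit 5) (nat_lit 5) (nat_lit 5) (nat_lit 4) (nat_lit 310) (nat_lit 212) (nat_lit 198)) (XT.lf (nat_lit 0) (nat_lit 6658585720) (nat_lit 76) (nat_lit 24123416273) (nat_lit 76) (nat_lit 18073133624) (nat_lit 4) (nat_lit 4) (nat_lit 5) (nat_lit 5) (nat_lit 5) (nat_lit 4) (nat_lit 311) (nat_lit 212) (nat_lit 197))))) (XT.nd (nat_lit 156) (nat_lit 0) (nat_lit 0) (XT.nd (nat_lit 78) (nat_lit 0) (nat_lit 0) (XT.lf (nat_lit 0) (nat_lit 13406254303) (nat_lit 76) (nat_lit 22046603743) (nat_lit 76) (nat_lit 15729288772) (nat_lit 4) (nat_lit 4) (nat_lit 5) (nat_lit 5) (nat_lit 5) (nat_lit 4) (nat_lit 312) (nat_lit 212) (nat_lit 196)) (XT.lf (nat_lit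 0) (nat_lit 20343368849) (nat_lit 76) (nat_lit 19928220268) (nat_lit 76) (nat_lit 13356588800) (nat_lit 4) (nat_lit 4) (nat_lit 5) (nat_lit 5) (nat_lit 5) (nat_lit 4) (nat_lit 313) (nat_lit 212) (nat_lit 195))) (XT.nd (nat_lit 78) (nat_lit 0) (nat_lit 0) (XT.lf (nat_lit 0) (nat_lit 27486446297) (nat_lit 76) (nat_lit 17763222079) (nat_lit 76) (nat_lit 10949384422) (nat_lit 4) (nat_lit 4) (nat_lit 5) (nat_lit 5) (nat_lit 5) (nat_lit 4) (nat_lit 314) (nat_lit 212) (nat_lit 194)) (XT.nd (nat_lit 78) (nat_lit 0) (nat_lit 0) (XT.lf (nat_lit 0) (nat_lit 34852493975) (nat_lit 76) (nat_lit 15546454417) (nat_lit 76) (nat_lit 8501944199) (nat_lit 4) (nat_lit 4) (nat_lit 5) (nat_lit 5) (nat_lit 5) (nat_lit 4) (nat_lit 315) (nat_lit 212) (nat_lit 193)) (XT.lf (nat_lit 0) (nat_lit 42459050091) (nat_lit 76) (nat_lit 13272639263) (nat_lit 76) (nat_lit 6008440894) (nat_lit 4) (nat_lit 4) (nat_lit 5) (nat_lit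 5) (nat_lit 5) (nat_lit 4) (nat_lit 316) (nat_lit 212) (nat_lit 192)))))) (XT.nd (nat_lit 390) (nat_lit 0) (nat_lit 0) (XT.nd (nat_lit 156) (nat_lit 152) (nat_lit 0) (XT.nd (nat_lit 78) (nat_lit 0) (nat_lit 0) (XT.lf (nat_lit 0) (nat_lit 50324225494) (nat_lit 76) (nat_lit 10936362774) (nat_lit 76) (nat_lit 3462937592) (nat_lit 4) (nat_lit 4) (nat_lit 5) (nat_lit 5) (nat_lit 5) (nat_lit 4) (nat_lit 317) (nat_lit 212) (nat_lit 191)) (XT.lf (nat_lit 0) (nat_lit 58466746791) (nat_lit 76) (nat_lit 8532062384) (nat_lit 76) (nat_lit 859373572) (nat_lit 4) (nat_lit 4) (nat_lit 5) (nat_lit 5) (nat_lit 5) (nat_lit 4) (nat_lit 318) (nat_lit 212) (nat_lit 190))) (XT.nd (nat_lit 78) (nat_lit 76) (nat_lit 0) (XT.lf (nat_lit 0) (nat_lit 1773160751) (nat_lit 152) (nat_lit 4262947372) (nat_lit 76) (nat_lit 65114934739) (nat_lit 3) (nat_lit 5) (nat_lit 5) (nat_lit 5) (nat_lit 4) (nat_lit 4) (nat_lit 319)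 (nat_lit 212) (nat_lit 189)) (XT.nd (nat_lit 78) (nat_lit 0) (nat_lit 0) (XT.lf (nat_lit 0) (nat_lit 1026900331) (nat_lit 76) (nat_lit 3441130218) (nat_lit 152) (nat_lit 70141874236) (nat_lit 2) (nat_lit 5) (nat_lit 3) (nat_lit 5) (nat_lit 4) (nat_lit 4) (nat_lit 320) (nat_lit 212) (nat_lit 188)) (XT.lf (nat_lit 0) (nat_lit 6566944307) (nat_lit 76) (nat_lit 714965746) (nat_lit 152) (nat_lit 70960337021) (nat_lit 2) (nat_lit 5) (nat_lit 3) (nat_lit 5) (nat_lit 4) (nat_lit 4) (nat_lit 321) (nat_lit 212) (nat_lit 187))))) (XT.nd (nat_lit 156) (nat_lit 0) (nat_lit 0) (XT.nd (nat_lit 78) (nat_lit 0) (nat_lit 0) (XT.lf (nat_lit 0) (nat_lit 10199947887) (nat_lit 152) (nat_lit 69792680358) (nat_lit 0) (nat_lit 2064736447) (nat_lit 2) (nat_lit 5) (nat_lit 4) (nat_lit 4) (nat_lit 2) (nat_lit 4) (nat_lit 322) (nat_lit 212) (nat_lit 186)) (XT.lf (nat_lit 0) (nat_lit 13216647941) (nat_lit 152) (nat_lit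 67918210974) (nat_lit 0) (nat_lit 4929855658) (nat_lit 2) (nat_lit 5) (nat_lit 4) (nat_lit 4) (nat_lit 2) (nat_lit 4) (nat_lit 323) (nat_lit 212) (nat_lit 185))) (XT.nd (nat_lit 78) (nat_lit 0) (nat_lit 0) (XT.lf (nat_lit 0) (nat_lit 16332320144) (nat_lit 152) (nat_lit 66040558904) (nat_lit 0) (nat_lit 7901165153) (nat_lit 2) (nat_lit 5) (nat_lit 4) (nat_lit 4) (nat_lit 2) (nat_lit 4) (nat_lit 324) (nat_lit 212) (nat_lit 184)) (XT.nd (nat_lit 78) (nat_lit 0) (nat_lit 0) (XT.lf (nat_lit 0) (nat_lit 19554382765) (nat_lit 152) (nat_lit 64155253548) (nat_lit 0) (nat_lit 10985739481) (nat_lit 2) (nat_lit 5) (nat_lit 4) (nat_lit 4) (nat_lit 2) (nat_lit 4) (nat_lit 325) (nat_lit 212) (nat_lit 183)) (XT.lf (nat_lit 0) (nat_lit 22890507381) (nat_lit 152) (nat_lit 62257806083) (nat_lit 0) (nat_lit 14190922865) (nat_lit 2) (nat_lit 5) (nat_lit 4) (nat_lit 4) (nat_lit 2) (nat_lit 4) (nat_lit 326) (nat_lit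 212) (nat_lit 182))))))) (XT.nd (nat_lit 35334) (nat_lit 0) (nat_lit 228) (XT.nd (nat_lit 34944) (nat_lit 0) (nat_lit 456) (XT.nd (nat_lit 156) (nat_lit 0) (nat_lit 0) (XT.nd (nat_lit 78) (nat_lit 0) (nat_lit 0) (XT.lf (nat_lit 0) (nat_lit 26348637145) (nat_lit 152) (nat_lit 60343698778) (nat_lit 0) (nat_lit 17524346695) (nat_lit 2) (nat_lit 5) (nat_lit 4) (nat_lit 4) (nat_lit 2) (nat_lit 4) (nat_lit 327) (nat_lit 212) (nat_lit 181)) (XT.lf (nat_lit 0) (nat_lit 29937005701) (nat_lit 152) (nat_lit 58408374235) (nat_lit 0) (nat_lit 20993947694) (nat_lit 2) (nat_lit 5) (nat_lit 4) (nat_lit 4) (nat_lit 2) (nat_lit 4) (nat_lit 328) (nat_lit 212) (nat_lit 180))) (XT.nd (nat_lit 78) (nat_lit 0) (nat_lit 0) (XT.lf (nat_lit 0) (nat_lit 33664156783) (nat_lit 152) (nat_lit 56447224537) (nat_lit 0) (nat_lit 24607986816) (nat_lit 2) (nat_lit 5) (nat_lit 4) (nat_lit 4) (nat_lit 2) (nat_lit 4) (nat_lit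 329) (nat_lit 212) (nat_lit 179)) (XT.nd (nat_lit 78) (nat_lit 0) (nat_lit 0) (XT.lf (nat_lit 0) (nat_lit 37538964559) (nat_lit 152) (nat_lit 54455580280) (nat_lit 0) (nat_lit 28375068918) (nat_lit 2) (nat_lit 5) (nat_lit 4) (nat_lit 4) (nat_lit 2) (nat_lit 4) (nat_lit 330) (nat_lit 212) (nat_lit 178)) (XT.lf (nat_lit 0) (nat_lit 41570654764) (nat_lit 152) (nat_lit 52428699455) (nat_lit 0) (nat_lit 32304163241) (nat_lit 2) (nat_lit 5) (nat_lit 4) (nat_lit 4) (nat_lit 2) (nat_lit 4) (nat_lit 331) (nat_lit 212) (nat_lit 177))))) (XT.nd (nat_lit 156) (nat_lit 152) (nat_lit 0) (XT.nd (nat_lit 78) (nat_lit 0) (nat_lit 0) (XT.lf (nat_lit 0) (nat_lit 1113578406) (nat_lit 152) (nat_lit 5183032410) (nat_lit 152) (nat_lit 5183032410) (nat_lit 10) (nat_lit 4) (nat_lit 12) (nat_lit 5) (nat_lit 12) (nat_lit 4) (nat_lit 294) (nat_lit 213) (nat_lit 213)) (XT.lf (nat_lit 0) (nat_lit 11318416019) (nat_lit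 152) (nat_lit 6619498947) (nat_lit 152) (nat_lit 6001102383) (nat_lit 10) (nat_lit 4) (nat_lit 12) (nat_lit 5) (nat_lit 12) (nat_lit 4) (nat_lit 295) (nat_lit 213) (nat_lit 212))) (XT.nd (nat_lit 78) (nat_lit 152) (nat_lit 0) (XT.lf (nat_lit 0) (nat_lit 20581460954) (nat_lit 152) (nat_lit 2799458590) (nat_lit 152) (nat_lit 1592112918) (nat_lit 10) (nat_lit 4) (nat_lit 12) (nat_lit 5) (nat_lit 12) (nat_lit 4) (nat_lit 296) (nat_lit 213) (nat_lit 211)) (XT.nd (nat_lit 78) (nat_lit 0) (nat_lit 0) (XT.lf (nat_lit 0) (nat_lit 2865325964) (nat_lit 152) (nat_lit 22047562238) (nat_lit 0) (nat_lit 1148578795) (nat_lit 8) (nat_lit 5) (nat_lit 10) (nat_lit 4) (nat_lit 8) (nat_lit 4) (nat_lit 297) (nat_lit 213) (nat_lit 210)) (XT.lf (nat_lit 0) (nat_lit 7428406312) (nat_lit 152) (nat_lit 14585151656) (nat_lit 0) (nat_lit 5193023995) (nat_lit 8) (nat_lit 5) (nat_lit 10) (nat_lit 4) (nat_lit 8) (nat_lit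 4) (nat_lit 298) (nat_lit 213) (nat_lit 209)))))) (XT.nd (nat_lit 390) (nat_lit 152) (nat_lit 0) (XT.nd (nat_lit 156) (nat_lit 0) (nat_lit 0) (XT.nd (nat_lit 78) (nat_lit 76) (nat_lit 0) (XT.lf (nat_lit 0) (nat_lit 12068669446) (nat_lit 152) (nat_lit 7005656349) (nat_lit 0) (nat_lit 9339348893) (nat_lit 8) (nat_lit 5) (nat_lit 10) (nat_lit 4) (nat_lit 8) (nat_lit 4) (nat_lit 299) (nat_lit 213) (nat_lit 208)) (XT.lf (nat_lit 0) (nat_lit 723079996) (nat_lit 76) (nat_lit 16081034301) (nat_lit 76) (nat_lit 12881296380) (nat_lit 7) (nat_lit 4) (nat_lit 8) (nat_lit 5) (nat_lit 8) (nat_lit 4) (nat_lit 300) (nat_lit 213) (nat_lit 207))) (XT.nd (nat_lit 78) (nat_lit 0) (nat_lit 0) (XT.lf (nat_lit 0) (nat_lit 8747796879) (nat_lit 76) (nat_lit 12961439421) (nat_lit 76) (nat_lit 9313684959) (nat_lit 7) (nat_lit 4) (nat_lit 8) (nat_lit 5) (nat_lit 8) (nat_lit 4) (nat_lit 301) (nat_lit 213) (nat_lit 206))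 (XT.nd (nat_lit 78) (nat_lit 0) (nat_lit 0) (XT.lf (nat_lit 0) (nat_lit 16948174469) (nat_lit 76) (nat_lit 9778856940) (nat_lit 76) (nat_lit 5704420059) (nat_lit 7) (nat_lit 4) (nat_lit 8) (nat_lit 5) (nat_lit 8) (nat_lit 4) (nat_lit 302) (nat_lit 213) (nat_lit 205)) (XT.lf (nat_lit 0) (nat_lit 25343737475) (nat_lit 76) (nat_lit 6525709282) (nat_lit 76) (nat_lit 2044908191) (nat_lit 7) (nat_lit 4) (nat_lit 8) (nat_lit 5) (nat_lit 8) (nat_lit 4) (nat_lit 303) (nat_lit 213) (nat_lit 204))))) (XT.nd (nat_lit 234) (nat_lit 0) (nat_lit 0) (XT.nd (nat_lit 78) (nat_lit 76) (nat_lit 0) (XT.lf (nat_lit 0) (nat_lit 1640906508) (nat_lit 152) (nat_lit 1536774411) (nat_lit 76) (nat_lit 32296998886) (nat_lit 6) (nat_lit 5) (nat_lit 8) (nat_lit 5) (nat_lit 7) (nat_lit 4) (nat_lit 304) (nat_lit 213) (nat_lit 203)) (XT.nd (nat_lit 78) (nat_lit 0) (nat_lit 0) (XT.lf (nat_lit 0) (nat_lit 5411726228) (nat_lit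 152) (nat_lit 31374693064) (nat_lit 0) (nat_lit 327843761) (nat_lit 5) (nat_lit 5) (nat_lit 7) (nat_lit 4) (nat_lit 5) (nat_lit 4) (nat_lit 305) (nat_lit 213) (nat_lit 202)) (XT.lf (nat_lit 0) (nat_lit 9306239084) (nat_lit 152) (nat_lit 25650116705) (nat_lit 0) (nat_lit 3881548188) (nat_lit 5) (nat_lit 5) (nat_lit 7) (nat_lit 4) (nat_lit 5) (nat_lit 4) (nat_lit 306) (nat_lit 213) (nat_lit 201)))) (XT.nd (nat_lit 78) (nat_lit 0) (nat_lit 0) (XT.lf (nat_lit 0) (nat_lit 13287956325) (nat_lit 152) (nat_lit 19824437028) (nat_lit 0) (nat_lit 7538685972) (nat_lit 5) (nat_lit 5) (nat_lit 7) (nat_lit 4) (nat_lit 5) (nat_lit 4) (nat_lit 307) (nat_lit 213) (nat_lit 200)) (XT.nd (nat_lit 78) (nat_lit 0) (nat_lit 0) (XT.lf (nat_lit 0) (nat_lit 17366358230) (nat_lit 152) (nat_lit 13883783367) (nat_lit 0) (nat_lit 11307964584) (nat_lit 5) (nat_lit 5) (nat_lit 7) (nat_lit 4) (nat_lit 5) (nat_lit 4) (nat_lit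 308) (nat_lit 213) (nat_lit 199)) (XT.lf (nat_lit 0) (nat_lit 21551155279) (nat_lit 152) (nat_lit 7814011308) (nat_lit 0) (nat_lit 15198358498) (nat_lit 5) (nat_lit 5) (nat_lit 7) (nat_lit 4) (nat_lit 5) (nat_lit 4) (nat_lit 309) (nat_lit 213) (nat_lit 198))))))))
noncomputable def xc9 : XT := (XT.nd (nat_lit 1560) (nat_lit 0) (nat_lit 0) (XT.nd (nat_lit 780) (nat_lit 76) (nat_lit 0) (XT.nd (nat_lit 390) (nat_lit 76) (nat_lit 0) (XT.nd (nat_lit 156) (nat_lit 0) (nat_lit 0) (XT.nd (nat_lit 78) (nat_lit 76) (nat_lit 0) (XT.lf (nat_lit 0) (nat_lit 25852311276) (nat_lit 152) (nat_lit 1600669015) (nat_lit 0) (nat_lit 19219130556) (nat_lit 5) (nat_lit 5) (nat_lit 7) (nat_lit 4) (nat_lit 5) (nat_lit 4) (nat_lit 310) (nat_lit 213) (nat_lit 197)) (XT.lf (nat_lit 0) (nat_lit 4865990181) (nat_lit 76) (nat_lit 25460851760) (nat_lit 76) (nat_lit 18560638718) (nat_lit 4) (nat_lit 4) (nat_lit 5) (nat_lit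 5) (nat_lit 5) (nat_lit 4) (nat_lit 311) (nat_lit 213) (nat_lit 196))) (XT.nd (nat_lit 78) (nat_lit 0) (nat_lit 0) (XT.lf (nat_lit 0) (nat_lit 11541494146) (nat_lit 76) (nat_lit 23414414685) (nat_lit 76) (nat_lit 16259885145) (nat_lit 4) (nat_lit 4) (nat_lit 5) (nat_lit 5) (nat_lit 5) (nat_lit 4) (nat_lit 312) (nat_lit 213) (nat_lit 195)) (XT.nd (nat_lit 78) (nat_lit 0) (nat_lit 0) (XT.lf (nat_lit 0) (nat_lit 18409880485) (nat_lit 76) (nat_lit 21324960214) (nat_lit 76) (nat_lit 13928224486) (nat_lit 4) (nat_lit 4) (nat_lit 5) (nat_lit 5) (nat_lit 5) (nat_lit 4) (nat_lit 313) (nat_lit 213) (nat_lit 194)) (XT.lf (nat_lit 0) (nat_lit 25487502497) (nat_lit 76) (nat_lit 19187513457) (nat_lit 76) (nat_lit 11560105169) (nat_lit 4) (nat_lit 4) (nat_lit 5) (nat_lit 5) (nat_lit 5) (nat_lit 4) (nat_lit 314) (nat_lit 213) (nat_lit 193))))) (XT.nd (nat_lit 156) (nat_lit 76) (nat_lit 0) (XT.nd (nat_lit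 78) (nat_lit 0) (nat_lit 0) (XT.lf (nat_lit 0) (nat_lit 32791211665) (nat_lit 76) (nat_lit 16996985255) (nat_lit 76) (nat_lit 9149888814) (nat_lit 4) (nat_lit 4) (nat_lit 5) (nat_lit 5) (nat_lit 5) (nat_lit 4) (nat_lit 315) (nat_lit 213) (nat_lit 192)) (XT.lf (nat_lit 0) (nat_lit 40338397772) (nat_lit 76) (nat_lit 14748160063) (nat_lit 76) (nat_lit 6691836810) (nat_lit 4) (nat_lit 4) (nat_lit 5) (nat_lit 5) (nat_lit 5) (nat_lit 4) (nat_lit 316) (nat_lit 213) (nat_lit 191))) (XT.nd (nat_lit 78) (nat_lit 76) (nat_lit 0) (XT.lf (nat_lit 0) (nat_lit 48147030308) (nat_lit 76) (nat_lit 12435683537) (nat_lit 76) (nat_lit 4180096653) (nat_lit 4) (nat_lit 4) (nat_lit 5) (nat_lit 5) (nat_lit 5) (nat_lit 4) (nat_lit 317) (nat_lit 213) (nat_lit 190)) (XT.nd (nat_lit 78) (nat_lit 76) (nat_lit 0) (XT.lf (nat_lit 0) (nat_lit 56235701257) (nat_lit 76) (nat_lit 10054049779) (nat_lit 76) (nat_lit 1608688010)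 (nat_lit 4) (nat_lit 4) (nat_lit 5) (nat_lit 5) (nat_lit 5) (nat_lit 4) (nat_lit 318) (nat_lit 213) (nat_lit 189)) (XT.lf (nat_lit 0) (nat_lit 1008441557) (nat_lit 152) (nat_lit 6578963394) (nat_lit 76) (nat_lit 63605044517) (nat_lit 3) (nat_lit 5) (nat_lit 5) (nat_lit 5) (nat_lit 4) (nat_lit 4) (nat_lit 319) (nat_lit 213) (nat_lit 188)))))) (XT.nd (nat_lit 390) (nat_lit 0) (nat_lit 0) (XT.nd (nat_lit 156) (nat_lit 0) (nat_lit 0) (XT.nd (nat_lit 78) (nat_lit 76) (nat_lit 0) (XT.lf (nat_lit 0) (nat_lit 3664843419) (nat_lit 152) (nat_lit 1358599031) (nat_lit 76) (nat_lit 69629054811) (nat_lit 3) (nat_lit 5) (nat_lit 5) (nat_lit 5) (nat_lit 4) (nat_lit 4) (nat_lit 320) (nat_lit 213) (nat_lit 187)) (XT.lf (nat_lit 0) (nat_lit 4106378668) (nat_lit 76) (nat_lit 2331327992) (nat_lit 152) (nat_lit 71848393692) (nat_lit 2) (nat_lit 5) (nat_lit 3) (nat_lit 5) (nat_lit 4) (nat_lit 4) (nat_lit 321)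 (nat_lit 213) (nat_lit 186))) (XT.nd (nat_lit 78) (nat_lit 0) (nat_lit 0) (XT.lf (nat_lit 0) (nat_lit 9313643132) (nat_lit 152) (nat_lit 72327936361) (nat_lit 0) (nat_lit 460930392) (nat_lit 2) (nat_lit 5) (nat_lit 4) (nat_lit 4) (nat_lit 2) (nat_lit 4) (nat_lit 322) (nat_lit 213) (nat_lit 185)) (XT.nd (nat_lit 78) (nat_lit 0) (nat_lit 0) (XT.lf (nat_lit 0) (nat_lit 12305044233) (nat_lit 152) (nat_lit 70497633213) (nat_lit 0) (nat_lit 3307968785) (nat_lit 2) (nat_lit 5) (nat_lit 4) (nat_lit 4) (nat_lit 2) (nat_lit 4) (nat_lit 323) (nat_lit 213) (nat_lit 184)) (XT.lf (nat_lit 0) (nat_lit 15396622197) (nat_lit 152) (nat_lit 68662044224) (nat_lit 0) (nat_lit 6262058455) (nat_lit 2) (nat_lit 5) (nat_lit 4) (nat_lit 4) (nat_lit 2) (nat_lit 4) (nat_lit 324) (nat_lit 213) (nat_lit 183))))) (XT.nd (nat_lit 156) (nat_lit 0) (nat_lit 0) (XT.nd (nat_lit 78) (nat_lit 0) (nat_lit 0) (XT.lf (nat_lit 0)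 (nat_lit 18595737922) (nat_lit 152) (nat_lit 66816798946) (nat_lit 0) (nat_lit 9330232949) (nat_lit 2) (nat_lit 5) (nat_lit 4) (nat_lit 4) (nat_lit 2) (nat_lit 4) (nat_lit 325) (nat_lit 213) (nat_lit 182)) (XT.lf (nat_lit 0) (nat_lit 21910008351) (nat_lit 152) (nat_lit 64957503936) (nat_lit 0) (nat_lit 12519797444) (nat_lit 2) (nat_lit 5) (nat_lit 4) (nat_lit 4) (nat_lit 2) (nat_lit 4) (nat_lit 326) (nat_lit 213) (nat_lit 181))) (XT.nd (nat_lit 78) (nat_lit 0) (nat_lit 0) (XT.lf (nat_lit 0) (nat_lit 25347324605) (nat_lit 152) (nat_lit 63079732303) (nat_lit 0) (nat_lit 15838346141) (nat_lit 2) (nat_lit 5) (nat_lit 4) (nat_lit 4) (nat_lit 2) (nat_lit 4) (nat_lit 327) (nat_lit 213) (nat_lit 180)) (XT.nd (nat_lit 78) (nat_lit 0) (nat_lit 0) (XT.lf (nat_lit 0) (nat_lit 28915870770) (nat_lit 152) (nat_lit 61179013161) (nat_lit 0) (nat_lit 19293780346) (nat_lit 2) (nat_lit 5) (nat_lit 4) (nat_lit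 4) (nat_lit 2) (nat_lit 4) (nat_lit 328) (nat_lit 213) (nat_lit 179)) (XT.lf (nat_lit 0) (nat_lit 32624143383) (nat_lit 152) (nat_lit 59250820988) (nat_lit 0) (nat_lit 22894327285) (nat_lit 2) (nat_lit 5) (nat_lit 4) (nat_lit 4) (nat_lit 2) (nat_lit 4) (nat_lit 329) (nat_lit 213) (nat_lit 178))))))) (XT.nd (nat_lit 35178) (nat_lit 0) (nat_lit 228) (XT.nd (nat_lit 34788) (nat_lit 0) (nat_lit 456) (XT.nd (nat_lit 34554) (nat_lit 0) (nat_lit 608) (XT.nd (nat_lit 78) (nat_lit 0) (nat_lit 0) (XT.lf (nat_lit 0) (nat_lit 36480971667) (nat_lit 152) (nat_lit 57290564850) (nat_lit 0) (nat_lit 26648559687) (nat_lit 2) (nat_lit 5) (nat_lit 4) (nat_lit 4) (nat_lit 2) (nat_lit 4) (nat_lit 330) (nat_lit 213) (nat_lit 177)) (XT.lf (nat_lit 0) (nat_lit 40495538544) (nat_lit 152) (nat_lit 55293577472) (nat_lit 0) (nat_lit 30565416201) (nat_lit 2) (nat_lit 5) (nat_lit 4) (nat_lit 4) (nat_lit 2) (nat_lit 4)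 (nat_lit 331) (nat_lit 213) (nat_lit 176))) (XT.nd (nat_lit 78) (nat_lit 152) (nat_lit 0) (XT.lf (nat_lit 0) (nat_lit 1518010309) (nat_lit 152) (nat_lit 7537073158) (nat_lit 0) (nat_lit 1518010309) (nat_lit 12) (nat_lit 5) (nat_lit 14) (nat_lit 4) (nat_lit 12) (nat_lit 4) (nat_lit 292) (nat_lit 214) (nat_lit 214)) (XT.nd (nat_lit 78) (nat_lit 152) (nat_lit 0) (XT.lf (nat_lit 0) (nat_lit 8047969193) (nat_lit 152) (nat_lit 6582948929) (nat_lit 0) (nat_lit 7398652801) (nat_lit 12) (nat_lit 5) (nat_lit 14) (nat_lit 4) (nat_lit 12) (nat_lit 4) (nat_lit 293) (nat_lit 214) (nat_lit 213)) (XT.lf (nat_lit 0) (nat_lit 2082319693) (nat_lit 152) (nat_lit 11073696579) (nat_lit 152) (nat_lit 9805983624) (nat_lit 10) (nat_lit 4) (nat_lit 12) (nat_lit 5) (nat_lit 12) (nat_lit 4) (nat_lit 294) (nat_lit 214) (nat_lit 212))))) (XT.nd (nat_lit 156) (nat_lit 152) (nat_lit 0) (XT.nd (nat_lit 78) (nat_lit 0) (nat_lit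 0) (XT.lf (nat_lit 0) (nat_lit 11035638787) (nat_lit 152) (nat_lit 7382669149) (nat_lit 152) (nat_lit 5526007086) (nat_lit 10) (nat_lit 4) (nat_lit 12) (nat_lit 5) (nat_lit 12) (nat_lit 4) (nat_lit 295) (nat_lit 214) (nat_lit 211)) (XT.lf (nat_lit 0) (nat_lit 20167312185) (nat_lit 152) (nat_lit 3615522549) (nat_lit 152) (nat_lit 1197956573) (nat_lit 10) (nat_lit 4) (nat_lit 12) (nat_lit 5) (nat_lit 12) (nat_lit 4) (nat_lit 296) (nat_lit 214) (nat_lit 210))) (XT.nd (nat_lit 78) (nat_lit 0) (nat_lit 0) (XT.lf (nat_lit 0) (nat_lit 3162442362) (nat_lit 152) (nat_lit 22612793278) (nat_lit 0) (nat_lit 296655781) (nat_lit 8) (nat_lit 5) (nat_lit 10) (nat_lit 4) (nat_lit 8) (nat_lit 4) (nat_lit 297) (nat_lit 214) (nat_lit 209)) (XT.nd (nat_lit 78) (nat_lit 0) (nat_lit 0) (XT.lf (nat_lit 0) (nat_lit 7651878207) (nat_lit 152) (nat_lit 15275278210) (nat_lit 0) (nat_lit 4292153389) (nat_lit 8) (nat_lit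 5) (nat_lit 10) (nat_lit 4) (nat_lit 8) (nat_lit 4) (nat_lit 298) (nat_lit 214) (nat_lit 208)) (XT.lf (nat_lit 0) (nat_lit 12222003718) (nat_lit 152) (nat_lit 7814731011) (nat_lit 0) (nat_lit 8391861533) (nat_lit 8) (nat_lit 5) (nat_lit 10) (nat_lit 4) (nat_lit 8) (nat_lit 4) (nat_lit 299) (nat_lit 214) (nat_lit 207)))))) (XT.nd (nat_lit 390) (nat_lit 76) (nat_lit 0) (XT.nd (nat_lit 156) (nat_lit 76) (nat_lit 0) (XT.nd (nat_lit 78) (nat_lit 76) (nat_lit 0) (XT.lf (nat_lit 0) (nat_lit 16883700147) (nat_lit 152) (nat_lit 213388472) (nat_lit 0) (nat_lit 12605541421) (nat_lit 8) (nat_lit 5) (nat_lit 10) (nat_lit 4) (nat_lit 8) (nat_lit 4) (nat_lit 300) (nat_lit 214) (nat_lit 206)) (XT.lf (nat_lit 0) (nat_lit 7697044908) (nat_lit 76) (nat_lit 14025010566) (nat_lit 76) (nat_lit 9320169420) (nat_lit 7) (nat_lit 4) (nat_lit 8) (nat_lit 5) (nat_lit 8) (nat_lit 4) (nat_lit 301) (nat_lit 214) (nat_lit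 205))) (XT.nd (nat_lit 78) (nat_lit 76) (nat_lit 0) (XT.lf (nat_lit 0) (nat_lit 15792625687) (nat_lit 76) (nat_lit 10885630011) (nat_lit 76) (nat_lit 5774424656) (nat_lit 7) (nat_lit 4) (nat_lit 8) (nat_lit 5) (nat_lit 8) (nat_lit 4) (nat_lit 302) (nat_lit 214) (nat_lit 204)) (XT.nd (nat_lit 78) (nat_lit 76) (nat_lit 0) (XT.lf (nat_lit 0) (nat_lit 24088382206) (nat_lit 76) (nat_lit 7673627043) (nat_lit 76) (nat_lit 2175408156) (nat_lit 7) (nat_lit 4) (nat_lit 8) (nat_lit 5) (nat_lit 8) (nat_lit 4) (nat_lit 303) (nat_lit 214) (nat_lit 203)) (XT.lf (nat_lit 0) (nat_lit 1456462702) (nat_lit 152) (nat_lit 2910183918) (nat_lit 76) (nat_lit 31132896147) (nat_lit 6) (nat_lit 5) (nat_lit 8) (nat_lit 5) (nat_lit 7) (nat_lit 4) (nat_lit 304) (nat_lit 214) (nat_lit 202))))) (XT.nd (nat_lit 234) (nat_lit 0) (nat_lit 0) (XT.nd (nat_lit 78) (nat_lit 0) (nat_lit 0) (XT.lf (nat_lit 0) (nat_lit 4248650170)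 (nat_lit 76) (nat_lit 907254291) (nat_lit 152) (nat_lit 31985427809) (nat_lit 5) (nat_lit 5) (nat_lit 6) (nat_lit 5) (nat_lit 7) (nat_lit 4) (nat_lit 305) (nat_lit 214) (nat_lit 201)) (XT.nd (nat_lit 78) (nat_lit 0) (nat_lit 0) (XT.lf (nat_lit 0) (nat_lit 8989246840) (nat_lit 152) (nat_lit 27249689780) (nat_lit 0) (nat_lit 2627933512) (nat_lit 5) (nat_lit 5) (nat_lit 7) (nat_lit 4) (nat_lit 5) (nat_lit 4) (nat_lit 306) (nat_lit 214) (nat_lit 200)) (XT.lf (nat_lit 0) (nat_lit 12921012277) (nat_lit 152) (nat_lit 21510014981) (nat_lit 0) (nat_lit 6250575657) (nat_lit 5) (nat_lit 5) (nat_lit 7) (nat_lit 4) (nat_lit 5) (nat_lit 4) (nat_lit 307) (nat_lit 214) (nat_lit 199)))) (XT.nd (nat_lit 78) (nat_lit 0) (nat_lit 0) (XT.lf (nat_lit 0) (nat_lit 16951841035) (nat_lit 152) (nat_lit 15651270728) (nat_lit 0) (nat_lit 9987001279) (nat_lit 5) (nat_lit 5) (nat_lit 7) (nat_lit 4) (nat_lit 5) (nat_lit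 4) (nat_lit 308) (nat_lit 214) (nat_lit 198)) (XT.nd (nat_lit 78) (nat_lit 0) (nat_lit 0) (XT.lf (nat_lit 0) (nat_lit 21091330326) (nat_lit 152) (nat_lit 9659507629) (nat_lit 0) (nat_lit 13846106632) (nat_lit 5) (nat_lit 5) (nat_lit 7) (nat_lit 4) (nat_lit 5) (nat_lit 4) (nat_lit 309) (nat_lit 214) (nat_lit 197)) (XT.lf (nat_lit 0) (nat_lit 25349336076) (nat_lit 152) (nat_lit 3520459583) (nat_lit 0) (nat_lit 17837080059) (nat_lit 5) (nat_lit 5) (nat_lit 7) (nat_lit 4) (nat_lit 5) (nat_lit 4) (nat_lit 310) (nat_lit 214) (nat_lit 196))))))))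
noncomputable def xc10 : XT := (XT.nd (nat_lit 1560) (nat_lit 0) (nat_lit 0) (XT.nd (nat_lit 780) (nat_lit 76) (nat_lit 0) (XT.nd (nat_lit 390) (nat_lit 76) (nat_lit 0) (XT.nd (nat_lit 156) (nat_lit 0) (nat_lit 0) (XT.nd (nat_lit 78) (nat_lit 0) (nat_lit 0) (XT.lf (nat_lit 0) (nat_lit 2835827399) (nat_lit 76) (nat_lit 26927428703) (nat_lit 76) (nat_lit 19160856189) (nat_lit 4) (nat_lit 4) (nat_lit 5) (nat_lit 5) (nat_lit 5) (nat_lit 4) (nat_lit 311) (nat_lit 214) (nat_lit 195)) (XT.lf (nat_lit 0) (nat_lit 9442603157) (nat_lit 76) (nat_lit 24909920632) (nat_lit 76) (nat_lit 16901141930) (nat_lit 4) (nat_lit 4) (nat_lit 5) (nat_lit 5) (nat_lit 5) (nat_lit 4) (nat_lit 312) (nat_lit 214) (nat_lit 194))) (XT.nd (nat_lit 78) (nat_lit 0) (nat_lit 0) (XT.lf (nat_lit 0) (nat_lit 16245534060) (nat_lit 76) (nat_lit 22848017594) (nat_lit 76) (nat_lit 14608566332) (nat_lit 4) (nat_lit 4) (nat_lit 5)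 (nat_lit 5) (nat_lit 5) (nat_lit 4) (nat_lit 313) (nat_lit 214) (nat_lit 193)) (XT.nd (nat_lit 78) (nat_lit 0) (nat_lit 0) (XT.lf (nat_lit 0) (nat_lit 23260817562) (nat_lit 76) (nat_lit 20736810297) (nat_lit 76) (nat_lit 12277670882) (nat_lit 4) (nat_lit 4) (nat_lit 5) (nat_lit 5) (nat_lit 5) (nat_lit 4) (nat_lit 314) (nat_lit 214) (nat_lit 192)) (XT.lf (nat_lit 0) (nat_lit 30505156721) (nat_lit 76) (nat_lit 18571272056) (nat_lit 76) (nat_lit 9902905828) (nat_lit 4) (nat_lit 4) (nat_lit 5) (nat_lit 5) (nat_lit 5) (nat_lit 4) (nat_lit 315) (nat_lit 214) (nat_lit 191))))) (XT.nd (nat_lit 156) (nat_lit 76) (nat_lit 0) (XT.nd (nat_lit 78) (nat_lit 0) (nat_lit 0) (XT.lf (nat_lit 0) (nat_lit 37995799961) (nat_lit 76) (nat_lit 16346246827) (nat_lit 76) (nat_lit 7478616970) (nat_lit 4) (nat_lit 4) (nat_lit 5) (nat_lit 5) (nat_lit 5) (nat_lit 4) (nat_lit 316) (nat_lit 214) (nat_lit 190)) (XT.lf (nat_lit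 0) (nat_lit 45750582149) (nat_lit 76) (nat_lit 14056436933) (nat_lit 76) (nat_lit 4999032189) (nat_lit 4) (nat_lit 4) (nat_lit 5) (nat_lit 5) (nat_lit 5) (nat_lit 4) (nat_lit 317) (nat_lit 214) (nat_lit 189))) (XT.nd (nat_lit 78) (nat_lit 76) (nat_lit 0) (XT.lf (nat_lit 0) (nat_lit 53787967051) (nat_lit 76) (nat_lit 11696390444) (nat_lit 76) (nat_lit 2458247713) (nat_lit 4) (nat_lit 4) (nat_lit 5) (nat_lit 5) (nat_lit 5) (nat_lit 4) (nat_lit 318) (nat_lit 214) (nat_lit 188)) (XT.nd (nat_lit 78) (nat_lit 0) (nat_lit 0) (XT.lf (nat_lit 0) (nat_lit 146863081) (nat_lit 152) (nat_lit 9112142091) (nat_lit 76) (nat_lit 61978745187) (nat_lit 3) (nat_lit 5) (nat_lit 5) (nat_lit 5) (nat_lit 4) (nat_lit 4) (nat_lit 319) (nat_lit 214) (nat_lit 187)) (XT.lf (nat_lit 0) (nat_lit 2776029949) (nat_lit 152) (nat_lit 3938868030) (nat_lit 76) (nat_lit 67983747538) (nat_lit 3) (nat_lit 5) (nat_lit 5) (nat_lit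 5) (nat_lit 4) (nat_lit 4) (nat_lit 320) (nat_lit 214) (nat_lit 186)))))) (XT.nd (nat_lit 390) (nat_lit 0) (nat_lit 0) (XT.nd (nat_lit 156) (nat_lit 0) (nat_lit 0) (XT.nd (nat_lit 78) (nat_lit 0) (nat_lit 0) (XT.lf (nat_lit 0) (nat_lit 1429016789) (nat_lit 76) (nat_lit 4068201873) (nat_lit 152) (nat_lit 72836609056) (nat_lit 2) (nat_lit 5) (nat_lit 3) (nat_lit 5) (nat_lit 4) (nat_lit 4) (nat_lit 321) (nat_lit 214) (nat_lit 185)) (XT.lf (nat_lit 0) (nat_lit 7058303789) (nat_lit 76) (nat_lit 1285210730) (nat_lit 152) (nat_lit 73807639448) (nat_lit 2) (nat_lit 5) (nat_lit 3) (nat_lit 5) (nat_lit 4) (nat_lit 4) (nat_lit 322) (nat_lit 214) (nat_lit 184))) (XT.nd (nat_lit 78) (nat_lit 0) (nat_lit 0) (XT.lf (nat_lit 0) (nat_lit 11298467148) (nat_lit 152) (nat_lit 73292255880) (nat_lit 0) (nat_lit 1569686927) (nat_lit 2) (nat_lit 5) (nat_lit 4) (nat_lit 4) (nat_lit 2) (nat_lit 4) (nat_lit 323) (nat_lit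 214) (nat_lit 183)) (XT.nd (nat_lit 78) (nat_lit 0) (nat_lit 0) (XT.lf (nat_lit 0) (nat_lit 14367098216) (nat_lit 152) (nat_lit 71496726970) (nat_lit 0) (nat_lit 4507376763) (nat_lit 2) (nat_lit 5) (nat_lit 4) (nat_lit 4) (nat_lit 2) (nat_lit 4) (nat_lit 324) (nat_lit 214) (nat_lit 182)) (XT.lf (nat_lit 0) (nat_lit 17544359754) (nat_lit 152) (nat_lit 69689634146) (nat_lit 0) (nat_lit 7559932367) (nat_lit 2) (nat_lit 5) (nat_lit 4) (nat_lit 4) (nat_lit 2) (nat_lit 4) (nat_lit 325) (nat_lit 214) (nat_lit 181))))) (XT.nd (nat_lit 156) (nat_lit 0) (nat_lit 0) (XT.nd (nat_lit 78) (nat_lit 0) (nat_lit 0) (XT.lf (nat_lit 0) (nat_lit 20837816673) (nat_lit 152) (nat_lit 67866674808) (nat_lit 0) (nat_lit 10734621728) (nat_lit 2) (nat_lit 5) (nat_lit 4) (nat_lit 4) (nat_lit 2) (nat_lit 4) (nat_lit 326) (nat_lit 214) (nat_lit 180)) (XT.lf (nat_lit 0) (nat_lit 24255310536) (nat_lit 152) (nat_lit 66023508576)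 (nat_lit 0) (nat_lit 14039003632) (nat_lit 2) (nat_lit 5) (nat_lit 4) (nat_lit 4) (nat_lit 2) (nat_lit 4) (nat_lit 327) (nat_lit 214) (nat_lit 179))) (XT.nd (nat_lit 78) (nat_lit 0) (nat_lit 0) (XT.lf (nat_lit 0) (nat_lit 27804978233) (nat_lit 152) (nat_lit 64155746959) (nat_lit 0) (nat_lit 17480945654) (nat_lit 2) (nat_lit 5) (nat_lit 4) (nat_lit 4) (nat_lit 2) (nat_lit 4) (nat_lit 328) (nat_lit 214) (nat_lit 178)) (XT.nd (nat_lit 78) (nat_lit 0) (nat_lit 0) (XT.lf (nat_lit 0) (nat_lit 31495271353) (nat_lit 152) (nat_lit 62258942905) (nat_lit 0) (nat_lit 21068642893) (nat_lit 2) (nat_lit 5) (nat_lit 4) (nat_lit 4) (nat_lit 2) (nat_lit 4) (nat_lit 329) (nat_lit 214) (nat_lit 177)) (XT.lf (nat_lit 0) (nat_lit 35334976310) (nat_lit 152) (nat_lit 60328580215) (nat_lit 0) (nat_lit 24810637486) (nat_lit 2) (nat_lit 5) (nat_lit 4) (nat_lit 4) (nat_lit 2) (nat_lit 4) (nat_lit 330) (nat_lit 214)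 (nat_lit 176))))))) (XT.nd (nat_lit 35022) (nat_lit 0) (nat_lit 228) (XT.nd (nat_lit 34632) (nat_lit 0) (nat_lit 456) (XT.nd (nat_lit 34398) (nat_lit 0) (nat_lit 760) (XT.nd (nat_lit 34320) (nat_lit 0) (nat_lit 912) (XT.lf (nat_lit 0) (nat_lit 39333235257) (nat_lit 152) (nat_lit 58360062786) (nat_lit 0) (nat_lit 28715838945) (nat_lit 2) (nat_lit 5) (nat_lit 4) (nat_lit 4) (nat_lit 2) (nat_lit 4) (nat_lit 331) (nat_lit 214) (nat_lit 175)) (XT.lf (nat_lit 0) (nat_lit 3782620333) (nat_lit 152) (nat_lit 2986220082) (nat_lit 152) (nat_lit 2986220082) (nat_lit 14) (nat_lit 4) (nat_lit 16) (nat_lit 5) (nat_lit 16) (nat_lit 4) (nat_lit 290) (nat_lit 215) (nat_lit 215))) (XT.nd (nat_lit 78) (nat_lit 152) (nat_lit 0) (XT.lf (nat_lit 0) (nat_lit 17197551367) (nat_lit 152) (nat_lit 1906605058) (nat_lit 152) (nat_lit 1204369381) (nat_lit 14) (nat_lit 4) (nat_lit 16) (nat_lit 5) (nat_lit 16) (nat_lit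 4) (nat_lit 291) (nat_lit 215) (nat_lit 214)) (XT.nd (nat_lit 78) (nat_lit 0) (nat_lit 0) (XT.lf (nat_lit 0) (nat_lit 3628416867) (nat_lit 152) (nat_lit 15223257683) (nat_lit 0) (nat_lit 2297318264) (nat_lit 12) (nat_lit 5) (nat_lit 14) (nat_lit 4) (nat_lit 12) (nat_lit 4) (nat_lit 292) (nat_lit 215) (nat_lit 213)) (XT.lf (nat_lit 0) (nat_lit 8555235951) (nat_lit 152) (nat_lit 6874071121) (nat_lit 0) (nat_lit 6605740784) (nat_lit 12) (nat_lit 5) (nat_lit 14) (nat_lit 4) (nat_lit 12) (nat_lit 4) (nat_lit 293) (nat_lit 215) (nat_lit 212))))) (XT.nd (nat_lit 156) (nat_lit 152) (nat_lit 0) (XT.nd (nat_lit 78) (nat_lit 0) (nat_lit 0) (XT.lf (nat_lit 0) (nat_lit 1647463486) (nat_lit 152) (nat_lit 11930563736) (nat_lit 152) (nat_lit 9392119462) (nat_lit 10) (nat_lit 4) (nat_lit 12) (nat_lit 5) (nat_lit 12) (nat_lit 4) (nat_lit 294) (nat_lit 215) (nat_lit 211)) (XT.lf (nat_lit 0) (nat_lit 10469411044)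 (nat_lit 152) (nat_lit 8292430063) (nat_lit 152) (nat_lit 5193081875) (nat_lit 10) (nat_lit 4) (nat_lit 12) (nat_lit 5) (nat_lit 12) (nat_lit 4) (nat_lit 295) (nat_lit 215) (nat_lit 210))) (XT.nd (nat_lit 78) (nat_lit 152) (nat_lit 0) (XT.lf (nat_lit 0) (nat_lit 19475968694) (nat_lit 152) (nat_lit 4575658468) (nat_lit 152) (nat_lit 942116078) (nat_lit 10) (nat_lit 4) (nat_lit 12) (nat_lit 5) (nat_lit 12) (nat_lit 4) (nat_lit 296) (nat_lit 215) (nat_lit 209)) (XT.nd (nat_lit 78) (nat_lit 0) (nat_lit 0) (XT.lf (nat_lit 0) (nat_lit 2618186889) (nat_lit 76) (nat_lit 712101614) (nat_lit 152) (nat_lit 22757065215) (nat_lit 8) (nat_lit 5) (nat_lit 9) (nat_lit 5) (nat_lit 10) (nat_lit 4) (nat_lit 297) (nat_lit 215) (nat_lit 208)) (XT.lf (nat_lit 0) (nat_lit 7742741569) (nat_lit 152) (nat_lit 16243754713) (nat_lit 0) (nat_lit 3250674907) (nat_lit 8) (nat_lit 5) (nat_lit 10) (nat_lit 4) (nat_lit 8)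 (nat_lit 4) (nat_lit 298) (nat_lit 215) (nat_lit 207)))))) (XT.nd (nat_lit 390) (nat_lit 152) (nat_lit 0) (XT.nd (nat_lit 156) (nat_lit 76) (nat_lit 0) (XT.nd (nat_lit 78) (nat_lit 0) (nat_lit 0) (XT.lf (nat_lit 0) (nat_lit 12246069345) (nat_lit 152) (nat_lit 8896491427) (nat_lit 0) (nat_lit 7305986142) (nat_lit 8) (nat_lit 5) (nat_lit 10) (nat_lit 4) (nat_lit 8) (nat_lit 4) (nat_lit 299) (nat_lit 215) (nat_lit 206)) (XT.lf (nat_lit 0) (nat_lit 16844148883) (nat_lit 152) (nat_lit 1403038329) (nat_lit 0) (nat_lit 11477383260) (nat_lit 8) (nat_lit 5) (nat_lit 10) (nat_lit 4) (nat_lit 8) (nat_lit 4) (nat_lit 300) (nat_lit 215) (nat_lit 205))) (XT.nd (nat_lit 78) (nat_lit 0) (nat_lit 0) (XT.lf (nat_lit 0) (nat_lit 6378921876) (nat_lit 76) (nat_lit 15230324215) (nat_lit 76) (nat_lit 9457194383) (nat_lit 7) (nat_lit 4) (nat_lit 8) (nat_lit 5) (nat_lit 8) (nat_lit 4) (nat_lit 301) (nat_lit 215)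 (nat_lit 204)) (XT.nd (nat_lit 78) (nat_lit 0) (nat_lit 0) (XT.lf (nat_lit 0) (nat_lit 14374696167) (nat_lit 76) (nat_lit 12132088350) (nat_lit 76) (nat_lit 5971944986) (nat_lit 7) (nat_lit 4) (nat_lit 8) (nat_lit 5) (nat_lit 8) (nat_lit 4) (nat_lit 302) (nat_lit 215) (nat_lit 203)) (XT.lf (nat_lit 0) (nat_lit 22575398889) (nat_lit 76) (nat_lit 8959270803) (nat_lit 76) (nat_lit 2430543121) (nat_lit 7) (nat_lit 4) (nat_lit 8) (nat_lit 5) (nat_lit 8) (nat_lit 4) (nat_lit 303) (nat_lit 215) (nat_lit 202))))) (XT.nd (nat_lit 234) (nat_lit 0) (nat_lit 0) (XT.nd (nat_lit 78) (nat_lit 76) (nat_lit 0) (XT.lf (nat_lit 0) (nat_lit 1152505989) (nat_lit 152) (nat_lit 4540173204) (nat_lit 76) (nat_lit 29836411483) (nat_lit 6) (nat_lit 5) (nat_lit 8) (nat_lit 5) (nat_lit 7) (nat_lit 4) (nat_lit 304) (nat_lit 215) (nat_lit 201)) (XT.nd (nat_lit 78) (nat_lit 0) (nat_lit 0) (XT.lf (nat_lit 0) (nat_lit 2497185331)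 (nat_lit 76) (nat_lit 2286687839) (nat_lit 152) (nat_lit 32389111072) (nat_lit 5) (nat_lit 5) (nat_lit 6) (nat_lit 5) (nat_lit 7) (nat_lit 4) (nat_lit 305) (nat_lit 215) (nat_lit 200)) (XT.lf (nat_lit 0) (nat_lit 8554003785) (nat_lit 152) (nat_lit 29105551509) (nat_lit 0) (nat_lit 1240922042) (nat_lit 5) (nat_lit 5) (nat_lit 7) (nat_lit 4) (nat_lit 5) (nat_lit 4) (nat_lit 306) (nat_lit 215) (nat_lit 199)))) (XT.nd (nat_lit 78) (nat_lit 0) (nat_lit 0) (XT.lf (nat_lit 0) (nat_lit 12438196076) (nat_lit 152) (nat_lit 23447786118) (nat_lit 0) (nat_lit 4830711197) (nat_lit 5) (nat_lit 5) (nat_lit 7) (nat_lit 4) (nat_lit 5) (nat_lit 4) (nat_lit 307) (nat_lit 215) (nat_lit 198)) (XT.nd (nat_lit 78) (nat_lit 0) (nat_lit 0) (XT.lf (nat_lit 0) (nat_lit 16423717075) (nat_lit 152) (nat_lit 17667050824) (nat_lit 0) (nat_lit 8535848258) (nat_lit 5) (nat_lit 5) (nat_lit 7) (nat_lit 4) (nat_lit 5) (nat_lit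 4) (nat_lit 308) (nat_lit 215) (nat_lit 197)) (XT.lf (nat_lit 0) (nat_lit 20520056120) (nat_lit 152) (nat_lit 11749581973) (nat_lit 0) (nat_lit 12365154980) (nat_lit 5) (nat_lit 5) (nat_lit 7) (nat_lit 4) (nat_lit 5) (nat_lit 4) (nat_lit 309) (nat_lit 215) (nat_lit 196))))))))
noncomputable def xc11 : XT := (XT.nd (nat_lit 1638) (nat_lit 0) (nat_lit 0) (XT.nd (nat_lit 780) (nat_lit 152) (nat_lit 0) (XT.nd (nat_lit 390) (nat_lit 0) (nat_lit 0) (XT.nd (nat_lit 156) (nat_lit 0) (nat_lit 0) (XT.nd (nat_lit 78) (nat_lit 76) (nat_lit 0) (XT.lf (nat_lit 0) (nat_lit 24736966397) (nat_lit 152) (nat_lit 5681290352) (nat_lit 0) (nat_lit 16327748760) (nat_lit 5) (nat_lit 5) (nat_lit 7) (nat_lit 4) (nat_lit 5) (nat_lit 4) (nat_lit 310) (nat_lit 215) (nat_lit 195)) (XT.lf (nat_lit 0) (nat_lit 563263653) (nat_lit 76) (nat_lit 28526638952) (nat_lit 76) (nat_lit 19875215126) (nat_lit 4) (nat_lit 4) (nat_lit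 5) (nat_lit 5) (nat_lit 5) (nat_lit 4) (nat_lit 311) (nat_lit 215) (nat_lit 194))) (XT.nd (nat_lit 78) (nat_lit 0) (nat_lit 0) (XT.lf (nat_lit 0) (nat_lit 7104583975) (nat_lit 76) (nat_lit 26536682314) (nat_lit 76) (nat_lit 17654585928) (nat_lit 4) (nat_lit 4) (nat_lit 5) (nat_lit 5) (nat_lit 5) (nat_lit 4) (nat_lit 312) (nat_lit 215) (nat_lit 193)) (XT.nd (nat_lit 78) (nat_lit 0) (nat_lit 0) (XT.lf (nat_lit 0) (nat_lit 13845176368) (nat_lit 76) (nat_lit 24501018736) (nat_lit 76) (nat_lit 15399234197) (nat_lit 4) (nat_lit 4) (nat_lit 5) (nat_lit 5) (nat_lit 5) (nat_lit 4) (nat_lit 313) (nat_lit 215) (nat_lit 192)) (XT.lf (nat_lit 0) (nat_lit 20801089861) (nat_lit 76) (nat_lit 22414801400) (nat_lit 76) (nat_lit 13103790049) (nat_lit 4) (nat_lit 4) (nat_lit 5) (nat_lit 5) (nat_lit 5) (nat_lit 4) (nat_lit 314) (nat_lit 215) (nat_lit 191))))) (XT.nd (nat_lit 156) (nat_lit 0) (nat_lit 0) (XT.nd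 (nat_lit 78) (nat_lit 0) (nat_lit 0) (XT.lf (nat_lit 0) (nat_lit 27988886153) (nat_lit 76) (nat_lit 20273063122) (nat_lit 76) (nat_lit 10762788141) (nat_lit 4) (nat_lit 4) (nat_lit 5) (nat_lit 5) (nat_lit 5) (nat_lit 4) (nat_lit 315) (nat_lit 215) (nat_lit 190)) (XT.lf (nat_lit 0) (nat_lit 35425679045) (nat_lit 76) (nat_lit 18070704525) (nat_lit 76) (nat_lit 8370654658) (nat_lit 4) (nat_lit 4) (nat_lit 5) (nat_lit 5) (nat_lit 5) (nat_lit 4) (nat_lit 316) (nat_lit 215) (nat_lit 189))) (XT.nd (nat_lit 78) (nat_lit 0) (nat_lit 0) (XT.lf (nat_lit 0) (nat_lit 43129175187) (nat_lit 76) (nat_lit 15802481899) (nat_lit 76) (nat_lit 5921694045) (nat_lit 4) (nat_lit 4) (nat_lit 5) (nat_lit 5) (nat_lit 5) (nat_lit 4) (nat_lit 317) (nat_lit 215) (nat_lit 188)) (XT.nd (nat_lit 78) (nat_lit 0) (nat_lit 0) (XT.lf (nat_lit 0) (nat_lit 51117716235) (nat_lit 76) (nat_lit 13462994713) (nat_lit 76) (nat_lit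 3410075443) (nat_lit 4) (nat_lit 4) (nat_lit 5) (nat_lit 5) (nat_lit 5) (nat_lit 4) (nat_lit 318) (nat_lit 215) (nat_lit 187)) (XT.lf (nat_lit 0) (nat_lit 59410322526) (nat_lit 76) (nat_lit 11046672760) (nat_lit 76) (nat_lit 829818808) (nat_lit 4) (nat_lit 4) (nat_lit 5) (nat_lit 5) (nat_lit 5) (nat_lit 4) (nat_lit 319) (nat_lit 215) (nat_lit 186)))))) (XT.nd (nat_lit 390) (nat_lit 0) (nat_lit 0) (XT.nd (nat_lit 156) (nat_lit 76) (nat_lit 0) (XT.nd (nat_lit 78) (nat_lit 0) (nat_lit 0) (XT.lf (nat_lit 0) (nat_lit 1789602725) (nat_lit 152) (nat_lit 6740088688) (nat_lit 76) (nat_lit 66219064156) (nat_lit 3) (nat_lit 5) (nat_lit 5) (nat_lit 5) (nat_lit 4) (nat_lit 4) (nat_lit 320) (nat_lit 215) (nat_lit 185)) (XT.lf (nat_lit 0) (nat_lit 4472351913) (nat_lit 152) (nat_lit 1442801424) (nat_lit 76) (nat_lit 72469965115) (nat_lit 3) (nat_lit 5) (nat_lit 5) (nat_lit 5) (nat_lit 4) (nat_lit 4) (nat_lit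 321) (nat_lit 215) (nat_lit 184))) (XT.nd (nat_lit 78) (nat_lit 0) (nat_lit 0) (XT.lf (nat_lit 0) (nat_lit 4116283045) (nat_lit 76) (nat_lit 3164294194) (nat_lit 152) (nat_lit 74923035767) (nat_lit 2) (nat_lit 5) (nat_lit 3) (nat_lit 5) (nat_lit 4) (nat_lit 4) (nat_lit 322) (nat_lit 215) (nat_lit 183)) (XT.nd (nat_lit 78) (nat_lit 0) (nat_lit 0) (XT.lf (nat_lit 0) (nat_lit 9902471755) (nat_lit 76) (nat_lit 294882911) (nat_lit 152) (nat_lit 76016684524) (nat_lit 2) (nat_lit 5) (nat_lit 3) (nat_lit 5) (nat_lit 4) (nat_lit 4) (nat_lit 323) (nat_lit 215) (nat_lit 182)) (XT.lf (nat_lit 0) (nat_lit 13241296954) (nat_lit 152) (nat_lit 74551356385) (nat_lit 0) (nat_lit 2632942262) (nat_lit 2) (nat_lit 5) (nat_lit 4) (nat_lit 4) (nat_lit 2) (nat_lit 4) (nat_lit 324) (nat_lit 215) (nat_lit 181))))) (XT.nd (nat_lit 234) (nat_lit 0) (nat_lit 0) (XT.nd (nat_lit 78) (nat_lit 0) (nat_lit 0) (XT.lf (nat_lit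 0) (nat_lit 16397744982) (nat_lit 152) (nat_lit 72780599234) (nat_lit 0) (nat_lit 5670622733) (nat_lit 2) (nat_lit 5) (nat_lit 4) (nat_lit 4) (nat_lit 2) (nat_lit 4) (nat_lit 325) (nat_lit 215) (nat_lit 180)) (XT.nd (nat_lit 78) (nat_lit 0) (nat_lit 0) (XT.lf (nat_lit 0) (nat_lit 19671379509) (nat_lit 152) (nat_lit 70992245297) (nat_lit 0) (nat_lit 8831145301) (nat_lit 2) (nat_lit 5) (nat_lit 4) (nat_lit 4) (nat_lit 2) (nat_lit 4) (nat_lit 326) (nat_lit 215) (nat_lit 179)) (XT.lf (nat_lit 0) (nat_lit 23069994904) (nat_lit 152) (nat_lit 69182036590) (nat_lit 0) (nat_lit 12122035021) (nat_lit 2) (nat_lit 5) (nat_lit 4) (nat_lit 4) (nat_lit 2) (nat_lit 4) (nat_lit 327) (nat_lit 215) (nat_lit 178)))) (XT.nd (nat_lit 78) (nat_lit 0) (nat_lit 0) (XT.lf (nat_lit 0) (nat_lit 26601683107) (nat_lit 152) (nat_lit 67345663092) (nat_lit 0) (nat_lit 15551127343) (nat_lit 2) (nat_lit 5) (nat_lit 4) (nat_lit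 4) (nat_lit 2) (nat_lit 4) (nat_lit 328) (nat_lit 215) (nat_lit 177)) (XT.nd (nat_lit 78) (nat_lit 0) (nat_lit 0) (XT.lf (nat_lit 0) (nat_lit 30274852901) (nat_lit 152) (nat_lit 65478752485) (nat_lit 0) (nat_lit 19126586774) (nat_lit 2) (nat_lit 5) (nat_lit 4) (nat_lit 4) (nat_lit 2) (nat_lit 4) (nat_lit 329) (nat_lit 215) (nat_lit 176)) (XT.lf (nat_lit 0) (nat_lit 34098249927) (nat_lit 152) (nat_lit 63576859744) (nat_lit 0) (nat_lit 22856926311) (nat_lit 2) (nat_lit 5) (nat_lit 4) (nat_lit 4) (nat_lit 2) (nat_lit 4) (nat_lit 330) (nat_lit 215) (nat_lit 175))))))) (XT.nd (nat_lit 34866) (nat_lit 0) (nat_lit 228) (XT.nd (nat_lit 34476) (nat_lit 0) (nat_lit 608) (XT.nd (nat_lit 34242) (nat_lit 0) (nat_lit 912) (XT.nd (nat_lit 34164) (nat_lit 0) (nat_lit 1064) (XT.lf (nat_lit 0) (nat_lit 38080977512) (nat_lit 152) (nat_lit 61635456552) (nat_lit 0) (nat_lit 26751027717) (nat_lit 2) (nat_lit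 5) (nat_lit 4) (nat_lit 4) (nat_lit 2) (nat_lit 4) (nat_lit 331) (nat_lit 215) (nat_lit 174)) (XT.lf (nat_lit 0) (nat_lit 1797154677) (nat_lit 152) (nat_lit 5423747180) (nat_lit 0) (nat_lit 1797154677) (nat_lit 16) (nat_lit 5) (nat_lit 18) (nat_lit 4) (nat_lit 16) (nat_lit 4) (nat_lit 288) (nat_lit 216) (nat_lit 216))) (XT.nd (nat_lit 78) (nat_lit 152) (nat_lit 0) (XT.lf (nat_lit 0) (nat_lit 8814692596) (nat_lit 152) (nat_lit 1862726790) (nat_lit 0) (nat_lit 8077345135) (nat_lit 16) (nat_lit 5) (nat_lit 18) (nat_lit 4) (nat_lit 16) (nat_lit 4) (nat_lit 289) (nat_lit 216) (nat_lit 215)) (XT.nd (nat_lit 78) (nat_lit 0) (nat_lit 0) (XT.lf (nat_lit 0) (nat_lit 7415981817) (nat_lit 152) (nat_lit 6768289395) (nat_lit 152) (nat_lit 5328706255) (nat_lit 14) (nat_lit 4) (nat_lit 16) (nat_lit 5) (nat_lit 16) (nat_lit 4) (nat_lit 290) (nat_lit 216) (nat_lit 214)) (XT.lf (nat_lit 0) (nat_lit 16906141232)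 (nat_lit 152) (nat_lit 2758170259) (nat_lit 152) (nat_lit 649791236) (nat_lit 14) (nat_lit 4) (nat_lit 16) (nat_lit 5) (nat_lit 16) (nat_lit 4) (nat_lit 291) (nat_lit 216) (nat_lit 213))))) (XT.nd (nat_lit 156) (nat_lit 152) (nat_lit 0) (XT.nd (nat_lit 78) (nat_lit 0) (nat_lit 0) (XT.lf (nat_lit 0) (nat_lit 4075917474) (nat_lit 152) (nat_lit 15670946809) (nat_lit 0) (nat_lit 1410550985) (nat_lit 12) (nat_lit 5) (nat_lit 14) (nat_lit 4) (nat_lit 12) (nat_lit 4) (nat_lit 292) (nat_lit 216) (nat_lit 212)) (XT.lf (nat_lit 0) (nat_lit 8921660854) (nat_lit 152) (nat_lit 7457008651) (nat_lit 0) (nat_lit 5667345257) (nat_lit 12) (nat_lit 5) (nat_lit 14) (nat_lit 4) (nat_lit 12) (nat_lit 4) (nat_lit 293) (nat_lit 216) (nat_lit 211))) (XT.nd (nat_lit 78) (nat_lit 0) (nat_lit 0) (XT.lf (nat_lit 0) (nat_lit 921552820) (nat_lit 152) (nat_lit 12938706452) (nat_lit 152) (nat_lit 9123486943) (nat_lit 10)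 (nat_lit 4) (nat_lit 12) (nat_lit 5) (nat_lit 12) (nat_lit 4) (nat_lit 294) (nat_lit 216) (nat_lit 210)) (XT.nd (nat_lit 78) (nat_lit 0) (nat_lit 0) (XT.lf (nat_lit 0) (nat_lit 9618384628) (nat_lit 152) (nat_lit 9350947785) (nat_lit 152) (nat_lit 5001534073) (nat_lit 10) (nat_lit 4) (nat_lit 12) (nat_lit 5) (nat_lit 12) (nat_lit 4) (nat_lit 295) (nat_lit 216) (nat_lit 209)) (XT.lf (nat_lit 0) (nat_lit 18505784422) (nat_lit 152) (nat_lit 5682152386) (nat_lit 152) (nat_lit 823982291) (nat_lit 10) (nat_lit 4) (nat_lit 12) (nat_lit 5) (nat_lit 12) (nat_lit 4) (nat_lit 296) (nat_lit 216) (nat_lit 208)))))) (XT.nd (nat_lit 390) (nat_lit 152) (nat_lit 0) (XT.nd (nat_lit 156) (nat_lit 76) (nat_lit 0) (XT.nd (nat_lit 78) (nat_lit 0) (nat_lit 0) (XT.lf (nat_lit 0) (nat_lit 1491773165) (nat_lit 76) (nat_lit 1874962375) (nat_lit 152) (nat_lit 22741231019) (nat_lit 8) (nat_lit 5) (nat_lit 9) (nat_lit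 5) (nat_lit 10) (nat_lit 4) (nat_lit 297) (nat_lit 216) (nat_lit 207)) (XT.lf (nat_lit 0) (nat_lit 7701212743) (nat_lit 152) (nat_lit 17492887063) (nat_lit 0) (nat_lit 2066108839) (nat_lit 8) (nat_lit 5) (nat_lit 10) (nat_lit 4) (nat_lit 8) (nat_lit 4) (nat_lit 298) (nat_lit 216) (nat_lit 206))) (XT.nd (nat_lit 78) (nat_lit 76) (nat_lit 0) (XT.lf (nat_lit 0) (nat_lit 12140923627) (nat_lit 152) (nat_lit 10253513217) (nat_lit 0) (nat_lit 6079137304) (nat_lit 8) (nat_lit 5) (nat_lit 10) (nat_lit 4) (nat_lit 8) (nat_lit 4) (nat_lit 299) (nat_lit 216) (nat_lit 205)) (XT.nd (nat_lit 78) (nat_lit 76) (nat_lit 0) (XT.lf (nat_lit 0) (nat_lit 16678415650) (nat_lit 152) (nat_lit 2862811967) (nat_lit 0) (nat_lit 10210265117) (nat_lit 8) (nat_lit 5) (nat_lit 10) (nat_lit 4) (nat_lit 8) (nat_lit 4) (nat_lit 300) (nat_lit 216) (nat_lit 204)) (XT.lf (nat_lit 0) (nat_lit 4790289392) (nat_lit 76) (nat_lit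 16580250162) (nat_lit 76) (nat_lit 9725086097) (nat_lit 7) (nat_lit 4) (nat_lit 8) (nat_lit 5) (nat_lit 8) (nat_lit 4) (nat_lit 301) (nat_lit 216) (nat_lit 203))))) (XT.nd (nat_lit 234) (nat_lit 76) (nat_lit 0) (XT.nd (nat_lit 78) (nat_lit 76) (nat_lit 0) (XT.lf (nat_lit 0) (nat_lit 12691009887) (nat_lit 76) (nat_lit 13521199717) (nat_lit 76) (nat_lit 6297451335) (nat_lit 7) (nat_lit 4) (nat_lit 8) (nat_lit 5) (nat_lit 8) (nat_lit 4) (nat_lit 302) (nat_lit 216) (nat_lit 202)) (XT.nd (nat_lit 78) (nat_lit 76) (nat_lit 0) (XT.lf (nat_lit 0) (nat_lit 20801185182) (nat_lit 76) (nat_lit 10385701617) (nat_lit 76) (nat_lit 2810920552) (nat_lit 7) (nat_lit 4) (nat_lit 8) (nat_lit 5) (nat_lit 8) (nat_lit 4) (nat_lit 303) (nat_lit 216) (nat_lit 201)) (XT.lf (nat_lit 0) (nat_lit 728312665) (nat_lit 152) (nat_lit 6430623194) (nat_lit 76) (nat_lit 28404458026) (nat_lit 6) (nat_lit 5) (nat_lit 8) (nat_lit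 5) (nat_lit 7) (nat_lit 4) (nat_lit 304) (nat_lit 216) (nat_lit 200)))) (XT.nd (nat_lit 78) (nat_lit 0) (nat_lit 0) (XT.lf (nat_lit 0) (nat_lit 484315897) (nat_lit 76) (nat_lit 3807216513) (nat_lit 152) (nat_lit 32917858343) (nat_lit 5) (nat_lit 5) (nat_lit 6) (nat_lit 5) (nat_lit 7) (nat_lit 4) (nat_lit 305) (nat_lit 216) (nat_lit 199)) (XT.nd (nat_lit 78) (nat_lit 0) (nat_lit 0) (XT.lf (nat_lit 0) (nat_lit 7713829387) (nat_lit 76) (nat_lit 288416678) (nat_lit 152) (nat_lit 30936476370) (nat_lit 5) (nat_lit 5) (nat_lit 6) (nat_lit 5) (nat_lit 7) (nat_lit 4) (nat_lit 306) (nat_lit 216) (nat_lit 198)) (XT.lf (nat_lit 0) (nat_lit 11838358159) (nat_lit 152) (nat_lit 25642364179) (nat_lit 0) (nat_lit 3275711962) (nat_lit 5) (nat_lit 5) (nat_lit 7) (nat_lit 4) (nat_lit 5) (nat_lit 4) (nat_lit 307) (nat_lit 216) (nat_lit 197))))))))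
noncomputable def xc12 : XT := (XT.nd (nat_lit 1560) (nat_lit 0) (nat_lit 0) (XT.nd (nat_lit 780) (nat_lit 152) (nat_lit 0) (XT.nd (nat_lit 390) (nat_lit 0) (nat_lit 0) (XT.nd (nat_lit 156) (nat_lit 76) (nat_lit 0) (XT.nd (nat_lit 78) (nat_lit 0) (nat_lit 0) (XT.lf (nat_lit 0) (nat_lit 15780728913) (nat_lit 152) (nat_lit 19935923132) (nat_lit 0) (nat_lit 6951050393) (nat_lit 5) (nat_lit 5) (nat_lit 7) (nat_lit 4) (nat_lit 5) (nat_lit 4) (nat_lit 308) (nat_lit 216) (nat_lit 196)) (XT.lf (nat_lit 0) (nat_lit 19835972484) (nat_lit 152) (nat_lit 14089210707) (nat_lit 0) (nat_lit 10751977467) (nat_lit 5) (nat_lit 5) (nat_lit 7) (nat_lit 4) (nat_lit 5) (nat_lit 4) (nat_lit 309) (nat_lit 216) (nat_lit 195))) (XT.nd (nat_lit 78) (nat_lit 76) (nat_lit 0) (XT.lf (nat_lit 0) (nat_lit 24013744216) (nat_lit 152) (nat_lit 8088306159) (nat_lit 0) (nat_lit 14687543011) (nat_lit 5) (nat_lit 5) (nat_lit 7)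 (nat_lit 4) (nat_lit 5) (nat_lit 4) (nat_lit 310) (nat_lit 216) (nat_lit 194)) (XT.nd (nat_lit 78) (nat_lit 76) (nat_lit 0) (XT.lf (nat_lit 0) (nat_lit 28323991185) (nat_lit 152) (nat_lit 1918921620) (nat_lit 0) (nat_lit 18767117419) (nat_lit 5) (nat_lit 5) (nat_lit 7) (nat_lit 4) (nat_lit 5) (nat_lit 4) (nat_lit 311) (nat_lit 216) (nat_lit 193)) (XT.lf (nat_lit 0) (nat_lit 4521869889) (nat_lit 76) (nat_lit 28298572972) (nat_lit 76) (nat_lit 18522011053) (nat_lit 4) (nat_lit 4) (nat_lit 5) (nat_lit 5) (nat_lit 5) (nat_lit 4) (nat_lit 312) (nat_lit 216) (nat_lit 192))))) (XT.nd (nat_lit 156) (nat_lit 0) (nat_lit 0) (XT.nd (nat_lit 78) (nat_lit 0) (nat_lit 0) (XT.lf (nat_lit 0) (nat_lit 11203092272) (nat_lit 76) (nat_lit 26287899355) (nat_lit 76) (nat_lit 16302110625) (nat_lit 4) (nat_lit 4) (nat_lit 5) (nat_lit 5) (nat_lit 5) (nat_lit 4) (nat_lit 313) (nat_lit 216) (nat_lit 191)) (XT.lf (nat_lit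 0) (nat_lit 18102462899) (nat_lit 76) (nat_lit 24225481982) (nat_lit 76) (nat_lit 14040429622) (nat_lit 4) (nat_lit 4) (nat_lit 5) (nat_lit 5) (nat_lit 5) (nat_lit 4) (nat_lit 314) (nat_lit 216) (nat_lit 190))) (XT.nd (nat_lit 78) (nat_lit 0) (nat_lit 0) (XT.lf (nat_lit 0) (nat_lit 25236408843) (nat_lit 76) (nat_lit 22106410336) (nat_lit 76) (nat_lit 11731583090) (nat_lit 4) (nat_lit 4) (nat_lit 5) (nat_lit 5) (nat_lit 5) (nat_lit 4) (nat_lit 315) (nat_lit 216) (nat_lit 189)) (XT.nd (nat_lit 78) (nat_lit 0) (nat_lit 0) (XT.lf (nat_lit 0) (nat_lit 32621915688) (nat_lit 76) (nat_lit 19925639008) (nat_lit 76) (nat_lit 9370073775) (nat_lit 4) (nat_lit 4) (nat_lit 5) (nat_lit 5) (nat_lit 5) (nat_lit 4) (nat_lit 316) (nat_lit 216) (nat_lit 188)) (XT.lf (nat_lit 0) (nat_lit 40276567976) (nat_lit 76) (nat_lit 17677975685) (nat_lit 76) (nat_lit 6950279036) (nat_lit 4) (nat_lit 4) (nat_lit 5) (nat_lit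 5) (nat_lit 5) (nat_lit 4) (nat_lit 317) (nat_lit 216) (nat_lit 187)))))) (XT.nd (nat_lit 390) (nat_lit 0) (nat_lit 0) (XT.nd (nat_lit 156) (nat_lit 152) (nat_lit 0) (XT.nd (nat_lit 78) (nat_lit 0) (nat_lit 0) (XT.lf (nat_lit 0) (nat_lit 48218591068) (nat_lit 76) (nat_lit 15358068788) (nat_lit 76) (nat_lit 4466437456) (nat_lit 4) (nat_lit 4) (nat_lit 5) (nat_lit 5) (nat_lit 5) (nat_lit 4) (nat_lit 318) (nat_lit 216) (nat_lit 186)) (XT.lf (nat_lit 0) (nat_lit 56466894544) (nat_lit 76) (nat_lit 12960394728) (nat_lit 76) (nat_lit 1912635129) (nat_lit 4) (nat_lit 4) (nat_lit 5) (nat_lit 5) (nat_lit 5) (nat_lit 4) (nat_lit 319) (nat_lit 216) (nat_lit 185))) (XT.nd (nat_lit 78) (nat_lit 76) (nat_lit 0) (XT.lf (nat_lit 0) (nat_lit 703213109) (nat_lit 152) (nat_lit 9768930576) (nat_lit 76) (nat_lit 64330803038) (nat_lit 3) (nat_lit 5) (nat_lit 5) (nat_lit 5) (nat_lit 4) (nat_lit 4) (nat_lit 320)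 (nat_lit 216) (nat_lit 184)) (XT.nd (nat_lit 78) (nat_lit 76) (nat_lit 0) (XT.lf (nat_lit 0) (nat_lit 3362435686) (nat_lit 152) (nat_lit 4512321686) (nat_lit 76) (nat_lit 70565284221) (nat_lit 3) (nat_lit 5) (nat_lit 5) (nat_lit 5) (nat_lit 4) (nat_lit 4) (nat_lit 321) (nat_lit 216) (nat_lit 183)) (XT.lf (nat_lit 0) (nat_lit 946160975) (nat_lit 76) (nat_lit 5171620588) (nat_lit 152) (nat_lit 76142365909) (nat_lit 2) (nat_lit 5) (nat_lit 3) (nat_lit 5) (nat_lit 4) (nat_lit 4) (nat_lit 322) (nat_lit 216) (nat_lit 182))))) (XT.nd (nat_lit 156) (nat_lit 0) (nat_lit 0) (XT.nd (nat_lit 78) (nat_lit 0) (nat_lit 0) (XT.lf (nat_lit 0) (nat_lit 6694718890) (nat_lit 76) (nat_lit 2318139042) (nat_lit 152) (nat_lit 77258390511) (nat_lit 2) (nat_lit 5) (nat_lit 3) (nat_lit 5) (nat_lit 4) (nat_lit 4) (nat_lit 323) (nat_lit 216) (nat_lit 181)) (XT.lf (nat_lit 0) (nat_lit 12016537931) (nat_lit 152) (nat_lit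 77833205398) (nat_lit 0) (nat_lit 634292013) (nat_lit 2) (nat_lit 5) (nat_lit 4) (nat_lit 4) (nat_lit 2) (nat_lit 4) (nat_lit 324) (nat_lit 216) (nat_lit 180))) (XT.nd (nat_lit 78) (nat_lit 0) (nat_lit 0) (XT.lf (nat_lit 0) (nat_lit 15153163568) (nat_lit 152) (nat_lit 76097053648) (nat_lit 0) (nat_lit 3657805691) (nat_lit 2) (nat_lit 5) (nat_lit 4) (nat_lit 4) (nat_lit 2) (nat_lit 4) (nat_lit 325) (nat_lit 216) (nat_lit 179)) (XT.nd (nat_lit 78) (nat_lit 0) (nat_lit 0) (XT.lf (nat_lit 0) (nat_lit 18407919628) (nat_lit 152) (nat_lit 74341657236) (nat_lit 0) (nat_lit 6804836075) (nat_lit 2) (nat_lit 5) (nat_lit 4) (nat_lit 4) (nat_lit 2) (nat_lit 4) (nat_lit 326) (nat_lit 216) (nat_lit 178)) (XT.lf (nat_lit 0) (nat_lit 21788555530) (nat_lit 152) (nat_lit 72562836649) (nat_lit 0) (nat_lit 10082876096) (nat_lit 2) (nat_lit 5) (nat_lit 4) (nat_lit 4) (nat_lit 2) (nat_lit 4) (nat_lit 327) (nat_lit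 216) (nat_lit 177))))))) (XT.nd (nat_lit 34710) (nat_lit 0) (nat_lit 380) (XT.nd (nat_lit 34320) (nat_lit 0) (nat_lit 912) (XT.nd (nat_lit 156) (nat_lit 0) (nat_lit 0) (XT.nd (nat_lit 78) (nat_lit 0) (nat_lit 0) (XT.lf (nat_lit 0) (nat_lit 25303120406) (nat_lit 152) (nat_lit 70756356597) (nat_lit 0) (nat_lit 13499730609) (nat_lit 2) (nat_lit 5) (nat_lit 4) (nat_lit 4) (nat_lit 2) (nat_lit 4) (nat_lit 328) (nat_lit 216) (nat_lit 176)) (XT.lf (nat_lit 0) (nat_lit 28959982270) (nat_lit 152) (nat_lit 68917915940) (nat_lit 0) (nat_lit 17063534984) (nat_lit 2) (nat_lit 5) (nat_lit 4) (nat_lit 4) (nat_lit 2) (nat_lit 4) (nat_lit 329) (nat_lit 216) (nat_lit 175))) (XT.nd (nat_lit 78) (nat_lit 0) (nat_lit 0) (XT.lf (nat_lit 0) (nat_lit 32767847934) (nat_lit 152) (nat_lit 67043137436) (nat_lit 0) (nat_lit 20782774468) (nat_lit 2) (nat_lit 5) (nat_lit 4) (nat_lit 4) (nat_lit 2) (nat_lit 4) (nat_lit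 330) (nat_lit 216) (nat_lit 174)) (XT.nd (nat_lit 34008) (nat_lit 0) (nat_lit 1216) (XT.lf (nat_lit 0) (nat_lit 36735783745) (nat_lit 152) (nat_lit 65127557328) (nat_lit 0) (nat_lit 24666304395) (nat_lit 2) (nat_lit 5) (nat_lit 4) (nat_lit 4) (nat_lit 2) (nat_lit 4) (nat_lit 331) (nat_lit 216) (nat_lit 173)) (XT.lf (nat_lit 0) (nat_lit 2620833313) (nat_lit 152) (nat_lit 2866420211) (nat_lit 152) (nat_lit 2866420211) (nat_lit 18) (nat_lit 4) (nat_lit 20) (nat_lit 5) (nat_lit 20) (nat_lit 4) (nat_lit 286) (nat_lit 217) (nat_lit 217))))) (XT.nd (nat_lit 156) (nat_lit 152) (nat_lit 0) (XT.nd (nat_lit 78) (nat_lit 152) (nat_lit 0) (XT.lf (nat_lit 0) (nat_lit 15032124665) (nat_lit 152) (nat_lit 1560703394) (nat_lit 152) (nat_lit 763262115) (nat_lit 18) (nat_lit 4) (nat_lit 20) (nat_lit 5) (nat_lit 20) (nat_lit 4) (nat_lit 287) (nat_lit 217) (nat_lit 216)) (XT.lf (nat_lit 0) (nat_lit 4274735759)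 (nat_lit 152) (nat_lit 11001157946) (nat_lit 0) (nat_lit 2763173463) (nat_lit 16) (nat_lit 5) (nat_lit 18) (nat_lit 4) (nat_lit 16) (nat_lit 4) (nat_lit 288) (nat_lit 217) (nat_lit 215))) (XT.nd (nat_lit 78) (nat_lit 152) (nat_lit 0) (XT.lf (nat_lit 0) (nat_lit 9405796688) (nat_lit 152) (nat_lit 2162736647) (nat_lit 0) (nat_lit 7191998714) (nat_lit 16) (nat_lit 5) (nat_lit 18) (nat_lit 4) (nat_lit 16) (nat_lit 4) (nat_lit 289) (nat_lit 217) (nat_lit 214)) (XT.nd (nat_lit 78) (nat_lit 0) (nat_lit 0) (XT.lf (nat_lit 0) (nat_lit 6967849890) (nat_lit 152) (nat_lit 7718148825) (nat_lit 152) (nat_lit 4835554968) (nat_lit 14) (nat_lit 4) (nat_lit 16) (nat_lit 5) (nat_lit 16) (nat_lit 4) (nat_lit 290) (nat_lit 217) (nat_lit 213)) (XT.lf (nat_lit 0) (nat_lit 16322627129) (nat_lit 152) (nat_lit 3761092518) (nat_lit 152) (nat_lit 241550200) (nat_lit 14) (nat_lit 4) (nat_lit 16) (nat_lit 5) (nat_lit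 16) (nat_lit 4) (nat_lit 291) (nat_lit 217) (nat_lit 212)))))) (XT.nd (nat_lit 390) (nat_lit 228) (nat_lit 0) (XT.nd (nat_lit 156) (nat_lit 152) (nat_lit 0) (XT.nd (nat_lit 78) (nat_lit 0) (nat_lit 0) (XT.lf (nat_lit 0) (nat_lit 4379587917) (nat_lit 152) (nat_lit 16418279620) (nat_lit 0) (nat_lit 373607433) (nat_lit 12) (nat_lit 5) (nat_lit 14) (nat_lit 4) (nat_lit 12) (nat_lit 4) (nat_lit 292) (nat_lit 217) (nat_lit 211)) (XT.lf (nat_lit 0) (nat_lit 9148116341) (nat_lit 152) (nat_lit 8333149467) (nat_lit 0) (nat_lit 4581231944) (nat_lit 12) (nat_lit 5) (nat_lit 14) (nat_lit 4) (nat_lit 12) (nat_lit 4) (nat_lit 293) (nat_lit 217) (nat_lit 210))) (XT.nd (nat_lit 78) (nat_lit 152) (nat_lit 0) (XT.lf (nat_lit 0) (nat_lit 14004318177) (nat_lit 152) (nat_lit 95245100) (nat_lit 0) (nat_lit 8903239577) (nat_lit 12) (nat_lit 5) (nat_lit 14) (nat_lit 4) (nat_lit 12) (nat_lit 4) (nat_lit 294) (nat_lit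 217) (nat_lit 209)) (XT.nd (nat_lit 78) (nat_lit 0) (nat_lit 0) (XT.lf (nat_lit 0) (nat_lit 8480533287) (nat_lit 152) (nat_lit 10560742595) (nat_lit 152) (nat_lit 4950907612) (nat_lit 10) (nat_lit 4) (nat_lit 12) (nat_lit 5) (nat_lit 12) (nat_lit 4) (nat_lit 295) (nat_lit 217) (nat_lit 208)) (XT.lf (nat_lit 0) (nat_lit 17254449408) (nat_lit 152) (nat_lit 6937638812) (nat_lit 152) (nat_lit 843273941) (nat_lit 10) (nat_lit 4) (nat_lit 12) (nat_lit 5) (nat_lit 12) (nat_lit 4) (nat_lit 296) (nat_lit 217) (nat_lit 207))))) (XT.nd (nat_lit 234) (nat_lit 76) (nat_lit 0) (XT.nd (nat_lit 78) (nat_lit 0) (nat_lit 0) (XT.lf (nat_lit 0) (nat_lit 80170675) (nat_lit 76) (nat_lit 3188791188) (nat_lit 152) (nat_lit 22864904412) (nat_lit 8) (nat_lit 5) (nat_lit 9) (nat_lit 5) (nat_lit 10) (nat_lit 4) (nat_lit 297) (nat_lit 217) (nat_lit 206)) (XT.nd (nat_lit 78) (nat_lit 0) (nat_lit 0) (XT.lf (nat_lit 0)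 (nat_lit 7527192848) (nat_lit 152) (nat_lit 19025649383) (nat_lit 0) (nat_lit 735634788) (nat_lit 8) (nat_lit 5) (nat_lit 10) (nat_lit 4) (nat_lit 8) (nat_lit 4) (nat_lit 298) (nat_lit 217) (nat_lit 205)) (XT.lf (nat_lit 0) (nat_lit 11906316217) (nat_lit 152) (nat_lit 11889027385) (nat_lit 0) (nat_lit 4708393949) (nat_lit 8) (nat_lit 5) (nat_lit 10) (nat_lit 4) (nat_lit 8) (nat_lit 4) (nat_lit 299) (nat_lit 217) (nat_lit 204)))) (XT.nd (nat_lit 78) (nat_lit 76) (nat_lit 0) (XT.lf (nat_lit 0) (nat_lit 16386105844) (nat_lit 152) (nat_lit 4596185039) (nat_lit 0) (nat_lit 8801170043) (nat_lit 8) (nat_lit 5) (nat_lit 10) (nat_lit 4) (nat_lit 8) (nat_lit 4) (nat_lit 300) (nat_lit 217) (nat_lit 203)) (XT.nd (nat_lit 78) (nat_lit 0) (nat_lit 0) (XT.lf (nat_lit 0) (nat_lit 2927365001) (nat_lit 76) (nat_lit 18078002517) (nat_lit 76) (nat_lit 10124482399) (nat_lit 7) (nat_lit 4) (nat_lit 8) (nat_lit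 5) (nat_lit 8) (nat_lit 4) (nat_lit 301) (nat_lit 217) (nat_lit 202)) (XT.lf (nat_lit 0) (nat_lit 10737558069) (nat_lit 76) (nat_lit 15056271519) (nat_lit 76) (nat_lit 6751718718) (nat_lit 7) (nat_lit 4) (nat_lit 8) (nat_lit 5) (nat_lit 8) (nat_lit 4) (nat_lit 302) (nat_lit 217) (nat_lit 201))))))))
noncomputable def xc13 : XT := (XT.nd (nat_lit 1560) (nat_lit 76) (nat_lit 0) (XT.nd (nat_lit 780) (nat_lit 76) (nat_lit 0) (XT.nd (nat_lit 390) (nat_lit 76) (nat_lit 0) (XT.nd (nat_lit 156) (nat_lit 76) (nat_lit 0) (XT.nd (nat_lit 78) (nat_lit 76) (nat_lit 0) (XT.lf (nat_lit 0) (nat_lit 18761516769) (nat_lit 76) (nat_lit 11956315750) (nat_lit 76) (nat_lit 3317446108) (nat_lit 7) (nat_lit 4) (nat_lit 8) (nat_lit 5) (nat_lit 8) (nat_lit 4) (nat_lit 303) (nat_lit 217) (nat_lit 200)) (XT.lf (nat_lit 0) (nat_lit 182872744) (nat_lit 152) (nat_lit 8586034960) (nat_lit 76) (nat_lit 26833626362) (nat_lit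 6) (nat_lit 5) (nat_lit 8) (nat_lit 5) (nat_lit 7) (nat_lit 4) (nat_lit 304) (nat_lit 217) (nat_lit 199))) (XT.nd (nat_lit 78) (nat_lit 76) (nat_lit 0) (XT.lf (nat_lit 0) (nat_lit 3694962185) (nat_lit 152) (nat_lit 1759728625) (nat_lit 76) (nat_lit 31795430111) (nat_lit 6) (nat_lit 5) (nat_lit 8) (nat_lit 5) (nat_lit 7) (nat_lit 4) (nat_lit 305) (nat_lit 217) (nat_lit 198)) (XT.nd (nat_lit 78) (nat_lit 0) (nat_lit 0) (XT.lf (nat_lit 0) (nat_lit 5357850540) (nat_lit 76) (nat_lit 1985572050) (nat_lit 152) (nat_lit 31637951017) (nat_lit 5) (nat_lit 5) (nat_lit 6) (nat_lit 5) (nat_lit 7) (nat_lit 4) (nat_lit 306) (nat_lit 217) (nat_lit 197)) (XT.lf (nat_lit 0) (nat_lit 11120070342) (nat_lit 152) (nat_lit 28098974350) (nat_lit 0) (nat_lit 1581875574) (nat_lit 5) (nat_lit 5) (nat_lit 7) (nat_lit 4) (nat_lit 5) (nat_lit 4) (nat_lit 307) (nat_lit 217) (nat_lit 196))))) (XT.nd (nat_lit 156) (nat_lit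 76) (nat_lit 0) (XT.nd (nat_lit 78) (nat_lit 0) (nat_lit 0) (XT.lf (nat_lit 0) (nat_lit 15021345623) (nat_lit 152) (nat_lit 22463289729) (nat_lit 0) (nat_lit 5228834357) (nat_lit 5) (nat_lit 5) (nat_lit 7) (nat_lit 4) (nat_lit 5) (nat_lit 4) (nat_lit 308) (nat_lit 217) (nat_lit 195)) (XT.lf (nat_lit 0) (nat_lit 19037450649) (nat_lit 152) (nat_lit 16683964376) (nat_lit 0) (nat_lit 9002733195) (nat_lit 5) (nat_lit 5) (nat_lit 7) (nat_lit 4) (nat_lit 5) (nat_lit 4) (nat_lit 309) (nat_lit 217) (nat_lit 194))) (XT.nd (nat_lit 78) (nat_lit 76) (nat_lit 0) (XT.lf (nat_lit 0) (nat_lit 23177947576) (nat_lit 152) (nat_lit 10747237992) (nat_lit 0) (nat_lit 12912557562) (nat_lit 5) (nat_lit 5) (nat_lit 7) (nat_lit 4) (nat_lit 5) (nat_lit 4) (nat_lit 310) (nat_lit 217) (nat_lit 193)) (XT.nd (nat_lit 78) (nat_lit 76) (nat_lit 0) (XT.lf (nat_lit 0) (nat_lit 27452694730) (nat_lit 152) (nat_lit 4638975514)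 (nat_lit 0) (nat_lit 16967616563) (nat_lit 5) (nat_lit 5) (nat_lit 7) (nat_lit 4) (nat_lit 5) (nat_lit 4) (nat_lit 311) (nat_lit 217) (nat_lit 192)) (XT.lf (nat_lit 0) (nat_lit 1688311579) (nat_lit 76) (nat_lit 30199787583) (nat_lit 76) (nat_lit 19505482605) (nat_lit 4) (nat_lit 4) (nat_lit 5) (nat_lit 5) (nat_lit 5) (nat_lit 4) (nat_lit 312) (nat_lit 217) (nat_lit 191)))))) (XT.nd (nat_lit 390) (nat_lit 76) (nat_lit 0) (XT.nd (nat_lit 156) (nat_lit 0) (nat_lit 0) (XT.nd (nat_lit 78) (nat_lit 0) (nat_lit 0) (XT.lf (nat_lit 0) (nat_lit 8312991096) (nat_lit 76) (nat_lit 28212913930) (nat_lit 76) (nat_lit 17319345321) (nat_lit 4) (nat_lit 4) (nat_lit 5) (nat_lit 5) (nat_lit 5) (nat_lit 4) (nat_lit 313) (nat_lit 217) (nat_lit 190)) (XT.lf (nat_lit 0) (nat_lit 15158511375) (nat_lit 76) (nat_lit 26173163189) (nat_lit 76) (nat_lit 15089819694) (nat_lit 4) (nat_lit 4) (nat_lit 5) (nat_lit 5) (nat_lit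 5) (nat_lit 4) (nat_lit 314) (nat_lit 217) (nat_lit 189))) (XT.nd (nat_lit 78) (nat_lit 0) (nat_lit 0) (XT.lf (nat_lit 0) (nat_lit 22241171272) (nat_lit 76) (nat_lit 24075678812) (nat_lit 76) (nat_lit 12811597330) (nat_lit 4) (nat_lit 4) (nat_lit 5) (nat_lit 5) (nat_lit 5) (nat_lit 4) (nat_lit 315) (nat_lit 217) (nat_lit 188)) (XT.nd (nat_lit 78) (nat_lit 0) (nat_lit 0) (XT.lf (nat_lit 0) (nat_lit 29577834263) (nat_lit 76) (nat_lit 21915466787) (nat_lit 76) (nat_lit 10479253889) (nat_lit 4) (nat_lit 4) (nat_lit 5) (nat_lit 5) (nat_lit 5) (nat_lit 4) (nat_lit 316) (nat_lit 217) (nat_lit 187)) (XT.lf (nat_lit 0) (nat_lit 37185968595) (nat_lit 76) (nat_lit 19687383752) (nat_lit 76) (nat_lit 8087236173) (nat_lit 4) (nat_lit 4) (nat_lit 5) (nat_lit 5) (nat_lit 5) (nat_lit 4) (nat_lit 317) (nat_lit 217) (nat_lit 186))))) (XT.nd (nat_lit 156) (nat_lit 76) (nat_lit 0) (XT.nd (nat_lit 78) (nat_lit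 0) (nat_lit 0) (XT.lf (nat_lit 0) (nat_lit 45083688872) (nat_lit 76) (nat_lit 17386124749) (nat_lit 76) (nat_lit 5629848901) (nat_lit 4) (nat_lit 4) (nat_lit 5) (nat_lit 5) (nat_lit 5) (nat_lit 4) (nat_lit 318) (nat_lit 217) (nat_lit 185)) (XT.lf (nat_lit 0) (nat_lit 53289799190) (nat_lit 76) (nat_lit 15006210589) (nat_lit 76) (nat_lit 3101241152) (nat_lit 4) (nat_lit 4) (nat_lit 5) (nat_lit 5) (nat_lit 5) (nat_lit 4) (nat_lit 319) (nat_lit 217) (nat_lit 184))) (XT.nd (nat_lit 78) (nat_lit 76) (nat_lit 0) (XT.lf (nat_lit 0) (nat_lit 61823837908) (nat_lit 76) (nat_lit 12541974809) (nat_lit 76) (nat_lit 495392430) (nat_lit 4) (nat_lit 4) (nat_lit 5) (nat_lit 5) (nat_lit 5) (nat_lit 4) (nat_lit 320) (nat_lit 217) (nat_lit 183)) (XT.nd (nat_lit 78) (nat_lit 0) (nat_lit 0) (XT.lf (nat_lit 0) (nat_lit 2151090741) (nat_lit 152) (nat_lit 7814737643) (nat_lit 76) (nat_lit 68533311625) (nat_lit 3)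 (nat_lit 5) (nat_lit 5) (nat_lit 5) (nat_lit 4) (nat_lit 4) (nat_lit 321) (nat_lit 217) (nat_lit 182)) (XT.lf (nat_lit 0) (nat_lit 4876002210) (nat_lit 152) (nat_lit 2411614473) (nat_lit 76) (nat_lit 75032565989) (nat_lit 3) (nat_lit 5) (nat_lit 5) (nat_lit 5) (nat_lit 4) (nat_lit 4) (nat_lit 322) (nat_lit 217) (nat_lit 181))))))) (XT.nd (nat_lit 34554) (nat_lit 0) (nat_lit 608) (XT.nd (nat_lit 390) (nat_lit 0) (nat_lit 0) (XT.nd (nat_lit 156) (nat_lit 0) (nat_lit 0) (XT.nd (nat_lit 78) (nat_lit 0) (nat_lit 0) (XT.lf (nat_lit 0) (nat_lit 3253108731) (nat_lit 76) (nat_lit 4473658892) (nat_lit 152) (nat_lit 78605867971) (nat_lit 2) (nat_lit 5) (nat_lit 3) (nat_lit 5) (nat_lit 4) (nat_lit 4) (nat_lit 323) (nat_lit 217) (nat_lit 180)) (XT.lf (nat_lit 0) (nat_lit 9181492651) (nat_lit 76) (nat_lit 1523052921) (nat_lit 152) (nat_lit 79841675529) (nat_lit 2) (nat_lit 5) (nat_lit 3) (nat_lit 5) (nat_lit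 4) (nat_lit 4) (nat_lit 324) (nat_lit 217) (nat_lit 179))) (XT.nd (nat_lit 78) (nat_lit 0) (nat_lit 0) (XT.lf (nat_lit 0) (nat_lit 13807652225) (nat_lit 152) (nat_lit 79646893709) (nat_lit 0) (nat_lit 1516688820) (nat_lit 2) (nat_lit 5) (nat_lit 4) (nat_lit 4) (nat_lit 2) (nat_lit 4) (nat_lit 325) (nat_lit 217) (nat_lit 178)) (XT.nd (nat_lit 78) (nat_lit 0) (nat_lit 0) (XT.lf (nat_lit 0) (nat_lit 17044428792) (nat_lit 152) (nat_lit 77922885417) (nat_lit 0) (nat_lit 4650869505) (nat_lit 2) (nat_lit 5) (nat_lit 4) (nat_lit 4) (nat_lit 2) (nat_lit 4) (nat_lit 326) (nat_lit 217) (nat_lit 177)) (XT.lf (nat_lit 0) (nat_lit 20407941366) (nat_lit 152) (nat_lit 76173958276) (nat_lit 0) (nat_lit 7916671717) (nat_lit 2) (nat_lit 5) (nat_lit 4) (nat_lit 4) (nat_lit 2) (nat_lit 4) (nat_lit 327) (nat_lit 217) (nat_lit 176))))) (XT.nd (nat_lit 156) (nat_lit 0) (nat_lit 0) (XT.nd (nat_lit 78) (nat_lit 0)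 (nat_lit 0) (XT.lf (nat_lit 0) (nat_lit 23906198313) (nat_lit 152) (nat_lit 74395948174) (nat_lit 0) (nat_lit 11321871174) (nat_lit 2) (nat_lit 5) (nat_lit 4) (nat_lit 4) (nat_lit 2) (nat_lit 4) (nat_lit 328) (nat_lit 217) (nat_lit 175)) (XT.lf (nat_lit 0) (nat_lit 27547528814) (nat_lit 152) (nat_lit 72584621754) (nat_lit 0) (nat_lit 14874575496) (nat_lit 2) (nat_lit 5) (nat_lit 4) (nat_lit 4) (nat_lit 2) (nat_lit 4) (nat_lit 329) (nat_lit 217) (nat_lit 174))) (XT.nd (nat_lit 78) (nat_lit 0) (nat_lit 0) (XT.lf (nat_lit 0) (nat_lit 31340602704) (nat_lit 152) (nat_lit 70735666334) (nat_lit 0) (nat_lit 18583243501) (nat_lit 2) (nat_lit 5) (nat_lit 4) (nat_lit 4) (nat_lit 2) (nat_lit 4) (nat_lit 330) (nat_lit 217) (nat_lit 173)) (XT.nd (nat_lit 33852) (nat_lit 0) (nat_lit 1368) (XT.lf (nat_lit 0) (nat_lit 35294451112) (nat_lit 152) (nat_lit 68844679638) (nat_lit 0) (nat_lit 22456705352) (nat_lit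 2) (nat_lit 5) (nat_lit 4) (nat_lit 4) (nat_lit 2) (nat_lit 4) (nat_lit 331) (nat_lit 217) (nat_lit 172)) (XT.lf (nat_lit 0) (nat_lit 519169084) (nat_lit 228) (nat_lit 6717462297) (nat_lit 0) (nat_lit 519169084) (nat_lit 20) (nat_lit 5) (nat_lit 23) (nat_lit 4) (nat_lit 20) (nat_lit 4) (nat_lit 284) (nat_lit 218) (nat_lit 218)))))) (XT.nd (nat_lit 390) (nat_lit 456) (nat_lit 0) (XT.nd (nat_lit 156) (nat_lit 152) (nat_lit 0) (XT.nd (nat_lit 78) (nat_lit 152) (nat_lit 0) (XT.lf (nat_lit 0) (nat_lit 6317158323) (nat_lit 228) (nat_lit 4297106936) (nat_lit 0) (nat_lit 5479844979) (nat_lit 20) (nat_lit 5) (nat_lit 23) (nat_lit 4) (nat_lit 20) (nat_lit 4) (nat_lit 285) (nat_lit 218) (nat_lit 217)) (XT.lf (nat_lit 0) (nat_lit 5087983163) (nat_lit 152) (nat_lit 6628564504) (nat_lit 152) (nat_lit 4993809881) (nat_lit 18) (nat_lit 4) (nat_lit 20) (nat_lit 5) (nat_lit 20) (nat_lit 4) (nat_lit 286) (nat_lit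 218) (nat_lit 216))) (XT.nd (nat_lit 78) (nat_lit 152) (nat_lit 0) (XT.lf (nat_lit 0) (nat_lit 14732075999) (nat_lit 152) (nat_lit 2512056749) (nat_lit 152) (nat_lit 117834240) (nat_lit 18) (nat_lit 4) (nat_lit 20) (nat_lit 5) (nat_lit 20) (nat_lit 4) (nat_lit 287) (nat_lit 218) (nat_lit 215)) (XT.nd (nat_lit 78) (nat_lit 0) (nat_lit 0) (XT.lf (nat_lit 0) (nat_lit 4806072743) (nat_lit 152) (nat_lit 11462514567) (nat_lit 0) (nat_lit 1779349192) (nat_lit 16) (nat_lit 5) (nat_lit 18) (nat_lit 4) (nat_lit 16) (nat_lit 4) (nat_lit 288) (nat_lit 218) (nat_lit 214)) (XT.lf (nat_lit 0) (nat_lit 9852064801) (nat_lit 152) (nat_lit 2763470671) (nat_lit 0) (nat_lit 6156545368) (nat_lit 16) (nat_lit 5) (nat_lit 18) (nat_lit 4) (nat_lit 16) (nat_lit 4) (nat_lit 289) (nat_lit 218) (nat_lit 213))))) (XT.nd (nat_lit 234) (nat_lit 152) (nat_lit 0) (XT.nd (nat_lit 78) (nat_lit 152) (nat_lit 0) (XT.lf (nat_lit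 0) (nat_lit 6219777906) (nat_lit 152) (nat_lit 8824280026) (nat_lit 152) (nat_lit 4491812131) (nat_lit 14) (nat_lit 4) (nat_lit 16) (nat_lit 5) (nat_lit 16) (nat_lit 4) (nat_lit 290) (nat_lit 218) (nat_lit 212)) (XT.nd (nat_lit 78) (nat_lit 76) (nat_lit 0) (XT.lf (nat_lit 0) (nat_lit 20909587) (nat_lit 228) (nat_lit 4896639012) (nat_lit 76) (nat_lit 15424499005) (nat_lit 13) (nat_lit 5) (nat_lit 16) (nat_lit 5) (nat_lit 14) (nat_lit 4) (nat_lit 291) (nat_lit 218) (nat_lit 211)) (XT.lf (nat_lit 0) (nat_lit 3715930106) (nat_lit 76) (nat_lit 832220934) (nat_lit 152) (nat_lit 16642814364) (nat_lit 12) (nat_lit 5) (nat_lit 13) (nat_lit 5) (nat_lit 14) (nat_lit 4) (nat_lit 292) (nat_lit 218) (nat_lit 210)))) (XT.nd (nat_lit 78) (nat_lit 152) (nat_lit 0) (XT.lf (nat_lit 0) (nat_lit 9235141593) (nat_lit 152) (nat_lit 9504579618) (nat_lit 0) (nat_lit 3344814861) (nat_lit 12) (nat_lit 5) (nat_lit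 14) (nat_lit 4) (nat_lit 12) (nat_lit 4) (nat_lit 293) (nat_lit 218) (nat_lit 209)) (XT.nd (nat_lit 78) (nat_lit 152) (nat_lit 0) (XT.lf (nat_lit 0) (nat_lit 14021307187) (nat_lit 152) (nat_lit 1383507908) (nat_lit 0) (nat_lit 7622224072) (nat_lit 12) (nat_lit 5) (nat_lit 14) (nat_lit 4) (nat_lit 12) (nat_lit 4) (nat_lit 294) (nat_lit 218) (nat_lit 208)) (XT.lf (nat_lit 0) (nat_lit 7053147850) (nat_lit 152) (nat_lit 11924694958) (nat_lit 152) (nat_lit 5041081954) (nat_lit 10) (nat_lit 4) (nat_lit 12) (nat_lit 5) (nat_lit 12) (nat_lit 4) (nat_lit 295) (nat_lit 218) (nat_lit 207))))))))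
noncomputable def xc14 : XT := (XT.nd (nat_lit 1560) (nat_lit 152) (nat_lit 0) (XT.nd (nat_lit 780) (nat_lit 152) (nat_lit 0) (XT.nd (nat_lit 390) (nat_lit 152) (nat_lit 0) (XT.nd (nat_lit 156) (nat_lit 76) (nat_lit 0) (XT.nd (nat_lit 78) (nat_lit 76) (nat_lit 0) (XT.lf (nat_lit 0) (nat_lit 15718984284) (nat_lit 152) (nat_lit 8345106999) (nat_lit 152) (nat_lit 1000036958) (nat_lit 10) (nat_lit 4) (nat_lit 12) (nat_lit 5) (nat_lit 12) (nat_lit 4) (nat_lit 296) (nat_lit 218) (nat_lit 206)) (XT.lf (nat_lit 0) (nat_lit 3052306930) (nat_lit 228) (nat_lit 1588369864) (nat_lit 76) (nat_lit 21523970569) (nat_lit 9) (nat_lit 5) (nat_lit 12) (nat_lit 5) (nat_lit 10) (nat_lit 4) (nat_lit 297) (nat_lit 218) (nat_lit 205))) (XT.nd (nat_lit 78) (nat_lit 0) (nat_lit 0) (XT.lf (nat_lit 0) (nat_lit 6468840430) (nat_lit 76) (nat_lit 758720406) (nat_lit 152) (nat_lit 20094263986) (nat_lit 8) (nat_lit 5) (nat_lit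 9) (nat_lit 5) (nat_lit 10) (nat_lit 4) (nat_lit 298) (nat_lit 218) (nat_lit 204)) (XT.nd (nat_lit 78) (nat_lit 0) (nat_lit 0) (XT.lf (nat_lit 0) (nat_lit 11541688526) (nat_lit 152) (nat_lit 13806928013) (nat_lit 0) (nat_lit 3190492402) (nat_lit 8) (nat_lit 5) (nat_lit 10) (nat_lit 4) (nat_lit 8) (nat_lit 4) (nat_lit 299) (nat_lit 218) (nat_lit 203)) (XT.lf (nat_lit 0) (nat_lit 15966523490) (nat_lit 152) (nat_lit 6607284622) (nat_lit 0) (nat_lit 7246743050) (nat_lit 8) (nat_lit 5) (nat_lit 10) (nat_lit 4) (nat_lit 8) (nat_lit 4) (nat_lit 300) (nat_lit 218) (nat_lit 202))))) (XT.nd (nat_lit 156) (nat_lit 76) (nat_lit 0) (XT.nd (nat_lit 78) (nat_lit 0) (nat_lit 0) (XT.lf (nat_lit 0) (nat_lit 785713166) (nat_lit 76) (nat_lit 19727147356) (nat_lit 76) (nat_lit 10656334233) (nat_lit 7) (nat_lit 4) (nat_lit 8) (nat_lit 5) (nat_lit 8) (nat_lit 4) (nat_lit 301) (nat_lit 218) (nat_lit 201)) (XT.lf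 (nat_lit 0) (nat_lit 8509689638) (nat_lit 76) (nat_lit 16740958689) (nat_lit 76) (nat_lit 7335828725) (nat_lit 7) (nat_lit 4) (nat_lit 8) (nat_lit 5) (nat_lit 8) (nat_lit 4) (nat_lit 302) (nat_lit 218) (nat_lit 200))) (XT.nd (nat_lit 78) (nat_lit 76) (nat_lit 0) (XT.lf (nat_lit 0) (nat_lit 16451537294) (nat_lit 76) (nat_lit 13674852759) (nat_lit 76) (nat_lit 3951325803) (nat_lit 7) (nat_lit 4) (nat_lit 8) (nat_lit 5) (nat_lit 8) (nat_lit 4) (nat_lit 303) (nat_lit 218) (nat_lit 199)) (XT.nd (nat_lit 78) (nat_lit 76) (nat_lit 0) (XT.lf (nat_lit 0) (nat_lit 24630165294) (nat_lit 76) (nat_lit 10521529312) (nat_lit 76) (nat_lit 494767127) (nat_lit 7) (nat_lit 4) (nat_lit 8) (nat_lit 5) (nat_lit 8) (nat_lit 4) (nat_lit 304) (nat_lit 218) (nat_lit 198)) (XT.lf (nat_lit 0) (nat_lit 2982715321) (nat_lit 152) (nat_lit 4260645538) (nat_lit 76) (nat_lit 30052211665) (nat_lit 6) (nat_lit 5) (nat_lit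 8) (nat_lit 5) (nat_lit 7) (nat_lit 4) (nat_lit 305) (nat_lit 218) (nat_lit 197)))))) (XT.nd (nat_lit 390) (nat_lit 76) (nat_lit 0) (XT.nd (nat_lit 156) (nat_lit 0) (nat_lit 0) (XT.nd (nat_lit 78) (nat_lit 0) (nat_lit 0) (XT.lf (nat_lit 0) (nat_lit 2733910692) (nat_lit 76) (nat_lit 3829888138) (nat_lit 152) (nat_lit 32465098550) (nat_lit 5) (nat_lit 5) (nat_lit 6) (nat_lit 5) (nat_lit 7) (nat_lit 4) (nat_lit 306) (nat_lit 218) (nat_lit 196)) (XT.lf (nat_lit 0) (nat_lit 10024218211) (nat_lit 76) (nat_lit 259902545) (nat_lit 152) (nat_lit 30566061499) (nat_lit 5) (nat_lit 5) (nat_lit 6) (nat_lit 5) (nat_lit 7) (nat_lit 4) (nat_lit 307) (nat_lit 218) (nat_lit 195))) (XT.nd (nat_lit 78) (nat_lit 0) (nat_lit 0) (XT.lf (nat_lit 0) (nat_lit 14143759150) (nat_lit 152) (nat_lit 25255168154) (nat_lit 0) (nat_lit 3365099635) (nat_lit 5) (nat_lit 5) (nat_lit 7) (nat_lit 4) (nat_lit 5) (nat_lit 4) (nat_lit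 308) (nat_lit 218) (nat_lit 194)) (XT.nd (nat_lit 78) (nat_lit 0) (nat_lit 0) (XT.lf (nat_lit 0) (nat_lit 18122589371) (nat_lit 152) (nat_lit 19540020966) (nat_lit 0) (nat_lit 7113257296) (nat_lit 5) (nat_lit 5) (nat_lit 7) (nat_lit 4) (nat_lit 5) (nat_lit 4) (nat_lit 309) (nat_lit 218) (nat_lit 193)) (XT.lf (nat_lit 0) (nat_lit 22227586484) (nat_lit 152) (nat_lit 13664416642) (nat_lit 0) (nat_lit 10998566256) (nat_lit 5) (nat_lit 5) (nat_lit 7) (nat_lit 4) (nat_lit 5) (nat_lit 4) (nat_lit 310) (nat_lit 218) (nat_lit 192))))) (XT.nd (nat_lit 156) (nat_lit 76) (nat_lit 0) (XT.nd (nat_lit 78) (nat_lit 0) (nat_lit 0) (XT.lf (nat_lit 0) (nat_lit 26468524290) (nat_lit 152) (nat_lit 7614365651) (nat_lit 0) (nat_lit 15030277251) (nat_lit 5) (nat_lit 5) (nat_lit 7) (nat_lit 4) (nat_lit 5) (nat_lit 4) (nat_lit 311) (nat_lit 218) (nat_lit 191)) (XT.lf (nat_lit 0) (nat_lit 30855500262) (nat_lit 152)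 (nat_lit 1375463108) (nat_lit 0) (nat_lit 19217989592) (nat_lit 5) (nat_lit 5) (nat_lit 7) (nat_lit 4) (nat_lit 5) (nat_lit 4) (nat_lit 312) (nat_lit 218) (nat_lit 190))) (XT.nd (nat_lit 78) (nat_lit 0) (nat_lit 0) (XT.lf (nat_lit 0) (nat_lit 5167991647) (nat_lit 76) (nat_lit 30280645829) (nat_lit 76) (nat_lit 18453360273) (nat_lit 4) (nat_lit 4) (nat_lit 5) (nat_lit 5) (nat_lit 5) (nat_lit 4) (nat_lit 313) (nat_lit 218) (nat_lit 189)) (XT.nd (nat_lit 78) (nat_lit 0) (nat_lit 0) (XT.lf (nat_lit 0) (nat_lit 11962225878) (nat_lit 76) (nat_lit 28262482357) (nat_lit 76) (nat_lit 16254458814) (nat_lit 4) (nat_lit 4) (nat_lit 5) (nat_lit 5) (nat_lit 5) (nat_lit 4) (nat_lit 314) (nat_lit 218) (nat_lit 188)) (XT.lf (nat_lit 0) (nat_lit 18996041922) (nat_lit 76) (nat_lit 26185557282) (nat_lit 76) (nat_lit 14005402324) (nat_lit 4) (nat_lit 4) (nat_lit 5) (nat_lit 5) (nat_lit 5) (nat_lit 4) (nat_lit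 315) (nat_lit 218) (nat_lit 187))))))) (XT.nd (nat_lit 780) (nat_lit 0) (nat_lit 0) (XT.nd (nat_lit 390) (nat_lit 152) (nat_lit 0) (XT.nd (nat_lit 156) (nat_lit 0) (nat_lit 0) (XT.nd (nat_lit 78) (nat_lit 0) (nat_lit 0) (XT.lf (nat_lit 0) (nat_lit 26286186957) (nat_lit 76) (nat_lit 24044925546) (nat_lit 76) (nat_lit 11700835905) (nat_lit 4) (nat_lit 4) (nat_lit 5) (nat_lit 5) (nat_lit 5) (nat_lit 4) (nat_lit 316) (nat_lit 218) (nat_lit 186)) (XT.lf (nat_lit 0) (nat_lit 33850018474) (nat_lit 76) (nat_lit 21835490406) (nat_lit 76) (nat_lit 9335272497) (nat_lit 4) (nat_lit 4) (nat_lit 5) (nat_lit 5) (nat_lit 5) (nat_lit 4) (nat_lit 317) (nat_lit 218) (nat_lit 185))) (XT.nd (nat_lit 78) (nat_lit 0) (nat_lit 0) (XT.lf (nat_lit 0) (nat_lit 41705545593) (nat_lit 76) (nat_lit 19551991302) (nat_lit 76) (nat_lit 6903079803) (nat_lit 4) (nat_lit 4) (nat_lit 5) (nat_lit 5) (nat_lit 5) (nat_lit 4) (nat_lit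 318) (nat_lit 218) (nat_lit 184)) (XT.nd (nat_lit 78) (nat_lit 0) (nat_lit 0) (XT.lf (nat_lit 0) (nat_lit 49871471953) (nat_lit 76) (nat_lit 17188991331) (nat_lit 76) (nat_lit 4398466891) (nat_lit 4) (nat_lit 4) (nat_lit 5) (nat_lit 5) (nat_lit 5) (nat_lit 4) (nat_lit 319) (nat_lit 218) (nat_lit 183)) (XT.lf (nat_lit 0) (nat_lit 58367240233) (nat_lit 76) (nat_lit 14740864304) (nat_lit 76) (nat_lit 1815470395) (nat_lit 4) (nat_lit 4) (nat_lit 5) (nat_lit 5) (nat_lit 5) (nat_lit 4) (nat_lit 320) (nat_lit 218) (nat_lit 182))))) (XT.nd (nat_lit 156) (nat_lit 76) (nat_lit 0) (XT.nd (nat_lit 78) (nat_lit 0) (nat_lit 0) (XT.lf (nat_lit 0) (nat_lit 835432922) (nat_lit 152) (nat_lit 11357912189) (nat_lit 76) (nat_lit 66369209297) (nat_lit 3) (nat_lit 5) (nat_lit 5) (nat_lit 5) (nat_lit 4) (nat_lit 4) (nat_lit 321) (nat_lit 218) (nat_lit 181)) (XT.lf (nat_lit 0) (nat_lit 3540021220) (nat_lit 152)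 (nat_lit 5989928527) (nat_lit 76) (nat_lit 72854279642) (nat_lit 3) (nat_lit 5) (nat_lit 5) (nat_lit 5) (nat_lit 4) (nat_lit 4) (nat_lit 322) (nat_lit 218) (nat_lit 180))) (XT.nd (nat_lit 78) (nat_lit 76) (nat_lit 0) (XT.lf (nat_lit 0) (nat_lit 6340160361) (nat_lit 152) (nat_lit 422151389) (nat_lit 76) (nat_lit 79635910894) (nat_lit 3) (nat_lit 5) (nat_lit 5) (nat_lit 5) (nat_lit 4) (nat_lit 4) (nat_lit 323) (nat_lit 218) (nat_lit 179)) (XT.nd (nat_lit 78) (nat_lit 0) (nat_lit 0) (XT.lf (nat_lit 0) (nat_lit 5465323993) (nat_lit 76) (nat_lit 3829729387) (nat_lit 152) (nat_lit 81317461839) (nat_lit 2) (nat_lit 5) (nat_lit 3) (nat_lit 5) (nat_lit 4) (nat_lit 4) (nat_lit 324) (nat_lit 218) (nat_lit 178)) (XT.lf (nat_lit 0) (nat_lit 11592529021) (nat_lit 76) (nat_lit 772907996) (nat_lit 152) (nat_lit 82673093086) (nat_lit 2) (nat_lit 5) (nat_lit 3) (nat_lit 5) (nat_lit 4) (nat_lit 4) (nat_lit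 325) (nat_lit 218) (nat_lit 177)))))) (XT.nd (nat_lit 34086) (nat_lit 0) (nat_lit 1140) (XT.nd (nat_lit 156) (nat_lit 0) (nat_lit 0) (XT.nd (nat_lit 78) (nat_lit 0) (nat_lit 0) (XT.lf (nat_lit 0) (nat_lit 15577660593) (nat_lit 152) (nat_lit 81744456573) (nat_lit 0) (nat_lit 2364117098) (nat_lit 2) (nat_lit 5) (nat_lit 4) (nat_lit 4) (nat_lit 2) (nat_lit 4) (nat_lit 326) (nat_lit 218) (nat_lit 176)) (XT.lf (nat_lit 0) (nat_lit 18924865238) (nat_lit 152) (nat_lit 80023999381) (nat_lit 0) (nat_lit 5618264254) (nat_lit 2) (nat_lit 5) (nat_lit 4) (nat_lit 4) (nat_lit 2) (nat_lit 4) (nat_lit 327) (nat_lit 218) (nat_lit 175))) (XT.nd (nat_lit 78) (nat_lit 0) (nat_lit 0) (XT.lf (nat_lit 0) (nat_lit 22407590822) (nat_lit 152) (nat_lit 78273103517) (nat_lit 0) (nat_lit 9012363658) (nat_lit 2) (nat_lit 5) (nat_lit 4) (nat_lit 4) (nat_lit 2) (nat_lit 4) (nat_lit 328) (nat_lit 218) (nat_lit 174)) (XT.nd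 (nat_lit 78) (nat_lit 0) (nat_lit 0) (XT.lf (nat_lit 0) (nat_lit 26034129550) (nat_lit 152) (nat_lit 76487600180) (nat_lit 0) (nat_lit 12554496501) (nat_lit 2) (nat_lit 5) (nat_lit 4) (nat_lit 4) (nat_lit 2) (nat_lit 4) (nat_lit 329) (nat_lit 218) (nat_lit 173)) (XT.lf (nat_lit 0) (nat_lit 29813116037) (nat_lit 152) (nat_lit 74663238172) (nat_lit 0) (nat_lit 16253096430) (nat_lit 2) (nat_lit 5) (nat_lit 4) (nat_lit 4) (nat_lit 2) (nat_lit 4) (nat_lit 330) (nat_lit 218) (nat_lit 172))))) (XT.nd (nat_lit 234) (nat_lit 228) (nat_lit 0) (XT.nd (nat_lit 78) (nat_lit 380) (nat_lit 0) (XT.lf (nat_lit 0) (nat_lit 3082296572) (nat_lit 228) (nat_lit 1051975131) (nat_lit 0) (nat_lit 3082296572) (nat_lit 25) (nat_lit 5) (nat_lit 28) (nat_lit 4) (nat_lit 25) (nat_lit 4) (nat_lit 282) (nat_lit 219) (nat_lit 219)) (XT.nd (nat_lit 78) (nat_lit 228) (nat_lit 0) (XT.lf (nat_lit 0) (nat_lit 7548339166) (nat_lit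 152) (nat_lit 4157893584) (nat_lit 152) (nat_lit 3252339203) (nat_lit 23) (nat_lit 4) (nat_lit 25) (nat_lit 5) (nat_lit 25) (nat_lit 4) (nat_lit 283) (nat_lit 219) (nat_lit 218)) (XT.lf (nat_lit 0) (nat_lit 1819031982) (nat_lit 228) (nat_lit 13593143366) (nat_lit 0) (nat_lit 102539628) (nat_lit 20) (nat_lit 5) (nat_lit 23) (nat_lit 4) (nat_lit 20) (nat_lit 4) (nat_lit 284) (nat_lit 219) (nat_lit 217)))) (XT.nd (nat_lit 78) (nat_lit 228) (nat_lit 0) (XT.lf (nat_lit 0) (nat_lit 7004056710) (nat_lit 228) (nat_lit 4606010254) (nat_lit 0) (nat_lit 4490123076) (nat_lit 20) (nat_lit 5) (nat_lit 23) (nat_lit 4) (nat_lit 20) (nat_lit 4) (nat_lit 285) (nat_lit 219) (nat_lit 216)) (XT.nd (nat_lit 78) (nat_lit 76) (nat_lit 0) (XT.lf (nat_lit 0) (nat_lit 4626566861) (nat_lit 152) (nat_lit 7683114800) (nat_lit 152) (nat_lit 4409713280) (nat_lit 18) (nat_lit 4) (nat_lit 20) (nat_lit 5) (nat_lit 20) (nat_lit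 4) (nat_lit 286) (nat_lit 219) (nat_lit 215)) (XT.lf (nat_lit 0) (nat_lit 369758051) (nat_lit 228) (nat_lit 3246095422) (nat_lit 76) (nat_lit 13757772382) (nat_lit 17) (nat_lit 5) (nat_lit 20) (nat_lit 5) (nat_lit 18) (nat_lit 4) (nat_lit 287) (nat_lit 219) (nat_lit 214))))))))
noncomputable def xc15 : XT := (XT.nd (nat_lit 1638) (nat_lit 228) (nat_lit 0) (XT.nd (nat_lit 780) (nat_lit 304) (nat_lit 0) (XT.nd (nat_lit 390) (nat_lit 228) (nat_lit 0) (XT.nd (nat_lit 156) (nat_lit 304) (nat_lit 0) (XT.nd (nat_lit 78) (nat_lit 0) (nat_lit 0) (XT.lf (nat_lit 0) (nat_lit 5189585391) (nat_lit 152) (nat_lit 12232662693) (nat_lit 0) (nat_lit 640494102) (nat_lit 16) (nat_lit 5) (nat_lit 18) (nat_lit 4) (nat_lit 16) (nat_lit 4) (nat_lit 288) (nat_lit 219) (nat_lit 213)) (XT.lf (nat_lit 0) (nat_lit 10154559479) (nat_lit 152) (nat_lit 3666359179) (nat_lit 0) (nat_lit 4968519729) (nat_lit 16) (nat_lit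 5) (nat_lit 18) (nat_lit 4) (nat_lit 16) (nat_lit 4) (nat_lit 289) (nat_lit 219) (nat_lit 212))) (XT.nd (nat_lit 78) (nat_lit 152) (nat_lit 0) (XT.lf (nat_lit 0) (nat_lit 5169984739) (nat_lit 152) (nat_lit 10089316642) (nat_lit 152) (nat_lit 4296659311) (nat_lit 14) (nat_lit 4) (nat_lit 16) (nat_lit 5) (nat_lit 16) (nat_lit 4) (nat_lit 290) (nat_lit 219) (nat_lit 211)) (XT.nd (nat_lit 78) (nat_lit 76) (nat_lit 0) (XT.lf (nat_lit 0) (nat_lit 136741033) (nat_lit 228) (nat_lit 6092804062) (nat_lit 76) (nat_lit 14134909097) (nat_lit 13) (nat_lit 5) (nat_lit 16) (nat_lit 5) (nat_lit 14) (nat_lit 4) (nat_lit 291) (nat_lit 219) (nat_lit 210)) (XT.lf (nat_lit 0) (nat_lit 2375119754) (nat_lit 76) (nat_lit 2204056670) (nat_lit 152) (nat_lit 16636841501) (nat_lit 12) (nat_lit 5) (nat_lit 13) (nat_lit 5) (nat_lit 14) (nat_lit 4) (nat_lit 292) (nat_lit 219) (nat_lit 209))))) (XT.nd (nat_lit 156) (nat_lit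 228) (nat_lit 0) (XT.nd (nat_lit 78) (nat_lit 0) (nat_lit 0) (XT.lf (nat_lit 0) (nat_lit 9182943813) (nat_lit 152) (nat_lit 10974088224) (nat_lit 0) (nat_lit 1955150158) (nat_lit 12) (nat_lit 5) (nat_lit 14) (nat_lit 4) (nat_lit 12) (nat_lit 4) (nat_lit 293) (nat_lit 219) (nat_lit 208)) (XT.lf (nat_lit 0) (nat_lit 13902408224) (nat_lit 152) (nat_lit 2964285712) (nat_lit 0) (nat_lit 6190084681) (nat_lit 12) (nat_lit 5) (nat_lit 14) (nat_lit 4) (nat_lit 12) (nat_lit 4) (nat_lit 294) (nat_lit 219) (nat_lit 207))) (XT.nd (nat_lit 78) (nat_lit 76) (nat_lit 0) (XT.lf (nat_lit 0) (nat_lit 5332829781) (nat_lit 152) (nat_lit 13446052379) (nat_lit 152) (nat_lit 5272271798) (nat_lit 10) (nat_lit 4) (nat_lit 12) (nat_lit 5) (nat_lit 12) (nat_lit 4) (nat_lit 295) (nat_lit 219) (nat_lit 206)) (XT.nd (nat_lit 78) (nat_lit 76) (nat_lit 0) (XT.lf (nat_lit 0) (nat_lit 13895733178) (nat_lit 152) (nat_lit 9907908063)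 (nat_lit 152) (nat_lit 1294644590) (nat_lit 10) (nat_lit 4) (nat_lit 12) (nat_lit 5) (nat_lit 12) (nat_lit 4) (nat_lit 296) (nat_lit 219) (nat_lit 205)) (XT.lf (nat_lit 0) (nat_lit 2704228842) (nat_lit 228) (nat_lit 3542234057) (nat_lit 76) (nat_lit 19954280994) (nat_lit 9) (nat_lit 5) (nat_lit 12) (nat_lit 5) (nat_lit 10) (nat_lit 4) (nat_lit 297) (nat_lit 219) (nat_lit 204)))))) (XT.nd (nat_lit 390) (nat_lit 152) (nat_lit 0) (XT.nd (nat_lit 156) (nat_lit 76) (nat_lit 0) (XT.nd (nat_lit 78) (nat_lit 0) (nat_lit 0) (XT.lf (nat_lit 0) (nat_lit 4379649117) (nat_lit 76) (nat_lit 2423351702) (nat_lit 152) (nat_lit 20557288708) (nat_lit 8) (nat_lit 5) (nat_lit 9) (nat_lit 5) (nat_lit 10) (nat_lit 4) (nat_lit 298) (nat_lit 219) (nat_lit 203)) (XT.lf (nat_lit 0) (nat_lit 11046172392) (nat_lit 152) (nat_lit 16011781531) (nat_lit 0) (nat_lit 1521818612) (nat_lit 8) (nat_lit 5) (nat_lit 10) (nat_lit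 4) (nat_lit 8) (nat_lit 4) (nat_lit 299) (nat_lit 219) (nat_lit 202))) (XT.nd (nat_lit 78) (nat_lit 76) (nat_lit 0) (XT.lf (nat_lit 0) (nat_lit 15418669583) (nat_lit 152) (nat_lit 8900899050) (nat_lit 0) (nat_lit 5543283121) (nat_lit 8) (nat_lit 5) (nat_lit 10) (nat_lit 4) (nat_lit 8) (nat_lit 4) (nat_lit 300) (nat_lit 219) (nat_lit 201)) (XT.nd (nat_lit 78) (nat_lit 76) (nat_lit 0) (XT.lf (nat_lit 0) (nat_lit 19907608361) (nat_lit 152) (nat_lit 1607767554) (nat_lit 0) (nat_lit 9697905058) (nat_lit 8) (nat_lit 5) (nat_lit 10) (nat_lit 4) (nat_lit 8) (nat_lit 4) (nat_lit 301) (nat_lit 219) (nat_lit 200)) (XT.lf (nat_lit 0) (nat_lit 6002100146) (nat_lit 76) (nat_lit 18579272388) (nat_lit 76) (nat_lit 8051172094) (nat_lit 7) (nat_lit 4) (nat_lit 8) (nat_lit 5) (nat_lit 8) (nat_lit 4) (nat_lit 302) (nat_lit 219) (nat_lit 199))))) (XT.nd (nat_lit 234) (nat_lit 76) (nat_lit 0) (XT.nd (nat_lit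 78) (nat_lit 76) (nat_lit 0) (XT.lf (nat_lit 0) (nat_lit 13865746808) (nat_lit 76) (nat_lit 15545404399) (nat_lit 76) (nat_lit 4714068875) (nat_lit 7) (nat_lit 4) (nat_lit 8) (nat_lit 5) (nat_lit 8) (nat_lit 4) (nat_lit 303) (nat_lit 219) (nat_lit 198)) (XT.nd (nat_lit 78) (nat_lit 76) (nat_lit 0) (XT.lf (nat_lit 0) (nat_lit 21969897670) (nat_lit 76) (nat_lit 12422783754) (nat_lit 76) (nat_lit 1302652773) (nat_lit 7) (nat_lit 4) (nat_lit 8) (nat_lit 5) (nat_lit 8) (nat_lit 4) (nat_lit 304) (nat_lit 219) (nat_lit 197)) (XT.lf (nat_lit 0) (nat_lit 2148440453) (nat_lit 152) (nat_lit 7033840152) (nat_lit 76) (nat_lit 28163712843) (nat_lit 6) (nat_lit 5) (nat_lit 8) (nat_lit 5) (nat_lit 7) (nat_lit 4) (nat_lit 305) (nat_lit 219) (nat_lit 196)))) (XT.nd (nat_lit 78) (nat_lit 76) (nat_lit 0) (XT.lf (nat_lit 0) (nat_lit 5663097291) (nat_lit 152) (nat_lit 161032763) (nat_lit 76) (nat_lit 33257229491)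 (nat_lit 6) (nat_lit 5) (nat_lit 8) (nat_lit 5) (nat_lit 7) (nat_lit 4) (nat_lit 306) (nat_lit 219) (nat_lit 195)) (XT.nd (nat_lit 78) (nat_lit 0) (nat_lit 0) (XT.lf (nat_lit 0) (nat_lit 7059630174) (nat_lit 76) (nat_lit 2283336728) (nat_lit 152) (nat_lit 31560937222) (nat_lit 5) (nat_lit 5) (nat_lit 6) (nat_lit 5) (nat_lit 7) (nat_lit 4) (nat_lit 307) (nat_lit 219) (nat_lit 194)) (XT.lf (nat_lit 0) (nat_lit 13145880003) (nat_lit 152) (nat_lit 28318205737) (nat_lit 0) (nat_lit 1355408764) (nat_lit 5) (nat_lit 5) (nat_lit 7) (nat_lit 4) (nat_lit 5) (nat_lit 4) (nat_lit 308) (nat_lit 219) (nat_lit 193))))))) (XT.nd (nat_lit 780) (nat_lit 152) (nat_lit 0) (XT.nd (nat_lit 390) (nat_lit 0) (nat_lit 0) (XT.nd (nat_lit 156) (nat_lit 76) (nat_lit 0) (XT.nd (nat_lit 78) (nat_lit 0) (nat_lit 0) (XT.lf (nat_lit 0) (nat_lit 17089210410) (nat_lit 152) (nat_lit 22664180609) (nat_lit 0) (nat_lit 5079051018)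 (nat_lit 5) (nat_lit 5) (nat_lit 7) (nat_lit 4) (nat_lit 5) (nat_lit 4) (nat_lit 309) (nat_lit 219) (nat_lit 192)) (XT.lf (nat_lit 0) (nat_lit 21160398175) (nat_lit 152) (nat_lit 16846787773) (nat_lit 0) (nat_lit 8941011972) (nat_lit 5) (nat_lit 5) (nat_lit 7) (nat_lit 4) (nat_lit 5) (nat_lit 4) (nat_lit 310) (nat_lit 219) (nat_lit 191))) (XT.nd (nat_lit 78) (nat_lit 76) (nat_lit 0) (XT.lf (nat_lit 0) (nat_lit 25369136603) (nat_lit 152) (nat_lit 10852176293) (nat_lit 0) (nat_lit 12950486770) (nat_lit 5) (nat_lit 5) (nat_lit 7) (nat_lit 4) (nat_lit 5) (nat_lit 4) (nat_lit 311) (nat_lit 219) (nat_lit 190)) (XT.nd (nat_lit 78) (nat_lit 76) (nat_lit 0) (XT.lf (nat_lit 0) (nat_lit 29725446501) (nat_lit 152) (nat_lit 4666073285) (nat_lit 0) (nat_lit 17117021781) (nat_lit 5) (nat_lit 5) (nat_lit 7) (nat_lit 4) (nat_lit 5) (nat_lit 4) (nat_lit 312) (nat_lit 219) (nat_lit 189)) (XT.lf (nat_lit 0)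 (nat_lit 1760605829) (nat_lit 76) (nat_lit 32496018224) (nat_lit 76) (nat_lit 19706855517) (nat_lit 4) (nat_lit 4) (nat_lit 5) (nat_lit 5) (nat_lit 5) (nat_lit 4) (nat_lit 313) (nat_lit 219) (nat_lit 188))))) (XT.nd (nat_lit 156) (nat_lit 0) (nat_lit 0) (XT.nd (nat_lit 78) (nat_lit 0) (nat_lit 0) (XT.lf (nat_lit 0) (nat_lit 8505996207) (nat_lit 76) (nat_lit 30498414054) (nat_lit 76) (nat_lit 17537119932) (nat_lit 4) (nat_lit 4) (nat_lit 5) (nat_lit 5) (nat_lit 5) (nat_lit 4) (nat_lit 314) (nat_lit 219) (nat_lit 187)) (XT.lf (nat_lit 0) (nat_lit 15493294294) (nat_lit 76) (nat_lit 28441069269) (nat_lit 76) (nat_lit 15315840464) (nat_lit 4) (nat_lit 4) (nat_lit 5) (nat_lit 5) (nat_lit 5) (nat_lit 4) (nat_lit 315) (nat_lit 219) (nat_lit 186))) (XT.nd (nat_lit 78) (nat_lit 0) (nat_lit 0) (XT.lf (nat_lit 0) (nat_lit 22739136515) (nat_lit 76) (nat_lit 26319085426) (nat_lit 76) (nat_lit 13037728353)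 (nat_lit 4) (nat_lit 4) (nat_lit 5) (nat_lit 5) (nat_lit 5) (nat_lit 4) (nat_lit 316) (nat_lit 219) (nat_lit 185)) (XT.nd (nat_lit 78) (nat_lit 0) (nat_lit 0) (XT.lf (nat_lit 0) (nat_lit 30260774874) (nat_lit 76) (nat_lit 24127410185) (nat_lit 76) (nat_lit 10697359523) (nat_lit 4) (nat_lit 4) (nat_lit 5) (nat_lit 5) (nat_lit 5) (nat_lit 4) (nat_lit 317) (nat_lit 219) (nat_lit 184)) (XT.lf (nat_lit 0) (nat_lit 38076118034) (nat_lit 76) (nat_lit 21860825271) (nat_lit 76) (nat_lit 8289161667) (nat_lit 4) (nat_lit 4) (nat_lit 5) (nat_lit 5) (nat_lit 5) (nat_lit 4) (nat_lit 318) (nat_lit 219) (nat_lit 183)))))) (XT.nd (nat_lit 390) (nat_lit 76) (nat_lit 0) (XT.nd (nat_lit 156) (nat_lit 76) (nat_lit 0) (XT.nd (nat_lit 78) (nat_lit 0) (nat_lit 0) (XT.lf (nat_lit 0) (nat_lit 46203773956) (nat_lit 76) (nat_lit 19513934052) (nat_lit 76) (nat_lit 5807400979) (nat_lit 4) (nat_lit 4) (nat_lit 5) (nat_lit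 5) (nat_lit 5) (nat_lit 4) (nat_lit 319) (nat_lit 219) (nat_lit 182)) (XT.lf (nat_lit 0) (nat_lit 54663094201) (nat_lit 76) (nat_lit 17081148693) (nat_lit 76) (nat_lit 3246168508) (nat_lit 4) (nat_lit 4) (nat_lit 5) (nat_lit 5) (nat_lit 5) (nat_lit 4) (nat_lit 320) (nat_lit 219) (nat_lit 181))) (XT.nd (nat_lit 78) (nat_lit 76) (nat_lit 0) (XT.lf (nat_lit 0) (nat_lit 63474220007) (nat_lit 76) (nat_lit 14556676848) (nat_lit 76) (nat_lit 599366079) (nat_lit 4) (nat_lit 4) (nat_lit 5) (nat_lit 5) (nat_lit 5) (nat_lit 4) (nat_lit 321) (nat_lit 219) (nat_lit 180)) (XT.nd (nat_lit 78) (nat_lit 0) (nat_lit 0) (XT.lf (nat_lit 0) (nat_lit 2097562608) (nat_lit 152) (nat_lit 9815763991) (nat_lit 76) (nat_lit 70539386367) (nat_lit 3) (nat_lit 5) (nat_lit 5) (nat_lit 5) (nat_lit 4) (nat_lit 4) (nat_lit 322) (nat_lit 219) (nat_lit 179)) (XT.lf (nat_lit 0) (nat_lit 4879268034) (nat_lit 152) (nat_lit 4279859423)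 (nat_lit 76) (nat_lit 77308152295) (nat_lit 3) (nat_lit 5) (nat_lit 5) (nat_lit 5) (nat_lit 4) (nat_lit 4) (nat_lit 323) (nat_lit 219) (nat_lit 178))))) (XT.nd (nat_lit 234) (nat_lit 0) (nat_lit 0) (XT.nd (nat_lit 78) (nat_lit 0) (nat_lit 0) (XT.lf (nat_lit 0) (nat_lit 1499881056) (nat_lit 76) (nat_lit 6278605813) (nat_lit 152) (nat_lit 82904775224) (nat_lit 2) (nat_lit 5) (nat_lit 3) (nat_lit 5) (nat_lit 4) (nat_lit 4) (nat_lit 324) (nat_lit 219) (nat_lit 177)) (XT.nd (nat_lit 78) (nat_lit 0) (nat_lit 0) (XT.lf (nat_lit 0) (nat_lit 7597601372) (nat_lit 76) (nat_lit 3234265788) (nat_lit 152) (nat_lit 84277938531) (nat_lit 2) (nat_lit 5) (nat_lit 3) (nat_lit 5) (nat_lit 4) (nat_lit 4) (nat_lit 325) (nat_lit 219) (nat_lit 176)) (XT.lf (nat_lit 0) (nat_lit 13942642310) (nat_lit 76) (nat_lit 62077141) (nat_lit 152) (nat_lit 85753989264) (nat_lit 2) (nat_lit 5) (nat_lit 3) (nat_lit 5) (nat_lit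 4) (nat_lit 4) (nat_lit 326) (nat_lit 219) (nat_lit 175)))) (XT.nd (nat_lit 78) (nat_lit 0) (nat_lit 0) (XT.lf (nat_lit 0) (nat_lit 17335796010) (nat_lit 152) (nat_lit 84122126728) (nat_lit 0) (nat_lit 3182181309) (nat_lit 2) (nat_lit 5) (nat_lit 4) (nat_lit 4) (nat_lit 2) (nat_lit 4) (nat_lit 327) (nat_lit 219) (nat_lit 174)) (XT.nd (nat_lit 78) (nat_lit 0) (nat_lit 0) (XT.lf (nat_lit 0) (nat_lit 20803729821) (nat_lit 152) (nat_lit 82397053947) (nat_lit 0) (nat_lit 6565709234) (nat_lit 2) (nat_lit 5) (nat_lit 4) (nat_lit 4) (nat_lit 2) (nat_lit 4) (nat_lit 328) (nat_lit 219) (nat_lit 173)) (XT.lf (nat_lit 0) (nat_lit 24416181145) (nat_lit 152) (nat_lit 80636144023) (nat_lit 0) (nat_lit 10097774001) (nat_lit 2) (nat_lit 5) (nat_lit 4) (nat_lit 4) (nat_lit 2) (nat_lit 4) (nat_lit 329) (nat_lit 219) (nat_lit 172))))))))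
noncomputable def xc16 : XT := (XT.nd (nat_lit 35100) (nat_lit 0) (nat_lit 152) (XT.nd (nat_lit 34320) (nat_lit 0) (nat_lit 456) (XT.nd (nat_lit 33930) (nat_lit 0) (nat_lit 1064) (XT.nd (nat_lit 33696) (nat_lit 0) (nat_lit 1596) (XT.nd (nat_lit 33618) (nat_lit 0) (nat_lit 1976) (XT.lf (nat_lit 0) (nat_lit 28181751058) (nat_lit 152) (nat_lit 78835204313) (nat_lit 0) (nat_lit 13786785287) (nat_lit 2) (nat_lit 5) (nat_lit 4) (nat_lit 4) (nat_lit 2) (nat_lit 4) (nat_lit 330) (nat_lit 219) (nat_lit 171)) (XT.lf (nat_lit 0) (nat_lit 3237954335) (nat_lit 228) (nat_lit 1746787419) (nat_lit 228) (nat_lit 1746787419) (nat_lit 28) (nat_lit 4) (nat_lit 31) (nat_lit 5) (nat_lit 31) (nat_lit 4) (nat_lit 280) (nat_lit 220) (nat_lit 220))) (XT.nd (nat_lit 78) (nat_lit 152) (nat_lit 0) (XT.lf (nat_lit 0) (nat_lit 1714320305) (nat_lit 228) (nat_lit 11458950723) (nat_lit 0) (nat_lit 763488205) (nat_lit 25)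 (nat_lit 5) (nat_lit 28) (nat_lit 4) (nat_lit 25) (nat_lit 4) (nat_lit 281) (nat_lit 220) (nat_lit 219)) (XT.nd (nat_lit 78) (nat_lit 152) (nat_lit 0) (XT.lf (nat_lit 0) (nat_lit 7016849716) (nat_lit 228) (nat_lit 2258953355) (nat_lit 0) (nat_lit 5160463235) (nat_lit 25) (nat_lit 5) (nat_lit 28) (nat_lit 4) (nat_lit 25) (nat_lit 4) (nat_lit 282) (nat_lit 220) (nat_lit 218)) (XT.lf (nat_lit 0) (nat_lit 7239691251) (nat_lit 152) (nat_lit 5221949702) (nat_lit 152) (nat_lit 2503130477) (nat_lit 23) (nat_lit 4) (nat_lit 25) (nat_lit 5) (nat_lit 25) (nat_lit 4) (nat_lit 283) (nat_lit 220) (nat_lit 217))))) (XT.nd (nat_lit 156) (nat_lit 304) (nat_lit 0) (XT.nd (nat_lit 78) (nat_lit 0) (nat_lit 0) (XT.lf (nat_lit 0) (nat_lit 1445885094) (nat_lit 152) (nat_lit 1010306451) (nat_lit 228) (nat_lit 13067581627) (nat_lit 20) (nat_lit 5) (nat_lit 22) (nat_lit 5) (nat_lit 23) (nat_lit 4) (nat_lit 284) (nat_lit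 220) (nat_lit 216)) (XT.lf (nat_lit 0) (nat_lit 7542175612) (nat_lit 228) (nat_lit 5224552373) (nat_lit 0) (nat_lit 3345636131) (nat_lit 20) (nat_lit 5) (nat_lit 23) (nat_lit 4) (nat_lit 20) (nat_lit 4) (nat_lit 285) (nat_lit 220) (nat_lit 215))) (XT.nd (nat_lit 78) (nat_lit 152) (nat_lit 0) (XT.lf (nat_lit 0) (nat_lit 3856319109) (nat_lit 152) (nat_lit 8899002144) (nat_lit 152) (nat_lit 3979159915) (nat_lit 18) (nat_lit 4) (nat_lit 20) (nat_lit 5) (nat_lit 20) (nat_lit 4) (nat_lit 286) (nat_lit 220) (nat_lit 214)) (XT.nd (nat_lit 78) (nat_lit 76) (nat_lit 0) (XT.lf (nat_lit 0) (nat_lit 708666103) (nat_lit 228) (nat_lit 4170109799) (nat_lit 76) (nat_lit 12512436719) (nat_lit 17) (nat_lit 5) (nat_lit 20) (nat_lit 5) (nat_lit 18) (nat_lit 4) (nat_lit 287) (nat_lit 220) (nat_lit 213)) (XT.lf (nat_lit 0) (nat_lit 4763458107) (nat_lit 76) (nat_lit 669161109) (nat_lit 152) (nat_lit 12650707286)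 (nat_lit 16) (nat_lit 5) (nat_lit 17) (nat_lit 5) (nat_lit 18) (nat_lit 4) (nat_lit 288) (nat_lit 220) (nat_lit 212)))))) (XT.nd (nat_lit 390) (nat_lit 304) (nat_lit 0) (XT.nd (nat_lit 156) (nat_lit 152) (nat_lit 0) (XT.nd (nat_lit 78) (nat_lit 152) (nat_lit 0) (XT.lf (nat_lit 0) (nat_lit 10314000945) (nat_lit 152) (nat_lit 4873551907) (nat_lit 0) (nat_lit 3625093167) (nat_lit 16) (nat_lit 5) (nat_lit 18) (nat_lit 4) (nat_lit 16) (nat_lit 4) (nat_lit 289) (nat_lit 220) (nat_lit 211)) (XT.lf (nat_lit 0) (nat_lit 3815970884) (nat_lit 152) (nat_lit 11516270667) (nat_lit 152) (nat_lit 4249631858) (nat_lit 14) (nat_lit 4) (nat_lit 16) (nat_lit 5) (nat_lit 16) (nat_lit 4) (nat_lit 290) (nat_lit 220) (nat_lit 210))) (XT.nd (nat_lit 78) (nat_lit 76) (nat_lit 0) (XT.lf (nat_lit 0) (nat_lit 110933440) (nat_lit 228) (nat_lit 7591663952) (nat_lit 76) (nat_lit 12690015227) (nat_lit 13) (nat_lit 5) (nat_lit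 16) (nat_lit 5) (nat_lit 14) (nat_lit 4) (nat_lit 291) (nat_lit 220) (nat_lit 209)) (XT.nd (nat_lit 78) (nat_lit 0) (nat_lit 0) (XT.lf (nat_lit 0) (nat_lit 731344593) (nat_lit 76) (nat_lit 3737730532) (nat_lit 152) (nat_lit 16777726944) (nat_lit 12) (nat_lit 5) (nat_lit 13) (nat_lit 5) (nat_lit 14) (nat_lit 4) (nat_lit 292) (nat_lit 220) (nat_lit 208)) (XT.lf (nat_lit 0) (nat_lit 8991398719) (nat_lit 152) (nat_lit 12745174115) (nat_lit 0) (nat_lit 408929110) (nat_lit 12) (nat_lit 5) (nat_lit 14) (nat_lit 4) (nat_lit 12) (nat_lit 4) (nat_lit 293) (nat_lit 220) (nat_lit 207))))) (XT.nd (nat_lit 156) (nat_lit 152) (nat_lit 0) (XT.nd (nat_lit 78) (nat_lit 152) (nat_lit 0) (XT.lf (nat_lit 0) (nat_lit 13647338195) (nat_lit 152) (nat_lit 4841342266) (nat_lit 0) (nat_lit 4603411549) (nat_lit 12) (nat_lit 5) (nat_lit 14) (nat_lit 4) (nat_lit 12) (nat_lit 4) (nat_lit 294) (nat_lit 220) (nat_lit 206))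 (XT.lf (nat_lit 0) (nat_lit 3315483084) (nat_lit 152) (nat_lit 15128437137) (nat_lit 152) (nat_lit 5645027599) (nat_lit 10) (nat_lit 4) (nat_lit 12) (nat_lit 5) (nat_lit 12) (nat_lit 4) (nat_lit 295) (nat_lit 220) (nat_lit 205))) (XT.nd (nat_lit 78) (nat_lit 152) (nat_lit 0) (XT.lf (nat_lit 0) (nat_lit 11780355018) (nat_lit 152) (nat_lit 11629762956) (nat_lit 152) (nat_lit 1727798282) (nat_lit 10) (nat_lit 4) (nat_lit 12) (nat_lit 5) (nat_lit 12) (nat_lit 4) (nat_lit 296) (nat_lit 220) (nat_lit 204)) (XT.nd (nat_lit 78) (nat_lit 76) (nat_lit 0) (XT.lf (nat_lit 0) (nat_lit 2223128194) (nat_lit 228) (nat_lit 5787638377) (nat_lit 76) (nat_lit 18231498357) (nat_lit 9) (nat_lit 5) (nat_lit 12) (nat_lit 5) (nat_lit 10) (nat_lit 4) (nat_lit 297) (nat_lit 220) (nat_lit 203)) (XT.lf (nat_lit 0) (nat_lit 1997707904) (nat_lit 76) (nat_lit 4247581929) (nat_lit 152) (nat_lit 21158889246) (nat_lit 8)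 (nat_lit 5) (nat_lit 9) (nat_lit 5) (nat_lit 10) (nat_lit 4) (nat_lit 298) (nat_lit 220) (nat_lit 202))))))) (XT.nd (nat_lit 780) (nat_lit 76) (nat_lit 0) (XT.nd (nat_lit 390) (nat_lit 152) (nat_lit 0) (XT.nd (nat_lit 156) (nat_lit 76) (nat_lit 0) (XT.nd (nat_lit 78) (nat_lit 0) (nat_lit 0) (XT.lf (nat_lit 0) (nat_lit 10113941990) (nat_lit 76) (nat_lit 307602892) (nat_lit 152) (nat_lit 18204191565) (nat_lit 8) (nat_lit 5) (nat_lit 9) (nat_lit 5) (nat_lit 10) (nat_lit 4) (nat_lit 299) (nat_lit 220) (nat_lit 201)) (XT.lf (nat_lit 0) (nat_lit 14741239708) (nat_lit 152) (nat_lit 11482489309) (nat_lit 0) (nat_lit 3686734399) (nat_lit 8) (nat_lit 5) (nat_lit 10) (nat_lit 4) (nat_lit 8) (nat_lit 4) (nat_lit 300) (nat_lit 220) (nat_lit 200))) (XT.nd (nat_lit 78) (nat_lit 76) (nat_lit 0) (XT.lf (nat_lit 0) (nat_lit 19182706582) (nat_lit 152) (nat_lit 4269866575) (nat_lit 0) (nat_lit 7809804282) (nat_lit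 8) (nat_lit 5) (nat_lit 10) (nat_lit 4) (nat_lit 8) (nat_lit 4) (nat_lit 301) (nat_lit 220) (nat_lit 199)) (XT.nd (nat_lit 78) (nat_lit 0) (nat_lit 0) (XT.lf (nat_lit 0) (nat_lit 3208819141) (nat_lit 76) (nat_lit 20575589551) (nat_lit 76) (nat_lit 8899452022) (nat_lit 7) (nat_lit 4) (nat_lit 8) (nat_lit 5) (nat_lit 8) (nat_lit 4) (nat_lit 302) (nat_lit 220) (nat_lit 198)) (XT.lf (nat_lit 0) (nat_lit 10997988665) (nat_lit 76) (nat_lit 17572424364) (nat_lit 76) (nat_lit 5607491378) (nat_lit 7) (nat_lit 4) (nat_lit 8) (nat_lit 5) (nat_lit 8) (nat_lit 4) (nat_lit 303) (nat_lit 220) (nat_lit 197))))) (XT.nd (nat_lit 156) (nat_lit 76) (nat_lit 0) (XT.nd (nat_lit 78) (nat_lit 76) (nat_lit 0) (XT.lf (nat_lit 0) (nat_lit 19031208921) (nat_lit 76) (nat_lit 14479044482) (nat_lit 76) (nat_lit 2239068204) (nat_lit 7) (nat_lit 4) (nat_lit 8) (nat_lit 5) (nat_lit 8) (nat_lit 4) (nat_lit 304) (nat_lit 220)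 (nat_lit 196)) (XT.lf (nat_lit 0) (nat_lit 1190151211) (nat_lit 152) (nat_lit 10085915311) (nat_lit 76) (nat_lit 26125437218) (nat_lit 6) (nat_lit 5) (nat_lit 8) (nat_lit 5) (nat_lit 7) (nat_lit 4) (nat_lit 305) (nat_lit 220) (nat_lit 195))) (XT.nd (nat_lit 78) (nat_lit 76) (nat_lit 0) (XT.lf (nat_lit 0) (nat_lit 4666573146) (nat_lit 152) (nat_lit 3278251158) (nat_lit 76) (nat_lit 31193238716) (nat_lit 6) (nat_lit 5) (nat_lit 8) (nat_lit 5) (nat_lit 7) (nat_lit 4) (nat_lit 306) (nat_lit 220) (nat_lit 194)) (XT.nd (nat_lit 78) (nat_lit 0) (nat_lit 0) (XT.lf (nat_lit 0) (nat_lit 3817097103) (nat_lit 76) (nat_lit 4461762248) (nat_lit 152) (nat_lit 32683819687) (nat_lit 5) (nat_lit 5) (nat_lit 6) (nat_lit 5) (nat_lit 7) (nat_lit 4) (nat_lit 307) (nat_lit 220) (nat_lit 193)) (XT.lf (nat_lit 0) (nat_lit 11212179889) (nat_lit 76) (nat_lit 821044774) (nat_lit 152) (nat_lit 30846543034) (nat_lit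 5) (nat_lit 5) (nat_lit 6) (nat_lit 5) (nat_lit 7) (nat_lit 4) (nat_lit 308) (nat_lit 220) (nat_lit 192)))))) (XT.nd (nat_lit 390) (nat_lit 76) (nat_lit 0) (XT.nd (nat_lit 156) (nat_lit 0) (nat_lit 0) (XT.nd (nat_lit 78) (nat_lit 0) (nat_lit 0) (XT.lf (nat_lit 0) (nat_lit 15934853339) (nat_lit 152) (nat_lit 26063881783) (nat_lit 0) (nat_lit 2895271013) (nat_lit 5) (nat_lit 5) (nat_lit 7) (nat_lit 4) (nat_lit 5) (nat_lit 4) (nat_lit 309) (nat_lit 220) (nat_lit 191)) (XT.lf (nat_lit 0) (nat_lit 19973841726) (nat_lit 152) (nat_lit 20301928458) (nat_lit 0) (nat_lit 6734995770) (nat_lit 5) (nat_lit 5) (nat_lit 7) (nat_lit 4) (nat_lit 5) (nat_lit 4) (nat_lit 310) (nat_lit 220) (nat_lit 190))) (XT.nd (nat_lit 78) (nat_lit 0) (nat_lit 0) (XT.lf (nat_lit 0) (nat_lit 24151914080) (nat_lit 152) (nat_lit 14360116513) (nat_lit 0) (nat_lit 10723293238) (nat_lit 5) (nat_lit 5) (nat_lit 7) (nat_lit 4) (nat_lit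 5) (nat_lit 4) (nat_lit 311) (nat_lit 220) (nat_lit 189)) (XT.nd (nat_lit 78) (nat_lit 0) (nat_lit 0) (XT.lf (nat_lit 0) (nat_lit 28479018192) (nat_lit 152) (nat_lit 8224298775) (nat_lit 0) (nat_lit 14869659363) (nat_lit 5) (nat_lit 5) (nat_lit 7) (nat_lit 4) (nat_lit 5) (nat_lit 4) (nat_lit 312) (nat_lit 220) (nat_lit 188)) (XT.lf (nat_lit 0) (nat_lit 32965456690) (nat_lit 152) (nat_lit 1879866156) (nat_lit 0) (nat_lit 19183966445) (nat_lit 5) (nat_lit 5) (nat_lit 7) (nat_lit 4) (nat_lit 5) (nat_lit 4) (nat_lit 313) (nat_lit 220) (nat_lit 187))))) (XT.nd (nat_lit 234) (nat_lit 0) (nat_lit 0) (XT.nd (nat_lit 78) (nat_lit 0) (nat_lit 0) (XT.lf (nat_lit 0) (nat_lit 4781593243) (nat_lit 76) (nat_lit 32886281929) (nat_lit 76) (nat_lit 18940857002) (nat_lit 4) (nat_lit 4) (nat_lit 5) (nat_lit 5) (nat_lit 5) (nat_lit 4) (nat_lit 314) (nat_lit 220) (nat_lit 186)) (XT.nd (nat_lit 78) (nat_lit 0)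 (nat_lit 0) (XT.lf (nat_lit 0) (nat_lit 11724588515) (nat_lit 76) (nat_lit 30847585037) (nat_lit 76) (nat_lit 16746031842) (nat_lit 4) (nat_lit 4) (nat_lit 5) (nat_lit 5) (nat_lit 5) (nat_lit 4) (nat_lit 315) (nat_lit 220) (nat_lit 185)) (XT.lf (nat_lit 0) (nat_lit 18928237578) (nat_lit 76) (nat_lit 28743361094) (nat_lit 76) (nat_lit 14493114309) (nat_lit 4) (nat_lit 4) (nat_lit 5) (nat_lit 5) (nat_lit 5) (nat_lit 4) (nat_lit 316) (nat_lit 220) (nat_lit 184)))) (XT.nd (nat_lit 78) (nat_lit 0) (nat_lit 0) (XT.lf (nat_lit 0) (nat_lit 26409691978) (nat_lit 76) (nat_lit 26568600042) (nat_lit 76) (nat_lit 12176740316) (nat_lit 4) (nat_lit 4) (nat_lit 5) (nat_lit 5) (nat_lit 5) (nat_lit 4) (nat_lit 317) (nat_lit 220) (nat_lit 183)) (XT.nd (nat_lit 78) (nat_lit 0) (nat_lit 0) (XT.lf (nat_lit 0) (nat_lit 34186764701) (nat_lit 76) (nat_lit 24318123880) (nat_lit 76) (nat_lit 9791394685) (nat_lit 4)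 (nat_lit 4) (nat_lit 5) (nat_lit 5) (nat_lit 5) (nat_lit 4) (nat_lit 318) (nat_lit 220) (nat_lit 182)) (XT.lf (nat_lit 0) (nat_lit 42277972587) (nat_lit 76) (nat_lit 21986574330) (nat_lit 76) (nat_lit 7331398022) (nat_lit 4) (nat_lit 4) (nat_lit 5) (nat_lit 5) (nat_lit 5) (nat_lit 4) (nat_lit 319) (nat_lit 220) (nat_lit 181))))))))
noncomputable def xc17 : XT := (XT.nd (nat_lit 34944) (nat_lit 0) (nat_lit 228) (XT.nd (nat_lit 780) (nat_lit 0) (nat_lit 0) (XT.nd (nat_lit 390) (nat_lit 76) (nat_lit 0) (XT.nd (nat_lit 156) (nat_lit 76) (nat_lit 0) (XT.nd (nat_lit 78) (nat_lit 0) (nat_lit 0) (XT.lf (nat_lit 0) (nat_lit 50702580416) (nat_lit 76) (nat_lit 19568400084) (nat_lit 76) (nat_lit 4790893192) (nat_lit 4) (nat_lit 4) (nat_lit 5) (nat_lit 5) (nat_lit 5) (nat_lit 4) (nat_lit 320) (nat_lit 220) (nat_lit 180)) (XT.lf (nat_lit 0) (nat_lit 59480646779) (nat_lit 76) (nat_lit 17057843584) (nat_lit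 76) (nat_lit 2163831375) (nat_lit 4) (nat_lit 4) (nat_lit 5) (nat_lit 5) (nat_lit 5) (nat_lit 4) (nat_lit 321) (nat_lit 220) (nat_lit 179))) (XT.nd (nat_lit 78) (nat_lit 0) (nat_lit 0) (XT.lf (nat_lit 0) (nat_lit 545191950) (nat_lit 152) (nat_lit 13898229996) (nat_lit 76) (nat_lit 68082374515) (nat_lit 3) (nat_lit 5) (nat_lit 5) (nat_lit 5) (nat_lit 4) (nat_lit 4) (nat_lit 322) (nat_lit 220) (nat_lit 178)) (XT.nd (nat_lit 78) (nat_lit 0) (nat_lit 0) (XT.lf (nat_lit 0) (nat_lit 3309341456) (nat_lit 152) (nat_lit 8392680256) (nat_lit 76) (nat_lit 74838887753) (nat_lit 3) (nat_lit 5) (nat_lit 5) (nat_lit 5) (nat_lit 4) (nat_lit 4) (nat_lit 323) (nat_lit 220) (nat_lit 177)) (XT.lf (nat_lit 0) (nat_lit 6177422594) (nat_lit 152) (nat_lit 2671117218) (nat_lit 76) (nat_lit 81909304737) (nat_lit 3) (nat_lit 5) (nat_lit 5) (nat_lit 5) (nat_lit 4) (nat_lit 4) (nat_lit 324) (nat_lit 220) (nat_lit 176)))))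 (XT.nd (nat_lit 156) (nat_lit 0) (nat_lit 0) (XT.nd (nat_lit 78) (nat_lit 0) (nat_lit 0) (XT.lf (nat_lit 0) (nat_lit 3345361946) (nat_lit 76) (nat_lit 5843059849) (nat_lit 152) (nat_lit 85997255509) (nat_lit 2) (nat_lit 5) (nat_lit 3) (nat_lit 5) (nat_lit 4) (nat_lit 4) (nat_lit 325) (nat_lit 220) (nat_lit 175)) (XT.lf (nat_lit 0) (nat_lit 9663659381) (nat_lit 76) (nat_lit 2682192168) (nat_lit 152) (nat_lit 87489208338) (nat_lit 2) (nat_lit 5) (nat_lit 3) (nat_lit 5) (nat_lit 4) (nat_lit 4) (nat_lit 326) (nat_lit 220) (nat_lit 174))) (XT.nd (nat_lit 78) (nat_lit 0) (nat_lit 0) (XT.lf (nat_lit 0) (nat_lit 15636950186) (nat_lit 152) (nat_lit 88478097764) (nat_lit 0) (nat_lit 602622684) (nat_lit 2) (nat_lit 5) (nat_lit 4) (nat_lit 4) (nat_lit 2) (nat_lit 4) (nat_lit 327) (nat_lit 220) (nat_lit 173)) (XT.nd (nat_lit 78) (nat_lit 0) (nat_lit 0) (XT.lf (nat_lit 0) (nat_lit 19090796593) (nat_lit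 152) (nat_lit 86777618395) (nat_lit 0) (nat_lit 3976082534) (nat_lit 2) (nat_lit 5) (nat_lit 4) (nat_lit 4) (nat_lit 2) (nat_lit 4) (nat_lit 328) (nat_lit 220) (nat_lit 172)) (XT.lf (nat_lit 0) (nat_lit 22689831343) (nat_lit 152) (nat_lit 85040130769) (nat_lit 0) (nat_lit 7498558658) (nat_lit 2) (nat_lit 5) (nat_lit 4) (nat_lit 4) (nat_lit 2) (nat_lit 4) (nat_lit 329) (nat_lit 220) (nat_lit 171)))))) (XT.nd (nat_lit 33774) (nat_lit 0) (nat_lit 1216) (XT.nd (nat_lit 33540) (nat_lit 0) (nat_lit 1748) (XT.nd (nat_lit 33462) (nat_lit 0) (nat_lit 2204) (XT.lf (nat_lit 0) (nat_lit 26442623565) (nat_lit 152) (nat_lit 83261498009) (nat_lit 0) (nat_lit 11178437903) (nat_lit 2) (nat_lit 5) (nat_lit 4) (nat_lit 4) (nat_lit 2) (nat_lit 4) (nat_lit 330) (nat_lit 220) (nat_lit 170)) (XT.lf (nat_lit 0) (nat_lit 33289458) (nat_lit 228) (nat_lit 6229064608) (nat_lit 0) (nat_lit 33289458) (nat_lit 31) (nat_lit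 5) (nat_lit 34) (nat_lit 4) (nat_lit 31) (nat_lit 4) (nat_lit 278) (nat_lit 221) (nat_lit 221))) (XT.nd (nat_lit 78) (nat_lit 456) (nat_lit 0) (XT.lf (nat_lit 0) (nat_lit 5419101654) (nat_lit 228) (nat_lit 3205960932) (nat_lit 0) (nat_lit 4390776738) (nat_lit 31) (nat_lit 5) (nat_lit 34) (nat_lit 4) (nat_lit 31) (nat_lit 4) (nat_lit 279) (nat_lit 221) (nat_lit 220)) (XT.nd (nat_lit 78) (nat_lit 228) (nat_lit 0) (XT.lf (nat_lit 0) (nat_lit 6321198869) (nat_lit 228) (nat_lit 4576367631) (nat_lit 228) (nat_lit 2568685651) (nat_lit 28) (nat_lit 4) (nat_lit 31) (nat_lit 5) (nat_lit 31) (nat_lit 4) (nat_lit 280) (nat_lit 221) (nat_lit 219)) (XT.lf (nat_lit 0) (nat_lit 2162992967) (nat_lit 152) (nat_lit 350995190) (nat_lit 228) (nat_lit 11429085850) (nat_lit 25) (nat_lit 5) (nat_lit 27) (nat_lit 5) (nat_lit 28) (nat_lit 4) (nat_lit 281) (nat_lit 221) (nat_lit 218))))) (XT.nd (nat_lit 156) (nat_lit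 380) (nat_lit 0) (XT.nd (nat_lit 78) (nat_lit 152) (nat_lit 0) (XT.lf (nat_lit 0) (nat_lit 7719262131) (nat_lit 228) (nat_lit 2724331684) (nat_lit 0) (nat_lit 4002069200) (nat_lit 25) (nat_lit 5) (nat_lit 28) (nat_lit 4) (nat_lit 25) (nat_lit 4) (nat_lit 282) (nat_lit 221) (nat_lit 217)) (XT.lf (nat_lit 0) (nat_lit 6621660544) (nat_lit 152) (nat_lit 6447041024) (nat_lit 152) (nat_lit 1908483575) (nat_lit 23) (nat_lit 4) (nat_lit 25) (nat_lit 5) (nat_lit 25) (nat_lit 4) (nat_lit 283) (nat_lit 221) (nat_lit 216))) (XT.nd (nat_lit 78) (nat_lit 152) (nat_lit 0) (XT.lf (nat_lit 0) (nat_lit 655860571) (nat_lit 152) (nat_lit 2288311813) (nat_lit 228) (nat_lit 12594839549) (nat_lit 20) (nat_lit 5) (nat_lit 22) (nat_lit 5) (nat_lit 23) (nat_lit 4) (nat_lit 284) (nat_lit 221) (nat_lit 215)) (XT.nd (nat_lit 78) (nat_lit 152) (nat_lit 0) (XT.lf (nat_lit 0) (nat_lit 7932796265) (nat_lit 228) (nat_lit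 6154206013) (nat_lit 0) (nat_lit 2043659177) (nat_lit 20) (nat_lit 5) (nat_lit 23) (nat_lit 4) (nat_lit 20) (nat_lit 4) (nat_lit 285) (nat_lit 221) (nat_lit 214)) (XT.lf (nat_lit 0) (nat_lit 2775405986) (nat_lit 152) (nat_lit 10279121507) (nat_lit 152) (nat_lit 3701124659) (nat_lit 18) (nat_lit 4) (nat_lit 20) (nat_lit 5) (nat_lit 20) (nat_lit 4) (nat_lit 286) (nat_lit 221) (nat_lit 213))))))) (XT.nd (nat_lit 780) (nat_lit 380) (nat_lit 0) (XT.nd (nat_lit 390) (nat_lit 304) (nat_lit 0) (XT.nd (nat_lit 156) (nat_lit 152) (nat_lit 0) (XT.nd (nat_lit 78) (nat_lit 76) (nat_lit 0) (XT.lf (nat_lit 0) (nat_lit 901996207) (nat_lit 228) (nat_lit 5403001461) (nat_lit 76) (nat_lit 11109805470) (nat_lit 17) (nat_lit 5) (nat_lit 20) (nat_lit 5) (nat_lit 18) (nat_lit 4) (nat_lit 287) (nat_lit 221) (nat_lit 212)) (XT.lf (nat_lit 0) (nat_lit 3381567536) (nat_lit 76) (nat_lit 2155593748) (nat_lit 152) (nat_lit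 12572534924) (nat_lit 16) (nat_lit 5) (nat_lit 17) (nat_lit 5) (nat_lit 18) (nat_lit 4) (nat_lit 288) (nat_lit 221) (nat_lit 211))) (XT.nd (nat_lit 78) (nat_lit 152) (nat_lit 0) (XT.lf (nat_lit 0) (nat_lit 10330768825) (nat_lit 152) (nat_lit 6387923124) (nat_lit 0) (nat_lit 2123067045) (nat_lit 16) (nat_lit 5) (nat_lit 18) (nat_lit 4) (nat_lit 16) (nat_lit 4) (nat_lit 289) (nat_lit 221) (nat_lit 210)) (XT.nd (nat_lit 78) (nat_lit 0) (nat_lit 0) (XT.lf (nat_lit 0) (nat_lit 2154512497) (nat_lit 152) (nat_lit 13108539609) (nat_lit 152) (nat_lit 4350617801) (nat_lit 14) (nat_lit 4) (nat_lit 16) (nat_lit 5) (nat_lit 16) (nat_lit 4) (nat_lit 290) (nat_lit 221) (nat_lit 209)) (XT.lf (nat_lit 0) (nat_lit 11029231239) (nat_lit 152) (nat_lit 9339641465) (nat_lit 152) (nat_lit 57700583) (nat_lit 14) (nat_lit 4) (nat_lit 16) (nat_lit 5) (nat_lit 16) (nat_lit 4) (nat_lit 291) (nat_lit 221) (nat_lit 208)))))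 (XT.nd (nat_lit 156) (nat_lit 152) (nat_lit 0) (XT.nd (nat_lit 78) (nat_lit 76) (nat_lit 0) (XT.lf (nat_lit 0) (nat_lit 4229305740) (nat_lit 228) (nat_lit 1195516014) (nat_lit 76) (nat_lit 15858217753) (nat_lit 13) (nat_lit 5) (nat_lit 16) (nat_lit 5) (nat_lit 14) (nat_lit 4) (nat_lit 292) (nat_lit 221) (nat_lit 207)) (XT.lf (nat_lit 0) (nat_lit 7349417985) (nat_lit 76) (nat_lit 1323353148) (nat_lit 152) (nat_lit 13511421893) (nat_lit 12) (nat_lit 5) (nat_lit 13) (nat_lit 5) (nat_lit 14) (nat_lit 4) (nat_lit 293) (nat_lit 221) (nat_lit 206))) (XT.nd (nat_lit 78) (nat_lit 152) (nat_lit 0) (XT.lf (nat_lit 0) (nat_lit 13255489790) (nat_lit 152) (nat_lit 7019146755) (nat_lit 0) (nat_lit 2858426882) (nat_lit 12) (nat_lit 5) (nat_lit 14) (nat_lit 4) (nat_lit 12) (nat_lit 4) (nat_lit 294) (nat_lit 221) (nat_lit 205)) (XT.nd (nat_lit 78) (nat_lit 0) (nat_lit 0) (XT.lf (nat_lit 0) (nat_lit 996304553)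 (nat_lit 152) (nat_lit 16975854911) (nat_lit 152) (nat_lit 6160236868) (nat_lit 10) (nat_lit 4) (nat_lit 12) (nat_lit 5) (nat_lit 12) (nat_lit 4) (nat_lit 295) (nat_lit 221) (nat_lit 204)) (XT.lf (nat_lit 0) (nat_lit 9367813189) (nat_lit 152) (nat_lit 13514771336) (nat_lit 152) (nat_lit 2300529354) (nat_lit 10) (nat_lit 4) (nat_lit 12) (nat_lit 5) (nat_lit 12) (nat_lit 4) (nat_lit 296) (nat_lit 221) (nat_lit 203)))))) (XT.nd (nat_lit 390) (nat_lit 228) (nat_lit 0) (XT.nd (nat_lit 156) (nat_lit 76) (nat_lit 0) (XT.nd (nat_lit 78) (nat_lit 0) (nat_lit 0) (XT.lf (nat_lit 0) (nat_lit 1607859507) (nat_lit 228) (nat_lit 8329929027) (nat_lit 76) (nat_lit 16351520795) (nat_lit 9) (nat_lit 5) (nat_lit 12) (nat_lit 5) (nat_lit 10) (nat_lit 4) (nat_lit 297) (nat_lit 221) (nat_lit 202)) (XT.lf (nat_lit 0) (nat_lit 5559662088) (nat_lit 228) (nat_lit 669333451) (nat_lit 76) (nat_lit 21224405576) (nat_lit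 9) (nat_lit 5) (nat_lit 12) (nat_lit 5) (nat_lit 10) (nat_lit 4) (nat_lit 298) (nat_lit 221) (nat_lit 201))) (XT.nd (nat_lit 78) (nat_lit 0) (nat_lit 0) (XT.lf (nat_lit 0) (nat_lit 7350269886) (nat_lit 76) (nat_lit 2329564460) (nat_lit 152) (nat_lit 18996870300) (nat_lit 8) (nat_lit 5) (nat_lit 9) (nat_lit 5) (nat_lit 10) (nat_lit 4) (nat_lit 299) (nat_lit 221) (nat_lit 200)) (XT.nd (nat_lit 78) (nat_lit 0) (nat_lit 0) (XT.lf (nat_lit 0) (nat_lit 13932620936) (nat_lit 152) (nat_lit 14358202042) (nat_lit 0) (nat_lit 1672676530) (nat_lit 8) (nat_lit 5) (nat_lit 10) (nat_lit 4) (nat_lit 8) (nat_lit 4) (nat_lit 300) (nat_lit 221) (nat_lit 199)) (XT.lf (nat_lit 0) (nat_lit 18328876474) (nat_lit 152) (nat_lit 7222254319) (nat_lit 0) (nat_lit 5765696839) (nat_lit 8) (nat_lit 5) (nat_lit 10) (nat_lit 4) (nat_lit 8) (nat_lit 4) (nat_lit 301) (nat_lit 221) (nat_lit 198))))) (XT.nd (nat_lit 234) (nat_lit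 152) (nat_lit 0) (XT.nd (nat_lit 78) (nat_lit 0) (nat_lit 0) (XT.lf (nat_lit 0) (nat_lit 123195954) (nat_lit 76) (nat_lit 22734663317) (nat_lit 76) (nat_lit 9882688224) (nat_lit 7) (nat_lit 4) (nat_lit 8) (nat_lit 5) (nat_lit 8) (nat_lit 4) (nat_lit 302) (nat_lit 221) (nat_lit 197)) (XT.nd (nat_lit 78) (nat_lit 0) (nat_lit 0) (XT.lf (nat_lit 0) (nat_lit 7841434871) (nat_lit 76) (nat_lit 19760738893) (nat_lit 76) (nat_lit 6633720508) (nat_lit 7) (nat_lit 4) (nat_lit 8) (nat_lit 5) (nat_lit 8) (nat_lit 4) (nat_lit 303) (nat_lit 221) (nat_lit 196)) (XT.lf (nat_lit 0) (nat_lit 15807102168) (nat_lit 76) (nat_lit 16695207357) (nat_lit 76) (nat_lit 3306242980) (nat_lit 7) (nat_lit 4) (nat_lit 8) (nat_lit 5) (nat_lit 8) (nat_lit 4) (nat_lit 304) (nat_lit 221) (nat_lit 195)))) (XT.nd (nat_lit 78) (nat_lit 76) (nat_lit 0) (XT.lf (nat_lit 0) (nat_lit 105565955) (nat_lit 152) (nat_lit 13424137861) (nat_lit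 76) (nat_lit 23932531754) (nat_lit 6) (nat_lit 5) (nat_lit 8) (nat_lit 5) (nat_lit 7) (nat_lit 4) (nat_lit 305) (nat_lit 221) (nat_lit 194)) (XT.nd (nat_lit 78) (nat_lit 76) (nat_lit 0) (XT.lf (nat_lit 0) (nat_lit 3545573696) (nat_lit 152) (nat_lit 6678514884) (nat_lit 76) (nat_lit 28975842632) (nat_lit 6) (nat_lit 5) (nat_lit 8) (nat_lit 5) (nat_lit 7) (nat_lit 4) (nat_lit 306) (nat_lit 221) (nat_lit 193)) (XT.lf (nat_lit 0) (nat_lit 288898683) (nat_lit 76) (nat_lit 6800365833) (nat_lit 152) (nat_lit 33937382423) (nat_lit 5) (nat_lit 5) (nat_lit 6) (nat_lit 5) (nat_lit 7) (nat_lit 4) (nat_lit 307) (nat_lit 221) (nat_lit 192))))))))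
noncomputable def xc18 : XT := (XT.nd (nat_lit 1560) (nat_lit 0) (nat_lit 0) (XT.nd (nat_lit 780) (nat_lit 152) (nat_lit 0) (XT.nd (nat_lit 390) (nat_lit 76) (nat_lit 0) (XT.nd (nat_lit 156) (nat_lit 0) (nat_lit 0) (XT.nd (nat_lit 78) (nat_lit 0) (nat_lit 0) (XT.lf (nat_lit 0) (nat_lit 7626588346) (nat_lit 76) (nat_lit 3183461036) (nat_lit 152) (nat_lit 32134733482) (nat_lit 5) (nat_lit 5) (nat_lit 6) (nat_lit 5) (nat_lit 7) (nat_lit 4) (nat_lit 308) (nat_lit 221) (nat_lit 191)) (XT.lf (nat_lit 0) (nat_lit 14656769689) (nat_lit 152) (nat_lit 29747219014) (nat_lit 0) (nat_lit 556717805) (nat_lit 5) (nat_lit 5) (nat_lit 7) (nat_lit 4) (nat_lit 5) (nat_lit 4) (nat_lit 309) (nat_lit 221) (nat_lit 190))) (XT.nd (nat_lit 78) (nat_lit 0) (nat_lit 0) (XT.lf (nat_lit 0) (nat_lit 18665092002) (nat_lit 152) (nat_lit 24038065224) (nat_lit 0) (nat_lit 4375265231) (nat_lit 5) (nat_lit 5) (nat_lit 7) (nat_lit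 4) (nat_lit 5) (nat_lit 4) (nat_lit 310) (nat_lit 221) (nat_lit 189)) (XT.nd (nat_lit 78) (nat_lit 0) (nat_lit 0) (XT.lf (nat_lit 0) (nat_lit 22813958570) (nat_lit 152) (nat_lit 18146538549) (nat_lit 0) (nat_lit 8343393813) (nat_lit 5) (nat_lit 5) (nat_lit 7) (nat_lit 4) (nat_lit 5) (nat_lit 4) (nat_lit 311) (nat_lit 221) (nat_lit 188)) (XT.lf (nat_lit 0) (nat_lit 27113247649) (nat_lit 152) (nat_lit 12058611546) (nat_lit 0) (nat_lit 12470551475) (nat_lit 5) (nat_lit 5) (nat_lit 7) (nat_lit 4) (nat_lit 5) (nat_lit 4) (nat_lit 312) (nat_lit 221) (nat_lit 187))))) (XT.nd (nat_lit 156) (nat_lit 0) (nat_lit 0) (XT.nd (nat_lit 78) (nat_lit 76) (nat_lit 0) (XT.lf (nat_lit 0) (nat_lit 31573195639) (nat_lit 152) (nat_lit 5759789149) (nat_lit 0) (nat_lit 16766564784) (nat_lit 5) (nat_lit 5) (nat_lit 7) (nat_lit 4) (nat_lit 5) (nat_lit 4) (nat_lit 313) (nat_lit 221) (nat_lit 186)) (XT.lf (nat_lit 0)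 (nat_lit 780149359) (nat_lit 76) (nat_lit 35431771379) (nat_lit 76) (nat_lit 20469012256) (nat_lit 4) (nat_lit 4) (nat_lit 5) (nat_lit 5) (nat_lit 5) (nat_lit 4) (nat_lit 314) (nat_lit 221) (nat_lit 185))) (XT.nd (nat_lit 78) (nat_lit 0) (nat_lit 0) (XT.lf (nat_lit 0) (nat_lit 7680951474) (nat_lit 76) (nat_lit 33410834387) (nat_lit 76) (nat_lit 18299381674) (nat_lit 4) (nat_lit 4) (nat_lit 5) (nat_lit 5) (nat_lit 5) (nat_lit 4) (nat_lit 315) (nat_lit 221) (nat_lit 184)) (XT.nd (nat_lit 78) (nat_lit 0) (nat_lit 0) (XT.lf (nat_lit 0) (nat_lit 14844416577) (nat_lit 76) (nat_lit 31323524633) (nat_lit 76) (nat_lit 16070458979) (nat_lit 4) (nat_lit 4) (nat_lit 5) (nat_lit 5) (nat_lit 5) (nat_lit 4) (nat_lit 316) (nat_lit 221) (nat_lit 183)) (XT.lf (nat_lit 0) (nat_lit 22287600540) (nat_lit 76) (nat_lit 29164872334) (nat_lit 76) (nat_lit 13776937211) (nat_lit 4) (nat_lit 4) (nat_lit 5) (nat_lit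 5) (nat_lit 5) (nat_lit 4) (nat_lit 317) (nat_lit 221) (nat_lit 182)))))) (XT.nd (nat_lit 390) (nat_lit 152) (nat_lit 0) (XT.nd (nat_lit 156) (nat_lit 0) (nat_lit 0) (XT.nd (nat_lit 78) (nat_lit 0) (nat_lit 0) (XT.lf (nat_lit 0) (nat_lit 30028225227) (nat_lit 76) (nat_lit 26929737840) (nat_lit 76) (nat_lit 11413355604) (nat_lit 4) (nat_lit 4) (nat_lit 5) (nat_lit 5) (nat_lit 5) (nat_lit 4) (nat_lit 318) (nat_lit 221) (nat_lit 181)) (XT.lf (nat_lit 0) (nat_lit 38084720698) (nat_lit 76) (nat_lit 24612799403) (nat_lit 76) (nat_lit 8974086583) (nat_lit 4) (nat_lit 4) (nat_lit 5) (nat_lit 5) (nat_lit 5) (nat_lit 4) (nat_lit 319) (nat_lit 221) (nat_lit 180))) (XT.nd (nat_lit 78) (nat_lit 0) (nat_lit 0) (XT.lf (nat_lit 0) (nat_lit 46476269085) (nat_lit 76) (nat_lit 22208540502) (nat_lit 76) (nat_lit 6453322365) (nat_lit 4) (nat_lit 4) (nat_lit 5) (nat_lit 5) (nat_lit 5) (nat_lit 4) (nat_lit 320)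 (nat_lit 221) (nat_lit 179)) (XT.nd (nat_lit 78) (nat_lit 0) (nat_lit 0) (XT.lf (nat_lit 0) (nat_lit 55222850264) (nat_lit 76) (nat_lit 19711236713) (nat_lit 76) (nat_lit 3845061130) (nat_lit 4) (nat_lit 4) (nat_lit 5) (nat_lit 5) (nat_lit 5) (nat_lit 4) (nat_lit 321) (nat_lit 221) (nat_lit 178)) (XT.lf (nat_lit 0) (nat_lit 64345289430) (nat_lit 76) (nat_lit 17114942073) (nat_lit 76) (nat_lit 1143092732) (nat_lit 4) (nat_lit 4) (nat_lit 5) (nat_lit 5) (nat_lit 5) (nat_lit 4) (nat_lit 322) (nat_lit 221) (nat_lit 177))))) (XT.nd (nat_lit 156) (nat_lit 76) (nat_lit 0) (XT.nd (nat_lit 78) (nat_lit 0) (nat_lit 0) (XT.lf (nat_lit 0) (nat_lit 1626642706) (nat_lit 152) (nat_lit 12770406320) (nat_lit 76) (nat_lit 72222238067) (nat_lit 3) (nat_lit 5) (nat_lit 5) (nat_lit 5) (nat_lit 4) (nat_lit 4) (nat_lit 323) (nat_lit 221) (nat_lit 176)) (XT.lf (nat_lit 0) (nat_lit 4478800108) (nat_lit 152) (nat_lit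 7076376007) (nat_lit 76) (nat_lit 79281541500) (nat_lit 3) (nat_lit 5) (nat_lit 5) (nat_lit 5) (nat_lit 4) (nat_lit 4) (nat_lit 324) (nat_lit 221) (nat_lit 175))) (XT.nd (nat_lit 78) (nat_lit 76) (nat_lit 0) (XT.lf (nat_lit 0) (nat_lit 7442476181) (nat_lit 152) (nat_lit 1151398544) (nat_lit 76) (nat_lit 86672112220) (nat_lit 3) (nat_lit 5) (nat_lit 5) (nat_lit 5) (nat_lit 4) (nat_lit 4) (nat_lit 325) (nat_lit 221) (nat_lit 174)) (XT.nd (nat_lit 78) (nat_lit 0) (nat_lit 0) (XT.lf (nat_lit 0) (nat_lit 5118513797) (nat_lit 76) (nat_lit 5455415785) (nat_lit 152) (nat_lit 89342235314) (nat_lit 2) (nat_lit 5) (nat_lit 3) (nat_lit 5) (nat_lit 4) (nat_lit 4) (nat_lit 326) (nat_lit 221) (nat_lit 173)) (XT.lf (nat_lit 0) (nat_lit 11676255448) (nat_lit 76) (nat_lit 2168876008) (nat_lit 152) (nat_lit 90954256401) (nat_lit 2) (nat_lit 5) (nat_lit 3) (nat_lit 5) (nat_lit 4) (nat_lit 4) (nat_lit 327) (nat_lit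 221) (nat_lit 172))))))) (XT.nd (nat_lit 34008) (nat_lit 0) (nat_lit 760) (XT.nd (nat_lit 33618) (nat_lit 0) (nat_lit 1748) (XT.nd (nat_lit 156) (nat_lit 0) (nat_lit 0) (XT.nd (nat_lit 78) (nat_lit 0) (nat_lit 0) (XT.lf (nat_lit 0) (nat_lit 17264712726) (nat_lit 152) (nat_lit 91425226776) (nat_lit 0) (nat_lit 1237317780) (nat_lit 2) (nat_lit 5) (nat_lit 4) (nat_lit 4) (nat_lit 2) (nat_lit 4) (nat_lit 328) (nat_lit 221) (nat_lit 171)) (XT.lf (nat_lit 0) (nat_lit 20850969785) (nat_lit 152) (nat_lit 89710046100) (nat_lit 0) (nat_lit 4750661862) (nat_lit 2) (nat_lit 5) (nat_lit 4) (nat_lit 4) (nat_lit 2) (nat_lit 4) (nat_lit 329) (nat_lit 221) (nat_lit 170))) (XT.nd (nat_lit 33306) (nat_lit 0) (nat_lit 2432) (XT.lf (nat_lit 0) (nat_lit 24591592779) (nat_lit 152) (nat_lit 87952658055) (nat_lit 0) (nat_lit 8421843925) (nat_lit 2) (nat_lit 5) (nat_lit 4) (nat_lit 4) (nat_lit 2) (nat_lit 4) (nat_lit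 330) (nat_lit 221) (nat_lit 169)) (XT.nd (nat_lit 78) (nat_lit 228) (nat_lit 0) (XT.lf (nat_lit 0) (nat_lit 1328350504) (nat_lit 304) (nat_lit 3245840925) (nat_lit 0) (nat_lit 1328350504) (nat_lit 37) (nat_lit 5) (nat_lit 41) (nat_lit 4) (nat_lit 37) (nat_lit 4) (nat_lit 276) (nat_lit 222) (nat_lit 222)) (XT.lf (nat_lit 0) (nat_lit 2892721063) (nat_lit 228) (nat_lit 5203689101) (nat_lit 228) (nat_lit 4091555704) (nat_lit 34) (nat_lit 4) (nat_lit 37) (nat_lit 5) (nat_lit 37) (nat_lit 4) (nat_lit 277) (nat_lit 222) (nat_lit 221))))) (XT.nd (nat_lit 156) (nat_lit 456) (nat_lit 0) (XT.nd (nat_lit 78) (nat_lit 152) (nat_lit 0) (XT.lf (nat_lit 0) (nat_lit 1053395747) (nat_lit 304) (nat_lit 32914693) (nat_lit 76) (nat_lit 11507960209) (nat_lit 33) (nat_lit 5) (nat_lit 37) (nat_lit 5) (nat_lit 34) (nat_lit 4) (nat_lit 278) (nat_lit 222) (nat_lit 220)) (XT.lf (nat_lit 0) (nat_lit 6296395556) (nat_lit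 228) (nat_lit 3516927187) (nat_lit 0) (nat_lit 3208972414) (nat_lit 31) (nat_lit 5) (nat_lit 34) (nat_lit 4) (nat_lit 31) (nat_lit 4) (nat_lit 279) (nat_lit 222) (nat_lit 219))) (XT.nd (nat_lit 78) (nat_lit 228) (nat_lit 0) (XT.lf (nat_lit 0) (nat_lit 5856701107) (nat_lit 228) (nat_lit 5819642104) (nat_lit 228) (nat_lit 1799497950) (nat_lit 28) (nat_lit 4) (nat_lit 31) (nat_lit 5) (nat_lit 31) (nat_lit 4) (nat_lit 280) (nat_lit 222) (nat_lit 218)) (XT.nd (nat_lit 78) (nat_lit 0) (nat_lit 0) (XT.lf (nat_lit 0) (nat_lit 1526776032) (nat_lit 152) (nat_lit 1643285993) (nat_lit 228) (nat_lit 10785486574) (nat_lit 25) (nat_lit 5) (nat_lit 27) (nat_lit 5) (nat_lit 28) (nat_lit 4) (nat_lit 281) (nat_lit 222) (nat_lit 217)) (XT.lf (nat_lit 0) (nat_lit 8273502800) (nat_lit 228) (nat_lit 3501193293) (nat_lit 0) (nat_lit 2686652960) (nat_lit 25) (nat_lit 5) (nat_lit 28) (nat_lit 4) (nat_lit 25) (nat_lit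 4) (nat_lit 282) (nat_lit 222) (nat_lit 216)))))) (XT.nd (nat_lit 390) (nat_lit 380) (nat_lit 0) (XT.nd (nat_lit 156) (nat_lit 380) (nat_lit 0) (XT.nd (nat_lit 78) (nat_lit 76) (nat_lit 0) (XT.lf (nat_lit 0) (nat_lit 5692775543) (nat_lit 152) (nat_lit 7836084434) (nat_lit 152) (nat_lit 1466982673) (nat_lit 23) (nat_lit 4) (nat_lit 25) (nat_lit 5) (nat_lit 25) (nat_lit 4) (nat_lit 283) (nat_lit 222) (nat_lit 215)) (XT.lf (nat_lit 0) (nat_lit 3287450472) (nat_lit 228) (nat_lit 440579132) (nat_lit 76) (nat_lit 11832338515) (nat_lit 22) (nat_lit 5) (nat_lit 25) (nat_lit 5) (nat_lit 23) (nat_lit 4) (nat_lit 284) (nat_lit 222) (nat_lit 214))) (XT.nd (nat_lit 78) (nat_lit 228) (nat_lit 0) (XT.lf (nat_lit 0) (nat_lit 8176848719) (nat_lit 228) (nat_lit 7397184635) (nat_lit 0) (nat_lit 581092268) (nat_lit 20) (nat_lit 5) (nat_lit 23) (nat_lit 4) (nat_lit 20) (nat_lit 4) (nat_lit 285) (nat_lit 222)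 (nat_lit 213)) (XT.nd (nat_lit 78) (nat_lit 76) (nat_lit 0) (XT.lf (nat_lit 0) (nat_lit 1381253886) (nat_lit 152) (nat_lit 11826758887) (nat_lit 152) (nat_lit 3574945522) (nat_lit 18) (nat_lit 4) (nat_lit 20) (nat_lit 5) (nat_lit 20) (nat_lit 4) (nat_lit 286) (nat_lit 222) (nat_lit 212)) (XT.lf (nat_lit 0) (nat_lit 950208675) (nat_lit 228) (nat_lit 6947705863) (nat_lit 76) (nat_lit 9546539038) (nat_lit 17) (nat_lit 5) (nat_lit 20) (nat_lit 5) (nat_lit 18) (nat_lit 4) (nat_lit 287) (nat_lit 222) (nat_lit 211))))) (XT.nd (nat_lit 234) (nat_lit 152) (nat_lit 0) (XT.nd (nat_lit 78) (nat_lit 152) (nat_lit 0) (XT.lf (nat_lit 0) (nat_lit 1687585298) (nat_lit 76) (nat_lit 3809595851) (nat_lit 152) (nat_lit 12644921318) (nat_lit 16) (nat_lit 5) (nat_lit 17) (nat_lit 5) (nat_lit 18) (nat_lit 4) (nat_lit 288) (nat_lit 222) (nat_lit 210)) (XT.nd (nat_lit 78) (nat_lit 152) (nat_lit 0) (XT.lf (nat_lit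 0) (nat_lit 10204903039) (nat_lit 152) (nat_lit 8213078474) (nat_lit 0) (nat_lit 458865113) (nat_lit 16) (nat_lit 5) (nat_lit 18) (nat_lit 4) (nat_lit 16) (nat_lit 4) (nat_lit 289) (nat_lit 222) (nat_lit 209)) (XT.lf (nat_lit 0) (nat_lit 181653724) (nat_lit 152) (nat_lit 14869914585) (nat_lit 152) (nat_lit 4599857584) (nat_lit 14) (nat_lit 4) (nat_lit 16) (nat_lit 5) (nat_lit 16) (nat_lit 4) (nat_lit 290) (nat_lit 222) (nat_lit 208)))) (XT.nd (nat_lit 78) (nat_lit 152) (nat_lit 0) (XT.lf (nat_lit 0) (nat_lit 8950296989) (nat_lit 152) (nat_lit 11142592556) (nat_lit 152) (nat_lit 373469769) (nat_lit 14) (nat_lit 4) (nat_lit 16) (nat_lit 5) (nat_lit 16) (nat_lit 4) (nat_lit 291) (nat_lit 222) (nat_lit 207)) (XT.nd (nat_lit 78) (nat_lit 76) (nat_lit 0) (XT.lf (nat_lit 0) (nat_lit 3857573418) (nat_lit 228) (nat_lit 3413549494) (nat_lit 76) (nat_lit 14053745328) (nat_lit 13) (nat_lit 5) (nat_lit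 16) (nat_lit 5) (nat_lit 14) (nat_lit 4) (nat_lit 292) (nat_lit 222) (nat_lit 206)) (XT.lf (nat_lit 0) (nat_lit 4987826522) (nat_lit 76) (nat_lit 3231344628) (nat_lit 152) (nat_lit 14009390349) (nat_lit 12) (nat_lit 5) (nat_lit 13) (nat_lit 5) (nat_lit 14) (nat_lit 4) (nat_lit 293) (nat_lit 222) (nat_lit 205))))))))
noncomputable def xc19 : XT := (XT.nd (nat_lit 1638) (nat_lit 228) (nat_lit 0) (XT.nd (nat_lit 780) (nat_lit 152) (nat_lit 0) (XT.nd (nat_lit 390) (nat_lit 152) (nat_lit 0) (XT.nd (nat_lit 156) (nat_lit 228) (nat_lit 0) (XT.nd (nat_lit 78) (nat_lit 0) (nat_lit 0) (XT.lf (nat_lit 0) (nat_lit 12725930037) (nat_lit 152) (nat_lit 9502884426) (nat_lit 0) (nat_lit 950975956) (nat_lit 12) (nat_lit 5) (nat_lit 14) (nat_lit 4) (nat_lit 12) (nat_lit 4) (nat_lit 294) (nat_lit 222) (nat_lit 204)) (XT.lf (nat_lit 0) (nat_lit 17378147395) (nat_lit 152) (nat_lit 1598416051) (nat_lit 0) (nat_lit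 5204569375) (nat_lit 12) (nat_lit 5) (nat_lit 14) (nat_lit 4) (nat_lit 12) (nat_lit 4) (nat_lit 295) (nat_lit 222) (nat_lit 203))) (XT.nd (nat_lit 78) (nat_lit 76) (nat_lit 0) (XT.lf (nat_lit 0) (nat_lit 6652363543) (nat_lit 152) (nat_lit 15567421316) (nat_lit 152) (nat_lit 3014201450) (nat_lit 10) (nat_lit 4) (nat_lit 12) (nat_lit 5) (nat_lit 12) (nat_lit 4) (nat_lit 296) (nat_lit 222) (nat_lit 202)) (XT.nd (nat_lit 78) (nat_lit 0) (nat_lit 0) (XT.lf (nat_lit 0) (nat_lit 856957856) (nat_lit 228) (nat_lit 11175159079) (nat_lit 76) (nat_lit 14309872171) (nat_lit 9) (nat_lit 5) (nat_lit 12) (nat_lit 5) (nat_lit 10) (nat_lit 4) (nat_lit 297) (nat_lit 222) (nat_lit 201)) (XT.lf (nat_lit 0) (nat_lit 4760040563) (nat_lit 228) (nat_lit 3596247531) (nat_lit 76) (nat_lit 19151318074) (nat_lit 9) (nat_lit 5) (nat_lit 12) (nat_lit 5) (nat_lit 10) (nat_lit 4) (nat_lit 298) (nat_lit 222) (nat_lit 200)))))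 (XT.nd (nat_lit 156) (nat_lit 76) (nat_lit 0) (XT.nd (nat_lit 78) (nat_lit 0) (nat_lit 0) (XT.lf (nat_lit 0) (nat_lit 4285761906) (nat_lit 76) (nat_lit 4518593109) (nat_lit 152) (nat_lit 19928891065) (nat_lit 8) (nat_lit 5) (nat_lit 9) (nat_lit 5) (nat_lit 10) (nat_lit 4) (nat_lit 299) (nat_lit 222) (nat_lit 199)) (XT.lf (nat_lit 0) (nat_lit 12482115886) (nat_lit 76) (nat_lit 513710196) (nat_lit 152) (nat_lit 17026112085) (nat_lit 8) (nat_lit 5) (nat_lit 9) (nat_lit 5) (nat_lit 10) (nat_lit 4) (nat_lit 300) (nat_lit 222) (nat_lit 198))) (XT.nd (nat_lit 78) (nat_lit 76) (nat_lit 0) (XT.lf (nat_lit 0) (nat_lit 17344085108) (nat_lit 152) (nat_lit 10471960282) (nat_lit 0) (nat_lit 3560715804) (nat_lit 8) (nat_lit 5) (nat_lit 10) (nat_lit 4) (nat_lit 8) (nat_lit 4) (nat_lit 301) (nat_lit 222) (nat_lit 197)) (XT.nd (nat_lit 78) (nat_lit 76) (nat_lit 0) (XT.lf (nat_lit 0) (nat_lit 21830875655)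 (nat_lit 152) (nat_lit 3198460500) (nat_lit 0) (nat_lit 7772463059) (nat_lit 8) (nat_lit 5) (nat_lit 10) (nat_lit 4) (nat_lit 8) (nat_lit 4) (nat_lit 302) (nat_lit 222) (nat_lit 196)) (XT.lf (nat_lit 0) (nat_lit 4388569821) (nat_lit 76) (nat_lit 22115558258) (nat_lit 76) (nat_lit 7795199669) (nat_lit 7) (nat_lit 4) (nat_lit 8) (nat_lit 5) (nat_lit 8) (nat_lit 4) (nat_lit 303) (nat_lit 222) (nat_lit 195)))))) (XT.nd (nat_lit 390) (nat_lit 0) (nat_lit 0) (XT.nd (nat_lit 156) (nat_lit 152) (nat_lit 0) (XT.nd (nat_lit 78) (nat_lit 0) (nat_lit 0) (XT.lf (nat_lit 0) (nat_lit 12289900967) (nat_lit 76) (nat_lit 19076548956) (nat_lit 76) (nat_lit 4506717994) (nat_lit 7) (nat_lit 4) (nat_lit 8) (nat_lit 5) (nat_lit 8) (nat_lit 4) (nat_lit 304) (nat_lit 222) (nat_lit 194)) (XT.lf (nat_lit 0) (nat_lit 20460689992) (nat_lit 76) (nat_lit 15937370696) (nat_lit 76) (nat_lit 1129946996) (nat_lit 7) (nat_lit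 4) (nat_lit 8) (nat_lit 5) (nat_lit 8) (nat_lit 4) (nat_lit 305) (nat_lit 222) (nat_lit 193))) (XT.nd (nat_lit 78) (nat_lit 76) (nat_lit 0) (XT.lf (nat_lit 0) (nat_lit 2297429895) (nat_lit 152) (nat_lit 10369919809) (nat_lit 76) (nat_lit 26599761726) (nat_lit 6) (nat_lit 5) (nat_lit 8) (nat_lit 5) (nat_lit 7) (nat_lit 4) (nat_lit 306) (nat_lit 222) (nat_lit 192)) (XT.nd (nat_lit 78) (nat_lit 76) (nat_lit 0) (XT.lf (nat_lit 0) (nat_lit 5805314897) (nat_lit 152) (nat_lit 3464416871) (nat_lit 76) (nat_lit 31825209415) (nat_lit 6) (nat_lit 5) (nat_lit 8) (nat_lit 5) (nat_lit 7) (nat_lit 4) (nat_lit 307) (nat_lit 222) (nat_lit 191)) (XT.lf (nat_lit 0) (nat_lit 3749663985) (nat_lit 76) (nat_lit 5710489530) (nat_lit 152) (nat_lit 33554939936) (nat_lit 5) (nat_lit 5) (nat_lit 6) (nat_lit 5) (nat_lit 7) (nat_lit 4) (nat_lit 308) (nat_lit 222) (nat_lit 190))))) (XT.nd (nat_lit 234) (nat_lit 0) (nat_lit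 0) (XT.nd (nat_lit 78) (nat_lit 0) (nat_lit 0) (XT.lf (nat_lit 0) (nat_lit 11290127638) (nat_lit 76) (nat_lit 1980829712) (nat_lit 152) (nat_lit 31761173386) (nat_lit 5) (nat_lit 5) (nat_lit 6) (nat_lit 5) (nat_lit 7) (nat_lit 4) (nat_lit 309) (nat_lit 222) (nat_lit 189)) (XT.nd (nat_lit 78) (nat_lit 0) (nat_lit 0) (XT.lf (nat_lit 0) (nat_lit 17231032931) (nat_lit 152) (nat_lit 28064093632) (nat_lit 0) (nat_lit 1856201950) (nat_lit 5) (nat_lit 5) (nat_lit 7) (nat_lit 4) (nat_lit 5) (nat_lit 4) (nat_lit 310) (nat_lit 222) (nat_lit 188)) (XT.lf (nat_lit 0) (nat_lit 21352084466) (nat_lit 152) (nat_lit 22220457692) (nat_lit 0) (nat_lit 5805122069) (nat_lit 5) (nat_lit 5) (nat_lit 7) (nat_lit 4) (nat_lit 5) (nat_lit 4) (nat_lit 311) (nat_lit 222) (nat_lit 187)))) (XT.nd (nat_lit 78) (nat_lit 0) (nat_lit 0) (XT.lf (nat_lit 0) (nat_lit 25624883037) (nat_lit 152) (nat_lit 16178140912) (nat_lit 0)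 (nat_lit 9913985957) (nat_lit 5) (nat_lit 5) (nat_lit 7) (nat_lit 4) (nat_lit 5) (nat_lit 4) (nat_lit 312) (nat_lit 222) (nat_lit 186)) (XT.nd (nat_lit 78) (nat_lit 0) (nat_lit 0) (XT.lf (nat_lit 0) (nat_lit 30059601972) (nat_lit 152) (nat_lit 9922756823) (nat_lit 0) (nat_lit 14192576624) (nat_lit 5) (nat_lit 5) (nat_lit 7) (nat_lit 4) (nat_lit 5) (nat_lit 4) (nat_lit 313) (nat_lit 222) (nat_lit 185)) (XT.lf (nat_lit 0) (nat_lit 34666800127) (nat_lit 152) (nat_lit 3439411655) (nat_lit 0) (nat_lit 18651081189) (nat_lit 5) (nat_lit 5) (nat_lit 7) (nat_lit 4) (nat_lit 5) (nat_lit 4) (nat_lit 314) (nat_lit 222) (nat_lit 184))))))) (XT.nd (nat_lit 780) (nat_lit 76) (nat_lit 0) (XT.nd (nat_lit 390) (nat_lit 76) (nat_lit 0) (XT.nd (nat_lit 156) (nat_lit 0) (nat_lit 0) (XT.nd (nat_lit 78) (nat_lit 0) (nat_lit 0) (XT.lf (nat_lit 0) (nat_lit 3352755464) (nat_lit 76) (nat_lit 36136920293) (nat_lit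 76) (nat_lit 19979588414) (nat_lit 4) (nat_lit 4) (nat_lit 5) (nat_lit 5) (nat_lit 5) (nat_lit 4) (nat_lit 315) (nat_lit 222) (nat_lit 183)) (XT.lf (nat_lit 0) (nat_lit 10477950130) (nat_lit 76) (nat_lit 34065719291) (nat_lit 76) (nat_lit 17773517944) (nat_lit 4) (nat_lit 4) (nat_lit 5) (nat_lit 5) (nat_lit 5) (nat_lit 4) (nat_lit 316) (nat_lit 222) (nat_lit 182))) (XT.nd (nat_lit 78) (nat_lit 0) (nat_lit 0) (XT.lf (nat_lit 0) (nat_lit 17884686057) (nat_lit 76) (nat_lit 31922408660) (nat_lit 76) (nat_lit 15501760200) (nat_lit 4) (nat_lit 4) (nat_lit 5) (nat_lit 5) (nat_lit 5) (nat_lit 4) (nat_lit 317) (nat_lit 222) (nat_lit 181)) (XT.nd (nat_lit 78) (nat_lit 0) (nat_lit 0) (XT.lf (nat_lit 0) (nat_lit 25590598329) (nat_lit 76) (nat_lit 29701885279) (nat_lit 76) (nat_lit 13158906235) (nat_lit 4) (nat_lit 4) (nat_lit 5) (nat_lit 5) (nat_lit 5) (nat_lit 4) (nat_lit 318) (nat_lit 222) (nat_lit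 180)) (XT.lf (nat_lit 0) (nat_lit 33614034357) (nat_lit 76) (nat_lit 27398862188) (nat_lit 76) (nat_lit 10739377826) (nat_lit 4) (nat_lit 4) (nat_lit 5) (nat_lit 5) (nat_lit 5) (nat_lit 4) (nat_lit 319) (nat_lit 222) (nat_lit 179))))) (XT.nd (nat_lit 156) (nat_lit 76) (nat_lit 0) (XT.nd (nat_lit 78) (nat_lit 0) (nat_lit 0) (XT.lf (nat_lit 0) (nat_lit 41974097560) (nat_lit 76) (nat_lit 25007855998) (nat_lit 76) (nat_lit 8237414190) (nat_lit 4) (nat_lit 4) (nat_lit 5) (nat_lit 5) (nat_lit 5) (nat_lit 4) (nat_lit 320) (nat_lit 222) (nat_lit 178)) (XT.lf (nat_lit 0) (nat_lit 50690692851) (nat_lit 76) (nat_lit 22523173837) (nat_lit 76) (nat_lit 5647058272) (nat_lit 4) (nat_lit 4) (nat_lit 5) (nat_lit 5) (nat_lit 5) (nat_lit 4) (nat_lit 321) (nat_lit 222) (nat_lit 177))) (XT.nd (nat_lit 78) (nat_lit 76) (nat_lit 0) (XT.lf (nat_lit 0) (nat_lit 59784574027) (nat_lit 76) (nat_lit 19938899796) (nat_lit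 76) (nat_lit 2962142557) (nat_lit 4) (nat_lit 4) (nat_lit 5) (nat_lit 5) (nat_lit 5) (nat_lit 4) (nat_lit 322) (nat_lit 222) (nat_lit 176)) (XT.nd (nat_lit 78) (nat_lit 76) (nat_lit 0) (XT.lf (nat_lit 0) (nat_lit 69277393187) (nat_lit 76) (nat_lit 17248880840) (nat_lit 76) (nat_lit 176274388) (nat_lit 4) (nat_lit 4) (nat_lit 5) (nat_lit 5) (nat_lit 5) (nat_lit 4) (nat_lit 323) (nat_lit 222) (nat_lit 175)) (XT.lf (nat_lit 0) (nat_lit 2664157298) (nat_lit 152) (nat_lit 11755652100) (nat_lit 76) (nat_lit 76500692217) (nat_lit 3) (nat_lit 5) (nat_lit 5) (nat_lit 5) (nat_lit 4) (nat_lit 4) (nat_lit 324) (nat_lit 222) (nat_lit 174)))))) (XT.nd (nat_lit 390) (nat_lit 0) (nat_lit 0) (XT.nd (nat_lit 156) (nat_lit 0) (nat_lit 0) (XT.nd (nat_lit 78) (nat_lit 76) (nat_lit 0) (XT.lf (nat_lit 0) (nat_lit 5613390073) (nat_lit 152) (nat_lit 5855647630) (nat_lit 76) (nat_lit 83881182619) (nat_lit 3) (nat_lit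 5) (nat_lit 5) (nat_lit 5) (nat_lit 4) (nat_lit 4) (nat_lit 325) (nat_lit 222) (nat_lit 173)) (XT.lf (nat_lit 0) (nat_lit 296383783) (nat_lit 76) (nat_lit 8388350904) (nat_lit 152) (nat_lit 91317482160) (nat_lit 2) (nat_lit 5) (nat_lit 3) (nat_lit 5) (nat_lit 4) (nat_lit 4) (nat_lit 326) (nat_lit 222) (nat_lit 172))) (XT.nd (nat_lit 78) (nat_lit 0) (nat_lit 0) (XT.lf (nat_lit 0) (nat_lit 6831023389) (nat_lit 76) (nat_lit 5111590604) (nat_lit 152) (nat_lit 92943240076) (nat_lit 2) (nat_lit 5) (nat_lit 3) (nat_lit 5) (nat_lit 4) (nat_lit 4) (nat_lit 327) (nat_lit 222) (nat_lit 171)) (XT.nd (nat_lit 78) (nat_lit 0) (nat_lit 0) (XT.lf (nat_lit 0) (nat_lit 13647290985) (nat_lit 76) (nat_lit 1690085551) (nat_lit 152) (nat_lit 94677105408) (nat_lit 2) (nat_lit 5) (nat_lit 3) (nat_lit 5) (nat_lit 4) (nat_lit 4) (nat_lit 328) (nat_lit 222) (nat_lit 170)) (XT.lf (nat_lit 0) (nat_lit 18895218231) (nat_lit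 152) (nat_lit 94657008862) (nat_lit 0) (nat_lit 1847541004) (nat_lit 2) (nat_lit 5) (nat_lit 4) (nat_lit 4) (nat_lit 2) (nat_lit 4) (nat_lit 329) (nat_lit 222) (nat_lit 169))))) (XT.nd (nat_lit 33306) (nat_lit 0) (nat_lit 2356) (XT.nd (nat_lit 33150) (nat_lit 0) (nat_lit 2964) (XT.lf (nat_lit 0) (nat_lit 22624251483) (nat_lit 152) (nat_lit 92919853879) (nat_lit 0) (nat_lit 5510440036) (nat_lit 2) (nat_lit 5) (nat_lit 4) (nat_lit 4) (nat_lit 2) (nat_lit 4) (nat_lit 330) (nat_lit 222) (nat_lit 168)) (XT.nd (nat_lit 78) (nat_lit 228) (nat_lit 0) (XT.lf (nat_lit 0) (nat_lit 2224314185) (nat_lit 304) (nat_lit 1100955164) (nat_lit 0) (nat_lit 2224314185) (nat_lit 44) (nat_lit 5) (nat_lit 48) (nat_lit 4) (nat_lit 44) (nat_lit 4) (nat_lit 274) (nat_lit 223) (nat_lit 223)) (XT.lf (nat_lit 0) (nat_lit 7251928578) (nat_lit 228) (nat_lit 2697266775) (nat_lit 228) (nat_lit 1494494506) (nat_lit 41) (nat_lit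 4) (nat_lit 44) (nat_lit 5) (nat_lit 44) (nat_lit 4) (nat_lit 275) (nat_lit 223) (nat_lit 222)))) (XT.nd (nat_lit 78) (nat_lit 304) (nat_lit 0) (XT.lf (nat_lit 0) (nat_lit 3720460307) (nat_lit 304) (nat_lit 6647367973) (nat_lit 0) (nat_lit 1440586843) (nat_lit 37) (nat_lit 5) (nat_lit 41) (nat_lit 4) (nat_lit 37) (nat_lit 4) (nat_lit 276) (nat_lit 223) (nat_lit 221)) (XT.nd (nat_lit 78) (nat_lit 76) (nat_lit 0) (XT.lf (nat_lit 0) (nat_lit 2582713070) (nat_lit 228) (nat_lit 6475447105) (nat_lit 228) (nat_lit 3136398977) (nat_lit 34) (nat_lit 4) (nat_lit 37) (nat_lit 5) (nat_lit 37) (nat_lit 4) (nat_lit 277) (nat_lit 223) (nat_lit 220)) (XT.lf (nat_lit 0) (nat_lit 1893079978) (nat_lit 304) (nat_lit 504833546) (nat_lit 76) (nat_lit 10205766525) (nat_lit 33) (nat_lit 5) (nat_lit 37) (nat_lit 5) (nat_lit 34) (nat_lit 4) (nat_lit 278) (nat_lit 223) (nat_lit 219))))))))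
noncomputable def xc20 : XT := (XT.nd (nat_lit 1560) (nat_lit 380) (nat_lit 0) (XT.nd (nat_lit 780) (nat_lit 608) (nat_lit 0) (XT.nd (nat_lit 390) (nat_lit 456) (nat_lit 0) (XT.nd (nat_lit 156) (nat_lit 380) (nat_lit 0) (XT.nd (nat_lit 78) (nat_lit 228) (nat_lit 0) (XT.lf (nat_lit 0) (nat_lit 7024747238) (nat_lit 228) (nat_lit 4139600094) (nat_lit 0) (nat_lit 1870874863) (nat_lit 31) (nat_lit 5) (nat_lit 34) (nat_lit 4) (nat_lit 31) (nat_lit 4) (nat_lit 279) (nat_lit 223) (nat_lit 218)) (XT.lf (nat_lit 0) (nat_lit 5081309437) (nat_lit 228) (nat_lit 7226358437) (nat_lit 228) (nat_lit 1184180336) (nat_lit 28) (nat_lit 4) (nat_lit 31) (nat_lit 5) (nat_lit 31) (nat_lit 4) (nat_lit 280) (nat_lit 223) (nat_lit 217))) (XT.nd (nat_lit 78) (nat_lit 152) (nat_lit 0) (XT.lf (nat_lit 0) (nat_lit 575352640) (nat_lit 152) (nat_lit 3101266174) (nat_lit 228) (nat_lit 10297818453) (nat_lit 25) (nat_lit 5)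 (nat_lit 27) (nat_lit 5) (nat_lit 28) (nat_lit 4) (nat_lit 281) (nat_lit 223) (nat_lit 216)) (XT.nd (nat_lit 78) (nat_lit 152) (nat_lit 0) (XT.lf (nat_lit 0) (nat_lit 8680891343) (nat_lit 228) (nat_lit 4591387855) (nat_lit 0) (nat_lit 1211082572) (nat_lit 25) (nat_lit 5) (nat_lit 28) (nat_lit 4) (nat_lit 25) (nat_lit 4) (nat_lit 282) (nat_lit 223) (nat_lit 215)) (XT.lf (nat_lit 0) (nat_lit 4450824619) (nat_lit 152) (nat_lit 9392387178) (nat_lit 152) (nat_lit 1177576576) (nat_lit 23) (nat_lit 4) (nat_lit 25) (nat_lit 5) (nat_lit 25) (nat_lit 4) (nat_lit 283) (nat_lit 223) (nat_lit 214))))) (XT.nd (nat_lit 156) (nat_lit 228) (nat_lit 0) (XT.nd (nat_lit 78) (nat_lit 152) (nat_lit 0) (XT.lf (nat_lit 0) (nat_lit 3491873013) (nat_lit 228) (nat_lit 1835833936) (nat_lit 76) (nat_lit 10260034732) (nat_lit 22) (nat_lit 5) (nat_lit 25) (nat_lit 5) (nat_lit 23) (nat_lit 4) (nat_lit 284) (nat_lit 223)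 (nat_lit 213)) (XT.lf (nat_lit 0) (nat_lit 7218809178) (nat_lit 152) (nat_lit 1066355331) (nat_lit 228) (nat_lit 7900342840) (nat_lit 20) (nat_lit 5) (nat_lit 22) (nat_lit 5) (nat_lit 23) (nat_lit 4) (nat_lit 285) (nat_lit 223) (nat_lit 212))) (XT.nd (nat_lit 78) (nat_lit 228) (nat_lit 0) (XT.lf (nat_lit 0) (nat_lit 13219309477) (nat_lit 228) (nat_lit 323027712) (nat_lit 0) (nat_lit 3274032420) (nat_lit 20) (nat_lit 5) (nat_lit 23) (nat_lit 4) (nat_lit 20) (nat_lit 4) (nat_lit 286) (nat_lit 223) (nat_lit 211)) (XT.nd (nat_lit 78) (nat_lit 0) (nat_lit 0) (XT.lf (nat_lit 0) (nat_lit 853418297) (nat_lit 228) (nat_lit 8807900874) (nat_lit 76) (nat_lit 7818915359) (nat_lit 17) (nat_lit 5) (nat_lit 20) (nat_lit 5) (nat_lit 18) (nat_lit 4) (nat_lit 287) (nat_lit 223) (nat_lit 210)) (XT.lf (nat_lit 0) (nat_lit 5315683898) (nat_lit 228) (nat_lit 316228332) (nat_lit 76) (nat_lit 12548617200) (nat_lit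 17) (nat_lit 5) (nat_lit 20) (nat_lit 5) (nat_lit 18) (nat_lit 4) (nat_lit 288) (nat_lit 223) (nat_lit 209)))))) (XT.nd (nat_lit 390) (nat_lit 228) (nat_lit 0) (XT.nd (nat_lit 156) (nat_lit 304) (nat_lit 0) (XT.nd (nat_lit 78) (nat_lit 0) (nat_lit 0) (XT.lf (nat_lit 0) (nat_lit 8550779685) (nat_lit 76) (nat_lit 1398770058) (nat_lit 152) (nat_lit 8968039342) (nat_lit 16) (nat_lit 5) (nat_lit 17) (nat_lit 5) (nat_lit 18) (nat_lit 4) (nat_lit 289) (nat_lit 223) (nat_lit 208)) (XT.lf (nat_lit 0) (nat_lit 14717543312) (nat_lit 152) (nat_lit 2066181649) (nat_lit 0) (nat_lit 2910898601) (nat_lit 16) (nat_lit 5) (nat_lit 18) (nat_lit 4) (nat_lit 16) (nat_lit 4) (nat_lit 290) (nat_lit 223) (nat_lit 207))) (XT.nd (nat_lit 78) (nat_lit 152) (nat_lit 0) (XT.lf (nat_lit 0) (nat_lit 6560316284) (nat_lit 152) (nat_lit 13116863616) (nat_lit 152) (nat_lit 834918156) (nat_lit 14) (nat_lit 4) (nat_lit 16)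 (nat_lit 5) (nat_lit 16) (nat_lit 4) (nat_lit 291) (nat_lit 223) (nat_lit 206)) (XT.nd (nat_lit 78) (nat_lit 76) (nat_lit 0) (XT.lf (nat_lit 0) (nat_lit 3345962952) (nat_lit 228) (nat_lit 5942308044) (nat_lit 76) (nat_lit 12084327767) (nat_lit 13) (nat_lit 5) (nat_lit 16) (nat_lit 5) (nat_lit 14) (nat_lit 4) (nat_lit 292) (nat_lit 223) (nat_lit 205)) (XT.lf (nat_lit 0) (nat_lit 2314059987) (nat_lit 76) (nat_lit 5311449675) (nat_lit 152) (nat_lit 14653323615) (nat_lit 12) (nat_lit 5) (nat_lit 13) (nat_lit 5) (nat_lit 14) (nat_lit 4) (nat_lit 293) (nat_lit 223) (nat_lit 204))))) (XT.nd (nat_lit 156) (nat_lit 228) (nat_lit 0) (XT.nd (nat_lit 78) (nat_lit 0) (nat_lit 0) (XT.lf (nat_lit 0) (nat_lit 10922570326) (nat_lit 76) (nat_lit 1145842290) (nat_lit 152) (nat_lit 11163641188) (nat_lit 12) (nat_lit 5) (nat_lit 13) (nat_lit 5) (nat_lit 14) (nat_lit 4) (nat_lit 294) (nat_lit 223) (nat_lit 203))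 (XT.lf (nat_lit 0) (nat_lit 16657353315) (nat_lit 152) (nat_lit 4481182894) (nat_lit 0) (nat_lit 3096830610) (nat_lit 12) (nat_lit 5) (nat_lit 14) (nat_lit 4) (nat_lit 12) (nat_lit 4) (nat_lit 295) (nat_lit 223) (nat_lit 202))) (XT.nd (nat_lit 78) (nat_lit 76) (nat_lit 0) (XT.lf (nat_lit 0) (nat_lit 3627540725) (nat_lit 152) (nat_lit 17792600158) (nat_lit 152) (nat_lit 3870513789) (nat_lit 10) (nat_lit 4) (nat_lit 12) (nat_lit 5) (nat_lit 12) (nat_lit 4) (nat_lit 296) (nat_lit 223) (nat_lit 201)) (XT.nd (nat_lit 78) (nat_lit 76) (nat_lit 0) (XT.lf (nat_lit 0) (nat_lit 12070010076) (nat_lit 152) (nat_lit 14298421551) (nat_lit 152) (nat_lit 31988836) (nat_lit 10) (nat_lit 4) (nat_lit 12) (nat_lit 5) (nat_lit 12) (nat_lit 4) (nat_lit 297) (nat_lit 223) (nat_lit 200)) (XT.lf (nat_lit 0) (nat_lit 3825318207) (nat_lit 228) (nat_lit 6828985654) (nat_lit 76) (nat_lit 16913195531) (nat_lit 9) (nat_lit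 5) (nat_lit 12) (nat_lit 5) (nat_lit 10) (nat_lit 4) (nat_lit 298) (nat_lit 223) (nat_lit 199))))))) (XT.nd (nat_lit 780) (nat_lit 152) (nat_lit 0) (XT.nd (nat_lit 390) (nat_lit 76) (nat_lit 0) (XT.nd (nat_lit 156) (nat_lit 76) (nat_lit 0) (XT.nd (nat_lit 78) (nat_lit 0) (nat_lit 0) (XT.lf (nat_lit 0) (nat_lit 913121601) (nat_lit 76) (nat_lit 6879900813) (nat_lit 152) (nat_lit 21002472956) (nat_lit 8) (nat_lit 5) (nat_lit 9) (nat_lit 5) (nat_lit 10) (nat_lit 4) (nat_lit 299) (nat_lit 223) (nat_lit 198)) (XT.lf (nat_lit 0) (nat_lit 9037509530) (nat_lit 76) (nat_lit 2904206111) (nat_lit 152) (nat_lit 18143810161) (nat_lit 8) (nat_lit 5) (nat_lit 9) (nat_lit 5) (nat_lit 10) (nat_lit 4) (nat_lit 300) (nat_lit 223) (nat_lit 197))) (XT.nd (nat_lit 78) (nat_lit 76) (nat_lit 0) (XT.lf (nat_lit 0) (nat_lit 16225987743) (nat_lit 152) (nat_lit 14026721859) (nat_lit 0) (nat_lit 1189611225) (nat_lit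 8) (nat_lit 5) (nat_lit 10) (nat_lit 4) (nat_lit 8) (nat_lit 4) (nat_lit 301) (nat_lit 223) (nat_lit 196)) (XT.nd (nat_lit 78) (nat_lit 76) (nat_lit 0) (XT.lf (nat_lit 0) (nat_lit 20673723037) (nat_lit 152) (nat_lit 6819456835) (nat_lit 0) (nat_lit 5375400526) (nat_lit 8) (nat_lit 5) (nat_lit 10) (nat_lit 4) (nat_lit 8) (nat_lit 4) (nat_lit 302) (nat_lit 223) (nat_lit 195)) (XT.lf (nat_lit 0) (nat_lit 631172408) (nat_lit 76) (nat_lit 24642489171) (nat_lit 76) (nat_lit 9094694287) (nat_lit 7) (nat_lit 4) (nat_lit 8) (nat_lit 5) (nat_lit 8) (nat_lit 4) (nat_lit 303) (nat_lit 223) (nat_lit 194))))) (XT.nd (nat_lit 156) (nat_lit 76) (nat_lit 0) (XT.nd (nat_lit 78) (nat_lit 0) (nat_lit 0) (XT.lf (nat_lit 0) (nat_lit 8471231028) (nat_lit 76) (nat_lit 21628739141) (nat_lit 76) (nat_lit 5843351520) (nat_lit 7) (nat_lit 4) (nat_lit 8) (nat_lit 5) (nat_lit 8) (nat_lit 4) (nat_lit 304) (nat_lit 223)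 (nat_lit 193)) (XT.lf (nat_lit 0) (nat_lit 16583665268) (nat_lit 76) (nat_lit 18513617329) (nat_lit 76) (nat_lit 2501950910) (nat_lit 7) (nat_lit 4) (nat_lit 8) (nat_lit 5) (nat_lit 8) (nat_lit 4) (nat_lit 305) (nat_lit 223) (nat_lit 192))) (XT.nd (nat_lit 78) (nat_lit 0) (nat_lit 0) (XT.lf (nat_lit 0) (nat_lit 919169972) (nat_lit 152) (nat_lit 14361254991) (nat_lit 76) (nat_lit 24059338661) (nat_lit 6) (nat_lit 5) (nat_lit 8) (nat_lit 5) (nat_lit 7) (nat_lit 4) (nat_lit 306) (nat_lit 223) (nat_lit 191)) (XT.nd (nat_lit 78) (nat_lit 0) (nat_lit 0) (XT.lf (nat_lit 0) (nat_lit 4395599024) (nat_lit 152) (nat_lit 7509345554) (nat_lit 76) (nat_lit 29263630433) (nat_lit 6) (nat_lit 5) (nat_lit 8) (nat_lit 5) (nat_lit 7) (nat_lit 4) (nat_lit 307) (nat_lit 223) (nat_lit 190)) (XT.lf (nat_lit 0) (nat_lit 7984435531) (nat_lit 152) (nat_lit 419475576) (nat_lit 76) (nat_lit 34686832382) (nat_lit 6)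 (nat_lit 5) (nat_lit 8) (nat_lit 5) (nat_lit 7) (nat_lit 4) (nat_lit 308) (nat_lit 223) (nat_lit 189)))))) (XT.nd (nat_lit 390) (nat_lit 76) (nat_lit 0) (XT.nd (nat_lit 156) (nat_lit 0) (nat_lit 0) (XT.nd (nat_lit 78) (nat_lit 0) (nat_lit 0) (XT.lf (nat_lit 0) (nat_lit 7063061351) (nat_lit 76) (nat_lit 4699057458) (nat_lit 152) (nat_lit 33346690009) (nat_lit 5) (nat_lit 5) (nat_lit 6) (nat_lit 5) (nat_lit 7) (nat_lit 4) (nat_lit 309) (nat_lit 223) (nat_lit 188)) (XT.lf (nat_lit 0) (nat_lit 14831695131) (nat_lit 76) (nat_lit 844674485) (nat_lit 152) (nat_lit 31553044509) (nat_lit 5) (nat_lit 5) (nat_lit 6) (nat_lit 5) (nat_lit 7) (nat_lit 4) (nat_lit 310) (nat_lit 223) (nat_lit 187))) (XT.nd (nat_lit 78) (nat_lit 0) (nat_lit 0) (XT.lf (nat_lit 0) (nat_lit 19762811116) (nat_lit 152) (nat_lit 26591573749) (nat_lit 0) (nat_lit 3102434500) (nat_lit 5) (nat_lit 5) (nat_lit 7) (nat_lit 4) (nat_lit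 5) (nat_lit 4) (nat_lit 311) (nat_lit 223) (nat_lit 186)) (XT.nd (nat_lit 78) (nat_lit 0) (nat_lit 0) (XT.lf (nat_lit 0) (nat_lit 24010380631) (nat_lit 152) (nat_lit 20592695277) (nat_lit 0) (nat_lit 7193875747) (nat_lit 5) (nat_lit 5) (nat_lit 7) (nat_lit 4) (nat_lit 5) (nat_lit 4) (nat_lit 312) (nat_lit 223) (nat_lit 185)) (XT.lf (nat_lit 0) (nat_lit 28421071894) (nat_lit 152) (nat_lit 14378681005) (nat_lit 0) (nat_lit 11455873421) (nat_lit 5) (nat_lit 5) (nat_lit 7) (nat_lit 4) (nat_lit 5) (nat_lit 4) (nat_lit 313) (nat_lit 223) (nat_lit 184))))) (XT.nd (nat_lit 234) (nat_lit 0) (nat_lit 0) (XT.nd (nat_lit 78) (nat_lit 76) (nat_lit 0) (XT.lf (nat_lit 0) (nat_lit 33005386552) (nat_lit 152) (nat_lit 7934735662) (nat_lit 0) (nat_lit 15898575137) (nat_lit 5) (nat_lit 5) (nat_lit 7) (nat_lit 4) (nat_lit 5) (nat_lit 4) (nat_lit 314) (nat_lit 223) (nat_lit 183)) (XT.nd (nat_lit 78) (nat_lit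 76) (nat_lit 0) (XT.lf (nat_lit 0) (nat_lit 37774239639) (nat_lit 152) (nat_lit 1245516522) (nat_lit 0) (nat_lit 20532558756) (nat_lit 5) (nat_lit 5) (nat_lit 7) (nat_lit 4) (nat_lit 5) (nat_lit 4) (nat_lit 315) (nat_lit 223) (nat_lit 182)) (XT.lf (nat_lit 0) (nat_lit 5818441887) (nat_lit 76) (nat_lit 36976474103) (nat_lit 76) (nat_lit 19606346107) (nat_lit 4) (nat_lit 4) (nat_lit 5) (nat_lit 5) (nat_lit 5) (nat_lit 4) (nat_lit 316) (nat_lit 223) (nat_lit 181)))) (XT.nd (nat_lit 78) (nat_lit 0) (nat_lit 0) (XT.lf (nat_lit 0) (nat_lit 13190465399) (nat_lit 76) (nat_lit 34847774585) (nat_lit 76) (nat_lit 17355316005) (nat_lit 4) (nat_lit 4) (nat_lit 5) (nat_lit 5) (nat_lit 5) (nat_lit 4) (nat_lit 317) (nat_lit 223) (nat_lit 180)) (XT.nd (nat_lit 78) (nat_lit 0) (nat_lit 0) (XT.lf (nat_lit 0) (nat_lit 20863318228) (nat_lit 76) (nat_lit 32641166550) (nat_lit 76) (nat_lit 15032202652) (nat_lit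 4) (nat_lit 4) (nat_lit 5) (nat_lit 5) (nat_lit 5) (nat_lit 4) (nat_lit 318) (nat_lit 223) (nat_lit 179)) (XT.lf (nat_lit 0) (nat_lit 28855269073) (nat_lit 76) (nat_lit 30351396168) (nat_lit 76) (nat_lit 12631474825) (nat_lit 4) (nat_lit 4) (nat_lit 5) (nat_lit 5) (nat_lit 5) (nat_lit 4) (nat_lit 319) (nat_lit 223) (nat_lit 178))))))))
noncomputable def xc21 : XT := (XT.nd (nat_lit 34476) (nat_lit 0) (nat_lit 456) (XT.nd (nat_lit 780) (nat_lit 0) (nat_lit 0) (XT.nd (nat_lit 390) (nat_lit 76) (nat_lit 0) (XT.nd (nat_lit 156) (nat_lit 76) (nat_lit 0) (XT.nd (nat_lit 78) (nat_lit 0) (nat_lit 0) (XT.lf (nat_lit 0) (nat_lit 37185346387) (nat_lit 76) (nat_lit 27973011607) (nat_lit 76) (nat_lit 10147416506) (nat_lit 4) (nat_lit 4) (nat_lit 5) (nat_lit 5) (nat_lit 5) (nat_lit 4) (nat_lit 320) (nat_lit 223) (nat_lit 177)) (XT.lf (nat_lit 0) (nat_lit 45873383688) (nat_lit 76) (nat_lit 25500350045)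 (nat_lit 76) (nat_lit 7574113270) (nat_lit 4) (nat_lit 4) (nat_lit 5) (nat_lit 5) (nat_lit 5) (nat_lit 4) (nat_lit 321) (nat_lit 223) (nat_lit 176))) (XT.nd (nat_lit 78) (nat_lit 76) (nat_lit 0) (XT.lf (nat_lit 0) (nat_lit 54940066778) (nat_lit 76) (nat_lit 22927524193) (nat_lit 76) (nat_lit 4905438205) (nat_lit 4) (nat_lit 4) (nat_lit 5) (nat_lit 5) (nat_lit 5) (nat_lit 4) (nat_lit 322) (nat_lit 223) (nat_lit 175)) (XT.nd (nat_lit 78) (nat_lit 76) (nat_lit 0) (XT.lf (nat_lit 0) (nat_lit 64406983000) (nat_lit 76) (nat_lit 20248408275) (nat_lit 76) (nat_lit 2135037322) (nat_lit 4) (nat_lit 4) (nat_lit 5) (nat_lit 5) (nat_lit 5) (nat_lit 4) (nat_lit 323) (nat_lit 223) (nat_lit 174)) (XT.lf (nat_lit 0) (nat_lit 729173586) (nat_lit 152) (nat_lit 16720086634) (nat_lit 76) (nat_lit 73560135818) (nat_lit 3) (nat_lit 5) (nat_lit 5) (nat_lit 5) (nat_lit 4) (nat_lit 4) (nat_lit 324) (nat_lit 223)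 (nat_lit 173))))) (XT.nd (nat_lit 156) (nat_lit 76) (nat_lit 0) (XT.nd (nat_lit 78) (nat_lit 0) (nat_lit 0) (XT.lf (nat_lit 0) (nat_lit 3664650838) (nat_lit 152) (nat_lit 10843865966) (nat_lit 76) (nat_lit 80931025918) (nat_lit 3) (nat_lit 5) (nat_lit 5) (nat_lit 5) (nat_lit 4) (nat_lit 4) (nat_lit 325) (nat_lit 223) (nat_lit 172)) (XT.lf (nat_lit 0) (nat_lit 6720045934) (nat_lit 152) (nat_lit 4720269307) (nat_lit 76) (nat_lit 88651717074) (nat_lit 3) (nat_lit 5) (nat_lit 5) (nat_lit 5) (nat_lit 4) (nat_lit 4) (nat_lit 326) (nat_lit 223) (nat_lit 171))) (XT.nd (nat_lit 78) (nat_lit 0) (nat_lit 0) (XT.lf (nat_lit 0) (nat_lit 1698425736) (nat_lit 76) (nat_lit 8220534193) (nat_lit 152) (nat_lit 95058492455) (nat_lit 2) (nat_lit 5) (nat_lit 3) (nat_lit 5) (nat_lit 4) (nat_lit 4) (nat_lit 327) (nat_lit 223) (nat_lit 170)) (XT.nd (nat_lit 78) (nat_lit 0) (nat_lit 0) (XT.lf (nat_lit 0) (nat_lit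 8493739096) (nat_lit 76) (nat_lit 4807899413) (nat_lit 152) (nat_lit 96804817496) (nat_lit 2) (nat_lit 5) (nat_lit 3) (nat_lit 5) (nat_lit 4) (nat_lit 4) (nat_lit 328) (nat_lit 223) (nat_lit 169)) (XT.lf (nat_lit 0) (nat_lit 15587907474) (nat_lit 76) (nat_lit 1241951047) (nat_lit 152) (nat_lit 98662784885) (nat_lit 2) (nat_lit 5) (nat_lit 3) (nat_lit 5) (nat_lit 4) (nat_lit 4) (nat_lit 329) (nat_lit 223) (nat_lit 168)))))) (XT.nd (nat_lit 33306) (nat_lit 0) (nat_lit 1976) (XT.nd (nat_lit 33072) (nat_lit 0) (nat_lit 2964) (XT.nd (nat_lit 32994) (nat_lit 0) (nat_lit 3496) (XT.lf (nat_lit 0) (nat_lit 20535915532) (nat_lit 152) (nat_lit 98174912138) (nat_lit 0) (nat_lit 2437294322) (nat_lit 2) (nat_lit 5) (nat_lit 4) (nat_lit 4) (nat_lit 2) (nat_lit 4) (nat_lit 330) (nat_lit 223) (nat_lit 167)) (XT.lf (nat_lit 0) (nat_lit 391625359) (nat_lit 304) (nat_lit 2420480029) (nat_lit 304) (nat_lit 2420480029)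 (nat_lit 48) (nat_lit 4) (nat_lit 52) (nat_lit 5) (nat_lit 52) (nat_lit 4) (nat_lit 272) (nat_lit 224) (nat_lit 224))) (XT.nd (nat_lit 78) (nat_lit 456) (nat_lit 0) (XT.lf (nat_lit 0) (nat_lit 350383741) (nat_lit 380) (nat_lit 589519212) (nat_lit 76) (nat_lit 9835270067) (nat_lit 47) (nat_lit 5) (nat_lit 52) (nat_lit 5) (nat_lit 48) (nat_lit 4) (nat_lit 273) (nat_lit 224) (nat_lit 223)) (XT.nd (nat_lit 78) (nat_lit 228) (nat_lit 0) (XT.lf (nat_lit 0) (nat_lit 5607162857) (nat_lit 304) (nat_lit 2353884895) (nat_lit 0) (nat_lit 3141479706) (nat_lit 44) (nat_lit 5) (nat_lit 48) (nat_lit 4) (nat_lit 44) (nat_lit 4) (nat_lit 274) (nat_lit 224) (nat_lit 222)) (XT.lf (nat_lit 0) (nat_lit 6949311172) (nat_lit 228) (nat_lit 4056103635) (nat_lit 228) (nat_lit 444923085) (nat_lit 41) (nat_lit 4) (nat_lit 44) (nat_lit 5) (nat_lit 44) (nat_lit 4) (nat_lit 275) (nat_lit 224) (nat_lit 221))))) (XT.nd (nat_lit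 156) (nat_lit 456) (nat_lit 0) (XT.nd (nat_lit 78) (nat_lit 228) (nat_lit 0) (XT.lf (nat_lit 0) (nat_lit 4634397503) (nat_lit 304) (nat_lit 7114797022) (nat_lit 0) (nat_lit 69222305) (nat_lit 37) (nat_lit 5) (nat_lit 41) (nat_lit 4) (nat_lit 37) (nat_lit 4) (nat_lit 276) (nat_lit 224) (nat_lit 220)) (XT.lf (nat_lit 0) (nat_lit 1961958970) (nat_lit 228) (nat_lit 7909857711) (nat_lit 228) (nat_lit 2335944738) (nat_lit 34) (nat_lit 4) (nat_lit 37) (nat_lit 5) (nat_lit 37) (nat_lit 4) (nat_lit 277) (nat_lit 224) (nat_lit 219))) (XT.nd (nat_lit 78) (nat_lit 380) (nat_lit 0) (XT.lf (nat_lit 0) (nat_lit 2585691664) (nat_lit 304) (nat_lit 1285661536) (nat_lit 76) (nat_lit 8748242627) (nat_lit 33) (nat_lit 5) (nat_lit 37) (nat_lit 5) (nat_lit 34) (nat_lit 4) (nat_lit 278) (nat_lit 224) (nat_lit 218)) (XT.nd (nat_lit 78) (nat_lit 228) (nat_lit 0) (XT.lf (nat_lit 0) (nat_lit 7605890871) (nat_lit 228)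 (nat_lit 5075462206) (nat_lit 0) (nat_lit 373298139) (nat_lit 31) (nat_lit 5) (nat_lit 34) (nat_lit 4) (nat_lit 31) (nat_lit 4) (nat_lit 279) (nat_lit 224) (nat_lit 217)) (XT.lf (nat_lit 0) (nat_lit 3993177690) (nat_lit 228) (nat_lit 8799865953) (nat_lit 228) (nat_lit 721267767) (nat_lit 28) (nat_lit 4) (nat_lit 31) (nat_lit 5) (nat_lit 31) (nat_lit 4) (nat_lit 280) (nat_lit 224) (nat_lit 216))))))) (XT.nd (nat_lit 780) (nat_lit 608) (nat_lit 0) (XT.nd (nat_lit 390) (nat_lit 304) (nat_lit 0) (XT.nd (nat_lit 156) (nat_lit 380) (nat_lit 0) (XT.nd (nat_lit 78) (nat_lit 152) (nat_lit 0) (XT.lf (nat_lit 0) (nat_lit 4041531366) (nat_lit 304) (nat_lit 680008991) (nat_lit 76) (nat_lit 9278044626) (nat_lit 27) (nat_lit 5) (nat_lit 31) (nat_lit 5) (nat_lit 28) (nat_lit 4) (nat_lit 281) (nat_lit 224) (nat_lit 215)) (XT.lf (nat_lit 0) (nat_lit 8509918977) (nat_lit 152) (nat_lit 436676356) (nat_lit 228)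 (nat_lit 5565032313) (nat_lit 25) (nat_lit 5) (nat_lit 27) (nat_lit 5) (nat_lit 28) (nat_lit 4) (nat_lit 282) (nat_lit 224) (nat_lit 214))) (XT.nd (nat_lit 78) (nat_lit 228) (nat_lit 0) (XT.lf (nat_lit 0) (nat_lit 2892850745) (nat_lit 152) (nat_lit 11119654739) (nat_lit 152) (nat_lit 1039576224) (nat_lit 23) (nat_lit 4) (nat_lit 25) (nat_lit 5) (nat_lit 25) (nat_lit 4) (nat_lit 283) (nat_lit 224) (nat_lit 213)) (XT.nd (nat_lit 78) (nat_lit 152) (nat_lit 0) (XT.lf (nat_lit 0) (nat_lit 3551622196) (nat_lit 228) (nat_lit 3546024077) (nat_lit 76) (nat_lit 8523740658) (nat_lit 22) (nat_lit 5) (nat_lit 25) (nat_lit 5) (nat_lit 23) (nat_lit 4) (nat_lit 284) (nat_lit 224) (nat_lit 212)) (XT.lf (nat_lit 0) (nat_lit 5358414718) (nat_lit 152) (nat_lit 2896655452) (nat_lit 228) (nat_lit 7966896746) (nat_lit 20) (nat_lit 5) (nat_lit 22) (nat_lit 5) (nat_lit 23) (nat_lit 4) (nat_lit 285) (nat_lit 224)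 (nat_lit 211))))) (XT.nd (nat_lit 156) (nat_lit 76) (nat_lit 0) (XT.nd (nat_lit 78) (nat_lit 228) (nat_lit 0) (XT.lf (nat_lit 0) (nat_lit 13101629583) (nat_lit 228) (nat_lit 2314730902) (nat_lit 0) (nat_lit 1439209604) (nat_lit 20) (nat_lit 5) (nat_lit 23) (nat_lit 4) (nat_lit 20) (nat_lit 4) (nat_lit 286) (nat_lit 224) (nat_lit 210)) (XT.lf (nat_lit 0) (nat_lit 611394620) (nat_lit 228) (nat_lit 10988015529) (nat_lit 76) (nat_lit 5922821043) (nat_lit 17) (nat_lit 5) (nat_lit 20) (nat_lit 5) (nat_lit 18) (nat_lit 4) (nat_lit 287) (nat_lit 224) (nat_lit 209))) (XT.nd (nat_lit 78) (nat_lit 76) (nat_lit 0) (XT.lf (nat_lit 0) (nat_lit 5008436630) (nat_lit 228) (nat_lit 2601759895) (nat_lit 76) (nat_lit 10614386088) (nat_lit 17) (nat_lit 5) (nat_lit 20) (nat_lit 5) (nat_lit 18) (nat_lit 4) (nat_lit 288) (nat_lit 224) (nat_lit 208)) (XT.nd (nat_lit 78) (nat_lit 0) (nat_lit 0) (XT.lf (nat_lit 0)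 (nat_lit 6117366410) (nat_lit 76) (nat_lit 3439426902) (nat_lit 152) (nat_lit 9407509291) (nat_lit 16) (nat_lit 5) (nat_lit 17) (nat_lit 5) (nat_lit 18) (nat_lit 4) (nat_lit 289) (nat_lit 224) (nat_lit 207)) (XT.lf (nat_lit 0) (nat_lit 14244713982) (nat_lit 152) (nat_lit 4625745317) (nat_lit 0) (nat_lit 873370501) (nat_lit 16) (nat_lit 5) (nat_lit 18) (nat_lit 4) (nat_lit 16) (nat_lit 4) (nat_lit 290) (nat_lit 224) (nat_lit 206)))))) (XT.nd (nat_lit 390) (nat_lit 304) (nat_lit 0) (XT.nd (nat_lit 156) (nat_lit 76) (nat_lit 0) (XT.nd (nat_lit 78) (nat_lit 76) (nat_lit 0) (XT.lf (nat_lit 0) (nat_lit 3853598695) (nat_lit 152) (nat_lit 15267155290) (nat_lit 152) (nat_lit 1443144430) (nat_lit 14) (nat_lit 4) (nat_lit 16) (nat_lit 5) (nat_lit 16) (nat_lit 4) (nat_lit 291) (nat_lit 224) (nat_lit 205)) (XT.lf (nat_lit 0) (nat_lit 2693256222) (nat_lit 228) (nat_lit 8787812518) (nat_lit 76) (nat_lit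 9945275980) (nat_lit 13) (nat_lit 5) (nat_lit 16) (nat_lit 5) (nat_lit 14) (nat_lit 4) (nat_lit 292) (nat_lit 224) (nat_lit 204))) (XT.nd (nat_lit 78) (nat_lit 76) (nat_lit 0) (XT.lf (nat_lit 0) (nat_lit 6896892922) (nat_lit 228) (nat_lit 665012673) (nat_lit 76) (nat_lit 14773026868) (nat_lit 13) (nat_lit 5) (nat_lit 16) (nat_lit 5) (nat_lit 14) (nat_lit 4) (nat_lit 293) (nat_lit 224) (nat_lit 203)) (XT.nd (nat_lit 78) (nat_lit 0) (nat_lit 0) (XT.lf (nat_lit 0) (nat_lit 7844384394) (nat_lit 76) (nat_lit 3436955902) (nat_lit 152) (nat_lit 12008638673) (nat_lit 12) (nat_lit 5) (nat_lit 13) (nat_lit 5) (nat_lit 14) (nat_lit 4) (nat_lit 294) (nat_lit 224) (nat_lit 202)) (XT.lf (nat_lit 0) (nat_lit 15798483961) (nat_lit 152) (nat_lit 7678301194) (nat_lit 0) (nat_lit 818729610) (nat_lit 12) (nat_lit 5) (nat_lit 14) (nat_lit 4) (nat_lit 12) (nat_lit 4) (nat_lit 295) (nat_lit 224) (nat_lit 201)))))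 (XT.nd (nat_lit 234) (nat_lit 76) (nat_lit 0) (XT.nd (nat_lit 78) (nat_lit 76) (nat_lit 0) (XT.lf (nat_lit 0) (nat_lit 286142774) (nat_lit 152) (nat_lit 20195605908) (nat_lit 152) (nat_lit 4871505211) (nat_lit 10) (nat_lit 4) (nat_lit 12) (nat_lit 5) (nat_lit 12) (nat_lit 4) (nat_lit 296) (nat_lit 224) (nat_lit 200)) (XT.nd (nat_lit 78) (nat_lit 76) (nat_lit 0) (XT.lf (nat_lit 0) (nat_lit 8651801909) (nat_lit 152) (nat_lit 16732353184) (nat_lit 152) (nat_lit 1080303587) (nat_lit 10) (nat_lit 4) (nat_lit 12) (nat_lit 5) (nat_lit 12) (nat_lit 4) (nat_lit 297) (nat_lit 224) (nat_lit 199)) (XT.lf (nat_lit 0) (nat_lit 2753269490) (nat_lit 228) (nat_lit 10375244817) (nat_lit 76) (nat_lit 14504709084) (nat_lit 9) (nat_lit 5) (nat_lit 12) (nat_lit 5) (nat_lit 10) (nat_lit 4) (nat_lit 298) (nat_lit 224) (nat_lit 198)))) (XT.nd (nat_lit 78) (nat_lit 76) (nat_lit 0) (XT.lf (nat_lit 0) (nat_lit 6670110156)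 (nat_lit 228) (nat_lit 2721517586) (nat_lit 76) (nat_lit 19471172542) (nat_lit 9) (nat_lit 5) (nat_lit 12) (nat_lit 5) (nat_lit 10) (nat_lit 4) (nat_lit 299) (nat_lit 224) (nat_lit 197)) (XT.nd (nat_lit 78) (nat_lit 0) (nat_lit 0) (XT.lf (nat_lit 0) (nat_lit 5280167709) (nat_lit 76) (nat_lit 5471213327) (nat_lit 152) (nat_lit 19403524740) (nat_lit 8) (nat_lit 5) (nat_lit 9) (nat_lit 5) (nat_lit 10) (nat_lit 4) (nat_lit 300) (nat_lit 224) (nat_lit 196)) (XT.lf (nat_lit 0) (nat_lit 13604994557) (nat_lit 76) (nat_lit 1380194962) (nat_lit 152) (nat_lit 16528075084) (nat_lit 8) (nat_lit 5) (nat_lit 9) (nat_lit 5) (nat_lit 10) (nat_lit 4) (nat_lit 301) (nat_lit 224) (nat_lit 195))))))))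
noncomputable def xc22 : XT := (XT.nd (nat_lit 1560) (nat_lit 152) (nat_lit 0) (XT.nd (nat_lit 780) (nat_lit 76) (nat_lit 0) (XT.nd (nat_lit 390) (nat_lit 152) (nat_lit 0) (XT.nd (nat_lit 156) (nat_lit 76) (nat_lit 0) (XT.nd (nat_lit 78) (nat_lit 0) (nat_lit 0) (XT.lf (nat_lit 0) (nat_lit 19382462057) (nat_lit 152) (nat_lit 10750818465) (nat_lit 0) (nat_lit 2807805054) (nat_lit 8) (nat_lit 5) (nat_lit 10) (nat_lit 4) (nat_lit 8) (nat_lit 4) (nat_lit 302) (nat_lit 224) (nat_lit 194)) (XT.lf (nat_lit 0) (nat_lit 23940909119) (nat_lit 152) (nat_lit 3372582545) (nat_lit 0) (nat_lit 7128659380) (nat_lit 8) (nat_lit 5) (nat_lit 10) (nat_lit 4) (nat_lit 8) (nat_lit 4) (nat_lit 303) (nat_lit 224) (nat_lit 193))) (XT.nd (nat_lit 78) (nat_lit 0) (nat_lit 0) (XT.lf (nat_lit 0) (nat_lit 4342000282) (nat_lit 76) (nat_lit 24357854554) (nat_lit 76) (nat_lit 7319326018) (nat_lit 7) (nat_lit 4) (nat_lit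 8) (nat_lit 5) (nat_lit 8) (nat_lit 4) (nat_lit 304) (nat_lit 224) (nat_lit 192)) (XT.nd (nat_lit 78) (nat_lit 0) (nat_lit 0) (XT.lf (nat_lit 0) (nat_lit 12398858536) (nat_lit 76) (nat_lit 21265643645) (nat_lit 76) (nat_lit 4011611492) (nat_lit 7) (nat_lit 4) (nat_lit 8) (nat_lit 5) (nat_lit 8) (nat_lit 4) (nat_lit 305) (nat_lit 224) (nat_lit 191)) (XT.lf (nat_lit 0) (nat_lit 20750054204) (nat_lit 76) (nat_lit 18063553002) (nat_lit 76) (nat_lit 604279310) (nat_lit 7) (nat_lit 4) (nat_lit 8) (nat_lit 5) (nat_lit 8) (nat_lit 4) (nat_lit 306) (nat_lit 224) (nat_lit 190))))) (XT.nd (nat_lit 156) (nat_lit 76) (nat_lit 0) (XT.nd (nat_lit 78) (nat_lit 0) (nat_lit 0) (XT.lf (nat_lit 0) (nat_lit 2853983360) (nat_lit 152) (nat_lit 11861155602) (nat_lit 76) (nat_lit 26532668090) (nat_lit 6) (nat_lit 5) (nat_lit 8) (nat_lit 5) (nat_lit 7) (nat_lit 4) (nat_lit 307) (nat_lit 224) (nat_lit 189)) (XT.lf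 (nat_lit 0) (nat_lit 6414288394) (nat_lit 152) (nat_lit 4819896510) (nat_lit 76) (nat_lit 31936680998) (nat_lit 6) (nat_lit 5) (nat_lit 8) (nat_lit 5) (nat_lit 7) (nat_lit 4) (nat_lit 308) (nat_lit 224) (nat_lit 188))) (XT.nd (nat_lit 78) (nat_lit 0) (nat_lit 0) (XT.lf (nat_lit 0) (nat_lit 2527845949) (nat_lit 76) (nat_lit 7593357626) (nat_lit 152) (nat_lit 35069883485) (nat_lit 5) (nat_lit 5) (nat_lit 6) (nat_lit 5) (nat_lit 7) (nat_lit 4) (nat_lit 309) (nat_lit 224) (nat_lit 187)) (XT.nd (nat_lit 78) (nat_lit 0) (nat_lit 0) (XT.lf (nat_lit 0) (nat_lit 10251510715) (nat_lit 76) (nat_lit 3757632509) (nat_lit 152) (nat_lit 33303369703) (nat_lit 5) (nat_lit 5) (nat_lit 6) (nat_lit 5) (nat_lit 7) (nat_lit 4) (nat_lit 310) (nat_lit 224) (nat_lit 186)) (XT.lf (nat_lit 0) (nat_lit 18042354534) (nat_lit 152) (nat_lit 31270294141) (nat_lit 0) (nat_lit 228896137) (nat_lit 5) (nat_lit 5) (nat_lit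 7) (nat_lit 4) (nat_lit 5) (nat_lit 4) (nat_lit 311) (nat_lit 224) (nat_lit 185)))))) (XT.nd (nat_lit 390) (nat_lit 0) (nat_lit 0) (XT.nd (nat_lit 156) (nat_lit 76) (nat_lit 0) (XT.nd (nat_lit 78) (nat_lit 0) (nat_lit 0) (XT.lf (nat_lit 0) (nat_lit 22265896377) (nat_lit 152) (nat_lit 25312785485) (nat_lit 0) (nat_lit 4303744391) (nat_lit 5) (nat_lit 5) (nat_lit 7) (nat_lit 4) (nat_lit 5) (nat_lit 4) (nat_lit 312) (nat_lit 224) (nat_lit 184)) (XT.lf (nat_lit 0) (nat_lit 26653704144) (nat_lit 152) (nat_lit 19138171039) (nat_lit 0) (nat_lit 8549939216) (nat_lit 5) (nat_lit 5) (nat_lit 7) (nat_lit 4) (nat_lit 5) (nat_lit 4) (nat_lit 313) (nat_lit 224) (nat_lit 183))) (XT.nd (nat_lit 78) (nat_lit 76) (nat_lit 0) (XT.lf (nat_lit 0) (nat_lit 31216224995) (nat_lit 152) (nat_lit 12731749339) (nat_lit 0) (nat_lit 12977590599) (nat_lit 5) (nat_lit 5) (nat_lit 7) (nat_lit 4) (nat_lit 5) (nat_lit 4)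 (nat_lit 314) (nat_lit 224) (nat_lit 182)) (XT.nd (nat_lit 78) (nat_lit 76) (nat_lit 0) (XT.lf (nat_lit 0) (nat_lit 35964322076) (nat_lit 152) (nat_lit 6078267002) (nat_lit 0) (nat_lit 17597240567) (nat_lit 5) (nat_lit 5) (nat_lit 7) (nat_lit 4) (nat_lit 5) (nat_lit 4) (nat_lit 315) (nat_lit 224) (nat_lit 181)) (XT.lf (nat_lit 0) (nat_lit 854797782) (nat_lit 76) (nat_lit 40062719437) (nat_lit 76) (nat_lit 21573307344) (nat_lit 4) (nat_lit 4) (nat_lit 5) (nat_lit 5) (nat_lit 5) (nat_lit 4) (nat_lit 316) (nat_lit 224) (nat_lit 180))))) (XT.nd (nat_lit 156) (nat_lit 0) (nat_lit 0) (XT.nd (nat_lit 78) (nat_lit 0) (nat_lit 0) (XT.lf (nat_lit 0) (nat_lit 8193761850) (nat_lit 76) (nat_lit 37947935264) (nat_lit 76) (nat_lit 19342017854) (nat_lit 4) (nat_lit 4) (nat_lit 5) (nat_lit 5) (nat_lit 5) (nat_lit 4) (nat_lit 317) (nat_lit 224) (nat_lit 179)) (XT.lf (nat_lit 0) (nat_lit 15835129496) (nat_lit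 76) (nat_lit 35754579939) (nat_lit 76) (nat_lit 17037705083) (nat_lit 4) (nat_lit 4) (nat_lit 5) (nat_lit 5) (nat_lit 5) (nat_lit 4) (nat_lit 318) (nat_lit 224) (nat_lit 178))) (XT.nd (nat_lit 78) (nat_lit 0) (nat_lit 0) (XT.lf (nat_lit 0) (nat_lit 23797094452) (nat_lit 76) (nat_lit 33477431187) (nat_lit 76) (nat_lit 14654882573) (nat_lit 4) (nat_lit 4) (nat_lit 5) (nat_lit 5) (nat_lit 5) (nat_lit 4) (nat_lit 319) (nat_lit 224) (nat_lit 177)) (XT.nd (nat_lit 78) (nat_lit 0) (nat_lit 0) (XT.lf (nat_lit 0) (nat_lit 32098613776) (nat_lit 76) (nat_lit 31111067224) (nat_lit 76) (nat_lit 12187876936) (nat_lit 4) (nat_lit 4) (nat_lit 5) (nat_lit 5) (nat_lit 5) (nat_lit 4) (nat_lit 320) (nat_lit 224) (nat_lit 176)) (XT.lf (nat_lit 0) (nat_lit 40759452991) (nat_lit 76) (nat_lit 28649853851) (nat_lit 76) (nat_lit 9630814350) (nat_lit 4) (nat_lit 4) (nat_lit 5) (nat_lit 5) (nat_lit 5) (nat_lit 4) (nat_lit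 321) (nat_lit 224) (nat_lit 175))))))) (XT.nd (nat_lit 33540) (nat_lit 0) (nat_lit 1900) (XT.nd (nat_lit 390) (nat_lit 76) (nat_lit 0) (XT.nd (nat_lit 156) (nat_lit 76) (nat_lit 0) (XT.nd (nat_lit 78) (nat_lit 0) (nat_lit 0) (XT.lf (nat_lit 0) (nat_lit 49800233144) (nat_lit 76) (nat_lit 26087931037) (nat_lit 76) (nat_lit 6977606571) (nat_lit 4) (nat_lit 4) (nat_lit 5) (nat_lit 5) (nat_lit 5) (nat_lit 4) (nat_lit 322) (nat_lit 224) (nat_lit 174)) (XT.lf (nat_lit 0) (nat_lit 59242479900) (nat_lit 76) (nat_lit 23419198964) (nat_lit 76) (nat_lit 4221936436) (nat_lit 4) (nat_lit 4) (nat_lit 5) (nat_lit 5) (nat_lit 5) (nat_lit 4) (nat_lit 323) (nat_lit 224) (nat_lit 173))) (XT.nd (nat_lit 78) (nat_lit 76) (nat_lit 0) (XT.lf (nat_lit 0) (nat_lit 69108674800) (nat_lit 76) (nat_lit 20637303509) (nat_lit 76) (nat_lit 1357242827) (nat_lit 4) (nat_lit 4) (nat_lit 5) (nat_lit 5) (nat_lit 5) (nat_lit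 4) (nat_lit 324) (nat_lit 224) (nat_lit 172)) (XT.nd (nat_lit 78) (nat_lit 0) (nat_lit 0) (XT.lf (nat_lit 0) (nat_lit 1591618623) (nat_lit 152) (nat_lit 16127930261) (nat_lit 76) (nat_lit 77814617933) (nat_lit 3) (nat_lit 5) (nat_lit 5) (nat_lit 5) (nat_lit 4) (nat_lit 4) (nat_lit 325) (nat_lit 224) (nat_lit 171)) (XT.lf (nat_lit 0) (nat_lit 4634537054) (nat_lit 152) (nat_lit 10025906212) (nat_lit 76) (nat_lit 85526601332) (nat_lit 3) (nat_lit 5) (nat_lit 5) (nat_lit 5) (nat_lit 4) (nat_lit 4) (nat_lit 326) (nat_lit 224) (nat_lit 170))))) (XT.nd (nat_lit 156) (nat_lit 0) (nat_lit 0) (XT.nd (nat_lit 78) (nat_lit 76) (nat_lit 0) (XT.lf (nat_lit 0) (nat_lit 7805242205) (nat_lit 152) (nat_lit 3660898914) (nat_lit 76) (nat_lit 93607183040) (nat_lit 3) (nat_lit 5) (nat_lit 5) (nat_lit 5) (nat_lit 4) (nat_lit 4) (nat_lit 327) (nat_lit 224) (nat_lit 169)) (XT.lf (nat_lit 0) (nat_lit 3041598964)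 (nat_lit 76) (nat_lit 8098922120) (nat_lit 152) (nat_lit 99063241284) (nat_lit 2) (nat_lit 5) (nat_lit 3) (nat_lit 5) (nat_lit 4) (nat_lit 4) (nat_lit 328) (nat_lit 224) (nat_lit 168))) (XT.nd (nat_lit 78) (nat_lit 0) (nat_lit 0) (XT.lf (nat_lit 0) (nat_lit 10116761233) (nat_lit 76) (nat_lit 4541019354) (nat_lit 152) (nat_lit 100932509995) (nat_lit 2) (nat_lit 5) (nat_lit 3) (nat_lit 5) (nat_lit 4) (nat_lit 4) (nat_lit 329) (nat_lit 224) (nat_lit 167)) (XT.nd (nat_lit 32838) (nat_lit 0) (nat_lit 4104) (XT.lf (nat_lit 0) (nat_lit 17508574450) (nat_lit 76) (nat_lit 820929523) (nat_lit 152) (nat_lit 102917306629) (nat_lit 2) (nat_lit 5) (nat_lit 3) (nat_lit 5) (nat_lit 4) (nat_lit 4) (nat_lit 330) (nat_lit 224) (nat_lit 166)) (XT.lf (nat_lit 0) (nat_lit 1386737415) (nat_lit 304) (nat_lit 1780607235) (nat_lit 304) (nat_lit 1780607235) (nat_lit 56) (nat_lit 4) (nat_lit 60) (nat_lit 5) (nat_lit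 60) (nat_lit 4) (nat_lit 270) (nat_lit 225) (nat_lit 225)))))) (XT.nd (nat_lit 390) (nat_lit 988) (nat_lit 0) (XT.nd (nat_lit 156) (nat_lit 608) (nat_lit 0) (XT.nd (nat_lit 78) (nat_lit 304) (nat_lit 0) (XT.lf (nat_lit 0) (nat_lit 1617733525) (nat_lit 304) (nat_lit 8304473297) (nat_lit 0) (nat_lit 251895405) (nat_lit 52) (nat_lit 5) (nat_lit 56) (nat_lit 4) (nat_lit 52) (nat_lit 4) (nat_lit 271) (nat_lit 225) (nat_lit 224)) (XT.lf (nat_lit 0) (nat_lit 632173643) (nat_lit 304) (nat_lit 6251535740) (nat_lit 304) (nat_lit 3584899412) (nat_lit 48) (nat_lit 4) (nat_lit 52) (nat_lit 5) (nat_lit 52) (nat_lit 4) (nat_lit 272) (nat_lit 225) (nat_lit 223))) (XT.nd (nat_lit 78) (nat_lit 532) (nat_lit 0) (XT.lf (nat_lit 0) (nat_lit 1479424295) (nat_lit 380) (nat_lit 902260445) (nat_lit 76) (nat_lit 8399868411) (nat_lit 47) (nat_lit 5) (nat_lit 52) (nat_lit 5) (nat_lit 48) (nat_lit 4) (nat_lit 273) (nat_lit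 225) (nat_lit 222)) (XT.nd (nat_lit 78) (nat_lit 304) (nat_lit 0) (XT.lf (nat_lit 0) (nat_lit 6619841584) (nat_lit 304) (nat_lit 2810170442) (nat_lit 0) (nat_lit 1682604607) (nat_lit 44) (nat_lit 5) (nat_lit 48) (nat_lit 4) (nat_lit 44) (nat_lit 4) (nat_lit 274) (nat_lit 225) (nat_lit 221)) (XT.lf (nat_lit 0) (nat_lit 445088337) (nat_lit 304) (nat_lit 5124657555) (nat_lit 76) (nat_lit 5893772985) (nat_lit 40) (nat_lit 5) (nat_lit 44) (nat_lit 5) (nat_lit 41) (nat_lit 4) (nat_lit 275) (nat_lit 225) (nat_lit 220))))) (XT.nd (nat_lit 234) (nat_lit 456) (nat_lit 0) (XT.nd (nat_lit 78) (nat_lit 304) (nat_lit 0) (XT.lf (nat_lit 0) (nat_lit 3925281093) (nat_lit 228) (nat_lit 1489727715) (nat_lit 304) (nat_lit 6419674383) (nat_lit 37) (nat_lit 5) (nat_lit 40) (nat_lit 5) (nat_lit 41) (nat_lit 4) (nat_lit 276) (nat_lit 225) (nat_lit 219)) (XT.nd (nat_lit 78) (nat_lit 76) (nat_lit 0) (XT.lf (nat_lit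 0) (nat_lit 1028980777) (nat_lit 228) (nat_lit 9510336183) (nat_lit 228) (nat_lit 1688287142) (nat_lit 34) (nat_lit 4) (nat_lit 37) (nat_lit 5) (nat_lit 37) (nat_lit 4) (nat_lit 277) (nat_lit 225) (nat_lit 218)) (XT.lf (nat_lit 0) (nat_lit 3132879882) (nat_lit 304) (nat_lit 2377257777) (nat_lit 76) (nat_lit 7131918220) (nat_lit 33) (nat_lit 5) (nat_lit 37) (nat_lit 5) (nat_lit 34) (nat_lit 4) (nat_lit 278) (nat_lit 225) (nat_lit 217)))) (XT.nd (nat_lit 78) (nat_lit 304) (nat_lit 0) (XT.lf (nat_lit 0) (nat_lit 6740887270) (nat_lit 152) (nat_lit 1312943678) (nat_lit 228) (nat_lit 5026418907) (nat_lit 31) (nat_lit 5) (nat_lit 33) (nat_lit 5) (nat_lit 34) (nat_lit 4) (nat_lit 279) (nat_lit 225) (nat_lit 216)) (XT.nd (nat_lit 78) (nat_lit 76) (nat_lit 0) (XT.lf (nat_lit 0) (nat_lit 2589715075) (nat_lit 228) (nat_lit 10543911100) (nat_lit 228) (nat_lit 409658071) (nat_lit 28) (nat_lit 4) (nat_lit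 31) (nat_lit 5) (nat_lit 31) (nat_lit 4) (nat_lit 280) (nat_lit 225) (nat_lit 215)) (XT.lf (nat_lit 0) (nat_lit 4267597307) (nat_lit 304) (nat_lit 2238382380) (nat_lit 76) (nat_lit 7525014069) (nat_lit 27) (nat_lit 5) (nat_lit 31) (nat_lit 5) (nat_lit 28) (nat_lit 4) (nat_lit 281) (nat_lit 225) (nat_lit 214))))))))
noncomputable def xc23 : XT := (XT.nd (nat_lit 1638) (nat_lit 304) (nat_lit 0) (XT.nd (nat_lit 780) (nat_lit 456) (nat_lit 0) (XT.nd (nat_lit 390) (nat_lit 456) (nat_lit 0) (XT.nd (nat_lit 156) (nat_lit 228) (nat_lit 0) (XT.nd (nat_lit 78) (nat_lit 152) (nat_lit 0) (XT.lf (nat_lit 0) (nat_lit 6801112471) (nat_lit 152) (nat_lit 2279443540) (nat_lit 228) (nat_lit 5465378714) (nat_lit 25) (nat_lit 5) (nat_lit 27) (nat_lit 5) (nat_lit 28) (nat_lit 4) (nat_lit 282) (nat_lit 225) (nat_lit 213)) (XT.lf (nat_lit 0) (nat_lit 1015144459) (nat_lit 152) (nat_lit 13021999658) (nat_lit 152)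 (nat_lit 1052653043) (nat_lit 23) (nat_lit 4) (nat_lit 25) (nat_lit 5) (nat_lit 25) (nat_lit 4) (nat_lit 283) (nat_lit 225) (nat_lit 212))) (XT.nd (nat_lit 78) (nat_lit 152) (nat_lit 0) (XT.lf (nat_lit 0) (nat_lit 3466840281) (nat_lit 228) (nat_lit 5575221435) (nat_lit 76) (nat_lit 6619322259) (nat_lit 22) (nat_lit 5) (nat_lit 25) (nat_lit 5) (nat_lit 23) (nat_lit 4) (nat_lit 284) (nat_lit 225) (nat_lit 211)) (XT.nd (nat_lit 78) (nat_lit 0) (nat_lit 0) (XT.lf (nat_lit 0) (nat_lit 3178195990) (nat_lit 152) (nat_lit 4902601077) (nat_lit 228) (nat_lit 8183964975) (nat_lit 20) (nat_lit 5) (nat_lit 22) (nat_lit 5) (nat_lit 23) (nat_lit 4) (nat_lit 285) (nat_lit 225) (nat_lit 210)) (XT.lf (nat_lit 0) (nat_lit 12269785687) (nat_lit 152) (nat_lit 577177944) (nat_lit 228) (nat_lit 4053921316) (nat_lit 20) (nat_lit 5) (nat_lit 22) (nat_lit 5) (nat_lit 23) (nat_lit 4) (nat_lit 286) (nat_lit 225) (nat_lit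 209))))) (XT.nd (nat_lit 156) (nat_lit 228) (nat_lit 0) (XT.nd (nat_lit 78) (nat_lit 0) (nat_lit 0) (XT.lf (nat_lit 0) (nat_lit 223561397) (nat_lit 228) (nat_lit 13493240577) (nat_lit 76) (nat_lit 3853741580) (nat_lit 17) (nat_lit 5) (nat_lit 20) (nat_lit 5) (nat_lit 18) (nat_lit 4) (nat_lit 287) (nat_lit 225) (nat_lit 208)) (XT.lf (nat_lit 0) (nat_lit 4558485702) (nat_lit 228) (nat_lit 5207381998) (nat_lit 76) (nat_lit 8508985868) (nat_lit 17) (nat_lit 5) (nat_lit 20) (nat_lit 5) (nat_lit 18) (nat_lit 4) (nat_lit 288) (nat_lit 225) (nat_lit 207))) (XT.nd (nat_lit 78) (nat_lit 152) (nat_lit 0) (XT.lf (nat_lit 0) (nat_lit 3362368124) (nat_lit 76) (nat_lit 5658831810) (nat_lit 152) (nat_lit 9996033429) (nat_lit 16) (nat_lit 5) (nat_lit 17) (nat_lit 5) (nat_lit 18) (nat_lit 4) (nat_lit 289) (nat_lit 225) (nat_lit 206)) (XT.nd (nat_lit 78) (nat_lit 152) (nat_lit 0) (XT.lf (nat_lit 0) (nat_lit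 12279030106) (nat_lit 76) (nat_lit 1364292677) (nat_lit 152) (nat_lit 6155497936) (nat_lit 16) (nat_lit 5) (nat_lit 17) (nat_lit 5) (nat_lit 18) (nat_lit 4) (nat_lit 290) (nat_lit 225) (nat_lit 205)) (XT.lf (nat_lit 0) (nat_lit 823699655) (nat_lit 152) (nat_lit 17598587321) (nat_lit 152) (nat_lit 2199596749) (nat_lit 14) (nat_lit 4) (nat_lit 16) (nat_lit 5) (nat_lit 16) (nat_lit 4) (nat_lit 291) (nat_lit 225) (nat_lit 204)))))) (XT.nd (nat_lit 390) (nat_lit 304) (nat_lit 0) (XT.nd (nat_lit 156) (nat_lit 76) (nat_lit 0) (XT.nd (nat_lit 78) (nat_lit 0) (nat_lit 0) (XT.lf (nat_lit 0) (nat_lit 1897899162) (nat_lit 228) (nat_lit 11956837927) (nat_lit 76) (nat_lit 7631496988) (nat_lit 13) (nat_lit 5) (nat_lit 16) (nat_lit 5) (nat_lit 14) (nat_lit 4) (nat_lit 292) (nat_lit 225) (nat_lit 203)) (XT.lf (nat_lit 0) (nat_lit 6050425530) (nat_lit 228) (nat_lit 3918240503) (nat_lit 76) (nat_lit 12427761411)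 (nat_lit 13) (nat_lit 5) (nat_lit 16) (nat_lit 5) (nat_lit 14) (nat_lit 4) (nat_lit 293) (nat_lit 225) (nat_lit 202))) (XT.nd (nat_lit 78) (nat_lit 0) (nat_lit 0) (XT.lf (nat_lit 0) (nat_lit 4444622176) (nat_lit 76) (nat_lit 5908893626) (nat_lit 152) (nat_lit 13000467730) (nat_lit 12) (nat_lit 5) (nat_lit 13) (nat_lit 5) (nat_lit 14) (nat_lit 4) (nat_lit 294) (nat_lit 225) (nat_lit 201)) (XT.nd (nat_lit 78) (nat_lit 0) (nat_lit 0) (XT.lf (nat_lit 0) (nat_lit 13147824845) (nat_lit 76) (nat_lit 1667700516) (nat_lit 152) (nat_lit 9545713579) (nat_lit 12) (nat_lit 5) (nat_lit 13) (nat_lit 5) (nat_lit 14) (nat_lit 4) (nat_lit 295) (nat_lit 225) (nat_lit 200)) (XT.lf (nat_lit 0) (nat_lit 19434862560) (nat_lit 152) (nat_lit 3313834218) (nat_lit 0) (nat_lit 2672261583) (nat_lit 12) (nat_lit 5) (nat_lit 14) (nat_lit 4) (nat_lit 12) (nat_lit 4) (nat_lit 296) (nat_lit 225) (nat_lit 199))))) (XT.nd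 (nat_lit 234) (nat_lit 76) (nat_lit 0) (XT.nd (nat_lit 78) (nat_lit 76) (nat_lit 0) (XT.lf (nat_lit 0) (nat_lit 4912720530) (nat_lit 152) (nat_lit 19348360506) (nat_lit 152) (nat_lit 2273427242) (nat_lit 10) (nat_lit 4) (nat_lit 12) (nat_lit 5) (nat_lit 12) (nat_lit 4) (nat_lit 297) (nat_lit 225) (nat_lit 198)) (XT.nd (nat_lit 78) (nat_lit 0) (nat_lit 0) (XT.lf (nat_lit 0) (nat_lit 1541341916) (nat_lit 228) (nat_lit 14243468494) (nat_lit 76) (nat_lit 11920124240) (nat_lit 9) (nat_lit 5) (nat_lit 12) (nat_lit 5) (nat_lit 10) (nat_lit 4) (nat_lit 298) (nat_lit 225) (nat_lit 197)) (XT.lf (nat_lit 0) (nat_lit 5418100620) (nat_lit 228) (nat_lit 6656942915) (nat_lit 76) (nat_lit 16860722857) (nat_lit 9) (nat_lit 5) (nat_lit 12) (nat_lit 5) (nat_lit 10) (nat_lit 4) (nat_lit 299) (nat_lit 225) (nat_lit 196)))) (XT.nd (nat_lit 78) (nat_lit 0) (nat_lit 0) (XT.lf (nat_lit 0) (nat_lit 1201144370) (nat_lit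 76) (nat_lit 8220843766) (nat_lit 152) (nat_lit 20808255142) (nat_lit 8) (nat_lit 5) (nat_lit 9) (nat_lit 5) (nat_lit 10) (nat_lit 4) (nat_lit 300) (nat_lit 225) (nat_lit 195)) (XT.nd (nat_lit 78) (nat_lit 0) (nat_lit 0) (XT.lf (nat_lit 0) (nat_lit 9463804238) (nat_lit 76) (nat_lit 4155039274) (nat_lit 152) (nat_lit 17970914705) (nat_lit 8) (nat_lit 5) (nat_lit 9) (nat_lit 5) (nat_lit 10) (nat_lit 4) (nat_lit 301) (nat_lit 225) (nat_lit 194)) (XT.lf (nat_lit 0) (nat_lit 17954018283) (nat_lit 152) (nat_lit 15001905775) (nat_lit 0) (nat_lit 63563320) (nat_lit 8) (nat_lit 5) (nat_lit 10) (nat_lit 4) (nat_lit 8) (nat_lit 4) (nat_lit 302) (nat_lit 225) (nat_lit 193))))))) (XT.nd (nat_lit 780) (nat_lit 76) (nat_lit 0) (XT.nd (nat_lit 390) (nat_lit 76) (nat_lit 0) (XT.nd (nat_lit 156) (nat_lit 152) (nat_lit 0) (XT.nd (nat_lit 78) (nat_lit 0) (nat_lit 0) (XT.lf (nat_lit 0) (nat_lit 22478727950)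 (nat_lit 152) (nat_lit 7680885930) (nat_lit 0) (nat_lit 4361994190) (nat_lit 8) (nat_lit 5) (nat_lit 10) (nat_lit 4) (nat_lit 8) (nat_lit 4) (nat_lit 303) (nat_lit 225) (nat_lit 192)) (XT.lf (nat_lit 0) (nat_lit 27163804852) (nat_lit 152) (nat_lit 105522665) (nat_lit 0) (nat_lit 8831567475) (nat_lit 8) (nat_lit 5) (nat_lit 10) (nat_lit 4) (nat_lit 8) (nat_lit 4) (nat_lit 304) (nat_lit 225) (nat_lit 191))) (XT.nd (nat_lit 78) (nat_lit 76) (nat_lit 0) (XT.lf (nat_lit 0) (nat_lit 7896305968) (nat_lit 76) (nat_lit 24200002088) (nat_lit 76) (nat_lit 5662523172) (nat_lit 7) (nat_lit 4) (nat_lit 8) (nat_lit 5) (nat_lit 8) (nat_lit 4) (nat_lit 305) (nat_lit 225) (nat_lit 190)) (XT.nd (nat_lit 78) (nat_lit 76) (nat_lit 0) (XT.lf (nat_lit 0) (nat_lit 16197092579) (nat_lit 76) (nat_lit 21018692310) (nat_lit 76) (nat_lit 2285745261) (nat_lit 7) (nat_lit 4) (nat_lit 8) (nat_lit 5) (nat_lit 8) (nat_lit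 4) (nat_lit 306) (nat_lit 225) (nat_lit 189)) (XT.lf (nat_lit 0) (nat_lit 1176797392) (nat_lit 152) (nat_lit 16530208468) (nat_lit 76) (nat_lit 23625820095) (nat_lit 6) (nat_lit 5) (nat_lit 8) (nat_lit 5) (nat_lit 7) (nat_lit 4) (nat_lit 307) (nat_lit 225) (nat_lit 188))))) (XT.nd (nat_lit 156) (nat_lit 76) (nat_lit 0) (XT.nd (nat_lit 78) (nat_lit 0) (nat_lit 0) (XT.lf (nat_lit 0) (nat_lit 4709929594) (nat_lit 152) (nat_lit 9535245457) (nat_lit 76) (nat_lit 29011557726) (nat_lit 6) (nat_lit 5) (nat_lit 8) (nat_lit 5) (nat_lit 7) (nat_lit 4) (nat_lit 308) (nat_lit 225) (nat_lit 187)) (XT.lf (nat_lit 0) (nat_lit 8366666686) (nat_lit 152) (nat_lit 2280921882) (nat_lit 76) (nat_lit 34630901935) (nat_lit 6) (nat_lit 5) (nat_lit 8) (nat_lit 5) (nat_lit 7) (nat_lit 4) (nat_lit 309) (nat_lit 225) (nat_lit 186))) (XT.nd (nat_lit 78) (nat_lit 0) (nat_lit 0) (XT.lf (nat_lit 0) (nat_lit 5354520433)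 (nat_lit 76) (nat_lit 6852665677) (nat_lit 152) (nat_lit 35194182605) (nat_lit 5) (nat_lit 5) (nat_lit 6) (nat_lit 5) (nat_lit 7) (nat_lit 4) (nat_lit 310) (nat_lit 225) (nat_lit 185)) (XT.nd (nat_lit 78) (nat_lit 0) (nat_lit 0) (XT.lf (nat_lit 0) (nat_lit 13335783572) (nat_lit 76) (nat_lit 2878504773) (nat_lit 152) (nat_lit 33416923851) (nat_lit 5) (nat_lit 5) (nat_lit 6) (nat_lit 5) (nat_lit 7) (nat_lit 4) (nat_lit 311) (nat_lit 225) (nat_lit 184)) (XT.lf (nat_lit 0) (nat_lit 20387276742) (nat_lit 152) (nat_lit 30349649846) (nat_lit 0) (nat_lit 1236710626) (nat_lit 5) (nat_lit 5) (nat_lit 7) (nat_lit 4) (nat_lit 5) (nat_lit 4) (nat_lit 312) (nat_lit 225) (nat_lit 183)))))) (XT.nd (nat_lit 390) (nat_lit 0) (nat_lit 0) (XT.nd (nat_lit 156) (nat_lit 76) (nat_lit 0) (XT.nd (nat_lit 78) (nat_lit 0) (nat_lit 0) (XT.lf (nat_lit 0) (nat_lit 24753290702) (nat_lit 152) (nat_lit 24212559043) (nat_lit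 0) (nat_lit 5467855118) (nat_lit 5) (nat_lit 5) (nat_lit 7) (nat_lit 4) (nat_lit 5) (nat_lit 4) (nat_lit 313) (nat_lit 225) (nat_lit 182)) (XT.lf (nat_lit 0) (nat_lit 29295055547) (nat_lit 152) (nat_lit 17841874147) (nat_lit 0) (nat_lit 9881172850) (nat_lit 5) (nat_lit 5) (nat_lit 7) (nat_lit 4) (nat_lit 5) (nat_lit 4) (nat_lit 314) (nat_lit 225) (nat_lit 181))) (XT.nd (nat_lit 78) (nat_lit 76) (nat_lit 0) (XT.lf (nat_lit 0) (nat_lit 34023385003) (nat_lit 152) (nat_lit 11222426860) (nat_lit 0) (nat_lit 14487171722) (nat_lit 5) (nat_lit 5) (nat_lit 7) (nat_lit 4) (nat_lit 5) (nat_lit 4) (nat_lit 315) (nat_lit 225) (nat_lit 180)) (XT.nd (nat_lit 78) (nat_lit 76) (nat_lit 0) (XT.lf (nat_lit 0) (nat_lit 38949536997) (nat_lit 152) (nat_lit 4338456593) (nat_lit 0) (nat_lit 19296818398) (nat_lit 5) (nat_lit 5) (nat_lit 7) (nat_lit 4) (nat_lit 5) (nat_lit 4) (nat_lit 316) (nat_lit 225) (nat_lit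 179)) (XT.lf (nat_lit 0) (nat_lit 2882678498) (nat_lit 76) (nat_lit 41230272034) (nat_lit 76) (nat_lit 21466595989) (nat_lit 4) (nat_lit 4) (nat_lit 5) (nat_lit 5) (nat_lit 5) (nat_lit 4) (nat_lit 317) (nat_lit 225) (nat_lit 178))))) (XT.nd (nat_lit 234) (nat_lit 0) (nat_lit 0) (XT.nd (nat_lit 78) (nat_lit 0) (nat_lit 0) (XT.lf (nat_lit 0) (nat_lit 10494060255) (nat_lit 76) (nat_lit 39049538337) (nat_lit 76) (nat_lit 19180188535) (nat_lit 4) (nat_lit 4) (nat_lit 5) (nat_lit 5) (nat_lit 5) (nat_lit 4) (nat_lit 318) (nat_lit 225) (nat_lit 177)) (XT.nd (nat_lit 78) (nat_lit 0) (nat_lit 0) (XT.lf (nat_lit 0) (nat_lit 18427467220) (nat_lit 76) (nat_lit 36784410183) (nat_lit 76) (nat_lit 16814418707) (nat_lit 4) (nat_lit 4) (nat_lit 5) (nat_lit 5) (nat_lit 5) (nat_lit 4) (nat_lit 319) (nat_lit 225) (nat_lit 176)) (XT.lf (nat_lit 0) (nat_lit 26701788459) (nat_lit 76) (nat_lit 34429494410) (nat_lit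 76) (nat_lit 14363653721) (nat_lit 4) (nat_lit 4) (nat_lit 5) (nat_lit 5) (nat_lit 5) (nat_lit 4) (nat_lit 320) (nat_lit 225) (nat_lit 175)))) (XT.nd (nat_lit 78) (nat_lit 0) (nat_lit 0) (XT.lf (nat_lit 0) (nat_lit 35336724736) (nat_lit 76) (nat_lit 31979184075) (nat_lit 76) (nat_lit 11822058420) (nat_lit 4) (nat_lit 4) (nat_lit 5) (nat_lit 5) (nat_lit 5) (nat_lit 4) (nat_lit 321) (nat_lit 225) (nat_lit 174)) (XT.nd (nat_lit 78) (nat_lit 0) (nat_lit 0) (XT.lf (nat_lit 0) (nat_lit 44352835423) (nat_lit 76) (nat_lit 29427645105) (nat_lit 76) (nat_lit 9183581389) (nat_lit 4) (nat_lit 4) (nat_lit 5) (nat_lit 5) (nat_lit 5) (nat_lit 4) (nat_lit 322) (nat_lit 225) (nat_lit 173)) (XT.lf (nat_lit 0) (nat_lit 53771587451) (nat_lit 76) (nat_lit 26768802409) (nat_lit 76) (nat_lit 6441940539) (nat_lit 4) (nat_lit 4) (nat_lit 5) (nat_lit 5) (nat_lit 5) (nat_lit 4) (nat_lit 323) (nat_lit 225) (nat_lit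 172))))))))
noncomputable def xc24 : XT := (XT.nd (nat_lit 34164) (nat_lit 0) (nat_lit 456) (XT.nd (nat_lit 33384) (nat_lit 0) (nat_lit 1976) (XT.nd (nat_lit 390) (nat_lit 76) (nat_lit 0) (XT.nd (nat_lit 156) (nat_lit 76) (nat_lit 0) (XT.nd (nat_lit 78) (nat_lit 0) (nat_lit 0) (XT.lf (nat_lit 0) (nat_lit 63615406418) (nat_lit 76) (nat_lit 23996325408) (nat_lit 76) (nat_lit 3590608152) (nat_lit 4) (nat_lit 4) (nat_lit 5) (nat_lit 5) (nat_lit 5) (nat_lit 4) (nat_lit 324) (nat_lit 225) (nat_lit 171)) (XT.lf (nat_lit 0) (nat_lit 73907729991) (nat_lit 76) (nat_lit 21103612966) (nat_lit 76) (nat_lit 622795344) (nat_lit 4) (nat_lit 4) (nat_lit 5) (nat_lit 5) (nat_lit 5) (nat_lit 4) (nat_lit 325) (nat_lit 225) (nat_lit 170))) (XT.nd (nat_lit 78) (nat_lit 0) (nat_lit 0) (XT.lf (nat_lit 0) (nat_lit 2420393529) (nat_lit 152) (nat_lit 15638942915) (nat_lit 76) (nat_lit 82228228942) (nat_lit 3) (nat_lit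 5) (nat_lit 5) (nat_lit 5) (nat_lit 4) (nat_lit 4) (nat_lit 326) (nat_lit 225) (nat_lit 169)) (XT.nd (nat_lit 78) (nat_lit 0) (nat_lit 0) (XT.lf (nat_lit 0) (nat_lit 5579781978) (nat_lit 152) (nat_lit 9293502610) (nat_lit 76) (nat_lit 90300912457) (nat_lit 3) (nat_lit 5) (nat_lit 5) (nat_lit 5) (nat_lit 4) (nat_lit 4) (nat_lit 327) (nat_lit 225) (nat_lit 168)) (XT.lf (nat_lit 0) (nat_lit 8875045336) (nat_lit 152) (nat_lit 2668992514) (nat_lit 76) (nat_lit 98761809867) (nat_lit 3) (nat_lit 5) (nat_lit 5) (nat_lit 5) (nat_lit 4) (nat_lit 4) (nat_lit 328) (nat_lit 225) (nat_lit 167))))) (XT.nd (nat_lit 32760) (nat_lit 0) (nat_lit 4104) (XT.nd (nat_lit 78) (nat_lit 0) (nat_lit 0) (XT.lf (nat_lit 0) (nat_lit 4334950514) (nat_lit 76) (nat_lit 8020749150) (nat_lit 152) (nat_lit 103337785848) (nat_lit 2) (nat_lit 5) (nat_lit 3) (nat_lit 5) (nat_lit 4) (nat_lit 4) (nat_lit 329) (nat_lit 225) (nat_lit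 166)) (XT.lf (nat_lit 0) (nat_lit 11709524629) (nat_lit 76) (nat_lit 4307956915) (nat_lit 152) (nat_lit 105332833114) (nat_lit 2) (nat_lit 5) (nat_lit 3) (nat_lit 5) (nat_lit 4) (nat_lit 4) (nat_lit 330) (nat_lit 225) (nat_lit 165))) (XT.nd (nat_lit 78) (nat_lit 684) (nat_lit 0) (XT.lf (nat_lit 0) (nat_lit 1992315263) (nat_lit 304) (nat_lit 1350292793) (nat_lit 304) (nat_lit 1350292793) (nat_lit 65) (nat_lit 4) (nat_lit 69) (nat_lit 5) (nat_lit 69) (nat_lit 4) (nat_lit 268) (nat_lit 226) (nat_lit 226)) (XT.nd (nat_lit 78) (nat_lit 304) (nat_lit 0) (XT.lf (nat_lit 0) (nat_lit 2454775931) (nat_lit 380) (nat_lit 6202485013) (nat_lit 0) (nat_lit 977622005) (nat_lit 60) (nat_lit 5) (nat_lit 65) (nat_lit 4) (nat_lit 60) (nat_lit 4) (nat_lit 269) (nat_lit 226) (nat_lit 225)) (XT.lf (nat_lit 0) (nat_lit 2626469400) (nat_lit 304) (nat_lit 5078438787) (nat_lit 304) (nat_lit 2194471599) (nat_lit 56)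 (nat_lit 4) (nat_lit 60) (nat_lit 5) (nat_lit 60) (nat_lit 4) (nat_lit 270) (nat_lit 226) (nat_lit 224)))))) (XT.nd (nat_lit 390) (nat_lit 912) (nat_lit 0) (XT.nd (nat_lit 156) (nat_lit 608) (nat_lit 0) (XT.nd (nat_lit 78) (nat_lit 304) (nat_lit 0) (XT.lf (nat_lit 0) (nat_lit 1560159809) (nat_lit 228) (nat_lit 1289076226) (nat_lit 304) (nat_lit 7331452947) (nat_lit 52) (nat_lit 5) (nat_lit 55) (nat_lit 5) (nat_lit 56) (nat_lit 4) (nat_lit 271) (nat_lit 226) (nat_lit 223)) (XT.lf (nat_lit 0) (nat_lit 178582706) (nat_lit 304) (nat_lit 7819984967) (nat_lit 304) (nat_lit 2480363177) (nat_lit 48) (nat_lit 4) (nat_lit 52) (nat_lit 5) (nat_lit 52) (nat_lit 4) (nat_lit 272) (nat_lit 226) (nat_lit 222))) (XT.nd (nat_lit 78) (nat_lit 532) (nat_lit 0) (XT.lf (nat_lit 0) (nat_lit 2464778644) (nat_lit 380) (nat_lit 1515983463) (nat_lit 76) (nat_lit 6813941617) (nat_lit 47) (nat_lit 5) (nat_lit 52) (nat_lit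 5) (nat_lit 48) (nat_lit 4) (nat_lit 273) (nat_lit 226) (nat_lit 221)) (XT.nd (nat_lit 78) (nat_lit 304) (nat_lit 0) (XT.lf (nat_lit 0) (nat_lit 7489075691) (nat_lit 304) (nat_lit 3571853361) (nat_lit 0) (nat_lit 68529562) (nat_lit 44) (nat_lit 5) (nat_lit 48) (nat_lit 4) (nat_lit 44) (nat_lit 4) (nat_lit 274) (nat_lit 226) (nat_lit 220)) (XT.lf (nat_lit 0) (nat_lit 1180754980) (nat_lit 304) (nat_lit 6062613427) (nat_lit 76) (nat_lit 4239941547) (nat_lit 40) (nat_lit 5) (nat_lit 44) (nat_lit 5) (nat_lit 41) (nat_lit 4) (nat_lit 275) (nat_lit 226) (nat_lit 219))))) (XT.nd (nat_lit 156) (nat_lit 684) (nat_lit 0) (XT.nd (nat_lit 78) (nat_lit 0) (nat_lit 0) (XT.lf (nat_lit 0) (nat_lit 2836626230) (nat_lit 228) (nat_lit 3215440759) (nat_lit 304) (nat_lit 5805548524) (nat_lit 37) (nat_lit 5) (nat_lit 40) (nat_lit 5) (nat_lit 41) (nat_lit 4) (nat_lit 276) (nat_lit 226) (nat_lit 218)) (XT.lf (nat_lit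 0) (nat_lit 11064350104) (nat_lit 304) (nat_lit 214180277) (nat_lit 0) (nat_lit 975541071) (nat_lit 37) (nat_lit 5) (nat_lit 41) (nat_lit 4) (nat_lit 37) (nat_lit 4) (nat_lit 277) (nat_lit 226) (nat_lit 217))) (XT.nd (nat_lit 78) (nat_lit 380) (nat_lit 0) (XT.lf (nat_lit 0) (nat_lit 3535947459) (nat_lit 304) (nat_lit 3782221306) (nat_lit 76) (nat_lit 5352944913) (nat_lit 33) (nat_lit 5) (nat_lit 37) (nat_lit 5) (nat_lit 34) (nat_lit 4) (nat_lit 278) (nat_lit 226) (nat_lit 216)) (XT.nd (nat_lit 78) (nat_lit 228) (nat_lit 0) (XT.lf (nat_lit 0) (nat_lit 5185342999) (nat_lit 152) (nat_lit 3176937155) (nat_lit 228) (nat_lit 4750019523) (nat_lit 31) (nat_lit 5) (nat_lit 33) (nat_lit 5) (nat_lit 34) (nat_lit 4) (nat_lit 279) (nat_lit 226) (nat_lit 215)) (XT.lf (nat_lit 0) (nat_lit 867580015) (nat_lit 228) (nat_lit 12462646366) (nat_lit 228) (nat_lit 248609320) (nat_lit 28) (nat_lit 4) (nat_lit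 31) (nat_lit 5) (nat_lit 31) (nat_lit 4) (nat_lit 280) (nat_lit 226) (nat_lit 214))))))) (XT.nd (nat_lit 780) (nat_lit 608) (nat_lit 0) (XT.nd (nat_lit 390) (nat_lit 304) (nat_lit 0) (XT.nd (nat_lit 156) (nat_lit 380) (nat_lit 0) (XT.nd (nat_lit 78) (nat_lit 152) (nat_lit 0) (XT.lf (nat_lit 0) (nat_lit 4349824247) (nat_lit 304) (nat_lit 4114705141) (nat_lit 76) (nat_lit 5604374902) (nat_lit 27) (nat_lit 5) (nat_lit 31) (nat_lit 5) (nat_lit 28) (nat_lit 4) (nat_lit 281) (nat_lit 226) (nat_lit 213)) (XT.lf (nat_lit 0) (nat_lit 4773715368) (nat_lit 152) (nat_lit 4297503603) (nat_lit 228) (nat_lit 5515501920) (nat_lit 25) (nat_lit 5) (nat_lit 27) (nat_lit 5) (nat_lit 28) (nat_lit 4) (nat_lit 282) (nat_lit 226) (nat_lit 212))) (XT.nd (nat_lit 78) (nat_lit 380) (nat_lit 0) (XT.lf (nat_lit 0) (nat_lit 13928594272) (nat_lit 228) (nat_lit 1163606908) (nat_lit 0) (nat_lit 41481112) (nat_lit 25) (nat_lit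 5) (nat_lit 28) (nat_lit 4) (nat_lit 25) (nat_lit 4) (nat_lit 283) (nat_lit 226) (nat_lit 211)) (XT.nd (nat_lit 78) (nat_lit 152) (nat_lit 0) (XT.lf (nat_lit 0) (nat_lit 3237325406) (nat_lit 228) (nat_lit 7928257434) (nat_lit 76) (nat_lit 4542245205) (nat_lit 22) (nat_lit 5) (nat_lit 25) (nat_lit 5) (nat_lit 23) (nat_lit 4) (nat_lit 284) (nat_lit 226) (nat_lit 210)) (XT.lf (nat_lit 0) (nat_lit 672961995) (nat_lit 152) (nat_lit 7088968267) (nat_lit 228) (nat_lit 8552064356) (nat_lit 20) (nat_lit 5) (nat_lit 22) (nat_lit 5) (nat_lit 23) (nat_lit 4) (nat_lit 285) (nat_lit 226) (nat_lit 209))))) (XT.nd (nat_lit 156) (nat_lit 152) (nat_lit 0) (XT.nd (nat_lit 78) (nat_lit 152) (nat_lit 0) (XT.lf (nat_lit 0) (nat_lit 9664201249) (nat_lit 152) (nat_lit 2800768959) (nat_lit 228) (nat_lit 4487143921) (nat_lit 20) (nat_lit 5) (nat_lit 22) (nat_lit 5) (nat_lit 23) (nat_lit 4) (nat_lit 286) (nat_lit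 226) (nat_lit 208)) (XT.lf (nat_lit 0) (nat_lit 1292605270) (nat_lit 152) (nat_lit 16015395519) (nat_lit 152) (nat_lit 317194387) (nat_lit 18) (nat_lit 4) (nat_lit 20) (nat_lit 5) (nat_lit 20) (nat_lit 4) (nat_lit 287) (nat_lit 226) (nat_lit 207))) (XT.nd (nat_lit 78) (nat_lit 76) (nat_lit 0) (XT.lf (nat_lit 0) (nat_lit 3964759802) (nat_lit 228) (nat_lit 8139298504) (nat_lit 76) (nat_lit 6227403681) (nat_lit 17) (nat_lit 5) (nat_lit 20) (nat_lit 5) (nat_lit 18) (nat_lit 4) (nat_lit 288) (nat_lit 226) (nat_lit 206)) (XT.nd (nat_lit 78) (nat_lit 0) (nat_lit 0) (XT.lf (nat_lit 0) (nat_lit 279225309) (nat_lit 76) (nat_lit 8062269080) (nat_lit 152) (nat_lit 10735013005) (nat_lit 16) (nat_lit 5) (nat_lit 17) (nat_lit 5) (nat_lit 18) (nat_lit 4) (nat_lit 289) (nat_lit 226) (nat_lit 205)) (XT.lf (nat_lit 0) (nat_lit 9107434508) (nat_lit 76) (nat_lit 3801672858) (nat_lit 152) (nat_lit 6950704797)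 (nat_lit 16) (nat_lit 5) (nat_lit 17) (nat_lit 5) (nat_lit 18) (nat_lit 4) (nat_lit 290) (nat_lit 226) (nat_lit 204)))))) (XT.nd (nat_lit 390) (nat_lit 304) (nat_lit 0) (XT.nd (nat_lit 156) (nat_lit 76) (nat_lit 0) (XT.nd (nat_lit 78) (nat_lit 228) (nat_lit 0) (XT.lf (nat_lit 0) (nat_lit 17604499157) (nat_lit 152) (nat_lit 2487096778) (nat_lit 0) (nat_lit 593864611) (nat_lit 16) (nat_lit 5) (nat_lit 18) (nat_lit 4) (nat_lit 16) (nat_lit 4) (nat_lit 291) (nat_lit 226) (nat_lit 203)) (XT.lf (nat_lit 0) (nat_lit 957998068) (nat_lit 228) (nat_lit 15456929570) (nat_lit 76) (nat_lit 5137481793) (nat_lit 13) (nat_lit 5) (nat_lit 16) (nat_lit 5) (nat_lit 14) (nat_lit 4) (nat_lit 292) (nat_lit 226) (nat_lit 202))) (XT.nd (nat_lit 78) (nat_lit 76) (nat_lit 0) (XT.lf (nat_lit 0) (nat_lit 5061847927) (nat_lit 228) (nat_lit 7498524927) (nat_lit 76) (nat_lit 9903759106) (nat_lit 13) (nat_lit 5) (nat_lit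 16) (nat_lit 5) (nat_lit 14) (nat_lit 4) (nat_lit 293) (nat_lit 226) (nat_lit 201)) (XT.nd (nat_lit 78) (nat_lit 0) (nat_lit 0) (XT.lf (nat_lit 0) (nat_lit 715189000) (nat_lit 76) (nat_lit 8567541028) (nat_lit 152) (nat_lit 14141489856) (nat_lit 12) (nat_lit 5) (nat_lit 13) (nat_lit 5) (nat_lit 14) (nat_lit 4) (nat_lit 294) (nat_lit 226) (nat_lit 200)) (XT.lf (nat_lit 0) (nat_lit 9344206839) (nat_lit 76) (nat_lit 4355668611) (nat_lit 152) (nat_lit 10733008233) (nat_lit 12) (nat_lit 5) (nat_lit 13) (nat_lit 5) (nat_lit 14) (nat_lit 4) (nat_lit 295) (nat_lit 226) (nat_lit 199))))) (XT.nd (nat_lit 234) (nat_lit 76) (nat_lit 0) (XT.nd (nat_lit 78) (nat_lit 228) (nat_lit 0) (XT.lf (nat_lit 0) (nat_lit 18250378078) (nat_lit 152) (nat_lit 7234983690) (nat_lit 0) (nat_lit 9365864) (nat_lit 12) (nat_lit 5) (nat_lit 14) (nat_lit 4) (nat_lit 12) (nat_lit 4) (nat_lit 296) (nat_lit 226) (nat_lit 198))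 (XT.nd (nat_lit 78) (nat_lit 76) (nat_lit 0) (XT.lf (nat_lit 0) (nat_lit 843863365) (nat_lit 152) (nat_lit 22152672105) (nat_lit 152) (nat_lit 3614200571) (nat_lit 10) (nat_lit 4) (nat_lit 12) (nat_lit 5) (nat_lit 12) (nat_lit 4) (nat_lit 297) (nat_lit 226) (nat_lit 197)) (XT.lf (nat_lit 0) (nat_lit 186649943) (nat_lit 228) (nat_lit 18442866740) (nat_lit 76) (nat_lit 9153287228) (nat_lit 9) (nat_lit 5) (nat_lit 12) (nat_lit 5) (nat_lit 10) (nat_lit 4) (nat_lit 298) (nat_lit 226) (nat_lit 196)))) (XT.nd (nat_lit 78) (nat_lit 76) (nat_lit 0) (XT.lf (nat_lit 0) (nat_lit 4025235351) (nat_lit 228) (nat_lit 10920342734) (nat_lit 76) (nat_lit 14069252661) (nat_lit 9) (nat_lit 5) (nat_lit 12) (nat_lit 5) (nat_lit 10) (nat_lit 4) (nat_lit 299) (nat_lit 226) (nat_lit 195)) (XT.nd (nat_lit 78) (nat_lit 76) (nat_lit 0) (XT.lf (nat_lit 0) (nat_lit 7981221212) (nat_lit 228) (nat_lit 3146647980) (nat_lit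 76) (nat_lit 19182923008) (nat_lit 9) (nat_lit 5) (nat_lit 12) (nat_lit 5) (nat_lit 10) (nat_lit 4) (nat_lit 300) (nat_lit 226) (nat_lit 194)) (XT.lf (nat_lit 0) (nat_lit 4994180773) (nat_lit 76) (nat_lit 7117852889) (nat_lit 152) (nat_lit 19560300021) (nat_lit 8) (nat_lit 5) (nat_lit 9) (nat_lit 5) (nat_lit 10) (nat_lit 4) (nat_lit 301) (nat_lit 226) (nat_lit 193))))))))
noncomputable def xc25 : XT := (XT.nd (nat_lit 1560) (nat_lit 152) (nat_lit 0) (XT.nd (nat_lit 780) (nat_lit 76) (nat_lit 0) (XT.nd (nat_lit 390) (nat_lit 152) (nat_lit 0) (XT.nd (nat_lit 156) (nat_lit 76) (nat_lit 0) (XT.nd (nat_lit 78) (nat_lit 0) (nat_lit 0) (XT.lf (nat_lit 0) (nat_lit 13492212720) (nat_lit 76) (nat_lit 2920854985) (nat_lit 152) (nat_lit 16690062462) (nat_lit 8) (nat_lit 5) (nat_lit 9) (nat_lit 5) (nat_lit 10) (nat_lit 4) (nat_lit 302) (nat_lit 226) (nat_lit 192)) (XT.lf (nat_lit 0) (nat_lit 20877569475)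 (nat_lit 152) (nat_lit 12316312056) (nat_lit 0) (nat_lit 1413216613) (nat_lit 8) (nat_lit 5) (nat_lit 10) (nat_lit 4) (nat_lit 8) (nat_lit 4) (nat_lit 303) (nat_lit 226) (nat_lit 191))) (XT.nd (nat_lit 78) (nat_lit 76) (nat_lit 0) (XT.lf (nat_lit 0) (nat_lit 25532045564) (nat_lit 152) (nat_lit 4792845457) (nat_lit 0) (nat_lit 5862451163) (nat_lit 8) (nat_lit 5) (nat_lit 10) (nat_lit 4) (nat_lit 8) (nat_lit 4) (nat_lit 304) (nat_lit 226) (nat_lit 190)) (XT.nd (nat_lit 78) (nat_lit 0) (nat_lit 0) (XT.lf (nat_lit 0) (nat_lit 3065287204) (nat_lit 76) (nat_lit 27323679227) (nat_lit 76) (nat_lit 7458616692) (nat_lit 7) (nat_lit 4) (nat_lit 8) (nat_lit 5) (nat_lit 8) (nat_lit 4) (nat_lit 305) (nat_lit 226) (nat_lit 189)) (XT.lf (nat_lit 0) (nat_lit 11318065187) (nat_lit 76) (nat_lit 24162160748) (nat_lit 76) (nat_lit 4110938087) (nat_lit 7) (nat_lit 4) (nat_lit 8) (nat_lit 5) (nat_lit 8) (nat_lit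 4) (nat_lit 306) (nat_lit 226) (nat_lit 188))))) (XT.nd (nat_lit 156) (nat_lit 76) (nat_lit 0) (XT.nd (nat_lit 78) (nat_lit 76) (nat_lit 0) (XT.lf (nat_lit 0) (nat_lit 19889750941) (nat_lit 76) (nat_lit 20881206501) (nat_lit 76) (nat_lit 652688482) (nat_lit 7) (nat_lit 4) (nat_lit 8) (nat_lit 5) (nat_lit 8) (nat_lit 4) (nat_lit 307) (nat_lit 226) (nat_lit 187)) (XT.lf (nat_lit 0) (nat_lit 2867301134) (nat_lit 152) (nat_lit 14576749438) (nat_lit 76) (nat_lit 25904497988) (nat_lit 6) (nat_lit 5) (nat_lit 8) (nat_lit 5) (nat_lit 7) (nat_lit 4) (nat_lit 308) (nat_lit 226) (nat_lit 186))) (XT.nd (nat_lit 78) (nat_lit 76) (nat_lit 0) (XT.lf (nat_lit 0) (nat_lit 6499391666) (nat_lit 152) (nat_lit 7364417774) (nat_lit 76) (nat_lit 31507265981) (nat_lit 6) (nat_lit 5) (nat_lit 8) (nat_lit 5) (nat_lit 7) (nat_lit 4) (nat_lit 309) (nat_lit 226) (nat_lit 185)) (XT.nd (nat_lit 78) (nat_lit 0) (nat_lit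 0) (XT.lf (nat_lit 0) (nat_lit 129064785) (nat_lit 76) (nat_lit 10137143116) (nat_lit 152) (nat_lit 37229985152) (nat_lit 5) (nat_lit 5) (nat_lit 6) (nat_lit 5) (nat_lit 7) (nat_lit 4) (nat_lit 310) (nat_lit 226) (nat_lit 184)) (XT.lf (nat_lit 0) (nat_lit 8071481998) (nat_lit 76) (nat_lit 6179099569) (nat_lit 152) (nat_lit 35476163796) (nat_lit 5) (nat_lit 5) (nat_lit 6) (nat_lit 5) (nat_lit 7) (nat_lit 4) (nat_lit 311) (nat_lit 226) (nat_lit 183)))))) (XT.nd (nat_lit 390) (nat_lit 76) (nat_lit 0) (XT.nd (nat_lit 156) (nat_lit 0) (nat_lit 0) (XT.nd (nat_lit 78) (nat_lit 0) (nat_lit 0) (XT.lf (nat_lit 0) (nat_lit 16335178030) (nat_lit 76) (nat_lit 2054621067) (nat_lit 152) (nat_lit 33680410101) (nat_lit 5) (nat_lit 5) (nat_lit 6) (nat_lit 5) (nat_lit 7) (nat_lit 4) (nat_lit 312) (nat_lit 226) (nat_lit 182)) (XT.lf (nat_lit 0) (nat_lit 22715306776) (nat_lit 152) (nat_lit 29613926894) (nat_lit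 0) (nat_lit 2202282831) (nat_lit 5) (nat_lit 5) (nat_lit 7) (nat_lit 4) (nat_lit 5) (nat_lit 4) (nat_lit 313) (nat_lit 226) (nat_lit 181))) (XT.nd (nat_lit 78) (nat_lit 0) (nat_lit 0) (XT.lf (nat_lit 0) (nat_lit 27237303996) (nat_lit 152) (nat_lit 23277277049) (nat_lit 0) (nat_lit 6601949467) (nat_lit 5) (nat_lit 5) (nat_lit 7) (nat_lit 4) (nat_lit 5) (nat_lit 4) (nat_lit 314) (nat_lit 226) (nat_lit 180)) (XT.nd (nat_lit 78) (nat_lit 0) (nat_lit 0) (XT.lf (nat_lit 0) (nat_lit 31946807142) (nat_lit 152) (nat_lit 16690244096) (nat_lit 0) (nat_lit 11194947295) (nat_lit 5) (nat_lit 5) (nat_lit 7) (nat_lit 4) (nat_lit 5) (nat_lit 4) (nat_lit 315) (nat_lit 226) (nat_lit 179)) (XT.lf (nat_lit 0) (nat_lit 36855029318) (nat_lit 152) (nat_lit 9837144623) (nat_lit 0) (nat_lit 15992212025) (nat_lit 5) (nat_lit 5) (nat_lit 7) (nat_lit 4) (nat_lit 5) (nat_lit 4) (nat_lit 316) (nat_lit 226) (nat_lit 178)))))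 (XT.nd (nat_lit 156) (nat_lit 0) (nat_lit 0) (XT.nd (nat_lit 78) (nat_lit 76) (nat_lit 0) (XT.lf (nat_lit 0) (nat_lit 41973656766) (nat_lit 152) (nat_lit 2701661728) (nat_lit 0) (nat_lit 21005165716) (nat_lit 5) (nat_lit 5) (nat_lit 7) (nat_lit 4) (nat_lit 5) (nat_lit 4) (nat_lit 317) (nat_lit 226) (nat_lit 177)) (XT.lf (nat_lit 0) (nat_lit 4827393672) (nat_lit 76) (nat_lit 42533886882) (nat_lit 76) (nat_lit 21464754159) (nat_lit 4) (nat_lit 4) (nat_lit 5) (nat_lit 5) (nat_lit 5) (nat_lit 4) (nat_lit 318) (nat_lit 226) (nat_lit 176))) (XT.nd (nat_lit 78) (nat_lit 0) (nat_lit 0) (XT.lf (nat_lit 0) (nat_lit 12733602553) (nat_lit 76) (nat_lit 40280206918) (nat_lit 76) (nat_lit 19115224981) (nat_lit 4) (nat_lit 4) (nat_lit 5) (nat_lit 5) (nat_lit 5) (nat_lit 4) (nat_lit 319) (nat_lit 226) (nat_lit 175)) (XT.nd (nat_lit 78) (nat_lit 0) (nat_lit 0) (XT.lf (nat_lit 0) (nat_lit 20982020853) (nat_lit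 76) (nat_lit 37936194182) (nat_lit 76) (nat_lit 16679927280) (nat_lit 4) (nat_lit 4) (nat_lit 5) (nat_lit 5) (nat_lit 5) (nat_lit 4) (nat_lit 320) (nat_lit 226) (nat_lit 174)) (XT.lf (nat_lit 0) (nat_lit 29592287665) (nat_lit 76) (nat_lit 35496267692) (nat_lit 76) (nat_lit 14153062728) (nat_lit 4) (nat_lit 4) (nat_lit 5) (nat_lit 5) (nat_lit 5) (nat_lit 4) (nat_lit 321) (nat_lit 226) (nat_lit 173))))))) (XT.nd (nat_lit 33228) (nat_lit 0) (nat_lit 2660) (XT.nd (nat_lit 390) (nat_lit 76) (nat_lit 0) (XT.nd (nat_lit 156) (nat_lit 76) (nat_lit 0) (XT.nd (nat_lit 78) (nat_lit 0) (nat_lit 0) (XT.lf (nat_lit 0) (nat_lit 38584903623) (nat_lit 76) (nat_lit 32954618099) (nat_lit 76) (nat_lit 11528614981) (nat_lit 4) (nat_lit 4) (nat_lit 5) (nat_lit 5) (nat_lit 5) (nat_lit 4) (nat_lit 322) (nat_lit 226) (nat_lit 172)) (XT.lf (nat_lit 0) (nat_lit 47981279718) (nat_lit 76) (nat_lit 30305193856) (nat_lit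 76) (nat_lit 8800335353) (nat_lit 4) (nat_lit 4) (nat_lit 5) (nat_lit 5) (nat_lit 5) (nat_lit 4) (nat_lit 323) (nat_lit 226) (nat_lit 171))) (XT.nd (nat_lit 78) (nat_lit 76) (nat_lit 0) (XT.lf (nat_lit 0) (nat_lit 57803788274) (nat_lit 76) (nat_lit 27541686811) (nat_lit 76) (nat_lit 5961727941) (nat_lit 4) (nat_lit 4) (nat_lit 5) (nat_lit 5) (nat_lit 5) (nat_lit 4) (nat_lit 324) (nat_lit 226) (nat_lit 170)) (XT.nd (nat_lit 78) (nat_lit 76) (nat_lit 0) (XT.lf (nat_lit 0) (nat_lit 68075816217) (nat_lit 76) (nat_lit 24657517184) (nat_lit 76) (nat_lit 3006034156) (nat_lit 4) (nat_lit 4) (nat_lit 5) (nat_lit 5) (nat_lit 5) (nat_lit 4) (nat_lit 325) (nat_lit 226) (nat_lit 169)) (XT.lf (nat_lit 0) (nat_lit 72343588) (nat_lit 152) (nat_lit 21572743789) (nat_lit 76) (nat_lit 78748746637) (nat_lit 3) (nat_lit 5) (nat_lit 5) (nat_lit 5) (nat_lit 4) (nat_lit 4) (nat_lit 326) (nat_lit 226) (nat_lit 168)))))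 (XT.nd (nat_lit 156) (nat_lit 76) (nat_lit 0) (XT.nd (nat_lit 78) (nat_lit 0) (nat_lit 0) (XT.lf (nat_lit 0) (nat_lit 3220954226) (nat_lit 152) (nat_lit 15245938715) (nat_lit 76) (nat_lit 86813908064) (nat_lit 3) (nat_lit 5) (nat_lit 5) (nat_lit 5) (nat_lit 4) (nat_lit 4) (nat_lit 327) (nat_lit 226) (nat_lit 167)) (XT.lf (nat_lit 0) (nat_lit 6505953001) (nat_lit 152) (nat_lit 8639176458) (nat_lit 76) (nat_lit 95267641581) (nat_lit 3) (nat_lit 5) (nat_lit 5) (nat_lit 5) (nat_lit 4) (nat_lit 4) (nat_lit 328) (nat_lit 226) (nat_lit 166))) (XT.nd (nat_lit 78) (nat_lit 76) (nat_lit 0) (XT.lf (nat_lit 0) (nat_lit 9935161340) (nat_lit 152) (nat_lit 1736726633) (nat_lit 76) (nat_lit 104130075123) (nat_lit 3) (nat_lit 5) (nat_lit 5) (nat_lit 5) (nat_lit 4) (nat_lit 4) (nat_lit 329) (nat_lit 226) (nat_lit 165)) (XT.nd (nat_lit 32526) (nat_lit 0) (nat_lit 5472) (XT.lf (nat_lit 0) (nat_lit 5586865025)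 (nat_lit 76) (nat_lit 7983583363) (nat_lit 152) (nat_lit 107889149063) (nat_lit 2) (nat_lit 5) (nat_lit 3) (nat_lit 5) (nat_lit 4) (nat_lit 4) (nat_lit 330) (nat_lit 226) (nat_lit 164)) (XT.lf (nat_lit 0) (nat_lit 2318089460) (nat_lit 380) (nat_lit 1073324796) (nat_lit 380) (nat_lit 1073324796) (nat_lit 74) (nat_lit 4) (nat_lit 79) (nat_lit 5) (nat_lit 79) (nat_lit 4) (nat_lit 266) (nat_lit 227) (nat_lit 227)))))) (XT.nd (nat_lit 390) (nat_lit 1140) (nat_lit 0) (XT.nd (nat_lit 156) (nat_lit 988) (nat_lit 0) (XT.nd (nat_lit 78) (nat_lit 304) (nat_lit 0) (XT.lf (nat_lit 0) (nat_lit 2965736956) (nat_lit 380) (nat_lit 4818209217) (nat_lit 0) (nat_lit 1368194985) (nat_lit 69) (nat_lit 5) (nat_lit 74) (nat_lit 4) (nat_lit 69) (nat_lit 4) (nat_lit 267) (nat_lit 227) (nat_lit 226)) (XT.lf (nat_lit 0) (nat_lit 3841860243) (nat_lit 304) (nat_lit 4333235817) (nat_lit 304) (nat_lit 1214225302) (nat_lit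 65) (nat_lit 4) (nat_lit 69) (nat_lit 5) (nat_lit 69) (nat_lit 4) (nat_lit 268) (nat_lit 227) (nat_lit 225))) (XT.nd (nat_lit 78) (nat_lit 608) (nat_lit 0) (XT.lf (nat_lit 0) (nat_lit 3137437974) (nat_lit 304) (nat_lit 658358158) (nat_lit 380) (nat_lit 5845935886) (nat_lit 60) (nat_lit 5) (nat_lit 64) (nat_lit 5) (nat_lit 65) (nat_lit 4) (nat_lit 269) (nat_lit 227) (nat_lit 224)) (XT.nd (nat_lit 78) (nat_lit 304) (nat_lit 0) (XT.lf (nat_lit 0) (nat_lit 2185103097) (nat_lit 304) (nat_lit 6749756989) (nat_lit 304) (nat_lit 974956023) (nat_lit 56) (nat_lit 4) (nat_lit 60) (nat_lit 5) (nat_lit 60) (nat_lit 4) (nat_lit 270) (nat_lit 227) (nat_lit 223)) (XT.lf (nat_lit 0) (nat_lit 949183667) (nat_lit 228) (nat_lit 2991705856) (nat_lit 304) (nat_lit 6253242022) (nat_lit 52) (nat_lit 5) (nat_lit 55) (nat_lit 5) (nat_lit 56) (nat_lit 4) (nat_lit 271) (nat_lit 227) (nat_lit 222))))) (XT.nd (nat_lit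 234) (nat_lit 532) (nat_lit 0) (XT.nd (nat_lit 78) (nat_lit 608) (nat_lit 0) (XT.lf (nat_lit 0) (nat_lit 8977001952) (nat_lit 304) (nat_lit 567311458) (nat_lit 0) (nat_lit 951681314) (nat_lit 52) (nat_lit 5) (nat_lit 56) (nat_lit 4) (nat_lit 52) (nat_lit 4) (nat_lit 272) (nat_lit 227) (nat_lit 221)) (XT.nd (nat_lit 78) (nat_lit 228) (nat_lit 0) (XT.lf (nat_lit 0) (nat_lit 3308792869) (nat_lit 380) (nat_lit 2432149513) (nat_lit 76) (nat_lit 5073713668) (nat_lit 47) (nat_lit 5) (nat_lit 52) (nat_lit 5) (nat_lit 48) (nat_lit 4) (nat_lit 273) (nat_lit 227) (nat_lit 220)) (XT.lf (nat_lit 0) (nat_lit 6495133314) (nat_lit 228) (nat_lit 1738513118) (nat_lit 304) (nat_lit 2918945718) (nat_lit 44) (nat_lit 5) (nat_lit 47) (nat_lit 5) (nat_lit 48) (nat_lit 4) (nat_lit 274) (nat_lit 227) (nat_lit 219)))) (XT.nd (nat_lit 78) (nat_lit 228) (nat_lit 0) (XT.lf (nat_lit 0) (nat_lit 1772510481) (nat_lit 304)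 (nat_lit 7312850691) (nat_lit 76) (nat_lit 2424525377) (nat_lit 40) (nat_lit 5) (nat_lit 44) (nat_lit 5) (nat_lit 41) (nat_lit 4) (nat_lit 275) (nat_lit 227) (nat_lit 218)) (XT.nd (nat_lit 78) (nat_lit 0) (nat_lit 0) (XT.lf (nat_lit 0) (nat_lit 1435762191) (nat_lit 228) (nat_lit 5110648008) (nat_lit 304) (nat_lit 5340878555) (nat_lit 37) (nat_lit 5) (nat_lit 40) (nat_lit 5) (nat_lit 41) (nat_lit 4) (nat_lit 276) (nat_lit 227) (nat_lit 217)) (XT.lf (nat_lit 0) (nat_lit 10529121427) (nat_lit 228) (nat_lit 938907699) (nat_lit 304) (nat_lit 818601472) (nat_lit 37) (nat_lit 5) (nat_lit 40) (nat_lit 5) (nat_lit 41) (nat_lit 4) (nat_lit 277) (nat_lit 227) (nat_lit 216))))))))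
noncomputable def xc26 : XT := (XT.nd (nat_lit 1560) (nat_lit 532) (nat_lit 0) (XT.nd (nat_lit 780) (nat_lit 608) (nat_lit 0) (XT.nd (nat_lit 390) (nat_lit 380) (nat_lit 0) (XT.nd (nat_lit 156) (nat_lit 456) (nat_lit 0) (XT.nd (nat_lit 78) (nat_lit 152) (nat_lit 0) (XT.lf (nat_lit 0) (nat_lit 3795854082) (nat_lit 304) (nat_lit 5503897276) (nat_lit 76) (nat_lit 3407087055) (nat_lit 33) (nat_lit 5) (nat_lit 37) (nat_lit 5) (nat_lit 34) (nat_lit 4) (nat_lit 278) (nat_lit 227) (nat_lit 215)) (XT.lf (nat_lit 0) (nat_lit 3312622099) (nat_lit 152) (nat_lit 5215691006) (nat_lit 228) (nat_lit 4622673679) (nat_lit 31) (nat_lit 5) (nat_lit 33) (nat_lit 5) (nat_lit 34) (nat_lit 4) (nat_lit 279) (nat_lit 227) (nat_lit 214))) (XT.nd (nat_lit 78) (nat_lit 456) (nat_lit 0) (XT.lf (nat_lit 0) (nat_lit 12456983266) (nat_lit 152) (nat_lit 946746995) (nat_lit 228) (nat_lit 216707621) (nat_lit 31) (nat_lit 5)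 (nat_lit 33) (nat_lit 5) (nat_lit 34) (nat_lit 4) (nat_lit 280) (nat_lit 227) (nat_lit 213)) (XT.nd (nat_lit 78) (nat_lit 152) (nat_lit 0) (XT.lf (nat_lit 0) (nat_lit 4288407966) (nat_lit 304) (nat_lit 6313444710) (nat_lit 76) (nat_lit 3511554171) (nat_lit 27) (nat_lit 5) (nat_lit 31) (nat_lit 5) (nat_lit 28) (nat_lit 4) (nat_lit 281) (nat_lit 227) (nat_lit 212)) (XT.lf (nat_lit 0) (nat_lit 2422900533) (nat_lit 152) (nat_lit 6495661449) (nat_lit 228) (nat_lit 5715521270) (nat_lit 25) (nat_lit 5) (nat_lit 27) (nat_lit 5) (nat_lit 28) (nat_lit 4) (nat_lit 282) (nat_lit 227) (nat_lit 211))))) (XT.nd (nat_lit 156) (nat_lit 152) (nat_lit 0) (XT.nd (nat_lit 78) (nat_lit 228) (nat_lit 0) (XT.lf (nat_lit 0) (nat_lit 11516521296) (nat_lit 152) (nat_lit 2192643178) (nat_lit 228) (nat_lit 1474000109) (nat_lit 25) (nat_lit 5) (nat_lit 27) (nat_lit 5) (nat_lit 28) (nat_lit 4) (nat_lit 283) (nat_lit 227)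 (nat_lit 210)) (XT.lf (nat_lit 0) (nat_lit 2862531107) (nat_lit 228) (nat_lit 10610734540) (nat_lit 76) (nat_lit 2287564076) (nat_lit 22) (nat_lit 5) (nat_lit 25) (nat_lit 5) (nat_lit 23) (nat_lit 4) (nat_lit 284) (nat_lit 227) (nat_lit 209))) (XT.nd (nat_lit 78) (nat_lit 152) (nat_lit 0) (XT.lf (nat_lit 0) (nat_lit 7318505052) (nat_lit 228) (nat_lit 2121039267) (nat_lit 76) (nat_lit 6929613711) (nat_lit 22) (nat_lit 5) (nat_lit 25) (nat_lit 5) (nat_lit 23) (nat_lit 4) (nat_lit 285) (nat_lit 227) (nat_lit 208)) (XT.nd (nat_lit 78) (nat_lit 0) (nat_lit 0) (XT.lf (nat_lit 0) (nat_lit 6732415295) (nat_lit 152) (nat_lit 5208214611) (nat_lit 228) (nat_lit 5069173000) (nat_lit 20) (nat_lit 5) (nat_lit 22) (nat_lit 5) (nat_lit 23) (nat_lit 4) (nat_lit 286) (nat_lit 227) (nat_lit 207)) (XT.lf (nat_lit 0) (nat_lit 15886273407) (nat_lit 152) (nat_lit 812043532) (nat_lit 228) (nat_lit 987220571) (nat_lit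 20) (nat_lit 5) (nat_lit 22) (nat_lit 5) (nat_lit 23) (nat_lit 4) (nat_lit 287) (nat_lit 227) (nat_lit 206)))))) (XT.nd (nat_lit 390) (nat_lit 152) (nat_lit 0) (XT.nd (nat_lit 156) (nat_lit 228) (nat_lit 0) (XT.nd (nat_lit 78) (nat_lit 0) (nat_lit 0) (XT.lf (nat_lit 0) (nat_lit 3225845296) (nat_lit 228) (nat_lit 11404490165) (nat_lit 76) (nat_lit 3764207190) (nat_lit 17) (nat_lit 5) (nat_lit 20) (nat_lit 5) (nat_lit 18) (nat_lit 4) (nat_lit 288) (nat_lit 227) (nat_lit 205)) (XT.lf (nat_lit 0) (nat_lit 7546236190) (nat_lit 228) (nat_lit 3078141794) (nat_lit 76) (nat_lit 8516982502) (nat_lit 17) (nat_lit 5) (nat_lit 20) (nat_lit 5) (nat_lit 18) (nat_lit 4) (nat_lit 289) (nat_lit 227) (nat_lit 204))) (XT.nd (nat_lit 78) (nat_lit 152) (nat_lit 0) (XT.lf (nat_lit 0) (nat_lit 5604565600) (nat_lit 76) (nat_lit 6427191541) (nat_lit 152) (nat_lit 7895449080) (nat_lit 16) (nat_lit 5) (nat_lit 17)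 (nat_lit 5) (nat_lit 18) (nat_lit 4) (nat_lit 290) (nat_lit 227) (nat_lit 203)) (XT.nd (nat_lit 78) (nat_lit 152) (nat_lit 0) (XT.lf (nat_lit 0) (nat_lit 14621262448) (nat_lit 76) (nat_lit 2050622222) (nat_lit 152) (nat_lit 4082702345) (nat_lit 16) (nat_lit 5) (nat_lit 17) (nat_lit 5) (nat_lit 18) (nat_lit 4) (nat_lit 291) (nat_lit 227) (nat_lit 202)) (XT.lf (nat_lit 0) (nat_lit 2327307875) (nat_lit 152) (nat_lit 19166436609) (nat_lit 152) (nat_lit 131246004) (nat_lit 14) (nat_lit 4) (nat_lit 16) (nat_lit 5) (nat_lit 16) (nat_lit 4) (nat_lit 292) (nat_lit 227) (nat_lit 201))))) (XT.nd (nat_lit 156) (nat_lit 76) (nat_lit 0) (XT.nd (nat_lit 78) (nat_lit 0) (nat_lit 0) (XT.lf (nat_lit 0) (nat_lit 3928806358) (nat_lit 228) (nat_lit 11414390432) (nat_lit 76) (nat_lit 7195010423) (nat_lit 13) (nat_lit 5) (nat_lit 16) (nat_lit 5) (nat_lit 14) (nat_lit 4) (nat_lit 293) (nat_lit 227) (nat_lit 200))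 (XT.lf (nat_lit 0) (nat_lit 8098662598) (nat_lit 228) (nat_lit 3287369635) (nat_lit 76) (nat_lit 12113856147) (nat_lit 13) (nat_lit 5) (nat_lit 16) (nat_lit 5) (nat_lit 14) (nat_lit 4) (nat_lit 294) (nat_lit 227) (nat_lit 199))) (XT.nd (nat_lit 78) (nat_lit 0) (nat_lit 0) (XT.lf (nat_lit 0) (nat_lit 5205570882) (nat_lit 76) (nat_lit 7235280273) (nat_lit 152) (nat_lit 12070009222) (nat_lit 12) (nat_lit 5) (nat_lit 13) (nat_lit 5) (nat_lit 14) (nat_lit 4) (nat_lit 295) (nat_lit 227) (nat_lit 198)) (XT.nd (nat_lit 78) (nat_lit 0) (nat_lit 0) (XT.lf (nat_lit 0) (nat_lit 14053914735) (nat_lit 76) (nat_lit 2896654131) (nat_lit 152) (nat_lit 8623415667) (nat_lit 12) (nat_lit 5) (nat_lit 13) (nat_lit 5) (nat_lit 14) (nat_lit 4) (nat_lit 296) (nat_lit 227) (nat_lit 197)) (XT.lf (nat_lit 0) (nat_lit 21621771317) (nat_lit 152) (nat_lit 3494901940) (nat_lit 0) (nat_lit 1575622294) (nat_lit 12) (nat_lit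 5) (nat_lit 14) (nat_lit 4) (nat_lit 12) (nat_lit 4) (nat_lit 297) (nat_lit 227) (nat_lit 196))))))) (XT.nd (nat_lit 780) (nat_lit 152) (nat_lit 0) (XT.nd (nat_lit 390) (nat_lit 76) (nat_lit 0) (XT.nd (nat_lit 156) (nat_lit 76) (nat_lit 0) (XT.nd (nat_lit 78) (nat_lit 76) (nat_lit 0) (XT.lf (nat_lit 0) (nat_lit 4870309307) (nat_lit 152) (nat_lit 21656137092) (nat_lit 152) (nat_lit 1340183697) (nat_lit 10) (nat_lit 4) (nat_lit 12) (nat_lit 5) (nat_lit 12) (nat_lit 4) (nat_lit 298) (nat_lit 227) (nat_lit 195)) (XT.lf (nat_lit 0) (nat_lit 2488198001) (nat_lit 228) (nat_lit 15521867997) (nat_lit 76) (nat_lit 11090115598) (nat_lit 9) (nat_lit 5) (nat_lit 12) (nat_lit 5) (nat_lit 10) (nat_lit 4) (nat_lit 299) (nat_lit 227) (nat_lit 194))) (XT.nd (nat_lit 78) (nat_lit 76) (nat_lit 0) (XT.lf (nat_lit 0) (nat_lit 6409559557) (nat_lit 228) (nat_lit 7806224557) (nat_lit 76) (nat_lit 16181442921) (nat_lit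 9) (nat_lit 5) (nat_lit 12) (nat_lit 5) (nat_lit 10) (nat_lit 4) (nat_lit 300) (nat_lit 227) (nat_lit 193)) (XT.nd (nat_lit 78) (nat_lit 0) (nat_lit 0) (XT.lf (nat_lit 0) (nat_lit 185482202) (nat_lit 76) (nat_lit 10275690123) (nat_lit 152) (nat_lit 21300015283) (nat_lit 8) (nat_lit 5) (nat_lit 9) (nat_lit 5) (nat_lit 10) (nat_lit 4) (nat_lit 301) (nat_lit 227) (nat_lit 192)) (XT.lf (nat_lit 0) (nat_lit 8629811974) (nat_lit 76) (nat_lit 6100472912) (nat_lit 152) (nat_lit 18462697900) (nat_lit 8) (nat_lit 5) (nat_lit 9) (nat_lit 5) (nat_lit 10) (nat_lit 4) (nat_lit 302) (nat_lit 227) (nat_lit 191))))) (XT.nd (nat_lit 156) (nat_lit 76) (nat_lit 0) (XT.nd (nat_lit 78) (nat_lit 0) (nat_lit 0) (XT.lf (nat_lit 0) (nat_lit 17391511129) (nat_lit 76) (nat_lit 1759019047) (nat_lit 152) (nat_lit 15547787373) (nat_lit 8) (nat_lit 5) (nat_lit 9) (nat_lit 5) (nat_lit 10) (nat_lit 4) (nat_lit 303) (nat_lit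 227) (nat_lit 190)) (XT.lf (nat_lit 0) (nat_lit 23758953869) (nat_lit 152) (nat_lit 9815856450) (nat_lit 0) (nat_lit 2705170075) (nat_lit 8) (nat_lit 5) (nat_lit 10) (nat_lit 4) (nat_lit 8) (nat_lit 4) (nat_lit 304) (nat_lit 227) (nat_lit 189))) (XT.nd (nat_lit 78) (nat_lit 76) (nat_lit 0) (XT.lf (nat_lit 0) (nat_lit 28558653481) (nat_lit 152) (nat_lit 2064610388) (nat_lit 0) (nat_lit 7318709561) (nat_lit 8) (nat_lit 5) (nat_lit 10) (nat_lit 4) (nat_lit 8) (nat_lit 4) (nat_lit 305) (nat_lit 227) (nat_lit 188)) (XT.nd (nat_lit 78) (nat_lit 0) (nat_lit 0) (XT.lf (nat_lit 0) (nat_lit 6101355298) (nat_lit 76) (nat_lit 27501442764) (nat_lit 76) (nat_lit 6084203485) (nat_lit 7) (nat_lit 4) (nat_lit 8) (nat_lit 5) (nat_lit 8) (nat_lit 4) (nat_lit 306) (nat_lit 227) (nat_lit 187)) (XT.lf (nat_lit 0) (nat_lit 14629495812) (nat_lit 76) (nat_lit 24238439810) (nat_lit 76) (nat_lit 2652347809) (nat_lit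 7) (nat_lit 4) (nat_lit 8) (nat_lit 5) (nat_lit 8) (nat_lit 4) (nat_lit 307) (nat_lit 227) (nat_lit 186)))))) (XT.nd (nat_lit 390) (nat_lit 0) (nat_lit 0) (XT.nd (nat_lit 156) (nat_lit 76) (nat_lit 0) (XT.nd (nat_lit 78) (nat_lit 0) (nat_lit 0) (XT.lf (nat_lit 0) (nat_lit 882015803) (nat_lit 152) (nat_lit 19956412035) (nat_lit 76) (nat_lit 22608104021) (nat_lit 6) (nat_lit 5) (nat_lit 8) (nat_lit 5) (nat_lit 7) (nat_lit 4) (nat_lit 308) (nat_lit 227) (nat_lit 185)) (XT.lf (nat_lit 0) (nat_lit 4490633422) (nat_lit 152) (nat_lit 12784072667) (nat_lit 76) (nat_lit 28195085143) (nat_lit 6) (nat_lit 5) (nat_lit 8) (nat_lit 5) (nat_lit 7) (nat_lit 4) (nat_lit 309) (nat_lit 227) (nat_lit 184))) (XT.nd (nat_lit 78) (nat_lit 76) (nat_lit 0) (XT.lf (nat_lit 0) (nat_lit 8233853850) (nat_lit 152) (nat_lit 5331196526) (nat_lit 76) (nat_lit 34030593334) (nat_lit 6) (nat_lit 5) (nat_lit 8) (nat_lit 5)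 (nat_lit 7) (nat_lit 4) (nat_lit 310) (nat_lit 227) (nat_lit 183)) (XT.nd (nat_lit 78) (nat_lit 0) (nat_lit 0) (XT.lf (nat_lit 0) (nat_lit 2468123304) (nat_lit 76) (nat_lit 9676191326) (nat_lit 152) (nat_lit 37684124467) (nat_lit 5) (nat_lit 5) (nat_lit 6) (nat_lit 5) (nat_lit 7) (nat_lit 4) (nat_lit 311) (nat_lit 227) (nat_lit 182)) (XT.lf (nat_lit 0) (nat_lit 10696584936) (nat_lit 76) (nat_lit 5566331742) (nat_lit 152) (nat_lit 35909629183) (nat_lit 5) (nat_lit 5) (nat_lit 6) (nat_lit 5) (nat_lit 7) (nat_lit 4) (nat_lit 312) (nat_lit 227) (nat_lit 181))))) (XT.nd (nat_lit 234) (nat_lit 0) (nat_lit 0) (XT.nd (nat_lit 78) (nat_lit 0) (nat_lit 0) (XT.lf (nat_lit 0) (nat_lit 19267678682) (nat_lit 76) (nat_lit 1279520877) (nat_lit 152) (nat_lit 34087913651) (nat_lit 5) (nat_lit 5) (nat_lit 6) (nat_lit 5) (nat_lit 7) (nat_lit 4) (nat_lit 313) (nat_lit 227) (nat_lit 180)) (XT.nd (nat_lit 78)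 (nat_lit 0) (nat_lit 0) (XT.lf (nat_lit 0) (nat_lit 25038070932) (nat_lit 152) (nat_lit 29050899480) (nat_lit 0) (nat_lit 3132112775) (nat_lit 5) (nat_lit 5) (nat_lit 7) (nat_lit 4) (nat_lit 5) (nat_lit 4) (nat_lit 314) (nat_lit 227) (nat_lit 179)) (XT.lf (nat_lit 0) (nat_lit 29729644260) (nat_lit 152) (nat_lit 22494737321) (nat_lit 0) (nat_lit 7712728658) (nat_lit 5) (nat_lit 5) (nat_lit 7) (nat_lit 4) (nat_lit 5) (nat_lit 4) (nat_lit 315) (nat_lit 227) (nat_lit 178)))) (XT.nd (nat_lit 78) (nat_lit 0) (nat_lit 0) (XT.lf (nat_lit 0) (nat_lit 34620790418) (nat_lit 152) (nat_lit 15671038605) (nat_lit 0) (nat_lit 12498201058) (nat_lit 5) (nat_lit 5) (nat_lit 7) (nat_lit 4) (nat_lit 5) (nat_lit 4) (nat_lit 316) (nat_lit 227) (nat_lit 177)) (XT.nd (nat_lit 78) (nat_lit 0) (nat_lit 0) (XT.lf (nat_lit 0) (nat_lit 39723154992) (nat_lit 152) (nat_lit 8563556431) (nat_lit 0) (nat_lit 17499923958)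 (nat_lit 5) (nat_lit 5) (nat_lit 7) (nat_lit 4) (nat_lit 5) (nat_lit 4) (nat_lit 317) (nat_lit 227) (nat_lit 176)) (XT.lf (nat_lit 0) (nat_lit 45048886469) (nat_lit 152) (nat_lit 1155368220) (nat_lit 0) (nat_lit 22729806221) (nat_lit 5) (nat_lit 5) (nat_lit 7) (nat_lit 4) (nat_lit 5) (nat_lit 4) (nat_lit 318) (nat_lit 227) (nat_lit 175))))))))
noncomputable def xc27 : XT := (XT.nd (nat_lit 33930) (nat_lit 0) (nat_lit 760) (XT.nd (nat_lit 780) (nat_lit 0) (nat_lit 0) (XT.nd (nat_lit 390) (nat_lit 76) (nat_lit 0) (XT.nd (nat_lit 156) (nat_lit 0) (nat_lit 0) (XT.nd (nat_lit 78) (nat_lit 0) (nat_lit 0) (XT.lf (nat_lit 0) (nat_lit 6701943627) (nat_lit 76) (nat_lit 43973144716) (nat_lit 76) (nat_lit 21562779504) (nat_lit 4) (nat_lit 4) (nat_lit 5) (nat_lit 5) (nat_lit 5) (nat_lit 4) (nat_lit 319) (nat_lit 227) (nat_lit 174)) (XT.lf (nat_lit 0) (nat_lit 14925692463) (nat_lit 76) (nat_lit 41639515825)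 (nat_lit 76) (nat_lit 19142212551) (nat_lit 4) (nat_lit 4) (nat_lit 5) (nat_lit 5) (nat_lit 5) (nat_lit 4) (nat_lit 320) (nat_lit 227) (nat_lit 173))) (XT.nd (nat_lit 78) (nat_lit 0) (nat_lit 0) (XT.lf (nat_lit 0) (nat_lit 23512464546) (nat_lit 76) (nat_lit 39209478711) (nat_lit 76) (nat_lit 16629377283) (nat_lit 4) (nat_lit 4) (nat_lit 5) (nat_lit 5) (nat_lit 5) (nat_lit 4) (nat_lit 321) (nat_lit 227) (nat_lit 172)) (XT.nd (nat_lit 78) (nat_lit 0) (nat_lit 0) (XT.lf (nat_lit 0) (nat_lit 32482704572) (nat_lit 76) (nat_lit 36677247572) (nat_lit 76) (nat_lit 14018290759) (nat_lit 4) (nat_lit 4) (nat_lit 5) (nat_lit 5) (nat_lit 5) (nat_lit 4) (nat_lit 322) (nat_lit 227) (nat_lit 171)) (XT.lf (nat_lit 0) (nat_lit 41857770255) (nat_lit 76) (nat_lit 34036793285) (nat_lit 76) (nat_lit 11302736105) (nat_lit 4) (nat_lit 4) (nat_lit 5) (nat_lit 5) (nat_lit 5) (nat_lit 4) (nat_lit 323) (nat_lit 227)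 (nat_lit 170))))) (XT.nd (nat_lit 156) (nat_lit 76) (nat_lit 0) (XT.nd (nat_lit 78) (nat_lit 0) (nat_lit 0) (XT.lf (nat_lit 0) (nat_lit 51659983181) (nat_lit 76) (nat_lit 31281829055) (nat_lit 76) (nat_lit 8476247717) (nat_lit 4) (nat_lit 4) (nat_lit 5) (nat_lit 5) (nat_lit 5) (nat_lit 4) (nat_lit 324) (nat_lit 227) (nat_lit 169)) (XT.lf (nat_lit 0) (nat_lit 61912681952) (nat_lit 76) (nat_lit 28405795443) (nat_lit 76) (nat_lit 5532095858) (nat_lit 4) (nat_lit 4) (nat_lit 5) (nat_lit 5) (nat_lit 5) (nat_lit 4) (nat_lit 325) (nat_lit 227) (nat_lit 168))) (XT.nd (nat_lit 78) (nat_lit 76) (nat_lit 0) (XT.lf (nat_lit 0) (nat_lit 72640277755) (nat_lit 76) (nat_lit 25401844750) (nat_lit 76) (nat_lit 2463270645) (nat_lit 4) (nat_lit 4) (nat_lit 5) (nat_lit 5) (nat_lit 5) (nat_lit 4) (nat_lit 326) (nat_lit 227) (nat_lit 167)) (XT.nd (nat_lit 78) (nat_lit 0) (nat_lit 0) (XT.lf (nat_lit 0) (nat_lit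 723142692) (nat_lit 152) (nat_lit 21532379696) (nat_lit 76) (nat_lit 83137867469) (nat_lit 3) (nat_lit 5) (nat_lit 5) (nat_lit 5) (nat_lit 4) (nat_lit 4) (nat_lit 327) (nat_lit 227) (nat_lit 166)) (XT.lf (nat_lit 0) (nat_lit 3998365675) (nat_lit 152) (nat_lit 14942520144) (nat_lit 76) (nat_lit 91584778230) (nat_lit 3) (nat_lit 5) (nat_lit 5) (nat_lit 5) (nat_lit 4) (nat_lit 4) (nat_lit 328) (nat_lit 227) (nat_lit 165)))))) (XT.nd (nat_lit 32682) (nat_lit 0) (nat_lit 3724) (XT.nd (nat_lit 32448) (nat_lit 0) (nat_lit 5396) (XT.nd (nat_lit 78) (nat_lit 0) (nat_lit 0) (XT.lf (nat_lit 0) (nat_lit 7418263735) (nat_lit 152) (nat_lit 8056168132) (nat_lit 76) (nat_lit 100440713910) (nat_lit 3) (nat_lit 5) (nat_lit 5) (nat_lit 5) (nat_lit 4) (nat_lit 4) (nat_lit 329) (nat_lit 227) (nat_lit 164)) (XT.lf (nat_lit 0) (nat_lit 10990979486) (nat_lit 152) (nat_lit 856927584) (nat_lit 76) (nat_lit 109726760070)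 (nat_lit 3) (nat_lit 5) (nat_lit 5) (nat_lit 5) (nat_lit 4) (nat_lit 4) (nat_lit 330) (nat_lit 227) (nat_lit 163))) (XT.nd (nat_lit 78) (nat_lit 836) (nat_lit 0) (XT.lf (nat_lit 0) (nat_lit 2456870582) (nat_lit 380) (nat_lit 902131764) (nat_lit 380) (nat_lit 902131764) (nat_lit 85) (nat_lit 4) (nat_lit 90) (nat_lit 5) (nat_lit 90) (nat_lit 4) (nat_lit 264) (nat_lit 228) (nat_lit 228)) (XT.nd (nat_lit 78) (nat_lit 380) (nat_lit 0) (XT.lf (nat_lit 0) (nat_lit 3251380900) (nat_lit 456) (nat_lit 3945813447) (nat_lit 0) (nat_lit 1523639259) (nat_lit 79) (nat_lit 5) (nat_lit 85) (nat_lit 4) (nat_lit 79) (nat_lit 4) (nat_lit 265) (nat_lit 228) (nat_lit 227)) (XT.lf (nat_lit 0) (nat_lit 4497822341) (nat_lit 380) (nat_lit 3904217484) (nat_lit 380) (nat_lit 531007613) (nat_lit 74) (nat_lit 4) (nat_lit 79) (nat_lit 5) (nat_lit 79) (nat_lit 4) (nat_lit 266) (nat_lit 228) (nat_lit 226))))) (XT.nd (nat_lit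 234) (nat_lit 608) (nat_lit 0) (XT.nd (nat_lit 78) (nat_lit 684) (nat_lit 0) (XT.lf (nat_lit 0) (nat_lit 4050346932) (nat_lit 304) (nat_lit 378554251) (nat_lit 380) (nat_lit 4730261716) (nat_lit 69) (nat_lit 5) (nat_lit 73) (nat_lit 5) (nat_lit 74) (nat_lit 4) (nat_lit 267) (nat_lit 228) (nat_lit 225)) (XT.nd (nat_lit 78) (nat_lit 304) (nat_lit 0) (XT.lf (nat_lit 0) (nat_lit 126859239) (nat_lit 380) (nat_lit 5987922988) (nat_lit 76) (nat_lit 3285069197) (nat_lit 64) (nat_lit 5) (nat_lit 69) (nat_lit 5) (nat_lit 65) (nat_lit 4) (nat_lit 268) (nat_lit 228) (nat_lit 224)) (XT.lf (nat_lit 0) (nat_lit 2541964487) (nat_lit 304) (nat_lit 2466621006) (nat_lit 380) (nat_lit 4646719672) (nat_lit 60) (nat_lit 5) (nat_lit 64) (nat_lit 5) (nat_lit 65) (nat_lit 4) (nat_lit 269) (nat_lit 228) (nat_lit 223)))) (XT.nd (nat_lit 78) (nat_lit 228) (nat_lit 0) (XT.lf (nat_lit 0) (nat_lit 98279902) (nat_lit 380)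 (nat_lit 8479876067) (nat_lit 76) (nat_lit 1349052712) (nat_lit 55) (nat_lit 5) (nat_lit 60) (nat_lit 5) (nat_lit 56) (nat_lit 4) (nat_lit 270) (nat_lit 228) (nat_lit 222)) (XT.nd (nat_lit 78) (nat_lit 0) (nat_lit 0) (XT.lf (nat_lit 0) (nat_lit 37789448) (nat_lit 228) (nat_lit 4855034152) (nat_lit 304) (nat_lit 5321712406) (nat_lit 52) (nat_lit 5) (nat_lit 55) (nat_lit 5) (nat_lit 56) (nat_lit 4) (nat_lit 271) (nat_lit 228) (nat_lit 221)) (XT.lf (nat_lit 0) (nat_lit 8901524357) (nat_lit 228) (nat_lit 927813362) (nat_lit 304) (nat_lit 690263449) (nat_lit 52) (nat_lit 5) (nat_lit 55) (nat_lit 5) (nat_lit 56) (nat_lit 4) (nat_lit 272) (nat_lit 228) (nat_lit 220))))))) (XT.nd (nat_lit 780) (nat_lit 1064) (nat_lit 0) (XT.nd (nat_lit 390) (nat_lit 760) (nat_lit 0) (XT.nd (nat_lit 156) (nat_lit 532) (nat_lit 0) (XT.nd (nat_lit 78) (nat_lit 228) (nat_lit 0) (XT.lf (nat_lit 0) (nat_lit 4013476529)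 (nat_lit 380) (nat_lit 3652939943) (nat_lit 76) (nat_lit 3175041165) (nat_lit 47) (nat_lit 5) (nat_lit 52) (nat_lit 5) (nat_lit 48) (nat_lit 4) (nat_lit 273) (nat_lit 228) (nat_lit 219)) (XT.lf (nat_lit 0) (nat_lit 5127413998) (nat_lit 228) (nat_lit 3713433651) (nat_lit 304) (nat_lit 2341659041) (nat_lit 44) (nat_lit 5) (nat_lit 47) (nat_lit 5) (nat_lit 48) (nat_lit 4) (nat_lit 274) (nat_lit 228) (nat_lit 218))) (XT.nd (nat_lit 78) (nat_lit 228) (nat_lit 0) (XT.lf (nat_lit 0) (nat_lit 2221763783) (nat_lit 304) (nat_lit 8878346104) (nat_lit 76) (nat_lit 443202056) (nat_lit 40) (nat_lit 5) (nat_lit 44) (nat_lit 5) (nat_lit 41) (nat_lit 4) (nat_lit 275) (nat_lit 228) (nat_lit 217)) (XT.nd (nat_lit 78) (nat_lit 228) (nat_lit 0) (XT.lf (nat_lit 0) (nat_lit 6901913192) (nat_lit 304) (nat_lit 275169989) (nat_lit 76) (nat_lit 4746609454) (nat_lit 40) (nat_lit 5) (nat_lit 44) (nat_lit 5) (nat_lit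 41) (nat_lit 4) (nat_lit 276) (nat_lit 228) (nat_lit 216)) (XT.lf (nat_lit 0) (nat_lit 8698658763) (nat_lit 228) (nat_lit 3044937458) (nat_lit 304) (nat_lit 581994409) (nat_lit 37) (nat_lit 5) (nat_lit 40) (nat_lit 5) (nat_lit 41) (nat_lit 4) (nat_lit 277) (nat_lit 228) (nat_lit 215))))) (XT.nd (nat_lit 156) (nat_lit 304) (nat_lit 0) (XT.nd (nat_lit 78) (nat_lit 152) (nat_lit 0) (XT.lf (nat_lit 0) (nat_lit 3913218575) (nat_lit 304) (nat_lit 7546384915) (nat_lit 76) (nat_lit 1289711651) (nat_lit 33) (nat_lit 5) (nat_lit 37) (nat_lit 5) (nat_lit 34) (nat_lit 4) (nat_lit 278) (nat_lit 228) (nat_lit 214)) (XT.lf (nat_lit 0) (nat_lit 1118265710) (nat_lit 152) (nat_lit 7434059408) (nat_lit 228) (nat_lit 4644078169) (nat_lit 31) (nat_lit 5) (nat_lit 33) (nat_lit 5) (nat_lit 34) (nat_lit 4) (nat_lit 279) (nat_lit 228) (nat_lit 213))) (XT.nd (nat_lit 78) (nat_lit 304) (nat_lit 0) (XT.lf (nat_lit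 0) (nat_lit 10156703791) (nat_lit 152) (nat_lit 3201202207) (nat_lit 228) (nat_lit 310176050) (nat_lit 31) (nat_lit 5) (nat_lit 33) (nat_lit 5) (nat_lit 34) (nat_lit 4) (nat_lit 280) (nat_lit 228) (nat_lit 212)) (XT.nd (nat_lit 78) (nat_lit 0) (nat_lit 0) (XT.lf (nat_lit 0) (nat_lit 4083202234) (nat_lit 304) (nat_lit 8839836180) (nat_lit 76) (nat_lit 1241568973) (nat_lit 27) (nat_lit 5) (nat_lit 31) (nat_lit 5) (nat_lit 28) (nat_lit 4) (nat_lit 281) (nat_lit 228) (nat_lit 211)) (XT.lf (nat_lit 0) (nat_lit 8624691337) (nat_lit 304) (nat_lit 251915597) (nat_lit 76) (nat_lit 5811453552) (nat_lit 27) (nat_lit 5) (nat_lit 31) (nat_lit 5) (nat_lit 28) (nat_lit 4) (nat_lit 282) (nat_lit 228) (nat_lit 210)))))) (XT.nd (nat_lit 390) (nat_lit 532) (nat_lit 0) (XT.nd (nat_lit 156) (nat_lit 152) (nat_lit 0) (XT.nd (nat_lit 78) (nat_lit 228) (nat_lit 0) (XT.lf (nat_lit 0) (nat_lit 8738445712) (nat_lit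 152) (nat_lit 4611172516) (nat_lit 228) (nat_lit 1889605042) (nat_lit 25) (nat_lit 5) (nat_lit 27) (nat_lit 5) (nat_lit 28) (nat_lit 4) (nat_lit 283) (nat_lit 228) (nat_lit 209)) (XT.lf (nat_lit 0) (nat_lit 2189959990) (nat_lit 152) (nat_lit 153076490) (nat_lit 228) (nat_lit 13477434578) (nat_lit 22) (nat_lit 5) (nat_lit 24) (nat_lit 5) (nat_lit 25) (nat_lit 5) (nat_lit 284) (nat_lit 228) (nat_lit 208))) (XT.nd (nat_lit 78) (nat_lit 152) (nat_lit 0) (XT.lf (nat_lit 0) (nat_lit 6738337067) (nat_lit 228) (nat_lit 5233051230) (nat_lit 76) (nat_lit 4459329180) (nat_lit 22) (nat_lit 5) (nat_lit 25) (nat_lit 5) (nat_lit 23) (nat_lit 4) (nat_lit 285) (nat_lit 228) (nat_lit 207)) (XT.nd (nat_lit 78) (nat_lit 0) (nat_lit 0) (XT.lf (nat_lit 0) (nat_lit 3467447381) (nat_lit 152) (nat_lit 7805246915) (nat_lit 228) (nat_lit 5801394336) (nat_lit 20) (nat_lit 5) (nat_lit 22) (nat_lit 5) (nat_lit 23) (nat_lit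 4) (nat_lit 286) (nat_lit 228) (nat_lit 206)) (XT.lf (nat_lit 0) (nat_lit 12534619007) (nat_lit 152) (nat_lit 3441231175) (nat_lit 228) (nat_lit 1775697796) (nat_lit 20) (nat_lit 5) (nat_lit 22) (nat_lit 5) (nat_lit 23) (nat_lit 4) (nat_lit 287) (nat_lit 228) (nat_lit 205))))) (XT.nd (nat_lit 234) (nat_lit 228) (nat_lit 0) (XT.nd (nat_lit 78) (nat_lit 76) (nat_lit 0) (XT.lf (nat_lit 0) (nat_lit 2339982866) (nat_lit 228) (nat_lit 15010731249) (nat_lit 76) (nat_lit 1113531639) (nat_lit 17) (nat_lit 5) (nat_lit 20) (nat_lit 5) (nat_lit 18) (nat_lit 4) (nat_lit 288) (nat_lit 228) (nat_lit 204)) (XT.nd (nat_lit 78) (nat_lit 76) (nat_lit 0) (XT.lf (nat_lit 0) (nat_lit 6609269369) (nat_lit 228) (nat_lit 6766979784) (nat_lit 76) (nat_lit 5836425775) (nat_lit 17) (nat_lit 5) (nat_lit 20) (nat_lit 5) (nat_lit 18) (nat_lit 4) (nat_lit 289) (nat_lit 228) (nat_lit 203)) (XT.lf (nat_lit 0) (nat_lit 1762083220)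 (nat_lit 76) (nat_lit 9247099961) (nat_lit 152) (nat_lit 8991980177) (nat_lit 16) (nat_lit 5) (nat_lit 17) (nat_lit 5) (nat_lit 18) (nat_lit 4) (nat_lit 290) (nat_lit 228) (nat_lit 202)))) (XT.nd (nat_lit 78) (nat_lit 228) (nat_lit 0) (XT.lf (nat_lit 0) (nat_lit 10702371228) (nat_lit 76) (nat_lit 4899851805) (nat_lit 152) (nat_lit 5227804685) (nat_lit 16) (nat_lit 5) (nat_lit 17) (nat_lit 5) (nat_lit 18) (nat_lit 4) (nat_lit 291) (nat_lit 228) (nat_lit 201)) (XT.nd (nat_lit 78) (nat_lit 228) (nat_lit 0) (XT.lf (nat_lit 0) (nat_lit 19940494473) (nat_lit 76) (nat_lit 392487320) (nat_lit 152) (nat_lit 1370249988) (nat_lit 16) (nat_lit 5) (nat_lit 17) (nat_lit 5) (nat_lit 18) (nat_lit 4) (nat_lit 292) (nat_lit 228) (nat_lit 200)) (XT.lf (nat_lit 0) (nat_lit 2648603105) (nat_lit 228) (nat_lit 15675160508) (nat_lit 76) (nat_lit 4295065962) (nat_lit 13) (nat_lit 5) (nat_lit 16) (nat_lit 5) (nat_lit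 14) (nat_lit 4) (nat_lit 293) (nat_lit 228) (nat_lit 199))))))))
noncomputable def xc28 : XT := (XT.nd (nat_lit 1560) (nat_lit 152) (nat_lit 0) (XT.nd (nat_lit 780) (nat_lit 228) (nat_lit 0) (XT.nd (nat_lit 390) (nat_lit 152) (nat_lit 0) (XT.nd (nat_lit 156) (nat_lit 152) (nat_lit 0) (XT.nd (nat_lit 78) (nat_lit 76) (nat_lit 0) (XT.lf (nat_lit 0) (nat_lit 6776410747) (nat_lit 228) (nat_lit 7617413251) (nat_lit 76) (nat_lit 9188007694) (nat_lit 13) (nat_lit 5) (nat_lit 16) (nat_lit 5) (nat_lit 14) (nat_lit 4) (nat_lit 294) (nat_lit 228) (nat_lit 198)) (XT.lf (nat_lit 0) (nat_lit 722063080) (nat_lit 76) (nat_lit 10313391721) (nat_lit 152) (nat_lit 13559899881) (nat_lit 12) (nat_lit 5) (nat_lit 13) (nat_lit 5) (nat_lit 14) (nat_lit 4) (nat_lit 295) (nat_lit 228) (nat_lit 197))) (XT.nd (nat_lit 78) (nat_lit 152) (nat_lit 0) (XT.lf (nat_lit 0) (nat_lit 9506323287) (nat_lit 76) (nat_lit 6000093896)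 (nat_lit 152) (nat_lit 10153278275) (nat_lit 12) (nat_lit 5) (nat_lit 13) (nat_lit 5) (nat_lit 14) (nat_lit 4) (nat_lit 296) (nat_lit 228) (nat_lit 196)) (XT.nd (nat_lit 78) (nat_lit 152) (nat_lit 0) (XT.lf (nat_lit 0) (nat_lit 18604680816) (nat_lit 76) (nat_lit 1520581704) (nat_lit 152) (nat_lit 6654366062) (nat_lit 12) (nat_lit 5) (nat_lit 13) (nat_lit 5) (nat_lit 14) (nat_lit 4) (nat_lit 297) (nat_lit 228) (nat_lit 195)) (XT.lf (nat_lit 0) (nat_lit 51846242) (nat_lit 152) (nat_lit 24881783523) (nat_lit 152) (nat_lit 3023271541) (nat_lit 10) (nat_lit 4) (nat_lit 12) (nat_lit 5) (nat_lit 12) (nat_lit 4) (nat_lit 298) (nat_lit 228) (nat_lit 194))))) (XT.nd (nat_lit 156) (nat_lit 76) (nat_lit 0) (XT.nd (nat_lit 78) (nat_lit 0) (nat_lit 0) (XT.lf (nat_lit 0) (nat_lit 803328958) (nat_lit 228) (nat_lit 20472474715) (nat_lit 76) (nat_lit 7916218483) (nat_lit 9) (nat_lit 5) (nat_lit 12) (nat_lit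 5) (nat_lit 10) (nat_lit 4) (nat_lit 299) (nat_lit 228) (nat_lit 193)) (XT.lf (nat_lit 0) (nat_lit 4691714985) (nat_lit 228) (nat_lit 12812118240) (nat_lit 76) (nat_lit 12986266736) (nat_lit 9) (nat_lit 5) (nat_lit 12) (nat_lit 5) (nat_lit 10) (nat_lit 4) (nat_lit 300) (nat_lit 228) (nat_lit 192))) (XT.nd (nat_lit 78) (nat_lit 76) (nat_lit 0) (XT.lf (nat_lit 0) (nat_lit 8710139520) (nat_lit 228) (nat_lit 4876685159) (nat_lit 76) (nat_lit 18268272551) (nat_lit 9) (nat_lit 5) (nat_lit 12) (nat_lit 5) (nat_lit 10) (nat_lit 4) (nat_lit 301) (nat_lit 228) (nat_lit 191)) (XT.nd (nat_lit 78) (nat_lit 0) (nat_lit 0) (XT.lf (nat_lit 0) (nat_lit 3419444086) (nat_lit 76) (nat_lit 9481595942) (nat_lit 152) (nat_lit 20388237835) (nat_lit 8) (nat_lit 5) (nat_lit 9) (nat_lit 5) (nat_lit 10) (nat_lit 4) (nat_lit 302) (nat_lit 228) (nat_lit 190)) (XT.lf (nat_lit 0) (nat_lit 12132433785) (nat_lit 76) (nat_lit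 5159897807) (nat_lit 152) (nat_lit 17503186879) (nat_lit 8) (nat_lit 5) (nat_lit 9) (nat_lit 5) (nat_lit 10) (nat_lit 4) (nat_lit 303) (nat_lit 228) (nat_lit 189)))))) (XT.nd (nat_lit 390) (nat_lit 152) (nat_lit 0) (XT.nd (nat_lit 156) (nat_lit 76) (nat_lit 0) (XT.nd (nat_lit 78) (nat_lit 0) (nat_lit 0) (XT.lf (nat_lit 0) (nat_lit 21185973555) (nat_lit 76) (nat_lit 660685476) (nat_lit 152) (nat_lit 14532180631) (nat_lit 8) (nat_lit 5) (nat_lit 9) (nat_lit 5) (nat_lit 10) (nat_lit 4) (nat_lit 304) (nat_lit 228) (nat_lit 188)) (XT.lf (nat_lit 0) (nat_lit 26613573599) (nat_lit 152) (nat_lit 7480099423) (nat_lit 0) (nat_lit 3948176998) (nat_lit 8) (nat_lit 5) (nat_lit 10) (nat_lit 4) (nat_lit 8) (nat_lit 4) (nat_lit 305) (nat_lit 228) (nat_lit 187))) (XT.nd (nat_lit 78) (nat_lit 0) (nat_lit 0) (XT.lf (nat_lit 0) (nat_lit 534542172) (nat_lit 76) (nat_lit 31044489030) (nat_lit 76) (nat_lit 8210239707)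 (nat_lit 7) (nat_lit 4) (nat_lit 8) (nat_lit 5) (nat_lit 8) (nat_lit 4) (nat_lit 306) (nat_lit 228) (nat_lit 186)) (XT.nd (nat_lit 78) (nat_lit 0) (nat_lit 0) (XT.lf (nat_lit 0) (nat_lit 9021211029) (nat_lit 76) (nat_lit 27798582545) (nat_lit 76) (nat_lit 4803521105) (nat_lit 7) (nat_lit 4) (nat_lit 8) (nat_lit 5) (nat_lit 8) (nat_lit 4) (nat_lit 307) (nat_lit 228) (nat_lit 185)) (XT.lf (nat_lit 0) (nat_lit 17851244857) (nat_lit 76) (nat_lit 24423759555) (nat_lit 76) (nat_lit 1275543719) (nat_lit 7) (nat_lit 4) (nat_lit 8) (nat_lit 5) (nat_lit 8) (nat_lit 4) (nat_lit 308) (nat_lit 228) (nat_lit 184))))) (XT.nd (nat_lit 156) (nat_lit 76) (nat_lit 0) (XT.nd (nat_lit 78) (nat_lit 0) (nat_lit 0) (XT.lf (nat_lit 0) (nat_lit 2335609194) (nat_lit 152) (nat_lit 18552790500) (nat_lit 76) (nat_lit 24686473276) (nat_lit 6) (nat_lit 5) (nat_lit 8) (nat_lit 5) (nat_lit 7) (nat_lit 4) (nat_lit 309) (nat_lit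 228) (nat_lit 183)) (XT.lf (nat_lit 0) (nat_lit 6057538998) (nat_lit 152) (nat_lit 11136188551) (nat_lit 76) (nat_lit 30507662308) (nat_lit 6) (nat_lit 5) (nat_lit 8) (nat_lit 5) (nat_lit 7) (nat_lit 4) (nat_lit 310) (nat_lit 228) (nat_lit 182))) (XT.nd (nat_lit 78) (nat_lit 76) (nat_lit 0) (XT.lf (nat_lit 0) (nat_lit 9923997882) (nat_lit 152) (nat_lit 3419577544) (nat_lit 76) (nat_lit 36591954342) (nat_lit 6) (nat_lit 5) (nat_lit 8) (nat_lit 5) (nat_lit 7) (nat_lit 4) (nat_lit 311) (nat_lit 228) (nat_lit 181)) (XT.nd (nat_lit 78) (nat_lit 0) (nat_lit 0) (XT.lf (nat_lit 0) (nat_lit 4707271219) (nat_lit 76) (nat_lit 9282169650) (nat_lit 152) (nat_lit 38291813736) (nat_lit 5) (nat_lit 5) (nat_lit 6) (nat_lit 5) (nat_lit 7) (nat_lit 4) (nat_lit 312) (nat_lit 228) (nat_lit 180)) (XT.lf (nat_lit 0) (nat_lit 13246406326) (nat_lit 76) (nat_lit 5008618575) (nat_lit 152) (nat_lit 36489380209) (nat_lit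 5) (nat_lit 5) (nat_lit 6) (nat_lit 5) (nat_lit 7) (nat_lit 4) (nat_lit 313) (nat_lit 228) (nat_lit 179))))))) (XT.nd (nat_lit 780) (nat_lit 76) (nat_lit 0) (XT.nd (nat_lit 390) (nat_lit 76) (nat_lit 0) (XT.nd (nat_lit 156) (nat_lit 0) (nat_lit 0) (XT.nd (nat_lit 78) (nat_lit 0) (nat_lit 0) (XT.lf (nat_lit 0) (nat_lit 22150102752) (nat_lit 76) (nat_lit 547278107) (nat_lit 152) (nat_lit 34634470826) (nat_lit 5) (nat_lit 5) (nat_lit 6) (nat_lit 5) (nat_lit 7) (nat_lit 4) (nat_lit 314) (nat_lit 228) (nat_lit 178)) (XT.lf (nat_lit 0) (nat_lit 27366617397) (nat_lit 152) (nat_lit 28649726759) (nat_lit 0) (nat_lit 4032224812) (nat_lit 5) (nat_lit 5) (nat_lit 7) (nat_lit 4) (nat_lit 5) (nat_lit 4) (nat_lit 315) (nat_lit 228) (nat_lit 177))) (XT.nd (nat_lit 78) (nat_lit 0) (nat_lit 0) (XT.lf (nat_lit 0) (nat_lit 32241500681) (nat_lit 152) (nat_lit 21854028764) (nat_lit 0) (nat_lit 8806466421) (nat_lit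 5) (nat_lit 5) (nat_lit 7) (nat_lit 4) (nat_lit 5) (nat_lit 4) (nat_lit 316) (nat_lit 228) (nat_lit 176)) (XT.nd (nat_lit 78) (nat_lit 0) (nat_lit 0) (XT.lf (nat_lit 0) (nat_lit 37328376803) (nat_lit 152) (nat_lit 14773213942) (nat_lit 0) (nat_lit 13797493331) (nat_lit 5) (nat_lit 5) (nat_lit 7) (nat_lit 4) (nat_lit 5) (nat_lit 4) (nat_lit 317) (nat_lit 228) (nat_lit 175)) (XT.lf (nat_lit 0) (nat_lit 42639357374) (nat_lit 152) (nat_lit 7390423210) (nat_lit 0) (nat_lit 19017188936) (nat_lit 5) (nat_lit 5) (nat_lit 7) (nat_lit 4) (nat_lit 5) (nat_lit 4) (nat_lit 318) (nat_lit 228) (nat_lit 174))))) (XT.nd (nat_lit 156) (nat_lit 0) (nat_lit 0) (XT.nd (nat_lit 78) (nat_lit 0) (nat_lit 0) (XT.lf (nat_lit 0) (nat_lit 318129352) (nat_lit 76) (nat_lit 47872016287) (nat_lit 76) (nat_lit 24162909787) (nat_lit 4) (nat_lit 4) (nat_lit 5) (nat_lit 5) (nat_lit 5) (nat_lit 4) (nat_lit 319) (nat_lit 228)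 (nat_lit 173)) (XT.lf (nat_lit 0) (nat_lit 8518383459) (nat_lit 76) (nat_lit 45548276772) (nat_lit 76) (nat_lit 21756372118) (nat_lit 4) (nat_lit 4) (nat_lit 5) (nat_lit 5) (nat_lit 5) (nat_lit 4) (nat_lit 320) (nat_lit 228) (nat_lit 172))) (XT.nd (nat_lit 78) (nat_lit 0) (nat_lit 0) (XT.lf (nat_lit 0) (nat_lit 17082779610) (nat_lit 76) (nat_lit 43127658112) (nat_lit 76) (nat_lit 19256898073) (nat_lit 4) (nat_lit 4) (nat_lit 5) (nat_lit 5) (nat_lit 5) (nat_lit 4) (nat_lit 321) (nat_lit 228) (nat_lit 171)) (XT.nd (nat_lit 78) (nat_lit 0) (nat_lit 0) (XT.lf (nat_lit 0) (nat_lit 26031709224) (nat_lit 76) (nat_lit 40604396929) (nat_lit 76) (nat_lit 16658536523) (nat_lit 4) (nat_lit 4) (nat_lit 5) (nat_lit 5) (nat_lit 5) (nat_lit 4) (nat_lit 322) (nat_lit 228) (nat_lit 170)) (XT.lf (nat_lit 0) (nat_lit 35386479278) (nat_lit 76) (nat_lit 37972485457) (nat_lit 76) (nat_lit 13955100893) (nat_lit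 4) (nat_lit 4) (nat_lit 5) (nat_lit 5) (nat_lit 5) (nat_lit 4) (nat_lit 323) (nat_lit 228) (nat_lit 169)))))) (XT.nd (nat_lit 390) (nat_lit 0) (nat_lit 0) (XT.nd (nat_lit 156) (nat_lit 76) (nat_lit 0) (XT.nd (nat_lit 78) (nat_lit 0) (nat_lit 0) (XT.lf (nat_lit 0) (nat_lit 45169363032) (nat_lit 76) (nat_lit 35225657241) (nat_lit 76) (nat_lit 11140154431) (nat_lit 4) (nat_lit 4) (nat_lit 5) (nat_lit 5) (nat_lit 5) (nat_lit 4) (nat_lit 324) (nat_lit 228) (nat_lit 168)) (XT.lf (nat_lit 0) (nat_lit 55403653068) (nat_lit 76) (nat_lit 32357372214) (nat_lit 76) (nat_lit 8206994883) (nat_lit 4) (nat_lit 4) (nat_lit 5) (nat_lit 5) (nat_lit 5) (nat_lit 4) (nat_lit 325) (nat_lit 228) (nat_lit 167))) (XT.nd (nat_lit 78) (nat_lit 76) (nat_lit 0) (XT.lf (nat_lit 0) (nat_lit 66113716743) (nat_lit 76) (nat_lit 29360801126) (nat_lit 76) (nat_lit 5148638538) (nat_lit 4) (nat_lit 4) (nat_lit 5) (nat_lit 5)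 (nat_lit 5) (nat_lit 4) (nat_lit 326) (nat_lit 228) (nat_lit 166)) (XT.nd (nat_lit 78) (nat_lit 76) (nat_lit 0) (XT.lf (nat_lit 0) (nat_lit 77325054208) (nat_lit 76) (nat_lit 26228809284) (nat_lit 76) (nat_lit 1957803593) (nat_lit 4) (nat_lit 4) (nat_lit 5) (nat_lit 5) (nat_lit 5) (nat_lit 4) (nat_lit 327) (nat_lit 228) (nat_lit 165)) (XT.lf (nat_lit 0) (nat_lit 1346312910) (nat_lit 152) (nat_lit 21594031532) (nat_lit 76) (nat_lit 87704451093) (nat_lit 3) (nat_lit 5) (nat_lit 5) (nat_lit 5) (nat_lit 4) (nat_lit 4) (nat_lit 328) (nat_lit 228) (nat_lit 164))))) (XT.nd (nat_lit 32370) (nat_lit 0) (nat_lit 5776) (XT.nd (nat_lit 78) (nat_lit 0) (nat_lit 0) (XT.lf (nat_lit 0) (nat_lit 4757344038) (nat_lit 152) (nat_lit 14723010771) (nat_lit 76) (nat_lit 96554198332) (nat_lit 3) (nat_lit 5) (nat_lit 5) (nat_lit 5) (nat_lit 4) (nat_lit 4) (nat_lit 329) (nat_lit 228) (nat_lit 163)) (XT.nd (nat_lit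 32214) (nat_lit 0) (nat_lit 7068) (XT.lf (nat_lit 0) (nat_lit 8321615092) (nat_lit 152) (nat_lit 7538371415) (nat_lit 76) (nat_lit 105834350739) (nat_lit 3) (nat_lit 5) (nat_lit 5) (nat_lit 5) (nat_lit 4) (nat_lit 4) (nat_lit 330) (nat_lit 228) (nat_lit 162)) (XT.lf (nat_lit 0) (nat_lit 2487278171) (nat_lit 456) (nat_lit 796396007) (nat_lit 456) (nat_lit 796396007) (nat_lit 96) (nat_lit 4) (nat_lit 102) (nat_lit 5) (nat_lit 102) (nat_lit 4) (nat_lit 262) (nat_lit 229) (nat_lit 229)))) (XT.nd (nat_lit 78) (nat_lit 836) (nat_lit 0) (XT.lf (nat_lit 0) (nat_lit 3397078665) (nat_lit 456) (nat_lit 3410992562) (nat_lit 0) (nat_lit 1528526079) (nat_lit 90) (nat_lit 5) (nat_lit 96) (nat_lit 4) (nat_lit 90) (nat_lit 4) (nat_lit 263) (nat_lit 229) (nat_lit 228)) (XT.nd (nat_lit 78) (nat_lit 456) (nat_lit 0) (XT.lf (nat_lit 0) (nat_lit 4779993108) (nat_lit 380) (nat_lit 3697013538) (nat_lit 380) (nat_lit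 48887062) (nat_lit 85) (nat_lit 4) (nat_lit 90) (nat_lit 5) (nat_lit 90) (nat_lit 4) (nat_lit 264) (nat_lit 229) (nat_lit 227)) (XT.lf (nat_lit 0) (nat_lit 4500709785) (nat_lit 380) (nat_lit 348388016) (nat_lit 456) (nat_lit 3878870675) (nat_lit 79) (nat_lit 5) (nat_lit 84) (nat_lit 5) (nat_lit 85) (nat_lit 4) (nat_lit 265) (nat_lit 229) (nat_lit 226))))))))
noncomputable def xc29 : XT := (XT.nd (nat_lit 1638) (nat_lit 1140) (nat_lit 0) (XT.nd (nat_lit 780) (nat_lit 1368) (nat_lit 0) (XT.nd (nat_lit 390) (nat_lit 1140) (nat_lit 0) (XT.nd (nat_lit 156) (nat_lit 1064) (nat_lit 0) (XT.nd (nat_lit 78) (nat_lit 304) (nat_lit 0) (XT.lf (nat_lit 0) (nat_lit 928084519) (nat_lit 456) (nat_lit 4870439621) (nat_lit 76) (nat_lit 3144966828) (nat_lit 73) (nat_lit 5) (nat_lit 79) (nat_lit 5) (nat_lit 74) (nat_lit 4) (nat_lit 266) (nat_lit 229) (nat_lit 225)) (XT.lf (nat_lit 0) (nat_lit 3470968684) (nat_lit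 304) (nat_lit 2301399823) (nat_lit 380) (nat_lit 3400518683) (nat_lit 69) (nat_lit 5) (nat_lit 73) (nat_lit 5) (nat_lit 74) (nat_lit 4) (nat_lit 267) (nat_lit 229) (nat_lit 224))) (XT.nd (nat_lit 78) (nat_lit 684) (nat_lit 0) (XT.lf (nat_lit 0) (nat_lit 1307421109) (nat_lit 380) (nat_lit 6732689235) (nat_lit 76) (nat_lit 1377034098) (nat_lit 64) (nat_lit 5) (nat_lit 69) (nat_lit 5) (nat_lit 65) (nat_lit 4) (nat_lit 268) (nat_lit 229) (nat_lit 223)) (XT.nd (nat_lit 78) (nat_lit 380) (nat_lit 0) (XT.lf (nat_lit 0) (nat_lit 1654431747) (nat_lit 304) (nat_lit 4432015330) (nat_lit 380) (nat_lit 3589475166) (nat_lit 60) (nat_lit 5) (nat_lit 64) (nat_lit 5) (nat_lit 65) (nat_lit 4) (nat_lit 269) (nat_lit 229) (nat_lit 222)) (XT.lf (nat_lit 0) (nat_lit 397993518) (nat_lit 304) (nat_lit 621474008) (nat_lit 380) (nat_lit 8931740870) (nat_lit 55) (nat_lit 5) (nat_lit 59) (nat_lit 5) (nat_lit 60) (nat_lit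 5) (nat_lit 270) (nat_lit 229) (nat_lit 221))))) (XT.nd (nat_lit 156) (nat_lit 836) (nat_lit 0) (XT.nd (nat_lit 78) (nat_lit 304) (nat_lit 0) (XT.lf (nat_lit 0) (nat_lit 5718611060) (nat_lit 380) (nat_lit 1153241074) (nat_lit 76) (nat_lit 3369759624) (nat_lit 55) (nat_lit 5) (nat_lit 60) (nat_lit 5) (nat_lit 56) (nat_lit 4) (nat_lit 271) (nat_lit 229) (nat_lit 220)) (XT.lf (nat_lit 0) (nat_lit 7893144) (nat_lit 304) (nat_lit 2981738926) (nat_lit 76) (nat_lit 7560164648) (nat_lit 51) (nat_lit 5) (nat_lit 55) (nat_lit 5) (nat_lit 52) (nat_lit 5) (nat_lit 272) (nat_lit 229) (nat_lit 219))) (XT.nd (nat_lit 78) (nat_lit 532) (nat_lit 0) (XT.lf (nat_lit 0) (nat_lit 4580507441) (nat_lit 380) (nat_lit 5181261395) (nat_lit 76) (nat_lit 1113403460) (nat_lit 47) (nat_lit 5) (nat_lit 52) (nat_lit 5) (nat_lit 48) (nat_lit 4) (nat_lit 273) (nat_lit 229) (nat_lit 218)) (XT.nd (nat_lit 78) (nat_lit 304)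 (nat_lit 0) (XT.lf (nat_lit 0) (nat_lit 3451882844) (nat_lit 228) (nat_lit 5859570356) (nat_lit 304) (nat_lit 1907840416) (nat_lit 44) (nat_lit 5) (nat_lit 47) (nat_lit 5) (nat_lit 48) (nat_lit 4) (nat_lit 274) (nat_lit 229) (nat_lit 217)) (XT.lf (nat_lit 0) (nat_lit 803583701) (nat_lit 228) (nat_lit 1742753245) (nat_lit 304) (nat_lit 9036826200) (nat_lit 40) (nat_lit 5) (nat_lit 43) (nat_lit 5) (nat_lit 44) (nat_lit 5) (nat_lit 275) (nat_lit 229) (nat_lit 216)))))) (XT.nd (nat_lit 390) (nat_lit 684) (nat_lit 0) (XT.nd (nat_lit 156) (nat_lit 456) (nat_lit 0) (XT.nd (nat_lit 78) (nat_lit 228) (nat_lit 0) (XT.lf (nat_lit 0) (nat_lit 7133592150) (nat_lit 304) (nat_lit 2271479374) (nat_lit 76) (nat_lit 2561417214) (nat_lit 40) (nat_lit 5) (nat_lit 44) (nat_lit 5) (nat_lit 41) (nat_lit 4) (nat_lit 276) (nat_lit 229) (nat_lit 215)) (XT.lf (nat_lit 0) (nat_lit 6553995993) (nat_lit 228) (nat_lit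 5328147380) (nat_lit 304) (nat_lit 489187862) (nat_lit 37) (nat_lit 5) (nat_lit 40) (nat_lit 5) (nat_lit 41) (nat_lit 4) (nat_lit 277) (nat_lit 229) (nat_lit 214))) (XT.nd (nat_lit 78) (nat_lit 152) (nat_lit 0) (XT.lf (nat_lit 0) (nat_lit 2873957028) (nat_lit 228) (nat_lit 1024208668) (nat_lit 304) (nat_lit 8900183940) (nat_lit 33) (nat_lit 5) (nat_lit 36) (nat_lit 5) (nat_lit 37) (nat_lit 5) (nat_lit 278) (nat_lit 229) (nat_lit 213)) (XT.nd (nat_lit 78) (nat_lit 152) (nat_lit 0) (XT.lf (nat_lit 0) (nat_lit 8447859388) (nat_lit 304) (nat_lit 1375574199) (nat_lit 76) (nat_lit 3424819155) (nat_lit 33) (nat_lit 5) (nat_lit 37) (nat_lit 5) (nat_lit 34) (nat_lit 4) (nat_lit 279) (nat_lit 229) (nat_lit 212)) (XT.lf (nat_lit 0) (nat_lit 7534608127) (nat_lit 152) (nat_lit 5638835379) (nat_lit 228) (nat_lit 549014161) (nat_lit 31) (nat_lit 5) (nat_lit 33) (nat_lit 5) (nat_lit 34) (nat_lit 4) (nat_lit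 280) (nat_lit 229) (nat_lit 211))))) (XT.nd (nat_lit 234) (nat_lit 228) (nat_lit 0) (XT.nd (nat_lit 78) (nat_lit 152) (nat_lit 0) (XT.lf (nat_lit 0) (nat_lit 2510504467) (nat_lit 228) (nat_lit 1235086405) (nat_lit 304) (nat_lit 10476680770) (nat_lit 27) (nat_lit 5) (nat_lit 30) (nat_lit 5) (nat_lit 31) (nat_lit 5) (nat_lit 281) (nat_lit 229) (nat_lit 210)) (XT.nd (nat_lit 78) (nat_lit 152) (nat_lit 0) (XT.lf (nat_lit 0) (nat_lit 8212946129) (nat_lit 304) (nat_lit 3208302895) (nat_lit 76) (nat_lit 3326810918) (nat_lit 27) (nat_lit 5) (nat_lit 31) (nat_lit 5) (nat_lit 28) (nat_lit 4) (nat_lit 282) (nat_lit 229) (nat_lit 209)) (XT.lf (nat_lit 0) (nat_lit 5629653044) (nat_lit 152) (nat_lit 7219039750) (nat_lit 228) (nat_lit 2453311232) (nat_lit 25) (nat_lit 5) (nat_lit 27) (nat_lit 5) (nat_lit 28) (nat_lit 4) (nat_lit 283) (nat_lit 229) (nat_lit 208)))) (XT.nd (nat_lit 78) (nat_lit 152) (nat_lit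 0) (XT.lf (nat_lit 0) (nat_lit 1711282934) (nat_lit 228) (nat_lit 1109292770) (nat_lit 76) (nat_lit 13065308000) (nat_lit 24) (nat_lit 5) (nat_lit 27) (nat_lit 5) (nat_lit 25) (nat_lit 5) (nat_lit 284) (nat_lit 229) (nat_lit 207)) (XT.nd (nat_lit 78) (nat_lit 0) (nat_lit 0) (XT.lf (nat_lit 0) (nat_lit 6013576034) (nat_lit 228) (nat_lit 8683615358) (nat_lit 76) (nat_lit 1801822208) (nat_lit 22) (nat_lit 5) (nat_lit 25) (nat_lit 5) (nat_lit 23) (nat_lit 4) (nat_lit 285) (nat_lit 229) (nat_lit 206)) (XT.lf (nat_lit 0) (nat_lit 10460904175) (nat_lit 228) (nat_lit 135774054) (nat_lit 76) (nat_lit 6548406206) (nat_lit 22) (nat_lit 5) (nat_lit 25) (nat_lit 5) (nat_lit 23) (nat_lit 4) (nat_lit 286) (nat_lit 229) (nat_lit 205))))))) (XT.nd (nat_lit 780) (nat_lit 380) (nat_lit 0) (XT.nd (nat_lit 390) (nat_lit 304) (nat_lit 0) (XT.nd (nat_lit 156) (nat_lit 228) (nat_lit 0) (XT.nd (nat_lit 78) (nat_lit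 76) (nat_lit 0) (XT.lf (nat_lit 0) (nat_lit 8846136844) (nat_lit 152) (nat_lit 6264657674) (nat_lit 228) (nat_lit 2713431811) (nat_lit 20) (nat_lit 5) (nat_lit 22) (nat_lit 5) (nat_lit 23) (nat_lit 4) (nat_lit 287) (nat_lit 229) (nat_lit 204)) (XT.lf (nat_lit 0) (nat_lit 1326295005) (nat_lit 228) (nat_lit 434698476) (nat_lit 76) (nat_lit 16779106824) (nat_lit 19) (nat_lit 5) (nat_lit 22) (nat_lit 5) (nat_lit 20) (nat_lit 5) (nat_lit 288) (nat_lit 229) (nat_lit 203))) (XT.nd (nat_lit 78) (nat_lit 76) (nat_lit 0) (XT.lf (nat_lit 0) (nat_lit 5525678969) (nat_lit 228) (nat_lit 10801520298) (nat_lit 76) (nat_lit 2963501769) (nat_lit 17) (nat_lit 5) (nat_lit 20) (nat_lit 5) (nat_lit 18) (nat_lit 4) (nat_lit 289) (nat_lit 229) (nat_lit 202)) (XT.nd (nat_lit 78) (nat_lit 76) (nat_lit 0) (XT.lf (nat_lit 0) (nat_lit 9862301371) (nat_lit 228) (nat_lit 2381759711) (nat_lit 76) (nat_lit 7837098062) (nat_lit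 17) (nat_lit 5) (nat_lit 20) (nat_lit 5) (nat_lit 18) (nat_lit 4) (nat_lit 290) (nat_lit 229) (nat_lit 201)) (XT.lf (nat_lit 0) (nat_lit 6438356283) (nat_lit 76) (nat_lit 7948788947) (nat_lit 152) (nat_lit 6524991711) (nat_lit 16) (nat_lit 5) (nat_lit 17) (nat_lit 5) (nat_lit 18) (nat_lit 4) (nat_lit 291) (nat_lit 229) (nat_lit 200))))) (XT.nd (nat_lit 156) (nat_lit 76) (nat_lit 0) (XT.nd (nat_lit 78) (nat_lit 228) (nat_lit 0) (XT.lf (nat_lit 0) (nat_lit 15607174458) (nat_lit 76) (nat_lit 3468019621) (nat_lit 152) (nat_lit 2711492562) (nat_lit 16) (nat_lit 5) (nat_lit 17) (nat_lit 5) (nat_lit 18) (nat_lit 4) (nat_lit 292) (nat_lit 229) (nat_lit 199)) (XT.lf (nat_lit 0) (nat_lit 1218190064) (nat_lit 228) (nat_lit 20290979845) (nat_lit 76) (nat_lit 1197021093) (nat_lit 13) (nat_lit 5) (nat_lit 16) (nat_lit 5) (nat_lit 14) (nat_lit 4) (nat_lit 293) (nat_lit 229) (nat_lit 198))) (XT.nd (nat_lit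 78) (nat_lit 76) (nat_lit 0) (XT.lf (nat_lit 0) (nat_lit 5305951422) (nat_lit 228) (nat_lit 12299207387) (nat_lit 76) (nat_lit 6065292355) (nat_lit 13) (nat_lit 5) (nat_lit 16) (nat_lit 5) (nat_lit 14) (nat_lit 4) (nat_lit 294) (nat_lit 229) (nat_lit 197)) (XT.nd (nat_lit 78) (nat_lit 76) (nat_lit 0) (XT.lf (nat_lit 0) (nat_lit 9519915248) (nat_lit 228) (nat_lit 4036654250) (nat_lit 76) (nat_lit 11128811025) (nat_lit 13) (nat_lit 5) (nat_lit 16) (nat_lit 5) (nat_lit 14) (nat_lit 4) (nat_lit 295) (nat_lit 229) (nat_lit 196)) (XT.lf (nat_lit 0) (nat_lit 4606236578) (nat_lit 76) (nat_lit 9308156173) (nat_lit 152) (nat_lit 11837674487) (nat_lit 12) (nat_lit 5) (nat_lit 13) (nat_lit 5) (nat_lit 14) (nat_lit 4) (nat_lit 296) (nat_lit 229) (nat_lit 195)))))) (XT.nd (nat_lit 390) (nat_lit 152) (nat_lit 0) (XT.nd (nat_lit 156) (nat_lit 228) (nat_lit 0) (XT.nd (nat_lit 78) (nat_lit 0) (nat_lit 0)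 (XT.lf (nat_lit 0) (nat_lit 13646468351) (nat_lit 76) (nat_lit 4851617511) (nat_lit 152) (nat_lit 8375018010) (nat_lit 12) (nat_lit 5) (nat_lit 13) (nat_lit 5) (nat_lit 14) (nat_lit 4) (nat_lit 297) (nat_lit 229) (nat_lit 194)) (XT.lf (nat_lit 0) (nat_lit 23025228094) (nat_lit 76) (nat_lit 217104998) (nat_lit 152) (nat_lit 4810013718) (nat_lit 12) (nat_lit 5) (nat_lit 13) (nat_lit 5) (nat_lit 14) (nat_lit 4) (nat_lit 298) (nat_lit 229) (nat_lit 193))) (XT.nd (nat_lit 78) (nat_lit 76) (nat_lit 0) (XT.lf (nat_lit 0) (nat_lit 3496185903) (nat_lit 152) (nat_lit 24740131532) (nat_lit 152) (nat_lit 1053949726) (nat_lit 10) (nat_lit 4) (nat_lit 12) (nat_lit 5) (nat_lit 12) (nat_lit 4) (nat_lit 299) (nat_lit 229) (nat_lit 192)) (XT.nd (nat_lit 78) (nat_lit 0) (nat_lit 0) (XT.lf (nat_lit 0) (nat_lit 2823597391) (nat_lit 228) (nat_lit 18176247826) (nat_lit 76) (nat_lit 9589786892) (nat_lit 9) (nat_lit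 5) (nat_lit 12) (nat_lit 5) (nat_lit 10) (nat_lit 4) (nat_lit 300) (nat_lit 229) (nat_lit 191)) (XT.lf (nat_lit 0) (nat_lit 6812112149) (nat_lit 228) (nat_lit 10290961652) (nat_lit 76) (nat_lit 14852491963) (nat_lit 9) (nat_lit 5) (nat_lit 12) (nat_lit 5) (nat_lit 10) (nat_lit 4) (nat_lit 301) (nat_lit 229) (nat_lit 190))))) (XT.nd (nat_lit 234) (nat_lit 76) (nat_lit 0) (XT.nd (nat_lit 78) (nat_lit 76) (nat_lit 0) (XT.lf (nat_lit 0) (nat_lit 10941657368) (nat_lit 228) (nat_lit 2109317036) (nat_lit 76) (nat_lit 20340649884) (nat_lit 9) (nat_lit 5) (nat_lit 12) (nat_lit 5) (nat_lit 10) (nat_lit 4) (nat_lit 302) (nat_lit 229) (nat_lit 189)) (XT.nd (nat_lit 78) (nat_lit 0) (nat_lit 0) (XT.lf (nat_lit 0) (nat_lit 6515303159) (nat_lit 76) (nat_lit 8769391216) (nat_lit 152) (nat_lit 19614653616) (nat_lit 8) (nat_lit 5) (nat_lit 9) (nat_lit 5) (nat_lit 10) (nat_lit 4) (nat_lit 303) (nat_lit 229)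 (nat_lit 188)) (XT.lf (nat_lit 0) (nat_lit 15524662017) (nat_lit 76) (nat_lit 4288097913) (nat_lit 152) (nat_lit 16670730879) (nat_lit 8) (nat_lit 5) (nat_lit 9) (nat_lit 5) (nat_lit 10) (nat_lit 4) (nat_lit 304) (nat_lit 229) (nat_lit 187)))) (XT.nd (nat_lit 78) (nat_lit 76) (nat_lit 0) (XT.lf (nat_lit 0) (nat_lit 24519630226) (nat_lit 152) (nat_lit 13253888717) (nat_lit 0) (nat_lit 374815715) (nat_lit 8) (nat_lit 5) (nat_lit 10) (nat_lit 4) (nat_lit 8) (nat_lit 4) (nat_lit 305) (nat_lit 229) (nat_lit 186)) (XT.nd (nat_lit 78) (nat_lit 76) (nat_lit 0) (XT.lf (nat_lit 0) (nat_lit 29455972947) (nat_lit 152) (nat_lit 5290340359) (nat_lit 0) (nat_lit 5150346318) (nat_lit 8) (nat_lit 5) (nat_lit 10) (nat_lit 4) (nat_lit 8) (nat_lit 4) (nat_lit 306) (nat_lit 229) (nat_lit 185)) (XT.lf (nat_lit 0) (nat_lit 3051543535) (nat_lit 76) (nat_lit 31570111236) (nat_lit 76) (nat_lit 7111330212) (nat_lit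 7) (nat_lit 4) (nat_lit 8) (nat_lit 5) (nat_lit 8) (nat_lit 4) (nat_lit 307) (nat_lit 229) (nat_lit 184))))))))
noncomputable def xc30 : XT := (XT.nd (nat_lit 1560) (nat_lit 76) (nat_lit 0) (XT.nd (nat_lit 780) (nat_lit 76) (nat_lit 0) (XT.nd (nat_lit 390) (nat_lit 76) (nat_lit 0) (XT.nd (nat_lit 156) (nat_lit 0) (nat_lit 0) (XT.nd (nat_lit 78) (nat_lit 76) (nat_lit 0) (XT.lf (nat_lit 0) (nat_lit 11843961347) (nat_lit 76) (nat_lit 28210795248) (nat_lit 76) (nat_lit 3606152893) (nat_lit 7) (nat_lit 4) (nat_lit 8) (nat_lit 5) (nat_lit 8) (nat_lit 4) (nat_lit 308) (nat_lit 229) (nat_lit 183)) (XT.lf (nat_lit 0) (nat_lit 29187975) (nat_lit 152) (nat_lit 24684306317) (nat_lit 76) (nat_lit 20973076541) (nat_lit 6) (nat_lit 5) (nat_lit 8) (nat_lit 5) (nat_lit 7) (nat_lit 4) (nat_lit 309) (nat_lit 229) (nat_lit 182))) (XT.nd (nat_lit 78) (nat_lit 0) (nat_lit 0) (XT.lf (nat_lit 0) (nat_lit 3730840993)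 (nat_lit 152) (nat_lit 17302251217) (nat_lit 76) (nat_lit 26780628280) (nat_lit 6) (nat_lit 5) (nat_lit 8) (nat_lit 5) (nat_lit 7) (nat_lit 4) (nat_lit 310) (nat_lit 229) (nat_lit 181)) (XT.nd (nat_lit 78) (nat_lit 0) (nat_lit 0) (XT.lf (nat_lit 0) (nat_lit 7577988652) (nat_lit 152) (nat_lit 9618541971) (nat_lit 76) (nat_lit 32851932415) (nat_lit 6) (nat_lit 5) (nat_lit 8) (nat_lit 5) (nat_lit 7) (nat_lit 4) (nat_lit 311) (nat_lit 229) (nat_lit 180)) (XT.lf (nat_lit 0) (nat_lit 11579790827) (nat_lit 152) (nat_lit 1614884033) (nat_lit 76) (nat_lit 39201444431) (nat_lit 6) (nat_lit 5) (nat_lit 8) (nat_lit 5) (nat_lit 7) (nat_lit 4) (nat_lit 312) (nat_lit 229) (nat_lit 179))))) (XT.nd (nat_lit 156) (nat_lit 0) (nat_lit 0) (XT.nd (nat_lit 78) (nat_lit 0) (nat_lit 0) (XT.lf (nat_lit 0) (nat_lit 6861674916) (nat_lit 76) (nat_lit 8950059318) (nat_lit 152) (nat_lit 39048565915) (nat_lit 5) (nat_lit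 5) (nat_lit 6) (nat_lit 5) (nat_lit 7) (nat_lit 4) (nat_lit 313) (nat_lit 229) (nat_lit 178)) (XT.lf (nat_lit 0) (nat_lit 15736383915) (nat_lit 76) (nat_lit 4500745871) (nat_lit 152) (nat_lit 37211145879) (nat_lit 5) (nat_lit 5) (nat_lit 6) (nat_lit 5) (nat_lit 7) (nat_lit 4) (nat_lit 314) (nat_lit 229) (nat_lit 177))) (XT.nd (nat_lit 78) (nat_lit 0) (nat_lit 0) (XT.lf (nat_lit 0) (nat_lit 24852100300) (nat_lit 152) (nat_lit 35169867146) (nat_lit 0) (nat_lit 144672653) (nat_lit 5) (nat_lit 5) (nat_lit 7) (nat_lit 4) (nat_lit 5) (nat_lit 4) (nat_lit 315) (nat_lit 229) (nat_lit 176)) (XT.nd (nat_lit 78) (nat_lit 0) (nat_lit 0) (XT.lf (nat_lit 0) (nat_lit 29711495132) (nat_lit 152) (nat_lit 28400836503) (nat_lit 0) (nat_lit 4908218272) (nat_lit 5) (nat_lit 5) (nat_lit 7) (nat_lit 4) (nat_lit 5) (nat_lit 4) (nat_lit 316) (nat_lit 229) (nat_lit 175)) (XT.lf (nat_lit 0) (nat_lit 34783620348) (nat_lit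 152) (nat_lit 21345419160) (nat_lit 0) (nat_lit 9889058523) (nat_lit 5) (nat_lit 5) (nat_lit 7) (nat_lit 4) (nat_lit 5) (nat_lit 4) (nat_lit 317) (nat_lit 229) (nat_lit 174)))))) (XT.nd (nat_lit 390) (nat_lit 0) (nat_lit 0) (XT.nd (nat_lit 156) (nat_lit 76) (nat_lit 0) (XT.nd (nat_lit 78) (nat_lit 0) (nat_lit 0) (XT.lf (nat_lit 0) (nat_lit 40080552437) (nat_lit 152) (nat_lit 13986816504) (nat_lit 0) (nat_lit 15099052550) (nat_lit 5) (nat_lit 5) (nat_lit 7) (nat_lit 4) (nat_lit 5) (nat_lit 4) (nat_lit 318) (nat_lit 229) (nat_lit 173)) (XT.lf (nat_lit 0) (nat_lit 45614903142) (nat_lit 152) (nat_lit 6307508052) (nat_lit 0) (nat_lit 20550605101) (nat_lit 5) (nat_lit 5) (nat_lit 7) (nat_lit 4) (nat_lit 5) (nat_lit 4) (nat_lit 319) (nat_lit 229) (nat_lit 172))) (XT.nd (nat_lit 78) (nat_lit 0) (nat_lit 0) (XT.lf (nat_lit 0) (nat_lit 1744838344) (nat_lit 76) (nat_lit 49671783596) (nat_lit 76) (nat_lit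 24528630171) (nat_lit 4) (nat_lit 4) (nat_lit 5) (nat_lit 5) (nat_lit 5) (nat_lit 4) (nat_lit 320) (nat_lit 229) (nat_lit 171)) (XT.nd (nat_lit 78) (nat_lit 0) (nat_lit 0) (XT.lf (nat_lit 0) (nat_lit 10287924083) (nat_lit 76) (nat_lit 47260134892) (nat_lit 76) (nat_lit 22041881100) (nat_lit 4) (nat_lit 4) (nat_lit 5) (nat_lit 5) (nat_lit 5) (nat_lit 4) (nat_lit 321) (nat_lit 229) (nat_lit 170)) (XT.lf (nat_lit 0) (nat_lit 19216558067) (nat_lit 76) (nat_lit 44745416524) (nat_lit 76) (nat_lit 19455638573) (nat_lit 4) (nat_lit 4) (nat_lit 5) (nat_lit 5) (nat_lit 5) (nat_lit 4) (nat_lit 322) (nat_lit 229) (nat_lit 169))))) (XT.nd (nat_lit 156) (nat_lit 0) (nat_lit 0) (XT.nd (nat_lit 78) (nat_lit 0) (nat_lit 0) (XT.lf (nat_lit 0) (nat_lit 28551998949) (nat_lit 76) (nat_lit 42121641067) (nat_lit 76) (nat_lit 16763744869) (nat_lit 4) (nat_lit 4) (nat_lit 5) (nat_lit 5) (nat_lit 5) (nat_lit 4) (nat_lit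 323) (nat_lit 229) (nat_lit 168)) (XT.lf (nat_lit 0) (nat_lit 38316473969) (nat_lit 76) (nat_lit 39382561436) (nat_lit 76) (nat_lit 13959790718) (nat_lit 4) (nat_lit 4) (nat_lit 5) (nat_lit 5) (nat_lit 5) (nat_lit 4) (nat_lit 324) (nat_lit 229) (nat_lit 167))) (XT.nd (nat_lit 78) (nat_lit 0) (nat_lit 0) (XT.lf (nat_lit 0) (nat_lit 48533231877) (nat_lit 76) (nat_lit 36521656014) (nat_lit 76) (nat_lit 11037100039) (nat_lit 4) (nat_lit 4) (nat_lit 5) (nat_lit 5) (nat_lit 5) (nat_lit 4) (nat_lit 325) (nat_lit 229) (nat_lit 166)) (XT.nd (nat_lit 78) (nat_lit 0) (nat_lit 0) (XT.lf (nat_lit 0) (nat_lit 59226598286) (nat_lit 76) (nat_lit 33532113121) (nat_lit 76) (nat_lit 7988714043) (nat_lit 4) (nat_lit 4) (nat_lit 5) (nat_lit 5) (nat_lit 5) (nat_lit 4) (nat_lit 326) (nat_lit 229) (nat_lit 165)) (XT.lf (nat_lit 0) (nat_lit 70422033594) (nat_lit 76) (nat_lit 30406814798) (nat_lit 76) (nat_lit 4807374670)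 (nat_lit 4) (nat_lit 4) (nat_lit 5) (nat_lit 5) (nat_lit 5) (nat_lit 4) (nat_lit 327) (nat_lit 229) (nat_lit 164))))))) (XT.nd (nat_lit 32760) (nat_lit 0) (nat_lit 2584) (XT.nd (nat_lit 32370) (nat_lit 0) (nat_lit 5320) (XT.nd (nat_lit 156) (nat_lit 0) (nat_lit 0) (XT.nd (nat_lit 78) (nat_lit 76) (nat_lit 0) (XT.lf (nat_lit 0) (nat_lit 82146193598) (nat_lit 76) (nat_lit 27138319857) (nat_lit 76) (nat_lit 1485507301) (nat_lit 4) (nat_lit 4) (nat_lit 5) (nat_lit 5) (nat_lit 5) (nat_lit 4) (nat_lit 328) (nat_lit 229) (nat_lit 163)) (XT.lf (nat_lit 0) (nat_lit 1946066726) (nat_lit 152) (nat_lit 21753127985) (nat_lit 76) (nat_lit 92461274781) (nat_lit 3) (nat_lit 5) (nat_lit 5) (nat_lit 5) (nat_lit 4) (nat_lit 4) (nat_lit 329) (nat_lit 229) (nat_lit 162))) (XT.nd (nat_lit 32058) (nat_lit 0) (nat_lit 7524) (XT.lf (nat_lit 0) (nat_lit 5502295212) (nat_lit 152) (nat_lit 14582394525) (nat_lit 76)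 (nat_lit 101735814090) (nat_lit 3) (nat_lit 5) (nat_lit 5) (nat_lit 5) (nat_lit 4) (nat_lit 4) (nat_lit 330) (nat_lit 229) (nat_lit 161)) (XT.nd (nat_lit 78) (nat_lit 532) (nat_lit 0) (XT.lf (nat_lit 0) (nat_lit 2476072772) (nat_lit 532) (nat_lit 721868638) (nat_lit 532) (nat_lit 721868638) (nat_lit 109) (nat_lit 4) (nat_lit 116) (nat_lit 5) (nat_lit 116) (nat_lit 4) (nat_lit 260) (nat_lit 230) (nat_lit 230)) (XT.lf (nat_lit 0) (nat_lit 3475320062) (nat_lit 532) (nat_lit 3065866267) (nat_lit 0) (nat_lit 1454480440) (nat_lit 102) (nat_lit 5) (nat_lit 109) (nat_lit 4) (nat_lit 102) (nat_lit 4) (nat_lit 261) (nat_lit 230) (nat_lit 229))))) (XT.nd (nat_lit 156) (nat_lit 1292) (nat_lit 0) (XT.nd (nat_lit 78) (nat_lit 380) (nat_lit 0) (XT.lf (nat_lit 0) (nat_lit 307504549) (nat_lit 532) (nat_lit 3321214548) (nat_lit 76) (nat_lit 4535019457) (nat_lit 95) (nat_lit 5) (nat_lit 102) (nat_lit 5) (nat_lit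 96) (nat_lit 4) (nat_lit 262) (nat_lit 230) (nat_lit 228)) (XT.lf (nat_lit 0) (nat_lit 4659348430) (nat_lit 380) (nat_lit 482404437) (nat_lit 456) (nat_lit 3202058500) (nat_lit 90) (nat_lit 5) (nat_lit 95) (nat_lit 5) (nat_lit 96) (nat_lit 4) (nat_lit 263) (nat_lit 230) (nat_lit 227))) (XT.nd (nat_lit 78) (nat_lit 836) (nat_lit 0) (XT.lf (nat_lit 0) (nat_lit 1542594670) (nat_lit 456) (nat_lit 4173471786) (nat_lit 76) (nat_lit 2820258636) (nat_lit 84) (nat_lit 5) (nat_lit 90) (nat_lit 5) (nat_lit 85) (nat_lit 4) (nat_lit 264) (nat_lit 230) (nat_lit 226)) (XT.nd (nat_lit 78) (nat_lit 456) (nat_lit 0) (XT.lf (nat_lit 0) (nat_lit 3938074549) (nat_lit 380) (nat_lit 2395491704) (nat_lit 456) (nat_lit 2408299787) (nat_lit 79) (nat_lit 5) (nat_lit 84) (nat_lit 5) (nat_lit 85) (nat_lit 4) (nat_lit 265) (nat_lit 230) (nat_lit 225)) (XT.lf (nat_lit 0) (nat_lit 2244879414) (nat_lit 456) (nat_lit 5594669334)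 (nat_lit 76) (nat_lit 1121444101) (nat_lit 73) (nat_lit 5) (nat_lit 79) (nat_lit 5) (nat_lit 74) (nat_lit 4) (nat_lit 266) (nat_lit 230) (nat_lit 224)))))) (XT.nd (nat_lit 390) (nat_lit 1368) (nat_lit 0) (XT.nd (nat_lit 156) (nat_lit 684) (nat_lit 0) (XT.nd (nat_lit 78) (nat_lit 380) (nat_lit 0) (XT.lf (nat_lit 0) (nat_lit 2608233813) (nat_lit 304) (nat_lit 4377690169) (nat_lit 380) (nat_lit 2207825133) (nat_lit 69) (nat_lit 5) (nat_lit 73) (nat_lit 5) (nat_lit 74) (nat_lit 4) (nat_lit 267) (nat_lit 230) (nat_lit 223)) (XT.lf (nat_lit 0) (nat_lit 1662821082) (nat_lit 304) (nat_lit 697852177) (nat_lit 380) (nat_lit 7080717242) (nat_lit 64) (nat_lit 5) (nat_lit 68) (nat_lit 5) (nat_lit 69) (nat_lit 5) (nat_lit 268) (nat_lit 230) (nat_lit 222))) (XT.nd (nat_lit 78) (nat_lit 380) (nat_lit 0) (XT.lf (nat_lit 0) (nat_lit 472726579) (nat_lit 304) (nat_lit 6559220642) (nat_lit 380) (nat_lit 2671685119)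 (nat_lit 60) (nat_lit 5) (nat_lit 64) (nat_lit 5) (nat_lit 65) (nat_lit 4) (nat_lit 269) (nat_lit 230) (nat_lit 221)) (XT.nd (nat_lit 78) (nat_lit 304) (nat_lit 0) (XT.lf (nat_lit 0) (nat_lit 1827920154) (nat_lit 380) (nat_lit 946017030) (nat_lit 76) (nat_lit 7207673512) (nat_lit 59) (nat_lit 5) (nat_lit 64) (nat_lit 5) (nat_lit 60) (nat_lit 5) (nat_lit 270) (nat_lit 230) (nat_lit 220)) (XT.lf (nat_lit 0) (nat_lit 6412184560) (nat_lit 380) (nat_lit 2643051701) (nat_lit 76) (nat_lit 1220428014) (nat_lit 55) (nat_lit 5) (nat_lit 60) (nat_lit 5) (nat_lit 56) (nat_lit 4) (nat_lit 271) (nat_lit 230) (nat_lit 219))))) (XT.nd (nat_lit 234) (nat_lit 532) (nat_lit 0) (XT.nd (nat_lit 78) (nat_lit 532) (nat_lit 0) (XT.lf (nat_lit 0) (nat_lit 556917071) (nat_lit 304) (nat_lit 4657442044) (nat_lit 76) (nat_lit 5372417232) (nat_lit 51) (nat_lit 5) (nat_lit 55) (nat_lit 5) (nat_lit 52) (nat_lit 5) (nat_lit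 272) (nat_lit 230) (nat_lit 218)) (XT.nd (nat_lit 78) (nat_lit 228) (nat_lit 0) (XT.lf (nat_lit 0) (nat_lit 3883857066) (nat_lit 304) (nat_lit 1138320849) (nat_lit 380) (nat_lit 5893374118) (nat_lit 47) (nat_lit 5) (nat_lit 51) (nat_lit 5) (nat_lit 52) (nat_lit 5) (nat_lit 273) (nat_lit 230) (nat_lit 217)) (XT.lf (nat_lit 0) (nat_lit 1464550491) (nat_lit 228) (nat_lit 8182033082) (nat_lit 304) (nat_lit 1616456941) (nat_lit 44) (nat_lit 5) (nat_lit 47) (nat_lit 5) (nat_lit 48) (nat_lit 4) (nat_lit 274) (nat_lit 230) (nat_lit 216)))) (XT.nd (nat_lit 78) (nat_lit 456) (nat_lit 0) (XT.lf (nat_lit 0) (nat_lit 2749548786) (nat_lit 304) (nat_lit 1353558078) (nat_lit 76) (nat_lit 7526351797) (nat_lit 43) (nat_lit 5) (nat_lit 47) (nat_lit 5) (nat_lit 44) (nat_lit 5) (nat_lit 275) (nat_lit 230) (nat_lit 215)) (XT.nd (nat_lit 78) (nat_lit 228) (nat_lit 0) (XT.lf (nat_lit 0) (nat_lit 7228197266) (nat_lit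 304) (nat_lit 4585935973) (nat_lit 76) (nat_lit 202059763) (nat_lit 40) (nat_lit 5) (nat_lit 44) (nat_lit 5) (nat_lit 41) (nat_lit 4) (nat_lit 276) (nat_lit 230) (nat_lit 214)) (XT.lf (nat_lit 0) (nat_lit 4090026776) (nat_lit 228) (nat_lit 7793973681) (nat_lit 304) (nat_lit 539960861) (nat_lit 37) (nat_lit 5) (nat_lit 40) (nat_lit 5) (nat_lit 41) (nat_lit 4) (nat_lit 277) (nat_lit 230) (nat_lit 213))))))))
noncomputable def xc31 : XT := (XT.nd (nat_lit 1638) (nat_lit 532) (nat_lit 0) (XT.nd (nat_lit 780) (nat_lit 608) (nat_lit 0) (XT.nd (nat_lit 390) (nat_lit 532) (nat_lit 0) (XT.nd (nat_lit 156) (nat_lit 456) (nat_lit 0) (XT.nd (nat_lit 78) (nat_lit 0) (nat_lit 0) (XT.lf (nat_lit 0) (nat_lit 205779584) (nat_lit 228) (nat_lit 3549440012) (nat_lit 304) (nat_lit 9098702256) (nat_lit 33) (nat_lit 5) (nat_lit 36) (nat_lit 5) (nat_lit 37) (nat_lit 5) (nat_lit 278) (nat_lit 230) (nat_lit 212))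 (XT.lf (nat_lit 0) (nat_lit 8215098191) (nat_lit 304) (nat_lit 4173960404) (nat_lit 76) (nat_lit 917587076) (nat_lit 33) (nat_lit 5) (nat_lit 37) (nat_lit 5) (nat_lit 34) (nat_lit 4) (nat_lit 279) (nat_lit 230) (nat_lit 211))) (XT.nd (nat_lit 78) (nat_lit 304) (nat_lit 0) (XT.lf (nat_lit 0) (nat_lit 4584453188) (nat_lit 152) (nat_lit 8265450400) (nat_lit 228) (nat_lit 933790616) (nat_lit 31) (nat_lit 5) (nat_lit 33) (nat_lit 5) (nat_lit 34) (nat_lit 4) (nat_lit 280) (nat_lit 230) (nat_lit 210)) (XT.nd (nat_lit 78) (nat_lit 228) (nat_lit 0) (XT.lf (nat_lit 0) (nat_lit 3283153500) (nat_lit 228) (nat_lit 639003568) (nat_lit 76) (nat_lit 10364128337) (nat_lit 30) (nat_lit 5) (nat_lit 33) (nat_lit 5) (nat_lit 31) (nat_lit 5) (nat_lit 281) (nat_lit 230) (nat_lit 209)) (XT.lf (nat_lit 0) (nat_lit 7659055612) (nat_lit 304) (nat_lit 6500579894) (nat_lit 76) (nat_lit 655287685) (nat_lit 27) (nat_lit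 5) (nat_lit 31) (nat_lit 5) (nat_lit 28) (nat_lit 4) (nat_lit 282) (nat_lit 230) (nat_lit 208))))) (XT.nd (nat_lit 156) (nat_lit 304) (nat_lit 0) (XT.nd (nat_lit 78) (nat_lit 76) (nat_lit 0) (XT.lf (nat_lit 0) (nat_lit 2182741405) (nat_lit 152) (nat_lit 10022454088) (nat_lit 228) (nat_lit 3166460836) (nat_lit 25) (nat_lit 5) (nat_lit 27) (nat_lit 5) (nat_lit 28) (nat_lit 4) (nat_lit 283) (nat_lit 230) (nat_lit 207)) (XT.lf (nat_lit 0) (nat_lit 956815104) (nat_lit 228) (nat_lit 4705062453) (nat_lit 76) (nat_lit 10295614387) (nat_lit 24) (nat_lit 5) (nat_lit 27) (nat_lit 5) (nat_lit 25) (nat_lit 5) (nat_lit 284) (nat_lit 230) (nat_lit 206))) (XT.nd (nat_lit 78) (nat_lit 152) (nat_lit 0) (XT.lf (nat_lit 0) (nat_lit 4082666513) (nat_lit 152) (nat_lit 1070116430) (nat_lit 228) (nat_lit 11421117462) (nat_lit 22) (nat_lit 5) (nat_lit 24) (nat_lit 5) (nat_lit 25) (nat_lit 5) (nat_lit 285) (nat_lit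 230) (nat_lit 205)) (XT.nd (nat_lit 78) (nat_lit 152) (nat_lit 0) (XT.lf (nat_lit 0) (nat_lit 9538683649) (nat_lit 228) (nat_lit 4014053518) (nat_lit 76) (nat_lit 3669161477) (nat_lit 22) (nat_lit 5) (nat_lit 25) (nat_lit 5) (nat_lit 23) (nat_lit 4) (nat_lit 286) (nat_lit 230) (nat_lit 204)) (XT.lf (nat_lit 0) (nat_lit 4812044815) (nat_lit 152) (nat_lit 9289045471) (nat_lit 228) (nat_lit 3802655314) (nat_lit 20) (nat_lit 5) (nat_lit 22) (nat_lit 5) (nat_lit 23) (nat_lit 4) (nat_lit 287) (nat_lit 230) (nat_lit 203)))))) (XT.nd (nat_lit 390) (nat_lit 304) (nat_lit 0) (XT.nd (nat_lit 156) (nat_lit 76) (nat_lit 0) (XT.nd (nat_lit 78) (nat_lit 152) (nat_lit 0) (XT.lf (nat_lit 0) (nat_lit 210678505) (nat_lit 228) (nat_lit 4613745304) (nat_lit 76) (nat_lit 13797013789) (nat_lit 19) (nat_lit 5) (nat_lit 22) (nat_lit 5) (nat_lit 20) (nat_lit 5) (nat_lit 288) (nat_lit 230) (nat_lit 202)) (XT.lf (nat_lit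 0) (nat_lit 4183158256) (nat_lit 152) (nat_lit 110791754) (nat_lit 228) (nat_lit 15081642628) (nat_lit 17) (nat_lit 5) (nat_lit 19) (nat_lit 5) (nat_lit 20) (nat_lit 5) (nat_lit 289) (nat_lit 230) (nat_lit 201))) (XT.nd (nat_lit 78) (nat_lit 76) (nat_lit 0) (XT.lf (nat_lit 0) (nat_lit 8585361521) (nat_lit 228) (nat_lit 6842959111) (nat_lit 76) (nat_lit 4739153999) (nat_lit 17) (nat_lit 5) (nat_lit 20) (nat_lit 5) (nat_lit 18) (nat_lit 4) (nat_lit 290) (nat_lit 230) (nat_lit 200)) (XT.nd (nat_lit 78) (nat_lit 0) (nat_lit 0) (XT.lf (nat_lit 0) (nat_lit 1819065198) (nat_lit 76) (nat_lit 11204693021) (nat_lit 152) (nat_lit 7977351963) (nat_lit 16) (nat_lit 5) (nat_lit 17) (nat_lit 5) (nat_lit 18) (nat_lit 4) (nat_lit 291) (nat_lit 230) (nat_lit 199)) (XT.lf (nat_lit 0) (nat_lit 10921878544) (nat_lit 76) (nat_lit 6749252419) (nat_lit 152) (nat_lit 4205810480) (nat_lit 16) (nat_lit 5) (nat_lit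 17) (nat_lit 5) (nat_lit 18) (nat_lit 4) (nat_lit 292) (nat_lit 230) (nat_lit 198))))) (XT.nd (nat_lit 234) (nat_lit 76) (nat_lit 0) (XT.nd (nat_lit 78) (nat_lit 228) (nat_lit 0) (XT.lf (nat_lit 0) (nat_lit 20350965988) (nat_lit 76) (nat_lit 2120491102) (nat_lit 152) (nat_lit 327609270) (nat_lit 16) (nat_lit 5) (nat_lit 17) (nat_lit 5) (nat_lit 18) (nat_lit 4) (nat_lit 293) (nat_lit 230) (nat_lit 197)) (XT.nd (nat_lit 78) (nat_lit 0) (nat_lit 0) (XT.lf (nat_lit 0) (nat_lit 3683783531) (nat_lit 228) (nat_lit 17343899174) (nat_lit 76) (nat_lit 2738275095) (nat_lit 13) (nat_lit 5) (nat_lit 16) (nat_lit 5) (nat_lit 14) (nat_lit 4) (nat_lit 294) (nat_lit 230) (nat_lit 196)) (XT.lf (nat_lit 0) (nat_lit 7861424197) (nat_lit 228) (nat_lit 9141187125) (nat_lit 76) (nat_lit 7779416922) (nat_lit 13) (nat_lit 5) (nat_lit 16) (nat_lit 5) (nat_lit 14) (nat_lit 4) (nat_lit 295) (nat_lit 230) (nat_lit 195))))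 (XT.nd (nat_lit 78) (nat_lit 76) (nat_lit 0) (XT.lf (nat_lit 0) (nat_lit 12177030252) (nat_lit 228) (nat_lit 645172076) (nat_lit 76) (nat_lit 13028927719) (nat_lit 13) (nat_lit 5) (nat_lit 16) (nat_lit 5) (nat_lit 14) (nat_lit 4) (nat_lit 296) (nat_lit 230) (nat_lit 194)) (XT.nd (nat_lit 78) (nat_lit 0) (nat_lit 0) (XT.lf (nat_lit 0) (nat_lit 8326861644) (nat_lit 76) (nat_lit 8394058192) (nat_lit 152) (nat_lit 10252487564) (nat_lit 12) (nat_lit 5) (nat_lit 13) (nat_lit 5) (nat_lit 14) (nat_lit 4) (nat_lit 297) (nat_lit 230) (nat_lit 193)) (XT.lf (nat_lit 0) (nat_lit 17652899613) (nat_lit 76) (nat_lit 3780383348) (nat_lit 152) (nat_lit 6720368294) (nat_lit 12) (nat_lit 5) (nat_lit 13) (nat_lit 5) (nat_lit 14) (nat_lit 4) (nat_lit 298) (nat_lit 230) (nat_lit 192))))))) (XT.nd (nat_lit 780) (nat_lit 152) (nat_lit 0) (XT.nd (nat_lit 390) (nat_lit 76) (nat_lit 0) (XT.nd (nat_lit 156) (nat_lit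 76) (nat_lit 0) (XT.nd (nat_lit 78) (nat_lit 228) (nat_lit 0) (XT.lf (nat_lit 0) (nat_lit 26328850835) (nat_lit 152) (nat_lit 2062391492) (nat_lit 0) (nat_lit 1003324052) (nat_lit 12) (nat_lit 5) (nat_lit 14) (nat_lit 4) (nat_lit 12) (nat_lit 4) (nat_lit 299) (nat_lit 230) (nat_lit 191)) (XT.lf (nat_lit 0) (nat_lit 800758875) (nat_lit 228) (nat_lit 23911385051) (nat_lit 76) (nat_lit 5983916530) (nat_lit 9) (nat_lit 5) (nat_lit 12) (nat_lit 5) (nat_lit 10) (nat_lit 4) (nat_lit 300) (nat_lit 230) (nat_lit 190))) (XT.nd (nat_lit 78) (nat_lit 76) (nat_lit 0) (XT.lf (nat_lit 0) (nat_lit 4760788132) (nat_lit 228) (nat_lit 16073857836) (nat_lit 76) (nat_lit 11228239941) (nat_lit 9) (nat_lit 5) (nat_lit 12) (nat_lit 5) (nat_lit 10) (nat_lit 4) (nat_lit 301) (nat_lit 230) (nat_lit 189)) (XT.nd (nat_lit 78) (nat_lit 76) (nat_lit 0) (XT.lf (nat_lit 0) (nat_lit 8863204301) (nat_lit 228) (nat_lit 7937697943)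 (nat_lit 76) (nat_lit 16698891518) (nat_lit 9) (nat_lit 5) (nat_lit 12) (nat_lit 5) (nat_lit 10) (nat_lit 4) (nat_lit 302) (nat_lit 230) (nat_lit 188)) (XT.lf (nat_lit 0) (nat_lit 526745131) (nat_lit 76) (nat_lit 12596093304) (nat_lit 152) (nat_lit 21887214887) (nat_lit 8) (nat_lit 5) (nat_lit 9) (nat_lit 5) (nat_lit 10) (nat_lit 4) (nat_lit 303) (nat_lit 230) (nat_lit 187))))) (XT.nd (nat_lit 156) (nat_lit 76) (nat_lit 0) (XT.nd (nat_lit 78) (nat_lit 0) (nat_lit 0) (XT.lf (nat_lit 0) (nat_lit 9494026929) (nat_lit 76) (nat_lit 8131865744) (nat_lit 152) (nat_lit 18969085970) (nat_lit 8) (nat_lit 5) (nat_lit 9) (nat_lit 5) (nat_lit 10) (nat_lit 4) (nat_lit 304) (nat_lit 230) (nat_lit 186)) (XT.lf (nat_lit 0) (nat_lit 18827522367) (nat_lit 76) (nat_lit 3477745635) (nat_lit 152) (nat_lit 15955409969) (nat_lit 8) (nat_lit 5) (nat_lit 9) (nat_lit 5) (nat_lit 10) (nat_lit 4) (nat_lit 305) (nat_lit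 230) (nat_lit 185))) (XT.nd (nat_lit 78) (nat_lit 76) (nat_lit 0) (XT.lf (nat_lit 0) (nat_lit 27185345707) (nat_lit 152) (nat_lit 11474903119) (nat_lit 0) (nat_lit 1350471234) (nat_lit 8) (nat_lit 5) (nat_lit 10) (nat_lit 4) (nat_lit 8) (nat_lit 4) (nat_lit 306) (nat_lit 230) (nat_lit 184)) (XT.nd (nat_lit 78) (nat_lit 76) (nat_lit 0) (XT.lf (nat_lit 0) (nat_lit 32299946803) (nat_lit 152) (nat_lit 3229447821) (nat_lit 0) (nat_lit 6319211000) (nat_lit 8) (nat_lit 5) (nat_lit 10) (nat_lit 4) (nat_lit 8) (nat_lit 4) (nat_lit 307) (nat_lit 230) (nat_lit 183)) (XT.lf (nat_lit 0) (nat_lit 5462872870) (nat_lit 76) (nat_lit 32217458299) (nat_lit 76) (nat_lit 6097806944) (nat_lit 7) (nat_lit 4) (nat_lit 8) (nat_lit 5) (nat_lit 8) (nat_lit 4) (nat_lit 308) (nat_lit 230) (nat_lit 182)))))) (XT.nd (nat_lit 390) (nat_lit 0) (nat_lit 0) (XT.nd (nat_lit 156) (nat_lit 76) (nat_lit 0) (XT.nd (nat_lit 78)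 (nat_lit 76) (nat_lit 0) (XT.lf (nat_lit 0) (nat_lit 14587351946) (nat_lit 76) (nat_lit 28734517392) (nat_lit 76) (nat_lit 2482565511) (nat_lit 7) (nat_lit 4) (nat_lit 8) (nat_lit 5) (nat_lit 8) (nat_lit 4) (nat_lit 309) (nat_lit 230) (nat_lit 181)) (XT.lf (nat_lit 0) (nat_lit 1248220077) (nat_lit 152) (nat_lit 23844065625) (nat_lit 76) (nat_lit 22840617359) (nat_lit 6) (nat_lit 5) (nat_lit 8) (nat_lit 5) (nat_lit 7) (nat_lit 4) (nat_lit 310) (nat_lit 230) (nat_lit 180))) (XT.nd (nat_lit 78) (nat_lit 76) (nat_lit 0) (XT.lf (nat_lit 0) (nat_lit 5076976093) (nat_lit 152) (nat_lit 16191691389) (nat_lit 76) (nat_lit 28899552067) (nat_lit 6) (nat_lit 5) (nat_lit 8) (nat_lit 5) (nat_lit 7) (nat_lit 4) (nat_lit 311) (nat_lit 230) (nat_lit 179)) (XT.nd (nat_lit 78) (nat_lit 76) (nat_lit 0) (XT.lf (nat_lit 0) (nat_lit 9061262419) (nat_lit 152) (nat_lit 8217876318) (nat_lit 76) (nat_lit 35237283677)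 (nat_lit 6) (nat_lit 5) (nat_lit 8) (nat_lit 5) (nat_lit 7) (nat_lit 4) (nat_lit 312) (nat_lit 230) (nat_lit 178)) (XT.lf (nat_lit 0) (nat_lit 98282710) (nat_lit 76) (nat_lit 13113227491) (nat_lit 152) (nat_lit 41771564068) (nat_lit 5) (nat_lit 5) (nat_lit 6) (nat_lit 5) (nat_lit 7) (nat_lit 4) (nat_lit 313) (nat_lit 230) (nat_lit 177))))) (XT.nd (nat_lit 234) (nat_lit 0) (nat_lit 0) (XT.nd (nat_lit 78) (nat_lit 0) (nat_lit 0) (XT.lf (nat_lit 0) (nat_lit 8945384636) (nat_lit 76) (nat_lit 8675368348) (nat_lit 152) (nat_lit 39950800553) (nat_lit 5) (nat_lit 5) (nat_lit 6) (nat_lit 5) (nat_lit 7) (nat_lit 4) (nat_lit 314) (nat_lit 230) (nat_lit 176)) (XT.nd (nat_lit 78) (nat_lit 0) (nat_lit 0) (XT.lf (nat_lit 0) (nat_lit 18180942134) (nat_lit 76) (nat_lit 4037979416) (nat_lit 152) (nat_lit 38071518737) (nat_lit 5) (nat_lit 5) (nat_lit 6) (nat_lit 5) (nat_lit 7) (nat_lit 4) (nat_lit 315) (nat_lit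 230) (nat_lit 175)) (XT.lf (nat_lit 0) (nat_lit 27024749948) (nat_lit 152) (nat_lit 35327049461) (nat_lit 0) (nat_lit 794175067) (nat_lit 5) (nat_lit 5) (nat_lit 7) (nat_lit 4) (nat_lit 5) (nat_lit 4) (nat_lit 316) (nat_lit 230) (nat_lit 174)))) (XT.nd (nat_lit 78) (nat_lit 0) (nat_lit 0) (XT.lf (nat_lit 0) (nat_lit 32082826682) (nat_lit 152) (nat_lit 28295820193) (nat_lit 0) (nat_lit 5765313739) (nat_lit 5) (nat_lit 5) (nat_lit 7) (nat_lit 4) (nat_lit 5) (nat_lit 4) (nat_lit 317) (nat_lit 230) (nat_lit 173)) (XT.nd (nat_lit 78) (nat_lit 0) (nat_lit 0) (XT.lf (nat_lit 0) (nat_lit 37366379264) (nat_lit 152) (nat_lit 20960253799) (nat_lit 0) (nat_lit 10966068167) (nat_lit 5) (nat_lit 5) (nat_lit 7) (nat_lit 4) (nat_lit 5) (nat_lit 4) (nat_lit 318) (nat_lit 230) (nat_lit 172)) (XT.lf (nat_lit 0) (nat_lit 42887987581) (nat_lit 152) (nat_lit 13302884644) (nat_lit 0) (nat_lit 16408821099) (nat_lit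 5) (nat_lit 5) (nat_lit 7) (nat_lit 4) (nat_lit 5) (nat_lit 4) (nat_lit 319) (nat_lit 230) (nat_lit 171))))))))
noncomputable def xc32 : XT := (XT.nd (nat_lit 33384) (nat_lit 0) (nat_lit 1292) (XT.nd (nat_lit 780) (nat_lit 76) (nat_lit 0) (XT.nd (nat_lit 390) (nat_lit 0) (nat_lit 0) (XT.nd (nat_lit 156) (nat_lit 0) (nat_lit 0) (XT.nd (nat_lit 78) (nat_lit 76) (nat_lit 0) (XT.lf (nat_lit 0) (nat_lit 48660798320) (nat_lit 152) (nat_lit 5305480897) (nat_lit 0) (nat_lit 22106531471) (nat_lit 5) (nat_lit 5) (nat_lit 7) (nat_lit 4) (nat_lit 5) (nat_lit 4) (nat_lit 320) (nat_lit 230) (nat_lit 170)) (XT.lf (nat_lit 0) (nat_lit 3111719738) (nat_lit 76) (nat_lit 51616748283) (nat_lit 76) (nat_lit 24990957275) (nat_lit 4) (nat_lit 4) (nat_lit 5) (nat_lit 5) (nat_lit 5) (nat_lit 4) (nat_lit 321) (nat_lit 230) (nat_lit 169))) (XT.nd (nat_lit 78) (nat_lit 0) (nat_lit 0) (XT.lf (nat_lit 0) (nat_lit 12021024551)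 (nat_lit 76) (nat_lit 49110165929) (nat_lit 76) (nat_lit 22416256675) (nat_lit 4) (nat_lit 4) (nat_lit 5) (nat_lit 5) (nat_lit 5) (nat_lit 4) (nat_lit 322) (nat_lit 230) (nat_lit 168)) (XT.nd (nat_lit 78) (nat_lit 0) (nat_lit 0) (XT.lf (nat_lit 0) (nat_lit 21338056698) (nat_lit 76) (nat_lit 46494139056) (nat_lit 76) (nat_lit 19735355282) (nat_lit 4) (nat_lit 4) (nat_lit 5) (nat_lit 5) (nat_lit 5) (nat_lit 4) (nat_lit 323) (nat_lit 230) (nat_lit 167)) (XT.lf (nat_lit 0) (nat_lit 31084999590) (nat_lit 76) (nat_lit 43762439031) (nat_lit 76) (nat_lit 16941869999) (nat_lit 4) (nat_lit 4) (nat_lit 5) (nat_lit 5) (nat_lit 5) (nat_lit 4) (nat_lit 324) (nat_lit 230) (nat_lit 166))))) (XT.nd (nat_lit 156) (nat_lit 0) (nat_lit 0) (XT.nd (nat_lit 78) (nat_lit 0) (nat_lit 0) (XT.lf (nat_lit 0) (nat_lit 41285060232) (nat_lit 76) (nat_lit 40908561804) (nat_lit 76) (nat_lit 14029149670) (nat_lit 4) (nat_lit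 4) (nat_lit 5) (nat_lit 5) (nat_lit 5) (nat_lit 4) (nat_lit 325) (nat_lit 230) (nat_lit 165)) (XT.lf (nat_lit 0) (nat_lit 51962524485) (nat_lit 76) (nat_lit 37925712430) (nat_lit 76) (nat_lit 10990259246) (nat_lit 4) (nat_lit 4) (nat_lit 5) (nat_lit 5) (nat_lit 5) (nat_lit 4) (nat_lit 326) (nat_lit 230) (nat_lit 164))) (XT.nd (nat_lit 78) (nat_lit 0) (nat_lit 0) (XT.lf (nat_lit 0) (nat_lit 63142814881) (nat_lit 76) (nat_lit 34806788887) (nat_lit 76) (nat_lit 7817963275) (nat_lit 4) (nat_lit 4) (nat_lit 5) (nat_lit 5) (nat_lit 5) (nat_lit 4) (nat_lit 327) (nat_lit 230) (nat_lit 163)) (XT.nd (nat_lit 78) (nat_lit 0) (nat_lit 0) (XT.lf (nat_lit 0) (nat_lit 74852551160) (nat_lit 76) (nat_lit 31544365166) (nat_lit 76) (nat_lit 4504708669) (nat_lit 4) (nat_lit 4) (nat_lit 5) (nat_lit 5) (nat_lit 5) (nat_lit 4) (nat_lit 328) (nat_lit 230) (nat_lit 162)) (XT.lf (nat_lit 0) (nat_lit 87119613646)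 (nat_lit 76) (nat_lit 28130673592) (nat_lit 76) (nat_lit 1042606729) (nat_lit 4) (nat_lit 4) (nat_lit 5) (nat_lit 5) (nat_lit 5) (nat_lit 4) (nat_lit 329) (nat_lit 230) (nat_lit 161)))))) (XT.nd (nat_lit 32214) (nat_lit 0) (nat_lit 5320) (XT.nd (nat_lit 31980) (nat_lit 0) (nat_lit 7524) (XT.nd (nat_lit 31902) (nat_lit 0) (nat_lit 9120) (XT.lf (nat_lit 0) (nat_lit 2526307179) (nat_lit 152) (nat_lit 22005768399) (nat_lit 76) (nat_lit 97421391703) (nat_lit 3) (nat_lit 5) (nat_lit 5) (nat_lit 5) (nat_lit 4) (nat_lit 4) (nat_lit 330) (nat_lit 230) (nat_lit 160)) (XT.lf (nat_lit 0) (nat_lit 2480150075) (nat_lit 532) (nat_lit 649356298) (nat_lit 532) (nat_lit 649356298) (nat_lit 123) (nat_lit 4) (nat_lit 130) (nat_lit 5) (nat_lit 130) (nat_lit 4) (nat_lit 258) (nat_lit 231) (nat_lit 231))) (XT.nd (nat_lit 78) (nat_lit 1064) (nat_lit 0) (XT.lf (nat_lit 0) (nat_lit 3547861922) (nat_lit 532) (nat_lit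 2784617438) (nat_lit 0) (nat_lit 1362323872) (nat_lit 116) (nat_lit 5) (nat_lit 123) (nat_lit 4) (nat_lit 116) (nat_lit 4) (nat_lit 259) (nat_lit 231) (nat_lit 230)) (XT.nd (nat_lit 78) (nat_lit 456) (nat_lit 0) (XT.lf (nat_lit 0) (nat_lit 613732594) (nat_lit 608) (nat_lit 3021125692) (nat_lit 76) (nat_lit 4208340603) (nat_lit 108) (nat_lit 5) (nat_lit 116) (nat_lit 5) (nat_lit 109) (nat_lit 4) (nat_lit 260) (nat_lit 231) (nat_lit 229)) (XT.lf (nat_lit 0) (nat_lit 4671128748) (nat_lit 456) (nat_lit 708417579) (nat_lit 532) (nat_lit 2623401616) (nat_lit 102) (nat_lit 5) (nat_lit 108) (nat_lit 5) (nat_lit 109) (nat_lit 4) (nat_lit 261) (nat_lit 231) (nat_lit 228))))) (XT.nd (nat_lit 156) (nat_lit 1292) (nat_lit 0) (XT.nd (nat_lit 78) (nat_lit 380) (nat_lit 0) (XT.lf (nat_lit 0) (nat_lit 2051142558) (nat_lit 532) (nat_lit 3736472100) (nat_lit 76) (nat_lit 2386685725) (nat_lit 95) (nat_lit 5)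 (nat_lit 102) (nat_lit 5) (nat_lit 96) (nat_lit 4) (nat_lit 262) (nat_lit 231) (nat_lit 227)) (XT.lf (nat_lit 0) (nat_lit 4114163592) (nat_lit 380) (nat_lit 2664226718) (nat_lit 456) (nat_lit 1579515727) (nat_lit 90) (nat_lit 5) (nat_lit 95) (nat_lit 5) (nat_lit 96) (nat_lit 4) (nat_lit 263) (nat_lit 231) (nat_lit 226))) (XT.nd (nat_lit 78) (nat_lit 836) (nat_lit 0) (XT.lf (nat_lit 0) (nat_lit 3006314433) (nat_lit 456) (nat_lit 4876325872) (nat_lit 76) (nat_lit 671424891) (nat_lit 84) (nat_lit 5) (nat_lit 90) (nat_lit 5) (nat_lit 85) (nat_lit 4) (nat_lit 264) (nat_lit 231) (nat_lit 225)) (XT.nd (nat_lit 78) (nat_lit 456) (nat_lit 0) (XT.lf (nat_lit 0) (nat_lit 3101160611) (nat_lit 380) (nat_lit 4592222452) (nat_lit 456) (nat_lit 1069624452) (nat_lit 79) (nat_lit 5) (nat_lit 84) (nat_lit 5) (nat_lit 85) (nat_lit 4) (nat_lit 265) (nat_lit 231) (nat_lit 224)) (XT.lf (nat_lit 0) (nat_lit 2370593952)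 (nat_lit 380) (nat_lit 1072590613) (nat_lit 456) (nat_lit 5542254009) (nat_lit 73) (nat_lit 5) (nat_lit 78) (nat_lit 5) (nat_lit 79) (nat_lit 5) (nat_lit 266) (nat_lit 231) (nat_lit 223))))))) (XT.nd (nat_lit 780) (nat_lit 1520) (nat_lit 0) (XT.nd (nat_lit 390) (nat_lit 1140) (nat_lit 0) (XT.nd (nat_lit 156) (nat_lit 684) (nat_lit 0) (XT.nd (nat_lit 78) (nat_lit 380) (nat_lit 0) (XT.lf (nat_lit 0) (nat_lit 1460088186) (nat_lit 304) (nat_lit 6612368838) (nat_lit 380) (nat_lit 1149341321) (nat_lit 69) (nat_lit 5) (nat_lit 73) (nat_lit 5) (nat_lit 74) (nat_lit 4) (nat_lit 267) (nat_lit 231) (nat_lit 222)) (XT.lf (nat_lit 0) (nat_lit 336017215) (nat_lit 304) (nat_lit 2961432803) (nat_lit 380) (nat_lit 6174947513) (nat_lit 64) (nat_lit 5) (nat_lit 68) (nat_lit 5) (nat_lit 69) (nat_lit 5) (nat_lit 268) (nat_lit 231) (nat_lit 221))) (XT.nd (nat_lit 78) (nat_lit 684) (nat_lit 0) (XT.lf (nat_lit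 0) (nat_lit 7857007065) (nat_lit 380) (nat_lit 986334605) (nat_lit 76) (nat_lit 894869664) (nat_lit 64) (nat_lit 5) (nat_lit 69) (nat_lit 5) (nat_lit 65) (nat_lit 4) (nat_lit 269) (nat_lit 231) (nat_lit 220)) (XT.nd (nat_lit 78) (nat_lit 304) (nat_lit 0) (XT.lf (nat_lit 0) (nat_lit 2509779450) (nat_lit 380) (nat_lit 2579467418) (nat_lit 76) (nat_lit 4929714600) (nat_lit 59) (nat_lit 5) (nat_lit 64) (nat_lit 5) (nat_lit 60) (nat_lit 5) (nat_lit 270) (nat_lit 231) (nat_lit 219)) (XT.lf (nat_lit 0) (nat_lit 5869811536) (nat_lit 304) (nat_lit 1115745908) (nat_lit 380) (nat_lit 3330906330) (nat_lit 55) (nat_lit 5) (nat_lit 59) (nat_lit 5) (nat_lit 60) (nat_lit 5) (nat_lit 271) (nat_lit 231) (nat_lit 218))))) (XT.nd (nat_lit 156) (nat_lit 532) (nat_lit 0) (XT.nd (nat_lit 78) (nat_lit 304) (nat_lit 0) (XT.lf (nat_lit 0) (nat_lit 971585057) (nat_lit 304) (nat_lit 6642540698) (nat_lit 76) (nat_lit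 3016701402) (nat_lit 51) (nat_lit 5) (nat_lit 55) (nat_lit 5) (nat_lit 52) (nat_lit 5) (nat_lit 272) (nat_lit 231) (nat_lit 217)) (XT.lf (nat_lit 0) (nat_lit 1752351883) (nat_lit 304) (nat_lit 3588832962) (nat_lit 380) (nat_lit 5621458788) (nat_lit 47) (nat_lit 5) (nat_lit 51) (nat_lit 5) (nat_lit 52) (nat_lit 5) (nat_lit 273) (nat_lit 231) (nat_lit 216))) (XT.nd (nat_lit 78) (nat_lit 532) (nat_lit 0) (XT.lf (nat_lit 0) (nat_lit 9855104707) (nat_lit 380) (nat_lit 822936747) (nat_lit 76) (nat_lit 635568050) (nat_lit 47) (nat_lit 5) (nat_lit 52) (nat_lit 5) (nat_lit 48) (nat_lit 4) (nat_lit 274) (nat_lit 231) (nat_lit 215)) (XT.nd (nat_lit 78) (nat_lit 228) (nat_lit 0) (XT.lf (nat_lit 0) (nat_lit 2825069723) (nat_lit 304) (nat_lit 3812130721) (nat_lit 76) (nat_lit 5045312674) (nat_lit 43) (nat_lit 5) (nat_lit 47) (nat_lit 5) (nat_lit 44) (nat_lit 5) (nat_lit 275) (nat_lit 231) (nat_lit 214))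 (XT.lf (nat_lit 0) (nat_lit 4825273446) (nat_lit 228) (nat_lit 2383592897) (nat_lit 304) (nat_lit 4863370051) (nat_lit 40) (nat_lit 5) (nat_lit 43) (nat_lit 5) (nat_lit 44) (nat_lit 5) (nat_lit 276) (nat_lit 231) (nat_lit 213)))))) (XT.nd (nat_lit 390) (nat_lit 760) (nat_lit 0) (XT.nd (nat_lit 156) (nat_lit 456) (nat_lit 0) (XT.nd (nat_lit 78) (nat_lit 76) (nat_lit 0) (XT.lf (nat_lit 0) (nat_lit 1300884519) (nat_lit 228) (nat_lit 10448287375) (nat_lit 304) (nat_lit 734434295) (nat_lit 37) (nat_lit 5) (nat_lit 40) (nat_lit 5) (nat_lit 41) (nat_lit 4) (nat_lit 277) (nat_lit 231) (nat_lit 212)) (XT.lf (nat_lit 0) (nat_lit 3498262281) (nat_lit 304) (nat_lit 2740392174) (nat_lit 76) (nat_lit 6677082972) (nat_lit 36) (nat_lit 5) (nat_lit 40) (nat_lit 5) (nat_lit 37) (nat_lit 5) (nat_lit 278) (nat_lit 231) (nat_lit 211))) (XT.nd (nat_lit 78) (nat_lit 228) (nat_lit 0) (XT.lf (nat_lit 0) (nat_lit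 6048731627) (nat_lit 228) (nat_lit 1811418717) (nat_lit 304) (nat_lit 5511370867) (nat_lit 33) (nat_lit 5) (nat_lit 36) (nat_lit 5) (nat_lit 37) (nat_lit 5) (nat_lit 279) (nat_lit 231) (nat_lit 210)) (XT.nd (nat_lit 78) (nat_lit 76) (nat_lit 0) (XT.lf (nat_lit 0) (nat_lit 1299214796) (nat_lit 152) (nat_lit 11087301115) (nat_lit 228) (nat_lit 1465421549) (nat_lit 31) (nat_lit 5) (nat_lit 33) (nat_lit 5) (nat_lit 34) (nat_lit 4) (nat_lit 280) (nat_lit 231) (nat_lit 209)) (XT.lf (nat_lit 0) (nat_lit 2703766326) (nat_lit 228) (nat_lit 4075780839) (nat_lit 76) (nat_lit 7576984608) (nat_lit 30) (nat_lit 5) (nat_lit 33) (nat_lit 5) (nat_lit 31) (nat_lit 5) (nat_lit 281) (nat_lit 231) (nat_lit 208))))) (XT.nd (nat_lit 234) (nat_lit 304) (nat_lit 0) (XT.nd (nat_lit 78) (nat_lit 228) (nat_lit 0) (XT.lf (nat_lit 0) (nat_lit 4729912698) (nat_lit 228) (nat_lit 2253449838) (nat_lit 304) (nat_lit 7904797050)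 (nat_lit 27) (nat_lit 5) (nat_lit 30) (nat_lit 5) (nat_lit 31) (nat_lit 5) (nat_lit 282) (nat_lit 231) (nat_lit 207)) (XT.nd (nat_lit 78) (nat_lit 228) (nat_lit 0) (XT.lf (nat_lit 0) (nat_lit 11433075261) (nat_lit 304) (nat_lit 1579069557) (nat_lit 76) (nat_lit 2435736766) (nat_lit 27) (nat_lit 5) (nat_lit 31) (nat_lit 5) (nat_lit 28) (nat_lit 4) (nat_lit 283) (nat_lit 231) (nat_lit 206)) (XT.lf (nat_lit 0) (nat_lit 56785404) (nat_lit 228) (nat_lit 8648644420) (nat_lit 76) (nat_lit 7330667984) (nat_lit 24) (nat_lit 5) (nat_lit 27) (nat_lit 5) (nat_lit 25) (nat_lit 5) (nat_lit 284) (nat_lit 231) (nat_lit 205)))) (XT.nd (nat_lit 78) (nat_lit 304) (nat_lit 0) (XT.lf (nat_lit 0) (nat_lit 4163408978) (nat_lit 228) (nat_lit 18642819) (nat_lit 76) (nat_lit 12473219380) (nat_lit 24) (nat_lit 5) (nat_lit 27) (nat_lit 5) (nat_lit 25) (nat_lit 5) (nat_lit 285) (nat_lit 231) (nat_lit 204)) (XT.nd (nat_lit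 78) (nat_lit 152) (nat_lit 0) (XT.lf (nat_lit 0) (nat_lit 8470505731) (nat_lit 228) (nat_lit 8244287397) (nat_lit 76) (nat_lit 590920959) (nat_lit 22) (nat_lit 5) (nat_lit 25) (nat_lit 5) (nat_lit 23) (nat_lit 4) (nat_lit 286) (nat_lit 231) (nat_lit 203)) (XT.lf (nat_lit 0) (nat_lit 422737941) (nat_lit 152) (nat_lit 12521595491) (nat_lit 228) (nat_lit 5045961696) (nat_lit 20) (nat_lit 5) (nat_lit 22) (nat_lit 5) (nat_lit 23) (nat_lit 4) (nat_lit 287) (nat_lit 231) (nat_lit 202))))))))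
noncomputable def xc33 : XT := (XT.nd (nat_lit 1560) (nat_lit 304) (nat_lit 0) (XT.nd (nat_lit 780) (nat_lit 304) (nat_lit 0) (XT.nd (nat_lit 390) (nat_lit 304) (nat_lit 0) (XT.nd (nat_lit 156) (nat_lit 228) (nat_lit 0) (XT.nd (nat_lit 78) (nat_lit 76) (nat_lit 0) (XT.lf (nat_lit 0) (nat_lit 9549195673) (nat_lit 152) (nat_lit 8085555547) (nat_lit 228) (nat_lit 1074716820) (nat_lit 20) (nat_lit 5) (nat_lit 22) (nat_lit 5) (nat_lit 23) (nat_lit 4) (nat_lit 288) (nat_lit 231) (nat_lit 201)) (XT.lf (nat_lit 0) (nat_lit 2946097362) (nat_lit 228) (nat_lit 503515263) (nat_lit 76) (nat_lit 16016890806) (nat_lit 19) (nat_lit 5) (nat_lit 22) (nat_lit 5) (nat_lit 20) (nat_lit 5) (nat_lit 289) (nat_lit 231) (nat_lit 200))) (XT.nd (nat_lit 78) (nat_lit 76) (nat_lit 0) (XT.lf (nat_lit 0) (nat_lit 7158385076) (nat_lit 228) (nat_lit 11666521472) (nat_lit 76) (nat_lit 1435916930) (nat_lit 17) (nat_lit 5)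 (nat_lit 20) (nat_lit 5) (nat_lit 18) (nat_lit 4) (nat_lit 290) (nat_lit 231) (nat_lit 199)) (XT.nd (nat_lit 78) (nat_lit 76) (nat_lit 0) (XT.lf (nat_lit 0) (nat_lit 11539254180) (nat_lit 228) (nat_lit 3104710512) (nat_lit 76) (nat_lit 6452281442) (nat_lit 17) (nat_lit 5) (nat_lit 20) (nat_lit 5) (nat_lit 18) (nat_lit 4) (nat_lit 291) (nat_lit 231) (nat_lit 198)) (XT.lf (nat_lit 0) (nat_lit 5873451264) (nat_lit 76) (nat_lit 10243998172) (nat_lit 152) (nat_lit 5856761641) (nat_lit 16) (nat_lit 5) (nat_lit 17) (nat_lit 5) (nat_lit 18) (nat_lit 4) (nat_lit 292) (nat_lit 231) (nat_lit 197))))) (XT.nd (nat_lit 156) (nat_lit 76) (nat_lit 0) (XT.nd (nat_lit 78) (nat_lit 228) (nat_lit 0) (XT.lf (nat_lit 0) (nat_lit 15242670382) (nat_lit 76) (nat_lit 5638210753) (nat_lit 152) (nat_lit 2016617271) (nat_lit 16) (nat_lit 5) (nat_lit 17) (nat_lit 5) (nat_lit 18) (nat_lit 4) (nat_lit 293) (nat_lit 231)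 (nat_lit 196)) (XT.lf (nat_lit 0) (nat_lit 1096991031) (nat_lit 152) (nat_lit 816906340) (nat_lit 228) (nat_lit 21954446044) (nat_lit 13) (nat_lit 5) (nat_lit 15) (nat_lit 5) (nat_lit 16) (nat_lit 5) (nat_lit 294) (nat_lit 231) (nat_lit 195))) (XT.nd (nat_lit 78) (nat_lit 76) (nat_lit 0) (XT.lf (nat_lit 0) (nat_lit 6049091950) (nat_lit 228) (nat_lit 14617779246) (nat_lit 76) (nat_lit 4218864992) (nat_lit 13) (nat_lit 5) (nat_lit 16) (nat_lit 5) (nat_lit 14) (nat_lit 4) (nat_lit 295) (nat_lit 231) (nat_lit 194)) (XT.nd (nat_lit 78) (nat_lit 76) (nat_lit 0) (XT.lf (nat_lit 0) (nat_lit 10331751828) (nat_lit 228) (nat_lit 6176041827) (nat_lit 76) (nat_lit 9448079333) (nat_lit 13) (nat_lit 5) (nat_lit 16) (nat_lit 5) (nat_lit 14) (nat_lit 4) (nat_lit 296) (nat_lit 231) (nat_lit 193)) (XT.lf (nat_lit 0) (nat_lit 2633194966) (nat_lit 76) (nat_lit 12156338128) (nat_lit 152) (nat_lit 12291244890)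 (nat_lit 12) (nat_lit 5) (nat_lit 13) (nat_lit 5) (nat_lit 14) (nat_lit 4) (nat_lit 297) (nat_lit 231) (nat_lit 192)))))) (XT.nd (nat_lit 390) (nat_lit 76) (nat_lit 0) (XT.nd (nat_lit 156) (nat_lit 228) (nat_lit 0) (XT.nd (nat_lit 78) (nat_lit 0) (nat_lit 0) (XT.lf (nat_lit 0) (nat_lit 11909021721) (nat_lit 76) (nat_lit 7562508683) (nat_lit 152) (nat_lit 8790444689) (nat_lit 12) (nat_lit 5) (nat_lit 13) (nat_lit 5) (nat_lit 14) (nat_lit 4) (nat_lit 298) (nat_lit 231) (nat_lit 191)) (XT.lf (nat_lit 0) (nat_lit 21550608399) (nat_lit 76) (nat_lit 2777733546) (nat_lit 152) (nat_lit 5175751229) (nat_lit 12) (nat_lit 5) (nat_lit 13) (nat_lit 5) (nat_lit 14) (nat_lit 4) (nat_lit 299) (nat_lit 231) (nat_lit 190))) (XT.nd (nat_lit 78) (nat_lit 76) (nat_lit 0) (XT.lf (nat_lit 0) (nat_lit 764501780) (nat_lit 152) (nat_lit 28635616537) (nat_lit 152) (nat_lit 1409113729) (nat_lit 10) (nat_lit 4) (nat_lit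 12) (nat_lit 5) (nat_lit 12) (nat_lit 4) (nat_lit 300) (nat_lit 231) (nat_lit 189)) (XT.nd (nat_lit 78) (nat_lit 0) (nat_lit 0) (XT.lf (nat_lit 0) (nat_lit 2551283362) (nat_lit 228) (nat_lit 22239142512) (nat_lit 76) (nat_lit 7386887314) (nat_lit 9) (nat_lit 5) (nat_lit 12) (nat_lit 5) (nat_lit 10) (nat_lit 4) (nat_lit 301) (nat_lit 231) (nat_lit 188)) (XT.lf (nat_lit 0) (nat_lit 6627862342) (nat_lit 228) (nat_lit 14146301403) (nat_lit 76) (nat_lit 12840866183) (nat_lit 9) (nat_lit 5) (nat_lit 12) (nat_lit 5) (nat_lit 10) (nat_lit 4) (nat_lit 302) (nat_lit 231) (nat_lit 187))))) (XT.nd (nat_lit 156) (nat_lit 0) (nat_lit 0) (XT.nd (nat_lit 78) (nat_lit 76) (nat_lit 0) (XT.lf (nat_lit 0) (nat_lit 10857826234) (nat_lit 228) (nat_lit 5733393007) (nat_lit 76) (nat_lit 18534992518) (nat_lit 9) (nat_lit 5) (nat_lit 12) (nat_lit 5) (nat_lit 10) (nat_lit 4) (nat_lit 303) (nat_lit 231) (nat_lit 186))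 (XT.lf (nat_lit 0) (nat_lit 3079709637) (nat_lit 76) (nat_lit 12201140795) (nat_lit 152) (nat_lit 21432718177) (nat_lit 8) (nat_lit 5) (nat_lit 9) (nat_lit 5) (nat_lit 10) (nat_lit 4) (nat_lit 304) (nat_lit 231) (nat_lit 185))) (XT.nd (nat_lit 78) (nat_lit 0) (nat_lit 0) (XT.lf (nat_lit 0) (nat_lit 12375039942) (nat_lit 76) (nat_lit 7562499817) (nat_lit 152) (nat_lit 18442437931) (nat_lit 8) (nat_lit 5) (nat_lit 9) (nat_lit 5) (nat_lit 10) (nat_lit 4) (nat_lit 305) (nat_lit 231) (nat_lit 184)) (XT.nd (nat_lit 78) (nat_lit 0) (nat_lit 0) (XT.lf (nat_lit 0) (nat_lit 22060623882) (nat_lit 76) (nat_lit 2722147951) (nat_lit 152) (nat_lit 15348321098) (nat_lit 8) (nat_lit 5) (nat_lit 9) (nat_lit 5) (nat_lit 10) (nat_lit 4) (nat_lit 306) (nat_lit 231) (nat_lit 183)) (XT.lf (nat_lit 0) (nat_lit 29850494144) (nat_lit 152) (nat_lit 9833972507) (nat_lit 0) (nat_lit 2285944668) (nat_lit 8) (nat_lit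 5) (nat_lit 10) (nat_lit 4) (nat_lit 8) (nat_lit 4) (nat_lit 307) (nat_lit 231) (nat_lit 182))))))) (XT.nd (nat_lit 780) (nat_lit 76) (nat_lit 0) (XT.nd (nat_lit 390) (nat_lit 76) (nat_lit 0) (XT.nd (nat_lit 156) (nat_lit 76) (nat_lit 0) (XT.nd (nat_lit 78) (nat_lit 76) (nat_lit 0) (XT.lf (nat_lit 0) (nat_lit 35158640478) (nat_lit 152) (nat_lit 1281705195) (nat_lit 0) (nat_lit 7461790476) (nat_lit 8) (nat_lit 5) (nat_lit 10) (nat_lit 4) (nat_lit 8) (nat_lit 4) (nat_lit 308) (nat_lit 231) (nat_lit 181)) (XT.lf (nat_lit 0) (nat_lit 7784771305) (nat_lit 76) (nat_lit 32983743007) (nat_lit 76) (nat_lit 5160892503) (nat_lit 7) (nat_lit 4) (nat_lit 8) (nat_lit 5) (nat_lit 8) (nat_lit 4) (nat_lit 309) (nat_lit 231) (nat_lit 180))) (XT.nd (nat_lit 78) (nat_lit 76) (nat_lit 0) (XT.lf (nat_lit 0) (nat_lit 17267914583) (nat_lit 76) (nat_lit 29366873540) (nat_lit 76) (nat_lit 1424022560) (nat_lit 7)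 (nat_lit 4) (nat_lit 8) (nat_lit 5) (nat_lit 8) (nat_lit 4) (nat_lit 310) (nat_lit 231) (nat_lit 179)) (XT.nd (nat_lit 78) (nat_lit 0) (nat_lit 0) (XT.lf (nat_lit 0) (nat_lit 2415005415) (nat_lit 152) (nat_lit 23154676155) (nat_lit 76) (nat_lit 24725402868) (nat_lit 6) (nat_lit 5) (nat_lit 8) (nat_lit 5) (nat_lit 7) (nat_lit 4) (nat_lit 311) (nat_lit 231) (nat_lit 178)) (XT.lf (nat_lit 0) (nat_lit 6382609978) (nat_lit 152) (nat_lit 15209282862) (nat_lit 76) (nat_lit 31051915043) (nat_lit 6) (nat_lit 5) (nat_lit 8) (nat_lit 5) (nat_lit 7) (nat_lit 4) (nat_lit 312) (nat_lit 231) (nat_lit 177))))) (XT.nd (nat_lit 156) (nat_lit 0) (nat_lit 0) (XT.nd (nat_lit 78) (nat_lit 76) (nat_lit 0) (XT.lf (nat_lit 0) (nat_lit 10516025616) (nat_lit 152) (nat_lit 6922110042) (nat_lit 76) (nat_lit 37672848215) (nat_lit 6) (nat_lit 5) (nat_lit 8) (nat_lit 5) (nat_lit 7) (nat_lit 4) (nat_lit 313) (nat_lit 231)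 (nat_lit 176)) (XT.lf (nat_lit 0) (nat_lit 1760935869) (nat_lit 76) (nat_lit 13081085117) (nat_lit 152) (nat_lit 42859957835) (nat_lit 5) (nat_lit 5) (nat_lit 6) (nat_lit 5) (nat_lit 7) (nat_lit 4) (nat_lit 314) (nat_lit 231) (nat_lit 175))) (XT.nd (nat_lit 78) (nat_lit 0) (nat_lit 0) (XT.lf (nat_lit 0) (nat_lit 10971452937) (nat_lit 76) (nat_lit 8454085577) (nat_lit 152) (nat_lit 40995783975) (nat_lit 5) (nat_lit 5) (nat_lit 6) (nat_lit 5) (nat_lit 7) (nat_lit 4) (nat_lit 315) (nat_lit 231) (nat_lit 174)) (XT.nd (nat_lit 78) (nat_lit 0) (nat_lit 0) (XT.lf (nat_lit 0) (nat_lit 20593607402) (nat_lit 76) (nat_lit 3616020111) (nat_lit 152) (nat_lit 39067897907) (nat_lit 5) (nat_lit 5) (nat_lit 6) (nat_lit 5) (nat_lit 7) (nat_lit 4) (nat_lit 316) (nat_lit 231) (nat_lit 173)) (XT.lf (nat_lit 0) (nat_lit 29219565344) (nat_lit 152) (nat_lit 35640965615) (nat_lit 0) (nat_lit 1416440538) (nat_lit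 5) (nat_lit 5) (nat_lit 7) (nat_lit 4) (nat_lit 5) (nat_lit 4) (nat_lit 317) (nat_lit 231) (nat_lit 172)))))) (XT.nd (nat_lit 390) (nat_lit 0) (nat_lit 0) (XT.nd (nat_lit 156) (nat_lit 76) (nat_lit 0) (XT.nd (nat_lit 78) (nat_lit 0) (nat_lit 0) (XT.lf (nat_lit 0) (nat_lit 34490375538) (nat_lit 152) (nat_lit 28327338518) (nat_lit 0) (nat_lit 6608395347) (nat_lit 5) (nat_lit 5) (nat_lit 7) (nat_lit 4) (nat_lit 5) (nat_lit 4) (nat_lit 318) (nat_lit 231) (nat_lit 171)) (XT.lf (nat_lit 0) (nat_lit 39999848249) (nat_lit 152) (nat_lit 20690863932) (nat_lit 0) (nat_lit 12042767691) (nat_lit 5) (nat_lit 5) (nat_lit 7) (nat_lit 4) (nat_lit 5) (nat_lit 4) (nat_lit 319) (nat_lit 231) (nat_lit 170))) (XT.nd (nat_lit 78) (nat_lit 76) (nat_lit 0) (XT.lf (nat_lit 0) (nat_lit 45761101266) (nat_lit 152) (nat_lit 12713359774) (nat_lit 0) (nat_lit 17732496550) (nat_lit 5) (nat_lit 5) (nat_lit 7) (nat_lit 4)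 (nat_lit 5) (nat_lit 4) (nat_lit 320) (nat_lit 231) (nat_lit 169)) (XT.nd (nat_lit 78) (nat_lit 76) (nat_lit 0) (XT.lf (nat_lit 0) (nat_lit 51787851861) (nat_lit 152) (nat_lit 4375831988) (nat_lit 0) (nat_lit 23691128898) (nat_lit 5) (nat_lit 5) (nat_lit 7) (nat_lit 4) (nat_lit 5) (nat_lit 4) (nat_lit 321) (nat_lit 231) (nat_lit 168)) (XT.lf (nat_lit 0) (nat_lit 4427976453) (nat_lit 76) (nat_lit 53709037403) (nat_lit 76) (nat_lit 25547439920) (nat_lit 4) (nat_lit 4) (nat_lit 5) (nat_lit 5) (nat_lit 5) (nat_lit 4) (nat_lit 322) (nat_lit 231) (nat_lit 167))))) (XT.nd (nat_lit 234) (nat_lit 0) (nat_lit 0) (XT.nd (nat_lit 78) (nat_lit 0) (nat_lit 0) (XT.lf (nat_lit 0) (nat_lit 13727476472) (nat_lit 76) (nat_lit 51100390136) (nat_lit 76) (nat_lit 22877007395) (nat_lit 4) (nat_lit 4) (nat_lit 5) (nat_lit 5) (nat_lit 5) (nat_lit 4) (nat_lit 323) (nat_lit 231) (nat_lit 166)) (XT.nd (nat_lit 78)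 (nat_lit 0) (nat_lit 0) (XT.lf (nat_lit 0) (nat_lit 23457722098) (nat_lit 76) (nat_lit 48375718305) (nat_lit 76) (nat_lit 20093492462) (nat_lit 4) (nat_lit 4) (nat_lit 5) (nat_lit 5) (nat_lit 5) (nat_lit 4) (nat_lit 324) (nat_lit 231) (nat_lit 165)) (XT.lf (nat_lit 0) (nat_lit 33641880583) (nat_lit 76) (nat_lit 45528534598) (nat_lit 76) (nat_lit 17190267705) (nat_lit 4) (nat_lit 4) (nat_lit 5) (nat_lit 5) (nat_lit 5) (nat_lit 4) (nat_lit 325) (nat_lit 231) (nat_lit 164)))) (XT.nd (nat_lit 78) (nat_lit 0) (nat_lit 0) (XT.lf (nat_lit 0) (nat_lit 44304199924) (nat_lit 76) (nat_lit 42552060004) (nat_lit 76) (nat_lit 14160420683) (nat_lit 4) (nat_lit 4) (nat_lit 5) (nat_lit 5) (nat_lit 5) (nat_lit 4) (nat_lit 326) (nat_lit 231) (nat_lit 163)) (XT.nd (nat_lit 78) (nat_lit 0) (nat_lit 0) (XT.lf (nat_lit 0) (nat_lit 55470066595) (nat_lit 76) (nat_lit 39439207680) (nat_lit 76) (nat_lit 10996737474)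 (nat_lit 4) (nat_lit 4) (nat_lit 5) (nat_lit 5) (nat_lit 5) (nat_lit 4) (nat_lit 327) (nat_lit 231) (nat_lit 162)) (XT.lf (nat_lit 0) (nat_lit 67166065992) (nat_lit 76) (nat_lit 36182566072) (nat_lit 76) (nat_lit 7691685501) (nat_lit 4) (nat_lit 4) (nat_lit 5) (nat_lit 5) (nat_lit 5) (nat_lit 4) (nat_lit 328) (nat_lit 231) (nat_lit 161))))))))
noncomputable def xc34 : XT := (XT.nd (nat_lit 33306) (nat_lit 0) (nat_lit 684) (XT.nd (nat_lit 32526) (nat_lit 0) (nat_lit 3268) (XT.nd (nat_lit 32136) (nat_lit 0) (nat_lit 6080) (XT.nd (nat_lit 31902) (nat_lit 0) (nat_lit 8512) (XT.nd (nat_lit 31824) (nat_lit 0) (nat_lit 10716) (XT.lf (nat_lit 0) (nat_lit 79420045734) (nat_lit 76) (nat_lit 32774381273) (nat_lit 76) (nat_lit 4237395591) (nat_lit 4) (nat_lit 4) (nat_lit 5) (nat_lit 5) (nat_lit 5) (nat_lit 4) (nat_lit 329) (nat_lit 231) (nat_lit 160)) (XT.lf (nat_lit 0) (nat_lit 2548247649) (nat_lit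 988) (nat_lit 553853950) (nat_lit 988) (nat_lit 553853950) (nat_lit 145) (nat_lit 4) (nat_lit 158) (nat_lit 5) (nat_lit 158) (nat_lit 4) (nat_lit 256) (nat_lit 232) (nat_lit 232))) (XT.nd (nat_lit 78) (nat_lit 1064) (nat_lit 0) (XT.lf (nat_lit 0) (nat_lit 3667566320) (nat_lit 1140) (nat_lit 2459760963) (nat_lit 0) (nat_lit 1303906918) (nat_lit 130) (nat_lit 5) (nat_lit 145) (nat_lit 4) (nat_lit 130) (nat_lit 4) (nat_lit 257) (nat_lit 232) (nat_lit 231)) (XT.nd (nat_lit 78) (nat_lit 456) (nat_lit 0) (XT.lf (nat_lit 0) (nat_lit 928976367) (nat_lit 608) (nat_lit 2728941566) (nat_lit 76) (nat_lit 3903372280) (nat_lit 122) (nat_lit 5) (nat_lit 130) (nat_lit 5) (nat_lit 123) (nat_lit 4) (nat_lit 258) (nat_lit 232) (nat_lit 230)) (XT.lf (nat_lit 0) (nat_lit 4659273310) (nat_lit 456) (nat_lit 965330461) (nat_lit 532) (nat_lit 2077554415) (nat_lit 116) (nat_lit 5) (nat_lit 122) (nat_lit 5) (nat_lit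 123) (nat_lit 4) (nat_lit 259) (nat_lit 232) (nat_lit 229))))) (XT.nd (nat_lit 156) (nat_lit 1368) (nat_lit 0) (XT.nd (nat_lit 78) (nat_lit 456) (nat_lit 0) (XT.lf (nat_lit 0) (nat_lit 2522718063) (nat_lit 608) (nat_lit 3423047582) (nat_lit 76) (nat_lit 1908158633) (nat_lit 108) (nat_lit 5) (nat_lit 116) (nat_lit 5) (nat_lit 109) (nat_lit 4) (nat_lit 260) (nat_lit 232) (nat_lit 228)) (XT.lf (nat_lit 0) (nat_lit 4144166100) (nat_lit 456) (nat_lit 3036268033) (nat_lit 532) (nat_lit 836831264) (nat_lit 102) (nat_lit 5) (nat_lit 108) (nat_lit 5) (nat_lit 109) (nat_lit 4) (nat_lit 261) (nat_lit 232) (nat_lit 227))) (XT.nd (nat_lit 78) (nat_lit 836) (nat_lit 0) (XT.lf (nat_lit 0) (nat_lit 3673354640) (nat_lit 532) (nat_lit 4417034501) (nat_lit 76) (nat_lit 101921188) (nat_lit 95) (nat_lit 5) (nat_lit 102) (nat_lit 5) (nat_lit 96) (nat_lit 4) (nat_lit 262) (nat_lit 232) (nat_lit 226)) (XT.nd (nat_lit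 78) (nat_lit 456) (nat_lit 0) (XT.lf (nat_lit 0) (nat_lit 3304187288) (nat_lit 380) (nat_lit 4991714912) (nat_lit 456) (nat_lit 83462243) (nat_lit 90) (nat_lit 5) (nat_lit 95) (nat_lit 5) (nat_lit 96) (nat_lit 4) (nat_lit 263) (nat_lit 232) (nat_lit 225)) (XT.lf (nat_lit 0) (nat_lit 2707112755) (nat_lit 380) (nat_lit 1655512276) (nat_lit 456) (nat_lit 4216067907) (nat_lit 84) (nat_lit 5) (nat_lit 89) (nat_lit 5) (nat_lit 90) (nat_lit 5) (nat_lit 264) (nat_lit 232) (nat_lit 224)))))) (XT.nd (nat_lit 390) (nat_lit 1292) (nat_lit 0) (XT.nd (nat_lit 156) (nat_lit 684) (nat_lit 0) (XT.nd (nat_lit 78) (nat_lit 380) (nat_lit 0) (XT.lf (nat_lit 0) (nat_lit 137604062) (nat_lit 456) (nat_lit 6804816977) (nat_lit 76) (nat_lit 1848981727) (nat_lit 78) (nat_lit 5) (nat_lit 84) (nat_lit 5) (nat_lit 79) (nat_lit 5) (nat_lit 265) (nat_lit 232) (nat_lit 223)) (XT.lf (nat_lit 0) (nat_lit 1081249748) (nat_lit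 380) (nat_lit 3446780152) (nat_lit 456) (nat_lit 4488791139) (nat_lit 73) (nat_lit 5) (nat_lit 78) (nat_lit 5) (nat_lit 79) (nat_lit 5) (nat_lit 266) (nat_lit 232) (nat_lit 222))) (XT.nd (nat_lit 78) (nat_lit 380) (nat_lit 0) (XT.lf (nat_lit 0) (nat_lit 23798125) (nat_lit 304) (nat_lit 9010756493) (nat_lit 380) (nat_lit 222547047) (nat_lit 69) (nat_lit 5) (nat_lit 73) (nat_lit 5) (nat_lit 74) (nat_lit 4) (nat_lit 267) (nat_lit 232) (nat_lit 221)) (XT.nd (nat_lit 78) (nat_lit 304) (nat_lit 0) (XT.lf (nat_lit 0) (nat_lit 4118835700) (nat_lit 380) (nat_lit 1260131026) (nat_lit 76) (nat_lit 4131307019) (nat_lit 68) (nat_lit 5) (nat_lit 73) (nat_lit 5) (nat_lit 69) (nat_lit 5) (nat_lit 268) (nat_lit 232) (nat_lit 220)) (XT.lf (nat_lit 0) (nat_lit 7033723811) (nat_lit 304) (nat_lit 1542433860) (nat_lit 380) (nat_lit 1203206884) (nat_lit 64) (nat_lit 5) (nat_lit 68) (nat_lit 5) (nat_lit 69) (nat_lit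 5) (nat_lit 269) (nat_lit 232) (nat_lit 219))))) (XT.nd (nat_lit 156) (nat_lit 608) (nat_lit 0) (XT.nd (nat_lit 78) (nat_lit 304) (nat_lit 0) (XT.lf (nat_lit 0) (nat_lit 3062843130) (nat_lit 380) (nat_lit 4514013100) (nat_lit 76) (nat_lit 2486608182) (nat_lit 59) (nat_lit 5) (nat_lit 64) (nat_lit 5) (nat_lit 60) (nat_lit 5) (nat_lit 270) (nat_lit 232) (nat_lit 218)) (XT.lf (nat_lit 0) (nat_lit 3792797253) (nat_lit 304) (nat_lit 3650184201) (nat_lit 380) (nat_lit 2921039344) (nat_lit 55) (nat_lit 5) (nat_lit 59) (nat_lit 5) (nat_lit 60) (nat_lit 5) (nat_lit 271) (nat_lit 232) (nat_lit 217))) (XT.nd (nat_lit 78) (nat_lit 304) (nat_lit 0) (XT.lf (nat_lit 0) (nat_lit 1252884407) (nat_lit 304) (nat_lit 8941761315) (nat_lit 76) (nat_lit 487408310) (nat_lit 51) (nat_lit 5) (nat_lit 55) (nat_lit 5) (nat_lit 52) (nat_lit 5) (nat_lit 272) (nat_lit 232) (nat_lit 216)) (XT.nd (nat_lit 78) (nat_lit 304)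 (nat_lit 0) (XT.lf (nat_lit 0) (nat_lit 5534047399) (nat_lit 304) (nat_lit 680885511) (nat_lit 76) (nat_lit 4801753519) (nat_lit 51) (nat_lit 5) (nat_lit 55) (nat_lit 5) (nat_lit 52) (nat_lit 5) (nat_lit 273) (nat_lit 232) (nat_lit 215)) (XT.lf (nat_lit 0) (nat_lit 7953341695) (nat_lit 304) (nat_lit 2012604141) (nat_lit 380) (nat_lit 1404322170) (nat_lit 47) (nat_lit 5) (nat_lit 51) (nat_lit 5) (nat_lit 52) (nat_lit 5) (nat_lit 274) (nat_lit 232) (nat_lit 214))))))) (XT.nd (nat_lit 780) (nat_lit 912) (nat_lit 0) (XT.nd (nat_lit 390) (nat_lit 608) (nat_lit 0) (XT.nd (nat_lit 156) (nat_lit 532) (nat_lit 0) (XT.nd (nat_lit 78) (nat_lit 228) (nat_lit 0) (XT.lf (nat_lit 0) (nat_lit 2765355032) (nat_lit 304) (nat_lit 6593668783) (nat_lit 76) (nat_lit 2383660757) (nat_lit 43) (nat_lit 5) (nat_lit 47) (nat_lit 5) (nat_lit 44) (nat_lit 5) (nat_lit 275) (nat_lit 232) (nat_lit 213)) (XT.lf (nat_lit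 0) (nat_lit 1893595481) (nat_lit 228) (nat_lit 5162793590) (nat_lit 304) (nat_lit 5078938205) (nat_lit 40) (nat_lit 5) (nat_lit 43) (nat_lit 5) (nat_lit 44) (nat_lit 5) (nat_lit 276) (nat_lit 232) (nat_lit 212))) (XT.nd (nat_lit 78) (nat_lit 532) (nat_lit 0) (XT.lf (nat_lit 0) (nat_lit 10757960983) (nat_lit 228) (nat_lit 744023328) (nat_lit 304) (nat_lit 1047684118) (nat_lit 40) (nat_lit 5) (nat_lit 43) (nat_lit 5) (nat_lit 44) (nat_lit 5) (nat_lit 277) (nat_lit 232) (nat_lit 211)) (XT.nd (nat_lit 78) (nat_lit 228) (nat_lit 0) (XT.lf (nat_lit 0) (nat_lit 3104994664) (nat_lit 304) (nat_lit 6015598131) (nat_lit 76) (nat_lit 3864001369) (nat_lit 36) (nat_lit 5) (nat_lit 40) (nat_lit 5) (nat_lit 37) (nat_lit 5) (nat_lit 278) (nat_lit 232) (nat_lit 210)) (XT.lf (nat_lit 0) (nat_lit 2620239284) (nat_lit 228) (nat_lit 4755364066) (nat_lit 304) (nat_lit 6067627500) (nat_lit 33) (nat_lit 5) (nat_lit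 36) (nat_lit 5) (nat_lit 37) (nat_lit 5) (nat_lit 279) (nat_lit 232) (nat_lit 209))))) (XT.nd (nat_lit 156) (nat_lit 380) (nat_lit 0) (XT.nd (nat_lit 78) (nat_lit 228) (nat_lit 0) (XT.lf (nat_lit 0) (nat_lit 11641565546) (nat_lit 228) (nat_lit 164580767) (nat_lit 304) (nat_lit 2120484533) (nat_lit 33) (nat_lit 5) (nat_lit 36) (nat_lit 5) (nat_lit 37) (nat_lit 5) (nat_lit 280) (nat_lit 232) (nat_lit 208)) (XT.lf (nat_lit 0) (nat_lit 1981917355) (nat_lit 228) (nat_lit 7856999131) (nat_lit 76) (nat_lit 4594985488) (nat_lit 30) (nat_lit 5) (nat_lit 33) (nat_lit 5) (nat_lit 31) (nat_lit 5) (nat_lit 281) (nat_lit 232) (nat_lit 207))) (XT.nd (nat_lit 78) (nat_lit 152) (nat_lit 0) (XT.lf (nat_lit 0) (nat_lit 791658039) (nat_lit 228) (nat_lit 5379272740) (nat_lit 304) (nat_lit 8797412537) (nat_lit 27) (nat_lit 5) (nat_lit 30) (nat_lit 5) (nat_lit 31) (nat_lit 5) (nat_lit 282) (nat_lit 232) (nat_lit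 206)) (XT.nd (nat_lit 78) (nat_lit 152) (nat_lit 0) (XT.lf (nat_lit 0) (nat_lit 9877265241) (nat_lit 228) (nat_lit 668534665) (nat_lit 304) (nat_lit 4984602191) (nat_lit 27) (nat_lit 5) (nat_lit 30) (nat_lit 5) (nat_lit 31) (nat_lit 5) (nat_lit 283) (nat_lit 232) (nat_lit 205)) (XT.lf (nat_lit 0) (nat_lit 3162453659) (nat_lit 152) (nat_lit 11948472416) (nat_lit 228) (nat_lit 1010670923) (nat_lit 25) (nat_lit 5) (nat_lit 27) (nat_lit 5) (nat_lit 28) (nat_lit 4) (nat_lit 284) (nat_lit 232) (nat_lit 204)))))) (XT.nd (nat_lit 390) (nat_lit 456) (nat_lit 0) (XT.nd (nat_lit 156) (nat_lit 228) (nat_lit 0) (XT.nd (nat_lit 78) (nat_lit 152) (nat_lit 0) (XT.lf (nat_lit 0) (nat_lit 3067960978) (nat_lit 228) (nat_lit 4393769254) (nat_lit 76) (nat_lit 9280843548) (nat_lit 24) (nat_lit 5) (nat_lit 27) (nat_lit 5) (nat_lit 25) (nat_lit 5) (nat_lit 285) (nat_lit 232) (nat_lit 203)) (XT.lf (nat_lit 0) (nat_lit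 4532982120) (nat_lit 152) (nat_lit 2747253297) (nat_lit 228) (nat_lit 10115702659) (nat_lit 22) (nat_lit 5) (nat_lit 24) (nat_lit 5) (nat_lit 25) (nat_lit 5) (nat_lit 286) (nat_lit 232) (nat_lit 202))) (XT.nd (nat_lit 78) (nat_lit 228) (nat_lit 0) (XT.lf (nat_lit 0) (nat_lit 11679413860) (nat_lit 228) (nat_lit 4247697009) (nat_lit 76) (nat_lit 2155720789) (nat_lit 22) (nat_lit 5) (nat_lit 25) (nat_lit 5) (nat_lit 23) (nat_lit 4) (nat_lit 287) (nat_lit 232) (nat_lit 201)) (XT.nd (nat_lit 78) (nat_lit 76) (nat_lit 0) (XT.lf (nat_lit 0) (nat_lit 4726302093) (nat_lit 152) (nat_lit 11559158886) (nat_lit 228) (nat_lit 2519144296) (nat_lit 20) (nat_lit 5) (nat_lit 22) (nat_lit 5) (nat_lit 23) (nat_lit 4) (nat_lit 288) (nat_lit 232) (nat_lit 200)) (XT.lf (nat_lit 0) (nat_lit 1488696020) (nat_lit 228) (nat_lit 5473231650) (nat_lit 76) (nat_lit 12601428673) (nat_lit 19) (nat_lit 5) (nat_lit 22) (nat_lit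 5) (nat_lit 20) (nat_lit 5) (nat_lit 289) (nat_lit 232) (nat_lit 199))))) (XT.nd (nat_lit 234) (nat_lit 228) (nat_lit 0) (XT.nd (nat_lit 78) (nat_lit 76) (nat_lit 0) (XT.lf (nat_lit 0) (nat_lit 3476487731) (nat_lit 152) (nat_lit 2121883585) (nat_lit 228) (nat_lit 14762444724) (nat_lit 17) (nat_lit 5) (nat_lit 19) (nat_lit 5) (nat_lit 20) (nat_lit 5) (nat_lit 290) (nat_lit 232) (nat_lit 198)) (XT.nd (nat_lit 78) (nat_lit 76) (nat_lit 0) (XT.lf (nat_lit 0) (nat_lit 9920708695) (nat_lit 228) (nat_lit 8363755589) (nat_lit 76) (nat_lit 2913588722) (nat_lit 17) (nat_lit 5) (nat_lit 20) (nat_lit 5) (nat_lit 18) (nat_lit 4) (nat_lit 291) (nat_lit 232) (nat_lit 197)) (XT.lf (nat_lit 0) (nat_lit 449872554) (nat_lit 76) (nat_lit 13960577705) (nat_lit 152) (nat_lit 7668276882) (nat_lit 16) (nat_lit 5) (nat_lit 17) (nat_lit 5) (nat_lit 18) (nat_lit 4) (nat_lit 292) (nat_lit 232) (nat_lit 196)))) (XT.nd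 (nat_lit 78) (nat_lit 228) (nat_lit 0) (XT.lf (nat_lit 0) (nat_lit 9762074219) (nat_lit 76) (nat_lit 9376670189) (nat_lit 152) (nat_lit 3864377120) (nat_lit 16) (nat_lit 5) (nat_lit 17) (nat_lit 5) (nat_lit 18) (nat_lit 4) (nat_lit 293) (nat_lit 232) (nat_lit 195)) (XT.nd (nat_lit 78) (nat_lit 152) (nat_lit 0) (XT.lf (nat_lit 0) (nat_lit 57803932) (nat_lit 152) (nat_lit 4547897565) (nat_lit 76) (nat_lit 19370178540) (nat_lit 15) (nat_lit 5) (nat_lit 17) (nat_lit 5) (nat_lit 16) (nat_lit 5) (nat_lit 294) (nat_lit 232) (nat_lit 194)) (XT.lf (nat_lit 0) (nat_lit 4078603428) (nat_lit 228) (nat_lit 20479470116) (nat_lit 76) (nat_lit 438677730) (nat_lit 13) (nat_lit 5) (nat_lit 16) (nat_lit 5) (nat_lit 14) (nat_lit 4) (nat_lit 295) (nat_lit 232) (nat_lit 193))))))))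
noncomputable def xc35 : XT := (XT.nd (nat_lit 1638) (nat_lit 76) (nat_lit 0) (XT.nd (nat_lit 780) (nat_lit 228) (nat_lit 0) (XT.nd (nat_lit 390) (nat_lit 304) (nat_lit 0) (XT.nd (nat_lit 156) (nat_lit 76) (nat_lit 0) (XT.nd (nat_lit 78) (nat_lit 0) (nat_lit 0) (XT.lf (nat_lit 0) (nat_lit 8329885995) (nat_lit 228) (nat_lit 12089425680) (nat_lit 76) (nat_lit 5648562112) (nat_lit 13) (nat_lit 5) (nat_lit 16) (nat_lit 5) (nat_lit 14) (nat_lit 4) (nat_lit 296) (nat_lit 232) (nat_lit 192)) (XT.lf (nat_lit 0) (nat_lit 12732472227) (nat_lit 228) (nat_lit 3380803416) (nat_lit 76) (nat_lit 11081201271) (nat_lit 13) (nat_lit 5) (nat_lit 16) (nat_lit 5) (nat_lit 14) (nat_lit 4) (nat_lit 297) (nat_lit 232) (nat_lit 191))) (XT.nd (nat_lit 78) (nat_lit 0) (nat_lit 0) (XT.lf (nat_lit 0) (nat_lit 5779918519) (nat_lit 76) (nat_lit 11572486065) (nat_lit 152) (nat_lit 11025171655) (nat_lit 12) (nat_lit 5)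 (nat_lit 13) (nat_lit 5) (nat_lit 14) (nat_lit 4) (nat_lit 298) (nat_lit 232) (nat_lit 190)) (XT.nd (nat_lit 78) (nat_lit 0) (nat_lit 0) (XT.lf (nat_lit 0) (nat_lit 15375962146) (nat_lit 76) (nat_lit 6805711290) (nat_lit 152) (nat_lit 7438885514) (nat_lit 12) (nat_lit 5) (nat_lit 13) (nat_lit 5) (nat_lit 14) (nat_lit 4) (nat_lit 299) (nat_lit 232) (nat_lit 189)) (XT.lf (nat_lit 0) (nat_lit 25362890569) (nat_lit 76) (nat_lit 1835741340) (nat_lit 152) (nat_lit 3728746972) (nat_lit 12) (nat_lit 5) (nat_lit 13) (nat_lit 5) (nat_lit 14) (nat_lit 4) (nat_lit 300) (nat_lit 232) (nat_lit 188))))) (XT.nd (nat_lit 156) (nat_lit 76) (nat_lit 0) (XT.nd (nat_lit 78) (nat_lit 0) (nat_lit 0) (XT.lf (nat_lit 0) (nat_lit 178337116) (nat_lit 228) (nat_lit 28801494928) (nat_lit 76) (nat_lit 3319288003) (nat_lit 9) (nat_lit 5) (nat_lit 12) (nat_lit 5) (nat_lit 10) (nat_lit 4) (nat_lit 301) (nat_lit 232) (nat_lit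 187)) (XT.lf (nat_lit 0) (nat_lit 4230309248) (nat_lit 228) (nat_lit 20749909804) (nat_lit 76) (nat_lit 8757388103) (nat_lit 9) (nat_lit 5) (nat_lit 12) (nat_lit 5) (nat_lit 10) (nat_lit 4) (nat_lit 302) (nat_lit 232) (nat_lit 186))) (XT.nd (nat_lit 78) (nat_lit 76) (nat_lit 0) (XT.lf (nat_lit 0) (nat_lit 8436838048) (nat_lit 228) (nat_lit 12376292822) (nat_lit 76) (nat_lit 14436391800) (nat_lit 9) (nat_lit 5) (nat_lit 12) (nat_lit 5) (nat_lit 10) (nat_lit 4) (nat_lit 303) (nat_lit 232) (nat_lit 185)) (XT.nd (nat_lit 78) (nat_lit 76) (nat_lit 0) (XT.lf (nat_lit 0) (nat_lit 12807939058) (nat_lit 228) (nat_lit 3660706799) (nat_lit 76) (nat_lit 20369820532) (nat_lit 9) (nat_lit 5) (nat_lit 12) (nat_lit 5) (nat_lit 10) (nat_lit 4) (nat_lit 304) (nat_lit 232) (nat_lit 184)) (XT.lf (nat_lit 0) (nat_lit 5525420515) (nat_lit 76) (nat_lit 11881712870) (nat_lit 152) (nat_lit 21099494717) (nat_lit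 8) (nat_lit 5) (nat_lit 9) (nat_lit 5) (nat_lit 10) (nat_lit 4) (nat_lit 305) (nat_lit 232) (nat_lit 183)))))) (XT.nd (nat_lit 390) (nat_lit 152) (nat_lit 0) (XT.nd (nat_lit 156) (nat_lit 76) (nat_lit 0) (XT.nd (nat_lit 78) (nat_lit 0) (nat_lit 0) (XT.lf (nat_lit 0) (nat_lit 15176387554) (nat_lit 76) (nat_lit 7055401032) (nat_lit 152) (nat_lit 18026598524) (nat_lit 8) (nat_lit 5) (nat_lit 9) (nat_lit 5) (nat_lit 10) (nat_lit 4) (nat_lit 306) (nat_lit 232) (nat_lit 182)) (XT.lf (nat_lit 0) (nat_lit 25242317567) (nat_lit 76) (nat_lit 2015185086) (nat_lit 152) (nat_lit 14841488292) (nat_lit 8) (nat_lit 5) (nat_lit 9) (nat_lit 5) (nat_lit 10) (nat_lit 4) (nat_lit 307) (nat_lit 232) (nat_lit 181))) (XT.nd (nat_lit 78) (nat_lit 76) (nat_lit 0) (XT.lf (nat_lit 0) (nat_lit 32527491551) (nat_lit 152) (nat_lit 8316894926) (nat_lit 0) (nat_lit 3187498021) (nat_lit 8) (nat_lit 5) (nat_lit 10) (nat_lit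 4) (nat_lit 8) (nat_lit 4) (nat_lit 308) (nat_lit 232) (nat_lit 180)) (XT.nd (nat_lit 78) (nat_lit 0) (nat_lit 0) (XT.lf (nat_lit 0) (nat_lit 578620715) (nat_lit 76) (nat_lit 37471583080) (nat_lit 76) (nat_lit 8011589073) (nat_lit 7) (nat_lit 4) (nat_lit 8) (nat_lit 5) (nat_lit 8) (nat_lit 4) (nat_lit 309) (nat_lit 232) (nat_lit 179)) (XT.lf (nat_lit 0) (nat_lit 10032290861) (nat_lit 76) (nat_lit 33866863755) (nat_lit 76) (nat_lit 4292583579) (nat_lit 7) (nat_lit 4) (nat_lit 8) (nat_lit 5) (nat_lit 8) (nat_lit 4) (nat_lit 310) (nat_lit 232) (nat_lit 178))))) (XT.nd (nat_lit 234) (nat_lit 76) (nat_lit 0) (XT.nd (nat_lit 78) (nat_lit 76) (nat_lit 0) (XT.lf (nat_lit 0) (nat_lit 19901101731) (nat_lit 76) (nat_lit 30105630168) (nat_lit 76) (nat_lit 422506022) (nat_lit 7) (nat_lit 4) (nat_lit 8) (nat_lit 5) (nat_lit 8) (nat_lit 4) (nat_lit 311) (nat_lit 232) (nat_lit 177)) (XT.nd (nat_lit 78)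 (nat_lit 0) (nat_lit 0) (XT.lf (nat_lit 0) (nat_lit 3537455762) (nat_lit 152) (nat_lit 22605749871) (nat_lit 76) (nat_lit 26635373366) (nat_lit 6) (nat_lit 5) (nat_lit 8) (nat_lit 5) (nat_lit 7) (nat_lit 4) (nat_lit 312) (nat_lit 232) (nat_lit 176)) (XT.lf (nat_lit 0) (nat_lit 7655740550) (nat_lit 152) (nat_lit 14344356442) (nat_lit 76) (nat_lit 33246130180) (nat_lit 6) (nat_lit 5) (nat_lit 8) (nat_lit 5) (nat_lit 7) (nat_lit 4) (nat_lit 313) (nat_lit 232) (nat_lit 175)))) (XT.nd (nat_lit 78) (nat_lit 76) (nat_lit 0) (XT.lf (nat_lit 0) (nat_lit 11950398395) (nat_lit 152) (nat_lit 5720224531) (nat_lit 76) (nat_lit 40167556707) (nat_lit 6) (nat_lit 5) (nat_lit 8) (nat_lit 5) (nat_lit 7) (nat_lit 4) (nat_lit 314) (nat_lit 232) (nat_lit 174)) (XT.nd (nat_lit 78) (nat_lit 0) (nat_lit 0) (XT.lf (nat_lit 0) (nat_lit 3352600824) (nat_lit 76) (nat_lit 13111281098) (nat_lit 152) (nat_lit 44095758960)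 (nat_lit 5) (nat_lit 5) (nat_lit 6) (nat_lit 5) (nat_lit 7) (nat_lit 4) (nat_lit 315) (nat_lit 232) (nat_lit 173)) (XT.lf (nat_lit 0) (nat_lit 12952042880) (nat_lit 76) (nat_lit 8282639117) (nat_lit 152) (nat_lit 42181576252) (nat_lit 5) (nat_lit 5) (nat_lit 6) (nat_lit 5) (nat_lit 7) (nat_lit 4) (nat_lit 316) (nat_lit 232) (nat_lit 172))))))) (XT.nd (nat_lit 780) (nat_lit 0) (nat_lit 0) (XT.nd (nat_lit 390) (nat_lit 76) (nat_lit 0) (XT.nd (nat_lit 156) (nat_lit 0) (nat_lit 0) (XT.nd (nat_lit 78) (nat_lit 0) (nat_lit 0) (XT.lf (nat_lit 0) (nat_lit 22987113768) (nat_lit 76) (nat_lit 3230963271) (nat_lit 152) (nat_lit 40198438591) (nat_lit 5) (nat_lit 5) (nat_lit 6) (nat_lit 5) (nat_lit 7) (nat_lit 4) (nat_lit 317) (nat_lit 232) (nat_lit 171)) (XT.lf (nat_lit 0) (nat_lit 31445693632) (nat_lit 152) (nat_lit 36105611339) (nat_lit 0) (nat_lit 2015658680) (nat_lit 5) (nat_lit 5) (nat_lit 7) (nat_lit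 4) (nat_lit 5) (nat_lit 4) (nat_lit 318) (nat_lit 232) (nat_lit 170))) (XT.nd (nat_lit 78) (nat_lit 0) (nat_lit 0) (XT.lf (nat_lit 0) (nat_lit 36943608621) (nat_lit 152) (nat_lit 28489036342) (nat_lit 0) (nat_lit 7442049510) (nat_lit 5) (nat_lit 5) (nat_lit 7) (nat_lit 4) (nat_lit 5) (nat_lit 4) (nat_lit 319) (nat_lit 232) (nat_lit 169)) (XT.nd (nat_lit 78) (nat_lit 0) (nat_lit 0) (XT.lf (nat_lit 0) (nat_lit 42693854286) (nat_lit 152) (nat_lit 20530484174) (nat_lit 0) (nat_lit 13124176929) (nat_lit 5) (nat_lit 5) (nat_lit 7) (nat_lit 4) (nat_lit 5) (nat_lit 4) (nat_lit 320) (nat_lit 232) (nat_lit 168)) (XT.lf (nat_lit 0) (nat_lit 48710121687) (nat_lit 152) (nat_lit 12211005902) (nat_lit 0) (nat_lit 19075569809) (nat_lit 5) (nat_lit 5) (nat_lit 7) (nat_lit 4) (nat_lit 5) (nat_lit 4) (nat_lit 321) (nat_lit 232) (nat_lit 167))))) (XT.nd (nat_lit 156) (nat_lit 0) (nat_lit 0) (XT.nd (nat_lit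 78) (nat_lit 76) (nat_lit 0) (XT.lf (nat_lit 0) (nat_lit 55006735270) (nat_lit 152) (nat_lit 3510793243) (nat_lit 0) (nat_lit 25310398135) (nat_lit 5) (nat_lit 5) (nat_lit 7) (nat_lit 4) (nat_lit 5) (nat_lit 4) (nat_lit 322) (nat_lit 232) (nat_lit 166)) (XT.lf (nat_lit 0) (nat_lit 5702137840) (nat_lit 76) (nat_lit 55951361569) (nat_lit 76) (nat_lit 26196181332) (nat_lit 4) (nat_lit 4) (nat_lit 5) (nat_lit 5) (nat_lit 5) (nat_lit 4) (nat_lit 323) (nat_lit 232) (nat_lit 165))) (XT.nd (nat_lit 78) (nat_lit 0) (nat_lit 0) (XT.lf (nat_lit 0) (nat_lit 15416481309) (nat_lit 76) (nat_lit 53233383258) (nat_lit 76) (nat_lit 23422161970) (nat_lit 4) (nat_lit 4) (nat_lit 5) (nat_lit 5) (nat_lit 5) (nat_lit 4) (nat_lit 324) (nat_lit 232) (nat_lit 164)) (XT.nd (nat_lit 78) (nat_lit 0) (nat_lit 0) (XT.lf (nat_lit 0) (nat_lit 25585494883) (nat_lit 76) (nat_lit 50392574330) (nat_lit 76) (nat_lit 20527980614)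 (nat_lit 4) (nat_lit 4) (nat_lit 5) (nat_lit 5) (nat_lit 5) (nat_lit 4) (nat_lit 325) (nat_lit 232) (nat_lit 163)) (XT.lf (nat_lit 0) (nat_lit 36233390498) (nat_lit 76) (nat_lit 47422170956) (nat_lit 76) (nat_lit 17506746356) (nat_lit 4) (nat_lit 4) (nat_lit 5) (nat_lit 5) (nat_lit 5) (nat_lit 4) (nat_lit 326) (nat_lit 232) (nat_lit 162)))))) (XT.nd (nat_lit 31980) (nat_lit 0) (nat_lit 7372) (XT.nd (nat_lit 156) (nat_lit 0) (nat_lit 0) (XT.nd (nat_lit 78) (nat_lit 0) (nat_lit 0) (XT.lf (nat_lit 0) (nat_lit 47385520288) (nat_lit 76) (nat_lit 44315100745) (nat_lit 76) (nat_lit 14351265779) (nat_lit 4) (nat_lit 4) (nat_lit 5) (nat_lit 5) (nat_lit 5) (nat_lit 4) (nat_lit 327) (nat_lit 232) (nat_lit 161)) (XT.lf (nat_lit 0) (nat_lit 59068436941) (nat_lit 76) (nat_lit 41063965913) (nat_lit 76) (nat_lit 11054025836) (nat_lit 4) (nat_lit 4) (nat_lit 5) (nat_lit 5) (nat_lit 5) (nat_lit 4) (nat_lit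 328) (nat_lit 232) (nat_lit 160))) (XT.nd (nat_lit 31668) (nat_lit 0) (nat_lit 11704) (XT.lf (nat_lit 0) (nat_lit 71309956927) (nat_lit 76) (nat_lit 37661025661) (nat_lit 76) (nat_lit 7607175955) (nat_lit 4) (nat_lit 4) (nat_lit 5) (nat_lit 5) (nat_lit 5) (nat_lit 4) (nat_lit 329) (nat_lit 232) (nat_lit 159)) (XT.nd (nat_lit 78) (nat_lit 988) (nat_lit 0) (XT.lf (nat_lit 0) (nat_lit 2722407450) (nat_lit 836) (nat_lit 413801854) (nat_lit 836) (nat_lit 413801854) (nat_lit 171) (nat_lit 4) (nat_lit 182) (nat_lit 5) (nat_lit 182) (nat_lit 4) (nat_lit 254) (nat_lit 233) (nat_lit 233)) (XT.lf (nat_lit 0) (nat_lit 3879975387) (nat_lit 988) (nat_lit 1998948795) (nat_lit 0) (nat_lit 1323677745) (nat_lit 158) (nat_lit 5) (nat_lit 171) (nat_lit 4) (nat_lit 158) (nat_lit 4) (nat_lit 255) (nat_lit 233) (nat_lit 232))))) (XT.nd (nat_lit 234) (nat_lit 1596) (nat_lit 0) (XT.nd (nat_lit 78) (nat_lit 1672)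 (nat_lit 0) (XT.lf (nat_lit 0) (nat_lit 1303327702) (nat_lit 1064) (nat_lit 2345111589) (nat_lit 76) (nat_lit 3667014135) (nat_lit 144) (nat_lit 5) (nat_lit 158) (nat_lit 5) (nat_lit 145) (nat_lit 4) (nat_lit 256) (nat_lit 233) (nat_lit 231)) (XT.nd (nat_lit 78) (nat_lit 608) (nat_lit 0) (XT.lf (nat_lit 0) (nat_lit 4729050773) (nat_lit 1064) (nat_lit 1201271845) (nat_lit 1140) (nat_lit 1508363167) (nat_lit 130) (nat_lit 5) (nat_lit 144) (nat_lit 5) (nat_lit 145) (nat_lit 4) (nat_lit 257) (nat_lit 233) (nat_lit 230)) (XT.lf (nat_lit 0) (nat_lit 3016546329) (nat_lit 608) (nat_lit 3116925670) (nat_lit 76) (nat_lit 1438727657) (nat_lit 122) (nat_lit 5) (nat_lit 130) (nat_lit 5) (nat_lit 123) (nat_lit 4) (nat_lit 258) (nat_lit 233) (nat_lit 229)))) (XT.nd (nat_lit 78) (nat_lit 1140) (nat_lit 0) (XT.lf (nat_lit 0) (nat_lit 4151374228) (nat_lit 456) (nat_lit 3451437007) (nat_lit 532) (nat_lit 113914859)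 (nat_lit 116) (nat_lit 5) (nat_lit 122) (nat_lit 5) (nat_lit 123) (nat_lit 4) (nat_lit 259) (nat_lit 233) (nat_lit 228)) (XT.nd (nat_lit 78) (nat_lit 532) (nat_lit 0) (XT.lf (nat_lit 0) (nat_lit 3786627496) (nat_lit 532) (nat_lit 534446778) (nat_lit 608) (nat_lit 3551009745) (nat_lit 108) (nat_lit 5) (nat_lit 115) (nat_lit 5) (nat_lit 116) (nat_lit 5) (nat_lit 260) (nat_lit 233) (nat_lit 227)) (XT.lf (nat_lit 0) (nat_lit 812755262) (nat_lit 532) (nat_lit 4684703911) (nat_lit 76) (nat_lit 2541382789) (nat_lit 101) (nat_lit 5) (nat_lit 108) (nat_lit 5) (nat_lit 102) (nat_lit 5) (nat_lit 261) (nat_lit 233) (nat_lit 226))))))))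
noncomputable def xc36 : XT := (XT.nd (nat_lit 1560) (nat_lit 1596) (nat_lit 0) (XT.nd (nat_lit 780) (nat_lit 1900) (nat_lit 0) (XT.nd (nat_lit 390) (nat_lit 1748) (nat_lit 0) (XT.nd (nat_lit 156) (nat_lit 836) (nat_lit 0) (XT.nd (nat_lit 78) (nat_lit 456) (nat_lit 0) (XT.lf (nat_lit 0) (nat_lit 2829814084) (nat_lit 456) (nat_lit 2370980436) (nat_lit 532) (nat_lit 3016333015) (nat_lit 95) (nat_lit 5) (nat_lit 101) (nat_lit 5) (nat_lit 102) (nat_lit 5) (nat_lit 262) (nat_lit 233) (nat_lit 225)) (XT.lf (nat_lit 0) (nat_lit 1264497996) (nat_lit 456) (nat_lit 6193143710) (nat_lit 76) (nat_lit 950224055) (nat_lit 89) (nat_lit 5) (nat_lit 95) (nat_lit 5) (nat_lit 90) (nat_lit 5) (nat_lit 263) (nat_lit 233) (nat_lit 224))) (XT.nd (nat_lit 78) (nat_lit 456) (nat_lit 0) (XT.lf (nat_lit 0) (nat_lit 1456785299) (nat_lit 380) (nat_lit 4150084346) (nat_lit 456) (nat_lit 3003633898) (nat_lit 84) (nat_lit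 5) (nat_lit 89) (nat_lit 5) (nat_lit 90) (nat_lit 5) (nat_lit 264) (nat_lit 233) (nat_lit 223)) (XT.nd (nat_lit 78) (nat_lit 0) (nat_lit 0) (XT.lf (nat_lit 0) (nat_lit 577515736) (nat_lit 380) (nat_lit 629120090) (nat_lit 456) (nat_lit 7620070548) (nat_lit 78) (nat_lit 5) (nat_lit 83) (nat_lit 5) (nat_lit 84) (nat_lit 5) (nat_lit 265) (nat_lit 233) (nat_lit 222)) (XT.lf (nat_lit 0) (nat_lit 5495747222) (nat_lit 456) (nat_lit 483825499) (nat_lit 76) (nat_lit 3075829782) (nat_lit 78) (nat_lit 5) (nat_lit 84) (nat_lit 5) (nat_lit 79) (nat_lit 5) (nat_lit 266) (nat_lit 233) (nat_lit 221))))) (XT.nd (nat_lit 156) (nat_lit 988) (nat_lit 0) (XT.nd (nat_lit 78) (nat_lit 304) (nat_lit 0) (XT.lf (nat_lit 0) (nat_lit 602491627) (nat_lit 456) (nat_lit 1698891401) (nat_lit 76) (nat_lit 6997026063) (nat_lit 72) (nat_lit 5) (nat_lit 78) (nat_lit 5) (nat_lit 73) (nat_lit 5) (nat_lit 267) (nat_lit 233) (nat_lit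 220)) (XT.lf (nat_lit 0) (nat_lit 4820499628) (nat_lit 380) (nat_lit 3142185296) (nat_lit 76) (nat_lit 1592612987) (nat_lit 68) (nat_lit 5) (nat_lit 73) (nat_lit 5) (nat_lit 69) (nat_lit 5) (nat_lit 268) (nat_lit 233) (nat_lit 219))) (XT.nd (nat_lit 78) (nat_lit 684) (nat_lit 0) (XT.lf (nat_lit 0) (nat_lit 5013296756) (nat_lit 304) (nat_lit 4168827984) (nat_lit 380) (nat_lit 645334848) (nat_lit 64) (nat_lit 5) (nat_lit 68) (nat_lit 5) (nat_lit 69) (nat_lit 5) (nat_lit 269) (nat_lit 233) (nat_lit 218)) (XT.nd (nat_lit 78) (nat_lit 304) (nat_lit 0) (XT.lf (nat_lit 0) (nat_lit 3359678229) (nat_lit 304) (nat_lit 129999417) (nat_lit 380) (nat_lit 6625510353) (nat_lit 59) (nat_lit 5) (nat_lit 63) (nat_lit 5) (nat_lit 64) (nat_lit 5) (nat_lit 270) (nat_lit 233) (nat_lit 217)) (XT.lf (nat_lit 0) (nat_lit 1408948386) (nat_lit 304) (nat_lit 6364632331) (nat_lit 380) (nat_lit 2645226812) (nat_lit 55)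 (nat_lit 5) (nat_lit 59) (nat_lit 5) (nat_lit 60) (nat_lit 5) (nat_lit 271) (nat_lit 233) (nat_lit 216)))))) (XT.nd (nat_lit 390) (nat_lit 988) (nat_lit 0) (XT.nd (nat_lit 156) (nat_lit 608) (nat_lit 0) (XT.nd (nat_lit 78) (nat_lit 228) (nat_lit 0) (XT.lf (nat_lit 0) (nat_lit 1431362109) (nat_lit 380) (nat_lit 825993041) (nat_lit 76) (nat_lit 8482327474) (nat_lit 54) (nat_lit 5) (nat_lit 59) (nat_lit 5) (nat_lit 55) (nat_lit 5) (nat_lit 272) (nat_lit 233) (nat_lit 215)) (XT.lf (nat_lit 0) (nat_lit 5614464902) (nat_lit 304) (nat_lit 3394771074) (nat_lit 76) (nat_lit 2068175913) (nat_lit 51) (nat_lit 5) (nat_lit 55) (nat_lit 5) (nat_lit 52) (nat_lit 5) (nat_lit 273) (nat_lit 233) (nat_lit 214))) (XT.nd (nat_lit 78) (nat_lit 304) (nat_lit 0) (XT.lf (nat_lit 0) (nat_lit 5093100963) (nat_lit 304) (nat_lit 4860831831) (nat_lit 380) (nat_lit 1479981269) (nat_lit 47) (nat_lit 5) (nat_lit 51) (nat_lit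 5) (nat_lit 52) (nat_lit 5) (nat_lit 274) (nat_lit 233) (nat_lit 213)) (XT.nd (nat_lit 78) (nat_lit 0) (nat_lit 0) (XT.lf (nat_lit 0) (nat_lit 2100626322) (nat_lit 228) (nat_lit 474194460) (nat_lit 304) (nat_lit 9235158763) (nat_lit 43) (nat_lit 5) (nat_lit 46) (nat_lit 5) (nat_lit 47) (nat_lit 5) (nat_lit 275) (nat_lit 233) (nat_lit 212)) (XT.lf (nat_lit 0) (nat_lit 6781587988) (nat_lit 304) (nat_lit 1342988537) (nat_lit 76) (nat_lit 4080703777) (nat_lit 43) (nat_lit 5) (nat_lit 47) (nat_lit 5) (nat_lit 44) (nat_lit 5) (nat_lit 276) (nat_lit 233) (nat_lit 211))))) (XT.nd (nat_lit 156) (nat_lit 456) (nat_lit 0) (XT.nd (nat_lit 78) (nat_lit 304) (nat_lit 0) (XT.lf (nat_lit 0) (nat_lit 7408678936) (nat_lit 228) (nat_lit 3745934020) (nat_lit 304) (nat_lit 1467309463) (nat_lit 40) (nat_lit 5) (nat_lit 43) (nat_lit 5) (nat_lit 44) (nat_lit 5) (nat_lit 277) (nat_lit 233) (nat_lit 210)) (XT.lf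 (nat_lit 0) (nat_lit 2572502313) (nat_lit 304) (nat_lit 9631651896) (nat_lit 76) (nat_lit 856561138) (nat_lit 36) (nat_lit 5) (nat_lit 40) (nat_lit 5) (nat_lit 37) (nat_lit 5) (nat_lit 278) (nat_lit 233) (nat_lit 209))) (XT.nd (nat_lit 78) (nat_lit 456) (nat_lit 0) (XT.lf (nat_lit 0) (nat_lit 6762378314) (nat_lit 304) (nat_lit 1129215407) (nat_lit 76) (nat_lit 5630289363) (nat_lit 36) (nat_lit 5) (nat_lit 40) (nat_lit 5) (nat_lit 37) (nat_lit 5) (nat_lit 279) (nat_lit 233) (nat_lit 208)) (XT.nd (nat_lit 78) (nat_lit 228) (nat_lit 0) (XT.lf (nat_lit 0) (nat_lit 7789724903) (nat_lit 228) (nat_lit 3338457141) (nat_lit 304) (nat_lit 2879147088) (nat_lit 33) (nat_lit 5) (nat_lit 36) (nat_lit 5) (nat_lit 37) (nat_lit 5) (nat_lit 280) (nat_lit 233) (nat_lit 207)) (XT.lf (nat_lit 0) (nat_lit 1115887897) (nat_lit 228) (nat_lit 11991661346) (nat_lit 76) (nat_lit 1411030979) (nat_lit 30) (nat_lit 5)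 (nat_lit 33) (nat_lit 5) (nat_lit 31) (nat_lit 5) (nat_lit 281) (nat_lit 233) (nat_lit 206))))))) (XT.nd (nat_lit 780) (nat_lit 608) (nat_lit 0) (XT.nd (nat_lit 390) (nat_lit 532) (nat_lit 0) (XT.nd (nat_lit 156) (nat_lit 228) (nat_lit 0) (XT.nd (nat_lit 78) (nat_lit 228) (nat_lit 0) (XT.lf (nat_lit 0) (nat_lit 5247076304) (nat_lit 228) (nat_lit 3434820686) (nat_lit 76) (nat_lit 6372950798) (nat_lit 30) (nat_lit 5) (nat_lit 33) (nat_lit 5) (nat_lit 31) (nat_lit 5) (nat_lit 282) (nat_lit 233) (nat_lit 205)) (XT.lf (nat_lit 0) (nat_lit 5508247520) (nat_lit 228) (nat_lit 4031486219) (nat_lit 304) (nat_lit 6079726296) (nat_lit 27) (nat_lit 5) (nat_lit 30) (nat_lit 5) (nat_lit 31) (nat_lit 5) (nat_lit 283) (nat_lit 233) (nat_lit 204))) (XT.nd (nat_lit 78) (nat_lit 228) (nat_lit 0) (XT.lf (nat_lit 0) (nat_lit 13995673279) (nat_lit 304) (nat_lit 1396888080) (nat_lit 76) (nat_lit 821452148) (nat_lit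 27) (nat_lit 5) (nat_lit 31) (nat_lit 5) (nat_lit 28) (nat_lit 4) (nat_lit 284) (nat_lit 233) (nat_lit 203)) (XT.nd (nat_lit 78) (nat_lit 0) (nat_lit 0) (XT.lf (nat_lit 0) (nat_lit 1824585645) (nat_lit 228) (nat_lit 9132797287) (nat_lit 76) (nat_lit 5879810499) (nat_lit 24) (nat_lit 5) (nat_lit 27) (nat_lit 5) (nat_lit 25) (nat_lit 5) (nat_lit 285) (nat_lit 233) (nat_lit 202)) (XT.lf (nat_lit 0) (nat_lit 5950008735) (nat_lit 228) (nat_lit 361931742) (nat_lit 76) (nat_lit 11181295853) (nat_lit 24) (nat_lit 5) (nat_lit 27) (nat_lit 5) (nat_lit 25) (nat_lit 5) (nat_lit 286) (nat_lit 233) (nat_lit 201))))) (XT.nd (nat_lit 156) (nat_lit 380) (nat_lit 0) (XT.nd (nat_lit 78) (nat_lit 0) (nat_lit 0) (XT.lf (nat_lit 0) (nat_lit 8889288062) (nat_lit 152) (nat_lit 1393369922) (nat_lit 228) (nat_lit 7899537389) (nat_lit 22) (nat_lit 5) (nat_lit 24) (nat_lit 5) (nat_lit 25) (nat_lit 5) (nat_lit 287)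 (nat_lit 233) (nat_lit 200)) (XT.lf (nat_lit 0) (nat_lit 14789808901) (nat_lit 228) (nat_lit 461165979) (nat_lit 76) (nat_lit 3656027266) (nat_lit 22) (nat_lit 5) (nat_lit 25) (nat_lit 5) (nat_lit 23) (nat_lit 4) (nat_lit 288) (nat_lit 233) (nat_lit 199))) (XT.nd (nat_lit 78) (nat_lit 228) (nat_lit 0) (XT.lf (nat_lit 0) (nat_lit 8846904957) (nat_lit 152) (nat_lit 10696285648) (nat_lit 228) (nat_lit 124361841) (nat_lit 20) (nat_lit 5) (nat_lit 22) (nat_lit 5) (nat_lit 23) (nat_lit 4) (nat_lit 289) (nat_lit 233) (nat_lit 198)) (XT.nd (nat_lit 78) (nat_lit 152) (nat_lit 0) (XT.lf (nat_lit 0) (nat_lit 3916988877) (nat_lit 228) (nat_lit 1997045651) (nat_lit 76) (nat_lit 14553194375) (nat_lit 19) (nat_lit 5) (nat_lit 22) (nat_lit 5) (nat_lit 20) (nat_lit 5) (nat_lit 290) (nat_lit 233) (nat_lit 197)) (XT.lf (nat_lit 0) (nat_lit 7292671071) (nat_lit 152) (nat_lit 862400971) (nat_lit 228) (nat_lit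 13151977035) (nat_lit 17) (nat_lit 5) (nat_lit 19) (nat_lit 5) (nat_lit 20) (nat_lit 5) (nat_lit 291) (nat_lit 233) (nat_lit 196)))))) (XT.nd (nat_lit 390) (nat_lit 304) (nat_lit 0) (XT.nd (nat_lit 156) (nat_lit 228) (nat_lit 0) (XT.nd (nat_lit 78) (nat_lit 76) (nat_lit 0) (XT.lf (nat_lit 0) (nat_lit 12597609767) (nat_lit 228) (nat_lit 5257143408) (nat_lit 76) (nat_lit 4334439084) (nat_lit 17) (nat_lit 5) (nat_lit 20) (nat_lit 5) (nat_lit 18) (nat_lit 4) (nat_lit 292) (nat_lit 233) (nat_lit 195)) (XT.lf (nat_lit 0) (nat_lit 3896128459) (nat_lit 76) (nat_lit 13344770503) (nat_lit 152) (nat_lit 5875288246) (nat_lit 16) (nat_lit 5) (nat_lit 17) (nat_lit 5) (nat_lit 18) (nat_lit 4) (nat_lit 293) (nat_lit 233) (nat_lit 194))) (XT.nd (nat_lit 78) (nat_lit 228) (nat_lit 0) (XT.lf (nat_lit 0) (nat_lit 13510903908) (nat_lit 76) (nat_lit 8594231235) (nat_lit 152) (nat_lit 1984831710) (nat_lit 16)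 (nat_lit 5) (nat_lit 17) (nat_lit 5) (nat_lit 18) (nat_lit 4) (nat_lit 294) (nat_lit 233) (nat_lit 193)) (XT.nd (nat_lit 78) (nat_lit 152) (nat_lit 0) (XT.lf (nat_lit 0) (nat_lit 1996234291) (nat_lit 152) (nat_lit 1628519060) (nat_lit 76) (nat_lit 21489055457) (nat_lit 15) (nat_lit 5) (nat_lit 17) (nat_lit 5) (nat_lit 16) (nat_lit 5) (nat_lit 295) (nat_lit 233) (nat_lit 192)) (XT.lf (nat_lit 0) (nat_lit 6166666407) (nat_lit 228) (nat_lit 18399403119) (nat_lit 76) (nat_lit 1621329589) (nat_lit 13) (nat_lit 5) (nat_lit 16) (nat_lit 5) (nat_lit 14) (nat_lit 4) (nat_lit 296) (nat_lit 233) (nat_lit 191))))) (XT.nd (nat_lit 234) (nat_lit 228) (nat_lit 0) (XT.nd (nat_lit 78) (nat_lit 76) (nat_lit 0) (XT.lf (nat_lit 0) (nat_lit 10540792493) (nat_lit 228) (nat_lit 9737667914) (nat_lit 76) (nat_lit 7036435906) (nat_lit 13) (nat_lit 5) (nat_lit 16) (nat_lit 5) (nat_lit 14) (nat_lit 4) (nat_lit 297)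 (nat_lit 233) (nat_lit 190)) (XT.nd (nat_lit 78) (nat_lit 76) (nat_lit 0) (XT.lf (nat_lit 0) (nat_lit 15078059837) (nat_lit 228) (nat_lit 734387348) (nat_lit 76) (nat_lit 12688066752) (nat_lit 13) (nat_lit 5) (nat_lit 16) (nat_lit 5) (nat_lit 14) (nat_lit 4) (nat_lit 298) (nat_lit 233) (nat_lit 189)) (XT.lf (nat_lit 0) (nat_lit 8803666195) (nat_lit 76) (nat_lit 11070231485) (nat_lit 152) (nat_lit 9870638420) (nat_lit 12) (nat_lit 5) (nat_lit 13) (nat_lit 5) (nat_lit 14) (nat_lit 4) (nat_lit 299) (nat_lit 233) (nat_lit 188)))) (XT.nd (nat_lit 78) (nat_lit 228) (nat_lit 0) (XT.lf (nat_lit 0) (nat_lit 18749285730) (nat_lit 76) (nat_lit 6116588394) (nat_lit 152) (nat_lit 6186266153) (nat_lit 12) (nat_lit 5) (nat_lit 13) (nat_lit 5) (nat_lit 14) (nat_lit 4) (nat_lit 300) (nat_lit 233) (nat_lit 187)) (XT.nd (nat_lit 78) (nat_lit 228) (nat_lit 0) (XT.lf (nat_lit 0) (nat_lit 29111535552) (nat_lit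 76) (nat_lit 947139397) (nat_lit 152) (nat_lit 2367980858) (nat_lit 12) (nat_lit 5) (nat_lit 13) (nat_lit 5) (nat_lit 14) (nat_lit 4) (nat_lit 301) (nat_lit 233) (nat_lit 186)) (XT.lf (nat_lit 0) (nat_lit 1664836560) (nat_lit 228) (nat_lit 27764246023) (nat_lit 76) (nat_lit 4438734712) (nat_lit 9) (nat_lit 5) (nat_lit 12) (nat_lit 5) (nat_lit 10) (nat_lit 4) (nat_lit 302) (nat_lit 233) (nat_lit 185))))))))
noncomputable def xc37 : XT := (XT.nd (nat_lit 1560) (nat_lit 76) (nat_lit 0) (XT.nd (nat_lit 780) (nat_lit 76) (nat_lit 0) (XT.nd (nat_lit 390) (nat_lit 152) (nat_lit 0) (XT.nd (nat_lit 156) (nat_lit 76) (nat_lit 0) (XT.nd (nat_lit 78) (nat_lit 0) (nat_lit 0) (XT.lf (nat_lit 0) (nat_lit 5849046224) (nat_lit 228) (nat_lit 19428049436) (nat_lit 76) (nat_lit 10103335897) (nat_lit 9) (nat_lit 5) (nat_lit 12) (nat_lit 5) (nat_lit 10) (nat_lit 4) (nat_lit 303) (nat_lit 233) (nat_lit 184)) (XT.lf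 (nat_lit 0) (nat_lit 10198890914) (nat_lit 228) (nat_lit 10748101883) (nat_lit 76) (nat_lit 16023047951) (nat_lit 9) (nat_lit 5) (nat_lit 12) (nat_lit 5) (nat_lit 10) (nat_lit 4) (nat_lit 304) (nat_lit 233) (nat_lit 183))) (XT.nd (nat_lit 78) (nat_lit 76) (nat_lit 0) (XT.lf (nat_lit 0) (nat_lit 14724727406) (nat_lit 228) (nat_lit 1703736825) (nat_lit 76) (nat_lit 22211965426) (nat_lit 9) (nat_lit 5) (nat_lit 12) (nat_lit 5) (nat_lit 10) (nat_lit 4) (nat_lit 305) (nat_lit 233) (nat_lit 182)) (XT.nd (nat_lit 78) (nat_lit 0) (nat_lit 0) (XT.lf (nat_lit 0) (nat_lit 7880354032) (nat_lit 76) (nat_lit 11632728250) (nat_lit 152) (nat_lit 20880220592) (nat_lit 8) (nat_lit 5) (nat_lit 9) (nat_lit 5) (nat_lit 10) (nat_lit 4) (nat_lit 306) (nat_lit 233) (nat_lit 181)) (XT.lf (nat_lit 0) (nat_lit 17914885495) (nat_lit 76) (nat_lit 6605247023) (nat_lit 152) (nat_lit 17714358106) (nat_lit 8) (nat_lit 5)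 (nat_lit 9) (nat_lit 5) (nat_lit 10) (nat_lit 4) (nat_lit 307) (nat_lit 233) (nat_lit 180))))) (XT.nd (nat_lit 156) (nat_lit 152) (nat_lit 0) (XT.nd (nat_lit 78) (nat_lit 0) (nat_lit 0) (XT.lf (nat_lit 0) (nat_lit 28389841600) (nat_lit 76) (nat_lit 1351254759) (nat_lit 152) (nat_lit 14427781427) (nat_lit 8) (nat_lit 5) (nat_lit 9) (nat_lit 5) (nat_lit 10) (nat_lit 4) (nat_lit 308) (nat_lit 233) (nat_lit 179)) (XT.lf (nat_lit 0) (nat_lit 35228217784) (nat_lit 152) (nat_lit 6910720437) (nat_lit 0) (nat_lit 4060937430) (nat_lit 8) (nat_lit 5) (nat_lit 10) (nat_lit 4) (nat_lit 8) (nat_lit 4) (nat_lit 309) (nat_lit 233) (nat_lit 178))) (XT.nd (nat_lit 78) (nat_lit 76) (nat_lit 0) (XT.lf (nat_lit 0) (nat_lit 2377343170) (nat_lit 76) (nat_lit 38615575185) (nat_lit 76) (nat_lit 7339450861) (nat_lit 7) (nat_lit 4) (nat_lit 8) (nat_lit 5) (nat_lit 8) (nat_lit 4) (nat_lit 310) (nat_lit 233) (nat_lit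 177)) (XT.nd (nat_lit 78) (nat_lit 76) (nat_lit 0) (XT.lf (nat_lit 0) (nat_lit 12219421041) (nat_lit 76) (nat_lit 34865362134) (nat_lit 76) (nat_lit 3485576886) (nat_lit 7) (nat_lit 4) (nat_lit 8) (nat_lit 5) (nat_lit 8) (nat_lit 4) (nat_lit 311) (nat_lit 233) (nat_lit 176)) (XT.lf (nat_lit 0) (nat_lit 519025594) (nat_lit 152) (nat_lit 30424887981) (nat_lit 76) (nat_lit 21977143071) (nat_lit 6) (nat_lit 5) (nat_lit 8) (nat_lit 5) (nat_lit 7) (nat_lit 4) (nat_lit 312) (nat_lit 233) (nat_lit 175)))))) (XT.nd (nat_lit 390) (nat_lit 0) (nat_lit 0) (XT.nd (nat_lit 156) (nat_lit 76) (nat_lit 0) (XT.nd (nat_lit 78) (nat_lit 0) (nat_lit 0) (XT.lf (nat_lit 0) (nat_lit 4622900048) (nat_lit 152) (nat_lit 22188046352) (nat_lit 76) (nat_lit 28578208115) (nat_lit 6) (nat_lit 5) (nat_lit 8) (nat_lit 5) (nat_lit 7) (nat_lit 4) (nat_lit 313) (nat_lit 233) (nat_lit 174)) (XT.lf (nat_lit 0) (nat_lit 8903833766)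 (nat_lit 152) (nat_lit 13587297109) (nat_lit 76) (nat_lit 35490404385) (nat_lit 6) (nat_lit 5) (nat_lit 8) (nat_lit 5) (nat_lit 7) (nat_lit 4) (nat_lit 314) (nat_lit 233) (nat_lit 173))) (XT.nd (nat_lit 78) (nat_lit 76) (nat_lit 0) (XT.lf (nat_lit 0) (nat_lit 13372019446) (nat_lit 152) (nat_lit 4602162277) (nat_lit 76) (nat_lit 42730189491) (nat_lit 6) (nat_lit 5) (nat_lit 8) (nat_lit 5) (nat_lit 7) (nat_lit 4) (nat_lit 315) (nat_lit 233) (nat_lit 172)) (XT.nd (nat_lit 78) (nat_lit 0) (nat_lit 0) (XT.lf (nat_lit 0) (nat_lit 4884056861) (nat_lit 76) (nat_lit 13200987306) (nat_lit 152) (nat_lit 45477692697) (nat_lit 5) (nat_lit 5) (nat_lit 6) (nat_lit 5) (nat_lit 7) (nat_lit 4) (nat_lit 316) (nat_lit 233) (nat_lit 171)) (XT.lf (nat_lit 0) (nat_lit 14898526926) (nat_lit 76) (nat_lit 8157858839) (nat_lit 152) (nat_lit 43506984388) (nat_lit 5) (nat_lit 5) (nat_lit 6) (nat_lit 5) (nat_lit 7) (nat_lit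 4) (nat_lit 317) (nat_lit 233) (nat_lit 170))))) (XT.nd (nat_lit 156) (nat_lit 0) (nat_lit 0) (XT.nd (nat_lit 78) (nat_lit 0) (nat_lit 0) (XT.lf (nat_lit 0) (nat_lit 25373499839) (nat_lit 76) (nat_lit 2879261688) (nat_lit 152) (nat_lit 41462007495) (nat_lit 5) (nat_lit 5) (nat_lit 6) (nat_lit 5) (nat_lit 7) (nat_lit 4) (nat_lit 318) (nat_lit 233) (nat_lit 169)) (XT.lf (nat_lit 0) (nat_lit 33711991939) (nat_lit 152) (nat_lit 36715968951) (nat_lit 0) (nat_lit 2595712467) (nat_lit 5) (nat_lit 5) (nat_lit 7) (nat_lit 4) (nat_lit 5) (nat_lit 4) (nat_lit 319) (nat_lit 233) (nat_lit 168))) (XT.nd (nat_lit 78) (nat_lit 0) (nat_lit 0) (XT.lf (nat_lit 0) (nat_lit 39451754409) (nat_lit 152) (nat_lit 28775466298) (nat_lit 0) (nat_lit 8270600418) (nat_lit 5) (nat_lit 5) (nat_lit 7) (nat_lit 4) (nat_lit 5) (nat_lit 4) (nat_lit 320) (nat_lit 233) (nat_lit 167)) (XT.nd (nat_lit 78) (nat_lit 0) (nat_lit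 0) (XT.lf (nat_lit 0) (nat_lit 45458037816) (nat_lit 152) (nat_lit 20473178039) (nat_lit 0) (nat_lit 14215098567) (nat_lit 5) (nat_lit 5) (nat_lit 7) (nat_lit 4) (nat_lit 5) (nat_lit 4) (nat_lit 321) (nat_lit 233) (nat_lit 166)) (XT.lf (nat_lit 0) (nat_lit 51745142834) (nat_lit 152) (nat_lit 11789336821) (nat_lit 0) (nat_lit 20443360482) (nat_lit 5) (nat_lit 5) (nat_lit 7) (nat_lit 4) (nat_lit 5) (nat_lit 4) (nat_lit 322) (nat_lit 233) (nat_lit 165))))))) (XT.nd (nat_lit 32214) (nat_lit 0) (nat_lit 6004) (XT.nd (nat_lit 390) (nat_lit 0) (nat_lit 0) (XT.nd (nat_lit 156) (nat_lit 0) (nat_lit 0) (XT.nd (nat_lit 78) (nat_lit 76) (nat_lit 0) (XT.lf (nat_lit 0) (nat_lit 58328038760) (nat_lit 152) (nat_lit 2703266833) (nat_lit 0) (nat_lit 26970215358) (nat_lit 5) (nat_lit 5) (nat_lit 7) (nat_lit 4) (nat_lit 5) (nat_lit 4) (nat_lit 323) (nat_lit 233) (nat_lit 164)) (XT.lf (nat_lit 0) (nat_lit 6942131413)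 (nat_lit 76) (nat_lit 58346999757) (nat_lit 76) (nat_lit 26935803927) (nat_lit 4) (nat_lit 4) (nat_lit 5) (nat_lit 5) (nat_lit 5) (nat_lit 4) (nat_lit 324) (nat_lit 233) (nat_lit 163))) (XT.nd (nat_lit 78) (nat_lit 0) (nat_lit 0) (XT.lf (nat_lit 0) (nat_lit 17096721261) (nat_lit 76) (nat_lit 55512262049) (nat_lit 76) (nat_lit 24050235335) (nat_lit 4) (nat_lit 4) (nat_lit 5) (nat_lit 5) (nat_lit 5) (nat_lit 4) (nat_lit 325) (nat_lit 233) (nat_lit 162)) (XT.nd (nat_lit 78) (nat_lit 0) (nat_lit 0) (XT.lf (nat_lit 0) (nat_lit 27730879995) (nat_lit 76) (nat_lit 52547640788) (nat_lit 76) (nat_lit 21037203708) (nat_lit 4) (nat_lit 4) (nat_lit 5) (nat_lit 5) (nat_lit 5) (nat_lit 4) (nat_lit 326) (nat_lit 233) (nat_lit 161)) (XT.lf (nat_lit 0) (nat_lit 38869927040) (nat_lit 76) (nat_lit 49446077352) (nat_lit 76) (nat_lit 17889535162) (nat_lit 4) (nat_lit 4) (nat_lit 5) (nat_lit 5) (nat_lit 5) (nat_lit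 4) (nat_lit 327) (nat_lit 233) (nat_lit 160))))) (XT.nd (nat_lit 31590) (nat_lit 0) (nat_lit 12616) (XT.nd (nat_lit 78) (nat_lit 0) (nat_lit 0) (XT.lf (nat_lit 0) (nat_lit 50540383937) (nat_lit 76) (nat_lit 46200187067) (nat_lit 76) (nat_lit 14599735248) (nat_lit 4) (nat_lit 4) (nat_lit 5) (nat_lit 5) (nat_lit 5) (nat_lit 4) (nat_lit 328) (nat_lit 233) (nat_lit 159)) (XT.lf (nat_lit 0) (nat_lit 62770037488) (nat_lit 76) (nat_lit 42802241622) (nat_lit 76) (nat_lit 11159971108) (nat_lit 4) (nat_lit 4) (nat_lit 5) (nat_lit 5) (nat_lit 5) (nat_lit 4) (nat_lit 329) (nat_lit 233) (nat_lit 158))) (XT.nd (nat_lit 78) (nat_lit 1748) (nat_lit 0) (XT.lf (nat_lit 0) (nat_lit 3039231047) (nat_lit 684) (nat_lit 210447945) (nat_lit 684) (nat_lit 210447945) (nat_lit 193) (nat_lit 4) (nat_lit 202) (nat_lit 5) (nat_lit 202) (nat_lit 4) (nat_lit 252) (nat_lit 234) (nat_lit 234)) (XT.nd (nat_lit 78) (nat_lit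 912) (nat_lit 0) (XT.lf (nat_lit 0) (nat_lit 4224662486) (nat_lit 836) (nat_lit 1322230500) (nat_lit 0) (nat_lit 1460026585) (nat_lit 182) (nat_lit 5) (nat_lit 193) (nat_lit 4) (nat_lit 182) (nat_lit 4) (nat_lit 253) (nat_lit 234) (nat_lit 233)) (XT.lf (nat_lit 0) (nat_lit 1780208494) (nat_lit 912) (nat_lit 1783799227) (nat_lit 76) (nat_lit 3539513667) (nat_lit 170) (nat_lit 5) (nat_lit 182) (nat_lit 5) (nat_lit 171) (nat_lit 4) (nat_lit 254) (nat_lit 234) (nat_lit 232)))))) (XT.nd (nat_lit 390) (nat_lit 2432) (nat_lit 0) (XT.nd (nat_lit 156) (nat_lit 2204) (nat_lit 0) (XT.nd (nat_lit 78) (nat_lit 1064) (nat_lit 0) (XT.lf (nat_lit 0) (nat_lit 4970935331) (nat_lit 912) (nat_lit 1372002630) (nat_lit 988) (nat_lit 867249105) (nat_lit 158) (nat_lit 5) (nat_lit 170) (nat_lit 5) (nat_lit 171) (nat_lit 4) (nat_lit 255) (nat_lit 234) (nat_lit 231)) (XT.lf (nat_lit 0) (nat_lit 3583800461) (nat_lit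 1064) (nat_lit 2718501730) (nat_lit 76) (nat_lit 1024266821) (nat_lit 144) (nat_lit 5) (nat_lit 158) (nat_lit 5) (nat_lit 145) (nat_lit 4) (nat_lit 256) (nat_lit 234) (nat_lit 230))) (XT.nd (nat_lit 78) (nat_lit 1064) (nat_lit 0) (XT.lf (nat_lit 0) (nat_lit 633838828) (nat_lit 1140) (nat_lit 3218616264) (nat_lit 76) (nat_lit 3600892459) (nat_lit 129) (nat_lit 5) (nat_lit 144) (nat_lit 5) (nat_lit 130) (nat_lit 5) (nat_lit 257) (nat_lit 234) (nat_lit 229)) (XT.nd (nat_lit 78) (nat_lit 532) (nat_lit 0) (XT.lf (nat_lit 0) (nat_lit 3829391109) (nat_lit 532) (nat_lit 1176225744) (nat_lit 608) (nat_lit 2584898115) (nat_lit 122) (nat_lit 5) (nat_lit 129) (nat_lit 5) (nat_lit 130) (nat_lit 5) (nat_lit 258) (nat_lit 234) (nat_lit 228)) (XT.lf (nat_lit 0) (nat_lit 1701041821) (nat_lit 532) (nat_lit 4356583141) (nat_lit 76) (nat_lit 1680817053) (nat_lit 115) (nat_lit 5) (nat_lit 122) (nat_lit 5) (nat_lit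 116) (nat_lit 5) (nat_lit 259) (nat_lit 234) (nat_lit 227))))) (XT.nd (nat_lit 234) (nat_lit 912) (nat_lit 0) (XT.nd (nat_lit 78) (nat_lit 988) (nat_lit 0) (XT.lf (nat_lit 0) (nat_lit 2872435797) (nat_lit 532) (nat_lit 3155555846) (nat_lit 608) (nat_lit 1869282450) (nat_lit 108) (nat_lit 5) (nat_lit 115) (nat_lit 5) (nat_lit 116) (nat_lit 5) (nat_lit 260) (nat_lit 234) (nat_lit 226)) (XT.nd (nat_lit 78) (nat_lit 456) (nat_lit 0) (XT.lf (nat_lit 0) (nat_lit 2299946817) (nat_lit 456) (nat_lit 31808858) (nat_lit 532) (nat_lit 5735996148) (nat_lit 101) (nat_lit 5) (nat_lit 107) (nat_lit 5) (nat_lit 108) (nat_lit 5) (nat_lit 261) (nat_lit 234) (nat_lit 225)) (XT.lf (nat_lit 0) (nat_lit 1620202733) (nat_lit 456) (nat_lit 4996497408) (nat_lit 532) (nat_lit 1632722912) (nat_lit 95) (nat_lit 5) (nat_lit 101) (nat_lit 5) (nat_lit 102) (nat_lit 5) (nat_lit 262) (nat_lit 234) (nat_lit 224)))) (XT.nd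 (nat_lit 78) (nat_lit 456) (nat_lit 0) (XT.lf (nat_lit 0) (nat_lit 839799387) (nat_lit 380) (nat_lit 1669757984) (nat_lit 456) (nat_lit 5933822196) (nat_lit 89) (nat_lit 5) (nat_lit 94) (nat_lit 5) (nat_lit 95) (nat_lit 5) (nat_lit 263) (nat_lit 234) (nat_lit 223)) (XT.nd (nat_lit 78) (nat_lit 456) (nat_lit 0) (XT.lf (nat_lit 0) (nat_lit 6736095666) (nat_lit 456) (nat_lit 68084915) (nat_lit 76) (nat_lit 1845569623) (nat_lit 89) (nat_lit 5) (nat_lit 95) (nat_lit 5) (nat_lit 90) (nat_lit 5) (nat_lit 264) (nat_lit 234) (nat_lit 222)) (XT.lf (nat_lit 0) (nat_lit 2185413842) (nat_lit 456) (nat_lit 1110752779) (nat_lit 76) (nat_lit 5572408466) (nat_lit 83) (nat_lit 5) (nat_lit 89) (nat_lit 5) (nat_lit 84) (nat_lit 5) (nat_lit 265) (nat_lit 234) (nat_lit 221))))))))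
noncomputable def xc38 : XT := (XT.nd (nat_lit 1560) (nat_lit 1216) (nat_lit 0) (XT.nd (nat_lit 780) (nat_lit 1672) (nat_lit 0) (XT.nd (nat_lit 390) (nat_lit 988) (nat_lit 0) (XT.nd (nat_lit 156) (nat_lit 988) (nat_lit 0) (XT.nd (nat_lit 78) (nat_lit 456) (nat_lit 0) (XT.lf (nat_lit 0) (nat_lit 6357058668) (nat_lit 456) (nat_lit 2311269521) (nat_lit 76) (nat_lit 432694093) (nat_lit 78) (nat_lit 5) (nat_lit 84) (nat_lit 5) (nat_lit 79) (nat_lit 5) (nat_lit 266) (nat_lit 234) (nat_lit 220)) (XT.lf (nat_lit 0) (nat_lit 1305267072) (nat_lit 456) (nat_lit 3716041100) (nat_lit 76) (nat_lit 4325605402) (nat_lit 72) (nat_lit 5) (nat_lit 78) (nat_lit 5) (nat_lit 73) (nat_lit 5) (nat_lit 267) (nat_lit 234) (nat_lit 219))) (XT.nd (nat_lit 78) (nat_lit 684) (nat_lit 0) (XT.lf (nat_lit 0) (nat_lit 4275237379) (nat_lit 304) (nat_lit 1136570461) (nat_lit 380) (nat_lit 4195538530) (nat_lit 68) (nat_lit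 5) (nat_lit 72) (nat_lit 5) (nat_lit 73) (nat_lit 5) (nat_lit 268) (nat_lit 234) (nat_lit 218)) (XT.nd (nat_lit 78) (nat_lit 380) (nat_lit 0) (XT.lf (nat_lit 0) (nat_lit 2694821452) (nat_lit 304) (nat_lit 6972756364) (nat_lit 380) (nat_lit 215296322) (nat_lit 64) (nat_lit 5) (nat_lit 68) (nat_lit 5) (nat_lit 69) (nat_lit 5) (nat_lit 269) (nat_lit 234) (nat_lit 217)) (XT.lf (nat_lit 0) (nat_lit 839352120) (nat_lit 304) (nat_lit 2976810196) (nat_lit 380) (nat_lit 6357347173) (nat_lit 59) (nat_lit 5) (nat_lit 63) (nat_lit 5) (nat_lit 64) (nat_lit 5) (nat_lit 270) (nat_lit 234) (nat_lit 216))))) (XT.nd (nat_lit 156) (nat_lit 608) (nat_lit 0) (XT.nd (nat_lit 78) (nat_lit 380) (nat_lit 0) (XT.lf (nat_lit 0) (nat_lit 7990517753) (nat_lit 380) (nat_lit 1262288873) (nat_lit 76) (nat_lit 1227776523) (nat_lit 59) (nat_lit 5) (nat_lit 64) (nat_lit 5) (nat_lit 60) (nat_lit 5) (nat_lit 271) (nat_lit 234)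 (nat_lit 215)) (XT.lf (nat_lit 0) (nat_lit 1503951998) (nat_lit 380) (nat_lit 3677168496) (nat_lit 76) (nat_lit 5622834381) (nat_lit 54) (nat_lit 5) (nat_lit 59) (nat_lit 5) (nat_lit 55) (nat_lit 5) (nat_lit 272) (nat_lit 234) (nat_lit 214))) (XT.nd (nat_lit 78) (nat_lit 380) (nat_lit 0) (XT.lf (nat_lit 0) (nat_lit 4706922692) (nat_lit 228) (nat_lit 867197489) (nat_lit 304) (nat_lit 5571099678) (nat_lit 51) (nat_lit 5) (nat_lit 54) (nat_lit 5) (nat_lit 55) (nat_lit 5) (nat_lit 273) (nat_lit 234) (nat_lit 213)) (XT.nd (nat_lit 78) (nat_lit 76) (nat_lit 0) (XT.lf (nat_lit 0) (nat_lit 1909558455) (nat_lit 304) (nat_lit 7903247463) (nat_lit 380) (nat_lit 1692080226) (nat_lit 47) (nat_lit 5) (nat_lit 51) (nat_lit 5) (nat_lit 52) (nat_lit 5) (nat_lit 274) (nat_lit 234) (nat_lit 212)) (XT.lf (nat_lit 0) (nat_lit 2286241519) (nat_lit 380) (nat_lit 1277931183) (nat_lit 76) (nat_lit 8319388710) (nat_lit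 46) (nat_lit 5) (nat_lit 51) (nat_lit 5) (nat_lit 47) (nat_lit 5) (nat_lit 275) (nat_lit 234) (nat_lit 211)))))) (XT.nd (nat_lit 390) (nat_lit 684) (nat_lit 0) (XT.nd (nat_lit 156) (nat_lit 532) (nat_lit 0) (XT.nd (nat_lit 78) (nat_lit 228) (nat_lit 0) (XT.lf (nat_lit 0) (nat_lit 6392075857) (nat_lit 304) (nat_lit 4875402643) (nat_lit 76) (nat_lit 1014535512) (nat_lit 43) (nat_lit 5) (nat_lit 47) (nat_lit 5) (nat_lit 44) (nat_lit 5) (nat_lit 276) (nat_lit 234) (nat_lit 210)) (XT.lf (nat_lit 0) (nat_lit 3724086745) (nat_lit 228) (nat_lit 6949807599) (nat_lit 304) (nat_lit 2027615937) (nat_lit 40) (nat_lit 5) (nat_lit 43) (nat_lit 5) (nat_lit 44) (nat_lit 5) (nat_lit 277) (nat_lit 234) (nat_lit 209))) (XT.nd (nat_lit 78) (nat_lit 456) (nat_lit 0) (XT.lf (nat_lit 0) (nat_lit 1927161832) (nat_lit 304) (nat_lit 467334636) (nat_lit 76) (nat_lit 10748956419) (nat_lit 39) (nat_lit 5) (nat_lit 43)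 (nat_lit 5) (nat_lit 40) (nat_lit 5) (nat_lit 278) (nat_lit 234) (nat_lit 208)) (XT.nd (nat_lit 78) (nat_lit 228) (nat_lit 0) (XT.lf (nat_lit 0) (nat_lit 6036493064) (nat_lit 304) (nat_lit 5173079605) (nat_lit 76) (nat_lit 2397568171) (nat_lit 36) (nat_lit 5) (nat_lit 40) (nat_lit 5) (nat_lit 37) (nat_lit 5) (nat_lit 279) (nat_lit 234) (nat_lit 207)) (XT.lf (nat_lit 0) (nat_lit 3589272878) (nat_lit 228) (nat_lit 6722265337) (nat_lit 304) (nat_lit 3783870359) (nat_lit 33) (nat_lit 5) (nat_lit 36) (nat_lit 5) (nat_lit 37) (nat_lit 5) (nat_lit 280) (nat_lit 234) (nat_lit 206))))) (XT.nd (nat_lit 156) (nat_lit 456) (nat_lit 0) (XT.nd (nat_lit 78) (nat_lit 152) (nat_lit 0) (XT.lf (nat_lit 0) (nat_lit 141304888) (nat_lit 304) (nat_lit 1861809088) (nat_lit 76) (nat_lit 12606523488) (nat_lit 32) (nat_lit 5) (nat_lit 36) (nat_lit 5) (nat_lit 33) (nat_lit 5) (nat_lit 281) (nat_lit 234) (nat_lit 205))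 (XT.lf (nat_lit 0) (nat_lit 4186980465) (nat_lit 228) (nat_lit 8005503078) (nat_lit 76) (nat_lit 2956073991) (nat_lit 30) (nat_lit 5) (nat_lit 33) (nat_lit 5) (nat_lit 31) (nat_lit 5) (nat_lit 282) (nat_lit 234) (nat_lit 204))) (XT.nd (nat_lit 78) (nat_lit 228) (nat_lit 0) (XT.lf (nat_lit 0) (nat_lit 775952608) (nat_lit 228) (nat_lit 7612648987) (nat_lit 304) (nat_lit 7327382244) (nat_lit 27) (nat_lit 5) (nat_lit 30) (nat_lit 5) (nat_lit 31) (nat_lit 5) (nat_lit 283) (nat_lit 234) (nat_lit 203)) (XT.nd (nat_lit 78) (nat_lit 228) (nat_lit 0) (XT.lf (nat_lit 0) (nat_lit 10025842734) (nat_lit 228) (nat_lit 2766620478) (nat_lit 304) (nat_lit 3519715452) (nat_lit 27) (nat_lit 5) (nat_lit 30) (nat_lit 5) (nat_lit 31) (nat_lit 5) (nat_lit 284) (nat_lit 234) (nat_lit 202)) (XT.lf (nat_lit 0) (nat_lit 430322563) (nat_lit 228) (nat_lit 14247010317) (nat_lit 76) (nat_lit 2262022533) (nat_lit 24) (nat_lit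 5) (nat_lit 27) (nat_lit 5) (nat_lit 25) (nat_lit 5) (nat_lit 285) (nat_lit 234) (nat_lit 201))))))) (XT.nd (nat_lit 780) (nat_lit 608) (nat_lit 0) (XT.nd (nat_lit 390) (nat_lit 228) (nat_lit 0) (XT.nd (nat_lit 156) (nat_lit 228) (nat_lit 0) (XT.nd (nat_lit 78) (nat_lit 152) (nat_lit 0) (XT.lf (nat_lit 0) (nat_lit 4514528935) (nat_lit 228) (nat_lit 5540364794) (nat_lit 76) (nat_lit 7541810669) (nat_lit 24) (nat_lit 5) (nat_lit 27) (nat_lit 5) (nat_lit 25) (nat_lit 5) (nat_lit 286) (nat_lit 234) (nat_lit 200)) (XT.lf (nat_lit 0) (nat_lit 3545414871) (nat_lit 152) (nat_lit 5211140719) (nat_lit 228) (nat_lit 9531892799) (nat_lit 22) (nat_lit 5) (nat_lit 24) (nat_lit 5) (nat_lit 25) (nat_lit 5) (nat_lit 287) (nat_lit 234) (nat_lit 199))) (XT.nd (nat_lit 78) (nat_lit 228) (nat_lit 0) (XT.lf (nat_lit 0) (nat_lit 13079472952) (nat_lit 152) (nat_lit 110434300) (nat_lit 228) (nat_lit 5825625004)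 (nat_lit 22) (nat_lit 5) (nat_lit 24) (nat_lit 5) (nat_lit 25) (nat_lit 5) (nat_lit 288) (nat_lit 234) (nat_lit 198)) (XT.nd (nat_lit 78) (nat_lit 76) (nat_lit 0) (XT.lf (nat_lit 0) (nat_lit 3205460384) (nat_lit 152) (nat_lit 14646193166) (nat_lit 228) (nat_lit 1927238177) (nat_lit 20) (nat_lit 5) (nat_lit 22) (nat_lit 5) (nat_lit 23) (nat_lit 4) (nat_lit 289) (nat_lit 234) (nat_lit 197)) (XT.lf (nat_lit 0) (nat_lit 2113737728) (nat_lit 228) (nat_lit 7789141239) (nat_lit 76) (nat_lit 10677331371) (nat_lit 19) (nat_lit 5) (nat_lit 22) (nat_lit 5) (nat_lit 20) (nat_lit 5) (nat_lit 290) (nat_lit 234) (nat_lit 196))))) (XT.nd (nat_lit 156) (nat_lit 76) (nat_lit 0) (XT.nd (nat_lit 78) (nat_lit 0) (nat_lit 0) (XT.lf (nat_lit 0) (nat_lit 1330282974) (nat_lit 152) (nat_lit 4930361486) (nat_lit 228) (nat_lit 15162174276) (nat_lit 17) (nat_lit 5) (nat_lit 19) (nat_lit 5) (nat_lit 20) (nat_lit 5) (nat_lit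 291) (nat_lit 234) (nat_lit 195)) (XT.lf (nat_lit 0) (nat_lit 10631136115) (nat_lit 228) (nat_lit 11349440141) (nat_lit 76) (nat_lit 326597457) (nat_lit 17) (nat_lit 5) (nat_lit 20) (nat_lit 5) (nat_lit 18) (nat_lit 4) (nat_lit 292) (nat_lit 234) (nat_lit 194))) (XT.nd (nat_lit 78) (nat_lit 76) (nat_lit 0) (XT.lf (nat_lit 0) (nat_lit 15205599677) (nat_lit 228) (nat_lit 2322903108) (nat_lit 76) (nat_lit 5707778658) (nat_lit 17) (nat_lit 5) (nat_lit 20) (nat_lit 5) (nat_lit 18) (nat_lit 4) (nat_lit 293) (nat_lit 234) (nat_lit 193)) (XT.nd (nat_lit 78) (nat_lit 0) (nat_lit 0) (XT.lf (nat_lit 0) (nat_lit 7196388195) (nat_lit 76) (nat_lit 12820320967) (nat_lit 152) (nat_lit 4194991453) (nat_lit 16) (nat_lit 5) (nat_lit 17) (nat_lit 5) (nat_lit 18) (nat_lit 4) (nat_lit 294) (nat_lit 234) (nat_lit 192)) (XT.lf (nat_lit 0) (nat_lit 17144023687) (nat_lit 76) (nat_lit 7889001786) (nat_lit 152) (nat_lit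 204015004) (nat_lit 16) (nat_lit 5) (nat_lit 17) (nat_lit 5) (nat_lit 18) (nat_lit 4) (nat_lit 295) (nat_lit 234) (nat_lit 191)))))) (XT.nd (nat_lit 390) (nat_lit 304) (nat_lit 0) (XT.nd (nat_lit 156) (nat_lit 76) (nat_lit 0) (XT.nd (nat_lit 78) (nat_lit 0) (nat_lit 0) (XT.lf (nat_lit 0) (nat_lit 1167044447) (nat_lit 152) (nat_lit 2695811886) (nat_lit 228) (nat_lit 22451099807) (nat_lit 13) (nat_lit 5) (nat_lit 15) (nat_lit 5) (nat_lit 16) (nat_lit 5) (nat_lit 296) (nat_lit 234) (nat_lit 190)) (XT.lf (nat_lit 0) (nat_lit 8183963726) (nat_lit 228) (nat_lit 16503917037) (nat_lit 76) (nat_lit 2755201485) (nat_lit 13) (nat_lit 5) (nat_lit 16) (nat_lit 5) (nat_lit 14) (nat_lit 4) (nat_lit 297) (nat_lit 234) (nat_lit 189))) (XT.nd (nat_lit 78) (nat_lit 76) (nat_lit 0) (XT.lf (nat_lit 0) (nat_lit 12695416878) (nat_lit 228) (nat_lit 7543164416) (nat_lit 76) (nat_lit 8390929526) (nat_lit 13) (nat_lit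 5) (nat_lit 16) (nat_lit 5) (nat_lit 14) (nat_lit 4) (nat_lit 298) (nat_lit 234) (nat_lit 188)) (XT.nd (nat_lit 78) (nat_lit 0) (nat_lit 0) (XT.lf (nat_lit 0) (nat_lit 1818072224) (nat_lit 76) (nat_lit 15581447750) (nat_lit 152) (nat_lit 12476799835) (nat_lit 12) (nat_lit 5) (nat_lit 13) (nat_lit 5) (nat_lit 14) (nat_lit 4) (nat_lit 299) (nat_lit 234) (nat_lit 187)) (XT.lf (nat_lit 0) (nat_lit 11724349959) (nat_lit 76) (nat_lit 10643354049) (nat_lit 152) (nat_lit 8816966878) (nat_lit 12) (nat_lit 5) (nat_lit 13) (nat_lit 5) (nat_lit 14) (nat_lit 4) (nat_lit 300) (nat_lit 234) (nat_lit 186))))) (XT.nd (nat_lit 234) (nat_lit 76) (nat_lit 0) (XT.nd (nat_lit 78) (nat_lit 228) (nat_lit 0) (XT.lf (nat_lit 0) (nat_lit 22049131401) (nat_lit 76) (nat_lit 5488713994) (nat_lit 152) (nat_lit 5022052353) (nat_lit 12) (nat_lit 5) (nat_lit 13) (nat_lit 5) (nat_lit 14) (nat_lit 4) (nat_lit 301) (nat_lit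 234) (nat_lit 185)) (XT.nd (nat_lit 78) (nat_lit 228) (nat_lit 0) (XT.lf (nat_lit 0) (nat_lit 32816999362) (nat_lit 76) (nat_lit 105254634) (nat_lit 152) (nat_lit 1083020750) (nat_lit 12) (nat_lit 5) (nat_lit 13) (nat_lit 5) (nat_lit 14) (nat_lit 4) (nat_lit 302) (nat_lit 234) (nat_lit 184)) (XT.lf (nat_lit 0) (nat_lit 3088289353) (nat_lit 228) (nat_lit 26905452745) (nat_lit 76) (nat_lit 5525508008) (nat_lit 9) (nat_lit 5) (nat_lit 12) (nat_lit 5) (nat_lit 10) (nat_lit 4) (nat_lit 303) (nat_lit 234) (nat_lit 183)))) (XT.nd (nat_lit 78) (nat_lit 76) (nat_lit 0) (XT.lf (nat_lit 0) (nat_lit 7417889930) (nat_lit 228) (nat_lit 18259446594) (nat_lit 76) (nat_lit 11432156559) (nat_lit 9) (nat_lit 5) (nat_lit 12) (nat_lit 5) (nat_lit 10) (nat_lit 4) (nat_lit 304) (nat_lit 234) (nat_lit 182)) (XT.nd (nat_lit 78) (nat_lit 76) (nat_lit 0) (XT.lf (nat_lit 0) (nat_lit 11924446312) (nat_lit 228) (nat_lit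 9247406679) (nat_lit 76) (nat_lit 17608632603) (nat_lit 9) (nat_lit 5) (nat_lit 12) (nat_lit 5) (nat_lit 10) (nat_lit 4) (nat_lit 305) (nat_lit 234) (nat_lit 181)) (XT.lf (nat_lit 0) (nat_lit 155151807) (nat_lit 76) (nat_lit 16465028004) (nat_lit 152) (nat_lit 23915981642) (nat_lit 8) (nat_lit 5) (nat_lit 9) (nat_lit 5) (nat_lit 10) (nat_lit 4) (nat_lit 306) (nat_lit 234) (nat_lit 180))))))))
noncomputable def xc39 : XT := (XT.nd (nat_lit 1638) (nat_lit 0) (nat_lit 0) (XT.nd (nat_lit 780) (nat_lit 152) (nat_lit 0) (XT.nd (nat_lit 390) (nat_lit 76) (nat_lit 0) (XT.nd (nat_lit 156) (nat_lit 76) (nat_lit 0) (XT.nd (nat_lit 78) (nat_lit 0) (nat_lit 0) (XT.lf (nat_lit 0) (nat_lit 10159779889) (nat_lit 76) (nat_lit 11449675082) (nat_lit 152) (nat_lit 20768450342) (nat_lit 8) (nat_lit 5) (nat_lit 9) (nat_lit 5) (nat_lit 10) (nat_lit 4) (nat_lit 307) (nat_lit 234) (nat_lit 179)) (XT.lf (nat_lit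 0) (nat_lit 20606256584) (nat_lit 76) (nat_lit 6207233583) (nat_lit 152) (nat_lit 17499331936) (nat_lit 8) (nat_lit 5) (nat_lit 9) (nat_lit 5) (nat_lit 10) (nat_lit 4) (nat_lit 308) (nat_lit 234) (nat_lit 178))) (XT.nd (nat_lit 78) (nat_lit 76) (nat_lit 0) (XT.lf (nat_lit 0) (nat_lit 31519454455) (nat_lit 76) (nat_lit 725221505) (nat_lit 152) (nat_lit 14100842808) (nat_lit 8) (nat_lit 5) (nat_lit 9) (nat_lit 5) (nat_lit 10) (nat_lit 4) (nat_lit 309) (nat_lit 234) (nat_lit 177)) (XT.nd (nat_lit 78) (nat_lit 76) (nat_lit 0) (XT.lf (nat_lit 0) (nat_lit 37964097294) (nat_lit 152) (nat_lit 5603631303) (nat_lit 0) (nat_lit 4911661860) (nat_lit 8) (nat_lit 5) (nat_lit 10) (nat_lit 4) (nat_lit 8) (nat_lit 4) (nat_lit 310) (nat_lit 234) (nat_lit 176)) (XT.lf (nat_lit 0) (nat_lit 4101463317) (nat_lit 76) (nat_lit 39884596984) (nat_lit 76) (nat_lit 6733436860) (nat_lit 7) (nat_lit 4) (nat_lit 8) (nat_lit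 5) (nat_lit 8) (nat_lit 4) (nat_lit 311) (nat_lit 234) (nat_lit 175))))) (XT.nd (nat_lit 156) (nat_lit 0) (nat_lit 0) (XT.nd (nat_lit 78) (nat_lit 76) (nat_lit 0) (XT.lf (nat_lit 0) (nat_lit 14359204463) (nat_lit 76) (nat_lit 35978385517) (nat_lit 76) (nat_lit 2733201879) (nat_lit 7) (nat_lit 4) (nat_lit 8) (nat_lit 5) (nat_lit 8) (nat_lit 4) (nat_lit 312) (nat_lit 234) (nat_lit 174)) (XT.lf (nat_lit 0) (nat_lit 1410283062) (nat_lit 152) (nat_lit 30471855225) (nat_lit 76) (nat_lit 23657967921) (nat_lit 6) (nat_lit 5) (nat_lit 8) (nat_lit 5) (nat_lit 7) (nat_lit 4) (nat_lit 313) (nat_lit 234) (nat_lit 173))) (XT.nd (nat_lit 78) (nat_lit 0) (nat_lit 0) (XT.lf (nat_lit 0) (nat_lit 5678146183) (nat_lit 152) (nat_lit 21893375189) (nat_lit 76) (nat_lit 30561373470) (nat_lit 6) (nat_lit 5) (nat_lit 8) (nat_lit 5) (nat_lit 7) (nat_lit 4) (nat_lit 314) (nat_lit 234) (nat_lit 172)) (XT.nd (nat_lit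 78) (nat_lit 0) (nat_lit 0) (XT.lf (nat_lit 0) (nat_lit 10133883675) (nat_lit 152) (nat_lit 12929449125) (nat_lit 76) (nat_lit 37792786461) (nat_lit 6) (nat_lit 5) (nat_lit 8) (nat_lit 5) (nat_lit 7) (nat_lit 4) (nat_lit 315) (nat_lit 234) (nat_lit 171)) (XT.lf (nat_lit 0) (nat_lit 14788104438) (nat_lit 152) (nat_lit 3558734354) (nat_lit 76) (nat_lit 45369424543) (nat_lit 6) (nat_lit 5) (nat_lit 8) (nat_lit 5) (nat_lit 7) (nat_lit 4) (nat_lit 316) (nat_lit 234) (nat_lit 170)))))) (XT.nd (nat_lit 390) (nat_lit 76) (nat_lit 0) (XT.nd (nat_lit 156) (nat_lit 0) (nat_lit 0) (XT.nd (nat_lit 78) (nat_lit 0) (nat_lit 0) (XT.lf (nat_lit 0) (nat_lit 6365290087) (nat_lit 76) (nat_lit 13347786925) (nat_lit 152) (nat_lit 47005224306) (nat_lit 5) (nat_lit 5) (nat_lit 6) (nat_lit 5) (nat_lit 7) (nat_lit 4) (nat_lit 317) (nat_lit 234) (nat_lit 169)) (XT.lf (nat_lit 0) (nat_lit 16821577446) (nat_lit 76)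 (nat_lit 8076942498) (nat_lit 152) (nat_lit 44971521202) (nat_lit 5) (nat_lit 5) (nat_lit 6) (nat_lit 5) (nat_lit 7) (nat_lit 4) (nat_lit 318) (nat_lit 234) (nat_lit 168))) (XT.nd (nat_lit 78) (nat_lit 0) (nat_lit 0) (XT.lf (nat_lit 0) (nat_lit 27764197854) (nat_lit 76) (nat_lit 2557692122) (nat_lit 152) (nat_lit 42858143674) (nat_lit 5) (nat_lit 5) (nat_lit 6) (nat_lit 5) (nat_lit 7) (nat_lit 4) (nat_lit 319) (nat_lit 234) (nat_lit 167)) (XT.nd (nat_lit 78) (nat_lit 0) (nat_lit 0) (XT.lf (nat_lit 0) (nat_lit 36027082352) (nat_lit 152) (nat_lit 37467937055) (nat_lit 0) (nat_lit 3160210882) (nat_lit 5) (nat_lit 5) (nat_lit 7) (nat_lit 4) (nat_lit 5) (nat_lit 4) (nat_lit 320) (nat_lit 234) (nat_lit 166)) (XT.lf (nat_lit 0) (nat_lit 42023857193) (nat_lit 152) (nat_lit 29182020237) (nat_lit 0) (nat_lit 9098142621) (nat_lit 5) (nat_lit 5) (nat_lit 7) (nat_lit 4) (nat_lit 5) (nat_lit 4) (nat_lit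 321) (nat_lit 234) (nat_lit 165))))) (XT.nd (nat_lit 234) (nat_lit 76) (nat_lit 0) (XT.nd (nat_lit 78) (nat_lit 0) (nat_lit 0) (XT.lf (nat_lit 0) (nat_lit 48301906434) (nat_lit 152) (nat_lit 20513770869) (nat_lit 0) (nat_lit 15320150812) (nat_lit 5) (nat_lit 5) (nat_lit 7) (nat_lit 4) (nat_lit 5) (nat_lit 4) (nat_lit 322) (nat_lit 234) (nat_lit 164)) (XT.nd (nat_lit 78) (nat_lit 0) (nat_lit 0) (XT.lf (nat_lit 0) (nat_lit 54876177811) (nat_lit 152) (nat_lit 11442550261) (nat_lit 0) (nat_lit 21841049761) (nat_lit 5) (nat_lit 5) (nat_lit 7) (nat_lit 4) (nat_lit 5) (nat_lit 4) (nat_lit 323) (nat_lit 234) (nat_lit 163)) (XT.lf (nat_lit 0) (nat_lit 61762324350) (nat_lit 152) (nat_lit 1946760269) (nat_lit 0) (nat_lit 28676365416) (nat_lit 5) (nat_lit 5) (nat_lit 7) (nat_lit 4) (nat_lit 5) (nat_lit 4) (nat_lit 324) (nat_lit 234) (nat_lit 162)))) (XT.nd (nat_lit 78) (nat_lit 0) (nat_lit 0) (XT.lf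 (nat_lit 0) (nat_lit 8155348351) (nat_lit 76) (nat_lit 60899787487) (nat_lit 76) (nat_lit 27765418186) (nat_lit 4) (nat_lit 4) (nat_lit 5) (nat_lit 5) (nat_lit 5) (nat_lit 4) (nat_lit 325) (nat_lit 234) (nat_lit 161)) (XT.nd (nat_lit 78) (nat_lit 0) (nat_lit 0) (XT.lf (nat_lit 0) (nat_lit 18776424340) (nat_lit 76) (nat_lit 57940673000) (nat_lit 76) (nat_lit 24760198590) (nat_lit 4) (nat_lit 4) (nat_lit 5) (nat_lit 5) (nat_lit 5) (nat_lit 4) (nat_lit 326) (nat_lit 234) (nat_lit 160)) (XT.lf (nat_lit 0) (nat_lit 29903011629) (nat_lit 76) (nat_lit 54844354112) (nat_lit 76) (nat_lit 21619970072) (nat_lit 4) (nat_lit 4) (nat_lit 5) (nat_lit 5) (nat_lit 5) (nat_lit 4) (nat_lit 327) (nat_lit 234) (nat_lit 159))))))) (XT.nd (nat_lit 32058) (nat_lit 0) (nat_lit 4864) (XT.nd (nat_lit 31668) (nat_lit 0) (nat_lit 9500) (XT.nd (nat_lit 31434) (nat_lit 0) (nat_lit 14288) (XT.nd (nat_lit 78) (nat_lit 0)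 (nat_lit 0) (XT.lf (nat_lit 0) (nat_lit 41561602092) (nat_lit 76) (nat_lit 51603458634) (nat_lit 76) (nat_lit 18337255900) (nat_lit 4) (nat_lit 4) (nat_lit 5) (nat_lit 5) (nat_lit 5) (nat_lit 4) (nat_lit 328) (nat_lit 234) (nat_lit 158)) (XT.lf (nat_lit 0) (nat_lit 53779954277) (nat_lit 76) (nat_lit 48210270148) (nat_lit 76) (nat_lit 14904240086) (nat_lit 4) (nat_lit 4) (nat_lit 5) (nat_lit 5) (nat_lit 5) (nat_lit 4) (nat_lit 329) (nat_lit 234) (nat_lit 157))) (XT.nd (nat_lit 78) (nat_lit 760) (nat_lit 0) (XT.lf (nat_lit 0) (nat_lit 73420220) (nat_lit 684) (nat_lit 3238632838) (nat_lit 0) (nat_lit 73420220) (nat_lit 202) (nat_lit 5) (nat_lit 211) (nat_lit 4) (nat_lit 202) (nat_lit 4) (nat_lit 250) (nat_lit 235) (nat_lit 235)) (XT.nd (nat_lit 78) (nat_lit 760) (nat_lit 0) (XT.lf (nat_lit 0) (nat_lit 4736393769) (nat_lit 684) (nat_lit 359700265) (nat_lit 0) (nat_lit 1746440043) (nat_lit 202)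 (nat_lit 5) (nat_lit 211) (nat_lit 4) (nat_lit 202) (nat_lit 4) (nat_lit 251) (nat_lit 235) (nat_lit 234)) (XT.lf (nat_lit 0) (nat_lit 2397628072) (nat_lit 760) (nat_lit 970343716) (nat_lit 76) (nat_lit 3555706770) (nat_lit 192) (nat_lit 5) (nat_lit 202) (nat_lit 5) (nat_lit 193) (nat_lit 4) (nat_lit 252) (nat_lit 235) (nat_lit 233))))) (XT.nd (nat_lit 156) (nat_lit 3116) (nat_lit 0) (XT.nd (nat_lit 78) (nat_lit 912) (nat_lit 0) (XT.lf (nat_lit 0) (nat_lit 5463316125) (nat_lit 760) (nat_lit 1439551361) (nat_lit 836) (nat_lit 111820085) (nat_lit 182) (nat_lit 5) (nat_lit 192) (nat_lit 5) (nat_lit 193) (nat_lit 4) (nat_lit 253) (nat_lit 235) (nat_lit 232)) (XT.lf (nat_lit 0) (nat_lit 4269071727) (nat_lit 912) (nat_lit 2141880820) (nat_lit 76) (nat_lit 703914390) (nat_lit 170) (nat_lit 5) (nat_lit 182) (nat_lit 5) (nat_lit 171) (nat_lit 4) (nat_lit 254) (nat_lit 235) (nat_lit 231))) (XT.nd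 (nat_lit 78) (nat_lit 2128) (nat_lit 0) (XT.lf (nat_lit 0) (nat_lit 1464852157) (nat_lit 988) (nat_lit 2735714686) (nat_lit 76) (nat_lit 3024350014) (nat_lit 157) (nat_lit 5) (nat_lit 170) (nat_lit 5) (nat_lit 158) (nat_lit 5) (nat_lit 255) (nat_lit 235) (nat_lit 230)) (XT.nd (nat_lit 78) (nat_lit 1140) (nat_lit 0) (XT.lf (nat_lit 0) (nat_lit 4002196008) (nat_lit 988) (nat_lit 1775627856) (nat_lit 1064) (nat_lit 1567267850) (nat_lit 144) (nat_lit 5) (nat_lit 157) (nat_lit 5) (nat_lit 158) (nat_lit 5) (nat_lit 256) (nat_lit 235) (nat_lit 229)) (XT.lf (nat_lit 0) (nat_lit 2640200460) (nat_lit 1140) (nat_lit 3982360379) (nat_lit 76) (nat_lit 852860252) (nat_lit 129) (nat_lit 5) (nat_lit 144) (nat_lit 5) (nat_lit 130) (nat_lit 5) (nat_lit 257) (nat_lit 235) (nat_lit 228)))))) (XT.nd (nat_lit 390) (nat_lit 2052) (nat_lit 0) (XT.nd (nat_lit 156) (nat_lit 1520) (nat_lit 0) (XT.nd (nat_lit 78) (nat_lit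 532) (nat_lit 0) (XT.lf (nat_lit 0) (nat_lit 2949006649) (nat_lit 532) (nat_lit 3955997920) (nat_lit 608) (nat_lit 711152765) (nat_lit 122) (nat_lit 5) (nat_lit 129) (nat_lit 5) (nat_lit 130) (nat_lit 5) (nat_lit 258) (nat_lit 235) (nat_lit 227)) (XT.lf (nat_lit 0) (nat_lit 2355582470) (nat_lit 456) (nat_lit 1060111534) (nat_lit 532) (nat_lit 4351858430) (nat_lit 115) (nat_lit 5) (nat_lit 121) (nat_lit 5) (nat_lit 122) (nat_lit 5) (nat_lit 259) (nat_lit 235) (nat_lit 226))) (XT.nd (nat_lit 78) (nat_lit 988) (nat_lit 0) (XT.lf (nat_lit 0) (nat_lit 1705393616) (nat_lit 532) (nat_lit 5923433205) (nat_lit 608) (nat_lit 301288877) (nat_lit 108) (nat_lit 5) (nat_lit 115) (nat_lit 5) (nat_lit 116) (nat_lit 5) (nat_lit 260) (nat_lit 235) (nat_lit 225)) (XT.nd (nat_lit 78) (nat_lit 456) (nat_lit 0) (XT.lf (nat_lit 0) (nat_lit 960534900) (nat_lit 456) (nat_lit 2805632767) (nat_lit 532) (nat_lit 4337355929)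 (nat_lit 101) (nat_lit 5) (nat_lit 107) (nat_lit 5) (nat_lit 108) (nat_lit 5) (nat_lit 261) (nat_lit 235) (nat_lit 224)) (XT.lf (nat_lit 0) (nat_lit 144590952) (nat_lit 456) (nat_lit 7778852527) (nat_lit 532) (nat_lit 365860275) (nat_lit 95) (nat_lit 5) (nat_lit 101) (nat_lit 5) (nat_lit 102) (nat_lit 5) (nat_lit 262) (nat_lit 235) (nat_lit 223))))) (XT.nd (nat_lit 234) (nat_lit 1140) (nat_lit 0) (XT.nd (nat_lit 78) (nat_lit 836) (nat_lit 0) (XT.lf (nat_lit 0) (nat_lit 3658934142) (nat_lit 532) (nat_lit 801681468) (nat_lit 76) (nat_lit 4025320121) (nat_lit 94) (nat_lit 5) (nat_lit 101) (nat_lit 5) (nat_lit 95) (nat_lit 5) (nat_lit 263) (nat_lit 235) (nat_lit 222)) (XT.nd (nat_lit 78) (nat_lit 456) (nat_lit 0) (XT.lf (nat_lit 0) (nat_lit 6848235642) (nat_lit 380) (nat_lit 929714519) (nat_lit 456) (nat_lit 917827448) (nat_lit 89) (nat_lit 5) (nat_lit 94) (nat_lit 5) (nat_lit 95) (nat_lit 5)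 (nat_lit 264) (nat_lit 235) (nat_lit 221)) (XT.lf (nat_lit 0) (nat_lit 3055533027) (nat_lit 456) (nat_lit 3068863069) (nat_lit 76) (nat_lit 2793334562) (nat_lit 83) (nat_lit 5) (nat_lit 89) (nat_lit 5) (nat_lit 84) (nat_lit 5) (nat_lit 265) (nat_lit 235) (nat_lit 220)))) (XT.nd (nat_lit 78) (nat_lit 760) (nat_lit 0) (XT.lf (nat_lit 0) (nat_lit 4703574877) (nat_lit 380) (nat_lit 2423341105) (nat_lit 456) (nat_lit 2026485984) (nat_lit 78) (nat_lit 5) (nat_lit 83) (nat_lit 5) (nat_lit 84) (nat_lit 5) (nat_lit 266) (nat_lit 235) (nat_lit 219)) (XT.nd (nat_lit 78) (nat_lit 304) (nat_lit 0) (XT.lf (nat_lit 0) (nat_lit 1889127433) (nat_lit 456) (nat_lit 6028339775) (nat_lit 76) (nat_lit 1485407605) (nat_lit 72) (nat_lit 5) (nat_lit 78) (nat_lit 5) (nat_lit 73) (nat_lit 5) (nat_lit 267) (nat_lit 235) (nat_lit 218)) (XT.lf (nat_lit 0) (nat_lit 1824859834) (nat_lit 304) (nat_lit 4075684104) (nat_lit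 380) (nat_lit 3765807837) (nat_lit 68) (nat_lit 5) (nat_lit 72) (nat_lit 5) (nat_lit 73) (nat_lit 5) (nat_lit 268) (nat_lit 235) (nat_lit 217))))))))
noncomputable def xc40 : XT := (XT.nd (nat_lit 1560) (nat_lit 1064) (nat_lit 0) (XT.nd (nat_lit 780) (nat_lit 1292) (nat_lit 0) (XT.nd (nat_lit 390) (nat_lit 912) (nat_lit 0) (XT.nd (nat_lit 156) (nat_lit 912) (nat_lit 0) (XT.nd (nat_lit 78) (nat_lit 0) (nat_lit 0) (XT.lf (nat_lit 0) (nat_lit 71762600) (nat_lit 304) (nat_lit 14594400) (nat_lit 380) (nat_lit 9859353580) (nat_lit 63) (nat_lit 5) (nat_lit 67) (nat_lit 5) (nat_lit 68) (nat_lit 5) (nat_lit 269) (nat_lit 235) (nat_lit 216)) (XT.lf (nat_lit 0) (nat_lit 4037848312) (nat_lit 380) (nat_lit 1953538673) (nat_lit 76) (nat_lit 4247337544) (nat_lit 63) (nat_lit 5) (nat_lit 68) (nat_lit 5) (nat_lit 64) (nat_lit 5) (nat_lit 270) (nat_lit 235) (nat_lit 215))) (XT.nd (nat_lit 78) (nat_lit 608)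 (nat_lit 0) (XT.lf (nat_lit 0) (nat_lit 6312777128) (nat_lit 304) (nat_lit 1803068732) (nat_lit 380) (nat_lit 2433002781) (nat_lit 59) (nat_lit 5) (nat_lit 63) (nat_lit 5) (nat_lit 64) (nat_lit 5) (nat_lit 271) (nat_lit 235) (nat_lit 214)) (XT.nd (nat_lit 78) (nat_lit 228) (nat_lit 0) (XT.lf (nat_lit 0) (nat_lit 1449272326) (nat_lit 380) (nat_lit 6849155715) (nat_lit 76) (nat_lit 2577242414) (nat_lit 54) (nat_lit 5) (nat_lit 59) (nat_lit 5) (nat_lit 55) (nat_lit 5) (nat_lit 272) (nat_lit 235) (nat_lit 213)) (XT.lf (nat_lit 0) (nat_lit 1387346511) (nat_lit 228) (nat_lit 4039371631) (nat_lit 304) (nat_lit 5793139615) (nat_lit 51) (nat_lit 5) (nat_lit 54) (nat_lit 5) (nat_lit 55) (nat_lit 5) (nat_lit 273) (nat_lit 235) (nat_lit 212))))) (XT.nd (nat_lit 156) (nat_lit 532) (nat_lit 0) (XT.nd (nat_lit 78) (nat_lit 380) (nat_lit 0) (XT.lf (nat_lit 0) (nat_lit 9557656144) (nat_lit 304) (nat_lit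 1573548982) (nat_lit 76) (nat_lit 451685298) (nat_lit 51) (nat_lit 5) (nat_lit 55) (nat_lit 5) (nat_lit 52) (nat_lit 5) (nat_lit 274) (nat_lit 235) (nat_lit 211)) (XT.lf (nat_lit 0) (nat_lit 1886459650) (nat_lit 380) (nat_lit 4948506202) (nat_lit 76) (nat_lit 5129013636) (nat_lit 46) (nat_lit 5) (nat_lit 51) (nat_lit 5) (nat_lit 47) (nat_lit 5) (nat_lit 275) (nat_lit 235) (nat_lit 210))) (XT.nd (nat_lit 78) (nat_lit 304) (nat_lit 0) (XT.lf (nat_lit 0) (nat_lit 3594513492) (nat_lit 228) (nat_lit 2296282651) (nat_lit 304) (nat_lit 6474798837) (nat_lit 43) (nat_lit 5) (nat_lit 46) (nat_lit 5) (nat_lit 47) (nat_lit 5) (nat_lit 276) (nat_lit 235) (nat_lit 209)) (XT.nd (nat_lit 78) (nat_lit 304) (nat_lit 0) (XT.lf (nat_lit 0) (nat_lit 10061611799) (nat_lit 304) (nat_lit 298644810) (nat_lit 76) (nat_lit 2428277066) (nat_lit 43) (nat_lit 5) (nat_lit 47) (nat_lit 5) (nat_lit 44) (nat_lit 5) (nat_lit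 277) (nat_lit 235) (nat_lit 208)) (XT.lf (nat_lit 0) (nat_lit 1186616852) (nat_lit 304) (nat_lit 4651771293) (nat_lit 76) (nat_lit 7394040225) (nat_lit 39) (nat_lit 5) (nat_lit 43) (nat_lit 5) (nat_lit 40) (nat_lit 5) (nat_lit 278) (nat_lit 235) (nat_lit 207)))))) (XT.nd (nat_lit 390) (nat_lit 608) (nat_lit 0) (XT.nd (nat_lit 156) (nat_lit 456) (nat_lit 0) (XT.nd (nat_lit 78) (nat_lit 0) (nat_lit 0) (XT.lf (nat_lit 0) (nat_lit 4117316789) (nat_lit 228) (nat_lit 1063942437) (nat_lit 304) (nat_lit 8518396692) (nat_lit 36) (nat_lit 5) (nat_lit 39) (nat_lit 5) (nat_lit 40) (nat_lit 5) (nat_lit 279) (nat_lit 235) (nat_lit 206)) (XT.lf (nat_lit 0) (nat_lit 9363592670) (nat_lit 304) (nat_lit 950867476) (nat_lit 76) (nat_lit 3876339075) (nat_lit 36) (nat_lit 5) (nat_lit 40) (nat_lit 5) (nat_lit 37) (nat_lit 5) (nat_lit 280) (nat_lit 235) (nat_lit 205))) (XT.nd (nat_lit 78) (nat_lit 228) (nat_lit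 0) (XT.lf (nat_lit 0) (nat_lit 8121159504) (nat_lit 228) (nat_lit 5629008015) (nat_lit 304) (nat_lit 956662376) (nat_lit 33) (nat_lit 5) (nat_lit 36) (nat_lit 5) (nat_lit 37) (nat_lit 5) (nat_lit 281) (nat_lit 235) (nat_lit 204)) (XT.nd (nat_lit 78) (nat_lit 0) (nat_lit 0) (XT.lf (nat_lit 0) (nat_lit 2296364702) (nat_lit 152) (nat_lit 690784867) (nat_lit 228) (nat_lit 12262575192) (nat_lit 30) (nat_lit 5) (nat_lit 32) (nat_lit 5) (nat_lit 33) (nat_lit 5) (nat_lit 282) (nat_lit 235) (nat_lit 203)) (XT.lf (nat_lit 0) (nat_lit 7131293817) (nat_lit 228) (nat_lit 4246375661) (nat_lit 76) (nat_lit 4441284913) (nat_lit 30) (nat_lit 5) (nat_lit 33) (nat_lit 5) (nat_lit 31) (nat_lit 5) (nat_lit 283) (nat_lit 235) (nat_lit 202))))) (XT.nd (nat_lit 156) (nat_lit 380) (nat_lit 0) (XT.nd (nat_lit 78) (nat_lit 0) (nat_lit 0) (XT.lf (nat_lit 0) (nat_lit 4854924370) (nat_lit 228) (nat_lit 6596671863) (nat_lit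 304) (nat_lit 4966135014) (nat_lit 27) (nat_lit 5) (nat_lit 30) (nat_lit 5) (nat_lit 31) (nat_lit 5) (nat_lit 284) (nat_lit 235) (nat_lit 201)) (XT.lf (nat_lit 0) (nat_lit 14374919758) (nat_lit 228) (nat_lit 1574847146) (nat_lit 304) (nat_lit 1097971376) (nat_lit 27) (nat_lit 5) (nat_lit 30) (nat_lit 5) (nat_lit 31) (nat_lit 5) (nat_lit 285) (nat_lit 235) (nat_lit 200))) (XT.nd (nat_lit 78) (nat_lit 152) (nat_lit 0) (XT.lf (nat_lit 0) (nat_lit 2926804412) (nat_lit 228) (nat_lit 11103101446) (nat_lit 76) (nat_lit 3677989988) (nat_lit 24) (nat_lit 5) (nat_lit 27) (nat_lit 5) (nat_lit 25) (nat_lit 5) (nat_lit 286) (nat_lit 235) (nat_lit 199)) (XT.nd (nat_lit 78) (nat_lit 152) (nat_lit 0) (XT.lf (nat_lit 0) (nat_lit 7097365593) (nat_lit 228) (nat_lit 2144755046) (nat_lit 76) (nat_lit 9159726277) (nat_lit 24) (nat_lit 5) (nat_lit 27) (nat_lit 5) (nat_lit 25) (nat_lit 5) (nat_lit 287) (nat_lit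 235) (nat_lit 198)) (XT.lf (nat_lit 0) (nat_lit 7290038459) (nat_lit 152) (nat_lit 4183503356) (nat_lit 228) (nat_lit 7657164340) (nat_lit 22) (nat_lit 5) (nat_lit 24) (nat_lit 5) (nat_lit 25) (nat_lit 5) (nat_lit 288) (nat_lit 235) (nat_lit 197))))))) (XT.nd (nat_lit 780) (nat_lit 380) (nat_lit 0) (XT.nd (nat_lit 390) (nat_lit 304) (nat_lit 0) (XT.nd (nat_lit 156) (nat_lit 152) (nat_lit 0) (XT.nd (nat_lit 78) (nat_lit 228) (nat_lit 0) (XT.lf (nat_lit 0) (nat_lit 16030708315) (nat_lit 228) (nat_lit 2777333738) (nat_lit 76) (nat_lit 1089218214) (nat_lit 22) (nat_lit 5) (nat_lit 25) (nat_lit 5) (nat_lit 23) (nat_lit 4) (nat_lit 289) (nat_lit 235) (nat_lit 196)) (XT.lf (nat_lit 0) (nat_lit 150906285) (nat_lit 228) (nat_lit 13981428532) (nat_lit 76) (nat_lit 6568697070) (nat_lit 19) (nat_lit 5) (nat_lit 22) (nat_lit 5) (nat_lit 20) (nat_lit 5) (nat_lit 290) (nat_lit 235) (nat_lit 195))) (XT.nd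 (nat_lit 78) (nat_lit 152) (nat_lit 0) (XT.lf (nat_lit 0) (nat_lit 4252775704) (nat_lit 228) (nat_lit 4939338971) (nat_lit 76) (nat_lit 12352927142) (nat_lit 19) (nat_lit 5) (nat_lit 22) (nat_lit 5) (nat_lit 20) (nat_lit 5) (nat_lit 291) (nat_lit 235) (nat_lit 194)) (XT.nd (nat_lit 78) (nat_lit 0) (nat_lit 0) (XT.lf (nat_lit 0) (nat_lit 4543203733) (nat_lit 152) (nat_lit 3997242982) (nat_lit 228) (nat_lit 13891482710) (nat_lit 17) (nat_lit 5) (nat_lit 19) (nat_lit 5) (nat_lit 20) (nat_lit 5) (nat_lit 292) (nat_lit 235) (nat_lit 193)) (XT.lf (nat_lit 0) (nat_lit 13046606655) (nat_lit 228) (nat_lit 8872057415) (nat_lit 76) (nat_lit 1444467920) (nat_lit 17) (nat_lit 5) (nat_lit 20) (nat_lit 5) (nat_lit 18) (nat_lit 4) (nat_lit 293) (nat_lit 235) (nat_lit 192))))) (XT.nd (nat_lit 156) (nat_lit 228) (nat_lit 0) (XT.nd (nat_lit 78) (nat_lit 0) (nat_lit 0) (XT.lf (nat_lit 0) (nat_lit 469984476)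 (nat_lit 76) (nat_lit 17294616520) (nat_lit 152) (nat_lit 6576787168) (nat_lit 16) (nat_lit 5) (nat_lit 17) (nat_lit 5) (nat_lit 18) (nat_lit 4) (nat_lit 294) (nat_lit 235) (nat_lit 191)) (XT.lf (nat_lit 0) (nat_lit 10372945303) (nat_lit 76) (nat_lit 12380440815) (nat_lit 152) (nat_lit 2614209319) (nat_lit 16) (nat_lit 5) (nat_lit 17) (nat_lit 5) (nat_lit 18) (nat_lit 4) (nat_lit 295) (nat_lit 235) (nat_lit 190))) (XT.nd (nat_lit 78) (nat_lit 152) (nat_lit 0) (XT.lf (nat_lit 0) (nat_lit 1461956730) (nat_lit 152) (nat_lit 5777307295) (nat_lit 76) (nat_lit 19207112577) (nat_lit 15) (nat_lit 5) (nat_lit 17) (nat_lit 5) (nat_lit 16) (nat_lit 5) (nat_lit 296) (nat_lit 235) (nat_lit 189)) (XT.nd (nat_lit 78) (nat_lit 0) (nat_lit 0) (XT.lf (nat_lit 0) (nat_lit 3865778274) (nat_lit 152) (nat_lit 1807975520) (nat_lit 228) (nat_lit 21905064749) (nat_lit 13) (nat_lit 5) (nat_lit 15) (nat_lit 5) (nat_lit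 16) (nat_lit 5) (nat_lit 297) (nat_lit 235) (nat_lit 188)) (XT.lf (nat_lit 0) (nat_lit 10143242636) (nat_lit 228) (nat_lit 14775411085) (nat_lit 76) (nat_lit 3847887107) (nat_lit 13) (nat_lit 5) (nat_lit 16) (nat_lit 5) (nat_lit 14) (nat_lit 4) (nat_lit 298) (nat_lit 235) (nat_lit 187)))))) (XT.nd (nat_lit 390) (nat_lit 76) (nat_lit 0) (XT.nd (nat_lit 156) (nat_lit 228) (nat_lit 0) (XT.nd (nat_lit 78) (nat_lit 76) (nat_lit 0) (XT.lf (nat_lit 0) (nat_lit 14806455078) (nat_lit 228) (nat_lit 5488225681) (nat_lit 76) (nat_lit 9719928906) (nat_lit 13) (nat_lit 5) (nat_lit 16) (nat_lit 5) (nat_lit 14) (nat_lit 4) (nat_lit 299) (nat_lit 235) (nat_lit 186)) (XT.lf (nat_lit 0) (nat_lit 4271357220) (nat_lit 76) (nat_lit 15426816318) (nat_lit 152) (nat_lit 11627112719) (nat_lit 12) (nat_lit 5) (nat_lit 13) (nat_lit 5) (nat_lit 14) (nat_lit 4) (nat_lit 300) (nat_lit 235) (nat_lit 185))) (XT.nd (nat_lit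 78) (nat_lit 228) (nat_lit 0) (XT.lf (nat_lit 0) (nat_lit 14560454490) (nat_lit 76) (nat_lit 10286280019) (nat_lit 152) (nat_lit 7854456071) (nat_lit 12) (nat_lit 5) (nat_lit 13) (nat_lit 5) (nat_lit 14) (nat_lit 4) (nat_lit 301) (nat_lit 235) (nat_lit 184)) (XT.nd (nat_lit 78) (nat_lit 228) (nat_lit 0) (XT.lf (nat_lit 0) (nat_lit 25294337526) (nat_lit 76) (nat_lit 4916252806) (nat_lit 152) (nat_lit 3936622447) (nat_lit 12) (nat_lit 5) (nat_lit 13) (nat_lit 5) (nat_lit 14) (nat_lit 4) (nat_lit 302) (nat_lit 235) (nat_lit 183)) (XT.lf (nat_lit 0) (nat_lit 147994205) (nat_lit 228) (nat_lit 34826306092) (nat_lit 76) (nat_lit 692008543) (nat_lit 9) (nat_lit 5) (nat_lit 12) (nat_lit 5) (nat_lit 10) (nat_lit 4) (nat_lit 303) (nat_lit 235) (nat_lit 182))))) (XT.nd (nat_lit 234) (nat_lit 76) (nat_lit 0) (XT.nd (nat_lit 78) (nat_lit 0) (nat_lit 0) (XT.lf (nat_lit 0) (nat_lit 4458314673) (nat_lit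 228) (nat_lit 26212625084) (nat_lit 76) (nat_lit 6586215663) (nat_lit 9) (nat_lit 5) (nat_lit 12) (nat_lit 5) (nat_lit 10) (nat_lit 4) (nat_lit 304) (nat_lit 235) (nat_lit 181)) (XT.nd (nat_lit 78) (nat_lit 0) (nat_lit 0) (XT.lf (nat_lit 0) (nat_lit 8946509047) (nat_lit 228) (nat_lit 17231371020) (nat_lit 76) (nat_lit 12750842725) (nat_lit 9) (nat_lit 5) (nat_lit 12) (nat_lit 5) (nat_lit 10) (nat_lit 4) (nat_lit 305) (nat_lit 235) (nat_lit 180)) (XT.lf (nat_lit 0) (nat_lit 13623263505) (nat_lit 228) (nat_lit 7861159962) (nat_lit 76) (nat_lit 19200567412) (nat_lit 9) (nat_lit 5) (nat_lit 12) (nat_lit 5) (nat_lit 10) (nat_lit 4) (nat_lit 306) (nat_lit 235) (nat_lit 179)))) (XT.nd (nat_lit 78) (nat_lit 0) (nat_lit 0) (XT.lf (nat_lit 0) (nat_lit 1958536211) (nat_lit 76) (nat_lit 16560003613) (nat_lit 152) (nat_lit 24011036648) (nat_lit 8) (nat_lit 5) (nat_lit 9) (nat_lit 5) (nat_lit 10) (nat_lit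 4) (nat_lit 307) (nat_lit 235) (nat_lit 178)) (XT.nd (nat_lit 78) (nat_lit 0) (nat_lit 0) (XT.lf (nat_lit 0) (nat_lit 12377889659) (nat_lit 76) (nat_lit 11328562844) (nat_lit 152) (nat_lit 20758545168) (nat_lit 8) (nat_lit 5) (nat_lit 9) (nat_lit 5) (nat_lit 10) (nat_lit 4) (nat_lit 308) (nat_lit 235) (nat_lit 177)) (XT.lf (nat_lit 0) (nat_lit 23265255866) (nat_lit 76) (nat_lit 5857027651) (nat_lit 152) (nat_lit 17375891208) (nat_lit 8) (nat_lit 5) (nat_lit 9) (nat_lit 5) (nat_lit 10) (nat_lit 4) (nat_lit 309) (nat_lit 235) (nat_lit 176))))))))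
noncomputable def xc41 : XT := (XT.nd (nat_lit 32682) (nat_lit 0) (nat_lit 5168) (XT.nd (nat_lit 780) (nat_lit 76) (nat_lit 0) (XT.nd (nat_lit 390) (nat_lit 76) (nat_lit 0) (XT.nd (nat_lit 156) (nat_lit 152) (nat_lit 0) (XT.nd (nat_lit 78) (nat_lit 0) (nat_lit 0) (XT.lf (nat_lit 0) (nat_lit 34646557133) (nat_lit 76) (nat_lit 132370569) (nat_lit 152) (nat_lit 13855020829) (nat_lit 8) (nat_lit 5) (nat_lit 9) (nat_lit 5) (nat_lit 10) (nat_lit 4) (nat_lit 310) (nat_lit 235) (nat_lit 175)) (XT.lf (nat_lit 0) (nat_lit 40746173924) (nat_lit 152) (nat_lit 4384833134) (nat_lit 0) (nat_lit 5744707590) (nat_lit 8) (nat_lit 5) (nat_lit 10) (nat_lit 4) (nat_lit 8) (nat_lit 4) (nat_lit 311) (nat_lit 235) (nat_lit 174))) (XT.nd (nat_lit 78) (nat_lit 76) (nat_lit 0) (XT.lf (nat_lit 0) (nat_lit 5762548263) (nat_lit 76) (nat_lit 41278593762) (nat_lit 76) (nat_lit 6187581224) (nat_lit 7) (nat_lit 4) (nat_lit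 8) (nat_lit 5) (nat_lit 8) (nat_lit 4) (nat_lit 312) (nat_lit 235) (nat_lit 173)) (XT.nd (nat_lit 78) (nat_lit 76) (nat_lit 0) (XT.lf (nat_lit 0) (nat_lit 16463842572) (nat_lit 76) (nat_lit 37205654249) (nat_lit 76) (nat_lit 2029359612) (nat_lit 7) (nat_lit 4) (nat_lit 8) (nat_lit 5) (nat_lit 8) (nat_lit 4) (nat_lit 313) (nat_lit 235) (nat_lit 172)) (XT.lf (nat_lit 0) (nat_lit 2265655436) (nat_lit 152) (nat_lit 30658235147) (nat_lit 76) (nat_lit 25368728173) (nat_lit 6) (nat_lit 5) (nat_lit 8) (nat_lit 5) (nat_lit 7) (nat_lit 4) (nat_lit 314) (nat_lit 235) (nat_lit 171))))) (XT.nd (nat_lit 156) (nat_lit 76) (nat_lit 0) (XT.nd (nat_lit 78) (nat_lit 0) (nat_lit 0) (XT.lf (nat_lit 0) (nat_lit 6709537512) (nat_lit 152) (nat_lit 21714507911) (nat_lit 76) (nat_lit 32592167721) (nat_lit 6) (nat_lit 5) (nat_lit 8) (nat_lit 5) (nat_lit 7) (nat_lit 4) (nat_lit 315) (nat_lit 235) (nat_lit 170)) (XT.lf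 (nat_lit 0) (nat_lit 11352467402) (nat_lit 152) (nat_lit 12363030117) (nat_lit 76) (nat_lit 40161212048) (nat_lit 6) (nat_lit 5) (nat_lit 8) (nat_lit 5) (nat_lit 7) (nat_lit 4) (nat_lit 316) (nat_lit 235) (nat_lit 169))) (XT.nd (nat_lit 78) (nat_lit 76) (nat_lit 0) (XT.lf (nat_lit 0) (nat_lit 16205499701) (nat_lit 152) (nat_lit 2581536344) (nat_lit 76) (nat_lit 48093882688) (nat_lit 6) (nat_lit 5) (nat_lit 8) (nat_lit 5) (nat_lit 7) (nat_lit 4) (nat_lit 317) (nat_lit 235) (nat_lit 168)) (XT.nd (nat_lit 78) (nat_lit 0) (nat_lit 0) (XT.lf (nat_lit 0) (nat_lit 7805577614) (nat_lit 76) (nat_lit 13549643621) (nat_lit 152) (nat_lit 48678521326) (nat_lit 5) (nat_lit 5) (nat_lit 6) (nat_lit 5) (nat_lit 7) (nat_lit 4) (nat_lit 318) (nat_lit 235) (nat_lit 167)) (XT.lf (nat_lit 0) (nat_lit 18731249673) (nat_lit 76) (nat_lit 8037425194) (nat_lit 152) (nat_lit 46575369457) (nat_lit 5) (nat_lit 5) (nat_lit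 6) (nat_lit 5) (nat_lit 7) (nat_lit 4) (nat_lit 319) (nat_lit 235) (nat_lit 166)))))) (XT.nd (nat_lit 390) (nat_lit 76) (nat_lit 0) (XT.nd (nat_lit 156) (nat_lit 0) (nat_lit 0) (XT.nd (nat_lit 78) (nat_lit 0) (nat_lit 0) (XT.lf (nat_lit 0) (nat_lit 30170115703) (nat_lit 76) (nat_lit 2263324891) (nat_lit 152) (nat_lit 44387024377) (nat_lit 5) (nat_lit 5) (nat_lit 6) (nat_lit 5) (nat_lit 7) (nat_lit 4) (nat_lit 320) (nat_lit 235) (nat_lit 165)) (XT.lf (nat_lit 0) (nat_lit 38399403196) (nat_lit 152) (nat_lit 38358267836) (nat_lit 0) (nat_lit 3712518743) (nat_lit 5) (nat_lit 5) (nat_lit 7) (nat_lit 4) (nat_lit 5) (nat_lit 4) (nat_lit 321) (nat_lit 235) (nat_lit 164))) (XT.nd (nat_lit 78) (nat_lit 0) (nat_lit 0) (XT.lf (nat_lit 0) (nat_lit 44668827887) (nat_lit 152) (nat_lit 29704867848) (nat_lit 0) (nat_lit 9928571006) (nat_lit 5) (nat_lit 5) (nat_lit 7) (nat_lit 4) (nat_lit 5) (nat_lit 4) (nat_lit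 322) (nat_lit 235) (nat_lit 163)) (XT.nd (nat_lit 78) (nat_lit 0) (nat_lit 0) (XT.lf (nat_lit 0) (nat_lit 51234885408) (nat_lit 152) (nat_lit 20647789506) (nat_lit 0) (nat_lit 16443797643) (nat_lit 5) (nat_lit 5) (nat_lit 7) (nat_lit 4) (nat_lit 5) (nat_lit 4) (nat_lit 323) (nat_lit 235) (nat_lit 162)) (XT.lf (nat_lit 0) (nat_lit 58113209227) (nat_lit 152) (nat_lit 11165468339) (nat_lit 0) (nat_lit 23273711096) (nat_lit 5) (nat_lit 5) (nat_lit 7) (nat_lit 4) (nat_lit 5) (nat_lit 4) (nat_lit 324) (nat_lit 235) (nat_lit 161))))) (XT.nd (nat_lit 156) (nat_lit 0) (nat_lit 0) (XT.nd (nat_lit 78) (nat_lit 76) (nat_lit 0) (XT.lf (nat_lit 0) (nat_lit 65320176307) (nat_lit 152) (nat_lit 1235327392) (nat_lit 0) (nat_lit 30434573065) (nat_lit 5) (nat_lit 5) (nat_lit 7) (nat_lit 4) (nat_lit 5) (nat_lit 4) (nat_lit 325) (nat_lit 235) (nat_lit 160)) (XT.lf (nat_lit 0) (nat_lit 9348703403) (nat_lit 76)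 (nat_lit 63614108145) (nat_lit 76) (nat_lit 28684595275) (nat_lit 4) (nat_lit 4) (nat_lit 5) (nat_lit 5) (nat_lit 5) (nat_lit 4) (nat_lit 326) (nat_lit 235) (nat_lit 159))) (XT.nd (nat_lit 78) (nat_lit 0) (nat_lit 0) (XT.lf (nat_lit 0) (nat_lit 20463424257) (nat_lit 76) (nat_lit 60522784064) (nat_lit 76) (nat_lit 25551452499) (nat_lit 4) (nat_lit 4) (nat_lit 5) (nat_lit 5) (nat_lit 5) (nat_lit 4) (nat_lit 327) (nat_lit 235) (nat_lit 158)) (XT.nd (nat_lit 78) (nat_lit 0) (nat_lit 0) (XT.lf (nat_lit 0) (nat_lit 32110713354) (nat_lit 76) (nat_lit 57286645545) (nat_lit 76) (nat_lit 22275486653) (nat_lit 4) (nat_lit 4) (nat_lit 5) (nat_lit 5) (nat_lit 5) (nat_lit 4) (nat_lit 328) (nat_lit 235) (nat_lit 157)) (XT.lf (nat_lit 0) (nat_lit 44318302332) (nat_lit 76) (nat_lit 53897987497) (nat_lit 76) (nat_lit 18848897815) (nat_lit 4) (nat_lit 4) (nat_lit 5) (nat_lit 5) (nat_lit 5) (nat_lit 4) (nat_lit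 329) (nat_lit 235) (nat_lit 156))))))) (XT.nd (nat_lit 780) (nat_lit 4332) (nat_lit 0) (XT.nd (nat_lit 390) (nat_lit 4788) (nat_lit 0) (XT.nd (nat_lit 156) (nat_lit 1444) (nat_lit 0) (XT.nd (nat_lit 78) (nat_lit 532) (nat_lit 0) (XT.lf (nat_lit 0) (nat_lit 454807982) (nat_lit 532) (nat_lit 2415561648) (nat_lit 0) (nat_lit 454807982) (nat_lit 218) (nat_lit 5) (nat_lit 225) (nat_lit 4) (nat_lit 218) (nat_lit 4) (nat_lit 248) (nat_lit 236) (nat_lit 236)) (XT.lf (nat_lit 0) (nat_lit 969446192) (nat_lit 532) (nat_lit 4486002008) (nat_lit 532) (nat_lit 1252367053) (nat_lit 211) (nat_lit 4) (nat_lit 218) (nat_lit 5) (nat_lit 218) (nat_lit 4) (nat_lit 249) (nat_lit 236) (nat_lit 235))) (XT.nd (nat_lit 78) (nat_lit 760) (nat_lit 0) (XT.lf (nat_lit 0) (nat_lit 164125166) (nat_lit 608) (nat_lit 3026718409) (nat_lit 684) (nat_lit 3583535948) (nat_lit 202) (nat_lit 5) (nat_lit 210) (nat_lit 5) (nat_lit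 211) (nat_lit 4) (nat_lit 250) (nat_lit 236) (nat_lit 234)) (XT.nd (nat_lit 78) (nat_lit 684) (nat_lit 0) (XT.lf (nat_lit 0) (nat_lit 779804318) (nat_lit 684) (nat_lit 583365410) (nat_lit 76) (nat_lit 5487146184) (nat_lit 201) (nat_lit 5) (nat_lit 210) (nat_lit 5) (nat_lit 202) (nat_lit 5) (nat_lit 251) (nat_lit 236) (nat_lit 233)) (XT.lf (nat_lit 0) (nat_lit 5111634101) (nat_lit 760) (nat_lit 1312339059) (nat_lit 76) (nat_lit 511306595) (nat_lit 192) (nat_lit 5) (nat_lit 202) (nat_lit 5) (nat_lit 193) (nat_lit 4) (nat_lit 252) (nat_lit 236) (nat_lit 232))))) (XT.nd (nat_lit 156) (nat_lit 3116) (nat_lit 0) (XT.nd (nat_lit 78) (nat_lit 836) (nat_lit 0) (XT.lf (nat_lit 0) (nat_lit 2424135660) (nat_lit 836) (nat_lit 2035522727) (nat_lit 76) (nat_lit 2569823964) (nat_lit 181) (nat_lit 5) (nat_lit 192) (nat_lit 5) (nat_lit 182) (nat_lit 5) (nat_lit 253) (nat_lit 236) (nat_lit 231)) (XT.lf (nat_lit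 0) (nat_lit 4389263940) (nat_lit 836) (nat_lit 2293847304) (nat_lit 912) (nat_lit 450551897) (nat_lit 170) (nat_lit 5) (nat_lit 181) (nat_lit 5) (nat_lit 182) (nat_lit 5) (nat_lit 254) (nat_lit 236) (nat_lit 230))) (XT.nd (nat_lit 78) (nat_lit 2128) (nat_lit 0) (XT.lf (nat_lit 0) (nat_lit 3680150808) (nat_lit 988) (nat_lit 3469504297) (nat_lit 76) (nat_lit 97771730) (nat_lit 157) (nat_lit 5) (nat_lit 170) (nat_lit 5) (nat_lit 158) (nat_lit 5) (nat_lit 255) (nat_lit 236) (nat_lit 229)) (XT.nd (nat_lit 78) (nat_lit 1064) (nat_lit 0) (XT.lf (nat_lit 0) (nat_lit 503558575) (nat_lit 1064) (nat_lit 4218915303) (nat_lit 76) (nat_lit 2648617699) (nat_lit 143) (nat_lit 5) (nat_lit 157) (nat_lit 5) (nat_lit 144) (nat_lit 5) (nat_lit 256) (nat_lit 236) (nat_lit 228)) (XT.lf (nat_lit 0) (nat_lit 2496731407) (nat_lit 1064) (nat_lit 2068080624) (nat_lit 1140) (nat_lit 2939985520) (nat_lit 129) (nat_lit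 5) (nat_lit 143) (nat_lit 5) (nat_lit 144) (nat_lit 5) (nat_lit 257) (nat_lit 236) (nat_lit 227)))))) (XT.nd (nat_lit 390) (nat_lit 2128) (nat_lit 0) (XT.nd (nat_lit 156) (nat_lit 1140) (nat_lit 0) (XT.nd (nat_lit 78) (nat_lit 456) (nat_lit 0) (XT.lf (nat_lit 0) (nat_lit 1034918778) (nat_lit 608) (nat_lit 5833204446) (nat_lit 76) (nat_lit 781183353) (nat_lit 121) (nat_lit 5) (nat_lit 129) (nat_lit 5) (nat_lit 122) (nat_lit 5) (nat_lit 258) (nat_lit 236) (nat_lit 226)) (XT.lf (nat_lit 0) (nat_lit 1063330084) (nat_lit 456) (nat_lit 3980686205) (nat_lit 532) (nat_lit 2759913146) (nat_lit 115) (nat_lit 5) (nat_lit 121) (nat_lit 5) (nat_lit 122) (nat_lit 5) (nat_lit 259) (nat_lit 236) (nat_lit 225))) (XT.nd (nat_lit 78) (nat_lit 532) (nat_lit 0) (XT.lf (nat_lit 0) (nat_lit 262556536) (nat_lit 532) (nat_lit 880035728) (nat_lit 608) (nat_lit 6827507414) (nat_lit 107) (nat_lit 5) (nat_lit 114) (nat_lit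 5) (nat_lit 115) (nat_lit 5) (nat_lit 260) (nat_lit 236) (nat_lit 224)) (XT.nd (nat_lit 78) (nat_lit 532) (nat_lit 0) (XT.lf (nat_lit 0) (nat_lit 5100658668) (nat_lit 608) (nat_lit 629103400) (nat_lit 76) (nat_lit 2417042819) (nat_lit 107) (nat_lit 5) (nat_lit 115) (nat_lit 5) (nat_lit 108) (nat_lit 5) (nat_lit 261) (nat_lit 236) (nat_lit 223)) (XT.lf (nat_lit 0) (nat_lit 810935697) (nat_lit 532) (nat_lit 1600511799) (nat_lit 76) (nat_lit 5924019255) (nat_lit 100) (nat_lit 5) (nat_lit 107) (nat_lit 5) (nat_lit 101) (nat_lit 5) (nat_lit 262) (nat_lit 236) (nat_lit 222))))) (XT.nd (nat_lit 234) (nat_lit 836) (nat_lit 0) (XT.nd (nat_lit 78) (nat_lit 836) (nat_lit 0) (XT.lf (nat_lit 0) (nat_lit 4708904716) (nat_lit 532) (nat_lit 2698236297) (nat_lit 76) (nat_lit 1128688369) (nat_lit 94) (nat_lit 5) (nat_lit 101) (nat_lit 5) (nat_lit 95) (nat_lit 5) (nat_lit 263) (nat_lit 236) (nat_lit 221))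 (XT.nd (nat_lit 78) (nat_lit 456) (nat_lit 0) (XT.lf (nat_lit 0) (nat_lit 4823811470) (nat_lit 380) (nat_lit 3907830988) (nat_lit 456) (nat_lit 17151032) (nat_lit 89) (nat_lit 5) (nat_lit 94) (nat_lit 5) (nat_lit 95) (nat_lit 5) (nat_lit 264) (nat_lit 236) (nat_lit 220)) (XT.lf (nat_lit 0) (nat_lit 3660177036) (nat_lit 380) (nat_lit 154824894) (nat_lit 456) (nat_lit 5159410090) (nat_lit 83) (nat_lit 5) (nat_lit 88) (nat_lit 5) (nat_lit 89) (nat_lit 5) (nat_lit 265) (nat_lit 236) (nat_lit 219)))) (XT.nd (nat_lit 78) (nat_lit 456) (nat_lit 0) (XT.lf (nat_lit 0) (nat_lit 2326017624) (nat_lit 380) (nat_lit 5463715739) (nat_lit 456) (nat_lit 1423455469) (nat_lit 78) (nat_lit 5) (nat_lit 83) (nat_lit 5) (nat_lit 84) (nat_lit 5) (nat_lit 266) (nat_lit 236) (nat_lit 218)) (XT.nd (nat_lit 78) (nat_lit 0) (nat_lit 0) (XT.lf (nat_lit 0) (nat_lit 809679821) (nat_lit 380) (nat_lit 1560786265) (nat_lit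 456) (nat_lit 7095509866) (nat_lit 72) (nat_lit 5) (nat_lit 77) (nat_lit 5) (nat_lit 78) (nat_lit 5) (nat_lit 267) (nat_lit 236) (nat_lit 217)) (XT.lf (nat_lit 0) (nat_lit 6281176037) (nat_lit 456) (nat_lit 909667810) (nat_lit 76) (nat_lit 2541811633) (nat_lit 72) (nat_lit 5) (nat_lit 78) (nat_lit 5) (nat_lit 73) (nat_lit 5) (nat_lit 268) (nat_lit 236) (nat_lit 216))))))))
noncomputable def xc42 : XT := (XT.nd (nat_lit 1560) (nat_lit 1064) (nat_lit 0) (XT.nd (nat_lit 780) (nat_lit 1292) (nat_lit 0) (XT.nd (nat_lit 390) (nat_lit 1140) (nat_lit 0) (XT.nd (nat_lit 156) (nat_lit 684) (nat_lit 0) (XT.nd (nat_lit 78) (nat_lit 304) (nat_lit 0) (XT.lf (nat_lit 0) (nat_lit 318316717) (nat_lit 380) (nat_lit 2836766748) (nat_lit 76) (nat_lit 6859294926) (nat_lit 67) (nat_lit 5) (nat_lit 72) (nat_lit 5) (nat_lit 68) (nat_lit 5) (nat_lit 269) (nat_lit 236) (nat_lit 215)) (XT.lf (nat_lit 0) (nat_lit 4147192483)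 (nat_lit 380) (nat_lit 5042027969) (nat_lit 76) (nat_lit 1122010068) (nat_lit 63) (nat_lit 5) (nat_lit 68) (nat_lit 5) (nat_lit 64) (nat_lit 5) (nat_lit 270) (nat_lit 236) (nat_lit 214))) (XT.nd (nat_lit 78) (nat_lit 380) (nat_lit 0) (XT.lf (nat_lit 0) (nat_lit 3080777753) (nat_lit 304) (nat_lit 5052067711) (nat_lit 380) (nat_lit 2491431617) (nat_lit 59) (nat_lit 5) (nat_lit 63) (nat_lit 5) (nat_lit 64) (nat_lit 5) (nat_lit 271) (nat_lit 236) (nat_lit 213)) (XT.nd (nat_lit 78) (nat_lit 0) (nat_lit 0) (XT.lf (nat_lit 0) (nat_lit 598811195) (nat_lit 304) (nat_lit 674868960) (nat_lit 380) (nat_lit 9681125340) (nat_lit 54) (nat_lit 5) (nat_lit 58) (nat_lit 5) (nat_lit 59) (nat_lit 5) (nat_lit 272) (nat_lit 236) (nat_lit 212)) (XT.lf (nat_lit 0) (nat_lit 5173385962) (nat_lit 380) (nat_lit 2218945591) (nat_lit 76) (nat_lit 3909127394) (nat_lit 54) (nat_lit 5) (nat_lit 59) (nat_lit 5) (nat_lit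 55) (nat_lit 5) (nat_lit 273) (nat_lit 236) (nat_lit 211))))) (XT.nd (nat_lit 156) (nat_lit 532) (nat_lit 0) (XT.nd (nat_lit 78) (nat_lit 380) (nat_lit 0) (XT.lf (nat_lit 0) (nat_lit 6286841218) (nat_lit 228) (nat_lit 2935404893) (nat_lit 304) (nat_lit 2444835409) (nat_lit 51) (nat_lit 5) (nat_lit 54) (nat_lit 5) (nat_lit 55) (nat_lit 5) (nat_lit 274) (nat_lit 236) (nat_lit 210)) (XT.lf (nat_lit 0) (nat_lit 1354330809) (nat_lit 380) (nat_lit 8960828982) (nat_lit 76) (nat_lit 1736871226) (nat_lit 46) (nat_lit 5) (nat_lit 51) (nat_lit 5) (nat_lit 47) (nat_lit 5) (nat_lit 275) (nat_lit 236) (nat_lit 209))) (XT.nd (nat_lit 78) (nat_lit 532) (nat_lit 0) (XT.lf (nat_lit 0) (nat_lit 5271915857) (nat_lit 380) (nat_lit 561455959) (nat_lit 76) (nat_lit 6622989575) (nat_lit 46) (nat_lit 5) (nat_lit 51) (nat_lit 5) (nat_lit 47) (nat_lit 5) (nat_lit 276) (nat_lit 236) (nat_lit 208)) (XT.nd (nat_lit 78)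 (nat_lit 304) (nat_lit 0) (XT.lf (nat_lit 0) (nat_lit 8275868408) (nat_lit 228) (nat_lit 1087152551) (nat_lit 304) (nat_lit 3518777435) (nat_lit 43) (nat_lit 5) (nat_lit 46) (nat_lit 5) (nat_lit 47) (nat_lit 5) (nat_lit 277) (nat_lit 236) (nat_lit 207)) (XT.lf (nat_lit 0) (nat_lit 307661113) (nat_lit 304) (nat_lit 9192642037) (nat_lit 76) (nat_lit 3828793786) (nat_lit 39) (nat_lit 5) (nat_lit 43) (nat_lit 5) (nat_lit 40) (nat_lit 5) (nat_lit 278) (nat_lit 236) (nat_lit 206)))))) (XT.nd (nat_lit 390) (nat_lit 608) (nat_lit 0) (XT.nd (nat_lit 156) (nat_lit 456) (nat_lit 0) (XT.nd (nat_lit 78) (nat_lit 228) (nat_lit 0) (XT.lf (nat_lit 0) (nat_lit 4215624966) (nat_lit 304) (nat_lit 572288926) (nat_lit 76) (nat_lit 9011105164) (nat_lit 39) (nat_lit 5) (nat_lit 43) (nat_lit 5) (nat_lit 40) (nat_lit 5) (nat_lit 279) (nat_lit 236) (nat_lit 205)) (XT.lf (nat_lit 0) (nat_lit 8310797799) (nat_lit 304)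 (nat_lit 5783225924) (nat_lit 76) (nat_lit 198843186) (nat_lit 36) (nat_lit 5) (nat_lit 40) (nat_lit 5) (nat_lit 37) (nat_lit 5) (nat_lit 280) (nat_lit 236) (nat_lit 204))) (XT.nd (nat_lit 78) (nat_lit 228) (nat_lit 0) (XT.lf (nat_lit 0) (nat_lit 3126883560) (nat_lit 228) (nat_lit 9478959822) (nat_lit 304) (nat_lit 2205885537) (nat_lit 33) (nat_lit 5) (nat_lit 36) (nat_lit 5) (nat_lit 37) (nat_lit 5) (nat_lit 281) (nat_lit 236) (nat_lit 203)) (XT.nd (nat_lit 78) (nat_lit 152) (nat_lit 0) (XT.lf (nat_lit 0) (nat_lit 1697682377) (nat_lit 304) (nat_lit 2899151515) (nat_lit 76) (nat_lit 10760167787) (nat_lit 32) (nat_lit 5) (nat_lit 36) (nat_lit 5) (nat_lit 33) (nat_lit 5) (nat_lit 282) (nat_lit 236) (nat_lit 202)) (XT.lf (nat_lit 0) (nat_lit 5734262721) (nat_lit 228) (nat_lit 9632720021) (nat_lit 76) (nat_lit 562550739) (nat_lit 30) (nat_lit 5) (nat_lit 33) (nat_lit 5) (nat_lit 31) (nat_lit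 5) (nat_lit 283) (nat_lit 236) (nat_lit 201))))) (XT.nd (nat_lit 156) (nat_lit 380) (nat_lit 0) (XT.nd (nat_lit 78) (nat_lit 228) (nat_lit 0) (XT.lf (nat_lit 0) (nat_lit 9968551777) (nat_lit 228) (nat_lit 685993699) (nat_lit 76) (nat_lit 5876416934) (nat_lit 30) (nat_lit 5) (nat_lit 33) (nat_lit 5) (nat_lit 31) (nat_lit 5) (nat_lit 284) (nat_lit 236) (nat_lit 200)) (XT.lf (nat_lit 0) (nat_lit 8762227624) (nat_lit 228) (nat_lit 5659739403) (nat_lit 304) (nat_lit 2740413337) (nat_lit 27) (nat_lit 5) (nat_lit 30) (nat_lit 5) (nat_lit 31) (nat_lit 5) (nat_lit 285) (nat_lit 236) (nat_lit 199))) (XT.nd (nat_lit 78) (nat_lit 152) (nat_lit 0) (XT.lf (nat_lit 0) (nat_lit 759454337) (nat_lit 152) (nat_lit 427711961) (nat_lit 228) (nat_lit 16639785775) (nat_lit 24) (nat_lit 5) (nat_lit 26) (nat_lit 5) (nat_lit 27) (nat_lit 5) (nat_lit 286) (nat_lit 236) (nat_lit 198)) (XT.nd (nat_lit 78) (nat_lit 152)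 (nat_lit 0) (XT.lf (nat_lit 0) (nat_lit 5318011501) (nat_lit 228) (nat_lit 8160515577) (nat_lit 76) (nat_lit 5043627654) (nat_lit 24) (nat_lit 5) (nat_lit 27) (nat_lit 5) (nat_lit 25) (nat_lit 5) (nat_lit 287) (nat_lit 236) (nat_lit 197)) (XT.lf (nat_lit 0) (nat_lit 1100667027) (nat_lit 152) (nat_lit 8500115575) (nat_lit 228) (nat_lit 9653090768) (nat_lit 22) (nat_lit 5) (nat_lit 24) (nat_lit 5) (nat_lit 25) (nat_lit 5) (nat_lit 288) (nat_lit 236) (nat_lit 196))))))) (XT.nd (nat_lit 780) (nat_lit 380) (nat_lit 0) (XT.nd (nat_lit 390) (nat_lit 304) (nat_lit 0) (XT.nd (nat_lit 156) (nat_lit 228) (nat_lit 0) (XT.nd (nat_lit 78) (nat_lit 152) (nat_lit 0) (XT.lf (nat_lit 0) (nat_lit 10890234571) (nat_lit 152) (nat_lit 3224248231) (nat_lit 228) (nat_lit 5907303192) (nat_lit 22) (nat_lit 5) (nat_lit 24) (nat_lit 5) (nat_lit 25) (nat_lit 5) (nat_lit 289) (nat_lit 236) (nat_lit 195)) (XT.lf (nat_lit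 0) (nat_lit 221374620) (nat_lit 152) (nat_lit 18592516682) (nat_lit 228) (nat_lit 2015508692) (nat_lit 20) (nat_lit 5) (nat_lit 22) (nat_lit 5) (nat_lit 23) (nat_lit 4) (nat_lit 290) (nat_lit 236) (nat_lit 194))) (XT.nd (nat_lit 78) (nat_lit 152) (nat_lit 0) (XT.lf (nat_lit 0) (nat_lit 2094976447) (nat_lit 228) (nat_lit 11595491074) (nat_lit 76) (nat_lit 7984493069) (nat_lit 19) (nat_lit 5) (nat_lit 22) (nat_lit 5) (nat_lit 20) (nat_lit 5) (nat_lit 291) (nat_lit 236) (nat_lit 193)) (XT.nd (nat_lit 78) (nat_lit 152) (nat_lit 0) (XT.lf (nat_lit 0) (nat_lit 6309723869) (nat_lit 228) (nat_lit 2248202220) (nat_lit 76) (nat_lit 14006155543) (nat_lit 19) (nat_lit 5) (nat_lit 22) (nat_lit 5) (nat_lit 20) (nat_lit 5) (nat_lit 292) (nat_lit 236) (nat_lit 192)) (XT.lf (nat_lit 0) (nat_lit 7624247468) (nat_lit 152) (nat_lit 3127139981) (nat_lit 228) (nat_lit 12745875185) (nat_lit 17) (nat_lit 5) (nat_lit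 19) (nat_lit 5) (nat_lit 20) (nat_lit 5) (nat_lit 293) (nat_lit 236) (nat_lit 191))))) (XT.nd (nat_lit 156) (nat_lit 228) (nat_lit 0) (XT.nd (nat_lit 78) (nat_lit 76) (nat_lit 0) (XT.lf (nat_lit 0) (nat_lit 15407702281) (nat_lit 228) (nat_lit 6553887285) (nat_lit 76) (nat_lit 2515821103) (nat_lit 17) (nat_lit 5) (nat_lit 20) (nat_lit 5) (nat_lit 18) (nat_lit 4) (nat_lit 294) (nat_lit 236) (nat_lit 190)) (XT.lf (nat_lit 0) (nat_lit 3176091032) (nat_lit 76) (nat_lit 17129922393) (nat_lit 152) (nat_lit 5200358235) (nat_lit 16) (nat_lit 5) (nat_lit 17) (nat_lit 5) (nat_lit 18) (nat_lit 4) (nat_lit 295) (nat_lit 236) (nat_lit 189))) (XT.nd (nat_lit 78) (nat_lit 228) (nat_lit 0) (XT.lf (nat_lit 0) (nat_lit 13446456694) (nat_lit 76) (nat_lit 12019058139) (nat_lit 152) (nat_lit 1120854746) (nat_lit 16) (nat_lit 5) (nat_lit 17) (nat_lit 5) (nat_lit 18) (nat_lit 4) (nat_lit 296) (nat_lit 236) (nat_lit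 188)) (XT.nd (nat_lit 78) (nat_lit 152) (nat_lit 0) (XT.lf (nat_lit 0) (nat_lit 3051600930) (nat_lit 152) (nat_lit 3600593375) (nat_lit 76) (nat_lit 21068811627) (nat_lit 15) (nat_lit 5) (nat_lit 17) (nat_lit 5) (nat_lit 16) (nat_lit 5) (nat_lit 297) (nat_lit 236) (nat_lit 187)) (XT.lf (nat_lit 0) (nat_lit 6453971138) (nat_lit 152) (nat_lit 970821497) (nat_lit 228) (nat_lit 21486857624) (nat_lit 13) (nat_lit 5) (nat_lit 15) (nat_lit 5) (nat_lit 16) (nat_lit 5) (nat_lit 298) (nat_lit 236) (nat_lit 186)))))) (XT.nd (nat_lit 390) (nat_lit 304) (nat_lit 0) (XT.nd (nat_lit 156) (nat_lit 76) (nat_lit 0) (XT.nd (nat_lit 78) (nat_lit 0) (nat_lit 0) (XT.lf (nat_lit 0) (nat_lit 12056373678) (nat_lit 228) (nat_lit 13197898824) (nat_lit 76) (nat_lit 4906427085) (nat_lit 13) (nat_lit 5) (nat_lit 16) (nat_lit 5) (nat_lit 14) (nat_lit 4) (nat_lit 299) (nat_lit 236) (nat_lit 185)) (XT.lf (nat_lit 0) (nat_lit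 16885795842) (nat_lit 228) (nat_lit 3556653331) (nat_lit 76) (nat_lit 11030825943) (nat_lit 13) (nat_lit 5) (nat_lit 16) (nat_lit 5) (nat_lit 14) (nat_lit 4) (nat_lit 300) (nat_lit 236) (nat_lit 184))) (XT.nd (nat_lit 78) (nat_lit 0) (nat_lit 0) (XT.lf (nat_lit 0) (nat_lit 6627674637) (nat_lit 76) (nat_lit 15351260246) (nat_lit 152) (nat_lit 10871935831) (nat_lit 12) (nat_lit 5) (nat_lit 13) (nat_lit 5) (nat_lit 14) (nat_lit 4) (nat_lit 301) (nat_lit 236) (nat_lit 183)) (XT.nd (nat_lit 78) (nat_lit 0) (nat_lit 0) (XT.lf (nat_lit 0) (nat_lit 17329191077) (nat_lit 76) (nat_lit 9994025555) (nat_lit 152) (nat_lit 6974290757) (nat_lit 12) (nat_lit 5) (nat_lit 13) (nat_lit 5) (nat_lit 14) (nat_lit 4) (nat_lit 302) (nat_lit 236) (nat_lit 182)) (XT.lf (nat_lit 0) (nat_lit 28502591414) (nat_lit 76) (nat_lit 4393905003) (nat_lit 152) (nat_lit 2921179171) (nat_lit 12) (nat_lit 5) (nat_lit 13) (nat_lit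 5) (nat_lit 14) (nat_lit 4) (nat_lit 303) (nat_lit 236) (nat_lit 181))))) (XT.nd (nat_lit 234) (nat_lit 76) (nat_lit 0) (XT.nd (nat_lit 78) (nat_lit 0) (nat_lit 0) (XT.lf (nat_lit 0) (nat_lit 1313118536) (nat_lit 228) (nat_lit 34626573493) (nat_lit 76) (nat_lit 1473687308) (nat_lit 9) (nat_lit 5) (nat_lit 12) (nat_lit 5) (nat_lit 10) (nat_lit 4) (nat_lit 304) (nat_lit 236) (nat_lit 180)) (XT.nd (nat_lit 78) (nat_lit 0) (nat_lit 0) (XT.lf (nat_lit 0) (nat_lit 5783825284) (nat_lit 228) (nat_lit 25674639287) (nat_lit 76) (nat_lit 7627029625) (nat_lit 9) (nat_lit 5) (nat_lit 12) (nat_lit 5) (nat_lit 10) (nat_lit 4) (nat_lit 305) (nat_lit 236) (nat_lit 179)) (XT.lf (nat_lit 0) (nat_lit 10443924859) (nat_lit 228) (nat_lit 16332351904) (nat_lit 76) (nat_lit 14066006936) (nat_lit 9) (nat_lit 5) (nat_lit 12) (nat_lit 5) (nat_lit 10) (nat_lit 4) (nat_lit 306) (nat_lit 236) (nat_lit 178)))) (XT.nd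 (nat_lit 78) (nat_lit 76) (nat_lit 0) (XT.lf (nat_lit 0) (nat_lit 15304512737) (nat_lit 228) (nat_lit 6577467801) (nat_lit 76) (nat_lit 20805950140) (nat_lit 9) (nat_lit 5) (nat_lit 12) (nat_lit 5) (nat_lit 10) (nat_lit 4) (nat_lit 307) (nat_lit 236) (nat_lit 177)) (XT.nd (nat_lit 78) (nat_lit 0) (nat_lit 0) (XT.lf (nat_lit 0) (nat_lit 3685149475) (nat_lit 76) (nat_lit 16727436182) (nat_lit 152) (nat_lit 24213181156) (nat_lit 8) (nat_lit 5) (nat_lit 9) (nat_lit 5) (nat_lit 10) (nat_lit 4) (nat_lit 308) (nat_lit 236) (nat_lit 176)) (XT.lf (nat_lit 0) (nat_lit 14547914097) (nat_lit 76) (nat_lit 11265878975) (nat_lit 152) (nat_lit 20845608308) (nat_lit 8) (nat_lit 5) (nat_lit 9) (nat_lit 5) (nat_lit 10) (nat_lit 4) (nat_lit 309) (nat_lit 236) (nat_lit 175))))))))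
noncomputable def xc43 : XT := (XT.nd (nat_lit 32604) (nat_lit 0) (nat_lit 5548) (XT.nd (nat_lit 780) (nat_lit 76) (nat_lit 0) (XT.nd (nat_lit 390) (nat_lit 152) (nat_lit 0) (XT.nd (nat_lit 156) (nat_lit 76) (nat_lit 0) (XT.nd (nat_lit 78) (nat_lit 0) (nat_lit 0) (XT.lf (nat_lit 0) (nat_lit 25905785283) (nat_lit 76) (nat_lit 5550724737) (nat_lit 152) (nat_lit 17339100893) (nat_lit 8) (nat_lit 5) (nat_lit 9) (nat_lit 5) (nat_lit 10) (nat_lit 4) (nat_lit 310) (nat_lit 236) (nat_lit 174)) (XT.lf (nat_lit 0) (nat_lit 37358320674) (nat_lit 152) (nat_lit 13257825174) (nat_lit 0) (nat_lit 423211305) (nat_lit 8) (nat_lit 5) (nat_lit 10) (nat_lit 4) (nat_lit 8) (nat_lit 4) (nat_lit 311) (nat_lit 236) (nat_lit 173))) (XT.nd (nat_lit 78) (nat_lit 76) (nat_lit 0) (XT.lf (nat_lit 0) (nat_lit 43585180367) (nat_lit 152) (nat_lit 3244455985) (nat_lit 0) (nat_lit 6564788900) (nat_lit 8) (nat_lit 5) (nat_lit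 10) (nat_lit 4) (nat_lit 8) (nat_lit 4) (nat_lit 312) (nat_lit 236) (nat_lit 172)) (XT.nd (nat_lit 78) (nat_lit 0) (nat_lit 0) (XT.lf (nat_lit 0) (nat_lit 7371321283) (nat_lit 76) (nat_lit 42798094361) (nat_lit 76) (nat_lit 5696481847) (nat_lit 7) (nat_lit 4) (nat_lit 8) (nat_lit 5) (nat_lit 8) (nat_lit 4) (nat_lit 313) (nat_lit 236) (nat_lit 171)) (XT.lf (nat_lit 0) (nat_lit 18544792421) (nat_lit 76) (nat_lit 38547433067) (nat_lit 76) (nat_lit 1368467175) (nat_lit 7) (nat_lit 4) (nat_lit 8) (nat_lit 5) (nat_lit 8) (nat_lit 4) (nat_lit 314) (nat_lit 236) (nat_lit 170))))) (XT.nd (nat_lit 156) (nat_lit 76) (nat_lit 0) (XT.nd (nat_lit 78) (nat_lit 0) (nat_lit 0) (XT.lf (nat_lit 0) (nat_lit 3090827750) (nat_lit 152) (nat_lit 30978255441) (nat_lit 76) (nat_lit 27115950846) (nat_lit 6) (nat_lit 5) (nat_lit 8) (nat_lit 5) (nat_lit 7) (nat_lit 4) (nat_lit 315) (nat_lit 236) (nat_lit 169)) (XT.lf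 (nat_lit 0) (nat_lit 7723004428) (nat_lit 152) (nat_lit 21645098579) (nat_lit 76) (nat_lit 34677763025) (nat_lit 6) (nat_lit 5) (nat_lit 8) (nat_lit 5) (nat_lit 7) (nat_lit 4) (nat_lit 316) (nat_lit 236) (nat_lit 168))) (XT.nd (nat_lit 78) (nat_lit 76) (nat_lit 0) (XT.lf (nat_lit 0) (nat_lit 12565795573) (nat_lit 152) (nat_lit 11881053311) (nat_lit 76) (nat_lit 42603545906) (nat_lit 6) (nat_lit 5) (nat_lit 8) (nat_lit 5) (nat_lit 7) (nat_lit 4) (nat_lit 317) (nat_lit 236) (nat_lit 167)) (XT.nd (nat_lit 78) (nat_lit 76) (nat_lit 0) (XT.lf (nat_lit 0) (nat_lit 17630731639) (nat_lit 152) (nat_lit 1662871911) (nat_lit 76) (nat_lit 50912170399) (nat_lit 6) (nat_lit 5) (nat_lit 8) (nat_lit 5) (nat_lit 7) (nat_lit 4) (nat_lit 318) (nat_lit 236) (nat_lit 166)) (XT.lf (nat_lit 0) (nat_lit 9213564452) (nat_lit 76) (nat_lit 13804873965) (nat_lit 152) (nat_lit 50498420911) (nat_lit 5) (nat_lit 5) (nat_lit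 6) (nat_lit 5) (nat_lit 7) (nat_lit 4) (nat_lit 319) (nat_lit 236) (nat_lit 165)))))) (XT.nd (nat_lit 390) (nat_lit 76) (nat_lit 0) (XT.nd (nat_lit 156) (nat_lit 0) (nat_lit 0) (XT.nd (nat_lit 78) (nat_lit 0) (nat_lit 0) (XT.lf (nat_lit 0) (nat_lit 20637057830) (nat_lit 76) (nat_lit 8037151847) (nat_lit 152) (nat_lit 48319350805) (nat_lit 5) (nat_lit 5) (nat_lit 6) (nat_lit 5) (nat_lit 7) (nat_lit 4) (nat_lit 320) (nat_lit 236) (nat_lit 164)) (XT.lf (nat_lit 0) (nat_lit 32601712606) (nat_lit 76) (nat_lit 1993496272) (nat_lit 152) (nat_lit 46049435477) (nat_lit 5) (nat_lit 5) (nat_lit 6) (nat_lit 5) (nat_lit 7) (nat_lit 4) (nat_lit 321) (nat_lit 236) (nat_lit 163))) (XT.nd (nat_lit 78) (nat_lit 0) (nat_lit 0) (XT.lf (nat_lit 0) (nat_lit 40837257008) (nat_lit 152) (nat_lit 39384511322) (nat_lit 0) (nat_lit 4255783970) (nat_lit 5) (nat_lit 5) (nat_lit 7) (nat_lit 4) (nat_lit 5) (nat_lit 4)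 (nat_lit 322) (nat_lit 236) (nat_lit 162)) (XT.nd (nat_lit 78) (nat_lit 0) (nat_lit 0) (XT.lf (nat_lit 0) (nat_lit 47395491808) (nat_lit 152) (nat_lit 30340901805) (nat_lit 0) (nat_lit 10765608404) (nat_lit 5) (nat_lit 5) (nat_lit 7) (nat_lit 4) (nat_lit 5) (nat_lit 4) (nat_lit 323) (nat_lit 236) (nat_lit 161)) (XT.lf (nat_lit 0) (nat_lit 54266365417) (nat_lit 152) (nat_lit 20871408091) (nat_lit 0) (nat_lit 17590376903) (nat_lit 5) (nat_lit 5) (nat_lit 7) (nat_lit 4) (nat_lit 5) (nat_lit 4) (nat_lit 324) (nat_lit 236) (nat_lit 160))))) (XT.nd (nat_lit 234) (nat_lit 0) (nat_lit 0) (XT.nd (nat_lit 78) (nat_lit 76) (nat_lit 0) (XT.lf (nat_lit 0) (nat_lit 61466237059) (nat_lit 152) (nat_lit 10953483766) (nat_lit 0) (nat_lit 24746338916) (nat_lit 5) (nat_lit 5) (nat_lit 7) (nat_lit 4) (nat_lit 5) (nat_lit 4) (nat_lit 325) (nat_lit 236) (nat_lit 159)) (XT.nd (nat_lit 78) (nat_lit 76) (nat_lit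 0) (XT.lf (nat_lit 0) (nat_lit 69012249285) (nat_lit 152) (nat_lit 563514723) (nat_lit 0) (nat_lit 32250532447) (nat_lit 5) (nat_lit 5) (nat_lit 7) (nat_lit 4) (nat_lit 5) (nat_lit 4) (nat_lit 326) (nat_lit 236) (nat_lit 158)) (XT.lf (nat_lit 0) (nat_lit 10528689716) (nat_lit 76) (nat_lit 66494887280) (nat_lit 76) (nat_lit 29693343115) (nat_lit 4) (nat_lit 4) (nat_lit 5) (nat_lit 5) (nat_lit 5) (nat_lit 4) (nat_lit 327) (nat_lit 236) (nat_lit 157)))) (XT.nd (nat_lit 78) (nat_lit 0) (nat_lit 0) (XT.lf (nat_lit 0) (nat_lit 22165215606) (nat_lit 76) (nat_lit 63263279198) (nat_lit 76) (nat_lit 26423804245) (nat_lit 4) (nat_lit 4) (nat_lit 5) (nat_lit 5) (nat_lit 5) (nat_lit 4) (nat_lit 328) (nat_lit 236) (nat_lit 156)) (XT.nd (nat_lit 31044) (nat_lit 0) (nat_lit 17176) (XT.lf (nat_lit 0) (nat_lit 34362553913) (nat_lit 76) (nat_lit 59878935852) (nat_lit 76) (nat_lit 23003336338) (nat_lit 4) (nat_lit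 4) (nat_lit 5) (nat_lit 5) (nat_lit 5) (nat_lit 4) (nat_lit 329) (nat_lit 236) (nat_lit 155)) (XT.lf (nat_lit 0) (nat_lit 945091537) (nat_lit 380) (nat_lit 1388818961) (nat_lit 0) (nat_lit 945091537) (nat_lit 230) (nat_lit 5) (nat_lit 235) (nat_lit 4) (nat_lit 230) (nat_lit 4) (nat_lit 246) (nat_lit 237) (nat_lit 237))))))) (XT.nd (nat_lit 780) (nat_lit 5016) (nat_lit 0) (XT.nd (nat_lit 390) (nat_lit 4408) (nat_lit 0) (XT.nd (nat_lit 156) (nat_lit 1292) (nat_lit 0) (XT.nd (nat_lit 78) (nat_lit 532) (nat_lit 0) (XT.lf (nat_lit 0) (nat_lit 2717094028) (nat_lit 380) (nat_lit 3690912987) (nat_lit 380) (nat_lit 193736783) (nat_lit 225) (nat_lit 4) (nat_lit 230) (nat_lit 5) (nat_lit 230) (nat_lit 4) (nat_lit 247) (nat_lit 237) (nat_lit 236)) (XT.lf (nat_lit 0) (nat_lit 1701762817) (nat_lit 456) (nat_lit 2500002219) (nat_lit 532) (nat_lit 2452301149) (nat_lit 218) (nat_lit 5) (nat_lit 224) (nat_lit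 5) (nat_lit 225) (nat_lit 4) (nat_lit 248) (nat_lit 237) (nat_lit 235))) (XT.nd (nat_lit 78) (nat_lit 684) (nat_lit 0) (XT.lf (nat_lit 0) (nat_lit 746340434) (nat_lit 532) (nat_lit 1111621052) (nat_lit 608) (nat_lit 4857698438) (nat_lit 210) (nat_lit 5) (nat_lit 217) (nat_lit 5) (nat_lit 218) (nat_lit 5) (nat_lit 249) (nat_lit 237) (nat_lit 234)) (XT.nd (nat_lit 78) (nat_lit 684) (nat_lit 0) (XT.lf (nat_lit 0) (nat_lit 6146534746) (nat_lit 608) (nat_lit 164140687) (nat_lit 76) (nat_lit 475635975) (nat_lit 210) (nat_lit 5) (nat_lit 218) (nat_lit 5) (nat_lit 211) (nat_lit 4) (nat_lit 250) (nat_lit 237) (nat_lit 233)) (XT.lf (nat_lit 0) (nat_lit 3549681928) (nat_lit 684) (nat_lit 1048046832) (nat_lit 76) (nat_lit 2267664792) (nat_lit 201) (nat_lit 5) (nat_lit 210) (nat_lit 5) (nat_lit 202) (nat_lit 5) (nat_lit 251) (nat_lit 237) (nat_lit 232))))) (XT.nd (nat_lit 156) (nat_lit 2888) (nat_lit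 0) (XT.nd (nat_lit 78) (nat_lit 760) (nat_lit 0) (XT.lf (nat_lit 0) (nat_lit 791548178) (nat_lit 760) (nat_lit 1898239169) (nat_lit 76) (nat_lit 4264408330) (nat_lit 191) (nat_lit 5) (nat_lit 201) (nat_lit 5) (nat_lit 192) (nat_lit 5) (nat_lit 252) (nat_lit 237) (nat_lit 231)) (XT.lf (nat_lit 0) (nat_lit 4309057369) (nat_lit 760) (nat_lit 561270965) (nat_lit 836) (nat_lit 2181988141) (nat_lit 181) (nat_lit 5) (nat_lit 191) (nat_lit 5) (nat_lit 192) (nat_lit 5) (nat_lit 253) (nat_lit 237) (nat_lit 230))) (XT.nd (nat_lit 78) (nat_lit 1976) (nat_lit 0) (XT.lf (nat_lit 0) (nat_lit 1817546508) (nat_lit 912) (nat_lit 3596626705) (nat_lit 76) (nat_lit 1745666410) (nat_lit 169) (nat_lit 5) (nat_lit 181) (nat_lit 5) (nat_lit 170) (nat_lit 5) (nat_lit 254) (nat_lit 237) (nat_lit 229)) (XT.nd (nat_lit 78) (nat_lit 1064) (nat_lit 0) (XT.lf (nat_lit 0) (nat_lit 2814131094) (nat_lit 912) (nat_lit 3015702201)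 (nat_lit 988) (nat_lit 1447317730) (nat_lit 157) (nat_lit 5) (nat_lit 169) (nat_lit 5) (nat_lit 170) (nat_lit 5) (nat_lit 255) (nat_lit 237) (nat_lit 228)) (XT.lf (nat_lit 0) (nat_lit 2052971100) (nat_lit 988) (nat_lit 396553779) (nat_lit 1064) (nat_lit 4955017865) (nat_lit 143) (nat_lit 5) (nat_lit 156) (nat_lit 5) (nat_lit 157) (nat_lit 5) (nat_lit 256) (nat_lit 237) (nat_lit 227)))))) (XT.nd (nat_lit 390) (nat_lit 2280) (nat_lit 0) (XT.nd (nat_lit 156) (nat_lit 1064) (nat_lit 0) (XT.nd (nat_lit 78) (nat_lit 608) (nat_lit 0) (XT.lf (nat_lit 0) (nat_lit 1253875960) (nat_lit 1064) (nat_lit 5148181158) (nat_lit 1140) (nat_lit 1139795724) (nat_lit 129) (nat_lit 5) (nat_lit 143) (nat_lit 5) (nat_lit 144) (nat_lit 5) (nat_lit 257) (nat_lit 237) (nat_lit 226)) (XT.lf (nat_lit 0) (nat_lit 409875930) (nat_lit 532) (nat_lit 2278274242) (nat_lit 608) (nat_lit 5001364143) (nat_lit 121) (nat_lit 5)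 (nat_lit 128) (nat_lit 5) (nat_lit 129) (nat_lit 5) (nat_lit 258) (nat_lit 237) (nat_lit 225))) (XT.nd (nat_lit 78) (nat_lit 1064) (nat_lit 0) (XT.lf (nat_lit 0) (nat_lit 6578030722) (nat_lit 608) (nat_lit 471616032) (nat_lit 76) (nat_lit 798368523) (nat_lit 121) (nat_lit 5) (nat_lit 129) (nat_lit 5) (nat_lit 122) (nat_lit 5) (nat_lit 259) (nat_lit 237) (nat_lit 224)) (XT.nd (nat_lit 78) (nat_lit 532) (nat_lit 0) (XT.lf (nat_lit 0) (nat_lit 2511357270) (nat_lit 532) (nat_lit 1434461214) (nat_lit 76) (nat_lit 4070978932) (nat_lit 114) (nat_lit 5) (nat_lit 121) (nat_lit 5) (nat_lit 115) (nat_lit 5) (nat_lit 260) (nat_lit 237) (nat_lit 223)) (XT.lf (nat_lit 0) (nat_lit 5730034215) (nat_lit 532) (nat_lit 619944339) (nat_lit 608) (nat_lit 1847373015) (nat_lit 107) (nat_lit 5) (nat_lit 114) (nat_lit 5) (nat_lit 115) (nat_lit 5) (nat_lit 261) (nat_lit 237) (nat_lit 222))))) (XT.nd (nat_lit 234)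 (nat_lit 836) (nat_lit 0) (XT.nd (nat_lit 78) (nat_lit 912) (nat_lit 0) (XT.lf (nat_lit 0) (nat_lit 1882457839) (nat_lit 532) (nat_lit 3620236356) (nat_lit 76) (nat_lit 2886334873) (nat_lit 100) (nat_lit 5) (nat_lit 107) (nat_lit 5) (nat_lit 101) (nat_lit 5) (nat_lit 262) (nat_lit 237) (nat_lit 221)) (XT.nd (nat_lit 78) (nat_lit 456) (nat_lit 0) (XT.lf (nat_lit 0) (nat_lit 3703151509) (nat_lit 456) (nat_lit 1969678603) (nat_lit 532) (nat_lit 2920023370) (nat_lit 94) (nat_lit 5) (nat_lit 100) (nat_lit 5) (nat_lit 101) (nat_lit 5) (nat_lit 263) (nat_lit 237) (nat_lit 220)) (XT.lf (nat_lit 0) (nat_lit 756820333) (nat_lit 456) (nat_lit 6294677346) (nat_lit 76) (nat_lit 1757746612) (nat_lit 88) (nat_lit 5) (nat_lit 94) (nat_lit 5) (nat_lit 89) (nat_lit 5) (nat_lit 264) (nat_lit 237) (nat_lit 219)))) (XT.nd (nat_lit 78) (nat_lit 456) (nat_lit 0) (XT.lf (nat_lit 0) (nat_lit 1158121112) (nat_lit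 380) (nat_lit 3335098347) (nat_lit 456) (nat_lit 4544706951) (nat_lit 83) (nat_lit 5) (nat_lit 88) (nat_lit 5) (nat_lit 89) (nat_lit 5) (nat_lit 265) (nat_lit 237) (nat_lit 218)) (XT.nd (nat_lit 78) (nat_lit 456) (nat_lit 0) (XT.lf (nat_lit 0) (nat_lit 8346155609) (nat_lit 456) (nat_lit 337493701) (nat_lit 76) (nat_lit 596903919) (nat_lit 83) (nat_lit 5) (nat_lit 89) (nat_lit 5) (nat_lit 84) (nat_lit 5) (nat_lit 266) (nat_lit 237) (nat_lit 217)) (XT.lf (nat_lit 0) (nat_lit 2771653518) (nat_lit 456) (nat_lit 2030738982) (nat_lit 76) (nat_lit 4733337999) (nat_lit 77) (nat_lit 5) (nat_lit 83) (nat_lit 5) (nat_lit 78) (nat_lit 5) (nat_lit 267) (nat_lit 237) (nat_lit 216))))))))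
noncomputable def xc44 : XT := (XT.nd (nat_lit 1560) (nat_lit 1140) (nat_lit 0) (XT.nd (nat_lit 780) (nat_lit 1444) (nat_lit 0) (XT.nd (nat_lit 390) (nat_lit 1140) (nat_lit 0) (XT.nd (nat_lit 156) (nat_lit 684) (nat_lit 0) (XT.nd (nat_lit 78) (nat_lit 380) (nat_lit 0) (XT.lf (nat_lit 0) (nat_lit 5887919529) (nat_lit 380) (nat_lit 684844595) (nat_lit 456) (nat_lit 3233106615) (nat_lit 72) (nat_lit 5) (nat_lit 77) (nat_lit 5) (nat_lit 78) (nat_lit 5) (nat_lit 268) (nat_lit 237) (nat_lit 215)) (XT.lf (nat_lit 0) (nat_lit 432690117) (nat_lit 380) (nat_lit 6055190354) (nat_lit 76) (nat_lit 3602802065) (nat_lit 67) (nat_lit 5) (nat_lit 72) (nat_lit 5) (nat_lit 68) (nat_lit 5) (nat_lit 269) (nat_lit 237) (nat_lit 214))) (XT.nd (nat_lit 78) (nat_lit 380) (nat_lit 0) (XT.lf (nat_lit 0) (nat_lit 1919430950) (nat_lit 304) (nat_lit 2238473433) (nat_lit 380) (nat_lit 6232892239) (nat_lit 63) (nat_lit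 5) (nat_lit 67) (nat_lit 5) (nat_lit 68) (nat_lit 5) (nat_lit 270) (nat_lit 237) (nat_lit 213)) (XT.nd (nat_lit 78) (nat_lit 380) (nat_lit 0) (XT.lf (nat_lit 0) (nat_lit 8034066790) (nat_lit 380) (nat_lit 463770996) (nat_lit 76) (nat_lit 2209434980) (nat_lit 63) (nat_lit 5) (nat_lit 68) (nat_lit 5) (nat_lit 64) (nat_lit 5) (nat_lit 271) (nat_lit 237) (nat_lit 212)) (XT.lf (nat_lit 0) (nat_lit 1028117263) (nat_lit 380) (nat_lit 3123675828) (nat_lit 76) (nat_lit 6888214527) (nat_lit 58) (nat_lit 5) (nat_lit 63) (nat_lit 5) (nat_lit 59) (nat_lit 5) (nat_lit 272) (nat_lit 237) (nat_lit 211))))) (XT.nd (nat_lit 156) (nat_lit 608) (nat_lit 0) (XT.nd (nat_lit 78) (nat_lit 228) (nat_lit 0) (XT.lf (nat_lit 0) (nat_lit 4808314471) (nat_lit 380) (nat_lit 6131108201) (nat_lit 76) (nat_lit 450951228) (nat_lit 54) (nat_lit 5) (nat_lit 59) (nat_lit 5) (nat_lit 55) (nat_lit 5) (nat_lit 273) (nat_lit 237)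 (nat_lit 210)) (XT.lf (nat_lit 0) (nat_lit 2223859008) (nat_lit 228) (nat_lit 6541727558) (nat_lit 304) (nat_lit 2993279045) (nat_lit 51) (nat_lit 5) (nat_lit 54) (nat_lit 5) (nat_lit 55) (nat_lit 5) (nat_lit 274) (nat_lit 237) (nat_lit 209))) (XT.nd (nat_lit 78) (nat_lit 532) (nat_lit 0) (XT.lf (nat_lit 0) (nat_lit 718364005) (nat_lit 304) (nat_lit 1172035233) (nat_lit 76) (nat_lit 10256633127) (nat_lit 50) (nat_lit 5) (nat_lit 54) (nat_lit 5) (nat_lit 51) (nat_lit 5) (nat_lit 275) (nat_lit 237) (nat_lit 208)) (XT.nd (nat_lit 78) (nat_lit 228) (nat_lit 0) (XT.lf (nat_lit 0) (nat_lit 4556459944) (nat_lit 380) (nat_lit 4995084190) (nat_lit 76) (nat_lit 3002310270) (nat_lit 46) (nat_lit 5) (nat_lit 51) (nat_lit 5) (nat_lit 47) (nat_lit 5) (nat_lit 276) (nat_lit 237) (nat_lit 207)) (XT.lf (nat_lit 0) (nat_lit 3686004408) (nat_lit 228) (nat_lit 4870094223) (nat_lit 304) (nat_lit 4426038664)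 (nat_lit 43) (nat_lit 5) (nat_lit 46) (nat_lit 5) (nat_lit 47) (nat_lit 5) (nat_lit 277) (nat_lit 237) (nat_lit 206)))))) (XT.nd (nat_lit 390) (nat_lit 608) (nat_lit 0) (XT.nd (nat_lit 156) (nat_lit 532) (nat_lit 0) (XT.nd (nat_lit 78) (nat_lit 304) (nat_lit 0) (XT.lf (nat_lit 0) (nat_lit 12713996456) (nat_lit 304) (nat_lit 661100290) (nat_lit 76) (nat_lit 58188208) (nat_lit 43) (nat_lit 5) (nat_lit 47) (nat_lit 5) (nat_lit 44) (nat_lit 5) (nat_lit 278) (nat_lit 237) (nat_lit 205)) (XT.lf (nat_lit 0) (nat_lit 3151308237) (nat_lit 304) (nat_lit 5545539919) (nat_lit 76) (nat_lit 5208198169) (nat_lit 39) (nat_lit 5) (nat_lit 43) (nat_lit 5) (nat_lit 40) (nat_lit 5) (nat_lit 279) (nat_lit 237) (nat_lit 204))) (XT.nd (nat_lit 78) (nat_lit 304) (nat_lit 0) (XT.lf (nat_lit 0) (nat_lit 3376152979) (nat_lit 228) (nat_lit 3776291710) (nat_lit 304) (nat_lit 7249356037) (nat_lit 36) (nat_lit 5) (nat_lit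 39) (nat_lit 5) (nat_lit 40) (nat_lit 5) (nat_lit 280) (nat_lit 237) (nat_lit 203)) (XT.nd (nat_lit 78) (nat_lit 304) (nat_lit 0) (XT.lf (nat_lit 0) (nat_lit 11339683939) (nat_lit 304) (nat_lit 2201646601) (nat_lit 76) (nat_lit 1382647775) (nat_lit 36) (nat_lit 5) (nat_lit 40) (nat_lit 5) (nat_lit 37) (nat_lit 5) (nat_lit 281) (nat_lit 237) (nat_lit 202)) (XT.lf (nat_lit 0) (nat_lit 283852003) (nat_lit 304) (nat_lit 8431445404) (nat_lit 76) (nat_lit 6756296003) (nat_lit 32) (nat_lit 5) (nat_lit 36) (nat_lit 5) (nat_lit 33) (nat_lit 5) (nat_lit 282) (nat_lit 237) (nat_lit 201))))) (XT.nd (nat_lit 156) (nat_lit 456) (nat_lit 0) (XT.nd (nat_lit 78) (nat_lit 0) (nat_lit 0) (XT.lf (nat_lit 0) (nat_lit 601317819) (nat_lit 152) (nat_lit 3620204917) (nat_lit 228) (nat_lit 11825641437) (nat_lit 30) (nat_lit 5) (nat_lit 32) (nat_lit 5) (nat_lit 33) (nat_lit 5) (nat_lit 283) (nat_lit 237) (nat_lit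 200)) (XT.lf (nat_lit 0) (nat_lit 8383540875) (nat_lit 228) (nat_lit 6521307693) (nat_lit 76) (nat_lit 1745980919) (nat_lit 30) (nat_lit 5) (nat_lit 33) (nat_lit 5) (nat_lit 31) (nat_lit 5) (nat_lit 284) (nat_lit 237) (nat_lit 199))) (XT.nd (nat_lit 78) (nat_lit 228) (nat_lit 0) (XT.lf (nat_lit 0) (nat_lit 2755425684) (nat_lit 228) (nat_lit 9988102441) (nat_lit 304) (nat_lit 4541587165) (nat_lit 27) (nat_lit 5) (nat_lit 30) (nat_lit 5) (nat_lit 31) (nat_lit 5) (nat_lit 285) (nat_lit 237) (nat_lit 198)) (XT.nd (nat_lit 78) (nat_lit 228) (nat_lit 0) (XT.lf (nat_lit 0) (nat_lit 12524200262) (nat_lit 228) (nat_lit 4793732221) (nat_lit 304) (nat_lit 633417289) (nat_lit 27) (nat_lit 5) (nat_lit 30) (nat_lit 5) (nat_lit 31) (nat_lit 5) (nat_lit 286) (nat_lit 237) (nat_lit 197)) (XT.lf (nat_lit 0) (nat_lit 3380176059) (nat_lit 228) (nat_lit 14585373774) (nat_lit 76) (nat_lit 685130872) (nat_lit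 24) (nat_lit 5) (nat_lit 27) (nat_lit 5) (nat_lit 25) (nat_lit 5) (nat_lit 287) (nat_lit 237) (nat_lit 196))))))) (XT.nd (nat_lit 780) (nat_lit 456) (nat_lit 0) (XT.nd (nat_lit 390) (nat_lit 304) (nat_lit 0) (XT.nd (nat_lit 156) (nat_lit 228) (nat_lit 0) (XT.nd (nat_lit 78) (nat_lit 152) (nat_lit 0) (XT.lf (nat_lit 0) (nat_lit 7620072500) (nat_lit 228) (nat_lit 5395987214) (nat_lit 76) (nat_lit 6367680390) (nat_lit 24) (nat_lit 5) (nat_lit 27) (nat_lit 5) (nat_lit 25) (nat_lit 5) (nat_lit 288) (nat_lit 237) (nat_lit 195)) (XT.lf (nat_lit 0) (nat_lit 4237313893) (nat_lit 152) (nat_lit 7812330599) (nat_lit 228) (nat_lit 8104584007) (nat_lit 22) (nat_lit 5) (nat_lit 24) (nat_lit 5) (nat_lit 25) (nat_lit 5) (nat_lit 289) (nat_lit 237) (nat_lit 194))) (XT.nd (nat_lit 78) (nat_lit 228) (nat_lit 0) (XT.lf (nat_lit 0) (nat_lit 14369616313) (nat_lit 152) (nat_lit 2325659923) (nat_lit 228) (nat_lit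 4268229018) (nat_lit 22) (nat_lit 5) (nat_lit 24) (nat_lit 5) (nat_lit 25) (nat_lit 5) (nat_lit 290) (nat_lit 237) (nat_lit 193)) (XT.nd (nat_lit 78) (nat_lit 76) (nat_lit 0) (XT.lf (nat_lit 0) (nat_lit 3130958682) (nat_lit 152) (nat_lit 18446972104) (nat_lit 228) (nat_lit 235269375) (nat_lit 20) (nat_lit 5) (nat_lit 22) (nat_lit 5) (nat_lit 23) (nat_lit 4) (nat_lit 291) (nat_lit 237) (nat_lit 192)) (XT.lf (nat_lit 0) (nat_lit 3956210392) (nat_lit 228) (nat_lit 9377071627) (nat_lit 76) (nat_lit 9369986335) (nat_lit 19) (nat_lit 5) (nat_lit 22) (nat_lit 5) (nat_lit 20) (nat_lit 5) (nat_lit 292) (nat_lit 237) (nat_lit 191))))) (XT.nd (nat_lit 156) (nat_lit 152) (nat_lit 0) (XT.nd (nat_lit 78) (nat_lit 0) (nat_lit 0) (XT.lf (nat_lit 0) (nat_lit 310391185) (nat_lit 152) (nat_lit 7990645521) (nat_lit 228) (nat_lit 15338359245) (nat_lit 17) (nat_lit 5) (nat_lit 19) (nat_lit 5) (nat_lit 20) (nat_lit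 5) (nat_lit 293) (nat_lit 237) (nat_lit 190)) (XT.lf (nat_lit 0) (nat_lit 10594016347) (nat_lit 152) (nat_lit 2313007048) (nat_lit 228) (nat_lit 11714069933) (nat_lit 17) (nat_lit 5) (nat_lit 19) (nat_lit 5) (nat_lit 20) (nat_lit 5) (nat_lit 294) (nat_lit 237) (nat_lit 189))) (XT.nd (nat_lit 78) (nat_lit 152) (nat_lit 0) (XT.lf (nat_lit 0) (nat_lit 17727987887) (nat_lit 228) (nat_lit 4376572125) (nat_lit 76) (nat_lit 3547852327) (nat_lit 17) (nat_lit 5) (nat_lit 20) (nat_lit 5) (nat_lit 18) (nat_lit 4) (nat_lit 295) (nat_lit 237) (nat_lit 188)) (XT.nd (nat_lit 78) (nat_lit 76) (nat_lit 0) (XT.lf (nat_lit 0) (nat_lit 5768099513) (nat_lit 76) (nat_lit 17052699735) (nat_lit 152) (nat_lit 3913647538) (nat_lit 16) (nat_lit 5) (nat_lit 17) (nat_lit 5) (nat_lit 18) (nat_lit 4) (nat_lit 296) (nat_lit 237) (nat_lit 187)) (XT.lf (nat_lit 0) (nat_lit 290397894) (nat_lit 152) (nat_lit 11437424723) (nat_lit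 76) (nat_lit 16142786260) (nat_lit 15) (nat_lit 5) (nat_lit 17) (nat_lit 5) (nat_lit 16) (nat_lit 5) (nat_lit 297) (nat_lit 237) (nat_lit 186)))))) (XT.nd (nat_lit 390) (nat_lit 228) (nat_lit 0) (XT.nd (nat_lit 156) (nat_lit 76) (nat_lit 0) (XT.nd (nat_lit 78) (nat_lit 152) (nat_lit 0) (XT.lf (nat_lit 0) (nat_lit 4579733233) (nat_lit 152) (nat_lit 1544269950) (nat_lit 76) (nat_lit 22939797263) (nat_lit 15) (nat_lit 5) (nat_lit 17) (nat_lit 5) (nat_lit 16) (nat_lit 5) (nat_lit 298) (nat_lit 237) (nat_lit 185)) (XT.lf (nat_lit 0) (nat_lit 8948918176) (nat_lit 152) (nat_lit 178044840) (nat_lit 228) (nat_lit 21188447343) (nat_lit 13) (nat_lit 5) (nat_lit 15) (nat_lit 5) (nat_lit 16) (nat_lit 5) (nat_lit 299) (nat_lit 237) (nat_lit 184))) (XT.nd (nat_lit 78) (nat_lit 76) (nat_lit 0) (XT.lf (nat_lit 0) (nat_lit 13934447610) (nat_lit 228) (nat_lit 11756856972) (nat_lit 76) (nat_lit 5937368051)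 (nat_lit 13) (nat_lit 5) (nat_lit 16) (nat_lit 5) (nat_lit 14) (nat_lit 4) (nat_lit 300) (nat_lit 237) (nat_lit 183)) (XT.nd (nat_lit 78) (nat_lit 76) (nat_lit 0) (XT.lf (nat_lit 0) (nat_lit 18944614441) (nat_lit 228) (nat_lit 1733593814) (nat_lit 76) (nat_lit 12330576395) (nat_lit 13) (nat_lit 5) (nat_lit 16) (nat_lit 5) (nat_lit 14) (nat_lit 4) (nat_lit 301) (nat_lit 237) (nat_lit 182)) (XT.lf (nat_lit 0) (nat_lit 8902595380) (nat_lit 76) (nat_lit 15350662816) (nat_lit 152) (nat_lit 10203258224) (nat_lit 12) (nat_lit 5) (nat_lit 13) (nat_lit 5) (nat_lit 14) (nat_lit 4) (nat_lit 302) (nat_lit 237) (nat_lit 181))))) (XT.nd (nat_lit 234) (nat_lit 0) (nat_lit 0) (XT.nd (nat_lit 78) (nat_lit 228) (nat_lit 0) (XT.lf (nat_lit 0) (nat_lit 20046638261) (nat_lit 76) (nat_lit 9762145458) (nat_lit 152) (nat_lit 6168458249) (nat_lit 12) (nat_lit 5) (nat_lit 13) (nat_lit 5) (nat_lit 14) (nat_lit 4)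 (nat_lit 303) (nat_lit 237) (nat_lit 180)) (XT.nd (nat_lit 78) (nat_lit 228) (nat_lit 0) (XT.lf (nat_lit 0) (nat_lit 31690566347) (nat_lit 76) (nat_lit 3916856088) (nat_lit 152) (nat_lit 1967669514) (nat_lit 12) (nat_lit 5) (nat_lit 13) (nat_lit 5) (nat_lit 14) (nat_lit 4) (nat_lit 304) (nat_lit 237) (nat_lit 179)) (XT.lf (nat_lit 0) (nat_lit 2428864822) (nat_lit 228) (nat_lit 34597314500) (nat_lit 76) (nat_lit 2224993749) (nat_lit 9) (nat_lit 5) (nat_lit 12) (nat_lit 5) (nat_lit 10) (nat_lit 4) (nat_lit 305) (nat_lit 237) (nat_lit 178)))) (XT.nd (nat_lit 78) (nat_lit 0) (nat_lit 0) (XT.lf (nat_lit 0) (nat_lit 7073102604) (nat_lit 228) (nat_lit 25281621092) (nat_lit 76) (nat_lit 8653735463) (nat_lit 9) (nat_lit 5) (nat_lit 12) (nat_lit 5) (nat_lit 10) (nat_lit 4) (nat_lit 306) (nat_lit 237) (nat_lit 177)) (XT.nd (nat_lit 78) (nat_lit 0) (nat_lit 0) (XT.lf (nat_lit 0) (nat_lit 11918584013)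 (nat_lit 228) (nat_lit 15552064585) (nat_lit 76) (nat_lit 15383930480) (nat_lit 9) (nat_lit 5) (nat_lit 12) (nat_lit 5) (nat_lit 10) (nat_lit 4) (nat_lit 307) (nat_lit 237) (nat_lit 176)) (XT.lf (nat_lit 0) (nat_lit 16976845908) (nat_lit 228) (nat_lit 5385479368) (nat_lit 76) (nat_lit 22431603073) (nat_lit 9) (nat_lit 5) (nat_lit 12) (nat_lit 5) (nat_lit 10) (nat_lit 4) (nat_lit 308) (nat_lit 237) (nat_lit 175))))))))
noncomputable def xc45 : XT := (XT.nd (nat_lit 32448) (nat_lit 0) (nat_lit 6764) (XT.nd (nat_lit 780) (nat_lit 152) (nat_lit 0) (XT.nd (nat_lit 390) (nat_lit 152) (nat_lit 0) (XT.nd (nat_lit 156) (nat_lit 0) (nat_lit 0) (XT.nd (nat_lit 78) (nat_lit 0) (nat_lit 0) (XT.lf (nat_lit 0) (nat_lit 5346673573) (nat_lit 76) (nat_lit 16964653695) (nat_lit 152) (nat_lit 24518255338) (nat_lit 8) (nat_lit 5) (nat_lit 9) (nat_lit 5) (nat_lit 10) (nat_lit 4) (nat_lit 309) (nat_lit 237) (nat_lit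 174)) (XT.lf (nat_lit 0) (nat_lit 16682230396) (nat_lit 76) (nat_lit 11258549785) (nat_lit 152) (nat_lit 21025426937) (nat_lit 8) (nat_lit 5) (nat_lit 9) (nat_lit 5) (nat_lit 10) (nat_lit 4) (nat_lit 310) (nat_lit 237) (nat_lit 173))) (XT.nd (nat_lit 78) (nat_lit 0) (nat_lit 0) (XT.lf (nat_lit 0) (nat_lit 28540998923) (nat_lit 76) (nat_lit 5284810366) (nat_lit 152) (nat_lit 17384663760) (nat_lit 8) (nat_lit 5) (nat_lit 9) (nat_lit 5) (nat_lit 10) (nat_lit 4) (nat_lit 311) (nat_lit 237) (nat_lit 172)) (XT.nd (nat_lit 78) (nat_lit 0) (nat_lit 0) (XT.lf (nat_lit 0) (nat_lit 39989758371) (nat_lit 152) (nat_lit 12625841379) (nat_lit 0) (nat_lit 951844185) (nat_lit 8) (nat_lit 5) (nat_lit 10) (nat_lit 4) (nat_lit 8) (nat_lit 4) (nat_lit 312) (nat_lit 237) (nat_lit 171)) (XT.lf (nat_lit 0) (nat_lit 46491602874) (nat_lit 152) (nat_lit 2173464447) (nat_lit 0) (nat_lit 7376335311) (nat_lit 8) (nat_lit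 5) (nat_lit 10) (nat_lit 4) (nat_lit 8) (nat_lit 4) (nat_lit 313) (nat_lit 237) (nat_lit 170))))) (XT.nd (nat_lit 156) (nat_lit 76) (nat_lit 0) (XT.nd (nat_lit 78) (nat_lit 0) (nat_lit 0) (XT.lf (nat_lit 0) (nat_lit 8937751842) (nat_lit 76) (nat_lit 44444185846) (nat_lit 76) (nat_lit 5255248399) (nat_lit 7) (nat_lit 4) (nat_lit 8) (nat_lit 5) (nat_lit 8) (nat_lit 4) (nat_lit 314) (nat_lit 237) (nat_lit 169)) (XT.lf (nat_lit 0) (nat_lit 20612855371) (nat_lit 76) (nat_lit 40004506403) (nat_lit 76) (nat_lit 745407162) (nat_lit 7) (nat_lit 4) (nat_lit 8) (nat_lit 5) (nat_lit 8) (nat_lit 4) (nat_lit 315) (nat_lit 237) (nat_lit 168))) (XT.nd (nat_lit 78) (nat_lit 0) (nat_lit 0) (XT.lf (nat_lit 0) (nat_lit 3891073938) (nat_lit 152) (nat_lit 31427039901) (nat_lit 76) (nat_lit 28906021643) (nat_lit 6) (nat_lit 5) (nat_lit 8) (nat_lit 5) (nat_lit 7) (nat_lit 4) (nat_lit 316) (nat_lit 237) (nat_lit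 167)) (XT.nd (nat_lit 78) (nat_lit 0) (nat_lit 0) (XT.lf (nat_lit 0) (nat_lit 8724111602) (nat_lit 152) (nat_lit 21679612258) (nat_lit 76) (nat_lit 36825244753) (nat_lit 6) (nat_lit 5) (nat_lit 8) (nat_lit 5) (nat_lit 7) (nat_lit 4) (nat_lit 317) (nat_lit 237) (nat_lit 166)) (XT.lf (nat_lit 0) (nat_lit 13779758640) (nat_lit 152) (nat_lit 11477257168) (nat_lit 76) (nat_lit 45127621845) (nat_lit 6) (nat_lit 5) (nat_lit 8) (nat_lit 5) (nat_lit 7) (nat_lit 4) (nat_lit 318) (nat_lit 237) (nat_lit 165)))))) (XT.nd (nat_lit 390) (nat_lit 76) (nat_lit 0) (XT.nd (nat_lit 156) (nat_lit 0) (nat_lit 0) (XT.nd (nat_lit 78) (nat_lit 76) (nat_lit 0) (XT.lf (nat_lit 0) (nat_lit 19070052305) (nat_lit 152) (nat_lit 795683308) (nat_lit 76) (nat_lit 53832920485) (nat_lit 6) (nat_lit 5) (nat_lit 8) (nat_lit 5) (nat_lit 7) (nat_lit 4) (nat_lit 319) (nat_lit 237) (nat_lit 164)) (XT.lf (nat_lit 0) (nat_lit 10597333792)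 (nat_lit 76) (nat_lit 14112122800) (nat_lit 152) (nat_lit 52466401837) (nat_lit 5) (nat_lit 5) (nat_lit 6) (nat_lit 5) (nat_lit 7) (nat_lit 4) (nat_lit 320) (nat_lit 237) (nat_lit 163))) (XT.nd (nat_lit 78) (nat_lit 0) (nat_lit 0) (XT.lf (nat_lit 0) (nat_lit 22548045119) (nat_lit 76) (nat_lit 8074252427) (nat_lit 152) (nat_lit 50204899184) (nat_lit 5) (nat_lit 5) (nat_lit 6) (nat_lit 5) (nat_lit 7) (nat_lit 4) (nat_lit 321) (nat_lit 237) (nat_lit 162)) (XT.nd (nat_lit 78) (nat_lit 0) (nat_lit 0) (XT.lf (nat_lit 0) (nat_lit 35069069091) (nat_lit 76) (nat_lit 1745783454) (nat_lit 152) (nat_lit 47846746145) (nat_lit 5) (nat_lit 5) (nat_lit 6) (nat_lit 5) (nat_lit 7) (nat_lit 4) (nat_lit 322) (nat_lit 237) (nat_lit 161)) (XT.lf (nat_lit 0) (nat_lit 43348855598) (nat_lit 152) (nat_lit 40544965998) (nat_lit 0) (nat_lit 4792962547) (nat_lit 5) (nat_lit 5) (nat_lit 7) (nat_lit 4) (nat_lit 5) (nat_lit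 4) (nat_lit 323) (nat_lit 237) (nat_lit 160))))) (XT.nd (nat_lit 234) (nat_lit 76) (nat_lit 0) (XT.nd (nat_lit 78) (nat_lit 0) (nat_lit 0) (XT.lf (nat_lit 0) (nat_lit 50212633769) (nat_lit 152) (nat_lit 31087688905) (nat_lit 0) (nat_lit 11612831090) (nat_lit 5) (nat_lit 5) (nat_lit 7) (nat_lit 4) (nat_lit 5) (nat_lit 4) (nat_lit 324) (nat_lit 237) (nat_lit 159)) (XT.nd (nat_lit 78) (nat_lit 0) (nat_lit 0) (XT.lf (nat_lit 0) (nat_lit 57405747851) (nat_lit 152) (nat_lit 21181399457) (nat_lit 0) (nat_lit 18764126477) (nat_lit 5) (nat_lit 5) (nat_lit 7) (nat_lit 4) (nat_lit 5) (nat_lit 4) (nat_lit 325) (nat_lit 237) (nat_lit 158)) (XT.lf (nat_lit 0) (nat_lit 64945324305) (nat_lit 152) (nat_lit 10802511251) (nat_lit 0) (nat_lit 26263875603) (nat_lit 5) (nat_lit 5) (nat_lit 7) (nat_lit 4) (nat_lit 5) (nat_lit 4) (nat_lit 326) (nat_lit 237) (nat_lit 157)))) (XT.nd (nat_lit 78) (nat_lit 0) (nat_lit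 0) (XT.lf (nat_lit 0) (nat_lit 75153875) (nat_lit 76) (nat_lit 72774883053) (nat_lit 76) (nat_lit 34055503564) (nat_lit 4) (nat_lit 4) (nat_lit 5) (nat_lit 5) (nat_lit 5) (nat_lit 4) (nat_lit 327) (nat_lit 237) (nat_lit 156)) (XT.nd (nat_lit 78) (nat_lit 0) (nat_lit 0) (XT.lf (nat_lit 0) (nat_lit 11701429093) (nat_lit 76) (nat_lit 69547589674) (nat_lit 76) (nat_lit 30792085624) (nat_lit 4) (nat_lit 4) (nat_lit 5) (nat_lit 5) (nat_lit 5) (nat_lit 4) (nat_lit 328) (nat_lit 237) (nat_lit 155)) (XT.lf (nat_lit 0) (nat_lit 23889004855) (nat_lit 76) (nat_lit 66167355567) (nat_lit 76) (nat_lit 27377447174) (nat_lit 4) (nat_lit 4) (nat_lit 5) (nat_lit 5) (nat_lit 5) (nat_lit 4) (nat_lit 329) (nat_lit 237) (nat_lit 154))))))) (XT.nd (nat_lit 780) (nat_lit 6612) (nat_lit 0) (XT.nd (nat_lit 390) (nat_lit 2812) (nat_lit 0) (XT.nd (nat_lit 156) (nat_lit 1292) (nat_lit 0) (XT.nd (nat_lit 78) (nat_lit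 304) (nat_lit 0) (XT.lf (nat_lit 0) (nat_lit 1556697722) (nat_lit 228) (nat_lit 133190152) (nat_lit 0) (nat_lit 1556697722) (nat_lit 238) (nat_lit 5) (nat_lit 241) (nat_lit 4) (nat_lit 238) (nat_lit 4) (nat_lit 244) (nat_lit 238) (nat_lit 238)) (XT.lf (nat_lit 0) (nat_lit 1071948842) (nat_lit 304) (nat_lit 1606139914) (nat_lit 76) (nat_lit 3845186368) (nat_lit 234) (nat_lit 5) (nat_lit 238) (nat_lit 5) (nat_lit 235) (nat_lit 4) (nat_lit 245) (nat_lit 238) (nat_lit 237))) (XT.nd (nat_lit 78) (nat_lit 988) (nat_lit 0) (XT.lf (nat_lit 0) (nat_lit 3677385444) (nat_lit 304) (nat_lit 1771714554) (nat_lit 380) (nat_lit 1112963746) (nat_lit 230) (nat_lit 5) (nat_lit 234) (nat_lit 5) (nat_lit 235) (nat_lit 4) (nat_lit 246) (nat_lit 238) (nat_lit 236)) (XT.nd (nat_lit 78) (nat_lit 532) (nat_lit 0) (XT.lf (nat_lit 0) (nat_lit 2499536117) (nat_lit 380) (nat_lit 657577871) (nat_lit 456) (nat_lit 3452488704)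 (nat_lit 224) (nat_lit 5) (nat_lit 229) (nat_lit 5) (nat_lit 230) (nat_lit 5) (nat_lit 247) (nat_lit 238) (nat_lit 235)) (XT.lf (nat_lit 0) (nat_lit 737845052) (nat_lit 532) (nat_lit 5285150802) (nat_lit 76) (nat_lit 643141483) (nat_lit 217) (nat_lit 5) (nat_lit 224) (nat_lit 5) (nat_lit 218) (nat_lit 5) (nat_lit 248) (nat_lit 238) (nat_lit 234))))) (XT.nd (nat_lit 156) (nat_lit 2204) (nat_lit 0) (XT.nd (nat_lit 78) (nat_lit 76) (nat_lit 0) (XT.lf (nat_lit 0) (nat_lit 294442607) (nat_lit 532) (nat_lit 4584094780) (nat_lit 608) (nat_lit 1852680406) (nat_lit 210) (nat_lit 5) (nat_lit 217) (nat_lit 5) (nat_lit 218) (nat_lit 5) (nat_lit 249) (nat_lit 238) (nat_lit 233)) (XT.lf (nat_lit 0) (nat_lit 2200163354) (nat_lit 608) (nat_lit 736573026) (nat_lit 76) (nat_lit 3868520044) (nat_lit 209) (nat_lit 5) (nat_lit 217) (nat_lit 5) (nat_lit 210) (nat_lit 5) (nat_lit 250) (nat_lit 238) (nat_lit 232)))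 (XT.nd (nat_lit 78) (nat_lit 1596) (nat_lit 0) (XT.lf (nat_lit 0) (nat_lit 5160888147) (nat_lit 608) (nat_lit 1083420720) (nat_lit 684) (nat_lit 644307704) (nat_lit 201) (nat_lit 5) (nat_lit 209) (nat_lit 5) (nat_lit 210) (nat_lit 5) (nat_lit 251) (nat_lit 238) (nat_lit 231)) (XT.nd (nat_lit 78) (nat_lit 836) (nat_lit 0) (XT.lf (nat_lit 0) (nat_lit 3287229158) (nat_lit 760) (nat_lit 2718557971) (nat_lit 76) (nat_lit 975010664) (nat_lit 191) (nat_lit 5) (nat_lit 201) (nat_lit 5) (nat_lit 192) (nat_lit 5) (nat_lit 252) (nat_lit 238) (nat_lit 230)) (XT.lf (nat_lit 0) (nat_lit 169734848) (nat_lit 836) (nat_lit 3697850240) (nat_lit 76) (nat_lit 3215011686) (nat_lit 180) (nat_lit 5) (nat_lit 191) (nat_lit 5) (nat_lit 181) (nat_lit 5) (nat_lit 253) (nat_lit 238) (nat_lit 229)))))) (XT.nd (nat_lit 390) (nat_lit 2660) (nat_lit 0) (XT.nd (nat_lit 156) (nat_lit 2128) (nat_lit 0) (XT.nd (nat_lit 78)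 (nat_lit 988) (nat_lit 0) (XT.lf (nat_lit 0) (nat_lit 2499971014) (nat_lit 836) (nat_lit 1500518791) (nat_lit 912) (nat_lit 3193175834) (nat_lit 169) (nat_lit 5) (nat_lit 180) (nat_lit 5) (nat_lit 181) (nat_lit 5) (nat_lit 254) (nat_lit 238) (nat_lit 228)) (XT.lf (nat_lit 0) (nat_lit 566017114) (nat_lit 988) (nat_lit 5697403722) (nat_lit 76) (nat_lit 1051376066) (nat_lit 156) (nat_lit 5) (nat_lit 169) (nat_lit 5) (nat_lit 157) (nat_lit 5) (nat_lit 255) (nat_lit 238) (nat_lit 227))) (XT.nd (nat_lit 78) (nat_lit 1140) (nat_lit 0) (XT.lf (nat_lit 0) (nat_lit 693268151) (nat_lit 988) (nat_lit 3636086669) (nat_lit 1064) (nat_lit 3115916787) (nat_lit 143) (nat_lit 5) (nat_lit 156) (nat_lit 5) (nat_lit 157) (nat_lit 5) (nat_lit 256) (nat_lit 238) (nat_lit 226)) (XT.nd (nat_lit 78) (nat_lit 1064) (nat_lit 0) (XT.lf (nat_lit 0) (nat_lit 560115066) (nat_lit 1064) (nat_lit 238590682) (nat_lit 76) (nat_lit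 6787757298) (nat_lit 142) (nat_lit 5) (nat_lit 156) (nat_lit 5) (nat_lit 143) (nat_lit 5) (nat_lit 257) (nat_lit 238) (nat_lit 225)) (XT.lf (nat_lit 0) (nat_lit 4265574561) (nat_lit 1140) (nat_lit 1228325548) (nat_lit 76) (nat_lit 2243204659) (nat_lit 128) (nat_lit 5) (nat_lit 143) (nat_lit 5) (nat_lit 129) (nat_lit 5) (nat_lit 258) (nat_lit 238) (nat_lit 224))))) (XT.nd (nat_lit 234) (nat_lit 1064) (nat_lit 0) (XT.nd (nat_lit 78) (nat_lit 988) (nat_lit 0) (XT.lf (nat_lit 0) (nat_lit 150658318) (nat_lit 608) (nat_lit 2261255266) (nat_lit 76) (nat_lit 5487019695) (nat_lit 120) (nat_lit 5) (nat_lit 128) (nat_lit 5) (nat_lit 121) (nat_lit 5) (nat_lit 259) (nat_lit 238) (nat_lit 223)) (XT.nd (nat_lit 78) (nat_lit 532) (nat_lit 0) (XT.lf (nat_lit 0) (nat_lit 3785460478) (nat_lit 532) (nat_lit 3384831740) (nat_lit 76) (nat_lit 900975283) (nat_lit 114) (nat_lit 5) (nat_lit 121) (nat_lit 5) (nat_lit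 115) (nat_lit 5) (nat_lit 260) (nat_lit 238) (nat_lit 222)) (XT.lf (nat_lit 0) (nat_lit 3658458610) (nat_lit 532) (nat_lit 3868706370) (nat_lit 608) (nat_lit 727817119) (nat_lit 107) (nat_lit 5) (nat_lit 114) (nat_lit 5) (nat_lit 115) (nat_lit 5) (nat_lit 261) (nat_lit 238) (nat_lit 221)))) (XT.nd (nat_lit 78) (nat_lit 532) (nat_lit 0) (XT.lf (nat_lit 0) (nat_lit 2533592143) (nat_lit 456) (nat_lit 321450611) (nat_lit 532) (nat_lit 5595281602) (nat_lit 100) (nat_lit 5) (nat_lit 106) (nat_lit 5) (nat_lit 107) (nat_lit 5) (nat_lit 262) (nat_lit 238) (nat_lit 220)) (XT.nd (nat_lit 78) (nat_lit 76) (nat_lit 0) (XT.lf (nat_lit 0) (nat_lit 1282275616) (nat_lit 456) (nat_lit 5264488915) (nat_lit 532) (nat_lit 2110566497) (nat_lit 94) (nat_lit 5) (nat_lit 100) (nat_lit 5) (nat_lit 101) (nat_lit 5) (nat_lit 263) (nat_lit 238) (nat_lit 219)) (XT.lf (nat_lit 0) (nat_lit 1438413401) (nat_lit 532) (nat_lit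 89771458) (nat_lit 76) (nat_lit 7348871559) (nat_lit 93) (nat_lit 5) (nat_lit 100) (nat_lit 5) (nat_lit 94) (nat_lit 5) (nat_lit 264) (nat_lit 238) (nat_lit 218))))))))
noncomputable def xc46 : XT := (XT.nd (nat_lit 1560) (nat_lit 1368) (nat_lit 0) (XT.nd (nat_lit 780) (nat_lit 1824) (nat_lit 0) (XT.nd (nat_lit 390) (nat_lit 988) (nat_lit 0) (XT.nd (nat_lit 156) (nat_lit 1216) (nat_lit 0) (XT.nd (nat_lit 78) (nat_lit 380) (nat_lit 0) (XT.lf (nat_lit 0) (nat_lit 5080131887) (nat_lit 456) (nat_lit 1603144536) (nat_lit 76) (nat_lit 2425498682) (nat_lit 88) (nat_lit 5) (nat_lit 94) (nat_lit 5) (nat_lit 89) (nat_lit 5) (nat_lit 265) (nat_lit 238) (nat_lit 217)) (XT.lf (nat_lit 0) (nat_lit 6078790215) (nat_lit 380) (nat_lit 2767234581) (nat_lit 456) (nat_lit 508175236) (nat_lit 83) (nat_lit 5) (nat_lit 88) (nat_lit 5) (nat_lit 89) (nat_lit 5) (nat_lit 266) (nat_lit 238) (nat_lit 216))) (XT.nd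 (nat_lit 78) (nat_lit 760) (nat_lit 0) (XT.lf (nat_lit 0) (nat_lit 3069867779) (nat_lit 456) (nat_lit 5157189673) (nat_lit 76) (nat_lit 1385960398) (nat_lit 77) (nat_lit 5) (nat_lit 83) (nat_lit 5) (nat_lit 78) (nat_lit 5) (nat_lit 267) (nat_lit 238) (nat_lit 215)) (XT.nd (nat_lit 78) (nat_lit 380) (nat_lit 0) (XT.lf (nat_lit 0) (nat_lit 2623150184) (nat_lit 380) (nat_lit 4155490613) (nat_lit 456) (nat_lit 3107451927) (nat_lit 72) (nat_lit 5) (nat_lit 77) (nat_lit 5) (nat_lit 78) (nat_lit 5) (nat_lit 268) (nat_lit 238) (nat_lit 214)) (XT.lf (nat_lit 0) (nat_lit 429059695) (nat_lit 380) (nat_lit 9592571479) (nat_lit 76) (nat_lit 153194217) (nat_lit 67) (nat_lit 5) (nat_lit 72) (nat_lit 5) (nat_lit 68) (nat_lit 5) (nat_lit 269) (nat_lit 238) (nat_lit 213))))) (XT.nd (nat_lit 156) (nat_lit 684) (nat_lit 0) (XT.nd (nat_lit 78) (nat_lit 304) (nat_lit 0) (XT.lf (nat_lit 0) (nat_lit 4078344706)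 (nat_lit 380) (nat_lit 1728825087) (nat_lit 76) (nat_lit 4670192428) (nat_lit 67) (nat_lit 5) (nat_lit 72) (nat_lit 5) (nat_lit 68) (nat_lit 5) (nat_lit 270) (nat_lit 238) (nat_lit 212)) (XT.lf (nat_lit 0) (nat_lit 6511834350) (nat_lit 304) (nat_lit 1348635404) (nat_lit 380) (nat_lit 2936327700) (nat_lit 63) (nat_lit 5) (nat_lit 67) (nat_lit 5) (nat_lit 68) (nat_lit 5) (nat_lit 271) (nat_lit 238) (nat_lit 211))) (XT.nd (nat_lit 78) (nat_lit 304) (nat_lit 0) (XT.lf (nat_lit 0) (nat_lit 665058524) (nat_lit 380) (nat_lit 7167781238) (nat_lit 76) (nat_lit 3300048138) (nat_lit 58) (nat_lit 5) (nat_lit 63) (nat_lit 5) (nat_lit 59) (nat_lit 5) (nat_lit 272) (nat_lit 238) (nat_lit 210)) (XT.nd (nat_lit 78) (nat_lit 0) (nat_lit 0) (XT.lf (nat_lit 0) (nat_lit 1069214902) (nat_lit 304) (nat_lit 3279609135) (nat_lit 380) (nat_lit 7137444591) (nat_lit 54) (nat_lit 5) (nat_lit 58) (nat_lit 5) (nat_lit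 59) (nat_lit 5) (nat_lit 273) (nat_lit 238) (nat_lit 209)) (XT.lf (nat_lit 0) (nat_lit 8203162778) (nat_lit 380) (nat_lit 2142086105) (nat_lit 76) (nat_lit 1512715167) (nat_lit 54) (nat_lit 5) (nat_lit 59) (nat_lit 5) (nat_lit 55) (nat_lit 5) (nat_lit 274) (nat_lit 238) (nat_lit 208)))))) (XT.nd (nat_lit 390) (nat_lit 684) (nat_lit 0) (XT.nd (nat_lit 156) (nat_lit 532) (nat_lit 0) (XT.nd (nat_lit 78) (nat_lit 380) (nat_lit 0) (XT.lf (nat_lit 0) (nat_lit 6507497597) (nat_lit 228) (nat_lit 5740697905) (nat_lit 304) (nat_lit 335342) (nat_lit 51) (nat_lit 5) (nat_lit 54) (nat_lit 5) (nat_lit 55) (nat_lit 5) (nat_lit 275) (nat_lit 238) (nat_lit 207)) (XT.lf (nat_lit 0) (nat_lit 2863832421) (nat_lit 304) (nat_lit 852534940) (nat_lit 380) (nat_lit 8942729509) (nat_lit 46) (nat_lit 5) (nat_lit 50) (nat_lit 5) (nat_lit 51) (nat_lit 5) (nat_lit 276) (nat_lit 238) (nat_lit 206))) (XT.nd (nat_lit 78)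 (nat_lit 532) (nat_lit 0) (XT.lf (nat_lit 0) (nat_lit 7627287562) (nat_lit 380) (nat_lit 1241404168) (nat_lit 76) (nat_lit 4221446630) (nat_lit 46) (nat_lit 5) (nat_lit 51) (nat_lit 5) (nat_lit 47) (nat_lit 5) (nat_lit 277) (nat_lit 238) (nat_lit 205)) (XT.nd (nat_lit 78) (nat_lit 304) (nat_lit 0) (XT.lf (nat_lit 0) (nat_lit 7758981222) (nat_lit 228) (nat_lit 3969926128) (nat_lit 304) (nat_lit 1814159434) (nat_lit 43) (nat_lit 5) (nat_lit 46) (nat_lit 5) (nat_lit 47) (nat_lit 5) (nat_lit 278) (nat_lit 238) (nat_lit 204)) (XT.lf (nat_lit 0) (nat_lit 1946196783) (nat_lit 304) (nat_lit 10894620942) (nat_lit 76) (nat_lit 1178359786) (nat_lit 39) (nat_lit 5) (nat_lit 43) (nat_lit 5) (nat_lit 40) (nat_lit 5) (nat_lit 279) (nat_lit 238) (nat_lit 203))))) (XT.nd (nat_lit 156) (nat_lit 456) (nat_lit 0) (XT.nd (nat_lit 78) (nat_lit 228) (nat_lit 0) (XT.lf (nat_lit 0) (nat_lit 5874192531) (nat_lit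 304) (nat_lit 2097887917) (nat_lit 76) (nat_lit 6546127073) (nat_lit 39) (nat_lit 5) (nat_lit 43) (nat_lit 5) (nat_lit 40) (nat_lit 5) (nat_lit 280) (nat_lit 238) (nat_lit 202)) (XT.lf (nat_lit 0) (nat_lit 7163115283) (nat_lit 228) (nat_lit 2824892397) (nat_lit 304) (nat_lit 5054657667) (nat_lit 36) (nat_lit 5) (nat_lit 39) (nat_lit 5) (nat_lit 40) (nat_lit 5) (nat_lit 281) (nat_lit 238) (nat_lit 201))) (XT.nd (nat_lit 78) (nat_lit 228) (nat_lit 0) (XT.lf (nat_lit 0) (nat_lit 1223012288) (nat_lit 228) (nat_lit 13065794275) (nat_lit 304) (nat_lit 1305252045) (nat_lit 33) (nat_lit 5) (nat_lit 36) (nat_lit 5) (nat_lit 37) (nat_lit 5) (nat_lit 282) (nat_lit 238) (nat_lit 200)) (XT.nd (nat_lit 78) (nat_lit 152) (nat_lit 0) (XT.lf (nat_lit 0) (nat_lit 2615355085) (nat_lit 304) (nat_lit 5392357642) (nat_lit 76) (nat_lit 8163637323) (nat_lit 32) (nat_lit 5) (nat_lit 36) (nat_lit 5) (nat_lit 33)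 (nat_lit 5) (nat_lit 283) (nat_lit 238) (nat_lit 199)) (XT.lf (nat_lit 0) (nat_lit 3992844618) (nat_lit 152) (nat_lit 2679029038) (nat_lit 228) (nat_lit 10106371705) (nat_lit 30) (nat_lit 5) (nat_lit 32) (nat_lit 5) (nat_lit 33) (nat_lit 5) (nat_lit 284) (nat_lit 238) (nat_lit 198))))))) (XT.nd (nat_lit 780) (nat_lit 380) (nat_lit 0) (XT.nd (nat_lit 390) (nat_lit 532) (nat_lit 0) (XT.nd (nat_lit 156) (nat_lit 228) (nat_lit 0) (XT.nd (nat_lit 78) (nat_lit 228) (nat_lit 0) (XT.lf (nat_lit 0) (nat_lit 10945634036) (nat_lit 228) (nat_lit 3588372327) (nat_lit 76) (nat_lit 2881173519) (nat_lit 30) (nat_lit 5) (nat_lit 33) (nat_lit 5) (nat_lit 31) (nat_lit 5) (nat_lit 285) (nat_lit 238) (nat_lit 197)) (XT.lf (nat_lit 0) (nat_lit 6058779117) (nat_lit 228) (nat_lit 9393227418) (nat_lit 304) (nat_lit 2631507748) (nat_lit 27) (nat_lit 5) (nat_lit 30) (nat_lit 5) (nat_lit 31) (nat_lit 5) (nat_lit 286)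 (nat_lit 238) (nat_lit 196))) (XT.nd (nat_lit 78) (nat_lit 152) (nat_lit 0) (XT.lf (nat_lit 0) (nat_lit 1343561645) (nat_lit 304) (nat_lit 2634118281) (nat_lit 76) (nat_lit 14808121433) (nat_lit 26) (nat_lit 5) (nat_lit 30) (nat_lit 5) (nat_lit 27) (nat_lit 5) (nat_lit 287) (nat_lit 238) (nat_lit 195)) (XT.nd (nat_lit 78) (nat_lit 0) (nat_lit 0) (XT.lf (nat_lit 0) (nat_lit 5488385266) (nat_lit 228) (nat_lit 12293162328) (nat_lit 76) (nat_lit 1740217275) (nat_lit 24) (nat_lit 5) (nat_lit 27) (nat_lit 5) (nat_lit 25) (nat_lit 5) (nat_lit 288) (nat_lit 238) (nat_lit 194)) (XT.lf (nat_lit 0) (nat_lit 9847933653) (nat_lit 228) (nat_lit 2788186447) (nat_lit 76) (nat_lit 7658283324) (nat_lit 24) (nat_lit 5) (nat_lit 27) (nat_lit 5) (nat_lit 25) (nat_lit 5) (nat_lit 289) (nat_lit 238) (nat_lit 193))))) (XT.nd (nat_lit 156) (nat_lit 380) (nat_lit 0) (XT.nd (nat_lit 78) (nat_lit 0) (nat_lit 0) (XT.lf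 (nat_lit 0) (nat_lit 7244293886) (nat_lit 152) (nat_lit 7193613110) (nat_lit 228) (nat_lit 6667490033) (nat_lit 22) (nat_lit 5) (nat_lit 24) (nat_lit 5) (nat_lit 25) (nat_lit 5) (nat_lit 290) (nat_lit 238) (nat_lit 192)) (XT.lf (nat_lit 0) (nat_lit 17750110746) (nat_lit 152) (nat_lit 1480672425) (nat_lit 228) (nat_lit 2727046970) (nat_lit 22) (nat_lit 5) (nat_lit 24) (nat_lit 5) (nat_lit 25) (nat_lit 5) (nat_lit 291) (nat_lit 238) (nat_lit 191))) (XT.nd (nat_lit 78) (nat_lit 152) (nat_lit 0) (XT.lf (nat_lit 0) (nat_lit 1430630630) (nat_lit 228) (nat_lit 16949032255) (nat_lit 76) (nat_lit 4471468270) (nat_lit 19) (nat_lit 5) (nat_lit 22) (nat_lit 5) (nat_lit 20) (nat_lit 5) (nat_lit 292) (nat_lit 238) (nat_lit 190)) (XT.nd (nat_lit 78) (nat_lit 152) (nat_lit 0) (XT.lf (nat_lit 0) (nat_lit 5747204697) (nat_lit 228) (nat_lit 7307880764) (nat_lit 76) (nat_lit 10733060358) (nat_lit 19) (nat_lit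 5) (nat_lit 22) (nat_lit 5) (nat_lit 20) (nat_lit 5) (nat_lit 293) (nat_lit 238) (nat_lit 189)) (XT.lf (nat_lit 0) (nat_lit 2791202655) (nat_lit 152) (nat_lit 7465901671) (nat_lit 228) (nat_lit 14515659101) (nat_lit 17) (nat_lit 5) (nat_lit 19) (nat_lit 5) (nat_lit 20) (nat_lit 5) (nat_lit 294) (nat_lit 238) (nat_lit 188)))))) (XT.nd (nat_lit 390) (nat_lit 76) (nat_lit 0) (XT.nd (nat_lit 156) (nat_lit 304) (nat_lit 0) (XT.nd (nat_lit 78) (nat_lit 0) (nat_lit 0) (XT.lf (nat_lit 0) (nat_lit 13471614222) (nat_lit 152) (nat_lit 1548394424) (nat_lit 228) (nat_lit 10785851423) (nat_lit 17) (nat_lit 5) (nat_lit 19) (nat_lit 5) (nat_lit 20) (nat_lit 5) (nat_lit 295) (nat_lit 238) (nat_lit 187)) (XT.lf (nat_lit 0) (nat_lit 20020192716) (nat_lit 228) (nat_lit 2323283248) (nat_lit 76) (nat_lit 4547231492) (nat_lit 17) (nat_lit 5) (nat_lit 20) (nat_lit 5) (nat_lit 18) (nat_lit 4) (nat_lit 296) (nat_lit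 238) (nat_lit 186))) (XT.nd (nat_lit 78) (nat_lit 228) (nat_lit 0) (XT.lf (nat_lit 0) (nat_lit 8263492180) (nat_lit 76) (nat_lit 17058424265) (nat_lit 152) (nat_lit 2706401471) (nat_lit 16) (nat_lit 5) (nat_lit 17) (nat_lit 5) (nat_lit 18) (nat_lit 4) (nat_lit 297) (nat_lit 238) (nat_lit 185)) (XT.nd (nat_lit 78) (nat_lit 152) (nat_lit 0) (XT.lf (nat_lit 0) (nat_lit 1614967557) (nat_lit 152) (nat_lit 9879435871) (nat_lit 76) (nat_lit 17728539911) (nat_lit 15) (nat_lit 5) (nat_lit 17) (nat_lit 5) (nat_lit 16) (nat_lit 5) (nat_lit 298) (nat_lit 238) (nat_lit 184)) (XT.lf (nat_lit 0) (nat_lit 415053928) (nat_lit 152) (nat_lit 5645322164) (nat_lit 228) (nat_lit 24417260413) (nat_lit 13) (nat_lit 5) (nat_lit 15) (nat_lit 5) (nat_lit 16) (nat_lit 5) (nat_lit 299) (nat_lit 238) (nat_lit 183))))) (XT.nd (nat_lit 234) (nat_lit 76) (nat_lit 0) (XT.nd (nat_lit 78) (nat_lit 0) (nat_lit 0) (XT.lf (nat_lit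 0) (nat_lit 10796042925) (nat_lit 228) (nat_lit 20432127559) (nat_lit 76) (nat_lit 564910082) (nat_lit 13) (nat_lit 5) (nat_lit 16) (nat_lit 5) (nat_lit 14) (nat_lit 4) (nat_lit 300) (nat_lit 238) (nat_lit 182)) (XT.nd (nat_lit 78) (nat_lit 0) (nat_lit 0) (XT.lf (nat_lit 0) (nat_lit 15787864092) (nat_lit 228) (nat_lit 10439088216) (nat_lit 76) (nat_lit 6946816600) (nat_lit 13) (nat_lit 5) (nat_lit 16) (nat_lit 5) (nat_lit 14) (nat_lit 4) (nat_lit 301) (nat_lit 238) (nat_lit 181)) (XT.lf (nat_lit 0) (nat_lit 20993458594) (nat_lit 228) (nat_lit 5405310) (nat_lit 76) (nat_lit 13625752973) (nat_lit 13) (nat_lit 5) (nat_lit 16) (nat_lit 5) (nat_lit 14) (nat_lit 4) (nat_lit 302) (nat_lit 238) (nat_lit 180)))) (XT.nd (nat_lit 78) (nat_lit 0) (nat_lit 0) (XT.lf (nat_lit 0) (nat_lit 11110570511) (nat_lit 76) (nat_lit 15421451791) (nat_lit 152) (nat_lit 9613852520) (nat_lit 12) (nat_lit 5) (nat_lit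 13) (nat_lit 5) (nat_lit 14) (nat_lit 4) (nat_lit 303) (nat_lit 238) (nat_lit 179)) (XT.nd (nat_lit 78) (nat_lit 0) (nat_lit 0) (XT.lf (nat_lit 0) (nat_lit 22727870519) (nat_lit 76) (nat_lit 9586686859) (nat_lit 152) (nat_lit 5429672956) (nat_lit 12) (nat_lit 5) (nat_lit 13) (nat_lit 5) (nat_lit 14) (nat_lit 4) (nat_lit 304) (nat_lit 238) (nat_lit 178)) (XT.lf (nat_lit 0) (nat_lit 34874047374) (nat_lit 76) (nat_lit 3480731395) (nat_lit 152) (nat_lit 1068711842) (nat_lit 12) (nat_lit 5) (nat_lit 13) (nat_lit 5) (nat_lit 14) (nat_lit 4) (nat_lit 305) (nat_lit 238) (nat_lit 177))))))))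
noncomputable def xc47 : XT := (XT.nd (nat_lit 1638) (nat_lit 76) (nat_lit 0) (XT.nd (nat_lit 780) (nat_lit 152) (nat_lit 0) (XT.nd (nat_lit 390) (nat_lit 76) (nat_lit 0) (XT.nd (nat_lit 156) (nat_lit 76) (nat_lit 0) (XT.nd (nat_lit 78) (nat_lit 0) (nat_lit 0) (XT.lf (nat_lit 0) (nat_lit 3502770974) (nat_lit 228) (nat_lit 34730275311) (nat_lit 76) (nat_lit 2950866634) (nat_lit 9) (nat_lit 5) (nat_lit 12) (nat_lit 5) (nat_lit 10) (nat_lit 4) (nat_lit 306) (nat_lit 238) (nat_lit 176)) (XT.lf (nat_lit 0) (nat_lit 8333865269) (nat_lit 228) (nat_lit 25024840324) (nat_lit 76) (nat_lit 9671777663) (nat_lit 9) (nat_lit 5) (nat_lit 12) (nat_lit 5) (nat_lit 10) (nat_lit 4) (nat_lit 307) (nat_lit 238) (nat_lit 175))) (XT.nd (nat_lit 78) (nat_lit 76) (nat_lit 0) (XT.lf (nat_lit 0) (nat_lit 13378425151) (nat_lit 228) (nat_lit 14881227983) (nat_lit 76) (nat_lit 16710608362) (nat_lit 9) (nat_lit 5) (nat_lit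 12) (nat_lit 5) (nat_lit 10) (nat_lit 4) (nat_lit 308) (nat_lit 238) (nat_lit 174)) (XT.nd (nat_lit 78) (nat_lit 76) (nat_lit 0) (XT.lf (nat_lit 0) (nat_lit 18648461477) (nat_lit 228) (nat_lit 4275286830) (nat_lit 76) (nat_lit 24084117853) (nat_lit 9) (nat_lit 5) (nat_lit 12) (nat_lit 5) (nat_lit 10) (nat_lit 4) (nat_lit 309) (nat_lit 238) (nat_lit 173)) (XT.lf (nat_lit 0) (nat_lit 6953931627) (nat_lit 76) (nat_lit 17269435771) (nat_lit 152) (nat_lit 24922775928) (nat_lit 8) (nat_lit 5) (nat_lit 9) (nat_lit 5) (nat_lit 10) (nat_lit 4) (nat_lit 310) (nat_lit 238) (nat_lit 172))))) (XT.nd (nat_lit 156) (nat_lit 76) (nat_lit 0) (XT.nd (nat_lit 78) (nat_lit 0) (nat_lit 0) (XT.lf (nat_lit 0) (nat_lit 18792460368) (nat_lit 76) (nat_lit 11303905266) (nat_lit 152) (nat_lit 21294420020) (nat_lit 8) (nat_lit 5) (nat_lit 9) (nat_lit 5) (nat_lit 10) (nat_lit 4) (nat_lit 311) (nat_lit 238) (nat_lit 171))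 (XT.lf (nat_lit 0) (nat_lit 31183399776) (nat_lit 76) (nat_lit 5056125162) (nat_lit 152) (nat_lit 17508870030) (nat_lit 8) (nat_lit 5) (nat_lit 9) (nat_lit 5) (nat_lit 10) (nat_lit 4) (nat_lit 312) (nat_lit 238) (nat_lit 170))) (XT.nd (nat_lit 78) (nat_lit 76) (nat_lit 0) (XT.lf (nat_lit 0) (nat_lit 42681782946) (nat_lit 152) (nat_lit 12082643604) (nat_lit 0) (nat_lit 1459728743) (nat_lit 8) (nat_lit 5) (nat_lit 10) (nat_lit 4) (nat_lit 8) (nat_lit 4) (nat_lit 313) (nat_lit 238) (nat_lit 169)) (XT.nd (nat_lit 78) (nat_lit 76) (nat_lit 0) (XT.lf (nat_lit 0) (nat_lit 49475741738) (nat_lit 152) (nat_lit 1163575913) (nat_lit 0) (nat_lit 8183525741) (nat_lit 8) (nat_lit 5) (nat_lit 10) (nat_lit 4) (nat_lit 8) (nat_lit 4) (nat_lit 314) (nat_lit 238) (nat_lit 168)) (XT.lf (nat_lit 0) (nat_lit 10471137843) (nat_lit 76) (nat_lit 46218491980) (nat_lit 76) (nat_lit 4859455227) (nat_lit 7) (nat_lit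 4) (nat_lit 8) (nat_lit 5) (nat_lit 8) (nat_lit 4) (nat_lit 315) (nat_lit 238) (nat_lit 167)))))) (XT.nd (nat_lit 390) (nat_lit 0) (nat_lit 0) (XT.nd (nat_lit 156) (nat_lit 76) (nat_lit 0) (XT.nd (nat_lit 78) (nat_lit 76) (nat_lit 0) (XT.lf (nat_lit 0) (nat_lit 22678258528) (nat_lit 76) (nat_lit 41578157286) (nat_lit 76) (nat_lit 155481718) (nat_lit 7) (nat_lit 4) (nat_lit 8) (nat_lit 5) (nat_lit 8) (nat_lit 4) (nat_lit 316) (nat_lit 238) (nat_lit 166)) (XT.lf (nat_lit 0) (nat_lit 4671300924) (nat_lit 152) (nat_lit 32000543087) (nat_lit 76) (nat_lit 30745221370) (nat_lit 6) (nat_lit 5) (nat_lit 8) (nat_lit 5) (nat_lit 7) (nat_lit 4) (nat_lit 317) (nat_lit 238) (nat_lit 165))) (XT.nd (nat_lit 78) (nat_lit 76) (nat_lit 0) (XT.lf (nat_lit 0) (nat_lit 9718101267) (nat_lit 152) (nat_lit 21813260672) (nat_lit 76) (nat_lit 39041648556) (nat_lit 6) (nat_lit 5) (nat_lit 8) (nat_lit 5) (nat_lit 7)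 (nat_lit 4) (nat_lit 318) (nat_lit 238) (nat_lit 164)) (XT.nd (nat_lit 78) (nat_lit 76) (nat_lit 0) (XT.lf (nat_lit 0) (nat_lit 14999969509) (nat_lit 152) (nat_lit 11146041741) (nat_lit 76) (nat_lit 47741280619) (nat_lit 6) (nat_lit 5) (nat_lit 8) (nat_lit 5) (nat_lit 7) (nat_lit 4) (nat_lit 319) (nat_lit 238) (nat_lit 163)) (XT.lf (nat_lit 0) (nat_lit 27039483) (nat_lit 76) (nat_lit 20502701965) (nat_lit 152) (nat_lit 56838051405) (nat_lit 5) (nat_lit 5) (nat_lit 6) (nat_lit 5) (nat_lit 7) (nat_lit 4) (nat_lit 320) (nat_lit 238) (nat_lit 162))))) (XT.nd (nat_lit 234) (nat_lit 0) (nat_lit 0) (XT.nd (nat_lit 78) (nat_lit 0) (nat_lit 0) (XT.lf (nat_lit 0) (nat_lit 11964471336) (nat_lit 76) (nat_lit 14470341308) (nat_lit 152) (nat_lit 54584560824) (nat_lit 5) (nat_lit 5) (nat_lit 6) (nat_lit 5) (nat_lit 7) (nat_lit 4) (nat_lit 321) (nat_lit 238) (nat_lit 161)) (XT.nd (nat_lit 78) (nat_lit 0)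 (nat_lit 0) (XT.lf (nat_lit 0) (nat_lit 24472848190) (nat_lit 76) (nat_lit 8147119685) (nat_lit 152) (nat_lit 52234038328) (nat_lit 5) (nat_lit 5) (nat_lit 6) (nat_lit 5) (nat_lit 7) (nat_lit 4) (nat_lit 322) (nat_lit 238) (nat_lit 160)) (XT.lf (nat_lit 0) (nat_lit 37581951893) (nat_lit 76) (nat_lit 1517981805) (nat_lit 152) (nat_lit 49780887438) (nat_lit 5) (nat_lit 5) (nat_lit 6) (nat_lit 5) (nat_lit 7) (nat_lit 4) (nat_lit 323) (nat_lit 238) (nat_lit 159)))) (XT.nd (nat_lit 78) (nat_lit 0) (nat_lit 0) (XT.lf (nat_lit 0) (nat_lit 45942362540) (nat_lit 152) (nat_lit 41838635259) (nat_lit 0) (nat_lit 5326841403) (nat_lit 5) (nat_lit 5) (nat_lit 7) (nat_lit 4) (nat_lit 5) (nat_lit 4) (nat_lit 324) (nat_lit 238) (nat_lit 158)) (XT.nd (nat_lit 78) (nat_lit 0) (nat_lit 0) (XT.lf (nat_lit 0) (nat_lit 53129040850) (nat_lit 152) (nat_lit 31943426647) (nat_lit 0) (nat_lit 12473692386) (nat_lit 5)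 (nat_lit 5) (nat_lit 7) (nat_lit 4) (nat_lit 5) (nat_lit 4) (nat_lit 325) (nat_lit 238) (nat_lit 157)) (XT.lf (nat_lit 0) (nat_lit 60662487998) (nat_lit 152) (nat_lit 21575091617) (nat_lit 0) (nat_lit 19969208745) (nat_lit 5) (nat_lit 5) (nat_lit 7) (nat_lit 4) (nat_lit 5) (nat_lit 4) (nat_lit 326) (nat_lit 238) (nat_lit 156))))))) (XT.nd (nat_lit 31434) (nat_lit 0) (nat_lit 8816) (XT.nd (nat_lit 31044) (nat_lit 0) (nat_lit 16188) (XT.nd (nat_lit 156) (nat_lit 0) (nat_lit 0) (XT.nd (nat_lit 78) (nat_lit 76) (nat_lit 0) (XT.lf (nat_lit 0) (nat_lit 68560640763) (nat_lit 152) (nat_lit 10708943658) (nat_lit 0) (nat_lit 27831236950) (nat_lit 5) (nat_lit 5) (nat_lit 7) (nat_lit 4) (nat_lit 5) (nat_lit 4) (nat_lit 327) (nat_lit 238) (nat_lit 155)) (XT.lf (nat_lit 0) (nat_lit 694440037) (nat_lit 76) (nat_lit 76154539615) (nat_lit 76) (nat_lit 35390731459) (nat_lit 4) (nat_lit 4) (nat_lit 5) (nat_lit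 5) (nat_lit 5) (nat_lit 4) (nat_lit 328) (nat_lit 238) (nat_lit 154))) (XT.nd (nat_lit 30732) (nat_lit 0) (nat_lit 17784) (XT.lf (nat_lit 0) (nat_lit 12872718136) (nat_lit 76) (nat_lit 72778219071) (nat_lit 76) (nat_lit 31981644873) (nat_lit 4) (nat_lit 4) (nat_lit 5) (nat_lit 5) (nat_lit 5) (nat_lit 4) (nat_lit 329) (nat_lit 238) (nat_lit 153)) (XT.nd (nat_lit 78) (nat_lit 228) (nat_lit 0) (XT.lf (nat_lit 0) (nat_lit 1402349565) (nat_lit 76) (nat_lit 912464163) (nat_lit 76) (nat_lit 912464163) (nat_lit 241) (nat_lit 4) (nat_lit 242) (nat_lit 5) (nat_lit 242) (nat_lit 4) (nat_lit 242) (nat_lit 239) (nat_lit 239)) (XT.lf (nat_lit 0) (nat_lit 1175272718) (nat_lit 152) (nat_lit 1418676918) (nat_lit 228) (nat_lit 3877709168) (nat_lit 238) (nat_lit 5) (nat_lit 240) (nat_lit 5) (nat_lit 241) (nat_lit 4) (nat_lit 243) (nat_lit 239) (nat_lit 238))))) (XT.nd (nat_lit 156) (nat_lit 1292) (nat_lit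 0) (XT.nd (nat_lit 78) (nat_lit 228) (nat_lit 0) (XT.lf (nat_lit 0) (nat_lit 452487450) (nat_lit 228) (nat_lit 361124814) (nat_lit 76) (nat_lit 5683912771) (nat_lit 237) (nat_lit 5) (nat_lit 240) (nat_lit 5) (nat_lit 238) (nat_lit 5) (nat_lit 244) (nat_lit 239) (nat_lit 237)) (XT.lf (nat_lit 0) (nat_lit 4699731165) (nat_lit 304) (nat_lit 1815139157) (nat_lit 76) (nat_lit 16606000) (nat_lit 234) (nat_lit 5) (nat_lit 238) (nat_lit 5) (nat_lit 235) (nat_lit 4) (nat_lit 245) (nat_lit 239) (nat_lit 236))) (XT.nd (nat_lit 78) (nat_lit 912) (nat_lit 0) (XT.lf (nat_lit 0) (nat_lit 2329412755) (nat_lit 380) (nat_lit 3214243029) (nat_lit 76) (nat_lit 1030350979) (nat_lit 229) (nat_lit 5) (nat_lit 234) (nat_lit 5) (nat_lit 230) (nat_lit 5) (nat_lit 246) (nat_lit 239) (nat_lit 235)) (XT.nd (nat_lit 78) (nat_lit 532) (nat_lit 0) (XT.lf (nat_lit 0) (nat_lit 2070842330) (nat_lit 380) (nat_lit 4382597753)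 (nat_lit 456) (nat_lit 172101248) (nat_lit 224) (nat_lit 5) (nat_lit 229) (nat_lit 5) (nat_lit 230) (nat_lit 5) (nat_lit 247) (nat_lit 239) (nat_lit 234)) (XT.lf (nat_lit 0) (nat_lit 819594414) (nat_lit 456) (nat_lit 3005938211) (nat_lit 532) (nat_lit 2860000384) (nat_lit 217) (nat_lit 5) (nat_lit 223) (nat_lit 5) (nat_lit 224) (nat_lit 5) (nat_lit 248) (nat_lit 239) (nat_lit 233)))))) (XT.nd (nat_lit 390) (nat_lit 4560) (nat_lit 0) (XT.nd (nat_lit 156) (nat_lit 2204) (nat_lit 0) (XT.nd (nat_lit 78) (nat_lit 532) (nat_lit 0) (XT.lf (nat_lit 0) (nat_lit 1060444117) (nat_lit 532) (nat_lit 369978035) (nat_lit 76) (nat_lit 5324285671) (nat_lit 216) (nat_lit 5) (nat_lit 223) (nat_lit 5) (nat_lit 217) (nat_lit 5) (nat_lit 249) (nat_lit 239) (nat_lit 232)) (XT.lf (nat_lit 0) (nat_lit 4950946579) (nat_lit 608) (nat_lit 1518788193) (nat_lit 76) (nat_lit 362740713) (nat_lit 209) (nat_lit 5) (nat_lit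 217) (nat_lit 5) (nat_lit 210) (nat_lit 5) (nat_lit 250) (nat_lit 239) (nat_lit 231))) (XT.nd (nat_lit 78) (nat_lit 1520) (nat_lit 0) (XT.lf (nat_lit 0) (nat_lit 1925089603) (nat_lit 684) (nat_lit 2655855308) (nat_lit 76) (nat_lit 2338140545) (nat_lit 200) (nat_lit 5) (nat_lit 209) (nat_lit 5) (nat_lit 201) (nat_lit 5) (nat_lit 251) (nat_lit 239) (nat_lit 230)) (XT.nd (nat_lit 78) (nat_lit 836) (nat_lit 0) (XT.lf (nat_lit 0) (nat_lit 3238565241) (nat_lit 684) (nat_lit 2485186732) (nat_lit 760) (nat_lit 1291358568) (nat_lit 191) (nat_lit 5) (nat_lit 200) (nat_lit 5) (nat_lit 201) (nat_lit 5) (nat_lit 252) (nat_lit 239) (nat_lit 229)) (XT.lf (nat_lit 0) (nat_lit 2224089326) (nat_lit 760) (nat_lit 169548477) (nat_lit 836) (nat_lit 4726910833) (nat_lit 180) (nat_lit 5) (nat_lit 190) (nat_lit 5) (nat_lit 191) (nat_lit 5) (nat_lit 253) (nat_lit 239) (nat_lit 228))))) (XT.nd (nat_lit 234) (nat_lit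 2736) (nat_lit 0) (XT.nd (nat_lit 78) (nat_lit 988) (nat_lit 0) (XT.lf (nat_lit 0) (nat_lit 1197371130) (nat_lit 836) (nat_lit 4918873404) (nat_lit 912) (nat_lit 1118987810) (nat_lit 169) (nat_lit 5) (nat_lit 180) (nat_lit 5) (nat_lit 181) (nat_lit 5) (nat_lit 254) (nat_lit 239) (nat_lit 227)) (XT.nd (nat_lit 78) (nat_lit 0) (nat_lit 0) (XT.lf (nat_lit 0) (nat_lit 155096287) (nat_lit 912) (nat_lit 2328658339) (nat_lit 988) (nat_lit 4875832585) (nat_lit 156) (nat_lit 5) (nat_lit 168) (nat_lit 5) (nat_lit 169) (nat_lit 5) (nat_lit 255) (nat_lit 239) (nat_lit 226)) (XT.lf (nat_lit 0) (nat_lit 6130241607) (nat_lit 988) (nat_lit 885795057) (nat_lit 76) (nat_lit 477856949) (nat_lit 156) (nat_lit 5) (nat_lit 169) (nat_lit 5) (nat_lit 157) (nat_lit 5) (nat_lit 256) (nat_lit 239) (nat_lit 225)))) (XT.nd (nat_lit 78) (nat_lit 1672) (nat_lit 0) (XT.lf (nat_lit 0) (nat_lit 2183900811) (nat_lit 1064)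 (nat_lit 1981442165) (nat_lit 76) (nat_lit 3472366939) (nat_lit 142) (nat_lit 5) (nat_lit 156) (nat_lit 5) (nat_lit 143) (nat_lit 5) (nat_lit 257) (nat_lit 239) (nat_lit 224)) (XT.nd (nat_lit 78) (nat_lit 608) (nat_lit 0) (XT.lf (nat_lit 0) (nat_lit 4675682777) (nat_lit 1064) (nat_lit 1092403127) (nat_lit 1140) (nat_lit 2024191200) (nat_lit 128) (nat_lit 5) (nat_lit 142) (nat_lit 5) (nat_lit 143) (nat_lit 5) (nat_lit 258) (nat_lit 239) (nat_lit 223)) (XT.lf (nat_lit 0) (nat_lit 1460506348) (nat_lit 608) (nat_lit 4326599602) (nat_lit 76) (nat_lit 2170125318) (nat_lit 120) (nat_lit 5) (nat_lit 128) (nat_lit 5) (nat_lit 121) (nat_lit 5) (nat_lit 259) (nat_lit 239) (nat_lit 222))))))))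
noncomputable def xc48 : XT := (XT.nd (nat_lit 1560) (nat_lit 2204) (nat_lit 0) (XT.nd (nat_lit 780) (nat_lit 2204) (nat_lit 0) (XT.nd (nat_lit 390) (nat_lit 1672) (nat_lit 0) (XT.nd (nat_lit 156) (nat_lit 988) (nat_lit 0) (XT.nd (nat_lit 78) (nat_lit 608) (nat_lit 0) (XT.lf (nat_lit 0) (nat_lit 2510854713) (nat_lit 456) (nat_lit 2478380608) (nat_lit 532) (nat_lit 3143765307) (nat_lit 114) (nat_lit 5) (nat_lit 120) (nat_lit 5) (nat_lit 121) (nat_lit 5) (nat_lit 260) (nat_lit 239) (nat_lit 221)) (XT.lf (nat_lit 0) (nat_lit 285105524) (nat_lit 608) (nat_lit 7000889997) (nat_lit 76) (nat_lit 1034465214) (nat_lit 106) (nat_lit 5) (nat_lit 114) (nat_lit 5) (nat_lit 107) (nat_lit 5) (nat_lit 261) (nat_lit 239) (nat_lit 220))) (XT.nd (nat_lit 78) (nat_lit 988) (nat_lit 0) (XT.lf (nat_lit 0) (nat_lit 3757922223) (nat_lit 608) (nat_lit 3584701) (nat_lit 76) (nat_lit 4757184149) (nat_lit 106) (nat_lit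 5) (nat_lit 114) (nat_lit 5) (nat_lit 107) (nat_lit 5) (nat_lit 262) (nat_lit 239) (nat_lit 219)) (XT.nd (nat_lit 78) (nat_lit 532) (nat_lit 0) (XT.lf (nat_lit 0) (nat_lit 7335367349) (nat_lit 532) (nat_lit 1391703416) (nat_lit 76) (nat_lit 2267416) (nat_lit 100) (nat_lit 5) (nat_lit 107) (nat_lit 5) (nat_lit 101) (nat_lit 5) (nat_lit 263) (nat_lit 239) (nat_lit 218)) (XT.lf (nat_lit 0) (nat_lit 2060109892) (nat_lit 532) (nat_lit 2946369428) (nat_lit 76) (nat_lit 3945001226) (nat_lit 93) (nat_lit 5) (nat_lit 100) (nat_lit 5) (nat_lit 94) (nat_lit 5) (nat_lit 264) (nat_lit 239) (nat_lit 217))))) (XT.nd (nat_lit 156) (nat_lit 912) (nat_lit 0) (XT.nd (nat_lit 78) (nat_lit 380) (nat_lit 0) (XT.lf (nat_lit 0) (nat_lit 4543093316) (nat_lit 380) (nat_lit 1042302912) (nat_lit 456) (nat_lit 3601482780) (nat_lit 88) (nat_lit 5) (nat_lit 93) (nat_lit 5) (nat_lit 94) (nat_lit 5) (nat_lit 265) (nat_lit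 239) (nat_lit 216)) (XT.lf (nat_lit 0) (nat_lit 2914400133) (nat_lit 380) (nat_lit 6334801451) (nat_lit 456) (nat_lit 186342892) (nat_lit 83) (nat_lit 5) (nat_lit 88) (nat_lit 5) (nat_lit 89) (nat_lit 5) (nat_lit 266) (nat_lit 239) (nat_lit 215))) (XT.nd (nat_lit 78) (nat_lit 456) (nat_lit 0) (XT.lf (nat_lit 0) (nat_lit 1083601558) (nat_lit 380) (nat_lit 2195539074) (nat_lit 456) (nat_lit 6418481741) (nat_lit 77) (nat_lit 5) (nat_lit 82) (nat_lit 5) (nat_lit 83) (nat_lit 5) (nat_lit 267) (nat_lit 239) (nat_lit 214)) (XT.nd (nat_lit 78) (nat_lit 456) (nat_lit 0) (XT.lf (nat_lit 0) (nat_lit 6883541435) (nat_lit 456) (nat_lit 934821530) (nat_lit 76) (nat_lit 2155622122) (nat_lit 77) (nat_lit 5) (nat_lit 83) (nat_lit 5) (nat_lit 78) (nat_lit 5) (nat_lit 268) (nat_lit 239) (nat_lit 213)) (XT.lf (nat_lit 0) (nat_lit 372715270) (nat_lit 456) (nat_lit 3162701538) (nat_lit 76) (nat_lit 6729631530)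 (nat_lit 71) (nat_lit 5) (nat_lit 77) (nat_lit 5) (nat_lit 72) (nat_lit 5) (nat_lit 269) (nat_lit 239) (nat_lit 212)))))) (XT.nd (nat_lit 390) (nat_lit 912) (nat_lit 0) (XT.nd (nat_lit 156) (nat_lit 684) (nat_lit 0) (XT.nd (nat_lit 78) (nat_lit 304) (nat_lit 0) (XT.lf (nat_lit 0) (nat_lit 3901960377) (nat_lit 380) (nat_lit 5663509782) (nat_lit 76) (nat_lit 1005854175) (nat_lit 67) (nat_lit 5) (nat_lit 72) (nat_lit 5) (nat_lit 68) (nat_lit 5) (nat_lit 270) (nat_lit 239) (nat_lit 211)) (XT.lf (nat_lit 0) (nat_lit 2430922348) (nat_lit 304) (nat_lit 5161800150) (nat_lit 380) (nat_lit 3300909354) (nat_lit 63) (nat_lit 5) (nat_lit 67) (nat_lit 5) (nat_lit 68) (nat_lit 5) (nat_lit 271) (nat_lit 239) (nat_lit 210))) (XT.nd (nat_lit 78) (nat_lit 608) (nat_lit 0) (XT.lf (nat_lit 0) (nat_lit 185908045) (nat_lit 380) (nat_lit 319654428) (nat_lit 76) (nat_lit 10728036953) (nat_lit 62) (nat_lit 5) (nat_lit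 67) (nat_lit 5) (nat_lit 63) (nat_lit 5) (nat_lit 272) (nat_lit 239) (nat_lit 209)) (XT.nd (nat_lit 78) (nat_lit 304) (nat_lit 0) (XT.lf (nat_lit 0) (nat_lit 3802142844) (nat_lit 380) (nat_lit 3404065263) (nat_lit 76) (nat_lit 4382913680) (nat_lit 58) (nat_lit 5) (nat_lit 63) (nat_lit 5) (nat_lit 59) (nat_lit 5) (nat_lit 273) (nat_lit 239) (nat_lit 208)) (XT.lf (nat_lit 0) (nat_lit 5126621370) (nat_lit 304) (nat_lit 2434162142) (nat_lit 380) (nat_lit 4403014840) (nat_lit 54) (nat_lit 5) (nat_lit 58) (nat_lit 5) (nat_lit 59) (nat_lit 5) (nat_lit 274) (nat_lit 239) (nat_lit 207))))) (XT.nd (nat_lit 156) (nat_lit 608) (nat_lit 0) (XT.nd (nat_lit 78) (nat_lit 76) (nat_lit 0) (XT.lf (nat_lit 0) (nat_lit 1679804040) (nat_lit 228) (nat_lit 9810827522) (nat_lit 304) (nat_lit 867294078) (nat_lit 51) (nat_lit 5) (nat_lit 54) (nat_lit 5) (nat_lit 55) (nat_lit 5) (nat_lit 275) (nat_lit 239) (nat_lit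 206)) (XT.lf (nat_lit 0) (nat_lit 2794470235) (nat_lit 304) (nat_lit 2181809401) (nat_lit 76) (nat_lit 7794714763) (nat_lit 50) (nat_lit 5) (nat_lit 54) (nat_lit 5) (nat_lit 51) (nat_lit 5) (nat_lit 276) (nat_lit 239) (nat_lit 205))) (XT.nd (nat_lit 78) (nat_lit 304) (nat_lit 0) (XT.lf (nat_lit 0) (nat_lit 6601204337) (nat_lit 380) (nat_lit 6463628324) (nat_lit 76) (nat_lit 140421232) (nat_lit 46) (nat_lit 5) (nat_lit 51) (nat_lit 5) (nat_lit 47) (nat_lit 5) (nat_lit 277) (nat_lit 239) (nat_lit 204)) (XT.nd (nat_lit 78) (nat_lit 76) (nat_lit 0) (XT.lf (nat_lit 0) (nat_lit 2374085445) (nat_lit 228) (nat_lit 8236076656) (nat_lit 304) (nat_lit 3050888100) (nat_lit 43) (nat_lit 5) (nat_lit 46) (nat_lit 5) (nat_lit 47) (nat_lit 5) (nat_lit 278) (nat_lit 239) (nat_lit 203)) (XT.lf (nat_lit 0) (nat_lit 651936609) (nat_lit 304) (nat_lit 2472557594) (nat_lit 76) (nat_lit 11015554694) (nat_lit 42)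 (nat_lit 5) (nat_lit 46) (nat_lit 5) (nat_lit 43) (nat_lit 5) (nat_lit 279) (nat_lit 239) (nat_lit 202))))))) (XT.nd (nat_lit 780) (nat_lit 836) (nat_lit 0) (XT.nd (nat_lit 390) (nat_lit 608) (nat_lit 0) (XT.nd (nat_lit 156) (nat_lit 304) (nat_lit 0) (XT.nd (nat_lit 78) (nat_lit 228) (nat_lit 0) (XT.lf (nat_lit 0) (nat_lit 4486667463) (nat_lit 304) (nat_lit 7891800563) (nat_lit 76) (nat_lit 2263486343) (nat_lit 39) (nat_lit 5) (nat_lit 43) (nat_lit 5) (nat_lit 40) (nat_lit 5) (nat_lit 280) (nat_lit 239) (nat_lit 201)) (XT.lf (nat_lit 0) (nat_lit 1199239575) (nat_lit 228) (nat_lit 7307010255) (nat_lit 304) (nat_lit 6663063168) (nat_lit 36) (nat_lit 5) (nat_lit 39) (nat_lit 5) (nat_lit 40) (nat_lit 5) (nat_lit 281) (nat_lit 239) (nat_lit 200))) (XT.nd (nat_lit 78) (nat_lit 304) (nat_lit 0) (XT.lf (nat_lit 0) (nat_lit 10803043978) (nat_lit 228) (nat_lit 1931929398) (nat_lit 304) (nat_lit 2987965450)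 (nat_lit 36) (nat_lit 5) (nat_lit 39) (nat_lit 5) (nat_lit 40) (nat_lit 5) (nat_lit 282) (nat_lit 239) (nat_lit 199)) (XT.nd (nat_lit 78) (nat_lit 0) (nat_lit 0) (XT.lf (nat_lit 0) (nat_lit 863191393) (nat_lit 304) (nat_lit 11780557714) (nat_lit 76) (nat_lit 3660100010) (nat_lit 32) (nat_lit 5) (nat_lit 36) (nat_lit 5) (nat_lit 33) (nat_lit 5) (nat_lit 283) (nat_lit 239) (nat_lit 198)) (XT.lf (nat_lit 0) (nat_lit 4847991758) (nat_lit 304) (nat_lit 2523054859) (nat_lit 76) (nat_lit 9541911270) (nat_lit 32) (nat_lit 5) (nat_lit 36) (nat_lit 5) (nat_lit 33) (nat_lit 5) (nat_lit 284) (nat_lit 239) (nat_lit 197))))) (XT.nd (nat_lit 156) (nat_lit 456) (nat_lit 0) (XT.nd (nat_lit 78) (nat_lit 0) (nat_lit 0) (XT.lf (nat_lit 0) (nat_lit 7241430982) (nat_lit 152) (nat_lit 1795124594) (nat_lit 228) (nat_lit 8515951693) (nat_lit 30) (nat_lit 5) (nat_lit 32) (nat_lit 5) (nat_lit 33) (nat_lit 5) (nat_lit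 285) (nat_lit 239) (nat_lit 196)) (XT.lf (nat_lit 0) (nat_lit 13436603825) (nat_lit 228) (nat_lit 811781191) (nat_lit 76) (nat_lit 3975702539) (nat_lit 30) (nat_lit 5) (nat_lit 33) (nat_lit 5) (nat_lit 31) (nat_lit 5) (nat_lit 286) (nat_lit 239) (nat_lit 195))) (XT.nd (nat_lit 78) (nat_lit 228) (nat_lit 0) (XT.lf (nat_lit 0) (nat_lit 9232994399) (nat_lit 228) (nat_lit 8870344440) (nat_lit 304) (nat_lit 824617125) (nat_lit 27) (nat_lit 5) (nat_lit 30) (nat_lit 5) (nat_lit 31) (nat_lit 5) (nat_lit 287) (nat_lit 239) (nat_lit 194)) (XT.nd (nat_lit 78) (nat_lit 0) (nat_lit 0) (XT.lf (nat_lit 0) (nat_lit 8024425) (nat_lit 152) (nat_lit 3212925348) (nat_lit 228) (nat_lit 16446717393) (nat_lit 24) (nat_lit 5) (nat_lit 26) (nat_lit 5) (nat_lit 27) (nat_lit 5) (nat_lit 288) (nat_lit 239) (nat_lit 193)) (XT.lf (nat_lit 0) (nat_lit 7521716460) (nat_lit 228) (nat_lit 10167248894) (nat_lit 76) (nat_lit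 2753150914) (nat_lit 24) (nat_lit 5) (nat_lit 27) (nat_lit 5) (nat_lit 25) (nat_lit 5) (nat_lit 289) (nat_lit 239) (nat_lit 192)))))) (XT.nd (nat_lit 390) (nat_lit 456) (nat_lit 0) (XT.nd (nat_lit 156) (nat_lit 228) (nat_lit 0) (XT.nd (nat_lit 78) (nat_lit 152) (nat_lit 0) (XT.lf (nat_lit 0) (nat_lit 12015484556) (nat_lit 228) (nat_lit 317527626) (nat_lit 76) (nat_lit 8923028704) (nat_lit 24) (nat_lit 5) (nat_lit 27) (nat_lit 5) (nat_lit 25) (nat_lit 5) (nat_lit 290) (nat_lit 239) (nat_lit 191)) (XT.lf (nat_lit 0) (nat_lit 10141759644) (nat_lit 152) (nat_lit 6637798057) (nat_lit 228) (nat_lit 5329823107) (nat_lit 22) (nat_lit 5) (nat_lit 24) (nat_lit 5) (nat_lit 25) (nat_lit 5) (nat_lit 291) (nat_lit 239) (nat_lit 190))) (XT.nd (nat_lit 78) (nat_lit 228) (nat_lit 0) (XT.lf (nat_lit 0) (nat_lit 21052141106) (nat_lit 152) (nat_lit 682805372) (nat_lit 228) (nat_lit 1271931292) (nat_lit 22)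 (nat_lit 5) (nat_lit 24) (nat_lit 5) (nat_lit 25) (nat_lit 5) (nat_lit 292) (nat_lit 239) (nat_lit 189)) (XT.nd (nat_lit 78) (nat_lit 0) (nat_lit 0) (XT.lf (nat_lit 0) (nat_lit 3019480052) (nat_lit 228) (nat_lit 15379298683) (nat_lit 76) (nat_lit 5547017594) (nat_lit 19) (nat_lit 5) (nat_lit 22) (nat_lit 5) (nat_lit 20) (nat_lit 5) (nat_lit 293) (nat_lit 239) (nat_lit 188)) (XT.lf (nat_lit 0) (nat_lit 7479629590) (nat_lit 228) (nat_lit 5371193673) (nat_lit 76) (nat_lit 12081119004) (nat_lit 19) (nat_lit 5) (nat_lit 22) (nat_lit 5) (nat_lit 20) (nat_lit 5) (nat_lit 294) (nat_lit 239) (nat_lit 187))))) (XT.nd (nat_lit 234) (nat_lit 304) (nat_lit 0) (XT.nd (nat_lit 78) (nat_lit 0) (nat_lit 0) (XT.lf (nat_lit 0) (nat_lit 5166855223) (nat_lit 152) (nat_lit 7000851062) (nat_lit 228) (nat_lit 13799611574) (nat_lit 17) (nat_lit 5) (nat_lit 19) (nat_lit 5) (nat_lit 20) (nat_lit 5) (nat_lit 295) (nat_lit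 239) (nat_lit 186)) (XT.nd (nat_lit 78) (nat_lit 0) (nat_lit 0) (XT.lf (nat_lit 0) (nat_lit 16274806776) (nat_lit 152) (nat_lit 827389676) (nat_lit 228) (nat_lit 9951972107) (nat_lit 17) (nat_lit 5) (nat_lit 19) (nat_lit 5) (nat_lit 20) (nat_lit 5) (nat_lit 296) (nat_lit 239) (nat_lit 185)) (XT.lf (nat_lit 0) (nat_lit 22296309322) (nat_lit 228) (nat_lit 378569876) (nat_lit 76) (nat_lit 5520159097) (nat_lit 17) (nat_lit 5) (nat_lit 20) (nat_lit 5) (nat_lit 18) (nat_lit 4) (nat_lit 297) (nat_lit 239) (nat_lit 184)))) (XT.nd (nat_lit 78) (nat_lit 228) (nat_lit 0) (XT.lf (nat_lit 0) (nat_lit 10678469683) (nat_lit 76) (nat_lit 17143172729) (nat_lit 152) (nat_lit 1569224091) (nat_lit 16) (nat_lit 5) (nat_lit 17) (nat_lit 5) (nat_lit 18) (nat_lit 4) (nat_lit 298) (nat_lit 239) (nat_lit 183)) (XT.nd (nat_lit 78) (nat_lit 152) (nat_lit 0) (XT.lf (nat_lit 0) (nat_lit 2883969692) (nat_lit 152) (nat_lit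 8441561778) (nat_lit 76) (nat_lit 19321193062) (nat_lit 15) (nat_lit 5) (nat_lit 17) (nat_lit 5) (nat_lit 16) (nat_lit 5) (nat_lit 299) (nat_lit 239) (nat_lit 182)) (XT.lf (nat_lit 0) (nat_lit 2312276536) (nat_lit 152) (nat_lit 5200826383) (nat_lit 228) (nat_lit 24452287639) (nat_lit 13) (nat_lit 5) (nat_lit 15) (nat_lit 5) (nat_lit 16) (nat_lit 5) (nat_lit 300) (nat_lit 239) (nat_lit 181))))))))
noncomputable def xc49 : XT := (XT.nd (nat_lit 1560) (nat_lit 152) (nat_lit 0) (XT.nd (nat_lit 780) (nat_lit 228) (nat_lit 0) (XT.nd (nat_lit 390) (nat_lit 228) (nat_lit 0) (XT.nd (nat_lit 156) (nat_lit 76) (nat_lit 0) (XT.nd (nat_lit 78) (nat_lit 0) (nat_lit 0) (XT.lf (nat_lit 0) (nat_lit 12437458502) (nat_lit 228) (nat_lit 19638865742) (nat_lit 76) (nat_lit 1271803345) (nat_lit 13) (nat_lit 5) (nat_lit 16) (nat_lit 5) (nat_lit 14) (nat_lit 4) (nat_lit 301) (nat_lit 239) (nat_lit 180)) (XT.lf (nat_lit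 0) (nat_lit 17626412945) (nat_lit 228) (nat_lit 9232596728) (nat_lit 76) (nat_lit 7940488629) (nat_lit 13) (nat_lit 5) (nat_lit 16) (nat_lit 5) (nat_lit 14) (nat_lit 4) (nat_lit 302) (nat_lit 239) (nat_lit 179))) (XT.nd (nat_lit 78) (nat_lit 0) (nat_lit 0) (XT.lf (nat_lit 0) (nat_lit 1673111813) (nat_lit 76) (nat_lit 21385298540) (nat_lit 152) (nat_lit 13265565305) (nat_lit 12) (nat_lit 5) (nat_lit 13) (nat_lit 5) (nat_lit 14) (nat_lit 4) (nat_lit 303) (nat_lit 239) (nat_lit 178)) (XT.nd (nat_lit 78) (nat_lit 0) (nat_lit 0) (XT.lf (nat_lit 0) (nat_lit 13265051746) (nat_lit 76) (nat_lit 15560556883) (nat_lit 152) (nat_lit 9097203999) (nat_lit 12) (nat_lit 5) (nat_lit 13) (nat_lit 5) (nat_lit 14) (nat_lit 4) (nat_lit 304) (nat_lit 239) (nat_lit 177)) (XT.lf (nat_lit 0) (nat_lit 25387076149) (nat_lit 76) (nat_lit 9464147395) (nat_lit 152) (nat_lit 4751307892) (nat_lit 12) (nat_lit 5) (nat_lit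 13) (nat_lit 5) (nat_lit 14) (nat_lit 4) (nat_lit 305) (nat_lit 239) (nat_lit 176))))) (XT.nd (nat_lit 156) (nat_lit 0) (nat_lit 0) (XT.nd (nat_lit 78) (nat_lit 228) (nat_lit 0) (XT.lf (nat_lit 0) (nat_lit 38068046984) (nat_lit 76) (nat_lit 3081554815) (nat_lit 152) (nat_lit 217529614) (nat_lit 12) (nat_lit 5) (nat_lit 13) (nat_lit 5) (nat_lit 14) (nat_lit 4) (nat_lit 306) (nat_lit 239) (nat_lit 175)) (XT.lf (nat_lit 0) (nat_lit 4541821461) (nat_lit 228) (nat_lit 35018349246) (nat_lit 76) (nat_lit 3655891323) (nat_lit 9) (nat_lit 5) (nat_lit 12) (nat_lit 5) (nat_lit 10) (nat_lit 4) (nat_lit 307) (nat_lit 239) (nat_lit 174))) (XT.nd (nat_lit 78) (nat_lit 0) (nat_lit 0) (XT.lf (nat_lit 0) (nat_lit 9573331806) (nat_lit 228) (nat_lit 24896615834) (nat_lit 76) (nat_lit 10686301172) (nat_lit 9) (nat_lit 5) (nat_lit 12) (nat_lit 5) (nat_lit 10) (nat_lit 4) (nat_lit 308) (nat_lit 239) (nat_lit 173))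 (XT.nd (nat_lit 78) (nat_lit 0) (nat_lit 0) (XT.lf (nat_lit 0) (nat_lit 14830940002) (nat_lit 228) (nat_lit 14311511757) (nat_lit 76) (nat_lit 18051790806) (nat_lit 9) (nat_lit 5) (nat_lit 12) (nat_lit 5) (nat_lit 10) (nat_lit 4) (nat_lit 309) (nat_lit 239) (nat_lit 172)) (XT.lf (nat_lit 0) (nat_lit 20327164164) (nat_lit 228) (nat_lit 3237834387) (nat_lit 76) (nat_lit 25769897103) (nat_lit 9) (nat_lit 5) (nat_lit 12) (nat_lit 5) (nat_lit 10) (nat_lit 4) (nat_lit 310) (nat_lit 239) (nat_lit 171)))))) (XT.nd (nat_lit 390) (nat_lit 152) (nat_lit 0) (XT.nd (nat_lit 156) (nat_lit 0) (nat_lit 0) (XT.nd (nat_lit 78) (nat_lit 0) (nat_lit 0) (XT.lf (nat_lit 0) (nat_lit 8516979115) (nat_lit 76) (nat_lit 17639981838) (nat_lit 152) (nat_lit 25423887807) (nat_lit 8) (nat_lit 5) (nat_lit 9) (nat_lit 5) (nat_lit 10) (nat_lit 4) (nat_lit 311) (nat_lit 239) (nat_lit 170)) (XT.lf (nat_lit 0) (nat_lit 20889560441)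 (nat_lit 76) (nat_lit 11399647460) (nat_lit 152) (nat_lit 21649591575) (nat_lit 8) (nat_lit 5) (nat_lit 9) (nat_lit 5) (nat_lit 10) (nat_lit 4) (nat_lit 312) (nat_lit 239) (nat_lit 169))) (XT.nd (nat_lit 78) (nat_lit 0) (nat_lit 0) (XT.lf (nat_lit 0) (nat_lit 33844928865) (nat_lit 76) (nat_lit 4861833259) (nat_lit 152) (nat_lit 17708552155) (nat_lit 8) (nat_lit 5) (nat_lit 9) (nat_lit 5) (nat_lit 10) (nat_lit 4) (nat_lit 313) (nat_lit 239) (nat_lit 168)) (XT.nd (nat_lit 78) (nat_lit 0) (nat_lit 0) (XT.lf (nat_lit 0) (nat_lit 45444023255) (nat_lit 152) (nat_lit 11621478873) (nat_lit 0) (nat_lit 1950213908) (nat_lit 8) (nat_lit 5) (nat_lit 10) (nat_lit 4) (nat_lit 8) (nat_lit 4) (nat_lit 314) (nat_lit 239) (nat_lit 167)) (XT.lf (nat_lit 0) (nat_lit 52547768027) (nat_lit 152) (nat_lit 207186222) (nat_lit 0) (nat_lit 8990319865) (nat_lit 8) (nat_lit 5) (nat_lit 10) (nat_lit 4) (nat_lit 8) (nat_lit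 4) (nat_lit 315) (nat_lit 239) (nat_lit 166))))) (XT.nd (nat_lit 156) (nat_lit 0) (nat_lit 0) (XT.nd (nat_lit 78) (nat_lit 76) (nat_lit 0) (XT.lf (nat_lit 0) (nat_lit 11980180819) (nat_lit 76) (nat_lit 48123155210) (nat_lit 76) (nat_lit 4505098653) (nat_lit 7) (nat_lit 4) (nat_lit 8) (nat_lit 5) (nat_lit 8) (nat_lit 4) (nat_lit 316) (nat_lit 239) (nat_lit 165)) (XT.lf (nat_lit 0) (nat_lit 397713988) (nat_lit 152) (nat_lit 42868419442) (nat_lit 76) (nat_lit 24348999511) (nat_lit 6) (nat_lit 5) (nat_lit 8) (nat_lit 5) (nat_lit 7) (nat_lit 4) (nat_lit 317) (nat_lit 239) (nat_lit 164))) (XT.nd (nat_lit 78) (nat_lit 0) (nat_lit 0) (XT.lf (nat_lit 0) (nat_lit 5436088908) (nat_lit 152) (nat_lit 32695491956) (nat_lit 76) (nat_lit 32639760120) (nat_lit 6) (nat_lit 5) (nat_lit 8) (nat_lit 5) (nat_lit 7) (nat_lit 4) (nat_lit 318) (nat_lit 239) (nat_lit 163)) (XT.nd (nat_lit 78) (nat_lit 0) (nat_lit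 0) (XT.lf (nat_lit 0) (nat_lit 10709932937) (nat_lit 152) (nat_lit 22041944386) (nat_lit 76) (nat_lit 41333995443) (nat_lit 6) (nat_lit 5) (nat_lit 8) (nat_lit 5) (nat_lit 7) (nat_lit 4) (nat_lit 319) (nat_lit 239) (nat_lit 162)) (XT.lf (nat_lit 0) (nat_lit 16231802849) (nat_lit 152) (nat_lit 10882411143) (nat_lit 76) (nat_lit 50452406040) (nat_lit 6) (nat_lit 5) (nat_lit 8) (nat_lit 5) (nat_lit 7) (nat_lit 4) (nat_lit 320) (nat_lit 239) (nat_lit 161))))))) (XT.nd (nat_lit 31278) (nat_lit 0) (nat_lit 14896) (XT.nd (nat_lit 390) (nat_lit 76) (nat_lit 0) (XT.nd (nat_lit 156) (nat_lit 0) (nat_lit 0) (XT.nd (nat_lit 78) (nat_lit 0) (nat_lit 0) (XT.lf (nat_lit 0) (nat_lit 825792271) (nat_lit 76) (nat_lit 21196991700) (nat_lit 152) (nat_lit 59198848161) (nat_lit 5) (nat_lit 5) (nat_lit 6) (nat_lit 5) (nat_lit 7) (nat_lit 4) (nat_lit 321) (nat_lit 239) (nat_lit 160)) (XT.lf (nat_lit 0) (nat_lit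 13322124250) (nat_lit 76) (nat_lit 14878767552) (nat_lit 152) (nat_lit 56855592851) (nat_lit 5) (nat_lit 5) (nat_lit 6) (nat_lit 5) (nat_lit 7) (nat_lit 4) (nat_lit 322) (nat_lit 239) (nat_lit 159))) (XT.nd (nat_lit 78) (nat_lit 0) (nat_lit 0) (XT.lf (nat_lit 0) (nat_lit 26419756644) (nat_lit 76) (nat_lit 8254389172) (nat_lit 152) (nat_lit 54409363088) (nat_lit 5) (nat_lit 5) (nat_lit 6) (nat_lit 5) (nat_lit 7) (nat_lit 4) (nat_lit 323) (nat_lit 239) (nat_lit 158)) (XT.nd (nat_lit 78) (nat_lit 0) (nat_lit 0) (XT.lf (nat_lit 0) (nat_lit 40149874292) (nat_lit 76) (nat_lit 1308084231) (nat_lit 152) (nat_lit 51854334518) (nat_lit 5) (nat_lit 5) (nat_lit 6) (nat_lit 5) (nat_lit 7) (nat_lit 4) (nat_lit 324) (nat_lit 239) (nat_lit 157)) (XT.lf (nat_lit 0) (nat_lit 48625933422) (nat_lit 152) (nat_lit 43265189209) (nat_lit 0) (nat_lit 5860059418) (nat_lit 5) (nat_lit 5) (nat_lit 7) (nat_lit 4) (nat_lit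 5) (nat_lit 4) (nat_lit 325) (nat_lit 239) (nat_lit 156))))) (XT.nd (nat_lit 156) (nat_lit 76) (nat_lit 0) (XT.nd (nat_lit 78) (nat_lit 0) (nat_lit 0) (XT.lf (nat_lit 0) (nat_lit 56153543135) (nat_lit 152) (nat_lit 32906904824) (nat_lit 0) (nat_lit 13351544571) (nat_lit 5) (nat_lit 5) (nat_lit 7) (nat_lit 4) (nat_lit 5) (nat_lit 4) (nat_lit 326) (nat_lit 239) (nat_lit 155)) (XT.lf (nat_lit 0) (nat_lit 64046136439) (nat_lit 152) (nat_lit 22050328908) (nat_lit 0) (nat_lit 21209733531) (nat_lit 5) (nat_lit 5) (nat_lit 7) (nat_lit 4) (nat_lit 5) (nat_lit 4) (nat_lit 327) (nat_lit 239) (nat_lit 154))) (XT.nd (nat_lit 78) (nat_lit 76) (nat_lit 0) (XT.lf (nat_lit 0) (nat_lit 72322505221) (nat_lit 152) (nat_lit 10669612469) (nat_lit 0) (nat_lit 29453336272) (nat_lit 5) (nat_lit 5) (nat_lit 7) (nat_lit 4) (nat_lit 5) (nat_lit 4) (nat_lit 328) (nat_lit 239) (nat_lit 153)) (XT.nd (nat_lit 30576) (nat_lit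 0) (nat_lit 18164) (XT.lf (nat_lit 0) (nat_lit 1287464504) (nat_lit 76) (nat_lit 79727266513) (nat_lit 76) (nat_lit 36826891811) (nat_lit 4) (nat_lit 4) (nat_lit 5) (nat_lit 5) (nat_lit 5) (nat_lit 4) (nat_lit 329) (nat_lit 239) (nat_lit 152)) (XT.lf (nat_lit 0) (nat_lit 1073741823) (nat_lit 0) (nat_lit 0) (nat_lit 0) (nat_lit 0) (nat_lit 243) (nat_lit 0) (nat_lit 1) (nat_lit 0) (nat_lit 1) (nat_lit 0) (nat_lit 240) (nat_lit 240) (nat_lit 240)))))) (XT.nd (nat_lit 390) (nat_lit 2508) (nat_lit 0) (XT.nd (nat_lit 156) (nat_lit 532) (nat_lit 0) (XT.nd (nat_lit 78) (nat_lit 152) (nat_lit 0) (XT.lf (nat_lit 0) (nat_lit 4410491993) (nat_lit 76) (nat_lit 1920229051) (nat_lit 0) (nat_lit 115524697) (nat_lit 242) (nat_lit 5) (nat_lit 243) (nat_lit 0) (nat_lit 242) (nat_lit 4) (nat_lit 241) (nat_lit 240) (nat_lit 239)) (XT.lf (nat_lit 0) (nat_lit 2281959087) (nat_lit 152) (nat_lit 3753035392) (nat_lit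 76) (nat_lit 423801855) (nat_lit 240) (nat_lit 5) (nat_lit 242) (nat_lit 5) (nat_lit 241) (nat_lit 4) (nat_lit 242) (nat_lit 240) (nat_lit 238))) (XT.nd (nat_lit 78) (nat_lit 304) (nat_lit 0) (XT.lf (nat_lit 0) (nat_lit 48959119) (nat_lit 228) (nat_lit 5505636986) (nat_lit 76) (nat_lit 925537340) (nat_lit 237) (nat_lit 5) (nat_lit 240) (nat_lit 5) (nat_lit 238) (nat_lit 5) (nat_lit 243) (nat_lit 240) (nat_lit 237)) (XT.nd (nat_lit 78) (nat_lit 304) (nat_lit 0) (XT.lf (nat_lit 0) (nat_lit 4173969620) (nat_lit 228) (nat_lit 684378435) (nat_lit 76) (nat_lit 1651085045) (nat_lit 237) (nat_lit 5) (nat_lit 240) (nat_lit 5) (nat_lit 238) (nat_lit 5) (nat_lit 244) (nat_lit 240) (nat_lit 236)) (XT.lf (nat_lit 0) (nat_lit 1711903448) (nat_lit 304) (nat_lit 2252334697) (nat_lit 76) (nat_lit 2583099114) (nat_lit 233) (nat_lit 5) (nat_lit 237) (nat_lit 5) (nat_lit 234) (nat_lit 5) (nat_lit 245) (nat_lit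 240) (nat_lit 235))))) (XT.nd (nat_lit 234) (nat_lit 1216) (nat_lit 0) (XT.nd (nat_lit 78) (nat_lit 988) (nat_lit 0) (XT.lf (nat_lit 0) (nat_lit 2830721175) (nat_lit 304) (nat_lit 2871552399) (nat_lit 380) (nat_lit 891703808) (nat_lit 229) (nat_lit 5) (nat_lit 233) (nat_lit 5) (nat_lit 234) (nat_lit 5) (nat_lit 246) (nat_lit 240) (nat_lit 234)) (XT.nd (nat_lit 78) (nat_lit 532) (nat_lit 0) (XT.lf (nat_lit 0) (nat_lit 1415781151) (nat_lit 380) (nat_lit 1568049786) (nat_lit 456) (nat_lit 3665352817) (nat_lit 223) (nat_lit 5) (nat_lit 228) (nat_lit 5) (nat_lit 229) (nat_lit 5) (nat_lit 247) (nat_lit 240) (nat_lit 233)) (XT.lf (nat_lit 0) (nat_lit 60772408) (nat_lit 456) (nat_lit 68079503) (nat_lit 532) (nat_lit 6584744245) (nat_lit 216) (nat_lit 5) (nat_lit 222) (nat_lit 5) (nat_lit 223) (nat_lit 5) (nat_lit 248) (nat_lit 240) (nat_lit 232)))) (XT.nd (nat_lit 78) (nat_lit 1216) (nat_lit 0)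 (XT.lf (nat_lit 0) (nat_lit 3884523417) (nat_lit 532) (nat_lit 1260932190) (nat_lit 76) (nat_lit 1640237162) (nat_lit 216) (nat_lit 5) (nat_lit 223) (nat_lit 5) (nat_lit 217) (nat_lit 5) (nat_lit 249) (nat_lit 240) (nat_lit 231)) (XT.nd (nat_lit 78) (nat_lit 608) (nat_lit 0) (XT.lf (nat_lit 0) (nat_lit 776017058) (nat_lit 608) (nat_lit 2541361422) (nat_lit 76) (nat_lit 3549793535) (nat_lit 208) (nat_lit 5) (nat_lit 216) (nat_lit 5) (nat_lit 209) (nat_lit 5) (nat_lit 250) (nat_lit 240) (nat_lit 230)) (XT.lf (nat_lit 0) (nat_lit 3146474333) (nat_lit 608) (nat_lit 1268821386) (nat_lit 684) (nat_lit 2542283023) (nat_lit 200) (nat_lit 5) (nat_lit 208) (nat_lit 5) (nat_lit 209) (nat_lit 5) (nat_lit 251) (nat_lit 240) (nat_lit 229))))))))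
noncomputable def xc50 : XT := (XT.nd (nat_lit 1560) (nat_lit 3420) (nat_lit 0) (XT.nd (nat_lit 780) (nat_lit 3496) (nat_lit 0) (XT.nd (nat_lit 390) (nat_lit 3192) (nat_lit 0) (XT.nd (nat_lit 156) (nat_lit 1900) (nat_lit 0) (XT.nd (nat_lit 78) (nat_lit 760) (nat_lit 0) (XT.lf (nat_lit 0) (nat_lit 1015980608) (nat_lit 760) (nat_lit 5071572389) (nat_lit 76) (nat_lit 969757054) (nat_lit 190) (nat_lit 5) (nat_lit 200) (nat_lit 5) (nat_lit 191) (nat_lit 5) (nat_lit 252) (nat_lit 240) (nat_lit 228)) (XT.lf (nat_lit 0) (nat_lit 813787904) (nat_lit 760) (nat_lit 3755008419) (nat_lit 836) (nat_lit 2597159268) (nat_lit 180) (nat_lit 5) (nat_lit 190) (nat_lit 5) (nat_lit 191) (nat_lit 5) (nat_lit 253) (nat_lit 240) (nat_lit 227))) (XT.nd (nat_lit 78) (nat_lit 1824) (nat_lit 0) (XT.lf (nat_lit 0) (nat_lit 865682631) (nat_lit 836) (nat_lit 343817254) (nat_lit 76) (nat_lit 6074951143) (nat_lit 179) (nat_lit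 5) (nat_lit 190) (nat_lit 5) (nat_lit 180) (nat_lit 5) (nat_lit 254) (nat_lit 240) (nat_lit 226)) (XT.nd (nat_lit 78) (nat_lit 988) (nat_lit 0) (XT.lf (nat_lit 0) (nat_lit 4342916239) (nat_lit 912) (nat_lit 1520631812) (nat_lit 76) (nat_lit 1548371528) (nat_lit 168) (nat_lit 5) (nat_lit 180) (nat_lit 5) (nat_lit 169) (nat_lit 5) (nat_lit 255) (nat_lit 240) (nat_lit 225)) (XT.lf (nat_lit 0) (nat_lit 329895019) (nat_lit 988) (nat_lit 2720006179) (nat_lit 76) (nat_lit 4499637605) (nat_lit 155) (nat_lit 5) (nat_lit 168) (nat_lit 5) (nat_lit 156) (nat_lit 5) (nat_lit 256) (nat_lit 240) (nat_lit 224))))) (XT.nd (nat_lit 156) (nat_lit 1140) (nat_lit 0) (XT.nd (nat_lit 78) (nat_lit 1064) (nat_lit 0) (XT.lf (nat_lit 0) (nat_lit 3721916444) (nat_lit 1064) (nat_lit 3968639638) (nat_lit 76) (nat_lit 6560658) (nat_lit 142) (nat_lit 5) (nat_lit 156) (nat_lit 5) (nat_lit 143) (nat_lit 5) (nat_lit 257)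 (nat_lit 240) (nat_lit 223)) (XT.lf (nat_lit 0) (nat_lit 2574449734) (nat_lit 1064) (nat_lit 4633888124) (nat_lit 1140) (nat_lit 646552538) (nat_lit 128) (nat_lit 5) (nat_lit 142) (nat_lit 5) (nat_lit 143) (nat_lit 5) (nat_lit 258) (nat_lit 240) (nat_lit 222))) (XT.nd (nat_lit 78) (nat_lit 532) (nat_lit 0) (XT.lf (nat_lit 0) (nat_lit 1357985551) (nat_lit 532) (nat_lit 1334397042) (nat_lit 608) (nat_lit 5330884020) (nat_lit 120) (nat_lit 5) (nat_lit 127) (nat_lit 5) (nat_lit 128) (nat_lit 5) (nat_lit 259) (nat_lit 240) (nat_lit 221)) (XT.nd (nat_lit 78) (nat_lit 76) (nat_lit 0) (XT.lf (nat_lit 0) (nat_lit 64206093) (nat_lit 456) (nat_lit 6047950584) (nat_lit 532) (nat_lit 2090388839) (nat_lit 114) (nat_lit 5) (nat_lit 120) (nat_lit 5) (nat_lit 121) (nat_lit 5) (nat_lit 260) (nat_lit 240) (nat_lit 220)) (XT.lf (nat_lit 0) (nat_lit 1224250031) (nat_lit 532) (nat_lit 1294843897) (nat_lit 76)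 (nat_lit 5873640972) (nat_lit 113) (nat_lit 5) (nat_lit 120) (nat_lit 5) (nat_lit 114) (nat_lit 5) (nat_lit 261) (nat_lit 240) (nat_lit 219)))))) (XT.nd (nat_lit 390) (nat_lit 1520) (nat_lit 0) (XT.nd (nat_lit 156) (nat_lit 988) (nat_lit 0) (XT.nd (nat_lit 78) (nat_lit 456) (nat_lit 0) (XT.lf (nat_lit 0) (nat_lit 4591949133) (nat_lit 608) (nat_lit 2764821231) (nat_lit 76) (nat_lit 1237560539) (nat_lit 106) (nat_lit 5) (nat_lit 114) (nat_lit 5) (nat_lit 107) (nat_lit 5) (nat_lit 262) (nat_lit 240) (nat_lit 218)) (XT.lf (nat_lit 0) (nat_lit 4450814402) (nat_lit 456) (nat_lit 3625967247) (nat_lit 532) (nat_lit 731176775) (nat_lit 100) (nat_lit 5) (nat_lit 106) (nat_lit 5) (nat_lit 107) (nat_lit 5) (nat_lit 263) (nat_lit 240) (nat_lit 217))) (XT.nd (nat_lit 78) (nat_lit 456) (nat_lit 0) (XT.lf (nat_lit 0) (nat_lit 2581815047) (nat_lit 532) (nat_lit 6093693213) (nat_lit 76) (nat_lit 358432865)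 (nat_lit 93) (nat_lit 5) (nat_lit 100) (nat_lit 5) (nat_lit 94) (nat_lit 5) (nat_lit 264) (nat_lit 240) (nat_lit 216)) (XT.nd (nat_lit 78) (nat_lit 76) (nat_lit 0) (XT.lf (nat_lit 0) (nat_lit 1263055270) (nat_lit 380) (nat_lit 4751621532) (nat_lit 456) (nat_lit 3257613436) (nat_lit 88) (nat_lit 5) (nat_lit 93) (nat_lit 5) (nat_lit 94) (nat_lit 5) (nat_lit 265) (nat_lit 240) (nat_lit 215)) (XT.lf (nat_lit 0) (nat_lit 36353790) (nat_lit 456) (nat_lit 546819130) (nat_lit 76) (nat_lit 8941444828) (nat_lit 87) (nat_lit 5) (nat_lit 93) (nat_lit 5) (nat_lit 88) (nat_lit 5) (nat_lit 266) (nat_lit 240) (nat_lit 214))))) (XT.nd (nat_lit 156) (nat_lit 760) (nat_lit 0) (XT.nd (nat_lit 78) (nat_lit 380) (nat_lit 0) (XT.lf (nat_lit 0) (nat_lit 3419487751) (nat_lit 456) (nat_lit 2562932411) (nat_lit 76) (nat_lit 3806739820) (nat_lit 82) (nat_lit 5) (nat_lit 88) (nat_lit 5) (nat_lit 83) (nat_lit 5) (nat_lit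 267) (nat_lit 240) (nat_lit 213)) (XT.lf (nat_lit 0) (nat_lit 5297416178) (nat_lit 380) (nat_lit 1625028109) (nat_lit 456) (nat_lit 3146270949) (nat_lit 77) (nat_lit 5) (nat_lit 82) (nat_lit 5) (nat_lit 83) (nat_lit 5) (nat_lit 268) (nat_lit 240) (nat_lit 212))) (XT.nd (nat_lit 78) (nat_lit 304) (nat_lit 0) (XT.lf (nat_lit 0) (nat_lit 210417966) (nat_lit 456) (nat_lit 7221807679) (nat_lit 76) (nat_lit 2930933692) (nat_lit 71) (nat_lit 5) (nat_lit 77) (nat_lit 5) (nat_lit 72) (nat_lit 5) (nat_lit 269) (nat_lit 240) (nat_lit 211)) (XT.nd (nat_lit 78) (nat_lit 0) (nat_lit 0) (XT.lf (nat_lit 0) (nat_lit 713053929) (nat_lit 304) (nat_lit 2924943102) (nat_lit 380) (nat_lit 7034619681) (nat_lit 67) (nat_lit 5) (nat_lit 71) (nat_lit 5) (nat_lit 72) (nat_lit 5) (nat_lit 270) (nat_lit 240) (nat_lit 210)) (XT.lf (nat_lit 0) (nat_lit 7227623201) (nat_lit 380) (nat_lit 1947873233) (nat_lit 76) (nat_lit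 1822587017) (nat_lit 67) (nat_lit 5) (nat_lit 72) (nat_lit 5) (nat_lit 68) (nat_lit 5) (nat_lit 271) (nat_lit 240) (nat_lit 209))))))) (XT.nd (nat_lit 780) (nat_lit 1292) (nat_lit 0) (XT.nd (nat_lit 390) (nat_lit 836) (nat_lit 0) (XT.nd (nat_lit 156) (nat_lit 608) (nat_lit 0) (XT.nd (nat_lit 78) (nat_lit 380) (nat_lit 0) (XT.lf (nat_lit 0) (nat_lit 6436655359) (nat_lit 304) (nat_lit 4554530736) (nat_lit 380) (nat_lit 349048093) (nat_lit 63) (nat_lit 5) (nat_lit 67) (nat_lit 5) (nat_lit 68) (nat_lit 5) (nat_lit 272) (nat_lit 240) (nat_lit 208)) (XT.lf (nat_lit 0) (nat_lit 3142807441) (nat_lit 380) (nat_lit 8206745439) (nat_lit 76) (nat_lit 350350240) (nat_lit 58) (nat_lit 5) (nat_lit 63) (nat_lit 5) (nat_lit 59) (nat_lit 5) (nat_lit 273) (nat_lit 240) (nat_lit 207))) (XT.nd (nat_lit 78) (nat_lit 304) (nat_lit 0) (XT.lf (nat_lit 0) (nat_lit 167878162) (nat_lit 304) (nat_lit 6641252141) (nat_lit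 380) (nat_lit 5268323870) (nat_lit 54) (nat_lit 5) (nat_lit 58) (nat_lit 5) (nat_lit 59) (nat_lit 5) (nat_lit 274) (nat_lit 240) (nat_lit 206)) (XT.nd (nat_lit 78) (nat_lit 304) (nat_lit 0) (XT.lf (nat_lit 0) (nat_lit 9014649240) (nat_lit 304) (nat_lit 1640289797) (nat_lit 380) (nat_lit 1819263559) (nat_lit 54) (nat_lit 5) (nat_lit 58) (nat_lit 5) (nat_lit 59) (nat_lit 5) (nat_lit 275) (nat_lit 240) (nat_lit 205)) (XT.lf (nat_lit 0) (nat_lit 1768840473) (nat_lit 304) (nat_lit 7540157562) (nat_lit 76) (nat_lit 3581407369) (nat_lit 50) (nat_lit 5) (nat_lit 54) (nat_lit 5) (nat_lit 51) (nat_lit 5) (nat_lit 276) (nat_lit 240) (nat_lit 204))))) (XT.nd (nat_lit 156) (nat_lit 532) (nat_lit 0) (XT.nd (nat_lit 78) (nat_lit 0) (nat_lit 0) (XT.lf (nat_lit 0) (nat_lit 1221620545) (nat_lit 304) (nat_lit 4259296187) (nat_lit 380) (nat_lit 7846675923) (nat_lit 46) (nat_lit 5) (nat_lit 50) (nat_lit 5) (nat_lit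 51) (nat_lit 5) (nat_lit 277) (nat_lit 240) (nat_lit 203)) (XT.lf (nat_lit 0) (nat_lit 9387158839) (nat_lit 380) (nat_lit 3328492728) (nat_lit 76) (nat_lit 1070902695) (nat_lit 46) (nat_lit 5) (nat_lit 51) (nat_lit 5) (nat_lit 47) (nat_lit 5) (nat_lit 278) (nat_lit 240) (nat_lit 202))) (XT.nd (nat_lit 78) (nat_lit 304) (nat_lit 0) (XT.lf (nat_lit 0) (nat_lit 5851974767) (nat_lit 228) (nat_lit 7659932918) (nat_lit 304) (nat_lit 756024092) (nat_lit 43) (nat_lit 5) (nat_lit 46) (nat_lit 5) (nat_lit 47) (nat_lit 5) (nat_lit 279) (nat_lit 240) (nat_lit 201)) (XT.nd (nat_lit 78) (nat_lit 0) (nat_lit 0) (XT.lf (nat_lit 0) (nat_lit 666175918) (nat_lit 228) (nat_lit 2310142791) (nat_lit 304) (nat_lit 11797324606) (nat_lit 39) (nat_lit 5) (nat_lit 42) (nat_lit 5) (nat_lit 43) (nat_lit 5) (nat_lit 280) (nat_lit 240) (nat_lit 200)) (XT.lf (nat_lit 0) (nat_lit 6927019739) (nat_lit 304) (nat_lit 5068656871)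 (nat_lit 76) (nat_lit 3307462082) (nat_lit 39) (nat_lit 5) (nat_lit 43) (nat_lit 5) (nat_lit 40) (nat_lit 5) (nat_lit 281) (nat_lit 240) (nat_lit 199)))))) (XT.nd (nat_lit 390) (nat_lit 608) (nat_lit 0) (XT.nd (nat_lit 156) (nat_lit 456) (nat_lit 0) (XT.nd (nat_lit 78) (nat_lit 0) (nat_lit 0) (XT.lf (nat_lit 0) (nat_lit 4384699583) (nat_lit 228) (nat_lit 6687401131) (nat_lit 304) (nat_lit 4787240041) (nat_lit 36) (nat_lit 5) (nat_lit 39) (nat_lit 5) (nat_lit 40) (nat_lit 5) (nat_lit 282) (nat_lit 240) (nat_lit 198)) (XT.lf (nat_lit 0) (nat_lit 14319860966) (nat_lit 228) (nat_lit 1090469072) (nat_lit 304) (nat_lit 1033576785) (nat_lit 36) (nat_lit 5) (nat_lit 39) (nat_lit 5) (nat_lit 40) (nat_lit 5) (nat_lit 283) (nat_lit 240) (nat_lit 197))) (XT.nd (nat_lit 78) (nat_lit 152) (nat_lit 0) (XT.lf (nat_lit 0) (nat_lit 2908130885) (nat_lit 304) (nat_lit 9380137347) (nat_lit 76) (nat_lit 4767002231)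 (nat_lit 32) (nat_lit 5) (nat_lit 36) (nat_lit 5) (nat_lit 33) (nat_lit 5) (nat_lit 284) (nat_lit 240) (nat_lit 196)) (XT.nd (nat_lit 78) (nat_lit 0) (nat_lit 0) (XT.lf (nat_lit 0) (nat_lit 201824289) (nat_lit 152) (nat_lit 6796964183) (nat_lit 228) (nat_lit 10699024717) (nat_lit 30) (nat_lit 5) (nat_lit 32) (nat_lit 5) (nat_lit 33) (nat_lit 5) (nat_lit 285) (nat_lit 240) (nat_lit 195)) (XT.lf (nat_lit 0) (nat_lit 10368984739) (nat_lit 152) (nat_lit 961655522) (nat_lit 228) (nat_lit 7040852591) (nat_lit 30) (nat_lit 5) (nat_lit 32) (nat_lit 5) (nat_lit 33) (nat_lit 5) (nat_lit 286) (nat_lit 240) (nat_lit 194))))) (XT.nd (nat_lit 234) (nat_lit 152) (nat_lit 0) (XT.nd (nat_lit 78) (nat_lit 228) (nat_lit 0) (XT.lf (nat_lit 0) (nat_lit 1865214791) (nat_lit 228) (nat_lit 14024131203) (nat_lit 304) (nat_lit 3189307081) (nat_lit 27) (nat_lit 5) (nat_lit 30) (nat_lit 5) (nat_lit 31) (nat_lit 5)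 (nat_lit 287) (nat_lit 240) (nat_lit 193)) (XT.nd (nat_lit 78) (nat_lit 152) (nat_lit 0) (XT.lf (nat_lit 0) (nat_lit 874983936) (nat_lit 304) (nat_lit 7529775120) (nat_lit 76) (nat_lit 11415156829) (nat_lit 26) (nat_lit 5) (nat_lit 30) (nat_lit 5) (nat_lit 27) (nat_lit 5) (nat_lit 288) (nat_lit 240) (nat_lit 192)) (XT.lf (nat_lit 0) (nat_lit 2574315848) (nat_lit 152) (nat_lit 2474190230) (nat_lit 228) (nat_lit 15549721100) (nat_lit 24) (nat_lit 5) (nat_lit 26) (nat_lit 5) (nat_lit 27) (nat_lit 5) (nat_lit 289) (nat_lit 240) (nat_lit 191)))) (XT.nd (nat_lit 78) (nat_lit 152) (nat_lit 0) (XT.lf (nat_lit 0) (nat_lit 9493187255) (nat_lit 228) (nat_lit 8189832154) (nat_lit 76) (nat_lit 3730647712) (nat_lit 24) (nat_lit 5) (nat_lit 27) (nat_lit 5) (nat_lit 25) (nat_lit 5) (nat_lit 290) (nat_lit 240) (nat_lit 190)) (XT.nd (nat_lit 78) (nat_lit 0) (nat_lit 0) (XT.lf (nat_lit 0) (nat_lit 2074485422)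 (nat_lit 152) (nat_lit 12081128843) (nat_lit 228) (nat_lit 8114482847) (nat_lit 22) (nat_lit 5) (nat_lit 24) (nat_lit 5) (nat_lit 25) (nat_lit 5) (nat_lit 291) (nat_lit 240) (nat_lit 189)) (XT.lf (nat_lit 0) (nat_lit 12948395077) (nat_lit 152) (nat_lit 6139306365) (nat_lit 228) (nat_lit 4080630427) (nat_lit 22) (nat_lit 5) (nat_lit 24) (nat_lit 5) (nat_lit 25) (nat_lit 5) (nat_lit 292) (nat_lit 240) (nat_lit 188))))))))
noncomputable def xc51 : XT := (XT.nd (nat_lit 1638) (nat_lit 228) (nat_lit 0) (XT.nd (nat_lit 780) (nat_lit 380) (nat_lit 0) (XT.nd (nat_lit 390) (nat_lit 304) (nat_lit 0) (XT.nd (nat_lit 156) (nat_lit 152) (nat_lit 0) (XT.nd (nat_lit 78) (nat_lit 0) (nat_lit 0) (XT.lf (nat_lit 0) (nat_lit 108384519) (nat_lit 228) (nat_lit 23929137082) (nat_lit 76) (nat_lit 75290749) (nat_lit 19) (nat_lit 5) (nat_lit 22) (nat_lit 5) (nat_lit 20) (nat_lit 5) (nat_lit 293) (nat_lit 240) (nat_lit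 187)) (XT.lf (nat_lit 0) (nat_lit 4546706110) (nat_lit 228) (nat_lit 13955805399) (nat_lit 76) (nat_lit 6597135739) (nat_lit 19) (nat_lit 5) (nat_lit 22) (nat_lit 5) (nat_lit 20) (nat_lit 5) (nat_lit 294) (nat_lit 240) (nat_lit 186))) (XT.nd (nat_lit 78) (nat_lit 152) (nat_lit 0) (XT.lf (nat_lit 0) (nat_lit 9164327312) (nat_lit 228) (nat_lit 3551697911) (nat_lit 76) (nat_lit 13421143778) (nat_lit 19) (nat_lit 5) (nat_lit 22) (nat_lit 5) (nat_lit 20) (nat_lit 5) (nat_lit 295) (nat_lit 240) (nat_lit 185)) (XT.nd (nat_lit 78) (nat_lit 0) (nat_lit 0) (XT.lf (nat_lit 0) (nat_lit 7453399740) (nat_lit 152) (nat_lit 6590489359) (nat_lit 228) (nat_lit 13181809402) (nat_lit 17) (nat_lit 5) (nat_lit 19) (nat_lit 5) (nat_lit 20) (nat_lit 5) (nat_lit 296) (nat_lit 240) (nat_lit 184)) (XT.lf (nat_lit 0) (nat_lit 19020167835) (nat_lit 152) (nat_lit 144564631) (nat_lit 228) (nat_lit 9204063332) (nat_lit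 17) (nat_lit 5) (nat_lit 19) (nat_lit 5) (nat_lit 20) (nat_lit 5) (nat_lit 297) (nat_lit 240) (nat_lit 183))))) (XT.nd (nat_lit 156) (nat_lit 228) (nat_lit 0) (XT.nd (nat_lit 78) (nat_lit 0) (nat_lit 0) (XT.lf (nat_lit 0) (nat_lit 1501069580) (nat_lit 76) (nat_lit 23081044018) (nat_lit 152) (nat_lit 4985777038) (nat_lit 16) (nat_lit 5) (nat_lit 17) (nat_lit 5) (nat_lit 18) (nat_lit 4) (nat_lit 298) (nat_lit 240) (nat_lit 182)) (XT.lf (nat_lit 0) (nat_lit 13028087403) (nat_lit 76) (nat_lit 17303576037) (nat_lit 152) (nat_lit 493492593) (nat_lit 16) (nat_lit 5) (nat_lit 17) (nat_lit 5) (nat_lit 18) (nat_lit 4) (nat_lit 299) (nat_lit 240) (nat_lit 181))) (XT.nd (nat_lit 78) (nat_lit 152) (nat_lit 0) (XT.lf (nat_lit 0) (nat_lit 4105949363) (nat_lit 152) (nat_lit 7111398701) (nat_lit 76) (nat_lit 20927820657) (nat_lit 15) (nat_lit 5) (nat_lit 17) (nat_lit 5) (nat_lit 16) (nat_lit 5) (nat_lit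 300) (nat_lit 240) (nat_lit 180)) (XT.nd (nat_lit 78) (nat_lit 0) (nat_lit 0) (XT.lf (nat_lit 0) (nat_lit 4129903887) (nat_lit 152) (nat_lit 4801673245) (nat_lit 228) (nat_lit 24599313998) (nat_lit 13) (nat_lit 5) (nat_lit 15) (nat_lit 5) (nat_lit 16) (nat_lit 5) (nat_lit 301) (nat_lit 240) (nat_lit 179)) (XT.lf (nat_lit 0) (nat_lit 14058527282) (nat_lit 228) (nat_lit 18974670077) (nat_lit 76) (nat_lit 1950947035) (nat_lit 13) (nat_lit 5) (nat_lit 16) (nat_lit 5) (nat_lit 14) (nat_lit 4) (nat_lit 302) (nat_lit 240) (nat_lit 178)))))) (XT.nd (nat_lit 390) (nat_lit 228) (nat_lit 0) (XT.nd (nat_lit 156) (nat_lit 76) (nat_lit 0) (XT.nd (nat_lit 78) (nat_lit 76) (nat_lit 0) (XT.lf (nat_lit 0) (nat_lit 19459348693) (nat_lit 228) (nat_lit 8126475181) (nat_lit 76) (nat_lit 8923754510) (nat_lit 13) (nat_lit 5) (nat_lit 16) (nat_lit 5) (nat_lit 14) (nat_lit 4) (nat_lit 303) (nat_lit 240) (nat_lit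 177)) (XT.lf (nat_lit 0) (nat_lit 3279579508) (nat_lit 76) (nat_lit 21852689660) (nat_lit 152) (nat_lit 12978994858) (nat_lit 12) (nat_lit 5) (nat_lit 13) (nat_lit 5) (nat_lit 14) (nat_lit 4) (nat_lit 304) (nat_lit 240) (nat_lit 176))) (XT.nd (nat_lit 78) (nat_lit 76) (nat_lit 0) (XT.lf (nat_lit 0) (nat_lit 15378601576) (nat_lit 76) (nat_lit 15765371578) (nat_lit 152) (nat_lit 8647446378) (nat_lit 12) (nat_lit 5) (nat_lit 13) (nat_lit 5) (nat_lit 14) (nat_lit 4) (nat_lit 305) (nat_lit 240) (nat_lit 175)) (XT.nd (nat_lit 78) (nat_lit 76) (nat_lit 0) (XT.lf (nat_lit 0) (nat_lit 28037665425) (nat_lit 76) (nat_lit 9391437480) (nat_lit 152) (nat_lit 4127332505) (nat_lit 12) (nat_lit 5) (nat_lit 13) (nat_lit 5) (nat_lit 14) (nat_lit 4) (nat_lit 306) (nat_lit 240) (nat_lit 174)) (XT.lf (nat_lit 0) (nat_lit 580554757) (nat_lit 152) (nat_lit 2129294110) (nat_lit 76) (nat_lit 40700494463) (nat_lit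 11) (nat_lit 5) (nat_lit 13) (nat_lit 5) (nat_lit 12) (nat_lit 5) (nat_lit 307) (nat_lit 240) (nat_lit 173))))) (XT.nd (nat_lit 234) (nat_lit 76) (nat_lit 0) (XT.nd (nat_lit 78) (nat_lit 0) (nat_lit 0) (XT.lf (nat_lit 0) (nat_lit 5552506128) (nat_lit 228) (nat_lit 35455489083) (nat_lit 76) (nat_lit 4344337915) (nat_lit 9) (nat_lit 5) (nat_lit 12) (nat_lit 5) (nat_lit 10) (nat_lit 4) (nat_lit 308) (nat_lit 240) (nat_lit 172)) (XT.nd (nat_lit 78) (nat_lit 0) (nat_lit 0) (XT.lf (nat_lit 0) (nat_lit 10798278010) (nat_lit 228) (nat_lit 24890229841) (nat_lit 76) (nat_lit 11702189589) (nat_lit 9) (nat_lit 5) (nat_lit 12) (nat_lit 5) (nat_lit 10) (nat_lit 4) (nat_lit 309) (nat_lit 240) (nat_lit 171)) (XT.lf (nat_lit 0) (nat_lit 16283229491) (nat_lit 228) (nat_lit 13835452312) (nat_lit 76) (nat_lit 19413021639) (nat_lit 9) (nat_lit 5) (nat_lit 12) (nat_lit 5) (nat_lit 10) (nat_lit 4) (nat_lit 310)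 (nat_lit 240) (nat_lit 170)))) (XT.nd (nat_lit 78) (nat_lit 76) (nat_lit 0) (XT.lf (nat_lit 0) (nat_lit 22020419981) (nat_lit 228) (nat_lit 2264835598) (nat_lit 76) (nat_lit 27495193190) (nat_lit 9) (nat_lit 5) (nat_lit 12) (nat_lit 5) (nat_lit 10) (nat_lit 4) (nat_lit 311) (nat_lit 240) (nat_lit 169)) (XT.nd (nat_lit 78) (nat_lit 0) (nat_lit 0) (XT.lf (nat_lit 0) (nat_lit 10045187171) (nat_lit 76) (nat_lit 18074882769) (nat_lit 152) (nat_lit 26019320820) (nat_lit 8) (nat_lit 5) (nat_lit 9) (nat_lit 5) (nat_lit 10) (nat_lit 4) (nat_lit 312) (nat_lit 240) (nat_lit 168)) (XT.lf (nat_lit 0) (nat_lit 22983904273) (nat_lit 76) (nat_lit 11543822061) (nat_lit 152) (nat_lit 22088488890) (nat_lit 8) (nat_lit 5) (nat_lit 9) (nat_lit 5) (nat_lit 10) (nat_lit 4) (nat_lit 313) (nat_lit 240) (nat_lit 167))))))) (XT.nd (nat_lit 780) (nat_lit 0) (nat_lit 0) (XT.nd (nat_lit 390) (nat_lit 76) (nat_lit 0)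 (XT.nd (nat_lit 156) (nat_lit 152) (nat_lit 0) (XT.nd (nat_lit 78) (nat_lit 0) (nat_lit 0) (XT.lf (nat_lit 0) (nat_lit 36537047507) (nat_lit 76) (nat_lit 4699393711) (nat_lit 152) (nat_lit 17981044273) (nat_lit 8) (nat_lit 5) (nat_lit 9) (nat_lit 5) (nat_lit 10) (nat_lit 4) (nat_lit 314) (nat_lit 240) (nat_lit 166)) (XT.lf (nat_lit 0) (nat_lit 48285976038) (nat_lit 152) (nat_lit 11236297115) (nat_lit 0) (nat_lit 2426408258) (nat_lit 8) (nat_lit 5) (nat_lit 10) (nat_lit 4) (nat_lit 8) (nat_lit 4) (nat_lit 315) (nat_lit 240) (nat_lit 165))) (XT.nd (nat_lit 78) (nat_lit 76) (nat_lit 0) (XT.lf (nat_lit 0) (nat_lit 716683059) (nat_lit 76) (nat_lit 55007983156) (nat_lit 76) (nat_lit 9090693094) (nat_lit 7) (nat_lit 4) (nat_lit 8) (nat_lit 5) (nat_lit 8) (nat_lit 4) (nat_lit 316) (nat_lit 240) (nat_lit 164)) (XT.nd (nat_lit 78) (nat_lit 76) (nat_lit 0) (XT.lf (nat_lit 0) (nat_lit 13473054790) (nat_lit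 76) (nat_lit 50160821933) (nat_lit 76) (nat_lit 4188558270) (nat_lit 7) (nat_lit 4) (nat_lit 8) (nat_lit 5) (nat_lit 8) (nat_lit 4) (nat_lit 317) (nat_lit 240) (nat_lit 163)) (XT.lf (nat_lit 0) (nat_lit 923526294) (nat_lit 152) (nat_lit 44149861095) (nat_lit 76) (nat_lit 25906713945) (nat_lit 6) (nat_lit 5) (nat_lit 8) (nat_lit 5) (nat_lit 7) (nat_lit 4) (nat_lit 318) (nat_lit 240) (nat_lit 162))))) (XT.nd (nat_lit 156) (nat_lit 76) (nat_lit 0) (XT.nd (nat_lit 78) (nat_lit 0) (nat_lit 0) (XT.lf (nat_lit 0) (nat_lit 6189728217) (nat_lit 152) (nat_lit 33509333869) (nat_lit 76) (nat_lit 34595809516) (nat_lit 6) (nat_lit 5) (nat_lit 8) (nat_lit 5) (nat_lit 7) (nat_lit 4) (nat_lit 319) (nat_lit 240) (nat_lit 161)) (XT.lf (nat_lit 0) (nat_lit 11704319931) (nat_lit 152) (nat_lit 22362200954) (nat_lit 76) (nat_lit 43709325110) (nat_lit 6) (nat_lit 5) (nat_lit 8) (nat_lit 5) (nat_lit 7) (nat_lit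 4) (nat_lit 320) (nat_lit 240) (nat_lit 160))) (XT.nd (nat_lit 78) (nat_lit 76) (nat_lit 0) (XT.lf (nat_lit 0) (nat_lit 17480431416) (nat_lit 152) (nat_lit 10681921556) (nat_lit 76) (nat_lit 53268959575) (nat_lit 6) (nat_lit 5) (nat_lit 8) (nat_lit 5) (nat_lit 7) (nat_lit 4) (nat_lit 321) (nat_lit 240) (nat_lit 159)) (XT.nd (nat_lit 78) (nat_lit 0) (nat_lit 0) (XT.lf (nat_lit 0) (nat_lit 1590347929) (nat_lit 76) (nat_lit 21956754788) (nat_lit 152) (nat_lit 61722413412) (nat_lit 5) (nat_lit 5) (nat_lit 6) (nat_lit 5) (nat_lit 7) (nat_lit 4) (nat_lit 322) (nat_lit 240) (nat_lit 158)) (XT.lf (nat_lit 0) (nat_lit 14677055267) (nat_lit 76) (nat_lit 15336909266) (nat_lit 152) (nat_lit 59282775201) (nat_lit 5) (nat_lit 5) (nat_lit 6) (nat_lit 5) (nat_lit 7) (nat_lit 4) (nat_lit 323) (nat_lit 240) (nat_lit 157)))))) (XT.nd (nat_lit 31044) (nat_lit 0) (nat_lit 16872) (XT.nd (nat_lit 156) (nat_lit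 0) (nat_lit 0) (XT.nd (nat_lit 78) (nat_lit 0) (nat_lit 0) (XT.lf (nat_lit 0) (nat_lit 28396768099) (nat_lit 76) (nat_lit 8394921332) (nat_lit 152) (nat_lit 56734024298) (nat_lit 5) (nat_lit 5) (nat_lit 6) (nat_lit 5) (nat_lit 7) (nat_lit 4) (nat_lit 324) (nat_lit 240) (nat_lit 156)) (XT.lf (nat_lit 0) (nat_lit 42782152409) (nat_lit 76) (nat_lit 1114262444) (nat_lit 152) (nat_lit 54070092249) (nat_lit 5) (nat_lit 5) (nat_lit 6) (nat_lit 5) (nat_lit 7) (nat_lit 4) (nat_lit 325) (nat_lit 240) (nat_lit 155))) (XT.nd (nat_lit 78) (nat_lit 0) (nat_lit 0) (XT.lf (nat_lit 0) (nat_lit 51407754134) (nat_lit 152) (nat_lit 44824931379) (nat_lit 0) (nat_lit 6395126738) (nat_lit 5) (nat_lit 5) (nat_lit 7) (nat_lit 4) (nat_lit 5) (nat_lit 4) (nat_lit 326) (nat_lit 240) (nat_lit 154)) (XT.nd (nat_lit 78) (nat_lit 0) (nat_lit 0) (XT.lf (nat_lit 0) (nat_lit 59295052712) (nat_lit 152) (nat_lit 33977471694)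 (nat_lit 0) (nat_lit 14249659275) (nat_lit 5) (nat_lit 5) (nat_lit 7) (nat_lit 4) (nat_lit 5) (nat_lit 4) (nat_lit 327) (nat_lit 240) (nat_lit 153)) (XT.lf (nat_lit 0) (nat_lit 67566378899) (nat_lit 152) (nat_lit 22605437380) (nat_lit 0) (nat_lit 22489779708) (nat_lit 5) (nat_lit 5) (nat_lit 7) (nat_lit 4) (nat_lit 5) (nat_lit 4) (nat_lit 328) (nat_lit 240) (nat_lit 152))))) (XT.nd (nat_lit 234) (nat_lit 684) (nat_lit 0) (XT.nd (nat_lit 78) (nat_lit 228) (nat_lit 0) (XT.lf (nat_lit 0) (nat_lit 1091289060) (nat_lit 228) (nat_lit 1067949530) (nat_lit 228) (nat_lit 1067949530) (nat_lit 239) (nat_lit 3) (nat_lit 242) (nat_lit 3) (nat_lit 242) (nat_lit 5) (nat_lit 241) (nat_lit 241) (nat_lit 238)) (XT.nd (nat_lit 78) (nat_lit 228) (nat_lit 0) (XT.lf (nat_lit 76) (nat_lit 2398646670) (nat_lit 0) (nat_lit 3922760636) (nat_lit 228) (nat_lit 149827642) (nat_lit 240) (nat_lit 5) (nat_lit 239) (nat_lit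 3) (nat_lit 242) (nat_lit 5) (nat_lit 242) (nat_lit 241) (nat_lit 237)) (XT.lf (nat_lit 76) (nat_lit 542572805) (nat_lit 0) (nat_lit 3316302878) (nat_lit 304) (nat_lit 2637356549) (nat_lit 237) (nat_lit 5) (nat_lit 236) (nat_lit 5) (nat_lit 240) (nat_lit 5) (nat_lit 243) (nat_lit 241) (nat_lit 236)))) (XT.nd (nat_lit 78) (nat_lit 380) (nat_lit 0) (XT.lf (nat_lit 0) (nat_lit 1296978364) (nat_lit 304) (nat_lit 1210541835) (nat_lit 380) (nat_lit 4022194606) (nat_lit 232) (nat_lit 5) (nat_lit 236) (nat_lit 5) (nat_lit 237) (nat_lit 5) (nat_lit 244) (nat_lit 241) (nat_lit 235)) (XT.nd (nat_lit 78) (nat_lit 380) (nat_lit 0) (XT.lf (nat_lit 76) (nat_lit 3675620259) (nat_lit 0) (nat_lit 1488222797) (nat_lit 380) (nat_lit 1407736880) (nat_lit 233) (nat_lit 5) (nat_lit 232) (nat_lit 5) (nat_lit 237) (nat_lit 5) (nat_lit 245) (nat_lit 241) (nat_lit 234)) (XT.lf (nat_lit 76) (nat_lit 2090737307) (nat_lit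 0) (nat_lit 261013597) (nat_lit 456) (nat_lit 4270322900) (nat_lit 228) (nat_lit 5) (nat_lit 227) (nat_lit 5) (nat_lit 233) (nat_lit 5) (nat_lit 246) (nat_lit 241) (nat_lit 233))))))))
noncomputable def xc52 : XT := (XT.nd (nat_lit 1560) (nat_lit 4332) (nat_lit 0) (XT.nd (nat_lit 780) (nat_lit 5168) (nat_lit 0) (XT.nd (nat_lit 390) (nat_lit 3420) (nat_lit 0) (XT.nd (nat_lit 156) (nat_lit 1672) (nat_lit 0) (XT.nd (nat_lit 78) (nat_lit 76) (nat_lit 0) (XT.lf (nat_lit 0) (nat_lit 553676878) (nat_lit 380) (nat_lit 5534377421) (nat_lit 456) (nat_lit 593140227) (nat_lit 223) (nat_lit 5) (nat_lit 228) (nat_lit 5) (nat_lit 229) (nat_lit 5) (nat_lit 247) (nat_lit 241) (nat_lit 232)) (XT.lf (nat_lit 0) (nat_lit 3032582683) (nat_lit 456) (nat_lit 935785990) (nat_lit 76) (nat_lit 2780085890) (nat_lit 222) (nat_lit 5) (nat_lit 228) (nat_lit 5) (nat_lit 223) (nat_lit 5) (nat_lit 248) (nat_lit 241) (nat_lit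 231))) (XT.nd (nat_lit 78) (nat_lit 1216) (nat_lit 0) (XT.lf (nat_lit 0) (nat_lit 4456471901) (nat_lit 456) (nat_lit 2203050116) (nat_lit 532) (nat_lit 165346019) (nat_lit 216) (nat_lit 5) (nat_lit 222) (nat_lit 5) (nat_lit 223) (nat_lit 5) (nat_lit 249) (nat_lit 241) (nat_lit 230)) (XT.nd (nat_lit 78) (nat_lit 608) (nat_lit 0) (XT.lf (nat_lit 0) (nat_lit 3118636723) (nat_lit 532) (nat_lit 209357227) (nat_lit 608) (nat_lit 3581898814) (nat_lit 208) (nat_lit 5) (nat_lit 215) (nat_lit 5) (nat_lit 216) (nat_lit 5) (nat_lit 250) (nat_lit 241) (nat_lit 229)) (XT.lf (nat_lit 0) (nat_lit 1802011474) (nat_lit 608) (nat_lit 5054771451) (nat_lit 684) (nat_lit 147231842) (nat_lit 200) (nat_lit 5) (nat_lit 208) (nat_lit 5) (nat_lit 209) (nat_lit 5) (nat_lit 251) (nat_lit 241) (nat_lit 228))))) (XT.nd (nat_lit 156) (nat_lit 2660) (nat_lit 0) (XT.nd (nat_lit 78) (nat_lit 0) (nat_lit 0) (XT.lf (nat_lit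 0) (nat_lit 481515770) (nat_lit 684) (nat_lit 2765777222) (nat_lit 760) (nat_lit 3859642883) (nat_lit 190) (nat_lit 5) (nat_lit 199) (nat_lit 5) (nat_lit 200) (nat_lit 5) (nat_lit 252) (nat_lit 241) (nat_lit 227)) (XT.lf (nat_lit 0) (nat_lit 6415921788) (nat_lit 684) (nat_lit 263333155) (nat_lit 760) (nat_lit 540304845) (nat_lit 190) (nat_lit 5) (nat_lit 199) (nat_lit 5) (nat_lit 200) (nat_lit 5) (nat_lit 253) (nat_lit 241) (nat_lit 226))) (XT.nd (nat_lit 78) (nat_lit 1824) (nat_lit 0) (XT.lf (nat_lit 0) (nat_lit 2785328122) (nat_lit 836) (nat_lit 2119985967) (nat_lit 76) (nat_lit 2435386329) (nat_lit 179) (nat_lit 5) (nat_lit 190) (nat_lit 5) (nat_lit 180) (nat_lit 5) (nat_lit 254) (nat_lit 241) (nat_lit 225)) (XT.nd (nat_lit 78) (nat_lit 988) (nat_lit 0) (XT.lf (nat_lit 0) (nat_lit 4025716053) (nat_lit 836) (nat_lit 2121121142) (nat_lit 912) (nat_lit 1325114154) (nat_lit 168) (nat_lit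 5) (nat_lit 179) (nat_lit 5) (nat_lit 180) (nat_lit 5) (nat_lit 255) (nat_lit 241) (nat_lit 224)) (XT.lf (nat_lit 0) (nat_lit 1919492879) (nat_lit 988) (nat_lit 4813154759) (nat_lit 76) (nat_lit 880315123) (nat_lit 155) (nat_lit 5) (nat_lit 168) (nat_lit 5) (nat_lit 156) (nat_lit 5) (nat_lit 256) (nat_lit 241) (nat_lit 223)))))) (XT.nd (nat_lit 390) (nat_lit 1976) (nat_lit 0) (XT.nd (nat_lit 156) (nat_lit 1064) (nat_lit 0) (XT.nd (nat_lit 78) (nat_lit 1140) (nat_lit 0) (XT.lf (nat_lit 0) (nat_lit 1523376611) (nat_lit 988) (nat_lit 3689917035) (nat_lit 1064) (nat_lit 2550467227) (nat_lit 142) (nat_lit 5) (nat_lit 155) (nat_lit 5) (nat_lit 156) (nat_lit 5) (nat_lit 257) (nat_lit 241) (nat_lit 222)) (XT.lf (nat_lit 0) (nat_lit 212200915) (nat_lit 1064) (nat_lit 421335109) (nat_lit 1140) (nat_lit 7291910819) (nat_lit 127) (nat_lit 5) (nat_lit 141) (nat_lit 5) (nat_lit 142) (nat_lit 5) (nat_lit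 258) (nat_lit 241) (nat_lit 221))) (XT.nd (nat_lit 78) (nat_lit 1064) (nat_lit 0) (XT.lf (nat_lit 0) (nat_lit 3870800889) (nat_lit 1140) (nat_lit 1172718072) (nat_lit 76) (nat_lit 3053030155) (nat_lit 127) (nat_lit 5) (nat_lit 142) (nat_lit 5) (nat_lit 128) (nat_lit 5) (nat_lit 259) (nat_lit 241) (nat_lit 220)) (XT.nd (nat_lit 78) (nat_lit 532) (nat_lit 0) (XT.lf (nat_lit 0) (nat_lit 5665975520) (nat_lit 532) (nat_lit 1522197556) (nat_lit 608) (nat_lit 1090956427) (nat_lit 120) (nat_lit 5) (nat_lit 127) (nat_lit 5) (nat_lit 128) (nat_lit 5) (nat_lit 260) (nat_lit 241) (nat_lit 219)) (XT.lf (nat_lit 0) (nat_lit 2096293818) (nat_lit 532) (nat_lit 4165416138) (nat_lit 76) (nat_lit 2210769436) (nat_lit 113) (nat_lit 5) (nat_lit 120) (nat_lit 5) (nat_lit 114) (nat_lit 5) (nat_lit 261) (nat_lit 241) (nat_lit 218))))) (XT.nd (nat_lit 156) (nat_lit 988) (nat_lit 0) (XT.nd (nat_lit 78) (nat_lit 456)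 (nat_lit 0) (XT.lf (nat_lit 0) (nat_lit 2847154485) (nat_lit 532) (nat_lit 2511744764) (nat_lit 608) (nat_lit 3318530990) (nat_lit 106) (nat_lit 5) (nat_lit 113) (nat_lit 5) (nat_lit 114) (nat_lit 5) (nat_lit 262) (nat_lit 241) (nat_lit 217)) (XT.lf (nat_lit 0) (nat_lit 1281687978) (nat_lit 456) (nat_lit 7445683136) (nat_lit 532) (nat_lit 167369880) (nat_lit 100) (nat_lit 5) (nat_lit 106) (nat_lit 5) (nat_lit 107) (nat_lit 5) (nat_lit 263) (nat_lit 241) (nat_lit 216))) (XT.nd (nat_lit 78) (nat_lit 912) (nat_lit 0) (XT.lf (nat_lit 0) (nat_lit 3042611607) (nat_lit 532) (nat_lit 440366749) (nat_lit 76) (nat_lit 5640520917) (nat_lit 99) (nat_lit 5) (nat_lit 106) (nat_lit 5) (nat_lit 100) (nat_lit 5) (nat_lit 264) (nat_lit 241) (nat_lit 215)) (XT.nd (nat_lit 78) (nat_lit 456) (nat_lit 0) (XT.lf (nat_lit 0) (nat_lit 6367496424) (nat_lit 532) (nat_lit 2272571766) (nat_lit 76) (nat_lit 725188946)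 (nat_lit 93) (nat_lit 5) (nat_lit 100) (nat_lit 5) (nat_lit 94) (nat_lit 5) (nat_lit 265) (nat_lit 241) (nat_lit 214)) (XT.lf (nat_lit 0) (nat_lit 212079588) (nat_lit 456) (nat_lit 4288430923) (nat_lit 76) (nat_lit 5119527561) (nat_lit 87) (nat_lit 5) (nat_lit 93) (nat_lit 5) (nat_lit 88) (nat_lit 5) (nat_lit 266) (nat_lit 241) (nat_lit 213))))))) (XT.nd (nat_lit 780) (nat_lit 1748) (nat_lit 0) (XT.nd (nat_lit 390) (nat_lit 1064) (nat_lit 0) (XT.nd (nat_lit 156) (nat_lit 760) (nat_lit 0) (XT.nd (nat_lit 78) (nat_lit 380) (nat_lit 0) (XT.lf (nat_lit 0) (nat_lit 3385606151) (nat_lit 380) (nat_lit 81136071) (nat_lit 456) (nat_lit 6421841436) (nat_lit 82) (nat_lit 5) (nat_lit 87) (nat_lit 5) (nat_lit 88) (nat_lit 5) (nat_lit 267) (nat_lit 241) (nat_lit 212)) (XT.lf (nat_lit 0) (nat_lit 1216919925) (nat_lit 380) (nat_lit 5660822536) (nat_lit 456) (nat_lit 3293297247) (nat_lit 77) (nat_lit 5)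 (nat_lit 82) (nat_lit 5) (nat_lit 83) (nat_lit 5) (nat_lit 268) (nat_lit 241) (nat_lit 211))) (XT.nd (nat_lit 78) (nat_lit 760) (nat_lit 0) (XT.lf (nat_lit 0) (nat_lit 9335198137) (nat_lit 380) (nat_lit 1089238319) (nat_lit 456) (nat_lit 44505242) (nat_lit 77) (nat_lit 5) (nat_lit 82) (nat_lit 5) (nat_lit 83) (nat_lit 5) (nat_lit 269) (nat_lit 241) (nat_lit 210)) (XT.nd (nat_lit 78) (nat_lit 304) (nat_lit 0) (XT.lf (nat_lit 0) (nat_lit 3306454758) (nat_lit 456) (nat_lit 3754349211) (nat_lit 76) (nat_lit 3720057704) (nat_lit 71) (nat_lit 5) (nat_lit 77) (nat_lit 5) (nat_lit 72) (nat_lit 5) (nat_lit 270) (nat_lit 241) (nat_lit 209)) (XT.lf (nat_lit 0) (nat_lit 4467510893) (nat_lit 304) (nat_lit 2326719977) (nat_lit 380) (nat_lit 4315272226) (nat_lit 67) (nat_lit 5) (nat_lit 71) (nat_lit 5) (nat_lit 72) (nat_lit 5) (nat_lit 271) (nat_lit 241) (nat_lit 208))))) (XT.nd (nat_lit 156) (nat_lit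 684) (nat_lit 0) (XT.nd (nat_lit 78) (nat_lit 76) (nat_lit 0) (XT.lf (nat_lit 0) (nat_lit 1613253896) (nat_lit 304) (nat_lit 8830772610) (nat_lit 380) (nat_lit 1011153850) (nat_lit 63) (nat_lit 5) (nat_lit 67) (nat_lit 5) (nat_lit 68) (nat_lit 5) (nat_lit 272) (nat_lit 241) (nat_lit 207)) (XT.lf (nat_lit 0) (nat_lit 2412610114) (nat_lit 380) (nat_lit 1560378021) (nat_lit 76) (nat_lit 7844587393) (nat_lit 62) (nat_lit 5) (nat_lit 67) (nat_lit 5) (nat_lit 63) (nat_lit 5) (nat_lit 273) (nat_lit 241) (nat_lit 206))) (XT.nd (nat_lit 78) (nat_lit 380) (nat_lit 0) (XT.lf (nat_lit 0) (nat_lit 5981154070) (nat_lit 380) (nat_lit 5056253395) (nat_lit 76) (nat_lit 1160752439) (nat_lit 58) (nat_lit 5) (nat_lit 63) (nat_lit 5) (nat_lit 59) (nat_lit 5) (nat_lit 274) (nat_lit 241) (nat_lit 205)) (XT.nd (nat_lit 78) (nat_lit 76) (nat_lit 0) (XT.lf (nat_lit 0) (nat_lit 3635030928) (nat_lit 304) (nat_lit 6101333364)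 (nat_lit 380) (nat_lit 2861357184) (nat_lit 54) (nat_lit 5) (nat_lit 58) (nat_lit 5) (nat_lit 59) (nat_lit 5) (nat_lit 275) (nat_lit 241) (nat_lit 204)) (XT.lf (nat_lit 0) (nat_lit 620643039) (nat_lit 380) (nat_lit 264935509) (nat_lit 76) (nat_lit 12132527440) (nat_lit 53) (nat_lit 5) (nat_lit 58) (nat_lit 5) (nat_lit 54) (nat_lit 5) (nat_lit 276) (nat_lit 241) (nat_lit 203)))))) (XT.nd (nat_lit 390) (nat_lit 684) (nat_lit 0) (XT.nd (nat_lit 156) (nat_lit 532) (nat_lit 0) (XT.nd (nat_lit 78) (nat_lit 304) (nat_lit 0) (XT.lf (nat_lit 0) (nat_lit 4271549184) (nat_lit 304) (nat_lit 4594610964) (nat_lit 76) (nat_lit 4591052026) (nat_lit 50) (nat_lit 5) (nat_lit 54) (nat_lit 5) (nat_lit 51) (nat_lit 5) (nat_lit 277) (nat_lit 241) (nat_lit 202)) (XT.lf (nat_lit 0) (nat_lit 4510015691) (nat_lit 304) (nat_lit 3575271403) (nat_lit 380) (nat_lit 5833741651) (nat_lit 46) (nat_lit 5) (nat_lit 50) (nat_lit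 5) (nat_lit 51) (nat_lit 5) (nat_lit 278) (nat_lit 241) (nat_lit 201))) (XT.nd (nat_lit 78) (nat_lit 532) (nat_lit 0) (XT.lf (nat_lit 0) (nat_lit 12084085293) (nat_lit 380) (nat_lit 358121888) (nat_lit 76) (nat_lit 1962053635) (nat_lit 46) (nat_lit 5) (nat_lit 51) (nat_lit 5) (nat_lit 47) (nat_lit 5) (nat_lit 279) (nat_lit 241) (nat_lit 200)) (XT.nd (nat_lit 78) (nat_lit 228) (nat_lit 0) (XT.lf (nat_lit 0) (nat_lit 1398218978) (nat_lit 304) (nat_lit 5734493745) (nat_lit 76) (nat_lit 7779115120) (nat_lit 42) (nat_lit 5) (nat_lit 46) (nat_lit 5) (nat_lit 43) (nat_lit 5) (nat_lit 280) (nat_lit 241) (nat_lit 199)) (XT.lf (nat_lit 0) (nat_lit 3705408137) (nat_lit 228) (nat_lit 1521529745) (nat_lit 304) (nat_lit 10218111761) (nat_lit 39) (nat_lit 5) (nat_lit 42) (nat_lit 5) (nat_lit 43) (nat_lit 5) (nat_lit 281) (nat_lit 241) (nat_lit 198))))) (XT.nd (nat_lit 234) (nat_lit 152) (nat_lit 0) (XT.nd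 (nat_lit 78) (nat_lit 532) (nat_lit 0) (XT.lf (nat_lit 0) (nat_lit 9283365196) (nat_lit 304) (nat_lit 2403510377) (nat_lit 76) (nat_lit 4317099514) (nat_lit 39) (nat_lit 5) (nat_lit 43) (nat_lit 5) (nat_lit 40) (nat_lit 5) (nat_lit 282) (nat_lit 241) (nat_lit 197)) (XT.nd (nat_lit 78) (nat_lit 304) (nat_lit 0) (XT.lf (nat_lit 0) (nat_lit 7438853409) (nat_lit 228) (nat_lit 6128383763) (nat_lit 304) (nat_lit 3022995436) (nat_lit 36) (nat_lit 5) (nat_lit 39) (nat_lit 5) (nat_lit 40) (nat_lit 5) (nat_lit 283) (nat_lit 241) (nat_lit 196)) (XT.lf (nat_lit 0) (nat_lit 531249768) (nat_lit 228) (nat_lit 280739528) (nat_lit 304) (nat_lit 16394603124) (nat_lit 32) (nat_lit 5) (nat_lit 35) (nat_lit 5) (nat_lit 36) (nat_lit 5) (nat_lit 284) (nat_lit 241) (nat_lit 195)))) (XT.nd (nat_lit 78) (nat_lit 152) (nat_lit 0) (XT.lf (nat_lit 0) (nat_lit 4869210828) (nat_lit 304) (nat_lit 7137626526) (nat_lit 76)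 (nat_lit 5843354357) (nat_lit 32) (nat_lit 5) (nat_lit 36) (nat_lit 5) (nat_lit 33) (nat_lit 5) (nat_lit 285) (nat_lit 241) (nat_lit 194)) (XT.nd (nat_lit 78) (nat_lit 0) (nat_lit 0) (XT.lf (nat_lit 0) (nat_lit 2845708082) (nat_lit 152) (nat_lit 6257550200) (nat_lit 228) (nat_lit 9423598156) (nat_lit 30) (nat_lit 5) (nat_lit 32) (nat_lit 5) (nat_lit 33) (nat_lit 5) (nat_lit 286) (nat_lit 241) (nat_lit 193)) (XT.lf (nat_lit 0) (nat_lit 13395807860) (nat_lit 152) (nat_lit 172345733) (nat_lit 228) (nat_lit 5668725890) (nat_lit 30) (nat_lit 5) (nat_lit 32) (nat_lit 5) (nat_lit 33) (nat_lit 5) (nat_lit 287) (nat_lit 241) (nat_lit 192))))))))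
noncomputable def xc53 : XT := (XT.nd (nat_lit 1560) (nat_lit 532) (nat_lit 0) (XT.nd (nat_lit 780) (nat_lit 380) (nat_lit 0) (XT.nd (nat_lit 390) (nat_lit 380) (nat_lit 0) (XT.nd (nat_lit 156) (nat_lit 304) (nat_lit 0) (XT.nd (nat_lit 78) (nat_lit 76) (nat_lit 0) (XT.lf (nat_lit 0) (nat_lit 4438791976) (nat_lit 228) (nat_lit 13867940636) (nat_lit 304) (nat_lit 1674252612) (nat_lit 27) (nat_lit 5) (nat_lit 30) (nat_lit 5) (nat_lit 31) (nat_lit 5) (nat_lit 288) (nat_lit 241) (nat_lit 191)) (XT.lf (nat_lit 0) (nat_lit 2482393999) (nat_lit 304) (nat_lit 5510244408) (nat_lit 76) (nat_lit 12768670034) (nat_lit 26) (nat_lit 5) (nat_lit 30) (nat_lit 5) (nat_lit 27) (nat_lit 5) (nat_lit 289) (nat_lit 241) (nat_lit 190))) (XT.nd (nat_lit 78) (nat_lit 152) (nat_lit 0) (XT.lf (nat_lit 0) (nat_lit 5030369691) (nat_lit 152) (nat_lit 1782134313) (nat_lit 228) (nat_lit 14767722200) (nat_lit 24) (nat_lit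 5) (nat_lit 26) (nat_lit 5) (nat_lit 27) (nat_lit 5) (nat_lit 290) (nat_lit 241) (nat_lit 189)) (XT.nd (nat_lit 78) (nat_lit 152) (nat_lit 0) (XT.lf (nat_lit 0) (nat_lit 11414907816) (nat_lit 228) (nat_lit 6344648765) (nat_lit 76) (nat_lit 4678939056) (nat_lit 24) (nat_lit 5) (nat_lit 27) (nat_lit 5) (nat_lit 25) (nat_lit 5) (nat_lit 291) (nat_lit 241) (nat_lit 188)) (XT.lf (nat_lit 0) (nat_lit 4368254884) (nat_lit 152) (nat_lit 11894345671) (nat_lit 228) (nat_lit 7076698575) (nat_lit 22) (nat_lit 5) (nat_lit 24) (nat_lit 5) (nat_lit 25) (nat_lit 5) (nat_lit 292) (nat_lit 241) (nat_lit 187))))) (XT.nd (nat_lit 156) (nat_lit 152) (nat_lit 0) (XT.nd (nat_lit 78) (nat_lit 228) (nat_lit 0) (XT.lf (nat_lit 0) (nat_lit 15681572155) (nat_lit 152) (nat_lit 5693091098) (nat_lit 228) (nat_lit 2909892030) (nat_lit 22) (nat_lit 5) (nat_lit 24) (nat_lit 5) (nat_lit 25) (nat_lit 5) (nat_lit 293) (nat_lit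 241) (nat_lit 186)) (XT.lf (nat_lit 0) (nat_lit 1424519988) (nat_lit 228) (nat_lit 23037538491) (nat_lit 76) (nat_lit 815024110) (nat_lit 19) (nat_lit 5) (nat_lit 22) (nat_lit 5) (nat_lit 20) (nat_lit 5) (nat_lit 294) (nat_lit 241) (nat_lit 185))) (XT.nd (nat_lit 78) (nat_lit 152) (nat_lit 0) (XT.lf (nat_lit 0) (nat_lit 6022342599) (nat_lit 228) (nat_lit 12664971435) (nat_lit 76) (nat_lit 7627915216) (nat_lit 19) (nat_lit 5) (nat_lit 22) (nat_lit 5) (nat_lit 20) (nat_lit 5) (nat_lit 295) (nat_lit 241) (nat_lit 184)) (XT.nd (nat_lit 78) (nat_lit 152) (nat_lit 0) (XT.lf (nat_lit 0) (nat_lit 10811401948) (nat_lit 228) (nat_lit 1835354964) (nat_lit 76) (nat_lit 14759746386) (nat_lit 19) (nat_lit 5) (nat_lit 22) (nat_lit 5) (nat_lit 20) (nat_lit 5) (nat_lit 296) (nat_lit 241) (nat_lit 183)) (XT.lf (nat_lit 0) (nat_lit 9665708508) (nat_lit 152) (nat_lit 6230304751) (nat_lit 228) (nat_lit 12654702367)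 (nat_lit 17) (nat_lit 5) (nat_lit 19) (nat_lit 5) (nat_lit 20) (nat_lit 5) (nat_lit 297) (nat_lit 241) (nat_lit 182)))))) (XT.nd (nat_lit 390) (nat_lit 76) (nat_lit 0) (XT.nd (nat_lit 156) (nat_lit 228) (nat_lit 0) (XT.nd (nat_lit 78) (nat_lit 76) (nat_lit 0) (XT.lf (nat_lit 0) (nat_lit 21222995306) (nat_lit 228) (nat_lit 8034336734) (nat_lit 76) (nat_lit 495217131) (nat_lit 17) (nat_lit 5) (nat_lit 20) (nat_lit 5) (nat_lit 18) (nat_lit 4) (nat_lit 298) (nat_lit 241) (nat_lit 181)) (XT.lf (nat_lit 0) (nat_lit 3305355664) (nat_lit 76) (nat_lit 23571519716) (nat_lit 152) (nat_lit 4135834745) (nat_lit 16) (nat_lit 5) (nat_lit 17) (nat_lit 5) (nat_lit 18) (nat_lit 4) (nat_lit 299) (nat_lit 241) (nat_lit 180))) (XT.nd (nat_lit 78) (nat_lit 152) (nat_lit 0) (XT.lf (nat_lit 0) (nat_lit 518402358) (nat_lit 152) (nat_lit 17013140011) (nat_lit 76) (nat_lit 14802742762) (nat_lit 15) (nat_lit 5) (nat_lit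 17) (nat_lit 5) (nat_lit 16) (nat_lit 5) (nat_lit 300) (nat_lit 241) (nat_lit 179)) (XT.nd (nat_lit 78) (nat_lit 152) (nat_lit 0) (XT.lf (nat_lit 0) (nat_lit 5288826139) (nat_lit 152) (nat_lit 5877634245) (nat_lit 76) (nat_lit 22555225697) (nat_lit 15) (nat_lit 5) (nat_lit 17) (nat_lit 5) (nat_lit 16) (nat_lit 5) (nat_lit 301) (nat_lit 241) (nat_lit 178)) (XT.lf (nat_lit 0) (nat_lit 5880175522) (nat_lit 152) (nat_lit 4443848103) (nat_lit 228) (nat_lit 24853689654) (nat_lit 13) (nat_lit 5) (nat_lit 15) (nat_lit 5) (nat_lit 16) (nat_lit 5) (nat_lit 302) (nat_lit 241) (nat_lit 177))))) (XT.nd (nat_lit 156) (nat_lit 76) (nat_lit 0) (XT.nd (nat_lit 78) (nat_lit 0) (nat_lit 0) (XT.lf (nat_lit 0) (nat_lit 15667753742) (nat_lit 228) (nat_lit 18430307026) (nat_lit 76) (nat_lit 2606819577) (nat_lit 13) (nat_lit 5) (nat_lit 16) (nat_lit 5) (nat_lit 14) (nat_lit 4) (nat_lit 303) (nat_lit 241) (nat_lit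 176)) (XT.lf (nat_lit 0) (nat_lit 21295459076) (nat_lit 228) (nat_lit 7110802221) (nat_lit 76) (nat_lit 9901680513) (nat_lit 13) (nat_lit 5) (nat_lit 16) (nat_lit 5) (nat_lit 14) (nat_lit 4) (nat_lit 304) (nat_lit 241) (nat_lit 175))) (XT.nd (nat_lit 78) (nat_lit 0) (nat_lit 0) (XT.lf (nat_lit 0) (nat_lit 4824793952) (nat_lit 76) (nat_lit 22399406857) (nat_lit 152) (nat_lit 12766403819) (nat_lit 12) (nat_lit 5) (nat_lit 13) (nat_lit 5) (nat_lit 14) (nat_lit 4) (nat_lit 305) (nat_lit 241) (nat_lit 174)) (XT.nd (nat_lit 78) (nat_lit 0) (nat_lit 0) (XT.lf (nat_lit 0) (nat_lit 17462994005) (nat_lit 76) (nat_lit 16033718933) (nat_lit 152) (nat_lit 8259303666) (nat_lit 12) (nat_lit 5) (nat_lit 13) (nat_lit 5) (nat_lit 14) (nat_lit 4) (nat_lit 306) (nat_lit 241) (nat_lit 173)) (XT.lf (nat_lit 0) (nat_lit 30692369983) (nat_lit 76) (nat_lit 9365846283) (nat_lit 152) (nat_lit 3552256244) (nat_lit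 12) (nat_lit 5) (nat_lit 13) (nat_lit 5) (nat_lit 14) (nat_lit 4) (nat_lit 307) (nat_lit 241) (nat_lit 172))))))) (XT.nd (nat_lit 780) (nat_lit 152) (nat_lit 0) (XT.nd (nat_lit 390) (nat_lit 152) (nat_lit 0) (XT.nd (nat_lit 156) (nat_lit 0) (nat_lit 0) (XT.nd (nat_lit 78) (nat_lit 152) (nat_lit 0) (XT.lf (nat_lit 0) (nat_lit 1339291181) (nat_lit 152) (nat_lit 1027097626) (nat_lit 76) (nat_lit 43191605003) (nat_lit 11) (nat_lit 5) (nat_lit 13) (nat_lit 5) (nat_lit 12) (nat_lit 5) (nat_lit 308) (nat_lit 241) (nat_lit 171)) (XT.lf (nat_lit 0) (nat_lit 6540873923) (nat_lit 228) (nat_lit 36036628504) (nat_lit 76) (nat_lit 5020196104) (nat_lit 9) (nat_lit 5) (nat_lit 12) (nat_lit 5) (nat_lit 10) (nat_lit 4) (nat_lit 309) (nat_lit 241) (nat_lit 170))) (XT.nd (nat_lit 78) (nat_lit 0) (nat_lit 0) (XT.lf (nat_lit 0) (nat_lit 12015089519) (nat_lit 228) (nat_lit 24999850824) (nat_lit 76) (nat_lit 12724100299)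 (nat_lit 9) (nat_lit 5) (nat_lit 12) (nat_lit 5) (nat_lit 10) (nat_lit 4) (nat_lit 310) (nat_lit 241) (nat_lit 169)) (XT.nd (nat_lit 78) (nat_lit 0) (nat_lit 0) (XT.lf (nat_lit 0) (nat_lit 17742055355) (nat_lit 228) (nat_lit 13446376824) (nat_lit 76) (nat_lit 20799673894) (nat_lit 9) (nat_lit 5) (nat_lit 12) (nat_lit 5) (nat_lit 10) (nat_lit 4) (nat_lit 311) (nat_lit 241) (nat_lit 168)) (XT.lf (nat_lit 0) (nat_lit 23735407065) (nat_lit 228) (nat_lit 1348698232) (nat_lit 76) (nat_lit 29266144443) (nat_lit 9) (nat_lit 5) (nat_lit 12) (nat_lit 5) (nat_lit 10) (nat_lit 4) (nat_lit 312) (nat_lit 241) (nat_lit 167))))) (XT.nd (nat_lit 156) (nat_lit 76) (nat_lit 0) (XT.nd (nat_lit 78) (nat_lit 0) (nat_lit 0) (XT.lf (nat_lit 0) (nat_lit 11547318729) (nat_lit 76) (nat_lit 18573095696) (nat_lit 152) (nat_lit 26707351372) (nat_lit 8) (nat_lit 5) (nat_lit 9) (nat_lit 5) (nat_lit 10) (nat_lit 4) (nat_lit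 313) (nat_lit 241) (nat_lit 166)) (XT.lf (nat_lit 0) (nat_lit 25085358724) (nat_lit 76) (nat_lit 11734792963) (nat_lit 152) (nat_lit 22609165250) (nat_lit 8) (nat_lit 5) (nat_lit 9) (nat_lit 5) (nat_lit 10) (nat_lit 4) (nat_lit 314) (nat_lit 241) (nat_lit 165))) (XT.nd (nat_lit 78) (nat_lit 76) (nat_lit 0) (XT.lf (nat_lit 0) (nat_lit 39270813442) (nat_lit 76) (nat_lit 4566534633) (nat_lit 152) (nat_lit 18324145930) (nat_lit 8) (nat_lit 5) (nat_lit 9) (nat_lit 5) (nat_lit 10) (nat_lit 4) (nat_lit 315) (nat_lit 241) (nat_lit 164)) (XT.nd (nat_lit 78) (nat_lit 76) (nat_lit 0) (XT.lf (nat_lit 0) (nat_lit 51217056356) (nat_lit 152) (nat_lit 10921689566) (nat_lit 0) (nat_lit 2891205908) (nat_lit 8) (nat_lit 5) (nat_lit 10) (nat_lit 4) (nat_lit 8) (nat_lit 4) (nat_lit 316) (nat_lit 241) (nat_lit 163)) (XT.lf (nat_lit 0) (nat_lit 1603817145) (nat_lit 76) (nat_lit 57407438469) (nat_lit 76) (nat_lit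 9029232210) (nat_lit 7) (nat_lit 4) (nat_lit 8) (nat_lit 5) (nat_lit 8) (nat_lit 4) (nat_lit 317) (nat_lit 241) (nat_lit 162)))))) (XT.nd (nat_lit 390) (nat_lit 76) (nat_lit 0) (XT.nd (nat_lit 156) (nat_lit 0) (nat_lit 0) (XT.nd (nat_lit 78) (nat_lit 76) (nat_lit 0) (XT.lf (nat_lit 0) (nat_lit 14957469370) (nat_lit 76) (nat_lit 52334630796) (nat_lit 76) (nat_lit 3906561861) (nat_lit 7) (nat_lit 4) (nat_lit 8) (nat_lit 5) (nat_lit 8) (nat_lit 4) (nat_lit 318) (nat_lit 241) (nat_lit 161)) (XT.lf (nat_lit 0) (nat_lit 1428592956) (nat_lit 152) (nat_lit 45575513497) (nat_lit 76) (nat_lit 27510679537) (nat_lit 6) (nat_lit 5) (nat_lit 8) (nat_lit 5) (nat_lit 7) (nat_lit 4) (nat_lit 319) (nat_lit 241) (nat_lit 160))) (XT.nd (nat_lit 78) (nat_lit 0) (nat_lit 0) (XT.lf (nat_lit 0) (nat_lit 6936253053) (nat_lit 152) (nat_lit 34440190418) (nat_lit 76) (nat_lit 36619533225) (nat_lit 6) (nat_lit 5) (nat_lit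 8) (nat_lit 5) (nat_lit 7) (nat_lit 4) (nat_lit 320) (nat_lit 241) (nat_lit 159)) (XT.nd (nat_lit 78) (nat_lit 0) (nat_lit 0) (XT.lf (nat_lit 0) (nat_lit 12705762999) (nat_lit 152) (nat_lit 22771158482) (nat_lit 76) (nat_lit 46174727778) (nat_lit 6) (nat_lit 5) (nat_lit 8) (nat_lit 5) (nat_lit 7) (nat_lit 4) (nat_lit 321) (nat_lit 241) (nat_lit 158)) (XT.lf (nat_lit 0) (nat_lit 18750859722) (nat_lit 152) (nat_lit 10540634282) (nat_lit 76) (nat_lit 56199013661) (nat_lit 6) (nat_lit 5) (nat_lit 8) (nat_lit 5) (nat_lit 7) (nat_lit 4) (nat_lit 322) (nat_lit 241) (nat_lit 157))))) (XT.nd (nat_lit 234) (nat_lit 0) (nat_lit 0) (XT.nd (nat_lit 78) (nat_lit 0) (nat_lit 0) (XT.lf (nat_lit 0) (nat_lit 2325888949) (nat_lit 76) (nat_lit 22782405228) (nat_lit 152) (nat_lit 64412727138) (nat_lit 5) (nat_lit 5) (nat_lit 6) (nat_lit 5) (nat_lit 7) (nat_lit 4) (nat_lit 323) (nat_lit 241) (nat_lit 156)) (XT.nd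 (nat_lit 78) (nat_lit 0) (nat_lit 0) (XT.lf (nat_lit 0) (nat_lit 16035692433) (nat_lit 76) (nat_lit 15844528730) (nat_lit 152) (nat_lit 61869954966) (nat_lit 5) (nat_lit 5) (nat_lit 6) (nat_lit 5) (nat_lit 7) (nat_lit 4) (nat_lit 324) (nat_lit 241) (nat_lit 155)) (XT.lf (nat_lit 0) (nat_lit 30411639269) (nat_lit 76) (nat_lit 8567785495) (nat_lit 152) (nat_lit 59211716947) (nat_lit 5) (nat_lit 5) (nat_lit 6) (nat_lit 5) (nat_lit 7) (nat_lit 4) (nat_lit 325) (nat_lit 241) (nat_lit 154)))) (XT.nd (nat_lit 78) (nat_lit 0) (nat_lit 0) (XT.lf (nat_lit 0) (nat_lit 45487957901) (nat_lit 76) (nat_lit 934849944) (nat_lit 152) (nat_lit 56431683941) (nat_lit 5) (nat_lit 5) (nat_lit 6) (nat_lit 5) (nat_lit 7) (nat_lit 4) (nat_lit 326) (nat_lit 241) (nat_lit 153)) (XT.nd (nat_lit 78) (nat_lit 0) (nat_lit 0) (XT.lf (nat_lit 0) (nat_lit 54296077478) (nat_lit 152) (nat_lit 46518769975) (nat_lit 0) (nat_lit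 6934442574) (nat_lit 5) (nat_lit 5) (nat_lit 7) (nat_lit 4) (nat_lit 5) (nat_lit 4) (nat_lit 327) (nat_lit 241) (nat_lit 152)) (XT.lf (nat_lit 0) (nat_lit 62562601193) (nat_lit 152) (nat_lit 35155004351) (nat_lit 0) (nat_lit 15171246524) (nat_lit 5) (nat_lit 5) (nat_lit 7) (nat_lit 4) (nat_lit 5) (nat_lit 4) (nat_lit 328) (nat_lit 241) (nat_lit 151))))))))
noncomputable def xc54 : XT := (XT.nd (nat_lit 1560) (nat_lit 5624) (nat_lit 0) (XT.nd (nat_lit 780) (nat_lit 6536) (nat_lit 0) (XT.nd (nat_lit 390) (nat_lit 2128) (nat_lit 0) (XT.nd (nat_lit 156) (nat_lit 304) (nat_lit 0) (XT.nd (nat_lit 78) (nat_lit 380) (nat_lit 0) (XT.lf (nat_lit 0) (nat_lit 939037771) (nat_lit 0) (nat_lit 939037771) (nat_lit 228) (nat_lit 1367808822) (nat_lit 236) (nat_lit 5) (nat_lit 236) (nat_lit 3) (nat_lit 239) (nat_lit 3) (nat_lit 242) (nat_lit 242) (nat_lit 236)) (XT.lf (nat_lit 0) (nat_lit 1083753971) (nat_lit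 380) (nat_lit 81293184) (nat_lit 380) (nat_lit 5356047157) (nat_lit 231) (nat_lit 3) (nat_lit 236) (nat_lit 3) (nat_lit 236) (nat_lit 5) (nat_lit 243) (nat_lit 242) (nat_lit 235))) (XT.nd (nat_lit 78) (nat_lit 304) (nat_lit 0) (XT.lf (nat_lit 76) (nat_lit 4613172060) (nat_lit 0) (nat_lit 223853094) (nat_lit 380) (nat_lit 1721265756) (nat_lit 232) (nat_lit 5) (nat_lit 231) (nat_lit 3) (nat_lit 236) (nat_lit 5) (nat_lit 244) (nat_lit 242) (nat_lit 234)) (XT.nd (nat_lit 78) (nat_lit 0) (nat_lit 0) (XT.lf (nat_lit 0) (nat_lit 1936895302) (nat_lit 380) (nat_lit 3760769706) (nat_lit 456) (nat_lit 906200370) (nat_lit 227) (nat_lit 5) (nat_lit 232) (nat_lit 5) (nat_lit 233) (nat_lit 5) (nat_lit 245) (nat_lit 242) (nat_lit 233)) (XT.lf (nat_lit 76) (nat_lit 1128065219) (nat_lit 0) (nat_lit 4420772889) (nat_lit 456) (nat_lit 1109233992) (nat_lit 228) (nat_lit 5) (nat_lit 227) (nat_lit 5) (nat_lit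 233) (nat_lit 5) (nat_lit 246) (nat_lit 242) (nat_lit 232))))) (XT.nd (nat_lit 156) (nat_lit 1672) (nat_lit 0) (XT.nd (nat_lit 78) (nat_lit 0) (nat_lit 0) (XT.lf (nat_lit 0) (nat_lit 2393472462) (nat_lit 456) (nat_lit 535414676) (nat_lit 532) (nat_lit 3791773771) (nat_lit 221) (nat_lit 5) (nat_lit 227) (nat_lit 5) (nat_lit 228) (nat_lit 5) (nat_lit 247) (nat_lit 242) (nat_lit 231)) (XT.lf (nat_lit 76) (nat_lit 4659212157) (nat_lit 0) (nat_lit 1223911170) (nat_lit 532) (nat_lit 908816398) (nat_lit 222) (nat_lit 5) (nat_lit 221) (nat_lit 5) (nat_lit 228) (nat_lit 5) (nat_lit 248) (nat_lit 242) (nat_lit 230))) (XT.nd (nat_lit 78) (nat_lit 1216) (nat_lit 0) (XT.lf (nat_lit 0) (nat_lit 2466594225) (nat_lit 532) (nat_lit 3715270665) (nat_lit 76) (nat_lit 689854090) (nat_lit 215) (nat_lit 5) (nat_lit 222) (nat_lit 5) (nat_lit 216) (nat_lit 5) (nat_lit 249) (nat_lit 242) (nat_lit 229)) (XT.nd (nat_lit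 78) (nat_lit 684) (nat_lit 0) (XT.lf (nat_lit 0) (nat_lit 1676545045) (nat_lit 532) (nat_lit 4171109832) (nat_lit 608) (nat_lit 1112713318) (nat_lit 208) (nat_lit 5) (nat_lit 215) (nat_lit 5) (nat_lit 216) (nat_lit 5) (nat_lit 250) (nat_lit 242) (nat_lit 228)) (XT.lf (nat_lit 0) (nat_lit 209526223) (nat_lit 608) (nat_lit 1939963520) (nat_lit 684) (nat_lit 4908515879) (nat_lit 199) (nat_lit 5) (nat_lit 207) (nat_lit 5) (nat_lit 208) (nat_lit 5) (nat_lit 251) (nat_lit 242) (nat_lit 227)))))) (XT.nd (nat_lit 390) (nat_lit 3192) (nat_lit 0) (XT.nd (nat_lit 156) (nat_lit 2584) (nat_lit 0) (XT.nd (nat_lit 78) (nat_lit 760) (nat_lit 0) (XT.lf (nat_lit 0) (nat_lit 5429348943) (nat_lit 684) (nat_lit 1224313207) (nat_lit 76) (nat_lit 510928660) (nat_lit 199) (nat_lit 5) (nat_lit 208) (nat_lit 5) (nat_lit 200) (nat_lit 5) (nat_lit 252) (nat_lit 242) (nat_lit 226)) (XT.lf (nat_lit 0) (nat_lit 1454964372)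 (nat_lit 760) (nat_lit 2674260025) (nat_lit 76) (nat_lit 3150806294) (nat_lit 189) (nat_lit 5) (nat_lit 199) (nat_lit 5) (nat_lit 190) (nat_lit 5) (nat_lit 253) (nat_lit 242) (nat_lit 225))) (XT.nd (nat_lit 78) (nat_lit 1824) (nat_lit 0) (XT.lf (nat_lit 0) (nat_lit 3266784811) (nat_lit 760) (nat_lit 1378375597) (nat_lit 836) (nat_lit 2759912554) (nat_lit 179) (nat_lit 5) (nat_lit 189) (nat_lit 5) (nat_lit 190) (nat_lit 5) (nat_lit 254) (nat_lit 242) (nat_lit 224)) (XT.nd (nat_lit 78) (nat_lit 912) (nat_lit 0) (XT.lf (nat_lit 0) (nat_lit 347688124) (nat_lit 912) (nat_lit 5629002396) (nat_lit 76) (nat_lit 1563189350) (nat_lit 167) (nat_lit 5) (nat_lit 179) (nat_lit 5) (nat_lit 168) (nat_lit 5) (nat_lit 255) (nat_lit 242) (nat_lit 223)) (XT.lf (nat_lit 0) (nat_lit 503199182) (nat_lit 912) (nat_lit 2956020733) (nat_lit 988) (nat_lit 4224779315) (nat_lit 155) (nat_lit 5) (nat_lit 167) (nat_lit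 5) (nat_lit 168) (nat_lit 5) (nat_lit 256) (nat_lit 242) (nat_lit 222))))) (XT.nd (nat_lit 156) (nat_lit 2128) (nat_lit 0) (XT.nd (nat_lit 78) (nat_lit 1064) (nat_lit 0) (XT.lf (nat_lit 0) (nat_lit 6636667761) (nat_lit 988) (nat_lit 911282462) (nat_lit 76) (nat_lit 290598237) (nat_lit 155) (nat_lit 5) (nat_lit 168) (nat_lit 5) (nat_lit 156) (nat_lit 5) (nat_lit 257) (nat_lit 242) (nat_lit 221)) (XT.lf (nat_lit 0) (nat_lit 1873386402) (nat_lit 1064) (nat_lit 2398145881) (nat_lit 76) (nat_lit 3731026752) (nat_lit 141) (nat_lit 5) (nat_lit 155) (nat_lit 5) (nat_lit 142) (nat_lit 5) (nat_lit 258) (nat_lit 242) (nat_lit 220))) (XT.nd (nat_lit 78) (nat_lit 1064) (nat_lit 0) (XT.lf (nat_lit 0) (nat_lit 4232983015) (nat_lit 1064) (nat_lit 755653990) (nat_lit 1140) (nat_lit 3188914156) (nat_lit 127) (nat_lit 5) (nat_lit 141) (nat_lit 5) (nat_lit 142) (nat_lit 5) (nat_lit 259) (nat_lit 242) (nat_lit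 219)) (XT.nd (nat_lit 78) (nat_lit 532) (nat_lit 0) (XT.lf (nat_lit 0) (nat_lit 2782321276) (nat_lit 532) (nat_lit 5423444087) (nat_lit 608) (nat_lit 157592001) (nat_lit 120) (nat_lit 5) (nat_lit 127) (nat_lit 5) (nat_lit 128) (nat_lit 5) (nat_lit 260) (nat_lit 242) (nat_lit 218)) (XT.lf (nat_lit 0) (nat_lit 1229580604) (nat_lit 456) (nat_lit 1666828400) (nat_lit 532) (nat_lit 5663682200) (nat_lit 113) (nat_lit 5) (nat_lit 119) (nat_lit 5) (nat_lit 120) (nat_lit 5) (nat_lit 261) (nat_lit 242) (nat_lit 217))))))) (XT.nd (nat_lit 780) (nat_lit 2432) (nat_lit 0) (XT.nd (nat_lit 390) (nat_lit 1216) (nat_lit 0) (XT.nd (nat_lit 156) (nat_lit 1368) (nat_lit 0) (XT.nd (nat_lit 78) (nat_lit 608) (nat_lit 0) (XT.lf (nat_lit 0) (nat_lit 6054506725) (nat_lit 532) (nat_lit 420179955) (nat_lit 76) (nat_lit 2293683017) (nat_lit 113) (nat_lit 5) (nat_lit 120) (nat_lit 5) (nat_lit 114) (nat_lit 5) (nat_lit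 262) (nat_lit 242) (nat_lit 216)) (XT.lf (nat_lit 0) (nat_lit 338383721) (nat_lit 608) (nat_lit 2162167992) (nat_lit 76) (nat_lit 6487891981) (nat_lit 105) (nat_lit 5) (nat_lit 113) (nat_lit 5) (nat_lit 106) (nat_lit 5) (nat_lit 263) (nat_lit 242) (nat_lit 215))) (XT.nd (nat_lit 78) (nat_lit 912) (nat_lit 0) (XT.lf (nat_lit 0) (nat_lit 3442325136) (nat_lit 532) (nat_lit 4061297764) (nat_lit 76) (nat_lit 1716783471) (nat_lit 99) (nat_lit 5) (nat_lit 106) (nat_lit 5) (nat_lit 100) (nat_lit 5) (nat_lit 264) (nat_lit 242) (nat_lit 214)) (XT.nd (nat_lit 78) (nat_lit 456) (nat_lit 0) (XT.lf (nat_lit 0) (nat_lit 3346457882) (nat_lit 456) (nat_lit 3322961289) (nat_lit 532) (nat_lit 2795840161) (nat_lit 93) (nat_lit 5) (nat_lit 99) (nat_lit 5) (nat_lit 100) (nat_lit 5) (nat_lit 265) (nat_lit 242) (nat_lit 213)) (XT.lf (nat_lit 0) (nat_lit 286173694) (nat_lit 456) (nat_lit 8343722620) (nat_lit 76)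 (nat_lit 1093951523) (nat_lit 87) (nat_lit 5) (nat_lit 93) (nat_lit 5) (nat_lit 88) (nat_lit 5) (nat_lit 266) (nat_lit 242) (nat_lit 212))))) (XT.nd (nat_lit 156) (nat_lit 836) (nat_lit 0) (XT.nd (nat_lit 78) (nat_lit 380) (nat_lit 0) (XT.lf (nat_lit 0) (nat_lit 3456994259) (nat_lit 456) (nat_lit 794565928) (nat_lit 76) (nat_lit 5743490606) (nat_lit 87) (nat_lit 5) (nat_lit 93) (nat_lit 5) (nat_lit 88) (nat_lit 5) (nat_lit 267) (nat_lit 242) (nat_lit 211)) (XT.lf (nat_lit 0) (nat_lit 6758862832) (nat_lit 456) (nat_lit 3128019393) (nat_lit 76) (nat_lit 394033909) (nat_lit 82) (nat_lit 5) (nat_lit 88) (nat_lit 5) (nat_lit 83) (nat_lit 5) (nat_lit 268) (nat_lit 242) (nat_lit 210))) (XT.nd (nat_lit 78) (nat_lit 456) (nat_lit 0) (XT.lf (nat_lit 0) (nat_lit 4871014636) (nat_lit 380) (nat_lit 5356205382) (nat_lit 456) (nat_lit 354077104) (nat_lit 77) (nat_lit 5) (nat_lit 82) (nat_lit 5) (nat_lit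 83) (nat_lit 5) (nat_lit 269) (nat_lit 242) (nat_lit 209)) (XT.nd (nat_lit 78) (nat_lit 0) (nat_lit 0) (XT.lf (nat_lit 0) (nat_lit 2343080250) (nat_lit 380) (nat_lit 532021416) (nat_lit 456) (nat_lit 8022158550) (nat_lit 71) (nat_lit 5) (nat_lit 76) (nat_lit 5) (nat_lit 77) (nat_lit 5) (nat_lit 270) (nat_lit 242) (nat_lit 208)) (XT.lf (nat_lit 0) (nat_lit 6270431367) (nat_lit 456) (nat_lit 469460003) (nat_lit 76) (nat_lit 4488897167) (nat_lit 71) (nat_lit 5) (nat_lit 77) (nat_lit 5) (nat_lit 72) (nat_lit 5) (nat_lit 271) (nat_lit 242) (nat_lit 207)))))) (XT.nd (nat_lit 390) (nat_lit 1140) (nat_lit 0) (XT.nd (nat_lit 156) (nat_lit 608) (nat_lit 0) (XT.nd (nat_lit 78) (nat_lit 380) (nat_lit 0) (XT.lf (nat_lit 0) (nat_lit 8063951534) (nat_lit 304) (nat_lit 1767799485) (nat_lit 380) (nat_lit 1745477162) (nat_lit 67) (nat_lit 5) (nat_lit 71) (nat_lit 5) (nat_lit 72) (nat_lit 5) (nat_lit 272)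 (nat_lit 242) (nat_lit 206)) (XT.lf (nat_lit 0) (nat_lit 1598967099) (nat_lit 380) (nat_lit 6909667704) (nat_lit 76) (nat_lit 3434109737) (nat_lit 62) (nat_lit 5) (nat_lit 67) (nat_lit 5) (nat_lit 63) (nat_lit 5) (nat_lit 273) (nat_lit 242) (nat_lit 205))) (XT.nd (nat_lit 78) (nat_lit 304) (nat_lit 0) (XT.lf (nat_lit 0) (nat_lit 1645279122) (nat_lit 304) (nat_lit 3418025332) (nat_lit 380) (nat_lit 7263245854) (nat_lit 58) (nat_lit 5) (nat_lit 62) (nat_lit 5) (nat_lit 63) (nat_lit 5) (nat_lit 274) (nat_lit 242) (nat_lit 204)) (XT.nd (nat_lit 78) (nat_lit 304) (nat_lit 0) (XT.lf (nat_lit 0) (nat_lit 8712144886) (nat_lit 380) (nat_lit 2079288907) (nat_lit 76) (nat_lit 1937959844) (nat_lit 58) (nat_lit 5) (nat_lit 63) (nat_lit 5) (nat_lit 59) (nat_lit 5) (nat_lit 275) (nat_lit 242) (nat_lit 203)) (XT.lf (nat_lit 0) (nat_lit 6953978718) (nat_lit 304) (nat_lit 5615487213) (nat_lit 380) (nat_lit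 582309053) (nat_lit 54) (nat_lit 5) (nat_lit 58) (nat_lit 5) (nat_lit 59) (nat_lit 5) (nat_lit 276) (nat_lit 242) (nat_lit 202))))) (XT.nd (nat_lit 234) (nat_lit 532) (nat_lit 0) (XT.nd (nat_lit 78) (nat_lit 304) (nat_lit 0) (XT.lf (nat_lit 0) (nat_lit 2814593863) (nat_lit 228) (nat_lit 125900528) (nat_lit 304) (nat_lit 10654818512) (nat_lit 50) (nat_lit 5) (nat_lit 53) (nat_lit 5) (nat_lit 54) (nat_lit 5) (nat_lit 277) (nat_lit 242) (nat_lit 201)) (XT.nd (nat_lit 78) (nat_lit 304) (nat_lit 0) (XT.lf (nat_lit 0) (nat_lit 6674937698) (nat_lit 304) (nat_lit 1810686659) (nat_lit 76) (nat_lit 5573959991) (nat_lit 50) (nat_lit 5) (nat_lit 54) (nat_lit 5) (nat_lit 51) (nat_lit 5) (nat_lit 278) (nat_lit 242) (nat_lit 200)) (XT.lf (nat_lit 0) (nat_lit 7662785517) (nat_lit 304) (nat_lit 2940438969) (nat_lit 380) (nat_lit 3943779691) (nat_lit 46) (nat_lit 5) (nat_lit 50) (nat_lit 5) (nat_lit 51) (nat_lit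 5) (nat_lit 279) (nat_lit 242) (nat_lit 199)))) (XT.nd (nat_lit 78) (nat_lit 304) (nat_lit 0) (XT.lf (nat_lit 0) (nat_lit 2518278669) (nat_lit 228) (nat_lit 12214688428) (nat_lit 304) (nat_lit 325818040) (nat_lit 43) (nat_lit 5) (nat_lit 46) (nat_lit 5) (nat_lit 47) (nat_lit 5) (nat_lit 280) (nat_lit 242) (nat_lit 198)) (XT.nd (nat_lit 78) (nat_lit 228) (nat_lit 0) (XT.lf (nat_lit 0) (nat_lit 3442328463) (nat_lit 304) (nat_lit 3214297451) (nat_lit 76) (nat_lit 8937546660) (nat_lit 42) (nat_lit 5) (nat_lit 46) (nat_lit 5) (nat_lit 43) (nat_lit 5) (nat_lit 281) (nat_lit 242) (nat_lit 197)) (XT.lf (nat_lit 0) (nat_lit 6617139698) (nat_lit 228) (nat_lit 777542572) (nat_lit 304) (nat_lit 8761598687) (nat_lit 39) (nat_lit 5) (nat_lit 42) (nat_lit 5) (nat_lit 43) (nat_lit 5) (nat_lit 282) (nat_lit 242) (nat_lit 196))))))))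
noncomputable def xc55 : XT := (XT.nd (nat_lit 1638) (nat_lit 608) (nat_lit 0) (XT.nd (nat_lit 780) (nat_lit 836) (nat_lit 0) (XT.nd (nat_lit 390) (nat_lit 456) (nat_lit 0) (XT.nd (nat_lit 156) (nat_lit 456) (nat_lit 0) (XT.nd (nat_lit 78) (nat_lit 0) (nat_lit 0) (XT.lf (nat_lit 0) (nat_lit 126010517) (nat_lit 228) (nat_lit 11445858464) (nat_lit 304) (nat_lit 5173927896) (nat_lit 36) (nat_lit 5) (nat_lit 39) (nat_lit 5) (nat_lit 40) (nat_lit 5) (nat_lit 283) (nat_lit 242) (nat_lit 195)) (XT.lf (nat_lit 0) (nat_lit 10382151043) (nat_lit 228) (nat_lit 5624474221) (nat_lit 304) (nat_lit 1356814951) (nat_lit 36) (nat_lit 5) (nat_lit 39) (nat_lit 5) (nat_lit 40) (nat_lit 5) (nat_lit 284) (nat_lit 242) (nat_lit 194))) (XT.nd (nat_lit 78) (nat_lit 152) (nat_lit 0) (XT.lf (nat_lit 0) (nat_lit 2578967950) (nat_lit 304) (nat_lit 14923878414) (nat_lit 76) (nat_lit 509072802) (nat_lit 32) (nat_lit 5)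 (nat_lit 36) (nat_lit 5) (nat_lit 33) (nat_lit 5) (nat_lit 285) (nat_lit 242) (nat_lit 193)) (XT.nd (nat_lit 78) (nat_lit 152) (nat_lit 0) (XT.lf (nat_lit 0) (nat_lit 6759540665) (nat_lit 304) (nat_lit 5035081377) (nat_lit 76) (nat_lit 6895614604) (nat_lit 32) (nat_lit 5) (nat_lit 36) (nat_lit 5) (nat_lit 33) (nat_lit 5) (nat_lit 286) (nat_lit 242) (nat_lit 192)) (XT.lf (nat_lit 0) (nat_lit 5376920995) (nat_lit 152) (nat_lit 5772910982) (nat_lit 228) (nat_lit 8252712035) (nat_lit 30) (nat_lit 5) (nat_lit 32) (nat_lit 5) (nat_lit 33) (nat_lit 5) (nat_lit 287) (nat_lit 242) (nat_lit 191))))) (XT.nd (nat_lit 156) (nat_lit 228) (nat_lit 0) (XT.nd (nat_lit 78) (nat_lit 228) (nat_lit 0) (XT.lf (nat_lit 0) (nat_lit 15767752223) (nat_lit 228) (nat_lit 3815274689) (nat_lit 76) (nat_lit 567286604) (nat_lit 30) (nat_lit 5) (nat_lit 33) (nat_lit 5) (nat_lit 31) (nat_lit 5) (nat_lit 288) (nat_lit 242)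 (nat_lit 190)) (XT.lf (nat_lit 0) (nat_lit 6910451707) (nat_lit 228) (nat_lit 13783653198) (nat_lit 304) (nat_lit 239126401) (nat_lit 27) (nat_lit 5) (nat_lit 30) (nat_lit 5) (nat_lit 31) (nat_lit 5) (nat_lit 289) (nat_lit 242) (nat_lit 189))) (XT.nd (nat_lit 78) (nat_lit 152) (nat_lit 0) (XT.lf (nat_lit 0) (nat_lit 4024800199) (nat_lit 304) (nat_lit 3612496340) (nat_lit 76) (nat_lit 14117085725) (nat_lit 26) (nat_lit 5) (nat_lit 30) (nat_lit 5) (nat_lit 27) (nat_lit 5) (nat_lit 290) (nat_lit 242) (nat_lit 188)) (XT.nd (nat_lit 78) (nat_lit 0) (nat_lit 0) (XT.lf (nat_lit 0) (nat_lit 7392852394) (nat_lit 152) (nat_lit 1131317738) (nat_lit 228) (nat_lit 14091609485) (nat_lit 24) (nat_lit 5) (nat_lit 26) (nat_lit 5) (nat_lit 27) (nat_lit 5) (nat_lit 291) (nat_lit 242) (nat_lit 187)) (XT.lf (nat_lit 0) (nat_lit 13298180372) (nat_lit 228) (nat_lit 4616824516) (nat_lit 76) (nat_lit 5603823840)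 (nat_lit 24) (nat_lit 5) (nat_lit 27) (nat_lit 5) (nat_lit 25) (nat_lit 5) (nat_lit 292) (nat_lit 242) (nat_lit 186)))))) (XT.nd (nat_lit 390) (nat_lit 456) (nat_lit 0) (XT.nd (nat_lit 156) (nat_lit 228) (nat_lit 0) (XT.nd (nat_lit 78) (nat_lit 0) (nat_lit 0) (XT.lf (nat_lit 0) (nat_lit 6573103175) (nat_lit 152) (nat_lit 11771748112) (nat_lit 228) (nat_lit 6121228820) (nat_lit 22) (nat_lit 5) (nat_lit 24) (nat_lit 5) (nat_lit 25) (nat_lit 5) (nat_lit 293) (nat_lit 242) (nat_lit 185)) (XT.lf (nat_lit 0) (nat_lit 18357494142) (nat_lit 152) (nat_lit 5294588660) (nat_lit 228) (nat_lit 1808429790) (nat_lit 22) (nat_lit 5) (nat_lit 24) (nat_lit 5) (nat_lit 25) (nat_lit 5) (nat_lit 294) (nat_lit 242) (nat_lit 184))) (XT.nd (nat_lit 78) (nat_lit 0) (nat_lit 0) (XT.lf (nat_lit 0) (nat_lit 2684604257) (nat_lit 228) (nat_lit 22295487573) (nat_lit 76) (nat_lit 1523320734) (nat_lit 19) (nat_lit 5) (nat_lit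 22) (nat_lit 5) (nat_lit 20) (nat_lit 5) (nat_lit 295) (nat_lit 242) (nat_lit 183)) (XT.nd (nat_lit 78) (nat_lit 0) (nat_lit 0) (XT.lf (nat_lit 0) (nat_lit 7455705700) (nat_lit 228) (nat_lit 11494479204) (nat_lit 76) (nat_lit 8645068518) (nat_lit 19) (nat_lit 5) (nat_lit 22) (nat_lit 5) (nat_lit 20) (nat_lit 5) (nat_lit 296) (nat_lit 242) (nat_lit 182)) (XT.lf (nat_lit 0) (nat_lit 12430301542) (nat_lit 228) (nat_lit 209274330) (nat_lit 76) (nat_lit 16103217078) (nat_lit 19) (nat_lit 5) (nat_lit 22) (nat_lit 5) (nat_lit 20) (nat_lit 5) (nat_lit 297) (nat_lit 242) (nat_lit 181))))) (XT.nd (nat_lit 234) (nat_lit 228) (nat_lit 0) (XT.nd (nat_lit 78) (nat_lit 76) (nat_lit 0) (XT.lf (nat_lit 0) (nat_lit 11817600537) (nat_lit 152) (nat_lit 5916233526) (nat_lit 228) (nat_lit 12211521380) (nat_lit 17) (nat_lit 5) (nat_lit 19) (nat_lit 5) (nat_lit 20) (nat_lit 5) (nat_lit 298) (nat_lit 242) (nat_lit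 180)) (XT.nd (nat_lit 78) (nat_lit 76) (nat_lit 0) (XT.lf (nat_lit 0) (nat_lit 23283224748) (nat_lit 228) (nat_lit 6821302096) (nat_lit 76) (nat_lit 1104148481) (nat_lit 17) (nat_lit 5) (nat_lit 20) (nat_lit 5) (nat_lit 18) (nat_lit 4) (nat_lit 299) (nat_lit 242) (nat_lit 179)) (XT.lf (nat_lit 0) (nat_lit 5039088395) (nat_lit 76) (nat_lit 24148212252) (nat_lit 152) (nat_lit 3345591430) (nat_lit 16) (nat_lit 5) (nat_lit 17) (nat_lit 5) (nat_lit 18) (nat_lit 4) (nat_lit 300) (nat_lit 242) (nat_lit 178)))) (XT.nd (nat_lit 78) (nat_lit 152) (nat_lit 0) (XT.lf (nat_lit 0) (nat_lit 1475350388) (nat_lit 152) (nat_lit 16350145211) (nat_lit 76) (nat_lit 16096226573) (nat_lit 15) (nat_lit 5) (nat_lit 17) (nat_lit 5) (nat_lit 16) (nat_lit 5) (nat_lit 301) (nat_lit 242) (nat_lit 177)) (XT.nd (nat_lit 78) (nat_lit 152) (nat_lit 0) (XT.lf (nat_lit 0) (nat_lit 6439960695) (nat_lit 152) (nat_lit 4729942814)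 (nat_lit 76) (nat_lit 24209983813) (nat_lit 15) (nat_lit 5) (nat_lit 17) (nat_lit 5) (nat_lit 16) (nat_lit 5) (nat_lit 302) (nat_lit 242) (nat_lit 176)) (XT.lf (nat_lit 0) (nat_lit 7574435037) (nat_lit 152) (nat_lit 4123719597) (nat_lit 228) (nat_lit 25211485208) (nat_lit 13) (nat_lit 5) (nat_lit 15) (nat_lit 5) (nat_lit 16) (nat_lit 5) (nat_lit 303) (nat_lit 242) (nat_lit 175))))))) (XT.nd (nat_lit 780) (nat_lit 304) (nat_lit 0) (XT.nd (nat_lit 390) (nat_lit 228) (nat_lit 0) (XT.nd (nat_lit 156) (nat_lit 76) (nat_lit 0) (XT.nd (nat_lit 78) (nat_lit 0) (nat_lit 0) (XT.lf (nat_lit 0) (nat_lit 17273182332) (nat_lit 228) (nat_lit 17997539788) (nat_lit 76) (nat_lit 3243577963) (nat_lit 13) (nat_lit 5) (nat_lit 16) (nat_lit 5) (nat_lit 14) (nat_lit 4) (nat_lit 304) (nat_lit 242) (nat_lit 174)) (XT.lf (nat_lit 0) (nat_lit 23143128128) (nat_lit 228) (nat_lit 6176549390) (nat_lit 76) (nat_lit 10879066830)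 (nat_lit 13) (nat_lit 5) (nat_lit 16) (nat_lit 5) (nat_lit 14) (nat_lit 4) (nat_lit 305) (nat_lit 242) (nat_lit 173))) (XT.nd (nat_lit 78) (nat_lit 0) (nat_lit 0) (XT.lf (nat_lit 0) (nat_lit 6318854936) (nat_lit 76) (nat_lit 23024214130) (nat_lit 152) (nat_lit 12623281124) (nat_lit 12) (nat_lit 5) (nat_lit 13) (nat_lit 5) (nat_lit 14) (nat_lit 4) (nat_lit 306) (nat_lit 242) (nat_lit 172)) (XT.nd (nat_lit 78) (nat_lit 0) (nat_lit 0) (XT.lf (nat_lit 0) (nat_lit 19529306836) (nat_lit 76) (nat_lit 16363821003) (nat_lit 152) (nat_lit 7928037530) (nat_lit 12) (nat_lit 5) (nat_lit 13) (nat_lit 5) (nat_lit 14) (nat_lit 4) (nat_lit 307) (nat_lit 242) (nat_lit 171)) (XT.lf (nat_lit 0) (nat_lit 33363334320) (nat_lit 76) (nat_lit 9385011096) (nat_lit 152) (nat_lit 3021077323) (nat_lit 12) (nat_lit 5) (nat_lit 13) (nat_lit 5) (nat_lit 14) (nat_lit 4) (nat_lit 308) (nat_lit 242) (nat_lit 170))))) (XT.nd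 (nat_lit 156) (nat_lit 0) (nat_lit 0) (XT.nd (nat_lit 78) (nat_lit 0) (nat_lit 0) (XT.lf (nat_lit 0) (nat_lit 18193848) (nat_lit 152) (nat_lit 2050104071) (nat_lit 228) (nat_lit 45746849575) (nat_lit 9) (nat_lit 5) (nat_lit 11) (nat_lit 5) (nat_lit 12) (nat_lit 5) (nat_lit 309) (nat_lit 242) (nat_lit 169)) (XT.lf (nat_lit 0) (nat_lit 7512582008) (nat_lit 228) (nat_lit 36757611826) (nat_lit 76) (nat_lit 5687207082) (nat_lit 9) (nat_lit 5) (nat_lit 12) (nat_lit 5) (nat_lit 10) (nat_lit 4) (nat_lit 310) (nat_lit 242) (nat_lit 168))) (XT.nd (nat_lit 78) (nat_lit 0) (nat_lit 0) (XT.lf (nat_lit 0) (nat_lit 13229810079) (nat_lit 228) (nat_lit 25220464220) (nat_lit 76) (nat_lit 13756496908) (nat_lit 9) (nat_lit 5) (nat_lit 12) (nat_lit 5) (nat_lit 10) (nat_lit 4) (nat_lit 311) (nat_lit 242) (nat_lit 167)) (XT.nd (nat_lit 78) (nat_lit 0) (nat_lit 0) (XT.lf (nat_lit 0) (nat_lit 19213887727) (nat_lit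 228) (nat_lit 13138334574) (nat_lit 76) (nat_lit 22216982915) (nat_lit 9) (nat_lit 5) (nat_lit 12) (nat_lit 5) (nat_lit 10) (nat_lit 4) (nat_lit 312) (nat_lit 242) (nat_lit 166)) (XT.lf (nat_lit 0) (nat_lit 25479062756) (nat_lit 228) (nat_lit 482455914) (nat_lit 76) (nat_lit 31088809119) (nat_lit 9) (nat_lit 5) (nat_lit 12) (nat_lit 5) (nat_lit 10) (nat_lit 4) (nat_lit 313) (nat_lit 242) (nat_lit 165)))))) (XT.nd (nat_lit 390) (nat_lit 152) (nat_lit 0) (XT.nd (nat_lit 156) (nat_lit 76) (nat_lit 0) (XT.nd (nat_lit 78) (nat_lit 0) (nat_lit 0) (XT.lf (nat_lit 0) (nat_lit 13031598225) (nat_lit 76) (nat_lit 19133921717) (nat_lit 152) (nat_lit 27486768383) (nat_lit 8) (nat_lit 5) (nat_lit 9) (nat_lit 5) (nat_lit 10) (nat_lit 4) (nat_lit 314) (nat_lit 242) (nat_lit 164)) (XT.lf (nat_lit 0) (nat_lit 27203353859) (nat_lit 76) (nat_lit 11971219503) (nat_lit 152) (nat_lit 23210146791) (nat_lit 8) (nat_lit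 5) (nat_lit 9) (nat_lit 5) (nat_lit 10) (nat_lit 4) (nat_lit 315) (nat_lit 242) (nat_lit 163))) (XT.nd (nat_lit 78) (nat_lit 76) (nat_lit 0) (XT.lf (nat_lit 0) (nat_lit 42056951447) (nat_lit 76) (nat_lit 4461229833) (nat_lit 152) (nat_lit 18736089682) (nat_lit 8) (nat_lit 5) (nat_lit 9) (nat_lit 5) (nat_lit 10) (nat_lit 4) (nat_lit 316) (nat_lit 242) (nat_lit 162)) (XT.nd (nat_lit 78) (nat_lit 76) (nat_lit 0) (XT.lf (nat_lit 0) (nat_lit 54246645242) (nat_lit 152) (nat_lit 10672833087) (nat_lit 0) (nat_lit 3347310183) (nat_lit 8) (nat_lit 5) (nat_lit 10) (nat_lit 4) (nat_lit 8) (nat_lit 4) (nat_lit 317) (nat_lit 242) (nat_lit 161)) (XT.lf (nat_lit 0) (nat_lit 2456162136) (nat_lit 76) (nat_lit 59959493979) (nat_lit 76) (nat_lit 9012670657) (nat_lit 7) (nat_lit 4) (nat_lit 8) (nat_lit 5) (nat_lit 8) (nat_lit 4) (nat_lit 318) (nat_lit 242) (nat_lit 160))))) (XT.nd (nat_lit 234) (nat_lit 76)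 (nat_lit 0) (XT.nd (nat_lit 78) (nat_lit 76) (nat_lit 0) (XT.lf (nat_lit 0) (nat_lit 16440727728) (nat_lit 76) (nat_lit 54648203848) (nat_lit 76) (nat_lit 3656153607) (nat_lit 7) (nat_lit 4) (nat_lit 8) (nat_lit 5) (nat_lit 8) (nat_lit 4) (nat_lit 319) (nat_lit 242) (nat_lit 159)) (XT.nd (nat_lit 78) (nat_lit 0) (nat_lit 0) (XT.lf (nat_lit 0) (nat_lit 1916249675) (nat_lit 152) (nat_lit 47145136653) (nat_lit 76) (nat_lit 29166149927) (nat_lit 6) (nat_lit 5) (nat_lit 8) (nat_lit 5) (nat_lit 7) (nat_lit 4) (nat_lit 320) (nat_lit 242) (nat_lit 158)) (XT.lf (nat_lit 0) (nat_lit 7679472441) (nat_lit 152) (nat_lit 35486816587) (nat_lit 76) (nat_lit 38717115993) (nat_lit 6) (nat_lit 5) (nat_lit 8) (nat_lit 5) (nat_lit 7) (nat_lit 4) (nat_lit 321) (nat_lit 242) (nat_lit 157)))) (XT.nd (nat_lit 78) (nat_lit 76) (nat_lit 0) (XT.lf (nat_lit 0) (nat_lit 13718581373) (nat_lit 152) (nat_lit 23266494167)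 (nat_lit 76) (nat_lit 48737374745) (nat_lit 6) (nat_lit 5) (nat_lit 8) (nat_lit 5) (nat_lit 7) (nat_lit 4) (nat_lit 322) (nat_lit 242) (nat_lit 156)) (XT.nd (nat_lit 78) (nat_lit 76) (nat_lit 0) (XT.lf (nat_lit 0) (nat_lit 20047955302) (nat_lit 152) (nat_lit 10455073387) (nat_lit 76) (nat_lit 59250783942) (nat_lit 6) (nat_lit 5) (nat_lit 8) (nat_lit 5) (nat_lit 7) (nat_lit 4) (nat_lit 323) (nat_lit 242) (nat_lit 155)) (XT.lf (nat_lit 0) (nat_lit 3037216161) (nat_lit 76) (nat_lit 23674643586) (nat_lit 152) (nat_lit 67274354929) (nat_lit 5) (nat_lit 5) (nat_lit 6) (nat_lit 5) (nat_lit 7) (nat_lit 4) (nat_lit 324) (nat_lit 242) (nat_lit 154))))))))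
noncomputable def xc56 : XT := (XT.nd (nat_lit 32370) (nat_lit 0) (nat_lit 3116) (XT.nd (nat_lit 31590) (nat_lit 0) (nat_lit 10336) (XT.nd (nat_lit 31200) (nat_lit 0) (nat_lit 15884) (XT.nd (nat_lit 156) (nat_lit 0) (nat_lit 0) (XT.nd (nat_lit 78) (nat_lit 0) (nat_lit 0) (XT.lf (nat_lit 0) (nat_lit 17404174926) (nat_lit 76) (nat_lit 16401629544) (nat_lit 152) (nat_lit 64621539794) (nat_lit 5) (nat_lit 5) (nat_lit 6) (nat_lit 5) (nat_lit 7) (nat_lit 4) (nat_lit 325) (nat_lit 242) (nat_lit 153)) (XT.lf (nat_lit 0) (nat_lit 32471933491) (nat_lit 76) (nat_lit 8772245605) (nat_lit 152) (nat_lit 61846671441) (nat_lit 5) (nat_lit 5) (nat_lit 6) (nat_lit 5) (nat_lit 7) (nat_lit 4) (nat_lit 326) (nat_lit 242) (nat_lit 152))) (XT.nd (nat_lit 78) (nat_lit 0) (nat_lit 0) (XT.lf (nat_lit 0) (nat_lit 48276367471) (nat_lit 76) (nat_lit 768326570) (nat_lit 152) (nat_lit 58943143040) (nat_lit 5) (nat_lit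 5) (nat_lit 6) (nat_lit 5) (nat_lit 7) (nat_lit 4) (nat_lit 327) (nat_lit 242) (nat_lit 151)) (XT.nd (nat_lit 30888) (nat_lit 0) (nat_lit 17176) (XT.lf (nat_lit 0) (nat_lit 57299258348) (nat_lit 152) (nat_lit 48348193305) (nat_lit 0) (nat_lit 7480311642) (nat_lit 5) (nat_lit 5) (nat_lit 7) (nat_lit 4) (nat_lit 5) (nat_lit 4) (nat_lit 328) (nat_lit 242) (nat_lit 150)) (XT.lf (nat_lit 0) (nat_lit 2365027331) (nat_lit 380) (nat_lit 455938403) (nat_lit 380) (nat_lit 455938403) (nat_lit 231) (nat_lit 3) (nat_lit 236) (nat_lit 3) (nat_lit 236) (nat_lit 5) (nat_lit 243) (nat_lit 243) (nat_lit 234))))) (XT.nd (nat_lit 156) (nat_lit 912) (nat_lit 0) (XT.nd (nat_lit 78) (nat_lit 0) (nat_lit 0) (XT.lf (nat_lit 0) (nat_lit 1730921306) (nat_lit 380) (nat_lit 2906314414) (nat_lit 456) (nat_lit 1957500056) (nat_lit 226) (nat_lit 5) (nat_lit 231) (nat_lit 3) (nat_lit 232) (nat_lit 5) (nat_lit 244) (nat_lit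 243) (nat_lit 233)) (XT.lf (nat_lit 76) (nat_lit 1793838487) (nat_lit 0) (nat_lit 3431883053) (nat_lit 456) (nat_lit 1418502076) (nat_lit 227) (nat_lit 5) (nat_lit 226) (nat_lit 5) (nat_lit 232) (nat_lit 5) (nat_lit 245) (nat_lit 243) (nat_lit 232))) (XT.nd (nat_lit 78) (nat_lit 456) (nat_lit 0) (XT.lf (nat_lit 0) (nat_lit 1965932515) (nat_lit 456) (nat_lit 51858024) (nat_lit 532) (nat_lit 4684447250) (nat_lit 220) (nat_lit 5) (nat_lit 226) (nat_lit 5) (nat_lit 227) (nat_lit 5) (nat_lit 246) (nat_lit 243) (nat_lit 231)) (XT.nd (nat_lit 78) (nat_lit 456) (nat_lit 0) (XT.lf (nat_lit 76) (nat_lit 4949948435) (nat_lit 0) (nat_lit 378209969) (nat_lit 532) (nat_lit 1440368272) (nat_lit 221) (nat_lit 5) (nat_lit 220) (nat_lit 5) (nat_lit 227) (nat_lit 5) (nat_lit 247) (nat_lit 243) (nat_lit 230)) (XT.lf (nat_lit 0) (nat_lit 1823401006) (nat_lit 532) (nat_lit 3568650285) (nat_lit 608) (nat_lit 1451084545)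 (nat_lit 214) (nat_lit 5) (nat_lit 221) (nat_lit 5) (nat_lit 222) (nat_lit 5) (nat_lit 248) (nat_lit 243) (nat_lit 229)))))) (XT.nd (nat_lit 390) (nat_lit 3648) (nat_lit 0) (XT.nd (nat_lit 156) (nat_lit 1292) (nat_lit 0) (XT.nd (nat_lit 78) (nat_lit 608) (nat_lit 0) (XT.lf (nat_lit 76) (nat_lit 1628105920) (nat_lit 0) (nat_lit 3436531145) (nat_lit 608) (nat_lit 1861909737) (nat_lit 215) (nat_lit 5) (nat_lit 214) (nat_lit 5) (nat_lit 222) (nat_lit 5) (nat_lit 249) (nat_lit 243) (nat_lit 228)) (XT.lf (nat_lit 76) (nat_lit 6668002) (nat_lit 0) (nat_lit 1266841268) (nat_lit 684) (nat_lit 5745516964) (nat_lit 207) (nat_lit 5) (nat_lit 206) (nat_lit 5) (nat_lit 215) (nat_lit 5) (nat_lit 250) (nat_lit 243) (nat_lit 227))) (XT.nd (nat_lit 78) (nat_lit 1368) (nat_lit 0) (XT.lf (nat_lit 0) (nat_lit 4411667684) (nat_lit 608) (nat_lit 1584303915) (nat_lit 76) (nat_lit 1123793887) (nat_lit 207) (nat_lit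 5) (nat_lit 215) (nat_lit 5) (nat_lit 208) (nat_lit 5) (nat_lit 251) (nat_lit 243) (nat_lit 226)) (XT.nd (nat_lit 78) (nat_lit 684) (nat_lit 0) (XT.lf (nat_lit 0) (nat_lit 349659707) (nat_lit 684) (nat_lit 3174081750) (nat_lit 76) (nat_lit 3705994424) (nat_lit 198) (nat_lit 5) (nat_lit 207) (nat_lit 5) (nat_lit 199) (nat_lit 5) (nat_lit 252) (nat_lit 243) (nat_lit 225)) (XT.lf (nat_lit 0) (nat_lit 2565724247) (nat_lit 684) (nat_lit 812919628) (nat_lit 760) (nat_lit 3970162964) (nat_lit 189) (nat_lit 5) (nat_lit 198) (nat_lit 5) (nat_lit 199) (nat_lit 5) (nat_lit 253) (nat_lit 243) (nat_lit 224))))) (XT.nd (nat_lit 156) (nat_lit 2812) (nat_lit 0) (XT.nd (nat_lit 78) (nat_lit 76) (nat_lit 0) (XT.lf (nat_lit 0) (nat_lit 1061701300) (nat_lit 760) (nat_lit 5400033874) (nat_lit 836) (nat_lit 1015622929) (nat_lit 179) (nat_lit 5) (nat_lit 189) (nat_lit 5) (nat_lit 190) (nat_lit 5) (nat_lit 254)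 (nat_lit 243) (nat_lit 223)) (XT.lf (nat_lit 0) (nat_lit 1948131353) (nat_lit 836) (nat_lit 466150939) (nat_lit 76) (nat_lit 5200947531) (nat_lit 178) (nat_lit 5) (nat_lit 189) (nat_lit 5) (nat_lit 179) (nat_lit 5) (nat_lit 255) (nat_lit 243) (nat_lit 222))) (XT.nd (nat_lit 78) (nat_lit 1976) (nat_lit 0) (XT.lf (nat_lit 0) (nat_lit 4954217370) (nat_lit 912) (nat_lit 2007069356) (nat_lit 76) (nat_lit 801486360) (nat_lit 167) (nat_lit 5) (nat_lit 179) (nat_lit 5) (nat_lit 168) (nat_lit 5) (nat_lit 256) (nat_lit 243) (nat_lit 221)) (XT.nd (nat_lit 78) (nat_lit 988) (nat_lit 0) (XT.lf (nat_lit 0) (nat_lit 116577907) (nat_lit 988) (nat_lit 3601633477) (nat_lit 76) (nat_lit 4202097489) (nat_lit 154) (nat_lit 5) (nat_lit 167) (nat_lit 5) (nat_lit 155) (nat_lit 5) (nat_lit 257) (nat_lit 243) (nat_lit 220)) (XT.lf (nat_lit 0) (nat_lit 2823463055) (nat_lit 988) (nat_lit 216672897) (nat_lit 1064) (nat_lit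 5047914007) (nat_lit 141) (nat_lit 5) (nat_lit 154) (nat_lit 5) (nat_lit 155) (nat_lit 5) (nat_lit 258) (nat_lit 243) (nat_lit 219))))))) (XT.nd (nat_lit 780) (nat_lit 2736) (nat_lit 0) (XT.nd (nat_lit 390) (nat_lit 1748) (nat_lit 0) (XT.nd (nat_lit 156) (nat_lit 1596) (nat_lit 0) (XT.nd (nat_lit 78) (nat_lit 76) (nat_lit 0) (XT.lf (nat_lit 0) (nat_lit 1251044109) (nat_lit 1064) (nat_lit 4808871654) (nat_lit 1140) (nat_lit 2206208947) (nat_lit 127) (nat_lit 5) (nat_lit 141) (nat_lit 5) (nat_lit 142) (nat_lit 5) (nat_lit 259) (nat_lit 243) (nat_lit 218)) (XT.lf (nat_lit 0) (nat_lit 690142767) (nat_lit 1140) (nat_lit 380453744) (nat_lit 76) (nat_lit 7384864577) (nat_lit 126) (nat_lit 5) (nat_lit 141) (nat_lit 5) (nat_lit 127) (nat_lit 5) (nat_lit 260) (nat_lit 243) (nat_lit 217))) (XT.nd (nat_lit 78) (nat_lit 1064) (nat_lit 0) (XT.lf (nat_lit 0) (nat_lit 3654653401) (nat_lit 608) (nat_lit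 2107652084) (nat_lit 76) (nat_lit 2892628866) (nat_lit 119) (nat_lit 5) (nat_lit 127) (nat_lit 5) (nat_lit 120) (nat_lit 5) (nat_lit 261) (nat_lit 243) (nat_lit 216)) (XT.nd (nat_lit 78) (nat_lit 608) (nat_lit 0) (XT.lf (nat_lit 0) (nat_lit 4934387603) (nat_lit 456) (nat_lit 1777002849) (nat_lit 532) (nat_lit 2155046464) (nat_lit 113) (nat_lit 5) (nat_lit 119) (nat_lit 5) (nat_lit 120) (nat_lit 5) (nat_lit 262) (nat_lit 243) (nat_lit 215)) (XT.lf (nat_lit 0) (nat_lit 777725483) (nat_lit 608) (nat_lit 5890284526) (nat_lit 76) (nat_lit 2421766302) (nat_lit 105) (nat_lit 5) (nat_lit 113) (nat_lit 5) (nat_lit 106) (nat_lit 5) (nat_lit 263) (nat_lit 243) (nat_lit 214))))) (XT.nd (nat_lit 156) (nat_lit 1292) (nat_lit 0) (XT.nd (nat_lit 78) (nat_lit 0) (nat_lit 0) (XT.lf (nat_lit 0) (nat_lit 1316526539) (nat_lit 456) (nat_lit 2457188491) (nat_lit 532) (nat_lit 5551423888) (nat_lit 99) (nat_lit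 5) (nat_lit 105) (nat_lit 5) (nat_lit 106) (nat_lit 5) (nat_lit 264) (nat_lit 243) (nat_lit 213)) (XT.lf (nat_lit 0) (nat_lit 6893021187) (nat_lit 532) (nat_lit 699085011) (nat_lit 76) (nat_lit 1981273006) (nat_lit 99) (nat_lit 5) (nat_lit 106) (nat_lit 5) (nat_lit 100) (nat_lit 5) (nat_lit 265) (nat_lit 243) (nat_lit 212))) (XT.nd (nat_lit 78) (nat_lit 760) (nat_lit 0) (XT.lf (nat_lit 0) (nat_lit 317692360) (nat_lit 532) (nat_lit 2860875436) (nat_lit 76) (nat_lit 6655960019) (nat_lit 92) (nat_lit 5) (nat_lit 99) (nat_lit 5) (nat_lit 93) (nat_lit 5) (nat_lit 266) (nat_lit 243) (nat_lit 211)) (XT.nd (nat_lit 78) (nat_lit 380) (nat_lit 0) (XT.lf (nat_lit 0) (nat_lit 3380778275) (nat_lit 456) (nat_lit 5229207283) (nat_lit 76) (nat_lit 1499112591) (nat_lit 87) (nat_lit 5) (nat_lit 93) (nat_lit 5) (nat_lit 88) (nat_lit 5) (nat_lit 267) (nat_lit 243) (nat_lit 210)) (XT.lf (nat_lit 0) (nat_lit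 2579567639) (nat_lit 380) (nat_lit 4008687854) (nat_lit 456) (nat_lit 3809668634) (nat_lit 82) (nat_lit 5) (nat_lit 87) (nat_lit 5) (nat_lit 88) (nat_lit 5) (nat_lit 268) (nat_lit 243) (nat_lit 209)))))) (XT.nd (nat_lit 390) (nat_lit 1520) (nat_lit 0) (XT.nd (nat_lit 156) (nat_lit 760) (nat_lit 0) (XT.nd (nat_lit 78) (nat_lit 76) (nat_lit 0) (XT.lf (nat_lit 0) (nat_lit 72354864) (nat_lit 380) (nat_lit 9854717988) (nat_lit 456) (nat_lit 775241216) (nat_lit 77) (nat_lit 5) (nat_lit 82) (nat_lit 5) (nat_lit 83) (nat_lit 5) (nat_lit 269) (nat_lit 243) (nat_lit 208)) (XT.lf (nat_lit 0) (nat_lit 2395852082) (nat_lit 456) (nat_lit 2670946775) (nat_lit 76) (nat_lit 5953702384) (nat_lit 76) (nat_lit 5) (nat_lit 82) (nat_lit 5) (nat_lit 77) (nat_lit 5) (nat_lit 270) (nat_lit 243) (nat_lit 207))) (XT.nd (nat_lit 78) (nat_lit 380) (nat_lit 0) (XT.lf (nat_lit 0) (nat_lit 5678871569) (nat_lit 456) (nat_lit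 5669274698) (nat_lit 76) (nat_lit 7360704) (nat_lit 71) (nat_lit 5) (nat_lit 77) (nat_lit 5) (nat_lit 72) (nat_lit 5) (nat_lit 271) (nat_lit 243) (nat_lit 206)) (XT.nd (nat_lit 78) (nat_lit 76) (nat_lit 0) (XT.lf (nat_lit 0) (nat_lit 2709699610) (nat_lit 304) (nat_lit 6438762177) (nat_lit 380) (nat_lit 2558339662) (nat_lit 67) (nat_lit 5) (nat_lit 71) (nat_lit 5) (nat_lit 72) (nat_lit 5) (nat_lit 272) (nat_lit 243) (nat_lit 205)) (XT.lf (nat_lit 0) (nat_lit 680293635) (nat_lit 380) (nat_lit 556548649) (nat_lit 76) (nat_lit 10839455318) (nat_lit 66) (nat_lit 5) (nat_lit 71) (nat_lit 5) (nat_lit 67) (nat_lit 5) (nat_lit 273) (nat_lit 243) (nat_lit 204))))) (XT.nd (nat_lit 234) (nat_lit 608) (nat_lit 0) (XT.nd (nat_lit 78) (nat_lit 608) (nat_lit 0) (XT.lf (nat_lit 0) (nat_lit 4073437745) (nat_lit 380) (nat_lit 4158417067) (nat_lit 76) (nat_lit 4230475019) (nat_lit 62) (nat_lit 5) (nat_lit 67)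 (nat_lit 5) (nat_lit 63) (nat_lit 5) (nat_lit 274) (nat_lit 243) (nat_lit 203)) (XT.nd (nat_lit 78) (nat_lit 304) (nat_lit 0) (XT.lf (nat_lit 0) (nat_lit 4735509842) (nat_lit 304) (nat_lit 2890371673) (nat_lit 380) (nat_lit 5242269891) (nat_lit 58) (nat_lit 5) (nat_lit 62) (nat_lit 5) (nat_lit 63) (nat_lit 5) (nat_lit 275) (nat_lit 243) (nat_lit 202)) (XT.lf (nat_lit 0) (nat_lit 761101570) (nat_lit 304) (nat_lit 10599801758) (nat_lit 380) (nat_lit 1933380634) (nat_lit 54) (nat_lit 5) (nat_lit 58) (nat_lit 5) (nat_lit 59) (nat_lit 5) (nat_lit 276) (nat_lit 243) (nat_lit 201)))) (XT.nd (nat_lit 78) (nat_lit 532) (nat_lit 0) (XT.lf (nat_lit 0) (nat_lit 1554567162) (nat_lit 380) (nat_lit 3608615089) (nat_lit 76) (nat_lit 8576941883) (nat_lit 53) (nat_lit 5) (nat_lit 58) (nat_lit 5) (nat_lit 54) (nat_lit 5) (nat_lit 277) (nat_lit 243) (nat_lit 200)) (XT.nd (nat_lit 78) (nat_lit 304) (nat_lit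 0) (XT.lf (nat_lit 0) (nat_lit 5171782705) (nat_lit 304) (nat_lit 8448336768) (nat_lit 76) (nat_lit 587865355) (nat_lit 50) (nat_lit 5) (nat_lit 54) (nat_lit 5) (nat_lit 51) (nat_lit 5) (nat_lit 278) (nat_lit 243) (nat_lit 199)) (XT.lf (nat_lit 0) (nat_lit 848816260) (nat_lit 304) (nat_lit 8154250843) (nat_lit 380) (nat_lit 5695316594) (nat_lit 46) (nat_lit 5) (nat_lit 50) (nat_lit 5) (nat_lit 51) (nat_lit 5) (nat_lit 279) (nat_lit 243) (nat_lit 198))))))))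
noncomputable def xc57 : XT := (XT.nd (nat_lit 1560) (nat_lit 760) (nat_lit 0) (XT.nd (nat_lit 780) (nat_lit 988) (nat_lit 0) (XT.nd (nat_lit 390) (nat_lit 456) (nat_lit 0) (XT.nd (nat_lit 156) (nat_lit 456) (nat_lit 0) (XT.nd (nat_lit 78) (nat_lit 304) (nat_lit 0) (XT.lf (nat_lit 0) (nat_lit 10701044106) (nat_lit 304) (nat_lit 2349505359) (nat_lit 380) (nat_lit 2162148682) (nat_lit 46) (nat_lit 5) (nat_lit 50) (nat_lit 5) (nat_lit 51) (nat_lit 5) (nat_lit 280) (nat_lit 243) (nat_lit 197)) (XT.lf (nat_lit 0) (nat_lit 1544755916) (nat_lit 304) (nat_lit 10490985154) (nat_lit 76) (nat_lit 3715847065) (nat_lit 42) (nat_lit 5) (nat_lit 46) (nat_lit 5) (nat_lit 43) (nat_lit 5) (nat_lit 281) (nat_lit 243) (nat_lit 196))) (XT.nd (nat_lit 78) (nat_lit 456) (nat_lit 0) (XT.lf (nat_lit 0) (nat_lit 5405101154) (nat_lit 304) (nat_lit 829052250) (nat_lit 76) (nat_lit 10082361212) (nat_lit 42) (nat_lit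 5) (nat_lit 46) (nat_lit 5) (nat_lit 43) (nat_lit 5) (nat_lit 282) (nat_lit 243) (nat_lit 195)) (XT.nd (nat_lit 78) (nat_lit 228) (nat_lit 0) (XT.lf (nat_lit 0) (nat_lit 9420977323) (nat_lit 228) (nat_lit 72597786) (nat_lit 304) (nat_lit 7415171898) (nat_lit 39) (nat_lit 5) (nat_lit 42) (nat_lit 5) (nat_lit 43) (nat_lit 5) (nat_lit 283) (nat_lit 243) (nat_lit 194)) (XT.lf (nat_lit 0) (nat_lit 2581220532) (nat_lit 228) (nat_lit 11246409739) (nat_lit 304) (nat_lit 3701833570) (nat_lit 36) (nat_lit 5) (nat_lit 39) (nat_lit 5) (nat_lit 40) (nat_lit 5) (nat_lit 284) (nat_lit 243) (nat_lit 193))))) (XT.nd (nat_lit 156) (nat_lit 152) (nat_lit 0) (XT.nd (nat_lit 78) (nat_lit 228) (nat_lit 0) (XT.lf (nat_lit 0) (nat_lit 219350902) (nat_lit 304) (nat_lit 4949139969) (nat_lit 76) (nat_lit 13011987430) (nat_lit 35) (nat_lit 5) (nat_lit 39) (nat_lit 5) (nat_lit 36) (nat_lit 5) (nat_lit 285) (nat_lit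 243) (nat_lit 192)) (XT.lf (nat_lit 0) (nat_lit 4276363296) (nat_lit 304) (nat_lit 13327761406) (nat_lit 76) (nat_lit 1258424089) (nat_lit 32) (nat_lit 5) (nat_lit 36) (nat_lit 5) (nat_lit 33) (nat_lit 5) (nat_lit 286) (nat_lit 243) (nat_lit 191))) (XT.nd (nat_lit 78) (nat_lit 152) (nat_lit 0) (XT.lf (nat_lit 0) (nat_lit 8591276697) (nat_lit 304) (nat_lit 3056063133) (nat_lit 76) (nat_lit 7929821665) (nat_lit 32) (nat_lit 5) (nat_lit 36) (nat_lit 5) (nat_lit 33) (nat_lit 5) (nat_lit 287) (nat_lit 243) (nat_lit 190)) (XT.nd (nat_lit 78) (nat_lit 0) (nat_lit 0) (XT.lf (nat_lit 0) (nat_lit 7812594717) (nat_lit 152) (nat_lit 5338185349) (nat_lit 228) (nat_lit 7175945343) (nat_lit 30) (nat_lit 5) (nat_lit 32) (nat_lit 5) (nat_lit 33) (nat_lit 5) (nat_lit 288) (nat_lit 243) (nat_lit 189)) (XT.lf (nat_lit 0) (nat_lit 17937482669) (nat_lit 228) (nat_lit 1905257481) (nat_lit 76) (nat_lit 1271132462)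 (nat_lit 30) (nat_lit 5) (nat_lit 33) (nat_lit 5) (nat_lit 31) (nat_lit 5) (nat_lit 289) (nat_lit 243) (nat_lit 188)))))) (XT.nd (nat_lit 390) (nat_lit 380) (nat_lit 0) (XT.nd (nat_lit 156) (nat_lit 304) (nat_lit 0) (XT.nd (nat_lit 78) (nat_lit 0) (nat_lit 0) (XT.lf (nat_lit 0) (nat_lit 1104565854) (nat_lit 304) (nat_lit 12651733316) (nat_lit 76) (nat_lit 8180816967) (nat_lit 26) (nat_lit 5) (nat_lit 30) (nat_lit 5) (nat_lit 27) (nat_lit 5) (nat_lit 290) (nat_lit 243) (nat_lit 187)) (XT.lf (nat_lit 0) (nat_lit 5512467873) (nat_lit 304) (nat_lit 1821910012) (nat_lit 76) (nat_lit 15466914786) (nat_lit 26) (nat_lit 5) (nat_lit 30) (nat_lit 5) (nat_lit 27) (nat_lit 5) (nat_lit 291) (nat_lit 243) (nat_lit 186))) (XT.nd (nat_lit 78) (nat_lit 152) (nat_lit 0) (XT.lf (nat_lit 0) (nat_lit 9677201788) (nat_lit 152) (nat_lit 516751388) (nat_lit 228) (nat_lit 13513197827) (nat_lit 24) (nat_lit 5) (nat_lit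 26) (nat_lit 5) (nat_lit 27) (nat_lit 5) (nat_lit 292) (nat_lit 243) (nat_lit 185)) (XT.nd (nat_lit 78) (nat_lit 152) (nat_lit 0) (XT.lf (nat_lit 0) (nat_lit 15153590219) (nat_lit 228) (nat_lit 2992739042) (nat_lit 76) (nat_lit 6510716013) (nat_lit 24) (nat_lit 5) (nat_lit 27) (nat_lit 5) (nat_lit 25) (nat_lit 5) (nat_lit 293) (nat_lit 243) (nat_lit 184)) (XT.lf (nat_lit 0) (nat_lit 8703513933) (nat_lit 152) (nat_lit 11709709809) (nat_lit 228) (nat_lit 5239712316) (nat_lit 22) (nat_lit 5) (nat_lit 24) (nat_lit 5) (nat_lit 25) (nat_lit 5) (nat_lit 294) (nat_lit 243) (nat_lit 183))))) (XT.nd (nat_lit 156) (nat_lit 152) (nat_lit 0) (XT.nd (nat_lit 78) (nat_lit 228) (nat_lit 0) (XT.lf (nat_lit 0) (nat_lit 20991326562) (nat_lit 152) (nat_lit 4939674562) (nat_lit 228) (nat_lit 767824665) (nat_lit 22) (nat_lit 5) (nat_lit 24) (nat_lit 5) (nat_lit 25) (nat_lit 5) (nat_lit 295) (nat_lit 243) (nat_lit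 182)) (XT.lf (nat_lit 0) (nat_lit 3897163967) (nat_lit 228) (nat_lit 21692413569) (nat_lit 76) (nat_lit 2204970144) (nat_lit 19) (nat_lit 5) (nat_lit 22) (nat_lit 5) (nat_lit 20) (nat_lit 5) (nat_lit 296) (nat_lit 243) (nat_lit 181))) (XT.nd (nat_lit 78) (nat_lit 152) (nat_lit 0) (XT.lf (nat_lit 0) (nat_lit 8855471458) (nat_lit 228) (nat_lit 10433157086) (nat_lit 76) (nat_lit 9653972775) (nat_lit 19) (nat_lit 5) (nat_lit 22) (nat_lit 5) (nat_lit 20) (nat_lit 5) (nat_lit 297) (nat_lit 243) (nat_lit 180)) (XT.nd (nat_lit 78) (nat_lit 0) (nat_lit 0) (XT.lf (nat_lit 0) (nat_lit 1365037881) (nat_lit 152) (nat_lit 12677976957) (nat_lit 228) (nat_lit 16105652898) (nat_lit 17) (nat_lit 5) (nat_lit 19) (nat_lit 5) (nat_lit 20) (nat_lit 5) (nat_lit 298) (nat_lit 243) (nat_lit 179)) (XT.lf (nat_lit 0) (nat_lit 13921955941) (nat_lit 152) (nat_lit 5644619839) (nat_lit 228) (nat_lit 11846209826) (nat_lit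 17) (nat_lit 5) (nat_lit 19) (nat_lit 5) (nat_lit 20) (nat_lit 5) (nat_lit 299) (nat_lit 243) (nat_lit 178))))))) (XT.nd (nat_lit 780) (nat_lit 380) (nat_lit 0) (XT.nd (nat_lit 390) (nat_lit 76) (nat_lit 0) (XT.nd (nat_lit 156) (nat_lit 228) (nat_lit 0) (XT.nd (nat_lit 78) (nat_lit 76) (nat_lit 0) (XT.lf (nat_lit 0) (nat_lit 25353580703) (nat_lit 228) (nat_lit 5697740013) (nat_lit 76) (nat_lit 1689215763) (nat_lit 17) (nat_lit 5) (nat_lit 20) (nat_lit 5) (nat_lit 18) (nat_lit 4) (nat_lit 300) (nat_lit 243) (nat_lit 177)) (XT.lf (nat_lit 0) (nat_lit 6713686758) (nat_lit 76) (nat_lit 24809696833) (nat_lit 152) (nat_lit 2608530818) (nat_lit 16) (nat_lit 5) (nat_lit 17) (nat_lit 5) (nat_lit 18) (nat_lit 4) (nat_lit 301) (nat_lit 243) (nat_lit 176))) (XT.nd (nat_lit 78) (nat_lit 152) (nat_lit 0) (XT.lf (nat_lit 0) (nat_lit 2393587668) (nat_lit 152) (nat_lit 15794725668) (nat_lit 76) (nat_lit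 17402939645) (nat_lit 15) (nat_lit 5) (nat_lit 17) (nat_lit 5) (nat_lit 16) (nat_lit 5) (nat_lit 302) (nat_lit 243) (nat_lit 175)) (XT.nd (nat_lit 78) (nat_lit 152) (nat_lit 0) (XT.lf (nat_lit 0) (nat_lit 7566215645) (nat_lit 152) (nat_lit 3658890618) (nat_lit 76) (nat_lit 25898484664) (nat_lit 15) (nat_lit 5) (nat_lit 17) (nat_lit 5) (nat_lit 16) (nat_lit 5) (nat_lit 303) (nat_lit 243) (nat_lit 174)) (XT.lf (nat_lit 0) (nat_lit 9223225486) (nat_lit 152) (nat_lit 3838004524) (nat_lit 228) (nat_lit 25669439126) (nat_lit 13) (nat_lit 5) (nat_lit 15) (nat_lit 5) (nat_lit 16) (nat_lit 5) (nat_lit 304) (nat_lit 243) (nat_lit 173))))) (XT.nd (nat_lit 156) (nat_lit 76) (nat_lit 0) (XT.nd (nat_lit 78) (nat_lit 0) (nat_lit 0) (XT.lf (nat_lit 0) (nat_lit 18882456780) (nat_lit 228) (nat_lit 17669042546) (nat_lit 76) (nat_lit 3865092377) (nat_lit 13) (nat_lit 5) (nat_lit 16) (nat_lit 5) (nat_lit 14)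 (nat_lit 4) (nat_lit 305) (nat_lit 243) (nat_lit 172)) (XT.lf (nat_lit 0) (nat_lit 25010394374) (nat_lit 228) (nat_lit 5315496640) (nat_lit 76) (nat_lit 11860482568) (nat_lit 13) (nat_lit 5) (nat_lit 16) (nat_lit 5) (nat_lit 14) (nat_lit 4) (nat_lit 306) (nat_lit 243) (nat_lit 171))) (XT.nd (nat_lit 78) (nat_lit 0) (nat_lit 0) (XT.lf (nat_lit 0) (nat_lit 7771143522) (nat_lit 76) (nat_lit 23726297335) (nat_lit 152) (nat_lit 12545653447) (nat_lit 12) (nat_lit 5) (nat_lit 13) (nat_lit 5) (nat_lit 14) (nat_lit 4) (nat_lit 307) (nat_lit 243) (nat_lit 170)) (XT.nd (nat_lit 78) (nat_lit 0) (nat_lit 0) (XT.lf (nat_lit 0) (nat_lit 21588006309) (nat_lit 76) (nat_lit 16754271575) (nat_lit 152) (nat_lit 7649399660) (nat_lit 12) (nat_lit 5) (nat_lit 13) (nat_lit 5) (nat_lit 14) (nat_lit 4) (nat_lit 308) (nat_lit 243) (nat_lit 169)) (XT.lf (nat_lit 0) (nat_lit 36062200209) (nat_lit 76) (nat_lit 9446889767)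 (nat_lit 152) (nat_lit 2529236193) (nat_lit 12) (nat_lit 5) (nat_lit 13) (nat_lit 5) (nat_lit 14) (nat_lit 4) (nat_lit 309) (nat_lit 243) (nat_lit 168)))))) (XT.nd (nat_lit 390) (nat_lit 76) (nat_lit 0) (XT.nd (nat_lit 156) (nat_lit 76) (nat_lit 0) (XT.nd (nat_lit 78) (nat_lit 0) (nat_lit 0) (XT.lf (nat_lit 0) (nat_lit 1033261977) (nat_lit 152) (nat_lit 1748532692) (nat_lit 228) (nat_lit 47405005259) (nat_lit 9) (nat_lit 5) (nat_lit 11) (nat_lit 5) (nat_lit 12) (nat_lit 5) (nat_lit 310) (nat_lit 243) (nat_lit 167)) (XT.lf (nat_lit 0) (nat_lit 8472940713) (nat_lit 228) (nat_lit 37615131326) (nat_lit 76) (nat_lit 6348892763) (nat_lit 9) (nat_lit 5) (nat_lit 12) (nat_lit 5) (nat_lit 10) (nat_lit 4) (nat_lit 311) (nat_lit 243) (nat_lit 166))) (XT.nd (nat_lit 78) (nat_lit 76) (nat_lit 0) (XT.lf (nat_lit 0) (nat_lit 14448185921) (nat_lit 228) (nat_lit 25547810201) (nat_lit 76) (nat_lit 14803679207)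 (nat_lit 9) (nat_lit 5) (nat_lit 12) (nat_lit 5) (nat_lit 10) (nat_lit 4) (nat_lit 312) (nat_lit 243) (nat_lit 165)) (XT.nd (nat_lit 78) (nat_lit 76) (nat_lit 0) (XT.lf (nat_lit 0) (nat_lit 20704949102) (nat_lit 228) (nat_lit 12906034894) (nat_lit 76) (nat_lit 23670077255) (nat_lit 9) (nat_lit 5) (nat_lit 12) (nat_lit 5) (nat_lit 10) (nat_lit 4) (nat_lit 313) (nat_lit 243) (nat_lit 164)) (XT.lf (nat_lit 0) (nat_lit 347066580) (nat_lit 76) (nat_lit 26914396947) (nat_lit 152) (nat_lit 32625467015) (nat_lit 8) (nat_lit 5) (nat_lit 9) (nat_lit 5) (nat_lit 10) (nat_lit 4) (nat_lit 314) (nat_lit 243) (nat_lit 163))))) (XT.nd (nat_lit 234) (nat_lit 76) (nat_lit 0) (XT.nd (nat_lit 78) (nat_lit 0) (nat_lit 0) (XT.lf (nat_lit 0) (nat_lit 14505775469) (nat_lit 76) (nat_lit 19756986272) (nat_lit 152) (nat_lit 28356843259) (nat_lit 8) (nat_lit 5) (nat_lit 9) (nat_lit 5) (nat_lit 10) (nat_lit 4) (nat_lit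 315) (nat_lit 243) (nat_lit 162)) (XT.nd (nat_lit 78) (nat_lit 0) (nat_lit 0) (XT.lf (nat_lit 0) (nat_lit 29346947584) (nat_lit 76) (nat_lit 12252036163) (nat_lit 152) (nat_lit 23890403136) (nat_lit 8) (nat_lit 5) (nat_lit 9) (nat_lit 5) (nat_lit 10) (nat_lit 4) (nat_lit 316) (nat_lit 243) (nat_lit 161)) (XT.lf (nat_lit 0) (nat_lit 44905919049) (nat_lit 76) (nat_lit 4381677691) (nat_lit 152) (nat_lit 19215512267) (nat_lit 8) (nat_lit 5) (nat_lit 9) (nat_lit 5) (nat_lit 10) (nat_lit 4) (nat_lit 317) (nat_lit 243) (nat_lit 160)))) (XT.nd (nat_lit 78) (nat_lit 76) (nat_lit 0) (XT.lf (nat_lit 0) (nat_lit 57384134936) (nat_lit 152) (nat_lit 10485439860) (nat_lit 0) (nat_lit 3797255266) (nat_lit 8) (nat_lit 5) (nat_lit 10) (nat_lit 4) (nat_lit 8) (nat_lit 4) (nat_lit 318) (nat_lit 243) (nat_lit 159)) (XT.nd (nat_lit 78) (nat_lit 0) (nat_lit 0) (XT.lf (nat_lit 0) (nat_lit 3279336804) (nat_lit 76)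 (nat_lit 62668746308) (nat_lit 76) (nat_lit 9038793383) (nat_lit 7) (nat_lit 4) (nat_lit 8) (nat_lit 5) (nat_lit 8) (nat_lit 4) (nat_lit 319) (nat_lit 243) (nat_lit 158)) (XT.lf (nat_lit 0) (nat_lit 17929779887) (nat_lit 76) (nat_lit 57105640354) (nat_lit 76) (nat_lit 3434665281) (nat_lit 7) (nat_lit 4) (nat_lit 8) (nat_lit 5) (nat_lit 8) (nat_lit 4) (nat_lit 320) (nat_lit 243) (nat_lit 157))))))))
noncomputable def xc58 : XT := (XT.nd (nat_lit 32448) (nat_lit 0) (nat_lit 4028) (XT.nd (nat_lit 31668) (nat_lit 0) (nat_lit 13148) (XT.nd (nat_lit 390) (nat_lit 0) (nat_lit 0) (XT.nd (nat_lit 156) (nat_lit 76) (nat_lit 0) (XT.nd (nat_lit 78) (nat_lit 0) (nat_lit 0) (XT.lf (nat_lit 0) (nat_lit 2389592383) (nat_lit 152) (nat_lit 48859171247) (nat_lit 76) (nat_lit 30878368001) (nat_lit 6) (nat_lit 5) (nat_lit 8) (nat_lit 5) (nat_lit 7) (nat_lit 4) (nat_lit 321) (nat_lit 243) (nat_lit 156)) (XT.lf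 (nat_lit 0) (nat_lit 8422998657) (nat_lit 152) (nat_lit 36648564808) (nat_lit 76) (nat_lit 40894791391) (nat_lit 6) (nat_lit 5) (nat_lit 8) (nat_lit 5) (nat_lit 7) (nat_lit 4) (nat_lit 322) (nat_lit 243) (nat_lit 155))) (XT.nd (nat_lit 78) (nat_lit 76) (nat_lit 0) (XT.lf (nat_lit 0) (nat_lit 14746941483) (nat_lit 152) (nat_lit 23846397343) (nat_lit 76) (nat_lit 51404547862) (nat_lit 6) (nat_lit 5) (nat_lit 8) (nat_lit 5) (nat_lit 7) (nat_lit 4) (nat_lit 323) (nat_lit 243) (nat_lit 154)) (XT.nd (nat_lit 78) (nat_lit 76) (nat_lit 0) (XT.lf (nat_lit 0) (nat_lit 21376477869) (nat_lit 152) (nat_lit 10422187502) (nat_lit 76) (nat_lit 62432660643) (nat_lit 6) (nat_lit 5) (nat_lit 8) (nat_lit 5) (nat_lit 7) (nat_lit 4) (nat_lit 324) (nat_lit 243) (nat_lit 153)) (XT.lf (nat_lit 0) (nat_lit 3728789227) (nat_lit 76) (nat_lit 24634446600) (nat_lit 152) (nat_lit 70312441322) (nat_lit 5) (nat_lit 5) (nat_lit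 6) (nat_lit 5) (nat_lit 7) (nat_lit 4) (nat_lit 325) (nat_lit 243) (nat_lit 152))))) (XT.nd (nat_lit 156) (nat_lit 0) (nat_lit 0) (XT.nd (nat_lit 78) (nat_lit 0) (nat_lit 0) (XT.lf (nat_lit 0) (nat_lit 18788395347) (nat_lit 76) (nat_lit 17008445150) (nat_lit 152) (nat_lit 67542491686) (nat_lit 5) (nat_lit 5) (nat_lit 6) (nat_lit 5) (nat_lit 7) (nat_lit 4) (nat_lit 326) (nat_lit 243) (nat_lit 151)) (XT.lf (nat_lit 0) (nat_lit 34585065093) (nat_lit 76) (nat_lit 9007747532) (nat_lit 152) (nat_lit 64643647777) (nat_lit 5) (nat_lit 5) (nat_lit 6) (nat_lit 5) (nat_lit 7) (nat_lit 4) (nat_lit 327) (nat_lit 243) (nat_lit 150))) (XT.nd (nat_lit 30966) (nat_lit 0) (nat_lit 16264) (XT.lf (nat_lit 0) (nat_lit 51156409585) (nat_lit 76) (nat_lit 613304467) (nat_lit 152) (nat_lit 61609007586) (nat_lit 5) (nat_lit 5) (nat_lit 6) (nat_lit 5) (nat_lit 7) (nat_lit 4) (nat_lit 328) (nat_lit 243) (nat_lit 149))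 (XT.nd (nat_lit 78) (nat_lit 532) (nat_lit 0) (XT.lf (nat_lit 0) (nat_lit 1279521223) (nat_lit 0) (nat_lit 1279521223) (nat_lit 380) (nat_lit 760763359) (nat_lit 226) (nat_lit 5) (nat_lit 226) (nat_lit 3) (nat_lit 231) (nat_lit 3) (nat_lit 244) (nat_lit 244) (nat_lit 232)) (XT.lf (nat_lit 76) (nat_lit 533325653) (nat_lit 0) (nat_lit 1220896184) (nat_lit 532) (nat_lit 4938761191) (nat_lit 220) (nat_lit 5) (nat_lit 219) (nat_lit 3) (nat_lit 226) (nat_lit 5) (nat_lit 245) (nat_lit 244) (nat_lit 231)))))) (XT.nd (nat_lit 390) (nat_lit 2052) (nat_lit 0) (XT.nd (nat_lit 156) (nat_lit 608) (nat_lit 0) (XT.nd (nat_lit 78) (nat_lit 532) (nat_lit 0) (XT.lf (nat_lit 0) (nat_lit 4996826551) (nat_lit 456) (nat_lit 1421040041) (nat_lit 532) (nat_lit 336600932) (nat_lit 220) (nat_lit 5) (nat_lit 226) (nat_lit 5) (nat_lit 227) (nat_lit 5) (nat_lit 246) (nat_lit 244) (nat_lit 230)) (XT.lf (nat_lit 0) (nat_lit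 1395247628) (nat_lit 532) (nat_lit 3341044001) (nat_lit 608) (nat_lit 2087832706) (nat_lit 213) (nat_lit 5) (nat_lit 220) (nat_lit 5) (nat_lit 221) (nat_lit 5) (nat_lit 247) (nat_lit 244) (nat_lit 229))) (XT.nd (nat_lit 78) (nat_lit 608) (nat_lit 0) (XT.lf (nat_lit 76) (nat_lit 1665187822) (nat_lit 0) (nat_lit 2841148018) (nat_lit 608) (nat_lit 2396120099) (nat_lit 214) (nat_lit 5) (nat_lit 213) (nat_lit 5) (nat_lit 221) (nat_lit 5) (nat_lit 248) (nat_lit 244) (nat_lit 228)) (XT.nd (nat_lit 78) (nat_lit 0) (nat_lit 76) (XT.lf (nat_lit 0) (nat_lit 618982366) (nat_lit 608) (nat_lit 115964907) (nat_lit 684) (nat_lit 6254906141) (nat_lit 205) (nat_lit 5) (nat_lit 213) (nat_lit 5) (nat_lit 214) (nat_lit 5) (nat_lit 249) (nat_lit 244) (nat_lit 227)) (XT.lf (nat_lit 0) (nat_lit 3621944041) (nat_lit 608) (nat_lit 1872247989) (nat_lit 684) (nat_lit 1590840385) (nat_lit 206) (nat_lit 5) (nat_lit 214)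 (nat_lit 5) (nat_lit 215) (nat_lit 5) (nat_lit 250) (nat_lit 244) (nat_lit 226))))) (XT.nd (nat_lit 156) (nat_lit 1444) (nat_lit 0) (XT.nd (nat_lit 78) (nat_lit 684) (nat_lit 0) (XT.lf (nat_lit 76) (nat_lit 3574057255) (nat_lit 0) (nat_lit 3072463890) (nat_lit 684) (nat_lit 542993923) (nat_lit 207) (nat_lit 5) (nat_lit 206) (nat_lit 5) (nat_lit 215) (nat_lit 5) (nat_lit 251) (nat_lit 244) (nat_lit 225)) (XT.lf (nat_lit 76) (nat_lit 1932004437) (nat_lit 0) (nat_lit 413223821) (nat_lit 760) (nat_lit 4957762070) (nat_lit 198) (nat_lit 5) (nat_lit 197) (nat_lit 5) (nat_lit 207) (nat_lit 5) (nat_lit 252) (nat_lit 244) (nat_lit 224))) (XT.nd (nat_lit 78) (nat_lit 836) (nat_lit 0) (XT.lf (nat_lit 0) (nat_lit 270939978) (nat_lit 684) (nat_lit 4999514107) (nat_lit 760) (nat_lit 2155015803) (nat_lit 189) (nat_lit 5) (nat_lit 198) (nat_lit 5) (nat_lit 199) (nat_lit 5) (nat_lit 253) (nat_lit 244) (nat_lit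 223)) (XT.nd (nat_lit 78) (nat_lit 760) (nat_lit 0) (XT.lf (nat_lit 0) (nat_lit 677575970) (nat_lit 760) (nat_lit 1374795997) (nat_lit 76) (nat_lit 5504882576) (nat_lit 188) (nat_lit 5) (nat_lit 198) (nat_lit 5) (nat_lit 189) (nat_lit 5) (nat_lit 254) (nat_lit 244) (nat_lit 222)) (XT.lf (nat_lit 0) (nat_lit 3515825222) (nat_lit 836) (nat_lit 3058383807) (nat_lit 76) (nat_lit 1124055478) (nat_lit 178) (nat_lit 5) (nat_lit 189) (nat_lit 5) (nat_lit 179) (nat_lit 5) (nat_lit 255) (nat_lit 244) (nat_lit 221))))))) (XT.nd (nat_lit 780) (nat_lit 3116) (nat_lit 0) (XT.nd (nat_lit 390) (nat_lit 2052) (nat_lit 0) (XT.nd (nat_lit 156) (nat_lit 2128) (nat_lit 0) (XT.nd (nat_lit 78) (nat_lit 988) (nat_lit 0) (XT.lf (nat_lit 0) (nat_lit 3063468346) (nat_lit 836) (nat_lit 3355726948) (nat_lit 912) (nat_lit 1429942078) (nat_lit 167) (nat_lit 5) (nat_lit 178) (nat_lit 5) (nat_lit 179) (nat_lit 5) (nat_lit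 256) (nat_lit 244) (nat_lit 220)) (XT.lf (nat_lit 0) (nat_lit 1341061447) (nat_lit 988) (nat_lit 6562282481) (nat_lit 76) (nat_lit 106977947) (nat_lit 154) (nat_lit 5) (nat_lit 167) (nat_lit 5) (nat_lit 155) (nat_lit 5) (nat_lit 257) (nat_lit 244) (nat_lit 219))) (XT.nd (nat_lit 78) (nat_lit 2128) (nat_lit 0) (XT.lf (nat_lit 0) (nat_lit 4173230834) (nat_lit 988) (nat_lit 248322994) (nat_lit 76) (nat_lit 3759469292) (nat_lit 154) (nat_lit 5) (nat_lit 167) (nat_lit 5) (nat_lit 155) (nat_lit 5) (nat_lit 258) (nat_lit 244) (nat_lit 218)) (XT.nd (nat_lit 78) (nat_lit 1140) (nat_lit 0) (XT.lf (nat_lit 0) (nat_lit 6396744388) (nat_lit 988) (nat_lit 686317535) (nat_lit 1064) (nat_lit 1279542507) (nat_lit 141) (nat_lit 5) (nat_lit 154) (nat_lit 5) (nat_lit 155) (nat_lit 5) (nat_lit 259) (nat_lit 244) (nat_lit 217)) (XT.lf (nat_lit 0) (nat_lit 1512650024) (nat_lit 1140) (nat_lit 3791989377) (nat_lit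 76) (nat_lit 3249808888) (nat_lit 126) (nat_lit 5) (nat_lit 141) (nat_lit 5) (nat_lit 127) (nat_lit 5) (nat_lit 260) (nat_lit 244) (nat_lit 216))))) (XT.nd (nat_lit 156) (nat_lit 1064) (nat_lit 0) (XT.nd (nat_lit 78) (nat_lit 456) (nat_lit 0) (XT.lf (nat_lit 0) (nat_lit 3042345402) (nat_lit 532) (nat_lit 1315326323) (nat_lit 608) (nat_lit 4400017746) (nat_lit 119) (nat_lit 5) (nat_lit 126) (nat_lit 5) (nat_lit 127) (nat_lit 5) (nat_lit 261) (nat_lit 244) (nat_lit 215)) (XT.lf (nat_lit 0) (nat_lit 1212757742) (nat_lit 456) (nat_lit 6098323337) (nat_lit 532) (nat_lit 1661385313) (nat_lit 113) (nat_lit 5) (nat_lit 119) (nat_lit 5) (nat_lit 120) (nat_lit 5) (nat_lit 262) (nat_lit 244) (nat_lit 214))) (XT.nd (nat_lit 78) (nat_lit 988) (nat_lit 0) (XT.lf (nat_lit 0) (nat_lit 1153535961) (nat_lit 532) (nat_lit 725006927) (nat_lit 76) (nat_lit 7320528439) (nat_lit 112) (nat_lit 5) (nat_lit 119)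 (nat_lit 5) (nat_lit 113) (nat_lit 5) (nat_lit 263) (nat_lit 244) (nat_lit 213)) (XT.nd (nat_lit 78) (nat_lit 456) (nat_lit 0) (XT.lf (nat_lit 0) (nat_lit 4060189725) (nat_lit 608) (nat_lit 2793262794) (nat_lit 76) (nat_lit 2583815178) (nat_lit 105) (nat_lit 5) (nat_lit 113) (nat_lit 5) (nat_lit 106) (nat_lit 5) (nat_lit 264) (nat_lit 244) (nat_lit 212)) (XT.lf (nat_lit 0) (nat_lit 4676671127) (nat_lit 456) (nat_lit 2406518531) (nat_lit 532) (nat_lit 2605353882) (nat_lit 99) (nat_lit 5) (nat_lit 105) (nat_lit 5) (nat_lit 106) (nat_lit 5) (nat_lit 265) (nat_lit 244) (nat_lit 211)))))) (XT.nd (nat_lit 390) (nat_lit 1368) (nat_lit 0) (XT.nd (nat_lit 156) (nat_lit 836) (nat_lit 0) (XT.nd (nat_lit 78) (nat_lit 380) (nat_lit 0) (XT.lf (nat_lit 0) (nat_lit 277122379) (nat_lit 532) (nat_lit 7406504535) (nat_lit 76) (nat_lit 2269602263) (nat_lit 92) (nat_lit 5) (nat_lit 99) (nat_lit 5) (nat_lit 93)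 (nat_lit 5) (nat_lit 266) (nat_lit 244) (nat_lit 210)) (XT.lf (nat_lit 0) (nat_lit 207057274) (nat_lit 380) (nat_lit 3027412354) (nat_lit 456) (nat_lit 6996630939) (nat_lit 87) (nat_lit 5) (nat_lit 92) (nat_lit 5) (nat_lit 93) (nat_lit 5) (nat_lit 267) (nat_lit 244) (nat_lit 209))) (XT.nd (nat_lit 78) (nat_lit 836) (nat_lit 0) (XT.lf (nat_lit 0) (nat_lit 6343736370) (nat_lit 456) (nat_lit 2287310306) (nat_lit 76) (nat_lit 1891948940) (nat_lit 87) (nat_lit 5) (nat_lit 93) (nat_lit 5) (nat_lit 88) (nat_lit 5) (nat_lit 268) (nat_lit 244) (nat_lit 208)) (XT.nd (nat_lit 78) (nat_lit 456) (nat_lit 0) (XT.lf (nat_lit 0) (nat_lit 5820079766) (nat_lit 380) (nat_lit 3788373877) (nat_lit 456) (nat_lit 1221271828) (nat_lit 82) (nat_lit 5) (nat_lit 87) (nat_lit 5) (nat_lit 88) (nat_lit 5) (nat_lit 269) (nat_lit 244) (nat_lit 207)) (XT.lf (nat_lit 0) (nat_lit 1830812532) (nat_lit 456) (nat_lit 7990512419)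 (nat_lit 76) (nat_lit 1330655798) (nat_lit 76) (nat_lit 5) (nat_lit 82) (nat_lit 5) (nat_lit 77) (nat_lit 5) (nat_lit 270) (nat_lit 244) (nat_lit 206))))) (XT.nd (nat_lit 234) (nat_lit 684) (nat_lit 0) (XT.nd (nat_lit 78) (nat_lit 304) (nat_lit 0) (XT.lf (nat_lit 0) (nat_lit 212140800) (nat_lit 380) (nat_lit 4809287564) (nat_lit 456) (nat_lit 6468433178) (nat_lit 71) (nat_lit 5) (nat_lit 76) (nat_lit 5) (nat_lit 77) (nat_lit 5) (nat_lit 271) (nat_lit 244) (nat_lit 205)) (XT.nd (nat_lit 78) (nat_lit 304) (nat_lit 0) (XT.lf (nat_lit 0) (nat_lit 8380397587) (nat_lit 456) (nat_lit 2952970227) (nat_lit 76) (nat_lit 511204889) (nat_lit 71) (nat_lit 5) (nat_lit 77) (nat_lit 5) (nat_lit 72) (nat_lit 5) (nat_lit 272) (nat_lit 244) (nat_lit 204)) (XT.lf (nat_lit 0) (nat_lit 5758965043) (nat_lit 304) (nat_lit 6177388340) (nat_lit 380) (nat_lit 279986328) (nat_lit 67) (nat_lit 5) (nat_lit 71) (nat_lit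 5) (nat_lit 72) (nat_lit 5) (nat_lit 273) (nat_lit 244) (nat_lit 203)))) (XT.nd (nat_lit 78) (nat_lit 304) (nat_lit 0) (XT.lf (nat_lit 0) (nat_lit 2285412664) (nat_lit 304) (nat_lit 697831404) (nat_lit 380) (nat_lit 9623356277) (nat_lit 62) (nat_lit 5) (nat_lit 66) (nat_lit 5) (nat_lit 67) (nat_lit 5) (nat_lit 274) (nat_lit 244) (nat_lit 202)) (XT.nd (nat_lit 78) (nat_lit 304) (nat_lit 0) (XT.lf (nat_lit 0) (nat_lit 6449011938) (nat_lit 380) (nat_lit 1557508875) (nat_lit 76) (nat_lit 5008583618) (nat_lit 62) (nat_lit 5) (nat_lit 67) (nat_lit 5) (nat_lit 63) (nat_lit 5) (nat_lit 275) (nat_lit 244) (nat_lit 201)) (XT.lf (nat_lit 0) (nat_lit 7700599858) (nat_lit 304) (nat_lit 2401280346) (nat_lit 380) (nat_lit 3341899707) (nat_lit 58) (nat_lit 5) (nat_lit 62) (nat_lit 5) (nat_lit 63) (nat_lit 5) (nat_lit 276) (nat_lit 244) (nat_lit 200))))))))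
noncomputable def xc59 : XT := (XT.nd (nat_lit 1638) (nat_lit 836) (nat_lit 0) (XT.nd (nat_lit 780) (nat_lit 1216) (nat_lit 0) (XT.nd (nat_lit 390) (nat_lit 836) (nat_lit 0) (XT.nd (nat_lit 156) (nat_lit 532) (nat_lit 0) (XT.nd (nat_lit 78) (nat_lit 0) (nat_lit 0) (XT.lf (nat_lit 0) (nat_lit 61050175) (nat_lit 380) (nat_lit 10384904952) (nat_lit 76) (nat_lit 3447518054) (nat_lit 53) (nat_lit 5) (nat_lit 58) (nat_lit 5) (nat_lit 54) (nat_lit 5) (nat_lit 277) (nat_lit 244) (nat_lit 199)) (XT.lf (nat_lit 0) (nat_lit 3586091960) (nat_lit 380) (nat_lit 1164833957) (nat_lit 76) (nat_lit 9613242138) (nat_lit 53) (nat_lit 5) (nat_lit 58) (nat_lit 5) (nat_lit 54) (nat_lit 5) (nat_lit 278) (nat_lit 244) (nat_lit 198))) (XT.nd (nat_lit 78) (nat_lit 304) (nat_lit 0) (XT.lf (nat_lit 0) (nat_lit 7322012963) (nat_lit 304) (nat_lit 6267445236) (nat_lit 76) (nat_lit 1268035311) (nat_lit 50) (nat_lit 5) (nat_lit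 54) (nat_lit 5) (nat_lit 51) (nat_lit 5) (nat_lit 279) (nat_lit 244) (nat_lit 197)) (XT.nd (nat_lit 78) (nat_lit 0) (nat_lit 0) (XT.lf (nat_lit 0) (nat_lit 3419942132) (nat_lit 304) (nat_lit 7859148567) (nat_lit 380) (nat_lit 4095491955) (nat_lit 46) (nat_lit 5) (nat_lit 50) (nat_lit 5) (nat_lit 51) (nat_lit 5) (nat_lit 280) (nat_lit 244) (nat_lit 196)) (XT.lf (nat_lit 0) (nat_lit 13644367796) (nat_lit 304) (nat_lit 1797633182) (nat_lit 380) (nat_lit 475408050) (nat_lit 46) (nat_lit 5) (nat_lit 50) (nat_lit 5) (nat_lit 51) (nat_lit 5) (nat_lit 281) (nat_lit 244) (nat_lit 195))))) (XT.nd (nat_lit 156) (nat_lit 304) (nat_lit 0) (XT.nd (nat_lit 78) (nat_lit 228) (nat_lit 0) (XT.lf (nat_lit 0) (nat_lit 3327380634) (nat_lit 304) (nat_lit 8590810532) (nat_lit 76) (nat_lit 4566341531) (nat_lit 42) (nat_lit 5) (nat_lit 46) (nat_lit 5) (nat_lit 43) (nat_lit 5) (nat_lit 282) (nat_lit 244) (nat_lit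 194)) (XT.lf (nat_lit 0) (nat_lit 1467390039) (nat_lit 228) (nat_lit 5846249644) (nat_lit 304) (nat_lit 9766244316) (nat_lit 39) (nat_lit 5) (nat_lit 42) (nat_lit 5) (nat_lit 43) (nat_lit 5) (nat_lit 283) (nat_lit 244) (nat_lit 193))) (XT.nd (nat_lit 78) (nat_lit 304) (nat_lit 0) (XT.lf (nat_lit 0) (nat_lit 11542404379) (nat_lit 304) (nat_lit 5574642141) (nat_lit 76) (nat_lit 586762993) (nat_lit 39) (nat_lit 5) (nat_lit 43) (nat_lit 5) (nat_lit 40) (nat_lit 5) (nat_lit 284) (nat_lit 244) (nat_lit 192)) (XT.nd (nat_lit 78) (nat_lit 76) (nat_lit 0) (XT.lf (nat_lit 0) (nat_lit 4931514655) (nat_lit 228) (nat_lit 11108737802) (nat_lit 304) (nat_lit 2317047044) (nat_lit 36) (nat_lit 5) (nat_lit 39) (nat_lit 5) (nat_lit 40) (nat_lit 5) (nat_lit 285) (nat_lit 244) (nat_lit 191)) (XT.lf (nat_lit 0) (nat_lit 1696265330) (nat_lit 304) (nat_lit 3049187445) (nat_lit 76) (nat_lit 14297296822) (nat_lit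 35) (nat_lit 5) (nat_lit 39) (nat_lit 5) (nat_lit 36) (nat_lit 5) (nat_lit 286) (nat_lit 244) (nat_lit 190)))))) (XT.nd (nat_lit 390) (nat_lit 532) (nat_lit 0) (XT.nd (nat_lit 156) (nat_lit 456) (nat_lit 0) (XT.nd (nat_lit 78) (nat_lit 0) (nat_lit 0) (XT.lf (nat_lit 0) (nat_lit 5912809078) (nat_lit 304) (nat_lit 11869604417) (nat_lit 76) (nat_lit 1977941799) (nat_lit 32) (nat_lit 5) (nat_lit 36) (nat_lit 5) (nat_lit 33) (nat_lit 5) (nat_lit 287) (nat_lit 244) (nat_lit 189)) (XT.lf (nat_lit 0) (nat_lit 10375723977) (nat_lit 304) (nat_lit 1185490042) (nat_lit 76) (nat_lit 8951642753) (nat_lit 32) (nat_lit 5) (nat_lit 36) (nat_lit 5) (nat_lit 33) (nat_lit 5) (nat_lit 288) (nat_lit 244) (nat_lit 188))) (XT.nd (nat_lit 78) (nat_lit 304) (nat_lit 0) (XT.lf (nat_lit 0) (nat_lit 10168601027) (nat_lit 152) (nat_lit 4948975631) (nat_lit 228) (nat_lit 6183810824) (nat_lit 30) (nat_lit 5) (nat_lit 32)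 (nat_lit 5) (nat_lit 33) (nat_lit 5) (nat_lit 289) (nat_lit 244) (nat_lit 187)) (XT.nd (nat_lit 78) (nat_lit 304) (nat_lit 0) (XT.lf (nat_lit 0) (nat_lit 20087275474) (nat_lit 228) (nat_lit 95050113) (nat_lit 76) (nat_lit 1947370744) (nat_lit 30) (nat_lit 5) (nat_lit 33) (nat_lit 5) (nat_lit 31) (nat_lit 5) (nat_lit 290) (nat_lit 244) (nat_lit 186)) (XT.lf (nat_lit 0) (nat_lit 2384963351) (nat_lit 304) (nat_lit 11406976033) (nat_lit 76) (nat_lit 9203167125) (nat_lit 26) (nat_lit 5) (nat_lit 30) (nat_lit 5) (nat_lit 27) (nat_lit 5) (nat_lit 291) (nat_lit 244) (nat_lit 185))))) (XT.nd (nat_lit 234) (nat_lit 380) (nat_lit 0) (XT.nd (nat_lit 78) (nat_lit 152) (nat_lit 0) (XT.lf (nat_lit 0) (nat_lit 6954919081) (nat_lit 304) (nat_lit 125058895) (nat_lit 76) (nat_lit 16824364630) (nat_lit 26) (nat_lit 5) (nat_lit 30) (nat_lit 5) (nat_lit 27) (nat_lit 5) (nat_lit 292) (nat_lit 244) (nat_lit 184))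 (XT.nd (nat_lit 78) (nat_lit 0) (nat_lit 0) (XT.lf (nat_lit 0) (nat_lit 11832245451) (nat_lit 228) (nat_lit 12959634122) (nat_lit 76) (nat_lit 64856983) (nat_lit 24) (nat_lit 5) (nat_lit 27) (nat_lit 5) (nat_lit 25) (nat_lit 5) (nat_lit 293) (nat_lit 244) (nat_lit 183)) (XT.lf (nat_lit 0) (nat_lit 16991089077) (nat_lit 228) (nat_lit 1459902797) (nat_lit 76) (nat_lit 7404688077) (nat_lit 24) (nat_lit 5) (nat_lit 27) (nat_lit 5) (nat_lit 25) (nat_lit 5) (nat_lit 294) (nat_lit 244) (nat_lit 182)))) (XT.nd (nat_lit 78) (nat_lit 228) (nat_lit 0) (XT.lf (nat_lit 0) (nat_lit 10772935070) (nat_lit 152) (nat_lit 11705058603) (nat_lit 228) (nat_lit 4424529728) (nat_lit 22) (nat_lit 5) (nat_lit 24) (nat_lit 5) (nat_lit 25) (nat_lit 5) (nat_lit 295) (nat_lit 244) (nat_lit 181)) (XT.nd (nat_lit 78) (nat_lit 152) (nat_lit 0) (XT.lf (nat_lit 0) (nat_lit 215372250) (nat_lit 228) (nat_lit 4407076253) (nat_lit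 76) (nat_lit 23379770031) (nat_lit 21) (nat_lit 5) (nat_lit 24) (nat_lit 5) (nat_lit 22) (nat_lit 5) (nat_lit 296) (nat_lit 244) (nat_lit 180)) (XT.lf (nat_lit 0) (nat_lit 5070098806) (nat_lit 228) (nat_lit 21218895125) (nat_lit 76) (nat_lit 2864409919) (nat_lit 19) (nat_lit 5) (nat_lit 22) (nat_lit 5) (nat_lit 20) (nat_lit 5) (nat_lit 297) (nat_lit 244) (nat_lit 179))))))) (XT.nd (nat_lit 780) (nat_lit 380) (nat_lit 0) (XT.nd (nat_lit 390) (nat_lit 228) (nat_lit 0) (XT.nd (nat_lit 156) (nat_lit 76) (nat_lit 0) (XT.nd (nat_lit 78) (nat_lit 152) (nat_lit 0) (XT.lf (nat_lit 0) (nat_lit 10229746594) (nat_lit 228) (nat_lit 9470872919) (nat_lit 76) (nat_lit 10659710717) (nat_lit 19) (nat_lit 5) (nat_lit 22) (nat_lit 5) (nat_lit 20) (nat_lit 5) (nat_lit 298) (nat_lit 244) (nat_lit 178)) (XT.lf (nat_lit 0) (nat_lit 2874694897) (nat_lit 152) (nat_lit 12771470697) (nat_lit 228) (nat_lit 15981518759)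 (nat_lit 17) (nat_lit 5) (nat_lit 19) (nat_lit 5) (nat_lit 20) (nat_lit 5) (nat_lit 299) (nat_lit 244) (nat_lit 177))) (XT.nd (nat_lit 78) (nat_lit 76) (nat_lit 0) (XT.lf (nat_lit 0) (nat_lit 15990820521) (nat_lit 152) (nat_lit 5412179299) (nat_lit 228) (nat_lit 11553361475) (nat_lit 17) (nat_lit 5) (nat_lit 19) (nat_lit 5) (nat_lit 20) (nat_lit 5) (nat_lit 300) (nat_lit 244) (nat_lit 176)) (XT.nd (nat_lit 78) (nat_lit 76) (nat_lit 0) (XT.lf (nat_lit 0) (nat_lit 27443205061) (nat_lit 228) (nat_lit 4654166979) (nat_lit 76) (nat_lit 2254275062) (nat_lit 17) (nat_lit 5) (nat_lit 20) (nat_lit 5) (nat_lit 18) (nat_lit 4) (nat_lit 301) (nat_lit 244) (nat_lit 175)) (XT.lf (nat_lit 0) (nat_lit 8339751090) (nat_lit 76) (nat_lit 25555010671) (nat_lit 152) (nat_lit 1918694154) (nat_lit 16) (nat_lit 5) (nat_lit 17) (nat_lit 5) (nat_lit 18) (nat_lit 4) (nat_lit 302) (nat_lit 244) (nat_lit 174))))) (XT.nd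 (nat_lit 156) (nat_lit 152) (nat_lit 0) (XT.nd (nat_lit 78) (nat_lit 0) (nat_lit 0) (XT.lf (nat_lit 0) (nat_lit 3279226019) (nat_lit 152) (nat_lit 15339176868) (nat_lit 76) (nat_lit 18728326305) (nat_lit 15) (nat_lit 5) (nat_lit 17) (nat_lit 5) (nat_lit 16) (nat_lit 5) (nat_lit 303) (nat_lit 244) (nat_lit 173)) (XT.lf (nat_lit 0) (nat_lit 8674011158) (nat_lit 152) (nat_lit 2655849356) (nat_lit 76) (nat_lit 27626970495) (nat_lit 15) (nat_lit 5) (nat_lit 17) (nat_lit 5) (nat_lit 16) (nat_lit 5) (nat_lit 304) (nat_lit 244) (nat_lit 172))) (XT.nd (nat_lit 78) (nat_lit 0) (nat_lit 0) (XT.lf (nat_lit 0) (nat_lit 10836376509) (nat_lit 152) (nat_lit 3583735994) (nat_lit 228) (nat_lit 26224910771) (nat_lit 13) (nat_lit 5) (nat_lit 15) (nat_lit 5) (nat_lit 16) (nat_lit 5) (nat_lit 305) (nat_lit 244) (nat_lit 171)) (XT.nd (nat_lit 78) (nat_lit 0) (nat_lit 0) (XT.lf (nat_lit 0) (nat_lit 20502874705)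 (nat_lit 228) (nat_lit 17438323036) (nat_lit 76) (nat_lit 4474977849) (nat_lit 13) (nat_lit 5) (nat_lit 16) (nat_lit 5) (nat_lit 14) (nat_lit 4) (nat_lit 306) (nat_lit 244) (nat_lit 170)) (XT.lf (nat_lit 0) (nat_lit 26905004650) (nat_lit 228) (nat_lit 4520155626) (nat_lit 76) (nat_lit 12850297985) (nat_lit 13) (nat_lit 5) (nat_lit 16) (nat_lit 5) (nat_lit 14) (nat_lit 4) (nat_lit 307) (nat_lit 244) (nat_lit 169)))))) (XT.nd (nat_lit 390) (nat_lit 76) (nat_lit 0) (XT.nd (nat_lit 156) (nat_lit 228) (nat_lit 0) (XT.nd (nat_lit 78) (nat_lit 0) (nat_lit 0) (XT.lf (nat_lit 0) (nat_lit 9190399871) (nat_lit 76) (nat_lit 24505240318) (nat_lit 152) (nat_lit 12530041123) (nat_lit 12) (nat_lit 5) (nat_lit 13) (nat_lit 5) (nat_lit 14) (nat_lit 4) (nat_lit 308) (nat_lit 244) (nat_lit 168)) (XT.lf (nat_lit 0) (nat_lit 23649024885) (nat_lit 76) (nat_lit 17204011932) (nat_lit 152) (nat_lit 7419588694) (nat_lit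 12) (nat_lit 5) (nat_lit 13) (nat_lit 5) (nat_lit 14) (nat_lit 4) (nat_lit 309) (nat_lit 244) (nat_lit 167))) (XT.nd (nat_lit 78) (nat_lit 228) (nat_lit 0) (XT.lf (nat_lit 0) (nat_lit 38800184753) (nat_lit 76) (nat_lit 9549735949) (nat_lit 152) (nat_lit 2072573290) (nat_lit 12) (nat_lit 5) (nat_lit 13) (nat_lit 5) (nat_lit 14) (nat_lit 4) (nat_lit 310) (nat_lit 244) (nat_lit 166)) (XT.nd (nat_lit 78) (nat_lit 0) (nat_lit 0) (XT.lf (nat_lit 0) (nat_lit 2004796673) (nat_lit 152) (nat_lit 1469449954) (nat_lit 228) (nat_lit 49204564552) (nat_lit 9) (nat_lit 5) (nat_lit 11) (nat_lit 5) (nat_lit 12) (nat_lit 5) (nat_lit 311) (nat_lit 244) (nat_lit 165)) (XT.lf (nat_lit 0) (nat_lit 9426954737) (nat_lit 228) (nat_lit 38606671483) (nat_lit 76) (nat_lit 7008582595) (nat_lit 9) (nat_lit 5) (nat_lit 12) (nat_lit 5) (nat_lit 10) (nat_lit 4) (nat_lit 312) (nat_lit 244) (nat_lit 164))))) (XT.nd (nat_lit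 234) (nat_lit 0) (nat_lit 0) (XT.nd (nat_lit 78) (nat_lit 76) (nat_lit 0) (XT.lf (nat_lit 0) (nat_lit 15675706634) (nat_lit 228) (nat_lit 25978327940) (nat_lit 76) (nat_lit 15869810972) (nat_lit 9) (nat_lit 5) (nat_lit 12) (nat_lit 5) (nat_lit 10) (nat_lit 4) (nat_lit 313) (nat_lit 244) (nat_lit 163)) (XT.nd (nat_lit 78) (nat_lit 76) (nat_lit 0) (XT.lf (nat_lit 0) (nat_lit 22221255050) (nat_lit 228) (nat_lit 12744791142) (nat_lit 76) (nat_lit 25164007598) (nat_lit 9) (nat_lit 5) (nat_lit 12) (nat_lit 5) (nat_lit 10) (nat_lit 4) (nat_lit 314) (nat_lit 244) (nat_lit 162)) (XT.lf (nat_lit 0) (nat_lit 1147845940) (nat_lit 76) (nat_lit 27942372479) (nat_lit 152) (nat_lit 33776489372) (nat_lit 8) (nat_lit 5) (nat_lit 9) (nat_lit 5) (nat_lit 10) (nat_lit 4) (nat_lit 315) (nat_lit 244) (nat_lit 161)))) (XT.nd (nat_lit 78) (nat_lit 0) (nat_lit 0) (XT.lf (nat_lit 0) (nat_lit 15977184272) (nat_lit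 76) (nat_lit 20442221952) (nat_lit 152) (nat_lit 29317303522) (nat_lit 8) (nat_lit 5) (nat_lit 9) (nat_lit 5) (nat_lit 10) (nat_lit 4) (nat_lit 316) (nat_lit 244) (nat_lit 160)) (XT.nd (nat_lit 78) (nat_lit 0) (nat_lit 0) (XT.lf (nat_lit 0) (nat_lit 31524885467) (nat_lit 76) (nat_lit 12576434510) (nat_lit 152) (nat_lit 24649321484) (nat_lit 8) (nat_lit 5) (nat_lit 9) (nat_lit 5) (nat_lit 10) (nat_lit 4) (nat_lit 317) (nat_lit 244) (nat_lit 159)) (XT.lf (nat_lit 0) (nat_lit 47827967863) (nat_lit 76) (nat_lit 4326282089) (nat_lit 152) (nat_lit 19761429015) (nat_lit 8) (nat_lit 5) (nat_lit 9) (nat_lit 5) (nat_lit 10) (nat_lit 4) (nat_lit 318) (nat_lit 244) (nat_lit 158))))))))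
noncomputable def xc60 : XT := (XT.nd (nat_lit 32526) (nat_lit 0) (nat_lit 4332) (XT.nd (nat_lit 31746) (nat_lit 0) (nat_lit 13908) (XT.nd (nat_lit 390) (nat_lit 76) (nat_lit 0) (XT.nd (nat_lit 156) (nat_lit 76) (nat_lit 0) (XT.nd (nat_lit 78) (nat_lit 76) (nat_lit 0) (XT.lf (nat_lit 0) (nat_lit 60638972006) (nat_lit 152) (nat_lit 10355711961) (nat_lit 0) (nat_lit 4243426032) (nat_lit 8) (nat_lit 5) (nat_lit 10) (nat_lit 4) (nat_lit 8) (nat_lit 4) (nat_lit 319) (nat_lit 244) (nat_lit 157)) (XT.lf (nat_lit 0) (nat_lit 4078556762) (nat_lit 76) (nat_lit 65540303923) (nat_lit 76) (nat_lit 9105689237) (nat_lit 7) (nat_lit 4) (nat_lit 8) (nat_lit 5) (nat_lit 8) (nat_lit 4) (nat_lit 320) (nat_lit 244) (nat_lit 156))) (XT.nd (nat_lit 78) (nat_lit 76) (nat_lit 0) (XT.lf (nat_lit 0) (nat_lit 19431271850) (nat_lit 76) (nat_lit 59711513134) (nat_lit 76) (nat_lit 3239690150) (nat_lit 7) (nat_lit 4) (nat_lit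 8) (nat_lit 5) (nat_lit 8) (nat_lit 4) (nat_lit 321) (nat_lit 244) (nat_lit 155)) (XT.nd (nat_lit 78) (nat_lit 0) (nat_lit 0) (XT.lf (nat_lit 0) (nat_lit 2851503044) (nat_lit 152) (nat_lit 50718708277) (nat_lit 76) (nat_lit 32652590781) (nat_lit 6) (nat_lit 5) (nat_lit 8) (nat_lit 5) (nat_lit 7) (nat_lit 4) (nat_lit 322) (nat_lit 244) (nat_lit 154)) (XT.lf (nat_lit 0) (nat_lit 9170273392) (nat_lit 152) (nat_lit 37925353493) (nat_lit 76) (nat_lit 43158868465) (nat_lit 6) (nat_lit 5) (nat_lit 8) (nat_lit 5) (nat_lit 7) (nat_lit 4) (nat_lit 323) (nat_lit 244) (nat_lit 153))))) (XT.nd (nat_lit 156) (nat_lit 76) (nat_lit 0) (XT.nd (nat_lit 78) (nat_lit 0) (nat_lit 0) (XT.lf (nat_lit 0) (nat_lit 15794883607) (nat_lit 152) (nat_lit 24509536682) (nat_lit 76) (nat_lit 54183668116) (nat_lit 6) (nat_lit 5) (nat_lit 8) (nat_lit 5) (nat_lit 7) (nat_lit 4) (nat_lit 324) (nat_lit 244) (nat_lit 152)) (XT.lf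 (nat_lit 0) (nat_lit 22741106572) (nat_lit 152) (nat_lit 10439315422) (nat_lit 76) (nat_lit 65753239258) (nat_lit 6) (nat_lit 5) (nat_lit 8) (nat_lit 5) (nat_lit 7) (nat_lit 4) (nat_lit 325) (nat_lit 244) (nat_lit 151))) (XT.nd (nat_lit 78) (nat_lit 0) (nat_lit 0) (XT.lf (nat_lit 0) (nat_lit 4404763617) (nat_lit 76) (nat_lit 25663058577) (nat_lit 152) (nat_lit 73532706152) (nat_lit 5) (nat_lit 5) (nat_lit 6) (nat_lit 5) (nat_lit 7) (nat_lit 4) (nat_lit 326) (nat_lit 244) (nat_lit 150)) (XT.nd (nat_lit 78) (nat_lit 0) (nat_lit 0) (XT.lf (nat_lit 0) (nat_lit 20194038855) (nat_lit 76) (nat_lit 17665428976) (nat_lit 152) (nat_lit 70638323665) (nat_lit 5) (nat_lit 5) (nat_lit 6) (nat_lit 5) (nat_lit 7) (nat_lit 4) (nat_lit 327) (nat_lit 244) (nat_lit 149)) (XT.lf (nat_lit 0) (nat_lit 36758340959) (nat_lit 76) (nat_lit 9273907831) (nat_lit 152) (nat_lit 67607932446) (nat_lit 5) (nat_lit 5) (nat_lit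 6) (nat_lit 5) (nat_lit 7) (nat_lit 4) (nat_lit 328) (nat_lit 244) (nat_lit 148)))))) (XT.nd (nat_lit 390) (nat_lit 1216) (nat_lit 0) (XT.nd (nat_lit 156) (nat_lit 608) (nat_lit 0) (XT.nd (nat_lit 78) (nat_lit 532) (nat_lit 0) (XT.lf (nat_lit 0) (nat_lit 2443830996) (nat_lit 532) (nat_lit 465521777) (nat_lit 532) (nat_lit 465521777) (nat_lit 219) (nat_lit 3) (nat_lit 226) (nat_lit 3) (nat_lit 226) (nat_lit 5) (nat_lit 245) (nat_lit 245) (nat_lit 230)) (XT.lf (nat_lit 0) (nat_lit 1181363682) (nat_lit 532) (nat_lit 3024061077) (nat_lit 608) (nat_lit 2609206983) (nat_lit 212) (nat_lit 5) (nat_lit 219) (nat_lit 3) (nat_lit 220) (nat_lit 5) (nat_lit 246) (nat_lit 245) (nat_lit 229))) (XT.nd (nat_lit 78) (nat_lit 608) (nat_lit 0) (XT.lf (nat_lit 76) (nat_lit 1796325155) (nat_lit 0) (nat_lit 2375429123) (nat_lit 608) (nat_lit 2716273998) (nat_lit 213) (nat_lit 5) (nat_lit 212) (nat_lit 5) (nat_lit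 220) (nat_lit 5) (nat_lit 247) (nat_lit 245) (nat_lit 228)) (XT.nd (nat_lit 78) (nat_lit 0) (nat_lit 76) (XT.lf (nat_lit 0) (nat_lit 182870759) (nat_lit 608) (nat_lit 153460608) (nat_lit 684) (nat_lit 6634130727) (nat_lit 204) (nat_lit 5) (nat_lit 212) (nat_lit 5) (nat_lit 213) (nat_lit 5) (nat_lit 248) (nat_lit 245) (nat_lit 227)) (XT.lf (nat_lit 0) (nat_lit 3058824588) (nat_lit 608) (nat_lit 2079359322) (nat_lit 684) (nat_lit 1922109181) (nat_lit 205) (nat_lit 5) (nat_lit 213) (nat_lit 5) (nat_lit 214) (nat_lit 5) (nat_lit 249) (nat_lit 245) (nat_lit 226))))) (XT.nd (nat_lit 156) (nat_lit 608) (nat_lit 0) (XT.nd (nat_lit 78) (nat_lit 684) (nat_lit 0) (XT.lf (nat_lit 76) (nat_lit 3174067265) (nat_lit 0) (nat_lit 2768904736) (nat_lit 684) (nat_lit 1216400481) (nat_lit 206) (nat_lit 5) (nat_lit 205) (nat_lit 5) (nat_lit 214) (nat_lit 5) (nat_lit 250) (nat_lit 245) (nat_lit 225)) (XT.lf (nat_lit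 76) (nat_lit 1374978218) (nat_lit 0) (nat_lit 168243852) (nat_lit 760) (nat_lit 5724269202) (nat_lit 197) (nat_lit 5) (nat_lit 196) (nat_lit 5) (nat_lit 206) (nat_lit 5) (nat_lit 251) (nat_lit 245) (nat_lit 224))) (XT.nd (nat_lit 78) (nat_lit 684) (nat_lit 0) (XT.lf (nat_lit 0) (nat_lit 4323225146) (nat_lit 684) (nat_lit 439505667) (nat_lit 760) (nat_lit 2621303683) (nat_lit 197) (nat_lit 5) (nat_lit 206) (nat_lit 5) (nat_lit 207) (nat_lit 5) (nat_lit 252) (nat_lit 245) (nat_lit 223)) (XT.nd (nat_lit 78) (nat_lit 684) (nat_lit 0) (XT.lf (nat_lit 76) (nat_lit 5283786377) (nat_lit 0) (nat_lit 1859749531) (nat_lit 760) (nat_lit 366407363) (nat_lit 198) (nat_lit 5) (nat_lit 197) (nat_lit 5) (nat_lit 207) (nat_lit 5) (nat_lit 253) (nat_lit 245) (nat_lit 222)) (XT.lf (nat_lit 0) (nat_lit 2319389366) (nat_lit 760) (nat_lit 4054915872) (nat_lit 76) (nat_lit 1270524208) (nat_lit 188) (nat_lit 5)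 (nat_lit 198) (nat_lit 5) (nat_lit 189) (nat_lit 5) (nat_lit 254) (nat_lit 245) (nat_lit 221))))))) (XT.nd (nat_lit 780) (nat_lit 3268) (nat_lit 0) (XT.nd (nat_lit 390) (nat_lit 2736) (nat_lit 0) (XT.nd (nat_lit 156) (nat_lit 1976) (nat_lit 0) (XT.nd (nat_lit 78) (nat_lit 836) (nat_lit 0) (XT.lf (nat_lit 0) (nat_lit 1864843964) (nat_lit 760) (nat_lit 3186442762) (nat_lit 836) (nat_lit 2737991365) (nat_lit 178) (nat_lit 5) (nat_lit 188) (nat_lit 5) (nat_lit 189) (nat_lit 5) (nat_lit 255) (nat_lit 245) (nat_lit 220)) (XT.lf (nat_lit 0) (nat_lit 117802935) (nat_lit 836) (nat_lit 7712288268) (nat_lit 912) (nat_lit 114033030) (nat_lit 167) (nat_lit 5) (nat_lit 178) (nat_lit 5) (nat_lit 179) (nat_lit 5) (nat_lit 256) (nat_lit 245) (nat_lit 219))) (XT.nd (nat_lit 78) (nat_lit 1900) (nat_lit 0) (XT.lf (nat_lit 0) (nat_lit 2552481509) (nat_lit 912) (nat_lit 1685200464) (nat_lit 76) (nat_lit 3869830109)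 (nat_lit 166) (nat_lit 5) (nat_lit 178) (nat_lit 5) (nat_lit 167) (nat_lit 5) (nat_lit 257) (nat_lit 245) (nat_lit 218)) (XT.nd (nat_lit 78) (nat_lit 988) (nat_lit 0) (XT.lf (nat_lit 0) (nat_lit 4751575298) (nat_lit 912) (nat_lit 519460239) (nat_lit 988) (nat_lit 3010794348) (nat_lit 154) (nat_lit 5) (nat_lit 166) (nat_lit 5) (nat_lit 167) (nat_lit 5) (nat_lit 258) (nat_lit 245) (nat_lit 217)) (XT.lf (nat_lit 0) (nat_lit 3002746091) (nat_lit 988) (nat_lit 5082227325) (nat_lit 1064) (nat_lit 381512761) (nat_lit 141) (nat_lit 5) (nat_lit 154) (nat_lit 5) (nat_lit 155) (nat_lit 5) (nat_lit 259) (nat_lit 245) (nat_lit 216))))) (XT.nd (nat_lit 156) (nat_lit 1596) (nat_lit 0) (XT.nd (nat_lit 78) (nat_lit 0) (nat_lit 0) (XT.lf (nat_lit 0) (nat_lit 1167282090) (nat_lit 1064) (nat_lit 1102424974) (nat_lit 1140) (nat_lit 6392250719) (nat_lit 126) (nat_lit 5) (nat_lit 140) (nat_lit 5) (nat_lit 141)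 (nat_lit 5) (nat_lit 260) (nat_lit 245) (nat_lit 215)) (XT.lf (nat_lit 0) (nat_lit 5020451035) (nat_lit 1140) (nat_lit 760203400) (nat_lit 76) (nat_lit 3087547387) (nat_lit 126) (nat_lit 5) (nat_lit 141) (nat_lit 5) (nat_lit 127) (nat_lit 5) (nat_lit 261) (nat_lit 245) (nat_lit 214))) (XT.nd (nat_lit 78) (nat_lit 1064) (nat_lit 0) (XT.lf (nat_lit 0) (nat_lit 6323507751) (nat_lit 532) (nat_lit 1550857770) (nat_lit 608) (nat_lit 1211764284) (nat_lit 119) (nat_lit 5) (nat_lit 126) (nat_lit 5) (nat_lit 127) (nat_lit 5) (nat_lit 262) (nat_lit 245) (nat_lit 213)) (XT.nd (nat_lit 78) (nat_lit 532) (nat_lit 0) (XT.lf (nat_lit 0) (nat_lit 1501185436) (nat_lit 532) (nat_lit 4910074418) (nat_lit 76) (nat_lit 2904294848) (nat_lit 112) (nat_lit 5) (nat_lit 119) (nat_lit 5) (nat_lit 113) (nat_lit 5) (nat_lit 263) (nat_lit 245) (nat_lit 212)) (XT.lf (nat_lit 0) (nat_lit 2352118070) (nat_lit 532) (nat_lit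 1940370804) (nat_lit 608) (nat_lit 5264869077) (nat_lit 105) (nat_lit 5) (nat_lit 112) (nat_lit 5) (nat_lit 113) (nat_lit 5) (nat_lit 264) (nat_lit 245) (nat_lit 211)))))) (XT.nd (nat_lit 390) (nat_lit 1520) (nat_lit 0) (XT.nd (nat_lit 156) (nat_lit 1216) (nat_lit 0) (XT.nd (nat_lit 78) (nat_lit 76) (nat_lit 0) (XT.lf (nat_lit 0) (nat_lit 146149051) (nat_lit 456) (nat_lit 7060475865) (nat_lit 532) (nat_lit 2605414195) (nat_lit 99) (nat_lit 5) (nat_lit 105) (nat_lit 5) (nat_lit 106) (nat_lit 5) (nat_lit 265) (nat_lit 245) (nat_lit 210)) (XT.lf (nat_lit 0) (nat_lit 184641297) (nat_lit 532) (nat_lit 2182942377) (nat_lit 76) (nat_lit 7712042646) (nat_lit 98) (nat_lit 5) (nat_lit 105) (nat_lit 5) (nat_lit 99) (nat_lit 5) (nat_lit 266) (nat_lit 245) (nat_lit 209))) (XT.nd (nat_lit 78) (nat_lit 760) (nat_lit 0) (XT.lf (nat_lit 0) (nat_lit 3051837820) (nat_lit 532) (nat_lit 4722604953) (nat_lit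 76) (nat_lit 2585882216) (nat_lit 92) (nat_lit 5) (nat_lit 99) (nat_lit 5) (nat_lit 93) (nat_lit 5) (nat_lit 267) (nat_lit 245) (nat_lit 208)) (XT.nd (nat_lit 78) (nat_lit 380) (nat_lit 0) (XT.lf (nat_lit 0) (nat_lit 3184086205) (nat_lit 380) (nat_lit 2870014240) (nat_lit 456) (nat_lit 4601446629) (nat_lit 87) (nat_lit 5) (nat_lit 92) (nat_lit 5) (nat_lit 93) (nat_lit 5) (nat_lit 268) (nat_lit 245) (nat_lit 207)) (XT.lf (nat_lit 0) (nat_lit 513891591) (nat_lit 380) (nat_lit 8686138494) (nat_lit 456) (nat_lit 1765921818) (nat_lit 82) (nat_lit 5) (nat_lit 87) (nat_lit 5) (nat_lit 88) (nat_lit 5) (nat_lit 269) (nat_lit 245) (nat_lit 206))))) (XT.nd (nat_lit 234) (nat_lit 684) (nat_lit 0) (XT.nd (nat_lit 78) (nat_lit 760) (nat_lit 0) (XT.lf (nat_lit 0) (nat_lit 1214029309) (nat_lit 456) (nat_lit 2369872771) (nat_lit 76) (nat_lit 7707047960) (nat_lit 81) (nat_lit 5) (nat_lit 87) (nat_lit 5) (nat_lit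 82) (nat_lit 5) (nat_lit 270) (nat_lit 245) (nat_lit 205)) (XT.nd (nat_lit 78) (nat_lit 380) (nat_lit 0) (XT.lf (nat_lit 0) (nat_lit 4306871684) (nat_lit 456) (nat_lit 5520994913) (nat_lit 76) (nat_lit 1803995492) (nat_lit 76) (nat_lit 5) (nat_lit 82) (nat_lit 5) (nat_lit 77) (nat_lit 5) (nat_lit 271) (nat_lit 245) (nat_lit 204)) (XT.lf (nat_lit 0) (nat_lit 3009550422) (nat_lit 380) (nat_lit 4560707836) (nat_lit 456) (nat_lit 4419275852) (nat_lit 71) (nat_lit 5) (nat_lit 76) (nat_lit 5) (nat_lit 77) (nat_lit 5) (nat_lit 272) (nat_lit 245) (nat_lit 203)))) (XT.nd (nat_lit 78) (nat_lit 684) (nat_lit 0) (XT.lf (nat_lit 0) (nat_lit 10992236005) (nat_lit 456) (nat_lit 379740548) (nat_lit 76) (nat_lit 993432843) (nat_lit 71) (nat_lit 5) (nat_lit 77) (nat_lit 5) (nat_lit 72) (nat_lit 5) (nat_lit 273) (nat_lit 245) (nat_lit 202)) (XT.nd (nat_lit 78) (nat_lit 304) (nat_lit 0) (XT.lf (nat_lit 0) (nat_lit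 1851719613) (nat_lit 380) (nat_lit 4086758277) (nat_lit 76) (nat_lit 6819379707) (nat_lit 66) (nat_lit 5) (nat_lit 71) (nat_lit 5) (nat_lit 67) (nat_lit 5) (nat_lit 274) (nat_lit 245) (nat_lit 201)) (XT.lf (nat_lit 0) (nat_lit 5013215249) (nat_lit 304) (nat_lit 182379167) (nat_lit 380) (nat_lit 7974502376) (nat_lit 62) (nat_lit 5) (nat_lit 66) (nat_lit 5) (nat_lit 67) (nat_lit 5) (nat_lit 275) (nat_lit 245) (nat_lit 200))))))))
noncomputable def xc61 : XT := (XT.nd (nat_lit 1638) (nat_lit 1064) (nat_lit 0) (XT.nd (nat_lit 780) (nat_lit 1292) (nat_lit 0) (XT.nd (nat_lit 390) (nat_lit 836) (nat_lit 0) (XT.nd (nat_lit 156) (nat_lit 608) (nat_lit 0) (XT.nd (nat_lit 78) (nat_lit 0) (nat_lit 0) (XT.lf (nat_lit 0) (nat_lit 930463111) (nat_lit 304) (nat_lit 7819923019) (nat_lit 380) (nat_lit 4851403027) (nat_lit 58) (nat_lit 5) (nat_lit 62) (nat_lit 5) (nat_lit 63) (nat_lit 5) (nat_lit 276) (nat_lit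 245) (nat_lit 199)) (XT.lf (nat_lit 0) (nat_lit 10560291551) (nat_lit 304) (nat_lit 1946641497) (nat_lit 380) (nat_lit 1547558249) (nat_lit 58) (nat_lit 5) (nat_lit 62) (nat_lit 5) (nat_lit 63) (nat_lit 5) (nat_lit 277) (nat_lit 245) (nat_lit 198))) (XT.nd (nat_lit 78) (nat_lit 228) (nat_lit 0) (XT.lf (nat_lit 0) (nat_lit 1924861198) (nat_lit 380) (nat_lit 8404900784) (nat_lit 76) (nat_lit 4198420777) (nat_lit 53) (nat_lit 5) (nat_lit 58) (nat_lit 5) (nat_lit 54) (nat_lit 5) (nat_lit 278) (nat_lit 245) (nat_lit 197)) (XT.nd (nat_lit 78) (nat_lit 0) (nat_lit 0) (XT.lf (nat_lit 0) (nat_lit 1180191673) (nat_lit 228) (nat_lit 4368700574) (nat_lit 304) (nat_lit 9476035219) (nat_lit 50) (nat_lit 5) (nat_lit 53) (nat_lit 5) (nat_lit 54) (nat_lit 5) (nat_lit 279) (nat_lit 245) (nat_lit 196)) (XT.lf (nat_lit 0) (nat_lit 9403887872) (nat_lit 304) (nat_lit 4219540063) (nat_lit 76) (nat_lit 1921710717)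 (nat_lit 50) (nat_lit 5) (nat_lit 54) (nat_lit 5) (nat_lit 51) (nat_lit 5) (nat_lit 280) (nat_lit 245) (nat_lit 195))))) (XT.nd (nat_lit 156) (nat_lit 456) (nat_lit 0) (XT.nd (nat_lit 78) (nat_lit 76) (nat_lit 0) (XT.lf (nat_lit 0) (nat_lit 5884531129) (nat_lit 304) (nat_lit 7614632238) (nat_lit 380) (nat_lit 2590887442) (nat_lit 46) (nat_lit 5) (nat_lit 50) (nat_lit 5) (nat_lit 51) (nat_lit 5) (nat_lit 281) (nat_lit 245) (nat_lit 194)) (XT.lf (nat_lit 0) (nat_lit 1106774665) (nat_lit 380) (nat_lit 162446056) (nat_lit 76) (nat_lit 15393008495) (nat_lit 45) (nat_lit 5) (nat_lit 50) (nat_lit 5) (nat_lit 46) (nat_lit 5) (nat_lit 282) (nat_lit 245) (nat_lit 193))) (XT.nd (nat_lit 78) (nat_lit 228) (nat_lit 0) (XT.lf (nat_lit 0) (nat_lit 5040585876) (nat_lit 304) (nat_lit 6821055023) (nat_lit 76) (nat_lit 5397563019) (nat_lit 42) (nat_lit 5) (nat_lit 46) (nat_lit 5) (nat_lit 43) (nat_lit 5) (nat_lit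 283) (nat_lit 245) (nat_lit 192)) (XT.nd (nat_lit 78) (nat_lit 0) (nat_lit 0) (XT.lf (nat_lit 0) (nat_lit 3677013198) (nat_lit 228) (nat_lit 5496020790) (nat_lit 304) (nat_lit 8713032529) (nat_lit 39) (nat_lit 5) (nat_lit 42) (nat_lit 5) (nat_lit 43) (nat_lit 5) (nat_lit 284) (nat_lit 245) (nat_lit 191)) (XT.lf (nat_lit 0) (nat_lit 13547990142) (nat_lit 304) (nat_lit 3779194402) (nat_lit 76) (nat_lit 1216104038) (nat_lit 39) (nat_lit 5) (nat_lit 43) (nat_lit 5) (nat_lit 40) (nat_lit 5) (nat_lit 285) (nat_lit 245) (nat_lit 190)))))) (XT.nd (nat_lit 390) (nat_lit 608) (nat_lit 0) (XT.nd (nat_lit 156) (nat_lit 380) (nat_lit 0) (XT.nd (nat_lit 78) (nat_lit 76) (nat_lit 0) (XT.lf (nat_lit 0) (nat_lit 7192814285) (nat_lit 228) (nat_lit 11029260929) (nat_lit 304) (nat_lit 1008973587) (nat_lit 36) (nat_lit 5) (nat_lit 39) (nat_lit 5) (nat_lit 40) (nat_lit 5) (nat_lit 286) (nat_lit 245) (nat_lit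 189)) (XT.lf (nat_lit 0) (nat_lit 3110735632) (nat_lit 304) (nat_lit 1253883077) (nat_lit 76) (nat_lit 15587862362) (nat_lit 35) (nat_lit 5) (nat_lit 39) (nat_lit 5) (nat_lit 36) (nat_lit 5) (nat_lit 287) (nat_lit 245) (nat_lit 188))) (XT.nd (nat_lit 78) (nat_lit 152) (nat_lit 0) (XT.lf (nat_lit 0) (nat_lit 7498814718) (nat_lit 304) (nat_lit 10536059640) (nat_lit 76) (nat_lit 2672391275) (nat_lit 32) (nat_lit 5) (nat_lit 36) (nat_lit 5) (nat_lit 33) (nat_lit 5) (nat_lit 288) (nat_lit 245) (nat_lit 187)) (XT.nd (nat_lit 78) (nat_lit 0) (nat_lit 0) (XT.lf (nat_lit 0) (nat_lit 602249413) (nat_lit 152) (nat_lit 11526969177) (nat_lit 228) (nat_lit 9369957416) (nat_lit 30) (nat_lit 5) (nat_lit 32) (nat_lit 5) (nat_lit 33) (nat_lit 5) (nat_lit 289) (nat_lit 245) (nat_lit 186)) (XT.lf (nat_lit 0) (nat_lit 12459685567) (nat_lit 152) (nat_lit 4601305151) (nat_lit 228) (nat_lit 5267666412) (nat_lit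 30) (nat_lit 5) (nat_lit 32) (nat_lit 5) (nat_lit 33) (nat_lit 5) (nat_lit 290) (nat_lit 245) (nat_lit 185))))) (XT.nd (nat_lit 234) (nat_lit 152) (nat_lit 0) (XT.nd (nat_lit 78) (nat_lit 228) (nat_lit 0) (XT.lf (nat_lit 0) (nat_lit 1660925704) (nat_lit 228) (nat_lit 20583113546) (nat_lit 304) (nat_lit 955499735) (nat_lit 27) (nat_lit 5) (nat_lit 30) (nat_lit 5) (nat_lit 31) (nat_lit 5) (nat_lit 291) (nat_lit 245) (nat_lit 184)) (XT.nd (nat_lit 78) (nat_lit 152) (nat_lit 0) (XT.lf (nat_lit 0) (nat_lit 3615476103) (nat_lit 304) (nat_lit 10274518533) (nat_lit 76) (nat_lit 10219615105) (nat_lit 26) (nat_lit 5) (nat_lit 30) (nat_lit 5) (nat_lit 27) (nat_lit 5) (nat_lit 292) (nat_lit 245) (nat_lit 183)) (XT.lf (nat_lit 0) (nat_lit 1520070498) (nat_lit 152) (nat_lit 6855553607) (nat_lit 228) (nat_lit 16689923851) (nat_lit 24) (nat_lit 5) (nat_lit 26) (nat_lit 5) (nat_lit 27) (nat_lit 5) (nat_lit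 293) (nat_lit 245) (nat_lit 182)))) (XT.nd (nat_lit 78) (nat_lit 152) (nat_lit 0) (XT.lf (nat_lit 0) (nat_lit 13452257101) (nat_lit 228) (nat_lit 12005260402) (nat_lit 76) (nat_lit 609467703) (nat_lit 24) (nat_lit 5) (nat_lit 27) (nat_lit 5) (nat_lit 25) (nat_lit 5) (nat_lit 294) (nat_lit 245) (nat_lit 181)) (XT.nd (nat_lit 78) (nat_lit 152) (nat_lit 0) (XT.lf (nat_lit 0) (nat_lit 18820071509) (nat_lit 228) (nat_lit 6845150) (nat_lit 76) (nat_lit 8290510929) (nat_lit 24) (nat_lit 5) (nat_lit 27) (nat_lit 5) (nat_lit 25) (nat_lit 5) (nat_lit 295) (nat_lit 245) (nat_lit 180)) (XT.lf (nat_lit 0) (nat_lit 12793890613) (nat_lit 152) (nat_lit 11755040154) (nat_lit 228) (nat_lit 3668732901) (nat_lit 22) (nat_lit 5) (nat_lit 24) (nat_lit 5) (nat_lit 25) (nat_lit 5) (nat_lit 296) (nat_lit 245) (nat_lit 179))))))) (XT.nd (nat_lit 780) (nat_lit 380) (nat_lit 0) (XT.nd (nat_lit 390) (nat_lit 304) (nat_lit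 0) (XT.nd (nat_lit 156) (nat_lit 152) (nat_lit 0) (XT.nd (nat_lit 78) (nat_lit 152) (nat_lit 0) (XT.lf (nat_lit 0) (nat_lit 1138481882) (nat_lit 228) (nat_lit 3196093924) (nat_lit 76) (nat_lit 25038927315) (nat_lit 21) (nat_lit 5) (nat_lit 24) (nat_lit 5) (nat_lit 22) (nat_lit 5) (nat_lit 297) (nat_lit 245) (nat_lit 178)) (XT.lf (nat_lit 0) (nat_lit 6210748092) (nat_lit 228) (nat_lit 20866561765) (nat_lit 76) (nat_lit 3505763085) (nat_lit 19) (nat_lit 5) (nat_lit 22) (nat_lit 5) (nat_lit 20) (nat_lit 5) (nat_lit 298) (nat_lit 245) (nat_lit 177))) (XT.nd (nat_lit 78) (nat_lit 152) (nat_lit 0) (XT.lf (nat_lit 0) (nat_lit 11586133300) (nat_lit 228) (nat_lit 8598437407) (nat_lit 76) (nat_lit 11667108319) (nat_lit 19) (nat_lit 5) (nat_lit 22) (nat_lit 5) (nat_lit 20) (nat_lit 5) (nat_lit 299) (nat_lit 245) (nat_lit 176)) (XT.nd (nat_lit 78) (nat_lit 0) (nat_lit 0) (XT.lf (nat_lit 0) (nat_lit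 4325826577) (nat_lit 152) (nat_lit 12919880868) (nat_lit 228) (nat_lit 15937586275) (nat_lit 17) (nat_lit 5) (nat_lit 19) (nat_lit 5) (nat_lit 20) (nat_lit 5) (nat_lit 300) (nat_lit 245) (nat_lit 175)) (XT.lf (nat_lit 0) (nat_lit 18035501485) (nat_lit 152) (nat_lit 5215966013) (nat_lit 228) (nat_lit 11328164386) (nat_lit 17) (nat_lit 5) (nat_lit 19) (nat_lit 5) (nat_lit 20) (nat_lit 5) (nat_lit 301) (nat_lit 245) (nat_lit 174))))) (XT.nd (nat_lit 156) (nat_lit 228) (nat_lit 0) (XT.nd (nat_lit 78) (nat_lit 76) (nat_lit 0) (XT.lf (nat_lit 0) (nat_lit 29560893951) (nat_lit 228) (nat_lit 3681922916) (nat_lit 76) (nat_lit 2802905832) (nat_lit 17) (nat_lit 5) (nat_lit 20) (nat_lit 5) (nat_lit 18) (nat_lit 4) (nat_lit 302) (nat_lit 245) (nat_lit 173)) (XT.lf (nat_lit 0) (nat_lit 9927151338) (nat_lit 76) (nat_lit 26383626508) (nat_lit 152) (nat_lit 1270625954) (nat_lit 16) (nat_lit 5) (nat_lit 17)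 (nat_lit 5) (nat_lit 18) (nat_lit 4) (nat_lit 303) (nat_lit 245) (nat_lit 172))) (XT.nd (nat_lit 78) (nat_lit 152) (nat_lit 0) (XT.lf (nat_lit 0) (nat_lit 4137934682) (nat_lit 152) (nat_lit 14976625433) (nat_lit 76) (nat_lit 20077658427) (nat_lit 15) (nat_lit 5) (nat_lit 17) (nat_lit 5) (nat_lit 16) (nat_lit 5) (nat_lit 304) (nat_lit 245) (nat_lit 171)) (XT.nd (nat_lit 78) (nat_lit 152) (nat_lit 0) (XT.lf (nat_lit 0) (nat_lit 9769375871) (nat_lit 152) (nat_lit 1712917748) (nat_lit 76) (nat_lit 29401572169) (nat_lit 15) (nat_lit 5) (nat_lit 17) (nat_lit 5) (nat_lit 16) (nat_lit 5) (nat_lit 305) (nat_lit 245) (nat_lit 170)) (XT.lf (nat_lit 0) (nat_lit 12423083995) (nat_lit 152) (nat_lit 3358234580) (nat_lit 228) (nat_lit 26875838567) (nat_lit 13) (nat_lit 5) (nat_lit 15) (nat_lit 5) (nat_lit 16) (nat_lit 5) (nat_lit 306) (nat_lit 245) (nat_lit 169)))))) (XT.nd (nat_lit 390) (nat_lit 304) (nat_lit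 0) (XT.nd (nat_lit 156) (nat_lit 76) (nat_lit 0) (XT.nd (nat_lit 78) (nat_lit 0) (nat_lit 0) (XT.lf (nat_lit 0) (nat_lit 22141438019) (nat_lit 228) (nat_lit 17299652668) (nat_lit 76) (nat_lit 5076623207) (nat_lit 13) (nat_lit 5) (nat_lit 16) (nat_lit 5) (nat_lit 14) (nat_lit 4) (nat_lit 307) (nat_lit 245) (nat_lit 168)) (XT.lf (nat_lit 0) (nat_lit 28834464005) (nat_lit 228) (nat_lit 3783700055) (nat_lit 76) (nat_lit 13852714281) (nat_lit 13) (nat_lit 5) (nat_lit 16) (nat_lit 5) (nat_lit 14) (nat_lit 4) (nat_lit 308) (nat_lit 245) (nat_lit 167))) (XT.nd (nat_lit 78) (nat_lit 0) (nat_lit 0) (XT.lf (nat_lit 0) (nat_lit 10584794398) (nat_lit 76) (nat_lit 25361004027) (nat_lit 152) (nat_lit 12573418466) (nat_lit 12) (nat_lit 5) (nat_lit 13) (nat_lit 5) (nat_lit 14) (nat_lit 4) (nat_lit 309) (nat_lit 245) (nat_lit 166)) (XT.nd (nat_lit 78) (nat_lit 0) (nat_lit 0) (XT.lf (nat_lit 0) (nat_lit 25721832828)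 (nat_lit 76) (nat_lit 17712309379) (nat_lit 152) (nat_lit 7235211259) (nat_lit 12) (nat_lit 5) (nat_lit 13) (nat_lit 5) (nat_lit 14) (nat_lit 4) (nat_lit 310) (nat_lit 245) (nat_lit 165)) (XT.lf (nat_lit 0) (nat_lit 41588152751) (nat_lit 76) (nat_lit 9692076889) (nat_lit 152) (nat_lit 1647290650) (nat_lit 12) (nat_lit 5) (nat_lit 13) (nat_lit 5) (nat_lit 14) (nat_lit 4) (nat_lit 311) (nat_lit 245) (nat_lit 164))))) (XT.nd (nat_lit 234) (nat_lit 76) (nat_lit 0) (XT.nd (nat_lit 78) (nat_lit 0) (nat_lit 0) (XT.lf (nat_lit 0) (nat_lit 2939387162) (nat_lit 152) (nat_lit 1210487648) (nat_lit 228) (nat_lit 51147159247) (nat_lit 9) (nat_lit 5) (nat_lit 11) (nat_lit 5) (nat_lit 12) (nat_lit 5) (nat_lit 312) (nat_lit 245) (nat_lit 163)) (XT.nd (nat_lit 78) (nat_lit 0) (nat_lit 0) (XT.lf (nat_lit 0) (nat_lit 10379360966) (nat_lit 228) (nat_lit 39730459561) (nat_lit 76) (nat_lit 7669438205) (nat_lit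 9) (nat_lit 5) (nat_lit 12) (nat_lit 5) (nat_lit 10) (nat_lit 4) (nat_lit 313) (nat_lit 245) (nat_lit 162)) (XT.lf (nat_lit 0) (nat_lit 16917642912) (nat_lit 228) (nat_lit 26509105770) (nat_lit 76) (nat_lit 16958945787) (nat_lit 9) (nat_lit 5) (nat_lit 12) (nat_lit 5) (nat_lit 10) (nat_lit 4) (nat_lit 314) (nat_lit 245) (nat_lit 161)))) (XT.nd (nat_lit 78) (nat_lit 76) (nat_lit 0) (XT.lf (nat_lit 0) (nat_lit 23768652036) (nat_lit 228) (nat_lit 12650470159) (nat_lit 76) (nat_lit 26703773947) (nat_lit 9) (nat_lit 5) (nat_lit 12) (nat_lit 5) (nat_lit 10) (nat_lit 4) (nat_lit 315) (nat_lit 245) (nat_lit 160)) (XT.nd (nat_lit 78) (nat_lit 0) (nat_lit 0) (XT.lf (nat_lit 0) (nat_lit 1915828741) (nat_lit 76) (nat_lit 29051287642) (nat_lit 152) (nat_lit 35029712031) (nat_lit 8) (nat_lit 5) (nat_lit 9) (nat_lit 5) (nat_lit 10) (nat_lit 4) (nat_lit 316) (nat_lit 245) (nat_lit 159)) (XT.lf (nat_lit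 0) (nat_lit 17452796347) (nat_lit 76) (nat_lit 21189853563) (nat_lit 152) (nat_lit 30368309833) (nat_lit 8) (nat_lit 5) (nat_lit 9) (nat_lit 5) (nat_lit 10) (nat_lit 4) (nat_lit 317) (nat_lit 245) (nat_lit 158))))))))
noncomputable def xc62 : XT := (XT.nd (nat_lit 32604) (nat_lit 0) (nat_lit 4636) (XT.nd (nat_lit 780) (nat_lit 0) (nat_lit 0) (XT.nd (nat_lit 390) (nat_lit 152) (nat_lit 0) (XT.nd (nat_lit 156) (nat_lit 76) (nat_lit 0) (XT.nd (nat_lit 78) (nat_lit 0) (nat_lit 0) (XT.lf (nat_lit 0) (nat_lit 33745656276) (nat_lit 76) (nat_lit 12943847201) (nat_lit 152) (nat_lit 25486683877) (nat_lit 8) (nat_lit 5) (nat_lit 9) (nat_lit 5) (nat_lit 10) (nat_lit 4) (nat_lit 318) (nat_lit 245) (nat_lit 157)) (XT.lf (nat_lit 0) (nat_lit 50833201051) (nat_lit 76) (nat_lit 4293635208) (nat_lit 152) (nat_lit 20373211246) (nat_lit 8) (nat_lit 5) (nat_lit 9) (nat_lit 5) (nat_lit 10) (nat_lit 4) (nat_lit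 319) (nat_lit 245) (nat_lit 156))) (XT.nd (nat_lit 78) (nat_lit 76) (nat_lit 0) (XT.lf (nat_lit 0) (nat_lit 64020698678) (nat_lit 152) (nat_lit 10280300377) (nat_lit 0) (nat_lit 4688076248) (nat_lit 8) (nat_lit 5) (nat_lit 10) (nat_lit 4) (nat_lit 8) (nat_lit 4) (nat_lit 320) (nat_lit 245) (nat_lit 155)) (XT.nd (nat_lit 78) (nat_lit 0) (nat_lit 0) (XT.lf (nat_lit 0) (nat_lit 4858677903) (nat_lit 76) (nat_lit 68579786511) (nat_lit 76) (nat_lit 9211727607) (nat_lit 7) (nat_lit 4) (nat_lit 8) (nat_lit 5) (nat_lit 8) (nat_lit 4) (nat_lit 321) (nat_lit 245) (nat_lit 154)) (XT.lf (nat_lit 0) (nat_lit 20951590970) (nat_lit 76) (nat_lit 62470867259) (nat_lit 76) (nat_lit 3069059332) (nat_lit 7) (nat_lit 4) (nat_lit 8) (nat_lit 5) (nat_lit 8) (nat_lit 4) (nat_lit 322) (nat_lit 245) (nat_lit 153))))) (XT.nd (nat_lit 156) (nat_lit 76) (nat_lit 0) (XT.nd (nat_lit 78) (nat_lit 0) (nat_lit 0) (XT.lf (nat_lit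 0) (nat_lit 3304673246) (nat_lit 152) (nat_lit 52725463162) (nat_lit 76) (nat_lit 34494113181) (nat_lit 6) (nat_lit 5) (nat_lit 8) (nat_lit 5) (nat_lit 7) (nat_lit 4) (nat_lit 323) (nat_lit 245) (nat_lit 152)) (XT.lf (nat_lit 0) (nat_lit 9924591870) (nat_lit 152) (nat_lit 39317639713) (nat_lit 76) (nat_lit 45515757470) (nat_lit 6) (nat_lit 5) (nat_lit 8) (nat_lit 5) (nat_lit 7) (nat_lit 4) (nat_lit 324) (nat_lit 245) (nat_lit 151))) (XT.nd (nat_lit 78) (nat_lit 76) (nat_lit 0) (XT.lf (nat_lit 0) (nat_lit 16866346653) (nat_lit 152) (nat_lit 25255031178) (nat_lit 76) (nat_lit 57082323505) (nat_lit 6) (nat_lit 5) (nat_lit 8) (nat_lit 5) (nat_lit 7) (nat_lit 4) (nat_lit 325) (nat_lit 245) (nat_lit 150)) (XT.nd (nat_lit 78) (nat_lit 76) (nat_lit 0) (XT.lf (nat_lit 0) (nat_lit 24146465582) (nat_lit 152) (nat_lit 10504155156) (nat_lit 76) (nat_lit 69221350728) (nat_lit 6) (nat_lit 5) (nat_lit 8)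 (nat_lit 5) (nat_lit 7) (nat_lit 4) (nat_lit 326) (nat_lit 245) (nat_lit 149)) (XT.lf (nat_lit 0) (nat_lit 5069024408) (nat_lit 76) (nat_lit 26761984428) (nat_lit 152) (nat_lit 76941443740) (nat_lit 5) (nat_lit 5) (nat_lit 6) (nat_lit 5) (nat_lit 7) (nat_lit 4) (nat_lit 327) (nat_lit 245) (nat_lit 148)))))) (XT.nd (nat_lit 31434) (nat_lit 0) (nat_lit 13832) (XT.nd (nat_lit 31200) (nat_lit 0) (nat_lit 15124) (XT.nd (nat_lit 31122) (nat_lit 0) (nat_lit 15732) (XT.lf (nat_lit 0) (nat_lit 21626619475) (nat_lit 76) (nat_lit 18373246065) (nat_lit 152) (nat_lit 73915099162) (nat_lit 5) (nat_lit 5) (nat_lit 6) (nat_lit 5) (nat_lit 7) (nat_lit 4) (nat_lit 328) (nat_lit 245) (nat_lit 147)) (XT.lf (nat_lit 0) (nat_lit 1015073412) (nat_lit 0) (nat_lit 1015073412) (nat_lit 532) (nat_lit 1411464938) (nat_lit 212) (nat_lit 5) (nat_lit 212) (nat_lit 3) (nat_lit 219) (nat_lit 3) (nat_lit 246) (nat_lit 246)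 (nat_lit 228))) (XT.nd (nat_lit 78) (nat_lit 608) (nat_lit 0) (XT.lf (nat_lit 0) (nat_lit 6863153311) (nat_lit 0) (nat_lit 61196759) (nat_lit 532) (nat_lit 36441524) (nat_lit 212) (nat_lit 5) (nat_lit 212) (nat_lit 3) (nat_lit 219) (nat_lit 3) (nat_lit 247) (nat_lit 246) (nat_lit 227)) (XT.nd (nat_lit 78) (nat_lit 0) (nat_lit 0) (XT.lf (nat_lit 0) (nat_lit 2721340814) (nat_lit 608) (nat_lit 2196838520) (nat_lit 684) (nat_lit 2127298111) (nat_lit 204) (nat_lit 5) (nat_lit 212) (nat_lit 5) (nat_lit 213) (nat_lit 5) (nat_lit 248) (nat_lit 246) (nat_lit 226)) (XT.lf (nat_lit 76) (nat_lit 2868200761) (nat_lit 0) (nat_lit 2606407302) (nat_lit 684) (nat_lit 1664716937) (nat_lit 205) (nat_lit 5) (nat_lit 204) (nat_lit 5) (nat_lit 213) (nat_lit 5) (nat_lit 249) (nat_lit 246) (nat_lit 225))))) (XT.nd (nat_lit 156) (nat_lit 608) (nat_lit 0) (XT.nd (nat_lit 78) (nat_lit 0) (nat_lit 76) (XT.lf (nat_lit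 76) (nat_lit 903945583) (nat_lit 0) (nat_lit 67360086) (nat_lit 760) (nat_lit 6270901782) (nat_lit 196) (nat_lit 5) (nat_lit 195) (nat_lit 5) (nat_lit 205) (nat_lit 5) (nat_lit 250) (nat_lit 246) (nat_lit 224)) (XT.lf (nat_lit 0) (nat_lit 3616112169) (nat_lit 684) (nat_lit 1065135340) (nat_lit 760) (nat_lit 2671756190) (nat_lit 196) (nat_lit 5) (nat_lit 205) (nat_lit 5) (nat_lit 206) (nat_lit 5) (nat_lit 251) (nat_lit 246) (nat_lit 223))) (XT.nd (nat_lit 78) (nat_lit 684) (nat_lit 0) (XT.lf (nat_lit 76) (nat_lit 4461818790) (nat_lit 0) (nat_lit 1824156605) (nat_lit 760) (nat_lit 1187157487) (nat_lit 197) (nat_lit 5) (nat_lit 196) (nat_lit 5) (nat_lit 206) (nat_lit 5) (nat_lit 252) (nat_lit 246) (nat_lit 222)) (XT.nd (nat_lit 78) (nat_lit 0) (nat_lit 0) (XT.lf (nat_lit 0) (nat_lit 1363163184) (nat_lit 760) (nat_lit 4986565156) (nat_lit 836) (nat_lit 1252579277) (nat_lit 187) (nat_lit 5) (nat_lit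 197) (nat_lit 5) (nat_lit 198) (nat_lit 5) (nat_lit 253) (nat_lit 246) (nat_lit 221)) (XT.lf (nat_lit 76) (nat_lit 734406157) (nat_lit 0) (nat_lit 3199117225) (nat_lit 836) (nat_lit 3807061469) (nat_lit 188) (nat_lit 5) (nat_lit 187) (nat_lit 5) (nat_lit 198) (nat_lit 5) (nat_lit 254) (nat_lit 246) (nat_lit 220))))))) (XT.nd (nat_lit 780) (nat_lit 3496) (nat_lit 0) (XT.nd (nat_lit 390) (nat_lit 3116) (nat_lit 0) (XT.nd (nat_lit 156) (nat_lit 1824) (nat_lit 0) (XT.nd (nat_lit 78) (nat_lit 836) (nat_lit 0) (XT.lf (nat_lit 0) (nat_lit 6551459727) (nat_lit 760) (nat_lit 1141480771) (nat_lit 76) (nat_lit 195748136) (nat_lit 188) (nat_lit 5) (nat_lit 198) (nat_lit 5) (nat_lit 189) (nat_lit 5) (nat_lit 255) (nat_lit 246) (nat_lit 219)) (XT.lf (nat_lit 0) (nat_lit 1183414412) (nat_lit 836) (nat_lit 3072736208) (nat_lit 76) (nat_lit 3789577780) (nat_lit 177) (nat_lit 5) (nat_lit 188) (nat_lit 5)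 (nat_lit 178) (nat_lit 5) (nat_lit 256) (nat_lit 246) (nat_lit 218))) (XT.nd (nat_lit 78) (nat_lit 988) (nat_lit 0) (XT.lf (nat_lit 0) (nat_lit 3158167182) (nat_lit 836) (nat_lit 562818272) (nat_lit 912) (nat_lit 4492107555) (nat_lit 166) (nat_lit 5) (nat_lit 177) (nat_lit 5) (nat_lit 178) (nat_lit 5) (nat_lit 257) (nat_lit 246) (nat_lit 217)) (XT.nd (nat_lit 78) (nat_lit 76) (nat_lit 0) (XT.lf (nat_lit 0) (nat_lit 1271513925) (nat_lit 912) (nat_lit 5071265210) (nat_lit 988) (nat_lit 2047732676) (nat_lit 154) (nat_lit 5) (nat_lit 166) (nat_lit 5) (nat_lit 167) (nat_lit 5) (nat_lit 258) (nat_lit 246) (nat_lit 216)) (XT.lf (nat_lit 0) (nat_lit 451506271) (nat_lit 988) (nat_lit 664444848) (nat_lit 76) (nat_lit 7462793364) (nat_lit 153) (nat_lit 5) (nat_lit 166) (nat_lit 5) (nat_lit 154) (nat_lit 5) (nat_lit 259) (nat_lit 246) (nat_lit 215))))) (XT.nd (nat_lit 156) (nat_lit 1064) (nat_lit 0)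 (XT.nd (nat_lit 78) (nat_lit 1064) (nat_lit 0) (XT.lf (nat_lit 0) (nat_lit 3012742009) (nat_lit 1064) (nat_lit 2689512080) (nat_lit 76) (nat_lit 3074502687) (nat_lit 140) (nat_lit 5) (nat_lit 154) (nat_lit 5) (nat_lit 141) (nat_lit 5) (nat_lit 260) (nat_lit 246) (nat_lit 214)) (XT.lf (nat_lit 0) (nat_lit 4181967343) (nat_lit 1064) (nat_lit 1472989218) (nat_lit 1140) (nat_lit 3331466352) (nat_lit 126) (nat_lit 5) (nat_lit 140) (nat_lit 5) (nat_lit 141) (nat_lit 5) (nat_lit 261) (nat_lit 246) (nat_lit 213))) (XT.nd (nat_lit 78) (nat_lit 532) (nat_lit 0) (XT.lf (nat_lit 0) (nat_lit 2165943346) (nat_lit 532) (nat_lit 6239428626) (nat_lit 608) (nat_lit 802242196) (nat_lit 119) (nat_lit 5) (nat_lit 126) (nat_lit 5) (nat_lit 127) (nat_lit 5) (nat_lit 262) (nat_lit 246) (nat_lit 212)) (XT.nd (nat_lit 78) (nat_lit 0) (nat_lit 0) (XT.lf (nat_lit 0) (nat_lit 19547803) (nat_lit 456) (nat_lit 1764178851)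 (nat_lit 532) (nat_lit 7656910373) (nat_lit 112) (nat_lit 5) (nat_lit 118) (nat_lit 5) (nat_lit 119) (nat_lit 5) (nat_lit 263) (nat_lit 246) (nat_lit 211)) (XT.lf (nat_lit 0) (nat_lit 4489260058) (nat_lit 532) (nat_lit 2234171426) (nat_lit 76) (nat_lit 2961721294) (nat_lit 112) (nat_lit 5) (nat_lit 119) (nat_lit 5) (nat_lit 113) (nat_lit 5) (nat_lit 264) (nat_lit 246) (nat_lit 210)))))) (XT.nd (nat_lit 390) (nat_lit 1596) (nat_lit 0) (XT.nd (nat_lit 156) (nat_lit 836) (nat_lit 0) (XT.nd (nat_lit 78) (nat_lit 532) (nat_lit 0) (XT.lf (nat_lit 0) (nat_lit 5307389149) (nat_lit 532) (nat_lit 2001301876) (nat_lit 608) (nat_lit 2634116827) (nat_lit 105) (nat_lit 5) (nat_lit 112) (nat_lit 5) (nat_lit 113) (nat_lit 5) (nat_lit 265) (nat_lit 246) (nat_lit 209)) (XT.lf (nat_lit 0) (nat_lit 48061058) (nat_lit 532) (nat_lit 7215052070) (nat_lit 76) (nat_lit 2950666098) (nat_lit 98) (nat_lit 5) (nat_lit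 105) (nat_lit 5) (nat_lit 99) (nat_lit 5) (nat_lit 266) (nat_lit 246) (nat_lit 208))) (XT.nd (nat_lit 78) (nat_lit 380) (nat_lit 0) (XT.lf (nat_lit 0) (nat_lit 486776326) (nat_lit 456) (nat_lit 2312121844) (nat_lit 532) (nat_lit 7699187420) (nat_lit 92) (nat_lit 5) (nat_lit 98) (nat_lit 5) (nat_lit 99) (nat_lit 5) (nat_lit 267) (nat_lit 246) (nat_lit 207)) (XT.nd (nat_lit 78) (nat_lit 380) (nat_lit 0) (XT.lf (nat_lit 0) (nat_lit 5708610502) (nat_lit 532) (nat_lit 2188463265) (nat_lit 76) (nat_lit 2899121761) (nat_lit 92) (nat_lit 5) (nat_lit 99) (nat_lit 5) (nat_lit 93) (nat_lit 5) (nat_lit 268) (nat_lit 246) (nat_lit 206)) (XT.lf (nat_lit 0) (nat_lit 6034153162) (nat_lit 380) (nat_lit 2733452610) (nat_lit 456) (nat_lit 2341708659) (nat_lit 87) (nat_lit 5) (nat_lit 92) (nat_lit 5) (nat_lit 93) (nat_lit 5) (nat_lit 269) (nat_lit 246) (nat_lit 205))))) (XT.nd (nat_lit 234) (nat_lit 760) (nat_lit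 0) (XT.nd (nat_lit 78) (nat_lit 380) (nat_lit 0) (XT.lf (nat_lit 0) (nat_lit 535623366) (nat_lit 456) (nat_lit 8215955044) (nat_lit 76) (nat_lit 2686413897) (nat_lit 81) (nat_lit 5) (nat_lit 87) (nat_lit 5) (nat_lit 82) (nat_lit 5) (nat_lit 270) (nat_lit 246) (nat_lit 204)) (XT.nd (nat_lit 78) (nat_lit 0) (nat_lit 0) (XT.lf (nat_lit 0) (nat_lit 124427724) (nat_lit 380) (nat_lit 3393078941) (nat_lit 456) (nat_lit 8264819845) (nat_lit 76) (nat_lit 5) (nat_lit 81) (nat_lit 5) (nat_lit 82) (nat_lit 5) (nat_lit 271) (nat_lit 246) (nat_lit 203)) (XT.lf (nat_lit 0) (nat_lit 6685043862) (nat_lit 456) (nat_lit 3194737967) (nat_lit 76) (nat_lit 2263181120) (nat_lit 76) (nat_lit 5) (nat_lit 82) (nat_lit 5) (nat_lit 77) (nat_lit 5) (nat_lit 272) (nat_lit 246) (nat_lit 202)))) (XT.nd (nat_lit 78) (nat_lit 380) (nat_lit 0) (XT.lf (nat_lit 0) (nat_lit 5687740036) (nat_lit 380) (nat_lit 4345165806) (nat_lit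 456) (nat_lit 2488240566) (nat_lit 71) (nat_lit 5) (nat_lit 76) (nat_lit 5) (nat_lit 77) (nat_lit 5) (nat_lit 273) (nat_lit 246) (nat_lit 201)) (XT.nd (nat_lit 78) (nat_lit 0) (nat_lit 0) (XT.lf (nat_lit 0) (nat_lit 620420754) (nat_lit 380) (nat_lit 10814029171) (nat_lit 76) (nat_lit 1483684284) (nat_lit 66) (nat_lit 5) (nat_lit 71) (nat_lit 5) (nat_lit 67) (nat_lit 5) (nat_lit 274) (nat_lit 246) (nat_lit 200)) (XT.lf (nat_lit 0) (nat_lit 3885320143) (nat_lit 380) (nat_lit 1850589019) (nat_lit 76) (nat_lit 7596908091) (nat_lit 66) (nat_lit 5) (nat_lit 71) (nat_lit 5) (nat_lit 67) (nat_lit 5) (nat_lit 275) (nat_lit 246) (nat_lit 199))))))))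
noncomputable def xc63 : XT := (XT.nd (nat_lit 1638) (nat_lit 1064) (nat_lit 0) (XT.nd (nat_lit 780) (nat_lit 1292) (nat_lit 0) (XT.nd (nat_lit 390) (nat_lit 836) (nat_lit 0) (XT.nd (nat_lit 156) (nat_lit 608) (nat_lit 0) (XT.nd (nat_lit 78) (nat_lit 304) (nat_lit 0) (XT.lf (nat_lit 0) (nat_lit 7329704212) (nat_lit 380) (nat_lit 6136512686) (nat_lit 76) (nat_lit 301675986) (nat_lit 62) (nat_lit 5) (nat_lit 67) (nat_lit 5) (nat_lit 63) (nat_lit 5) (nat_lit 276) (nat_lit 246) (nat_lit 198)) (XT.lf (nat_lit 0) (nat_lit 3333806933) (nat_lit 304) (nat_lit 7663583107) (nat_lit 380) (nat_lit 3225938471) (nat_lit 58) (nat_lit 5) (nat_lit 62) (nat_lit 5) (nat_lit 63) (nat_lit 5) (nat_lit 277) (nat_lit 246) (nat_lit 197))) (XT.nd (nat_lit 78) (nat_lit 532) (nat_lit 0) (XT.lf (nat_lit 0) (nat_lit 151136598) (nat_lit 380) (nat_lit 1370038349) (nat_lit 76) (nat_lit 13180234458) (nat_lit 57) (nat_lit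 5) (nat_lit 62) (nat_lit 5) (nat_lit 58) (nat_lit 5) (nat_lit 278) (nat_lit 246) (nat_lit 196)) (XT.nd (nat_lit 78) (nat_lit 228) (nat_lit 0) (XT.lf (nat_lit 0) (nat_lit 3708867082) (nat_lit 380) (nat_lit 6558252930) (nat_lit 76) (nat_lit 4933082695) (nat_lit 53) (nat_lit 5) (nat_lit 58) (nat_lit 5) (nat_lit 54) (nat_lit 5) (nat_lit 279) (nat_lit 246) (nat_lit 195)) (XT.lf (nat_lit 0) (nat_lit 3441114121) (nat_lit 228) (nat_lit 4013782038) (nat_lit 304) (nat_lit 8268843468) (nat_lit 50) (nat_lit 5) (nat_lit 53) (nat_lit 5) (nat_lit 54) (nat_lit 5) (nat_lit 280) (nat_lit 246) (nat_lit 194))))) (XT.nd (nat_lit 156) (nat_lit 532) (nat_lit 0) (XT.nd (nat_lit 78) (nat_lit 304) (nat_lit 0) (XT.lf (nat_lit 0) (nat_lit 11430340098) (nat_lit 304) (nat_lit 2288768826) (nat_lit 76) (nat_lit 2553191845) (nat_lit 50) (nat_lit 5) (nat_lit 54) (nat_lit 5) (nat_lit 51) (nat_lit 5) (nat_lit 281) (nat_lit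 246) (nat_lit 193)) (XT.lf (nat_lit 0) (nat_lit 8259113142) (nat_lit 304) (nat_lit 7417156360) (nat_lit 380) (nat_lit 1169974571) (nat_lit 46) (nat_lit 5) (nat_lit 50) (nat_lit 5) (nat_lit 51) (nat_lit 5) (nat_lit 282) (nat_lit 246) (nat_lit 192))) (XT.nd (nat_lit 78) (nat_lit 228) (nat_lit 0) (XT.lf (nat_lit 0) (nat_lit 1879207256) (nat_lit 228) (nat_lit 748781887) (nat_lit 304) (nat_lit 14820374950) (nat_lit 42) (nat_lit 5) (nat_lit 45) (nat_lit 5) (nat_lit 46) (nat_lit 5) (nat_lit 283) (nat_lit 246) (nat_lit 191)) (XT.nd (nat_lit 78) (nat_lit 228) (nat_lit 0) (XT.lf (nat_lit 0) (nat_lit 6695641212) (nat_lit 304) (nat_lit 5167281438) (nat_lit 76) (nat_lit 6214293244) (nat_lit 42) (nat_lit 5) (nat_lit 46) (nat_lit 5) (nat_lit 43) (nat_lit 5) (nat_lit 284) (nat_lit 246) (nat_lit 190)) (XT.lf (nat_lit 0) (nat_lit 5798508898) (nat_lit 228) (nat_lit 5188017896) (nat_lit 304) (nat_lit 7750476444)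 (nat_lit 39) (nat_lit 5) (nat_lit 42) (nat_lit 5) (nat_lit 43) (nat_lit 5) (nat_lit 285) (nat_lit 246) (nat_lit 189)))))) (XT.nd (nat_lit 390) (nat_lit 608) (nat_lit 0) (XT.nd (nat_lit 156) (nat_lit 380) (nat_lit 0) (XT.nd (nat_lit 78) (nat_lit 304) (nat_lit 0) (XT.lf (nat_lit 0) (nat_lit 15521050006) (nat_lit 304) (nat_lit 2086811859) (nat_lit 76) (nat_lit 1821129554) (nat_lit 39) (nat_lit 5) (nat_lit 43) (nat_lit 5) (nat_lit 40) (nat_lit 5) (nat_lit 286) (nat_lit 246) (nat_lit 188)) (XT.lf (nat_lit 0) (nat_lit 227590911) (nat_lit 304) (nat_lit 10774949341) (nat_lit 76) (nat_lit 9149979831) (nat_lit 35) (nat_lit 5) (nat_lit 39) (nat_lit 5) (nat_lit 36) (nat_lit 5) (nat_lit 287) (nat_lit 246) (nat_lit 187))) (XT.nd (nat_lit 78) (nat_lit 152) (nat_lit 0) (XT.lf (nat_lit 0) (nat_lit 459059807) (nat_lit 228) (nat_lit 4017663498) (nat_lit 304) (nat_lit 16434785940) (nat_lit 32) (nat_lit 5) (nat_lit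 35) (nat_lit 5) (nat_lit 36) (nat_lit 5) (nat_lit 288) (nat_lit 246) (nat_lit 186)) (XT.nd (nat_lit 78) (nat_lit 152) (nat_lit 0) (XT.lf (nat_lit 0) (nat_lit 9044154715) (nat_lit 304) (nat_lit 9314994143) (nat_lit 76) (nat_lit 3346194409) (nat_lit 32) (nat_lit 5) (nat_lit 36) (nat_lit 5) (nat_lit 33) (nat_lit 5) (nat_lit 289) (nat_lit 246) (nat_lit 185)) (XT.lf (nat_lit 0) (nat_lit 2330128063) (nat_lit 152) (nat_lit 11536537387) (nat_lit 228) (nat_lit 8671469617) (nat_lit 30) (nat_lit 5) (nat_lit 32) (nat_lit 5) (nat_lit 33) (nat_lit 5) (nat_lit 290) (nat_lit 246) (nat_lit 184))))) (XT.nd (nat_lit 234) (nat_lit 304) (nat_lit 0) (XT.nd (nat_lit 78) (nat_lit 304) (nat_lit 0) (XT.lf (nat_lit 0) (nat_lit 14699590016) (nat_lit 152) (nat_lit 4291579695) (nat_lit 228) (nat_lit 4419634809) (nat_lit 30) (nat_lit 5) (nat_lit 32) (nat_lit 5) (nat_lit 33) (nat_lit 5) (nat_lit 291) (nat_lit 246) (nat_lit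 183)) (XT.nd (nat_lit 78) (nat_lit 0) (nat_lit 0) (XT.lf (nat_lit 0) (nat_lit 74650004) (nat_lit 304) (nat_lit 20984179568) (nat_lit 76) (nat_lit 3267402263) (nat_lit 26) (nat_lit 5) (nat_lit 30) (nat_lit 5) (nat_lit 27) (nat_lit 5) (nat_lit 292) (nat_lit 246) (nat_lit 182)) (XT.lf (nat_lit 0) (nat_lit 4804199644) (nat_lit 304) (nat_lit 9243748947) (nat_lit 76) (nat_lit 11235166947) (nat_lit 26) (nat_lit 5) (nat_lit 30) (nat_lit 5) (nat_lit 27) (nat_lit 5) (nat_lit 293) (nat_lit 246) (nat_lit 181)))) (XT.nd (nat_lit 78) (nat_lit 152) (nat_lit 0) (XT.lf (nat_lit 0) (nat_lit 3096296881) (nat_lit 152) (nat_lit 6672481619) (nat_lit 228) (nat_lit 16519162137) (nat_lit 24) (nat_lit 5) (nat_lit 26) (nat_lit 5) (nat_lit 27) (nat_lit 5) (nat_lit 294) (nat_lit 246) (nat_lit 180)) (XT.nd (nat_lit 78) (nat_lit 152) (nat_lit 0) (XT.lf (nat_lit 0) (nat_lit 15057658508) (nat_lit 228) (nat_lit 11152139816)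 (nat_lit 76) (nat_lit 1130977705) (nat_lit 24) (nat_lit 5) (nat_lit 27) (nat_lit 5) (nat_lit 25) (nat_lit 5) (nat_lit 295) (nat_lit 246) (nat_lit 179)) (XT.lf (nat_lit 0) (nat_lit 1404392204) (nat_lit 152) (nat_lit 19258552805) (nat_lit 228) (nat_lit 7781798068) (nat_lit 22) (nat_lit 5) (nat_lit 24) (nat_lit 5) (nat_lit 25) (nat_lit 5) (nat_lit 296) (nat_lit 246) (nat_lit 178))))))) (XT.nd (nat_lit 780) (nat_lit 532) (nat_lit 0) (XT.nd (nat_lit 390) (nat_lit 152) (nat_lit 0) (XT.nd (nat_lit 156) (nat_lit 304) (nat_lit 0) (XT.nd (nat_lit 78) (nat_lit 76) (nat_lit 0) (XT.lf (nat_lit 0) (nat_lit 14778082913) (nat_lit 152) (nat_lit 11857285241) (nat_lit 228) (nat_lit 2965980599) (nat_lit 22) (nat_lit 5) (nat_lit 24) (nat_lit 5) (nat_lit 25) (nat_lit 5) (nat_lit 297) (nat_lit 246) (nat_lit 177)) (XT.lf (nat_lit 0) (nat_lit 2022926175) (nat_lit 228) (nat_lit 2057634547) (nat_lit 76) (nat_lit 26735471216)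 (nat_lit 21) (nat_lit 5) (nat_lit 24) (nat_lit 5) (nat_lit 22) (nat_lit 5) (nat_lit 298) (nat_lit 246) (nat_lit 176))) (XT.nd (nat_lit 78) (nat_lit 152) (nat_lit 0) (XT.lf (nat_lit 0) (nat_lit 7325951570) (nat_lit 228) (nat_lit 20628004941) (nat_lit 76) (nat_lit 4132872254) (nat_lit 19) (nat_lit 5) (nat_lit 22) (nat_lit 5) (nat_lit 20) (nat_lit 5) (nat_lit 299) (nat_lit 246) (nat_lit 175)) (XT.nd (nat_lit 78) (nat_lit 152) (nat_lit 0) (XT.lf (nat_lit 0) (nat_lit 12931788606) (nat_lit 228) (nat_lit 7807516503) (nat_lit 76) (nat_lit 12680769464) (nat_lit 19) (nat_lit 5) (nat_lit 22) (nat_lit 5) (nat_lit 20) (nat_lit 5) (nat_lit 300) (nat_lit 246) (nat_lit 174)) (XT.lf (nat_lit 0) (nat_lit 5727965467) (nat_lit 152) (nat_lit 13121282292) (nat_lit 228) (nat_lit 15969832101) (nat_lit 17) (nat_lit 5) (nat_lit 19) (nat_lit 5) (nat_lit 20) (nat_lit 5) (nat_lit 301) (nat_lit 246) (nat_lit 173)))))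 (XT.nd (nat_lit 156) (nat_lit 152) (nat_lit 0) (XT.nd (nat_lit 78) (nat_lit 0) (nat_lit 0) (XT.lf (nat_lit 0) (nat_lit 20066655189) (nat_lit 152) (nat_lit 5053342771) (nat_lit 228) (nat_lit 11166350235) (nat_lit 17) (nat_lit 5) (nat_lit 19) (nat_lit 5) (nat_lit 20) (nat_lit 5) (nat_lit 302) (nat_lit 246) (nat_lit 172)) (XT.lf (nat_lit 0) (nat_lit 31715155099) (nat_lit 228) (nat_lit 2773091704) (nat_lit 76) (nat_lit 3338440708) (nat_lit 17) (nat_lit 5) (nat_lit 20) (nat_lit 5) (nat_lit 18) (nat_lit 4) (nat_lit 303) (nat_lit 246) (nat_lit 171))) (XT.nd (nat_lit 78) (nat_lit 76) (nat_lit 0) (XT.lf (nat_lit 0) (nat_lit 11485107719) (nat_lit 76) (nat_lit 27295429423) (nat_lit 152) (nat_lit 659324683) (nat_lit 16) (nat_lit 5) (nat_lit 17) (nat_lit 5) (nat_lit 18) (nat_lit 4) (nat_lit 304) (nat_lit 246) (nat_lit 170)) (XT.nd (nat_lit 78) (nat_lit 0) (nat_lit 0) (XT.lf (nat_lit 0) (nat_lit 4974987754)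 (nat_lit 152) (nat_lit 14700957585) (nat_lit 76) (nat_lit 21456068157) (nat_lit 15) (nat_lit 5) (nat_lit 17) (nat_lit 5) (nat_lit 16) (nat_lit 5) (nat_lit 305) (nat_lit 246) (nat_lit 169)) (XT.lf (nat_lit 0) (nat_lit 10857993557) (nat_lit 152) (nat_lit 822850189) (nat_lit 76) (nat_lit 31228342976) (nat_lit 15) (nat_lit 5) (nat_lit 17) (nat_lit 5) (nat_lit 16) (nat_lit 5) (nat_lit 306) (nat_lit 246) (nat_lit 168)))))) (XT.nd (nat_lit 390) (nat_lit 304) (nat_lit 0) (XT.nd (nat_lit 156) (nat_lit 76) (nat_lit 0) (XT.nd (nat_lit 78) (nat_lit 0) (nat_lit 0) (XT.lf (nat_lit 0) (nat_lit 13991983011) (nat_lit 152) (nat_lit 3159082170) (nat_lit 228) (nat_lit 27620702837) (nat_lit 13) (nat_lit 5) (nat_lit 15) (nat_lit 5) (nat_lit 16) (nat_lit 5) (nat_lit 307) (nat_lit 246) (nat_lit 167)) (XT.lf (nat_lit 0) (nat_lit 23804899560) (nat_lit 228) (nat_lit 17248003537) (nat_lit 76) (nat_lit 5673217602) (nat_lit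 13) (nat_lit 5) (nat_lit 16) (nat_lit 5) (nat_lit 14) (nat_lit 4) (nat_lit 308) (nat_lit 246) (nat_lit 166))) (XT.nd (nat_lit 78) (nat_lit 76) (nat_lit 0) (XT.lf (nat_lit 0) (nat_lit 30806082101) (nat_lit 228) (nat_lit 3099902425) (nat_lit 76) (nat_lit 14871791170) (nat_lit 13) (nat_lit 5) (nat_lit 16) (nat_lit 5) (nat_lit 14) (nat_lit 4) (nat_lit 309) (nat_lit 246) (nat_lit 165)) (XT.nd (nat_lit 78) (nat_lit 0) (nat_lit 0) (XT.lf (nat_lit 0) (nat_lit 11961992878) (nat_lit 76) (nat_lit 26293908372) (nat_lit 152) (nat_lit 12673178085) (nat_lit 12) (nat_lit 5) (nat_lit 13) (nat_lit 5) (nat_lit 14) (nat_lit 4) (nat_lit 310) (nat_lit 246) (nat_lit 164)) (XT.lf (nat_lit 0) (nat_lit 27815504241) (nat_lit 76) (nat_lit 18278738317) (nat_lit 152) (nat_lit 7093246770) (nat_lit 12) (nat_lit 5) (nat_lit 13) (nat_lit 5) (nat_lit 14) (nat_lit 4) (nat_lit 311) (nat_lit 246) (nat_lit 163))))) (XT.nd (nat_lit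 234) (nat_lit 76) (nat_lit 0) (XT.nd (nat_lit 78) (nat_lit 228) (nat_lit 0) (XT.lf (nat_lit 0) (nat_lit 44436683981) (nat_lit 76) (nat_lit 9872693562) (nat_lit 152) (nat_lit 1249917037) (nat_lit 12) (nat_lit 5) (nat_lit 13) (nat_lit 5) (nat_lit 14) (nat_lit 4) (nat_lit 312) (nat_lit 246) (nat_lit 162)) (XT.nd (nat_lit 78) (nat_lit 0) (nat_lit 0) (XT.lf (nat_lit 0) (nat_lit 3843137160) (nat_lit 152) (nat_lit 969483863) (nat_lit 228) (nat_lit 53235008336) (nat_lit 9) (nat_lit 5) (nat_lit 11) (nat_lit 5) (nat_lit 12) (nat_lit 5) (nat_lit 313) (nat_lit 246) (nat_lit 161)) (XT.lf (nat_lit 0) (nat_lit 11334663248) (nat_lit 228) (nat_lit 40985421999) (nat_lit 76) (nat_lit 8334476084) (nat_lit 9) (nat_lit 5) (nat_lit 12) (nat_lit 5) (nat_lit 10) (nat_lit 4) (nat_lit 314) (nat_lit 246) (nat_lit 160)))) (XT.nd (nat_lit 78) (nat_lit 76) (nat_lit 0) (XT.lf (nat_lit 0) (nat_lit 18179081470) (nat_lit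 228) (nat_lit 27137836734) (nat_lit 76) (nat_lit 18075051141) (nat_lit 9) (nat_lit 5) (nat_lit 12) (nat_lit 5) (nat_lit 10) (nat_lit 4) (nat_lit 315) (nat_lit 246) (nat_lit 159)) (XT.nd (nat_lit 78) (nat_lit 76) (nat_lit 0) (XT.lf (nat_lit 0) (nat_lit 25352852650) (nat_lit 228) (nat_lit 12619446691) (nat_lit 76) (nat_lit 28294351277) (nat_lit 9) (nat_lit 5) (nat_lit 12) (nat_lit 5) (nat_lit 10) (nat_lit 4) (nat_lit 316) (nat_lit 246) (nat_lit 158)) (XT.lf (nat_lit 0) (nat_lit 2656146713) (nat_lit 76) (nat_lit 30242442990) (nat_lit 152) (nat_lit 36386093952) (nat_lit 8) (nat_lit 5) (nat_lit 9) (nat_lit 5) (nat_lit 10) (nat_lit 4) (nat_lit 317) (nat_lit 246) (nat_lit 157))))))))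
noncomputable def xc64 : XT := (XT.nd (nat_lit 32682) (nat_lit 0) (nat_lit 4332) (XT.nd (nat_lit 780) (nat_lit 76) (nat_lit 0) (XT.nd (nat_lit 390) (nat_lit 76) (nat_lit 0) (XT.nd (nat_lit 156) (nat_lit 76) (nat_lit 0) (XT.nd (nat_lit 78) (nat_lit 0) (nat_lit 0) (XT.lf (nat_lit 0) (nat_lit 18939270959) (nat_lit 76) (nat_lit 22000385256) (nat_lit 152) (nat_lit 31510436104) (nat_lit 8) (nat_lit 5) (nat_lit 9) (nat_lit 5) (nat_lit 10) (nat_lit 4) (nat_lit 318) (nat_lit 246) (nat_lit 156)) (XT.lf (nat_lit 0) (nat_lit 36017543656) (nat_lit 76) (nat_lit 13353933861) (nat_lit 152) (nat_lit 26402647385) (nat_lit 8) (nat_lit 5) (nat_lit 9) (nat_lit 5) (nat_lit 10) (nat_lit 4) (nat_lit 319) (nat_lit 246) (nat_lit 155))) (XT.nd (nat_lit 78) (nat_lit 76) (nat_lit 0) (XT.lf (nat_lit 0) (nat_lit 53931627358) (nat_lit 76) (nat_lit 4282502016) (nat_lit 152) (nat_lit 21050566393) (nat_lit 8) (nat_lit 5)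 (nat_lit 9) (nat_lit 5) (nat_lit 10) (nat_lit 4) (nat_lit 320) (nat_lit 246) (nat_lit 154)) (XT.nd (nat_lit 78) (nat_lit 76) (nat_lit 0) (XT.lf (nat_lit 0) (nat_lit 67538992633) (nat_lit 152) (nat_lit 10256268066) (nat_lit 0) (nat_lit 5133345288) (nat_lit 8) (nat_lit 5) (nat_lit 10) (nat_lit 4) (nat_lit 8) (nat_lit 4) (nat_lit 321) (nat_lit 246) (nat_lit 153)) (XT.lf (nat_lit 0) (nat_lit 5624236110) (nat_lit 76) (nat_lit 71793326759) (nat_lit 76) (nat_lit 9355537488) (nat_lit 7) (nat_lit 4) (nat_lit 8) (nat_lit 5) (nat_lit 8) (nat_lit 4) (nat_lit 322) (nat_lit 246) (nat_lit 152))))) (XT.nd (nat_lit 156) (nat_lit 0) (nat_lit 0) (XT.nd (nat_lit 78) (nat_lit 76) (nat_lit 0) (XT.lf (nat_lit 0) (nat_lit 22496907958) (nat_lit 76) (nat_lit 65389221024) (nat_lit 76) (nat_lit 2920820394) (nat_lit 7) (nat_lit 4) (nat_lit 8) (nat_lit 5) (nat_lit 8) (nat_lit 4) (nat_lit 323) (nat_lit 246) (nat_lit 151))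 (XT.lf (nat_lit 0) (nat_lit 3751625774) (nat_lit 152) (nat_lit 54881753982) (nat_lit 76) (nat_lit 36408290823) (nat_lit 6) (nat_lit 5) (nat_lit 8) (nat_lit 5) (nat_lit 7) (nat_lit 4) (nat_lit 324) (nat_lit 246) (nat_lit 150))) (XT.nd (nat_lit 78) (nat_lit 0) (nat_lit 0) (XT.lf (nat_lit 0) (nat_lit 10689125145) (nat_lit 152) (nat_lit 40826395662) (nat_lit 76) (nat_lit 47971994851) (nat_lit 6) (nat_lit 5) (nat_lit 8) (nat_lit 5) (nat_lit 7) (nat_lit 4) (nat_lit 325) (nat_lit 246) (nat_lit 149)) (XT.nd (nat_lit 78) (nat_lit 0) (nat_lit 0) (XT.lf (nat_lit 0) (nat_lit 17965191302) (nat_lit 152) (nat_lit 26082424606) (nat_lit 76) (nat_lit 60108296354) (nat_lit 6) (nat_lit 5) (nat_lit 8) (nat_lit 5) (nat_lit 7) (nat_lit 4) (nat_lit 326) (nat_lit 246) (nat_lit 148)) (XT.lf (nat_lit 0) (nat_lit 25597148210) (nat_lit 152) (nat_lit 10614736123) (nat_lit 76) (nat_lit 72846091287) (nat_lit 6) (nat_lit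 5) (nat_lit 8) (nat_lit 5) (nat_lit 7) (nat_lit 4) (nat_lit 327) (nat_lit 246) (nat_lit 147)))))) (XT.nd (nat_lit 31512) (nat_lit 0) (nat_lit 12996) (XT.nd (nat_lit 31278) (nat_lit 0) (nat_lit 14364) (XT.nd (nat_lit 31200) (nat_lit 0) (nat_lit 15048) (XT.lf (nat_lit 0) (nat_lit 5725217226) (nat_lit 76) (nat_lit 27932984259) (nat_lit 152) (nat_lit 80545524798) (nat_lit 5) (nat_lit 5) (nat_lit 6) (nat_lit 5) (nat_lit 7) (nat_lit 4) (nat_lit 328) (nat_lit 246) (nat_lit 146)) (XT.lf (nat_lit 0) (nat_lit 1304455453) (nat_lit 684) (nat_lit 1107908160) (nat_lit 684) (nat_lit 1107908160) (nat_lit 203) (nat_lit 3) (nat_lit 212) (nat_lit 3) (nat_lit 212) (nat_lit 5) (nat_lit 247) (nat_lit 247) (nat_lit 226))) (XT.nd (nat_lit 78) (nat_lit 684) (nat_lit 0) (XT.lf (nat_lit 76) (nat_lit 2665500852) (nat_lit 0) (nat_lit 2575126034) (nat_lit 684) (nat_lit 1888688622) (nat_lit 204) (nat_lit 5) (nat_lit 203)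 (nat_lit 3) (nat_lit 212) (nat_lit 5) (nat_lit 248) (nat_lit 247) (nat_lit 225)) (XT.nd (nat_lit 78) (nat_lit 0) (nat_lit 76) (XT.lf (nat_lit 76) (nat_lit 528216162) (nat_lit 0) (nat_lit 100318156) (nat_lit 760) (nat_lit 6598531838) (nat_lit 195) (nat_lit 5) (nat_lit 194) (nat_lit 5) (nat_lit 204) (nat_lit 5) (nat_lit 249) (nat_lit 247) (nat_lit 224)) (XT.lf (nat_lit 0) (nat_lit 3145349810) (nat_lit 684) (nat_lit 1601912800) (nat_lit 760) (nat_lit 2585103454) (nat_lit 195) (nat_lit 5) (nat_lit 204) (nat_lit 5) (nat_lit 205) (nat_lit 5) (nat_lit 250) (nat_lit 247) (nat_lit 223))))) (XT.nd (nat_lit 156) (nat_lit 760) (nat_lit 0) (XT.nd (nat_lit 78) (nat_lit 684) (nat_lit 0) (XT.lf (nat_lit 76) (nat_lit 3732955803) (nat_lit 0) (nat_lit 1941478424) (nat_lit 760) (nat_lit 1772481511) (nat_lit 196) (nat_lit 5) (nat_lit 195) (nat_lit 5) (nat_lit 205) (nat_lit 5) (nat_lit 251) (nat_lit 247) (nat_lit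 222)) (XT.lf (nat_lit 0) (nat_lit 645761430) (nat_lit 760) (nat_lit 5843369250) (nat_lit 836) (nat_lit 1081440352) (nat_lit 186) (nat_lit 5) (nat_lit 196) (nat_lit 5) (nat_lit 197) (nat_lit 5) (nat_lit 252) (nat_lit 247) (nat_lit 221))) (XT.nd (nat_lit 78) (nat_lit 760) (nat_lit 0) (XT.lf (nat_lit 0) (nat_lit 3067336740) (nat_lit 760) (nat_lit 311385182) (nat_lit 836) (nat_lit 4324097009) (nat_lit 186) (nat_lit 5) (nat_lit 196) (nat_lit 5) (nat_lit 197) (nat_lit 5) (nat_lit 253) (nat_lit 247) (nat_lit 220)) (XT.nd (nat_lit 78) (nat_lit 760) (nat_lit 0) (XT.lf (nat_lit 76) (nat_lit 5516957570) (nat_lit 0) (nat_lit 13237813) (nat_lit 836) (nat_lit 2314362136) (nat_lit 187) (nat_lit 5) (nat_lit 186) (nat_lit 5) (nat_lit 197) (nat_lit 5) (nat_lit 254) (nat_lit 247) (nat_lit 219)) (XT.lf (nat_lit 0) (nat_lit 64144847) (nat_lit 836) (nat_lit 4399953577) (nat_lit 912) (nat_lit 3531385298) (nat_lit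 176) (nat_lit 5) (nat_lit 187) (nat_lit 5) (nat_lit 188) (nat_lit 5) (nat_lit 255) (nat_lit 247) (nat_lit 218))))))) (XT.nd (nat_lit 780) (nat_lit 3268) (nat_lit 0) (XT.nd (nat_lit 390) (nat_lit 2660) (nat_lit 0) (XT.nd (nat_lit 156) (nat_lit 2736) (nat_lit 0) (XT.nd (nat_lit 78) (nat_lit 0) (nat_lit 76) (XT.lf (nat_lit 76) (nat_lit 1627894161) (nat_lit 0) (nat_lit 802889973) (nat_lit 912) (nat_lit 5725399120) (nat_lit 177) (nat_lit 5) (nat_lit 176) (nat_lit 5) (nat_lit 188) (nat_lit 5) (nat_lit 256) (nat_lit 247) (nat_lit 217)) (XT.lf (nat_lit 0) (nat_lit 4872703835) (nat_lit 836) (nat_lit 396183073) (nat_lit 76) (nat_lit 3057728681) (nat_lit 177) (nat_lit 5) (nat_lit 188) (nat_lit 5) (nat_lit 178) (nat_lit 5) (nat_lit 257) (nat_lit 247) (nat_lit 216))) (XT.nd (nat_lit 78) (nat_lit 1976) (nat_lit 0) (XT.lf (nat_lit 0) (nat_lit 6065138660) (nat_lit 836) (nat_lit 1325577651) (nat_lit 912)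 (nat_lit 1116620265) (nat_lit 166) (nat_lit 5) (nat_lit 177) (nat_lit 5) (nat_lit 178) (nat_lit 5) (nat_lit 258) (nat_lit 247) (nat_lit 215)) (XT.nd (nat_lit 78) (nat_lit 988) (nat_lit 0) (XT.lf (nat_lit 0) (nat_lit 1273886141) (nat_lit 988) (nat_lit 4585771145) (nat_lit 76) (nat_lit 2838534871) (nat_lit 153) (nat_lit 5) (nat_lit 166) (nat_lit 5) (nat_lit 154) (nat_lit 5) (nat_lit 259) (nat_lit 247) (nat_lit 214)) (XT.lf (nat_lit 0) (nat_lit 2074731122) (nat_lit 988) (nat_lit 1640292979) (nat_lit 1064) (nat_lit 5184949497) (nat_lit 140) (nat_lit 5) (nat_lit 153) (nat_lit 5) (nat_lit 154) (nat_lit 5) (nat_lit 260) (nat_lit 247) (nat_lit 213))))) (XT.nd (nat_lit 156) (nat_lit 1596) (nat_lit 0) (XT.nd (nat_lit 78) (nat_lit 1064) (nat_lit 0) (XT.lf (nat_lit 0) (nat_lit 6252280231) (nat_lit 1064) (nat_lit 63385136) (nat_lit 76) (nat_lit 2797281419) (nat_lit 140) (nat_lit 5) (nat_lit 154) (nat_lit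 5) (nat_lit 141) (nat_lit 5) (nat_lit 261) (nat_lit 247) (nat_lit 212)) (XT.lf (nat_lit 0) (nat_lit 7072536140) (nat_lit 1064) (nat_lit 1832754775) (nat_lit 1140) (nat_lit 431920029) (nat_lit 126) (nat_lit 5) (nat_lit 140) (nat_lit 5) (nat_lit 141) (nat_lit 5) (nat_lit 262) (nat_lit 247) (nat_lit 211))) (XT.nd (nat_lit 78) (nat_lit 988) (nat_lit 0) (XT.lf (nat_lit 0) (nat_lit 2060809790) (nat_lit 608) (nat_lit 4616429632) (nat_lit 76) (nat_lit 2895607370) (nat_lit 118) (nat_lit 5) (nat_lit 126) (nat_lit 5) (nat_lit 119) (nat_lit 5) (nat_lit 263) (nat_lit 247) (nat_lit 210)) (XT.nd (nat_lit 78) (nat_lit 532) (nat_lit 0) (XT.lf (nat_lit 0) (nat_lit 2710373349) (nat_lit 456) (nat_lit 1937659655) (nat_lit 532) (nat_lit 5173011607) (nat_lit 112) (nat_lit 5) (nat_lit 118) (nat_lit 5) (nat_lit 119) (nat_lit 5) (nat_lit 264) (nat_lit 247) (nat_lit 209)) (XT.lf (nat_lit 0) (nat_lit 309970653) (nat_lit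 532) (nat_lit 7048922828) (nat_lit 608) (nat_lit 2723189760) (nat_lit 105) (nat_lit 5) (nat_lit 112) (nat_lit 5) (nat_lit 113) (nat_lit 5) (nat_lit 265) (nat_lit 247) (nat_lit 208)))))) (XT.nd (nat_lit 390) (nat_lit 1900) (nat_lit 0) (XT.nd (nat_lit 156) (nat_lit 836) (nat_lit 0) (XT.nd (nat_lit 78) (nat_lit 532) (nat_lit 0) (XT.lf (nat_lit 0) (nat_lit 8146604572) (nat_lit 532) (nat_lit 2068634571) (nat_lit 608) (nat_lit 140883255) (nat_lit 105) (nat_lit 5) (nat_lit 112) (nat_lit 5) (nat_lit 113) (nat_lit 5) (nat_lit 266) (nat_lit 247) (nat_lit 207)) (XT.lf (nat_lit 0) (nat_lit 2526983747) (nat_lit 532) (nat_lit 4938312232) (nat_lit 76) (nat_lit 3177856333) (nat_lit 98) (nat_lit 5) (nat_lit 105) (nat_lit 5) (nat_lit 99) (nat_lit 5) (nat_lit 267) (nat_lit 247) (nat_lit 206))) (XT.nd (nat_lit 78) (nat_lit 380) (nat_lit 0) (XT.lf (nat_lit 0) (nat_lit 3073004393) (nat_lit 456) (nat_lit 2249055261)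 (nat_lit 532) (nat_lit 5622747731) (nat_lit 92) (nat_lit 5) (nat_lit 98) (nat_lit 5) (nat_lit 99) (nat_lit 5) (nat_lit 268) (nat_lit 247) (nat_lit 205)) (XT.nd (nat_lit 78) (nat_lit 0) (nat_lit 0) (XT.lf (nat_lit 0) (nat_lit 219107455) (nat_lit 380) (nat_lit 8048405564) (nat_lit 456) (nat_lit 2993920519) (nat_lit 87) (nat_lit 5) (nat_lit 92) (nat_lit 5) (nat_lit 93) (nat_lit 5) (nat_lit 269) (nat_lit 247) (nat_lit 204)) (XT.lf (nat_lit 0) (nat_lit 8776552563) (nat_lit 380) (nat_lit 2616100441) (nat_lit 456) (nat_lit 200462753) (nat_lit 87) (nat_lit 5) (nat_lit 92) (nat_lit 5) (nat_lit 93) (nat_lit 5) (nat_lit 270) (nat_lit 247) (nat_lit 203))))) (XT.nd (nat_lit 234) (nat_lit 1064) (nat_lit 0) (XT.nd (nat_lit 78) (nat_lit 380) (nat_lit 0) (XT.lf (nat_lit 0) (nat_lit 2697242454) (nat_lit 456) (nat_lit 6140689842) (nat_lit 76) (nat_lit 3102307103) (nat_lit 81) (nat_lit 5) (nat_lit 87) (nat_lit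 5) (nat_lit 82) (nat_lit 5) (nat_lit 271) (nat_lit 247) (nat_lit 202)) (XT.nd (nat_lit 78) (nat_lit 0) (nat_lit 0) (XT.lf (nat_lit 0) (nat_lit 2545449569) (nat_lit 380) (nat_lit 3204323940) (nat_lit 456) (nat_lit 6554637214) (nat_lit 76) (nat_lit 5) (nat_lit 81) (nat_lit 5) (nat_lit 82) (nat_lit 5) (nat_lit 272) (nat_lit 247) (nat_lit 201)) (XT.lf (nat_lit 0) (nat_lit 8981045347) (nat_lit 456) (nat_lit 994105984) (nat_lit 76) (nat_lit 2711021222) (nat_lit 76) (nat_lit 5) (nat_lit 82) (nat_lit 5) (nat_lit 77) (nat_lit 5) (nat_lit 273) (nat_lit 247) (nat_lit 200)))) (XT.nd (nat_lit 78) (nat_lit 684) (nat_lit 0) (XT.lf (nat_lit 0) (nat_lit 8264836419) (nat_lit 380) (nat_lit 4160086299) (nat_lit 456) (nat_lit 660725992) (nat_lit 71) (nat_lit 5) (nat_lit 76) (nat_lit 5) (nat_lit 77) (nat_lit 5) (nat_lit 274) (nat_lit 247) (nat_lit 199)) (XT.nd (nat_lit 78) (nat_lit 304) (nat_lit 0) (XT.lf (nat_lit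 0) (nat_lit 2500027076) (nat_lit 380) (nat_lit 9030438085) (nat_lit 76) (nat_lit 1973639354) (nat_lit 66) (nat_lit 5) (nat_lit 71) (nat_lit 5) (nat_lit 67) (nat_lit 5) (nat_lit 275) (nat_lit 247) (nat_lit 198)) (XT.lf (nat_lit 0) (nat_lit 275876826) (nat_lit 304) (nat_lit 5566918635) (nat_lit 380) (nat_lit 8099500810) (nat_lit 62) (nat_lit 5) (nat_lit 66) (nat_lit 5) (nat_lit 67) (nat_lit 5) (nat_lit 276) (nat_lit 247) (nat_lit 197))))))))
noncomputable def xc65 : XT := (XT.nd (nat_lit 1560) (nat_lit 1140) (nat_lit 0) (XT.nd (nat_lit 780) (nat_lit 1140) (nat_lit 0) (XT.nd (nat_lit 390) (nat_lit 836) (nat_lit 0) (XT.nd (nat_lit 156) (nat_lit 608) (nat_lit 0) (XT.nd (nat_lit 78) (nat_lit 304) (nat_lit 0) (XT.lf (nat_lit 0) (nat_lit 9397931709) (nat_lit 380) (nat_lit 4242547267) (nat_lit 76) (nat_lit 760693840) (nat_lit 62) (nat_lit 5) (nat_lit 67) (nat_lit 5) (nat_lit 63) (nat_lit 5) (nat_lit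 277) (nat_lit 247) (nat_lit 196)) (XT.lf (nat_lit 0) (nat_lit 5638203100) (nat_lit 304) (nat_lit 7550312318) (nat_lit 380) (nat_lit 1692872847) (nat_lit 58) (nat_lit 5) (nat_lit 62) (nat_lit 5) (nat_lit 63) (nat_lit 5) (nat_lit 278) (nat_lit 247) (nat_lit 195))) (XT.nd (nat_lit 78) (nat_lit 228) (nat_lit 0) (XT.lf (nat_lit 0) (nat_lit 645022873) (nat_lit 304) (nat_lit 1102060843) (nat_lit 380) (nat_lit 13638167017) (nat_lit 53) (nat_lit 5) (nat_lit 57) (nat_lit 5) (nat_lit 58) (nat_lit 5) (nat_lit 279) (nat_lit 247) (nat_lit 194)) (XT.nd (nat_lit 78) (nat_lit 228) (nat_lit 0) (XT.lf (nat_lit 0) (nat_lit 5425161070) (nat_lit 380) (nat_lit 4830026897) (nat_lit 76) (nat_lit 5655692276) (nat_lit 53) (nat_lit 5) (nat_lit 58) (nat_lit 5) (nat_lit 54) (nat_lit 5) (nat_lit 280) (nat_lit 247) (nat_lit 193)) (XT.lf (nat_lit 0) (nat_lit 5610369704) (nat_lit 228) (nat_lit 3694422555) (nat_lit 304) (nat_lit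 7157574973) (nat_lit 50) (nat_lit 5) (nat_lit 53) (nat_lit 5) (nat_lit 54) (nat_lit 5) (nat_lit 281) (nat_lit 247) (nat_lit 192))))) (XT.nd (nat_lit 156) (nat_lit 456) (nat_lit 0) (XT.nd (nat_lit 78) (nat_lit 380) (nat_lit 0) (XT.lf (nat_lit 0) (nat_lit 13413428834) (nat_lit 304) (nat_lit 460578479) (nat_lit 76) (nat_lit 3166471021) (nat_lit 50) (nat_lit 5) (nat_lit 54) (nat_lit 5) (nat_lit 51) (nat_lit 5) (nat_lit 282) (nat_lit 247) (nat_lit 191)) (XT.lf (nat_lit 0) (nat_lit 174366882) (nat_lit 380) (nat_lit 7087435294) (nat_lit 76) (nat_lit 10382884878) (nat_lit 45) (nat_lit 5) (nat_lit 50) (nat_lit 5) (nat_lit 46) (nat_lit 5) (nat_lit 283) (nat_lit 247) (nat_lit 190))) (XT.nd (nat_lit 78) (nat_lit 228) (nat_lit 0) (XT.lf (nat_lit 0) (nat_lit 3835453570) (nat_lit 228) (nat_lit 255044313) (nat_lit 304) (nat_lit 14187629765) (nat_lit 42) (nat_lit 5) (nat_lit 45) (nat_lit 5) (nat_lit 46)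 (nat_lit 5) (nat_lit 284) (nat_lit 247) (nat_lit 189)) (XT.nd (nat_lit 78) (nat_lit 228) (nat_lit 0) (XT.lf (nat_lit 0) (nat_lit 8303009251) (nat_lit 304) (nat_lit 3616279218) (nat_lit 76) (nat_lit 7021018857) (nat_lit 42) (nat_lit 5) (nat_lit 46) (nat_lit 5) (nat_lit 43) (nat_lit 5) (nat_lit 285) (nat_lit 247) (nat_lit 188)) (XT.lf (nat_lit 0) (nat_lit 7845935513) (nat_lit 228) (nat_lit 4918798443) (nat_lit 304) (nat_lit 6869784654) (nat_lit 39) (nat_lit 5) (nat_lit 42) (nat_lit 5) (nat_lit 43) (nat_lit 5) (nat_lit 286) (nat_lit 247) (nat_lit 187)))))) (XT.nd (nat_lit 390) (nat_lit 456) (nat_lit 0) (XT.nd (nat_lit 156) (nat_lit 380) (nat_lit 0) (XT.nd (nat_lit 78) (nat_lit 304) (nat_lit 0) (XT.lf (nat_lit 0) (nat_lit 17472304644) (nat_lit 304) (nat_lit 484719559) (nat_lit 76) (nat_lit 2405809899) (nat_lit 39) (nat_lit 5) (nat_lit 43) (nat_lit 5) (nat_lit 40) (nat_lit 5) (nat_lit 287) (nat_lit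 247) (nat_lit 186)) (XT.lf (nat_lit 0) (nat_lit 1387578198) (nat_lit 304) (nat_lit 9631145257) (nat_lit 76) (nat_lit 10104790732) (nat_lit 35) (nat_lit 5) (nat_lit 39) (nat_lit 5) (nat_lit 36) (nat_lit 5) (nat_lit 288) (nat_lit 247) (nat_lit 185))) (XT.nd (nat_lit 78) (nat_lit 152) (nat_lit 0) (XT.lf (nat_lit 0) (nat_lit 2116334347) (nat_lit 228) (nat_lit 3693847356) (nat_lit 304) (nat_lit 16111544176) (nat_lit 32) (nat_lit 5) (nat_lit 35) (nat_lit 5) (nat_lit 36) (nat_lit 5) (nat_lit 289) (nat_lit 247) (nat_lit 184)) (XT.nd (nat_lit 78) (nat_lit 152) (nat_lit 0) (XT.lf (nat_lit 0) (nat_lit 10557949083) (nat_lit 304) (nat_lit 8195375616) (nat_lit 76) (nat_lit 4003466551) (nat_lit 32) (nat_lit 5) (nat_lit 36) (nat_lit 5) (nat_lit 33) (nat_lit 5) (nat_lit 290) (nat_lit 247) (nat_lit 183)) (XT.lf (nat_lit 0) (nat_lit 3986558439) (nat_lit 152) (nat_lit 11599277863) (nat_lit 228) (nat_lit 8046552695)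 (nat_lit 30) (nat_lit 5) (nat_lit 32) (nat_lit 5) (nat_lit 33) (nat_lit 5) (nat_lit 291) (nat_lit 247) (nat_lit 182))))) (XT.nd (nat_lit 156) (nat_lit 152) (nat_lit 0) (XT.nd (nat_lit 78) (nat_lit 304) (nat_lit 0) (XT.lf (nat_lit 0) (nat_lit 16901163777) (nat_lit 152) (nat_lit 4016552591) (nat_lit 228) (nat_lit 3632530451) (nat_lit 30) (nat_lit 5) (nat_lit 32) (nat_lit 5) (nat_lit 33) (nat_lit 5) (nat_lit 292) (nat_lit 247) (nat_lit 181)) (XT.lf (nat_lit 0) (nat_lit 1038334634) (nat_lit 304) (nat_lit 20562440439) (nat_lit 76) (nat_lit 3911316268) (nat_lit 26) (nat_lit 5) (nat_lit 30) (nat_lit 5) (nat_lit 27) (nat_lit 5) (nat_lit 293) (nat_lit 247) (nat_lit 180))) (XT.nd (nat_lit 78) (nat_lit 152) (nat_lit 0) (XT.lf (nat_lit 0) (nat_lit 5958649750) (nat_lit 304) (nat_lit 8305033435) (nat_lit 76) (nat_lit 12254586144) (nat_lit 26) (nat_lit 5) (nat_lit 30) (nat_lit 5) (nat_lit 27) (nat_lit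 5) (nat_lit 294) (nat_lit 247) (nat_lit 179)) (XT.nd (nat_lit 78) (nat_lit 0) (nat_lit 0) (XT.lf (nat_lit 0) (nat_lit 4611858083) (nat_lit 152) (nat_lit 6529144549) (nat_lit 228) (nat_lit 16433321690) (nat_lit 24) (nat_lit 5) (nat_lit 26) (nat_lit 5) (nat_lit 27) (nat_lit 5) (nat_lit 295) (nat_lit 247) (nat_lit 178)) (XT.lf (nat_lit 0) (nat_lit 16656608146) (nat_lit 228) (nat_lit 10391485033) (nat_lit 76) (nat_lit 1632911276) (nat_lit 24) (nat_lit 5) (nat_lit 27) (nat_lit 5) (nat_lit 25) (nat_lit 5) (nat_lit 296) (nat_lit 247) (nat_lit 177))))))) (XT.nd (nat_lit 780) (nat_lit 456) (nat_lit 0) (XT.nd (nat_lit 390) (nat_lit 304) (nat_lit 0) (XT.nd (nat_lit 156) (nat_lit 228) (nat_lit 0) (XT.nd (nat_lit 78) (nat_lit 0) (nat_lit 0) (XT.lf (nat_lit 0) (nat_lit 2755085880) (nat_lit 152) (nat_lit 19759092902) (nat_lit 228) (nat_lit 7326898498) (nat_lit 22) (nat_lit 5) (nat_lit 24) (nat_lit 5) (nat_lit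 25) (nat_lit 5) (nat_lit 297) (nat_lit 247) (nat_lit 176)) (XT.lf (nat_lit 0) (nat_lit 16736486168) (nat_lit 152) (nat_lit 12009780414) (nat_lit 228) (nat_lit 2310480130) (nat_lit 22) (nat_lit 5) (nat_lit 24) (nat_lit 5) (nat_lit 25) (nat_lit 5) (nat_lit 298) (nat_lit 247) (nat_lit 175))) (XT.nd (nat_lit 78) (nat_lit 152) (nat_lit 0) (XT.lf (nat_lit 0) (nat_lit 2874657698) (nat_lit 228) (nat_lit 982952488) (nat_lit 76) (nat_lit 28475507847) (nat_lit 21) (nat_lit 5) (nat_lit 24) (nat_lit 5) (nat_lit 22) (nat_lit 5) (nat_lit 299) (nat_lit 247) (nat_lit 174)) (XT.nd (nat_lit 78) (nat_lit 0) (nat_lit 0) (XT.lf (nat_lit 0) (nat_lit 8422104997) (nat_lit 228) (nat_lit 20496697785) (nat_lit 76) (nat_lit 4749330847) (nat_lit 19) (nat_lit 5) (nat_lit 22) (nat_lit 5) (nat_lit 20) (nat_lit 5) (nat_lit 300) (nat_lit 247) (nat_lit 173)) (XT.lf (nat_lit 0) (nat_lit 14273478845) (nat_lit 228) (nat_lit 7090551944)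 (nat_lit 76) (nat_lit 13705107918) (nat_lit 19) (nat_lit 5) (nat_lit 22) (nat_lit 5) (nat_lit 20) (nat_lit 5) (nat_lit 301) (nat_lit 247) (nat_lit 172))))) (XT.nd (nat_lit 156) (nat_lit 152) (nat_lit 0) (XT.nd (nat_lit 78) (nat_lit 0) (nat_lit 0) (XT.lf (nat_lit 0) (nat_lit 7089962434) (nat_lit 152) (nat_lit 13374087794) (nat_lit 228) (nat_lit 16074778591) (nat_lit 17) (nat_lit 5) (nat_lit 19) (nat_lit 5) (nat_lit 20) (nat_lit 5) (nat_lit 302) (nat_lit 247) (nat_lit 171)) (XT.lf (nat_lit 0) (nat_lit 22094367657) (nat_lit 152) (nat_lit 4921954089) (nat_lit 228) (nat_lit 11064148590) (nat_lit 17) (nat_lit 5) (nat_lit 19) (nat_lit 5) (nat_lit 20) (nat_lit 5) (nat_lit 303) (nat_lit 247) (nat_lit 170))) (XT.nd (nat_lit 78) (nat_lit 152) (nat_lit 0) (XT.lf (nat_lit 0) (nat_lit 33914261109) (nat_lit 228) (nat_lit 1920428958) (nat_lit 76) (nat_lit 3863992751) (nat_lit 17) (nat_lit 5) (nat_lit 20)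 (nat_lit 5) (nat_lit 18) (nat_lit 4) (nat_lit 304) (nat_lit 247) (nat_lit 169)) (XT.nd (nat_lit 78) (nat_lit 76) (nat_lit 0) (XT.lf (nat_lit 0) (nat_lit 13022264524) (nat_lit 76) (nat_lit 28290696668) (nat_lit 152) (nat_lit 80197885) (nat_lit 16) (nat_lit 5) (nat_lit 17) (nat_lit 5) (nat_lit 18) (nat_lit 4) (nat_lit 305) (nat_lit 247) (nat_lit 168)) (XT.lf (nat_lit 0) (nat_lit 5795307516) (nat_lit 152) (nat_lit 14506754563) (nat_lit 76) (nat_lit 22868578421) (nat_lit 15) (nat_lit 5) (nat_lit 17) (nat_lit 5) (nat_lit 16) (nat_lit 5) (nat_lit 306) (nat_lit 247) (nat_lit 167)))))) (XT.nd (nat_lit 390) (nat_lit 228) (nat_lit 0) (XT.nd (nat_lit 156) (nat_lit 76) (nat_lit 0) (XT.nd (nat_lit 78) (nat_lit 0) (nat_lit 0) (XT.lf (nat_lit 0) (nat_lit 21426263) (nat_lit 152) (nat_lit 11924025672) (nat_lit 228) (nat_lit 33092070163) (nat_lit 13) (nat_lit 5) (nat_lit 15) (nat_lit 5) (nat_lit 16) (nat_lit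 5) (nat_lit 307) (nat_lit 247) (nat_lit 166)) (XT.lf (nat_lit 0) (nat_lit 15551214649) (nat_lit 152) (nat_lit 2984098283) (nat_lit 228) (nat_lit 28458492938) (nat_lit 13) (nat_lit 5) (nat_lit 15) (nat_lit 5) (nat_lit 16) (nat_lit 5) (nat_lit 308) (nat_lit 247) (nat_lit 165))) (XT.nd (nat_lit 78) (nat_lit 76) (nat_lit 0) (XT.lf (nat_lit 0) (nat_lit 25499806343) (nat_lit 228) (nat_lit 17278991683) (nat_lit 76) (nat_lit 6267774840) (nat_lit 13) (nat_lit 5) (nat_lit 16) (nat_lit 5) (nat_lit 14) (nat_lit 4) (nat_lit 309) (nat_lit 247) (nat_lit 164)) (XT.nd (nat_lit 78) (nat_lit 76) (nat_lit 0) (XT.lf (nat_lit 0) (nat_lit 32827016497) (nat_lit 228) (nat_lit 2463076565) (nat_lit 76) (nat_lit 15911472498) (nat_lit 13) (nat_lit 5) (nat_lit 16) (nat_lit 5) (nat_lit 14) (nat_lit 4) (nat_lit 310) (nat_lit 247) (nat_lit 163)) (XT.lf (nat_lit 0) (nat_lit 13329216114) (nat_lit 76) (nat_lit 27304616619)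 (nat_lit 152) (nat_lit 12827098845) (nat_lit 12) (nat_lit 5) (nat_lit 13) (nat_lit 5) (nat_lit 14) (nat_lit 4) (nat_lit 311) (nat_lit 247) (nat_lit 162))))) (XT.nd (nat_lit 234) (nat_lit 0) (nat_lit 0) (XT.nd (nat_lit 78) (nat_lit 228) (nat_lit 0) (XT.lf (nat_lit 0) (nat_lit 29938778112) (nat_lit 76) (nat_lit 18903163641) (nat_lit 152) (nat_lit 6991015638) (nat_lit 12) (nat_lit 5) (nat_lit 13) (nat_lit 5) (nat_lit 14) (nat_lit 4) (nat_lit 312) (nat_lit 247) (nat_lit 161)) (XT.nd (nat_lit 78) (nat_lit 228) (nat_lit 0) (XT.lf (nat_lit 0) (nat_lit 47356135951) (nat_lit 76) (nat_lit 10090602915) (nat_lit 152) (nat_lit 877276250) (nat_lit 12) (nat_lit 5) (nat_lit 13) (nat_lit 5) (nat_lit 14) (nat_lit 4) (nat_lit 313) (nat_lit 247) (nat_lit 160)) (XT.lf (nat_lit 0) (nat_lit 4721716367) (nat_lit 152) (nat_lit 744463119) (nat_lit 228) (nat_lit 55470900364) (nat_lit 9) (nat_lit 5) (nat_lit 11) (nat_lit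 5) (nat_lit 12) (nat_lit 5) (nat_lit 314) (nat_lit 247) (nat_lit 159)))) (XT.nd (nat_lit 78) (nat_lit 0) (nat_lit 0) (XT.lf (nat_lit 0) (nat_lit 12297164423) (nat_lit 228) (nat_lit 42371146123) (nat_lit 76) (nat_lit 9006588521) (nat_lit 9) (nat_lit 5) (nat_lit 12) (nat_lit 5) (nat_lit 10) (nat_lit 4) (nat_lit 315) (nat_lit 247) (nat_lit 158)) (XT.nd (nat_lit 78) (nat_lit 0) (nat_lit 0) (XT.lf (nat_lit 0) (nat_lit 19464957460) (nat_lit 228) (nat_lit 27862779070) (nat_lit 76) (nat_lit 19222030968) (nat_lit 9) (nat_lit 5) (nat_lit 12) (nat_lit 5) (nat_lit 10) (nat_lit 4) (nat_lit 316) (nat_lit 247) (nat_lit 157)) (XT.lf (nat_lit 0) (nat_lit 26979468537) (nat_lit 228) (nat_lit 12648562359) (nat_lit 76) (nat_lit 29940713860) (nat_lit 9) (nat_lit 5) (nat_lit 12) (nat_lit 5) (nat_lit 10) (nat_lit 4) (nat_lit 317) (nat_lit 247) (nat_lit 156))))))))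
noncomputable def xc66 : XT := (XT.nd (nat_lit 32838) (nat_lit 0) (nat_lit 4256) (XT.nd (nat_lit 32058) (nat_lit 0) (nat_lit 12844) (XT.nd (nat_lit 390) (nat_lit 152) (nat_lit 0) (XT.nd (nat_lit 156) (nat_lit 0) (nat_lit 0) (XT.nd (nat_lit 78) (nat_lit 0) (nat_lit 0) (XT.lf (nat_lit 0) (nat_lit 3373558616) (nat_lit 76) (nat_lit 31517459439) (nat_lit 152) (nat_lit 37847027963) (nat_lit 8) (nat_lit 5) (nat_lit 9) (nat_lit 5) (nat_lit 10) (nat_lit 4) (nat_lit 318) (nat_lit 247) (nat_lit 155)) (XT.lf (nat_lit 0) (nat_lit 20443000761) (nat_lit 76) (nat_lit 22874589566) (nat_lit 152) (nat_lit 32744652494) (nat_lit 8) (nat_lit 5) (nat_lit 9) (nat_lit 5) (nat_lit 10) (nat_lit 4) (nat_lit 319) (nat_lit 247) (nat_lit 154))) (XT.nd (nat_lit 78) (nat_lit 0) (nat_lit 0) (XT.lf (nat_lit 0) (nat_lit 38348674414) (nat_lit 76) (nat_lit 13806568694) (nat_lit 152) (nat_lit 27397726978) (nat_lit 8) (nat_lit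 5) (nat_lit 9) (nat_lit 5) (nat_lit 10) (nat_lit 4) (nat_lit 320) (nat_lit 247) (nat_lit 153)) (XT.nd (nat_lit 78) (nat_lit 0) (nat_lit 0) (XT.lf (nat_lit 0) (nat_lit 57133212131) (nat_lit 76) (nat_lit 4291806298) (nat_lit 152) (nat_lit 21793520639) (nat_lit 8) (nat_lit 5) (nat_lit 9) (nat_lit 5) (nat_lit 10) (nat_lit 4) (nat_lit 321) (nat_lit 247) (nat_lit 152)) (XT.lf (nat_lit 0) (nat_lit 71203705550) (nat_lit 152) (nat_lit 10281056680) (nat_lit 0) (nat_lit 5581273531) (nat_lit 8) (nat_lit 5) (nat_lit 10) (nat_lit 4) (nat_lit 8) (nat_lit 4) (nat_lit 322) (nat_lit 247) (nat_lit 151))))) (XT.nd (nat_lit 156) (nat_lit 76) (nat_lit 0) (XT.nd (nat_lit 78) (nat_lit 0) (nat_lit 0) (XT.lf (nat_lit 0) (nat_lit 6379483572) (nat_lit 76) (nat_lit 75187574432) (nat_lit 76) (nat_lit 9535988739) (nat_lit 7) (nat_lit 4) (nat_lit 8) (nat_lit 5) (nat_lit 8) (nat_lit 4) (nat_lit 323) (nat_lit 247) (nat_lit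 150)) (XT.lf (nat_lit 0) (nat_lit 24073215886) (nat_lit 76) (nat_lit 68472569061) (nat_lit 76) (nat_lit 2793217963) (nat_lit 7) (nat_lit 4) (nat_lit 8) (nat_lit 5) (nat_lit 8) (nat_lit 4) (nat_lit 324) (nat_lit 247) (nat_lit 149))) (XT.nd (nat_lit 78) (nat_lit 0) (nat_lit 0) (XT.lf (nat_lit 0) (nat_lit 4194734378) (nat_lit 152) (nat_lit 57190483551) (nat_lit 76) (nat_lit 38400562038) (nat_lit 6) (nat_lit 5) (nat_lit 8) (nat_lit 5) (nat_lit 7) (nat_lit 4) (nat_lit 325) (nat_lit 247) (nat_lit 148)) (XT.nd (nat_lit 78) (nat_lit 0) (nat_lit 0) (XT.lf (nat_lit 0) (nat_lit 11466940751) (nat_lit 152) (nat_lit 42453088654) (nat_lit 76) (nat_lit 50534267616) (nat_lit 6) (nat_lit 5) (nat_lit 8) (nat_lit 5) (nat_lit 7) (nat_lit 4) (nat_lit 326) (nat_lit 247) (nat_lit 147)) (XT.lf (nat_lit 0) (nat_lit 19095221675) (nat_lit 152) (nat_lit 26991663179) (nat_lit 76) (nat_lit 63269590241) (nat_lit 6) (nat_lit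 5) (nat_lit 8) (nat_lit 5) (nat_lit 7) (nat_lit 4) (nat_lit 327) (nat_lit 247) (nat_lit 146)))))) (XT.nd (nat_lit 390) (nat_lit 760) (nat_lit 0) (XT.nd (nat_lit 156) (nat_lit 684) (nat_lit 0) (XT.nd (nat_lit 78) (nat_lit 0) (nat_lit 0) (XT.lf (nat_lit 0) (nat_lit 128585081) (nat_lit 0) (nat_lit 128585081) (nat_lit 684) (nat_lit 3353841780) (nat_lit 194) (nat_lit 5) (nat_lit 194) (nat_lit 3) (nat_lit 203) (nat_lit 3) (nat_lit 248) (nat_lit 248) (nat_lit 224)) (XT.lf (nat_lit 0) (nat_lit 2910162691) (nat_lit 684) (nat_lit 2040486040) (nat_lit 760) (nat_lit 2371413359) (nat_lit 194) (nat_lit 5) (nat_lit 203) (nat_lit 3) (nat_lit 204) (nat_lit 5) (nat_lit 249) (nat_lit 248) (nat_lit 223))) (XT.nd (nat_lit 78) (nat_lit 684) (nat_lit 0) (XT.lf (nat_lit 76) (nat_lit 3106767818) (nat_lit 0) (nat_lit 2201142976) (nat_lit 760) (nat_lit 2123304991) (nat_lit 195) (nat_lit 5) (nat_lit 194) (nat_lit 5)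 (nat_lit 204) (nat_lit 5) (nat_lit 250) (nat_lit 248) (nat_lit 222)) (XT.nd (nat_lit 78) (nat_lit 0) (nat_lit 0) (XT.lf (nat_lit 0) (nat_lit 166165086) (nat_lit 760) (nat_lit 6615434685) (nat_lit 836) (nat_lit 767923685) (nat_lit 185) (nat_lit 5) (nat_lit 195) (nat_lit 5) (nat_lit 196) (nat_lit 5) (nat_lit 251) (nat_lit 248) (nat_lit 221)) (XT.lf (nat_lit 0) (nat_lit 2454636759) (nat_lit 760) (nat_lit 1255954267) (nat_lit 836) (nat_lit 3965180216) (nat_lit 185) (nat_lit 5) (nat_lit 195) (nat_lit 5) (nat_lit 196) (nat_lit 5) (nat_lit 252) (nat_lit 248) (nat_lit 220))))) (XT.nd (nat_lit 156) (nat_lit 760) (nat_lit 0) (XT.nd (nat_lit 78) (nat_lit 0) (nat_lit 76) (XT.lf (nat_lit 76) (nat_lit 4375573481) (nat_lit 0) (nat_lit 391504254) (nat_lit 836) (nat_lit 3044451744) (nat_lit 186) (nat_lit 5) (nat_lit 185) (nat_lit 5) (nat_lit 196) (nat_lit 5) (nat_lit 253) (nat_lit 248) (nat_lit 219)) (XT.lf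 (nat_lit 76) (nat_lit 2292392771) (nat_lit 0) (nat_lit 4841075120) (nat_lit 836) (nat_lit 822919286) (nat_lit 187) (nat_lit 5) (nat_lit 186) (nat_lit 5) (nat_lit 197) (nat_lit 5) (nat_lit 254) (nat_lit 248) (nat_lit 218))) (XT.nd (nat_lit 78) (nat_lit 0) (nat_lit 76) (XT.lf (nat_lit 76) (nat_lit 171890561) (nat_lit 0) (nat_lit 1226772182) (nat_lit 912) (nat_lit 6712263280) (nat_lit 176) (nat_lit 5) (nat_lit 175) (nat_lit 5) (nat_lit 187) (nat_lit 5) (nat_lit 255) (nat_lit 248) (nat_lit 217)) (XT.nd (nat_lit 78) (nat_lit 0) (nat_lit 0) (XT.lf (nat_lit 0) (nat_lit 3680554298) (nat_lit 836) (nat_lit 1973140864) (nat_lit 912) (nat_lit 2620671012) (nat_lit 176) (nat_lit 5) (nat_lit 187) (nat_lit 5) (nat_lit 188) (nat_lit 5) (nat_lit 256) (nat_lit 248) (nat_lit 216)) (XT.lf (nat_lit 76) (nat_lit 4280228973) (nat_lit 0) (nat_lit 1737952777) (nat_lit 912) (nat_lit 2429934277) (nat_lit 177) (nat_lit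 5) (nat_lit 176) (nat_lit 5) (nat_lit 188) (nat_lit 5) (nat_lit 257) (nat_lit 248) (nat_lit 215))))))) (XT.nd (nat_lit 780) (nat_lit 2736) (nat_lit 0) (XT.nd (nat_lit 390) (nat_lit 2128) (nat_lit 0) (XT.nd (nat_lit 156) (nat_lit 2052) (nat_lit 0) (XT.nd (nat_lit 78) (nat_lit 988) (nat_lit 0) (XT.lf (nat_lit 0) (nat_lit 2193884062) (nat_lit 836) (nat_lit 6236168593) (nat_lit 912) (nat_lit 202148365) (nat_lit 166) (nat_lit 5) (nat_lit 177) (nat_lit 5) (nat_lit 178) (nat_lit 5) (nat_lit 258) (nat_lit 248) (nat_lit 214)) (XT.lf (nat_lit 0) (nat_lit 14934578) (nat_lit 912) (nat_lit 2037307101) (nat_lit 988) (nat_lit 6774265574) (nat_lit 153) (nat_lit 5) (nat_lit 165) (nat_lit 5) (nat_lit 166) (nat_lit 5) (nat_lit 259) (nat_lit 248) (nat_lit 213))) (XT.nd (nat_lit 78) (nat_lit 2052) (nat_lit 0) (XT.lf (nat_lit 0) (nat_lit 4405198479) (nat_lit 988) (nat_lit 2213238048) (nat_lit 76) (nat_lit 2412655903)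 (nat_lit 153) (nat_lit 5) (nat_lit 166) (nat_lit 5) (nat_lit 154) (nat_lit 5) (nat_lit 260) (nat_lit 248) (nat_lit 212)) (XT.nd (nat_lit 78) (nat_lit 1064) (nat_lit 0) (XT.lf (nat_lit 0) (nat_lit 4705708637) (nat_lit 988) (nat_lit 2140901037) (nat_lit 1064) (nat_lit 2400482055) (nat_lit 140) (nat_lit 5) (nat_lit 153) (nat_lit 5) (nat_lit 154) (nat_lit 5) (nat_lit 261) (nat_lit 248) (nat_lit 211)) (XT.lf (nat_lit 0) (nat_lit 2485902405) (nat_lit 1064) (nat_lit 6904612226) (nat_lit 1140) (nat_lit 84258010) (nat_lit 126) (nat_lit 5) (nat_lit 140) (nat_lit 5) (nat_lit 141) (nat_lit 5) (nat_lit 262) (nat_lit 248) (nat_lit 210))))) (XT.nd (nat_lit 156) (nat_lit 1520) (nat_lit 0) (XT.nd (nat_lit 78) (nat_lit 0) (nat_lit 0) (XT.lf (nat_lit 0) (nat_lit 123676202) (nat_lit 532) (nat_lit 2159638732) (nat_lit 608) (nat_lit 7430677241) (nat_lit 118) (nat_lit 5) (nat_lit 125) (nat_lit 5) (nat_lit 126)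 (nat_lit 5) (nat_lit 263) (nat_lit 248) (nat_lit 209)) (XT.lf (nat_lit 0) (nat_lit 4782196521) (nat_lit 608) (nat_lit 2335480132) (nat_lit 76) (nat_lit 2847290030) (nat_lit 118) (nat_lit 5) (nat_lit 126) (nat_lit 5) (nat_lit 119) (nat_lit 5) (nat_lit 264) (nat_lit 248) (nat_lit 208))) (XT.nd (nat_lit 78) (nat_lit 1064) (nat_lit 0) (XT.lf (nat_lit 0) (nat_lit 5285663587) (nat_lit 456) (nat_lit 2111886731) (nat_lit 532) (nat_lit 2831440614) (nat_lit 112) (nat_lit 5) (nat_lit 118) (nat_lit 5) (nat_lit 119) (nat_lit 5) (nat_lit 265) (nat_lit 248) (nat_lit 207)) (XT.nd (nat_lit 78) (nat_lit 532) (nat_lit 0) (XT.lf (nat_lit 0) (nat_lit 2776751057) (nat_lit 532) (nat_lit 7370195257) (nat_lit 608) (nat_lit 359406949) (nat_lit 105) (nat_lit 5) (nat_lit 112) (nat_lit 5) (nat_lit 113) (nat_lit 5) (nat_lit 266) (nat_lit 248) (nat_lit 206)) (XT.lf (nat_lit 0) (nat_lit 70504073) (nat_lit 456) (nat_lit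 2119570376) (nat_lit 532) (nat_lit 8607157282) (nat_lit 98) (nat_lit 5) (nat_lit 104) (nat_lit 5) (nat_lit 105) (nat_lit 5) (nat_lit 267) (nat_lit 248) (nat_lit 205)))))) (XT.nd (nat_lit 390) (nat_lit 1444) (nat_lit 0) (XT.nd (nat_lit 156) (nat_lit 836) (nat_lit 0) (XT.nd (nat_lit 78) (nat_lit 456) (nat_lit 0) (XT.lf (nat_lit 0) (nat_lit 4899609248) (nat_lit 532) (nat_lit 2792944449) (nat_lit 76) (nat_lit 3409000334) (nat_lit 98) (nat_lit 5) (nat_lit 105) (nat_lit 5) (nat_lit 99) (nat_lit 5) (nat_lit 268) (nat_lit 248) (nat_lit 204)) (XT.lf (nat_lit 0) (nat_lit 5550363683) (nat_lit 456) (nat_lit 2199446642) (nat_lit 532) (nat_lit 3671323611) (nat_lit 92) (nat_lit 5) (nat_lit 98) (nat_lit 5) (nat_lit 99) (nat_lit 5) (nat_lit 269) (nat_lit 248) (nat_lit 203))) (XT.nd (nat_lit 78) (nat_lit 456) (nat_lit 0) (XT.lf (nat_lit 0) (nat_lit 2554531154) (nat_lit 380) (nat_lit 8208897461) (nat_lit 456)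 (nat_lit 992824794) (nat_lit 87) (nat_lit 5) (nat_lit 92) (nat_lit 5) (nat_lit 93) (nat_lit 5) (nat_lit 270) (nat_lit 248) (nat_lit 202)) (XT.nd (nat_lit 78) (nat_lit 380) (nat_lit 0) (XT.lf (nat_lit 0) (nat_lit 1802023406) (nat_lit 456) (nat_lit 696277172) (nat_lit 76) (nat_lit 9608939240) (nat_lit 86) (nat_lit 5) (nat_lit 92) (nat_lit 5) (nat_lit 87) (nat_lit 5) (nat_lit 271) (nat_lit 248) (nat_lit 201)) (XT.lf (nat_lit 0) (nat_lit 4768465502) (nat_lit 456) (nat_lit 4192791950) (nat_lit 76) (nat_lit 3512817026) (nat_lit 81) (nat_lit 5) (nat_lit 87) (nat_lit 5) (nat_lit 82) (nat_lit 5) (nat_lit 272) (nat_lit 248) (nat_lit 200))))) (XT.nd (nat_lit 234) (nat_lit 608) (nat_lit 0) (XT.nd (nat_lit 78) (nat_lit 456) (nat_lit 0) (XT.lf (nat_lit 0) (nat_lit 4863017248) (nat_lit 380) (nat_lit 3039452655) (nat_lit 456) (nat_lit 4956361254) (nat_lit 76) (nat_lit 5) (nat_lit 81) (nat_lit 5) (nat_lit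 82) (nat_lit 5) (nat_lit 273) (nat_lit 248) (nat_lit 199)) (XT.nd (nat_lit 78) (nat_lit 76) (nat_lit 0) (XT.lf (nat_lit 0) (nat_lit 1118947568) (nat_lit 380) (nat_lit 10101270492) (nat_lit 456) (nat_lit 2041946298) (nat_lit 71) (nat_lit 5) (nat_lit 76) (nat_lit 5) (nat_lit 77) (nat_lit 5) (nat_lit 274) (nat_lit 248) (nat_lit 198)) (XT.lf (nat_lit 0) (nat_lit 1055682523) (nat_lit 456) (nat_lit 2936815526) (nat_lit 76) (nat_lit 9691290387) (nat_lit 70) (nat_lit 5) (nat_lit 76) (nat_lit 5) (nat_lit 71) (nat_lit 5) (nat_lit 275) (nat_lit 248) (nat_lit 197)))) (XT.nd (nat_lit 78) (nat_lit 304) (nat_lit 0) (XT.lf (nat_lit 0) (nat_lit 4301749777) (nat_lit 380) (nat_lit 7373758136) (nat_lit 76) (nat_lit 2449437744) (nat_lit 66) (nat_lit 5) (nat_lit 71) (nat_lit 5) (nat_lit 67) (nat_lit 5) (nat_lit 276) (nat_lit 248) (nat_lit 196)) (XT.nd (nat_lit 78) (nat_lit 0) (nat_lit 0) (XT.lf (nat_lit 0) (nat_lit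 2337441338) (nat_lit 304) (nat_lit 5414055793) (nat_lit 380) (nat_lit 6835548101) (nat_lit 62) (nat_lit 5) (nat_lit 66) (nat_lit 5) (nat_lit 67) (nat_lit 5) (nat_lit 277) (nat_lit 248) (nat_lit 195)) (XT.lf (nat_lit 0) (nat_lit 11411358714) (nat_lit 380) (nat_lit 2458492268) (nat_lit 76) (nat_lit 1201389805) (nat_lit 62) (nat_lit 5) (nat_lit 67) (nat_lit 5) (nat_lit 63) (nat_lit 5) (nat_lit 278) (nat_lit 248) (nat_lit 194))))))))
noncomputable def xc67 : XT := (XT.nd (nat_lit 1638) (nat_lit 1064) (nat_lit 0) (XT.nd (nat_lit 780) (nat_lit 1064) (nat_lit 0) (XT.nd (nat_lit 390) (nat_lit 760) (nat_lit 0) (XT.nd (nat_lit 156) (nat_lit 532) (nat_lit 0) (XT.nd (nat_lit 78) (nat_lit 380) (nat_lit 0) (XT.lf (nat_lit 0) (nat_lit 7859075450) (nat_lit 304) (nat_lit 7477533200) (nat_lit 380) (nat_lit 240679712) (nat_lit 58) (nat_lit 5) (nat_lit 62) (nat_lit 5) (nat_lit 63) (nat_lit 5) (nat_lit 279)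 (nat_lit 248) (nat_lit 193)) (XT.lf (nat_lit 0) (nat_lit 2593095252) (nat_lit 304) (nat_lit 694851606) (nat_lit 380) (nat_lit 12819716305) (nat_lit 53) (nat_lit 5) (nat_lit 57) (nat_lit 5) (nat_lit 58) (nat_lit 5) (nat_lit 280) (nat_lit 248) (nat_lit 192))) (XT.nd (nat_lit 78) (nat_lit 532) (nat_lit 0) (XT.lf (nat_lit 0) (nat_lit 7084945776) (nat_lit 380) (nat_lit 3206549848) (nat_lit 76) (nat_lit 6370182510) (nat_lit 53) (nat_lit 5) (nat_lit 58) (nat_lit 5) (nat_lit 54) (nat_lit 5) (nat_lit 281) (nat_lit 248) (nat_lit 191)) (XT.nd (nat_lit 78) (nat_lit 304) (nat_lit 0) (XT.lf (nat_lit 0) (nat_lit 7702407352) (nat_lit 228) (nat_lit 3407444286) (nat_lit 304) (nat_lit 6132496199) (nat_lit 50) (nat_lit 5) (nat_lit 53) (nat_lit 5) (nat_lit 54) (nat_lit 5) (nat_lit 282) (nat_lit 248) (nat_lit 190)) (XT.lf (nat_lit 0) (nat_lit 1303857122) (nat_lit 304) (nat_lit 14073113796) (nat_lit 380) (nat_lit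 2473942201) (nat_lit 46) (nat_lit 5) (nat_lit 50) (nat_lit 5) (nat_lit 51) (nat_lit 5) (nat_lit 283) (nat_lit 248) (nat_lit 189))))) (XT.nd (nat_lit 156) (nat_lit 456) (nat_lit 0) (XT.nd (nat_lit 78) (nat_lit 228) (nat_lit 0) (XT.lf (nat_lit 0) (nat_lit 1433759369) (nat_lit 380) (nat_lit 5702810825) (nat_lit 76) (nat_lit 11350239205) (nat_lit 45) (nat_lit 5) (nat_lit 50) (nat_lit 5) (nat_lit 46) (nat_lit 5) (nat_lit 284) (nat_lit 248) (nat_lit 188)) (XT.lf (nat_lit 0) (nat_lit 5504435199) (nat_lit 304) (nat_lit 13439027566) (nat_lit 76) (nat_lit 209820528) (nat_lit 42) (nat_lit 5) (nat_lit 46) (nat_lit 5) (nat_lit 43) (nat_lit 5) (nat_lit 285) (nat_lit 248) (nat_lit 187))) (XT.nd (nat_lit 78) (nat_lit 456) (nat_lit 0) (XT.lf (nat_lit 0) (nat_lit 9872432709) (nat_lit 304) (nat_lit 2155944615) (nat_lit 76) (nat_lit 7821966354) (nat_lit 42) (nat_lit 5) (nat_lit 46) (nat_lit 5) (nat_lit 43)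 (nat_lit 5) (nat_lit 286) (nat_lit 248) (nat_lit 186)) (XT.nd (nat_lit 78) (nat_lit 228) (nat_lit 0) (XT.lf (nat_lit 0) (nat_lit 9832337658) (nat_lit 228) (nat_lit 4685264127) (nat_lit 304) (nat_lit 6062964942) (nat_lit 39) (nat_lit 5) (nat_lit 42) (nat_lit 5) (nat_lit 43) (nat_lit 5) (nat_lit 287) (nat_lit 248) (nat_lit 185)) (XT.lf (nat_lit 0) (nat_lit 1059504140) (nat_lit 228) (nat_lit 18362543319) (nat_lit 304) (nat_lit 1924512254) (nat_lit 36) (nat_lit 5) (nat_lit 39) (nat_lit 5) (nat_lit 40) (nat_lit 5) (nat_lit 288) (nat_lit 248) (nat_lit 184)))))) (XT.nd (nat_lit 390) (nat_lit 608) (nat_lit 0) (XT.nd (nat_lit 156) (nat_lit 152) (nat_lit 0) (XT.nd (nat_lit 78) (nat_lit 228) (nat_lit 0) (XT.lf (nat_lit 0) (nat_lit 2498778188) (nat_lit 304) (nat_lit 8586578664) (nat_lit 76) (nat_lit 11061106830) (nat_lit 35) (nat_lit 5) (nat_lit 39) (nat_lit 5) (nat_lit 36) (nat_lit 5) (nat_lit 289)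 (nat_lit 248) (nat_lit 183)) (XT.lf (nat_lit 0) (nat_lit 3704528887) (nat_lit 228) (nat_lit 3402621977) (nat_lit 304) (nat_lit 15878589811) (nat_lit 32) (nat_lit 5) (nat_lit 35) (nat_lit 5) (nat_lit 36) (nat_lit 5) (nat_lit 290) (nat_lit 248) (nat_lit 182))) (XT.nd (nat_lit 78) (nat_lit 152) (nat_lit 0) (XT.lf (nat_lit 0) (nat_lit 12048736906) (nat_lit 304) (nat_lit 7167168673) (nat_lit 76) (nat_lit 4648050239) (nat_lit 32) (nat_lit 5) (nat_lit 36) (nat_lit 5) (nat_lit 33) (nat_lit 5) (nat_lit 291) (nat_lit 248) (nat_lit 181)) (XT.nd (nat_lit 78) (nat_lit 0) (nat_lit 0) (XT.lf (nat_lit 0) (nat_lit 5582642798) (nat_lit 152) (nat_lit 11712950242) (nat_lit 228) (nat_lit 7488798331) (nat_lit 30) (nat_lit 5) (nat_lit 32) (nat_lit 5) (nat_lit 33) (nat_lit 5) (nat_lit 292) (nat_lit 248) (nat_lit 180)) (XT.lf (nat_lit 0) (nat_lit 19076466192) (nat_lit 152) (nat_lit 3773293065) (nat_lit 228) (nat_lit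 2899793166) (nat_lit 30) (nat_lit 5) (nat_lit 32) (nat_lit 5) (nat_lit 33) (nat_lit 5) (nat_lit 293) (nat_lit 248) (nat_lit 179))))) (XT.nd (nat_lit 234) (nat_lit 152) (nat_lit 0) (XT.nd (nat_lit 78) (nat_lit 152) (nat_lit 0) (XT.lf (nat_lit 0) (nat_lit 1960956245) (nat_lit 304) (nat_lit 20256369167) (nat_lit 76) (nat_lit 4542749557) (nat_lit 26) (nat_lit 5) (nat_lit 30) (nat_lit 5) (nat_lit 27) (nat_lit 5) (nat_lit 294) (nat_lit 248) (nat_lit 178)) (XT.nd (nat_lit 78) (nat_lit 152) (nat_lit 0) (XT.lf (nat_lit 0) (nat_lit 7085824981) (nat_lit 304) (nat_lit 7449624827) (nat_lit 76) (nat_lit 13282427333) (nat_lit 26) (nat_lit 5) (nat_lit 30) (nat_lit 5) (nat_lit 27) (nat_lit 5) (nat_lit 295) (nat_lit 248) (nat_lit 177)) (XT.lf (nat_lit 0) (nat_lit 6076688045) (nat_lit 152) (nat_lit 6422983953) (nat_lit 228) (nat_lit 16427959606) (nat_lit 24) (nat_lit 5) (nat_lit 26) (nat_lit 5) (nat_lit 27)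 (nat_lit 5) (nat_lit 296) (nat_lit 248) (nat_lit 176)))) (XT.nd (nat_lit 78) (nat_lit 152) (nat_lit 0) (XT.lf (nat_lit 0) (nat_lit 18256846003) (nat_lit 228) (nat_lit 9715356994) (nat_lit 76) (nat_lit 2118533880) (nat_lit 24) (nat_lit 5) (nat_lit 27) (nat_lit 5) (nat_lit 25) (nat_lit 5) (nat_lit 297) (nat_lit 248) (nat_lit 175)) (XT.nd (nat_lit 78) (nat_lit 0) (nat_lit 0) (XT.lf (nat_lit 0) (nat_lit 4054267898) (nat_lit 152) (nat_lit 20327648415) (nat_lit 228) (nat_lit 6927720091) (nat_lit 22) (nat_lit 5) (nat_lit 24) (nat_lit 5) (nat_lit 25) (nat_lit 5) (nat_lit 298) (nat_lit 248) (nat_lit 174)) (XT.lf (nat_lit 0) (nat_lit 18679432118) (nat_lit 152) (nat_lit 12210841689) (nat_lit 228) (nat_lit 1696934297) (nat_lit 22) (nat_lit 5) (nat_lit 24) (nat_lit 5) (nat_lit 25) (nat_lit 5) (nat_lit 299) (nat_lit 248) (nat_lit 173))))))) (XT.nd (nat_lit 780) (nat_lit 380) (nat_lit 0) (XT.nd (nat_lit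 390) (nat_lit 304) (nat_lit 0) (XT.nd (nat_lit 156) (nat_lit 152) (nat_lit 0) (XT.nd (nat_lit 78) (nat_lit 0) (nat_lit 0) (XT.lf (nat_lit 0) (nat_lit 36701124) (nat_lit 152) (nat_lit 3662845168) (nat_lit 228) (nat_lit 30228706401) (nat_lit 19) (nat_lit 5) (nat_lit 21) (nat_lit 5) (nat_lit 22) (nat_lit 5) (nat_lit 300) (nat_lit 248) (nat_lit 172)) (XT.lf (nat_lit 0) (nat_lit 9505211016) (nat_lit 228) (nat_lit 20466922785) (nat_lit 76) (nat_lit 5358511657) (nat_lit 19) (nat_lit 5) (nat_lit 22) (nat_lit 5) (nat_lit 20) (nat_lit 5) (nat_lit 301) (nat_lit 248) (nat_lit 171))) (XT.nd (nat_lit 78) (nat_lit 152) (nat_lit 0) (XT.lf (nat_lit 0) (nat_lit 15617629711) (nat_lit 228) (nat_lit 6440689170) (nat_lit 76) (nat_lit 14744376902) (nat_lit 19) (nat_lit 5) (nat_lit 22) (nat_lit 5) (nat_lit 20) (nat_lit 5) (nat_lit 302) (nat_lit 248) (nat_lit 170)) (XT.nd (nat_lit 78) (nat_lit 0) (nat_lit 0) (XT.lf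 (nat_lit 0) (nat_lit 8420060279) (nat_lit 152) (nat_lit 13677024736) (nat_lit 228) (nat_lit 16249451658) (nat_lit 17) (nat_lit 5) (nat_lit 19) (nat_lit 5) (nat_lit 20) (nat_lit 5) (nat_lit 303) (nat_lit 248) (nat_lit 169)) (XT.lf (nat_lit 0) (nat_lit 24128228633) (nat_lit 152) (nat_lit 4819701842) (nat_lit 228) (nat_lit 11018245674) (nat_lit 17) (nat_lit 5) (nat_lit 19) (nat_lit 5) (nat_lit 20) (nat_lit 5) (nat_lit 304) (nat_lit 248) (nat_lit 168))))) (XT.nd (nat_lit 156) (nat_lit 152) (nat_lit 0) (XT.nd (nat_lit 78) (nat_lit 152) (nat_lit 0) (XT.lf (nat_lit 0) (nat_lit 36166299112) (nat_lit 228) (nat_lit 1117296364) (nat_lit 76) (nat_lit 4382480378) (nat_lit 17) (nat_lit 5) (nat_lit 20) (nat_lit 5) (nat_lit 18) (nat_lit 4) (nat_lit 305) (nat_lit 248) (nat_lit 167)) (XT.lf (nat_lit 0) (nat_lit 461788155) (nat_lit 152) (nat_lit 28903628965) (nat_lit 76) (nat_lit 14080306413) (nat_lit 15)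 (nat_lit 5) (nat_lit 17) (nat_lit 5) (nat_lit 16) (nat_lit 5) (nat_lit 306) (nat_lit 248) (nat_lit 166))) (XT.nd (nat_lit 78) (nat_lit 152) (nat_lit 0) (XT.lf (nat_lit 0) (nat_lit 6603504071) (nat_lit 152) (nat_lit 14389234330) (nat_lit 76) (nat_lit 24320131475) (nat_lit 15) (nat_lit 5) (nat_lit 17) (nat_lit 5) (nat_lit 16) (nat_lit 5) (nat_lit 307) (nat_lit 248) (nat_lit 165)) (XT.nd (nat_lit 78) (nat_lit 0) (nat_lit 0) (XT.lf (nat_lit 0) (nat_lit 841195183) (nat_lit 152) (nat_lit 12203143150) (nat_lit 228) (nat_lit 34229297442) (nat_lit 13) (nat_lit 5) (nat_lit 15) (nat_lit 5) (nat_lit 16) (nat_lit 5) (nat_lit 308) (nat_lit 248) (nat_lit 164)) (XT.lf (nat_lit 0) (nat_lit 17108487388) (nat_lit 152) (nat_lit 2831318622) (nat_lit 228) (nat_lit 29388678319) (nat_lit 13) (nat_lit 5) (nat_lit 15) (nat_lit 5) (nat_lit 16) (nat_lit 5) (nat_lit 309) (nat_lit 248) (nat_lit 163)))))) (XT.nd (nat_lit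 390) (nat_lit 304) (nat_lit 0) (XT.nd (nat_lit 156) (nat_lit 76) (nat_lit 0) (XT.nd (nat_lit 78) (nat_lit 0) (nat_lit 0) (XT.lf (nat_lit 0) (nat_lit 27232539795) (nat_lit 228) (nat_lit 17388826047) (nat_lit 76) (nat_lit 6863155743) (nat_lit 13) (nat_lit 5) (nat_lit 16) (nat_lit 5) (nat_lit 14) (nat_lit 4) (nat_lit 310) (nat_lit 248) (nat_lit 162)) (XT.lf (nat_lit 0) (nat_lit 34904313164) (nat_lit 228) (nat_lit 1868025421) (nat_lit 76) (nat_lit 16975610086) (nat_lit 13) (nat_lit 5) (nat_lit 16) (nat_lit 5) (nat_lit 14) (nat_lit 4) (nat_lit 311) (nat_lit 248) (nat_lit 161))) (XT.nd (nat_lit 78) (nat_lit 0) (nat_lit 0) (XT.lf (nat_lit 0) (nat_lit 14693294691) (nat_lit 76) (nat_lit 28394122124) (nat_lit 152) (nat_lit 13033317148) (nat_lit 12) (nat_lit 5) (nat_lit 13) (nat_lit 5) (nat_lit 14) (nat_lit 4) (nat_lit 312) (nat_lit 248) (nat_lit 160)) (XT.nd (nat_lit 78) (nat_lit 0) (nat_lit 0) (XT.lf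 (nat_lit 0) (nat_lit 32100114895) (nat_lit 76) (nat_lit 19585726275) (nat_lit 152) (nat_lit 6926150573) (nat_lit 12) (nat_lit 5) (nat_lit 13) (nat_lit 5) (nat_lit 14) (nat_lit 4) (nat_lit 313) (nat_lit 248) (nat_lit 159)) (XT.lf (nat_lit 0) (nat_lit 50356702631) (nat_lit 76) (nat_lit 10345042062) (nat_lit 152) (nat_lit 526458304) (nat_lit 12) (nat_lit 5) (nat_lit 13) (nat_lit 5) (nat_lit 14) (nat_lit 4) (nat_lit 314) (nat_lit 248) (nat_lit 158))))) (XT.nd (nat_lit 234) (nat_lit 76) (nat_lit 0) (XT.nd (nat_lit 78) (nat_lit 0) (nat_lit 0) (XT.lf (nat_lit 0) (nat_lit 5580407490) (nat_lit 152) (nat_lit 533618306) (nat_lit 228) (nat_lit 57858179270) (nat_lit 9) (nat_lit 5) (nat_lit 11) (nat_lit 5) (nat_lit 12) (nat_lit 5) (nat_lit 315) (nat_lit 248) (nat_lit 157)) (XT.nd (nat_lit 78) (nat_lit 0) (nat_lit 0) (XT.lf (nat_lit 0) (nat_lit 13270995899) (nat_lit 228) (nat_lit 43887846762) (nat_lit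 76) (nat_lit 9688562966) (nat_lit 9) (nat_lit 5) (nat_lit 12) (nat_lit 5) (nat_lit 10) (nat_lit 4) (nat_lit 316) (nat_lit 248) (nat_lit 156)) (XT.lf (nat_lit 0) (nat_lit 20780084623) (nat_lit 228) (nat_lit 28682721198) (nat_lit 76) (nat_lit 20403746821) (nat_lit 9) (nat_lit 5) (nat_lit 12) (nat_lit 5) (nat_lit 10) (nat_lit 4) (nat_lit 317) (nat_lit 248) (nat_lit 155)))) (XT.nd (nat_lit 78) (nat_lit 76) (nat_lit 0) (XT.lf (nat_lit 0) (nat_lit 28654041287) (nat_lit 228) (nat_lit 12735088738) (nat_lit 76) (nat_lit 31647858414) (nat_lit 9) (nat_lit 5) (nat_lit 12) (nat_lit 5) (nat_lit 10) (nat_lit 4) (nat_lit 318) (nat_lit 248) (nat_lit 154)) (XT.nd (nat_lit 78) (nat_lit 0) (nat_lit 0) (XT.lf (nat_lit 0) (nat_lit 4072490122) (nat_lit 76) (nat_lit 32878270551) (nat_lit 152) (nat_lit 39414326585) (nat_lit 8) (nat_lit 5) (nat_lit 9) (nat_lit 5) (nat_lit 10) (nat_lit 4) (nat_lit 319) (nat_lit 248)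 (nat_lit 153)) (XT.lf (nat_lit 0) (nat_lit 21970154204) (nat_lit 76) (nat_lit 23813498225) (nat_lit 152) (nat_lit 34072311046) (nat_lit 8) (nat_lit 5) (nat_lit 9) (nat_lit 5) (nat_lit 10) (nat_lit 4) (nat_lit 320) (nat_lit 248) (nat_lit 152))))))))
noncomputable def xc68 : XT := (XT.nd (nat_lit 32916) (nat_lit 0) (nat_lit 3572) (XT.nd (nat_lit 32136) (nat_lit 0) (nat_lit 10184) (XT.nd (nat_lit 390) (nat_lit 76) (nat_lit 0) (XT.nd (nat_lit 156) (nat_lit 76) (nat_lit 0) (XT.nd (nat_lit 78) (nat_lit 0) (nat_lit 0) (XT.lf (nat_lit 0) (nat_lit 40747063759) (nat_lit 76) (nat_lit 14301829682) (nat_lit 152) (nat_lit 28472780876) (nat_lit 8) (nat_lit 5) (nat_lit 9) (nat_lit 5) (nat_lit 10) (nat_lit 4) (nat_lit 321) (nat_lit 248) (nat_lit 151)) (XT.lf (nat_lit 0) (nat_lit 60447925712) (nat_lit 76) (nat_lit 4320618092) (nat_lit 152) (nat_lit 22602403861) (nat_lit 8) (nat_lit 5) (nat_lit 9) (nat_lit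 5) (nat_lit 10) (nat_lit 4) (nat_lit 322) (nat_lit 248) (nat_lit 150))) (XT.nd (nat_lit 78) (nat_lit 76) (nat_lit 0) (XT.lf (nat_lit 0) (nat_lit 75024900610) (nat_lit 152) (nat_lit 10352456644) (nat_lit 0) (nat_lit 6033816553) (nat_lit 8) (nat_lit 5) (nat_lit 10) (nat_lit 4) (nat_lit 8) (nat_lit 4) (nat_lit 323) (nat_lit 248) (nat_lit 149)) (XT.nd (nat_lit 78) (nat_lit 0) (nat_lit 0) (XT.lf (nat_lit 0) (nat_lit 7128422065) (nat_lit 76) (nat_lit 78769702664) (nat_lit 76) (nat_lit 9752175365) (nat_lit 7) (nat_lit 4) (nat_lit 8) (nat_lit 5) (nat_lit 8) (nat_lit 4) (nat_lit 324) (nat_lit 248) (nat_lit 148)) (XT.lf (nat_lit 0) (nat_lit 25686366504) (nat_lit 76) (nat_lit 71727387524) (nat_lit 76) (nat_lit 2684676185) (nat_lit 7) (nat_lit 4) (nat_lit 8) (nat_lit 5) (nat_lit 8) (nat_lit 4) (nat_lit 325) (nat_lit 248) (nat_lit 147))))) (XT.nd (nat_lit 31512) (nat_lit 0) (nat_lit 13528) (XT.nd (nat_lit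 78) (nat_lit 0) (nat_lit 0) (XT.lf (nat_lit 0) (nat_lit 4636241905) (nat_lit 152) (nat_lit 59655125071) (nat_lit 76) (nat_lit 40476469209) (nat_lit 6) (nat_lit 5) (nat_lit 8) (nat_lit 5) (nat_lit 7) (nat_lit 4) (nat_lit 326) (nat_lit 248) (nat_lit 146)) (XT.lf (nat_lit 0) (nat_lit 12261021891) (nat_lit 152) (nat_lit 44199664365) (nat_lit 76) (nat_lit 53209437253) (nat_lit 6) (nat_lit 5) (nat_lit 8) (nat_lit 5) (nat_lit 7) (nat_lit 4) (nat_lit 327) (nat_lit 248) (nat_lit 145))) (XT.nd (nat_lit 78) (nat_lit 760) (nat_lit 0) (XT.lf (nat_lit 0) (nat_lit 1296450809) (nat_lit 0) (nat_lit 1296450809) (nat_lit 684) (nat_lit 1120092139) (nat_lit 194) (nat_lit 5) (nat_lit 194) (nat_lit 3) (nat_lit 203) (nat_lit 3) (nat_lit 249) (nat_lit 249) (nat_lit 222)) (XT.nd (nat_lit 78) (nat_lit 760) (nat_lit 0) (XT.lf (nat_lit 76) (nat_lit 245459831) (nat_lit 0) (nat_lit 7215824810) (nat_lit 760) (nat_lit 77792915)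 (nat_lit 195) (nat_lit 5) (nat_lit 194) (nat_lit 5) (nat_lit 204) (nat_lit 5) (nat_lit 250) (nat_lit 249) (nat_lit 221)) (XT.lf (nat_lit 0) (nat_lit 2087402179) (nat_lit 760) (nat_lit 2103679740) (nat_lit 836) (nat_lit 3468492341) (nat_lit 184) (nat_lit 5) (nat_lit 194) (nat_lit 5) (nat_lit 195) (nat_lit 5) (nat_lit 251) (nat_lit 249) (nat_lit 220)))))) (XT.nd (nat_lit 390) (nat_lit 2584) (nat_lit 0) (XT.nd (nat_lit 156) (nat_lit 760) (nat_lit 0) (XT.nd (nat_lit 78) (nat_lit 0) (nat_lit 76) (XT.lf (nat_lit 76) (nat_lit 3335253523) (nat_lit 0) (nat_lit 923742704) (nat_lit 836) (nat_lit 3530568457) (nat_lit 185) (nat_lit 5) (nat_lit 184) (nat_lit 5) (nat_lit 195) (nat_lit 5) (nat_lit 252) (nat_lit 249) (nat_lit 219)) (XT.lf (nat_lit 76) (nat_lit 1084092897) (nat_lit 0) (nat_lit 5385261718) (nat_lit 836) (nat_lit 1459255839) (nat_lit 186) (nat_lit 5) (nat_lit 185) (nat_lit 5) (nat_lit 196)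 (nat_lit 5) (nat_lit 253) (nat_lit 249) (nat_lit 218))) (XT.nd (nat_lit 78) (nat_lit 0) (nat_lit 76) (XT.lf (nat_lit 0) (nat_lit 634742736) (nat_lit 836) (nat_lit 1175474055) (nat_lit 912) (nat_lit 6266619408) (nat_lit 174) (nat_lit 5) (nat_lit 185) (nat_lit 5) (nat_lit 186) (nat_lit 5) (nat_lit 254) (nat_lit 249) (nat_lit 217)) (XT.nd (nat_lit 78) (nat_lit 0) (nat_lit 0) (XT.lf (nat_lit 0) (nat_lit 2752482490) (nat_lit 836) (nat_lit 3473024501) (nat_lit 912) (nat_lit 2008462452) (nat_lit 175) (nat_lit 5) (nat_lit 186) (nat_lit 5) (nat_lit 187) (nat_lit 5) (nat_lit 255) (nat_lit 249) (nat_lit 216)) (XT.lf (nat_lit 76) (nat_lit 2575665303) (nat_lit 0) (nat_lit 2344227578) (nat_lit 912) (nat_lit 3481139896) (nat_lit 176) (nat_lit 5) (nat_lit 175) (nat_lit 5) (nat_lit 187) (nat_lit 5) (nat_lit 256) (nat_lit 249) (nat_lit 215))))) (XT.nd (nat_lit 156) (nat_lit 1824) (nat_lit 0) (XT.nd (nat_lit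 78) (nat_lit 912) (nat_lit 0) (XT.lf (nat_lit 76) (nat_lit 335483636) (nat_lit 0) (nat_lit 6809604165) (nat_lit 912) (nat_lit 1433247568) (nat_lit 177) (nat_lit 5) (nat_lit 176) (nat_lit 5) (nat_lit 188) (nat_lit 5) (nat_lit 257) (nat_lit 249) (nat_lit 214)) (XT.lf (nat_lit 0) (nat_lit 683701063) (nat_lit 912) (nat_lit 1945962596) (nat_lit 988) (nat_lit 6135553779) (nat_lit 164) (nat_lit 5) (nat_lit 176) (nat_lit 5) (nat_lit 177) (nat_lit 5) (nat_lit 258) (nat_lit 249) (nat_lit 213))) (XT.nd (nat_lit 78) (nat_lit 1900) (nat_lit 0) (XT.lf (nat_lit 0) (nat_lit 2841096235) (nat_lit 912) (nat_lit 4312782336) (nat_lit 76) (nat_lit 1808536611) (nat_lit 165) (nat_lit 5) (nat_lit 177) (nat_lit 5) (nat_lit 166) (nat_lit 5) (nat_lit 259) (nat_lit 249) (nat_lit 212)) (XT.nd (nat_lit 78) (nat_lit 988) (nat_lit 0) (XT.lf (nat_lit 0) (nat_lit 2390994254) (nat_lit 912) (nat_lit 2690702132) (nat_lit 988)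 (nat_lit 4088825433) (nat_lit 153) (nat_lit 5) (nat_lit 165) (nat_lit 5) (nat_lit 166) (nat_lit 5) (nat_lit 260) (nat_lit 249) (nat_lit 211)) (XT.lf (nat_lit 0) (nat_lit 36746034) (nat_lit 988) (nat_lit 7371485576) (nat_lit 1064) (nat_lit 1981879370) (nat_lit 140) (nat_lit 5) (nat_lit 153) (nat_lit 5) (nat_lit 154) (nat_lit 5) (nat_lit 261) (nat_lit 249) (nat_lit 210))))))) (XT.nd (nat_lit 780) (nat_lit 2508) (nat_lit 0) (XT.nd (nat_lit 390) (nat_lit 1976) (nat_lit 0) (XT.nd (nat_lit 156) (nat_lit 988) (nat_lit 0) (XT.nd (nat_lit 78) (nat_lit 1064) (nat_lit 0) (XT.lf (nat_lit 0) (nat_lit 235545184) (nat_lit 1064) (nat_lit 2389698921) (nat_lit 76) (nat_lit 6995352388) (nat_lit 139) (nat_lit 5) (nat_lit 153) (nat_lit 5) (nat_lit 140) (nat_lit 5) (nat_lit 262) (nat_lit 249) (nat_lit 209)) (XT.lf (nat_lit 0) (nat_lit 2510200601) (nat_lit 1140) (nat_lit 4961451972) (nat_lit 76) (nat_lit 2391003796)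 (nat_lit 125) (nat_lit 5) (nat_lit 140) (nat_lit 5) (nat_lit 126) (nat_lit 5) (nat_lit 263) (nat_lit 249) (nat_lit 208))) (XT.nd (nat_lit 78) (nat_lit 456) (nat_lit 0) (XT.lf (nat_lit 0) (nat_lit 2437763463) (nat_lit 532) (nat_lit 2455183270) (nat_lit 608) (nat_lit 5224288628) (nat_lit 118) (nat_lit 5) (nat_lit 125) (nat_lit 5) (nat_lit 126) (nat_lit 5) (nat_lit 264) (nat_lit 249) (nat_lit 207)) (XT.nd (nat_lit 78) (nat_lit 456) (nat_lit 0) (XT.lf (nat_lit 0) (nat_lit 7396223572) (nat_lit 608) (nat_lit 174003815) (nat_lit 76) (nat_lit 2814509217) (nat_lit 118) (nat_lit 5) (nat_lit 126) (nat_lit 5) (nat_lit 119) (nat_lit 5) (nat_lit 265) (nat_lit 249) (nat_lit 206)) (XT.lf (nat_lit 0) (nat_lit 7762891502) (nat_lit 456) (nat_lit 2287634440) (nat_lit 532) (nat_lit 614535027) (nat_lit 112) (nat_lit 5) (nat_lit 118) (nat_lit 5) (nat_lit 119) (nat_lit 5) (nat_lit 266) (nat_lit 249) (nat_lit 205)))))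 (XT.nd (nat_lit 156) (nat_lit 912) (nat_lit 0) (XT.nd (nat_lit 78) (nat_lit 456) (nat_lit 0) (XT.lf (nat_lit 0) (nat_lit 1853260543) (nat_lit 608) (nat_lit 5838454703) (nat_lit 76) (nat_lit 3266998686) (nat_lit 104) (nat_lit 5) (nat_lit 112) (nat_lit 5) (nat_lit 105) (nat_lit 5) (nat_lit 267) (nat_lit 249) (nat_lit 204)) (XT.lf (nat_lit 0) (nat_lit 2282845556) (nat_lit 456) (nat_lit 2155368776) (nat_lit 532) (nat_lit 6828655514) (nat_lit 98) (nat_lit 5) (nat_lit 104) (nat_lit 5) (nat_lit 105) (nat_lit 5) (nat_lit 268) (nat_lit 249) (nat_lit 203))) (XT.nd (nat_lit 78) (nat_lit 912) (nat_lit 0) (XT.lf (nat_lit 0) (nat_lit 7182028543) (nat_lit 532) (nat_lit 762720113) (nat_lit 76) (nat_lit 3644984304) (nat_lit 98) (nat_lit 5) (nat_lit 105) (nat_lit 5) (nat_lit 99) (nat_lit 5) (nat_lit 269) (nat_lit 249) (nat_lit 202)) (XT.nd (nat_lit 78) (nat_lit 456) (nat_lit 0) (XT.lf (nat_lit 0) (nat_lit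 7935554494) (nat_lit 456) (nat_lit 2162424522) (nat_lit 532) (nat_lit 1829890693) (nat_lit 92) (nat_lit 5) (nat_lit 98) (nat_lit 5) (nat_lit 99) (nat_lit 5) (nat_lit 270) (nat_lit 249) (nat_lit 201)) (XT.lf (nat_lit 0) (nat_lit 890640004) (nat_lit 456) (nat_lit 7500272440) (nat_lit 76) (nat_lit 3890985284) (nat_lit 86) (nat_lit 5) (nat_lit 92) (nat_lit 5) (nat_lit 87) (nat_lit 5) (nat_lit 271) (nat_lit 249) (nat_lit 200)))))) (XT.nd (nat_lit 390) (nat_lit 1292) (nat_lit 0) (XT.nd (nat_lit 156) (nat_lit 836) (nat_lit 0) (XT.nd (nat_lit 78) (nat_lit 0) (nat_lit 0) (XT.lf (nat_lit 0) (nat_lit 1344201183) (nat_lit 380) (nat_lit 2382524459) (nat_lit 456) (nat_lit 8925994265) (nat_lit 81) (nat_lit 5) (nat_lit 86) (nat_lit 5) (nat_lit 87) (nat_lit 5) (nat_lit 272) (nat_lit 249) (nat_lit 199)) (XT.lf (nat_lit 0) (nat_lit 6763225217) (nat_lit 456) (nat_lit 2357141403) (nat_lit 76) (nat_lit 3920108279)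 (nat_lit 81) (nat_lit 5) (nat_lit 87) (nat_lit 5) (nat_lit 82) (nat_lit 5) (nat_lit 273) (nat_lit 249) (nat_lit 198))) (XT.nd (nat_lit 78) (nat_lit 456) (nat_lit 0) (XT.lf (nat_lit 0) (nat_lit 7092830424) (nat_lit 380) (nat_lit 2896561359) (nat_lit 456) (nat_lit 3457233447) (nat_lit 76) (nat_lit 5) (nat_lit 81) (nat_lit 5) (nat_lit 82) (nat_lit 5) (nat_lit 274) (nat_lit 249) (nat_lit 197)) (XT.nd (nat_lit 78) (nat_lit 76) (nat_lit 0) (XT.lf (nat_lit 0) (nat_lit 3155423512) (nat_lit 380) (nat_lit 10258779500) (nat_lit 456) (nat_lit 457896025) (nat_lit 71) (nat_lit 5) (nat_lit 76) (nat_lit 5) (nat_lit 77) (nat_lit 5) (nat_lit 275) (nat_lit 249) (nat_lit 196)) (XT.lf (nat_lit 0) (nat_lit 2682985483) (nat_lit 456) (nat_lit 1162233614) (nat_lit 76) (nat_lit 10471654201) (nat_lit 70) (nat_lit 5) (nat_lit 76) (nat_lit 5) (nat_lit 71) (nat_lit 5) (nat_lit 276) (nat_lit 249) (nat_lit 195))))) (XT.nd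 (nat_lit 234) (nat_lit 684) (nat_lit 0) (XT.nd (nat_lit 78) (nat_lit 304) (nat_lit 0) (XT.lf (nat_lit 0) (nat_lit 6037672955) (nat_lit 380) (nat_lit 5830244814) (nat_lit 76) (nat_lit 2913965343) (nat_lit 66) (nat_lit 5) (nat_lit 71) (nat_lit 5) (nat_lit 67) (nat_lit 5) (nat_lit 277) (nat_lit 249) (nat_lit 194)) (XT.nd (nat_lit 78) (nat_lit 0) (nat_lit 0) (XT.lf (nat_lit 0) (nat_lit 4311701769) (nat_lit 304) (nat_lit 5293639514) (nat_lit 380) (nat_lit 5663558841) (nat_lit 62) (nat_lit 5) (nat_lit 66) (nat_lit 5) (nat_lit 67) (nat_lit 5) (nat_lit 278) (nat_lit 249) (nat_lit 193)) (XT.lf (nat_lit 0) (nat_lit 13381954241) (nat_lit 380) (nat_lit 770820635) (nat_lit 76) (nat_lit 1626684940) (nat_lit 62) (nat_lit 5) (nat_lit 67) (nat_lit 5) (nat_lit 63) (nat_lit 5) (nat_lit 279) (nat_lit 249) (nat_lit 192)))) (XT.nd (nat_lit 78) (nat_lit 304) (nat_lit 0) (XT.lf (nat_lit 0) (nat_lit 1118972809)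 (nat_lit 380) (nat_lit 6312707022) (nat_lit 76) (nat_lit 8880452851) (nat_lit 57) (nat_lit 5) (nat_lit 62) (nat_lit 5) (nat_lit 58) (nat_lit 5) (nat_lit 280) (nat_lit 249) (nat_lit 191)) (XT.nd (nat_lit 78) (nat_lit 0) (nat_lit 0) (XT.lf (nat_lit 0) (nat_lit 4460456351) (nat_lit 304) (nat_lit 310263321) (nat_lit 380) (nat_lit 12099832222) (nat_lit 53) (nat_lit 5) (nat_lit 57) (nat_lit 5) (nat_lit 58) (nat_lit 5) (nat_lit 281) (nat_lit 249) (nat_lit 190)) (XT.lf (nat_lit 0) (nat_lit 8698627670) (nat_lit 380) (nat_lit 1675286960) (nat_lit 76) (nat_lit 7080261360) (nat_lit 53) (nat_lit 5) (nat_lit 58) (nat_lit 5) (nat_lit 54) (nat_lit 5) (nat_lit 282) (nat_lit 249) (nat_lit 189))))))))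
noncomputable def xc69 : XT := (XT.nd (nat_lit 1560) (nat_lit 836) (nat_lit 0) (XT.nd (nat_lit 780) (nat_lit 988) (nat_lit 0) (XT.nd (nat_lit 390) (nat_lit 760) (nat_lit 0) (XT.nd (nat_lit 156) (nat_lit 304) (nat_lit 0) (XT.nd (nat_lit 78) (nat_lit 304) (nat_lit 0) (XT.lf (nat_lit 0) (nat_lit 9730629001) (nat_lit 228) (nat_lit 3149971242) (nat_lit 304) (nat_lit 5184737769) (nat_lit 50) (nat_lit 5) (nat_lit 53) (nat_lit 5) (nat_lit 54) (nat_lit 5) (nat_lit 283) (nat_lit 249) (nat_lit 188)) (XT.lf (nat_lit 0) (nat_lit 2999062914) (nat_lit 304) (nat_lit 14323728788) (nat_lit 380) (nat_lit 1382815491) (nat_lit 46) (nat_lit 5) (nat_lit 50) (nat_lit 5) (nat_lit 51) (nat_lit 5) (nat_lit 284) (nat_lit 249) (nat_lit 187))) (XT.nd (nat_lit 78) (nat_lit 228) (nat_lit 0) (XT.lf (nat_lit 0) (nat_lit 2639845654) (nat_lit 380) (nat_lit 4410630521) (nat_lit 76) (nat_lit 12324290923) (nat_lit 45) (nat_lit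 5) (nat_lit 50) (nat_lit 5) (nat_lit 46) (nat_lit 5) (nat_lit 285) (nat_lit 249) (nat_lit 186)) (XT.nd (nat_lit 78) (nat_lit 0) (nat_lit 0) (XT.lf (nat_lit 0) (nat_lit 6878964575) (nat_lit 304) (nat_lit 12547980312) (nat_lit 76) (nat_lit 648784463) (nat_lit 42) (nat_lit 5) (nat_lit 46) (nat_lit 5) (nat_lit 43) (nat_lit 5) (nat_lit 286) (nat_lit 249) (nat_lit 185)) (XT.lf (nat_lit 0) (nat_lit 11413013979) (nat_lit 304) (nat_lit 775171720) (nat_lit 76) (nat_lit 8621134109) (nat_lit 42) (nat_lit 5) (nat_lit 46) (nat_lit 5) (nat_lit 43) (nat_lit 5) (nat_lit 287) (nat_lit 249) (nat_lit 184))))) (XT.nd (nat_lit 156) (nat_lit 304) (nat_lit 0) (XT.nd (nat_lit 78) (nat_lit 228) (nat_lit 0) (XT.lf (nat_lit 0) (nat_lit 11769855103) (nat_lit 228) (nat_lit 4484630066) (nat_lit 304) (nat_lit 5322749067) (nat_lit 39) (nat_lit 5) (nat_lit 42) (nat_lit 5) (nat_lit 43) (nat_lit 5) (nat_lit 288) (nat_lit 249)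 (nat_lit 183)) (XT.lf (nat_lit 0) (nat_lit 2544306006) (nat_lit 228) (nat_lit 18829449127) (nat_lit 304) (nat_lit 1008780379) (nat_lit 36) (nat_lit 5) (nat_lit 39) (nat_lit 5) (nat_lit 40) (nat_lit 5) (nat_lit 289) (nat_lit 249) (nat_lit 182))) (XT.nd (nat_lit 78) (nat_lit 228) (nat_lit 0) (XT.lf (nat_lit 0) (nat_lit 3568679528) (nat_lit 304) (nat_lit 7631668271) (nat_lit 76) (nat_lit 12023301910) (nat_lit 35) (nat_lit 5) (nat_lit 39) (nat_lit 5) (nat_lit 36) (nat_lit 5) (nat_lit 290) (nat_lit 249) (nat_lit 181)) (XT.nd (nat_lit 78) (nat_lit 0) (nat_lit 0) (XT.lf (nat_lit 0) (nat_lit 5234315714) (nat_lit 228) (nat_lit 3141081649) (nat_lit 304) (nat_lit 15730540549) (nat_lit 32) (nat_lit 5) (nat_lit 35) (nat_lit 5) (nat_lit 36) (nat_lit 5) (nat_lit 291) (nat_lit 249) (nat_lit 180)) (XT.lf (nat_lit 0) (nat_lit 13524543701) (nat_lit 304) (nat_lit 6221240737) (nat_lit 76) (nat_lit 5283546047)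 (nat_lit 32) (nat_lit 5) (nat_lit 36) (nat_lit 5) (nat_lit 33) (nat_lit 5) (nat_lit 292) (nat_lit 249) (nat_lit 179)))))) (XT.nd (nat_lit 390) (nat_lit 380) (nat_lit 0) (XT.nd (nat_lit 156) (nat_lit 456) (nat_lit 0) (XT.nd (nat_lit 78) (nat_lit 0) (nat_lit 0) (XT.lf (nat_lit 0) (nat_lit 7128674201) (nat_lit 152) (nat_lit 11875657606) (nat_lit 228) (nat_lit 6992415573) (nat_lit 30) (nat_lit 5) (nat_lit 32) (nat_lit 5) (nat_lit 33) (nat_lit 5) (nat_lit 293) (nat_lit 249) (nat_lit 178)) (XT.lf (nat_lit 0) (nat_lit 21236860228) (nat_lit 152) (nat_lit 3559157577) (nat_lit 228) (nat_lit 2215427896) (nat_lit 30) (nat_lit 5) (nat_lit 32) (nat_lit 5) (nat_lit 33) (nat_lit 5) (nat_lit 294) (nat_lit 249) (nat_lit 177))) (XT.nd (nat_lit 78) (nat_lit 152) (nat_lit 0) (XT.lf (nat_lit 0) (nat_lit 2848759050) (nat_lit 304) (nat_lit 20059034977) (nat_lit 76) (nat_lit 5165231684) (nat_lit 26) (nat_lit 5)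 (nat_lit 30) (nat_lit 5) (nat_lit 27) (nat_lit 5) (nat_lit 295) (nat_lit 249) (nat_lit 176)) (XT.nd (nat_lit 78) (nat_lit 152) (nat_lit 0) (XT.lf (nat_lit 0) (nat_lit 8192263842) (nat_lit 304) (nat_lit 6669579737) (nat_lit 76) (nat_lit 14323067413) (nat_lit 26) (nat_lit 5) (nat_lit 30) (nat_lit 5) (nat_lit 27) (nat_lit 5) (nat_lit 296) (nat_lit 249) (nat_lit 175)) (XT.lf (nat_lit 0) (nat_lit 7500011843) (nat_lit 152) (nat_lit 6351736031) (nat_lit 228) (nat_lit 16499218659) (nat_lit 24) (nat_lit 5) (nat_lit 26) (nat_lit 5) (nat_lit 27) (nat_lit 5) (nat_lit 297) (nat_lit 249) (nat_lit 174))))) (XT.nd (nat_lit 156) (nat_lit 228) (nat_lit 0) (XT.nd (nat_lit 78) (nat_lit 152) (nat_lit 0) (XT.lf (nat_lit 0) (nat_lit 19865749481) (nat_lit 228) (nat_lit 9116587620) (nat_lit 76) (nat_lit 2590879658) (nat_lit 24) (nat_lit 5) (nat_lit 27) (nat_lit 5) (nat_lit 25) (nat_lit 5) (nat_lit 298) (nat_lit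 249) (nat_lit 173)) (XT.lf (nat_lit 0) (nat_lit 5310430475) (nat_lit 152) (nat_lit 20963623459) (nat_lit 228) (nat_lit 6579753867) (nat_lit 22) (nat_lit 5) (nat_lit 24) (nat_lit 5) (nat_lit 25) (nat_lit 5) (nat_lit 299) (nat_lit 249) (nat_lit 172))) (XT.nd (nat_lit 78) (nat_lit 228) (nat_lit 0) (XT.lf (nat_lit 0) (nat_lit 20616688660) (nat_lit 152) (nat_lit 12459091034) (nat_lit 228) (nat_lit 1120493175) (nat_lit 22) (nat_lit 5) (nat_lit 24) (nat_lit 5) (nat_lit 25) (nat_lit 5) (nat_lit 300) (nat_lit 249) (nat_lit 171)) (XT.nd (nat_lit 78) (nat_lit 0) (nat_lit 0) (XT.lf (nat_lit 0) (nat_lit 1026601535) (nat_lit 152) (nat_lit 3484928274) (nat_lit 228) (nat_lit 31093339781) (nat_lit 19) (nat_lit 5) (nat_lit 21) (nat_lit 5) (nat_lit 22) (nat_lit 5) (nat_lit 301) (nat_lit 249) (nat_lit 170)) (XT.lf (nat_lit 0) (nat_lit 10580925780) (nat_lit 228) (nat_lit 20533706666) (nat_lit 76) (nat_lit 5963593038)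 (nat_lit 19) (nat_lit 5) (nat_lit 22) (nat_lit 5) (nat_lit 20) (nat_lit 5) (nat_lit 302) (nat_lit 249) (nat_lit 169))))))) (XT.nd (nat_lit 780) (nat_lit 380) (nat_lit 0) (XT.nd (nat_lit 390) (nat_lit 152) (nat_lit 0) (XT.nd (nat_lit 156) (nat_lit 152) (nat_lit 0) (XT.nd (nat_lit 78) (nat_lit 152) (nat_lit 0) (XT.lf (nat_lit 0) (nat_lit 16970372351) (nat_lit 228) (nat_lit 5851711954) (nat_lit 76) (nat_lit 15802696507) (nat_lit 19) (nat_lit 5) (nat_lit 22) (nat_lit 5) (nat_lit 20) (nat_lit 5) (nat_lit 303) (nat_lit 249) (nat_lit 168)) (XT.lf (nat_lit 0) (nat_lit 9725961001) (nat_lit 152) (nat_lit 14029114114) (nat_lit 228) (nat_lit 16491342959) (nat_lit 17) (nat_lit 5) (nat_lit 19) (nat_lit 5) (nat_lit 20) (nat_lit 5) (nat_lit 304) (nat_lit 249) (nat_lit 167))) (XT.nd (nat_lit 78) (nat_lit 152) (nat_lit 0) (XT.lf (nat_lit 0) (nat_lit 26177399787) (nat_lit 152) (nat_lit 4744723260) (nat_lit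 228) (nat_lit 11025747213) (nat_lit 17) (nat_lit 5) (nat_lit 19) (nat_lit 5) (nat_lit 20) (nat_lit 5) (nat_lit 305) (nat_lit 249) (nat_lit 166)) (XT.nd (nat_lit 78) (nat_lit 152) (nat_lit 0) (XT.lf (nat_lit 0) (nat_lit 38479217195) (nat_lit 228) (nat_lit 357601960) (nat_lit 76) (nat_lit 4896650193) (nat_lit 17) (nat_lit 5) (nat_lit 20) (nat_lit 5) (nat_lit 18) (nat_lit 4) (nat_lit 306) (nat_lit 249) (nat_lit 165)) (XT.lf (nat_lit 0) (nat_lit 978621542) (nat_lit 152) (nat_lit 29546088546) (nat_lit 76) (nat_lit 15077773288) (nat_lit 15) (nat_lit 5) (nat_lit 17) (nat_lit 5) (nat_lit 16) (nat_lit 5) (nat_lit 307) (nat_lit 249) (nat_lit 164))))) (XT.nd (nat_lit 156) (nat_lit 0) (nat_lit 0) (XT.nd (nat_lit 78) (nat_lit 152) (nat_lit 0) (XT.lf (nat_lit 0) (nat_lit 7403911636) (nat_lit 152) (nat_lit 14344199030) (nat_lit 76) (nat_lit 25815615720) (nat_lit 15) (nat_lit 5) (nat_lit 17) (nat_lit 5)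 (nat_lit 16) (nat_lit 5) (nat_lit 308) (nat_lit 249) (nat_lit 163)) (XT.lf (nat_lit 0) (nat_lit 1625837805) (nat_lit 152) (nat_lit 12525695950) (nat_lit 228) (nat_lit 35471486822) (nat_lit 13) (nat_lit 5) (nat_lit 15) (nat_lit 5) (nat_lit 16) (nat_lit 5) (nat_lit 309) (nat_lit 249) (nat_lit 162))) (XT.nd (nat_lit 78) (nat_lit 0) (nat_lit 0) (XT.lf (nat_lit 0) (nat_lit 18671133531) (nat_lit 152) (nat_lit 2698975640) (nat_lit 228) (nat_lit 30411183195) (nat_lit 13) (nat_lit 5) (nat_lit 15) (nat_lit 5) (nat_lit 16) (nat_lit 5) (nat_lit 310) (nat_lit 249) (nat_lit 161)) (XT.nd (nat_lit 78) (nat_lit 0) (nat_lit 0) (XT.lf (nat_lit 0) (nat_lit 29009353301) (nat_lit 228) (nat_lit 17574262614) (nat_lit 76) (nat_lit 7462088733) (nat_lit 13) (nat_lit 5) (nat_lit 16) (nat_lit 5) (nat_lit 14) (nat_lit 4) (nat_lit 311) (nat_lit 249) (nat_lit 160)) (XT.lf (nat_lit 0) (nat_lit 37044944552) (nat_lit 228)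 (nat_lit 1309993611) (nat_lit 76) (nat_lit 18067986021) (nat_lit 13) (nat_lit 5) (nat_lit 16) (nat_lit 5) (nat_lit 14) (nat_lit 4) (nat_lit 312) (nat_lit 249) (nat_lit 159)))))) (XT.nd (nat_lit 390) (nat_lit 76) (nat_lit 0) (XT.nd (nat_lit 156) (nat_lit 228) (nat_lit 0) (XT.nd (nat_lit 78) (nat_lit 0) (nat_lit 0) (XT.lf (nat_lit 0) (nat_lit 16060719308) (nat_lit 76) (nat_lit 29563737232) (nat_lit 152) (nat_lit 13290301247) (nat_lit 12) (nat_lit 5) (nat_lit 13) (nat_lit 5) (nat_lit 14) (nat_lit 4) (nat_lit 313) (nat_lit 249) (nat_lit 158)) (XT.lf (nat_lit 0) (nat_lit 34307749099) (nat_lit 76) (nat_lit 20326830686) (nat_lit 152) (nat_lit 6896570712) (nat_lit 12) (nat_lit 5) (nat_lit 13) (nat_lit 5) (nat_lit 14) (nat_lit 4) (nat_lit 314) (nat_lit 249) (nat_lit 157))) (XT.nd (nat_lit 78) (nat_lit 228) (nat_lit 0) (XT.lf (nat_lit 0) (nat_lit 53448469629) (nat_lit 76) (nat_lit 10635454257) (nat_lit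 152) (nat_lit 194793229) (nat_lit 12) (nat_lit 5) (nat_lit 13) (nat_lit 5) (nat_lit 14) (nat_lit 4) (nat_lit 315) (nat_lit 249) (nat_lit 156)) (XT.nd (nat_lit 78) (nat_lit 0) (nat_lit 0) (XT.lf (nat_lit 0) (nat_lit 6424149230) (nat_lit 152) (nat_lit 335294260) (nat_lit 228) (nat_lit 60400733483) (nat_lit 9) (nat_lit 5) (nat_lit 11) (nat_lit 5) (nat_lit 12) (nat_lit 5) (nat_lit 316) (nat_lit 249) (nat_lit 155)) (XT.lf (nat_lit 0) (nat_lit 14260145017) (nat_lit 228) (nat_lit 45536337361) (nat_lit 76) (nat_lit 10383099975) (nat_lit 9) (nat_lit 5) (nat_lit 12) (nat_lit 5) (nat_lit 10) (nat_lit 4) (nat_lit 317) (nat_lit 249) (nat_lit 154))))) (XT.nd (nat_lit 234) (nat_lit 0) (nat_lit 0) (XT.nd (nat_lit 78) (nat_lit 76) (nat_lit 0) (XT.lf (nat_lit 0) (nat_lit 22129183448) (nat_lit 228) (nat_lit 29596950840) (nat_lit 76) (nat_lit 21624037839) (nat_lit 9) (nat_lit 5) (nat_lit 12) (nat_lit 5) (nat_lit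 10) (nat_lit 4) (nat_lit 318) (nat_lit 249) (nat_lit 153)) (XT.nd (nat_lit 78) (nat_lit 76) (nat_lit 0) (XT.lf (nat_lit 0) (nat_lit 30382071536) (nat_lit 228) (nat_lit 12876694205) (nat_lit 76) (nat_lit 33420826265) (nat_lit 9) (nat_lit 5) (nat_lit 12) (nat_lit 5) (nat_lit 10) (nat_lit 4) (nat_lit 319) (nat_lit 249) (nat_lit 152)) (XT.lf (nat_lit 0) (nat_lit 4757070251) (nat_lit 76) (nat_lit 34327116632) (nat_lit 152) (nat_lit 41090210464) (nat_lit 8) (nat_lit 5) (nat_lit 9) (nat_lit 5) (nat_lit 10) (nat_lit 4) (nat_lit 320) (nat_lit 249) (nat_lit 151)))) (XT.nd (nat_lit 78) (nat_lit 0) (nat_lit 0) (XT.lf (nat_lit 0) (nat_lit 23526714889) (nat_lit 76) (nat_lit 24818394616) (nat_lit 152) (nat_lit 35495133788) (nat_lit 8) (nat_lit 5) (nat_lit 9) (nat_lit 5) (nat_lit 10) (nat_lit 4) (nat_lit 321) (nat_lit 249) (nat_lit 150)) (XT.nd (nat_lit 78) (nat_lit 0) (nat_lit 0) (XT.lf (nat_lit 0) (nat_lit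 43220657875) (nat_lit 76) (nat_lit 14839989242) (nat_lit 152) (nat_lit 29628998196) (nat_lit 8) (nat_lit 5) (nat_lit 9) (nat_lit 5) (nat_lit 10) (nat_lit 4) (nat_lit 322) (nat_lit 249) (nat_lit 149)) (XT.lf (nat_lit 0) (nat_lit 63885789549) (nat_lit 76) (nat_lit 4368142402) (nat_lit 152) (nat_lit 23477836699) (nat_lit 8) (nat_lit 5) (nat_lit 9) (nat_lit 5) (nat_lit 10) (nat_lit 4) (nat_lit 323) (nat_lit 249) (nat_lit 148))))))))
noncomputable def xc70 : XT := (XT.nd (nat_lit 32994) (nat_lit 0) (nat_lit 2964) (XT.nd (nat_lit 32214) (nat_lit 0) (nat_lit 8512) (XT.nd (nat_lit 31824) (nat_lit 0) (nat_lit 12692) (XT.nd (nat_lit 156) (nat_lit 76) (nat_lit 0) (XT.nd (nat_lit 78) (nat_lit 76) (nat_lit 0) (XT.lf (nat_lit 0) (nat_lit 79012889207) (nat_lit 152) (nat_lit 10468580274) (nat_lit 0) (nat_lit 6492858260) (nat_lit 8) (nat_lit 5) (nat_lit 10) (nat_lit 4) (nat_lit 8) (nat_lit 4) (nat_lit 324)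 (nat_lit 249) (nat_lit 147)) (XT.lf (nat_lit 0) (nat_lit 7874833476) (nat_lit 76) (nat_lit 82547416379) (nat_lit 76) (nat_lit 10003400632) (nat_lit 7) (nat_lit 4) (nat_lit 8) (nat_lit 5) (nat_lit 8) (nat_lit 4) (nat_lit 325) (nat_lit 249) (nat_lit 146))) (XT.nd (nat_lit 78) (nat_lit 76) (nat_lit 0) (XT.lf (nat_lit 0) (nat_lit 27342104170) (nat_lit 76) (nat_lit 75160641263) (nat_lit 76) (nat_lit 2593782850) (nat_lit 7) (nat_lit 4) (nat_lit 8) (nat_lit 5) (nat_lit 8) (nat_lit 4) (nat_lit 326) (nat_lit 249) (nat_lit 145)) (XT.nd (nat_lit 31512) (nat_lit 0) (nat_lit 13452) (XT.lf (nat_lit 0) (nat_lit 5078276956) (nat_lit 152) (nat_lit 62279711113) (nat_lit 76) (nat_lit 42641679580) (nat_lit 6) (nat_lit 5) (nat_lit 8) (nat_lit 5) (nat_lit 7) (nat_lit 4) (nat_lit 327) (nat_lit 249) (nat_lit 144)) (XT.lf (nat_lit 0) (nat_lit 982527470) (nat_lit 836) (nat_lit 1422281398) (nat_lit 836) (nat_lit 1422281398)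 (nat_lit 183) (nat_lit 3) (nat_lit 194) (nat_lit 3) (nat_lit 194) (nat_lit 5) (nat_lit 250) (nat_lit 250) (nat_lit 220))))) (XT.nd (nat_lit 156) (nat_lit 760) (nat_lit 0) (XT.nd (nat_lit 78) (nat_lit 0) (nat_lit 76) (XT.lf (nat_lit 76) (nat_lit 2406248280) (nat_lit 0) (nat_lit 1598906486) (nat_lit 836) (nat_lit 3773443664) (nat_lit 184) (nat_lit 5) (nat_lit 183) (nat_lit 3) (nat_lit 194) (nat_lit 5) (nat_lit 251) (nat_lit 250) (nat_lit 219)) (XT.lf (nat_lit 0) (nat_lit 6067842517) (nat_lit 760) (nat_lit 17879968) (nat_lit 836) (nat_lit 1826358612) (nat_lit 184) (nat_lit 5) (nat_lit 194) (nat_lit 5) (nat_lit 195) (nat_lit 5) (nat_lit 252) (nat_lit 250) (nat_lit 218))) (XT.nd (nat_lit 78) (nat_lit 0) (nat_lit 76) (XT.lf (nat_lit 0) (nat_lit 127197118) (nat_lit 836) (nat_lit 2425221450) (nat_lit 912) (nat_lit 5501714288) (nat_lit 173) (nat_lit 5) (nat_lit 184) (nat_lit 5) (nat_lit 185) (nat_lit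 5) (nat_lit 253) (nat_lit 250) (nat_lit 217)) (XT.nd (nat_lit 78) (nat_lit 0) (nat_lit 0) (XT.lf (nat_lit 0) (nat_lit 2087240890) (nat_lit 836) (nat_lit 4884823047) (nat_lit 912) (nat_lit 1233236417) (nat_lit 174) (nat_lit 5) (nat_lit 185) (nat_lit 5) (nat_lit 186) (nat_lit 5) (nat_lit 254) (nat_lit 250) (nat_lit 216)) (XT.lf (nat_lit 76) (nat_lit 962818164) (nat_lit 0) (nat_lit 3131545875) (nat_lit 912) (nat_lit 4271576808) (nat_lit 175) (nat_lit 5) (nat_lit 174) (nat_lit 5) (nat_lit 186) (nat_lit 5) (nat_lit 255) (nat_lit 250) (nat_lit 215)))))) (XT.nd (nat_lit 390) (nat_lit 3496) (nat_lit 0) (XT.nd (nat_lit 156) (nat_lit 836) (nat_lit 0) (XT.nd (nat_lit 78) (nat_lit 0) (nat_lit 0) (XT.lf (nat_lit 0) (nat_lit 6155128580) (nat_lit 836) (nat_lit 1410064659) (nat_lit 912) (nat_lit 971190078) (nat_lit 175) (nat_lit 5) (nat_lit 186) (nat_lit 5) (nat_lit 187) (nat_lit 5) (nat_lit 256) (nat_lit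 250) (nat_lit 214)) (XT.lf (nat_lit 76) (nat_lit 4876947629) (nat_lit 0) (nat_lit 3419368015) (nat_lit 912) (nat_lit 420061699) (nat_lit 176) (nat_lit 5) (nat_lit 175) (nat_lit 5) (nat_lit 187) (nat_lit 5) (nat_lit 257) (nat_lit 250) (nat_lit 213))) (XT.nd (nat_lit 78) (nat_lit 0) (nat_lit 0) (XT.lf (nat_lit 0) (nat_lit 1558117644) (nat_lit 912) (nat_lit 6349296875) (nat_lit 988) (nat_lit 999280965) (nat_lit 164) (nat_lit 5) (nat_lit 176) (nat_lit 5) (nat_lit 177) (nat_lit 5) (nat_lit 258) (nat_lit 250) (nat_lit 212)) (XT.nd (nat_lit 78) (nat_lit 0) (nat_lit 76) (XT.lf (nat_lit 76) (nat_lit 141628022) (nat_lit 0) (nat_lit 3466820821) (nat_lit 988) (nat_lit 5498807067) (nat_lit 165) (nat_lit 5) (nat_lit 164) (nat_lit 5) (nat_lit 177) (nat_lit 5) (nat_lit 259) (nat_lit 250) (nat_lit 211)) (XT.lf (nat_lit 0) (nat_lit 5748874534) (nat_lit 912) (nat_lit 2310362371) (nat_lit 76) (nat_lit 1259274458)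 (nat_lit 165) (nat_lit 5) (nat_lit 177) (nat_lit 5) (nat_lit 166) (nat_lit 5) (nat_lit 260) (nat_lit 250) (nat_lit 210))))) (XT.nd (nat_lit 156) (nat_lit 1596) (nat_lit 0) (XT.nd (nat_lit 78) (nat_lit 1064) (nat_lit 0) (XT.lf (nat_lit 0) (nat_lit 4665022831) (nat_lit 912) (nat_lit 3325490912) (nat_lit 988) (nat_lit 1550270406) (nat_lit 153) (nat_lit 5) (nat_lit 165) (nat_lit 5) (nat_lit 166) (nat_lit 5) (nat_lit 261) (nat_lit 250) (nat_lit 209)) (XT.lf (nat_lit 0) (nat_lit 537602697) (nat_lit 1064) (nat_lit 7558625150) (nat_lit 76) (nat_lit 1678677665) (nat_lit 139) (nat_lit 5) (nat_lit 153) (nat_lit 5) (nat_lit 140) (nat_lit 5) (nat_lit 262) (nat_lit 250) (nat_lit 208))) (XT.nd (nat_lit 78) (nat_lit 1596) (nat_lit 0) (XT.lf (nat_lit 0) (nat_lit 2702530779) (nat_lit 1064) (nat_lit 373560576) (nat_lit 76) (nat_lit 6944286273) (nat_lit 139) (nat_lit 5) (nat_lit 153) (nat_lit 5) (nat_lit 140)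 (nat_lit 5) (nat_lit 263) (nat_lit 250) (nat_lit 207)) (XT.nd (nat_lit 78) (nat_lit 532) (nat_lit 0) (XT.lf (nat_lit 0) (nat_lit 4991216415) (nat_lit 1140) (nat_lit 3054412245) (nat_lit 76) (nat_lit 2232264459) (nat_lit 125) (nat_lit 5) (nat_lit 140) (nat_lit 5) (nat_lit 126) (nat_lit 5) (nat_lit 264) (nat_lit 250) (nat_lit 206)) (XT.lf (nat_lit 0) (nat_lit 4652988100) (nat_lit 532) (nat_lit 2748067243) (nat_lit 608) (nat_lit 3147251381) (nat_lit 118) (nat_lit 5) (nat_lit 125) (nat_lit 5) (nat_lit 126) (nat_lit 5) (nat_lit 265) (nat_lit 250) (nat_lit 205))))))) (XT.nd (nat_lit 780) (nat_lit 2356) (nat_lit 0) (XT.nd (nat_lit 390) (nat_lit 1216) (nat_lit 0) (XT.nd (nat_lit 156) (nat_lit 1444) (nat_lit 0) (XT.nd (nat_lit 78) (nat_lit 76) (nat_lit 0) (XT.lf (nat_lit 0) (nat_lit 1921226239) (nat_lit 456) (nat_lit 8017396445) (nat_lit 532) (nat_lit 893614477) (nat_lit 112) (nat_lit 5) (nat_lit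 118) (nat_lit 5) (nat_lit 119) (nat_lit 5) (nat_lit 266) (nat_lit 250) (nat_lit 204)) (XT.lf (nat_lit 0) (nat_lit 1464794658) (nat_lit 532) (nat_lit 986061126) (nat_lit 76) (nat_lit 8678655973) (nat_lit 111) (nat_lit 5) (nat_lit 118) (nat_lit 5) (nat_lit 112) (nat_lit 5) (nat_lit 267) (nat_lit 250) (nat_lit 203))) (XT.nd (nat_lit 78) (nat_lit 912) (nat_lit 0) (XT.lf (nat_lit 0) (nat_lit 3962498491) (nat_lit 608) (nat_lit 4067792374) (nat_lit 76) (nat_lit 3410085908) (nat_lit 104) (nat_lit 5) (nat_lit 112) (nat_lit 5) (nat_lit 105) (nat_lit 5) (nat_lit 268) (nat_lit 250) (nat_lit 202)) (XT.nd (nat_lit 78) (nat_lit 456) (nat_lit 0) (XT.lf (nat_lit 0) (nat_lit 4400449311) (nat_lit 456) (nat_lit 2199481779) (nat_lit 532) (nat_lit 5166587488) (nat_lit 98) (nat_lit 5) (nat_lit 104) (nat_lit 5) (nat_lit 105) (nat_lit 5) (nat_lit 269) (nat_lit 250) (nat_lit 201)) (XT.lf (nat_lit 0) (nat_lit 1190512537)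 (nat_lit 456) (nat_lit 8210078450) (nat_lit 532) (nat_lit 2707606145) (nat_lit 92) (nat_lit 5) (nat_lit 98) (nat_lit 5) (nat_lit 99) (nat_lit 5) (nat_lit 270) (nat_lit 250) (nat_lit 200))))) (XT.nd (nat_lit 156) (nat_lit 760) (nat_lit 0) (XT.nd (nat_lit 78) (nat_lit 456) (nat_lit 0) (XT.lf (nat_lit 0) (nat_lit 10244053422) (nat_lit 456) (nat_lit 2137217447) (nat_lit 532) (nat_lit 84651352) (nat_lit 92) (nat_lit 5) (nat_lit 98) (nat_lit 5) (nat_lit 99) (nat_lit 5) (nat_lit 271) (nat_lit 250) (nat_lit 199)) (XT.lf (nat_lit 0) (nat_lit 2670105130) (nat_lit 456) (nat_lit 5923798436) (nat_lit 76) (nat_lit 4245427844) (nat_lit 86) (nat_lit 5) (nat_lit 92) (nat_lit 5) (nat_lit 87) (nat_lit 5) (nat_lit 272) (nat_lit 250) (nat_lit 198))) (XT.nd (nat_lit 78) (nat_lit 380) (nat_lit 0) (XT.lf (nat_lit 0) (nat_lit 3306959867) (nat_lit 380) (nat_lit 2276640493) (nat_lit 456) (nat_lit 7647245856) (nat_lit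 81) (nat_lit 5) (nat_lit 86) (nat_lit 5) (nat_lit 87) (nat_lit 5) (nat_lit 273) (nat_lit 250) (nat_lit 197)) (XT.nd (nat_lit 78) (nat_lit 380) (nat_lit 0) (XT.lf (nat_lit 0) (nat_lit 8694435402) (nat_lit 456) (nat_lit 619860020) (nat_lit 76) (nat_lit 4326227436) (nat_lit 81) (nat_lit 5) (nat_lit 87) (nat_lit 5) (nat_lit 82) (nat_lit 5) (nat_lit 274) (nat_lit 250) (nat_lit 196)) (XT.lf (nat_lit 0) (nat_lit 9249433227) (nat_lit 380) (nat_lit 2773939152) (nat_lit 456) (nat_lit 2045563718) (nat_lit 76) (nat_lit 5) (nat_lit 81) (nat_lit 5) (nat_lit 82) (nat_lit 5) (nat_lit 275) (nat_lit 250) (nat_lit 195)))))) (XT.nd (nat_lit 390) (nat_lit 988) (nat_lit 0) (XT.nd (nat_lit 156) (nat_lit 608) (nat_lit 0) (XT.nd (nat_lit 78) (nat_lit 304) (nat_lit 0) (XT.lf (nat_lit 0) (nat_lit 1028132880) (nat_lit 456) (nat_lit 9417961276) (nat_lit 76) (nat_lit 4071077473) (nat_lit 70) (nat_lit 5) (nat_lit 76)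 (nat_lit 5) (nat_lit 71) (nat_lit 5) (nat_lit 276) (nat_lit 250) (nat_lit 194)) (XT.lf (nat_lit 0) (nat_lit 532839338) (nat_lit 304) (nat_lit 3717552393) (nat_lit 380) (nat_lit 10735818230) (nat_lit 66) (nat_lit 5) (nat_lit 70) (nat_lit 5) (nat_lit 71) (nat_lit 5) (nat_lit 277) (nat_lit 250) (nat_lit 193))) (XT.nd (nat_lit 78) (nat_lit 608) (nat_lit 0) (XT.lf (nat_lit 0) (nat_lit 7718999404) (nat_lit 380) (nat_lit 4387334173) (nat_lit 76) (nat_lit 3369918224) (nat_lit 66) (nat_lit 5) (nat_lit 71) (nat_lit 5) (nat_lit 67) (nat_lit 5) (nat_lit 278) (nat_lit 250) (nat_lit 192)) (XT.nd (nat_lit 78) (nat_lit 304) (nat_lit 0) (XT.lf (nat_lit 0) (nat_lit 6211992856) (nat_lit 304) (nat_lit 5203564965) (nat_lit 380) (nat_lit 4573705793) (nat_lit 62) (nat_lit 5) (nat_lit 66) (nat_lit 5) (nat_lit 67) (nat_lit 5) (nat_lit 279) (nat_lit 250) (nat_lit 191)) (XT.lf (nat_lit 0) (nat_lit 849478894) (nat_lit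 304) (nat_lit 14479605064) (nat_lit 380) (nat_lit 1197976430) (nat_lit 58) (nat_lit 5) (nat_lit 62) (nat_lit 5) (nat_lit 63) (nat_lit 5) (nat_lit 280) (nat_lit 250) (nat_lit 190))))) (XT.nd (nat_lit 234) (nat_lit 608) (nat_lit 0) (XT.nd (nat_lit 78) (nat_lit 304) (nat_lit 0) (XT.lf (nat_lit 0) (nat_lit 2414608663) (nat_lit 380) (nat_lit 5005678157) (nat_lit 76) (nat_lit 9667458866) (nat_lit 57) (nat_lit 5) (nat_lit 62) (nat_lit 5) (nat_lit 58) (nat_lit 5) (nat_lit 281) (nat_lit 250) (nat_lit 189)) (XT.nd (nat_lit 78) (nat_lit 0) (nat_lit 0) (XT.lf (nat_lit 0) (nat_lit 6205585622) (nat_lit 380) (nat_lit 11416430301) (nat_lit 76) (nat_lit 53504131) (nat_lit 53) (nat_lit 5) (nat_lit 58) (nat_lit 5) (nat_lit 54) (nat_lit 5) (nat_lit 282) (nat_lit 250) (nat_lit 188)) (XT.lf (nat_lit 0) (nat_lit 10275903367) (nat_lit 380) (nat_lit 224728968) (nat_lit 76) (nat_lit 7789439710) (nat_lit 53) (nat_lit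 5) (nat_lit 58) (nat_lit 5) (nat_lit 54) (nat_lit 5) (nat_lit 283) (nat_lit 250) (nat_lit 187)))) (XT.nd (nat_lit 78) (nat_lit 380) (nat_lit 0) (XT.lf (nat_lit 0) (nat_lit 11707501750) (nat_lit 228) (nat_lit 2919401543) (nat_lit 304) (nat_lit 4306212081) (nat_lit 50) (nat_lit 5) (nat_lit 53) (nat_lit 5) (nat_lit 54) (nat_lit 5) (nat_lit 284) (nat_lit 250) (nat_lit 186)) (XT.nd (nat_lit 78) (nat_lit 76) (nat_lit 0) (XT.lf (nat_lit 0) (nat_lit 4627485842) (nat_lit 304) (nat_lit 14628993959) (nat_lit 380) (nat_lit 350075249) (nat_lit 46) (nat_lit 5) (nat_lit 50) (nat_lit 5) (nat_lit 51) (nat_lit 5) (nat_lit 285) (nat_lit 250) (nat_lit 185)) (XT.lf (nat_lit 0) (nat_lit 3800770649) (nat_lit 380) (nat_lit 3200485542) (nat_lit 76) (nat_lit 13309249013) (nat_lit 45) (nat_lit 5) (nat_lit 50) (nat_lit 5) (nat_lit 46) (nat_lit 5) (nat_lit 286) (nat_lit 250) (nat_lit 184))))))))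
noncomputable def xc71 : XT := (XT.nd (nat_lit 1638) (nat_lit 684) (nat_lit 0) (XT.nd (nat_lit 780) (nat_lit 760) (nat_lit 0) (XT.nd (nat_lit 390) (nat_lit 684) (nat_lit 0) (XT.nd (nat_lit 156) (nat_lit 304) (nat_lit 0) (XT.nd (nat_lit 78) (nat_lit 228) (nat_lit 0) (XT.lf (nat_lit 0) (nat_lit 8220017217) (nat_lit 304) (nat_lit 11757693493) (nat_lit 76) (nat_lit 1069861245) (nat_lit 42) (nat_lit 5) (nat_lit 46) (nat_lit 5) (nat_lit 43) (nat_lit 5) (nat_lit 287) (nat_lit 250) (nat_lit 183)) (XT.lf (nat_lit 0) (nat_lit 546919038) (nat_lit 228) (nat_lit 12391626210) (nat_lit 304) (nat_lit 8880660105) (nat_lit 39) (nat_lit 5) (nat_lit 42) (nat_lit 5) (nat_lit 43) (nat_lit 5) (nat_lit 288) (nat_lit 250) (nat_lit 182))) (XT.nd (nat_lit 78) (nat_lit 304) (nat_lit 0) (XT.lf (nat_lit 0) (nat_lit 13669822291) (nat_lit 228) (nat_lit 4314396927) (nat_lit 304) (nat_lit 4642524505) (nat_lit 39) (nat_lit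 5) (nat_lit 42) (nat_lit 5) (nat_lit 43) (nat_lit 5) (nat_lit 289) (nat_lit 250) (nat_lit 181)) (XT.nd (nat_lit 78) (nat_lit 76) (nat_lit 0) (XT.lf (nat_lit 0) (nat_lit 3970230294) (nat_lit 228) (nat_lit 19361650511) (nat_lit 304) (nat_lit 141344125) (nat_lit 36) (nat_lit 5) (nat_lit 39) (nat_lit 5) (nat_lit 40) (nat_lit 5) (nat_lit 290) (nat_lit 250) (nat_lit 180)) (XT.lf (nat_lit 0) (nat_lit 4604222286) (nat_lit 304) (nat_lit 6757705812) (nat_lit 76) (nat_lit 12995568809) (nat_lit 35) (nat_lit 5) (nat_lit 39) (nat_lit 5) (nat_lit 36) (nat_lit 5) (nat_lit 291) (nat_lit 250) (nat_lit 179))))) (XT.nd (nat_lit 156) (nat_lit 456) (nat_lit 0) (XT.nd (nat_lit 78) (nat_lit 0) (nat_lit 0) (XT.lf (nat_lit 0) (nat_lit 6715587403) (nat_lit 228) (nat_lit 2906597023) (nat_lit 304) (nat_lit 15662665080) (nat_lit 32) (nat_lit 5) (nat_lit 35) (nat_lit 5) (nat_lit 36) (nat_lit 5) (nat_lit 292) (nat_lit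 250) (nat_lit 178)) (XT.lf (nat_lit 0) (nat_lit 14992943176) (nat_lit 304) (nat_lit 5349276588) (nat_lit 76) (nat_lit 5913340853) (nat_lit 32) (nat_lit 5) (nat_lit 36) (nat_lit 5) (nat_lit 33) (nat_lit 5) (nat_lit 293) (nat_lit 250) (nat_lit 177))) (XT.nd (nat_lit 78) (nat_lit 304) (nat_lit 0) (XT.lf (nat_lit 0) (nat_lit 8634222889) (nat_lit 152) (nat_lit 12085821304) (nat_lit 228) (nat_lit 6552174516) (nat_lit 30) (nat_lit 5) (nat_lit 32) (nat_lit 5) (nat_lit 33) (nat_lit 5) (nat_lit 294) (nat_lit 250) (nat_lit 176)) (XT.nd (nat_lit 78) (nat_lit 304) (nat_lit 0) (XT.lf (nat_lit 0) (nat_lit 23393098457) (nat_lit 152) (nat_lit 3371763854) (nat_lit 228) (nat_lit 1573949923) (nat_lit 30) (nat_lit 5) (nat_lit 32) (nat_lit 5) (nat_lit 33) (nat_lit 5) (nat_lit 295) (nat_lit 250) (nat_lit 175)) (XT.lf (nat_lit 0) (nat_lit 3707528062) (nat_lit 304) (nat_lit 19964342601) (nat_lit 76) (nat_lit 5782082519)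 (nat_lit 26) (nat_lit 5) (nat_lit 30) (nat_lit 5) (nat_lit 27) (nat_lit 5) (nat_lit 296) (nat_lit 250) (nat_lit 174)))))) (XT.nd (nat_lit 390) (nat_lit 456) (nat_lit 0) (XT.nd (nat_lit 156) (nat_lit 152) (nat_lit 0) (XT.nd (nat_lit 78) (nat_lit 152) (nat_lit 0) (XT.lf (nat_lit 0) (nat_lit 9284097091) (nat_lit 304) (nat_lit 5957683366) (nat_lit 76) (nat_lit 15380734356) (nat_lit 26) (nat_lit 5) (nat_lit 30) (nat_lit 5) (nat_lit 27) (nat_lit 5) (nat_lit 297) (nat_lit 250) (nat_lit 173)) (XT.lf (nat_lit 0) (nat_lit 8890422318) (nat_lit 152) (nat_lit 6313407079) (nat_lit 228) (nat_lit 16643781472) (nat_lit 24) (nat_lit 5) (nat_lit 26) (nat_lit 5) (nat_lit 27) (nat_lit 5) (nat_lit 298) (nat_lit 250) (nat_lit 172))) (XT.nd (nat_lit 78) (nat_lit 152) (nat_lit 0) (XT.lf (nat_lit 0) (nat_lit 21490384963) (nat_lit 228) (nat_lit 8588709768) (nat_lit 76) (nat_lit 3052776551) (nat_lit 24) (nat_lit 5)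 (nat_lit 27) (nat_lit 5) (nat_lit 25) (nat_lit 5) (nat_lit 299) (nat_lit 250) (nat_lit 171)) (XT.nd (nat_lit 78) (nat_lit 0) (nat_lit 0) (XT.lf (nat_lit 0) (nat_lit 6531461461) (nat_lit 152) (nat_lit 21666763928) (nat_lit 228) (nat_lit 6278943621) (nat_lit 22) (nat_lit 5) (nat_lit 24) (nat_lit 5) (nat_lit 25) (nat_lit 5) (nat_lit 300) (nat_lit 250) (nat_lit 170)) (XT.lf (nat_lit 0) (nat_lit 22557532105) (nat_lit 152) (nat_lit 12753435392) (nat_lit 228) (nat_lit 576710272) (nat_lit 22) (nat_lit 5) (nat_lit 24) (nat_lit 5) (nat_lit 25) (nat_lit 5) (nat_lit 301) (nat_lit 250) (nat_lit 169))))) (XT.nd (nat_lit 234) (nat_lit 228) (nat_lit 0) (XT.nd (nat_lit 78) (nat_lit 0) (nat_lit 0) (XT.lf (nat_lit 0) (nat_lit 1974136015) (nat_lit 152) (nat_lit 3331683393) (nat_lit 228) (nat_lit 32061338344) (nat_lit 19) (nat_lit 5) (nat_lit 21) (nat_lit 5) (nat_lit 22) (nat_lit 5) (nat_lit 302) (nat_lit 250)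 (nat_lit 168)) (XT.nd (nat_lit 78) (nat_lit 0) (nat_lit 0) (XT.lf (nat_lit 0) (nat_lit 11654601740) (nat_lit 228) (nat_lit 20692761833) (nat_lit 76) (nat_lit 6567582937) (nat_lit 19) (nat_lit 5) (nat_lit 22) (nat_lit 5) (nat_lit 20) (nat_lit 5) (nat_lit 303) (nat_lit 250) (nat_lit 167)) (XT.lf (nat_lit 0) (nat_lit 18337585894) (nat_lit 228) (nat_lit 5317983108) (nat_lit 76) (nat_lit 16884079187) (nat_lit 19) (nat_lit 5) (nat_lit 22) (nat_lit 5) (nat_lit 20) (nat_lit 5) (nat_lit 304) (nat_lit 250) (nat_lit 166)))) (XT.nd (nat_lit 78) (nat_lit 76) (nat_lit 0) (XT.lf (nat_lit 0) (nat_lit 11014887357) (nat_lit 152) (nat_lit 14429652035) (nat_lit 228) (nat_lit 16798376064) (nat_lit 17) (nat_lit 5) (nat_lit 19) (nat_lit 5) (nat_lit 20) (nat_lit 5) (nat_lit 305) (nat_lit 250) (nat_lit 165)) (XT.nd (nat_lit 78) (nat_lit 76) (nat_lit 0) (XT.lf (nat_lit 0) (nat_lit 28250677687) (nat_lit 152) (nat_lit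 4695371056) (nat_lit 228) (nat_lit 11084145009) (nat_lit 17) (nat_lit 5) (nat_lit 19) (nat_lit 5) (nat_lit 20) (nat_lit 5) (nat_lit 306) (nat_lit 250) (nat_lit 164)) (XT.lf (nat_lit 0) (nat_lit 371503570) (nat_lit 76) (nat_lit 40492935515) (nat_lit 152) (nat_lit 5041165486) (nat_lit 16) (nat_lit 5) (nat_lit 17) (nat_lit 5) (nat_lit 18) (nat_lit 4) (nat_lit 307) (nat_lit 250) (nat_lit 163))))))) (XT.nd (nat_lit 780) (nat_lit 152) (nat_lit 0) (XT.nd (nat_lit 390) (nat_lit 304) (nat_lit 0) (XT.nd (nat_lit 156) (nat_lit 152) (nat_lit 0) (XT.nd (nat_lit 78) (nat_lit 0) (nat_lit 0) (XT.lf (nat_lit 0) (nat_lit 1475392964) (nat_lit 152) (nat_lit 30295300576) (nat_lit 76) (nat_lit 16097831163) (nat_lit 15) (nat_lit 5) (nat_lit 17) (nat_lit 5) (nat_lit 16) (nat_lit 5) (nat_lit 308) (nat_lit 250) (nat_lit 162)) (XT.lf (nat_lit 0) (nat_lit 8200621831) (nat_lit 152) (nat_lit 14367987651) (nat_lit 76)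 (nat_lit 27359890992) (nat_lit 15) (nat_lit 5) (nat_lit 17) (nat_lit 5) (nat_lit 16) (nat_lit 5) (nat_lit 309) (nat_lit 250) (nat_lit 161))) (XT.nd (nat_lit 78) (nat_lit 0) (nat_lit 0) (XT.lf (nat_lit 0) (nat_lit 2380674242) (nat_lit 152) (nat_lit 12891115117) (nat_lit 228) (nat_lit 36819414459) (nat_lit 13) (nat_lit 5) (nat_lit 15) (nat_lit 5) (nat_lit 16) (nat_lit 5) (nat_lit 310) (nat_lit 250) (nat_lit 160)) (XT.nd (nat_lit 78) (nat_lit 0) (nat_lit 0) (XT.lf (nat_lit 0) (nat_lit 20246161205) (nat_lit 152) (nat_lit 2585480964) (nat_lit 228) (nat_lit 31526364541) (nat_lit 13) (nat_lit 5) (nat_lit 15) (nat_lit 5) (nat_lit 16) (nat_lit 5) (nat_lit 311) (nat_lit 250) (nat_lit 159)) (XT.lf (nat_lit 0) (nat_lit 30836407375) (nat_lit 228) (nat_lit 17832563286) (nat_lit 76) (nat_lit 8067188819) (nat_lit 13) (nat_lit 5) (nat_lit 16) (nat_lit 5) (nat_lit 14) (nat_lit 4) (nat_lit 312) (nat_lit 250)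 (nat_lit 158))))) (XT.nd (nat_lit 156) (nat_lit 228) (nat_lit 0) (XT.nd (nat_lit 78) (nat_lit 76) (nat_lit 0) (XT.lf (nat_lit 0) (nat_lit 39255845502) (nat_lit 228) (nat_lit 784624284) (nat_lit 76) (nat_lit 19192333560) (nat_lit 13) (nat_lit 5) (nat_lit 16) (nat_lit 5) (nat_lit 14) (nat_lit 4) (nat_lit 313) (nat_lit 250) (nat_lit 157)) (XT.lf (nat_lit 0) (nat_lit 17437687140) (nat_lit 76) (nat_lit 30815084185) (nat_lit 152) (nat_lit 13596828319) (nat_lit 12) (nat_lit 5) (nat_lit 13) (nat_lit 5) (nat_lit 14) (nat_lit 4) (nat_lit 314) (nat_lit 250) (nat_lit 156))) (XT.nd (nat_lit 78) (nat_lit 228) (nat_lit 0) (XT.lf (nat_lit 0) (nat_lit 36569738332) (nat_lit 76) (nat_lit 21127134212) (nat_lit 152) (nat_lit 6900458305) (nat_lit 12) (nat_lit 5) (nat_lit 13) (nat_lit 5) (nat_lit 14) (nat_lit 4) (nat_lit 315) (nat_lit 250) (nat_lit 155)) (XT.nd (nat_lit 78) (nat_lit 152) (nat_lit 0) (XT.lf (nat_lit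 0) (nat_lit 117827764) (nat_lit 152) (nat_lit 10842458893) (nat_lit 76) (nat_lit 56522448638) (nat_lit 11) (nat_lit 5) (nat_lit 13) (nat_lit 5) (nat_lit 12) (nat_lit 5) (nat_lit 316) (nat_lit 250) (nat_lit 154)) (XT.lf (nat_lit 0) (nat_lit 7257575617) (nat_lit 152) (nat_lit 147972841) (nat_lit 228) (nat_lit 63102988071) (nat_lit 9) (nat_lit 5) (nat_lit 11) (nat_lit 5) (nat_lit 12) (nat_lit 5) (nat_lit 317) (nat_lit 250) (nat_lit 153)))))) (XT.nd (nat_lit 390) (nat_lit 76) (nat_lit 0) (XT.nd (nat_lit 156) (nat_lit 76) (nat_lit 0) (XT.nd (nat_lit 78) (nat_lit 0) (nat_lit 0) (XT.lf (nat_lit 0) (nat_lit 15268480452) (nat_lit 228) (nat_lit 47318005260) (nat_lit 76) (nat_lit 11092829905) (nat_lit 9) (nat_lit 5) (nat_lit 12) (nat_lit 5) (nat_lit 10) (nat_lit 4) (nat_lit 318) (nat_lit 250) (nat_lit 152)) (XT.lf (nat_lit 0) (nat_lit 23516907558) (nat_lit 228) (nat_lit 30605227934) (nat_lit 76) (nat_lit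 22886739664) (nat_lit 9) (nat_lit 5) (nat_lit 12) (nat_lit 5) (nat_lit 10) (nat_lit 4) (nat_lit 319) (nat_lit 250) (nat_lit 151))) (XT.nd (nat_lit 78) (nat_lit 76) (nat_lit 0) (XT.lf (nat_lit 0) (nat_lit 32169046482) (nat_lit 228) (nat_lit 13071414204) (nat_lit 76) (nat_lit 35264724658) (nat_lit 9) (nat_lit 5) (nat_lit 12) (nat_lit 5) (nat_lit 10) (nat_lit 4) (nat_lit 320) (nat_lit 250) (nat_lit 150)) (XT.nd (nat_lit 78) (nat_lit 0) (nat_lit 0) (XT.lf (nat_lit 0) (nat_lit 5431164693) (nat_lit 76) (nat_lit 35866540539) (nat_lit 152) (nat_lit 42877299263) (nat_lit 8) (nat_lit 5) (nat_lit 9) (nat_lit 5) (nat_lit 10) (nat_lit 4) (nat_lit 321) (nat_lit 250) (nat_lit 149)) (XT.lf (nat_lit 0) (nat_lit 25118518185) (nat_lit 76) (nat_lit 25890807752) (nat_lit 152) (nat_lit 37015203122) (nat_lit 8) (nat_lit 5) (nat_lit 9) (nat_lit 5) (nat_lit 10) (nat_lit 4) (nat_lit 322) (nat_lit 250) (nat_lit 148)))))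 (XT.nd (nat_lit 234) (nat_lit 76) (nat_lit 0) (XT.nd (nat_lit 78) (nat_lit 0) (nat_lit 0) (XT.lf (nat_lit 0) (nat_lit 45777374151) (nat_lit 76) (nat_lit 15421506233) (nat_lit 152) (nat_lit 30867888720) (nat_lit 8) (nat_lit 5) (nat_lit 9) (nat_lit 5) (nat_lit 10) (nat_lit 4) (nat_lit 323) (nat_lit 250) (nat_lit 147)) (XT.nd (nat_lit 78) (nat_lit 0) (nat_lit 0) (XT.lf (nat_lit 0) (nat_lit 67456920342) (nat_lit 76) (nat_lit 4433709074) (nat_lit 152) (nat_lit 24420719594) (nat_lit 8) (nat_lit 5) (nat_lit 9) (nat_lit 5) (nat_lit 10) (nat_lit 4) (nat_lit 324) (nat_lit 250) (nat_lit 146)) (XT.lf (nat_lit 0) (nat_lit 83178267061) (nat_lit 152) (nat_lit 10627837676) (nat_lit 0) (nat_lit 6960223060) (nat_lit 8) (nat_lit 5) (nat_lit 10) (nat_lit 4) (nat_lit 8) (nat_lit 4) (nat_lit 325) (nat_lit 250) (nat_lit 145)))) (XT.nd (nat_lit 78) (nat_lit 0) (nat_lit 0) (XT.lf (nat_lit 0) (nat_lit 8622307856)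 (nat_lit 76) (nat_lit 86528962781) (nat_lit 76) (nat_lit 10289163859) (nat_lit 7) (nat_lit 4) (nat_lit 8) (nat_lit 5) (nat_lit 8) (nat_lit 4) (nat_lit 326) (nat_lit 250) (nat_lit 144)) (XT.nd (nat_lit 31590) (nat_lit 0) (nat_lit 13376) (XT.lf (nat_lit 0) (nat_lit 29046097669) (nat_lit 76) (nat_lit 78779792930) (nat_lit 76) (nat_lit 2519275036) (nat_lit 7) (nat_lit 4) (nat_lit 8) (nat_lit 5) (nat_lit 8) (nat_lit 4) (nat_lit 327) (nat_lit 250) (nat_lit 143)) (XT.lf (nat_lit 0) (nat_lit 2968773419) (nat_lit 836) (nat_lit 492231444) (nat_lit 836) (nat_lit 492231444) (nat_lit 183) (nat_lit 3) (nat_lit 194) (nat_lit 3) (nat_lit 194) (nat_lit 5) (nat_lit 251) (nat_lit 251) (nat_lit 218))))))))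
noncomputable def xc72 : XT := (XT.nd (nat_lit 1560) (nat_lit 4332) (nat_lit 0) (XT.nd (nat_lit 780) (nat_lit 5320) (nat_lit 0) (XT.nd (nat_lit 390) (nat_lit 836) (nat_lit 0) (XT.nd (nat_lit 156) (nat_lit 0) (nat_lit 0) (XT.nd (nat_lit 78) (nat_lit 760) (nat_lit 0) (XT.lf (nat_lit 76) (nat_lit 4471492411) (nat_lit 0) (nat_lit 3442367541) (nat_lit 836) (nat_lit 128900909) (nat_lit 184) (nat_lit 5) (nat_lit 183) (nat_lit 3) (nat_lit 194) (nat_lit 5) (nat_lit 252) (nat_lit 251) (nat_lit 217)) (XT.lf (nat_lit 0) (nat_lit 1683965195) (nat_lit 836) (nat_lit 6197583648) (nat_lit 912) (nat_lit 306720212) (nat_lit 173) (nat_lit 5) (nat_lit 184) (nat_lit 5) (nat_lit 185) (nat_lit 5) (nat_lit 253) (nat_lit 251) (nat_lit 216))) (XT.nd (nat_lit 78) (nat_lit 0) (nat_lit 76) (XT.lf (nat_lit 0) (nat_lit 3545761225) (nat_lit 836) (nat_lit 536350653) (nat_lit 912) (nat_lit 4260460857) (nat_lit 173) (nat_lit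 5) (nat_lit 184) (nat_lit 5) (nat_lit 185) (nat_lit 5) (nat_lit 254) (nat_lit 251) (nat_lit 215)) (XT.nd (nat_lit 78) (nat_lit 0) (nat_lit 0) (XT.lf (nat_lit 0) (nat_lit 5447440048) (nat_lit 836) (nat_lit 3054513845) (nat_lit 912) (nat_lit 4602426) (nat_lit 174) (nat_lit 5) (nat_lit 185) (nat_lit 5) (nat_lit 186) (nat_lit 5) (nat_lit 255) (nat_lit 251) (nat_lit 214)) (XT.lf (nat_lit 76) (nat_lit 3026042858) (nat_lit 0) (nat_lit 4393206852) (nat_lit 912) (nat_lit 1260588926) (nat_lit 175) (nat_lit 5) (nat_lit 174) (nat_lit 5) (nat_lit 186) (nat_lit 5) (nat_lit 256) (nat_lit 251) (nat_lit 213))))) (XT.nd (nat_lit 156) (nat_lit 0) (nat_lit 152) (XT.nd (nat_lit 78) (nat_lit 0) (nat_lit 76) (XT.lf (nat_lit 76) (nat_lit 553396774) (nat_lit 0) (nat_lit 1388351) (nat_lit 988) (nat_lit 8308968229) (nat_lit 163) (nat_lit 5) (nat_lit 162) (nat_lit 5) (nat_lit 175) (nat_lit 5) (nat_lit 257) (nat_lit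 251) (nat_lit 212)) (XT.lf (nat_lit 0) (nat_lit 2444644971) (nat_lit 912) (nat_lit 1989875217) (nat_lit 988) (nat_lit 4621984608) (nat_lit 163) (nat_lit 5) (nat_lit 175) (nat_lit 5) (nat_lit 176) (nat_lit 5) (nat_lit 258) (nat_lit 251) (nat_lit 211))) (XT.nd (nat_lit 78) (nat_lit 0) (nat_lit 0) (XT.lf (nat_lit 0) (nat_lit 4387643823) (nat_lit 912) (nat_lit 4588547361) (nat_lit 988) (nat_lit 284237591) (nat_lit 164) (nat_lit 5) (nat_lit 176) (nat_lit 5) (nat_lit 177) (nat_lit 5) (nat_lit 259) (nat_lit 251) (nat_lit 210)) (XT.nd (nat_lit 78) (nat_lit 0) (nat_lit 76) (XT.lf (nat_lit 76) (nat_lit 2167352183) (nat_lit 0) (nat_lit 4261514290) (nat_lit 988) (nat_lit 3045930592) (nat_lit 165) (nat_lit 5) (nat_lit 164) (nat_lit 5) (nat_lit 177) (nat_lit 5) (nat_lit 260) (nat_lit 251) (nat_lit 209)) (XT.lf (nat_lit 0) (nat_lit 8544910992) (nat_lit 912) (nat_lit 414035518) (nat_lit 76) (nat_lit 742021415)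 (nat_lit 165) (nat_lit 5) (nat_lit 177) (nat_lit 5) (nat_lit 166) (nat_lit 5) (nat_lit 261) (nat_lit 251) (nat_lit 208)))))) (XT.nd (nat_lit 390) (nat_lit 1976) (nat_lit 0) (XT.nd (nat_lit 156) (nat_lit 1596) (nat_lit 0) (XT.nd (nat_lit 78) (nat_lit 988) (nat_lit 0) (XT.lf (nat_lit 0) (nat_lit 843409080) (nat_lit 988) (nat_lit 3093584428) (nat_lit 76) (nat_lit 6000523953) (nat_lit 152) (nat_lit 5) (nat_lit 165) (nat_lit 5) (nat_lit 153) (nat_lit 5) (nat_lit 262) (nat_lit 251) (nat_lit 207)) (XT.lf (nat_lit 0) (nat_lit 2902776484) (nat_lit 1064) (nat_lit 5902629463) (nat_lit 76) (nat_lit 1380865135) (nat_lit 139) (nat_lit 5) (nat_lit 153) (nat_lit 5) (nat_lit 140) (nat_lit 5) (nat_lit 263) (nat_lit 251) (nat_lit 206))) (XT.nd (nat_lit 78) (nat_lit 532) (nat_lit 0) (XT.lf (nat_lit 0) (nat_lit 1575579913) (nat_lit 1064) (nat_lit 3504169178) (nat_lit 1140) (nat_lit 5367498098) (nat_lit 125)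 (nat_lit 5) (nat_lit 139) (nat_lit 5) (nat_lit 140) (nat_lit 5) (nat_lit 264) (nat_lit 251) (nat_lit 205)) (XT.nd (nat_lit 78) (nat_lit 532) (nat_lit 0) (XT.lf (nat_lit 0) (nat_lit 7377290419) (nat_lit 1140) (nat_lit 1252382448) (nat_lit 76) (nat_lit 2091460877) (nat_lit 125) (nat_lit 5) (nat_lit 140) (nat_lit 5) (nat_lit 126) (nat_lit 5) (nat_lit 265) (nat_lit 251) (nat_lit 204)) (XT.lf (nat_lit 0) (nat_lit 6784355385) (nat_lit 532) (nat_lit 3039778822) (nat_lit 608) (nat_lit 1183750751) (nat_lit 118) (nat_lit 5) (nat_lit 125) (nat_lit 5) (nat_lit 126) (nat_lit 5) (nat_lit 266) (nat_lit 251) (nat_lit 203))))) (XT.nd (nat_lit 156) (nat_lit 912) (nat_lit 0) (XT.nd (nat_lit 78) (nat_lit 532) (nat_lit 0) (XT.lf (nat_lit 0) (nat_lit 1077600085) (nat_lit 532) (nat_lit 7390385655) (nat_lit 76) (nat_lit 2840430684) (nat_lit 111) (nat_lit 5) (nat_lit 118) (nat_lit 5) (nat_lit 112) (nat_lit 5) (nat_lit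 267) (nat_lit 251) (nat_lit 202)) (XT.lf (nat_lit 0) (nat_lit 845084892) (nat_lit 532) (nat_lit 2603535607) (nat_lit 608) (nat_lit 8174548684) (nat_lit 104) (nat_lit 5) (nat_lit 111) (nat_lit 5) (nat_lit 112) (nat_lit 5) (nat_lit 268) (nat_lit 251) (nat_lit 201))) (XT.nd (nat_lit 78) (nat_lit 912) (nat_lit 0) (XT.lf (nat_lit 0) (nat_lit 5989716315) (nat_lit 608) (nat_lit 2400356538) (nat_lit 76) (nat_lit 3562211327) (nat_lit 104) (nat_lit 5) (nat_lit 112) (nat_lit 5) (nat_lit 105) (nat_lit 5) (nat_lit 269) (nat_lit 251) (nat_lit 200)) (XT.nd (nat_lit 78) (nat_lit 456) (nat_lit 0) (XT.lf (nat_lit 0) (nat_lit 6437670395) (nat_lit 456) (nat_lit 2251718511) (nat_lit 532) (nat_lit 3607682576) (nat_lit 98) (nat_lit 5) (nat_lit 104) (nat_lit 5) (nat_lit 105) (nat_lit 5) (nat_lit 270) (nat_lit 251) (nat_lit 199)) (XT.lf (nat_lit 0) (nat_lit 3070725024) (nat_lit 456) (nat_lit 8493603038) (nat_lit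 532) (nat_lit 1093716094) (nat_lit 92) (nat_lit 5) (nat_lit 98) (nat_lit 5) (nat_lit 99) (nat_lit 5) (nat_lit 271) (nat_lit 251) (nat_lit 198))))))) (XT.nd (nat_lit 780) (nat_lit 1748) (nat_lit 0) (XT.nd (nat_lit 390) (nat_lit 1368) (nat_lit 0) (XT.nd (nat_lit 156) (nat_lit 760) (nat_lit 0) (XT.nd (nat_lit 78) (nat_lit 380) (nat_lit 0) (XT.lf (nat_lit 0) (nat_lit 1546313185) (nat_lit 532) (nat_lit 561217704) (nat_lit 76) (nat_lit 10928315662) (nat_lit 91) (nat_lit 5) (nat_lit 98) (nat_lit 5) (nat_lit 92) (nat_lit 5) (nat_lit 272) (nat_lit 251) (nat_lit 197)) (XT.lf (nat_lit 0) (nat_lit 4377245874) (nat_lit 456) (nat_lit 4449931554) (nat_lit 76) (nat_lit 4602727170) (nat_lit 86) (nat_lit 5) (nat_lit 92) (nat_lit 5) (nat_lit 87) (nat_lit 5) (nat_lit 273) (nat_lit 251) (nat_lit 196))) (XT.nd (nat_lit 78) (nat_lit 380) (nat_lit 0) (XT.lf (nat_lit 0) (nat_lit 5191626341) (nat_lit 380) (nat_lit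 2186381642) (nat_lit 456) (nat_lit 6464938650) (nat_lit 81) (nat_lit 5) (nat_lit 86) (nat_lit 5) (nat_lit 87) (nat_lit 5) (nat_lit 274) (nat_lit 251) (nat_lit 195)) (XT.nd (nat_lit 78) (nat_lit 0) (nat_lit 0) (XT.lf (nat_lit 0) (nat_lit 1052347329) (nat_lit 380) (nat_lit 9531867985) (nat_lit 456) (nat_lit 3690886643) (nat_lit 76) (nat_lit 5) (nat_lit 81) (nat_lit 5) (nat_lit 82) (nat_lit 5) (nat_lit 275) (nat_lit 251) (nat_lit 194)) (XT.lf (nat_lit 0) (nat_lit 11346336890) (nat_lit 380) (nat_lit 2670050826) (nat_lit 456) (nat_lit 710625214) (nat_lit 76) (nat_lit 5) (nat_lit 81) (nat_lit 5) (nat_lit 82) (nat_lit 5) (nat_lit 276) (nat_lit 251) (nat_lit 193))))) (XT.nd (nat_lit 156) (nat_lit 608) (nat_lit 0) (XT.nd (nat_lit 78) (nat_lit 304) (nat_lit 0) (XT.lf (nat_lit 0) (nat_lit 2439668093) (nat_lit 456) (nat_lit 8229062179) (nat_lit 76) (nat_lit 4530153899) (nat_lit 70) (nat_lit 5) (nat_lit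 76) (nat_lit 5) (nat_lit 71) (nat_lit 5) (nat_lit 277) (nat_lit 251) (nat_lit 192)) (XT.lf (nat_lit 0) (nat_lit 2171700714) (nat_lit 304) (nat_lit 3602068785) (nat_lit 380) (nat_lit 9919242184) (nat_lit 66) (nat_lit 5) (nat_lit 70) (nat_lit 5) (nat_lit 71) (nat_lit 5) (nat_lit 278) (nat_lit 251) (nat_lit 191))) (XT.nd (nat_lit 78) (nat_lit 608) (nat_lit 0) (XT.lf (nat_lit 0) (nat_lit 9356144659) (nat_lit 380) (nat_lit 3033528199) (nat_lit 76) (nat_lit 3819824216) (nat_lit 66) (nat_lit 5) (nat_lit 71) (nat_lit 5) (nat_lit 67) (nat_lit 5) (nat_lit 279) (nat_lit 251) (nat_lit 190)) (XT.nd (nat_lit 78) (nat_lit 304) (nat_lit 0) (XT.lf (nat_lit 0) (nat_lit 8050670503) (nat_lit 304) (nat_lit 5141968587) (nat_lit 380) (nat_lit 3557011501) (nat_lit 62) (nat_lit 5) (nat_lit 66) (nat_lit 5) (nat_lit 67) (nat_lit 5) (nat_lit 280) (nat_lit 251) (nat_lit 189)) (XT.lf (nat_lit 0) (nat_lit 2411180455)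 (nat_lit 304) (nat_lit 14850767611) (nat_lit 380) (nat_lit 53723423) (nat_lit 58) (nat_lit 5) (nat_lit 62) (nat_lit 5) (nat_lit 63) (nat_lit 5) (nat_lit 281) (nat_lit 251) (nat_lit 188)))))) (XT.nd (nat_lit 390) (nat_lit 760) (nat_lit 0) (XT.nd (nat_lit 156) (nat_lit 608) (nat_lit 0) (XT.nd (nat_lit 78) (nat_lit 304) (nat_lit 0) (XT.lf (nat_lit 0) (nat_lit 3659771943) (nat_lit 380) (nat_lit 3784157788) (nat_lit 76) (nat_lit 10461927839) (nat_lit 57) (nat_lit 5) (nat_lit 62) (nat_lit 5) (nat_lit 58) (nat_lit 5) (nat_lit 282) (nat_lit 251) (nat_lit 187)) (XT.lf (nat_lit 0) (nat_lit 7603811868) (nat_lit 380) (nat_lit 10525992444) (nat_lit 76) (nat_lit 394431987) (nat_lit 53) (nat_lit 5) (nat_lit 58) (nat_lit 5) (nat_lit 54) (nat_lit 5) (nat_lit 283) (nat_lit 251) (nat_lit 186))) (XT.nd (nat_lit 78) (nat_lit 380) (nat_lit 0) (XT.lf (nat_lit 0) (nat_lit 1178711073) (nat_lit 228) (nat_lit 10658457920)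 (nat_lit 304) (nat_lit 7333676494) (nat_lit 50) (nat_lit 5) (nat_lit 53) (nat_lit 5) (nat_lit 54) (nat_lit 5) (nat_lit 284) (nat_lit 251) (nat_lit 185)) (XT.nd (nat_lit 78) (nat_lit 380) (nat_lit 0) (XT.lf (nat_lit 0) (nat_lit 13644660328) (nat_lit 228) (nat_lit 2713382268) (nat_lit 304) (nat_lit 3489538489) (nat_lit 50) (nat_lit 5) (nat_lit 53) (nat_lit 5) (nat_lit 54) (nat_lit 5) (nat_lit 285) (nat_lit 251) (nat_lit 184)) (XT.lf (nat_lit 0) (nat_lit 619529695) (nat_lit 380) (nat_lit 14361940223) (nat_lit 76) (nat_lit 5574090081) (nat_lit 45) (nat_lit 5) (nat_lit 50) (nat_lit 5) (nat_lit 46) (nat_lit 5) (nat_lit 286) (nat_lit 251) (nat_lit 183))))) (XT.nd (nat_lit 234) (nat_lit 304) (nat_lit 0) (XT.nd (nat_lit 78) (nat_lit 456) (nat_lit 0) (XT.lf (nat_lit 0) (nat_lit 4924081483) (nat_lit 380) (nat_lit 2062844056) (nat_lit 76) (nat_lit 14309172728) (nat_lit 45) (nat_lit 5) (nat_lit 50) (nat_lit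 5) (nat_lit 46) (nat_lit 5) (nat_lit 287) (nat_lit 251) (nat_lit 182)) (XT.nd (nat_lit 78) (nat_lit 228) (nat_lit 0) (XT.lf (nat_lit 0) (nat_lit 9535421174) (nat_lit 304) (nat_lit 11059695325) (nat_lit 76) (nat_lit 1475860030) (nat_lit 42) (nat_lit 5) (nat_lit 46) (nat_lit 5) (nat_lit 43) (nat_lit 5) (nat_lit 288) (nat_lit 251) (nat_lit 181)) (XT.lf (nat_lit 0) (nat_lit 1823288260) (nat_lit 228) (nat_lit 12635526909) (nat_lit 304) (nat_lit 8423395952) (nat_lit 39) (nat_lit 5) (nat_lit 42) (nat_lit 5) (nat_lit 43) (nat_lit 5) (nat_lit 289) (nat_lit 251) (nat_lit 180)))) (XT.nd (nat_lit 78) (nat_lit 304) (nat_lit 0) (XT.lf (nat_lit 0) (nat_lit 15542859376) (nat_lit 228) (nat_lit 4172325714) (nat_lit 304) (nat_lit 4016272485) (nat_lit 39) (nat_lit 5) (nat_lit 42) (nat_lit 5) (nat_lit 43) (nat_lit 5) (nat_lit 290) (nat_lit 251) (nat_lit 179)) (XT.nd (nat_lit 78) (nat_lit 0) (nat_lit 0) (XT.lf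 (nat_lit 0) (nat_lit 670778784) (nat_lit 304) (nat_lit 19280959773) (nat_lit 76) (nat_lit 4669156809) (nat_lit 35) (nat_lit 5) (nat_lit 39) (nat_lit 5) (nat_lit 36) (nat_lit 5) (nat_lit 291) (nat_lit 251) (nat_lit 178)) (XT.lf (nat_lit 0) (nat_lit 5611856331) (nat_lit 304) (nat_lit 5956773983) (nat_lit 76) (nat_lit 13981947525) (nat_lit 35) (nat_lit 5) (nat_lit 39) (nat_lit 5) (nat_lit 36) (nat_lit 5) (nat_lit 292) (nat_lit 251) (nat_lit 177))))))))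
noncomputable def xc73 : XT := (XT.nd (nat_lit 1560) (nat_lit 456) (nat_lit 0) (XT.nd (nat_lit 780) (nat_lit 684) (nat_lit 0) (XT.nd (nat_lit 390) (nat_lit 304) (nat_lit 0) (XT.nd (nat_lit 156) (nat_lit 456) (nat_lit 0) (XT.nd (nat_lit 78) (nat_lit 0) (nat_lit 0) (XT.lf (nat_lit 0) (nat_lit 8157539927) (nat_lit 228) (nat_lit 2696789724) (nat_lit 304) (nat_lit 15670830083) (nat_lit 32) (nat_lit 5) (nat_lit 35) (nat_lit 5) (nat_lit 36) (nat_lit 5) (nat_lit 293) (nat_lit 251) (nat_lit 176)) (XT.lf (nat_lit 0) (nat_lit 16461113953) (nat_lit 304) (nat_lit 4543700793) (nat_lit 76) (nat_lit 6540633748) (nat_lit 32) (nat_lit 5) (nat_lit 36) (nat_lit 5) (nat_lit 33) (nat_lit 5) (nat_lit 294) (nat_lit 251) (nat_lit 175))) (XT.nd (nat_lit 78) (nat_lit 304) (nat_lit 0) (XT.lf (nat_lit 0) (nat_lit 10108215193) (nat_lit 152) (nat_lit 12342158463) (nat_lit 228) (nat_lit 6163355272) (nat_lit 30) (nat_lit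 5) (nat_lit 32) (nat_lit 5) (nat_lit 33) (nat_lit 5) (nat_lit 295) (nat_lit 251) (nat_lit 174)) (XT.nd (nat_lit 78) (nat_lit 304) (nat_lit 0) (XT.lf (nat_lit 0) (nat_lit 25555402102) (nat_lit 152) (nat_lit 3208967373) (nat_lit 228) (nat_lit 970335068) (nat_lit 30) (nat_lit 5) (nat_lit 32) (nat_lit 5) (nat_lit 33) (nat_lit 5) (nat_lit 296) (nat_lit 251) (nat_lit 173)) (XT.lf (nat_lit 0) (nat_lit 4542637853) (nat_lit 304) (nat_lit 19966964153) (nat_lit 76) (nat_lit 6396437667) (nat_lit 26) (nat_lit 5) (nat_lit 30) (nat_lit 5) (nat_lit 27) (nat_lit 5) (nat_lit 297) (nat_lit 251) (nat_lit 172))))) (XT.nd (nat_lit 156) (nat_lit 152) (nat_lit 0) (XT.nd (nat_lit 78) (nat_lit 152) (nat_lit 0) (XT.lf (nat_lit 0) (nat_lit 10367095647) (nat_lit 304) (nat_lit 5307381270) (nat_lit 76) (nat_lit 16459533951) (nat_lit 26) (nat_lit 5) (nat_lit 30) (nat_lit 5) (nat_lit 27) (nat_lit 5) (nat_lit 298) (nat_lit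 251) (nat_lit 171)) (XT.lf (nat_lit 0) (nat_lit 10255950130) (nat_lit 152) (nat_lit 6306251352) (nat_lit 228) (nat_lit 16858829394) (nat_lit 24) (nat_lit 5) (nat_lit 26) (nat_lit 5) (nat_lit 27) (nat_lit 5) (nat_lit 299) (nat_lit 251) (nat_lit 170))) (XT.nd (nat_lit 78) (nat_lit 152) (nat_lit 0) (XT.lf (nat_lit 0) (nat_lit 23137555465) (nat_lit 228) (nat_lit 8125893798) (nat_lit 76) (nat_lit 3506869266) (nat_lit 24) (nat_lit 5) (nat_lit 27) (nat_lit 5) (nat_lit 25) (nat_lit 5) (nat_lit 300) (nat_lit 251) (nat_lit 169)) (XT.nd (nat_lit 78) (nat_lit 0) (nat_lit 0) (XT.lf (nat_lit 0) (nat_lit 7724709784) (nat_lit 152) (nat_lit 22437140035) (nat_lit 228) (nat_lit 6021645505) (nat_lit 22) (nat_lit 5) (nat_lit 24) (nat_lit 5) (nat_lit 25) (nat_lit 5) (nat_lit 301) (nat_lit 251) (nat_lit 168)) (XT.lf (nat_lit 0) (nat_lit 24510813709) (nat_lit 152) (nat_lit 13093048028) (nat_lit 228) (nat_lit 61502646)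 (nat_lit 22) (nat_lit 5) (nat_lit 24) (nat_lit 5) (nat_lit 25) (nat_lit 5) (nat_lit 302) (nat_lit 251) (nat_lit 167)))))) (XT.nd (nat_lit 390) (nat_lit 304) (nat_lit 0) (XT.nd (nat_lit 156) (nat_lit 152) (nat_lit 0) (XT.nd (nat_lit 78) (nat_lit 0) (nat_lit 0) (XT.lf (nat_lit 0) (nat_lit 2885726628) (nat_lit 152) (nat_lit 3201223304) (nat_lit 228) (nat_lit 33132279704) (nat_lit 19) (nat_lit 5) (nat_lit 21) (nat_lit 5) (nat_lit 22) (nat_lit 5) (nat_lit 303) (nat_lit 251) (nat_lit 166)) (XT.lf (nat_lit 0) (nat_lit 12731326994) (nat_lit 228) (nat_lit 20940433787) (nat_lit 76) (nat_lit 7173340994) (nat_lit 19) (nat_lit 5) (nat_lit 22) (nat_lit 5) (nat_lit 20) (nat_lit 5) (nat_lit 304) (nat_lit 251) (nat_lit 165))) (XT.nd (nat_lit 78) (nat_lit 152) (nat_lit 0) (XT.lf (nat_lit 0) (nat_lit 19724936776) (nat_lit 228) (nat_lit 4834390704) (nat_lit 76) (nat_lit 17992453537) (nat_lit 19) (nat_lit 5)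 (nat_lit 22) (nat_lit 5) (nat_lit 20) (nat_lit 5) (nat_lit 305) (nat_lit 251) (nat_lit 164)) (XT.nd (nat_lit 78) (nat_lit 0) (nat_lit 0) (XT.lf (nat_lit 0) (nat_lit 12293639259) (nat_lit 152) (nat_lit 14878193335) (nat_lit 228) (nat_lit 17168876234) (nat_lit 17) (nat_lit 5) (nat_lit 19) (nat_lit 5) (nat_lit 20) (nat_lit 5) (nat_lit 306) (nat_lit 251) (nat_lit 163)) (XT.lf (nat_lit 0) (nat_lit 30356552080) (nat_lit 152) (nat_lit 4670195512) (nat_lit 228) (nat_lit 11191286895) (nat_lit 17) (nat_lit 5) (nat_lit 19) (nat_lit 5) (nat_lit 20) (nat_lit 5) (nat_lit 307) (nat_lit 251) (nat_lit 162))))) (XT.nd (nat_lit 156) (nat_lit 152) (nat_lit 0) (XT.nd (nat_lit 78) (nat_lit 76) (nat_lit 0) (XT.lf (nat_lit 0) (nat_lit 1074394809) (nat_lit 76) (nat_lit 42254982536) (nat_lit 152) (nat_lit 4858220669) (nat_lit 16) (nat_lit 5) (nat_lit 17) (nat_lit 5) (nat_lit 18) (nat_lit 4) (nat_lit 308) (nat_lit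 251) (nat_lit 161)) (XT.lf (nat_lit 0) (nat_lit 1955367006) (nat_lit 152) (nat_lit 31149664338) (nat_lit 76) (nat_lit 17144146042) (nat_lit 15) (nat_lit 5) (nat_lit 17) (nat_lit 5) (nat_lit 16) (nat_lit 5) (nat_lit 309) (nat_lit 251) (nat_lit 160))) (XT.nd (nat_lit 78) (nat_lit 152) (nat_lit 0) (XT.lf (nat_lit 0) (nat_lit 8997514250) (nat_lit 152) (nat_lit 14457433446) (nat_lit 76) (nat_lit 28957812514) (nat_lit 15) (nat_lit 5) (nat_lit 17) (nat_lit 5) (nat_lit 16) (nat_lit 5) (nat_lit 310) (nat_lit 251) (nat_lit 159)) (XT.nd (nat_lit 78) (nat_lit 0) (nat_lit 0) (XT.lf (nat_lit 0) (nat_lit 3110632714) (nat_lit 152) (nat_lit 13299058055) (nat_lit 228) (nat_lit 38274311074) (nat_lit 13) (nat_lit 5) (nat_lit 15) (nat_lit 5) (nat_lit 16) (nat_lit 5) (nat_lit 311) (nat_lit 251) (nat_lit 158)) (XT.lf (nat_lit 0) (nat_lit 21840302370) (nat_lit 152) (nat_lit 2489409473) (nat_lit 228) (nat_lit 32734993141)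 (nat_lit 13) (nat_lit 5) (nat_lit 15) (nat_lit 5) (nat_lit 16) (nat_lit 5) (nat_lit 312) (nat_lit 251) (nat_lit 157))))))) (XT.nd (nat_lit 780) (nat_lit 76) (nat_lit 0) (XT.nd (nat_lit 390) (nat_lit 228) (nat_lit 0) (XT.nd (nat_lit 156) (nat_lit 152) (nat_lit 0) (XT.nd (nat_lit 78) (nat_lit 0) (nat_lit 0) (XT.lf (nat_lit 0) (nat_lit 32719802718) (nat_lit 228) (nat_lit 18161459062) (nat_lit 76) (nat_lit 8680975152) (nat_lit 13) (nat_lit 5) (nat_lit 16) (nat_lit 5) (nat_lit 14) (nat_lit 4) (nat_lit 313) (nat_lit 251) (nat_lit 156)) (XT.lf (nat_lit 0) (nat_lit 41543947277) (nat_lit 228) (nat_lit 287919890) (nat_lit 76) (nat_lit 20352356802) (nat_lit 13) (nat_lit 5) (nat_lit 16) (nat_lit 5) (nat_lit 14) (nat_lit 4) (nat_lit 314) (nat_lit 251) (nat_lit 155))) (XT.nd (nat_lit 78) (nat_lit 76) (nat_lit 0) (XT.lf (nat_lit 0) (nat_lit 18830144618) (nat_lit 76) (nat_lit 32150087911) (nat_lit 152)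 (nat_lit 13951964075) (nat_lit 12) (nat_lit 5) (nat_lit 13) (nat_lit 5) (nat_lit 14) (nat_lit 4) (nat_lit 315) (nat_lit 251) (nat_lit 154)) (XT.nd (nat_lit 78) (nat_lit 76) (nat_lit 0) (XT.lf (nat_lit 0) (nat_lit 38894009174) (nat_lit 76) (nat_lit 21987538082) (nat_lit 152) (nat_lit 6936237735) (nat_lit 12) (nat_lit 5) (nat_lit 13) (nat_lit 5) (nat_lit 14) (nat_lit 4) (nat_lit 316) (nat_lit 251) (nat_lit 153)) (XT.lf (nat_lit 0) (nat_lit 412489658) (nat_lit 152) (nat_lit 10906273562) (nat_lit 76) (nat_lit 59529059715) (nat_lit 11) (nat_lit 5) (nat_lit 13) (nat_lit 5) (nat_lit 12) (nat_lit 5) (nat_lit 317) (nat_lit 251) (nat_lit 152))))) (XT.nd (nat_lit 156) (nat_lit 76) (nat_lit 0) (XT.nd (nat_lit 78) (nat_lit 0) (nat_lit 0) (XT.lf (nat_lit 0) (nat_lit 8055597293) (nat_lit 228) (nat_lit 65940444985) (nat_lit 76) (nat_lit 29160307) (nat_lit 9) (nat_lit 5) (nat_lit 12) (nat_lit 5) (nat_lit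 10) (nat_lit 4) (nat_lit 318) (nat_lit 251) (nat_lit 151)) (XT.lf (nat_lit 0) (nat_lit 16299775844) (nat_lit 228) (nat_lit 49234790811) (nat_lit 76) (nat_lit 11820328480) (nat_lit 9) (nat_lit 5) (nat_lit 12) (nat_lit 5) (nat_lit 10) (nat_lit 4) (nat_lit 319) (nat_lit 251) (nat_lit 150))) (XT.nd (nat_lit 78) (nat_lit 76) (nat_lit 0) (XT.lf (nat_lit 0) (nat_lit 24947868525) (nat_lit 228) (nat_lit 31707761034) (nat_lit 76) (nat_lit 24195702438) (nat_lit 9) (nat_lit 5) (nat_lit 12) (nat_lit 5) (nat_lit 10) (nat_lit 4) (nat_lit 320) (nat_lit 251) (nat_lit 149)) (XT.nd (nat_lit 78) (nat_lit 76) (nat_lit 0) (XT.lf (nat_lit 0) (nat_lit 34020466034) (nat_lit 228) (nat_lit 13317624631) (nat_lit 76) (nat_lit 37184747358) (nat_lit 9) (nat_lit 5) (nat_lit 12) (nat_lit 5) (nat_lit 10) (nat_lit 4) (nat_lit 321) (nat_lit 251) (nat_lit 148)) (XT.lf (nat_lit 0) (nat_lit 6098406309) (nat_lit 76) (nat_lit 37499385095)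 (nat_lit 152) (nat_lit 44778604840) (nat_lit 8) (nat_lit 5) (nat_lit 9) (nat_lit 5) (nat_lit 10) (nat_lit 4) (nat_lit 322) (nat_lit 251) (nat_lit 147)))))) (XT.nd (nat_lit 31980) (nat_lit 0) (nat_lit 11780) (XT.nd (nat_lit 156) (nat_lit 76) (nat_lit 0) (XT.nd (nat_lit 78) (nat_lit 0) (nat_lit 0) (XT.lf (nat_lit 0) (nat_lit 26751285410) (nat_lit 76) (nat_lit 27032507691) (nat_lit 152) (nat_lit 38634954338) (nat_lit 8) (nat_lit 5) (nat_lit 9) (nat_lit 5) (nat_lit 10) (nat_lit 4) (nat_lit 323) (nat_lit 251) (nat_lit 146)) (XT.lf (nat_lit 0) (nat_lit 48425139350) (nat_lit 76) (nat_lit 16047019213) (nat_lit 152) (nat_lit 32191274642) (nat_lit 8) (nat_lit 5) (nat_lit 9) (nat_lit 5) (nat_lit 10) (nat_lit 4) (nat_lit 324) (nat_lit 251) (nat_lit 145))) (XT.nd (nat_lit 78) (nat_lit 76) (nat_lit 0) (XT.lf (nat_lit 0) (nat_lit 71171572542) (nat_lit 76) (nat_lit 4516763735) (nat_lit 152) (nat_lit 25432223656)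 (nat_lit 8) (nat_lit 5) (nat_lit 9) (nat_lit 5) (nat_lit 10) (nat_lit 4) (nat_lit 325) (nat_lit 251) (nat_lit 144)) (XT.nd (nat_lit 78) (nat_lit 76) (nat_lit 0) (XT.lf (nat_lit 0) (nat_lit 87531949932) (nat_lit 152) (nat_lit 10828915173) (nat_lit 0) (nat_lit 7437687171) (nat_lit 8) (nat_lit 5) (nat_lit 10) (nat_lit 4) (nat_lit 8) (nat_lit 4) (nat_lit 326) (nat_lit 251) (nat_lit 143)) (XT.lf (nat_lit 0) (nat_lit 9374269240) (nat_lit 76) (nat_lit 90723143876) (nat_lit 76) (nat_lit 10609148761) (nat_lit 7) (nat_lit 4) (nat_lit 8) (nat_lit 5) (nat_lit 8) (nat_lit 4) (nat_lit 327) (nat_lit 251) (nat_lit 142))))) (XT.nd (nat_lit 234) (nat_lit 760) (nat_lit 0) (XT.nd (nat_lit 78) (nat_lit 0) (nat_lit 0) (XT.lf (nat_lit 0) (nat_lit 387406558) (nat_lit 0) (nat_lit 387406558) (nat_lit 836) (nat_lit 3316485418) (nat_lit 172) (nat_lit 5) (nat_lit 172) (nat_lit 3) (nat_lit 183) (nat_lit 3) (nat_lit 252)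 (nat_lit 252) (nat_lit 216)) (XT.nd (nat_lit 78) (nat_lit 0) (nat_lit 0) (XT.lf (nat_lit 0) (nat_lit 3276288426) (nat_lit 836) (nat_lit 1904674156) (nat_lit 912) (nat_lit 3149804917) (nat_lit 172) (nat_lit 5) (nat_lit 183) (nat_lit 3) (nat_lit 184) (nat_lit 5) (nat_lit 253) (nat_lit 252) (nat_lit 215)) (XT.lf (nat_lit 76) (nat_lit 3884474722) (nat_lit 0) (nat_lit 1144407815) (nat_lit 912) (nat_lit 3459644459) (nat_lit 173) (nat_lit 5) (nat_lit 172) (nat_lit 5) (nat_lit 184) (nat_lit 5) (nat_lit 254) (nat_lit 252) (nat_lit 214)))) (XT.nd (nat_lit 78) (nat_lit 836) (nat_lit 0) (XT.lf (nat_lit 76) (nat_lit 1285158751) (nat_lit 0) (nat_lit 5545214109) (nat_lit 912) (nat_lit 1825314575) (nat_lit 174) (nat_lit 5) (nat_lit 173) (nat_lit 5) (nat_lit 185) (nat_lit 5) (nat_lit 255) (nat_lit 252) (nat_lit 213)) (XT.nd (nat_lit 78) (nat_lit 836) (nat_lit 0) (XT.lf (nat_lit 76) (nat_lit 7495679196) (nat_lit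 0) (nat_lit 1188699601) (nat_lit 912) (nat_lit 148288117) (nat_lit 174) (nat_lit 5) (nat_lit 173) (nat_lit 5) (nat_lit 185) (nat_lit 5) (nat_lit 256) (nat_lit 252) (nat_lit 212)) (XT.lf (nat_lit 0) (nat_lit 1569914325) (nat_lit 912) (nat_lit 4029443290) (nat_lit 988) (nat_lit 3419318013) (nat_lit 162) (nat_lit 5) (nat_lit 174) (nat_lit 5) (nat_lit 175) (nat_lit 5) (nat_lit 257) (nat_lit 252) (nat_lit 211))))))))
noncomputable def xc74 : XT := (XT.nd (nat_lit 1560) (nat_lit 3724) (nat_lit 0) (XT.nd (nat_lit 780) (nat_lit 3192) (nat_lit 0) (XT.nd (nat_lit 390) (nat_lit 2660) (nat_lit 0) (XT.nd (nat_lit 156) (nat_lit 760) (nat_lit 0) (XT.nd (nat_lit 78) (nat_lit 0) (nat_lit 76) (XT.lf (nat_lit 76) (nat_lit 2421085192) (nat_lit 0) (nat_lit 910273371) (nat_lit 988) (nat_lit 5884064559) (nat_lit 163) (nat_lit 5) (nat_lit 162) (nat_lit 5) (nat_lit 175) (nat_lit 5) (nat_lit 258) (nat_lit 252) (nat_lit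 210)) (XT.lf (nat_lit 0) (nat_lit 5176494448) (nat_lit 912) (nat_lit 241490340) (nat_lit 988) (nat_lit 4004434946) (nat_lit 163) (nat_lit 5) (nat_lit 175) (nat_lit 5) (nat_lit 176) (nat_lit 5) (nat_lit 259) (nat_lit 252) (nat_lit 209))) (XT.nd (nat_lit 78) (nat_lit 836) (nat_lit 0) (XT.lf (nat_lit 76) (nat_lit 6703398808) (nat_lit 0) (nat_lit 403304741) (nat_lit 988) (nat_lit 2533545115) (nat_lit 164) (nat_lit 5) (nat_lit 163) (nat_lit 5) (nat_lit 176) (nat_lit 5) (nat_lit 260) (nat_lit 252) (nat_lit 208)) (XT.nd (nat_lit 78) (nat_lit 912) (nat_lit 0) (XT.lf (nat_lit 76) (nat_lit 4106688282) (nat_lit 0) (nat_lit 5038174973) (nat_lit 988) (nat_lit 724016845) (nat_lit 165) (nat_lit 5) (nat_lit 164) (nat_lit 5) (nat_lit 177) (nat_lit 5) (nat_lit 261) (nat_lit 252) (nat_lit 207)) (XT.lf (nat_lit 0) (nat_lit 1128788457) (nat_lit 988) (nat_lit 8703234755) (nat_lit 76) (nat_lit 277543421) (nat_lit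 152) (nat_lit 5) (nat_lit 165) (nat_lit 5) (nat_lit 153) (nat_lit 5) (nat_lit 262) (nat_lit 252) (nat_lit 206))))) (XT.nd (nat_lit 156) (nat_lit 1672) (nat_lit 0) (XT.nd (nat_lit 78) (nat_lit 988) (nat_lit 0) (XT.lf (nat_lit 0) (nat_lit 3098213621) (nat_lit 988) (nat_lit 1424846232) (nat_lit 76) (nat_lit 5838067892) (nat_lit 152) (nat_lit 5) (nat_lit 165) (nat_lit 5) (nat_lit 153) (nat_lit 5) (nat_lit 263) (nat_lit 252) (nat_lit 205)) (XT.lf (nat_lit 0) (nat_lit 5168816581) (nat_lit 1064) (nat_lit 4352929241) (nat_lit 76) (nat_lit 1103653141) (nat_lit 139) (nat_lit 5) (nat_lit 153) (nat_lit 5) (nat_lit 140) (nat_lit 5) (nat_lit 264) (nat_lit 252) (nat_lit 204))) (XT.nd (nat_lit 78) (nat_lit 608) (nat_lit 0) (XT.lf (nat_lit 0) (nat_lit 3446308874) (nat_lit 1064) (nat_lit 3924558964) (nat_lit 1140) (nat_lit 3531381452) (nat_lit 125) (nat_lit 5) (nat_lit 139) (nat_lit 5) (nat_lit 140) (nat_lit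 5) (nat_lit 265) (nat_lit 252) (nat_lit 203)) (XT.nd (nat_lit 78) (nat_lit 76) (nat_lit 0) (XT.lf (nat_lit 0) (nat_lit 467130062) (nat_lit 532) (nat_lit 9221395655) (nat_lit 608) (nat_lit 1504444716) (nat_lit 118) (nat_lit 5) (nat_lit 125) (nat_lit 5) (nat_lit 126) (nat_lit 5) (nat_lit 266) (nat_lit 252) (nat_lit 202)) (XT.lf (nat_lit 0) (nat_lit 667463324) (nat_lit 608) (nat_lit 2657526469) (nat_lit 76) (nat_lit 8171562849) (nat_lit 117) (nat_lit 5) (nat_lit 125) (nat_lit 5) (nat_lit 118) (nat_lit 5) (nat_lit 267) (nat_lit 252) (nat_lit 201)))))) (XT.nd (nat_lit 390) (nat_lit 1216) (nat_lit 0) (XT.nd (nat_lit 156) (nat_lit 988) (nat_lit 0) (XT.nd (nat_lit 78) (nat_lit 532) (nat_lit 0) (XT.lf (nat_lit 0) (nat_lit 2943349266) (nat_lit 532) (nat_lit 5984706437) (nat_lit 76) (nat_lit 2886186820) (nat_lit 111) (nat_lit 5) (nat_lit 118) (nat_lit 5) (nat_lit 112) (nat_lit 5) (nat_lit 268) (nat_lit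 252) (nat_lit 200)) (XT.lf (nat_lit 0) (nat_lit 2611651929) (nat_lit 532) (nat_lit 2751564438) (nat_lit 608) (nat_lit 6783857144) (nat_lit 104) (nat_lit 5) (nat_lit 111) (nat_lit 5) (nat_lit 112) (nat_lit 5) (nat_lit 269) (nat_lit 252) (nat_lit 199))) (XT.nd (nat_lit 78) (nat_lit 988) (nat_lit 0) (XT.lf (nat_lit 0) (nat_lit 7948243309) (nat_lit 608) (nat_lit 823480528) (nat_lit 76) (nat_lit 3723651710) (nat_lit 104) (nat_lit 5) (nat_lit 112) (nat_lit 5) (nat_lit 105) (nat_lit 5) (nat_lit 270) (nat_lit 252) (nat_lit 198)) (XT.nd (nat_lit 78) (nat_lit 532) (nat_lit 0) (XT.lf (nat_lit 0) (nat_lit 8407806631) (nat_lit 456) (nat_lit 2311934951) (nat_lit 532) (nat_lit 2139781638) (nat_lit 98) (nat_lit 5) (nat_lit 104) (nat_lit 5) (nat_lit 105) (nat_lit 5) (nat_lit 271) (nat_lit 252) (nat_lit 197)) (XT.lf (nat_lit 0) (nat_lit 429686282) (nat_lit 532) (nat_lit 8369083920) (nat_lit 76) (nat_lit 4441652657)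 (nat_lit 91) (nat_lit 5) (nat_lit 98) (nat_lit 5) (nat_lit 92) (nat_lit 5) (nat_lit 272) (nat_lit 252) (nat_lit 196))))) (XT.nd (nat_lit 156) (nat_lit 836) (nat_lit 0) (XT.nd (nat_lit 78) (nat_lit 0) (nat_lit 0) (XT.lf (nat_lit 0) (nat_lit 1037210677) (nat_lit 380) (nat_lit 2077987256) (nat_lit 456) (nat_lit 10523708809) (nat_lit 86) (nat_lit 5) (nat_lit 91) (nat_lit 5) (nat_lit 92) (nat_lit 5) (nat_lit 273) (nat_lit 252) (nat_lit 195)) (XT.lf (nat_lit 0) (nat_lit 6023441944) (nat_lit 456) (nat_lit 3066934432) (nat_lit 76) (nat_lit 4964408139) (nat_lit 86) (nat_lit 5) (nat_lit 92) (nat_lit 5) (nat_lit 87) (nat_lit 5) (nat_lit 274) (nat_lit 252) (nat_lit 194))) (XT.nd (nat_lit 78) (nat_lit 456) (nat_lit 0) (XT.lf (nat_lit 0) (nat_lit 7010680203) (nat_lit 380) (nat_lit 2110584285) (nat_lit 456) (nat_lit 5368984223) (nat_lit 81) (nat_lit 5) (nat_lit 86) (nat_lit 5) (nat_lit 87) (nat_lit 5)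 (nat_lit 275) (nat_lit 252) (nat_lit 193)) (XT.nd (nat_lit 78) (nat_lit 76) (nat_lit 0) (XT.lf (nat_lit 0) (nat_lit 2661566602) (nat_lit 380) (nat_lit 9777427780) (nat_lit 456) (nat_lit 2506653175) (nat_lit 76) (nat_lit 5) (nat_lit 81) (nat_lit 5) (nat_lit 82) (nat_lit 5) (nat_lit 276) (nat_lit 252) (nat_lit 192)) (XT.lf (nat_lit 0) (nat_lit 546563739) (nat_lit 456) (nat_lit 2031438402) (nat_lit 76) (nat_lit 12844048779) (nat_lit 75) (nat_lit 5) (nat_lit 81) (nat_lit 5) (nat_lit 76) (nat_lit 5) (nat_lit 277) (nat_lit 252) (nat_lit 191))))))) (XT.nd (nat_lit 780) (nat_lit 1444) (nat_lit 0) (XT.nd (nat_lit 390) (nat_lit 912) (nat_lit 0) (XT.nd (nat_lit 156) (nat_lit 684) (nat_lit 0) (XT.nd (nat_lit 78) (nat_lit 304) (nat_lit 0) (XT.lf (nat_lit 0) (nat_lit 3795328204) (nat_lit 456) (nat_lit 7135030335) (nat_lit 76) (nat_lit 4988428081) (nat_lit 70) (nat_lit 5) (nat_lit 76) (nat_lit 5) (nat_lit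 71) (nat_lit 5) (nat_lit 278) (nat_lit 252) (nat_lit 190)) (XT.lf (nat_lit 0) (nat_lit 3742616279) (nat_lit 304) (nat_lit 3508828707) (nat_lit 380) (nat_lit 9187660568) (nat_lit 66) (nat_lit 5) (nat_lit 70) (nat_lit 5) (nat_lit 71) (nat_lit 5) (nat_lit 279) (nat_lit 252) (nat_lit 189))) (XT.nd (nat_lit 78) (nat_lit 684) (nat_lit 0) (XT.lf (nat_lit 0) (nat_lit 10958822899) (nat_lit 380) (nat_lit 1758290611) (nat_lit 76) (nat_lit 4266062666) (nat_lit 66) (nat_lit 5) (nat_lit 71) (nat_lit 5) (nat_lit 67) (nat_lit 5) (nat_lit 280) (nat_lit 252) (nat_lit 188)) (XT.nd (nat_lit 78) (nat_lit 380) (nat_lit 0) (XT.lf (nat_lit 0) (nat_lit 9839215822) (nat_lit 304) (nat_lit 5107207945) (nat_lit 380) (nat_lit 2605266083) (nat_lit 62) (nat_lit 5) (nat_lit 66) (nat_lit 5) (nat_lit 67) (nat_lit 5) (nat_lit 281) (nat_lit 252) (nat_lit 187)) (XT.lf (nat_lit 0) (nat_lit 1015579585) (nat_lit 380) (nat_lit 14247454983)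 (nat_lit 76) (nat_lit 2883888761) (nat_lit 57) (nat_lit 5) (nat_lit 62) (nat_lit 5) (nat_lit 58) (nat_lit 5) (nat_lit 282) (nat_lit 252) (nat_lit 186))))) (XT.nd (nat_lit 156) (nat_lit 608) (nat_lit 0) (XT.nd (nat_lit 78) (nat_lit 304) (nat_lit 0) (XT.lf (nat_lit 0) (nat_lit 4862654279) (nat_lit 380) (nat_lit 2638395811) (nat_lit 76) (nat_lit 11267197501) (nat_lit 57) (nat_lit 5) (nat_lit 62) (nat_lit 5) (nat_lit 58) (nat_lit 5) (nat_lit 283) (nat_lit 252) (nat_lit 185)) (XT.lf (nat_lit 0) (nat_lit 8970802430) (nat_lit 380) (nat_lit 9726886741) (nat_lit 76) (nat_lit 720958711) (nat_lit 53) (nat_lit 5) (nat_lit 58) (nat_lit 5) (nat_lit 54) (nat_lit 5) (nat_lit 284) (nat_lit 252) (nat_lit 184))) (XT.nd (nat_lit 78) (nat_lit 380) (nat_lit 0) (XT.lf (nat_lit 0) (nat_lit 2525059475) (nat_lit 228) (nat_lit 10856152862) (nat_lit 304) (nat_lit 6717518227) (nat_lit 50) (nat_lit 5) (nat_lit 53) (nat_lit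 5) (nat_lit 54) (nat_lit 5) (nat_lit 285) (nat_lit 252) (nat_lit 183)) (XT.nd (nat_lit 78) (nat_lit 380) (nat_lit 0) (XT.lf (nat_lit 0) (nat_lit 15553000818) (nat_lit 228) (nat_lit 2529786663) (nat_lit 304) (nat_lit 2727975326) (nat_lit 50) (nat_lit 5) (nat_lit 53) (nat_lit 5) (nat_lit 54) (nat_lit 5) (nat_lit 286) (nat_lit 252) (nat_lit 182)) (XT.lf (nat_lit 0) (nat_lit 1539336943) (nat_lit 380) (nat_lit 13844165078) (nat_lit 76) (nat_lit 6171329122) (nat_lit 45) (nat_lit 5) (nat_lit 50) (nat_lit 5) (nat_lit 46) (nat_lit 5) (nat_lit 287) (nat_lit 252) (nat_lit 181)))))) (XT.nd (nat_lit 390) (nat_lit 684) (nat_lit 0) (XT.nd (nat_lit 156) (nat_lit 532) (nat_lit 0) (XT.nd (nat_lit 78) (nat_lit 228) (nat_lit 0) (XT.lf (nat_lit 0) (nat_lit 6016791047) (nat_lit 380) (nat_lit 988965158) (nat_lit 76) (nat_lit 15327997591) (nat_lit 45) (nat_lit 5) (nat_lit 50) (nat_lit 5) (nat_lit 46) (nat_lit 5)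 (nat_lit 288) (nat_lit 252) (nat_lit 180)) (XT.lf (nat_lit 0) (nat_lit 10832512501) (nat_lit 304) (nat_lit 10446346447) (nat_lit 76) (nat_lit 1869386113) (nat_lit 42) (nat_lit 5) (nat_lit 46) (nat_lit 5) (nat_lit 43) (nat_lit 5) (nat_lit 289) (nat_lit 252) (nat_lit 179))) (XT.nd (nat_lit 78) (nat_lit 304) (nat_lit 0) (XT.lf (nat_lit 0) (nat_lit 3047353597) (nat_lit 228) (nat_lit 12926549865) (nat_lit 304) (nat_lit 8027062659) (nat_lit 39) (nat_lit 5) (nat_lit 42) (nat_lit 5) (nat_lit 43) (nat_lit 5) (nat_lit 290) (nat_lit 252) (nat_lit 178)) (XT.nd (nat_lit 78) (nat_lit 304) (nat_lit 0) (XT.lf (nat_lit 0) (nat_lit 17398955607) (nat_lit 228) (nat_lit 4056414963) (nat_lit 304) (nat_lit 3438511737) (nat_lit 39) (nat_lit 5) (nat_lit 42) (nat_lit 5) (nat_lit 43) (nat_lit 5) (nat_lit 291) (nat_lit 252) (nat_lit 177)) (XT.lf (nat_lit 0) (nat_lit 1444720515) (nat_lit 304) (nat_lit 19160420029) (nat_lit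 76) (nat_lit 5223186341) (nat_lit 35) (nat_lit 5) (nat_lit 39) (nat_lit 5) (nat_lit 36) (nat_lit 5) (nat_lit 292) (nat_lit 252) (nat_lit 176))))) (XT.nd (nat_lit 234) (nat_lit 456) (nat_lit 0) (XT.nd (nat_lit 78) (nat_lit 228) (nat_lit 0) (XT.lf (nat_lit 0) (nat_lit 6597594662) (nat_lit 304) (nat_lit 5221671985) (nat_lit 76) (nat_lit 14986351273) (nat_lit 35) (nat_lit 5) (nat_lit 39) (nat_lit 5) (nat_lit 36) (nat_lit 5) (nat_lit 293) (nat_lit 252) (nat_lit 175)) (XT.nd (nat_lit 78) (nat_lit 0) (nat_lit 0) (XT.lf (nat_lit 0) (nat_lit 9568748583) (nat_lit 228) (nat_lit 2509509346) (nat_lit 304) (nat_lit 15751452539) (nat_lit 32) (nat_lit 5) (nat_lit 35) (nat_lit 5) (nat_lit 36) (nat_lit 5) (nat_lit 294) (nat_lit 252) (nat_lit 174)) (XT.lf (nat_lit 0) (nat_lit 17935891754) (nat_lit 304) (nat_lit 3797607261) (nat_lit 76) (nat_lit 7168459860) (nat_lit 32) (nat_lit 5) (nat_lit 36) (nat_lit 5)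 (nat_lit 33) (nat_lit 5) (nat_lit 295) (nat_lit 252) (nat_lit 173)))) (XT.nd (nat_lit 78) (nat_lit 304) (nat_lit 0) (XT.lf (nat_lit 0) (nat_lit 11559005689) (nat_lit 152) (nat_lit 12643661935) (nat_lit 228) (nat_lit 5821701748) (nat_lit 30) (nat_lit 5) (nat_lit 32) (nat_lit 5) (nat_lit 33) (nat_lit 5) (nat_lit 296) (nat_lit 252) (nat_lit 172)) (XT.nd (nat_lit 78) (nat_lit 304) (nat_lit 0) (XT.lf (nat_lit 0) (nat_lit 27733533861) (nat_lit 152) (nat_lit 3068840075) (nat_lit 228) (nat_lit 399974404) (nat_lit 30) (nat_lit 5) (nat_lit 32) (nat_lit 5) (nat_lit 33) (nat_lit 5) (nat_lit 297) (nat_lit 252) (nat_lit 171)) (XT.lf (nat_lit 0) (nat_lit 5359097081) (nat_lit 304) (nat_lit 20062277822) (nat_lit 76) (nat_lit 7011271814) (nat_lit 26) (nat_lit 5) (nat_lit 30) (nat_lit 5) (nat_lit 27) (nat_lit 5) (nat_lit 298) (nat_lit 252) (nat_lit 170))))))))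
noncomputable def xc75 : XT := (XT.nd (nat_lit 1638) (nat_lit 76) (nat_lit 0) (XT.nd (nat_lit 780) (nat_lit 608) (nat_lit 0) (XT.nd (nat_lit 390) (nat_lit 304) (nat_lit 0) (XT.nd (nat_lit 156) (nat_lit 228) (nat_lit 0) (XT.nd (nat_lit 78) (nat_lit 152) (nat_lit 0) (XT.lf (nat_lit 0) (nat_lit 11446714559) (nat_lit 304) (nat_lit 4712717440) (nat_lit 76) (nat_lit 17563474710) (nat_lit 26) (nat_lit 5) (nat_lit 30) (nat_lit 5) (nat_lit 27) (nat_lit 5) (nat_lit 299) (nat_lit 252) (nat_lit 169)) (XT.lf (nat_lit 0) (nat_lit 11604127859) (nat_lit 152) (nat_lit 6328751147) (nat_lit 228) (nat_lit 17142005646) (nat_lit 24) (nat_lit 5) (nat_lit 26) (nat_lit 5) (nat_lit 27) (nat_lit 5) (nat_lit 300) (nat_lit 252) (nat_lit 168))) (XT.nd (nat_lit 78) (nat_lit 228) (nat_lit 0) (XT.lf (nat_lit 0) (nat_lit 24813844807) (nat_lit 228) (nat_lit 7722890113) (nat_lit 76) (nat_lit 3955640291) (nat_lit 24) (nat_lit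 5) (nat_lit 27) (nat_lit 5) (nat_lit 25) (nat_lit 5) (nat_lit 301) (nat_lit 252) (nat_lit 167)) (XT.nd (nat_lit 78) (nat_lit 76) (nat_lit 0) (XT.lf (nat_lit 0) (nat_lit 8897045273) (nat_lit 152) (nat_lit 23275131195) (nat_lit 228) (nat_lit 5804591457) (nat_lit 22) (nat_lit 5) (nat_lit 24) (nat_lit 5) (nat_lit 25) (nat_lit 5) (nat_lit 302) (nat_lit 252) (nat_lit 166)) (XT.lf (nat_lit 0) (nat_lit 420516287) (nat_lit 228) (nat_lit 13052589332) (nat_lit 76) (nat_lit 26060258384) (nat_lit 21) (nat_lit 5) (nat_lit 24) (nat_lit 5) (nat_lit 22) (nat_lit 5) (nat_lit 303) (nat_lit 252) (nat_lit 165))))) (XT.nd (nat_lit 156) (nat_lit 152) (nat_lit 0) (XT.nd (nat_lit 78) (nat_lit 0) (nat_lit 0) (XT.lf (nat_lit 0) (nat_lit 3767322540) (nat_lit 152) (nat_lit 3091856570) (nat_lit 228) (nat_lit 34306240123) (nat_lit 19) (nat_lit 5) (nat_lit 21) (nat_lit 5) (nat_lit 22) (nat_lit 5) (nat_lit 304) (nat_lit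 252) (nat_lit 164)) (XT.lf (nat_lit 0) (nat_lit 13815961523) (nat_lit 228) (nat_lit 21273653991) (nat_lit 76) (nat_lit 7783598891) (nat_lit 19) (nat_lit 5) (nat_lit 22) (nat_lit 5) (nat_lit 20) (nat_lit 5) (nat_lit 305) (nat_lit 252) (nat_lit 163))) (XT.nd (nat_lit 78) (nat_lit 152) (nat_lit 0) (XT.lf (nat_lit 0) (nat_lit 21137915214) (nat_lit 228) (nat_lit 4396299301) (nat_lit 76) (nat_lit 19131686545) (nat_lit 19) (nat_lit 5) (nat_lit 22) (nat_lit 5) (nat_lit 20) (nat_lit 5) (nat_lit 306) (nat_lit 252) (nat_lit 162)) (XT.nd (nat_lit 78) (nat_lit 0) (nat_lit 0) (XT.lf (nat_lit 0) (nat_lit 13568645516) (nat_lit 152) (nat_lit 15374537195) (nat_lit 228) (nat_lit 17601543509) (nat_lit 17) (nat_lit 5) (nat_lit 19) (nat_lit 5) (nat_lit 20) (nat_lit 5) (nat_lit 307) (nat_lit 252) (nat_lit 161)) (XT.lf (nat_lit 0) (nat_lit 32503259964) (nat_lit 152) (nat_lit 4667928329) (nat_lit 228) (nat_lit 11345349776)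 (nat_lit 17) (nat_lit 5) (nat_lit 19) (nat_lit 5) (nat_lit 20) (nat_lit 5) (nat_lit 308) (nat_lit 252) (nat_lit 160)))))) (XT.nd (nat_lit 390) (nat_lit 304) (nat_lit 0) (XT.nd (nat_lit 156) (nat_lit 152) (nat_lit 0) (XT.nd (nat_lit 78) (nat_lit 76) (nat_lit 0) (XT.lf (nat_lit 0) (nat_lit 1748809390) (nat_lit 76) (nat_lit 44129545943) (nat_lit 152) (nat_lit 4706571076) (nat_lit 16) (nat_lit 5) (nat_lit 17) (nat_lit 5) (nat_lit 18) (nat_lit 4) (nat_lit 309) (nat_lit 252) (nat_lit 159)) (XT.lf (nat_lit 0) (nat_lit 2421574716) (nat_lit 152) (nat_lit 32108144138) (nat_lit 76) (nat_lit 18220331412) (nat_lit 15) (nat_lit 5) (nat_lit 17) (nat_lit 5) (nat_lit 16) (nat_lit 5) (nat_lit 310) (nat_lit 252) (nat_lit 158))) (XT.nd (nat_lit 78) (nat_lit 152) (nat_lit 0) (XT.lf (nat_lit 0) (nat_lit 9798284591) (nat_lit 152) (nat_lit 14609825674) (nat_lit 76) (nat_lit 30614253681) (nat_lit 15) (nat_lit 5)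 (nat_lit 17) (nat_lit 5) (nat_lit 16) (nat_lit 5) (nat_lit 311) (nat_lit 252) (nat_lit 157)) (XT.nd (nat_lit 78) (nat_lit 0) (nat_lit 0) (XT.lf (nat_lit 0) (nat_lit 3820291115) (nat_lit 152) (nat_lit 13749396158) (nat_lit 228) (nat_lit 39837846030) (nat_lit 13) (nat_lit 5) (nat_lit 15) (nat_lit 5) (nat_lit 16) (nat_lit 5) (nat_lit 312) (nat_lit 252) (nat_lit 156)) (XT.lf (nat_lit 0) (nat_lit 23460057265) (nat_lit 152) (nat_lit 2409484898) (nat_lit 228) (nat_lit 34038237468) (nat_lit 13) (nat_lit 5) (nat_lit 15) (nat_lit 5) (nat_lit 16) (nat_lit 5) (nat_lit 313) (nat_lit 252) (nat_lit 155))))) (XT.nd (nat_lit 234) (nat_lit 228) (nat_lit 0) (XT.nd (nat_lit 78) (nat_lit 76) (nat_lit 0) (XT.lf (nat_lit 0) (nat_lit 34665611425) (nat_lit 228) (nat_lit 18559117150) (nat_lit 76) (nat_lit 9305887304) (nat_lit 13) (nat_lit 5) (nat_lit 16) (nat_lit 5) (nat_lit 14) (nat_lit 4) (nat_lit 314) (nat_lit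 252) (nat_lit 154)) (XT.nd (nat_lit 78) (nat_lit 0) (nat_lit 0) (XT.lf (nat_lit 0) (nat_lit 187451361) (nat_lit 76) (nat_lit 43730560482) (nat_lit 152) (nat_lit 21366099839) (nat_lit 12) (nat_lit 5) (nat_lit 13) (nat_lit 5) (nat_lit 14) (nat_lit 4) (nat_lit 315) (nat_lit 252) (nat_lit 153)) (XT.lf (nat_lit 0) (nat_lit 20243827016) (nat_lit 76) (nat_lit 33570970553) (nat_lit 152) (nat_lit 14355044674) (nat_lit 12) (nat_lit 5) (nat_lit 13) (nat_lit 5) (nat_lit 14) (nat_lit 4) (nat_lit 316) (nat_lit 252) (nat_lit 152)))) (XT.nd (nat_lit 78) (nat_lit 228) (nat_lit 0) (XT.lf (nat_lit 0) (nat_lit 41288400267) (nat_lit 76) (nat_lit 22909179982) (nat_lit 152) (nat_lit 7002556665) (nat_lit 12) (nat_lit 5) (nat_lit 13) (nat_lit 5) (nat_lit 14) (nat_lit 4) (nat_lit 317) (nat_lit 252) (nat_lit 151)) (XT.nd (nat_lit 78) (nat_lit 152) (nat_lit 0) (XT.lf (nat_lit 0) (nat_lit 695037503) (nat_lit 152) (nat_lit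 11017747534) (nat_lit 76) (nat_lit 62669221223) (nat_lit 11) (nat_lit 5) (nat_lit 13) (nat_lit 5) (nat_lit 12) (nat_lit 5) (nat_lit 318) (nat_lit 252) (nat_lit 150)) (XT.lf (nat_lit 0) (nat_lit 8713492747) (nat_lit 228) (nat_lit 68809738938) (nat_lit 76) (nat_lit 195244113) (nat_lit 9) (nat_lit 5) (nat_lit 12) (nat_lit 5) (nat_lit 10) (nat_lit 4) (nat_lit 319) (nat_lit 252) (nat_lit 149))))))) (XT.nd (nat_lit 32448) (nat_lit 0) (nat_lit 9956) (XT.nd (nat_lit 390) (nat_lit 0) (nat_lit 0) (XT.nd (nat_lit 156) (nat_lit 76) (nat_lit 0) (XT.nd (nat_lit 78) (nat_lit 0) (nat_lit 0) (XT.lf (nat_lit 0) (nat_lit 17357731864) (nat_lit 228) (nat_lit 51289170069) (nat_lit 76) (nat_lit 12568131370) (nat_lit 9) (nat_lit 5) (nat_lit 12) (nat_lit 5) (nat_lit 10) (nat_lit 4) (nat_lit 320) (nat_lit 252) (nat_lit 148)) (XT.lf (nat_lit 0) (nat_lit 26426659312) (nat_lit 228) (nat_lit 32905186912) (nat_lit 76)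 (nat_lit 25554808004) (nat_lit 9) (nat_lit 5) (nat_lit 12) (nat_lit 5) (nat_lit 10) (nat_lit 4) (nat_lit 321) (nat_lit 252) (nat_lit 147))) (XT.nd (nat_lit 78) (nat_lit 76) (nat_lit 0) (XT.lf (nat_lit 0) (nat_lit 35941867774) (nat_lit 228) (nat_lit 13614018078) (nat_lit 76) (nat_lit 39186194673) (nat_lit 9) (nat_lit 5) (nat_lit 12) (nat_lit 5) (nat_lit 10) (nat_lit 4) (nat_lit 322) (nat_lit 252) (nat_lit 146)) (XT.nd (nat_lit 78) (nat_lit 0) (nat_lit 0) (XT.lf (nat_lit 0) (nat_lit 6762223116) (nat_lit 76) (nat_lit 39228792018) (nat_lit 152) (nat_lit 46797526568) (nat_lit 8) (nat_lit 5) (nat_lit 9) (nat_lit 5) (nat_lit 10) (nat_lit 4) (nat_lit 323) (nat_lit 252) (nat_lit 145)) (XT.lf (nat_lit 0) (nat_lit 28430655863) (nat_lit 76) (nat_lit 28245502283) (nat_lit 152) (nat_lit 40357170137) (nat_lit 8) (nat_lit 5) (nat_lit 9) (nat_lit 5) (nat_lit 10) (nat_lit 4) (nat_lit 324) (nat_lit 252) (nat_lit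 144))))) (XT.nd (nat_lit 156) (nat_lit 0) (nat_lit 0) (XT.nd (nat_lit 78) (nat_lit 0) (nat_lit 0) (XT.lf (nat_lit 0) (nat_lit 51171926015) (nat_lit 76) (nat_lit 16717340847) (nat_lit 152) (nat_lit 33601284166) (nat_lit 8) (nat_lit 5) (nat_lit 9) (nat_lit 5) (nat_lit 10) (nat_lit 4) (nat_lit 325) (nat_lit 252) (nat_lit 143)) (XT.lf (nat_lit 0) (nat_lit 75040179452) (nat_lit 76) (nat_lit 4616859707) (nat_lit 152) (nat_lit 26513783212) (nat_lit 8) (nat_lit 5) (nat_lit 9) (nat_lit 5) (nat_lit 10) (nat_lit 4) (nat_lit 326) (nat_lit 252) (nat_lit 142))) (XT.nd (nat_lit 31746) (nat_lit 0) (nat_lit 12464) (XT.lf (nat_lit 0) (nat_lit 92085209123) (nat_lit 152) (nat_lit 11070756045) (nat_lit 0) (nat_lit 7926989179) (nat_lit 8) (nat_lit 5) (nat_lit 10) (nat_lit 4) (nat_lit 8) (nat_lit 4) (nat_lit 327) (nat_lit 252) (nat_lit 141)) (XT.nd (nat_lit 78) (nat_lit 0) (nat_lit 0) (XT.lf (nat_lit 0) (nat_lit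 1222361907) (nat_lit 0) (nat_lit 1222361907) (nat_lit 836) (nat_lit 1796537576) (nat_lit 172) (nat_lit 5) (nat_lit 172) (nat_lit 3) (nat_lit 183) (nat_lit 3) (nat_lit 253) (nat_lit 253) (nat_lit 214)) (XT.lf (nat_lit 0) (nat_lit 6532160257) (nat_lit 836) (nat_lit 327475493) (nat_lit 912) (nat_lit 1784114173) (nat_lit 172) (nat_lit 5) (nat_lit 183) (nat_lit 3) (nat_lit 184) (nat_lit 5) (nat_lit 254) (nat_lit 253) (nat_lit 213)))))) (XT.nd (nat_lit 390) (nat_lit 1672) (nat_lit 0) (XT.nd (nat_lit 156) (nat_lit 0) (nat_lit 0) (XT.nd (nat_lit 78) (nat_lit 836) (nat_lit 0) (XT.lf (nat_lit 76) (nat_lit 5703190891) (nat_lit 0) (nat_lit 2537567969) (nat_lit 912) (nat_lit 573101302) (nat_lit 173) (nat_lit 5) (nat_lit 172) (nat_lit 5) (nat_lit 184) (nat_lit 5) (nat_lit 255) (nat_lit 253) (nat_lit 212)) (XT.lf (nat_lit 0) (nat_lit 981815607) (nat_lit 912) (nat_lit 5967533676) (nat_lit 988) (nat_lit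 2044339810) (nat_lit 161) (nat_lit 5) (nat_lit 173) (nat_lit 5) (nat_lit 174) (nat_lit 5) (nat_lit 256) (nat_lit 253) (nat_lit 211))) (XT.nd (nat_lit 78) (nat_lit 0) (nat_lit 76) (XT.lf (nat_lit 76) (nat_lit 272596175) (nat_lit 0) (nat_lit 2302118576) (nat_lit 988) (nat_lit 6608756166) (nat_lit 162) (nat_lit 5) (nat_lit 161) (nat_lit 5) (nat_lit 174) (nat_lit 5) (nat_lit 257) (nat_lit 253) (nat_lit 210)) (XT.nd (nat_lit 78) (nat_lit 0) (nat_lit 0) (XT.lf (nat_lit 0) (nat_lit 4249502229) (nat_lit 912) (nat_lit 2512712417) (nat_lit 988) (nat_lit 2620740212) (nat_lit 162) (nat_lit 5) (nat_lit 174) (nat_lit 5) (nat_lit 175) (nat_lit 5) (nat_lit 258) (nat_lit 253) (nat_lit 209)) (XT.lf (nat_lit 76) (nat_lit 4211090543) (nat_lit 0) (nat_lit 1780109581) (nat_lit 988) (nat_lit 3601984720) (nat_lit 163) (nat_lit 5) (nat_lit 162) (nat_lit 5) (nat_lit 175) (nat_lit 5) (nat_lit 259) (nat_lit 253) (nat_lit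 208))))) (XT.nd (nat_lit 234) (nat_lit 912) (nat_lit 0) (XT.nd (nat_lit 78) (nat_lit 912) (nat_lit 0) (XT.lf (nat_lit 76) (nat_lit 1450826388) (nat_lit 0) (nat_lit 6365438766) (nat_lit 988) (nat_lit 1998026974) (nat_lit 164) (nat_lit 5) (nat_lit 163) (nat_lit 5) (nat_lit 176) (nat_lit 5) (nat_lit 260) (nat_lit 253) (nat_lit 207)) (XT.nd (nat_lit 78) (nat_lit 912) (nat_lit 0) (XT.lf (nat_lit 76) (nat_lit 8666604638) (nat_lit 0) (nat_lit 1065369245) (nat_lit 988) (nat_lit 314741337) (nat_lit 164) (nat_lit 5) (nat_lit 163) (nat_lit 5) (nat_lit 176) (nat_lit 5) (nat_lit 261) (nat_lit 253) (nat_lit 206)) (XT.lf (nat_lit 0) (nat_lit 1455006485) (nat_lit 988) (nat_lit 4331572704) (nat_lit 1064) (nat_lit 4503065892) (nat_lit 151) (nat_lit 5) (nat_lit 164) (nat_lit 5) (nat_lit 165) (nat_lit 5) (nat_lit 262) (nat_lit 253) (nat_lit 205)))) (XT.nd (nat_lit 78) (nat_lit 912) (nat_lit 0) (XT.lf (nat_lit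 76) (nat_lit 3141954738) (nat_lit 0) (nat_lit 152004864) (nat_lit 1064) (nat_lit 7251264776) (nat_lit 152) (nat_lit 5) (nat_lit 151) (nat_lit 5) (nat_lit 165) (nat_lit 5) (nat_lit 263) (nat_lit 253) (nat_lit 204)) (XT.nd (nat_lit 78) (nat_lit 0) (nat_lit 0) (XT.lf (nat_lit 0) (nat_lit 160945429) (nat_lit 988) (nat_lit 5100650321) (nat_lit 1064) (nat_lit 5551087921) (nat_lit 139) (nat_lit 5) (nat_lit 152) (nat_lit 5) (nat_lit 153) (nat_lit 5) (nat_lit 264) (nat_lit 253) (nat_lit 203)) (XT.lf (nat_lit 0) (nat_lit 7350977384) (nat_lit 1064) (nat_lit 2897258973) (nat_lit 76) (nat_lit 844772079) (nat_lit 139) (nat_lit 5) (nat_lit 153) (nat_lit 5) (nat_lit 140) (nat_lit 5) (nat_lit 265) (nat_lit 253) (nat_lit 202))))))))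
noncomputable def xc76 : XT := (XT.nd (nat_lit 1560) (nat_lit 2584) (nat_lit 0) (XT.nd (nat_lit 780) (nat_lit 2508) (nat_lit 0) (XT.nd (nat_lit 390) (nat_lit 1368) (nat_lit 0) (XT.nd (nat_lit 156) (nat_lit 988) (nat_lit 0) (XT.nd (nat_lit 78) (nat_lit 608) (nat_lit 0) (XT.lf (nat_lit 0) (nat_lit 5243975760) (nat_lit 1064) (nat_lit 4343173604) (nat_lit 1140) (nat_lit 1799114651) (nat_lit 125) (nat_lit 5) (nat_lit 139) (nat_lit 5) (nat_lit 140) (nat_lit 5) (nat_lit 266) (nat_lit 253) (nat_lit 201)) (XT.lf (nat_lit 0) (nat_lit 247488906) (nat_lit 608) (nat_lit 9565774618) (nat_lit 76) (nat_lit 1880682400) (nat_lit 117) (nat_lit 5) (nat_lit 125) (nat_lit 5) (nat_lit 118) (nat_lit 5) (nat_lit 267) (nat_lit 253) (nat_lit 200))) (XT.nd (nat_lit 78) (nat_lit 988) (nat_lit 0) (XT.lf (nat_lit 0) (nat_lit 2411627792) (nat_lit 608) (nat_lit 1189285605) (nat_lit 76) (nat_lit 8414153951) (nat_lit 117)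 (nat_lit 5) (nat_lit 125) (nat_lit 5) (nat_lit 118) (nat_lit 5) (nat_lit 268) (nat_lit 253) (nat_lit 199)) (XT.nd (nat_lit 78) (nat_lit 532) (nat_lit 0) (XT.lf (nat_lit 0) (nat_lit 4733935484) (nat_lit 532) (nat_lit 4673784389) (nat_lit 76) (nat_lit 2943180607) (nat_lit 111) (nat_lit 5) (nat_lit 118) (nat_lit 5) (nat_lit 112) (nat_lit 5) (nat_lit 269) (nat_lit 253) (nat_lit 198)) (XT.lf (nat_lit 0) (nat_lit 4306237057) (nat_lit 532) (nat_lit 2905334996) (nat_lit 608) (nat_lit 5490923948) (nat_lit 104) (nat_lit 5) (nat_lit 111) (nat_lit 5) (nat_lit 112) (nat_lit 5) (nat_lit 270) (nat_lit 253) (nat_lit 197))))) (XT.nd (nat_lit 156) (nat_lit 912) (nat_lit 0) (XT.nd (nat_lit 78) (nat_lit 0) (nat_lit 0) (XT.lf (nat_lit 0) (nat_lit 687901615) (nat_lit 456) (nat_lit 9169165644) (nat_lit 532) (nat_lit 3213424863) (nat_lit 98) (nat_lit 5) (nat_lit 104) (nat_lit 5) (nat_lit 105) (nat_lit 5) (nat_lit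 271) (nat_lit 253) (nat_lit 196)) (XT.lf (nat_lit 0) (nat_lit 10323210763) (nat_lit 456) (nat_lit 2380031032) (nat_lit 532) (nat_lit 751727575) (nat_lit 98) (nat_lit 5) (nat_lit 104) (nat_lit 5) (nat_lit 105) (nat_lit 5) (nat_lit 272) (nat_lit 253) (nat_lit 195))) (XT.nd (nat_lit 78) (nat_lit 380) (nat_lit 0) (XT.lf (nat_lit 0) (nat_lit 1862217057) (nat_lit 532) (nat_lit 7257776639) (nat_lit 76) (nat_lit 4736323612) (nat_lit 91) (nat_lit 5) (nat_lit 98) (nat_lit 5) (nat_lit 92) (nat_lit 5) (nat_lit 273) (nat_lit 253) (nat_lit 194)) (XT.nd (nat_lit 78) (nat_lit 0) (nat_lit 0) (XT.lf (nat_lit 0) (nat_lit 2574982381) (nat_lit 380) (nat_lit 2054112708) (nat_lit 456) (nat_lit 9647398301) (nat_lit 86) (nat_lit 5) (nat_lit 91) (nat_lit 5) (nat_lit 92) (nat_lit 5) (nat_lit 274) (nat_lit 253) (nat_lit 193)) (XT.lf (nat_lit 0) (nat_lit 7619247852) (nat_lit 456) (nat_lit 1764051041) (nat_lit 76) (nat_lit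 5331943385) (nat_lit 86) (nat_lit 5) (nat_lit 92) (nat_lit 5) (nat_lit 87) (nat_lit 5) (nat_lit 275) (nat_lit 253) (nat_lit 192)))))) (XT.nd (nat_lit 390) (nat_lit 988) (nat_lit 0) (XT.nd (nat_lit 156) (nat_lit 760) (nat_lit 0) (XT.nd (nat_lit 78) (nat_lit 380) (nat_lit 0) (XT.lf (nat_lit 0) (nat_lit 8775701782) (nat_lit 380) (nat_lit 2048207431) (nat_lit 456) (nat_lit 4350175966) (nat_lit 81) (nat_lit 5) (nat_lit 86) (nat_lit 5) (nat_lit 87) (nat_lit 5) (nat_lit 276) (nat_lit 253) (nat_lit 191)) (XT.lf (nat_lit 0) (nat_lit 4206528747) (nat_lit 380) (nat_lit 10056744880) (nat_lit 456) (nat_lit 1390464020) (nat_lit 76) (nat_lit 5) (nat_lit 81) (nat_lit 5) (nat_lit 82) (nat_lit 5) (nat_lit 277) (nat_lit 253) (nat_lit 190))) (XT.nd (nat_lit 78) (nat_lit 684) (nat_lit 0) (XT.lf (nat_lit 0) (nat_lit 1733220738) (nat_lit 456) (nat_lit 762399049) (nat_lit 76) (nat_lit 13659866711) (nat_lit 75)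 (nat_lit 5) (nat_lit 81) (nat_lit 5) (nat_lit 76) (nat_lit 5) (nat_lit 278) (nat_lit 253) (nat_lit 189)) (XT.nd (nat_lit 78) (nat_lit 304) (nat_lit 0) (XT.lf (nat_lit 0) (nat_lit 5104075753) (nat_lit 456) (nat_lit 6126262620) (nat_lit 76) (nat_lit 5448068522) (nat_lit 70) (nat_lit 5) (nat_lit 76) (nat_lit 5) (nat_lit 71) (nat_lit 5) (nat_lit 279) (nat_lit 253) (nat_lit 188)) (XT.lf (nat_lit 0) (nat_lit 5256123990) (nat_lit 304) (nat_lit 3436339514) (nat_lit 380) (nat_lit 8533625251) (nat_lit 66) (nat_lit 5) (nat_lit 70) (nat_lit 5) (nat_lit 71) (nat_lit 5) (nat_lit 280) (nat_lit 253) (nat_lit 187))))) (XT.nd (nat_lit 156) (nat_lit 684) (nat_lit 0) (XT.nd (nat_lit 78) (nat_lit 304) (nat_lit 0) (XT.lf (nat_lit 0) (nat_lit 12536125501) (nat_lit 380) (nat_lit 551952082) (nat_lit 76) (nat_lit 4710882569) (nat_lit 66) (nat_lit 5) (nat_lit 71) (nat_lit 5) (nat_lit 67) (nat_lit 5) (nat_lit 281)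 (nat_lit 253) (nat_lit 186)) (XT.lf (nat_lit 0) (nat_lit 11588330169) (nat_lit 304) (nat_lit 5097843561) (nat_lit 380) (nat_lit 1710952523) (nat_lit 62) (nat_lit 5) (nat_lit 66) (nat_lit 5) (nat_lit 67) (nat_lit 5) (nat_lit 282) (nat_lit 253) (nat_lit 185))) (XT.nd (nat_lit 78) (nat_lit 304) (nat_lit 0) (XT.lf (nat_lit 0) (nat_lit 2037685935) (nat_lit 380) (nat_lit 13688427860) (nat_lit 76) (nat_lit 3296819647) (nat_lit 57) (nat_lit 5) (nat_lit 62) (nat_lit 5) (nat_lit 58) (nat_lit 5) (nat_lit 283) (nat_lit 253) (nat_lit 184)) (XT.nd (nat_lit 78) (nat_lit 304) (nat_lit 0) (XT.lf (nat_lit 0) (nat_lit 6030860679) (nat_lit 380) (nat_lit 1559458580) (nat_lit 76) (nat_lit 12086496849) (nat_lit 57) (nat_lit 5) (nat_lit 62) (nat_lit 5) (nat_lit 58) (nat_lit 5) (nat_lit 284) (nat_lit 253) (nat_lit 183)) (XT.lf (nat_lit 0) (nat_lit 10314399212) (nat_lit 380) (nat_lit 9011049377) (nat_lit 76) (nat_lit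 1035287938) (nat_lit 53) (nat_lit 5) (nat_lit 58) (nat_lit 5) (nat_lit 54) (nat_lit 5) (nat_lit 285) (nat_lit 253) (nat_lit 182))))))) (XT.nd (nat_lit 780) (nat_lit 988) (nat_lit 0) (XT.nd (nat_lit 390) (nat_lit 760) (nat_lit 0) (XT.nd (nat_lit 156) (nat_lit 608) (nat_lit 0) (XT.nd (nat_lit 78) (nat_lit 0) (nat_lit 0) (XT.lf (nat_lit 0) (nat_lit 3819033853) (nat_lit 228) (nat_lit 11094898868) (nat_lit 304) (nat_lit 6161927389) (nat_lit 50) (nat_lit 5) (nat_lit 53) (nat_lit 5) (nat_lit 54) (nat_lit 5) (nat_lit 286) (nat_lit 253) (nat_lit 181)) (XT.lf (nat_lit 0) (nat_lit 17442766482) (nat_lit 228) (nat_lit 2366693484) (nat_lit 304) (nat_lit 2015358141) (nat_lit 50) (nat_lit 5) (nat_lit 53) (nat_lit 5) (nat_lit 54) (nat_lit 5) (nat_lit 287) (nat_lit 253) (nat_lit 180))) (XT.nd (nat_lit 78) (nat_lit 228) (nat_lit 0) (XT.lf (nat_lit 0) (nat_lit 2422499494) (nat_lit 380) (nat_lit 13415400855)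 (nat_lit 76) (nat_lit 6768815794) (nat_lit 45) (nat_lit 5) (nat_lit 50) (nat_lit 5) (nat_lit 46) (nat_lit 5) (nat_lit 288) (nat_lit 253) (nat_lit 179)) (XT.nd (nat_lit 78) (nat_lit 0) (nat_lit 0) (XT.lf (nat_lit 0) (nat_lit 29760146) (nat_lit 228) (nat_lit 7055961958) (nat_lit 304) (nat_lit 16340085507) (nat_lit 42) (nat_lit 5) (nat_lit 45) (nat_lit 5) (nat_lit 46) (nat_lit 5) (nat_lit 289) (nat_lit 253) (nat_lit 178)) (XT.lf (nat_lit 0) (nat_lit 12118192791) (nat_lit 304) (nat_lit 9910764773) (nat_lit 76) (nat_lit 2252862749) (nat_lit 42) (nat_lit 5) (nat_lit 46) (nat_lit 5) (nat_lit 43) (nat_lit 5) (nat_lit 290) (nat_lit 253) (nat_lit 177))))) (XT.nd (nat_lit 156) (nat_lit 532) (nat_lit 0) (XT.nd (nat_lit 78) (nat_lit 0) (nat_lit 0) (XT.lf (nat_lit 0) (nat_lit 4227295812) (nat_lit 228) (nat_lit 13263803989) (nat_lit 304) (nat_lit 7686916390) (nat_lit 39) (nat_lit 5) (nat_lit 42) (nat_lit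 5) (nat_lit 43) (nat_lit 5) (nat_lit 291) (nat_lit 253) (nat_lit 176)) (XT.lf (nat_lit 0) (nat_lit 19247545801) (nat_lit 228) (nat_lit 3964880121) (nat_lit 304) (nat_lit 2904247417) (nat_lit 39) (nat_lit 5) (nat_lit 42) (nat_lit 5) (nat_lit 43) (nat_lit 5) (nat_lit 292) (nat_lit 253) (nat_lit 175))) (XT.nd (nat_lit 78) (nat_lit 228) (nat_lit 0) (XT.lf (nat_lit 0) (nat_lit 2188523698) (nat_lit 304) (nat_lit 19134687986) (nat_lit 76) (nat_lit 5775113631) (nat_lit 35) (nat_lit 5) (nat_lit 39) (nat_lit 5) (nat_lit 36) (nat_lit 5) (nat_lit 293) (nat_lit 253) (nat_lit 174)) (XT.nd (nat_lit 78) (nat_lit 228) (nat_lit 0) (XT.lf (nat_lit 0) (nat_lit 7567062164) (nat_lit 304) (nat_lit 4545847923) (nat_lit 76) (nat_lit 16012590716) (nat_lit 35) (nat_lit 5) (nat_lit 39) (nat_lit 5) (nat_lit 36) (nat_lit 5) (nat_lit 294) (nat_lit 253) (nat_lit 173)) (XT.lf (nat_lit 0) (nat_lit 10957237404) (nat_lit 228)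 (nat_lit 2342812601) (nat_lit 304) (nat_lit 15901456868) (nat_lit 32) (nat_lit 5) (nat_lit 35) (nat_lit 5) (nat_lit 36) (nat_lit 5) (nat_lit 295) (nat_lit 253) (nat_lit 172)))))) (XT.nd (nat_lit 390) (nat_lit 532) (nat_lit 0) (XT.nd (nat_lit 156) (nat_lit 304) (nat_lit 0) (XT.nd (nat_lit 78) (nat_lit 152) (nat_lit 0) (XT.lf (nat_lit 0) (nat_lit 19423817501) (nat_lit 304) (nat_lit 3104695270) (nat_lit 76) (nat_lit 7799712263) (nat_lit 32) (nat_lit 5) (nat_lit 36) (nat_lit 5) (nat_lit 33) (nat_lit 5) (nat_lit 296) (nat_lit 253) (nat_lit 171)) (XT.lf (nat_lit 0) (nat_lit 12994443262) (nat_lit 152) (nat_lit 12989582492) (nat_lit 228) (nat_lit 5523379772) (nat_lit 30) (nat_lit 5) (nat_lit 32) (nat_lit 5) (nat_lit 33) (nat_lit 5) (nat_lit 297) (nat_lit 253) (nat_lit 170))) (XT.nd (nat_lit 78) (nat_lit 228) (nat_lit 0) (XT.lf (nat_lit 0) (nat_lit 138608357) (nat_lit 228) (nat_lit 2809643058) (nat_lit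 76) (nat_lit 29796857085) (nat_lit 29) (nat_lit 5) (nat_lit 32) (nat_lit 5) (nat_lit 30) (nat_lit 5) (nat_lit 298) (nat_lit 253) (nat_lit 169)) (XT.nd (nat_lit 78) (nat_lit 0) (nat_lit 0) (XT.lf (nat_lit 0) (nat_lit 6161589200) (nat_lit 304) (nat_lit 20246312767) (nat_lit 76) (nat_lit 7629420225) (nat_lit 26) (nat_lit 5) (nat_lit 30) (nat_lit 5) (nat_lit 27) (nat_lit 5) (nat_lit 299) (nat_lit 253) (nat_lit 168)) (XT.lf (nat_lit 0) (nat_lit 12528133397) (nat_lit 304) (nat_lit 4168278125) (nat_lit 76) (nat_lit 18696491131) (nat_lit 26) (nat_lit 5) (nat_lit 30) (nat_lit 5) (nat_lit 27) (nat_lit 5) (nat_lit 300) (nat_lit 253) (nat_lit 167))))) (XT.nd (nat_lit 234) (nat_lit 228) (nat_lit 0) (XT.nd (nat_lit 78) (nat_lit 152) (nat_lit 0) (XT.lf (nat_lit 0) (nat_lit 12942048741) (nat_lit 152) (nat_lit 6379598889) (nat_lit 228) (nat_lit 17491382375) (nat_lit 24) (nat_lit 5) (nat_lit 26) (nat_lit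 5) (nat_lit 27) (nat_lit 5) (nat_lit 301) (nat_lit 253) (nat_lit 166)) (XT.nd (nat_lit 78) (nat_lit 152) (nat_lit 0) (XT.lf (nat_lit 0) (nat_lit 26525658652) (nat_lit 228) (nat_lit 7374977136) (nat_lit 76) (nat_lit 4401429165) (nat_lit 24) (nat_lit 5) (nat_lit 27) (nat_lit 5) (nat_lit 25) (nat_lit 5) (nat_lit 302) (nat_lit 253) (nat_lit 165)) (XT.lf (nat_lit 0) (nat_lit 10054913409) (nat_lit 152) (nat_lit 24181413069) (nat_lit 228) (nat_lit 5624856111) (nat_lit 22) (nat_lit 5) (nat_lit 24) (nat_lit 5) (nat_lit 25) (nat_lit 5) (nat_lit 303) (nat_lit 253) (nat_lit 164)))) (XT.nd (nat_lit 78) (nat_lit 152) (nat_lit 0) (XT.lf (nat_lit 0) (nat_lit 880393731) (nat_lit 228) (nat_lit 13016721641) (nat_lit 76) (nat_lit 27599050868) (nat_lit 21) (nat_lit 5) (nat_lit 24) (nat_lit 5) (nat_lit 22) (nat_lit 5) (nat_lit 304) (nat_lit 253) (nat_lit 163)) (XT.nd (nat_lit 78) (nat_lit 0) (nat_lit 0) (XT.lf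 (nat_lit 0) (nat_lit 4624450191) (nat_lit 152) (nat_lit 3002070352) (nat_lit 228) (nat_lit 35583771117) (nat_lit 19) (nat_lit 5) (nat_lit 21) (nat_lit 5) (nat_lit 22) (nat_lit 5) (nat_lit 305) (nat_lit 253) (nat_lit 162)) (XT.lf (nat_lit 0) (nat_lit 14913170645) (nat_lit 228) (nat_lit 21689897702) (nat_lit 76) (nat_lit 8400979151) (nat_lit 19) (nat_lit 5) (nat_lit 22) (nat_lit 5) (nat_lit 20) (nat_lit 5) (nat_lit 306) (nat_lit 253) (nat_lit 161))))))))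
noncomputable def xc77 : XT := (XT.nd (nat_lit 33384) (nat_lit 0) (nat_lit 6308) (XT.nd (nat_lit 780) (nat_lit 304) (nat_lit 0) (XT.nd (nat_lit 390) (nat_lit 228) (nat_lit 0) (XT.nd (nat_lit 156) (nat_lit 152) (nat_lit 0) (XT.nd (nat_lit 78) (nat_lit 152) (nat_lit 0) (XT.lf (nat_lit 0) (nat_lit 22581869114) (nat_lit 228) (nat_lit 3999505706) (nat_lit 76) (nat_lit 20305604506) (nat_lit 19) (nat_lit 5) (nat_lit 22) (nat_lit 5) (nat_lit 20) (nat_lit 5) (nat_lit 307) (nat_lit 253) (nat_lit 160)) (XT.lf (nat_lit 0) (nat_lit 14846011392) (nat_lit 152) (nat_lit 15918714570) (nat_lit 228) (nat_lit 18095428813) (nat_lit 17) (nat_lit 5) (nat_lit 19) (nat_lit 5) (nat_lit 20) (nat_lit 5) (nat_lit 308) (nat_lit 253) (nat_lit 159))) (XT.nd (nat_lit 78) (nat_lit 152) (nat_lit 0) (XT.lf (nat_lit 0) (nat_lit 34698835915) (nat_lit 152) (nat_lit 4687468093) (nat_lit 228) (nat_lit 11544815483) (nat_lit 17)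 (nat_lit 5) (nat_lit 19) (nat_lit 5) (nat_lit 20) (nat_lit 5) (nat_lit 309) (nat_lit 253) (nat_lit 158)) (XT.nd (nat_lit 78) (nat_lit 76) (nat_lit 0) (XT.lf (nat_lit 0) (nat_lit 2399238377) (nat_lit 76) (nat_lit 46119981772) (nat_lit 152) (nat_lit 4584021511) (nat_lit 16) (nat_lit 5) (nat_lit 17) (nat_lit 5) (nat_lit 18) (nat_lit 4) (nat_lit 310) (nat_lit 253) (nat_lit 157)) (XT.lf (nat_lit 0) (nat_lit 2876838812) (nat_lit 152) (nat_lit 33170237589) (nat_lit 76) (nat_lit 19329967546) (nat_lit 15) (nat_lit 5) (nat_lit 17) (nat_lit 5) (nat_lit 16) (nat_lit 5) (nat_lit 311) (nat_lit 253) (nat_lit 156))))) (XT.nd (nat_lit 156) (nat_lit 76) (nat_lit 0) (XT.nd (nat_lit 78) (nat_lit 152) (nat_lit 0) (XT.lf (nat_lit 0) (nat_lit 10606470592) (nat_lit 152) (nat_lit 14822875285) (nat_lit 76) (nat_lit 32334127854) (nat_lit 15) (nat_lit 5) (nat_lit 17) (nat_lit 5) (nat_lit 16) (nat_lit 5) (nat_lit 312)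 (nat_lit 253) (nat_lit 155)) (XT.lf (nat_lit 0) (nat_lit 4513914982) (nat_lit 152) (nat_lit 14242204016) (nat_lit 228) (nat_lit 41512114207) (nat_lit 13) (nat_lit 5) (nat_lit 15) (nat_lit 5) (nat_lit 16) (nat_lit 5) (nat_lit 313) (nat_lit 253) (nat_lit 154))) (XT.nd (nat_lit 78) (nat_lit 76) (nat_lit 0) (XT.lf (nat_lit 0) (nat_lit 25111735663) (nat_lit 152) (nat_lit 2344566810) (nat_lit 228) (nat_lit 35437650175) (nat_lit 13) (nat_lit 5) (nat_lit 15) (nat_lit 5) (nat_lit 16) (nat_lit 5) (nat_lit 314) (nat_lit 253) (nat_lit 153)) (XT.nd (nat_lit 78) (nat_lit 76) (nat_lit 0) (XT.lf (nat_lit 0) (nat_lit 36679906573) (nat_lit 228) (nat_lit 19024111679) (nat_lit 76) (nat_lit 9944300394) (nat_lit 13) (nat_lit 5) (nat_lit 16) (nat_lit 5) (nat_lit 14) (nat_lit 4) (nat_lit 315) (nat_lit 253) (nat_lit 152)) (XT.lf (nat_lit 0) (nat_lit 646514564) (nat_lit 76) (nat_lit 45739353503) (nat_lit 152) (nat_lit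 22153911873) (nat_lit 12) (nat_lit 5) (nat_lit 13) (nat_lit 5) (nat_lit 14) (nat_lit 4) (nat_lit 316) (nat_lit 253) (nat_lit 151)))))) (XT.nd (nat_lit 390) (nat_lit 76) (nat_lit 0) (XT.nd (nat_lit 156) (nat_lit 228) (nat_lit 0) (XT.nd (nat_lit 78) (nat_lit 0) (nat_lit 0) (XT.lf (nat_lit 0) (nat_lit 21684295162) (nat_lit 76) (nat_lit 35080247649) (nat_lit 152) (nat_lit 14805660758) (nat_lit 12) (nat_lit 5) (nat_lit 13) (nat_lit 5) (nat_lit 14) (nat_lit 4) (nat_lit 317) (nat_lit 253) (nat_lit 150)) (XT.lf (nat_lit 0) (nat_lit 43760702943) (nat_lit 76) (nat_lit 23893428094) (nat_lit 152) (nat_lit 7098269117) (nat_lit 12) (nat_lit 5) (nat_lit 13) (nat_lit 5) (nat_lit 14) (nat_lit 4) (nat_lit 318) (nat_lit 253) (nat_lit 149))) (XT.nd (nat_lit 78) (nat_lit 152) (nat_lit 0) (XT.lf (nat_lit 0) (nat_lit 967361588) (nat_lit 152) (nat_lit 11175129509) (nat_lit 76) (nat_lit 65951170739) (nat_lit 11)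 (nat_lit 5) (nat_lit 13) (nat_lit 5) (nat_lit 12) (nat_lit 5) (nat_lit 319) (nat_lit 253) (nat_lit 148)) (XT.nd (nat_lit 78) (nat_lit 0) (nat_lit 0) (XT.lf (nat_lit 0) (nat_lit 9380564745) (nat_lit 228) (nat_lit 71862263711) (nat_lit 76) (nat_lit 354326763) (nat_lit 9) (nat_lit 5) (nat_lit 12) (nat_lit 5) (nat_lit 10) (nat_lit 4) (nat_lit 320) (nat_lit 253) (nat_lit 147)) (XT.lf (nat_lit 0) (nat_lit 18445996896) (nat_lit 228) (nat_lit 53484140788) (nat_lit 76) (nat_lit 13338747886) (nat_lit 9) (nat_lit 5) (nat_lit 12) (nat_lit 5) (nat_lit 10) (nat_lit 4) (nat_lit 321) (nat_lit 253) (nat_lit 146))))) (XT.nd (nat_lit 156) (nat_lit 76) (nat_lit 0) (XT.nd (nat_lit 78) (nat_lit 0) (nat_lit 0) (XT.lf (nat_lit 0) (nat_lit 27957876504) (nat_lit 228) (nat_lit 34198553129) (nat_lit 76) (nat_lit 26967986450) (nat_lit 9) (nat_lit 5) (nat_lit 12) (nat_lit 5) (nat_lit 10) (nat_lit 4) (nat_lit 322) (nat_lit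 253) (nat_lit 145)) (XT.lf (nat_lit 0) (nat_lit 37938850903) (nat_lit 228) (nat_lit 13959582669) (nat_lit 76) (nat_lit 41274493021) (nat_lit 9) (nat_lit 5) (nat_lit 12) (nat_lit 5) (nat_lit 10) (nat_lit 4) (nat_lit 323) (nat_lit 253) (nat_lit 144))) (XT.nd (nat_lit 78) (nat_lit 0) (nat_lit 0) (XT.lf (nat_lit 0) (nat_lit 7425863970) (nat_lit 76) (nat_lit 41058202293) (nat_lit 152) (nat_lit 48937848689) (nat_lit 8) (nat_lit 5) (nat_lit 9) (nat_lit 5) (nat_lit 10) (nat_lit 4) (nat_lit 324) (nat_lit 253) (nat_lit 143)) (XT.nd (nat_lit 78) (nat_lit 0) (nat_lit 0) (XT.lf (nat_lit 0) (nat_lit 30162216940) (nat_lit 76) (nat_lit 29532035182) (nat_lit 152) (nat_lit 42184977018) (nat_lit 8) (nat_lit 5) (nat_lit 9) (nat_lit 5) (nat_lit 10) (nat_lit 4) (nat_lit 325) (nat_lit 253) (nat_lit 142)) (XT.lf (nat_lit 0) (nat_lit 54025787347) (nat_lit 76) (nat_lit 17433453399) (nat_lit 152) (nat_lit 35100346826)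 (nat_lit 8) (nat_lit 5) (nat_lit 9) (nat_lit 5) (nat_lit 10) (nat_lit 4) (nat_lit 326) (nat_lit 253) (nat_lit 141))))))) (XT.nd (nat_lit 780) (nat_lit 4484) (nat_lit 0) (XT.nd (nat_lit 390) (nat_lit 760) (nat_lit 0) (XT.nd (nat_lit 156) (nat_lit 0) (nat_lit 0) (XT.nd (nat_lit 78) (nat_lit 912) (nat_lit 0) (XT.lf (nat_lit 0) (nat_lit 2023239658) (nat_lit 0) (nat_lit 2023239658) (nat_lit 836) (nat_lit 357319453) (nat_lit 172) (nat_lit 5) (nat_lit 172) (nat_lit 3) (nat_lit 183) (nat_lit 3) (nat_lit 254) (nat_lit 254) (nat_lit 212)) (XT.lf (nat_lit 0) (nat_lit 679665662) (nat_lit 912) (nat_lit 7791884372) (nat_lit 988) (nat_lit 509914154) (nat_lit 160) (nat_lit 5) (nat_lit 172) (nat_lit 5) (nat_lit 173) (nat_lit 5) (nat_lit 255) (nat_lit 254) (nat_lit 211))) (XT.nd (nat_lit 78) (nat_lit 0) (nat_lit 76) (XT.lf (nat_lit 0) (nat_lit 2130913975) (nat_lit 912) (nat_lit 1723751085) (nat_lit 988) (nat_lit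 5309380931) (nat_lit 160) (nat_lit 5) (nat_lit 172) (nat_lit 5) (nat_lit 173) (nat_lit 5) (nat_lit 256) (nat_lit 254) (nat_lit 210)) (XT.nd (nat_lit 78) (nat_lit 0) (nat_lit 0) (XT.lf (nat_lit 0) (nat_lit 3625914576) (nat_lit 912) (nat_lit 4675798703) (nat_lit 988) (nat_lit 1055188238) (nat_lit 161) (nat_lit 5) (nat_lit 173) (nat_lit 5) (nat_lit 174) (nat_lit 5) (nat_lit 257) (nat_lit 254) (nat_lit 209)) (XT.lf (nat_lit 76) (nat_lit 1830757408) (nat_lit 0) (nat_lit 3358976431) (nat_lit 988) (nat_lit 4370110899) (nat_lit 162) (nat_lit 5) (nat_lit 161) (nat_lit 5) (nat_lit 174) (nat_lit 5) (nat_lit 258) (nat_lit 254) (nat_lit 208))))) (XT.nd (nat_lit 156) (nat_lit 912) (nat_lit 0) (XT.nd (nat_lit 78) (nat_lit 0) (nat_lit 0) (XT.lf (nat_lit 0) (nat_lit 6821244631) (nat_lit 912) (nat_lit 1079887233) (nat_lit 988) (nat_lit 1872372505) (nat_lit 162) (nat_lit 5) (nat_lit 174) (nat_lit 5) (nat_lit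 175) (nat_lit 5) (nat_lit 259) (nat_lit 254) (nat_lit 207)) (XT.lf (nat_lit 76) (nat_lit 5935432909) (nat_lit 0) (nat_lit 2616799905) (nat_lit 988) (nat_lit 1445319269) (nat_lit 163) (nat_lit 5) (nat_lit 162) (nat_lit 5) (nat_lit 175) (nat_lit 5) (nat_lit 260) (nat_lit 254) (nat_lit 206))) (XT.nd (nat_lit 78) (nat_lit 0) (nat_lit 0) (XT.lf (nat_lit 0) (nat_lit 133211958) (nat_lit 988) (nat_lit 7160486201) (nat_lit 1064) (nat_lit 2939320941) (nat_lit 150) (nat_lit 5) (nat_lit 163) (nat_lit 5) (nat_lit 164) (nat_lit 5) (nat_lit 261) (nat_lit 254) (nat_lit 205)) (XT.nd (nat_lit 78) (nat_lit 0) (nat_lit 76) (XT.lf (nat_lit 76) (nat_lit 80377925) (nat_lit 0) (nat_lit 1682271938) (nat_lit 1064) (nat_lit 8717337402) (nat_lit 151) (nat_lit 5) (nat_lit 150) (nat_lit 5) (nat_lit 164) (nat_lit 5) (nat_lit 262) (nat_lit 254) (nat_lit 204)) (XT.lf (nat_lit 0) (nat_lit 3523575031) (nat_lit 988) (nat_lit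 2995842015) (nat_lit 1064) (nat_lit 4218589423) (nat_lit 151) (nat_lit 5) (nat_lit 164) (nat_lit 5) (nat_lit 165) (nat_lit 5) (nat_lit 263) (nat_lit 254) (nat_lit 203)))))) (XT.nd (nat_lit 390) (nat_lit 1976) (nat_lit 0) (XT.nd (nat_lit 156) (nat_lit 1672) (nat_lit 0) (XT.nd (nat_lit 78) (nat_lit 912) (nat_lit 0) (XT.lf (nat_lit 76) (nat_lit 4806865163) (nat_lit 0) (nat_lit 567065695) (nat_lit 1064) (nat_lit 5635147665) (nat_lit 152) (nat_lit 5) (nat_lit 151) (nat_lit 5) (nat_lit 165) (nat_lit 5) (nat_lit 264) (nat_lit 254) (nat_lit 202)) (XT.lf (nat_lit 0) (nat_lit 1698978250) (nat_lit 988) (nat_lit 5660743982) (nat_lit 1064) (nat_lit 3932878624) (nat_lit 139) (nat_lit 5) (nat_lit 152) (nat_lit 5) (nat_lit 153) (nat_lit 5) (nat_lit 265) (nat_lit 254) (nat_lit 201))) (XT.nd (nat_lit 78) (nat_lit 1672) (nat_lit 0) (XT.lf (nat_lit 0) (nat_lit 9463396979) (nat_lit 1064) (nat_lit 1524374321)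 (nat_lit 76) (nat_lit 602145632) (nat_lit 139) (nat_lit 5) (nat_lit 153) (nat_lit 5) (nat_lit 140) (nat_lit 5) (nat_lit 266) (nat_lit 254) (nat_lit 200)) (XT.nd (nat_lit 78) (nat_lit 608) (nat_lit 0) (XT.lf (nat_lit 0) (nat_lit 6980416219) (nat_lit 1064) (nat_lit 4762043569) (nat_lit 1140) (nat_lit 157699977) (nat_lit 125) (nat_lit 5) (nat_lit 139) (nat_lit 5) (nat_lit 140) (nat_lit 5) (nat_lit 267) (nat_lit 254) (nat_lit 199)) (XT.lf (nat_lit 0) (nat_lit 1889188401) (nat_lit 608) (nat_lit 8519189837) (nat_lit 76) (nat_lit 1816633625) (nat_lit 117) (nat_lit 5) (nat_lit 125) (nat_lit 5) (nat_lit 118) (nat_lit 5) (nat_lit 268) (nat_lit 254) (nat_lit 198))))) (XT.nd (nat_lit 234) (nat_lit 988) (nat_lit 0) (XT.nd (nat_lit 78) (nat_lit 532) (nat_lit 0) (XT.lf (nat_lit 0) (nat_lit 207560862) (nat_lit 456) (nat_lit 3878381663) (nat_lit 532) (nat_lit 8478740851) (nat_lit 111) (nat_lit 5) (nat_lit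 117) (nat_lit 5) (nat_lit 118) (nat_lit 5) (nat_lit 269) (nat_lit 254) (nat_lit 197)) (XT.nd (nat_lit 78) (nat_lit 532) (nat_lit 0) (XT.lf (nat_lit 0) (nat_lit 6461261514) (nat_lit 532) (nat_lit 3447013409) (nat_lit 76) (nat_lit 3011141856) (nat_lit 111) (nat_lit 5) (nat_lit 118) (nat_lit 5) (nat_lit 112) (nat_lit 5) (nat_lit 270) (nat_lit 254) (nat_lit 196)) (XT.lf (nat_lit 0) (nat_lit 5940145311) (nat_lit 532) (nat_lit 3065288671) (nat_lit 608) (nat_lit 4285083702) (nat_lit 104) (nat_lit 5) (nat_lit 111) (nat_lit 5) (nat_lit 112) (nat_lit 5) (nat_lit 271) (nat_lit 254) (nat_lit 195)))) (XT.nd (nat_lit 78) (nat_lit 532) (nat_lit 0) (XT.lf (nat_lit 0) (nat_lit 2146119363) (nat_lit 456) (nat_lit 9582385197) (nat_lit 532) (nat_lit 1950245492) (nat_lit 98) (nat_lit 5) (nat_lit 104) (nat_lit 5) (nat_lit 105) (nat_lit 5) (nat_lit 272) (nat_lit 254) (nat_lit 194)) (XT.nd (nat_lit 78) (nat_lit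 456) (nat_lit 0) (XT.lf (nat_lit 0) (nat_lit 555675222) (nat_lit 532) (nat_lit 1894661626) (nat_lit 76) (nat_lit 11634106436) (nat_lit 97) (nat_lit 5) (nat_lit 104) (nat_lit 5) (nat_lit 98) (nat_lit 5) (nat_lit 273) (nat_lit 254) (nat_lit 193)) (XT.lf (nat_lit 0) (nat_lit 3235188646) (nat_lit 532) (nat_lit 6233126717) (nat_lit 76) (nat_lit 5038979540) (nat_lit 91) (nat_lit 5) (nat_lit 98) (nat_lit 5) (nat_lit 92) (nat_lit 5) (nat_lit 274) (nat_lit 254) (nat_lit 192))))))))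
noncomputable def xc78 : XT := (XT.nd (nat_lit 1560) (nat_lit 1672) (nat_lit 0) (XT.nd (nat_lit 780) (nat_lit 1672) (nat_lit 0) (XT.nd (nat_lit 390) (nat_lit 988) (nat_lit 0) (XT.nd (nat_lit 156) (nat_lit 1216) (nat_lit 0) (XT.nd (nat_lit 78) (nat_lit 0) (nat_lit 0) (XT.lf (nat_lit 0) (nat_lit 4051496735) (nat_lit 380) (nat_lit 2040923639) (nat_lit 456) (nat_lit 8857663047) (nat_lit 86) (nat_lit 5) (nat_lit 91) (nat_lit 5) (nat_lit 92) (nat_lit 5) (nat_lit 275) (nat_lit 254) (nat_lit 191)) (XT.lf (nat_lit 0) (nat_lit 9174481274) (nat_lit 456) (nat_lit 531409953) (nat_lit 76) (nat_lit 5706762631) (nat_lit 86) (nat_lit 5) (nat_lit 92) (nat_lit 5) (nat_lit 87) (nat_lit 5) (nat_lit 276) (nat_lit 254) (nat_lit 190))) (XT.nd (nat_lit 78) (nat_lit 836) (nat_lit 0) (XT.lf (nat_lit 0) (nat_lit 10497468793) (nat_lit 380) (nat_lit 1998322050) (nat_lit 456) (nat_lit 3400104294) (nat_lit 81) (nat_lit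 5) (nat_lit 86) (nat_lit 5) (nat_lit 87) (nat_lit 5) (nat_lit 277) (nat_lit 254) (nat_lit 189)) (XT.nd (nat_lit 78) (nat_lit 456) (nat_lit 0) (XT.lf (nat_lit 0) (nat_lit 5697475425) (nat_lit 380) (nat_lit 10369510207) (nat_lit 456) (nat_lit 333890337) (nat_lit 76) (nat_lit 5) (nat_lit 81) (nat_lit 5) (nat_lit 82) (nat_lit 5) (nat_lit 278) (nat_lit 254) (nat_lit 188)) (XT.lf (nat_lit 0) (nat_lit 451475743) (nat_lit 380) (nat_lit 2424291299) (nat_lit 456) (nat_lit 14053198535) (nat_lit 70) (nat_lit 5) (nat_lit 75) (nat_lit 5) (nat_lit 76) (nat_lit 5) (nat_lit 279) (nat_lit 254) (nat_lit 187))))) (XT.nd (nat_lit 156) (nat_lit 684) (nat_lit 0) (XT.nd (nat_lit 78) (nat_lit 304) (nat_lit 0) (XT.lf (nat_lit 0) (nat_lit 6374228420) (nat_lit 456) (nat_lit 5194009554) (nat_lit 76) (nat_lit 5911146810) (nat_lit 70) (nat_lit 5) (nat_lit 76) (nat_lit 5) (nat_lit 71) (nat_lit 5) (nat_lit 280) (nat_lit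 254) (nat_lit 186)) (XT.lf (nat_lit 0) (nat_lit 6721993135) (nat_lit 304) (nat_lit 3383276102) (nat_lit 380) (nat_lit 7950403253) (nat_lit 66) (nat_lit 5) (nat_lit 70) (nat_lit 5) (nat_lit 71) (nat_lit 5) (nat_lit 281) (nat_lit 254) (nat_lit 185))) (XT.nd (nat_lit 78) (nat_lit 380) (nat_lit 0) (XT.lf (nat_lit 0) (nat_lit 606205238) (nat_lit 304) (nat_lit 13496214939) (nat_lit 380) (nat_lit 4556041210) (nat_lit 62) (nat_lit 5) (nat_lit 66) (nat_lit 5) (nat_lit 67) (nat_lit 5) (nat_lit 282) (nat_lit 254) (nat_lit 184)) (XT.nd (nat_lit 78) (nat_lit 380) (nat_lit 0) (XT.lf (nat_lit 0) (nat_lit 13308022011) (nat_lit 304) (nat_lit 5112622559) (nat_lit 380) (nat_lit 867178730) (nat_lit 62) (nat_lit 5) (nat_lit 66) (nat_lit 5) (nat_lit 67) (nat_lit 5) (nat_lit 283) (nat_lit 254) (nat_lit 183)) (XT.lf (nat_lit 0) (nat_lit 3020592790) (nat_lit 380) (nat_lit 13219652090) (nat_lit 76) (nat_lit 3705412508)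 (nat_lit 57) (nat_lit 5) (nat_lit 62) (nat_lit 5) (nat_lit 58) (nat_lit 5) (nat_lit 284) (nat_lit 254) (nat_lit 182)))))) (XT.nd (nat_lit 390) (nat_lit 760) (nat_lit 0) (XT.nd (nat_lit 156) (nat_lit 608) (nat_lit 0) (XT.nd (nat_lit 78) (nat_lit 304) (nat_lit 0) (XT.lf (nat_lit 0) (nat_lit 7171472816) (nat_lit 380) (nat_lit 539148497) (nat_lit 76) (nat_lit 12922966339) (nat_lit 57) (nat_lit 5) (nat_lit 62) (nat_lit 5) (nat_lit 58) (nat_lit 5) (nat_lit 285) (nat_lit 254) (nat_lit 181)) (XT.lf (nat_lit 0) (nat_lit 11641961948) (nat_lit 380) (nat_lit 8371187604) (nat_lit 76) (nat_lit 1339461671) (nat_lit 53) (nat_lit 5) (nat_lit 58) (nat_lit 5) (nat_lit 54) (nat_lit 5) (nat_lit 286) (nat_lit 254) (nat_lit 180))) (XT.nd (nat_lit 78) (nat_lit 380) (nat_lit 0) (XT.lf (nat_lit 0) (nat_lit 5069143282) (nat_lit 228) (nat_lit 11373850943) (nat_lit 304) (nat_lit 5661437137) (nat_lit 50) (nat_lit 5)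 (nat_lit 53) (nat_lit 5) (nat_lit 54) (nat_lit 5) (nat_lit 287) (nat_lit 254) (nat_lit 179)) (XT.nd (nat_lit 78) (nat_lit 380) (nat_lit 0) (XT.lf (nat_lit 0) (nat_lit 19323626460) (nat_lit 228) (nat_lit 2222368284) (nat_lit 304) (nat_lit 1346043551) (nat_lit 50) (nat_lit 5) (nat_lit 53) (nat_lit 5) (nat_lit 54) (nat_lit 5) (nat_lit 288) (nat_lit 254) (nat_lit 178)) (XT.lf (nat_lit 0) (nat_lit 3274867738) (nat_lit 380) (nat_lit 13069415817) (nat_lit 76) (nat_lit 7369315736) (nat_lit 45) (nat_lit 5) (nat_lit 50) (nat_lit 5) (nat_lit 46) (nat_lit 5) (nat_lit 289) (nat_lit 254) (nat_lit 177))))) (XT.nd (nat_lit 156) (nat_lit 532) (nat_lit 0) (XT.nd (nat_lit 78) (nat_lit 0) (nat_lit 0) (XT.lf (nat_lit 0) (nat_lit 1018858154) (nat_lit 228) (nat_lit 7127065727) (nat_lit 304) (nat_lit 16428553438) (nat_lit 42) (nat_lit 5) (nat_lit 45) (nat_lit 5) (nat_lit 46) (nat_lit 5) (nat_lit 290) (nat_lit 254)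 (nat_lit 176)) (XT.lf (nat_lit 0) (nat_lit 13398981945) (nat_lit 304) (nat_lit 9446757436) (nat_lit 76) (nat_lit 2628551084) (nat_lit 42) (nat_lit 5) (nat_lit 46) (nat_lit 5) (nat_lit 43) (nat_lit 5) (nat_lit 291) (nat_lit 254) (nat_lit 175))) (XT.nd (nat_lit 78) (nat_lit 304) (nat_lit 0) (XT.lf (nat_lit 0) (nat_lit 5370700997) (nat_lit 228) (nat_lit 13646655532) (nat_lit 304) (nat_lit 7398700393) (nat_lit 39) (nat_lit 5) (nat_lit 42) (nat_lit 5) (nat_lit 43) (nat_lit 5) (nat_lit 292) (nat_lit 254) (nat_lit 174)) (XT.nd (nat_lit 78) (nat_lit 304) (nat_lit 0) (XT.lf (nat_lit 0) (nat_lit 21097580609) (nat_lit 228) (nat_lit 3896134930) (nat_lit 304) (nat_lit 2408924725) (nat_lit 39) (nat_lit 5) (nat_lit 42) (nat_lit 5) (nat_lit 43) (nat_lit 5) (nat_lit 293) (nat_lit 254) (nat_lit 173)) (XT.lf (nat_lit 0) (nat_lit 2907081091) (nat_lit 304) (nat_lit 19199129374) (nat_lit 76) (nat_lit 6327604436)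 (nat_lit 35) (nat_lit 5) (nat_lit 39) (nat_lit 5) (nat_lit 36) (nat_lit 5) (nat_lit 294) (nat_lit 254) (nat_lit 172))))))) (XT.nd (nat_lit 780) (nat_lit 684) (nat_lit 0) (XT.nd (nat_lit 390) (nat_lit 532) (nat_lit 0) (XT.nd (nat_lit 156) (nat_lit 228) (nat_lit 0) (XT.nd (nat_lit 78) (nat_lit 228) (nat_lit 0) (XT.lf (nat_lit 0) (nat_lit 8525540233) (nat_lit 304) (nat_lit 3923337451) (nat_lit 76) (nat_lit 17064396560) (nat_lit 35) (nat_lit 5) (nat_lit 39) (nat_lit 5) (nat_lit 36) (nat_lit 5) (nat_lit 295) (nat_lit 254) (nat_lit 171)) (XT.lf (nat_lit 0) (nat_lit 12330542714) (nat_lit 228) (nat_lit 2194944421) (nat_lit 304) (nat_lit 16118236471) (nat_lit 32) (nat_lit 5) (nat_lit 35) (nat_lit 5) (nat_lit 36) (nat_lit 5) (nat_lit 296) (nat_lit 254) (nat_lit 170))) (XT.nd (nat_lit 78) (nat_lit 228) (nat_lit 0) (XT.lf (nat_lit 0) (nat_lit 20931181763) (nat_lit 304) (nat_lit 2459211344) (nat_lit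 76) (nat_lit 8437162194) (nat_lit 32) (nat_lit 5) (nat_lit 36) (nat_lit 5) (nat_lit 33) (nat_lit 5) (nat_lit 297) (nat_lit 254) (nat_lit 169)) (XT.nd (nat_lit 78) (nat_lit 76) (nat_lit 0) (XT.lf (nat_lit 0) (nat_lit 14421931674) (nat_lit 152) (nat_lit 13379413054) (nat_lit 228) (nat_lit 5264939180) (nat_lit 30) (nat_lit 5) (nat_lit 32) (nat_lit 5) (nat_lit 33) (nat_lit 5) (nat_lit 298) (nat_lit 254) (nat_lit 168)) (XT.lf (nat_lit 0) (nat_lit 644755368) (nat_lit 228) (nat_lit 2198583164) (nat_lit 76) (nat_lit 31523171998) (nat_lit 29) (nat_lit 5) (nat_lit 32) (nat_lit 5) (nat_lit 30) (nat_lit 5) (nat_lit 299) (nat_lit 254) (nat_lit 167))))) (XT.nd (nat_lit 156) (nat_lit 304) (nat_lit 0) (XT.nd (nat_lit 78) (nat_lit 0) (nat_lit 0) (XT.lf (nat_lit 0) (nat_lit 6954509718) (nat_lit 304) (nat_lit 20515699656) (nat_lit 76) (nat_lit 8253598557) (nat_lit 26) (nat_lit 5) (nat_lit 30) (nat_lit 5) (nat_lit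 27) (nat_lit 5) (nat_lit 300) (nat_lit 254) (nat_lit 166)) (XT.lf (nat_lit 0) (nat_lit 13616293455) (nat_lit 304) (nat_lit 3669140841) (nat_lit 76) (nat_lit 19862465517) (nat_lit 26) (nat_lit 5) (nat_lit 30) (nat_lit 5) (nat_lit 27) (nat_lit 5) (nat_lit 301) (nat_lit 254) (nat_lit 165))) (XT.nd (nat_lit 78) (nat_lit 152) (nat_lit 0) (XT.lf (nat_lit 0) (nat_lit 14276420555) (nat_lit 152) (nat_lit 6457681041) (nat_lit 228) (nat_lit 17905431264) (nat_lit 24) (nat_lit 5) (nat_lit 26) (nat_lit 5) (nat_lit 27) (nat_lit 5) (nat_lit 302) (nat_lit 254) (nat_lit 164)) (XT.nd (nat_lit 78) (nat_lit 152) (nat_lit 0) (XT.lf (nat_lit 0) (nat_lit 28279262767) (nat_lit 228) (nat_lit 7077914217) (nat_lit 76) (nat_lit 4846450155) (nat_lit 24) (nat_lit 5) (nat_lit 27) (nat_lit 5) (nat_lit 25) (nat_lit 5) (nat_lit 303) (nat_lit 254) (nat_lit 163)) (XT.lf (nat_lit 0) (nat_lit 11204385494) (nat_lit 152) (nat_lit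 25156946592) (nat_lit 228) (nat_lit 5479826880) (nat_lit 22) (nat_lit 5) (nat_lit 24) (nat_lit 5) (nat_lit 25) (nat_lit 5) (nat_lit 304) (nat_lit 254) (nat_lit 162)))))) (XT.nd (nat_lit 390) (nat_lit 304) (nat_lit 0) (XT.nd (nat_lit 156) (nat_lit 152) (nat_lit 0) (XT.nd (nat_lit 78) (nat_lit 152) (nat_lit 0) (XT.lf (nat_lit 0) (nat_lit 1322464782) (nat_lit 228) (nat_lit 13043070506) (nat_lit 76) (nat_lit 29192862428) (nat_lit 21) (nat_lit 5) (nat_lit 24) (nat_lit 5) (nat_lit 22) (nat_lit 5) (nat_lit 305) (nat_lit 254) (nat_lit 161)) (XT.lf (nat_lit 0) (nat_lit 5462259117) (nat_lit 152) (nat_lit 2930514871) (nat_lit 228) (nat_lit 36965879389) (nat_lit 19) (nat_lit 5) (nat_lit 21) (nat_lit 5) (nat_lit 22) (nat_lit 5) (nat_lit 306) (nat_lit 254) (nat_lit 160))) (XT.nd (nat_lit 78) (nat_lit 152) (nat_lit 0) (XT.lf (nat_lit 0) (nat_lit 16027455977) (nat_lit 228) (nat_lit 22187146339) (nat_lit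 76) (nat_lit 9028012522) (nat_lit 19) (nat_lit 5) (nat_lit 22) (nat_lit 5) (nat_lit 20) (nat_lit 5) (nat_lit 307) (nat_lit 254) (nat_lit 159)) (XT.nd (nat_lit 78) (nat_lit 152) (nat_lit 0) (XT.lf (nat_lit 0) (nat_lit 24062035712) (nat_lit 228) (nat_lit 3640198850) (nat_lit 76) (nat_lit 21518012743) (nat_lit 19) (nat_lit 5) (nat_lit 22) (nat_lit 5) (nat_lit 20) (nat_lit 5) (nat_lit 308) (nat_lit 254) (nat_lit 158)) (XT.lf (nat_lit 0) (nat_lit 16131562392) (nat_lit 152) (nat_lit 16510977297) (nat_lit 228) (nat_lit 18649912843) (nat_lit 17) (nat_lit 5) (nat_lit 19) (nat_lit 5) (nat_lit 20) (nat_lit 5) (nat_lit 309) (nat_lit 254) (nat_lit 157))))) (XT.nd (nat_lit 234) (nat_lit 152) (nat_lit 0) (XT.nd (nat_lit 78) (nat_lit 152) (nat_lit 0) (XT.lf (nat_lit 0) (nat_lit 36951159073) (nat_lit 152) (nat_lit 4727867211) (nat_lit 228) (nat_lit 11788449199) (nat_lit 17) (nat_lit 5) (nat_lit 19) (nat_lit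 5) (nat_lit 20) (nat_lit 5) (nat_lit 310) (nat_lit 254) (nat_lit 156)) (XT.nd (nat_lit 78) (nat_lit 76) (nat_lit 0) (XT.lf (nat_lit 0) (nat_lit 3029847477) (nat_lit 76) (nat_lit 48230024880) (nat_lit 152) (nat_lit 4488616582) (nat_lit 16) (nat_lit 5) (nat_lit 17) (nat_lit 5) (nat_lit 18) (nat_lit 4) (nat_lit 311) (nat_lit 254) (nat_lit 155)) (XT.lf (nat_lit 0) (nat_lit 3323796725) (nat_lit 152) (nat_lit 34335947875) (nat_lit 76) (nat_lit 20476619722) (nat_lit 15) (nat_lit 5) (nat_lit 17) (nat_lit 5) (nat_lit 16) (nat_lit 5) (nat_lit 312) (nat_lit 254) (nat_lit 154)))) (XT.nd (nat_lit 78) (nat_lit 152) (nat_lit 0) (XT.lf (nat_lit 0) (nat_lit 11425476001) (nat_lit 152) (nat_lit 15094684198) (nat_lit 76) (nat_lit 34122409293) (nat_lit 15) (nat_lit 5) (nat_lit 17) (nat_lit 5) (nat_lit 16) (nat_lit 5) (nat_lit 313) (nat_lit 254) (nat_lit 153)) (XT.nd (nat_lit 78) (nat_lit 0) (nat_lit 0) (XT.lf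 (nat_lit 0) (nat_lit 5195492193) (nat_lit 152) (nat_lit 14777750089) (nat_lit 228) (nat_lit 43299625474) (nat_lit 13) (nat_lit 5) (nat_lit 15) (nat_lit 5) (nat_lit 16) (nat_lit 5) (nat_lit 314) (nat_lit 254) (nat_lit 152)) (XT.lf (nat_lit 0) (nat_lit 26801495267) (nat_lit 152) (nat_lit 2293638839) (nat_lit 228) (nat_lit 36935157023) (nat_lit 13) (nat_lit 5) (nat_lit 15) (nat_lit 5) (nat_lit 16) (nat_lit 5) (nat_lit 315) (nat_lit 254) (nat_lit 151))))))))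
noncomputable def xc79 : XT := (XT.nd (nat_lit 33540) (nat_lit 0) (nat_lit 3724) (XT.nd (nat_lit 780) (nat_lit 0) (nat_lit 0) (XT.nd (nat_lit 390) (nat_lit 228) (nat_lit 0) (XT.nd (nat_lit 156) (nat_lit 76) (nat_lit 0) (XT.nd (nat_lit 78) (nat_lit 76) (nat_lit 0) (XT.lf (nat_lit 0) (nat_lit 38768790406) (nat_lit 228) (nat_lit 19555397691) (nat_lit 76) (nat_lit 10598539201) (nat_lit 13) (nat_lit 5) (nat_lit 16) (nat_lit 5) (nat_lit 14) (nat_lit 4) (nat_lit 316) (nat_lit 254) (nat_lit 150)) (XT.lf (nat_lit 0) (nat_lit 1086722955) (nat_lit 76) (nat_lit 47865110291) (nat_lit 152) (nat_lit 23007192086) (nat_lit 12) (nat_lit 5) (nat_lit 13) (nat_lit 5) (nat_lit 14) (nat_lit 4) (nat_lit 317) (nat_lit 254) (nat_lit 149))) (XT.nd (nat_lit 78) (nat_lit 76) (nat_lit 0) (XT.lf (nat_lit 0) (nat_lit 23156969599) (nat_lit 76) (nat_lit 36680725853) (nat_lit 152) (nat_lit 15303643433) (nat_lit 12) (nat_lit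 5) (nat_lit 13) (nat_lit 5) (nat_lit 14) (nat_lit 4) (nat_lit 318) (nat_lit 254) (nat_lit 148)) (XT.nd (nat_lit 78) (nat_lit 76) (nat_lit 0) (XT.lf (nat_lit 0) (nat_lit 46318699689) (nat_lit 76) (nat_lit 24941876472) (nat_lit 152) (nat_lit 7222420323) (nat_lit 12) (nat_lit 5) (nat_lit 13) (nat_lit 5) (nat_lit 14) (nat_lit 4) (nat_lit 319) (nat_lit 254) (nat_lit 147)) (XT.lf (nat_lit 0) (nat_lit 1231214665) (nat_lit 152) (nat_lit 11376964985) (nat_lit 76) (nat_lit 69383412681) (nat_lit 11) (nat_lit 5) (nat_lit 13) (nat_lit 5) (nat_lit 12) (nat_lit 5) (nat_lit 320) (nat_lit 254) (nat_lit 146))))) (XT.nd (nat_lit 156) (nat_lit 76) (nat_lit 0) (XT.nd (nat_lit 78) (nat_lit 0) (nat_lit 0) (XT.lf (nat_lit 0) (nat_lit 10059477209) (nat_lit 228) (nat_lit 75103483768) (nat_lit 76) (nat_lit 507481146) (nat_lit 9) (nat_lit 5) (nat_lit 12) (nat_lit 5) (nat_lit 10) (nat_lit 4) (nat_lit 321) (nat_lit 254)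 (nat_lit 145)) (XT.lf (nat_lit 0) (nat_lit 19568186480) (nat_lit 228) (nat_lit 55823211515) (nat_lit 76) (nat_lit 14134673895) (nat_lit 9) (nat_lit 5) (nat_lit 12) (nat_lit 5) (nat_lit 10) (nat_lit 4) (nat_lit 322) (nat_lit 254) (nat_lit 144))) (XT.nd (nat_lit 78) (nat_lit 76) (nat_lit 0) (XT.lf (nat_lit 0) (nat_lit 29546141510) (nat_lit 228) (nat_lit 35589303345) (nat_lit 76) (nat_lit 28439232071) (nat_lit 9) (nat_lit 5) (nat_lit 12) (nat_lit 5) (nat_lit 10) (nat_lit 4) (nat_lit 323) (nat_lit 254) (nat_lit 143)) (XT.nd (nat_lit 78) (nat_lit 76) (nat_lit 0) (XT.lf (nat_lit 0) (nat_lit 40017099334) (nat_lit 228) (nat_lit 14353583288) (nat_lit 76) (nat_lit 43455214148) (nat_lit 9) (nat_lit 5) (nat_lit 12) (nat_lit 5) (nat_lit 10) (nat_lit 4) (nat_lit 324) (nat_lit 254) (nat_lit 142)) (XT.lf (nat_lit 0) (nat_lit 8092422200) (nat_lit 76) (nat_lit 42991357917) (nat_lit 152) (nat_lit 51203739574)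 (nat_lit 8) (nat_lit 5) (nat_lit 9) (nat_lit 5) (nat_lit 10) (nat_lit 4) (nat_lit 325) (nat_lit 254) (nat_lit 141)))))) (XT.nd (nat_lit 32292) (nat_lit 0) (nat_lit 10716) (XT.nd (nat_lit 32058) (nat_lit 0) (nat_lit 11476) (XT.nd (nat_lit 31980) (nat_lit 0) (nat_lit 11476) (XT.lf (nat_lit 0) (nat_lit 31951532579) (nat_lit 76) (nat_lit 30894585045) (nat_lit 152) (nat_lit 44121843441) (nat_lit 8) (nat_lit 5) (nat_lit 9) (nat_lit 5) (nat_lit 10) (nat_lit 4) (nat_lit 326) (nat_lit 254) (nat_lit 140)) (XT.lf (nat_lit 0) (nat_lit 991961485) (nat_lit 988) (nat_lit 1793407106) (nat_lit 988) (nat_lit 1793407106) (nat_lit 159) (nat_lit 3) (nat_lit 172) (nat_lit 3) (nat_lit 172) (nat_lit 5) (nat_lit 255) (nat_lit 255) (nat_lit 210))) (XT.nd (nat_lit 78) (nat_lit 0) (nat_lit 76) (XT.lf (nat_lit 76) (nat_lit 2619334044) (nat_lit 0) (nat_lit 692329913) (nat_lit 988) (nat_lit 6032311205) (nat_lit 160) (nat_lit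 5) (nat_lit 159) (nat_lit 3) (nat_lit 172) (nat_lit 5) (nat_lit 256) (nat_lit 255) (nat_lit 209)) (XT.nd (nat_lit 78) (nat_lit 0) (nat_lit 76) (XT.lf (nat_lit 0) (nat_lit 4705421496) (nat_lit 912) (nat_lit 416136191) (nat_lit 988) (nat_lit 4418440525) (nat_lit 160) (nat_lit 5) (nat_lit 172) (nat_lit 5) (nat_lit 173) (nat_lit 5) (nat_lit 257) (nat_lit 255) (nat_lit 208)) (XT.lf (nat_lit 0) (nat_lit 6160959228) (nat_lit 912) (nat_lit 3467310493) (nat_lit 988) (nat_lit 118044191) (nat_lit 161) (nat_lit 5) (nat_lit 173) (nat_lit 5) (nat_lit 174) (nat_lit 5) (nat_lit 258) (nat_lit 255) (nat_lit 207))))) (XT.nd (nat_lit 234) (nat_lit 0) (nat_lit 76) (XT.nd (nat_lit 78) (nat_lit 912) (nat_lit 0) (XT.lf (nat_lit 76) (nat_lit 3323230811) (nat_lit 0) (nat_lit 4381122011) (nat_lit 988) (nat_lit 2258382363) (nat_lit 162) (nat_lit 5) (nat_lit 161) (nat_lit 5) (nat_lit 174) (nat_lit 5) (nat_lit 259) (nat_lit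 255) (nat_lit 206)) (XT.nd (nat_lit 78) (nat_lit 988) (nat_lit 0) (XT.lf (nat_lit 76) (nat_lit 285254640) (nat_lit 0) (nat_lit 9019719244) (nat_lit 988) (nat_lit 885832529) (nat_lit 163) (nat_lit 5) (nat_lit 162) (nat_lit 5) (nat_lit 175) (nat_lit 5) (nat_lit 260) (nat_lit 255) (nat_lit 205)) (XT.lf (nat_lit 0) (nat_lit 590183414) (nat_lit 988) (nat_lit 2829668986) (nat_lit 1064) (nat_lit 7009111639) (nat_lit 149) (nat_lit 5) (nat_lit 162) (nat_lit 5) (nat_lit 163) (nat_lit 5) (nat_lit 261) (nat_lit 255) (nat_lit 204)))) (XT.nd (nat_lit 78) (nat_lit 0) (nat_lit 0) (XT.lf (nat_lit 0) (nat_lit 2126450464) (nat_lit 988) (nat_lit 6066368783) (nat_lit 1064) (nat_lit 2486007152) (nat_lit 150) (nat_lit 5) (nat_lit 163) (nat_lit 5) (nat_lit 164) (nat_lit 5) (nat_lit 262) (nat_lit 255) (nat_lit 203)) (XT.nd (nat_lit 78) (nat_lit 0) (nat_lit 76) (XT.lf (nat_lit 76) (nat_lit 1494913199) (nat_lit 0)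 (nat_lit 2261406864) (nat_lit 1064) (nat_lit 7184551559) (nat_lit 151) (nat_lit 5) (nat_lit 150) (nat_lit 5) (nat_lit 164) (nat_lit 5) (nat_lit 263) (nat_lit 255) (nat_lit 202)) (XT.lf (nat_lit 0) (nat_lit 5510019743) (nat_lit 988) (nat_lit 1737643800) (nat_lit 1064) (nat_lit 3967269675) (nat_lit 151) (nat_lit 5) (nat_lit 164) (nat_lit 5) (nat_lit 165) (nat_lit 5) (nat_lit 264) (nat_lit 255) (nat_lit 201))))))) (XT.nd (nat_lit 780) (nat_lit 3040) (nat_lit 0) (XT.nd (nat_lit 390) (nat_lit 1520) (nat_lit 0) (XT.nd (nat_lit 156) (nat_lit 1672) (nat_lit 0) (XT.nd (nat_lit 78) (nat_lit 912) (nat_lit 0) (XT.lf (nat_lit 76) (nat_lit 6414838977) (nat_lit 0) (nat_lit 964997745) (nat_lit 1064) (nat_lit 4122183642) (nat_lit 152) (nat_lit 5) (nat_lit 151) (nat_lit 5) (nat_lit 165) (nat_lit 5) (nat_lit 265) (nat_lit 255) (nat_lit 200)) (XT.lf (nat_lit 0) (nat_lit 3171669159) (nat_lit 988) (nat_lit 6220480633)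 (nat_lit 1064) (nat_lit 2410009002) (nat_lit 139) (nat_lit 5) (nat_lit 152) (nat_lit 5) (nat_lit 153) (nat_lit 5) (nat_lit 266) (nat_lit 255) (nat_lit 199))) (XT.nd (nat_lit 78) (nat_lit 1672) (nat_lit 0) (XT.lf (nat_lit 0) (nat_lit 11519216012) (nat_lit 1064) (nat_lit 223951221) (nat_lit 76) (nat_lit 373871915) (nat_lit 139) (nat_lit 5) (nat_lit 153) (nat_lit 5) (nat_lit 140) (nat_lit 5) (nat_lit 267) (nat_lit 255) (nat_lit 198)) (XT.nd (nat_lit 78) (nat_lit 532) (nat_lit 0) (XT.lf (nat_lit 0) (nat_lit 1377405941) (nat_lit 1140) (nat_lit 3791788788) (nat_lit 76) (nat_lit 7275302643) (nat_lit 124) (nat_lit 5) (nat_lit 139) (nat_lit 5) (nat_lit 125) (nat_lit 5) (nat_lit 268) (nat_lit 255) (nat_lit 197)) (XT.lf (nat_lit 0) (nat_lit 3461493671) (nat_lit 608) (nat_lit 7562044102) (nat_lit 76) (nat_lit 1764079460) (nat_lit 117) (nat_lit 5) (nat_lit 125) (nat_lit 5) (nat_lit 118) (nat_lit 5) (nat_lit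 269) (nat_lit 255) (nat_lit 196))))) (XT.nd (nat_lit 156) (nat_lit 1064) (nat_lit 0) (XT.nd (nat_lit 78) (nat_lit 0) (nat_lit 0) (XT.lf (nat_lit 0) (nat_lit 1561397698) (nat_lit 456) (nat_lit 4149228339) (nat_lit 532) (nat_lit 7435575300) (nat_lit 111) (nat_lit 5) (nat_lit 117) (nat_lit 5) (nat_lit 118) (nat_lit 5) (nat_lit 270) (nat_lit 255) (nat_lit 195)) (XT.lf (nat_lit 0) (nat_lit 8136369267) (nat_lit 532) (nat_lit 2294683627) (nat_lit 76) (nat_lit 3089864226) (nat_lit 111) (nat_lit 5) (nat_lit 118) (nat_lit 5) (nat_lit 112) (nat_lit 5) (nat_lit 271) (nat_lit 255) (nat_lit 194))) (XT.nd (nat_lit 78) (nat_lit 532) (nat_lit 0) (XT.lf (nat_lit 0) (nat_lit 7523861331) (nat_lit 532) (nat_lit 3231874580) (nat_lit 608) (nat_lit 3156583744) (nat_lit 104) (nat_lit 5) (nat_lit 111) (nat_lit 5) (nat_lit 112) (nat_lit 5) (nat_lit 272) (nat_lit 255) (nat_lit 193)) (XT.nd (nat_lit 78) (nat_lit 76)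 (nat_lit 0) (XT.lf (nat_lit 0) (nat_lit 3544874463) (nat_lit 456) (nat_lit 10020471595) (nat_lit 532) (nat_lit 756283287) (nat_lit 98) (nat_lit 5) (nat_lit 104) (nat_lit 5) (nat_lit 105) (nat_lit 5) (nat_lit 273) (nat_lit 255) (nat_lit 192)) (XT.lf (nat_lit 0) (nat_lit 1789433423) (nat_lit 532) (nat_lit 732163375) (nat_lit 76) (nat_lit 12227610896) (nat_lit 97) (nat_lit 5) (nat_lit 104) (nat_lit 5) (nat_lit 98) (nat_lit 5) (nat_lit 274) (nat_lit 255) (nat_lit 191)))))) (XT.nd (nat_lit 390) (nat_lit 1368) (nat_lit 0) (XT.nd (nat_lit 156) (nat_lit 836) (nat_lit 0) (XT.nd (nat_lit 78) (nat_lit 380) (nat_lit 0) (XT.lf (nat_lit 0) (nat_lit 4557819495) (nat_lit 532) (nat_lit 5286244500) (nat_lit 76) (nat_lit 5350647109) (nat_lit 91) (nat_lit 5) (nat_lit 98) (nat_lit 5) (nat_lit 92) (nat_lit 5) (nat_lit 275) (nat_lit 255) (nat_lit 190)) (XT.lf (nat_lit 0) (nat_lit 5476534369) (nat_lit 380) (nat_lit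 2037849909) (nat_lit 456) (nat_lit 8146709312) (nat_lit 86) (nat_lit 5) (nat_lit 91) (nat_lit 5) (nat_lit 92) (nat_lit 5) (nat_lit 276) (nat_lit 255) (nat_lit 189))) (XT.nd (nat_lit 78) (nat_lit 456) (nat_lit 0) (XT.lf (nat_lit 0) (nat_lit 652802188) (nat_lit 380) (nat_lit 10051776724) (nat_lit 456) (nat_lit 5443734322) (nat_lit 81) (nat_lit 5) (nat_lit 86) (nat_lit 5) (nat_lit 87) (nat_lit 5) (nat_lit 277) (nat_lit 255) (nat_lit 188)) (XT.nd (nat_lit 78) (nat_lit 456) (nat_lit 0) (XT.lf (nat_lit 0) (nat_lit 12186044656) (nat_lit 380) (nat_lit 1960101415) (nat_lit 456) (nat_lit 2511079603) (nat_lit 81) (nat_lit 5) (nat_lit 86) (nat_lit 5) (nat_lit 87) (nat_lit 5) (nat_lit 278) (nat_lit 255) (nat_lit 187)) (XT.lf (nat_lit 0) (nat_lit 657728135) (nat_lit 456) (nat_lit 10051214985) (nat_lit 76) (nat_lit 6479539606) (nat_lit 75) (nat_lit 5) (nat_lit 81) (nat_lit 5) (nat_lit 76) (nat_lit 5) (nat_lit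 279) (nat_lit 255) (nat_lit 186))))) (XT.nd (nat_lit 234) (nat_lit 684) (nat_lit 0) (XT.nd (nat_lit 78) (nat_lit 304) (nat_lit 0) (XT.lf (nat_lit 0) (nat_lit 1624096372) (nat_lit 380) (nat_lit 2360296658) (nat_lit 456) (nat_lit 13759700469) (nat_lit 70) (nat_lit 5) (nat_lit 75) (nat_lit 5) (nat_lit 76) (nat_lit 5) (nat_lit 280) (nat_lit 255) (nat_lit 185)) (XT.nd (nat_lit 78) (nat_lit 304) (nat_lit 0) (XT.lf (nat_lit 0) (nat_lit 7613528394) (nat_lit 456) (nat_lit 4330293980) (nat_lit 76) (nat_lit 6379651872) (nat_lit 70) (nat_lit 5) (nat_lit 76) (nat_lit 5) (nat_lit 71) (nat_lit 5) (nat_lit 281) (nat_lit 255) (nat_lit 184)) (XT.lf (nat_lit 0) (nat_lit 8149306347) (nat_lit 304) (nat_lit 3348466766) (nat_lit 380) (nat_lit 7431911387) (nat_lit 66) (nat_lit 5) (nat_lit 70) (nat_lit 5) (nat_lit 71) (nat_lit 5) (nat_lit 282) (nat_lit 255) (nat_lit 183)))) (XT.nd (nat_lit 78) (nat_lit 380) (nat_lit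 0) (XT.lf (nat_lit 0) (nat_lit 1722492008) (nat_lit 304) (nat_lit 13942346467) (nat_lit 380) (nat_lit 3898775252) (nat_lit 62) (nat_lit 5) (nat_lit 66) (nat_lit 5) (nat_lit 67) (nat_lit 5) (nat_lit 283) (nat_lit 255) (nat_lit 182)) (XT.nd (nat_lit 78) (nat_lit 380) (nat_lit 0) (XT.lf (nat_lit 0) (nat_lit 15007686452) (nat_lit 304) (nat_lit 5150463955) (nat_lit 380) (nat_lit 67615744) (nat_lit 62) (nat_lit 5) (nat_lit 66) (nat_lit 5) (nat_lit 67) (nat_lit 5) (nat_lit 284) (nat_lit 255) (nat_lit 181)) (XT.lf (nat_lit 0) (nat_lit 3970735860) (nat_lit 380) (nat_lit 12834650873) (nat_lit 76) (nat_lit 4111773274) (nat_lit 57) (nat_lit 5) (nat_lit 62) (nat_lit 5) (nat_lit 58) (nat_lit 5) (nat_lit 285) (nat_lit 255) (nat_lit 180))))))))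
noncomputable def xc80 : XT := (XT.nd (nat_lit 1560) (nat_lit 1064) (nat_lit 0) (XT.nd (nat_lit 780) (nat_lit 988) (nat_lit 0) (XT.nd (nat_lit 390) (nat_lit 760) (nat_lit 0) (XT.nd (nat_lit 156) (nat_lit 608) (nat_lit 0) (XT.nd (nat_lit 78) (nat_lit 0) (nat_lit 0) (XT.lf (nat_lit 0) (nat_lit 438628365) (nat_lit 304) (nat_lit 7856694866) (nat_lit 380) (nat_lit 13345264693) (nat_lit 53) (nat_lit 5) (nat_lit 57) (nat_lit 5) (nat_lit 58) (nat_lit 5) (nat_lit 286) (nat_lit 255) (nat_lit 179)) (XT.lf (nat_lit 0) (nat_lit 12960425375) (nat_lit 380) (nat_lit 7800709123) (nat_lit 76) (nat_lit 1635377462) (nat_lit 53) (nat_lit 5) (nat_lit 58) (nat_lit 5) (nat_lit 54) (nat_lit 5) (nat_lit 287) (nat_lit 255) (nat_lit 178))) (XT.nd (nat_lit 78) (nat_lit 380) (nat_lit 0) (XT.lf (nat_lit 0) (nat_lit 6283287735) (nat_lit 228) (nat_lit 11692391229) (nat_lit 304) (nat_lit 5211097093) (nat_lit 50) (nat_lit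 5) (nat_lit 53) (nat_lit 5) (nat_lit 54) (nat_lit 5) (nat_lit 288) (nat_lit 255) (nat_lit 177)) (XT.nd (nat_lit 78) (nat_lit 380) (nat_lit 0) (XT.lf (nat_lit 0) (nat_lit 21204748058) (nat_lit 228) (nat_lit 2095246450) (nat_lit 304) (nat_lit 714858204) (nat_lit 50) (nat_lit 5) (nat_lit 53) (nat_lit 5) (nat_lit 54) (nat_lit 5) (nat_lit 289) (nat_lit 255) (nat_lit 176)) (XT.lf (nat_lit 0) (nat_lit 4101870326) (nat_lit 380) (nat_lit 12800659777) (nat_lit 76) (nat_lit 7975476899) (nat_lit 45) (nat_lit 5) (nat_lit 50) (nat_lit 5) (nat_lit 46) (nat_lit 5) (nat_lit 290) (nat_lit 255) (nat_lit 175))))) (XT.nd (nat_lit 156) (nat_lit 532) (nat_lit 0) (XT.nd (nat_lit 78) (nat_lit 0) (nat_lit 0) (XT.lf (nat_lit 0) (nat_lit 1965592446) (nat_lit 228) (nat_lit 7227913954) (nat_lit 304) (nat_lit 16589177169) (nat_lit 42) (nat_lit 5) (nat_lit 45) (nat_lit 5) (nat_lit 46) (nat_lit 5) (nat_lit 291) (nat_lit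 255) (nat_lit 174)) (XT.lf (nat_lit 0) (nat_lit 14681066657) (nat_lit 304) (nat_lit 9048759185) (nat_lit 76) (nat_lit 2998568387) (nat_lit 42) (nat_lit 5) (nat_lit 46) (nat_lit 5) (nat_lit 43) (nat_lit 5) (nat_lit 292) (nat_lit 255) (nat_lit 173))) (XT.nd (nat_lit 78) (nat_lit 304) (nat_lit 0) (XT.lf (nat_lit 0) (nat_lit 6484624159) (nat_lit 228) (nat_lit 14074712883) (nat_lit 304) (nat_lit 7158602020) (nat_lit 39) (nat_lit 5) (nat_lit 42) (nat_lit 5) (nat_lit 43) (nat_lit 5) (nat_lit 293) (nat_lit 255) (nat_lit 172)) (XT.nd (nat_lit 78) (nat_lit 304) (nat_lit 0) (XT.lf (nat_lit 0) (nat_lit 22957591176) (nat_lit 228) (nat_lit 3848774605) (nat_lit 304) (nat_lit 1948386777) (nat_lit 39) (nat_lit 5) (nat_lit 42) (nat_lit 5) (nat_lit 43) (nat_lit 5) (nat_lit 294) (nat_lit 255) (nat_lit 171)) (XT.lf (nat_lit 0) (nat_lit 3604935108) (nat_lit 304) (nat_lit 19349749778) (nat_lit 76) (nat_lit 6883200189)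 (nat_lit 35) (nat_lit 5) (nat_lit 39) (nat_lit 5) (nat_lit 36) (nat_lit 5) (nat_lit 295) (nat_lit 255) (nat_lit 170)))))) (XT.nd (nat_lit 390) (nat_lit 532) (nat_lit 0) (XT.nd (nat_lit 156) (nat_lit 228) (nat_lit 0) (XT.nd (nat_lit 78) (nat_lit 228) (nat_lit 0) (XT.lf (nat_lit 0) (nat_lit 9478007685) (nat_lit 304) (nat_lit 3348708072) (nat_lit 76) (nat_lit 18145440704) (nat_lit 35) (nat_lit 5) (nat_lit 39) (nat_lit 5) (nat_lit 36) (nat_lit 5) (nat_lit 296) (nat_lit 255) (nat_lit 169)) (XT.lf (nat_lit 0) (nat_lit 13695771382) (nat_lit 228) (nat_lit 2064320840) (nat_lit 304) (nat_lit 16399619278) (nat_lit 32) (nat_lit 5) (nat_lit 35) (nat_lit 5) (nat_lit 36) (nat_lit 5) (nat_lit 297) (nat_lit 255) (nat_lit 168))) (XT.nd (nat_lit 78) (nat_lit 228) (nat_lit 0) (XT.lf (nat_lit 0) (nat_lit 22464065919) (nat_lit 304) (nat_lit 1855896457) (nat_lit 76) (nat_lit 9083477734) (nat_lit 32) (nat_lit 5)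 (nat_lit 36) (nat_lit 5) (nat_lit 33) (nat_lit 5) (nat_lit 298) (nat_lit 255) (nat_lit 167)) (XT.nd (nat_lit 78) (nat_lit 76) (nat_lit 0) (XT.lf (nat_lit 0) (nat_lit 15848485173) (nat_lit 152) (nat_lit 13812874807) (nat_lit 228) (nat_lit 5043279489) (nat_lit 30) (nat_lit 5) (nat_lit 32) (nat_lit 5) (nat_lit 33) (nat_lit 5) (nat_lit 299) (nat_lit 255) (nat_lit 166)) (XT.lf (nat_lit 0) (nat_lit 1129797302) (nat_lit 228) (nat_lit 1626841531) (nat_lit 76) (nat_lit 33313817726) (nat_lit 29) (nat_lit 5) (nat_lit 32) (nat_lit 5) (nat_lit 30) (nat_lit 5) (nat_lit 300) (nat_lit 255) (nat_lit 165))))) (XT.nd (nat_lit 156) (nat_lit 304) (nat_lit 0) (XT.nd (nat_lit 78) (nat_lit 0) (nat_lit 0) (XT.lf (nat_lit 0) (nat_lit 7742000335) (nat_lit 304) (nat_lit 20867626363) (nat_lit 76) (nat_lit 8886421178) (nat_lit 26) (nat_lit 5) (nat_lit 30) (nat_lit 5) (nat_lit 27) (nat_lit 5) (nat_lit 301) (nat_lit 255)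 (nat_lit 164)) (XT.lf (nat_lit 0) (nat_lit 14715932062) (nat_lit 304) (nat_lit 3210828097) (nat_lit 76) (nat_lit 21065248501) (nat_lit 26) (nat_lit 5) (nat_lit 30) (nat_lit 5) (nat_lit 27) (nat_lit 5) (nat_lit 302) (nat_lit 255) (nat_lit 163))) (XT.nd (nat_lit 78) (nat_lit 152) (nat_lit 0) (XT.lf (nat_lit 0) (nat_lit 15613615167) (nat_lit 152) (nat_lit 6562063695) (nat_lit 228) (nat_lit 18382997404) (nat_lit 24) (nat_lit 5) (nat_lit 26) (nat_lit 5) (nat_lit 27) (nat_lit 5) (nat_lit 303) (nat_lit 255) (nat_lit 162)) (XT.nd (nat_lit 78) (nat_lit 152) (nat_lit 0) (XT.lf (nat_lit 0) (nat_lit 30080818815) (nat_lit 228) (nat_lit 6827899020) (nat_lit 76) (nat_lit 5292808519) (nat_lit 24) (nat_lit 5) (nat_lit 27) (nat_lit 5) (nat_lit 25) (nat_lit 5) (nat_lit 304) (nat_lit 255) (nat_lit 161)) (XT.lf (nat_lit 0) (nat_lit 12351204692) (nat_lit 152) (nat_lit 26202968861) (nat_lit 228) (nat_lit 5367176922)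 (nat_lit 22) (nat_lit 5) (nat_lit 24) (nat_lit 5) (nat_lit 25) (nat_lit 5) (nat_lit 305) (nat_lit 255) (nat_lit 160))))))) (XT.nd (nat_lit 780) (nat_lit 380) (nat_lit 0) (XT.nd (nat_lit 390) (nat_lit 304) (nat_lit 0) (XT.nd (nat_lit 156) (nat_lit 152) (nat_lit 0) (XT.nd (nat_lit 78) (nat_lit 152) (nat_lit 0) (XT.lf (nat_lit 0) (nat_lit 1749632343) (nat_lit 228) (nat_lit 13128795716) (nat_lit 76) (nat_lit 30846481981) (nat_lit 21) (nat_lit 5) (nat_lit 24) (nat_lit 5) (nat_lit 22) (nat_lit 5) (nat_lit 306) (nat_lit 255) (nat_lit 159)) (XT.lf (nat_lit 0) (nat_lit 6285563834) (nat_lit 152) (nat_lit 2875989368) (nat_lit 228) (nat_lit 38454009836) (nat_lit 19) (nat_lit 5) (nat_lit 21) (nat_lit 5) (nat_lit 22) (nat_lit 5) (nat_lit 307) (nat_lit 255) (nat_lit 158))) (XT.nd (nat_lit 78) (nat_lit 152) (nat_lit 0) (XT.lf (nat_lit 0) (nat_lit 17163184149) (nat_lit 228) (nat_lit 22763853998) (nat_lit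 76) (nat_lit 9667154112) (nat_lit 19) (nat_lit 5) (nat_lit 22) (nat_lit 5) (nat_lit 20) (nat_lit 5) (nat_lit 308) (nat_lit 255) (nat_lit 157)) (XT.nd (nat_lit 78) (nat_lit 152) (nat_lit 0) (XT.lf (nat_lit 0) (nat_lit 25583571187) (nat_lit 228) (nat_lit 3314923404) (nat_lit 76) (nat_lit 22772714299) (nat_lit 19) (nat_lit 5) (nat_lit 22) (nat_lit 5) (nat_lit 20) (nat_lit 5) (nat_lit 309) (nat_lit 255) (nat_lit 156)) (XT.lf (nat_lit 0) (nat_lit 17430884667) (nat_lit 152) (nat_lit 17151788745) (nat_lit 228) (nat_lit 19264687477) (nat_lit 17) (nat_lit 5) (nat_lit 19) (nat_lit 5) (nat_lit 20) (nat_lit 5) (nat_lit 310) (nat_lit 255) (nat_lit 155))))) (XT.nd (nat_lit 156) (nat_lit 228) (nat_lit 0) (XT.nd (nat_lit 78) (nat_lit 76) (nat_lit 0) (XT.lf (nat_lit 0) (nat_lit 39267997174) (nat_lit 152) (nat_lit 4788320174) (nat_lit 228) (nat_lit 12075280222) (nat_lit 17) (nat_lit 5) (nat_lit 19) (nat_lit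 5) (nat_lit 20) (nat_lit 5) (nat_lit 311) (nat_lit 255) (nat_lit 154)) (XT.lf (nat_lit 0) (nat_lit 3644511897) (nat_lit 76) (nat_lit 50463788273) (nat_lit 152) (nat_lit 4418620197) (nat_lit 16) (nat_lit 5) (nat_lit 17) (nat_lit 5) (nat_lit 18) (nat_lit 4) (nat_lit 312) (nat_lit 255) (nat_lit 153))) (XT.nd (nat_lit 78) (nat_lit 152) (nat_lit 0) (XT.lf (nat_lit 0) (nat_lit 3764921684) (nat_lit 152) (nat_lit 35605759696) (nat_lit 76) (nat_lit 21663855515) (nat_lit 15) (nat_lit 5) (nat_lit 17) (nat_lit 5) (nat_lit 16) (nat_lit 5) (nat_lit 313) (nat_lit 255) (nat_lit 152)) (XT.nd (nat_lit 78) (nat_lit 152) (nat_lit 0) (XT.lf (nat_lit 0) (nat_lit 12258592775) (nat_lit 152) (nat_lit 15423717863) (nat_lit 76) (nat_lit 35984153383) (nat_lit 15) (nat_lit 5) (nat_lit 17) (nat_lit 5) (nat_lit 16) (nat_lit 5) (nat_lit 314) (nat_lit 255) (nat_lit 151)) (XT.lf (nat_lit 0) (nat_lit 5868764727) (nat_lit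 152) (nat_lit 15356488726) (nat_lit 228) (nat_lit 45203296594) (nat_lit 13) (nat_lit 5) (nat_lit 15) (nat_lit 5) (nat_lit 16) (nat_lit 5) (nat_lit 315) (nat_lit 255) (nat_lit 150)))))) (XT.nd (nat_lit 390) (nat_lit 304) (nat_lit 0) (XT.nd (nat_lit 156) (nat_lit 76) (nat_lit 0) (XT.nd (nat_lit 78) (nat_lit 0) (nat_lit 0) (XT.lf (nat_lit 0) (nat_lit 28535377577) (nat_lit 152) (nat_lit 2255798049) (nat_lit 228) (nat_lit 38533048062) (nat_lit 13) (nat_lit 5) (nat_lit 15) (nat_lit 5) (nat_lit 16) (nat_lit 5) (nat_lit 316) (nat_lit 255) (nat_lit 149)) (XT.lf (nat_lit 0) (nat_lit 40938421315) (nat_lit 228) (nat_lit 20152288144) (nat_lit 76) (nat_lit 11270891365) (nat_lit 13) (nat_lit 5) (nat_lit 16) (nat_lit 5) (nat_lit 14) (nat_lit 4) (nat_lit 317) (nat_lit 255) (nat_lit 148))) (XT.nd (nat_lit 78) (nat_lit 0) (nat_lit 0) (XT.lf (nat_lit 0) (nat_lit 1511020701) (nat_lit 76) (nat_lit 50112142778)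 (nat_lit 152) (nat_lit 23926789440) (nat_lit 12) (nat_lit 5) (nat_lit 13) (nat_lit 5) (nat_lit 14) (nat_lit 4) (nat_lit 318) (nat_lit 255) (nat_lit 147)) (XT.nd (nat_lit 78) (nat_lit 0) (nat_lit 0) (XT.lf (nat_lit 0) (nat_lit 24667162458) (nat_lit 76) (nat_lit 38375502120) (nat_lit 152) (nat_lit 15849052033) (nat_lit 12) (nat_lit 5) (nat_lit 13) (nat_lit 5) (nat_lit 14) (nat_lit 4) (nat_lit 319) (nat_lit 255) (nat_lit 146)) (XT.lf (nat_lit 0) (nat_lit 48970200749) (nat_lit 76) (nat_lit 26056341699) (nat_lit 152) (nat_lit 7374233176) (nat_lit 12) (nat_lit 5) (nat_lit 13) (nat_lit 5) (nat_lit 14) (nat_lit 4) (nat_lit 320) (nat_lit 255) (nat_lit 145))))) (XT.nd (nat_lit 234) (nat_lit 76) (nat_lit 0) (XT.nd (nat_lit 78) (nat_lit 152) (nat_lit 0) (XT.lf (nat_lit 0) (nat_lit 1488226643) (nat_lit 152) (nat_lit 11622075367) (nat_lit 76) (nat_lit 72974745135) (nat_lit 11) (nat_lit 5) (nat_lit 13)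 (nat_lit 5) (nat_lit 12) (nat_lit 5) (nat_lit 321) (nat_lit 255) (nat_lit 144)) (XT.nd (nat_lit 78) (nat_lit 0) (nat_lit 0) (XT.lf (nat_lit 0) (nat_lit 10752822250) (nat_lit 228) (nat_lit 78539480516) (nat_lit 76) (nat_lit 655701503) (nat_lit 9) (nat_lit 5) (nat_lit 12) (nat_lit 5) (nat_lit 10) (nat_lit 4) (nat_lit 322) (nat_lit 255) (nat_lit 143)) (XT.lf (nat_lit 0) (nat_lit 20727901691) (nat_lit 228) (nat_lit 58310393576) (nat_lit 76) (nat_lit 14958404065) (nat_lit 9) (nat_lit 5) (nat_lit 12) (nat_lit 5) (nat_lit 10) (nat_lit 4) (nat_lit 323) (nat_lit 255) (nat_lit 142)))) (XT.nd (nat_lit 78) (nat_lit 76) (nat_lit 0) (XT.lf (nat_lit 0) (nat_lit 31196120859) (nat_lit 228) (nat_lit 37079265165) (nat_lit 76) (nat_lit 29972618890) (nat_lit 9) (nat_lit 5) (nat_lit 12) (nat_lit 5) (nat_lit 10) (nat_lit 4) (nat_lit 324) (nat_lit 255) (nat_lit 141)) (XT.nd (nat_lit 78) (nat_lit 76) (nat_lit 0)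 (XT.lf (nat_lit 0) (nat_lit 42182404085) (nat_lit 228) (nat_lit 14795544978) (nat_lit 76) (nat_lit 45734094107) (nat_lit 9) (nat_lit 5) (nat_lit 12) (nat_lit 5) (nat_lit 10) (nat_lit 4) (nat_lit 325) (nat_lit 255) (nat_lit 140)) (XT.lf (nat_lit 0) (nat_lit 8764857398) (nat_lit 76) (nat_lit 45032304959) (nat_lit 152) (nat_lit 53599752813) (nat_lit 8) (nat_lit 5) (nat_lit 9) (nat_lit 5) (nat_lit 10) (nat_lit 4) (nat_lit 326) (nat_lit 255) (nat_lit 139))))))))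
noncomputable def xc81 : XT := (XT.nd (nat_lit 1560) (nat_lit 4256) (nat_lit 0) (XT.nd (nat_lit 780) (nat_lit 4408) (nat_lit 0) (XT.nd (nat_lit 390) (nat_lit 760) (nat_lit 0) (XT.nd (nat_lit 156) (nat_lit 0) (nat_lit 76) (XT.nd (nat_lit 78) (nat_lit 0) (nat_lit 0) (XT.lf (nat_lit 0) (nat_lit 2274961547) (nat_lit 988) (nat_lit 1245822631) (nat_lit 988) (nat_lit 1245822631) (nat_lit 159) (nat_lit 3) (nat_lit 172) (nat_lit 3) (nat_lit 172) (nat_lit 5) (nat_lit 256) (nat_lit 256) (nat_lit 208)) (XT.lf (nat_lit 76) (nat_lit 3988276843) (nat_lit 0) (nat_lit 1850207617) (nat_lit 988) (nat_lit 3894032128) (nat_lit 160) (nat_lit 5) (nat_lit 159) (nat_lit 3) (nat_lit 172) (nat_lit 5) (nat_lit 257) (nat_lit 256) (nat_lit 207))) (XT.nd (nat_lit 78) (nat_lit 0) (nat_lit 0) (XT.lf (nat_lit 76) (nat_lit 843741339) (nat_lit 0) (nat_lit 6343575914) (nat_lit 988) (nat_lit 2754834307) (nat_lit 161) (nat_lit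 5) (nat_lit 160) (nat_lit 5) (nat_lit 173) (nat_lit 5) (nat_lit 258) (nat_lit 256) (nat_lit 206)) (XT.nd (nat_lit 78) (nat_lit 0) (nat_lit 76) (XT.lf (nat_lit 76) (nat_lit 7822186504) (nat_lit 0) (nat_lit 789327845) (nat_lit 988) (nat_lit 1550746879) (nat_lit 161) (nat_lit 5) (nat_lit 160) (nat_lit 5) (nat_lit 173) (nat_lit 5) (nat_lit 259) (nat_lit 256) (nat_lit 205)) (XT.lf (nat_lit 76) (nat_lit 4760082177) (nat_lit 0) (nat_lit 5374959751) (nat_lit 988) (nat_lit 257710477) (nat_lit 162) (nat_lit 5) (nat_lit 161) (nat_lit 5) (nat_lit 174) (nat_lit 5) (nat_lit 260) (nat_lit 256) (nat_lit 204))))) (XT.nd (nat_lit 156) (nat_lit 0) (nat_lit 76) (XT.nd (nat_lit 78) (nat_lit 0) (nat_lit 0) (XT.lf (nat_lit 0) (nat_lit 1067221243) (nat_lit 988) (nat_lit 9038585401) (nat_lit 1064) (nat_lit 529186138) (nat_lit 149) (nat_lit 5) (nat_lit 162) (nat_lit 5) (nat_lit 163) (nat_lit 5) (nat_lit 261) (nat_lit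 256) (nat_lit 203)) (XT.lf (nat_lit 0) (nat_lit 2504640515) (nat_lit 988) (nat_lit 1682292399) (nat_lit 1064) (nat_lit 6700982013) (nat_lit 149) (nat_lit 5) (nat_lit 162) (nat_lit 5) (nat_lit 163) (nat_lit 5) (nat_lit 262) (nat_lit 256) (nat_lit 202))) (XT.nd (nat_lit 78) (nat_lit 0) (nat_lit 0) (XT.lf (nat_lit 0) (nat_lit 4034657710) (nat_lit 988) (nat_lit 5052551868) (nat_lit 1064) (nat_lit 2065836003) (nat_lit 150) (nat_lit 5) (nat_lit 163) (nat_lit 5) (nat_lit 164) (nat_lit 5) (nat_lit 263) (nat_lit 256) (nat_lit 201)) (XT.nd (nat_lit 78) (nat_lit 0) (nat_lit 76) (XT.lf (nat_lit 76) (nat_lit 2849038793) (nat_lit 0) (nat_lit 2823476145) (nat_lit 1064) (nat_lit 5758153094) (nat_lit 151) (nat_lit 5) (nat_lit 150) (nat_lit 5) (nat_lit 164) (nat_lit 5) (nat_lit 264) (nat_lit 256) (nat_lit 200)) (XT.lf (nat_lit 0) (nat_lit 7427485320) (nat_lit 988) (nat_lit 547437268) (nat_lit 1064) (nat_lit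 3746359491) (nat_lit 151) (nat_lit 5) (nat_lit 164) (nat_lit 5) (nat_lit 165) (nat_lit 5) (nat_lit 265) (nat_lit 256) (nat_lit 199)))))) (XT.nd (nat_lit 390) (nat_lit 1976) (nat_lit 0) (XT.nd (nat_lit 156) (nat_lit 1672) (nat_lit 0) (XT.nd (nat_lit 78) (nat_lit 912) (nat_lit 0) (XT.lf (nat_lit 76) (nat_lit 7976062156) (nat_lit 0) (nat_lit 1348466466) (nat_lit 1064) (nat_lit 2700427603) (nat_lit 152) (nat_lit 5) (nat_lit 151) (nat_lit 5) (nat_lit 165) (nat_lit 5) (nat_lit 266) (nat_lit 256) (nat_lit 198)) (XT.lf (nat_lit 0) (nat_lit 4588975515) (nat_lit 988) (nat_lit 6782479224) (nat_lit 1064) (nat_lit 970859971) (nat_lit 139) (nat_lit 5) (nat_lit 152) (nat_lit 5) (nat_lit 153) (nat_lit 5) (nat_lit 267) (nat_lit 256) (nat_lit 197))) (XT.nd (nat_lit 78) (nat_lit 532) (nat_lit 0) (XT.lf (nat_lit 0) (nat_lit 848644332) (nat_lit 1140) (nat_lit 11649731953) (nat_lit 76) (nat_lit 176462703) (nat_lit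 124) (nat_lit 5) (nat_lit 139) (nat_lit 5) (nat_lit 125) (nat_lit 5) (nat_lit 268) (nat_lit 256) (nat_lit 196)) (XT.nd (nat_lit 78) (nat_lit 532) (nat_lit 0) (XT.lf (nat_lit 0) (nat_lit 2842883730) (nat_lit 1140) (nat_lit 2736616113) (nat_lit 76) (nat_lit 7441219558) (nat_lit 124) (nat_lit 5) (nat_lit 139) (nat_lit 5) (nat_lit 125) (nat_lit 5) (nat_lit 269) (nat_lit 256) (nat_lit 195)) (XT.lf (nat_lit 0) (nat_lit 4975018105) (nat_lit 608) (nat_lit 6685629095) (nat_lit 76) (nat_lit 1722228244) (nat_lit 117) (nat_lit 5) (nat_lit 125) (nat_lit 5) (nat_lit 118) (nat_lit 5) (nat_lit 270) (nat_lit 256) (nat_lit 194))))) (XT.nd (nat_lit 156) (nat_lit 1520) (nat_lit 0) (XT.nd (nat_lit 78) (nat_lit 0) (nat_lit 0) (XT.lf (nat_lit 0) (nat_lit 2858024311) (nat_lit 456) (nat_lit 4426465351) (nat_lit 532) (nat_lit 6476648764) (nat_lit 111) (nat_lit 5) (nat_lit 117) (nat_lit 5) (nat_lit 118) (nat_lit 5)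 (nat_lit 271) (nat_lit 256) (nat_lit 193)) (XT.lf (nat_lit 0) (nat_lit 9769532108) (nat_lit 532) (nat_lit 1207893588) (nat_lit 76) (nat_lit 3179201227) (nat_lit 111) (nat_lit 5) (nat_lit 118) (nat_lit 5) (nat_lit 112) (nat_lit 5) (nat_lit 272) (nat_lit 256) (nat_lit 192))) (XT.nd (nat_lit 78) (nat_lit 988) (nat_lit 0) (XT.lf (nat_lit 0) (nat_lit 9067137167) (nat_lit 532) (nat_lit 3405551279) (nat_lit 608) (nat_lit 2096495341) (nat_lit 104) (nat_lit 5) (nat_lit 111) (nat_lit 5) (nat_lit 112) (nat_lit 5) (nat_lit 273) (nat_lit 256) (nat_lit 191)) (XT.nd (nat_lit 78) (nat_lit 456) (nat_lit 0) (XT.lf (nat_lit 0) (nat_lit 369945334) (nat_lit 532) (nat_lit 10110596103) (nat_lit 76) (nat_lit 4519819562) (nat_lit 97) (nat_lit 5) (nat_lit 104) (nat_lit 5) (nat_lit 98) (nat_lit 5) (nat_lit 274) (nat_lit 256) (nat_lit 190)) (XT.lf (nat_lit 0) (nat_lit 378969392) (nat_lit 456) (nat_lit 2597432953) (nat_lit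 532) (nat_lit 12474367099) (nat_lit 91) (nat_lit 5) (nat_lit 97) (nat_lit 5) (nat_lit 98) (nat_lit 5) (nat_lit 275) (nat_lit 256) (nat_lit 189))))))) (XT.nd (nat_lit 780) (nat_lit 1976) (nat_lit 0) (XT.nd (nat_lit 390) (nat_lit 1064) (nat_lit 0) (XT.nd (nat_lit 156) (nat_lit 836) (nat_lit 0) (XT.nd (nat_lit 78) (nat_lit 380) (nat_lit 0) (XT.lf (nat_lit 0) (nat_lit 5838655064) (nat_lit 532) (nat_lit 4409025158) (nat_lit 76) (nat_lit 5672345988) (nat_lit 91) (nat_lit 5) (nat_lit 98) (nat_lit 5) (nat_lit 92) (nat_lit 5) (nat_lit 276) (nat_lit 256) (nat_lit 188)) (XT.lf (nat_lit 0) (nat_lit 6859170881) (nat_lit 380) (nat_lit 2044395545) (nat_lit 456) (nat_lit 7507480707) (nat_lit 86) (nat_lit 5) (nat_lit 91) (nat_lit 5) (nat_lit 92) (nat_lit 5) (nat_lit 277) (nat_lit 256) (nat_lit 187))) (XT.nd (nat_lit 78) (nat_lit 456) (nat_lit 0) (XT.lf (nat_lit 0) (nat_lit 1793730320) (nat_lit 380) (nat_lit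 10422806762) (nat_lit 456) (nat_lit 4707321129) (nat_lit 81) (nat_lit 5) (nat_lit 86) (nat_lit 5) (nat_lit 87) (nat_lit 5) (nat_lit 278) (nat_lit 256) (nat_lit 186)) (XT.nd (nat_lit 78) (nat_lit 456) (nat_lit 0) (XT.lf (nat_lit 0) (nat_lit 13850859291) (nat_lit 380) (nat_lit 1932812393) (nat_lit 456) (nat_lit 1676062241) (nat_lit 81) (nat_lit 5) (nat_lit 86) (nat_lit 5) (nat_lit 87) (nat_lit 5) (nat_lit 279) (nat_lit 256) (nat_lit 185)) (XT.lf (nat_lit 0) (nat_lit 1598979001) (nat_lit 456) (nat_lit 9479865938) (nat_lit 76) (nat_lit 6939548868) (nat_lit 75) (nat_lit 5) (nat_lit 81) (nat_lit 5) (nat_lit 76) (nat_lit 5) (nat_lit 280) (nat_lit 256) (nat_lit 184))))) (XT.nd (nat_lit 156) (nat_lit 684) (nat_lit 0) (XT.nd (nat_lit 78) (nat_lit 0) (nat_lit 0) (XT.lf (nat_lit 0) (nat_lit 2748427578) (nat_lit 380) (nat_lit 2310321282) (nat_lit 456) (nat_lit 13544140829) (nat_lit 70) (nat_lit 5) (nat_lit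 75) (nat_lit 5) (nat_lit 76) (nat_lit 5) (nat_lit 281) (nat_lit 256) (nat_lit 183)) (XT.lf (nat_lit 0) (nat_lit 8829205768) (nat_lit 456) (nat_lit 3527837204) (nat_lit 76) (nat_lit 6855503147) (nat_lit 70) (nat_lit 5) (nat_lit 76) (nat_lit 5) (nat_lit 71) (nat_lit 5) (nat_lit 282) (nat_lit 256) (nat_lit 182))) (XT.nd (nat_lit 78) (nat_lit 380) (nat_lit 0) (XT.lf (nat_lit 0) (nat_lit 9546534527) (nat_lit 304) (nat_lit 3330880452) (nat_lit 380) (nat_lit 6972657045) (nat_lit 66) (nat_lit 5) (nat_lit 70) (nat_lit 5) (nat_lit 71) (nat_lit 5) (nat_lit 283) (nat_lit 256) (nat_lit 181)) (XT.nd (nat_lit 78) (nat_lit 76) (nat_lit 0) (XT.lf (nat_lit 0) (nat_lit 2793629314) (nat_lit 304) (nat_lit 14432044997) (nat_lit 380) (nat_lit 3290931232) (nat_lit 62) (nat_lit 5) (nat_lit 66) (nat_lit 5) (nat_lit 67) (nat_lit 5) (nat_lit 284) (nat_lit 256) (nat_lit 180)) (XT.lf (nat_lit 0) (nat_lit 680024674) (nat_lit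 380) (nat_lit 4523553855) (nat_lit 76) (nat_lit 16009286523) (nat_lit 61) (nat_lit 5) (nat_lit 66) (nat_lit 5) (nat_lit 62) (nat_lit 5) (nat_lit 285) (nat_lit 256) (nat_lit 179)))))) (XT.nd (nat_lit 390) (nat_lit 1140) (nat_lit 0) (XT.nd (nat_lit 156) (nat_lit 228) (nat_lit 0) (XT.nd (nat_lit 78) (nat_lit 304) (nat_lit 0) (XT.lf (nat_lit 0) (nat_lit 4894092092) (nat_lit 380) (nat_lit 12527645256) (nat_lit 76) (nat_lit 4517897212) (nat_lit 57) (nat_lit 5) (nat_lit 62) (nat_lit 5) (nat_lit 58) (nat_lit 5) (nat_lit 286) (nat_lit 256) (nat_lit 178)) (XT.lf (nat_lit 0) (nat_lit 1382102554) (nat_lit 304) (nat_lit 8027149499) (nat_lit 380) (nat_lit 13290829565) (nat_lit 53) (nat_lit 5) (nat_lit 57) (nat_lit 5) (nat_lit 58) (nat_lit 5) (nat_lit 287) (nat_lit 256) (nat_lit 177))) (XT.nd (nat_lit 78) (nat_lit 228) (nat_lit 0) (XT.lf (nat_lit 0) (nat_lit 14276351705) (nat_lit 380) (nat_lit 7293658085)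 (nat_lit 76) (nat_lit 1924804120) (nat_lit 53) (nat_lit 5) (nat_lit 58) (nat_lit 5) (nat_lit 54) (nat_lit 5) (nat_lit 288) (nat_lit 256) (nat_lit 176)) (XT.nd (nat_lit 78) (nat_lit 0) (nat_lit 0) (XT.lf (nat_lit 0) (nat_lit 7468823813) (nat_lit 228) (nat_lit 12050115316) (nat_lit 304) (nat_lit 4806425734) (nat_lit 50) (nat_lit 5) (nat_lit 53) (nat_lit 5) (nat_lit 54) (nat_lit 5) (nat_lit 289) (nat_lit 256) (nat_lit 175)) (XT.lf (nat_lit 0) (nat_lit 23094863262) (nat_lit 228) (nat_lit 1983917844) (nat_lit 304) (nat_lit 117052339) (nat_lit 50) (nat_lit 5) (nat_lit 53) (nat_lit 5) (nat_lit 54) (nat_lit 5) (nat_lit 290) (nat_lit 256) (nat_lit 174))))) (XT.nd (nat_lit 234) (nat_lit 532) (nat_lit 0) (XT.nd (nat_lit 78) (nat_lit 228) (nat_lit 0) (XT.lf (nat_lit 0) (nat_lit 4908559489) (nat_lit 380) (nat_lit 12604205844) (nat_lit 76) (nat_lit 8589847458) (nat_lit 45) (nat_lit 5) (nat_lit 50) (nat_lit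 5) (nat_lit 46) (nat_lit 5) (nat_lit 291) (nat_lit 256) (nat_lit 173)) (XT.nd (nat_lit 78) (nat_lit 0) (nat_lit 0) (XT.lf (nat_lit 0) (nat_lit 2876381260) (nat_lit 228) (nat_lit 7357559031) (nat_lit 304) (nat_lit 16819267375) (nat_lit 42) (nat_lit 5) (nat_lit 45) (nat_lit 5) (nat_lit 46) (nat_lit 5) (nat_lit 292) (nat_lit 256) (nat_lit 172)) (XT.lf (nat_lit 0) (nat_lit 15970345037) (nat_lit 304) (nat_lit 8711776624) (nat_lit 76) (nat_lit 3364904741) (nat_lit 42) (nat_lit 5) (nat_lit 46) (nat_lit 5) (nat_lit 43) (nat_lit 5) (nat_lit 293) (nat_lit 256) (nat_lit 171)))) (XT.nd (nat_lit 78) (nat_lit 304) (nat_lit 0) (XT.lf (nat_lit 0) (nat_lit 7575647306) (nat_lit 228) (nat_lit 14547813221) (nat_lit 304) (nat_lit 6963213850) (nat_lit 39) (nat_lit 5) (nat_lit 42) (nat_lit 5) (nat_lit 43) (nat_lit 5) (nat_lit 294) (nat_lit 256) (nat_lit 170)) (XT.nd (nat_lit 78) (nat_lit 304) (nat_lit 0) (XT.lf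 (nat_lit 0) (nat_lit 24835748772) (nat_lit 228) (nat_lit 3821560662) (nat_lit 304) (nat_lit 1518836334) (nat_lit 39) (nat_lit 5) (nat_lit 42) (nat_lit 5) (nat_lit 43) (nat_lit 5) (nat_lit 295) (nat_lit 256) (nat_lit 169)) (XT.lf (nat_lit 0) (nat_lit 4286315616) (nat_lit 304) (nat_lit 19583145598) (nat_lit 76) (nat_lit 7444335738) (nat_lit 35) (nat_lit 5) (nat_lit 39) (nat_lit 5) (nat_lit 36) (nat_lit 5) (nat_lit 296) (nat_lit 256) (nat_lit 168))))))))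
noncomputable def xc82 : XT := (XT.nd (nat_lit 1560) (nat_lit 304) (nat_lit 0) (XT.nd (nat_lit 780) (nat_lit 684) (nat_lit 0) (XT.nd (nat_lit 390) (nat_lit 532) (nat_lit 0) (XT.nd (nat_lit 156) (nat_lit 228) (nat_lit 0) (XT.nd (nat_lit 78) (nat_lit 228) (nat_lit 0) (XT.lf (nat_lit 0) (nat_lit 10429178310) (nat_lit 304) (nat_lit 2817008553) (nat_lit 76) (nat_lit 19259356109) (nat_lit 35) (nat_lit 5) (nat_lit 39) (nat_lit 5) (nat_lit 36) (nat_lit 5) (nat_lit 297) (nat_lit 256) (nat_lit 167)) (XT.lf (nat_lit 0) (nat_lit 15059654311) (nat_lit 228) (nat_lit 1949513478) (nat_lit 304) (nat_lit 16743836962) (nat_lit 32) (nat_lit 5) (nat_lit 35) (nat_lit 5) (nat_lit 36) (nat_lit 5) (nat_lit 298) (nat_lit 256) (nat_lit 166))) (XT.nd (nat_lit 78) (nat_lit 228) (nat_lit 0) (XT.lf (nat_lit 0) (nat_lit 24028380388) (nat_lit 304) (nat_lit 1289938032) (nat_lit 76) (nat_lit 9741241127) (nat_lit 32) (nat_lit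 5) (nat_lit 36) (nat_lit 5) (nat_lit 33) (nat_lit 5) (nat_lit 299) (nat_lit 256) (nat_lit 165)) (XT.nd (nat_lit 78) (nat_lit 76) (nat_lit 0) (XT.lf (nat_lit 0) (nat_lit 17280779649) (nat_lit 152) (nat_lit 14289905032) (nat_lit 228) (nat_lit 4855618838) (nat_lit 30) (nat_lit 5) (nat_lit 32) (nat_lit 5) (nat_lit 33) (nat_lit 5) (nat_lit 300) (nat_lit 256) (nat_lit 164)) (XT.lf (nat_lit 0) (nat_lit 1596993894) (nat_lit 228) (nat_lit 1089888106) (nat_lit 76) (nat_lit 35174054761) (nat_lit 29) (nat_lit 5) (nat_lit 32) (nat_lit 5) (nat_lit 30) (nat_lit 5) (nat_lit 301) (nat_lit 256) (nat_lit 163))))) (XT.nd (nat_lit 156) (nat_lit 304) (nat_lit 0) (XT.nd (nat_lit 78) (nat_lit 0) (nat_lit 0) (XT.lf (nat_lit 0) (nat_lit 8527980289) (nat_lit 304) (nat_lit 21299798361) (nat_lit 76) (nat_lit 9530418150) (nat_lit 26) (nat_lit 5) (nat_lit 30) (nat_lit 5) (nat_lit 27) (nat_lit 5) (nat_lit 302) (nat_lit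 256) (nat_lit 162)) (XT.lf (nat_lit 0) (nat_lit 15831614320) (nat_lit 304) (nat_lit 2789265386) (nat_lit 76) (nat_lit 22308678462) (nat_lit 26) (nat_lit 5) (nat_lit 30) (nat_lit 5) (nat_lit 27) (nat_lit 5) (nat_lit 303) (nat_lit 256) (nat_lit 161))) (XT.nd (nat_lit 78) (nat_lit 152) (nat_lit 0) (XT.lf (nat_lit 0) (nat_lit 16959714143) (nat_lit 152) (nat_lit 6691979670) (nat_lit 228) (nat_lit 18923276142) (nat_lit 24) (nat_lit 5) (nat_lit 26) (nat_lit 5) (nat_lit 27) (nat_lit 5) (nat_lit 304) (nat_lit 256) (nat_lit 160)) (XT.nd (nat_lit 78) (nat_lit 152) (nat_lit 0) (XT.lf (nat_lit 0) (nat_lit 31936417950) (nat_lit 228) (nat_lit 6621528975) (nat_lit 76) (nat_lit 5742515482) (nat_lit 24) (nat_lit 5) (nat_lit 27) (nat_lit 5) (nat_lit 25) (nat_lit 5) (nat_lit 305) (nat_lit 256) (nat_lit 159)) (XT.lf (nat_lit 0) (nat_lit 13500828349) (nat_lit 152) (nat_lit 27320985729) (nat_lit 228) (nat_lit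 5284840710) (nat_lit 22) (nat_lit 5) (nat_lit 24) (nat_lit 5) (nat_lit 25) (nat_lit 5) (nat_lit 306) (nat_lit 256) (nat_lit 158)))))) (XT.nd (nat_lit 390) (nat_lit 304) (nat_lit 0) (XT.nd (nat_lit 156) (nat_lit 152) (nat_lit 0) (XT.nd (nat_lit 78) (nat_lit 152) (nat_lit 0) (XT.lf (nat_lit 0) (nat_lit 2164591803) (nat_lit 228) (nat_lit 13271468323) (nat_lit 76) (nat_lit 32564748422) (nat_lit 21) (nat_lit 5) (nat_lit 24) (nat_lit 5) (nat_lit 22) (nat_lit 5) (nat_lit 307) (nat_lit 256) (nat_lit 157)) (XT.lf (nat_lit 0) (nat_lit 7098882172) (nat_lit 152) (nat_lit 2837429429) (nat_lit 228) (nat_lit 40050031396) (nat_lit 19) (nat_lit 5) (nat_lit 21) (nat_lit 5) (nat_lit 22) (nat_lit 5) (nat_lit 308) (nat_lit 256) (nat_lit 156))) (XT.nd (nat_lit 78) (nat_lit 152) (nat_lit 0) (XT.lf (nat_lit 0) (nat_lit 18324613537) (nat_lit 228) (nat_lit 23418917756) (nat_lit 76) (nat_lit 10320798406) (nat_lit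 19) (nat_lit 5) (nat_lit 22) (nat_lit 5) (nat_lit 20) (nat_lit 5) (nat_lit 309) (nat_lit 256) (nat_lit 155)) (XT.nd (nat_lit 78) (nat_lit 152) (nat_lit 0) (XT.lf (nat_lit 0) (nat_lit 27151578489) (nat_lit 228) (nat_lit 3020546772) (nat_lit 76) (nat_lit 24073527717) (nat_lit 19) (nat_lit 5) (nat_lit 22) (nat_lit 5) (nat_lit 20) (nat_lit 5) (nat_lit 310) (nat_lit 256) (nat_lit 154)) (XT.lf (nat_lit 0) (nat_lit 18749362374) (nat_lit 152) (nat_lit 17841815900) (nat_lit 228) (nat_lit 19939739531) (nat_lit 17) (nat_lit 5) (nat_lit 19) (nat_lit 5) (nat_lit 20) (nat_lit 5) (nat_lit 311) (nat_lit 256) (nat_lit 153))))) (XT.nd (nat_lit 156) (nat_lit 228) (nat_lit 0) (XT.nd (nat_lit 78) (nat_lit 76) (nat_lit 0) (XT.lf (nat_lit 0) (nat_lit 41657047961) (nat_lit 152) (nat_lit 4868153057) (nat_lit 228) (nat_lit 12404584881) (nat_lit 17) (nat_lit 5) (nat_lit 19) (nat_lit 5) (nat_lit 20) (nat_lit 5) (nat_lit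 312) (nat_lit 256) (nat_lit 152)) (XT.lf (nat_lit 0) (nat_lit 4246848192) (nat_lit 76) (nat_lit 52825764216) (nat_lit 152) (nat_lit 4372497044) (nat_lit 16) (nat_lit 5) (nat_lit 17) (nat_lit 5) (nat_lit 18) (nat_lit 4) (nat_lit 313) (nat_lit 256) (nat_lit 151))) (XT.nd (nat_lit 78) (nat_lit 152) (nat_lit 0) (XT.lf (nat_lit 0) (nat_lit 4202542030) (nat_lit 152) (nat_lit 36980618591) (nat_lit 76) (nat_lit 22895261267) (nat_lit 15) (nat_lit 5) (nat_lit 17) (nat_lit 5) (nat_lit 16) (nat_lit 5) (nat_lit 314) (nat_lit 256) (nat_lit 150)) (XT.nd (nat_lit 78) (nat_lit 152) (nat_lit 0) (XT.lf (nat_lit 0) (nat_lit 13109021710) (nat_lit 152) (nat_lit 15808780813) (nat_lit 76) (nat_lit 37924516267) (nat_lit 15) (nat_lit 5) (nat_lit 17) (nat_lit 5) (nat_lit 16) (nat_lit 5) (nat_lit 315) (nat_lit 256) (nat_lit 149)) (XT.lf (nat_lit 0) (nat_lit 6537257770) (nat_lit 152) (nat_lit 15979053418) (nat_lit 228)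 (nat_lit 47226445412) (nat_lit 13) (nat_lit 5) (nat_lit 15) (nat_lit 5) (nat_lit 16) (nat_lit 5) (nat_lit 316) (nat_lit 256) (nat_lit 148))))))) (XT.nd (nat_lit 32838) (nat_lit 0) (nat_lit 10488) (XT.nd (nat_lit 390) (nat_lit 228) (nat_lit 0) (XT.nd (nat_lit 156) (nat_lit 76) (nat_lit 0) (XT.nd (nat_lit 78) (nat_lit 0) (nat_lit 0) (XT.lf (nat_lit 0) (nat_lit 30319341510) (nat_lit 152) (nat_lit 2230245338) (nat_lit 228) (nat_lit 40233970930) (nat_lit 13) (nat_lit 5) (nat_lit 15) (nat_lit 5) (nat_lit 16) (nat_lit 5) (nat_lit 317) (nat_lit 256) (nat_lit 147)) (XT.lf (nat_lit 0) (nat_lit 43195039784) (nat_lit 228) (nat_lit 20814433680) (nat_lit 76) (nat_lit 11963619791) (nat_lit 13) (nat_lit 5) (nat_lit 16) (nat_lit 5) (nat_lit 14) (nat_lit 4) (nat_lit 318) (nat_lit 256) (nat_lit 146))) (XT.nd (nat_lit 78) (nat_lit 0) (nat_lit 0) (XT.lf (nat_lit 0) (nat_lit 1922137812) (nat_lit 76) (nat_lit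 52485121321) (nat_lit 152) (nat_lit 24913820749) (nat_lit 12) (nat_lit 5) (nat_lit 13) (nat_lit 5) (nat_lit 14) (nat_lit 4) (nat_lit 319) (nat_lit 256) (nat_lit 145)) (XT.nd (nat_lit 78) (nat_lit 0) (nat_lit 0) (XT.lf (nat_lit 0) (nat_lit 26220107320) (nat_lit 76) (nat_lit 40167964277) (nat_lit 152) (nat_lit 16442163527) (nat_lit 12) (nat_lit 5) (nat_lit 13) (nat_lit 5) (nat_lit 14) (nat_lit 4) (nat_lit 320) (nat_lit 256) (nat_lit 144)) (XT.lf (nat_lit 0) (nat_lit 51723079109) (nat_lit 76) (nat_lit 27238860738) (nat_lit 152) (nat_lit 7553096160) (nat_lit 12) (nat_lit 5) (nat_lit 13) (nat_lit 5) (nat_lit 14) (nat_lit 4) (nat_lit 321) (nat_lit 256) (nat_lit 143))))) (XT.nd (nat_lit 156) (nat_lit 0) (nat_lit 0) (XT.nd (nat_lit 78) (nat_lit 152) (nat_lit 0) (XT.lf (nat_lit 0) (nat_lit 1739918016) (nat_lit 152) (nat_lit 11909539345) (nat_lit 76) (nat_lit 76734286763) (nat_lit 11) (nat_lit 5)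 (nat_lit 13) (nat_lit 5) (nat_lit 12) (nat_lit 5) (nat_lit 322) (nat_lit 256) (nat_lit 142)) (XT.lf (nat_lit 0) (nat_lit 11463135636) (nat_lit 228) (nat_lit 82176951194) (nat_lit 76) (nat_lit 799911793) (nat_lit 9) (nat_lit 5) (nat_lit 12) (nat_lit 5) (nat_lit 10) (nat_lit 4) (nat_lit 323) (nat_lit 256) (nat_lit 141))) (XT.nd (nat_lit 78) (nat_lit 0) (nat_lit 0) (XT.lf (nat_lit 0) (nat_lit 21928746559) (nat_lit 228) (nat_lit 60950195781) (nat_lit 76) (nat_lit 15812443521) (nat_lit 9) (nat_lit 5) (nat_lit 12) (nat_lit 5) (nat_lit 10) (nat_lit 4) (nat_lit 324) (nat_lit 256) (nat_lit 140)) (XT.nd (nat_lit 78) (nat_lit 0) (nat_lit 0) (XT.lf (nat_lit 0) (nat_lit 32912545743) (nat_lit 228) (nat_lit 38670640353) (nat_lit 76) (nat_lit 31572315789) (nat_lit 9) (nat_lit 5) (nat_lit 12) (nat_lit 5) (nat_lit 10) (nat_lit 4) (nat_lit 325) (nat_lit 256) (nat_lit 139)) (XT.lf (nat_lit 0) (nat_lit 44440685091)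 (nat_lit 228) (nat_lit 15285238351) (nat_lit 76) (nat_lit 48117052103) (nat_lit 9) (nat_lit 5) (nat_lit 12) (nat_lit 5) (nat_lit 10) (nat_lit 4) (nat_lit 326) (nat_lit 256) (nat_lit 138)))))) (XT.nd (nat_lit 390) (nat_lit 0) (nat_lit 76) (XT.nd (nat_lit 156) (nat_lit 912) (nat_lit 0) (XT.nd (nat_lit 78) (nat_lit 0) (nat_lit 0) (XT.lf (nat_lit 0) (nat_lit 3507441587) (nat_lit 988) (nat_lit 730104846) (nat_lit 988) (nat_lit 730104846) (nat_lit 159) (nat_lit 3) (nat_lit 172) (nat_lit 3) (nat_lit 172) (nat_lit 5) (nat_lit 257) (nat_lit 257) (nat_lit 206)) (XT.lf (nat_lit 76) (nat_lit 5310571499) (nat_lit 0) (nat_lit 2961549025) (nat_lit 988) (nat_lit 1875677374) (nat_lit 160) (nat_lit 5) (nat_lit 159) (nat_lit 3) (nat_lit 172) (nat_lit 5) (nat_lit 258) (nat_lit 257) (nat_lit 205))) (XT.nd (nat_lit 78) (nat_lit 988) (nat_lit 0) (XT.lf (nat_lit 76) (nat_lit 2055434404) (nat_lit 0) (nat_lit 7532889018)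 (nat_lit 988) (nat_lit 782931113) (nat_lit 161) (nat_lit 5) (nat_lit 160) (nat_lit 5) (nat_lit 173) (nat_lit 5) (nat_lit 259) (nat_lit 257) (nat_lit 204)) (XT.nd (nat_lit 78) (nat_lit 0) (nat_lit 76) (XT.lf (nat_lit 0) (nat_lit 373468646) (nat_lit 988) (nat_lit 1282158393) (nat_lit 1064) (nat_lit 8949871118) (nat_lit 147) (nat_lit 5) (nat_lit 160) (nat_lit 5) (nat_lit 161) (nat_lit 5) (nat_lit 260) (nat_lit 257) (nat_lit 203)) (XT.lf (nat_lit 0) (nat_lit 1614364329) (nat_lit 988) (nat_lit 4715791282) (nat_lit 1064) (nat_lit 4519973172) (nat_lit 148) (nat_lit 5) (nat_lit 161) (nat_lit 5) (nat_lit 162) (nat_lit 5) (nat_lit 261) (nat_lit 257) (nat_lit 202))))) (XT.nd (nat_lit 234) (nat_lit 0) (nat_lit 152) (XT.nd (nat_lit 78) (nat_lit 0) (nat_lit 76) (XT.lf (nat_lit 76) (nat_lit 2843469446) (nat_lit 0) (nat_lit 73003116) (nat_lit 1064) (nat_lit 8190727557) (nat_lit 149) (nat_lit 5) (nat_lit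 148) (nat_lit 5) (nat_lit 162) (nat_lit 5) (nat_lit 262) (nat_lit 257) (nat_lit 201)) (XT.nd (nat_lit 78) (nat_lit 0) (nat_lit 76) (XT.lf (nat_lit 0) (nat_lit 4339575880) (nat_lit 988) (nat_lit 597372972) (nat_lit 1064) (nat_lit 6438674916) (nat_lit 149) (nat_lit 5) (nat_lit 162) (nat_lit 5) (nat_lit 163) (nat_lit 5) (nat_lit 263) (nat_lit 257) (nat_lit 200)) (XT.lf (nat_lit 0) (nat_lit 5870753157) (nat_lit 988) (nat_lit 4110498868) (nat_lit 1064) (nat_lit 1675276096) (nat_lit 150) (nat_lit 5) (nat_lit 163) (nat_lit 5) (nat_lit 164) (nat_lit 5) (nat_lit 264) (nat_lit 257) (nat_lit 199)))) (XT.nd (nat_lit 78) (nat_lit 0) (nat_lit 76) (XT.lf (nat_lit 76) (nat_lit 4151926047) (nat_lit 0) (nat_lit 3371905224) (nat_lit 1064) (nat_lit 4426445290) (nat_lit 151) (nat_lit 5) (nat_lit 150) (nat_lit 5) (nat_lit 164) (nat_lit 5) (nat_lit 265) (nat_lit 257) (nat_lit 198)) (XT.nd (nat_lit 78) (nat_lit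 0) (nat_lit 0) (XT.lf (nat_lit 76) (nat_lit 595161734) (nat_lit 0) (nat_lit 8698729196) (nat_lit 1064) (nat_lit 2963943214) (nat_lit 152) (nat_lit 5) (nat_lit 151) (nat_lit 5) (nat_lit 165) (nat_lit 5) (nat_lit 266) (nat_lit 257) (nat_lit 197)) (XT.lf (nat_lit 76) (nat_lit 9500018307) (nat_lit 0) (nat_lit 1719943154) (nat_lit 1064) (nat_lit 1358927241) (nat_lit 152) (nat_lit 5) (nat_lit 151) (nat_lit 5) (nat_lit 165) (nat_lit 5) (nat_lit 267) (nat_lit 257) (nat_lit 196))))))))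
noncomputable def xc83 : XT := (XT.nd (nat_lit 1638) (nat_lit 2584) (nat_lit 0) (XT.nd (nat_lit 780) (nat_lit 2888) (nat_lit 0) (XT.nd (nat_lit 390) (nat_lit 1520) (nat_lit 0) (XT.nd (nat_lit 156) (nat_lit 988) (nat_lit 0) (XT.nd (nat_lit 78) (nat_lit 1064) (nat_lit 0) (XT.lf (nat_lit 0) (nat_lit 387532430) (nat_lit 1064) (nat_lit 6957798761) (nat_lit 76) (nat_lit 5568677316) (nat_lit 138) (nat_lit 5) (nat_lit 152) (nat_lit 5) (nat_lit 139) (nat_lit 5) (nat_lit 268) (nat_lit 257) (nat_lit 195)) (XT.lf (nat_lit 0) (nat_lit 2218006168) (nat_lit 1064) (nat_lit 3203547) (nat_lit 1140) (nat_lit 11043558069) (nat_lit 124) (nat_lit 5) (nat_lit 138) (nat_lit 5) (nat_lit 139) (nat_lit 5) (nat_lit 269) (nat_lit 257) (nat_lit 194))) (XT.nd (nat_lit 78) (nat_lit 988) (nat_lit 0) (XT.lf (nat_lit 0) (nat_lit 4251792080) (nat_lit 1140) (nat_lit 1744410986) (nat_lit 76) (nat_lit 7633826370) (nat_lit 124)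 (nat_lit 5) (nat_lit 139) (nat_lit 5) (nat_lit 125) (nat_lit 5) (nat_lit 270) (nat_lit 257) (nat_lit 193)) (XT.nd (nat_lit 78) (nat_lit 456) (nat_lit 0) (XT.lf (nat_lit 0) (nat_lit 6439596448) (nat_lit 608) (nat_lit 5882026457) (nat_lit 76) (nat_lit 1690375766) (nat_lit 117) (nat_lit 5) (nat_lit 125) (nat_lit 5) (nat_lit 118) (nat_lit 5) (nat_lit 271) (nat_lit 257) (nat_lit 192)) (XT.lf (nat_lit 0) (nat_lit 4106192400) (nat_lit 456) (nat_lit 4711077139) (nat_lit 532) (nat_lit 5593492268) (nat_lit 111) (nat_lit 5) (nat_lit 117) (nat_lit 5) (nat_lit 118) (nat_lit 5) (nat_lit 272) (nat_lit 257) (nat_lit 191))))) (XT.nd (nat_lit 156) (nat_lit 988) (nat_lit 0) (XT.nd (nat_lit 78) (nat_lit 532) (nat_lit 0) (XT.lf (nat_lit 0) (nat_lit 11370339215) (nat_lit 532) (nat_lit 178470380) (nat_lit 76) (nat_lit 3279062684) (nat_lit 111) (nat_lit 5) (nat_lit 118) (nat_lit 5) (nat_lit 112) (nat_lit 5) (nat_lit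 273) (nat_lit 257) (nat_lit 190)) (XT.lf (nat_lit 0) (nat_lit 10579072501) (nat_lit 532) (nat_lit 3586788453) (nat_lit 608) (nat_lit 1096632951) (nat_lit 104) (nat_lit 5) (nat_lit 111) (nat_lit 5) (nat_lit 112) (nat_lit 5) (nat_lit 274) (nat_lit 257) (nat_lit 189))) (XT.nd (nat_lit 78) (nat_lit 456) (nat_lit 0) (XT.lf (nat_lit 0) (nat_lit 1430208664) (nat_lit 532) (nat_lit 9530082213) (nat_lit 76) (nat_lit 4756003078) (nat_lit 97) (nat_lit 5) (nat_lit 104) (nat_lit 5) (nat_lit 98) (nat_lit 5) (nat_lit 275) (nat_lit 257) (nat_lit 188)) (XT.nd (nat_lit 78) (nat_lit 0) (nat_lit 0) (XT.lf (nat_lit 0) (nat_lit 1452830332) (nat_lit 456) (nat_lit 2674690750) (nat_lit 532) (nat_lit 12063020627) (nat_lit 91) (nat_lit 5) (nat_lit 97) (nat_lit 5) (nat_lit 98) (nat_lit 5) (nat_lit 276) (nat_lit 257) (nat_lit 187)) (XT.lf (nat_lit 0) (nat_lit 7085639604) (nat_lit 532) (nat_lit 3594073635) (nat_lit 76)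 (nat_lit 6005093920) (nat_lit 91) (nat_lit 5) (nat_lit 98) (nat_lit 5) (nat_lit 92) (nat_lit 5) (nat_lit 277) (nat_lit 257) (nat_lit 186)))))) (XT.nd (nat_lit 390) (nat_lit 1292) (nat_lit 0) (XT.nd (nat_lit 156) (nat_lit 836) (nat_lit 0) (XT.nd (nat_lit 78) (nat_lit 380) (nat_lit 0) (XT.lf (nat_lit 0) (nat_lit 8207852594) (nat_lit 380) (nat_lit 2060132910) (nat_lit 456) (nat_lit 6933590279) (nat_lit 86) (nat_lit 5) (nat_lit 91) (nat_lit 5) (nat_lit 92) (nat_lit 5) (nat_lit 278) (nat_lit 257) (nat_lit 185)) (XT.lf (nat_lit 0) (nat_lit 2888666743) (nat_lit 380) (nat_lit 10824619393) (nat_lit 456) (nat_lit 4027857335) (nat_lit 81) (nat_lit 5) (nat_lit 86) (nat_lit 5) (nat_lit 87) (nat_lit 5) (nat_lit 279) (nat_lit 257) (nat_lit 184))) (XT.nd (nat_lit 78) (nat_lit 836) (nat_lit 0) (XT.lf (nat_lit 0) (nat_lit 15500783120) (nat_lit 380) (nat_lit 1915807577) (nat_lit 456) (nat_lit 888598829) (nat_lit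 81) (nat_lit 5) (nat_lit 86) (nat_lit 5) (nat_lit 87) (nat_lit 5) (nat_lit 280) (nat_lit 257) (nat_lit 183)) (XT.nd (nat_lit 78) (nat_lit 380) (nat_lit 0) (XT.lf (nat_lit 0) (nat_lit 2502841293) (nat_lit 456) (nat_lit 8979791393) (nat_lit 76) (nat_lit 7409911601) (nat_lit 75) (nat_lit 5) (nat_lit 81) (nat_lit 5) (nat_lit 76) (nat_lit 5) (nat_lit 281) (nat_lit 257) (nat_lit 182)) (XT.lf (nat_lit 0) (nat_lit 3831995340) (nat_lit 380) (nat_lit 2273465274) (nat_lit 456) (nat_lit 13401806225) (nat_lit 70) (nat_lit 5) (nat_lit 75) (nat_lit 5) (nat_lit 76) (nat_lit 5) (nat_lit 282) (nat_lit 257) (nat_lit 181))))) (XT.nd (nat_lit 234) (nat_lit 684) (nat_lit 0) (XT.nd (nat_lit 78) (nat_lit 608) (nat_lit 0) (XT.lf (nat_lit 0) (nat_lit 10028036537) (nat_lit 456) (nat_lit 2779991899) (nat_lit 76) (nat_lit 7340562823) (nat_lit 70) (nat_lit 5) (nat_lit 76) (nat_lit 5) (nat_lit 71) (nat_lit 5) (nat_lit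 283) (nat_lit 257) (nat_lit 180)) (XT.nd (nat_lit 78) (nat_lit 304) (nat_lit 0) (XT.lf (nat_lit 0) (nat_lit 10921605346) (nat_lit 304) (nat_lit 3329615267) (nat_lit 380) (nat_lit 6567684534) (nat_lit 66) (nat_lit 5) (nat_lit 70) (nat_lit 5) (nat_lit 71) (nat_lit 5) (nat_lit 284) (nat_lit 257) (nat_lit 179)) (XT.lf (nat_lit 0) (nat_lit 3826746341) (nat_lit 304) (nat_lit 14965512288) (nat_lit 380) (nat_lit 2727330145) (nat_lit 62) (nat_lit 5) (nat_lit 66) (nat_lit 5) (nat_lit 67) (nat_lit 5) (nat_lit 285) (nat_lit 257) (nat_lit 178)))) (XT.nd (nat_lit 78) (nat_lit 608) (nat_lit 0) (XT.lf (nat_lit 0) (nat_lit 1393967684) (nat_lit 380) (nat_lit 3883747540) (nat_lit 76) (nat_lit 16973834004) (nat_lit 61) (nat_lit 5) (nat_lit 66) (nat_lit 5) (nat_lit 62) (nat_lit 5) (nat_lit 286) (nat_lit 257) (nat_lit 177)) (XT.nd (nat_lit 78) (nat_lit 304) (nat_lit 0) (XT.lf (nat_lit 0) (nat_lit 5796229294)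 (nat_lit 380) (nat_lit 12293494040) (nat_lit 76) (nat_lit 4925683478) (nat_lit 57) (nat_lit 5) (nat_lit 62) (nat_lit 5) (nat_lit 58) (nat_lit 5) (nat_lit 287) (nat_lit 257) (nat_lit 176)) (XT.lf (nat_lit 0) (nat_lit 2287074141) (nat_lit 304) (nat_lit 8226801658) (nat_lit 380) (nat_lit 13300769354) (nat_lit 53) (nat_lit 5) (nat_lit 57) (nat_lit 5) (nat_lit 58) (nat_lit 5) (nat_lit 288) (nat_lit 257) (nat_lit 175))))))) (XT.nd (nat_lit 780) (nat_lit 1216) (nat_lit 0) (XT.nd (nat_lit 390) (nat_lit 532) (nat_lit 0) (XT.nd (nat_lit 156) (nat_lit 608) (nat_lit 0) (XT.nd (nat_lit 78) (nat_lit 228) (nat_lit 0) (XT.lf (nat_lit 0) (nat_lit 15595978870) (nat_lit 380) (nat_lit 6844657093) (nat_lit 76) (nat_lit 2209396058) (nat_lit 53) (nat_lit 5) (nat_lit 58) (nat_lit 5) (nat_lit 54) (nat_lit 5) (nat_lit 289) (nat_lit 257) (nat_lit 174)) (XT.lf (nat_lit 0) (nat_lit 8632624813) (nat_lit 228) (nat_lit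 12446820197) (nat_lit 304) (nat_lit 4443367234) (nat_lit 50) (nat_lit 5) (nat_lit 53) (nat_lit 5) (nat_lit 54) (nat_lit 5) (nat_lit 290) (nat_lit 257) (nat_lit 173))) (XT.nd (nat_lit 78) (nat_lit 532) (nat_lit 0) (XT.lf (nat_lit 0) (nat_lit 442927336) (nat_lit 304) (nat_lit 1439712860) (nat_lit 76) (nat_lit 24554930020) (nat_lit 49) (nat_lit 5) (nat_lit 53) (nat_lit 5) (nat_lit 50) (nat_lit 5) (nat_lit 291) (nat_lit 257) (nat_lit 172)) (XT.nd (nat_lit 78) (nat_lit 228) (nat_lit 0) (XT.lf (nat_lit 0) (nat_lit 5699652450) (nat_lit 380) (nat_lit 12475697841) (nat_lit 76) (nat_lit 9214892405) (nat_lit 45) (nat_lit 5) (nat_lit 50) (nat_lit 5) (nat_lit 46) (nat_lit 5) (nat_lit 292) (nat_lit 257) (nat_lit 171)) (XT.lf (nat_lit 0) (nat_lit 3757170112) (nat_lit 228) (nat_lit 7515232337) (nat_lit 304) (nat_lit 17116585706) (nat_lit 42) (nat_lit 5) (nat_lit 45) (nat_lit 5) (nat_lit 46) (nat_lit 5)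 (nat_lit 293) (nat_lit 257) (nat_lit 170))))) (XT.nd (nat_lit 156) (nat_lit 304) (nat_lit 0) (XT.nd (nat_lit 78) (nat_lit 228) (nat_lit 0) (XT.lf (nat_lit 0) (nat_lit 17272467774) (nat_lit 304) (nat_lit 8431337773) (nat_lit 76) (nat_lit 3729438355) (nat_lit 42) (nat_lit 5) (nat_lit 46) (nat_lit 5) (nat_lit 43) (nat_lit 5) (nat_lit 294) (nat_lit 257) (nat_lit 169)) (XT.lf (nat_lit 0) (nat_lit 8649932564) (nat_lit 228) (nat_lit 15066010860) (nat_lit 304) (nat_lit 6809498560) (nat_lit 39) (nat_lit 5) (nat_lit 42) (nat_lit 5) (nat_lit 43) (nat_lit 5) (nat_lit 295) (nat_lit 257) (nat_lit 168))) (XT.nd (nat_lit 78) (nat_lit 304) (nat_lit 0) (XT.lf (nat_lit 0) (nat_lit 26739919917) (nat_lit 228) (nat_lit 3813407246) (nat_lit 304) (nat_lit 1116801025) (nat_lit 39) (nat_lit 5) (nat_lit 42) (nat_lit 5) (nat_lit 43) (nat_lit 5) (nat_lit 296) (nat_lit 257) (nat_lit 167)) (XT.nd (nat_lit 78) (nat_lit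 0) (nat_lit 0) (XT.lf (nat_lit 0) (nat_lit 4955174484) (nat_lit 304) (nat_lit 19896460095) (nat_lit 76) (nat_lit 8013355734) (nat_lit 35) (nat_lit 5) (nat_lit 39) (nat_lit 5) (nat_lit 36) (nat_lit 5) (nat_lit 297) (nat_lit 257) (nat_lit 166)) (XT.lf (nat_lit 0) (nat_lit 11383535403) (nat_lit 304) (nat_lit 2323722996) (nat_lit 76) (nat_lit 20409755543) (nat_lit 35) (nat_lit 5) (nat_lit 39) (nat_lit 5) (nat_lit 36) (nat_lit 5) (nat_lit 298) (nat_lit 257) (nat_lit 165)))))) (XT.nd (nat_lit 390) (nat_lit 532) (nat_lit 0) (XT.nd (nat_lit 156) (nat_lit 456) (nat_lit 0) (XT.nd (nat_lit 78) (nat_lit 0) (nat_lit 0) (XT.lf (nat_lit 0) (nat_lit 16428595630) (nat_lit 228) (nat_lit 1849235498) (nat_lit 304) (nat_lit 17149497490) (nat_lit 32) (nat_lit 5) (nat_lit 35) (nat_lit 5) (nat_lit 36) (nat_lit 5) (nat_lit 299) (nat_lit 257) (nat_lit 164)) (XT.lf (nat_lit 0) (nat_lit 25629900244) (nat_lit 304) (nat_lit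 756926320) (nat_lit 76) (nat_lit 10412964867) (nat_lit 32) (nat_lit 5) (nat_lit 36) (nat_lit 5) (nat_lit 33) (nat_lit 5) (nat_lit 300) (nat_lit 257) (nat_lit 163))) (XT.nd (nat_lit 78) (nat_lit 304) (nat_lit 0) (XT.lf (nat_lit 0) (nat_lit 18725199781) (nat_lit 152) (nat_lit 14810646529) (nat_lit 228) (nat_lit 4699465879) (nat_lit 30) (nat_lit 5) (nat_lit 32) (nat_lit 5) (nat_lit 33) (nat_lit 5) (nat_lit 301) (nat_lit 257) (nat_lit 162)) (XT.nd (nat_lit 78) (nat_lit 228) (nat_lit 0) (XT.lf (nat_lit 0) (nat_lit 2049366697) (nat_lit 228) (nat_lit 583570264) (nat_lit 76) (nat_lit 37109216590) (nat_lit 29) (nat_lit 5) (nat_lit 32) (nat_lit 5) (nat_lit 30) (nat_lit 5) (nat_lit 302) (nat_lit 257) (nat_lit 161)) (XT.lf (nat_lit 0) (nat_lit 9316175166) (nat_lit 304) (nat_lit 21810403407) (nat_lit 76) (nat_lit 10188050997) (nat_lit 26) (nat_lit 5) (nat_lit 30) (nat_lit 5) (nat_lit 27) (nat_lit 5)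 (nat_lit 303) (nat_lit 257) (nat_lit 160))))) (XT.nd (nat_lit 234) (nat_lit 380) (nat_lit 0) (XT.nd (nat_lit 78) (nat_lit 152) (nat_lit 0) (XT.lf (nat_lit 0) (nat_lit 16967762523) (nat_lit 304) (nat_lit 2400743064) (nat_lit 76) (nat_lit 23596599946) (nat_lit 26) (nat_lit 5) (nat_lit 30) (nat_lit 5) (nat_lit 27) (nat_lit 5) (nat_lit 304) (nat_lit 257) (nat_lit 159)) (XT.nd (nat_lit 78) (nat_lit 0) (nat_lit 0) (XT.lf (nat_lit 0) (nat_lit 18320550841) (nat_lit 152) (nat_lit 6846817012) (nat_lit 228) (nat_lit 19525792663) (nat_lit 24) (nat_lit 5) (nat_lit 26) (nat_lit 5) (nat_lit 27) (nat_lit 5) (nat_lit 305) (nat_lit 257) (nat_lit 158)) (XT.lf (nat_lit 0) (nat_lit 33852112494) (nat_lit 228) (nat_lit 6455766425) (nat_lit 76) (nat_lit 6197502060) (nat_lit 24) (nat_lit 5) (nat_lit 27) (nat_lit 5) (nat_lit 25) (nat_lit 5) (nat_lit 306) (nat_lit 257) (nat_lit 157)))) (XT.nd (nat_lit 78) (nat_lit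 228) (nat_lit 0) (XT.lf (nat_lit 0) (nat_lit 14658466975) (nat_lit 152) (nat_lit 28512766013) (nat_lit 228) (nat_lit 5230991989) (nat_lit 22) (nat_lit 5) (nat_lit 24) (nat_lit 5) (nat_lit 25) (nat_lit 5) (nat_lit 307) (nat_lit 257) (nat_lit 156)) (XT.nd (nat_lit 78) (nat_lit 152) (nat_lit 0) (XT.lf (nat_lit 0) (nat_lit 2569853450) (nat_lit 228) (nat_lit 13469039763) (nat_lit 76) (nat_lit 34352570734) (nat_lit 21) (nat_lit 5) (nat_lit 24) (nat_lit 5) (nat_lit 22) (nat_lit 5) (nat_lit 308) (nat_lit 257) (nat_lit 155)) (XT.lf (nat_lit 0) (nat_lit 7906470404) (nat_lit 152) (nat_lit 2813895543) (nat_lit 228) (nat_lit 41756225545) (nat_lit 19) (nat_lit 5) (nat_lit 21) (nat_lit 5) (nat_lit 22) (nat_lit 5) (nat_lit 309) (nat_lit 257) (nat_lit 154))))))))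
noncomputable def xc84 : XT := (XT.nd (nat_lit 33696) (nat_lit 0) (nat_lit 5472) (XT.nd (nat_lit 780) (nat_lit 304) (nat_lit 0) (XT.nd (nat_lit 390) (nat_lit 228) (nat_lit 0) (XT.nd (nat_lit 156) (nat_lit 228) (nat_lit 0) (XT.nd (nat_lit 78) (nat_lit 0) (nat_lit 0) (XT.lf (nat_lit 0) (nat_lit 19515919207) (nat_lit 228) (nat_lit 24151651452) (nat_lit 76) (nat_lit 10991293283) (nat_lit 19) (nat_lit 5) (nat_lit 22) (nat_lit 5) (nat_lit 20) (nat_lit 5) (nat_lit 310) (nat_lit 257) (nat_lit 153)) (XT.lf (nat_lit 0) (nat_lit 28771133598) (nat_lit 228) (nat_lit 2754229166) (nat_lit 76) (nat_lit 25424304061) (nat_lit 19) (nat_lit 5) (nat_lit 22) (nat_lit 5) (nat_lit 20) (nat_lit 5) (nat_lit 311) (nat_lit 257) (nat_lit 152))) (XT.nd (nat_lit 78) (nat_lit 76) (nat_lit 0) (XT.lf (nat_lit 0) (nat_lit 20092212329) (nat_lit 152) (nat_lit 18581922765) (nat_lit 228) (nat_lit 20675336648) (nat_lit 17) (nat_lit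 5) (nat_lit 19) (nat_lit 5) (nat_lit 20) (nat_lit 5) (nat_lit 312) (nat_lit 257) (nat_lit 151)) (XT.nd (nat_lit 78) (nat_lit 76) (nat_lit 0) (XT.lf (nat_lit 0) (nat_lit 44125978298) (nat_lit 152) (nat_lit 4966814110) (nat_lit 228) (nat_lit 12775871402) (nat_lit 17) (nat_lit 5) (nat_lit 19) (nat_lit 5) (nat_lit 20) (nat_lit 5) (nat_lit 313) (nat_lit 257) (nat_lit 150)) (XT.lf (nat_lit 0) (nat_lit 4840243390) (nat_lit 76) (nat_lit 55320827058) (nat_lit 152) (nat_lit 4348895899) (nat_lit 16) (nat_lit 5) (nat_lit 17) (nat_lit 5) (nat_lit 18) (nat_lit 4) (nat_lit 314) (nat_lit 257) (nat_lit 149))))) (XT.nd (nat_lit 156) (nat_lit 152) (nat_lit 0) (XT.nd (nat_lit 78) (nat_lit 0) (nat_lit 0) (XT.lf (nat_lit 0) (nat_lit 4638858937) (nat_lit 152) (nat_lit 38461913384) (nat_lit 76) (nat_lit 24174457868) (nat_lit 15) (nat_lit 5) (nat_lit 17) (nat_lit 5) (nat_lit 16) (nat_lit 5) (nat_lit 315) (nat_lit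 257) (nat_lit 148)) (XT.lf (nat_lit 0) (nat_lit 13979891659) (nat_lit 152) (nat_lit 16248994962) (nat_lit 76) (nat_lit 39948774022) (nat_lit 15) (nat_lit 5) (nat_lit 17) (nat_lit 5) (nat_lit 16) (nat_lit 5) (nat_lit 316) (nat_lit 257) (nat_lit 147))) (XT.nd (nat_lit 78) (nat_lit 0) (nat_lit 0) (XT.lf (nat_lit 0) (nat_lit 7204306424) (nat_lit 152) (nat_lit 16646251218) (nat_lit 228) (nat_lit 49372787173) (nat_lit 13) (nat_lit 5) (nat_lit 15) (nat_lit 5) (nat_lit 16) (nat_lit 5) (nat_lit 317) (nat_lit 257) (nat_lit 146)) (XT.nd (nat_lit 78) (nat_lit 0) (nat_lit 0) (XT.lf (nat_lit 0) (nat_lit 32159295029) (nat_lit 152) (nat_lit 2216276776) (nat_lit 228) (nat_lit 42040926134) (nat_lit 13) (nat_lit 5) (nat_lit 15) (nat_lit 5) (nat_lit 16) (nat_lit 5) (nat_lit 318) (nat_lit 257) (nat_lit 145)) (XT.lf (nat_lit 0) (nat_lit 45544993500) (nat_lit 228) (nat_lit 21541804914) (nat_lit 76) (nat_lit 12678974348)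 (nat_lit 13) (nat_lit 5) (nat_lit 16) (nat_lit 5) (nat_lit 14) (nat_lit 4) (nat_lit 319) (nat_lit 257) (nat_lit 144)))))) (XT.nd (nat_lit 390) (nat_lit 0) (nat_lit 0) (XT.nd (nat_lit 156) (nat_lit 228) (nat_lit 0) (XT.nd (nat_lit 78) (nat_lit 0) (nat_lit 0) (XT.lf (nat_lit 0) (nat_lit 2322613025) (nat_lit 76) (nat_lit 54989079341) (nat_lit 152) (nat_lit 25969663112) (nat_lit 12) (nat_lit 5) (nat_lit 13) (nat_lit 5) (nat_lit 14) (nat_lit 4) (nat_lit 320) (nat_lit 257) (nat_lit 143)) (XT.lf (nat_lit 0) (nat_lit 27820987279) (nat_lit 76) (nat_lit 42061792923) (nat_lit 152) (nat_lit 17083463442) (nat_lit 12) (nat_lit 5) (nat_lit 13) (nat_lit 5) (nat_lit 14) (nat_lit 4) (nat_lit 321) (nat_lit 257) (nat_lit 142))) (XT.nd (nat_lit 78) (nat_lit 228) (nat_lit 0) (XT.lf (nat_lit 0) (nat_lit 54585304105) (nat_lit 76) (nat_lit 28491689901) (nat_lit 152) (nat_lit 7758552624) (nat_lit 12) (nat_lit 5)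 (nat_lit 13) (nat_lit 5) (nat_lit 14) (nat_lit 4) (nat_lit 322) (nat_lit 257) (nat_lit 141)) (XT.nd (nat_lit 78) (nat_lit 152) (nat_lit 0) (XT.lf (nat_lit 0) (nat_lit 1987712140) (nat_lit 152) (nat_lit 12238676368) (nat_lit 76) (nat_lit 80671503932) (nat_lit 11) (nat_lit 5) (nat_lit 13) (nat_lit 5) (nat_lit 12) (nat_lit 5) (nat_lit 323) (nat_lit 257) (nat_lit 140)) (XT.lf (nat_lit 0) (nat_lit 12192911259) (nat_lit 228) (nat_lit 86023210683) (nat_lit 76) (nat_lit 940973337) (nat_lit 9) (nat_lit 5) (nat_lit 12) (nat_lit 5) (nat_lit 10) (nat_lit 4) (nat_lit 324) (nat_lit 257) (nat_lit 139))))) (XT.nd (nat_lit 32292) (nat_lit 0) (nat_lit 10412) (XT.nd (nat_lit 78) (nat_lit 0) (nat_lit 0) (XT.lf (nat_lit 0) (nat_lit 23174344689) (nat_lit 228) (nat_lit 63747621693) (nat_lit 76) (nat_lit 16699318987) (nat_lit 9) (nat_lit 5) (nat_lit 12) (nat_lit 5) (nat_lit 10) (nat_lit 4) (nat_lit 325) (nat_lit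 257) (nat_lit 138)) (XT.lf (nat_lit 0) (nat_lit 34700230937) (nat_lit 228) (nat_lit 40365997250) (nat_lit 76) (nat_lit 33242601378) (nat_lit 9) (nat_lit 5) (nat_lit 12) (nat_lit 5) (nat_lit 10) (nat_lit 4) (nat_lit 326) (nat_lit 257) (nat_lit 137))) (XT.nd (nat_lit 78) (nat_lit 988) (nat_lit 0) (XT.lf (nat_lit 0) (nat_lit 4697536535) (nat_lit 988) (nat_lit 242338963) (nat_lit 988) (nat_lit 242338963) (nat_lit 159) (nat_lit 3) (nat_lit 172) (nat_lit 3) (nat_lit 172) (nat_lit 5) (nat_lit 258) (nat_lit 258) (nat_lit 204)) (XT.nd (nat_lit 78) (nat_lit 0) (nat_lit 76) (XT.lf (nat_lit 0) (nat_lit 37107599) (nat_lit 988) (nat_lit 3996253939) (nat_lit 1064) (nat_lit 6557103759) (nat_lit 146) (nat_lit 5) (nat_lit 159) (nat_lit 3) (nat_lit 160) (nat_lit 5) (nat_lit 259) (nat_lit 258) (nat_lit 203)) (XT.lf (nat_lit 0) (nat_lit 1070134674) (nat_lit 988) (nat_lit 7619644059) (nat_lit 1064) (nat_lit 2138041603)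 (nat_lit 147) (nat_lit 5) (nat_lit 160) (nat_lit 5) (nat_lit 161) (nat_lit 5) (nat_lit 260) (nat_lit 258) (nat_lit 202))))))) (XT.nd (nat_lit 780) (nat_lit 3268) (nat_lit 0) (XT.nd (nat_lit 390) (nat_lit 1748) (nat_lit 0) (XT.nd (nat_lit 156) (nat_lit 0) (nat_lit 76) (XT.nd (nat_lit 78) (nat_lit 0) (nat_lit 76) (XT.lf (nat_lit 0) (nat_lit 2178971266) (nat_lit 988) (nat_lit 294776060) (nat_lit 1064) (nat_lit 8602755268) (nat_lit 147) (nat_lit 5) (nat_lit 160) (nat_lit 5) (nat_lit 161) (nat_lit 5) (nat_lit 261) (nat_lit 258) (nat_lit 201)) (XT.lf (nat_lit 0) (nat_lit 3400007740) (nat_lit 988) (nat_lit 3866854023) (nat_lit 1064) (nat_lit 4069229898) (nat_lit 148) (nat_lit 5) (nat_lit 161) (nat_lit 5) (nat_lit 162) (nat_lit 5) (nat_lit 262) (nat_lit 258) (nat_lit 200))) (XT.nd (nat_lit 78) (nat_lit 0) (nat_lit 76) (XT.lf (nat_lit 76) (nat_lit 4039276265) (nat_lit 0) (nat_lit 656886373) (nat_lit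 1064) (nat_lit 6912242629) (nat_lit 149) (nat_lit 5) (nat_lit 148) (nat_lit 5) (nat_lit 162) (nat_lit 5) (nat_lit 263) (nat_lit 258) (nat_lit 199)) (XT.nd (nat_lit 78) (nat_lit 0) (nat_lit 76) (XT.lf (nat_lit 76) (nat_lit 441726393) (nat_lit 0) (nat_lit 5669825753) (nat_lit 1064) (nat_lit 5781308733) (nat_lit 150) (nat_lit 5) (nat_lit 149) (nat_lit 5) (nat_lit 163) (nat_lit 5) (nat_lit 264) (nat_lit 258) (nat_lit 198)) (XT.lf (nat_lit 0) (nat_lit 7646705836) (nat_lit 988) (nat_lit 3232413295) (nat_lit 1064) (nat_lit 1311101845) (nat_lit 150) (nat_lit 5) (nat_lit 163) (nat_lit 5) (nat_lit 164) (nat_lit 5) (nat_lit 265) (nat_lit 258) (nat_lit 197))))) (XT.nd (nat_lit 156) (nat_lit 1976) (nat_lit 0) (XT.nd (nat_lit 78) (nat_lit 0) (nat_lit 76) (XT.lf (nat_lit 76) (nat_lit 5412071387) (nat_lit 0) (nat_lit 3909893023) (nat_lit 1064) (nat_lit 3178728589) (nat_lit 151) (nat_lit 5) (nat_lit 150)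 (nat_lit 5) (nat_lit 164) (nat_lit 5) (nat_lit 266) (nat_lit 258) (nat_lit 196)) (XT.lf (nat_lit 76) (nat_lit 1696494147) (nat_lit 0) (nat_lit 9423240288) (nat_lit 1064) (nat_lit 1705929191) (nat_lit 152) (nat_lit 5) (nat_lit 151) (nat_lit 5) (nat_lit 165) (nat_lit 5) (nat_lit 267) (nat_lit 258) (nat_lit 195))) (XT.nd (nat_lit 78) (nat_lit 2052) (nat_lit 0) (XT.lf (nat_lit 76) (nat_lit 10995566200) (nat_lit 0) (nat_lit 2081725676) (nat_lit 1064) (nat_lit 87624857) (nat_lit 152) (nat_lit 5) (nat_lit 151) (nat_lit 5) (nat_lit 165) (nat_lit 5) (nat_lit 268) (nat_lit 258) (nat_lit 194)) (XT.nd (nat_lit 78) (nat_lit 1064) (nat_lit 0) (XT.lf (nat_lit 0) (nat_lit 1664998101) (nat_lit 1064) (nat_lit 6241372808) (nat_lit 76) (nat_lit 5611872344) (nat_lit 138) (nat_lit 5) (nat_lit 152) (nat_lit 5) (nat_lit 139) (nat_lit 5) (nat_lit 269) (nat_lit 258) (nat_lit 193)) (XT.lf (nat_lit 0) (nat_lit 3362713966)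 (nat_lit 1064) (nat_lit 177673872) (nat_lit 1140) (nat_lit 10347829084) (nat_lit 124) (nat_lit 5) (nat_lit 138) (nat_lit 5) (nat_lit 139) (nat_lit 5) (nat_lit 270) (nat_lit 258) (nat_lit 192)))))) (XT.nd (nat_lit 390) (nat_lit 1748) (nat_lit 0) (XT.nd (nat_lit 156) (nat_lit 988) (nat_lit 0) (XT.nd (nat_lit 78) (nat_lit 532) (nat_lit 0) (XT.lf (nat_lit 0) (nat_lit 5613374124) (nat_lit 1140) (nat_lit 807562663) (nat_lit 76) (nat_lit 7852747471) (nat_lit 124) (nat_lit 5) (nat_lit 139) (nat_lit 5) (nat_lit 125) (nat_lit 5) (nat_lit 271) (nat_lit 258) (nat_lit 191)) (XT.lf (nat_lit 0) (nat_lit 7864367597) (nat_lit 608) (nat_lit 5144033365) (nat_lit 76) (nat_lit 1667897829) (nat_lit 117) (nat_lit 5) (nat_lit 125) (nat_lit 5) (nat_lit 118) (nat_lit 5) (nat_lit 272) (nat_lit 258) (nat_lit 190))) (XT.nd (nat_lit 78) (nat_lit 532) (nat_lit 0) (XT.lf (nat_lit 0) (nat_lit 5314011656) (nat_lit 456) (nat_lit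 5004035551) (nat_lit 532) (nat_lit 4778392338) (nat_lit 111) (nat_lit 5) (nat_lit 117) (nat_lit 5) (nat_lit 118) (nat_lit 5) (nat_lit 273) (nat_lit 258) (nat_lit 189)) (XT.nd (nat_lit 78) (nat_lit 0) (nat_lit 0) (XT.lf (nat_lit 0) (nat_lit 817046571) (nat_lit 532) (nat_lit 12138580110) (nat_lit 608) (nat_lit 2580219023) (nat_lit 104) (nat_lit 5) (nat_lit 111) (nat_lit 5) (nat_lit 112) (nat_lit 5) (nat_lit 274) (nat_lit 258) (nat_lit 188)) (XT.lf (nat_lit 0) (nat_lit 12068188010) (nat_lit 532) (nat_lit 3776068565) (nat_lit 608) (nat_lit 149480783) (nat_lit 104) (nat_lit 5) (nat_lit 111) (nat_lit 5) (nat_lit 112) (nat_lit 5) (nat_lit 275) (nat_lit 258) (nat_lit 187))))) (XT.nd (nat_lit 234) (nat_lit 760) (nat_lit 0) (XT.nd (nat_lit 78) (nat_lit 456) (nat_lit 0) (XT.lf (nat_lit 0) (nat_lit 2446631626) (nat_lit 532) (nat_lit 9021512678) (nat_lit 76) (nat_lit 5003048165) (nat_lit 97) (nat_lit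 5) (nat_lit 104) (nat_lit 5) (nat_lit 98) (nat_lit 5) (nat_lit 276) (nat_lit 258) (nat_lit 186)) (XT.nd (nat_lit 78) (nat_lit 0) (nat_lit 0) (XT.lf (nat_lit 0) (nat_lit 2482308557) (nat_lit 456) (nat_lit 2760702974) (nat_lit 532) (nat_lit 11727337349) (nat_lit 91) (nat_lit 5) (nat_lit 97) (nat_lit 5) (nat_lit 98) (nat_lit 5) (nat_lit 277) (nat_lit 258) (nat_lit 185)) (XT.lf (nat_lit 0) (nat_lit 8306181709) (nat_lit 532) (nat_lit 2834636471) (nat_lit 76) (nat_lit 6349911549) (nat_lit 91) (nat_lit 5) (nat_lit 98) (nat_lit 5) (nat_lit 92) (nat_lit 5) (nat_lit 278) (nat_lit 258) (nat_lit 184)))) (XT.nd (nat_lit 78) (nat_lit 380) (nat_lit 0) (XT.lf (nat_lit 0) (nat_lit 9530465785) (nat_lit 380) (nat_lit 2084697458) (nat_lit 456) (nat_lit 6419258942) (nat_lit 86) (nat_lit 5) (nat_lit 91) (nat_lit 5) (nat_lit 92) (nat_lit 5) (nat_lit 279) (nat_lit 258) (nat_lit 183)) (XT.nd (nat_lit 78) (nat_lit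 0) (nat_lit 0) (XT.lf (nat_lit 0) (nat_lit 3944891379) (nat_lit 380) (nat_lit 11257616614) (nat_lit 456) (nat_lit 3399472560) (nat_lit 81) (nat_lit 5) (nat_lit 86) (nat_lit 5) (nat_lit 87) (nat_lit 5) (nat_lit 280) (nat_lit 258) (nat_lit 182)) (XT.lf (nat_lit 0) (nat_lit 17144194941) (nat_lit 380) (nat_lit 1908518195) (nat_lit 456) (nat_lit 142764350) (nat_lit 81) (nat_lit 5) (nat_lit 86) (nat_lit 5) (nat_lit 87) (nat_lit 5) (nat_lit 281) (nat_lit 258) (nat_lit 181))))))))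
noncomputable def xc85 : XT := (XT.nd (nat_lit 1560) (nat_lit 1520) (nat_lit 0) (XT.nd (nat_lit 780) (nat_lit 1368) (nat_lit 0) (XT.nd (nat_lit 390) (nat_lit 912) (nat_lit 0) (XT.nd (nat_lit 156) (nat_lit 608) (nat_lit 0) (XT.nd (nat_lit 78) (nat_lit 380) (nat_lit 0) (XT.lf (nat_lit 0) (nat_lit 3375297046) (nat_lit 456) (nat_lit 8545272716) (nat_lit 76) (nat_lit 7892321277) (nat_lit 75) (nat_lit 5) (nat_lit 81) (nat_lit 5) (nat_lit 76) (nat_lit 5) (nat_lit 282) (nat_lit 258) (nat_lit 180)) (XT.lf (nat_lit 0) (nat_lit 4881777768) (nat_lit 380) (nat_lit 2248932576) (nat_lit 456) (nat_lit 13328548105) (nat_lit 70) (nat_lit 5) (nat_lit 75) (nat_lit 5) (nat_lit 76) (nat_lit 5) (nat_lit 283) (nat_lit 258) (nat_lit 179))) (XT.nd (nat_lit 78) (nat_lit 608) (nat_lit 0) (XT.lf (nat_lit 0) (nat_lit 11216395716) (nat_lit 456) (nat_lit 2080681139) (nat_lit 76) (nat_lit 7836647217) (nat_lit 70) (nat_lit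 5) (nat_lit 76) (nat_lit 5) (nat_lit 71) (nat_lit 5) (nat_lit 284) (nat_lit 258) (nat_lit 178)) (XT.nd (nat_lit 78) (nat_lit 304) (nat_lit 0) (XT.lf (nat_lit 0) (nat_lit 12281965970) (nat_lit 304) (nat_lit 3343888132) (nat_lit 380) (nat_lit 6212526482) (nat_lit 66) (nat_lit 5) (nat_lit 70) (nat_lit 5) (nat_lit 71) (nat_lit 5) (nat_lit 285) (nat_lit 258) (nat_lit 177)) (XT.lf (nat_lit 0) (nat_lit 4828456048) (nat_lit 304) (nat_lit 15543143948) (nat_lit 380) (nat_lit 2203245270) (nat_lit 62) (nat_lit 5) (nat_lit 66) (nat_lit 5) (nat_lit 67) (nat_lit 5) (nat_lit 286) (nat_lit 258) (nat_lit 176))))) (XT.nd (nat_lit 156) (nat_lit 532) (nat_lit 0) (XT.nd (nat_lit 78) (nat_lit 304) (nat_lit 0) (XT.lf (nat_lit 0) (nat_lit 2080393304) (nat_lit 380) (nat_lit 3292461895) (nat_lit 76) (nat_lit 17971353963) (nat_lit 61) (nat_lit 5) (nat_lit 66) (nat_lit 5) (nat_lit 62) (nat_lit 5) (nat_lit 287) (nat_lit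 258) (nat_lit 175)) (XT.lf (nat_lit 0) (nat_lit 6682351505) (nat_lit 380) (nat_lit 12127639510) (nat_lit 76) (nat_lit 5336948519) (nat_lit 57) (nat_lit 5) (nat_lit 62) (nat_lit 5) (nat_lit 58) (nat_lit 5) (nat_lit 288) (nat_lit 258) (nat_lit 174))) (XT.nd (nat_lit 78) (nat_lit 228) (nat_lit 0) (XT.lf (nat_lit 0) (nat_lit 3159583367) (nat_lit 304) (nat_lit 8455189073) (nat_lit 380) (nat_lit 13372064793) (nat_lit 53) (nat_lit 5) (nat_lit 57) (nat_lit 5) (nat_lit 58) (nat_lit 5) (nat_lit 289) (nat_lit 258) (nat_lit 173)) (XT.nd (nat_lit 78) (nat_lit 228) (nat_lit 0) (XT.lf (nat_lit 0) (nat_lit 16925264960) (nat_lit 380) (nat_lit 6448854668) (nat_lit 76) (nat_lit 2490706434) (nat_lit 53) (nat_lit 5) (nat_lit 58) (nat_lit 5) (nat_lit 54) (nat_lit 5) (nat_lit 290) (nat_lit 258) (nat_lit 172)) (XT.lf (nat_lit 0) (nat_lit 9781135701) (nat_lit 228) (nat_lit 12882493738) (nat_lit 304) (nat_lit 4118252343)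 (nat_lit 50) (nat_lit 5) (nat_lit 53) (nat_lit 5) (nat_lit 54) (nat_lit 5) (nat_lit 291) (nat_lit 258) (nat_lit 171)))))) (XT.nd (nat_lit 390) (nat_lit 532) (nat_lit 0) (XT.nd (nat_lit 156) (nat_lit 456) (nat_lit 0) (XT.nd (nat_lit 78) (nat_lit 304) (nat_lit 0) (XT.lf (nat_lit 0) (nat_lit 976124927) (nat_lit 304) (nat_lit 817708122) (nat_lit 76) (nat_lit 25949207202) (nat_lit 49) (nat_lit 5) (nat_lit 53) (nat_lit 5) (nat_lit 50) (nat_lit 5) (nat_lit 292) (nat_lit 258) (nat_lit 170)) (XT.lf (nat_lit 0) (nat_lit 6479569300) (nat_lit 380) (nat_lit 12411302872) (nat_lit 76) (nat_lit 9853008975) (nat_lit 45) (nat_lit 5) (nat_lit 50) (nat_lit 5) (nat_lit 46) (nat_lit 5) (nat_lit 293) (nat_lit 258) (nat_lit 169))) (XT.nd (nat_lit 78) (nat_lit 228) (nat_lit 0) (XT.lf (nat_lit 0) (nat_lit 4613481940) (nat_lit 228) (nat_lit 7700332145) (nat_lit 304) (nat_lit 17479312917) (nat_lit 42) (nat_lit 5) (nat_lit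 45) (nat_lit 5) (nat_lit 46) (nat_lit 5) (nat_lit 294) (nat_lit 258) (nat_lit 168)) (XT.nd (nat_lit 78) (nat_lit 228) (nat_lit 0) (XT.lf (nat_lit 0) (nat_lit 18592876183) (nat_lit 304) (nat_lit 8203446447) (nat_lit 76) (nat_lit 4093949616) (nat_lit 42) (nat_lit 5) (nat_lit 46) (nat_lit 5) (nat_lit 43) (nat_lit 5) (nat_lit 295) (nat_lit 258) (nat_lit 167)) (XT.lf (nat_lit 0) (nat_lit 9713270818) (nat_lit 228) (nat_lit 15629567165) (nat_lit 304) (nat_lit 6694757178) (nat_lit 39) (nat_lit 5) (nat_lit 42) (nat_lit 5) (nat_lit 43) (nat_lit 5) (nat_lit 296) (nat_lit 258) (nat_lit 166))))) (XT.nd (nat_lit 156) (nat_lit 228) (nat_lit 0) (XT.nd (nat_lit 78) (nat_lit 304) (nat_lit 0) (XT.lf (nat_lit 0) (nat_lit 28677717462) (nat_lit 228) (nat_lit 3823368811) (nat_lit 304) (nat_lit 739101733) (nat_lit 39) (nat_lit 5) (nat_lit 42) (nat_lit 5) (nat_lit 43) (nat_lit 5) (nat_lit 297) (nat_lit 258) (nat_lit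 165)) (XT.lf (nat_lit 0) (nat_lit 5615217186) (nat_lit 304) (nat_lit 20287344067) (nat_lit 76) (nat_lit 8592529834) (nat_lit 35) (nat_lit 5) (nat_lit 39) (nat_lit 5) (nat_lit 36) (nat_lit 5) (nat_lit 298) (nat_lit 258) (nat_lit 164))) (XT.nd (nat_lit 78) (nat_lit 228) (nat_lit 0) (XT.lf (nat_lit 0) (nat_lit 12345363581) (nat_lit 304) (nat_lit 1864729115) (nat_lit 76) (nat_lit 21600249332) (nat_lit 35) (nat_lit 5) (nat_lit 39) (nat_lit 5) (nat_lit 36) (nat_lit 5) (nat_lit 299) (nat_lit 258) (nat_lit 163)) (XT.nd (nat_lit 78) (nat_lit 0) (nat_lit 0) (XT.lf (nat_lit 0) (nat_lit 17808718023) (nat_lit 228) (nat_lit 1762328879) (nat_lit 304) (nat_lit 17615560737) (nat_lit 32) (nat_lit 5) (nat_lit 35) (nat_lit 5) (nat_lit 36) (nat_lit 5) (nat_lit 300) (nat_lit 258) (nat_lit 162)) (XT.lf (nat_lit 0) (nat_lit 27274298509) (nat_lit 304) (nat_lit 252814709) (nat_lit 76) (nat_lit 11101106701) (nat_lit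 32) (nat_lit 5) (nat_lit 36) (nat_lit 5) (nat_lit 33) (nat_lit 5) (nat_lit 301) (nat_lit 258) (nat_lit 161))))))) (XT.nd (nat_lit 780) (nat_lit 532) (nat_lit 0) (XT.nd (nat_lit 390) (nat_lit 380) (nat_lit 0) (XT.nd (nat_lit 156) (nat_lit 380) (nat_lit 0) (XT.nd (nat_lit 78) (nat_lit 76) (nat_lit 0) (XT.lf (nat_lit 0) (nat_lit 20187882581) (nat_lit 152) (nat_lit 15375438488) (nat_lit 228) (nat_lit 4572594365) (nat_lit 30) (nat_lit 5) (nat_lit 32) (nat_lit 5) (nat_lit 33) (nat_lit 5) (nat_lit 302) (nat_lit 258) (nat_lit 160)) (XT.lf (nat_lit 0) (nat_lit 2489724472) (nat_lit 228) (nat_lit 104075538) (nat_lit 76) (nat_lit 39124731016) (nat_lit 29) (nat_lit 5) (nat_lit 32) (nat_lit 5) (nat_lit 30) (nat_lit 5) (nat_lit 303) (nat_lit 258) (nat_lit 159))) (XT.nd (nat_lit 78) (nat_lit 152) (nat_lit 0) (XT.lf (nat_lit 0) (nat_lit 10110143436) (nat_lit 304) (nat_lit 22398080157) (nat_lit 76) (nat_lit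 10861727414) (nat_lit 26) (nat_lit 5) (nat_lit 30) (nat_lit 5) (nat_lit 27) (nat_lit 5) (nat_lit 304) (nat_lit 258) (nat_lit 158)) (XT.nd (nat_lit 78) (nat_lit 152) (nat_lit 0) (XT.lf (nat_lit 0) (nat_lit 18128683518) (nat_lit 304) (nat_lit 2041881721) (nat_lit 76) (nat_lit 24932881246) (nat_lit 26) (nat_lit 5) (nat_lit 30) (nat_lit 5) (nat_lit 27) (nat_lit 5) (nat_lit 305) (nat_lit 258) (nat_lit 157)) (XT.lf (nat_lit 0) (nat_lit 19701749350) (nat_lit 152) (nat_lit 7026108754) (nat_lit 228) (nat_lit 20190384078) (nat_lit 24) (nat_lit 5) (nat_lit 26) (nat_lit 5) (nat_lit 27) (nat_lit 5) (nat_lit 306) (nat_lit 258) (nat_lit 156))))) (XT.nd (nat_lit 156) (nat_lit 228) (nat_lit 0) (XT.nd (nat_lit 78) (nat_lit 152) (nat_lit 0) (XT.lf (nat_lit 0) (nat_lit 35833945915) (nat_lit 228) (nat_lit 6327907129) (nat_lit 76) (nat_lit 6659631861) (nat_lit 24) (nat_lit 5) (nat_lit 27) (nat_lit 5) (nat_lit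 25) (nat_lit 5) (nat_lit 307) (nat_lit 258) (nat_lit 155)) (XT.lf (nat_lit 0) (nat_lit 15829120218) (nat_lit 152) (nat_lit 29780337192) (nat_lit 228) (nat_lit 5204023896) (nat_lit 22) (nat_lit 5) (nat_lit 24) (nat_lit 5) (nat_lit 25) (nat_lit 5) (nat_lit 308) (nat_lit 258) (nat_lit 154))) (XT.nd (nat_lit 78) (nat_lit 152) (nat_lit 0) (XT.lf (nat_lit 0) (nat_lit 2967762954) (nat_lit 228) (nat_lit 13719814221) (nat_lit 76) (nat_lit 36214947470) (nat_lit 21) (nat_lit 5) (nat_lit 24) (nat_lit 5) (nat_lit 22) (nat_lit 5) (nat_lit 309) (nat_lit 258) (nat_lit 153)) (XT.nd (nat_lit 78) (nat_lit 0) (nat_lit 0) (XT.lf (nat_lit 0) (nat_lit 8712355488) (nat_lit 152) (nat_lit 2804562785) (nat_lit 228) (nat_lit 43575277257) (nat_lit 19) (nat_lit 5) (nat_lit 21) (nat_lit 5) (nat_lit 22) (nat_lit 5) (nat_lit 310) (nat_lit 258) (nat_lit 152)) (XT.lf (nat_lit 0) (nat_lit 20741216295) (nat_lit 228) (nat_lit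 24961762649) (nat_lit 76) (nat_lit 11680953145) (nat_lit 19) (nat_lit 5) (nat_lit 22) (nat_lit 5) (nat_lit 20) (nat_lit 5) (nat_lit 311) (nat_lit 258) (nat_lit 151)))))) (XT.nd (nat_lit 390) (nat_lit 228) (nat_lit 0) (XT.nd (nat_lit 156) (nat_lit 152) (nat_lit 0) (XT.nd (nat_lit 78) (nat_lit 152) (nat_lit 0) (XT.lf (nat_lit 0) (nat_lit 30447310399) (nat_lit 228) (nat_lit 2513396457) (nat_lit 76) (nat_lit 26828943263) (nat_lit 19) (nat_lit 5) (nat_lit 22) (nat_lit 5) (nat_lit 20) (nat_lit 5) (nat_lit 312) (nat_lit 258) (nat_lit 150)) (XT.lf (nat_lit 0) (nat_lit 21464516220) (nat_lit 152) (nat_lit 19373164999) (nat_lit 228) (nat_lit 21472015172) (nat_lit 17) (nat_lit 5) (nat_lit 19) (nat_lit 5) (nat_lit 20) (nat_lit 5) (nat_lit 313) (nat_lit 258) (nat_lit 149))) (XT.nd (nat_lit 78) (nat_lit 152) (nat_lit 0) (XT.lf (nat_lit 0) (nat_lit 46682461284) (nat_lit 152) (nat_lit 5083865382) (nat_lit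 228) (nat_lit 13188866584) (nat_lit 17) (nat_lit 5) (nat_lit 19) (nat_lit 5) (nat_lit 20) (nat_lit 5) (nat_lit 314) (nat_lit 258) (nat_lit 148)) (XT.nd (nat_lit 78) (nat_lit 76) (nat_lit 0) (XT.lf (nat_lit 0) (nat_lit 5427881672) (nat_lit 76) (nat_lit 57954237690) (nat_lit 152) (nat_lit 4346634573) (nat_lit 16) (nat_lit 5) (nat_lit 17) (nat_lit 5) (nat_lit 18) (nat_lit 4) (nat_lit 315) (nat_lit 258) (nat_lit 147)) (XT.lf (nat_lit 0) (nat_lit 5075962706) (nat_lit 152) (nat_lit 40051461537) (nat_lit 76) (nat_lit 25505115944) (nat_lit 15) (nat_lit 5) (nat_lit 17) (nat_lit 5) (nat_lit 16) (nat_lit 5) (nat_lit 316) (nat_lit 258) (nat_lit 146))))) (XT.nd (nat_lit 234) (nat_lit 76) (nat_lit 0) (XT.nd (nat_lit 78) (nat_lit 152) (nat_lit 0) (XT.lf (nat_lit 0) (nat_lit 14874277500) (nat_lit 152) (nat_lit 16743780409) (nat_lit 76) (nat_lit 42062341468) (nat_lit 15) (nat_lit 5) (nat_lit 17) (nat_lit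 5) (nat_lit 16) (nat_lit 5) (nat_lit 317) (nat_lit 258) (nat_lit 145)) (XT.nd (nat_lit 78) (nat_lit 0) (nat_lit 0) (XT.lf (nat_lit 0) (nat_lit 7873080263) (nat_lit 152) (nat_lit 17359058228) (nat_lit 228) (nat_lit 51646432872) (nat_lit 13) (nat_lit 5) (nat_lit 15) (nat_lit 5) (nat_lit 16) (nat_lit 5) (nat_lit 318) (nat_lit 258) (nat_lit 144)) (XT.lf (nat_lit 0) (nat_lit 34061125035) (nat_lit 152) (nat_lit 2213275804) (nat_lit 228) (nat_lit 43957264193) (nat_lit 13) (nat_lit 5) (nat_lit 15) (nat_lit 5) (nat_lit 16) (nat_lit 5) (nat_lit 319) (nat_lit 258) (nat_lit 143)))) (XT.nd (nat_lit 78) (nat_lit 76) (nat_lit 0) (XT.lf (nat_lit 0) (nat_lit 47994761748) (nat_lit 228) (nat_lit 22334677064) (nat_lit 76) (nat_lit 13419202945) (nat_lit 13) (nat_lit 5) (nat_lit 16) (nat_lit 5) (nat_lit 14) (nat_lit 4) (nat_lit 320) (nat_lit 258) (nat_lit 142)) (XT.nd (nat_lit 78) (nat_lit 0) (nat_lit 0) (XT.lf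 (nat_lit 0) (nat_lit 2714814717) (nat_lit 76) (nat_lit 57629419433) (nat_lit 152) (nat_lit 27095947924) (nat_lit 12) (nat_lit 5) (nat_lit 13) (nat_lit 5) (nat_lit 14) (nat_lit 4) (nat_lit 321) (nat_lit 258) (nat_lit 141)) (XT.lf (nat_lit 0) (nat_lit 29474961443) (nat_lit 76) (nat_lit 44060964594) (nat_lit 152) (nat_lit 17773638191) (nat_lit 12) (nat_lit 5) (nat_lit 13) (nat_lit 5) (nat_lit 14) (nat_lit 4) (nat_lit 322) (nat_lit 258) (nat_lit 140))))))))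
noncomputable def xc86 : XT := (XT.nd (nat_lit 33774) (nat_lit 0) (nat_lit 2508) (XT.nd (nat_lit 32994) (nat_lit 0) (nat_lit 7752) (XT.nd (nat_lit 32604) (nat_lit 0) (nat_lit 10412) (XT.nd (nat_lit 156) (nat_lit 152) (nat_lit 0) (XT.nd (nat_lit 78) (nat_lit 76) (nat_lit 0) (XT.lf (nat_lit 0) (nat_lit 57564973883) (nat_lit 76) (nat_lit 29817304895) (nat_lit 152) (nat_lit 7990291281) (nat_lit 12) (nat_lit 5) (nat_lit 13) (nat_lit 5) (nat_lit 14) (nat_lit 4) (nat_lit 323) (nat_lit 258) (nat_lit 139)) (XT.lf (nat_lit 0) (nat_lit 2232946475) (nat_lit 152) (nat_lit 12609032004) (nat_lit 76) (nat_lit 84796238160) (nat_lit 11) (nat_lit 5) (nat_lit 13) (nat_lit 5) (nat_lit 12) (nat_lit 5) (nat_lit 324) (nat_lit 258) (nat_lit 138))) (XT.nd (nat_lit 78) (nat_lit 0) (nat_lit 0) (XT.lf (nat_lit 0) (nat_lit 12944614728) (nat_lit 228) (nat_lit 90086196097) (nat_lit 76) (nat_lit 1079691804) (nat_lit 9)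 (nat_lit 5) (nat_lit 12) (nat_lit 5) (nat_lit 10) (nat_lit 4) (nat_lit 325) (nat_lit 258) (nat_lit 137)) (XT.nd (nat_lit 32292) (nat_lit 0) (nat_lit 10412) (XT.lf (nat_lit 0) (nat_lit 24468355167) (nat_lit 228) (nat_lit 66708169330) (nat_lit 76) (nat_lit 17621589508) (nat_lit 9) (nat_lit 5) (nat_lit 12) (nat_lit 5) (nat_lit 10) (nat_lit 4) (nat_lit 326) (nat_lit 258) (nat_lit 136)) (XT.lf (nat_lit 0) (nat_lit 218906067) (nat_lit 0) (nat_lit 218906067) (nat_lit 988) (nat_lit 4972581572) (nat_lit 146) (nat_lit 5) (nat_lit 146) (nat_lit 3) (nat_lit 159) (nat_lit 3) (nat_lit 259) (nat_lit 259) (nat_lit 202))))) (XT.nd (nat_lit 156) (nat_lit 0) (nat_lit 76) (XT.nd (nat_lit 78) (nat_lit 0) (nat_lit 76) (XT.lf (nat_lit 0) (nat_lit 1824121763) (nat_lit 988) (nat_lit 3231076056) (nat_lit 1064) (nat_lit 6005570383) (nat_lit 146) (nat_lit 5) (nat_lit 159) (nat_lit 3) (nat_lit 160) (nat_lit 5) (nat_lit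 260) (nat_lit 259) (nat_lit 201)) (XT.lf (nat_lit 0) (nat_lit 2825383491) (nat_lit 988) (nat_lit 6999206974) (nat_lit 1064) (nat_lit 1488172820) (nat_lit 147) (nat_lit 5) (nat_lit 160) (nat_lit 5) (nat_lit 161) (nat_lit 5) (nat_lit 261) (nat_lit 259) (nat_lit 200))) (XT.nd (nat_lit 78) (nat_lit 0) (nat_lit 76) (XT.lf (nat_lit 76) (nat_lit 657038989) (nat_lit 0) (nat_lit 3257903447) (nat_lit 1064) (nat_lit 7661435747) (nat_lit 148) (nat_lit 5) (nat_lit 147) (nat_lit 5) (nat_lit 161) (nat_lit 5) (nat_lit 262) (nat_lit 259) (nat_lit 199)) (XT.nd (nat_lit 78) (nat_lit 0) (nat_lit 0) (XT.lf (nat_lit 0) (nat_lit 5116425538) (nat_lit 988) (nat_lit 3076317518) (nat_lit 1064) (nat_lit 3658866511) (nat_lit 148) (nat_lit 5) (nat_lit 161) (nat_lit 5) (nat_lit 162) (nat_lit 5) (nat_lit 263) (nat_lit 259) (nat_lit 198)) (XT.lf (nat_lit 76) (nat_lit 5196916584) (nat_lit 0) (nat_lit 1216019220) (nat_lit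 1064) (nat_lit 5726769677) (nat_lit 149) (nat_lit 5) (nat_lit 148) (nat_lit 5) (nat_lit 162) (nat_lit 5) (nat_lit 264) (nat_lit 259) (nat_lit 197)))))) (XT.nd (nat_lit 390) (nat_lit 1976) (nat_lit 0) (XT.nd (nat_lit 156) (nat_lit 912) (nat_lit 0) (XT.nd (nat_lit 78) (nat_lit 0) (nat_lit 76) (XT.lf (nat_lit 76) (nat_lit 1444720969) (nat_lit 0) (nat_lit 6388415042) (nat_lit 1064) (nat_lit 4607448581) (nat_lit 150) (nat_lit 5) (nat_lit 149) (nat_lit 5) (nat_lit 163) (nat_lit 5) (nat_lit 265) (nat_lit 259) (nat_lit 196)) (XT.lf (nat_lit 0) (nat_lit 9373635252) (nat_lit 988) (nat_lit 2411167279) (nat_lit 1064) (nat_lit 970363916) (nat_lit 150) (nat_lit 5) (nat_lit 163) (nat_lit 5) (nat_lit 164) (nat_lit 5) (nat_lit 266) (nat_lit 259) (nat_lit 195))) (XT.nd (nat_lit 78) (nat_lit 988) (nat_lit 0) (XT.lf (nat_lit 76) (nat_lit 6637367961) (nat_lit 0) (nat_lit 4440437595) (nat_lit 1064) (nat_lit 2005203372)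 (nat_lit 151) (nat_lit 5) (nat_lit 150) (nat_lit 5) (nat_lit 164) (nat_lit 5) (nat_lit 267) (nat_lit 259) (nat_lit 194)) (XT.nd (nat_lit 78) (nat_lit 1064) (nat_lit 0) (XT.lf (nat_lit 76) (nat_lit 2753268357) (nat_lit 0) (nat_lit 10157055030) (nat_lit 1064) (nat_lit 515750655) (nat_lit 152) (nat_lit 5) (nat_lit 151) (nat_lit 5) (nat_lit 165) (nat_lit 5) (nat_lit 268) (nat_lit 259) (nat_lit 193)) (XT.lf (nat_lit 0) (nat_lit 1100823445) (nat_lit 1064) (nat_lit 1324017811) (nat_lit 1140) (nat_lit 11359071099) (nat_lit 137) (nat_lit 5) (nat_lit 151) (nat_lit 5) (nat_lit 152) (nat_lit 5) (nat_lit 269) (nat_lit 259) (nat_lit 192))))) (XT.nd (nat_lit 156) (nat_lit 988) (nat_lit 0) (XT.nd (nat_lit 78) (nat_lit 1064) (nat_lit 0) (XT.lf (nat_lit 0) (nat_lit 2889371861) (nat_lit 1064) (nat_lit 5588075561) (nat_lit 76) (nat_lit 5679097401) (nat_lit 138) (nat_lit 5) (nat_lit 152) (nat_lit 5) (nat_lit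 139) (nat_lit 5) (nat_lit 270) (nat_lit 259) (nat_lit 191)) (XT.lf (nat_lit 0) (nat_lit 4468543532) (nat_lit 1064) (nat_lit 344662008) (nat_lit 1140) (nat_lit 9733332205) (nat_lit 124) (nat_lit 5) (nat_lit 138) (nat_lit 5) (nat_lit 139) (nat_lit 5) (nat_lit 271) (nat_lit 259) (nat_lit 190))) (XT.nd (nat_lit 78) (nat_lit 456) (nat_lit 0) (XT.lf (nat_lit 0) (nat_lit 82530322) (nat_lit 532) (nat_lit 6854475852) (nat_lit 608) (nat_lit 8016010468) (nat_lit 117) (nat_lit 5) (nat_lit 124) (nat_lit 5) (nat_lit 125) (nat_lit 5) (nat_lit 272) (nat_lit 259) (nat_lit 189)) (XT.nd (nat_lit 78) (nat_lit 456) (nat_lit 0) (XT.lf (nat_lit 0) (nat_lit 9257850219) (nat_lit 608) (nat_lit 4465094974) (nat_lit 76) (nat_lit 1654243536) (nat_lit 117) (nat_lit 5) (nat_lit 125) (nat_lit 5) (nat_lit 118) (nat_lit 5) (nat_lit 273) (nat_lit 259) (nat_lit 188)) (XT.lf (nat_lit 0) (nat_lit 6489018031) (nat_lit 456) (nat_lit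 5306304951) (nat_lit 532) (nat_lit 4024319171) (nat_lit 111) (nat_lit 5) (nat_lit 117) (nat_lit 5) (nat_lit 118) (nat_lit 5) (nat_lit 274) (nat_lit 259) (nat_lit 187))))))) (XT.nd (nat_lit 780) (nat_lit 2128) (nat_lit 0) (XT.nd (nat_lit 390) (nat_lit 1596) (nat_lit 0) (XT.nd (nat_lit 156) (nat_lit 912) (nat_lit 0) (XT.nd (nat_lit 78) (nat_lit 76) (nat_lit 0) (XT.lf (nat_lit 0) (nat_lit 1772338788) (nat_lit 532) (nat_lit 12754976439) (nat_lit 608) (nat_lit 1754959673) (nat_lit 104) (nat_lit 5) (nat_lit 111) (nat_lit 5) (nat_lit 112) (nat_lit 5) (nat_lit 275) (nat_lit 259) (nat_lit 186)) (XT.lf (nat_lit 0) (nat_lit 737202264) (nat_lit 608) (nat_lit 3229241930) (nat_lit 76) (nat_lit 12797845980) (nat_lit 103) (nat_lit 5) (nat_lit 111) (nat_lit 5) (nat_lit 104) (nat_lit 5) (nat_lit 276) (nat_lit 259) (nat_lit 185))) (XT.nd (nat_lit 78) (nat_lit 456) (nat_lit 0) (XT.lf (nat_lit 0) (nat_lit 3426026726)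 (nat_lit 532) (nat_lit 8579097476) (nat_lit 76) (nat_lit 5261586000) (nat_lit 97) (nat_lit 5) (nat_lit 104) (nat_lit 5) (nat_lit 98) (nat_lit 5) (nat_lit 277) (nat_lit 259) (nat_lit 184)) (XT.nd (nat_lit 78) (nat_lit 0) (nat_lit 0) (XT.lf (nat_lit 0) (nat_lit 3474303085) (nat_lit 456) (nat_lit 2855452578) (nat_lit 532) (nat_lit 11462153822) (nat_lit 91) (nat_lit 5) (nat_lit 97) (nat_lit 5) (nat_lit 98) (nat_lit 5) (nat_lit 278) (nat_lit 259) (nat_lit 183)) (XT.lf (nat_lit 0) (nat_lit 9507214263) (nat_lit 532) (nat_lit 2124539864) (nat_lit 76) (nat_lit 6707827020) (nat_lit 91) (nat_lit 5) (nat_lit 98) (nat_lit 5) (nat_lit 92) (nat_lit 5) (nat_lit 279) (nat_lit 259) (nat_lit 182))))) (XT.nd (nat_lit 156) (nat_lit 836) (nat_lit 0) (XT.nd (nat_lit 78) (nat_lit 380) (nat_lit 0) (XT.lf (nat_lit 0) (nat_lit 10834400014) (nat_lit 380) (nat_lit 2117783036) (nat_lit 456) (nat_lit 5959259666) (nat_lit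 86) (nat_lit 5) (nat_lit 91) (nat_lit 5) (nat_lit 92) (nat_lit 5) (nat_lit 280) (nat_lit 259) (nat_lit 181)) (XT.lf (nat_lit 0) (nat_lit 4969157534) (nat_lit 380) (nat_lit 11722326245) (nat_lit 456) (nat_lit 2816813407) (nat_lit 81) (nat_lit 5) (nat_lit 86) (nat_lit 5) (nat_lit 87) (nat_lit 5) (nat_lit 281) (nat_lit 259) (nat_lit 180))) (XT.nd (nat_lit 78) (nat_lit 760) (nat_lit 0) (XT.lf (nat_lit 0) (nat_lit 555828480) (nat_lit 456) (nat_lit 1349006465) (nat_lit 76) (nat_lit 18227603036) (nat_lit 80) (nat_lit 5) (nat_lit 86) (nat_lit 5) (nat_lit 81) (nat_lit 5) (nat_lit 282) (nat_lit 259) (nat_lit 179)) (XT.nd (nat_lit 78) (nat_lit 380) (nat_lit 0) (XT.lf (nat_lit 0) (nat_lit 4221897444) (nat_lit 456) (nat_lit 8171168327) (nat_lit 76) (nat_lit 8388446724) (nat_lit 75) (nat_lit 5) (nat_lit 81) (nat_lit 5) (nat_lit 76) (nat_lit 5) (nat_lit 283) (nat_lit 259) (nat_lit 178)) (XT.lf (nat_lit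 0) (nat_lit 5904263627) (nat_lit 380) (nat_lit 2236022324) (nat_lit 456) (nat_lit 13320736570) (nat_lit 70) (nat_lit 5) (nat_lit 75) (nat_lit 5) (nat_lit 76) (nat_lit 5) (nat_lit 284) (nat_lit 259) (nat_lit 177)))))) (XT.nd (nat_lit 390) (nat_lit 1140) (nat_lit 0) (XT.nd (nat_lit 156) (nat_lit 684) (nat_lit 0) (XT.nd (nat_lit 78) (nat_lit 304) (nat_lit 0) (XT.lf (nat_lit 0) (nat_lit 12400306070) (nat_lit 456) (nat_lit 1424342993) (nat_lit 76) (nat_lit 8345537403) (nat_lit 70) (nat_lit 5) (nat_lit 76) (nat_lit 5) (nat_lit 71) (nat_lit 5) (nat_lit 285) (nat_lit 259) (nat_lit 176)) (XT.lf (nat_lit 0) (nat_lit 13634640556) (nat_lit 304) (nat_lit 3373025487) (nat_lit 380) (nat_lit 5903159810) (nat_lit 66) (nat_lit 5) (nat_lit 70) (nat_lit 5) (nat_lit 71) (nat_lit 5) (nat_lit 286) (nat_lit 259) (nat_lit 175))) (XT.nd (nat_lit 78) (nat_lit 380) (nat_lit 0) (XT.lf (nat_lit 0) (nat_lit 5804910498)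 (nat_lit 304) (nat_lit 16165522048) (nat_lit 380) (nat_lit 1714358661) (nat_lit 62) (nat_lit 5) (nat_lit 66) (nat_lit 5) (nat_lit 67) (nat_lit 5) (nat_lit 287) (nat_lit 259) (nat_lit 174)) (XT.nd (nat_lit 78) (nat_lit 304) (nat_lit 0) (XT.lf (nat_lit 0) (nat_lit 2743802751) (nat_lit 380) (nat_lit 2744637803) (nat_lit 76) (nat_lit 19004913279) (nat_lit 61) (nat_lit 5) (nat_lit 66) (nat_lit 5) (nat_lit 62) (nat_lit 5) (nat_lit 288) (nat_lit 259) (nat_lit 173)) (XT.lf (nat_lit 0) (nat_lit 7557340506) (nat_lit 380) (nat_lit 12026058463) (nat_lit 76) (nat_lit 5753438454) (nat_lit 57) (nat_lit 5) (nat_lit 62) (nat_lit 5) (nat_lit 58) (nat_lit 5) (nat_lit 289) (nat_lit 259) (nat_lit 172))))) (XT.nd (nat_lit 234) (nat_lit 608) (nat_lit 0) (XT.nd (nat_lit 78) (nat_lit 228) (nat_lit 0) (XT.lf (nat_lit 0) (nat_lit 4005231939) (nat_lit 304) (nat_lit 8712005064) (nat_lit 380) (nat_lit 13502125603) (nat_lit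 53) (nat_lit 5) (nat_lit 57) (nat_lit 5) (nat_lit 58) (nat_lit 5) (nat_lit 290) (nat_lit 259) (nat_lit 171)) (XT.nd (nat_lit 78) (nat_lit 228) (nat_lit 0) (XT.lf (nat_lit 0) (nat_lit 18269929248) (nat_lit 380) (nat_lit 6101877647) (nat_lit 76) (nat_lit 2770199192) (nat_lit 53) (nat_lit 5) (nat_lit 58) (nat_lit 5) (nat_lit 54) (nat_lit 5) (nat_lit 291) (nat_lit 259) (nat_lit 170)) (XT.lf (nat_lit 0) (nat_lit 10920423457) (nat_lit 228) (nat_lit 13357305528) (nat_lit 304) (nat_lit 3827762917) (nat_lit 50) (nat_lit 5) (nat_lit 53) (nat_lit 5) (nat_lit 54) (nat_lit 5) (nat_lit 292) (nat_lit 259) (nat_lit 169)))) (XT.nd (nat_lit 78) (nat_lit 532) (nat_lit 0) (XT.lf (nat_lit 0) (nat_lit 1488469699) (nat_lit 304) (nat_lit 229123794) (nat_lit 76) (nat_lit 27397715799) (nat_lit 49) (nat_lit 5) (nat_lit 53) (nat_lit 5) (nat_lit 50) (nat_lit 5) (nat_lit 293) (nat_lit 259) (nat_lit 168)) (XT.nd (nat_lit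 78) (nat_lit 228) (nat_lit 0) (XT.lf (nat_lit 0) (nat_lit 7252467699) (nat_lit 380) (nat_lit 12407668596) (nat_lit 76) (nat_lit 10506541010) (nat_lit 45) (nat_lit 5) (nat_lit 50) (nat_lit 5) (nat_lit 46) (nat_lit 5) (nat_lit 294) (nat_lit 259) (nat_lit 167)) (XT.lf (nat_lit 0) (nat_lit 5450462906) (nat_lit 228) (nat_lit 7912412870) (nat_lit 304) (nat_lit 17906020446) (nat_lit 42) (nat_lit 5) (nat_lit 45) (nat_lit 5) (nat_lit 46) (nat_lit 5) (nat_lit 295) (nat_lit 259) (nat_lit 166))))))))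
noncomputable def xc87 : XT := (XT.nd (nat_lit 1638) (nat_lit 380) (nat_lit 0) (XT.nd (nat_lit 780) (nat_lit 760) (nat_lit 0) (XT.nd (nat_lit 390) (nat_lit 684) (nat_lit 0) (XT.nd (nat_lit 156) (nat_lit 304) (nat_lit 0) (XT.nd (nat_lit 78) (nat_lit 228) (nat_lit 0) (XT.lf (nat_lit 0) (nat_lit 19936837471) (nat_lit 304) (nat_lit 8024541023) (nat_lit 76) (nat_lit 4460134030) (nat_lit 42) (nat_lit 5) (nat_lit 46) (nat_lit 5) (nat_lit 43) (nat_lit 5) (nat_lit 296) (nat_lit 259) (nat_lit 165)) (XT.lf (nat_lit 0) (nat_lit 10771126310) (nat_lit 228) (nat_lit 16238941907) (nat_lit 304) (nat_lit 6616600424) (nat_lit 39) (nat_lit 5) (nat_lit 42) (nat_lit 5) (nat_lit 43) (nat_lit 5) (nat_lit 297) (nat_lit 259) (nat_lit 164))) (XT.nd (nat_lit 78) (nat_lit 304) (nat_lit 0) (XT.lf (nat_lit 0) (nat_lit 30656548050) (nat_lit 228) (nat_lit 3850629045) (nat_lit 304) (nat_lit 382823855) (nat_lit 39) (nat_lit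 5) (nat_lit 42) (nat_lit 5) (nat_lit 43) (nat_lit 5) (nat_lit 298) (nat_lit 259) (nat_lit 163)) (XT.nd (nat_lit 78) (nat_lit 0) (nat_lit 0) (XT.lf (nat_lit 0) (nat_lit 6269931768) (nat_lit 304) (nat_lit 20753920765) (nat_lit 76) (nat_lit 9184066813) (nat_lit 35) (nat_lit 5) (nat_lit 39) (nat_lit 5) (nat_lit 36) (nat_lit 5) (nat_lit 299) (nat_lit 259) (nat_lit 162)) (XT.lf (nat_lit 0) (nat_lit 13318778163) (nat_lit 304) (nat_lit 1436260327) (nat_lit 76) (nat_lit 22834462263) (nat_lit 35) (nat_lit 5) (nat_lit 39) (nat_lit 5) (nat_lit 36) (nat_lit 5) (nat_lit 300) (nat_lit 259) (nat_lit 161))))) (XT.nd (nat_lit 156) (nat_lit 304) (nat_lit 0) (XT.nd (nat_lit 78) (nat_lit 152) (nat_lit 0) (XT.lf (nat_lit 0) (nat_lit 19205904591) (nat_lit 228) (nat_lit 1687752903) (nat_lit 304) (nat_lit 18141316889) (nat_lit 32) (nat_lit 5) (nat_lit 35) (nat_lit 5) (nat_lit 36) (nat_lit 5) (nat_lit 301) (nat_lit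 259) (nat_lit 160)) (XT.lf (nat_lit 0) (nat_lit 230616529) (nat_lit 152) (nat_lit 28738777681) (nat_lit 228) (nat_lit 11579683958) (nat_lit 30) (nat_lit 5) (nat_lit 32) (nat_lit 5) (nat_lit 33) (nat_lit 5) (nat_lit 302) (nat_lit 259) (nat_lit 159))) (XT.nd (nat_lit 78) (nat_lit 304) (nat_lit 0) (XT.lf (nat_lit 0) (nat_lit 21674757719) (nat_lit 152) (nat_lit 15984808718) (nat_lit 228) (nat_lit 4473020176) (nat_lit 30) (nat_lit 5) (nat_lit 32) (nat_lit 5) (nat_lit 33) (nat_lit 5) (nat_lit 303) (nat_lit 259) (nat_lit 158)) (XT.nd (nat_lit 78) (nat_lit 0) (nat_lit 0) (XT.lf (nat_lit 0) (nat_lit 359109834) (nat_lit 228) (nat_lit 2565028528) (nat_lit 304) (nat_lit 40870483047) (nat_lit 26) (nat_lit 5) (nat_lit 29) (nat_lit 5) (nat_lit 30) (nat_lit 5) (nat_lit 304) (nat_lit 259) (nat_lit 157)) (XT.lf (nat_lit 0) (nat_lit 10913300959) (nat_lit 304) (nat_lit 23061890359) (nat_lit 76) (nat_lit 11553815025)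 (nat_lit 26) (nat_lit 5) (nat_lit 30) (nat_lit 5) (nat_lit 27) (nat_lit 5) (nat_lit 305) (nat_lit 259) (nat_lit 156)))))) (XT.nd (nat_lit 390) (nat_lit 380) (nat_lit 0) (XT.nd (nat_lit 156) (nat_lit 228) (nat_lit 0) (XT.nd (nat_lit 78) (nat_lit 152) (nat_lit 0) (XT.lf (nat_lit 0) (nat_lit 19318594219) (nat_lit 304) (nat_lit 1709600754) (nat_lit 76) (nat_lit 26321431251) (nat_lit 26) (nat_lit 5) (nat_lit 30) (nat_lit 5) (nat_lit 27) (nat_lit 5) (nat_lit 306) (nat_lit 259) (nat_lit 155)) (XT.lf (nat_lit 0) (nat_lit 21108760596) (nat_lit 152) (nat_lit 7229523845) (nat_lit 228) (nat_lit 20917183809) (nat_lit 24) (nat_lit 5) (nat_lit 26) (nat_lit 5) (nat_lit 27) (nat_lit 5) (nat_lit 307) (nat_lit 259) (nat_lit 154))) (XT.nd (nat_lit 78) (nat_lit 228) (nat_lit 0) (XT.lf (nat_lit 0) (nat_lit 37887981349) (nat_lit 228) (nat_lit 6235551812) (nat_lit 76) (nat_lit 7130712953) (nat_lit 24) (nat_lit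 5) (nat_lit 27) (nat_lit 5) (nat_lit 25) (nat_lit 5) (nat_lit 308) (nat_lit 259) (nat_lit 153)) (XT.nd (nat_lit 78) (nat_lit 76) (nat_lit 0) (XT.lf (nat_lit 0) (nat_lit 17017610146) (nat_lit 152) (nat_lit 31125982512) (nat_lit 228) (nat_lit 5202531038) (nat_lit 22) (nat_lit 5) (nat_lit 24) (nat_lit 5) (nat_lit 25) (nat_lit 5) (nat_lit 309) (nat_lit 259) (nat_lit 152)) (XT.lf (nat_lit 0) (nat_lit 3360520111) (nat_lit 228) (nat_lit 14022423953) (nat_lit 76) (nat_lit 38156985728) (nat_lit 21) (nat_lit 5) (nat_lit 24) (nat_lit 5) (nat_lit 22) (nat_lit 5) (nat_lit 310) (nat_lit 259) (nat_lit 151))))) (XT.nd (nat_lit 234) (nat_lit 228) (nat_lit 0) (XT.nd (nat_lit 78) (nat_lit 0) (nat_lit 0) (XT.lf (nat_lit 0) (nat_lit 9520364703) (nat_lit 152) (nat_lit 2808711527) (nat_lit 228) (nat_lit 45510268271) (nat_lit 19) (nat_lit 5) (nat_lit 21) (nat_lit 5) (nat_lit 22) (nat_lit 5) (nat_lit 311) (nat_lit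 259) (nat_lit 150)) (XT.nd (nat_lit 78) (nat_lit 0) (nat_lit 0) (XT.lf (nat_lit 0) (nat_lit 22004581988) (nat_lit 228) (nat_lit 25849332526) (nat_lit 76) (nat_lit 12392071276) (nat_lit 19) (nat_lit 5) (nat_lit 22) (nat_lit 5) (nat_lit 20) (nat_lit 5) (nat_lit 312) (nat_lit 259) (nat_lit 149)) (XT.lf (nat_lit 0) (nat_lit 32185204374) (nat_lit 228) (nat_lit 2295715561) (nat_lit 76) (nat_lit 28291409925) (nat_lit 19) (nat_lit 5) (nat_lit 22) (nat_lit 5) (nat_lit 20) (nat_lit 5) (nat_lit 313) (nat_lit 259) (nat_lit 148)))) (XT.nd (nat_lit 78) (nat_lit 76) (nat_lit 0) (XT.lf (nat_lit 0) (nat_lit 22871250671) (nat_lit 152) (nat_lit 20216785694) (nat_lit 228) (nat_lit 22330569847) (nat_lit 17) (nat_lit 5) (nat_lit 19) (nat_lit 5) (nat_lit 20) (nat_lit 5) (nat_lit 314) (nat_lit 259) (nat_lit 147)) (XT.nd (nat_lit 78) (nat_lit 76) (nat_lit 0) (XT.lf (nat_lit 0) (nat_lit 49334211624) (nat_lit 152)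 (nat_lit 5218975266) (nat_lit 228) (nat_lit 13643504118) (nat_lit 17) (nat_lit 5) (nat_lit 19) (nat_lit 5) (nat_lit 20) (nat_lit 5) (nat_lit 315) (nat_lit 259) (nat_lit 146)) (XT.lf (nat_lit 0) (nat_lit 6012768828) (nat_lit 76) (nat_lit 60731649600) (nat_lit 152) (nat_lit 4364686374) (nat_lit 16) (nat_lit 5) (nat_lit 17) (nat_lit 5) (nat_lit 18) (nat_lit 4) (nat_lit 316) (nat_lit 259) (nat_lit 145))))))) (XT.nd (nat_lit 33150) (nat_lit 0) (nat_lit 9576) (XT.nd (nat_lit 390) (nat_lit 152) (nat_lit 0) (XT.nd (nat_lit 156) (nat_lit 152) (nat_lit 0) (XT.nd (nat_lit 78) (nat_lit 0) (nat_lit 0) (XT.lf (nat_lit 0) (nat_lit 5515847754) (nat_lit 152) (nat_lit 41751497184) (nat_lit 76) (nat_lit 26890970546) (nat_lit 15) (nat_lit 5) (nat_lit 17) (nat_lit 5) (nat_lit 16) (nat_lit 5) (nat_lit 317) (nat_lit 259) (nat_lit 144)) (XT.lf (nat_lit 0) (nat_lit 15795217007) (nat_lit 152) (nat_lit 17292838544)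 (nat_lit 76) (nat_lit 44270790736) (nat_lit 15) (nat_lit 5) (nat_lit 17) (nat_lit 5) (nat_lit 16) (nat_lit 5) (nat_lit 318) (nat_lit 259) (nat_lit 143))) (XT.nd (nat_lit 78) (nat_lit 0) (nat_lit 0) (XT.lf (nat_lit 0) (nat_lit 8546605948) (nat_lit 152) (nat_lit 18118616082) (nat_lit 228) (nat_lit 54051889518) (nat_lit 13) (nat_lit 5) (nat_lit 15) (nat_lit 5) (nat_lit 16) (nat_lit 5) (nat_lit 319) (nat_lit 259) (nat_lit 142)) (XT.nd (nat_lit 78) (nat_lit 0) (nat_lit 0) (XT.lf (nat_lit 0) (nat_lit 36030725736) (nat_lit 152) (nat_lit 2220706206) (nat_lit 228) (nat_lit 45986684548) (nat_lit 13) (nat_lit 5) (nat_lit 15) (nat_lit 5) (nat_lit 16) (nat_lit 5) (nat_lit 320) (nat_lit 259) (nat_lit 141)) (XT.lf (nat_lit 0) (nat_lit 50550979267) (nat_lit 228) (nat_lit 23193616726) (nat_lit 76) (nat_lit 14186562077) (nat_lit 13) (nat_lit 5) (nat_lit 16) (nat_lit 5) (nat_lit 14) (nat_lit 4) (nat_lit 321)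 (nat_lit 259) (nat_lit 140))))) (XT.nd (nat_lit 156) (nat_lit 76) (nat_lit 0) (XT.nd (nat_lit 78) (nat_lit 0) (nat_lit 0) (XT.lf (nat_lit 0) (nat_lit 3100960025) (nat_lit 76) (nat_lit 60411920905) (nat_lit 152) (nat_lit 28294556346) (nat_lit 12) (nat_lit 5) (nat_lit 13) (nat_lit 5) (nat_lit 14) (nat_lit 4) (nat_lit 322) (nat_lit 259) (nat_lit 139)) (XT.lf (nat_lit 0) (nat_lit 31187190061) (nat_lit 76) (nat_lit 46169756157) (nat_lit 152) (nat_lit 18513568697) (nat_lit 12) (nat_lit 5) (nat_lit 13) (nat_lit 5) (nat_lit 14) (nat_lit 4) (nat_lit 323) (nat_lit 259) (nat_lit 138))) (XT.nd (nat_lit 78) (nat_lit 76) (nat_lit 0) (XT.lf (nat_lit 0) (nat_lit 60670346905) (nat_lit 76) (nat_lit 31218401886) (nat_lit 152) (nat_lit 8248137841) (nat_lit 12) (nat_lit 5) (nat_lit 13) (nat_lit 5) (nat_lit 14) (nat_lit 4) (nat_lit 324) (nat_lit 259) (nat_lit 137)) (XT.nd (nat_lit 32448) (nat_lit 0) (nat_lit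 10260) (XT.lf (nat_lit 0) (nat_lit 2476882895) (nat_lit 152) (nat_lit 13020365073) (nat_lit 76) (nat_lit 89118733995) (nat_lit 11) (nat_lit 5) (nat_lit 13) (nat_lit 5) (nat_lit 12) (nat_lit 5) (nat_lit 325) (nat_lit 259) (nat_lit 136)) (XT.lf (nat_lit 0) (nat_lit 656941904) (nat_lit 0) (nat_lit 656941904) (nat_lit 988) (nat_lit 4338706249) (nat_lit 146) (nat_lit 5) (nat_lit 146) (nat_lit 3) (nat_lit 159) (nat_lit 3) (nat_lit 260) (nat_lit 260) (nat_lit 200)))))) (XT.nd (nat_lit 390) (nat_lit 684) (nat_lit 0) (XT.nd (nat_lit 156) (nat_lit 0) (nat_lit 76) (XT.nd (nat_lit 78) (nat_lit 0) (nat_lit 76) (XT.lf (nat_lit 0) (nat_lit 3534519493) (nat_lit 988) (nat_lit 2517354956) (nat_lit 1064) (nat_lit 5508217552) (nat_lit 146) (nat_lit 5) (nat_lit 159) (nat_lit 3) (nat_lit 160) (nat_lit 5) (nat_lit 261) (nat_lit 260) (nat_lit 199)) (XT.lf (nat_lit 0) (nat_lit 4510182901) (nat_lit 988) (nat_lit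 6440850507) (nat_lit 1064) (nat_lit 876167980) (nat_lit 147) (nat_lit 5) (nat_lit 160) (nat_lit 5) (nat_lit 161) (nat_lit 5) (nat_lit 262) (nat_lit 260) (nat_lit 198))) (XT.nd (nat_lit 78) (nat_lit 0) (nat_lit 76) (XT.lf (nat_lit 76) (nat_lit 1572171035) (nat_lit 0) (nat_lit 4017028334) (nat_lit 1064) (nat_lit 6516981329) (nat_lit 148) (nat_lit 5) (nat_lit 147) (nat_lit 5) (nat_lit 161) (nat_lit 5) (nat_lit 263) (nat_lit 260) (nat_lit 197)) (XT.nd (nat_lit 78) (nat_lit 0) (nat_lit 0) (XT.lf (nat_lit 0) (nat_lit 6774892992) (nat_lit 988) (nat_lit 2337725952) (nat_lit 1064) (nat_lit 3285052574) (nat_lit 148) (nat_lit 5) (nat_lit 161) (nat_lit 5) (nat_lit 162) (nat_lit 5) (nat_lit 264) (nat_lit 260) (nat_lit 196)) (XT.lf (nat_lit 76) (nat_lit 6323589176) (nat_lit 0) (nat_lit 1754179390) (nat_lit 1064) (nat_lit 4624368855) (nat_lit 149) (nat_lit 5) (nat_lit 148) (nat_lit 5) (nat_lit 162) (nat_lit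 5) (nat_lit 265) (nat_lit 260) (nat_lit 195))))) (XT.nd (nat_lit 234) (nat_lit 912) (nat_lit 0) (XT.nd (nat_lit 78) (nat_lit 0) (nat_lit 76) (XT.lf (nat_lit 76) (nat_lit 2406669721) (nat_lit 0) (nat_lit 7102482507) (nat_lit 1064) (nat_lit 3510904377) (nat_lit 150) (nat_lit 5) (nat_lit 149) (nat_lit 5) (nat_lit 163) (nat_lit 5) (nat_lit 266) (nat_lit 260) (nat_lit 194)) (XT.nd (nat_lit 78) (nat_lit 0) (nat_lit 0) (XT.lf (nat_lit 0) (nat_lit 11061903521) (nat_lit 988) (nat_lit 1640236590) (nat_lit 1064) (nat_lit 650362365) (nat_lit 150) (nat_lit 5) (nat_lit 163) (nat_lit 5) (nat_lit 164) (nat_lit 5) (nat_lit 267) (nat_lit 260) (nat_lit 193)) (XT.lf (nat_lit 76) (nat_lit 7835171057) (nat_lit 0) (nat_lit 4966359629) (nat_lit 1064) (nat_lit 896881549) (nat_lit 151) (nat_lit 5) (nat_lit 150) (nat_lit 5) (nat_lit 164) (nat_lit 5) (nat_lit 268) (nat_lit 260) (nat_lit 192)))) (XT.nd (nat_lit 78)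 (nat_lit 0) (nat_lit 0) (XT.lf (nat_lit 0) (nat_lit 603347435) (nat_lit 1064) (nat_lit 10293701488) (nat_lit 1140) (nat_lit 3163078565) (nat_lit 137) (nat_lit 5) (nat_lit 151) (nat_lit 5) (nat_lit 152) (nat_lit 5) (nat_lit 269) (nat_lit 260) (nat_lit 191)) (XT.nd (nat_lit 78) (nat_lit 0) (nat_lit 76) (XT.lf (nat_lit 0) (nat_lit 2236167725) (nat_lit 1064) (nat_lit 525895953) (nat_lit 1140) (nat_lit 11675419128) (nat_lit 137) (nat_lit 5) (nat_lit 151) (nat_lit 5) (nat_lit 152) (nat_lit 5) (nat_lit 270) (nat_lit 260) (nat_lit 190)) (XT.lf (nat_lit 0) (nat_lit 4068873428) (nat_lit 1064) (nat_lit 4991864022) (nat_lit 76) (nat_lit 5769520697) (nat_lit 138) (nat_lit 5) (nat_lit 152) (nat_lit 5) (nat_lit 139) (nat_lit 5) (nat_lit 271) (nat_lit 260) (nat_lit 189))))))))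
noncomputable def xc88 : XT := (XT.nd (nat_lit 1560) (nat_lit 2584) (nat_lit 0) (XT.nd (nat_lit 780) (nat_lit 2508) (nat_lit 0) (XT.nd (nat_lit 390) (nat_lit 1368) (nat_lit 0) (XT.nd (nat_lit 156) (nat_lit 988) (nat_lit 0) (XT.nd (nat_lit 78) (nat_lit 532) (nat_lit 0) (XT.lf (nat_lit 0) (nat_lit 5542486688) (nat_lit 1064) (nat_lit 505300498) (nat_lit 1140) (nat_lit 9193342730) (nat_lit 124) (nat_lit 5) (nat_lit 138) (nat_lit 5) (nat_lit 139) (nat_lit 5) (nat_lit 272) (nat_lit 260) (nat_lit 188)) (XT.lf (nat_lit 0) (nat_lit 945928315) (nat_lit 532) (nat_lit 7291466934) (nat_lit 608) (nat_lit 7431887896) (nat_lit 117) (nat_lit 5) (nat_lit 124) (nat_lit 5) (nat_lit 125) (nat_lit 5) (nat_lit 273) (nat_lit 260) (nat_lit 187))) (XT.nd (nat_lit 78) (nat_lit 988) (nat_lit 0) (XT.lf (nat_lit 0) (nat_lit 10628011884) (nat_lit 608) (nat_lit 3839243093) (nat_lit 76) (nat_lit 1648929241) (nat_lit 117)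 (nat_lit 5) (nat_lit 125) (nat_lit 5) (nat_lit 118) (nat_lit 5) (nat_lit 274) (nat_lit 260) (nat_lit 186)) (XT.nd (nat_lit 78) (nat_lit 532) (nat_lit 0) (XT.lf (nat_lit 0) (nat_lit 7638236090) (nat_lit 456) (nat_lit 5618847067) (nat_lit 532) (nat_lit 3324861404) (nat_lit 111) (nat_lit 5) (nat_lit 117) (nat_lit 5) (nat_lit 118) (nat_lit 5) (nat_lit 275) (nat_lit 260) (nat_lit 185)) (XT.lf (nat_lit 0) (nat_lit 2690379663) (nat_lit 532) (nat_lit 13401312403) (nat_lit 608) (nat_lit 977156364) (nat_lit 104) (nat_lit 5) (nat_lit 111) (nat_lit 5) (nat_lit 112) (nat_lit 5) (nat_lit 276) (nat_lit 260) (nat_lit 184))))) (XT.nd (nat_lit 156) (nat_lit 836) (nat_lit 0) (XT.nd (nat_lit 78) (nat_lit 456) (nat_lit 0) (XT.lf (nat_lit 0) (nat_lit 1582311206) (nat_lit 608) (nat_lit 2582471700) (nat_lit 76) (nat_lit 13411255280) (nat_lit 103) (nat_lit 5) (nat_lit 111) (nat_lit 5) (nat_lit 104) (nat_lit 5) (nat_lit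 277) (nat_lit 260) (nat_lit 183)) (XT.lf (nat_lit 0) (nat_lit 4374709939) (nat_lit 532) (nat_lit 8197629823) (nat_lit 76) (nat_lit 5532271130) (nat_lit 97) (nat_lit 5) (nat_lit 104) (nat_lit 5) (nat_lit 98) (nat_lit 5) (nat_lit 278) (nat_lit 260) (nat_lit 182))) (XT.nd (nat_lit 78) (nat_lit 380) (nat_lit 0) (XT.lf (nat_lit 0) (nat_lit 4435210166) (nat_lit 456) (nat_lit 2958963941) (nat_lit 532) (nat_lit 11262880202) (nat_lit 91) (nat_lit 5) (nat_lit 97) (nat_lit 5) (nat_lit 98) (nat_lit 5) (nat_lit 279) (nat_lit 260) (nat_lit 181)) (XT.nd (nat_lit 78) (nat_lit 380) (nat_lit 0) (XT.lf (nat_lit 0) (nat_lit 10695249324) (nat_lit 532) (nat_lit 1458133360) (nat_lit 76) (nat_lit 7079880406) (nat_lit 91) (nat_lit 5) (nat_lit 98) (nat_lit 5) (nat_lit 92) (nat_lit 5) (nat_lit 280) (nat_lit 260) (nat_lit 180)) (XT.lf (nat_lit 0) (nat_lit 12126606129) (nat_lit 380) (nat_lit 2159137681) (nat_lit 456)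 (nat_lit 5548866891) (nat_lit 86) (nat_lit 5) (nat_lit 91) (nat_lit 5) (nat_lit 92) (nat_lit 5) (nat_lit 281) (nat_lit 260) (nat_lit 179)))))) (XT.nd (nat_lit 390) (nat_lit 1292) (nat_lit 0) (XT.nd (nat_lit 156) (nat_lit 760) (nat_lit 0) (XT.nd (nat_lit 78) (nat_lit 76) (nat_lit 0) (XT.lf (nat_lit 0) (nat_lit 5967748369) (nat_lit 380) (nat_lit 12219398384) (nat_lit 456) (nat_lit 2274993957) (nat_lit 81) (nat_lit 5) (nat_lit 86) (nat_lit 5) (nat_lit 87) (nat_lit 5) (nat_lit 282) (nat_lit 260) (nat_lit 178)) (XT.lf (nat_lit 0) (nat_lit 1221085582) (nat_lit 456) (nat_lit 687749984) (nat_lit 76) (nat_lit 19209492698) (nat_lit 80) (nat_lit 5) (nat_lit 86) (nat_lit 5) (nat_lit 81) (nat_lit 5) (nat_lit 283) (nat_lit 260) (nat_lit 177))) (XT.nd (nat_lit 78) (nat_lit 380) (nat_lit 0) (XT.lf (nat_lit 0) (nat_lit 5047809137) (nat_lit 456) (nat_lit 7852862322) (nat_lit 76) (nat_lit 8899941063) (nat_lit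 75) (nat_lit 5) (nat_lit 81) (nat_lit 5) (nat_lit 76) (nat_lit 5) (nat_lit 284) (nat_lit 260) (nat_lit 176)) (XT.nd (nat_lit 78) (nat_lit 0) (nat_lit 0) (XT.lf (nat_lit 0) (nat_lit 6905505807) (nat_lit 380) (nat_lit 2234121054) (nat_lit 456) (nat_lit 13375218805) (nat_lit 70) (nat_lit 5) (nat_lit 75) (nat_lit 5) (nat_lit 76) (nat_lit 5) (nat_lit 285) (nat_lit 260) (nat_lit 175)) (XT.lf (nat_lit 0) (nat_lit 13585482887) (nat_lit 456) (nat_lit 805880139) (nat_lit 76) (nat_lit 8868989171) (nat_lit 70) (nat_lit 5) (nat_lit 76) (nat_lit 5) (nat_lit 71) (nat_lit 5) (nat_lit 286) (nat_lit 260) (nat_lit 174))))) (XT.nd (nat_lit 156) (nat_lit 684) (nat_lit 0) (XT.nd (nat_lit 78) (nat_lit 304) (nat_lit 0) (XT.lf (nat_lit 0) (nat_lit 14986283048) (nat_lit 304) (nat_lit 3416454947) (nat_lit 380) (nat_lit 5635965876) (nat_lit 66) (nat_lit 5) (nat_lit 70) (nat_lit 5) (nat_lit 71) (nat_lit 5) (nat_lit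 287) (nat_lit 260) (nat_lit 173)) (XT.lf (nat_lit 0) (nat_lit 6761851394) (nat_lit 304) (nat_lit 16833408947) (nat_lit 380) (nat_lit 1256721607) (nat_lit 62) (nat_lit 5) (nat_lit 66) (nat_lit 5) (nat_lit 67) (nat_lit 5) (nat_lit 288) (nat_lit 260) (nat_lit 172))) (XT.nd (nat_lit 78) (nat_lit 608) (nat_lit 0) (XT.lf (nat_lit 0) (nat_lit 3388375911) (nat_lit 380) (nat_lit 2235659094) (nat_lit 76) (nat_lit 20077600319) (nat_lit 61) (nat_lit 5) (nat_lit 66) (nat_lit 5) (nat_lit 62) (nat_lit 5) (nat_lit 289) (nat_lit 260) (nat_lit 171)) (XT.nd (nat_lit 78) (nat_lit 304) (nat_lit 0) (XT.lf (nat_lit 0) (nat_lit 8425793857) (nat_lit 380) (nat_lit 11985218055) (nat_lit 76) (nat_lit 6176840544) (nat_lit 57) (nat_lit 5) (nat_lit 62) (nat_lit 5) (nat_lit 58) (nat_lit 5) (nat_lit 290) (nat_lit 260) (nat_lit 170)) (XT.lf (nat_lit 0) (nat_lit 4829229958) (nat_lit 304) (nat_lit 8997089705) (nat_lit 380)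 (nat_lit 13688758024) (nat_lit 53) (nat_lit 5) (nat_lit 57) (nat_lit 5) (nat_lit 58) (nat_lit 5) (nat_lit 291) (nat_lit 260) (nat_lit 169))))))) (XT.nd (nat_lit 780) (nat_lit 1216) (nat_lit 0) (XT.nd (nat_lit 390) (nat_lit 532) (nat_lit 0) (XT.nd (nat_lit 156) (nat_lit 608) (nat_lit 0) (XT.nd (nat_lit 78) (nat_lit 228) (nat_lit 0) (XT.lf (nat_lit 0) (nat_lit 19635490145) (nat_lit 380) (nat_lit 5799788078) (nat_lit 76) (nat_lit 3049260114) (nat_lit 53) (nat_lit 5) (nat_lit 58) (nat_lit 5) (nat_lit 54) (nat_lit 5) (nat_lit 292) (nat_lit 260) (nat_lit 168)) (XT.lf (nat_lit 0) (nat_lit 12056223290) (nat_lit 228) (nat_lit 13871599016) (nat_lit 304) (nat_lit 3568899776) (nat_lit 50) (nat_lit 5) (nat_lit 53) (nat_lit 5) (nat_lit 54) (nat_lit 5) (nat_lit 293) (nat_lit 260) (nat_lit 167))) (XT.nd (nat_lit 78) (nat_lit 228) (nat_lit 0) (XT.lf (nat_lit 0) (nat_lit 336942582) (nat_lit 304) (nat_lit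 1649632606) (nat_lit 380) (nat_lit 28570903107) (nat_lit 45) (nat_lit 5) (nat_lit 49) (nat_lit 5) (nat_lit 50) (nat_lit 5) (nat_lit 294) (nat_lit 260) (nat_lit 166)) (XT.nd (nat_lit 78) (nat_lit 228) (nat_lit 0) (XT.lf (nat_lit 0) (nat_lit 8022274698) (nat_lit 380) (nat_lit 12461884751) (nat_lit 76) (nat_lit 11177792403) (nat_lit 45) (nat_lit 5) (nat_lit 50) (nat_lit 5) (nat_lit 46) (nat_lit 5) (nat_lit 295) (nat_lit 260) (nat_lit 165)) (XT.lf (nat_lit 0) (nat_lit 6272924254) (nat_lit 228) (nat_lit 8151175571) (nat_lit 304) (nat_lit 18395645171) (nat_lit 42) (nat_lit 5) (nat_lit 45) (nat_lit 5) (nat_lit 46) (nat_lit 5) (nat_lit 296) (nat_lit 260) (nat_lit 164))))) (XT.nd (nat_lit 156) (nat_lit 304) (nat_lit 0) (XT.nd (nat_lit 78) (nat_lit 228) (nat_lit 0) (XT.lf (nat_lit 0) (nat_lit 21309477511) (nat_lit 304) (nat_lit 7891457193) (nat_lit 76) (nat_lit 4829614140) (nat_lit 42) (nat_lit 5)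 (nat_lit 46) (nat_lit 5) (nat_lit 43) (nat_lit 5) (nat_lit 297) (nat_lit 260) (nat_lit 163)) (XT.lf (nat_lit 0) (nat_lit 11828677592) (nat_lit 228) (nat_lit 16894785948) (nat_lit 304) (nat_lit 6572922860) (nat_lit 39) (nat_lit 5) (nat_lit 42) (nat_lit 5) (nat_lit 43) (nat_lit 5) (nat_lit 298) (nat_lit 260) (nat_lit 162))) (XT.nd (nat_lit 78) (nat_lit 304) (nat_lit 0) (XT.lf (nat_lit 0) (nat_lit 32683656373) (nat_lit 228) (nat_lit 3894490922) (nat_lit 304) (nat_lit 45291157) (nat_lit 39) (nat_lit 5) (nat_lit 42) (nat_lit 5) (nat_lit 43) (nat_lit 5) (nat_lit 299) (nat_lit 260) (nat_lit 161)) (XT.nd (nat_lit 78) (nat_lit 0) (nat_lit 0) (XT.lf (nat_lit 0) (nat_lit 6922615406) (nat_lit 304) (nat_lit 21294754666) (nat_lit 76) (nat_lit 9790127739) (nat_lit 35) (nat_lit 5) (nat_lit 39) (nat_lit 5) (nat_lit 36) (nat_lit 5) (nat_lit 300) (nat_lit 260) (nat_lit 160)) (XT.lf (nat_lit 0) (nat_lit 14307752356)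 (nat_lit 304) (nat_lit 1034871309) (nat_lit 76) (nat_lit 24116049743) (nat_lit 35) (nat_lit 5) (nat_lit 39) (nat_lit 5) (nat_lit 36) (nat_lit 5) (nat_lit 301) (nat_lit 260) (nat_lit 159)))))) (XT.nd (nat_lit 390) (nat_lit 532) (nat_lit 0) (XT.nd (nat_lit 156) (nat_lit 304) (nat_lit 0) (XT.nd (nat_lit 78) (nat_lit 152) (nat_lit 0) (XT.lf (nat_lit 0) (nat_lit 20625837615) (nat_lit 228) (nat_lit 1624573727) (nat_lit 304) (nat_lit 18726367418) (nat_lit 32) (nat_lit 5) (nat_lit 35) (nat_lit 5) (nat_lit 36) (nat_lit 5) (nat_lit 302) (nat_lit 260) (nat_lit 158)) (XT.lf (nat_lit 0) (nat_lit 696891173) (nat_lit 152) (nat_lit 30023905428) (nat_lit 228) (nat_lit 11846093006) (nat_lit 30) (nat_lit 5) (nat_lit 32) (nat_lit 5) (nat_lit 33) (nat_lit 5) (nat_lit 303) (nat_lit 260) (nat_lit 157))) (XT.nd (nat_lit 78) (nat_lit 304) (nat_lit 0) (XT.lf (nat_lit 0) (nat_lit 23191584954) (nat_lit 152) (nat_lit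 16639467119) (nat_lit 228) (nat_lit 4398980566) (nat_lit 30) (nat_lit 5) (nat_lit 32) (nat_lit 5) (nat_lit 33) (nat_lit 5) (nat_lit 304) (nat_lit 260) (nat_lit 156)) (XT.nd (nat_lit 78) (nat_lit 0) (nat_lit 0) (XT.lf (nat_lit 0) (nat_lit 803880765) (nat_lit 228) (nat_lit 2548549804) (nat_lit 304) (nat_lit 42622971062) (nat_lit 26) (nat_lit 5) (nat_lit 29) (nat_lit 5) (nat_lit 30) (nat_lit 5) (nat_lit 305) (nat_lit 260) (nat_lit 155)) (XT.lf (nat_lit 0) (nat_lit 11728943649) (nat_lit 304) (nat_lit 23801294350) (nat_lit 76) (nat_lit 12266654294) (nat_lit 26) (nat_lit 5) (nat_lit 30) (nat_lit 5) (nat_lit 27) (nat_lit 5) (nat_lit 306) (nat_lit 260) (nat_lit 154))))) (XT.nd (nat_lit 234) (nat_lit 380) (nat_lit 0) (XT.nd (nat_lit 78) (nat_lit 152) (nat_lit 0) (XT.lf (nat_lit 0) (nat_lit 20541645494) (nat_lit 304) (nat_lit 1401089814) (nat_lit 76) (nat_lit 27766215687) (nat_lit 26) (nat_lit 5)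 (nat_lit 30) (nat_lit 5) (nat_lit 27) (nat_lit 5) (nat_lit 307) (nat_lit 260) (nat_lit 153)) (XT.nd (nat_lit 78) (nat_lit 0) (nat_lit 0) (XT.lf (nat_lit 0) (nat_lit 22546895932) (nat_lit 152) (nat_lit 7456859132) (nat_lit 228) (nat_lit 21706608104) (nat_lit 24) (nat_lit 5) (nat_lit 26) (nat_lit 5) (nat_lit 27) (nat_lit 5) (nat_lit 308) (nat_lit 260) (nat_lit 152)) (XT.lf (nat_lit 0) (nat_lit 40020328840) (nat_lit 228) (nat_lit 6176580492) (nat_lit 76) (nat_lit 7612508917) (nat_lit 24) (nat_lit 5) (nat_lit 27) (nat_lit 5) (nat_lit 25) (nat_lit 5) (nat_lit 309) (nat_lit 260) (nat_lit 151)))) (XT.nd (nat_lit 78) (nat_lit 228) (nat_lit 0) (XT.lf (nat_lit 0) (nat_lit 18228612121) (nat_lit 152) (nat_lit 32552239425) (nat_lit 228) (nat_lit 5225293370) (nat_lit 22) (nat_lit 5) (nat_lit 24) (nat_lit 5) (nat_lit 25) (nat_lit 5) (nat_lit 310) (nat_lit 260) (nat_lit 150)) (XT.nd (nat_lit 78) (nat_lit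 152) (nat_lit 0) (XT.lf (nat_lit 0) (nat_lit 3750196010) (nat_lit 228) (nat_lit 14375807301) (nat_lit 76) (nat_lit 40183919717) (nat_lit 21) (nat_lit 5) (nat_lit 24) (nat_lit 5) (nat_lit 22) (nat_lit 5) (nat_lit 311) (nat_lit 260) (nat_lit 149)) (XT.lf (nat_lit 0) (nat_lit 10334152952) (nat_lit 152) (nat_lit 2825719078) (nat_lit 228) (nat_lit 47564672525) (nat_lit 19) (nat_lit 5) (nat_lit 21) (nat_lit 5) (nat_lit 22) (nat_lit 5) (nat_lit 312) (nat_lit 260) (nat_lit 148))))))))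
noncomputable def xc89 : XT := (XT.nd (nat_lit 34008) (nat_lit 0) (nat_lit 4104) (XT.nd (nat_lit 780) (nat_lit 76) (nat_lit 0) (XT.nd (nat_lit 390) (nat_lit 228) (nat_lit 0) (XT.nd (nat_lit 156) (nat_lit 228) (nat_lit 0) (XT.nd (nat_lit 78) (nat_lit 0) (nat_lit 0) (XT.lf (nat_lit 0) (nat_lit 23310076283) (nat_lit 228) (nat_lit 26814798468) (nat_lit 76) (nat_lit 13126931506) (nat_lit 19) (nat_lit 5) (nat_lit 22) (nat_lit 5) (nat_lit 20) (nat_lit 5) (nat_lit 313) (nat_lit 260) (nat_lit 147)) (XT.lf (nat_lit 0) (nat_lit 33989955255) (nat_lit 228) (nat_lit 2099072116) (nat_lit 76) (nat_lit 29815748675) (nat_lit 19) (nat_lit 5) (nat_lit 22) (nat_lit 5) (nat_lit 20) (nat_lit 5) (nat_lit 314) (nat_lit 260) (nat_lit 146))) (XT.nd (nat_lit 78) (nat_lit 76) (nat_lit 0) (XT.lf (nat_lit 0) (nat_lit 24317315372) (nat_lit 152) (nat_lit 21114212230) (nat_lit 228) (nat_lit 23252045201) (nat_lit 17) (nat_lit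 5) (nat_lit 19) (nat_lit 5) (nat_lit 20) (nat_lit 5) (nat_lit 315) (nat_lit 260) (nat_lit 145)) (XT.nd (nat_lit 78) (nat_lit 76) (nat_lit 0) (XT.lf (nat_lit 0) (nat_lit 52089019507) (nat_lit 152) (nat_lit 5371911888) (nat_lit 228) (nat_lit 14139914431) (nat_lit 17) (nat_lit 5) (nat_lit 19) (nat_lit 5) (nat_lit 20) (nat_lit 5) (nat_lit 316) (nat_lit 260) (nat_lit 144)) (XT.lf (nat_lit 0) (nat_lit 6597754727) (nat_lit 76) (nat_lit 63659116458) (nat_lit 152) (nat_lit 4402167923) (nat_lit 16) (nat_lit 5) (nat_lit 17) (nat_lit 5) (nat_lit 18) (nat_lit 4) (nat_lit 317) (nat_lit 260) (nat_lit 143))))) (XT.nd (nat_lit 156) (nat_lit 152) (nat_lit 0) (XT.nd (nat_lit 78) (nat_lit 0) (nat_lit 0) (XT.lf (nat_lit 0) (nat_lit 5960426458) (nat_lit 152) (nat_lit 43564661676) (nat_lit 76) (nat_lit 28335835450) (nat_lit 15) (nat_lit 5) (nat_lit 17) (nat_lit 5) (nat_lit 16) (nat_lit 5) (nat_lit 318) (nat_lit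 260) (nat_lit 142)) (XT.lf (nat_lit 0) (nat_lit 16745726730) (nat_lit 152) (nat_lit 17896137265) (nat_lit 76) (nat_lit 46579869679) (nat_lit 15) (nat_lit 5) (nat_lit 17) (nat_lit 5) (nat_lit 16) (nat_lit 5) (nat_lit 319) (nat_lit 260) (nat_lit 141))) (XT.nd (nat_lit 78) (nat_lit 0) (nat_lit 0) (XT.lf (nat_lit 0) (nat_lit 9227788101) (nat_lit 152) (nat_lit 18926229373) (nat_lit 228) (nat_lit 56594062228) (nat_lit 13) (nat_lit 5) (nat_lit 15) (nat_lit 5) (nat_lit 16) (nat_lit 5) (nat_lit 320) (nat_lit 260) (nat_lit 140)) (XT.nd (nat_lit 78) (nat_lit 0) (nat_lit 0) (XT.lf (nat_lit 0) (nat_lit 38074025695) (nat_lit 152) (nat_lit 2238105790) (nat_lit 228) (nat_lit 48133236141) (nat_lit 13) (nat_lit 5) (nat_lit 15) (nat_lit 5) (nat_lit 16) (nat_lit 5) (nat_lit 321) (nat_lit 260) (nat_lit 139)) (XT.lf (nat_lit 0) (nat_lit 53220459688) (nat_lit 228) (nat_lit 24119470632) (nat_lit 76) (nat_lit 14983326901)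 (nat_lit 13) (nat_lit 5) (nat_lit 16) (nat_lit 5) (nat_lit 14) (nat_lit 4) (nat_lit 322) (nat_lit 260) (nat_lit 138)))))) (XT.nd (nat_lit 32838) (nat_lit 0) (nat_lit 10260) (XT.nd (nat_lit 156) (nat_lit 0) (nat_lit 0) (XT.nd (nat_lit 78) (nat_lit 0) (nat_lit 0) (XT.lf (nat_lit 0) (nat_lit 3483132355) (nat_lit 76) (nat_lit 63342748696) (nat_lit 152) (nat_lit 29567616159) (nat_lit 12) (nat_lit 5) (nat_lit 13) (nat_lit 5) (nat_lit 14) (nat_lit 4) (nat_lit 323) (nat_lit 260) (nat_lit 137)) (XT.lf (nat_lit 0) (nat_lit 32962858448) (nat_lit 76) (nat_lit 48392750389) (nat_lit 152) (nat_lit 19304325223) (nat_lit 12) (nat_lit 5) (nat_lit 13) (nat_lit 5) (nat_lit 14) (nat_lit 4) (nat_lit 324) (nat_lit 260) (nat_lit 136))) (XT.nd (nat_lit 32526) (nat_lit 0) (nat_lit 10184) (XT.lf (nat_lit 0) (nat_lit 63909872712) (nat_lit 76) (nat_lit 32697899527) (nat_lit 152) (nat_lit 8532047678) (nat_lit 12) (nat_lit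 5) (nat_lit 13) (nat_lit 5) (nat_lit 14) (nat_lit 4) (nat_lit 325) (nat_lit 260) (nat_lit 135)) (XT.nd (nat_lit 78) (nat_lit 0) (nat_lit 0) (XT.lf (nat_lit 0) (nat_lit 1077172703) (nat_lit 0) (nat_lit 1077172703) (nat_lit 988) (nat_lit 3755184054) (nat_lit 146) (nat_lit 5) (nat_lit 146) (nat_lit 3) (nat_lit 159) (nat_lit 3) (nat_lit 261) (nat_lit 261) (nat_lit 198)) (XT.lf (nat_lit 0) (nat_lit 5179900017) (nat_lit 988) (nat_lit 1849322565) (nat_lit 1064) (nat_lit 5060153282) (nat_lit 146) (nat_lit 5) (nat_lit 159) (nat_lit 3) (nat_lit 160) (nat_lit 5) (nat_lit 262) (nat_lit 261) (nat_lit 197))))) (XT.nd (nat_lit 156) (nat_lit 0) (nat_lit 76) (XT.nd (nat_lit 78) (nat_lit 0) (nat_lit 0) (XT.lf (nat_lit 0) (nat_lit 6135719470) (nat_lit 988) (nat_lit 5939022906) (nat_lit 1064) (nat_lit 297379117) (nat_lit 147) (nat_lit 5) (nat_lit 160) (nat_lit 5) (nat_lit 161) (nat_lit 5) (nat_lit 263) (nat_lit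 261) (nat_lit 196)) (XT.lf (nat_lit 76) (nat_lit 2451033642) (nat_lit 0) (nat_lit 4758677679) (nat_lit 1064) (nat_lit 5457319098) (nat_lit 148) (nat_lit 5) (nat_lit 147) (nat_lit 5) (nat_lit 161) (nat_lit 5) (nat_lit 264) (nat_lit 261) (nat_lit 195))) (XT.nd (nat_lit 78) (nat_lit 0) (nat_lit 0) (XT.lf (nat_lit 0) (nat_lit 8385879073) (nat_lit 988) (nat_lit 1645172392) (nat_lit 1064) (nat_lit 2944309953) (nat_lit 148) (nat_lit 5) (nat_lit 161) (nat_lit 5) (nat_lit 162) (nat_lit 5) (nat_lit 265) (nat_lit 261) (nat_lit 194)) (XT.nd (nat_lit 78) (nat_lit 0) (nat_lit 76) (XT.lf (nat_lit 76) (nat_lit 7426006061) (nat_lit 0) (nat_lit 2274867234) (nat_lit 1064) (nat_lit 3595959810) (nat_lit 149) (nat_lit 5) (nat_lit 148) (nat_lit 5) (nat_lit 162) (nat_lit 5) (nat_lit 266) (nat_lit 261) (nat_lit 193)) (XT.lf (nat_lit 76) (nat_lit 3333998858) (nat_lit 0) (nat_lit 7815562835) (nat_lit 1064) (nat_lit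 2482897094) (nat_lit 150) (nat_lit 5) (nat_lit 149) (nat_lit 5) (nat_lit 163) (nat_lit 5) (nat_lit 267) (nat_lit 261) (nat_lit 192))))))) (XT.nd (nat_lit 780) (nat_lit 2888) (nat_lit 0) (XT.nd (nat_lit 390) (nat_lit 2432) (nat_lit 0) (XT.nd (nat_lit 156) (nat_lit 0) (nat_lit 76) (XT.nd (nat_lit 78) (nat_lit 1064) (nat_lit 0) (XT.lf (nat_lit 0) (nat_lit 12721199610) (nat_lit 988) (nat_lit 913641569) (nat_lit 1064) (nat_lit 348622209) (nat_lit 150) (nat_lit 5) (nat_lit 163) (nat_lit 5) (nat_lit 164) (nat_lit 5) (nat_lit 268) (nat_lit 261) (nat_lit 191)) (XT.lf (nat_lit 0) (nat_lit 151479135) (nat_lit 1064) (nat_lit 5337315232) (nat_lit 1140) (nat_lit 8859349130) (nat_lit 136) (nat_lit 5) (nat_lit 150) (nat_lit 5) (nat_lit 151) (nat_lit 5) (nat_lit 269) (nat_lit 261) (nat_lit 190))) (XT.nd (nat_lit 78) (nat_lit 0) (nat_lit 0) (XT.lf (nat_lit 0) (nat_lit 1662374909) (nat_lit 1064) (nat_lit 9985222040)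 (nat_lit 1140) (nat_lit 3081608182) (nat_lit 137) (nat_lit 5) (nat_lit 151) (nat_lit 5) (nat_lit 152) (nat_lit 5) (nat_lit 270) (nat_lit 261) (nat_lit 189)) (XT.nd (nat_lit 78) (nat_lit 0) (nat_lit 76) (XT.lf (nat_lit 76) (nat_lit 236388246) (nat_lit 0) (nat_lit 3093726937) (nat_lit 1140) (nat_lit 11796860517) (nat_lit 138) (nat_lit 5) (nat_lit 137) (nat_lit 5) (nat_lit 152) (nat_lit 5) (nat_lit 271) (nat_lit 261) (nat_lit 188)) (XT.lf (nat_lit 0) (nat_lit 5211122518) (nat_lit 1064) (nat_lit 4447248319) (nat_lit 76) (nat_lit 5882457889) (nat_lit 138) (nat_lit 5) (nat_lit 152) (nat_lit 5) (nat_lit 139) (nat_lit 5) (nat_lit 272) (nat_lit 261) (nat_lit 187))))) (XT.nd (nat_lit 156) (nat_lit 988) (nat_lit 0) (XT.nd (nat_lit 78) (nat_lit 532) (nat_lit 0) (XT.lf (nat_lit 0) (nat_lit 6591054089) (nat_lit 1064) (nat_lit 660638439) (nat_lit 1140) (nat_lit 8721802533) (nat_lit 124) (nat_lit 5) (nat_lit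 138) (nat_lit 5) (nat_lit 139) (nat_lit 5) (nat_lit 273) (nat_lit 261) (nat_lit 186)) (XT.lf (nat_lit 0) (nat_lit 1772609291) (nat_lit 532) (nat_lit 7741543491) (nat_lit 608) (nat_lit 6910128010) (nat_lit 117) (nat_lit 5) (nat_lit 124) (nat_lit 5) (nat_lit 125) (nat_lit 5) (nat_lit 274) (nat_lit 261) (nat_lit 185))) (XT.nd (nat_lit 78) (nat_lit 988) (nat_lit 0) (XT.lf (nat_lit 0) (nat_lit 11982332345) (nat_lit 608) (nat_lit 3261040505) (nat_lit 76) (nat_lit 1651533099) (nat_lit 117) (nat_lit 5) (nat_lit 125) (nat_lit 5) (nat_lit 118) (nat_lit 5) (nat_lit 275) (nat_lit 261) (nat_lit 184)) (XT.nd (nat_lit 78) (nat_lit 532) (nat_lit 0) (XT.lf (nat_lit 0) (nat_lit 8768236021) (nat_lit 456) (nat_lit 5942625583) (nat_lit 532) (nat_lit 2674166853) (nat_lit 111) (nat_lit 5) (nat_lit 117) (nat_lit 5) (nat_lit 118) (nat_lit 5) (nat_lit 276) (nat_lit 261) (nat_lit 183)) (XT.lf (nat_lit 0) (nat_lit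 3577210606) (nat_lit 532) (nat_lit 14079166813) (nat_lit 608) (nat_lit 240933644) (nat_lit 104) (nat_lit 5) (nat_lit 111) (nat_lit 5) (nat_lit 112) (nat_lit 5) (nat_lit 277) (nat_lit 261) (nat_lit 182)))))) (XT.nd (nat_lit 390) (nat_lit 1520) (nat_lit 0) (XT.nd (nat_lit 156) (nat_lit 836) (nat_lit 0) (XT.nd (nat_lit 78) (nat_lit 456) (nat_lit 0) (XT.lf (nat_lit 0) (nat_lit 2394532279) (nat_lit 608) (nat_lit 1978504739) (nat_lit 76) (nat_lit 14057797183) (nat_lit 103) (nat_lit 5) (nat_lit 111) (nat_lit 5) (nat_lit 104) (nat_lit 5) (nat_lit 278) (nat_lit 261) (nat_lit 181)) (XT.lf (nat_lit 0) (nat_lit 5298553713) (nat_lit 532) (nat_lit 7872434193) (nat_lit 76) (nat_lit 5815783398) (nat_lit 97) (nat_lit 5) (nat_lit 104) (nat_lit 5) (nat_lit 98) (nat_lit 5) (nat_lit 279) (nat_lit 261) (nat_lit 180))) (XT.nd (nat_lit 78) (nat_lit 380) (nat_lit 0) (XT.lf (nat_lit 0) (nat_lit 5370976958) (nat_lit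 456) (nat_lit 3071301013) (nat_lit 532) (nat_lit 11125451596) (nat_lit 91) (nat_lit 5) (nat_lit 97) (nat_lit 5) (nat_lit 98) (nat_lit 5) (nat_lit 280) (nat_lit 261) (nat_lit 179)) (XT.nd (nat_lit 78) (nat_lit 380) (nat_lit 0) (XT.lf (nat_lit 0) (nat_lit 11876428432) (nat_lit 532) (nat_lit 830238669) (nat_lit 76) (nat_lit 7467127973) (nat_lit 91) (nat_lit 5) (nat_lit 98) (nat_lit 5) (nat_lit 92) (nat_lit 5) (nat_lit 281) (nat_lit 261) (nat_lit 178)) (XT.lf (nat_lit 0) (nat_lit 13413649463) (nat_lit 380) (nat_lit 2208559864) (nat_lit 456) (nat_lit 5183810682) (nat_lit 86) (nat_lit 5) (nat_lit 91) (nat_lit 5) (nat_lit 92) (nat_lit 5) (nat_lit 282) (nat_lit 261) (nat_lit 177))))) (XT.nd (nat_lit 234) (nat_lit 684) (nat_lit 0) (XT.nd (nat_lit 78) (nat_lit 456) (nat_lit 0) (XT.lf (nat_lit 0) (nat_lit 6946528493) (nat_lit 380) (nat_lit 12749602614) (nat_lit 456) (nat_lit 1769550803) (nat_lit 81)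 (nat_lit 5) (nat_lit 86) (nat_lit 5) (nat_lit 87) (nat_lit 5) (nat_lit 283) (nat_lit 261) (nat_lit 176)) (XT.nd (nat_lit 78) (nat_lit 380) (nat_lit 0) (XT.lf (nat_lit 0) (nat_lit 1860340022) (nat_lit 456) (nat_lit 61178929) (nat_lit 76) (nat_lit 20233921536) (nat_lit 80) (nat_lit 5) (nat_lit 86) (nat_lit 5) (nat_lit 81) (nat_lit 5) (nat_lit 284) (nat_lit 261) (nat_lit 175)) (XT.lf (nat_lit 0) (nat_lit 5857856574) (nat_lit 456) (nat_lit 7586217981) (nat_lit 76) (nat_lit 9428450137) (nat_lit 75) (nat_lit 5) (nat_lit 81) (nat_lit 5) (nat_lit 76) (nat_lit 5) (nat_lit 285) (nat_lit 261) (nat_lit 174)))) (XT.nd (nat_lit 78) (nat_lit 304) (nat_lit 0) (XT.lf (nat_lit 0) (nat_lit 7891170212) (nat_lit 380) (nat_lit 2242695690) (nat_lit 456) (nat_lit 13489281701) (nat_lit 70) (nat_lit 5) (nat_lit 75) (nat_lit 5) (nat_lit 76) (nat_lit 5) (nat_lit 286) (nat_lit 261) (nat_lit 173)) (XT.nd (nat_lit 78)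 (nat_lit 304) (nat_lit 0) (XT.lf (nat_lit 0) (nat_lit 14777375184) (nat_lit 456) (nat_lit 220614052) (nat_lit 76) (nat_lit 9408742393) (nat_lit 70) (nat_lit 5) (nat_lit 76) (nat_lit 5) (nat_lit 71) (nat_lit 5) (nat_lit 287) (nat_lit 261) (nat_lit 172)) (XT.lf (nat_lit 0) (nat_lit 16343225739) (nat_lit 304) (nat_lit 3473697817) (nat_lit 380) (nat_lit 5407694397) (nat_lit 66) (nat_lit 5) (nat_lit 70) (nat_lit 5) (nat_lit 71) (nat_lit 5) (nat_lit 288) (nat_lit 261) (nat_lit 171))))))))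
noncomputable def xc90 : XT := (XT.nd (nat_lit 1560) (nat_lit 1064) (nat_lit 0) (XT.nd (nat_lit 780) (nat_lit 1216) (nat_lit 0) (XT.nd (nat_lit 390) (nat_lit 836) (nat_lit 0) (XT.nd (nat_lit 156) (nat_lit 608) (nat_lit 0) (XT.nd (nat_lit 78) (nat_lit 76) (nat_lit 0) (XT.lf (nat_lit 0) (nat_lit 7704656319) (nat_lit 304) (nat_lit 17547742249) (nat_lit 380) (nat_lit 826718698) (nat_lit 62) (nat_lit 5) (nat_lit 66) (nat_lit 5) (nat_lit 67) (nat_lit 5) (nat_lit 289) (nat_lit 261) (nat_lit 170)) (XT.lf (nat_lit 0) (nat_lit 4018006065) (nat_lit 380) (nat_lit 1761309986) (nat_lit 76) (nat_lit 21192538273) (nat_lit 61) (nat_lit 5) (nat_lit 66) (nat_lit 5) (nat_lit 62) (nat_lit 5) (nat_lit 290) (nat_lit 261) (nat_lit 169))) (XT.nd (nat_lit 78) (nat_lit 304) (nat_lit 0) (XT.lf (nat_lit 0) (nat_lit 9292059810) (nat_lit 380) (nat_lit 12002036028) (nat_lit 76) (nat_lit 6608793834) (nat_lit 57) (nat_lit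 5) (nat_lit 62) (nat_lit 5) (nat_lit 58) (nat_lit 5) (nat_lit 291) (nat_lit 261) (nat_lit 168)) (XT.nd (nat_lit 78) (nat_lit 0) (nat_lit 0) (XT.lf (nat_lit 0) (nat_lit 5636438777) (nat_lit 304) (nat_lit 9310422093) (nat_lit 380) (nat_lit 13930135735) (nat_lit 53) (nat_lit 5) (nat_lit 57) (nat_lit 5) (nat_lit 58) (nat_lit 5) (nat_lit 292) (nat_lit 261) (nat_lit 167)) (XT.lf (nat_lit 0) (nat_lit 21027300422) (nat_lit 380) (nat_lit 5539044193) (nat_lit 76) (nat_lit 3329206986) (nat_lit 53) (nat_lit 5) (nat_lit 58) (nat_lit 5) (nat_lit 54) (nat_lit 5) (nat_lit 293) (nat_lit 261) (nat_lit 166))))) (XT.nd (nat_lit 156) (nat_lit 228) (nat_lit 0) (XT.nd (nat_lit 78) (nat_lit 380) (nat_lit 0) (XT.lf (nat_lit 0) (nat_lit 13193981084) (nat_lit 228) (nat_lit 14425884828) (nat_lit 304) (nat_lit 3338953576) (nat_lit 50) (nat_lit 5) (nat_lit 53) (nat_lit 5) (nat_lit 54) (nat_lit 5) (nat_lit 294) (nat_lit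 261) (nat_lit 165)) (XT.lf (nat_lit 0) (nat_lit 881962574) (nat_lit 304) (nat_lit 1590372786) (nat_lit 380) (nat_lit 29600620279) (nat_lit 45) (nat_lit 5) (nat_lit 49) (nat_lit 5) (nat_lit 50) (nat_lit 5) (nat_lit 295) (nat_lit 261) (nat_lit 164))) (XT.nd (nat_lit 78) (nat_lit 228) (nat_lit 0) (XT.lf (nat_lit 0) (nat_lit 8792715974) (nat_lit 380) (nat_lit 12571448581) (nat_lit 76) (nat_lit 11869039703) (nat_lit 45) (nat_lit 5) (nat_lit 50) (nat_lit 5) (nat_lit 46) (nat_lit 5) (nat_lit 296) (nat_lit 261) (nat_lit 163)) (XT.nd (nat_lit 78) (nat_lit 0) (nat_lit 0) (XT.lf (nat_lit 0) (nat_lit 7085380629) (nat_lit 228) (nat_lit 8416459572) (nat_lit 304) (nat_lit 18947467070) (nat_lit 42) (nat_lit 5) (nat_lit 45) (nat_lit 5) (nat_lit 46) (nat_lit 5) (nat_lit 297) (nat_lit 261) (nat_lit 162)) (XT.lf (nat_lit 0) (nat_lit 22715811402) (nat_lit 304) (nat_lit 7801394333) (nat_lit 76) (nat_lit 5203950547)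 (nat_lit 42) (nat_lit 5) (nat_lit 46) (nat_lit 5) (nat_lit 43) (nat_lit 5) (nat_lit 298) (nat_lit 261) (nat_lit 161)))))) (XT.nd (nat_lit 390) (nat_lit 456) (nat_lit 0) (XT.nd (nat_lit 156) (nat_lit 456) (nat_lit 0) (XT.nd (nat_lit 78) (nat_lit 76) (nat_lit 0) (XT.lf (nat_lit 0) (nat_lit 12890855206) (nat_lit 228) (nat_lit 17597935174) (nat_lit 304) (nat_lit 6561879583) (nat_lit 39) (nat_lit 5) (nat_lit 42) (nat_lit 5) (nat_lit 43) (nat_lit 5) (nat_lit 299) (nat_lit 261) (nat_lit 160)) (XT.lf (nat_lit 0) (nat_lit 270573082) (nat_lit 304) (nat_lit 3681062441) (nat_lit 76) (nat_lit 34492861218) (nat_lit 38) (nat_lit 5) (nat_lit 42) (nat_lit 5) (nat_lit 39) (nat_lit 5) (nat_lit 300) (nat_lit 261) (nat_lit 159))) (XT.nd (nat_lit 78) (nat_lit 228) (nat_lit 0) (XT.lf (nat_lit 0) (nat_lit 7576398829) (nat_lit 304) (nat_lit 21908823795) (nat_lit 76) (nat_lit 10412838285) (nat_lit 35) (nat_lit 5)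 (nat_lit 39) (nat_lit 5) (nat_lit 36) (nat_lit 5) (nat_lit 301) (nat_lit 261) (nat_lit 158)) (XT.nd (nat_lit 78) (nat_lit 228) (nat_lit 0) (XT.lf (nat_lit 0) (nat_lit 15316142500) (nat_lit 304) (nat_lit 657406679) (nat_lit 76) (nat_lit 25448713334) (nat_lit 35) (nat_lit 5) (nat_lit 39) (nat_lit 5) (nat_lit 36) (nat_lit 5) (nat_lit 302) (nat_lit 261) (nat_lit 157)) (XT.lf (nat_lit 0) (nat_lit 22074034524) (nat_lit 228) (nat_lit 1571954956) (nat_lit 304) (nat_lit 19370608406) (nat_lit 32) (nat_lit 5) (nat_lit 35) (nat_lit 5) (nat_lit 36) (nat_lit 5) (nat_lit 303) (nat_lit 261) (nat_lit 156))))) (XT.nd (nat_lit 156) (nat_lit 304) (nat_lit 0) (XT.nd (nat_lit 78) (nat_lit 0) (nat_lit 0) (XT.lf (nat_lit 0) (nat_lit 1144201779) (nat_lit 152) (nat_lit 31387403523) (nat_lit 228) (nat_lit 12154882782) (nat_lit 30) (nat_lit 5) (nat_lit 32) (nat_lit 5) (nat_lit 33) (nat_lit 5) (nat_lit 304) (nat_lit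 261) (nat_lit 155)) (XT.lf (nat_lit 0) (nat_lit 24743989009) (nat_lit 152) (nat_lit 17340300307) (nat_lit 228) (nat_lit 4348915427) (nat_lit 30) (nat_lit 5) (nat_lit 32) (nat_lit 5) (nat_lit 33) (nat_lit 5) (nat_lit 305) (nat_lit 261) (nat_lit 154))) (XT.nd (nat_lit 78) (nat_lit 0) (nat_lit 0) (XT.lf (nat_lit 0) (nat_lit 1231208989) (nat_lit 228) (nat_lit 2544702782) (nat_lit 304) (nat_lit 44490141258) (nat_lit 26) (nat_lit 5) (nat_lit 29) (nat_lit 5) (nat_lit 30) (nat_lit 5) (nat_lit 306) (nat_lit 261) (nat_lit 153)) (XT.nd (nat_lit 78) (nat_lit 0) (nat_lit 0) (XT.lf (nat_lit 0) (nat_lit 12560268512) (nat_lit 304) (nat_lit 24616129565) (nat_lit 76) (nat_lit 13002570698) (nat_lit 26) (nat_lit 5) (nat_lit 30) (nat_lit 5) (nat_lit 27) (nat_lit 5) (nat_lit 307) (nat_lit 261) (nat_lit 152)) (XT.lf (nat_lit 0) (nat_lit 21801944607) (nat_lit 304) (nat_lit 1113782874) (nat_lit 76) (nat_lit 29271272843)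 (nat_lit 26) (nat_lit 5) (nat_lit 30) (nat_lit 5) (nat_lit 27) (nat_lit 5) (nat_lit 308) (nat_lit 261) (nat_lit 151))))))) (XT.nd (nat_lit 780) (nat_lit 304) (nat_lit 0) (XT.nd (nat_lit 390) (nat_lit 228) (nat_lit 0) (XT.nd (nat_lit 156) (nat_lit 380) (nat_lit 0) (XT.nd (nat_lit 78) (nat_lit 0) (nat_lit 0) (XT.lf (nat_lit 0) (nat_lit 24021358466) (nat_lit 152) (nat_lit 7708032334) (nat_lit 228) (nat_lit 22559344500) (nat_lit 24) (nat_lit 5) (nat_lit 26) (nat_lit 5) (nat_lit 27) (nat_lit 5) (nat_lit 309) (nat_lit 261) (nat_lit 150)) (XT.lf (nat_lit 0) (nat_lit 42237171517) (nat_lit 228) (nat_lit 6149129326) (nat_lit 76) (nat_lit 8106749163) (nat_lit 24) (nat_lit 5) (nat_lit 27) (nat_lit 5) (nat_lit 25) (nat_lit 5) (nat_lit 310) (nat_lit 261) (nat_lit 149))) (XT.nd (nat_lit 78) (nat_lit 228) (nat_lit 0) (XT.lf (nat_lit 0) (nat_lit 19466683513) (nat_lit 152) (nat_lit 34061899276) (nat_lit 228)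 (nat_lit 5271261695) (nat_lit 22) (nat_lit 5) (nat_lit 24) (nat_lit 5) (nat_lit 25) (nat_lit 5) (nat_lit 311) (nat_lit 261) (nat_lit 148)) (XT.nd (nat_lit 78) (nat_lit 152) (nat_lit 0) (XT.lf (nat_lit 0) (nat_lit 4138748799) (nat_lit 228) (nat_lit 14779189185) (nat_lit 76) (nat_lit 42301129038) (nat_lit 21) (nat_lit 5) (nat_lit 24) (nat_lit 5) (nat_lit 22) (nat_lit 5) (nat_lit 312) (nat_lit 261) (nat_lit 147)) (XT.lf (nat_lit 0) (nat_lit 11157227959) (nat_lit 152) (nat_lit 2855052175) (nat_lit 228) (nat_lit 49742353625) (nat_lit 19) (nat_lit 5) (nat_lit 21) (nat_lit 5) (nat_lit 22) (nat_lit 5) (nat_lit 313) (nat_lit 261) (nat_lit 146))))) (XT.nd (nat_lit 156) (nat_lit 228) (nat_lit 0) (XT.nd (nat_lit 78) (nat_lit 0) (nat_lit 0) (XT.lf (nat_lit 0) (nat_lit 24661761680) (nat_lit 228) (nat_lit 27858939131) (nat_lit 76) (nat_lit 13887819276) (nat_lit 19) (nat_lit 5) (nat_lit 22) (nat_lit 5)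 (nat_lit 20) (nat_lit 5) (nat_lit 314) (nat_lit 261) (nat_lit 145)) (XT.lf (nat_lit 0) (nat_lit 35866768811) (nat_lit 228) (nat_lit 1921550235) (nat_lit 76) (nat_lit 31406099150) (nat_lit 19) (nat_lit 5) (nat_lit 22) (nat_lit 5) (nat_lit 20) (nat_lit 5) (nat_lit 315) (nat_lit 261) (nat_lit 144))) (XT.nd (nat_lit 78) (nat_lit 76) (nat_lit 0) (XT.lf (nat_lit 0) (nat_lit 25807559523) (nat_lit 152) (nat_lit 22067054136) (nat_lit 228) (nat_lit 24237728516) (nat_lit 17) (nat_lit 5) (nat_lit 19) (nat_lit 5) (nat_lit 20) (nat_lit 5) (nat_lit 316) (nat_lit 261) (nat_lit 143)) (XT.nd (nat_lit 78) (nat_lit 76) (nat_lit 0) (XT.lf (nat_lit 0) (nat_lit 54954783228) (nat_lit 152) (nat_lit 5542537286) (nat_lit 228) (nat_lit 14678415919) (nat_lit 17) (nat_lit 5) (nat_lit 19) (nat_lit 5) (nat_lit 20) (nat_lit 5) (nat_lit 317) (nat_lit 261) (nat_lit 142)) (XT.lf (nat_lit 0) (nat_lit 7185553990) (nat_lit 76)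 (nat_lit 66743101195) (nat_lit 152) (nat_lit 4458328229) (nat_lit 16) (nat_lit 5) (nat_lit 17) (nat_lit 5) (nat_lit 18) (nat_lit 4) (nat_lit 318) (nat_lit 261) (nat_lit 141)))))) (XT.nd (nat_lit 390) (nat_lit 76) (nat_lit 0) (XT.nd (nat_lit 156) (nat_lit 152) (nat_lit 0) (XT.nd (nat_lit 78) (nat_lit 0) (nat_lit 0) (XT.lf (nat_lit 0) (nat_lit 6411541945) (nat_lit 152) (nat_lit 45493996468) (nat_lit 76) (nat_lit 29843617132) (nat_lit 15) (nat_lit 5) (nat_lit 17) (nat_lit 5) (nat_lit 16) (nat_lit 5) (nat_lit 319) (nat_lit 261) (nat_lit 140)) (XT.lf (nat_lit 0) (nat_lit 17728817032) (nat_lit 152) (nat_lit 18553898136) (nat_lit 76) (nat_lit 48995520221) (nat_lit 15) (nat_lit 5) (nat_lit 17) (nat_lit 5) (nat_lit 16) (nat_lit 5) (nat_lit 320) (nat_lit 261) (nat_lit 139))) (XT.nd (nat_lit 78) (nat_lit 0) (nat_lit 0) (XT.lf (nat_lit 0) (nat_lit 9919428623) (nat_lit 152) (nat_lit 19783363959) (nat_lit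 228) (nat_lit 59278258068) (nat_lit 13) (nat_lit 5) (nat_lit 15) (nat_lit 5) (nat_lit 16) (nat_lit 5) (nat_lit 321) (nat_lit 261) (nat_lit 138)) (XT.nd (nat_lit 78) (nat_lit 0) (nat_lit 0) (XT.lf (nat_lit 0) (nat_lit 40197013757) (nat_lit 152) (nat_lit 2265080715) (nat_lit 228) (nat_lit 50401319595) (nat_lit 13) (nat_lit 5) (nat_lit 15) (nat_lit 5) (nat_lit 16) (nat_lit 5) (nat_lit 322) (nat_lit 261) (nat_lit 137)) (XT.lf (nat_lit 0) (nat_lit 56010218688) (nat_lit 228) (nat_lit 25113356245) (nat_lit 76) (nat_lit 15811800928) (nat_lit 13) (nat_lit 5) (nat_lit 16) (nat_lit 5) (nat_lit 14) (nat_lit 4) (nat_lit 323) (nat_lit 261) (nat_lit 136))))) (XT.nd (nat_lit 32760) (nat_lit 0) (nat_lit 10184) (XT.nd (nat_lit 78) (nat_lit 0) (nat_lit 0) (XT.lf (nat_lit 0) (nat_lit 3863297434) (nat_lit 76) (nat_lit 66428463677) (nat_lit 152) (nat_lit 30917499912) (nat_lit 12) (nat_lit 5) (nat_lit 13) (nat_lit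 5) (nat_lit 14) (nat_lit 4) (nat_lit 324) (nat_lit 261) (nat_lit 135)) (XT.nd (nat_lit 32604) (nat_lit 0) (nat_lit 10184) (XT.lf (nat_lit 0) (nat_lit 34807199905) (nat_lit 76) (nat_lit 50734842715) (nat_lit 152) (nat_lit 20147163336) (nat_lit 12) (nat_lit 5) (nat_lit 13) (nat_lit 5) (nat_lit 14) (nat_lit 4) (nat_lit 325) (nat_lit 261) (nat_lit 134)) (XT.lf (nat_lit 0) (nat_lit 1482399777) (nat_lit 0) (nat_lit 1482399777) (nat_lit 988) (nat_lit 3216904702) (nat_lit 146) (nat_lit 5) (nat_lit 146) (nat_lit 3) (nat_lit 159) (nat_lit 3) (nat_lit 262) (nat_lit 262) (nat_lit 196)))) (XT.nd (nat_lit 78) (nat_lit 0) (nat_lit 0) (XT.lf (nat_lit 0) (nat_lit 6771007988) (nat_lit 988) (nat_lit 1221697865) (nat_lit 1064) (nat_lit 4656947660) (nat_lit 146) (nat_lit 5) (nat_lit 159) (nat_lit 3) (nat_lit 160) (nat_lit 5) (nat_lit 263) (nat_lit 262) (nat_lit 195)) (XT.nd (nat_lit 78) (nat_lit 0) (nat_lit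 76) (XT.lf (nat_lit 76) (nat_lit 7457356179) (nat_lit 0) (nat_lit 257490565) (nat_lit 1064) (nat_lit 5233684151) (nat_lit 147) (nat_lit 5) (nat_lit 146) (nat_lit 5) (nat_lit 160) (nat_lit 5) (nat_lit 264) (nat_lit 262) (nat_lit 194)) (XT.lf (nat_lit 76) (nat_lit 3299439342) (nat_lit 0) (nat_lit 5487131225) (nat_lit 1064) (nat_lit 4473485464) (nat_lit 148) (nat_lit 5) (nat_lit 147) (nat_lit 5) (nat_lit 161) (nat_lit 5) (nat_lit 265) (nat_lit 262) (nat_lit 193))))))))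
noncomputable def xc91 : XT := (XT.nd (nat_lit 1638) (nat_lit 3724) (nat_lit 0) (XT.nd (nat_lit 780) (nat_lit 3192) (nat_lit 0) (XT.nd (nat_lit 390) (nat_lit 1444) (nat_lit 0) (XT.nd (nat_lit 156) (nat_lit 912) (nat_lit 0) (XT.nd (nat_lit 78) (nat_lit 0) (nat_lit 0) (XT.lf (nat_lit 0) (nat_lit 9959133508) (nat_lit 988) (nat_lit 993245200) (nat_lit 1064) (nat_lit 2633479873) (nat_lit 148) (nat_lit 5) (nat_lit 161) (nat_lit 5) (nat_lit 162) (nat_lit 5) (nat_lit 266) (nat_lit 262) (nat_lit 192)) (XT.lf (nat_lit 76) (nat_lit 8510446886) (nat_lit 0) (nat_lit 2781335198) (nat_lit 1064) (nat_lit 2633238537) (nat_lit 149) (nat_lit 5) (nat_lit 148) (nat_lit 5) (nat_lit 162) (nat_lit 5) (nat_lit 267) (nat_lit 262) (nat_lit 191))) (XT.nd (nat_lit 78) (nat_lit 988) (nat_lit 0) (XT.lf (nat_lit 76) (nat_lit 4232667644) (nat_lit 0) (nat_lit 8531017805) (nat_lit 1064) (nat_lit 1515384350) (nat_lit 150)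 (nat_lit 5) (nat_lit 149) (nat_lit 5) (nat_lit 163) (nat_lit 5) (nat_lit 268) (nat_lit 262) (nat_lit 190)) (XT.nd (nat_lit 78) (nat_lit 1064) (nat_lit 0) (XT.lf (nat_lit 0) (nat_lit 14360616428) (nat_lit 988) (nat_lit 225893397) (nat_lit 1064) (nat_lit 62871211) (nat_lit 150) (nat_lit 5) (nat_lit 163) (nat_lit 5) (nat_lit 164) (nat_lit 5) (nat_lit 269) (nat_lit 262) (nat_lit 189)) (XT.lf (nat_lit 0) (nat_lit 1133954047) (nat_lit 1064) (nat_lit 4869454859) (nat_lit 1140) (nat_lit 9029977663) (nat_lit 136) (nat_lit 5) (nat_lit 150) (nat_lit 5) (nat_lit 151) (nat_lit 5) (nat_lit 270) (nat_lit 262) (nat_lit 188))))) (XT.nd (nat_lit 156) (nat_lit 1520) (nat_lit 0) (XT.nd (nat_lit 78) (nat_lit 0) (nat_lit 0) (XT.lf (nat_lit 0) (nat_lit 2678700096) (nat_lit 1064) (nat_lit 9737848654) (nat_lit 1140) (nat_lit 3018342278) (nat_lit 137) (nat_lit 5) (nat_lit 151) (nat_lit 5) (nat_lit 152) (nat_lit 5)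 (nat_lit 271) (nat_lit 262) (nat_lit 187)) (XT.lf (nat_lit 76) (nat_lit 973440019) (nat_lit 0) (nat_lit 3418920341) (nat_lit 1140) (nat_lit 11461446071) (nat_lit 138) (nat_lit 5) (nat_lit 137) (nat_lit 5) (nat_lit 152) (nat_lit 5) (nat_lit 272) (nat_lit 262) (nat_lit 186))) (XT.nd (nat_lit 78) (nat_lit 1596) (nat_lit 0) (XT.lf (nat_lit 0) (nat_lit 6323202834) (nat_lit 1064) (nat_lit 3949239846) (nat_lit 76) (nat_lit 6017361878) (nat_lit 138) (nat_lit 5) (nat_lit 152) (nat_lit 5) (nat_lit 139) (nat_lit 5) (nat_lit 273) (nat_lit 262) (nat_lit 185)) (XT.nd (nat_lit 78) (nat_lit 532) (nat_lit 0) (XT.lf (nat_lit 0) (nat_lit 7620328395) (nat_lit 1064) (nat_lit 811650330) (nat_lit 1140) (nat_lit 8313260158) (nat_lit 124) (nat_lit 5) (nat_lit 138) (nat_lit 5) (nat_lit 139) (nat_lit 5) (nat_lit 274) (nat_lit 262) (nat_lit 184)) (XT.lf (nat_lit 0) (nat_lit 2568164526) (nat_lit 532) (nat_lit 8206174597)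 (nat_lit 608) (nat_lit 6445335742) (nat_lit 117) (nat_lit 5) (nat_lit 124) (nat_lit 5) (nat_lit 125) (nat_lit 5) (nat_lit 275) (nat_lit 262) (nat_lit 183)))))) (XT.nd (nat_lit 390) (nat_lit 1672) (nat_lit 0) (XT.nd (nat_lit 156) (nat_lit 1064) (nat_lit 0) (XT.nd (nat_lit 78) (nat_lit 456) (nat_lit 0) (XT.lf (nat_lit 0) (nat_lit 13327861541) (nat_lit 608) (nat_lit 2725530404) (nat_lit 76) (nat_lit 1661690158) (nat_lit 117) (nat_lit 5) (nat_lit 125) (nat_lit 5) (nat_lit 118) (nat_lit 5) (nat_lit 276) (nat_lit 262) (nat_lit 182)) (XT.lf (nat_lit 0) (nat_lit 9885185804) (nat_lit 456) (nat_lit 6278610524) (nat_lit 532) (nat_lit 2066888692) (nat_lit 111) (nat_lit 5) (nat_lit 117) (nat_lit 5) (nat_lit 118) (nat_lit 5) (nat_lit 277) (nat_lit 262) (nat_lit 181))) (XT.nd (nat_lit 78) (nat_lit 456) (nat_lit 0) (XT.lf (nat_lit 0) (nat_lit 450151957) (nat_lit 608) (nat_lit 14335492206) (nat_lit 76) (nat_lit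 3983742650) (nat_lit 103) (nat_lit 5) (nat_lit 111) (nat_lit 5) (nat_lit 104) (nat_lit 5) (nat_lit 278) (nat_lit 262) (nat_lit 180)) (XT.nd (nat_lit 78) (nat_lit 456) (nat_lit 0) (XT.lf (nat_lit 0) (nat_lit 3179207205) (nat_lit 608) (nat_lit 1412495240) (nat_lit 76) (nat_lit 14738899413) (nat_lit 103) (nat_lit 5) (nat_lit 111) (nat_lit 5) (nat_lit 104) (nat_lit 5) (nat_lit 279) (nat_lit 262) (nat_lit 179)) (XT.lf (nat_lit 0) (nat_lit 6203035393) (nat_lit 532) (nat_lit 7599319284) (nat_lit 76) (nat_lit 6112829902) (nat_lit 97) (nat_lit 5) (nat_lit 104) (nat_lit 5) (nat_lit 98) (nat_lit 5) (nat_lit 280) (nat_lit 262) (nat_lit 178))))) (XT.nd (nat_lit 234) (nat_lit 836) (nat_lit 0) (XT.nd (nat_lit 78) (nat_lit 380) (nat_lit 0) (XT.lf (nat_lit 0) (nat_lit 6287150553) (nat_lit 456) (nat_lit 3192565724) (nat_lit 532) (nat_lit 11046284160) (nat_lit 91) (nat_lit 5) (nat_lit 97) (nat_lit 5) (nat_lit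 98) (nat_lit 5) (nat_lit 281) (nat_lit 262) (nat_lit 177)) (XT.nd (nat_lit 78) (nat_lit 380) (nat_lit 0) (XT.lf (nat_lit 0) (nat_lit 13056568804) (nat_lit 532) (nat_lit 236103112) (nat_lit 76) (nat_lit 7870646319) (nat_lit 91) (nat_lit 5) (nat_lit 98) (nat_lit 5) (nat_lit 92) (nat_lit 5) (nat_lit 282) (nat_lit 262) (nat_lit 176)) (XT.lf (nat_lit 0) (nat_lit 14701758719) (nat_lit 380) (nat_lit 2265895158) (nat_lit 456) (nat_lit 4860235181) (nat_lit 86) (nat_lit 5) (nat_lit 91) (nat_lit 5) (nat_lit 92) (nat_lit 5) (nat_lit 283) (nat_lit 262) (nat_lit 175)))) (XT.nd (nat_lit 78) (nat_lit 456) (nat_lit 0) (XT.lf (nat_lit 0) (nat_lit 7910991159) (nat_lit 380) (nat_lit 13313825884) (nat_lit 456) (nat_lit 1296402174) (nat_lit 81) (nat_lit 5) (nat_lit 86) (nat_lit 5) (nat_lit 87) (nat_lit 5) (nat_lit 284) (nat_lit 262) (nat_lit 174)) (XT.nd (nat_lit 78) (nat_lit 0) (nat_lit 0) (XT.lf (nat_lit 0)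 (nat_lit 545923958) (nat_lit 380) (nat_lit 1937125411) (nat_lit 456) (nat_lit 20762949758) (nat_lit 75) (nat_lit 5) (nat_lit 80) (nat_lit 5) (nat_lit 81) (nat_lit 5) (nat_lit 285) (nat_lit 262) (nat_lit 173)) (XT.lf (nat_lit 0) (nat_lit 6656560723) (nat_lit 456) (nat_lit 7367535722) (nat_lit 76) (nat_lit 9975620509) (nat_lit 75) (nat_lit 5) (nat_lit 81) (nat_lit 5) (nat_lit 76) (nat_lit 5) (nat_lit 286) (nat_lit 262) (nat_lit 172))))))) (XT.nd (nat_lit 780) (nat_lit 1444) (nat_lit 0) (XT.nd (nat_lit 390) (nat_lit 1216) (nat_lit 0) (XT.nd (nat_lit 156) (nat_lit 380) (nat_lit 0) (XT.nd (nat_lit 78) (nat_lit 304) (nat_lit 0) (XT.lf (nat_lit 0) (nat_lit 8866580527) (nat_lit 380) (nat_lit 2261287240) (nat_lit 456) (nat_lit 13660618308) (nat_lit 70) (nat_lit 5) (nat_lit 75) (nat_lit 5) (nat_lit 76) (nat_lit 5) (nat_lit 287) (nat_lit 262) (nat_lit 171)) (XT.lf (nat_lit 0) (nat_lit 342438906) (nat_lit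 304) (nat_lit 15642056545) (nat_lit 380) (nat_lit 9627382690) (nat_lit 66) (nat_lit 5) (nat_lit 70) (nat_lit 5) (nat_lit 71) (nat_lit 5) (nat_lit 288) (nat_lit 262) (nat_lit 170))) (XT.nd (nat_lit 78) (nat_lit 380) (nat_lit 0) (XT.lf (nat_lit 0) (nat_lit 17711524023) (nat_lit 304) (nat_lit 3544362411) (nat_lit 380) (nat_lit 5215430797) (nat_lit 66) (nat_lit 5) (nat_lit 70) (nat_lit 5) (nat_lit 71) (nat_lit 5) (nat_lit 289) (nat_lit 262) (nat_lit 169)) (XT.nd (nat_lit 78) (nat_lit 76) (nat_lit 0) (XT.lf (nat_lit 0) (nat_lit 8638381067) (nat_lit 304) (nat_lit 18309630816) (nat_lit 380) (nat_lit 421035141) (nat_lit 62) (nat_lit 5) (nat_lit 66) (nat_lit 5) (nat_lit 67) (nat_lit 5) (nat_lit 290) (nat_lit 262) (nat_lit 168)) (XT.lf (nat_lit 0) (nat_lit 4636331637) (nat_lit 380) (nat_lit 1317736426) (nat_lit 76) (nat_lit 22352898010) (nat_lit 61) (nat_lit 5) (nat_lit 66) (nat_lit 5) (nat_lit 62)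 (nat_lit 5) (nat_lit 291) (nat_lit 262) (nat_lit 167))))) (XT.nd (nat_lit 156) (nat_lit 608) (nat_lit 0) (XT.nd (nat_lit 78) (nat_lit 304) (nat_lit 0) (XT.lf (nat_lit 0) (nat_lit 10160269386) (nat_lit 380) (nat_lit 12073844921) (nat_lit 76) (nat_lit 7050899071) (nat_lit 57) (nat_lit 5) (nat_lit 62) (nat_lit 5) (nat_lit 58) (nat_lit 5) (nat_lit 292) (nat_lit 262) (nat_lit 166)) (XT.lf (nat_lit 0) (nat_lit 6431410213) (nat_lit 304) (nat_lit 9652113631) (nat_lit 380) (nat_lit 14224773869) (nat_lit 53) (nat_lit 5) (nat_lit 57) (nat_lit 5) (nat_lit 58) (nat_lit 5) (nat_lit 293) (nat_lit 262) (nat_lit 165))) (XT.nd (nat_lit 78) (nat_lit 608) (nat_lit 0) (XT.lf (nat_lit 0) (nat_lit 22450579972) (nat_lit 380) (nat_lit 5316465075) (nat_lit 76) (nat_lit 3611298960) (nat_lit 53) (nat_lit 5) (nat_lit 58) (nat_lit 5) (nat_lit 54) (nat_lit 5) (nat_lit 294) (nat_lit 262) (nat_lit 164)) (XT.nd (nat_lit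 78) (nat_lit 380) (nat_lit 0) (XT.lf (nat_lit 0) (nat_lit 14338892501) (nat_lit 228) (nat_lit 15020835179) (nat_lit 304) (nat_lit 3135478407) (nat_lit 50) (nat_lit 5) (nat_lit 53) (nat_lit 5) (nat_lit 54) (nat_lit 5) (nat_lit 295) (nat_lit 262) (nat_lit 163)) (XT.lf (nat_lit 0) (nat_lit 1405129059) (nat_lit 304) (nat_lit 1541327752) (nat_lit 380) (nat_lit 30718902555) (nat_lit 45) (nat_lit 5) (nat_lit 49) (nat_lit 5) (nat_lit 50) (nat_lit 5) (nat_lit 296) (nat_lit 262) (nat_lit 162)))))) (XT.nd (nat_lit 390) (nat_lit 912) (nat_lit 0) (XT.nd (nat_lit 156) (nat_lit 304) (nat_lit 0) (XT.nd (nat_lit 78) (nat_lit 228) (nat_lit 0) (XT.lf (nat_lit 0) (nat_lit 9567342740) (nat_lit 380) (nat_lit 12734233793) (nat_lit 76) (nat_lit 12582544005) (nat_lit 45) (nat_lit 5) (nat_lit 50) (nat_lit 5) (nat_lit 46) (nat_lit 5) (nat_lit 297) (nat_lit 262) (nat_lit 161)) (XT.lf (nat_lit 0) (nat_lit 7892085181)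 (nat_lit 228) (nat_lit 8708235133) (nat_lit 304) (nat_lit 19561089530) (nat_lit 42) (nat_lit 5) (nat_lit 45) (nat_lit 5) (nat_lit 46) (nat_lit 5) (nat_lit 298) (nat_lit 262) (nat_lit 160))) (XT.nd (nat_lit 78) (nat_lit 304) (nat_lit 0) (XT.lf (nat_lit 0) (nat_lit 24160772054) (nat_lit 304) (nat_lit 7751885166) (nat_lit 76) (nat_lit 5584652110) (nat_lit 42) (nat_lit 5) (nat_lit 46) (nat_lit 5) (nat_lit 43) (nat_lit 5) (nat_lit 299) (nat_lit 262) (nat_lit 159)) (XT.nd (nat_lit 78) (nat_lit 76) (nat_lit 0) (XT.lf (nat_lit 0) (nat_lit 13962376410) (nat_lit 228) (nat_lit 18349405564) (nat_lit 304) (nat_lit 6581865245) (nat_lit 39) (nat_lit 5) (nat_lit 42) (nat_lit 5) (nat_lit 43) (nat_lit 5) (nat_lit 300) (nat_lit 262) (nat_lit 158)) (XT.lf (nat_lit 0) (nat_lit 571812226) (nat_lit 304) (nat_lit 3452188934) (nat_lit 76) (nat_lit 36333534614) (nat_lit 38) (nat_lit 5) (nat_lit 42) (nat_lit 5) (nat_lit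 39) (nat_lit 5) (nat_lit 301) (nat_lit 262) (nat_lit 157))))) (XT.nd (nat_lit 234) (nat_lit 456) (nat_lit 0) (XT.nd (nat_lit 78) (nat_lit 228) (nat_lit 0) (XT.lf (nat_lit 0) (nat_lit 8234268795) (nat_lit 304) (nat_lit 22595495275) (nat_lit 76) (nat_lit 11054300298) (nat_lit 35) (nat_lit 5) (nat_lit 39) (nat_lit 5) (nat_lit 36) (nat_lit 5) (nat_lit 302) (nat_lit 262) (nat_lit 156)) (XT.nd (nat_lit 78) (nat_lit 228) (nat_lit 0) (XT.lf (nat_lit 0) (nat_lit 16347711554) (nat_lit 304) (nat_lit 300972528) (nat_lit 76) (nat_lit 26836215762) (nat_lit 35) (nat_lit 5) (nat_lit 39) (nat_lit 5) (nat_lit 36) (nat_lit 5) (nat_lit 303) (nat_lit 262) (nat_lit 155)) (XT.lf (nat_lit 0) (nat_lit 23555881400) (nat_lit 228) (nat_lit 1529149115) (nat_lit 304) (nat_lit 20074216029) (nat_lit 32) (nat_lit 5) (nat_lit 35) (nat_lit 5) (nat_lit 36) (nat_lit 5) (nat_lit 304) (nat_lit 262) (nat_lit 154)))) (XT.nd (nat_lit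 78) (nat_lit 304) (nat_lit 0) (XT.lf (nat_lit 0) (nat_lit 1575530732) (nat_lit 152) (nat_lit 32831878301) (nat_lit 228) (nat_lit 12505470571) (nat_lit 30) (nat_lit 5) (nat_lit 32) (nat_lit 5) (nat_lit 33) (nat_lit 5) (nat_lit 305) (nat_lit 262) (nat_lit 153)) (XT.nd (nat_lit 78) (nat_lit 304) (nat_lit 0) (XT.lf (nat_lit 0) (nat_lit 26337492139) (nat_lit 152) (nat_lit 18088367324) (nat_lit 228) (nat_lit 4321450390) (nat_lit 30) (nat_lit 5) (nat_lit 32) (nat_lit 5) (nat_lit 33) (nat_lit 5) (nat_lit 306) (nat_lit 262) (nat_lit 152)) (XT.lf (nat_lit 0) (nat_lit 1643911557) (nat_lit 228) (nat_lit 2552868069) (nat_lit 304) (nat_lit 46475212170) (nat_lit 26) (nat_lit 5) (nat_lit 29) (nat_lit 5) (nat_lit 30) (nat_lit 5) (nat_lit 307) (nat_lit 262) (nat_lit 151))))))))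
noncomputable def xc92 : XT := (XT.nd (nat_lit 34164) (nat_lit 0) (nat_lit 5244) (XT.nd (nat_lit 780) (nat_lit 380) (nat_lit 0) (XT.nd (nat_lit 390) (nat_lit 380) (nat_lit 0) (XT.nd (nat_lit 156) (nat_lit 304) (nat_lit 0) (XT.nd (nat_lit 78) (nat_lit 0) (nat_lit 0) (XT.lf (nat_lit 0) (nat_lit 13410393212) (nat_lit 304) (nat_lit 25506591824) (nat_lit 76) (nat_lit 13763886252) (nat_lit 26) (nat_lit 5) (nat_lit 30) (nat_lit 5) (nat_lit 27) (nat_lit 5) (nat_lit 308) (nat_lit 262) (nat_lit 150)) (XT.lf (nat_lit 0) (nat_lit 23103576385) (nat_lit 304) (nat_lit 845334665) (nat_lit 76) (nat_lit 30840728884) (nat_lit 26) (nat_lit 5) (nat_lit 30) (nat_lit 5) (nat_lit 27) (nat_lit 5) (nat_lit 309) (nat_lit 262) (nat_lit 149))) (XT.nd (nat_lit 78) (nat_lit 152) (nat_lit 0) (XT.lf (nat_lit 0) (nat_lit 25537272410) (nat_lit 152) (nat_lit 7983075897) (nat_lit 228) (nat_lit 23476342101) (nat_lit 24) (nat_lit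 5) (nat_lit 26) (nat_lit 5) (nat_lit 27) (nat_lit 5) (nat_lit 310) (nat_lit 262) (nat_lit 148)) (XT.nd (nat_lit 78) (nat_lit 152) (nat_lit 0) (XT.lf (nat_lit 0) (nat_lit 44544790851) (nat_lit 228) (nat_lit 6151569746) (nat_lit 76) (nat_lit 8615138593) (nat_lit 24) (nat_lit 5) (nat_lit 27) (nat_lit 5) (nat_lit 25) (nat_lit 5) (nat_lit 311) (nat_lit 262) (nat_lit 147)) (XT.lf (nat_lit 0) (nat_lit 20736290511) (nat_lit 152) (nat_lit 35658008190) (nat_lit 228) (nat_lit 5339544648) (nat_lit 22) (nat_lit 5) (nat_lit 24) (nat_lit 5) (nat_lit 25) (nat_lit 5) (nat_lit 312) (nat_lit 262) (nat_lit 146))))) (XT.nd (nat_lit 156) (nat_lit 152) (nat_lit 0) (XT.nd (nat_lit 78) (nat_lit 152) (nat_lit 0) (XT.lf (nat_lit 0) (nat_lit 4528038155) (nat_lit 228) (nat_lit 15232063855) (nat_lit 76) (nat_lit 44514156770) (nat_lit 21) (nat_lit 5) (nat_lit 24) (nat_lit 5) (nat_lit 22) (nat_lit 5) (nat_lit 313) (nat_lit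 262) (nat_lit 145)) (XT.lf (nat_lit 0) (nat_lit 11992973584) (nat_lit 152) (nat_lit 2896260242) (nat_lit 228) (nat_lit 52047564253) (nat_lit 19) (nat_lit 5) (nat_lit 21) (nat_lit 5) (nat_lit 22) (nat_lit 5) (nat_lit 314) (nat_lit 262) (nat_lit 144))) (XT.nd (nat_lit 78) (nat_lit 152) (nat_lit 0) (XT.lf (nat_lit 0) (nat_lit 26063721948) (nat_lit 228) (nat_lit 28982861815) (nat_lit 76) (nat_lit 14677032184) (nat_lit 19) (nat_lit 5) (nat_lit 22) (nat_lit 5) (nat_lit 20) (nat_lit 5) (nat_lit 315) (nat_lit 262) (nat_lit 143)) (XT.nd (nat_lit 78) (nat_lit 152) (nat_lit 0) (XT.lf (nat_lit 0) (nat_lit 37820937903) (nat_lit 228) (nat_lit 1761414154) (nat_lit 76) (nat_lit 33066710722) (nat_lit 19) (nat_lit 5) (nat_lit 22) (nat_lit 5) (nat_lit 20) (nat_lit 5) (nat_lit 316) (nat_lit 262) (nat_lit 142)) (XT.lf (nat_lit 0) (nat_lit 27346806781) (nat_lit 152) (nat_lit 23077101894) (nat_lit 228) (nat_lit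 25289144242) (nat_lit 17) (nat_lit 5) (nat_lit 19) (nat_lit 5) (nat_lit 20) (nat_lit 5) (nat_lit 317) (nat_lit 262) (nat_lit 141)))))) (XT.nd (nat_lit 390) (nat_lit 76) (nat_lit 0) (XT.nd (nat_lit 156) (nat_lit 228) (nat_lit 0) (XT.nd (nat_lit 78) (nat_lit 76) (nat_lit 0) (XT.lf (nat_lit 0) (nat_lit 57939540753) (nat_lit 152) (nat_lit 5730802294) (nat_lit 228) (nat_lit 15259507477) (nat_lit 17) (nat_lit 5) (nat_lit 19) (nat_lit 5) (nat_lit 20) (nat_lit 5) (nat_lit 318) (nat_lit 262) (nat_lit 140)) (XT.lf (nat_lit 0) (nat_lit 7778765047) (nat_lit 76) (nat_lit 69990486562) (nat_lit 152) (nat_lit 4532538890) (nat_lit 16) (nat_lit 5) (nat_lit 17) (nat_lit 5) (nat_lit 18) (nat_lit 4) (nat_lit 319) (nat_lit 262) (nat_lit 139))) (XT.nd (nat_lit 78) (nat_lit 152) (nat_lit 0) (XT.lf (nat_lit 0) (nat_lit 6870979962) (nat_lit 152) (nat_lit 47542938204) (nat_lit 76) (nat_lit 31418328520) (nat_lit 15)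 (nat_lit 5) (nat_lit 17) (nat_lit 5) (nat_lit 16) (nat_lit 5) (nat_lit 320) (nat_lit 262) (nat_lit 138)) (XT.nd (nat_lit 78) (nat_lit 152) (nat_lit 0) (XT.lf (nat_lit 0) (nat_lit 18747506378) (nat_lit 152) (nat_lit 19266585339) (nat_lit 76) (nat_lit 51523896737) (nat_lit 15) (nat_lit 5) (nat_lit 17) (nat_lit 5) (nat_lit 16) (nat_lit 5) (nat_lit 321) (nat_lit 262) (nat_lit 137)) (XT.lf (nat_lit 0) (nat_lit 10624244604) (nat_lit 152) (nat_lit 20691646096) (nat_lit 228) (nat_lit 62110191588) (nat_lit 13) (nat_lit 5) (nat_lit 15) (nat_lit 5) (nat_lit 16) (nat_lit 5) (nat_lit 322) (nat_lit 262) (nat_lit 136))))) (XT.nd (nat_lit 156) (nat_lit 76) (nat_lit 0) (XT.nd (nat_lit 78) (nat_lit 0) (nat_lit 0) (XT.lf (nat_lit 0) (nat_lit 42405764017) (nat_lit 152) (nat_lit 2301300407) (nat_lit 228) (nat_lit 52795690923) (nat_lit 13) (nat_lit 5) (nat_lit 15) (nat_lit 5) (nat_lit 16) (nat_lit 5) (nat_lit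 323) (nat_lit 262) (nat_lit 135)) (XT.lf (nat_lit 0) (nat_lit 58927496983) (nat_lit 228) (nat_lit 26176654062) (nat_lit 76) (nat_lit 16674325381) (nat_lit 13) (nat_lit 5) (nat_lit 16) (nat_lit 5) (nat_lit 14) (nat_lit 4) (nat_lit 324) (nat_lit 262) (nat_lit 134))) (XT.nd (nat_lit 32682) (nat_lit 0) (nat_lit 10184) (XT.lf (nat_lit 0) (nat_lit 4243318053) (nat_lit 76) (nat_lit 69676034296) (nat_lit 152) (nat_lit 32346824290) (nat_lit 12) (nat_lit 5) (nat_lit 13) (nat_lit 5) (nat_lit 14) (nat_lit 4) (nat_lit 325) (nat_lit 262) (nat_lit 133)) (XT.nd (nat_lit 78) (nat_lit 0) (nat_lit 0) (XT.lf (nat_lit 0) (nat_lit 1875221298) (nat_lit 0) (nat_lit 1875221298) (nat_lit 988) (nat_lit 2719211564) (nat_lit 146) (nat_lit 5) (nat_lit 146) (nat_lit 3) (nat_lit 159) (nat_lit 3) (nat_lit 263) (nat_lit 263) (nat_lit 194)) (XT.lf (nat_lit 0) (nat_lit 8317824120) (nat_lit 988) (nat_lit 629639150) (nat_lit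 1064) (nat_lit 4294590249) (nat_lit 146) (nat_lit 5) (nat_lit 159) (nat_lit 3) (nat_lit 160) (nat_lit 5) (nat_lit 264) (nat_lit 263) (nat_lit 193))))))) (XT.nd (nat_lit 780) (nat_lit 4104) (nat_lit 0) (XT.nd (nat_lit 390) (nat_lit 836) (nat_lit 0) (XT.nd (nat_lit 156) (nat_lit 0) (nat_lit 152) (XT.nd (nat_lit 78) (nat_lit 0) (nat_lit 76) (XT.lf (nat_lit 76) (nat_lit 8464645366) (nat_lit 0) (nat_lit 792771431) (nat_lit 1064) (nat_lit 4300183718) (nat_lit 147) (nat_lit 5) (nat_lit 146) (nat_lit 5) (nat_lit 160) (nat_lit 5) (nat_lit 265) (nat_lit 263) (nat_lit 192)) (XT.lf (nat_lit 76) (nat_lit 4122782301) (nat_lit 0) (nat_lit 6206403579) (nat_lit 1064) (nat_lit 3557296164) (nat_lit 148) (nat_lit 5) (nat_lit 147) (nat_lit 5) (nat_lit 161) (nat_lit 5) (nat_lit 266) (nat_lit 263) (nat_lit 191))) (XT.nd (nat_lit 78) (nat_lit 0) (nat_lit 0) (XT.lf (nat_lit 0) (nat_lit 11503766357) (nat_lit 988)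 (nat_lit 376979286) (nat_lit 1064) (nat_lit 2349693025) (nat_lit 148) (nat_lit 5) (nat_lit 161) (nat_lit 5) (nat_lit 162) (nat_lit 5) (nat_lit 267) (nat_lit 263) (nat_lit 190)) (XT.nd (nat_lit 78) (nat_lit 0) (nat_lit 76) (XT.lf (nat_lit 76) (nat_lit 9582808707) (nat_lit 0) (nat_lit 3276614750) (nat_lit 1064) (nat_lit 1728601813) (nat_lit 149) (nat_lit 5) (nat_lit 148) (nat_lit 5) (nat_lit 162) (nat_lit 5) (nat_lit 268) (nat_lit 263) (nat_lit 189)) (XT.lf (nat_lit 76) (nat_lit 5108218345) (nat_lit 0) (nat_lit 9252060149) (nat_lit 1064) (nat_lit 600987946) (nat_lit 150) (nat_lit 5) (nat_lit 149) (nat_lit 5) (nat_lit 163) (nat_lit 5) (nat_lit 269) (nat_lit 263) (nat_lit 188))))) (XT.nd (nat_lit 156) (nat_lit 0) (nat_lit 152) (XT.nd (nat_lit 78) (nat_lit 0) (nat_lit 76) (XT.lf (nat_lit 76) (nat_lit 428218185) (nat_lit 0) (nat_lit 202571498) (nat_lit 1140) (nat_lit 14720527399) (nat_lit 136)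 (nat_lit 5) (nat_lit 135) (nat_lit 5) (nat_lit 150) (nat_lit 5) (nat_lit 270) (nat_lit 263) (nat_lit 187)) (XT.lf (nat_lit 0) (nat_lit 2074915654) (nat_lit 1064) (nat_lit 4446509340) (nat_lit 1140) (nat_lit 9234457114) (nat_lit 136) (nat_lit 5) (nat_lit 150) (nat_lit 5) (nat_lit 151) (nat_lit 5) (nat_lit 271) (nat_lit 263) (nat_lit 186))) (XT.nd (nat_lit 78) (nat_lit 0) (nat_lit 0) (XT.lf (nat_lit 0) (nat_lit 3659080853) (nat_lit 1064) (nat_lit 9547521597) (nat_lit 1140) (nat_lit 2972119878) (nat_lit 137) (nat_lit 5) (nat_lit 151) (nat_lit 5) (nat_lit 152) (nat_lit 5) (nat_lit 272) (nat_lit 263) (nat_lit 185)) (XT.nd (nat_lit 78) (nat_lit 0) (nat_lit 76) (XT.lf (nat_lit 76) (nat_lit 1679919149) (nat_lit 0) (nat_lit 3744521285) (nat_lit 1140) (nat_lit 11195282572) (nat_lit 138) (nat_lit 5) (nat_lit 137) (nat_lit 5) (nat_lit 152) (nat_lit 5) (nat_lit 273) (nat_lit 263) (nat_lit 184)) (XT.lf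 (nat_lit 0) (nat_lit 7411720517) (nat_lit 1064) (nat_lit 3493304207) (nat_lit 76) (nat_lit 6173813731) (nat_lit 138) (nat_lit 5) (nat_lit 152) (nat_lit 5) (nat_lit 139) (nat_lit 5) (nat_lit 274) (nat_lit 263) (nat_lit 183)))))) (XT.nd (nat_lit 390) (nat_lit 1672) (nat_lit 0) (XT.nd (nat_lit 156) (nat_lit 1064) (nat_lit 0) (XT.nd (nat_lit 78) (nat_lit 532) (nat_lit 0) (XT.lf (nat_lit 0) (nat_lit 8636012934) (nat_lit 1064) (nat_lit 959244157) (nat_lit 1140) (nat_lit 7962816588) (nat_lit 124) (nat_lit 5) (nat_lit 138) (nat_lit 5) (nat_lit 139) (nat_lit 5) (nat_lit 275) (nat_lit 263) (nat_lit 182)) (XT.lf (nat_lit 0) (nat_lit 3337774359) (nat_lit 532) (nat_lit 8686827030) (nat_lit 608) (nat_lit 6032637751) (nat_lit 117) (nat_lit 5) (nat_lit 124) (nat_lit 5) (nat_lit 125) (nat_lit 5) (nat_lit 276) (nat_lit 263) (nat_lit 181))) (XT.nd (nat_lit 78) (nat_lit 1064) (nat_lit 0) (XT.lf (nat_lit 0)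 (nat_lit 14671272829) (nat_lit 608) (nat_lit 2228190484) (nat_lit 76) (nat_lit 1679087958) (nat_lit 117) (nat_lit 5) (nat_lit 125) (nat_lit 5) (nat_lit 118) (nat_lit 5) (nat_lit 277) (nat_lit 263) (nat_lit 180)) (XT.nd (nat_lit 78) (nat_lit 608) (nat_lit 0) (XT.lf (nat_lit 0) (nat_lit 10994899047) (nat_lit 456) (nat_lit 6627782467) (nat_lit 532) (nat_lit 1498136525) (nat_lit 111) (nat_lit 5) (nat_lit 117) (nat_lit 5) (nat_lit 118) (nat_lit 5) (nat_lit 278) (nat_lit 263) (nat_lit 179)) (XT.lf (nat_lit 0) (nat_lit 1105943661) (nat_lit 608) (nat_lit 14418995640) (nat_lit 76) (nat_lit 4162179660) (nat_lit 103) (nat_lit 5) (nat_lit 111) (nat_lit 5) (nat_lit 104) (nat_lit 5) (nat_lit 279) (nat_lit 263) (nat_lit 178))))) (XT.nd (nat_lit 234) (nat_lit 760) (nat_lit 0) (XT.nd (nat_lit 78) (nat_lit 912) (nat_lit 0) (XT.lf (nat_lit 0) (nat_lit 3941295285) (nat_lit 608) (nat_lit 880004596) (nat_lit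 76) (nat_lit 15456082361) (nat_lit 103) (nat_lit 5) (nat_lit 111) (nat_lit 5) (nat_lit 104) (nat_lit 5) (nat_lit 280) (nat_lit 263) (nat_lit 177)) (XT.nd (nat_lit 78) (nat_lit 456) (nat_lit 0) (XT.lf (nat_lit 0) (nat_lit 7093281487) (nat_lit 532) (nat_lit 7374535482) (nat_lit 76) (nat_lit 6424146984) (nat_lit 97) (nat_lit 5) (nat_lit 104) (nat_lit 5) (nat_lit 98) (nat_lit 5) (nat_lit 281) (nat_lit 263) (nat_lit 176)) (XT.lf (nat_lit 0) (nat_lit 7188922817) (nat_lit 456) (nat_lit 3322896649) (nat_lit 532) (nat_lit 11022235542) (nat_lit 91) (nat_lit 5) (nat_lit 97) (nat_lit 5) (nat_lit 98) (nat_lit 5) (nat_lit 282) (nat_lit 263) (nat_lit 175)))) (XT.nd (nat_lit 78) (nat_lit 380) (nat_lit 0) (XT.lf (nat_lit 0) (nat_lit 335183378) (nat_lit 380) (nat_lit 13909244424) (nat_lit 456) (nat_lit 7959575019) (nat_lit 86) (nat_lit 5) (nat_lit 91) (nat_lit 5) (nat_lit 92) (nat_lit 5) (nat_lit 283) (nat_lit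 263) (nat_lit 174)) (XT.nd (nat_lit 78) (nat_lit 380) (nat_lit 0) (XT.lf (nat_lit 0) (nat_lit 15996870948) (nat_lit 380) (nat_lit 2331033273) (nat_lit 456) (nat_lit 4574660967) (nat_lit 86) (nat_lit 5) (nat_lit 91) (nat_lit 5) (nat_lit 92) (nat_lit 5) (nat_lit 284) (nat_lit 263) (nat_lit 173)) (XT.lf (nat_lit 0) (nat_lit 8866301480) (nat_lit 380) (nat_lit 13913071045) (nat_lit 456) (nat_lit 851810791) (nat_lit 81) (nat_lit 5) (nat_lit 86) (nat_lit 5) (nat_lit 87) (nat_lit 5) (nat_lit 285) (nat_lit 263) (nat_lit 172))))))))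
noncomputable def xc93 : XT := (XT.nd (nat_lit 1638) (nat_lit 1292) (nat_lit 0) (XT.nd (nat_lit 780) (nat_lit 1748) (nat_lit 0) (XT.nd (nat_lit 390) (nat_lit 988) (nat_lit 0) (XT.nd (nat_lit 156) (nat_lit 684) (nat_lit 0) (XT.nd (nat_lit 78) (nat_lit 0) (nat_lit 0) (XT.lf (nat_lit 0) (nat_lit 1127814527) (nat_lit 380) (nat_lit 1960405114) (nat_lit 456) (nat_lit 21304449257) (nat_lit 75) (nat_lit 5) (nat_lit 80) (nat_lit 5) (nat_lit 81) (nat_lit 5) (nat_lit 286) (nat_lit 263) (nat_lit 171)) (XT.lf (nat_lit 0) (nat_lit 7448174538) (nat_lit 456) (nat_lit 7193515086) (nat_lit 76) (nat_lit 10543107080) (nat_lit 75) (nat_lit 5) (nat_lit 81) (nat_lit 5) (nat_lit 76) (nat_lit 5) (nat_lit 287) (nat_lit 263) (nat_lit 170))) (XT.nd (nat_lit 78) (nat_lit 304) (nat_lit 0) (XT.lf (nat_lit 0) (nat_lit 9836759262) (nat_lit 380) (nat_lit 2289505131) (nat_lit 456) (nat_lit 13887297769) (nat_lit 70) (nat_lit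 5) (nat_lit 75) (nat_lit 5) (nat_lit 76) (nat_lit 5) (nat_lit 288) (nat_lit 263) (nat_lit 169)) (XT.nd (nat_lit 78) (nat_lit 0) (nat_lit 0) (XT.lf (nat_lit 0) (nat_lit 884453229) (nat_lit 304) (nat_lit 16326044804) (nat_lit 380) (nat_lit 9668134377) (nat_lit 66) (nat_lit 5) (nat_lit 70) (nat_lit 5) (nat_lit 71) (nat_lit 5) (nat_lit 289) (nat_lit 263) (nat_lit 168)) (XT.lf (nat_lit 0) (nat_lit 19096997727) (nat_lit 304) (nat_lit 3628138086) (nat_lit 380) (nat_lit 5056566672) (nat_lit 66) (nat_lit 5) (nat_lit 70) (nat_lit 5) (nat_lit 71) (nat_lit 5) (nat_lit 290) (nat_lit 263) (nat_lit 167))))) (XT.nd (nat_lit 156) (nat_lit 608) (nat_lit 0) (XT.nd (nat_lit 78) (nat_lit 76) (nat_lit 0) (XT.lf (nat_lit 0) (nat_lit 9567798471) (nat_lit 304) (nat_lit 19120351772) (nat_lit 380) (nat_lit 36627041) (nat_lit 62) (nat_lit 5) (nat_lit 66) (nat_lit 5) (nat_lit 67) (nat_lit 5) (nat_lit 291) (nat_lit 263)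 (nat_lit 166)) (XT.lf (nat_lit 0) (nat_lit 5246765242) (nat_lit 380) (nat_lit 901410948) (nat_lit 76) (nat_lit 23561910551) (nat_lit 61) (nat_lit 5) (nat_lit 66) (nat_lit 5) (nat_lit 62) (nat_lit 5) (nat_lit 292) (nat_lit 263) (nat_lit 165))) (XT.nd (nat_lit 78) (nat_lit 304) (nat_lit 0) (XT.lf (nat_lit 0) (nat_lit 11034365925) (nat_lit 380) (nat_lit 12198359927) (nat_lit 76) (nat_lit 7504727965) (nat_lit 57) (nat_lit 5) (nat_lit 62) (nat_lit 5) (nat_lit 58) (nat_lit 5) (nat_lit 293) (nat_lit 263) (nat_lit 164)) (XT.nd (nat_lit 78) (nat_lit 0) (nat_lit 0) (XT.lf (nat_lit 0) (nat_lit 7218422445) (nat_lit 304) (nat_lit 10022402245) (nat_lit 380) (nat_lit 14571505847) (nat_lit 53) (nat_lit 5) (nat_lit 57) (nat_lit 5) (nat_lit 58) (nat_lit 5) (nat_lit 294) (nat_lit 263) (nat_lit 163)) (XT.lf (nat_lit 0) (nat_lit 23910446413) (nat_lit 380) (nat_lit 5129198689) (nat_lit 76) (nat_lit 3896745200)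 (nat_lit 53) (nat_lit 5) (nat_lit 58) (nat_lit 5) (nat_lit 54) (nat_lit 5) (nat_lit 295) (nat_lit 263) (nat_lit 162)))))) (XT.nd (nat_lit 390) (nat_lit 912) (nat_lit 0) (XT.nd (nat_lit 156) (nat_lit 228) (nat_lit 0) (XT.nd (nat_lit 78) (nat_lit 380) (nat_lit 0) (XT.lf (nat_lit 0) (nat_lit 15495939042) (nat_lit 228) (nat_lit 15657279305) (nat_lit 304) (nat_lit 2956267885) (nat_lit 50) (nat_lit 5) (nat_lit 53) (nat_lit 5) (nat_lit 54) (nat_lit 5) (nat_lit 296) (nat_lit 263) (nat_lit 161)) (XT.lf (nat_lit 0) (nat_lit 1909914633) (nat_lit 304) (nat_lit 1501783098) (nat_lit 380) (nat_lit 31926730914) (nat_lit 45) (nat_lit 5) (nat_lit 49) (nat_lit 5) (nat_lit 50) (nat_lit 5) (nat_lit 297) (nat_lit 263) (nat_lit 160))) (XT.nd (nat_lit 78) (nat_lit 228) (nat_lit 0) (XT.lf (nat_lit 0) (nat_lit 10349556559) (nat_lit 380) (nat_lit 12948462745) (nat_lit 76) (nat_lit 13320562196) (nat_lit 45) (nat_lit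 5) (nat_lit 50) (nat_lit 5) (nat_lit 46) (nat_lit 5) (nat_lit 298) (nat_lit 263) (nat_lit 159)) (XT.nd (nat_lit 78) (nat_lit 0) (nat_lit 0) (XT.lf (nat_lit 0) (nat_lit 8697061794) (nat_lit 228) (nat_lit 9026597078) (nat_lit 304) (nat_lit 20236422108) (nat_lit 42) (nat_lit 5) (nat_lit 45) (nat_lit 5) (nat_lit 46) (nat_lit 5) (nat_lit 299) (nat_lit 263) (nat_lit 158)) (XT.lf (nat_lit 0) (nat_lit 25649237034) (nat_lit 304) (nat_lit 7740768418) (nat_lit 76) (nat_lit 5973185428) (nat_lit 42) (nat_lit 5) (nat_lit 46) (nat_lit 5) (nat_lit 43) (nat_lit 5) (nat_lit 300) (nat_lit 263) (nat_lit 157))))) (XT.nd (nat_lit 234) (nat_lit 380) (nat_lit 0) (XT.nd (nat_lit 78) (nat_lit 304) (nat_lit 0) (XT.lf (nat_lit 0) (nat_lit 15047777265) (nat_lit 228) (nat_lit 19150389340) (nat_lit 304) (nat_lit 6631495181) (nat_lit 39) (nat_lit 5) (nat_lit 42) (nat_lit 5) (nat_lit 43) (nat_lit 5) (nat_lit 301) (nat_lit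 263) (nat_lit 156)) (XT.nd (nat_lit 78) (nat_lit 228) (nat_lit 0) (XT.lf (nat_lit 0) (nat_lit 861364732) (nat_lit 304) (nat_lit 3250261756) (nat_lit 76) (nat_lit 38255454279) (nat_lit 38) (nat_lit 5) (nat_lit 42) (nat_lit 5) (nat_lit 39) (nat_lit 5) (nat_lit 302) (nat_lit 263) (nat_lit 155)) (XT.lf (nat_lit 0) (nat_lit 8899088833) (nat_lit 304) (nat_lit 23354503862) (nat_lit 76) (nat_lit 11716602704) (nat_lit 35) (nat_lit 5) (nat_lit 39) (nat_lit 5) (nat_lit 36) (nat_lit 5) (nat_lit 303) (nat_lit 263) (nat_lit 154)))) (XT.nd (nat_lit 78) (nat_lit 152) (nat_lit 0) (XT.lf (nat_lit 0) (nat_lit 37827642) (nat_lit 228) (nat_lit 17368687014) (nat_lit 304) (nat_lit 28244931473) (nat_lit 32) (nat_lit 5) (nat_lit 35) (nat_lit 5) (nat_lit 36) (nat_lit 5) (nat_lit 304) (nat_lit 263) (nat_lit 153)) (XT.nd (nat_lit 78) (nat_lit 152) (nat_lit 0) (XT.lf (nat_lit 0) (nat_lit 25076664269) (nat_lit 228) (nat_lit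 1495489936) (nat_lit 304) (nat_lit 20837634045) (nat_lit 32) (nat_lit 5) (nat_lit 35) (nat_lit 5) (nat_lit 36) (nat_lit 5) (nat_lit 305) (nat_lit 263) (nat_lit 152)) (XT.lf (nat_lit 0) (nat_lit 1993644106) (nat_lit 152) (nat_lit 34360188409) (nat_lit 228) (nat_lit 12897495710) (nat_lit 30) (nat_lit 5) (nat_lit 32) (nat_lit 5) (nat_lit 33) (nat_lit 5) (nat_lit 306) (nat_lit 263) (nat_lit 151))))))) (XT.nd (nat_lit 780) (nat_lit 456) (nat_lit 0) (XT.nd (nat_lit 390) (nat_lit 380) (nat_lit 0) (XT.nd (nat_lit 156) (nat_lit 152) (nat_lit 0) (XT.nd (nat_lit 78) (nat_lit 304) (nat_lit 0) (XT.lf (nat_lit 0) (nat_lit 27977544687) (nat_lit 152) (nat_lit 18884896350) (nat_lit 228) (nat_lit 4315381586) (nat_lit 30) (nat_lit 5) (nat_lit 32) (nat_lit 5) (nat_lit 33) (nat_lit 5) (nat_lit 307) (nat_lit 263) (nat_lit 150)) (XT.lf (nat_lit 0) (nat_lit 2044603388) (nat_lit 228) (nat_lit 2572511606) (nat_lit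 304) (nat_lit 48581797132) (nat_lit 26) (nat_lit 5) (nat_lit 29) (nat_lit 5) (nat_lit 30) (nat_lit 5) (nat_lit 308) (nat_lit 263) (nat_lit 149))) (XT.nd (nat_lit 78) (nat_lit 152) (nat_lit 0) (XT.lf (nat_lit 0) (nat_lit 14282374346) (nat_lit 304) (nat_lit 26473219174) (nat_lit 76) (nat_lit 14552930469) (nat_lit 26) (nat_lit 5) (nat_lit 30) (nat_lit 5) (nat_lit 27) (nat_lit 5) (nat_lit 309) (nat_lit 263) (nat_lit 148)) (XT.nd (nat_lit 78) (nat_lit 152) (nat_lit 0) (XT.lf (nat_lit 0) (nat_lit 24450623274) (nat_lit 304) (nat_lit 593599265) (nat_lit 76) (nat_lit 32478812857) (nat_lit 26) (nat_lit 5) (nat_lit 30) (nat_lit 5) (nat_lit 27) (nat_lit 5) (nat_lit 310) (nat_lit 263) (nat_lit 147)) (XT.lf (nat_lit 0) (nat_lit 27099710652) (nat_lit 152) (nat_lit 8282131683) (nat_lit 228) (nat_lit 24458803539) (nat_lit 24) (nat_lit 5) (nat_lit 26) (nat_lit 5) (nat_lit 27) (nat_lit 5) (nat_lit 311) (nat_lit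 263) (nat_lit 146))))) (XT.nd (nat_lit 156) (nat_lit 228) (nat_lit 0) (XT.nd (nat_lit 78) (nat_lit 152) (nat_lit 0) (XT.lf (nat_lit 0) (nat_lit 46949591171) (nat_lit 228) (nat_lit 6182489688) (nat_lit 76) (nat_lit 9139366700) (nat_lit 24) (nat_lit 5) (nat_lit 27) (nat_lit 5) (nat_lit 25) (nat_lit 5) (nat_lit 312) (nat_lit 263) (nat_lit 145)) (XT.lf (nat_lit 0) (nat_lit 22041833220) (nat_lit 152) (nat_lit 37343869098) (nat_lit 228) (nat_lit 5429397045) (nat_lit 22) (nat_lit 5) (nat_lit 24) (nat_lit 5) (nat_lit 25) (nat_lit 5) (nat_lit 313) (nat_lit 263) (nat_lit 144))) (XT.nd (nat_lit 78) (nat_lit 152) (nat_lit 0) (XT.lf (nat_lit 0) (nat_lit 4919838627) (nat_lit 228) (nat_lit 15734179710) (nat_lit 76) (nat_lit 46828727447) (nat_lit 21) (nat_lit 5) (nat_lit 24) (nat_lit 5) (nat_lit 22) (nat_lit 5) (nat_lit 314) (nat_lit 263) (nat_lit 143)) (XT.nd (nat_lit 78) (nat_lit 0) (nat_lit 0) (XT.lf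 (nat_lit 0) (nat_lit 12844671448) (nat_lit 152) (nat_lit 2948969362) (nat_lit 228) (nat_lit 54484947406) (nat_lit 19) (nat_lit 5) (nat_lit 21) (nat_lit 5) (nat_lit 22) (nat_lit 5) (nat_lit 315) (nat_lit 263) (nat_lit 142)) (XT.lf (nat_lit 0) (nat_lit 27520080094) (nat_lit 228) (nat_lit 30187991960) (nat_lit 76) (nat_lit 15496890092) (nat_lit 19) (nat_lit 5) (nat_lit 22) (nat_lit 5) (nat_lit 20) (nat_lit 5) (nat_lit 316) (nat_lit 263) (nat_lit 141)))))) (XT.nd (nat_lit 390) (nat_lit 152) (nat_lit 0) (XT.nd (nat_lit 156) (nat_lit 152) (nat_lit 0) (XT.nd (nat_lit 78) (nat_lit 152) (nat_lit 0) (XT.lf (nat_lit 0) (nat_lit 39857862941) (nat_lit 228) (nat_lit 1617091580) (nat_lit 76) (nat_lit 34801957019) (nat_lit 19) (nat_lit 5) (nat_lit 22) (nat_lit 5) (nat_lit 20) (nat_lit 5) (nat_lit 317) (nat_lit 263) (nat_lit 140)) (XT.lf (nat_lit 0) (nat_lit 28939878895) (nat_lit 152) (nat_lit 24146326649)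 (nat_lit 228) (nat_lit 26408049800) (nat_lit 17) (nat_lit 5) (nat_lit 19) (nat_lit 5) (nat_lit 20) (nat_lit 5) (nat_lit 318) (nat_lit 263) (nat_lit 139))) (XT.nd (nat_lit 78) (nat_lit 152) (nat_lit 0) (XT.lf (nat_lit 0) (nat_lit 61051500434) (nat_lit 152) (nat_lit 5936742086) (nat_lit 228) (nat_lit 15883862228) (nat_lit 17) (nat_lit 5) (nat_lit 19) (nat_lit 5) (nat_lit 20) (nat_lit 5) (nat_lit 319) (nat_lit 263) (nat_lit 138)) (XT.nd (nat_lit 78) (nat_lit 76) (nat_lit 0) (XT.lf (nat_lit 0) (nat_lit 8379887751) (nat_lit 76) (nat_lit 73408587133) (nat_lit 152) (nat_lit 4624285336) (nat_lit 16) (nat_lit 5) (nat_lit 17) (nat_lit 5) (nat_lit 18) (nat_lit 4) (nat_lit 320) (nat_lit 263) (nat_lit 137)) (XT.lf (nat_lit 0) (nat_lit 7340479907) (nat_lit 152) (nat_lit 49715315873) (nat_lit 76) (nat_lit 33064102571) (nat_lit 15) (nat_lit 5) (nat_lit 17) (nat_lit 5) (nat_lit 16) (nat_lit 5) (nat_lit 321)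 (nat_lit 263) (nat_lit 136))))) (XT.nd (nat_lit 234) (nat_lit 0) (nat_lit 0) (XT.nd (nat_lit 78) (nat_lit 152) (nat_lit 0) (XT.lf (nat_lit 0) (nat_lit 19804834981) (nat_lit 152) (nat_lit 20034896282) (nat_lit 76) (nat_lit 54171384550) (nat_lit 15) (nat_lit 5) (nat_lit 17) (nat_lit 5) (nat_lit 16) (nat_lit 5) (nat_lit 322) (nat_lit 263) (nat_lit 135)) (XT.nd (nat_lit 78) (nat_lit 0) (nat_lit 0) (XT.lf (nat_lit 0) (nat_lit 11344884998) (nat_lit 152) (nat_lit 21652862359) (nat_lit 228) (nat_lit 65095991975) (nat_lit 13) (nat_lit 5) (nat_lit 15) (nat_lit 5) (nat_lit 16) (nat_lit 5) (nat_lit 323) (nat_lit 263) (nat_lit 134)) (XT.lf (nat_lit 0) (nat_lit 44706459992) (nat_lit 152) (nat_lit 2346493007) (nat_lit 228) (nat_lit 55321466715) (nat_lit 13) (nat_lit 5) (nat_lit 15) (nat_lit 5) (nat_lit 16) (nat_lit 5) (nat_lit 324) (nat_lit 263) (nat_lit 133)))) (XT.nd (nat_lit 32760) (nat_lit 0) (nat_lit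 10108) (XT.lf (nat_lit 0) (nat_lit 61979783271) (nat_lit 228) (nat_lit 27311001510) (nat_lit 76) (nat_lit 17573288277) (nat_lit 13) (nat_lit 5) (nat_lit 16) (nat_lit 5) (nat_lit 14) (nat_lit 4) (nat_lit 325) (nat_lit 263) (nat_lit 132)) (XT.nd (nat_lit 78) (nat_lit 0) (nat_lit 0) (XT.lf (nat_lit 0) (nat_lit 2258054047) (nat_lit 0) (nat_lit 2258054047) (nat_lit 988) (nat_lit 2257858426) (nat_lit 146) (nat_lit 5) (nat_lit 146) (nat_lit 3) (nat_lit 159) (nat_lit 3) (nat_lit 264) (nat_lit 264) (nat_lit 192)) (XT.lf (nat_lit 0) (nat_lit 9829647964) (nat_lit 988) (nat_lit 68700601) (nat_lit 1064) (nat_lit 3969451467) (nat_lit 146) (nat_lit 5) (nat_lit 159) (nat_lit 3) (nat_lit 160) (nat_lit 5) (nat_lit 265) (nat_lit 264) (nat_lit 191))))))))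
noncomputable def xc94 : XT := (XT.nd (nat_lit 1560) (nat_lit 4104) (nat_lit 0) (XT.nd (nat_lit 780) (nat_lit 3724) (nat_lit 0) (XT.nd (nat_lit 390) (nat_lit 0) (nat_lit 0) (XT.nd (nat_lit 156) (nat_lit 836) (nat_lit 0) (XT.nd (nat_lit 78) (nat_lit 0) (nat_lit 76) (XT.lf (nat_lit 76) (nat_lit 9463316526) (nat_lit 0) (nat_lit 1306247950) (nat_lit 1064) (nat_lit 3431125202) (nat_lit 147) (nat_lit 5) (nat_lit 146) (nat_lit 5) (nat_lit 160) (nat_lit 5) (nat_lit 266) (nat_lit 264) (nat_lit 190)) (XT.lf (nat_lit 76) (nat_lit 4926083314) (nat_lit 0) (nat_lit 6920275498) (nat_lit 1064) (nat_lit 2701271110) (nat_lit 148) (nat_lit 5) (nat_lit 147) (nat_lit 5) (nat_lit 161) (nat_lit 5) (nat_lit 267) (nat_lit 264) (nat_lit 189))) (XT.nd (nat_lit 78) (nat_lit 988) (nat_lit 0) (XT.lf (nat_lit 76) (nat_lit 212331586) (nat_lit 0) (nat_lit 12818030293) (nat_lit 1064) (nat_lit 1880051920) (nat_lit 149) (nat_lit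 5) (nat_lit 148) (nat_lit 5) (nat_lit 162) (nat_lit 5) (nat_lit 268) (nat_lit 264) (nat_lit 188)) (XT.nd (nat_lit 78) (nat_lit 988) (nat_lit 0) (XT.lf (nat_lit 76) (nat_lit 10648651615) (nat_lit 0) (nat_lit 3763540990) (nat_lit 1064) (nat_lit 875078478) (nat_lit 149) (nat_lit 5) (nat_lit 148) (nat_lit 5) (nat_lit 162) (nat_lit 5) (nat_lit 269) (nat_lit 264) (nat_lit 187)) (XT.lf (nat_lit 0) (nat_lit 261860526) (nat_lit 1064) (nat_lit 9717270782) (nat_lit 1140) (nat_lit 5701317037) (nat_lit 135) (nat_lit 5) (nat_lit 149) (nat_lit 5) (nat_lit 150) (nat_lit 5) (nat_lit 270) (nat_lit 264) (nat_lit 186))))) (XT.nd (nat_lit 156) (nat_lit 0) (nat_lit 152) (XT.nd (nat_lit 78) (nat_lit 0) (nat_lit 76) (XT.lf (nat_lit 76) (nat_lit 1054152961) (nat_lit 0) (nat_lit 452638743) (nat_lit 1140) (nat_lit 14584237477) (nat_lit 136) (nat_lit 5) (nat_lit 135) (nat_lit 5) (nat_lit 150) (nat_lit 5) (nat_lit 271)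 (nat_lit 264) (nat_lit 185)) (XT.lf (nat_lit 0) (nat_lit 2980714865) (nat_lit 1064) (nat_lit 4064373799) (nat_lit 1140) (nat_lit 9472126063) (nat_lit 136) (nat_lit 5) (nat_lit 150) (nat_lit 5) (nat_lit 151) (nat_lit 5) (nat_lit 272) (nat_lit 264) (nat_lit 184))) (XT.nd (nat_lit 78) (nat_lit 0) (nat_lit 0) (XT.lf (nat_lit 0) (nat_lit 4609786145) (nat_lit 1064) (nat_lit 9410639636) (nat_lit 1140) (nat_lit 2941914522) (nat_lit 137) (nat_lit 5) (nat_lit 151) (nat_lit 5) (nat_lit 152) (nat_lit 5) (nat_lit 273) (nat_lit 264) (nat_lit 183)) (XT.nd (nat_lit 78) (nat_lit 0) (nat_lit 76) (XT.lf (nat_lit 76) (nat_lit 2360565564) (nat_lit 0) (nat_lit 4072023927) (nat_lit 1140) (nat_lit 10993835089) (nat_lit 138) (nat_lit 5) (nat_lit 137) (nat_lit 5) (nat_lit 152) (nat_lit 5) (nat_lit 274) (nat_lit 264) (nat_lit 182)) (XT.lf (nat_lit 0) (nat_lit 8482857601) (nat_lit 1064) (nat_lit 3075318505) (nat_lit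 76) (nat_lit 6351514631) (nat_lit 138) (nat_lit 5) (nat_lit 152) (nat_lit 5) (nat_lit 139) (nat_lit 5) (nat_lit 275) (nat_lit 264) (nat_lit 181)))))) (XT.nd (nat_lit 390) (nat_lit 1292) (nat_lit 0) (XT.nd (nat_lit 156) (nat_lit 1064) (nat_lit 0) (XT.nd (nat_lit 78) (nat_lit 532) (nat_lit 0) (XT.lf (nat_lit 0) (nat_lit 9643476274) (nat_lit 1064) (nat_lit 1104268777) (nat_lit 1140) (nat_lit 7666076168) (nat_lit 124) (nat_lit 5) (nat_lit 138) (nat_lit 5) (nat_lit 139) (nat_lit 5) (nat_lit 276) (nat_lit 264) (nat_lit 180)) (XT.lf (nat_lit 0) (nat_lit 4086251835) (nat_lit 532) (nat_lit 9184972193) (nat_lit 608) (nat_lit 5667634919) (nat_lit 117) (nat_lit 5) (nat_lit 124) (nat_lit 5) (nat_lit 125) (nat_lit 5) (nat_lit 277) (nat_lit 264) (nat_lit 179))) (XT.nd (nat_lit 78) (nat_lit 1064) (nat_lit 0) (XT.lf (nat_lit 0) (nat_lit 16018911946) (nat_lit 608) (nat_lit 1764891219) (nat_lit 76) (nat_lit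 1703462575) (nat_lit 117) (nat_lit 5) (nat_lit 125) (nat_lit 5) (nat_lit 118) (nat_lit 5) (nat_lit 278) (nat_lit 264) (nat_lit 178)) (XT.nd (nat_lit 78) (nat_lit 608) (nat_lit 0) (XT.lf (nat_lit 0) (nat_lit 12102878876) (nat_lit 456) (nat_lit 6991136594) (nat_lit 532) (nat_lit 963431921) (nat_lit 111) (nat_lit 5) (nat_lit 117) (nat_lit 5) (nat_lit 118) (nat_lit 5) (nat_lit 279) (nat_lit 264) (nat_lit 177)) (XT.lf (nat_lit 0) (nat_lit 1735648197) (nat_lit 608) (nat_lit 14565549797) (nat_lit 76) (nat_lit 4351467670) (nat_lit 103) (nat_lit 5) (nat_lit 111) (nat_lit 5) (nat_lit 104) (nat_lit 5) (nat_lit 280) (nat_lit 264) (nat_lit 176))))) (XT.nd (nat_lit 156) (nat_lit 836) (nat_lit 0) (XT.nd (nat_lit 78) (nat_lit 456) (nat_lit 0) (XT.lf (nat_lit 0) (nat_lit 4685414671) (nat_lit 608) (nat_lit 376961373) (nat_lit 76) (nat_lit 16210961743) (nat_lit 103) (nat_lit 5) (nat_lit 111) (nat_lit 5) (nat_lit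 104) (nat_lit 5) (nat_lit 281) (nat_lit 264) (nat_lit 175)) (XT.lf (nat_lit 0) (nat_lit 7974108215) (nat_lit 532) (nat_lit 7194736390) (nat_lit 76) (nat_lit 6750502258) (nat_lit 97) (nat_lit 5) (nat_lit 104) (nat_lit 5) (nat_lit 98) (nat_lit 5) (nat_lit 282) (nat_lit 264) (nat_lit 174))) (XT.nd (nat_lit 78) (nat_lit 380) (nat_lit 0) (XT.lf (nat_lit 0) (nat_lit 8081171440) (nat_lit 456) (nat_lit 3462467912) (nat_lit 532) (nat_lit 11050569246) (nat_lit 91) (nat_lit 5) (nat_lit 97) (nat_lit 5) (nat_lit 98) (nat_lit 5) (nat_lit 283) (nat_lit 264) (nat_lit 173)) (XT.nd (nat_lit 78) (nat_lit 0) (nat_lit 0) (XT.lf (nat_lit 0) (nat_lit 885299016) (nat_lit 380) (nat_lit 14558843176) (nat_lit 456) (nat_lit 7854138558) (nat_lit 86) (nat_lit 5) (nat_lit 91) (nat_lit 5) (nat_lit 92) (nat_lit 5) (nat_lit 284) (nat_lit 264) (nat_lit 172)) (XT.lf (nat_lit 0) (nat_lit 17304673037) (nat_lit 380) (nat_lit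 2403905442) (nat_lit 456) (nat_lit 4323950957) (nat_lit 86) (nat_lit 5) (nat_lit 91) (nat_lit 5) (nat_lit 92) (nat_lit 5) (nat_lit 285) (nat_lit 264) (nat_lit 171))))))) (XT.nd (nat_lit 780) (nat_lit 1596) (nat_lit 0) (XT.nd (nat_lit 390) (nat_lit 988) (nat_lit 0) (XT.nd (nat_lit 156) (nat_lit 684) (nat_lit 0) (XT.nd (nat_lit 78) (nat_lit 456) (nat_lit 0) (XT.lf (nat_lit 0) (nat_lit 9817336066) (nat_lit 380) (nat_lit 14548455996) (nat_lit 456) (nat_lit 432350091) (nat_lit 81) (nat_lit 5) (nat_lit 86) (nat_lit 5) (nat_lit 87) (nat_lit 5) (nat_lit 286) (nat_lit 264) (nat_lit 170)) (XT.lf (nat_lit 0) (nat_lit 1687238697) (nat_lit 380) (nat_lit 1991689254) (nat_lit 456) (nat_lit 21919197353) (nat_lit 75) (nat_lit 5) (nat_lit 80) (nat_lit 5) (nat_lit 81) (nat_lit 5) (nat_lit 287) (nat_lit 264) (nat_lit 169))) (XT.nd (nat_lit 78) (nat_lit 684) (nat_lit 0) (XT.lf (nat_lit 0) (nat_lit 8236715489)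 (nat_lit 456) (nat_lit 7061220389) (nat_lit 76) (nat_lit 11132580390) (nat_lit 75) (nat_lit 5) (nat_lit 81) (nat_lit 5) (nat_lit 76) (nat_lit 5) (nat_lit 288) (nat_lit 264) (nat_lit 168)) (XT.nd (nat_lit 78) (nat_lit 304) (nat_lit 0) (XT.lf (nat_lit 0) (nat_lit 10806465442) (nat_lit 380) (nat_lit 2327022137) (nat_lit 456) (nat_lit 14167738437) (nat_lit 70) (nat_lit 5) (nat_lit 75) (nat_lit 5) (nat_lit 76) (nat_lit 5) (nat_lit 289) (nat_lit 264) (nat_lit 167)) (XT.lf (nat_lit 0) (nat_lit 1404768751) (nat_lit 304) (nat_lit 17053354238) (nat_lit 380) (nat_lit 9751888082) (nat_lit 66) (nat_lit 5) (nat_lit 70) (nat_lit 5) (nat_lit 71) (nat_lit 5) (nat_lit 290) (nat_lit 264) (nat_lit 166))))) (XT.nd (nat_lit 156) (nat_lit 608) (nat_lit 0) (XT.nd (nat_lit 78) (nat_lit 380) (nat_lit 0) (XT.lf (nat_lit 0) (nat_lit 20505269385) (nat_lit 304) (nat_lit 3724789937) (nat_lit 380) (nat_lit 4928773088)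 (nat_lit 66) (nat_lit 5) (nat_lit 70) (nat_lit 5) (nat_lit 71) (nat_lit 5) (nat_lit 291) (nat_lit 264) (nat_lit 165)) (XT.lf (nat_lit 0) (nat_lit 322879709) (nat_lit 380) (nat_lit 19655208260) (nat_lit 76) (nat_lit 10171293903) (nat_lit 61) (nat_lit 5) (nat_lit 66) (nat_lit 5) (nat_lit 62) (nat_lit 5) (nat_lit 292) (nat_lit 264) (nat_lit 164))) (XT.nd (nat_lit 78) (nat_lit 608) (nat_lit 0) (XT.lf (nat_lit 0) (nat_lit 5852520306) (nat_lit 380) (nat_lit 509100726) (nat_lit 76) (nat_lit 24822879222) (nat_lit 61) (nat_lit 5) (nat_lit 66) (nat_lit 5) (nat_lit 62) (nat_lit 5) (nat_lit 293) (nat_lit 264) (nat_lit 163)) (XT.nd (nat_lit 78) (nat_lit 304) (nat_lit 0) (XT.lf (nat_lit 0) (nat_lit 11918132358) (nat_lit 380) (nat_lit 12373650041) (nat_lit 76) (nat_lit 7971831883) (nat_lit 57) (nat_lit 5) (nat_lit 62) (nat_lit 5) (nat_lit 58) (nat_lit 5) (nat_lit 294) (nat_lit 264) (nat_lit 162)) (XT.lf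 (nat_lit 0) (nat_lit 8001512928) (nat_lit 304) (nat_lit 10421647466) (nat_lit 380) (nat_lit 14969462805) (nat_lit 53) (nat_lit 5) (nat_lit 57) (nat_lit 5) (nat_lit 58) (nat_lit 5) (nat_lit 295) (nat_lit 264) (nat_lit 161)))))) (XT.nd (nat_lit 390) (nat_lit 760) (nat_lit 0) (XT.nd (nat_lit 156) (nat_lit 608) (nat_lit 0) (XT.nd (nat_lit 78) (nat_lit 228) (nat_lit 0) (XT.lf (nat_lit 0) (nat_lit 25411943738) (nat_lit 380) (nat_lit 4974692964) (nat_lit 76) (nat_lit 4186712884) (nat_lit 53) (nat_lit 5) (nat_lit 58) (nat_lit 5) (nat_lit 54) (nat_lit 5) (nat_lit 296) (nat_lit 264) (nat_lit 160)) (XT.lf (nat_lit 0) (nat_lit 16669921405) (nat_lit 228) (nat_lit 16336199838) (nat_lit 304) (nat_lit 2799333486) (nat_lit 50) (nat_lit 5) (nat_lit 53) (nat_lit 5) (nat_lit 54) (nat_lit 5) (nat_lit 297) (nat_lit 264) (nat_lit 159))) (XT.nd (nat_lit 78) (nat_lit 228) (nat_lit 0) (XT.lf (nat_lit 0) (nat_lit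 2399541086) (nat_lit 304) (nat_lit 1471102601) (nat_lit 380) (nat_lit 33225455878) (nat_lit 45) (nat_lit 5) (nat_lit 49) (nat_lit 5) (nat_lit 50) (nat_lit 5) (nat_lit 298) (nat_lit 264) (nat_lit 158)) (XT.nd (nat_lit 78) (nat_lit 228) (nat_lit 0) (XT.lf (nat_lit 0) (nat_lit 11142632284) (nat_lit 380) (nat_lit 13212681586) (nat_lit 76) (nat_lit 14085357644) (nat_lit 45) (nat_lit 5) (nat_lit 50) (nat_lit 5) (nat_lit 46) (nat_lit 5) (nat_lit 299) (nat_lit 264) (nat_lit 157)) (XT.lf (nat_lit 0) (nat_lit 9504134706) (nat_lit 228) (nat_lit 9371759302) (nat_lit 304) (nat_lit 20973665527) (nat_lit 42) (nat_lit 5) (nat_lit 45) (nat_lit 5) (nat_lit 46) (nat_lit 5) (nat_lit 300) (nat_lit 264) (nat_lit 156))))) (XT.nd (nat_lit 234) (nat_lit 456) (nat_lit 0) (XT.nd (nat_lit 78) (nat_lit 304) (nat_lit 0) (XT.lf (nat_lit 0) (nat_lit 27186053877) (nat_lit 304) (nat_lit 7766164203) (nat_lit 76) (nat_lit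 6370983668) (nat_lit 42) (nat_lit 5) (nat_lit 46) (nat_lit 5) (nat_lit 43) (nat_lit 5) (nat_lit 301) (nat_lit 264) (nat_lit 155)) (XT.nd (nat_lit 78) (nat_lit 76) (nat_lit 0) (XT.lf (nat_lit 0) (nat_lit 16151442351) (nat_lit 228) (nat_lit 20002252116) (nat_lit 304) (nat_lit 6709588465) (nat_lit 39) (nat_lit 5) (nat_lit 42) (nat_lit 5) (nat_lit 43) (nat_lit 5) (nat_lit 302) (nat_lit 264) (nat_lit 154)) (XT.lf (nat_lit 0) (nat_lit 1141133101) (nat_lit 304) (nat_lit 3073059084) (nat_lit 76) (nat_lit 40263685437) (nat_lit 38) (nat_lit 5) (nat_lit 42) (nat_lit 5) (nat_lit 39) (nat_lit 5) (nat_lit 303) (nat_lit 264) (nat_lit 153)))) (XT.nd (nat_lit 78) (nat_lit 228) (nat_lit 0) (XT.lf (nat_lit 0) (nat_lit 9573618421) (nat_lit 304) (nat_lit 24185933204) (nat_lit 76) (nat_lit 12401831833) (nat_lit 35) (nat_lit 5) (nat_lit 39) (nat_lit 5) (nat_lit 36) (nat_lit 5) (nat_lit 304) (nat_lit 264) (nat_lit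 152)) (XT.nd (nat_lit 78) (nat_lit 0) (nat_lit 0) (XT.lf (nat_lit 0) (nat_lit 366375023) (nat_lit 228) (nat_lit 18132248380) (nat_lit 304) (nat_lit 29428327775) (nat_lit 32) (nat_lit 5) (nat_lit 35) (nat_lit 5) (nat_lit 36) (nat_lit 5) (nat_lit 305) (nat_lit 264) (nat_lit 151)) (XT.lf (nat_lit 0) (nat_lit 26641598433) (nat_lit 228) (nat_lit 1470385400) (nat_lit 304) (nat_lit 21661563107) (nat_lit 32) (nat_lit 5) (nat_lit 35) (nat_lit 5) (nat_lit 36) (nat_lit 5) (nat_lit 306) (nat_lit 264) (nat_lit 150))))))))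
noncomputable def xc95 : XT := (XT.nd (nat_lit 34476) (nat_lit 0) (nat_lit 4712) (XT.nd (nat_lit 780) (nat_lit 456) (nat_lit 0) (XT.nd (nat_lit 390) (nat_lit 532) (nat_lit 0) (XT.nd (nat_lit 156) (nat_lit 304) (nat_lit 0) (XT.nd (nat_lit 78) (nat_lit 0) (nat_lit 0) (XT.lf (nat_lit 0) (nat_lit 2401114827) (nat_lit 152) (nat_lit 35975446076) (nat_lit 228) (nat_lit 13330807331) (nat_lit 30) (nat_lit 5) (nat_lit 32) (nat_lit 5) (nat_lit 33) (nat_lit 5) (nat_lit 307) (nat_lit 264) (nat_lit 149)) (XT.lf (nat_lit 0) (nat_lit 29669553841) (nat_lit 152) (nat_lit 19731282355) (nat_lit 228) (nat_lit 4329661937) (nat_lit 30) (nat_lit 5) (nat_lit 32) (nat_lit 5) (nat_lit 33) (nat_lit 5) (nat_lit 308) (nat_lit 264) (nat_lit 148))) (XT.nd (nat_lit 78) (nat_lit 0) (nat_lit 0) (XT.lf (nat_lit 0) (nat_lit 2435719047) (nat_lit 228) (nat_lit 2603178124) (nat_lit 304) (nat_lit 50813902274) (nat_lit 26) (nat_lit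 5) (nat_lit 29) (nat_lit 5) (nat_lit 30) (nat_lit 5) (nat_lit 309) (nat_lit 264) (nat_lit 147)) (XT.nd (nat_lit 78) (nat_lit 0) (nat_lit 0) (XT.lf (nat_lit 0) (nat_lit 15179224559) (nat_lit 304) (nat_lit 27516878101) (nat_lit 76) (nat_lit 15372050829) (nat_lit 26) (nat_lit 5) (nat_lit 30) (nat_lit 5) (nat_lit 27) (nat_lit 5) (nat_lit 310) (nat_lit 264) (nat_lit 146)) (XT.lf (nat_lit 0) (nat_lit 25847184433) (nat_lit 304) (nat_lit 356610626) (nat_lit 76) (nat_lit 34189871439) (nat_lit 26) (nat_lit 5) (nat_lit 30) (nat_lit 5) (nat_lit 27) (nat_lit 5) (nat_lit 311) (nat_lit 264) (nat_lit 145))))) (XT.nd (nat_lit 156) (nat_lit 380) (nat_lit 0) (XT.nd (nat_lit 78) (nat_lit 0) (nat_lit 0) (XT.lf (nat_lit 0) (nat_lit 28713720784) (nat_lit 152) (nat_lit 8605446423) (nat_lit 228) (nat_lit 25508178485) (nat_lit 24) (nat_lit 5) (nat_lit 26) (nat_lit 5) (nat_lit 27) (nat_lit 5) (nat_lit 312) (nat_lit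 264) (nat_lit 144)) (XT.lf (nat_lit 0) (nat_lit 49458123589) (nat_lit 228) (nat_lit 6240676717) (nat_lit 76) (nat_lit 9681116148) (nat_lit 24) (nat_lit 5) (nat_lit 27) (nat_lit 5) (nat_lit 25) (nat_lit 5) (nat_lit 313) (nat_lit 264) (nat_lit 143))) (XT.nd (nat_lit 78) (nat_lit 228) (nat_lit 0) (XT.lf (nat_lit 0) (nat_lit 23387669266) (nat_lit 152) (nat_lit 39123044865) (nat_lit 228) (nat_lit 5540209450) (nat_lit 22) (nat_lit 5) (nat_lit 24) (nat_lit 5) (nat_lit 25) (nat_lit 5) (nat_lit 314) (nat_lit 264) (nat_lit 142)) (XT.nd (nat_lit 78) (nat_lit 152) (nat_lit 0) (XT.lf (nat_lit 0) (nat_lit 5315851931) (nat_lit 228) (nat_lit 16285526031) (nat_lit 76) (nat_lit 49250765033) (nat_lit 21) (nat_lit 5) (nat_lit 24) (nat_lit 5) (nat_lit 22) (nat_lit 5) (nat_lit 315) (nat_lit 264) (nat_lit 141)) (XT.lf (nat_lit 0) (nat_lit 13715521061) (nat_lit 152) (nat_lit 3012876885) (nat_lit 228) (nat_lit 57059539394)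 (nat_lit 19) (nat_lit 5) (nat_lit 21) (nat_lit 5) (nat_lit 22) (nat_lit 5) (nat_lit 316) (nat_lit 264) (nat_lit 140)))))) (XT.nd (nat_lit 390) (nat_lit 228) (nat_lit 0) (XT.nd (nat_lit 156) (nat_lit 228) (nat_lit 0) (XT.nd (nat_lit 78) (nat_lit 0) (nat_lit 0) (XT.lf (nat_lit 0) (nat_lit 29035015663) (nat_lit 228) (nat_lit 31476064624) (nat_lit 76) (nat_lit 16349744845) (nat_lit 19) (nat_lit 5) (nat_lit 22) (nat_lit 5) (nat_lit 20) (nat_lit 5) (nat_lit 317) (nat_lit 264) (nat_lit 139)) (XT.lf (nat_lit 0) (nat_lit 41983071863) (nat_lit 228) (nat_lit 1487158602) (nat_lit 76) (nat_lit 36616350344) (nat_lit 19) (nat_lit 5) (nat_lit 22) (nat_lit 5) (nat_lit 20) (nat_lit 5) (nat_lit 318) (nat_lit 264) (nat_lit 138))) (XT.nd (nat_lit 78) (nat_lit 76) (nat_lit 0) (XT.lf (nat_lit 0) (nat_lit 30591618214) (nat_lit 152) (nat_lit 25276880770) (nat_lit 228) (nat_lit 27596432649) (nat_lit 17) (nat_lit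 5) (nat_lit 19) (nat_lit 5) (nat_lit 20) (nat_lit 5) (nat_lit 319) (nat_lit 264) (nat_lit 137)) (XT.nd (nat_lit 78) (nat_lit 76) (nat_lit 0) (XT.lf (nat_lit 0) (nat_lit 64299071050) (nat_lit 152) (nat_lit 6160472321) (nat_lit 228) (nat_lit 16552322348) (nat_lit 17) (nat_lit 5) (nat_lit 19) (nat_lit 5) (nat_lit 20) (nat_lit 5) (nat_lit 320) (nat_lit 264) (nat_lit 136)) (XT.lf (nat_lit 0) (nat_lit 8991339690) (nat_lit 76) (nat_lit 77005162742) (nat_lit 152) (nat_lit 4733159013) (nat_lit 16) (nat_lit 5) (nat_lit 17) (nat_lit 5) (nat_lit 18) (nat_lit 4) (nat_lit 321) (nat_lit 264) (nat_lit 135))))) (XT.nd (nat_lit 33072) (nat_lit 0) (nat_lit 10108) (XT.nd (nat_lit 78) (nat_lit 152) (nat_lit 0) (XT.lf (nat_lit 0) (nat_lit 7821745125) (nat_lit 152) (nat_lit 52015349929) (nat_lit 76) (nat_lit 34785205771) (nat_lit 15) (nat_lit 5) (nat_lit 17) (nat_lit 5) (nat_lit 16) (nat_lit 5) (nat_lit 322) (nat_lit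 264) (nat_lit 134)) (XT.nd (nat_lit 78) (nat_lit 152) (nat_lit 0) (XT.lf (nat_lit 0) (nat_lit 20903877894) (nat_lit 152) (nat_lit 20859753727) (nat_lit 76) (nat_lit 56944618608) (nat_lit 15) (nat_lit 5) (nat_lit 17) (nat_lit 5) (nat_lit 16) (nat_lit 5) (nat_lit 323) (nat_lit 264) (nat_lit 133)) (XT.lf (nat_lit 0) (nat_lit 12083946176) (nat_lit 152) (nat_lit 22668960315) (nat_lit 228) (nat_lit 68242211808) (nat_lit 13) (nat_lit 5) (nat_lit 15) (nat_lit 5) (nat_lit 16) (nat_lit 5) (nat_lit 324) (nat_lit 264) (nat_lit 132)))) (XT.nd (nat_lit 78) (nat_lit 0) (nat_lit 0) (XT.lf (nat_lit 0) (nat_lit 2633153289) (nat_lit 0) (nat_lit 2633153289) (nat_lit 988) (nat_lit 1828970199) (nat_lit 146) (nat_lit 5) (nat_lit 146) (nat_lit 3) (nat_lit 159) (nat_lit 3) (nat_lit 265) (nat_lit 265) (nat_lit 190)) (XT.nd (nat_lit 78) (nat_lit 0) (nat_lit 0) (XT.lf (nat_lit 76) (nat_lit 474465767) (nat_lit 0) (nat_lit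 10845268658) (nat_lit 1064) (nat_lit 3208342670) (nat_lit 147) (nat_lit 5) (nat_lit 146) (nat_lit 5) (nat_lit 160) (nat_lit 5) (nat_lit 266) (nat_lit 265) (nat_lit 189)) (XT.lf (nat_lit 76) (nat_lit 10458422390) (nat_lit 0) (nat_lit 1801345334) (nat_lit 1064) (nat_lit 2619400101) (nat_lit 147) (nat_lit 5) (nat_lit 146) (nat_lit 5) (nat_lit 160) (nat_lit 5) (nat_lit 267) (nat_lit 265) (nat_lit 188))))))) (XT.nd (nat_lit 780) (nat_lit 3724) (nat_lit 0) (XT.nd (nat_lit 390) (nat_lit 836) (nat_lit 0) (XT.nd (nat_lit 156) (nat_lit 912) (nat_lit 0) (XT.nd (nat_lit 78) (nat_lit 0) (nat_lit 76) (XT.lf (nat_lit 76) (nat_lit 5714030924) (nat_lit 0) (nat_lit 7632322598) (nat_lit 1064) (nat_lit 1898566083) (nat_lit 148) (nat_lit 5) (nat_lit 147) (nat_lit 5) (nat_lit 161) (nat_lit 5) (nat_lit 268) (nat_lit 265) (nat_lit 187)) (XT.lf (nat_lit 76) (nat_lit 781712425) (nat_lit 0) (nat_lit 13766641810) (nat_lit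 1064) (nat_lit 1078860777) (nat_lit 149) (nat_lit 5) (nat_lit 148) (nat_lit 5) (nat_lit 162) (nat_lit 5) (nat_lit 269) (nat_lit 265) (nat_lit 186))) (XT.nd (nat_lit 78) (nat_lit 988) (nat_lit 0) (XT.lf (nat_lit 76) (nat_lit 11713240634) (nat_lit 0) (nat_lit 4244775185) (nat_lit 1064) (nat_lit 66266936) (nat_lit 149) (nat_lit 5) (nat_lit 148) (nat_lit 5) (nat_lit 162) (nat_lit 5) (nat_lit 270) (nat_lit 265) (nat_lit 185)) (XT.nd (nat_lit 78) (nat_lit 0) (nat_lit 0) (XT.lf (nat_lit 0) (nat_lit 1073669251) (nat_lit 1064) (nat_lit 9638632008) (nat_lit 1140) (nat_lit 5725808149) (nat_lit 135) (nat_lit 5) (nat_lit 149) (nat_lit 5) (nat_lit 150) (nat_lit 5) (nat_lit 271) (nat_lit 265) (nat_lit 184)) (XT.lf (nat_lit 76) (nat_lit 1655181577) (nat_lit 0) (nat_lit 692902127) (nat_lit 1140) (nat_lit 14522232760) (nat_lit 136) (nat_lit 5) (nat_lit 135) (nat_lit 5) (nat_lit 150) (nat_lit 5) (nat_lit 272)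 (nat_lit 265) (nat_lit 183))))) (XT.nd (nat_lit 156) (nat_lit 912) (nat_lit 0) (XT.nd (nat_lit 78) (nat_lit 0) (nat_lit 76) (XT.lf (nat_lit 0) (nat_lit 3857236712) (nat_lit 1064) (nat_lit 3719328535) (nat_lit 1140) (nat_lit 9742508868) (nat_lit 136) (nat_lit 5) (nat_lit 150) (nat_lit 5) (nat_lit 151) (nat_lit 5) (nat_lit 273) (nat_lit 265) (nat_lit 182)) (XT.lf (nat_lit 0) (nat_lit 5536648468) (nat_lit 1064) (nat_lit 9324021467) (nat_lit 1140) (nat_lit 2926823083) (nat_lit 137) (nat_lit 5) (nat_lit 151) (nat_lit 5) (nat_lit 152) (nat_lit 5) (nat_lit 274) (nat_lit 265) (nat_lit 181))) (XT.nd (nat_lit 78) (nat_lit 988) (nat_lit 0) (XT.lf (nat_lit 76) (nat_lit 3019773395) (nat_lit 0) (nat_lit 4402860115) (nat_lit 1140) (nat_lit 10853085472) (nat_lit 138) (nat_lit 5) (nat_lit 137) (nat_lit 5) (nat_lit 152) (nat_lit 5) (nat_lit 275) (nat_lit 265) (nat_lit 180)) (XT.nd (nat_lit 78) (nat_lit 1064)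 (nat_lit 0) (XT.lf (nat_lit 0) (nat_lit 9542420942) (nat_lit 1064) (nat_lit 2691532582) (nat_lit 76) (nat_lit 6550278764) (nat_lit 138) (nat_lit 5) (nat_lit 152) (nat_lit 5) (nat_lit 139) (nat_lit 5) (nat_lit 276) (nat_lit 265) (nat_lit 179)) (XT.lf (nat_lit 0) (nat_lit 10647793120) (nat_lit 1064) (nat_lit 1247520685) (nat_lit 1140) (nat_lit 7419102199) (nat_lit 124) (nat_lit 5) (nat_lit 138) (nat_lit 5) (nat_lit 139) (nat_lit 5) (nat_lit 277) (nat_lit 265) (nat_lit 178)))))) (XT.nd (nat_lit 390) (nat_lit 1672) (nat_lit 0) (XT.nd (nat_lit 156) (nat_lit 1520) (nat_lit 0) (XT.nd (nat_lit 78) (nat_lit 0) (nat_lit 0) (XT.lf (nat_lit 0) (nat_lit 4818082575) (nat_lit 532) (nat_lit 9702092741) (nat_lit 608) (nat_lit 5346359323) (nat_lit 117) (nat_lit 5) (nat_lit 124) (nat_lit 5) (nat_lit 125) (nat_lit 5) (nat_lit 278) (nat_lit 265) (nat_lit 177)) (XT.lf (nat_lit 0) (nat_lit 17376842102) (nat_lit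 608) (nat_lit 1331857967) (nat_lit 76) (nat_lit 1734595087) (nat_lit 117) (nat_lit 5) (nat_lit 125) (nat_lit 5) (nat_lit 118) (nat_lit 5) (nat_lit 279) (nat_lit 265) (nat_lit 176))) (XT.nd (nat_lit 78) (nat_lit 1064) (nat_lit 0) (XT.lf (nat_lit 0) (nat_lit 13214358310) (nat_lit 456) (nat_lit 7369686624) (nat_lit 532) (nat_lit 458667979) (nat_lit 111) (nat_lit 5) (nat_lit 117) (nat_lit 5) (nat_lit 118) (nat_lit 5) (nat_lit 280) (nat_lit 265) (nat_lit 175)) (XT.nd (nat_lit 78) (nat_lit 456) (nat_lit 0) (XT.lf (nat_lit 0) (nat_lit 2343435008) (nat_lit 608) (nat_lit 14772833523) (nat_lit 76) (nat_lit 4551969876) (nat_lit 103) (nat_lit 5) (nat_lit 111) (nat_lit 5) (nat_lit 104) (nat_lit 5) (nat_lit 281) (nat_lit 265) (nat_lit 174)) (XT.lf (nat_lit 0) (nat_lit 102372756) (nat_lit 456) (nat_lit 5314491386) (nat_lit 532) (nat_lit 16903862879) (nat_lit 97) (nat_lit 5) (nat_lit 103) (nat_lit 5) (nat_lit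 104) (nat_lit 5) (nat_lit 282) (nat_lit 265) (nat_lit 173))))) (XT.nd (nat_lit 234) (nat_lit 836) (nat_lit 0) (XT.nd (nat_lit 78) (nat_lit 836) (nat_lit 0) (XT.lf (nat_lit 0) (nat_lit 8850058662) (nat_lit 532) (nat_lit 7056944079) (nat_lit 76) (nat_lit 7092696690) (nat_lit 97) (nat_lit 5) (nat_lit 104) (nat_lit 5) (nat_lit 98) (nat_lit 5) (nat_lit 283) (nat_lit 265) (nat_lit 172)) (XT.nd (nat_lit 78) (nat_lit 380) (nat_lit 0) (XT.lf (nat_lit 0) (nat_lit 8968497569) (nat_lit 456) (nat_lit 3611488296) (nat_lit 532) (nat_lit 11128922586) (nat_lit 91) (nat_lit 5) (nat_lit 97) (nat_lit 5) (nat_lit 98) (nat_lit 5) (nat_lit 284) (nat_lit 265) (nat_lit 171)) (XT.lf (nat_lit 0) (nat_lit 1413334007) (nat_lit 380) (nat_lit 15245185816) (nat_lit 456) (nat_lit 7790233048) (nat_lit 86) (nat_lit 5) (nat_lit 91) (nat_lit 5) (nat_lit 92) (nat_lit 5) (nat_lit 285) (nat_lit 265) (nat_lit 170)))) (XT.nd (nat_lit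 78) (nat_lit 836) (nat_lit 0) (XT.lf (nat_lit 0) (nat_lit 18630640061) (nat_lit 380) (nat_lit 2484482124) (nat_lit 456) (nat_lit 4105279516) (nat_lit 86) (nat_lit 5) (nat_lit 91) (nat_lit 5) (nat_lit 92) (nat_lit 5) (nat_lit 286) (nat_lit 265) (nat_lit 169)) (XT.nd (nat_lit 78) (nat_lit 456) (nat_lit 0) (XT.lf (nat_lit 0) (nat_lit 10768719435) (nat_lit 380) (nat_lit 15221213399) (nat_lit 456) (nat_lit 34873500) (nat_lit 81) (nat_lit 5) (nat_lit 86) (nat_lit 5) (nat_lit 87) (nat_lit 5) (nat_lit 287) (nat_lit 265) (nat_lit 168)) (XT.lf (nat_lit 0) (nat_lit 2227866794) (nat_lit 380) (nat_lit 2030742093) (nat_lit 456) (nat_lit 22606563691) (nat_lit 75) (nat_lit 5) (nat_lit 80) (nat_lit 5) (nat_lit 81) (nat_lit 5) (nat_lit 288) (nat_lit 265) (nat_lit 167))))))))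
noncomputable def xc96 : XT := (XT.nd (nat_lit 1560) (nat_lit 1140) (nat_lit 0) (XT.nd (nat_lit 780) (nat_lit 1520) (nat_lit 0) (XT.nd (nat_lit 390) (nat_lit 836) (nat_lit 0) (XT.nd (nat_lit 156) (nat_lit 684) (nat_lit 0) (XT.nd (nat_lit 78) (nat_lit 380) (nat_lit 0) (XT.lf (nat_lit 0) (nat_lit 9025995459) (nat_lit 456) (nat_lit 6968049707) (nat_lit 76) (nat_lit 11745733633) (nat_lit 75) (nat_lit 5) (nat_lit 81) (nat_lit 5) (nat_lit 76) (nat_lit 5) (nat_lit 289) (nat_lit 265) (nat_lit 166)) (XT.lf (nat_lit 0) (nat_lit 11780229274) (nat_lit 380) (nat_lit 2373569842) (nat_lit 456) (nat_lit 14500683888) (nat_lit 70) (nat_lit 5) (nat_lit 75) (nat_lit 5) (nat_lit 76) (nat_lit 5) (nat_lit 290) (nat_lit 265) (nat_lit 165))) (XT.nd (nat_lit 78) (nat_lit 380) (nat_lit 0) (XT.lf (nat_lit 0) (nat_lit 1906837447) (nat_lit 304) (nat_lit 17825302852) (nat_lit 380) (nat_lit 9876985422) (nat_lit 66) (nat_lit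 5) (nat_lit 70) (nat_lit 5) (nat_lit 71) (nat_lit 5) (nat_lit 291) (nat_lit 265) (nat_lit 164)) (XT.nd (nat_lit 78) (nat_lit 380) (nat_lit 0) (XT.lf (nat_lit 0) (nat_lit 21941799767) (nat_lit 304) (nat_lit 3834154102) (nat_lit 380) (nat_lit 4829976443) (nat_lit 66) (nat_lit 5) (nat_lit 70) (nat_lit 5) (nat_lit 71) (nat_lit 5) (nat_lit 292) (nat_lit 265) (nat_lit 163)) (XT.lf (nat_lit 0) (nat_lit 666087315) (nat_lit 380) (nat_lit 20221415559) (nat_lit 76) (nat_lit 10758785401) (nat_lit 61) (nat_lit 5) (nat_lit 66) (nat_lit 5) (nat_lit 62) (nat_lit 5) (nat_lit 293) (nat_lit 265) (nat_lit 162))))) (XT.nd (nat_lit 156) (nat_lit 532) (nat_lit 0) (XT.nd (nat_lit 78) (nat_lit 304) (nat_lit 0) (XT.lf (nat_lit 0) (nat_lit 6456635483) (nat_lit 380) (nat_lit 137838510) (nat_lit 76) (nat_lit 26139191567) (nat_lit 61) (nat_lit 5) (nat_lit 66) (nat_lit 5) (nat_lit 62) (nat_lit 5) (nat_lit 294) (nat_lit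 265) (nat_lit 161)) (XT.lf (nat_lit 0) (nat_lit 12815216424) (nat_lit 380) (nat_lit 12598112241) (nat_lit 76) (nat_lit 8453750026) (nat_lit 57) (nat_lit 5) (nat_lit 62) (nat_lit 5) (nat_lit 58) (nat_lit 5) (nat_lit 295) (nat_lit 265) (nat_lit 160))) (XT.nd (nat_lit 78) (nat_lit 228) (nat_lit 0) (XT.lf (nat_lit 0) (nat_lit 8784508631) (nat_lit 304) (nat_lit 10850326310) (nat_lit 380) (nat_lit 15418055369) (nat_lit 53) (nat_lit 5) (nat_lit 57) (nat_lit 5) (nat_lit 58) (nat_lit 5) (nat_lit 296) (nat_lit 265) (nat_lit 159)) (XT.nd (nat_lit 78) (nat_lit 228) (nat_lit 0) (XT.lf (nat_lit 0) (nat_lit 26960069273) (nat_lit 380) (nat_lit 4850669644) (nat_lit 76) (nat_lit 4482334627) (nat_lit 53) (nat_lit 5) (nat_lit 58) (nat_lit 5) (nat_lit 54) (nat_lit 5) (nat_lit 297) (nat_lit 265) (nat_lit 158)) (XT.lf (nat_lit 0) (nat_lit 17865490411) (nat_lit 228) (nat_lit 17058730074) (nat_lit 304) (nat_lit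 2662884928) (nat_lit 50) (nat_lit 5) (nat_lit 53) (nat_lit 5) (nat_lit 54) (nat_lit 5) (nat_lit 298) (nat_lit 265) (nat_lit 157)))))) (XT.nd (nat_lit 390) (nat_lit 684) (nat_lit 0) (XT.nd (nat_lit 156) (nat_lit 456) (nat_lit 0) (XT.nd (nat_lit 78) (nat_lit 0) (nat_lit 0) (XT.lf (nat_lit 0) (nat_lit 2877006324) (nat_lit 304) (nat_lit 1448721538) (nat_lit 380) (nat_lit 34616786194) (nat_lit 45) (nat_lit 5) (nat_lit 49) (nat_lit 5) (nat_lit 50) (nat_lit 5) (nat_lit 299) (nat_lit 265) (nat_lit 156)) (XT.lf (nat_lit 0) (nat_lit 11949739316) (nat_lit 380) (nat_lit 13525738072) (nat_lit 76) (nat_lit 14879210414) (nat_lit 45) (nat_lit 5) (nat_lit 50) (nat_lit 5) (nat_lit 46) (nat_lit 5) (nat_lit 300) (nat_lit 265) (nat_lit 155))) (XT.nd (nat_lit 78) (nat_lit 228) (nat_lit 0) (XT.lf (nat_lit 0) (nat_lit 10316955793) (nat_lit 228) (nat_lit 9744050097) (nat_lit 304) (nat_lit 21773298748) (nat_lit 42)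 (nat_lit 5) (nat_lit 45) (nat_lit 5) (nat_lit 46) (nat_lit 5) (nat_lit 301) (nat_lit 265) (nat_lit 154)) (XT.nd (nat_lit 78) (nat_lit 228) (nat_lit 0) (XT.lf (nat_lit 0) (nat_lit 28776064046) (nat_lit 304) (nat_lit 7826451882) (nat_lit 76) (nat_lit 6779454819) (nat_lit 42) (nat_lit 5) (nat_lit 46) (nat_lit 5) (nat_lit 43) (nat_lit 5) (nat_lit 302) (nat_lit 265) (nat_lit 153)) (XT.lf (nat_lit 0) (nat_lit 17277632357) (nat_lit 228) (nat_lit 20906530988) (nat_lit 304) (nat_lit 6815152719) (nat_lit 39) (nat_lit 5) (nat_lit 42) (nat_lit 5) (nat_lit 43) (nat_lit 5) (nat_lit 303) (nat_lit 265) (nat_lit 152))))) (XT.nd (nat_lit 156) (nat_lit 380) (nat_lit 0) (XT.nd (nat_lit 78) (nat_lit 228) (nat_lit 0) (XT.lf (nat_lit 0) (nat_lit 1412883753) (nat_lit 304) (nat_lit 2918579831) (nat_lit 76) (nat_lit 42363453331) (nat_lit 38) (nat_lit 5) (nat_lit 42) (nat_lit 5) (nat_lit 39) (nat_lit 5) (nat_lit 304)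 (nat_lit 265) (nat_lit 151)) (XT.lf (nat_lit 0) (nat_lit 10260530768) (nat_lit 304) (nat_lit 25090199613) (nat_lit 76) (nat_lit 13112081243) (nat_lit 35) (nat_lit 5) (nat_lit 39) (nat_lit 5) (nat_lit 36) (nat_lit 5) (nat_lit 305) (nat_lit 265) (nat_lit 150))) (XT.nd (nat_lit 78) (nat_lit 152) (nat_lit 0) (XT.lf (nat_lit 0) (nat_lit 680980394) (nat_lit 228) (nat_lit 18943737910) (nat_lit 304) (nat_lit 30692170220) (nat_lit 32) (nat_lit 5) (nat_lit 35) (nat_lit 5) (nat_lit 36) (nat_lit 5) (nat_lit 306) (nat_lit 265) (nat_lit 149)) (XT.nd (nat_lit 78) (nat_lit 152) (nat_lit 0) (XT.lf (nat_lit 0) (nat_lit 28255856088) (nat_lit 228) (nat_lit 1453311442) (nat_lit 304) (nat_lit 22546951792) (nat_lit 32) (nat_lit 5) (nat_lit 35) (nat_lit 5) (nat_lit 36) (nat_lit 5) (nat_lit 307) (nat_lit 265) (nat_lit 148)) (XT.lf (nat_lit 0) (nat_lit 2800343824) (nat_lit 152) (nat_lit 37681019511) (nat_lit 228)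 (nat_lit 13805453670) (nat_lit 30) (nat_lit 5) (nat_lit 32) (nat_lit 5) (nat_lit 33) (nat_lit 5) (nat_lit 308) (nat_lit 265) (nat_lit 147))))))) (XT.nd (nat_lit 780) (nat_lit 304) (nat_lit 0) (XT.nd (nat_lit 390) (nat_lit 380) (nat_lit 0) (XT.nd (nat_lit 156) (nat_lit 152) (nat_lit 0) (XT.nd (nat_lit 78) (nat_lit 304) (nat_lit 0) (XT.lf (nat_lit 0) (nat_lit 31418910825) (nat_lit 152) (nat_lit 20629085645) (nat_lit 228) (nat_lit 4363388817) (nat_lit 30) (nat_lit 5) (nat_lit 32) (nat_lit 5) (nat_lit 33) (nat_lit 5) (nat_lit 309) (nat_lit 265) (nat_lit 146)) (XT.lf (nat_lit 0) (nat_lit 2819532655) (nat_lit 228) (nat_lit 2644485273) (nat_lit 304) (nat_lit 53175926446) (nat_lit 26) (nat_lit 5) (nat_lit 29) (nat_lit 5) (nat_lit 30) (nat_lit 5) (nat_lit 310) (nat_lit 265) (nat_lit 145))) (XT.nd (nat_lit 78) (nat_lit 152) (nat_lit 0) (XT.lf (nat_lit 0) (nat_lit 16103928640) (nat_lit 304) (nat_lit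 28638751909) (nat_lit 76) (nat_lit 16223622837) (nat_lit 26) (nat_lit 5) (nat_lit 30) (nat_lit 5) (nat_lit 27) (nat_lit 5) (nat_lit 311) (nat_lit 265) (nat_lit 144)) (XT.nd (nat_lit 78) (nat_lit 152) (nat_lit 0) (XT.lf (nat_lit 0) (nat_lit 27297393991) (nat_lit 304) (nat_lit 132564874) (nat_lit 76) (nat_lit 35978383550) (nat_lit 26) (nat_lit 5) (nat_lit 30) (nat_lit 5) (nat_lit 27) (nat_lit 5) (nat_lit 312) (nat_lit 265) (nat_lit 143)) (XT.lf (nat_lit 0) (nat_lit 30384349772) (nat_lit 152) (nat_lit 8953367865) (nat_lit 228) (nat_lit 26626158628) (nat_lit 24) (nat_lit 5) (nat_lit 26) (nat_lit 5) (nat_lit 27) (nat_lit 5) (nat_lit 313) (nat_lit 265) (nat_lit 142))))) (XT.nd (nat_lit 156) (nat_lit 228) (nat_lit 0) (XT.nd (nat_lit 78) (nat_lit 152) (nat_lit 0) (XT.lf (nat_lit 0) (nat_lit 52077109460) (nat_lit 228) (nat_lit 6325102883) (nat_lit 76) (nat_lit 10242070923) (nat_lit 24) (nat_lit 5)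 (nat_lit 27) (nat_lit 5) (nat_lit 25) (nat_lit 5) (nat_lit 314) (nat_lit 265) (nat_lit 141)) (XT.lf (nat_lit 0) (nat_lit 24778136070) (nat_lit 152) (nat_lit 40999362471) (nat_lit 228) (nat_lit 5671498883) (nat_lit 22) (nat_lit 5) (nat_lit 24) (nat_lit 5) (nat_lit 25) (nat_lit 5) (nat_lit 315) (nat_lit 265) (nat_lit 140))) (XT.nd (nat_lit 78) (nat_lit 152) (nat_lit 0) (XT.lf (nat_lit 0) (nat_lit 5717718335) (nat_lit 228) (nat_lit 16886321458) (nat_lit 76) (nat_lit 51786410962) (nat_lit 21) (nat_lit 5) (nat_lit 24) (nat_lit 5) (nat_lit 22) (nat_lit 5) (nat_lit 316) (nat_lit 265) (nat_lit 139)) (XT.nd (nat_lit 78) (nat_lit 0) (nat_lit 0) (XT.lf (nat_lit 0) (nat_lit 14608658603) (nat_lit 152) (nat_lit 3087746629) (nat_lit 228) (nat_lit 59776774520) (nat_lit 19) (nat_lit 5) (nat_lit 21) (nat_lit 5) (nat_lit 22) (nat_lit 5) (nat_lit 317) (nat_lit 265) (nat_lit 138)) (XT.lf (nat_lit 0) (nat_lit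 30612781470) (nat_lit 228) (nat_lit 32849117800) (nat_lit 76) (nat_lit 17237989682) (nat_lit 19) (nat_lit 5) (nat_lit 22) (nat_lit 5) (nat_lit 20) (nat_lit 5) (nat_lit 318) (nat_lit 265) (nat_lit 137)))))) (XT.nd (nat_lit 390) (nat_lit 0) (nat_lit 0) (XT.nd (nat_lit 156) (nat_lit 152) (nat_lit 0) (XT.nd (nat_lit 78) (nat_lit 152) (nat_lit 0) (XT.lf (nat_lit 0) (nat_lit 44202239764) (nat_lit 228) (nat_lit 1370326005) (nat_lit 76) (nat_lit 38514556047) (nat_lit 19) (nat_lit 5) (nat_lit 22) (nat_lit 5) (nat_lit 20) (nat_lit 5) (nat_lit 319) (nat_lit 265) (nat_lit 136)) (XT.lf (nat_lit 0) (nat_lit 32306909214) (nat_lit 152) (nat_lit 26471099219) (nat_lit 228) (nat_lit 28856508575) (nat_lit 17) (nat_lit 5) (nat_lit 19) (nat_lit 5) (nat_lit 20) (nat_lit 5) (nat_lit 320) (nat_lit 265) (nat_lit 135))) (XT.nd (nat_lit 78) (nat_lit 152) (nat_lit 0) (XT.lf (nat_lit 0) (nat_lit 67690891354) (nat_lit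 152) (nat_lit 6402185852) (nat_lit 228) (nat_lit 17265894935) (nat_lit 17) (nat_lit 5) (nat_lit 19) (nat_lit 5) (nat_lit 20) (nat_lit 5) (nat_lit 321) (nat_lit 265) (nat_lit 134)) (XT.nd (nat_lit 78) (nat_lit 76) (nat_lit 0) (XT.lf (nat_lit 0) (nat_lit 9615471348) (nat_lit 76) (nat_lit 80788433352) (nat_lit 152) (nat_lit 4858850444) (nat_lit 16) (nat_lit 5) (nat_lit 17) (nat_lit 5) (nat_lit 18) (nat_lit 4) (nat_lit 322) (nat_lit 265) (nat_lit 133)) (XT.lf (nat_lit 0) (nat_lit 8316452537) (nat_lit 152) (nat_lit 54447653265) (nat_lit 76) (nat_lit 36586051613) (nat_lit 15) (nat_lit 5) (nat_lit 17) (nat_lit 5) (nat_lit 16) (nat_lit 5) (nat_lit 323) (nat_lit 265) (nat_lit 132))))) (XT.nd (nat_lit 33150) (nat_lit 0) (nat_lit 9956) (XT.nd (nat_lit 32994) (nat_lit 0) (nat_lit 9956) (XT.lf (nat_lit 0) (nat_lit 22047757652) (nat_lit 152) (nat_lit 21742299355) (nat_lit 76) (nat_lit 59850502446) (nat_lit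 15) (nat_lit 5) (nat_lit 17) (nat_lit 5) (nat_lit 16) (nat_lit 5) (nat_lit 324) (nat_lit 265) (nat_lit 131)) (XT.nd (nat_lit 78) (nat_lit 0) (nat_lit 0) (XT.lf (nat_lit 0) (nat_lit 3002630943) (nat_lit 0) (nat_lit 3002630943) (nat_lit 988) (nat_lit 1429007236) (nat_lit 146) (nat_lit 5) (nat_lit 146) (nat_lit 3) (nat_lit 159) (nat_lit 3) (nat_lit 266) (nat_lit 266) (nat_lit 188)) (XT.lf (nat_lit 76) (nat_lit 995274806) (nat_lit 0) (nat_lit 11796851126) (nat_lit 1064) (nat_lit 2432301364) (nat_lit 147) (nat_lit 5) (nat_lit 146) (nat_lit 5) (nat_lit 160) (nat_lit 5) (nat_lit 267) (nat_lit 266) (nat_lit 187)))) (XT.nd (nat_lit 78) (nat_lit 0) (nat_lit 76) (XT.lf (nat_lit 76) (nat_lit 11454758510) (nat_lit 0) (nat_lit 2281240254) (nat_lit 1064) (nat_lit 1858504925) (nat_lit 147) (nat_lit 5) (nat_lit 146) (nat_lit 5) (nat_lit 160) (nat_lit 5) (nat_lit 268) (nat_lit 266) (nat_lit 186)) (XT.nd (nat_lit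 78) (nat_lit 0) (nat_lit 76) (XT.lf (nat_lit 76) (nat_lit 6491019040) (nat_lit 0) (nat_lit 8345941743) (nat_lit 1064) (nat_lit 1142910639) (nat_lit 148) (nat_lit 5) (nat_lit 147) (nat_lit 5) (nat_lit 161) (nat_lit 5) (nat_lit 269) (nat_lit 266) (nat_lit 185)) (XT.lf (nat_lit 76) (nat_lit 1327613702) (nat_lit 0) (nat_lit 14734075943) (nat_lit 1064) (nat_lit 320836706) (nat_lit 149) (nat_lit 5) (nat_lit 148) (nat_lit 5) (nat_lit 162) (nat_lit 5) (nat_lit 270) (nat_lit 266) (nat_lit 184))))))))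
noncomputable def xc97 : XT := (XT.nd (nat_lit 1560) (nat_lit 3724) (nat_lit 0) (XT.nd (nat_lit 780) (nat_lit 3192) (nat_lit 0) (XT.nd (nat_lit 390) (nat_lit 1292) (nat_lit 0) (XT.nd (nat_lit 156) (nat_lit 0) (nat_lit 76) (XT.nd (nat_lit 78) (nat_lit 0) (nat_lit 76) (XT.lf (nat_lit 0) (nat_lit 689989580) (nat_lit 1064) (nat_lit 4025868291) (nat_lit 1140) (nat_lit 12084627120) (nat_lit 134) (nat_lit 5) (nat_lit 148) (nat_lit 5) (nat_lit 149) (nat_lit 5) (nat_lit 271) (nat_lit 266) (nat_lit 183)) (XT.lf (nat_lit 0) (nat_lit 1851811398) (nat_lit 1064) (nat_lit 9608543369) (nat_lit 1140) (nat_lit 5775749585) (nat_lit 135) (nat_lit 5) (nat_lit 149) (nat_lit 5) (nat_lit 150) (nat_lit 5) (nat_lit 272) (nat_lit 266) (nat_lit 182))) (XT.nd (nat_lit 78) (nat_lit 0) (nat_lit 76) (XT.lf (nat_lit 76) (nat_lit 2235283938) (nat_lit 0) (nat_lit 924945371) (nat_lit 1140) (nat_lit 14530687626) (nat_lit 136)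 (nat_lit 5) (nat_lit 135) (nat_lit 5) (nat_lit 150) (nat_lit 5) (nat_lit 273) (nat_lit 266) (nat_lit 181)) (XT.nd (nat_lit 78) (nat_lit 0) (nat_lit 76) (XT.lf (nat_lit 0) (nat_lit 4709949888) (nat_lit 1064) (nat_lit 3408003394) (nat_lit 1140) (nat_lit 10045304607) (nat_lit 136) (nat_lit 5) (nat_lit 150) (nat_lit 5) (nat_lit 151) (nat_lit 5) (nat_lit 274) (nat_lit 266) (nat_lit 180)) (XT.lf (nat_lit 0) (nat_lit 6445111744) (nat_lit 1064) (nat_lit 9284870931) (nat_lit 1140) (nat_lit 2926055697) (nat_lit 137) (nat_lit 5) (nat_lit 151) (nat_lit 5) (nat_lit 152) (nat_lit 5) (nat_lit 275) (nat_lit 266) (nat_lit 179))))) (XT.nd (nat_lit 156) (nat_lit 1520) (nat_lit 0) (XT.nd (nat_lit 78) (nat_lit 0) (nat_lit 76) (XT.lf (nat_lit 76) (nat_lit 3661627872) (nat_lit 0) (nat_lit 4738409008) (nat_lit 1140) (nat_lit 10769489069) (nat_lit 138) (nat_lit 5) (nat_lit 137) (nat_lit 5) (nat_lit 152) (nat_lit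 5) (nat_lit 276) (nat_lit 266) (nat_lit 178)) (XT.lf (nat_lit 0) (nat_lit 10595887078) (nat_lit 1064) (nat_lit 2338533839) (nat_lit 76) (nat_lit 6770027080) (nat_lit 138) (nat_lit 5) (nat_lit 152) (nat_lit 5) (nat_lit 139) (nat_lit 5) (nat_lit 277) (nat_lit 266) (nat_lit 177))) (XT.nd (nat_lit 78) (nat_lit 532) (nat_lit 0) (XT.lf (nat_lit 0) (nat_lit 11653781898) (nat_lit 1064) (nat_lit 1389750207) (nat_lit 1140) (nat_lit 7218376785) (nat_lit 124) (nat_lit 5) (nat_lit 138) (nat_lit 5) (nat_lit 139) (nat_lit 5) (nat_lit 278) (nat_lit 266) (nat_lit 176)) (XT.nd (nat_lit 78) (nat_lit 0) (nat_lit 0) (XT.lf (nat_lit 0) (nat_lit 5537461215) (nat_lit 532) (nat_lit 10239688932) (nat_lit 608) (nat_lit 5065235256) (nat_lit 117) (nat_lit 5) (nat_lit 124) (nat_lit 5) (nat_lit 125) (nat_lit 5) (nat_lit 279) (nat_lit 266) (nat_lit 175)) (XT.lf (nat_lit 0) (nat_lit 18750885620) (nat_lit 608) (nat_lit 925636522)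 (nat_lit 76) (nat_lit 1772308408) (nat_lit 117) (nat_lit 5) (nat_lit 125) (nat_lit 5) (nat_lit 118) (nat_lit 5) (nat_lit 280) (nat_lit 266) (nat_lit 174)))))) (XT.nd (nat_lit 390) (nat_lit 1216) (nat_lit 0) (XT.nd (nat_lit 156) (nat_lit 912) (nat_lit 0) (XT.nd (nat_lit 78) (nat_lit 532) (nat_lit 0) (XT.lf (nat_lit 0) (nat_lit 19538597) (nat_lit 532) (nat_lit 7744732745) (nat_lit 76) (nat_lit 14314601542) (nat_lit 110) (nat_lit 5) (nat_lit 117) (nat_lit 5) (nat_lit 111) (nat_lit 5) (nat_lit 281) (nat_lit 266) (nat_lit 173)) (XT.lf (nat_lit 0) (nat_lit 2933173108) (nat_lit 608) (nat_lit 15038918497) (nat_lit 76) (nat_lit 4764084308) (nat_lit 103) (nat_lit 5) (nat_lit 111) (nat_lit 5) (nat_lit 104) (nat_lit 5) (nat_lit 282) (nat_lit 266) (nat_lit 172))) (XT.nd (nat_lit 78) (nat_lit 456) (nat_lit 0) (XT.lf (nat_lit 0) (nat_lit 566502353) (nat_lit 456) (nat_lit 5575680481) (nat_lit 532) (nat_lit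 17279710633) (nat_lit 97) (nat_lit 5) (nat_lit 103) (nat_lit 5) (nat_lit 104) (nat_lit 5) (nat_lit 283) (nat_lit 266) (nat_lit 171)) (XT.nd (nat_lit 78) (nat_lit 456) (nat_lit 0) (XT.lf (nat_lit 0) (nat_lit 9725436913) (nat_lit 532) (nat_lit 6958517696) (nat_lit 76) (nat_lit 7451566735) (nat_lit 97) (nat_lit 5) (nat_lit 104) (nat_lit 5) (nat_lit 98) (nat_lit 5) (nat_lit 284) (nat_lit 266) (nat_lit 170)) (XT.lf (nat_lit 0) (nat_lit 9855260368) (nat_lit 456) (nat_lit 3770200569) (nat_lit 532) (nat_lit 11255277900) (nat_lit 91) (nat_lit 5) (nat_lit 97) (nat_lit 5) (nat_lit 98) (nat_lit 5) (nat_lit 285) (nat_lit 266) (nat_lit 169))))) (XT.nd (nat_lit 156) (nat_lit 836) (nat_lit 0) (XT.nd (nat_lit 78) (nat_lit 0) (nat_lit 0) (XT.lf (nat_lit 0) (nat_lit 1922794395) (nat_lit 380) (nat_lit 15969713117) (nat_lit 456) (nat_lit 7765583760) (nat_lit 86) (nat_lit 5) (nat_lit 91) (nat_lit 5) (nat_lit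 92) (nat_lit 5) (nat_lit 286) (nat_lit 266) (nat_lit 168)) (XT.lf (nat_lit 0) (nat_lit 19980070814) (nat_lit 380) (nat_lit 2572771002) (nat_lit 456) (nat_lit 3916104501) (nat_lit 86) (nat_lit 5) (nat_lit 91) (nat_lit 5) (nat_lit 92) (nat_lit 5) (nat_lit 287) (nat_lit 266) (nat_lit 167))) (XT.nd (nat_lit 78) (nat_lit 380) (nat_lit 0) (XT.lf (nat_lit 0) (nat_lit 336810336) (nat_lit 456) (nat_lit 15592479481) (nat_lit 76) (nat_lit 11384646045) (nat_lit 80) (nat_lit 5) (nat_lit 86) (nat_lit 5) (nat_lit 81) (nat_lit 5) (nat_lit 288) (nat_lit 266) (nat_lit 166)) (XT.nd (nat_lit 78) (nat_lit 0) (nat_lit 0) (XT.lf (nat_lit 0) (nat_lit 2753106992) (nat_lit 380) (nat_lit 2077375230) (nat_lit 456) (nat_lit 23366285500) (nat_lit 75) (nat_lit 5) (nat_lit 80) (nat_lit 5) (nat_lit 81) (nat_lit 5) (nat_lit 289) (nat_lit 266) (nat_lit 165)) (XT.lf (nat_lit 0) (nat_lit 9819648243) (nat_lit 456) (nat_lit 6911706885)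 (nat_lit 76) (nat_lit 12384289451) (nat_lit 75) (nat_lit 5) (nat_lit 81) (nat_lit 5) (nat_lit 76) (nat_lit 5) (nat_lit 290) (nat_lit 266) (nat_lit 164))))))) (XT.nd (nat_lit 780) (nat_lit 1444) (nat_lit 0) (XT.nd (nat_lit 390) (nat_lit 912) (nat_lit 0) (XT.nd (nat_lit 156) (nat_lit 684) (nat_lit 0) (XT.nd (nat_lit 78) (nat_lit 304) (nat_lit 0) (XT.lf (nat_lit 0) (nat_lit 12762384102) (nat_lit 380) (nat_lit 2428934591) (nat_lit 456) (nat_lit 14885181601) (nat_lit 70) (nat_lit 5) (nat_lit 75) (nat_lit 5) (nat_lit 76) (nat_lit 5) (nat_lit 291) (nat_lit 266) (nat_lit 163)) (XT.lf (nat_lit 0) (nat_lit 2393862093) (nat_lit 304) (nat_lit 18643353393) (nat_lit 380) (nat_lit 10042039169) (nat_lit 66) (nat_lit 5) (nat_lit 70) (nat_lit 5) (nat_lit 71) (nat_lit 5) (nat_lit 292) (nat_lit 266) (nat_lit 162))) (XT.nd (nat_lit 78) (nat_lit 684) (nat_lit 0) (XT.lf (nat_lit 0) (nat_lit 23411920969) (nat_lit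 304) (nat_lit 3956133615) (nat_lit 380) (nat_lit 4758336672) (nat_lit 66) (nat_lit 5) (nat_lit 70) (nat_lit 5) (nat_lit 71) (nat_lit 5) (nat_lit 293) (nat_lit 266) (nat_lit 161)) (XT.nd (nat_lit 78) (nat_lit 304) (nat_lit 0) (XT.lf (nat_lit 0) (nat_lit 996048026) (nat_lit 380) (nat_lit 20854660383) (nat_lit 76) (nat_lit 11368313608) (nat_lit 61) (nat_lit 5) (nat_lit 66) (nat_lit 5) (nat_lit 62) (nat_lit 5) (nat_lit 294) (nat_lit 266) (nat_lit 160)) (XT.lf (nat_lit 0) (nat_lit 219384792) (nat_lit 304) (nat_lit 6844721178) (nat_lit 380) (nat_lit 27297055153) (nat_lit 57) (nat_lit 5) (nat_lit 61) (nat_lit 5) (nat_lit 62) (nat_lit 5) (nat_lit 295) (nat_lit 266) (nat_lit 159))))) (XT.nd (nat_lit 156) (nat_lit 608) (nat_lit 0) (XT.nd (nat_lit 78) (nat_lit 304) (nat_lit 0) (XT.lf (nat_lit 0) (nat_lit 13729154068) (nat_lit 380) (nat_lit 12870448419) (nat_lit 76) (nat_lit 8952017163) (nat_lit 57)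 (nat_lit 5) (nat_lit 62) (nat_lit 5) (nat_lit 58) (nat_lit 5) (nat_lit 296) (nat_lit 266) (nat_lit 158)) (XT.lf (nat_lit 0) (nat_lit 9571053841) (nat_lit 304) (nat_lit 11309029900) (nat_lit 380) (nat_lit 15916957614) (nat_lit 53) (nat_lit 5) (nat_lit 57) (nat_lit 5) (nat_lit 58) (nat_lit 5) (nat_lit 297) (nat_lit 266) (nat_lit 157))) (XT.nd (nat_lit 78) (nat_lit 608) (nat_lit 0) (XT.lf (nat_lit 0) (nat_lit 28559799130) (nat_lit 380) (nat_lit 4755100661) (nat_lit 76) (nat_lit 4784715394) (nat_lit 53) (nat_lit 5) (nat_lit 58) (nat_lit 5) (nat_lit 54) (nat_lit 5) (nat_lit 298) (nat_lit 266) (nat_lit 156)) (XT.nd (nat_lit 78) (nat_lit 380) (nat_lit 0) (XT.lf (nat_lit 0) (nat_lit 19087175758) (nat_lit 228) (nat_lit 17826152060) (nat_lit 304) (nat_lit 2545312410) (nat_lit 50) (nat_lit 5) (nat_lit 53) (nat_lit 5) (nat_lit 54) (nat_lit 5) (nat_lit 299) (nat_lit 266) (nat_lit 155)) (XT.lf (nat_lit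 0) (nat_lit 3345108961) (nat_lit 304) (nat_lit 1434140661) (nat_lit 380) (nat_lit 36102779718) (nat_lit 45) (nat_lit 5) (nat_lit 49) (nat_lit 5) (nat_lit 50) (nat_lit 5) (nat_lit 300) (nat_lit 266) (nat_lit 154)))))) (XT.nd (nat_lit 390) (nat_lit 912) (nat_lit 0) (XT.nd (nat_lit 156) (nat_lit 304) (nat_lit 0) (XT.nd (nat_lit 78) (nat_lit 228) (nat_lit 0) (XT.lf (nat_lit 0) (nat_lit 12773961354) (nat_lit 380) (nat_lit 13886761852) (nat_lit 76) (nat_lit 15704427068) (nat_lit 45) (nat_lit 5) (nat_lit 50) (nat_lit 5) (nat_lit 46) (nat_lit 5) (nat_lit 301) (nat_lit 266) (nat_lit 153)) (XT.lf (nat_lit 0) (nat_lit 11139029752) (nat_lit 228) (nat_lit 10143908231) (nat_lit 304) (nat_lit 22636067944) (nat_lit 42) (nat_lit 5) (nat_lit 45) (nat_lit 5) (nat_lit 46) (nat_lit 5) (nat_lit 302) (nat_lit 266) (nat_lit 152))) (XT.nd (nat_lit 78) (nat_lit 304) (nat_lit 0) (XT.lf (nat_lit 0) (nat_lit 30424125730)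 (nat_lit 304) (nat_lit 7920250185) (nat_lit 76) (nat_lit 7199989434) (nat_lit 42) (nat_lit 5) (nat_lit 46) (nat_lit 5) (nat_lit 43) (nat_lit 5) (nat_lit 303) (nat_lit 266) (nat_lit 151)) (XT.nd (nat_lit 78) (nat_lit 76) (nat_lit 0) (XT.lf (nat_lit 0) (nat_lit 18430509792) (nat_lit 228) (nat_lit 21864933516) (nat_lit 304) (nat_lit 6947370518) (nat_lit 39) (nat_lit 5) (nat_lit 42) (nat_lit 5) (nat_lit 43) (nat_lit 5) (nat_lit 304) (nat_lit 266) (nat_lit 150)) (XT.lf (nat_lit 0) (nat_lit 1678261725) (nat_lit 304) (nat_lit 2785023826) (nat_lit 76) (nat_lit 44560159896) (nat_lit 38) (nat_lit 5) (nat_lit 42) (nat_lit 5) (nat_lit 39) (nat_lit 5) (nat_lit 305) (nat_lit 266) (nat_lit 149))))) (XT.nd (nat_lit 234) (nat_lit 456) (nat_lit 0) (XT.nd (nat_lit 78) (nat_lit 228) (nat_lit 0) (XT.lf (nat_lit 0) (nat_lit 10962429347) (nat_lit 304) (nat_lit 26068038165) (nat_lit 76) (nat_lit 13849461104) (nat_lit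 35) (nat_lit 5) (nat_lit 39) (nat_lit 5) (nat_lit 36) (nat_lit 5) (nat_lit 306) (nat_lit 266) (nat_lit 148)) (XT.nd (nat_lit 78) (nat_lit 0) (nat_lit 0) (XT.lf (nat_lit 0) (nat_lit 983770112) (nat_lit 228) (nat_lit 19804645542) (nat_lit 304) (nat_lit 32038503046) (nat_lit 32) (nat_lit 5) (nat_lit 35) (nat_lit 5) (nat_lit 36) (nat_lit 5) (nat_lit 307) (nat_lit 266) (nat_lit 147)) (XT.lf (nat_lit 0) (nat_lit 29924592415) (nat_lit 228) (nat_lit 1443806287) (nat_lit 304) (nat_lit 23494989205) (nat_lit 32) (nat_lit 5) (nat_lit 35) (nat_lit 5) (nat_lit 36) (nat_lit 5) (nat_lit 308) (nat_lit 266) (nat_lit 146)))) (XT.nd (nat_lit 78) (nat_lit 304) (nat_lit 0) (XT.lf (nat_lit 0) (nat_lit 3193579389) (nat_lit 152) (nat_lit 39480536365) (nat_lit 228) (nat_lit 14321672814) (nat_lit 30) (nat_lit 5) (nat_lit 32) (nat_lit 5) (nat_lit 33) (nat_lit 5) (nat_lit 309) (nat_lit 266) (nat_lit 145)) (XT.nd (nat_lit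 78) (nat_lit 304) (nat_lit 0) (XT.lf (nat_lit 0) (nat_lit 33231016722) (nat_lit 152) (nat_lit 21580031240) (nat_lit 228) (nat_lit 4415792982) (nat_lit 30) (nat_lit 5) (nat_lit 32) (nat_lit 5) (nat_lit 33) (nat_lit 5) (nat_lit 310) (nat_lit 266) (nat_lit 144)) (XT.lf (nat_lit 0) (nat_lit 3198176095) (nat_lit 228) (nat_lit 2696118374) (nat_lit 304) (nat_lit 55672662956) (nat_lit 26) (nat_lit 5) (nat_lit 29) (nat_lit 5) (nat_lit 30) (nat_lit 5) (nat_lit 311) (nat_lit 266) (nat_lit 143))))))))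
noncomputable def xc98 : XT := (XT.nd (nat_lit 34554) (nat_lit 0) (nat_lit 3876) (XT.nd (nat_lit 780) (nat_lit 152) (nat_lit 0) (XT.nd (nat_lit 390) (nat_lit 380) (nat_lit 0) (XT.nd (nat_lit 156) (nat_lit 152) (nat_lit 0) (XT.nd (nat_lit 78) (nat_lit 152) (nat_lit 0) (XT.lf (nat_lit 0) (nat_lit 17059458726) (nat_lit 304) (nat_lit 29840331139) (nat_lit 76) (nat_lit 17110059730) (nat_lit 26) (nat_lit 5) (nat_lit 30) (nat_lit 5) (nat_lit 27) (nat_lit 5) (nat_lit 312) (nat_lit 266) (nat_lit 142)) (XT.lf (nat_lit 0) (nat_lit 81791854) (nat_lit 152) (nat_lit 28724432978) (nat_lit 228) (nat_lit 37767969251) (nat_lit 24) (nat_lit 5) (nat_lit 26) (nat_lit 5) (nat_lit 27) (nat_lit 5) (nat_lit 313) (nat_lit 266) (nat_lit 141))) (XT.nd (nat_lit 78) (nat_lit 152) (nat_lit 0) (XT.lf (nat_lit 0) (nat_lit 32116667440) (nat_lit 152) (nat_lit 9326341584) (nat_lit 228) (nat_lit 27814674014) (nat_lit 24) (nat_lit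 5) (nat_lit 26) (nat_lit 5) (nat_lit 27) (nat_lit 5) (nat_lit 314) (nat_lit 266) (nat_lit 140)) (XT.nd (nat_lit 78) (nat_lit 152) (nat_lit 0) (XT.lf (nat_lit 0) (nat_lit 54813463519) (nat_lit 228) (nat_lit 6434911161) (nat_lit 76) (nat_lit 10823924101) (nat_lit 24) (nat_lit 5) (nat_lit 27) (nat_lit 5) (nat_lit 25) (nat_lit 5) (nat_lit 315) (nat_lit 266) (nat_lit 139)) (XT.lf (nat_lit 0) (nat_lit 26217571982) (nat_lit 152) (nat_lit 42976918224) (nat_lit 228) (nat_lit 5822900547) (nat_lit 22) (nat_lit 5) (nat_lit 24) (nat_lit 5) (nat_lit 25) (nat_lit 5) (nat_lit 316) (nat_lit 266) (nat_lit 138))))) (XT.nd (nat_lit 156) (nat_lit 152) (nat_lit 0) (XT.nd (nat_lit 78) (nat_lit 152) (nat_lit 0) (XT.lf (nat_lit 0) (nat_lit 6127027207) (nat_lit 228) (nat_lit 17537004085) (nat_lit 76) (nat_lit 54442042328) (nat_lit 21) (nat_lit 5) (nat_lit 24) (nat_lit 5) (nat_lit 22) (nat_lit 5) (nat_lit 317) (nat_lit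 266) (nat_lit 137)) (XT.lf (nat_lit 0) (nat_lit 15527174516) (nat_lit 152) (nat_lit 3173404618) (nat_lit 228) (nat_lit 62642491392) (nat_lit 19) (nat_lit 5) (nat_lit 21) (nat_lit 5) (nat_lit 22) (nat_lit 5) (nat_lit 318) (nat_lit 266) (nat_lit 136))) (XT.nd (nat_lit 78) (nat_lit 152) (nat_lit 0) (XT.lf (nat_lit 0) (nat_lit 32257719885) (nat_lit 228) (nat_lit 34309487474) (nat_lit 76) (nat_lit 18164068391) (nat_lit 19) (nat_lit 5) (nat_lit 22) (nat_lit 5) (nat_lit 20) (nat_lit 5) (nat_lit 319) (nat_lit 266) (nat_lit 135)) (XT.nd (nat_lit 78) (nat_lit 152) (nat_lit 0) (XT.lf (nat_lit 0) (nat_lit 46521208268) (nat_lit 228) (nat_lit 1265426860) (nat_lit 76) (nat_lit 40501406920) (nat_lit 19) (nat_lit 5) (nat_lit 22) (nat_lit 5) (nat_lit 20) (nat_lit 5) (nat_lit 320) (nat_lit 266) (nat_lit 134)) (XT.lf (nat_lit 0) (nat_lit 34090699201) (nat_lit 152) (nat_lit 27731501718) (nat_lit 228) (nat_lit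 30190721118) (nat_lit 17) (nat_lit 5) (nat_lit 19) (nat_lit 5) (nat_lit 20) (nat_lit 5) (nat_lit 321) (nat_lit 266) (nat_lit 133)))))) (XT.nd (nat_lit 33384) (nat_lit 0) (nat_lit 9044) (XT.nd (nat_lit 156) (nat_lit 76) (nat_lit 0) (XT.nd (nat_lit 78) (nat_lit 76) (nat_lit 0) (XT.lf (nat_lit 0) (nat_lit 71235859280) (nat_lit 152) (nat_lit 6662149943) (nat_lit 228) (nat_lit 18025748839) (nat_lit 17) (nat_lit 5) (nat_lit 19) (nat_lit 5) (nat_lit 20) (nat_lit 5) (nat_lit 322) (nat_lit 266) (nat_lit 132)) (XT.lf (nat_lit 0) (nat_lit 10254580220) (nat_lit 76) (nat_lit 84767095358) (nat_lit 152) (nat_lit 5001143060) (nat_lit 16) (nat_lit 5) (nat_lit 17) (nat_lit 5) (nat_lit 18) (nat_lit 4) (nat_lit 323) (nat_lit 266) (nat_lit 131))) (XT.nd (nat_lit 33072) (nat_lit 0) (nat_lit 9956) (XT.lf (nat_lit 0) (nat_lit 8826261701) (nat_lit 152) (nat_lit 57017233968) (nat_lit 76) (nat_lit 38471214105) (nat_lit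 15) (nat_lit 5) (nat_lit 17) (nat_lit 5) (nat_lit 16) (nat_lit 5) (nat_lit 324) (nat_lit 266) (nat_lit 130)) (XT.nd (nat_lit 78) (nat_lit 0) (nat_lit 0) (XT.lf (nat_lit 0) (nat_lit 3368472232) (nat_lit 0) (nat_lit 3368472232) (nat_lit 988) (nat_lit 1054732906) (nat_lit 146) (nat_lit 5) (nat_lit 146) (nat_lit 3) (nat_lit 159) (nat_lit 3) (nat_lit 267) (nat_lit 267) (nat_lit 186)) (XT.lf (nat_lit 76) (nat_lit 1495909975) (nat_lit 0) (nat_lit 12757958113) (nat_lit 1064) (nat_lit 1704521022) (nat_lit 147) (nat_lit 5) (nat_lit 146) (nat_lit 5) (nat_lit 160) (nat_lit 5) (nat_lit 268) (nat_lit 267) (nat_lit 185))))) (XT.nd (nat_lit 156) (nat_lit 912) (nat_lit 0) (XT.nd (nat_lit 78) (nat_lit 0) (nat_lit 76) (XT.lf (nat_lit 76) (nat_lit 12456897796) (nat_lit 0) (nat_lit 2748887439) (nat_lit 1064) (nat_lit 1142482161) (nat_lit 147) (nat_lit 5) (nat_lit 146) (nat_lit 5) (nat_lit 160) (nat_lit 5) (nat_lit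 269) (nat_lit 267) (nat_lit 184)) (XT.lf (nat_lit 76) (nat_lit 7261181394) (nat_lit 0) (nat_lit 9064375352) (nat_lit 1064) (nat_lit 428551638) (nat_lit 148) (nat_lit 5) (nat_lit 147) (nat_lit 5) (nat_lit 161) (nat_lit 5) (nat_lit 270) (nat_lit 267) (nat_lit 183))) (XT.nd (nat_lit 78) (nat_lit 0) (nat_lit 0) (XT.lf (nat_lit 0) (nat_lit 391801935) (nat_lit 1064) (nat_lit 15328175155) (nat_lit 1140) (nat_lit 1457932760) (nat_lit 134) (nat_lit 5) (nat_lit 148) (nat_lit 5) (nat_lit 149) (nat_lit 5) (nat_lit 271) (nat_lit 267) (nat_lit 182)) (XT.nd (nat_lit 78) (nat_lit 0) (nat_lit 76) (XT.lf (nat_lit 0) (nat_lit 1412209786) (nat_lit 1064) (nat_lit 3773595187) (nat_lit 1140) (nat_lit 12431999537) (nat_lit 134) (nat_lit 5) (nat_lit 148) (nat_lit 5) (nat_lit 149) (nat_lit 5) (nat_lit 272) (nat_lit 267) (nat_lit 181)) (XT.lf (nat_lit 0) (nat_lit 2601507350) (nat_lit 1064) (nat_lit 9624553087) (nat_lit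 1140) (nat_lit 5850161581) (nat_lit 135) (nat_lit 5) (nat_lit 149) (nat_lit 5) (nat_lit 150) (nat_lit 5) (nat_lit 273) (nat_lit 267) (nat_lit 180))))))) (XT.nd (nat_lit 780) (nat_lit 2812) (nat_lit 0) (XT.nd (nat_lit 390) (nat_lit 2432) (nat_lit 0) (XT.nd (nat_lit 156) (nat_lit 0) (nat_lit 152) (XT.nd (nat_lit 78) (nat_lit 0) (nat_lit 76) (XT.lf (nat_lit 76) (nat_lit 2798153153) (nat_lit 0) (nat_lit 1150238569) (nat_lit 1140) (nat_lit 14606286160) (nat_lit 136) (nat_lit 5) (nat_lit 135) (nat_lit 5) (nat_lit 150) (nat_lit 5) (nat_lit 274) (nat_lit 267) (nat_lit 179)) (XT.lf (nat_lit 0) (nat_lit 5543951999) (nat_lit 1064) (nat_lit 3127345452) (nat_lit 1140) (nat_lit 10380377363) (nat_lit 136) (nat_lit 5) (nat_lit 150) (nat_lit 5) (nat_lit 151) (nat_lit 5) (nat_lit 275) (nat_lit 267) (nat_lit 178))) (XT.nd (nat_lit 78) (nat_lit 0) (nat_lit 0) (XT.lf (nat_lit 0) (nat_lit 7340275134) (nat_lit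 1064) (nat_lit 9290745670) (nat_lit 1140) (nat_lit 2938926699) (nat_lit 137) (nat_lit 5) (nat_lit 151) (nat_lit 5) (nat_lit 152) (nat_lit 5) (nat_lit 276) (nat_lit 267) (nat_lit 177)) (XT.nd (nat_lit 78) (nat_lit 0) (nat_lit 76) (XT.lf (nat_lit 76) (nat_lit 4289939024) (nat_lit 0) (nat_lit 5080006001) (nat_lit 1140) (nat_lit 10739935697) (nat_lit 138) (nat_lit 5) (nat_lit 137) (nat_lit 5) (nat_lit 152) (nat_lit 5) (nat_lit 277) (nat_lit 267) (nat_lit 176)) (XT.lf (nat_lit 0) (nat_lit 11648443418) (nat_lit 1064) (nat_lit 2013215295) (nat_lit 76) (nat_lit 7010781838) (nat_lit 138) (nat_lit 5) (nat_lit 152) (nat_lit 5) (nat_lit 139) (nat_lit 5) (nat_lit 278) (nat_lit 267) (nat_lit 175))))) (XT.nd (nat_lit 156) (nat_lit 1064) (nat_lit 0) (XT.nd (nat_lit 78) (nat_lit 532) (nat_lit 0) (XT.lf (nat_lit 0) (nat_lit 12666039358) (nat_lit 1064) (nat_lit 1531667184) (nat_lit 1140) (nat_lit 7060764537)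 (nat_lit 124) (nat_lit 5) (nat_lit 138) (nat_lit 5) (nat_lit 139) (nat_lit 5) (nat_lit 279) (nat_lit 267) (nat_lit 174)) (XT.lf (nat_lit 0) (nat_lit 6248324762) (nat_lit 532) (nat_lit 10799284765) (nat_lit 608) (nat_lit 4821043927) (nat_lit 117) (nat_lit 5) (nat_lit 124) (nat_lit 5) (nat_lit 125) (nat_lit 5) (nat_lit 280) (nat_lit 267) (nat_lit 173))) (XT.nd (nat_lit 78) (nat_lit 1064) (nat_lit 0) (XT.lf (nat_lit 0) (nat_lit 20146662475) (nat_lit 608) (nat_lit 543061801) (nat_lit 76) (nat_lit 1816464479) (nat_lit 117) (nat_lit 5) (nat_lit 125) (nat_lit 5) (nat_lit 118) (nat_lit 5) (nat_lit 281) (nat_lit 267) (nat_lit 172)) (XT.nd (nat_lit 78) (nat_lit 532) (nat_lit 0) (XT.lf (nat_lit 0) (nat_lit 466540197) (nat_lit 532) (nat_lit 7705293515) (nat_lit 76) (nat_lit 14996366435) (nat_lit 110) (nat_lit 5) (nat_lit 117) (nat_lit 5) (nat_lit 111) (nat_lit 5) (nat_lit 282) (nat_lit 267) (nat_lit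 171)) (XT.lf (nat_lit 0) (nat_lit 3508463374) (nat_lit 608) (nat_lit 15362241562) (nat_lit 76) (nat_lit 4988244024) (nat_lit 103) (nat_lit 5) (nat_lit 111) (nat_lit 5) (nat_lit 104) (nat_lit 5) (nat_lit 283) (nat_lit 267) (nat_lit 170)))))) (XT.nd (nat_lit 390) (nat_lit 1520) (nat_lit 0) (XT.nd (nat_lit 156) (nat_lit 836) (nat_lit 0) (XT.nd (nat_lit 78) (nat_lit 0) (nat_lit 0) (XT.lf (nat_lit 0) (nat_lit 1011163941) (nat_lit 456) (nat_lit 5850350696) (nat_lit 532) (nat_lit 17717986061) (nat_lit 97) (nat_lit 5) (nat_lit 103) (nat_lit 5) (nat_lit 104) (nat_lit 5) (nat_lit 284) (nat_lit 267) (nat_lit 169)) (XT.lf (nat_lit 0) (nat_lit 10604339431) (nat_lit 532) (nat_lit 6897125134) (nat_lit 76) (nat_lit 7827986533) (nat_lit 97) (nat_lit 5) (nat_lit 104) (nat_lit 5) (nat_lit 98) (nat_lit 5) (nat_lit 285) (nat_lit 267) (nat_lit 168))) (XT.nd (nat_lit 78) (nat_lit 380) (nat_lit 0) (XT.lf (nat_lit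 0) (nat_lit 10745608802) (nat_lit 456) (nat_lit 3938880990) (nat_lit 532) (nat_lit 11427936748) (nat_lit 91) (nat_lit 5) (nat_lit 97) (nat_lit 5) (nat_lit 98) (nat_lit 5) (nat_lit 286) (nat_lit 267) (nat_lit 167)) (XT.nd (nat_lit 78) (nat_lit 0) (nat_lit 0) (XT.lf (nat_lit 0) (nat_lit 2416932924) (nat_lit 380) (nat_lit 16733974745) (nat_lit 456) (nat_lit 7778206766) (nat_lit 86) (nat_lit 5) (nat_lit 91) (nat_lit 5) (nat_lit 92) (nat_lit 5) (nat_lit 287) (nat_lit 267) (nat_lit 166)) (XT.lf (nat_lit 0) (nat_lit 21358120839) (nat_lit 380) (nat_lit 2668815240) (nat_lit 456) (nat_lit 3754141933) (nat_lit 86) (nat_lit 5) (nat_lit 91) (nat_lit 5) (nat_lit 92) (nat_lit 5) (nat_lit 288) (nat_lit 267) (nat_lit 165))))) (XT.nd (nat_lit 234) (nat_lit 684) (nat_lit 0) (XT.nd (nat_lit 78) (nat_lit 380) (nat_lit 0) (XT.lf (nat_lit 0) (nat_lit 691712512) (nat_lit 456) (nat_lit 15985654678) (nat_lit 76)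 (nat_lit 11991271046) (nat_lit 80) (nat_lit 5) (nat_lit 86) (nat_lit 5) (nat_lit 81) (nat_lit 5) (nat_lit 289) (nat_lit 267) (nat_lit 164)) (XT.nd (nat_lit 78) (nat_lit 0) (nat_lit 0) (XT.lf (nat_lit 0) (nat_lit 3266133642) (nat_lit 380) (nat_lit 2131444475) (nat_lit 456) (nat_lit 24198448867) (nat_lit 75) (nat_lit 5) (nat_lit 80) (nat_lit 5) (nat_lit 81) (nat_lit 5) (nat_lit 290) (nat_lit 267) (nat_lit 163)) (XT.lf (nat_lit 0) (nat_lit 10621154929) (nat_lit 456) (nat_lit 6890176304) (nat_lit 76) (nat_lit 13050006542) (nat_lit 75) (nat_lit 5) (nat_lit 81) (nat_lit 5) (nat_lit 76) (nat_lit 5) (nat_lit 291) (nat_lit 267) (nat_lit 162)))) (XT.nd (nat_lit 78) (nat_lit 304) (nat_lit 0) (XT.lf (nat_lit 0) (nat_lit 13757095929) (nat_lit 380) (nat_lit 2492953889) (nat_lit 456) (nat_lit 15320564054) (nat_lit 70) (nat_lit 5) (nat_lit 75) (nat_lit 5) (nat_lit 76) (nat_lit 5) (nat_lit 292) (nat_lit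 267) (nat_lit 161)) (XT.nd (nat_lit 78) (nat_lit 0) (nat_lit 0) (XT.lf (nat_lit 0) (nat_lit 2868823020) (nat_lit 304) (nat_lit 19509113261) (nat_lit 380) (nat_lit 10245913896) (nat_lit 66) (nat_lit 5) (nat_lit 70) (nat_lit 5) (nat_lit 71) (nat_lit 5) (nat_lit 293) (nat_lit 267) (nat_lit 160)) (XT.lf (nat_lit 0) (nat_lit 24920867324) (nat_lit 304) (nat_lit 4090694770) (nat_lit 380) (nat_lit 4712227570) (nat_lit 66) (nat_lit 5) (nat_lit 70) (nat_lit 5) (nat_lit 71) (nat_lit 5) (nat_lit 294) (nat_lit 267) (nat_lit 159))))))))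
noncomputable def xc99 : XT := (XT.nd (nat_lit 1638) (nat_lit 608) (nat_lit 0) (XT.nd (nat_lit 780) (nat_lit 1368) (nat_lit 0) (XT.nd (nat_lit 390) (nat_lit 836) (nat_lit 0) (XT.nd (nat_lit 156) (nat_lit 304) (nat_lit 0) (XT.nd (nat_lit 78) (nat_lit 304) (nat_lit 0) (XT.lf (nat_lit 0) (nat_lit 1314926477) (nat_lit 380) (nat_lit 21554694124) (nat_lit 76) (nat_lit 12001662564) (nat_lit 61) (nat_lit 5) (nat_lit 66) (nat_lit 5) (nat_lit 62) (nat_lit 5) (nat_lit 295) (nat_lit 267) (nat_lit 158)) (XT.lf (nat_lit 0) (nat_lit 563229904) (nat_lit 304) (nat_lit 7113544076) (nat_lit 380) (nat_lit 28394073061) (nat_lit 57) (nat_lit 5) (nat_lit 61) (nat_lit 5) (nat_lit 62) (nat_lit 5) (nat_lit 296) (nat_lit 267) (nat_lit 157))) (XT.nd (nat_lit 78) (nat_lit 304) (nat_lit 0) (XT.lf (nat_lit 0) (nat_lit 14663391204) (nat_lit 380) (nat_lit 13189644822) (nat_lit 76) (nat_lit 9468170979) (nat_lit 57) (nat_lit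 5) (nat_lit 62) (nat_lit 5) (nat_lit 58) (nat_lit 5) (nat_lit 297) (nat_lit 267) (nat_lit 156)) (XT.nd (nat_lit 78) (nat_lit 0) (nat_lit 0) (XT.lf (nat_lit 0) (nat_lit 10364635810) (nat_lit 304) (nat_lit 11798460783) (nat_lit 380) (nat_lit 16466093003) (nat_lit 53) (nat_lit 5) (nat_lit 57) (nat_lit 5) (nat_lit 58) (nat_lit 5) (nat_lit 298) (nat_lit 267) (nat_lit 155)) (XT.lf (nat_lit 0) (nat_lit 30216112345) (nat_lit 380) (nat_lit 4686186792) (nat_lit 76) (nat_lit 5094938950) (nat_lit 53) (nat_lit 5) (nat_lit 58) (nat_lit 5) (nat_lit 54) (nat_lit 5) (nat_lit 299) (nat_lit 267) (nat_lit 154))))) (XT.nd (nat_lit 156) (nat_lit 228) (nat_lit 0) (XT.nd (nat_lit 78) (nat_lit 380) (nat_lit 0) (XT.lf (nat_lit 0) (nat_lit 20339412846) (nat_lit 228) (nat_lit 18639895474) (nat_lit 304) (nat_lit 2445170535) (nat_lit 50) (nat_lit 5) (nat_lit 53) (nat_lit 5) (nat_lit 54) (nat_lit 5) (nat_lit 300) (nat_lit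 267) (nat_lit 153)) (XT.lf (nat_lit 0) (nat_lit 3806470822) (nat_lit 304) (nat_lit 1426920751) (nat_lit 380) (nat_lit 37685836360) (nat_lit 45) (nat_lit 5) (nat_lit 49) (nat_lit 5) (nat_lit 50) (nat_lit 5) (nat_lit 301) (nat_lit 267) (nat_lit 152))) (XT.nd (nat_lit 78) (nat_lit 228) (nat_lit 0) (XT.lf (nat_lit 0) (nat_lit 13618314816) (nat_lit 380) (nat_lit 14295146999) (nat_lit 76) (nat_lit 16563350130) (nat_lit 45) (nat_lit 5) (nat_lit 50) (nat_lit 5) (nat_lit 46) (nat_lit 5) (nat_lit 302) (nat_lit 267) (nat_lit 151)) (XT.nd (nat_lit 78) (nat_lit 0) (nat_lit 0) (XT.lf (nat_lit 0) (nat_lit 11973737402) (nat_lit 228) (nat_lit 10571879722) (nat_lit 304) (nat_lit 23562977244) (nat_lit 42) (nat_lit 5) (nat_lit 45) (nat_lit 5) (nat_lit 46) (nat_lit 5) (nat_lit 303) (nat_lit 267) (nat_lit 150)) (XT.lf (nat_lit 0) (nat_lit 32135135627) (nat_lit 304) (nat_lit 8046399391) (nat_lit 76) (nat_lit 7633967931)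 (nat_lit 42) (nat_lit 5) (nat_lit 46) (nat_lit 5) (nat_lit 43) (nat_lit 5) (nat_lit 304) (nat_lit 267) (nat_lit 149)))))) (XT.nd (nat_lit 390) (nat_lit 608) (nat_lit 0) (XT.nd (nat_lit 156) (nat_lit 456) (nat_lit 0) (XT.nd (nat_lit 78) (nat_lit 76) (nat_lit 0) (XT.lf (nat_lit 0) (nat_lit 19614163007) (nat_lit 228) (nat_lit 22879337542) (nat_lit 304) (nat_lit 7105587264) (nat_lit 39) (nat_lit 5) (nat_lit 42) (nat_lit 5) (nat_lit 43) (nat_lit 5) (nat_lit 305) (nat_lit 267) (nat_lit 148)) (XT.lf (nat_lit 0) (nat_lit 1938804094) (nat_lit 304) (nat_lit 2670773887) (nat_lit 76) (nat_lit 46859400452) (nat_lit 38) (nat_lit 5) (nat_lit 42) (nat_lit 5) (nat_lit 39) (nat_lit 5) (nat_lit 306) (nat_lit 267) (nat_lit 147))) (XT.nd (nat_lit 78) (nat_lit 228) (nat_lit 0) (XT.lf (nat_lit 0) (nat_lit 11681863323) (nat_lit 304) (nat_lit 27120490931) (nat_lit 76) (nat_lit 14616107219) (nat_lit 35) (nat_lit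 5) (nat_lit 39) (nat_lit 5) (nat_lit 36) (nat_lit 5) (nat_lit 307) (nat_lit 267) (nat_lit 146)) (XT.nd (nat_lit 78) (nat_lit 0) (nat_lit 0) (XT.lf (nat_lit 0) (nat_lit 1276714354) (nat_lit 228) (nat_lit 20716619983) (nat_lit 304) (nat_lit 33469656601) (nat_lit 32) (nat_lit 5) (nat_lit 35) (nat_lit 5) (nat_lit 36) (nat_lit 5) (nat_lit 308) (nat_lit 267) (nat_lit 145)) (XT.lf (nat_lit 0) (nat_lit 31652970355) (nat_lit 228) (nat_lit 1441465329) (nat_lit 304) (nat_lit 24507099050) (nat_lit 32) (nat_lit 5) (nat_lit 35) (nat_lit 5) (nat_lit 36) (nat_lit 5) (nat_lit 309) (nat_lit 267) (nat_lit 144))))) (XT.nd (nat_lit 234) (nat_lit 152) (nat_lit 0) (XT.nd (nat_lit 78) (nat_lit 304) (nat_lit 0) (XT.lf (nat_lit 0) (nat_lit 3582934887) (nat_lit 152) (nat_lit 41377888243) (nat_lit 228) (nat_lit 14879884764) (nat_lit 30) (nat_lit 5) (nat_lit 32) (nat_lit 5) (nat_lit 33) (nat_lit 5) (nat_lit 310) (nat_lit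 267) (nat_lit 143)) (XT.nd (nat_lit 78) (nat_lit 304) (nat_lit 0) (XT.lf (nat_lit 0) (nat_lit 35111307109) (nat_lit 152) (nat_lit 22586009049) (nat_lit 228) (nat_lit 4486228640) (nat_lit 30) (nat_lit 5) (nat_lit 32) (nat_lit 5) (nat_lit 33) (nat_lit 5) (nat_lit 311) (nat_lit 267) (nat_lit 142)) (XT.lf (nat_lit 0) (nat_lit 3573655700) (nat_lit 228) (nat_lit 2757825732) (nat_lit 304) (nat_lit 58309303078) (nat_lit 26) (nat_lit 5) (nat_lit 29) (nat_lit 5) (nat_lit 30) (nat_lit 5) (nat_lit 312) (nat_lit 267) (nat_lit 141)))) (XT.nd (nat_lit 78) (nat_lit 152) (nat_lit 0) (XT.lf (nat_lit 0) (nat_lit 18048788717) (nat_lit 304) (nat_lit 31123405869) (nat_lit 76) (nat_lit 18033821902) (nat_lit 26) (nat_lit 5) (nat_lit 30) (nat_lit 5) (nat_lit 27) (nat_lit 5) (nat_lit 313) (nat_lit 267) (nat_lit 140)) (XT.nd (nat_lit 78) (nat_lit 0) (nat_lit 0) (XT.lf (nat_lit 0) (nat_lit 288833999) (nat_lit 152)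 (nat_lit 30089516841) (nat_lit 228) (nat_lit 39520374813) (nat_lit 24) (nat_lit 5) (nat_lit 26) (nat_lit 5) (nat_lit 27) (nat_lit 5) (nat_lit 314) (nat_lit 267) (nat_lit 139)) (XT.lf (nat_lit 0) (nat_lit 33915788956) (nat_lit 152) (nat_lit 9724908391) (nat_lit 228) (nat_lit 29075890667) (nat_lit 24) (nat_lit 5) (nat_lit 26) (nat_lit 5) (nat_lit 27) (nat_lit 5) (nat_lit 315) (nat_lit 267) (nat_lit 138))))))) (XT.nd (nat_lit 33852) (nat_lit 0) (nat_lit 8892) (XT.nd (nat_lit 390) (nat_lit 228) (nat_lit 0) (XT.nd (nat_lit 156) (nat_lit 228) (nat_lit 0) (XT.nd (nat_lit 78) (nat_lit 152) (nat_lit 0) (XT.lf (nat_lit 0) (nat_lit 57674316818) (nat_lit 228) (nat_lit 6569403326) (nat_lit 76) (nat_lit 11428385278) (nat_lit 24) (nat_lit 5) (nat_lit 27) (nat_lit 5) (nat_lit 25) (nat_lit 5) (nat_lit 316) (nat_lit 267) (nat_lit 137)) (XT.lf (nat_lit 0) (nat_lit 27710336393) (nat_lit 152) (nat_lit 45060083981)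 (nat_lit 228) (nat_lit 5994160514) (nat_lit 22) (nat_lit 5) (nat_lit 24) (nat_lit 5) (nat_lit 25) (nat_lit 5) (nat_lit 317) (nat_lit 267) (nat_lit 136))) (XT.nd (nat_lit 78) (nat_lit 152) (nat_lit 0) (XT.lf (nat_lit 0) (nat_lit 6545326826) (nat_lit 228) (nat_lit 18238223045) (nat_lit 76) (nat_lit 57224290311) (nat_lit 21) (nat_lit 5) (nat_lit 24) (nat_lit 5) (nat_lit 22) (nat_lit 5) (nat_lit 318) (nat_lit 267) (nat_lit 135)) (XT.nd (nat_lit 78) (nat_lit 0) (nat_lit 0) (XT.lf (nat_lit 0) (nat_lit 16474130051) (nat_lit 152) (nat_lit 3269735309) (nat_lit 228) (nat_lit 65662940811) (nat_lit 19) (nat_lit 5) (nat_lit 21) (nat_lit 5) (nat_lit 22) (nat_lit 5) (nat_lit 319) (nat_lit 267) (nat_lit 134)) (XT.lf (nat_lit 0) (nat_lit 33974278751) (nat_lit 228) (nat_lit 35859804281) (nat_lit 76) (nat_lit 19130484259) (nat_lit 19) (nat_lit 5) (nat_lit 22) (nat_lit 5) (nat_lit 20) (nat_lit 5) (nat_lit 320)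 (nat_lit 267) (nat_lit 133))))) (XT.nd (nat_lit 156) (nat_lit 76) (nat_lit 0) (XT.nd (nat_lit 78) (nat_lit 152) (nat_lit 0) (XT.lf (nat_lit 0) (nat_lit 48946004750) (nat_lit 228) (nat_lit 1171405283) (nat_lit 76) (nat_lit 42581917693) (nat_lit 19) (nat_lit 5) (nat_lit 22) (nat_lit 5) (nat_lit 20) (nat_lit 5) (nat_lit 321) (nat_lit 267) (nat_lit 132)) (XT.lf (nat_lit 0) (nat_lit 35948018311) (nat_lit 152) (nat_lit 29060795659) (nat_lit 228) (nat_lit 31601742085) (nat_lit 17) (nat_lit 5) (nat_lit 19) (nat_lit 5) (nat_lit 20) (nat_lit 5) (nat_lit 322) (nat_lit 267) (nat_lit 131))) (XT.nd (nat_lit 78) (nat_lit 76) (nat_lit 0) (XT.lf (nat_lit 0) (nat_lit 74943160959) (nat_lit 152) (nat_lit 6940703969) (nat_lit 228) (nat_lit 18833212386) (nat_lit 17) (nat_lit 5) (nat_lit 19) (nat_lit 5) (nat_lit 20) (nat_lit 5) (nat_lit 323) (nat_lit 267) (nat_lit 130)) (XT.nd (nat_lit 33150) (nat_lit 0) (nat_lit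 9880) (XT.lf (nat_lit 0) (nat_lit 10910924019) (nat_lit 76) (nat_lit 88950339322) (nat_lit 152) (nat_lit 5159907782) (nat_lit 16) (nat_lit 5) (nat_lit 17) (nat_lit 5) (nat_lit 18) (nat_lit 4) (nat_lit 324) (nat_lit 267) (nat_lit 129)) (XT.lf (nat_lit 0) (nat_lit 3732550938) (nat_lit 0) (nat_lit 3732550938) (nat_lit 988) (nat_lit 703184117) (nat_lit 146) (nat_lit 5) (nat_lit 146) (nat_lit 3) (nat_lit 159) (nat_lit 3) (nat_lit 268) (nat_lit 268) (nat_lit 184)))))) (XT.nd (nat_lit 390) (nat_lit 0) (nat_lit 152) (XT.nd (nat_lit 156) (nat_lit 988) (nat_lit 0) (XT.nd (nat_lit 78) (nat_lit 0) (nat_lit 0) (XT.lf (nat_lit 76) (nat_lit 1979659151) (nat_lit 0) (nat_lit 13732603802) (nat_lit 1064) (nat_lit 1019320397) (nat_lit 147) (nat_lit 5) (nat_lit 146) (nat_lit 5) (nat_lit 160) (nat_lit 5) (nat_lit 269) (nat_lit 268) (nat_lit 183)) (XT.lf (nat_lit 76) (nat_lit 13469222378) (nat_lit 0) (nat_lit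 3207043985) (nat_lit 1064) (nat_lit 465866578) (nat_lit 147) (nat_lit 5) (nat_lit 146) (nat_lit 5) (nat_lit 160) (nat_lit 5) (nat_lit 270) (nat_lit 268) (nat_lit 182))) (XT.nd (nat_lit 78) (nat_lit 0) (nat_lit 76) (XT.lf (nat_lit 0) (nat_lit 244923673) (nat_lit 1064) (nat_lit 9543336899) (nat_lit 1140) (nat_lit 7781026220) (nat_lit 133) (nat_lit 5) (nat_lit 147) (nat_lit 5) (nat_lit 148) (nat_lit 5) (nat_lit 271) (nat_lit 268) (nat_lit 181)) (XT.nd (nat_lit 78) (nat_lit 0) (nat_lit 0) (XT.lf (nat_lit 0) (nat_lit 1066364153) (nat_lit 1064) (nat_lit 15662615798) (nat_lit 1140) (nat_lit 1286201836) (nat_lit 134) (nat_lit 5) (nat_lit 148) (nat_lit 5) (nat_lit 149) (nat_lit 5) (nat_lit 272) (nat_lit 268) (nat_lit 180)) (XT.lf (nat_lit 0) (nat_lit 2106603248) (nat_lit 1064) (nat_lit 3550876742) (nat_lit 1140) (nat_lit 12820620883) (nat_lit 134) (nat_lit 5) (nat_lit 148) (nat_lit 5) (nat_lit 149)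 (nat_lit 5) (nat_lit 273) (nat_lit 268) (nat_lit 179))))) (XT.nd (nat_lit 234) (nat_lit 0) (nat_lit 152) (XT.nd (nat_lit 78) (nat_lit 0) (nat_lit 0) (XT.lf (nat_lit 0) (nat_lit 3327596670) (nat_lit 1064) (nat_lit 9684540423) (nat_lit 1140) (nat_lit 5948224776) (nat_lit 135) (nat_lit 5) (nat_lit 149) (nat_lit 5) (nat_lit 150) (nat_lit 5) (nat_lit 274) (nat_lit 268) (nat_lit 178)) (XT.nd (nat_lit 78) (nat_lit 0) (nat_lit 76) (XT.lf (nat_lit 76) (nat_lit 3347226359) (nat_lit 0) (nat_lit 1370150434) (nat_lit 1140) (nat_lit 14746182465) (nat_lit 136) (nat_lit 5) (nat_lit 135) (nat_lit 5) (nat_lit 150) (nat_lit 5) (nat_lit 275) (nat_lit 268) (nat_lit 177)) (XT.lf (nat_lit 0) (nat_lit 6364010930) (nat_lit 1064) (nat_lit 2874589721) (nat_lit 1140) (nat_lit 10747747728) (nat_lit 136) (nat_lit 5) (nat_lit 150) (nat_lit 5) (nat_lit 151) (nat_lit 5) (nat_lit 276) (nat_lit 268) (nat_lit 176)))) (XT.nd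 (nat_lit 78) (nat_lit 0) (nat_lit 0) (XT.lf (nat_lit 0) (nat_lit 8226933157) (nat_lit 1064) (nat_lit 9339528933) (nat_lit 1140) (nat_lit 2964846474) (nat_lit 137) (nat_lit 5) (nat_lit 151) (nat_lit 5) (nat_lit 152) (nat_lit 5) (nat_lit 277) (nat_lit 268) (nat_lit 175)) (XT.nd (nat_lit 78) (nat_lit 0) (nat_lit 76) (XT.lf (nat_lit 76) (nat_lit 4908272490) (nat_lit 0) (nat_lit 5428951011) (nat_lit 1140) (nat_lit 10761714500) (nat_lit 138) (nat_lit 5) (nat_lit 137) (nat_lit 5) (nat_lit 152) (nat_lit 5) (nat_lit 278) (nat_lit 268) (nat_lit 174)) (XT.lf (nat_lit 0) (nat_lit 12705026120) (nat_lit 1064) (nat_lit 1712746594) (nat_lit 76) (nat_lit 7272661886) (nat_lit 138) (nat_lit 5) (nat_lit 152) (nat_lit 5) (nat_lit 139) (nat_lit 5) (nat_lit 279) (nat_lit 268) (nat_lit 173))))))))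
noncomputable def xc100 : XT := (XT.nd (nat_lit 1560) (nat_lit 2584) (nat_lit 0) (XT.nd (nat_lit 780) (nat_lit 2508) (nat_lit 0) (XT.nd (nat_lit 390) (nat_lit 1292) (nat_lit 0) (XT.nd (nat_lit 156) (nat_lit 1064) (nat_lit 0) (XT.nd (nat_lit 78) (nat_lit 532) (nat_lit 0) (XT.lf (nat_lit 0) (nat_lit 13688972496) (nat_lit 1064) (nat_lit 1673946204) (nat_lit 1140) (nat_lit 6943479782) (nat_lit 124) (nat_lit 5) (nat_lit 138) (nat_lit 5) (nat_lit 139) (nat_lit 5) (nat_lit 280) (nat_lit 268) (nat_lit 172)) (XT.lf (nat_lit 0) (nat_lit 6954383164) (nat_lit 532) (nat_lit 11382433935) (nat_lit 608) (nat_lit 4610891506) (nat_lit 117) (nat_lit 5) (nat_lit 124) (nat_lit 5) (nat_lit 125) (nat_lit 5) (nat_lit 281) (nat_lit 268) (nat_lit 171))) (XT.nd (nat_lit 78) (nat_lit 1064) (nat_lit 0) (XT.lf (nat_lit 0) (nat_lit 21569626052) (nat_lit 608) (nat_lit 181229360) (nat_lit 76) (nat_lit 1866961762) (nat_lit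 117) (nat_lit 5) (nat_lit 125) (nat_lit 5) (nat_lit 118) (nat_lit 5) (nat_lit 282) (nat_lit 268) (nat_lit 170)) (XT.nd (nat_lit 78) (nat_lit 532) (nat_lit 0) (XT.lf (nat_lit 0) (nat_lit 894424730) (nat_lit 532) (nat_lit 7703550602) (nat_lit 76) (nat_lit 15715377333) (nat_lit 110) (nat_lit 5) (nat_lit 117) (nat_lit 5) (nat_lit 111) (nat_lit 5) (nat_lit 283) (nat_lit 268) (nat_lit 169)) (XT.lf (nat_lit 0) (nat_lit 4072668049) (nat_lit 608) (nat_lit 15741580072) (nat_lit 76) (nat_lit 5224917450) (nat_lit 103) (nat_lit 5) (nat_lit 111) (nat_lit 5) (nat_lit 104) (nat_lit 5) (nat_lit 284) (nat_lit 268) (nat_lit 168))))) (XT.nd (nat_lit 156) (nat_lit 836) (nat_lit 0) (XT.nd (nat_lit 78) (nat_lit 0) (nat_lit 0) (XT.lf (nat_lit 0) (nat_lit 1439351591) (nat_lit 456) (nat_lit 6139136885) (nat_lit 532) (nat_lit 18217753750) (nat_lit 97) (nat_lit 5) (nat_lit 103) (nat_lit 5) (nat_lit 104) (nat_lit 5)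 (nat_lit 285) (nat_lit 268) (nat_lit 167)) (XT.lf (nat_lit 0) (nat_lit 11490683997) (nat_lit 532) (nat_lit 6870717494) (nat_lit 76) (nat_lit 8222870177) (nat_lit 97) (nat_lit 5) (nat_lit 104) (nat_lit 5) (nat_lit 98) (nat_lit 5) (nat_lit 286) (nat_lit 268) (nat_lit 166))) (XT.nd (nat_lit 78) (nat_lit 380) (nat_lit 0) (XT.lf (nat_lit 0) (nat_lit 11643510934) (nat_lit 456) (nat_lit 4117839002) (nat_lit 532) (nat_lit 11645496808) (nat_lit 91) (nat_lit 5) (nat_lit 97) (nat_lit 5) (nat_lit 98) (nat_lit 5) (nat_lit 287) (nat_lit 268) (nat_lit 165)) (XT.nd (nat_lit 78) (nat_lit 0) (nat_lit 0) (XT.lf (nat_lit 0) (nat_lit 2898776222) (nat_lit 380) (nat_lit 17539631281) (nat_lit 456) (nat_lit 7826385873) (nat_lit 86) (nat_lit 5) (nat_lit 91) (nat_lit 5) (nat_lit 92) (nat_lit 5) (nat_lit 288) (nat_lit 268) (nat_lit 164)) (XT.lf (nat_lit 0) (nat_lit 22769833217) (nat_lit 380) (nat_lit 2772692001) (nat_lit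 456) (nat_lit 3617343096) (nat_lit 86) (nat_lit 5) (nat_lit 91) (nat_lit 5) (nat_lit 92) (nat_lit 5) (nat_lit 289) (nat_lit 268) (nat_lit 163)))))) (XT.nd (nat_lit 390) (nat_lit 988) (nat_lit 0) (XT.nd (nat_lit 156) (nat_lit 684) (nat_lit 0) (XT.nd (nat_lit 78) (nat_lit 380) (nat_lit 0) (XT.lf (nat_lit 0) (nat_lit 1032930028) (nat_lit 456) (nat_lit 16434416979) (nat_lit 76) (nat_lit 12624750878) (nat_lit 80) (nat_lit 5) (nat_lit 86) (nat_lit 5) (nat_lit 81) (nat_lit 5) (nat_lit 290) (nat_lit 268) (nat_lit 162)) (XT.lf (nat_lit 0) (nat_lit 3769913159) (nat_lit 380) (nat_lit 2192847069) (nat_lit 456) (nat_lit 25103472527) (nat_lit 75) (nat_lit 5) (nat_lit 80) (nat_lit 5) (nat_lit 81) (nat_lit 5) (nat_lit 291) (nat_lit 268) (nat_lit 161))) (XT.nd (nat_lit 78) (nat_lit 684) (nat_lit 0) (XT.lf (nat_lit 0) (nat_lit 11433867345) (nat_lit 456) (nat_lit 6901700152) (nat_lit 76) (nat_lit 13744686114)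 (nat_lit 75) (nat_lit 5) (nat_lit 81) (nat_lit 5) (nat_lit 76) (nat_lit 5) (nat_lit 292) (nat_lit 268) (nat_lit 160)) (XT.nd (nat_lit 78) (nat_lit 304) (nat_lit 0) (XT.lf (nat_lit 0) (nat_lit 14768390744) (nat_lit 380) (nat_lit 2565513210) (nat_lit 456) (nat_lit 15806432051) (nat_lit 70) (nat_lit 5) (nat_lit 75) (nat_lit 5) (nat_lit 76) (nat_lit 5) (nat_lit 293) (nat_lit 268) (nat_lit 159)) (XT.lf (nat_lit 0) (nat_lit 3334502558) (nat_lit 304) (nat_lit 20424335090) (nat_lit 380) (nat_lit 10487708700) (nat_lit 66) (nat_lit 5) (nat_lit 70) (nat_lit 5) (nat_lit 71) (nat_lit 5) (nat_lit 294) (nat_lit 268) (nat_lit 158))))) (XT.nd (nat_lit 156) (nat_lit 608) (nat_lit 0) (XT.nd (nat_lit 78) (nat_lit 380) (nat_lit 0) (XT.lf (nat_lit 0) (nat_lit 26473804393) (nat_lit 304) (nat_lit 4237863953) (nat_lit 380) (nat_lit 4690219052) (nat_lit 66) (nat_lit 5) (nat_lit 70) (nat_lit 5) (nat_lit 71) (nat_lit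 5) (nat_lit 295) (nat_lit 268) (nat_lit 157)) (XT.lf (nat_lit 0) (nat_lit 1624732710) (nat_lit 380) (nat_lit 22321590483) (nat_lit 76) (nat_lit 12660642088) (nat_lit 61) (nat_lit 5) (nat_lit 66) (nat_lit 5) (nat_lit 62) (nat_lit 5) (nat_lit 296) (nat_lit 268) (nat_lit 156))) (XT.nd (nat_lit 78) (nat_lit 304) (nat_lit 0) (XT.lf (nat_lit 0) (nat_lit 893319628) (nat_lit 304) (nat_lit 7402633379) (nat_lit 380) (nat_lit 29570842609) (nat_lit 57) (nat_lit 5) (nat_lit 61) (nat_lit 5) (nat_lit 62) (nat_lit 5) (nat_lit 297) (nat_lit 268) (nat_lit 155)) (XT.nd (nat_lit 78) (nat_lit 304) (nat_lit 0) (XT.lf (nat_lit 0) (nat_lit 15621304012) (nat_lit 380) (nat_lit 13554953805) (nat_lit 76) (nat_lit 10003759081) (nat_lit 57) (nat_lit 5) (nat_lit 62) (nat_lit 5) (nat_lit 58) (nat_lit 5) (nat_lit 298) (nat_lit 268) (nat_lit 154)) (XT.lf (nat_lit 0) (nat_lit 11168608442) (nat_lit 304) (nat_lit 12319430886)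 (nat_lit 380) (nat_lit 17065622150) (nat_lit 53) (nat_lit 5) (nat_lit 57) (nat_lit 5) (nat_lit 58) (nat_lit 5) (nat_lit 299) (nat_lit 268) (nat_lit 153))))))) (XT.nd (nat_lit 780) (nat_lit 988) (nat_lit 0) (XT.nd (nat_lit 390) (nat_lit 760) (nat_lit 0) (XT.nd (nat_lit 156) (nat_lit 608) (nat_lit 0) (XT.nd (nat_lit 78) (nat_lit 228) (nat_lit 0) (XT.lf (nat_lit 0) (nat_lit 31934013889) (nat_lit 380) (nat_lit 4642338397) (nat_lit 76) (nat_lit 5414073913) (nat_lit 53) (nat_lit 5) (nat_lit 58) (nat_lit 5) (nat_lit 54) (nat_lit 5) (nat_lit 300) (nat_lit 268) (nat_lit 152)) (XT.lf (nat_lit 0) (nat_lit 21626567888) (nat_lit 228) (nat_lit 19501537242) (nat_lit 304) (nat_lit 2361163760) (nat_lit 50) (nat_lit 5) (nat_lit 53) (nat_lit 5) (nat_lit 54) (nat_lit 5) (nat_lit 301) (nat_lit 268) (nat_lit 151))) (XT.nd (nat_lit 78) (nat_lit 228) (nat_lit 0) (XT.lf (nat_lit 0) (nat_lit 4263557549) (nat_lit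 304) (nat_lit 1426677724) (nat_lit 380) (nat_lit 39368692945) (nat_lit 45) (nat_lit 5) (nat_lit 49) (nat_lit 5) (nat_lit 50) (nat_lit 5) (nat_lit 302) (nat_lit 268) (nat_lit 150)) (XT.nd (nat_lit 78) (nat_lit 228) (nat_lit 0) (XT.lf (nat_lit 0) (nat_lit 14485766062) (nat_lit 380) (nat_lit 14750536597) (nat_lit 76) (nat_lit 17458367259) (nat_lit 45) (nat_lit 5) (nat_lit 50) (nat_lit 5) (nat_lit 46) (nat_lit 5) (nat_lit 303) (nat_lit 268) (nat_lit 149)) (XT.lf (nat_lit 0) (nat_lit 12824357299) (nat_lit 228) (nat_lit 11028615278) (nat_lit 304) (nat_lit 24555281120) (nat_lit 42) (nat_lit 5) (nat_lit 45) (nat_lit 5) (nat_lit 46) (nat_lit 5) (nat_lit 304) (nat_lit 268) (nat_lit 148))))) (XT.nd (nat_lit 156) (nat_lit 532) (nat_lit 0) (XT.nd (nat_lit 78) (nat_lit 228) (nat_lit 0) (XT.lf (nat_lit 0) (nat_lit 33914049878) (nat_lit 304) (nat_lit 8203945390) (nat_lit 76) (nat_lit 8082767483) (nat_lit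 42) (nat_lit 5) (nat_lit 46) (nat_lit 5) (nat_lit 43) (nat_lit 5) (nat_lit 305) (nat_lit 268) (nat_lit 147)) (XT.lf (nat_lit 0) (nat_lit 20832628732) (nat_lit 228) (nat_lit 23951791811) (nat_lit 304) (nat_lit 7289300387) (nat_lit 39) (nat_lit 5) (nat_lit 42) (nat_lit 5) (nat_lit 43) (nat_lit 5) (nat_lit 306) (nat_lit 268) (nat_lit 146))) (XT.nd (nat_lit 78) (nat_lit 456) (nat_lit 0) (XT.lf (nat_lit 0) (nat_lit 2195952265) (nat_lit 304) (nat_lit 2574379584) (nat_lit 76) (nat_lit 49266980506) (nat_lit 38) (nat_lit 5) (nat_lit 42) (nat_lit 5) (nat_lit 39) (nat_lit 5) (nat_lit 307) (nat_lit 268) (nat_lit 145)) (XT.nd (nat_lit 78) (nat_lit 228) (nat_lit 0) (XT.lf (nat_lit 0) (nat_lit 12421341985) (nat_lit 304) (nat_lit 28248897207) (nat_lit 76) (nat_lit 15414189732) (nat_lit 35) (nat_lit 5) (nat_lit 39) (nat_lit 5) (nat_lit 36) (nat_lit 5) (nat_lit 308) (nat_lit 268) (nat_lit 144)) (XT.lf (nat_lit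 0) (nat_lit 1561643709) (nat_lit 228) (nat_lit 21681468818) (nat_lit 304) (nat_lit 34988244559) (nat_lit 32) (nat_lit 5) (nat_lit 35) (nat_lit 5) (nat_lit 36) (nat_lit 5) (nat_lit 309) (nat_lit 268) (nat_lit 143)))))) (XT.nd (nat_lit 390) (nat_lit 532) (nat_lit 0) (XT.nd (nat_lit 156) (nat_lit 304) (nat_lit 0) (XT.nd (nat_lit 78) (nat_lit 152) (nat_lit 0) (XT.lf (nat_lit 0) (nat_lit 33446184242) (nat_lit 228) (nat_lit 1445936534) (nat_lit 304) (nat_lit 25584935076) (nat_lit 32) (nat_lit 5) (nat_lit 35) (nat_lit 5) (nat_lit 36) (nat_lit 5) (nat_lit 310) (nat_lit 268) (nat_lit 142)) (XT.lf (nat_lit 0) (nat_lit 3970405014) (nat_lit 152) (nat_lit 43377236224) (nat_lit 228) (nat_lit 15480684724) (nat_lit 30) (nat_lit 5) (nat_lit 32) (nat_lit 5) (nat_lit 33) (nat_lit 5) (nat_lit 311) (nat_lit 268) (nat_lit 141))) (XT.nd (nat_lit 78) (nat_lit 304) (nat_lit 0) (XT.lf (nat_lit 0) (nat_lit 37065275686)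 (nat_lit 152) (nat_lit 23649074806) (nat_lit 228) (nat_lit 4574164569) (nat_lit 30) (nat_lit 5) (nat_lit 32) (nat_lit 5) (nat_lit 33) (nat_lit 5) (nat_lit 312) (nat_lit 268) (nat_lit 140)) (XT.nd (nat_lit 78) (nat_lit 0) (nat_lit 0) (XT.lf (nat_lit 0) (nat_lit 3947867556) (nat_lit 228) (nat_lit 2829414470) (nat_lit 304) (nat_lit 61091441223) (nat_lit 26) (nat_lit 5) (nat_lit 29) (nat_lit 5) (nat_lit 30) (nat_lit 5) (nat_lit 313) (nat_lit 268) (nat_lit 139)) (XT.lf (nat_lit 0) (nat_lit 19074908022) (nat_lit 304) (nat_lit 32490059766) (nat_lit 76) (nat_lit 18997426090) (nat_lit 26) (nat_lit 5) (nat_lit 30) (nat_lit 5) (nat_lit 27) (nat_lit 5) (nat_lit 314) (nat_lit 268) (nat_lit 138))))) (XT.nd (nat_lit 234) (nat_lit 380) (nat_lit 0) (XT.nd (nat_lit 78) (nat_lit 0) (nat_lit 0) (XT.lf (nat_lit 0) (nat_lit 487359646) (nat_lit 152) (nat_lit 31529468614) (nat_lit 228) (nat_lit 41373043984) (nat_lit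 24) (nat_lit 5) (nat_lit 26) (nat_lit 5) (nat_lit 27) (nat_lit 5) (nat_lit 315) (nat_lit 268) (nat_lit 137)) (XT.nd (nat_lit 78) (nat_lit 0) (nat_lit 0) (XT.lf (nat_lit 0) (nat_lit 35786896449) (nat_lit 152) (nat_lit 10149702316) (nat_lit 228) (nat_lit 30412209420) (nat_lit 24) (nat_lit 5) (nat_lit 26) (nat_lit 5) (nat_lit 27) (nat_lit 5) (nat_lit 316) (nat_lit 268) (nat_lit 136)) (XT.lf (nat_lit 0) (nat_lit 60667039574) (nat_lit 228) (nat_lit 6728029145) (nat_lit 76) (nat_lit 12057187736) (nat_lit 24) (nat_lit 5) (nat_lit 27) (nat_lit 5) (nat_lit 25) (nat_lit 5) (nat_lit 317) (nat_lit 268) (nat_lit 135)))) (XT.nd (nat_lit 78) (nat_lit 228) (nat_lit 0) (XT.lf (nat_lit 0) (nat_lit 29260829007) (nat_lit 152) (nat_lit 47253514345) (nat_lit 228) (nat_lit 6185129256) (nat_lit 22) (nat_lit 5) (nat_lit 24) (nat_lit 5) (nat_lit 25) (nat_lit 5) (nat_lit 318) (nat_lit 268) (nat_lit 134)) (XT.nd (nat_lit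 78) (nat_lit 152) (nat_lit 0) (XT.lf (nat_lit 0) (nat_lit 6974133537) (nat_lit 228) (nat_lit 18990831482) (nat_lit 76) (nat_lit 60140058901) (nat_lit 21) (nat_lit 5) (nat_lit 24) (nat_lit 5) (nat_lit 22) (nat_lit 5) (nat_lit 319) (nat_lit 268) (nat_lit 133)) (XT.lf (nat_lit 0) (nat_lit 17452572889) (nat_lit 152) (nat_lit 3376678274) (nat_lit 228) (nat_lit 68844795198) (nat_lit 19) (nat_lit 5) (nat_lit 21) (nat_lit 5) (nat_lit 22) (nat_lit 5) (nat_lit 320) (nat_lit 268) (nat_lit 132))))))))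
noncomputable def xc101 : XT := (XT.nd (nat_lit 34788) (nat_lit 0) (nat_lit 1900) (XT.nd (nat_lit 34008) (nat_lit 0) (nat_lit 6536) (XT.nd (nat_lit 33618) (nat_lit 0) (nat_lit 8740) (XT.nd (nat_lit 156) (nat_lit 152) (nat_lit 0) (XT.nd (nat_lit 78) (nat_lit 0) (nat_lit 0) (XT.lf (nat_lit 0) (nat_lit 35767027040) (nat_lit 228) (nat_lit 37502991714) (nat_lit 76) (nat_lit 20139808878) (nat_lit 19) (nat_lit 5) (nat_lit 22) (nat_lit 5) (nat_lit 20) (nat_lit 5) (nat_lit 321) (nat_lit 268) (nat_lit 131)) (XT.lf (nat_lit 0) (nat_lit 51482861512) (nat_lit 228) (nat_lit 1087306231) (nat_lit 76) (nat_lit 44761299680) (nat_lit 19) (nat_lit 5) (nat_lit 22) (nat_lit 5) (nat_lit 20) (nat_lit 5) (nat_lit 322) (nat_lit 268) (nat_lit 130))) (XT.nd (nat_lit 33306) (nat_lit 0) (nat_lit 9804) (XT.lf (nat_lit 0) (nat_lit 37883998955) (nat_lit 152) (nat_lit 30461879755) (nat_lit 228) (nat_lit 33092473099) (nat_lit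 17) (nat_lit 5) (nat_lit 19) (nat_lit 5) (nat_lit 20) (nat_lit 5) (nat_lit 323) (nat_lit 268) (nat_lit 129)) (XT.nd (nat_lit 78) (nat_lit 0) (nat_lit 0) (XT.lf (nat_lit 0) (nat_lit 4096643423) (nat_lit 0) (nat_lit 4096643423) (nat_lit 988) (nat_lit 371644516) (nat_lit 146) (nat_lit 5) (nat_lit 146) (nat_lit 3) (nat_lit 159) (nat_lit 3) (nat_lit 269) (nat_lit 269) (nat_lit 182)) (XT.lf (nat_lit 76) (nat_lit 2449575149) (nat_lit 0) (nat_lit 14724674158) (nat_lit 1064) (nat_lit 371486711) (nat_lit 147) (nat_lit 5) (nat_lit 146) (nat_lit 5) (nat_lit 160) (nat_lit 5) (nat_lit 270) (nat_lit 269) (nat_lit 181))))) (XT.nd (nat_lit 156) (nat_lit 0) (nat_lit 152) (XT.nd (nat_lit 78) (nat_lit 0) (nat_lit 76) (XT.lf (nat_lit 0) (nat_lit 172922132) (nat_lit 1064) (nat_lit 3483623273) (nat_lit 1140) (nat_lit 14321284752) (nat_lit 132) (nat_lit 5) (nat_lit 146) (nat_lit 5) (nat_lit 147) (nat_lit 5) (nat_lit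 271) (nat_lit 269) (nat_lit 180)) (XT.lf (nat_lit 0) (nat_lit 879502898) (nat_lit 1064) (nat_lit 9639632121) (nat_lit 1140) (nat_lit 7908065749) (nat_lit 133) (nat_lit 5) (nat_lit 147) (nat_lit 5) (nat_lit 148) (nat_lit 5) (nat_lit 272) (nat_lit 269) (nat_lit 179))) (XT.nd (nat_lit 78) (nat_lit 0) (nat_lit 0) (XT.lf (nat_lit 0) (nat_lit 1713761382) (nat_lit 1064) (nat_lit 16053938775) (nat_lit 1140) (nat_lit 1128627519) (nat_lit 134) (nat_lit 5) (nat_lit 148) (nat_lit 5) (nat_lit 149) (nat_lit 5) (nat_lit 273) (nat_lit 269) (nat_lit 178)) (XT.nd (nat_lit 78) (nat_lit 0) (nat_lit 76) (XT.lf (nat_lit 0) (nat_lit 2777722954) (nat_lit 1064) (nat_lit 3355270281) (nat_lit 1140) (nat_lit 13250333442) (nat_lit 134) (nat_lit 5) (nat_lit 148) (nat_lit 5) (nat_lit 149) (nat_lit 5) (nat_lit 274) (nat_lit 269) (nat_lit 177)) (XT.lf (nat_lit 0) (nat_lit 4034578727) (nat_lit 1064) (nat_lit 9786690058)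 (nat_lit 1140) (nat_lit 6069268774) (nat_lit 135) (nat_lit 5) (nat_lit 149) (nat_lit 5) (nat_lit 150) (nat_lit 5) (nat_lit 275) (nat_lit 269) (nat_lit 176)))))) (XT.nd (nat_lit 390) (nat_lit 2432) (nat_lit 0) (XT.nd (nat_lit 156) (nat_lit 0) (nat_lit 152) (XT.nd (nat_lit 78) (nat_lit 0) (nat_lit 76) (XT.lf (nat_lit 76) (nat_lit 3885712891) (nat_lit 0) (nat_lit 1585959485) (nat_lit 1140) (nat_lit 14947965056) (nat_lit 136) (nat_lit 5) (nat_lit 135) (nat_lit 5) (nat_lit 150) (nat_lit 5) (nat_lit 276) (nat_lit 269) (nat_lit 175)) (XT.lf (nat_lit 0) (nat_lit 7174602707) (nat_lit 1064) (nat_lit 2647232583) (nat_lit 1140) (nat_lit 11147585451) (nat_lit 136) (nat_lit 5) (nat_lit 150) (nat_lit 5) (nat_lit 151) (nat_lit 5) (nat_lit 277) (nat_lit 269) (nat_lit 174))) (XT.nd (nat_lit 78) (nat_lit 0) (nat_lit 0) (XT.lf (nat_lit 0) (nat_lit 9109612482) (nat_lit 1064) (nat_lit 9429404227) (nat_lit 1140)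 (nat_lit 3003314140) (nat_lit 137) (nat_lit 5) (nat_lit 151) (nat_lit 5) (nat_lit 152) (nat_lit 5) (nat_lit 278) (nat_lit 269) (nat_lit 173)) (XT.nd (nat_lit 78) (nat_lit 0) (nat_lit 76) (XT.lf (nat_lit 76) (nat_lit 5519977738) (nat_lit 0) (nat_lit 5786516211) (nat_lit 1140) (nat_lit 10832482328) (nat_lit 138) (nat_lit 5) (nat_lit 137) (nat_lit 5) (nat_lit 152) (nat_lit 5) (nat_lit 279) (nat_lit 269) (nat_lit 172)) (XT.lf (nat_lit 0) (nat_lit 13770355005) (nat_lit 1064) (nat_lit 1434547673) (nat_lit 76) (nat_lit 7555878614) (nat_lit 138) (nat_lit 5) (nat_lit 152) (nat_lit 5) (nat_lit 139) (nat_lit 5) (nat_lit 280) (nat_lit 269) (nat_lit 171))))) (XT.nd (nat_lit 156) (nat_lit 1064) (nat_lit 0) (XT.nd (nat_lit 78) (nat_lit 532) (nat_lit 0) (XT.lf (nat_lit 0) (nat_lit 14726828078) (nat_lit 1064) (nat_lit 1817231416) (nat_lit 1140) (nat_lit 6864056962) (nat_lit 124) (nat_lit 5) (nat_lit 138)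 (nat_lit 5) (nat_lit 139) (nat_lit 5) (nat_lit 281) (nat_lit 269) (nat_lit 170)) (XT.lf (nat_lit 0) (nat_lit 7659147370) (nat_lit 532) (nat_lit 11990725637) (nat_lit 608) (nat_lit 4432180191) (nat_lit 117) (nat_lit 5) (nat_lit 124) (nat_lit 5) (nat_lit 125) (nat_lit 5) (nat_lit 282) (nat_lit 269) (nat_lit 169))) (XT.nd (nat_lit 78) (nat_lit 608) (nat_lit 0) (XT.lf (nat_lit 0) (nat_lit 165765189) (nat_lit 456) (nat_lit 22860924674) (nat_lit 532) (nat_lit 1759561280) (nat_lit 111) (nat_lit 5) (nat_lit 117) (nat_lit 5) (nat_lit 118) (nat_lit 5) (nat_lit 283) (nat_lit 269) (nat_lit 168)) (XT.nd (nat_lit 78) (nat_lit 532) (nat_lit 0) (XT.lf (nat_lit 0) (nat_lit 1306091566) (nat_lit 532) (nat_lit 7737700841) (nat_lit 76) (nat_lit 16473202959) (nat_lit 110) (nat_lit 5) (nat_lit 117) (nat_lit 5) (nat_lit 111) (nat_lit 5) (nat_lit 284) (nat_lit 269) (nat_lit 167)) (XT.lf (nat_lit 0) (nat_lit 4628937738)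 (nat_lit 608) (nat_lit 16176029989) (nat_lit 76) (nat_lit 5474608877) (nat_lit 103) (nat_lit 5) (nat_lit 111) (nat_lit 5) (nat_lit 104) (nat_lit 5) (nat_lit 285) (nat_lit 269) (nat_lit 166))))))) (XT.nd (nat_lit 780) (nat_lit 1824) (nat_lit 0) (XT.nd (nat_lit 390) (nat_lit 1520) (nat_lit 0) (XT.nd (nat_lit 156) (nat_lit 836) (nat_lit 0) (XT.nd (nat_lit 78) (nat_lit 0) (nat_lit 0) (XT.lf (nat_lit 0) (nat_lit 1853840215) (nat_lit 456) (nat_lit 6442709288) (nat_lit 532) (nat_lit 18778408681) (nat_lit 97) (nat_lit 5) (nat_lit 103) (nat_lit 5) (nat_lit 104) (nat_lit 5) (nat_lit 286) (nat_lit 269) (nat_lit 165)) (XT.lf (nat_lit 0) (nat_lit 12388236423) (nat_lit 532) (nat_lit 6877506070) (nat_lit 76) (nat_lit 8637174065) (nat_lit 97) (nat_lit 5) (nat_lit 104) (nat_lit 5) (nat_lit 98) (nat_lit 5) (nat_lit 287) (nat_lit 269) (nat_lit 164))) (XT.nd (nat_lit 78) (nat_lit 380) (nat_lit 0) (XT.lf (nat_lit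 0) (nat_lit 12552780986) (nat_lit 456) (nat_lit 4307417085) (nat_lit 532) (nat_lit 11906831261) (nat_lit 91) (nat_lit 5) (nat_lit 97) (nat_lit 5) (nat_lit 98) (nat_lit 5) (nat_lit 288) (nat_lit 269) (nat_lit 163)) (XT.nd (nat_lit 78) (nat_lit 0) (nat_lit 0) (XT.lf (nat_lit 0) (nat_lit 3371149639) (nat_lit 380) (nat_lit 18388456653) (nat_lit 456) (nat_lit 7908651896) (nat_lit 86) (nat_lit 5) (nat_lit 91) (nat_lit 5) (nat_lit 92) (nat_lit 5) (nat_lit 289) (nat_lit 269) (nat_lit 162)) (XT.lf (nat_lit 0) (nat_lit 24220167359) (nat_lit 380) (nat_lit 2884511180) (nat_lit 456) (nat_lit 3503873802) (nat_lit 86) (nat_lit 5) (nat_lit 91) (nat_lit 5) (nat_lit 92) (nat_lit 5) (nat_lit 290) (nat_lit 269) (nat_lit 161))))) (XT.nd (nat_lit 156) (nat_lit 684) (nat_lit 0) (XT.nd (nat_lit 78) (nat_lit 380) (nat_lit 0) (XT.lf (nat_lit 0) (nat_lit 1362700693) (nat_lit 456) (nat_lit 16938205463) (nat_lit 76)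 (nat_lit 13286751488) (nat_lit 80) (nat_lit 5) (nat_lit 86) (nat_lit 5) (nat_lit 81) (nat_lit 5) (nat_lit 291) (nat_lit 269) (nat_lit 160)) (XT.lf (nat_lit 0) (nat_lit 4267227715) (nat_lit 380) (nat_lit 2261519236) (nat_lit 456) (nat_lit 26082093970) (nat_lit 75) (nat_lit 5) (nat_lit 80) (nat_lit 5) (nat_lit 81) (nat_lit 5) (nat_lit 292) (nat_lit 269) (nat_lit 159))) (XT.nd (nat_lit 78) (nat_lit 684) (nat_lit 0) (XT.lf (nat_lit 0) (nat_lit 12261029800) (nat_lit 456) (nat_lit 6944757980) (nat_lit 76) (nat_lit 14470178239) (nat_lit 75) (nat_lit 5) (nat_lit 81) (nat_lit 5) (nat_lit 76) (nat_lit 5) (nat_lit 293) (nat_lit 269) (nat_lit 158)) (XT.nd (nat_lit 78) (nat_lit 304) (nat_lit 0) (XT.lf (nat_lit 0) (nat_lit 15800179913) (nat_lit 380) (nat_lit 2646543181) (nat_lit 456) (nat_lit 16342640089) (nat_lit 70) (nat_lit 5) (nat_lit 75) (nat_lit 5) (nat_lit 76) (nat_lit 5) (nat_lit 294) (nat_lit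 269) (nat_lit 157)) (XT.lf (nat_lit 0) (nat_lit 3793507403) (nat_lit 304) (nat_lit 21390917981) (nat_lit 380) (nat_lit 10766741853) (nat_lit 66) (nat_lit 5) (nat_lit 70) (nat_lit 5) (nat_lit 71) (nat_lit 5) (nat_lit 295) (nat_lit 269) (nat_lit 156)))))) (XT.nd (nat_lit 390) (nat_lit 836) (nat_lit 0) (XT.nd (nat_lit 156) (nat_lit 608) (nat_lit 0) (XT.nd (nat_lit 78) (nat_lit 380) (nat_lit 0) (XT.lf (nat_lit 0) (nat_lit 28075856247) (nat_lit 304) (nat_lit 4397724900) (nat_lit 380) (nat_lit 4691061165) (nat_lit 66) (nat_lit 5) (nat_lit 70) (nat_lit 5) (nat_lit 71) (nat_lit 5) (nat_lit 296) (nat_lit 269) (nat_lit 155)) (XT.lf (nat_lit 0) (nat_lit 1927338877) (nat_lit 380) (nat_lit 23155730463) (nat_lit 76) (nat_lit 13347094960) (nat_lit 61) (nat_lit 5) (nat_lit 66) (nat_lit 5) (nat_lit 62) (nat_lit 5) (nat_lit 297) (nat_lit 269) (nat_lit 154))) (XT.nd (nat_lit 78) (nat_lit 304) (nat_lit 0) (XT.lf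 (nat_lit 0) (nat_lit 1211843413) (nat_lit 304) (nat_lit 7712367858) (nat_lit 380) (nat_lit 30829036346) (nat_lit 57) (nat_lit 5) (nat_lit 61) (nat_lit 5) (nat_lit 62) (nat_lit 5) (nat_lit 298) (nat_lit 269) (nat_lit 153)) (XT.nd (nat_lit 78) (nat_lit 304) (nat_lit 0) (XT.lf (nat_lit 0) (nat_lit 16606217965) (nat_lit 380) (nat_lit 13965877677) (nat_lit 76) (nat_lit 10560345723) (nat_lit 57) (nat_lit 5) (nat_lit 62) (nat_lit 5) (nat_lit 58) (nat_lit 5) (nat_lit 299) (nat_lit 269) (nat_lit 152)) (XT.lf (nat_lit 0) (nat_lit 11986214230) (nat_lit 304) (nat_lit 12872860085) (nat_lit 380) (nat_lit 17715932279) (nat_lit 53) (nat_lit 5) (nat_lit 57) (nat_lit 5) (nat_lit 58) (nat_lit 5) (nat_lit 300) (nat_lit 269) (nat_lit 151))))) (XT.nd (nat_lit 234) (nat_lit 228) (nat_lit 0) (XT.nd (nat_lit 78) (nat_lit 608) (nat_lit 0) (XT.lf (nat_lit 0) (nat_lit 33718556694) (nat_lit 380) (nat_lit 4622158051)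 (nat_lit 76) (nat_lit 5743179437) (nat_lit 53) (nat_lit 5) (nat_lit 58) (nat_lit 5) (nat_lit 54) (nat_lit 5) (nat_lit 301) (nat_lit 269) (nat_lit 150)) (XT.nd (nat_lit 78) (nat_lit 380) (nat_lit 0) (XT.lf (nat_lit 0) (nat_lit 22952961497) (nat_lit 228) (nat_lit 20412801854) (nat_lit 304) (nat_lit 2292133238) (nat_lit 50) (nat_lit 5) (nat_lit 53) (nat_lit 5) (nat_lit 54) (nat_lit 5) (nat_lit 302) (nat_lit 269) (nat_lit 149)) (XT.lf (nat_lit 0) (nat_lit 4718697501) (nat_lit 304) (nat_lit 1433078219) (nat_lit 380) (nat_lit 41154419897) (nat_lit 45) (nat_lit 5) (nat_lit 49) (nat_lit 5) (nat_lit 50) (nat_lit 5) (nat_lit 303) (nat_lit 269) (nat_lit 148)))) (XT.nd (nat_lit 78) (nat_lit 228) (nat_lit 0) (XT.lf (nat_lit 0) (nat_lit 15379247567) (nat_lit 380) (nat_lit 15252809230) (nat_lit 76) (nat_lit 18391920200) (nat_lit 45) (nat_lit 5) (nat_lit 50) (nat_lit 5) (nat_lit 46) (nat_lit 5) (nat_lit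 304) (nat_lit 269) (nat_lit 147)) (XT.nd (nat_lit 78) (nat_lit 0) (nat_lit 0) (XT.lf (nat_lit 0) (nat_lit 13694085846) (nat_lit 228) (nat_lit 11514868326) (nat_lit 304) (nat_lit 25614478296) (nat_lit 42) (nat_lit 5) (nat_lit 45) (nat_lit 5) (nat_lit 46) (nat_lit 5) (nat_lit 305) (nat_lit 269) (nat_lit 146)) (XT.lf (nat_lit 0) (nat_lit 35765904273) (nat_lit 304) (nat_lit 8392125452) (nat_lit 76) (nat_lit 8547768584) (nat_lit 42) (nat_lit 5) (nat_lit 46) (nat_lit 5) (nat_lit 43) (nat_lit 5) (nat_lit 306) (nat_lit 269) (nat_lit 145))))))))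
noncomputable def xc102 : XT := (XT.nd (nat_lit 34866) (nat_lit 0) (nat_lit 4256) (XT.nd (nat_lit 780) (nat_lit 380) (nat_lit 0) (XT.nd (nat_lit 390) (nat_lit 608) (nat_lit 0) (XT.nd (nat_lit 156) (nat_lit 456) (nat_lit 0) (XT.nd (nat_lit 78) (nat_lit 76) (nat_lit 0) (XT.lf (nat_lit 0) (nat_lit 22089913297) (nat_lit 228) (nat_lit 25084517359) (nat_lit 304) (nat_lit 7498149770) (nat_lit 39) (nat_lit 5) (nat_lit 42) (nat_lit 5) (nat_lit 43) (nat_lit 5) (nat_lit 307) (nat_lit 269) (nat_lit 144)) (XT.lf (nat_lit 0) (nat_lit 2451063227) (nat_lit 304) (nat_lit 2494542556) (nat_lit 76) (nat_lit 51788932736) (nat_lit 38) (nat_lit 5) (nat_lit 42) (nat_lit 5) (nat_lit 39) (nat_lit 5) (nat_lit 308) (nat_lit 269) (nat_lit 143))) (XT.nd (nat_lit 78) (nat_lit 228) (nat_lit 0) (XT.lf (nat_lit 0) (nat_lit 13183348309) (nat_lit 304) (nat_lit 29454885587) (nat_lit 76) (nat_lit 16245921578) (nat_lit 35) (nat_lit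 5) (nat_lit 39) (nat_lit 5) (nat_lit 36) (nat_lit 5) (nat_lit 309) (nat_lit 269) (nat_lit 142)) (XT.nd (nat_lit 78) (nat_lit 0) (nat_lit 0) (XT.lf (nat_lit 0) (nat_lit 1840264341) (nat_lit 228) (nat_lit 22701159343) (nat_lit 304) (nat_lit 36597162571) (nat_lit 32) (nat_lit 5) (nat_lit 35) (nat_lit 5) (nat_lit 36) (nat_lit 5) (nat_lit 310) (nat_lit 269) (nat_lit 141)) (XT.lf (nat_lit 0) (nat_lit 35309482451) (nat_lit 228) (nat_lit 1456916299) (nat_lit 304) (nat_lit 26730377815) (nat_lit 32) (nat_lit 5) (nat_lit 35) (nat_lit 5) (nat_lit 36) (nat_lit 5) (nat_lit 311) (nat_lit 269) (nat_lit 140))))) (XT.nd (nat_lit 156) (nat_lit 456) (nat_lit 0) (XT.nd (nat_lit 78) (nat_lit 0) (nat_lit 0) (XT.lf (nat_lit 0) (nat_lit 4357880713) (nat_lit 152) (nat_lit 45483017372) (nat_lit 228) (nat_lit 16124837530) (nat_lit 30) (nat_lit 5) (nat_lit 32) (nat_lit 5) (nat_lit 33) (nat_lit 5) (nat_lit 312) (nat_lit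 269) (nat_lit 139)) (XT.lf (nat_lit 0) (nat_lit 39098497040) (nat_lit 152) (nat_lit 24771451724) (nat_lit 228) (nat_lit 4679176197) (nat_lit 30) (nat_lit 5) (nat_lit 32) (nat_lit 5) (nat_lit 33) (nat_lit 5) (nat_lit 313) (nat_lit 269) (nat_lit 138))) (XT.nd (nat_lit 78) (nat_lit 152) (nat_lit 0) (XT.lf (nat_lit 0) (nat_lit 4322611565) (nat_lit 228) (nat_lit 2910746827) (nat_lit 304) (nat_lit 64025081758) (nat_lit 26) (nat_lit 5) (nat_lit 29) (nat_lit 5) (nat_lit 30) (nat_lit 5) (nat_lit 314) (nat_lit 269) (nat_lit 137)) (XT.nd (nat_lit 78) (nat_lit 152) (nat_lit 0) (XT.lf (nat_lit 0) (nat_lit 20140834710) (nat_lit 304) (nat_lit 33942665795) (nat_lit 76) (nat_lit 20003454395) (nat_lit 26) (nat_lit 5) (nat_lit 30) (nat_lit 5) (nat_lit 27) (nat_lit 5) (nat_lit 315) (nat_lit 269) (nat_lit 136)) (XT.lf (nat_lit 0) (nat_lit 678697195) (nat_lit 152) (nat_lit 33047416813) (nat_lit 228) (nat_lit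 43329814488) (nat_lit 24) (nat_lit 5) (nat_lit 26) (nat_lit 5) (nat_lit 27) (nat_lit 5) (nat_lit 316) (nat_lit 269) (nat_lit 135)))))) (XT.nd (nat_lit 390) (nat_lit 0) (nat_lit 0) (XT.nd (nat_lit 156) (nat_lit 380) (nat_lit 0) (XT.nd (nat_lit 78) (nat_lit 0) (nat_lit 0) (XT.lf (nat_lit 0) (nat_lit 37735259907) (nat_lit 152) (nat_lit 10601449116) (nat_lit 228) (nat_lit 31826265895) (nat_lit 24) (nat_lit 5) (nat_lit 26) (nat_lit 5) (nat_lit 27) (nat_lit 5) (nat_lit 317) (nat_lit 269) (nat_lit 134)) (XT.lf (nat_lit 0) (nat_lit 63799264038) (nat_lit 228) (nat_lit 6910376772) (nat_lit 76) (nat_lit 12712095371) (nat_lit 24) (nat_lit 5) (nat_lit 27) (nat_lit 5) (nat_lit 25) (nat_lit 5) (nat_lit 318) (nat_lit 269) (nat_lit 133))) (XT.nd (nat_lit 78) (nat_lit 228) (nat_lit 0) (XT.lf (nat_lit 0) (nat_lit 30873508365) (nat_lit 152) (nat_lit 49562154837) (nat_lit 228) (nat_lit 6395755983) (nat_lit 22)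 (nat_lit 5) (nat_lit 24) (nat_lit 5) (nat_lit 25) (nat_lit 5) (nat_lit 319) (nat_lit 269) (nat_lit 132)) (XT.nd (nat_lit 78) (nat_lit 152) (nat_lit 0) (XT.lf (nat_lit 0) (nat_lit 7414940323) (nat_lit 228) (nat_lit 19795880797) (nat_lit 76) (nat_lit 63196544000) (nat_lit 21) (nat_lit 5) (nat_lit 24) (nat_lit 5) (nat_lit 22) (nat_lit 5) (nat_lit 320) (nat_lit 269) (nat_lit 131)) (XT.lf (nat_lit 0) (nat_lit 18465551951) (nat_lit 152) (nat_lit 3494225294) (nat_lit 228) (nat_lit 72195159535) (nat_lit 19) (nat_lit 5) (nat_lit 21) (nat_lit 5) (nat_lit 22) (nat_lit 5) (nat_lit 321) (nat_lit 269) (nat_lit 130))))) (XT.nd (nat_lit 33462) (nat_lit 0) (nat_lit 8588) (XT.nd (nat_lit 78) (nat_lit 0) (nat_lit 0) (XT.lf (nat_lit 0) (nat_lit 37640670320) (nat_lit 228) (nat_lit 39242265761) (nat_lit 76) (nat_lit 21194690848) (nat_lit 19) (nat_lit 5) (nat_lit 22) (nat_lit 5) (nat_lit 20) (nat_lit 5) (nat_lit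 322) (nat_lit 269) (nat_lit 129)) (XT.lf (nat_lit 0) (nat_lit 54138234996) (nat_lit 228) (nat_lit 1012266268) (nat_lit 76) (nat_lit 47044975640) (nat_lit 19) (nat_lit 5) (nat_lit 22) (nat_lit 5) (nat_lit 20) (nat_lit 5) (nat_lit 323) (nat_lit 269) (nat_lit 128))) (XT.nd (nat_lit 78) (nat_lit 1064) (nat_lit 0) (XT.lf (nat_lit 0) (nat_lit 4462441525) (nat_lit 0) (nat_lit 4462441525) (nat_lit 988) (nat_lit 57620114) (nat_lit 146) (nat_lit 5) (nat_lit 146) (nat_lit 3) (nat_lit 159) (nat_lit 3) (nat_lit 270) (nat_lit 270) (nat_lit 180)) (XT.nd (nat_lit 78) (nat_lit 0) (nat_lit 0) (XT.lf (nat_lit 0) (nat_lit 239014037) (nat_lit 1064) (nat_lit 15496523490) (nat_lit 1140) (nat_lit 2667073497) (nat_lit 132) (nat_lit 5) (nat_lit 146) (nat_lit 5) (nat_lit 147) (nat_lit 5) (nat_lit 271) (nat_lit 270) (nat_lit 179)) (XT.lf (nat_lit 0) (nat_lit 773438323) (nat_lit 1064) (nat_lit 3323808325) (nat_lit 1140)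 (nat_lit 14759928085) (nat_lit 132) (nat_lit 5) (nat_lit 146) (nat_lit 5) (nat_lit 147) (nat_lit 5) (nat_lit 272) (nat_lit 270) (nat_lit 178))))))) (XT.nd (nat_lit 780) (nat_lit 3724) (nat_lit 0) (XT.nd (nat_lit 390) (nat_lit 684) (nat_lit 0) (XT.nd (nat_lit 156) (nat_lit 0) (nat_lit 76) (XT.nd (nat_lit 78) (nat_lit 0) (nat_lit 76) (XT.lf (nat_lit 0) (nat_lit 1487952456) (nat_lit 1064) (nat_lit 9776151938) (nat_lit 1140) (nat_lit 8065816627) (nat_lit 133) (nat_lit 5) (nat_lit 147) (nat_lit 5) (nat_lit 148) (nat_lit 5) (nat_lit 273) (nat_lit 270) (nat_lit 177)) (XT.lf (nat_lit 0) (nat_lit 2338296636) (nat_lit 1064) (nat_lit 16501254478) (nat_lit 1140) (nat_lit 983803194) (nat_lit 134) (nat_lit 5) (nat_lit 148) (nat_lit 5) (nat_lit 149) (nat_lit 5) (nat_lit 274) (nat_lit 270) (nat_lit 176))) (XT.nd (nat_lit 78) (nat_lit 0) (nat_lit 76) (XT.lf (nat_lit 0) (nat_lit 3429796897) (nat_lit 1064)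 (nat_lit 3184575475) (nat_lit 1140) (nat_lit 13721178019) (nat_lit 134) (nat_lit 5) (nat_lit 148) (nat_lit 5) (nat_lit 149) (nat_lit 5) (nat_lit 275) (nat_lit 270) (nat_lit 175)) (XT.nd (nat_lit 78) (nat_lit 0) (nat_lit 0) (XT.lf (nat_lit 0) (nat_lit 4726649817) (nat_lit 1064) (nat_lit 9929469109) (nat_lit 1140) (nat_lit 6212761926) (nat_lit 135) (nat_lit 5) (nat_lit 149) (nat_lit 5) (nat_lit 150) (nat_lit 5) (nat_lit 276) (nat_lit 270) (nat_lit 174)) (XT.lf (nat_lit 76) (nat_lit 4416620045) (nat_lit 0) (nat_lit 1798864289) (nat_lit 1140) (nat_lit 15209624957) (nat_lit 136) (nat_lit 5) (nat_lit 135) (nat_lit 5) (nat_lit 150) (nat_lit 5) (nat_lit 277) (nat_lit 270) (nat_lit 173))))) (XT.nd (nat_lit 156) (nat_lit 912) (nat_lit 0) (XT.nd (nat_lit 78) (nat_lit 0) (nat_lit 76) (XT.lf (nat_lit 0) (nat_lit 7979946203) (nat_lit 1064) (nat_lit 2443007705) (nat_lit 1140) (nat_lit 11580203125) (nat_lit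 136) (nat_lit 5) (nat_lit 150) (nat_lit 5) (nat_lit 151) (nat_lit 5) (nat_lit 278) (nat_lit 270) (nat_lit 172)) (XT.lf (nat_lit 0) (nat_lit 9992605730) (nat_lit 1064) (nat_lit 9558832577) (nat_lit 1140) (nat_lit 3053910997) (nat_lit 137) (nat_lit 5) (nat_lit 151) (nat_lit 5) (nat_lit 152) (nat_lit 5) (nat_lit 279) (nat_lit 270) (nat_lit 171))) (XT.nd (nat_lit 78) (nat_lit 988) (nat_lit 0) (XT.lf (nat_lit 76) (nat_lit 6128213925) (nat_lit 0) (nat_lit 6153953270) (nat_lit 1140) (nat_lit 10950235336) (nat_lit 138) (nat_lit 5) (nat_lit 137) (nat_lit 5) (nat_lit 152) (nat_lit 5) (nat_lit 280) (nat_lit 270) (nat_lit 170)) (XT.nd (nat_lit 78) (nat_lit 1064) (nat_lit 0) (XT.lf (nat_lit 0) (nat_lit 14848965798) (nat_lit 1064) (nat_lit 1176264853) (nat_lit 76) (nat_lit 7860732530) (nat_lit 138) (nat_lit 5) (nat_lit 152) (nat_lit 5) (nat_lit 139) (nat_lit 5) (nat_lit 281) (nat_lit 270) (nat_lit 169))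 (XT.lf (nat_lit 0) (nat_lit 15783720010) (nat_lit 1064) (nat_lit 1962140970) (nat_lit 1140) (nat_lit 6820323929) (nat_lit 124) (nat_lit 5) (nat_lit 138) (nat_lit 5) (nat_lit 139) (nat_lit 5) (nat_lit 282) (nat_lit 270) (nat_lit 168)))))) (XT.nd (nat_lit 390) (nat_lit 1672) (nat_lit 0) (XT.nd (nat_lit 156) (nat_lit 1064) (nat_lit 0) (XT.nd (nat_lit 78) (nat_lit 456) (nat_lit 0) (XT.lf (nat_lit 0) (nat_lit 8365955121) (nat_lit 532) (nat_lit 12625790269) (nat_lit 608) (nat_lit 4282582045) (nat_lit 117) (nat_lit 5) (nat_lit 124) (nat_lit 5) (nat_lit 125) (nat_lit 5) (nat_lit 283) (nat_lit 270) (nat_lit 167)) (XT.lf (nat_lit 0) (nat_lit 500441820) (nat_lit 456) (nat_lit 24022660183) (nat_lit 532) (nat_lit 1491112166) (nat_lit 111) (nat_lit 5) (nat_lit 117) (nat_lit 5) (nat_lit 118) (nat_lit 5) (nat_lit 284) (nat_lit 270) (nat_lit 166))) (XT.nd (nat_lit 78) (nat_lit 988) (nat_lit 0) (XT.lf (nat_lit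 0) (nat_lit 1704226621) (nat_lit 532) (nat_lit 7806193782) (nat_lit 76) (nat_lit 17271517764) (nat_lit 110) (nat_lit 5) (nat_lit 117) (nat_lit 5) (nat_lit 111) (nat_lit 5) (nat_lit 285) (nat_lit 270) (nat_lit 165)) (XT.nd (nat_lit 78) (nat_lit 456) (nat_lit 0) (XT.lf (nat_lit 0) (nat_lit 5180236132) (nat_lit 608) (nat_lit 16664986511) (nat_lit 76) (nat_lit 5737859099) (nat_lit 103) (nat_lit 5) (nat_lit 111) (nat_lit 5) (nat_lit 104) (nat_lit 5) (nat_lit 286) (nat_lit 270) (nat_lit 164)) (XT.lf (nat_lit 0) (nat_lit 2257208911) (nat_lit 456) (nat_lit 6761774965) (nat_lit 532) (nat_lit 19399657680) (nat_lit 97) (nat_lit 5) (nat_lit 103) (nat_lit 5) (nat_lit 104) (nat_lit 5) (nat_lit 287) (nat_lit 270) (nat_lit 163))))) (XT.nd (nat_lit 234) (nat_lit 836) (nat_lit 0) (XT.nd (nat_lit 78) (nat_lit 836) (nat_lit 0) (XT.lf (nat_lit 0) (nat_lit 13300635298) (nat_lit 532) (nat_lit 6915941646) (nat_lit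 76) (nat_lit 9071899326) (nat_lit 97) (nat_lit 5) (nat_lit 104) (nat_lit 5) (nat_lit 98) (nat_lit 5) (nat_lit 288) (nat_lit 270) (nat_lit 162)) (XT.nd (nat_lit 78) (nat_lit 380) (nat_lit 0) (XT.lf (nat_lit 0) (nat_lit 13477104394) (nat_lit 456) (nat_lit 4507990782) (nat_lit 532) (nat_lit 12211070431) (nat_lit 91) (nat_lit 5) (nat_lit 97) (nat_lit 5) (nat_lit 98) (nat_lit 5) (nat_lit 289) (nat_lit 270) (nat_lit 161)) (XT.lf (nat_lit 0) (nat_lit 3836699960) (nat_lit 380) (nat_lit 19282340990) (nat_lit 456) (nat_lit 8023764063) (nat_lit 86) (nat_lit 5) (nat_lit 91) (nat_lit 5) (nat_lit 92) (nat_lit 5) (nat_lit 290) (nat_lit 270) (nat_lit 160)))) (XT.nd (nat_lit 78) (nat_lit 836) (nat_lit 0) (XT.lf (nat_lit 0) (nat_lit 25714026050) (nat_lit 380) (nat_lit 3004414362) (nat_lit 456) (nat_lit 3412095657) (nat_lit 86) (nat_lit 5) (nat_lit 91) (nat_lit 5) (nat_lit 92) (nat_lit 5) (nat_lit 291) (nat_lit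 270) (nat_lit 159)) (XT.nd (nat_lit 78) (nat_lit 380) (nat_lit 0) (XT.lf (nat_lit 0) (nat_lit 1683102543) (nat_lit 456) (nat_lit 17496741708) (nat_lit 76) (nat_lit 13978992070) (nat_lit 80) (nat_lit 5) (nat_lit 86) (nat_lit 5) (nat_lit 81) (nat_lit 5) (nat_lit 292) (nat_lit 270) (nat_lit 158)) (XT.lf (nat_lit 0) (nat_lit 4760696945) (nat_lit 380) (nat_lit 2337434032) (nat_lit 456) (nat_lit 27135357685) (nat_lit 75) (nat_lit 5) (nat_lit 80) (nat_lit 5) (nat_lit 81) (nat_lit 5) (nat_lit 293) (nat_lit 270) (nat_lit 157))))))))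
noncomputable def xc103 : XT := (XT.nd (nat_lit 1638) (nat_lit 836) (nat_lit 0) (XT.nd (nat_lit 780) (nat_lit 1520) (nat_lit 0) (XT.nd (nat_lit 390) (nat_lit 836) (nat_lit 0) (XT.nd (nat_lit 156) (nat_lit 684) (nat_lit 0) (XT.nd (nat_lit 78) (nat_lit 380) (nat_lit 0) (XT.lf (nat_lit 0) (nat_lit 13105799284) (nat_lit 456) (nat_lit 7018048323) (nat_lit 76) (nat_lit 15228388120) (nat_lit 75) (nat_lit 5) (nat_lit 81) (nat_lit 5) (nat_lit 76) (nat_lit 5) (nat_lit 294) (nat_lit 270) (nat_lit 156)) (XT.lf (nat_lit 0) (nat_lit 16856283813) (nat_lit 380) (nat_lit 2736017106) (nat_lit 456) (nat_lit 16929283598) (nat_lit 70) (nat_lit 5) (nat_lit 75) (nat_lit 5) (nat_lit 76) (nat_lit 5) (nat_lit 295) (nat_lit 270) (nat_lit 155))) (XT.nd (nat_lit 78) (nat_lit 380) (nat_lit 0) (XT.lf (nat_lit 0) (nat_lit 4248289092) (nat_lit 304) (nat_lit 22410909356) (nat_lit 380) (nat_lit 11082537193) (nat_lit 66) (nat_lit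 5) (nat_lit 70) (nat_lit 5) (nat_lit 71) (nat_lit 5) (nat_lit 296) (nat_lit 270) (nat_lit 154)) (XT.nd (nat_lit 78) (nat_lit 380) (nat_lit 0) (XT.lf (nat_lit 0) (nat_lit 29732131268) (nat_lit 304) (nat_lit 4570416360) (nat_lit 380) (nat_lit 4713669697) (nat_lit 66) (nat_lit 5) (nat_lit 70) (nat_lit 5) (nat_lit 71) (nat_lit 5) (nat_lit 297) (nat_lit 270) (nat_lit 153)) (XT.lf (nat_lit 0) (nat_lit 2224494513) (nat_lit 380) (nat_lit 24057789508) (nat_lit 76) (nat_lit 14062903918) (nat_lit 61) (nat_lit 5) (nat_lit 66) (nat_lit 5) (nat_lit 62) (nat_lit 5) (nat_lit 298) (nat_lit 270) (nat_lit 152))))) (XT.nd (nat_lit 156) (nat_lit 532) (nat_lit 0) (XT.nd (nat_lit 78) (nat_lit 0) (nat_lit 0) (XT.lf (nat_lit 0) (nat_lit 1520832684) (nat_lit 304) (nat_lit 8043204221) (nat_lit 380) (nat_lit 32170625674) (nat_lit 57) (nat_lit 5) (nat_lit 61) (nat_lit 5) (nat_lit 62) (nat_lit 5) (nat_lit 299) (nat_lit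 270) (nat_lit 151)) (XT.lf (nat_lit 0) (nat_lit 17621425690) (nat_lit 380) (nat_lit 14422154493) (nat_lit 76) (nat_lit 11139518282) (nat_lit 57) (nat_lit 5) (nat_lit 62) (nat_lit 5) (nat_lit 58) (nat_lit 5) (nat_lit 300) (nat_lit 270) (nat_lit 150))) (XT.nd (nat_lit 78) (nat_lit 228) (nat_lit 0) (XT.lf (nat_lit 0) (nat_lit 12820604639) (nat_lit 304) (nat_lit 13459775338) (nat_lit 380) (nat_lit 18417628233) (nat_lit 53) (nat_lit 5) (nat_lit 57) (nat_lit 5) (nat_lit 58) (nat_lit 5) (nat_lit 301) (nat_lit 270) (nat_lit 149)) (XT.nd (nat_lit 78) (nat_lit 228) (nat_lit 0) (XT.lf (nat_lit 0) (nat_lit 35574862860) (nat_lit 380) (nat_lit 4624424897) (nat_lit 76) (nat_lit 6083310588) (nat_lit 53) (nat_lit 5) (nat_lit 58) (nat_lit 5) (nat_lit 54) (nat_lit 5) (nat_lit 302) (nat_lit 270) (nat_lit 148)) (XT.lf (nat_lit 0) (nat_lit 24322890945) (nat_lit 228) (nat_lit 21375562354) (nat_lit 304) (nat_lit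 2237044926) (nat_lit 50) (nat_lit 5) (nat_lit 53) (nat_lit 5) (nat_lit 54) (nat_lit 5) (nat_lit 303) (nat_lit 270) (nat_lit 147)))))) (XT.nd (nat_lit 390) (nat_lit 684) (nat_lit 0) (XT.nd (nat_lit 156) (nat_lit 456) (nat_lit 0) (XT.nd (nat_lit 78) (nat_lit 0) (nat_lit 0) (XT.lf (nat_lit 0) (nat_lit 5174099109) (nat_lit 304) (nat_lit 1445835630) (nat_lit 380) (nat_lit 43046419627) (nat_lit 45) (nat_lit 5) (nat_lit 49) (nat_lit 5) (nat_lit 50) (nat_lit 5) (nat_lit 304) (nat_lit 270) (nat_lit 146)) (XT.lf (nat_lit 0) (nat_lit 16301673167) (nat_lit 380) (nat_lit 15802067200) (nat_lit 76) (nat_lit 19366513560) (nat_lit 45) (nat_lit 5) (nat_lit 50) (nat_lit 5) (nat_lit 46) (nat_lit 5) (nat_lit 305) (nat_lit 270) (nat_lit 145))) (XT.nd (nat_lit 78) (nat_lit 228) (nat_lit 0) (XT.lf (nat_lit 0) (nat_lit 14586056064) (nat_lit 228) (nat_lit 12031493634) (nat_lit 304) (nat_lit 26742307081) (nat_lit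 42) (nat_lit 5) (nat_lit 45) (nat_lit 5) (nat_lit 46) (nat_lit 5) (nat_lit 306) (nat_lit 270) (nat_lit 144)) (XT.nd (nat_lit 78) (nat_lit 228) (nat_lit 0) (XT.lf (nat_lit 0) (nat_lit 37695833863) (nat_lit 304) (nat_lit 8610355573) (nat_lit 76) (nat_lit 9030361301) (nat_lit 42) (nat_lit 5) (nat_lit 46) (nat_lit 5) (nat_lit 43) (nat_lit 5) (nat_lit 307) (nat_lit 270) (nat_lit 143)) (XT.lf (nat_lit 0) (nat_lit 23390012706) (nat_lit 228) (nat_lit 26279909628) (nat_lit 304) (nat_lit 7731909288) (nat_lit 39) (nat_lit 5) (nat_lit 42) (nat_lit 5) (nat_lit 43) (nat_lit 5) (nat_lit 308) (nat_lit 270) (nat_lit 142))))) (XT.nd (nat_lit 234) (nat_lit 152) (nat_lit 0) (XT.nd (nat_lit 78) (nat_lit 456) (nat_lit 0) (XT.lf (nat_lit 0) (nat_lit 2705419878) (nat_lit 304) (nat_lit 2430103237) (nat_lit 76) (nat_lit 54431534206) (nat_lit 38) (nat_lit 5) (nat_lit 42) (nat_lit 5) (nat_lit 39) (nat_lit 5) (nat_lit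 309) (nat_lit 270) (nat_lit 141)) (XT.nd (nat_lit 78) (nat_lit 228) (nat_lit 0) (XT.lf (nat_lit 0) (nat_lit 13970351756) (nat_lit 304) (nat_lit 30740367753) (nat_lit 76) (nat_lit 17113566736) (nat_lit 35) (nat_lit 5) (nat_lit 39) (nat_lit 5) (nat_lit 36) (nat_lit 5) (nat_lit 310) (nat_lit 270) (nat_lit 140)) (XT.lf (nat_lit 0) (nat_lit 2114171841) (nat_lit 228) (nat_lit 23777820108) (nat_lit 304) (nat_lit 38299588305) (nat_lit 32) (nat_lit 5) (nat_lit 35) (nat_lit 5) (nat_lit 36) (nat_lit 5) (nat_lit 311) (nat_lit 270) (nat_lit 139)))) (XT.nd (nat_lit 78) (nat_lit 152) (nat_lit 0) (XT.lf (nat_lit 0) (nat_lit 37248189224) (nat_lit 228) (nat_lit 1474145731) (nat_lit 304) (nat_lit 27945532520) (nat_lit 32) (nat_lit 5) (nat_lit 35) (nat_lit 5) (nat_lit 36) (nat_lit 5) (nat_lit 312) (nat_lit 270) (nat_lit 138)) (XT.nd (nat_lit 78) (nat_lit 0) (nat_lit 0) (XT.lf (nat_lit 0) (nat_lit 4747162911)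 (nat_lit 152) (nat_lit 47699952220) (nat_lit 228) (nat_lit 16813273120) (nat_lit 30) (nat_lit 5) (nat_lit 32) (nat_lit 5) (nat_lit 33) (nat_lit 5) (nat_lit 313) (nat_lit 270) (nat_lit 137)) (XT.lf (nat_lit 0) (nat_lit 41216648713) (nat_lit 152) (nat_lit 25955532862) (nat_lit 228) (nat_lit 4800938543) (nat_lit 30) (nat_lit 5) (nat_lit 32) (nat_lit 5) (nat_lit 33) (nat_lit 5) (nat_lit 314) (nat_lit 270) (nat_lit 136))))))) (XT.nd (nat_lit 34164) (nat_lit 0) (nat_lit 8588) (XT.nd (nat_lit 390) (nat_lit 380) (nat_lit 0) (XT.nd (nat_lit 156) (nat_lit 152) (nat_lit 0) (XT.nd (nat_lit 78) (nat_lit 0) (nat_lit 0) (XT.lf (nat_lit 0) (nat_lit 4699604393) (nat_lit 228) (nat_lit 3001736897) (nat_lit 304) (nat_lit 67116647386) (nat_lit 26) (nat_lit 5) (nat_lit 29) (nat_lit 5) (nat_lit 30) (nat_lit 5) (nat_lit 315) (nat_lit 270) (nat_lit 135)) (XT.lf (nat_lit 0) (nat_lit 21249628179) (nat_lit 304) (nat_lit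 35483883476) (nat_lit 76) (nat_lit 21054563169) (nat_lit 26) (nat_lit 5) (nat_lit 30) (nat_lit 5) (nat_lit 27) (nat_lit 5) (nat_lit 316) (nat_lit 270) (nat_lit 134))) (XT.nd (nat_lit 78) (nat_lit 0) (nat_lit 0) (XT.lf (nat_lit 0) (nat_lit 864078374) (nat_lit 152) (nat_lit 34646703543) (nat_lit 228) (nat_lit 45394825217) (nat_lit 24) (nat_lit 5) (nat_lit 26) (nat_lit 5) (nat_lit 27) (nat_lit 5) (nat_lit 317) (nat_lit 270) (nat_lit 133)) (XT.nd (nat_lit 78) (nat_lit 0) (nat_lit 0) (XT.lf (nat_lit 0) (nat_lit 39766257492) (nat_lit 152) (nat_lit 11080965275) (nat_lit 228) (nat_lit 33320931575) (nat_lit 24) (nat_lit 5) (nat_lit 26) (nat_lit 5) (nat_lit 27) (nat_lit 5) (nat_lit 318) (nat_lit 270) (nat_lit 132)) (XT.lf (nat_lit 0) (nat_lit 67078907498) (nat_lit 228) (nat_lit 7116164245) (nat_lit 76) (nat_lit 13394909436) (nat_lit 24) (nat_lit 5) (nat_lit 27) (nat_lit 5) (nat_lit 25) (nat_lit 5)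 (nat_lit 319) (nat_lit 270) (nat_lit 131))))) (XT.nd (nat_lit 156) (nat_lit 152) (nat_lit 0) (XT.nd (nat_lit 78) (nat_lit 76) (nat_lit 0) (XT.lf (nat_lit 0) (nat_lit 32552909777) (nat_lit 152) (nat_lit 51991251036) (nat_lit 228) (nat_lit 6626083704) (nat_lit 22) (nat_lit 5) (nat_lit 24) (nat_lit 5) (nat_lit 25) (nat_lit 5) (nat_lit 320) (nat_lit 270) (nat_lit 130)) (XT.lf (nat_lit 0) (nat_lit 7869224854) (nat_lit 228) (nat_lit 20654616098) (nat_lit 76) (nat_lit 66401252972) (nat_lit 21) (nat_lit 5) (nat_lit 24) (nat_lit 5) (nat_lit 22) (nat_lit 5) (nat_lit 321) (nat_lit 270) (nat_lit 129))) (XT.nd (nat_lit 78) (nat_lit 0) (nat_lit 0) (XT.lf (nat_lit 0) (nat_lit 19516131514) (nat_lit 152) (nat_lit 3622417834) (nat_lit 228) (nat_lit 75721583795) (nat_lit 19) (nat_lit 5) (nat_lit 21) (nat_lit 5) (nat_lit 22) (nat_lit 5) (nat_lit 322) (nat_lit 270) (nat_lit 128)) (XT.nd (nat_lit 33462) (nat_lit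 0) (nat_lit 8512) (XT.lf (nat_lit 0) (nat_lit 39600066129) (nat_lit 228) (nat_lit 41081135930) (nat_lit 76) (nat_lit 22297864415) (nat_lit 19) (nat_lit 5) (nat_lit 22) (nat_lit 5) (nat_lit 20) (nat_lit 5) (nat_lit 323) (nat_lit 270) (nat_lit 127)) (XT.lf (nat_lit 0) (nat_lit 236476548) (nat_lit 1140) (nat_lit 4592699947) (nat_lit 1140) (nat_lit 4592699947) (nat_lit 131) (nat_lit 3) (nat_lit 146) (nat_lit 3) (nat_lit 146) (nat_lit 5) (nat_lit 271) (nat_lit 271) (nat_lit 178)))))) (XT.nd (nat_lit 390) (nat_lit 0) (nat_lit 228) (XT.nd (nat_lit 156) (nat_lit 0) (nat_lit 76) (XT.nd (nat_lit 78) (nat_lit 0) (nat_lit 0) (XT.lf (nat_lit 0) (nat_lit 814650534) (nat_lit 1064) (nat_lit 15953258129) (nat_lit 1140) (nat_lit 2536216786) (nat_lit 132) (nat_lit 5) (nat_lit 146) (nat_lit 5) (nat_lit 147) (nat_lit 5) (nat_lit 272) (nat_lit 271) (nat_lit 177)) (XT.lf (nat_lit 0) (nat_lit 1348953854) (nat_lit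 1064) (nat_lit 3187054421) (nat_lit 1140) (nat_lit 15246295550) (nat_lit 132) (nat_lit 5) (nat_lit 146) (nat_lit 5) (nat_lit 147) (nat_lit 5) (nat_lit 273) (nat_lit 271) (nat_lit 176))) (XT.nd (nat_lit 78) (nat_lit 0) (nat_lit 76) (XT.lf (nat_lit 0) (nat_lit 2074345012) (nat_lit 1064) (nat_lit 9951615508) (nat_lit 1140) (nat_lit 8253549718) (nat_lit 133) (nat_lit 5) (nat_lit 147) (nat_lit 5) (nat_lit 148) (nat_lit 5) (nat_lit 274) (nat_lit 271) (nat_lit 175)) (XT.nd (nat_lit 78) (nat_lit 0) (nat_lit 0) (XT.lf (nat_lit 0) (nat_lit 2943961749) (nat_lit 1064) (nat_lit 17003975944) (nat_lit 1140) (nat_lit 850448501) (nat_lit 134) (nat_lit 5) (nat_lit 148) (nat_lit 5) (nat_lit 149) (nat_lit 5) (nat_lit 275) (nat_lit 271) (nat_lit 174)) (XT.lf (nat_lit 0) (nat_lit 4066763201) (nat_lit 1064) (nat_lit 3036812575) (nat_lit 1140) (nat_lit 14233384679) (nat_lit 134) (nat_lit 5) (nat_lit 148) (nat_lit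 5) (nat_lit 149) (nat_lit 5) (nat_lit 276) (nat_lit 271) (nat_lit 173))))) (XT.nd (nat_lit 234) (nat_lit 0) (nat_lit 152) (XT.nd (nat_lit 78) (nat_lit 0) (nat_lit 0) (XT.lf (nat_lit 0) (nat_lit 5407737096) (nat_lit 1064) (nat_lit 10111606554) (nat_lit 1140) (nat_lit 6378302257) (nat_lit 135) (nat_lit 5) (nat_lit 149) (nat_lit 5) (nat_lit 150) (nat_lit 5) (nat_lit 277) (nat_lit 271) (nat_lit 172)) (XT.nd (nat_lit 78) (nat_lit 0) (nat_lit 76) (XT.lf (nat_lit 76) (nat_lit 4942776680) (nat_lit 0) (nat_lit 2009992836) (nat_lit 1140) (nat_lit 15529527201) (nat_lit 136) (nat_lit 5) (nat_lit 135) (nat_lit 5) (nat_lit 150) (nat_lit 5) (nat_lit 278) (nat_lit 271) (nat_lit 171)) (XT.lf (nat_lit 0) (nat_lit 8784034996) (nat_lit 1064) (nat_lit 2259864206) (nat_lit 1140) (nat_lit 12046050833) (nat_lit 136) (nat_lit 5) (nat_lit 150) (nat_lit 5) (nat_lit 151) (nat_lit 5) (nat_lit 279) (nat_lit 271) (nat_lit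 170)))) (XT.nd (nat_lit 78) (nat_lit 0) (nat_lit 0) (XT.lf (nat_lit 0) (nat_lit 10880002568) (nat_lit 1064) (nat_lit 9726532155) (nat_lit 1140) (nat_lit 3116294664) (nat_lit 137) (nat_lit 5) (nat_lit 151) (nat_lit 5) (nat_lit 152) (nat_lit 5) (nat_lit 280) (nat_lit 271) (nat_lit 169)) (XT.nd (nat_lit 78) (nat_lit 0) (nat_lit 76) (XT.lf (nat_lit 76) (nat_lit 6735973646) (nat_lit 0) (nat_lit 6532500137) (nat_lit 1140) (nat_lit 11113283512) (nat_lit 138) (nat_lit 5) (nat_lit 137) (nat_lit 5) (nat_lit 152) (nat_lit 5) (nat_lit 281) (nat_lit 271) (nat_lit 168)) (XT.lf (nat_lit 0) (nat_lit 15945239977) (nat_lit 1064) (nat_lit 935749112) (nat_lit 76) (nat_lit 8187610412) (nat_lit 138) (nat_lit 5) (nat_lit 152) (nat_lit 5) (nat_lit 139) (nat_lit 5) (nat_lit 282) (nat_lit 271) (nat_lit 167))))))))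
noncomputable def xc104 : XT := (XT.nd (nat_lit 1560) (nat_lit 2584) (nat_lit 0) (XT.nd (nat_lit 780) (nat_lit 2508) (nat_lit 0) (XT.nd (nat_lit 390) (nat_lit 1292) (nat_lit 0) (XT.nd (nat_lit 156) (nat_lit 1064) (nat_lit 0) (XT.nd (nat_lit 78) (nat_lit 532) (nat_lit 0) (XT.lf (nat_lit 0) (nat_lit 16863654788) (nat_lit 1064) (nat_lit 2109271133) (nat_lit 1140) (nat_lit 6810377876) (nat_lit 124) (nat_lit 5) (nat_lit 138) (nat_lit 5) (nat_lit 139) (nat_lit 5) (nat_lit 283) (nat_lit 271) (nat_lit 166)) (XT.lf (nat_lit 0) (nat_lit 9077994721) (nat_lit 532) (nat_lit 13289305043) (nat_lit 608) (nat_lit 4160015314) (nat_lit 117) (nat_lit 5) (nat_lit 124) (nat_lit 5) (nat_lit 125) (nat_lit 5) (nat_lit 284) (nat_lit 271) (nat_lit 165))) (XT.nd (nat_lit 78) (nat_lit 608) (nat_lit 0) (XT.lf (nat_lit 0) (nat_lit 821507785) (nat_lit 456) (nat_lit 25240744917) (nat_lit 532) (nat_lit 1242377818) (nat_lit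 111) (nat_lit 5) (nat_lit 117) (nat_lit 5) (nat_lit 118) (nat_lit 5) (nat_lit 285) (nat_lit 271) (nat_lit 164)) (XT.nd (nat_lit 78) (nat_lit 532) (nat_lit 0) (XT.lf (nat_lit 0) (nat_lit 2091325005) (nat_lit 532) (nat_lit 7907712450) (nat_lit 76) (nat_lit 18112104678) (nat_lit 110) (nat_lit 5) (nat_lit 117) (nat_lit 5) (nat_lit 111) (nat_lit 5) (nat_lit 286) (nat_lit 271) (nat_lit 163)) (XT.lf (nat_lit 0) (nat_lit 5729362684) (nat_lit 608) (nat_lit 17208127014) (nat_lit 76) (nat_lit 6015246184) (nat_lit 103) (nat_lit 5) (nat_lit 111) (nat_lit 5) (nat_lit 104) (nat_lit 5) (nat_lit 287) (nat_lit 271) (nat_lit 162))))) (XT.nd (nat_lit 156) (nat_lit 836) (nat_lit 0) (XT.nd (nat_lit 78) (nat_lit 0) (nat_lit 0) (XT.lf (nat_lit 0) (nat_lit 2651862268) (nat_lit 456) (nat_lit 7097079326) (nat_lit 532) (nat_lit 20081503209) (nat_lit 97) (nat_lit 5) (nat_lit 103) (nat_lit 5) (nat_lit 104) (nat_lit 5)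 (nat_lit 288) (nat_lit 271) (nat_lit 161)) (XT.lf (nat_lit 0) (nat_lit 14231414957) (nat_lit 532) (nat_lit 6984695893) (nat_lit 76) (nat_lit 9528094344) (nat_lit 97) (nat_lit 5) (nat_lit 104) (nat_lit 5) (nat_lit 98) (nat_lit 5) (nat_lit 289) (nat_lit 271) (nat_lit 160))) (XT.nd (nat_lit 78) (nat_lit 380) (nat_lit 0) (XT.lf (nat_lit 0) (nat_lit 14420061073) (nat_lit 456) (nat_lit 4719968862) (nat_lit 532) (nat_lit 12557585501) (nat_lit 91) (nat_lit 5) (nat_lit 97) (nat_lit 5) (nat_lit 98) (nat_lit 5) (nat_lit 290) (nat_lit 271) (nat_lit 159)) (XT.nd (nat_lit 78) (nat_lit 0) (nat_lit 0) (XT.lf (nat_lit 0) (nat_lit 4297916218) (nat_lit 380) (nat_lit 20223293871) (nat_lit 456) (nat_lit 8170693376) (nat_lit 86) (nat_lit 5) (nat_lit 91) (nat_lit 5) (nat_lit 92) (nat_lit 5) (nat_lit 291) (nat_lit 271) (nat_lit 158)) (XT.lf (nat_lit 0) (nat_lit 27256280934) (nat_lit 380) (nat_lit 3132573967) (nat_lit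 456) (nat_lit 3340549115) (nat_lit 86) (nat_lit 5) (nat_lit 91) (nat_lit 5) (nat_lit 92) (nat_lit 5) (nat_lit 292) (nat_lit 271) (nat_lit 157)))))) (XT.nd (nat_lit 390) (nat_lit 988) (nat_lit 0) (XT.nd (nat_lit 156) (nat_lit 684) (nat_lit 0) (XT.nd (nat_lit 78) (nat_lit 380) (nat_lit 0) (XT.lf (nat_lit 0) (nat_lit 1996071108) (nat_lit 456) (nat_lit 18110015050) (nat_lit 76) (nat_lit 14703250523) (nat_lit 80) (nat_lit 5) (nat_lit 86) (nat_lit 5) (nat_lit 81) (nat_lit 5) (nat_lit 293) (nat_lit 271) (nat_lit 156)) (XT.lf (nat_lit 0) (nat_lit 5252797863) (nat_lit 380) (nat_lit 2420599460) (nat_lit 456) (nat_lit 28264605403) (nat_lit 75) (nat_lit 5) (nat_lit 80) (nat_lit 5) (nat_lit 81) (nat_lit 5) (nat_lit 294) (nat_lit 271) (nat_lit 155))) (XT.nd (nat_lit 78) (nat_lit 684) (nat_lit 0) (XT.lf (nat_lit 0) (nat_lit 13971264299) (nat_lit 456) (nat_lit 7120472230) (nat_lit 76) (nat_lit 16021282329)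 (nat_lit 75) (nat_lit 5) (nat_lit 81) (nat_lit 5) (nat_lit 76) (nat_lit 5) (nat_lit 295) (nat_lit 271) (nat_lit 154)) (XT.nd (nat_lit 78) (nat_lit 304) (nat_lit 0) (XT.lf (nat_lit 0) (nat_lit 17940453926) (nat_lit 380) (nat_lit 2833948816) (nat_lit 456) (nat_lit 17566687919) (nat_lit 70) (nat_lit 5) (nat_lit 75) (nat_lit 5) (nat_lit 76) (nat_lit 5) (nat_lit 296) (nat_lit 271) (nat_lit 153)) (XT.lf (nat_lit 0) (nat_lit 4701162793) (nat_lit 304) (nat_lit 23486507410) (nat_lit 380) (nat_lit 11434812123) (nat_lit 66) (nat_lit 5) (nat_lit 70) (nat_lit 5) (nat_lit 71) (nat_lit 5) (nat_lit 297) (nat_lit 271) (nat_lit 152))))) (XT.nd (nat_lit 156) (nat_lit 608) (nat_lit 0) (XT.nd (nat_lit 78) (nat_lit 380) (nat_lit 0) (XT.lf (nat_lit 0) (nat_lit 31447746638) (nat_lit 304) (nat_lit 4756130117) (nat_lit 380) (nat_lit 4757113249) (nat_lit 66) (nat_lit 5) (nat_lit 70) (nat_lit 5) (nat_lit 71) (nat_lit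 5) (nat_lit 298) (nat_lit 271) (nat_lit 151)) (XT.lf (nat_lit 0) (nat_lit 2517840500) (nat_lit 380) (nat_lit 25028726623) (nat_lit 76) (nat_lit 14809998511) (nat_lit 61) (nat_lit 5) (nat_lit 66) (nat_lit 5) (nat_lit 62) (nat_lit 5) (nat_lit 299) (nat_lit 271) (nat_lit 150))) (XT.nd (nat_lit 78) (nat_lit 304) (nat_lit 0) (XT.lf (nat_lit 0) (nat_lit 1822177811) (nat_lit 304) (nat_lit 8395675515) (nat_lit 380) (nat_lit 33597875789) (nat_lit 57) (nat_lit 5) (nat_lit 61) (nat_lit 5) (nat_lit 62) (nat_lit 5) (nat_lit 300) (nat_lit 271) (nat_lit 149)) (XT.nd (nat_lit 78) (nat_lit 304) (nat_lit 0) (XT.lf (nat_lit 0) (nat_lit 18670203847) (nat_lit 380) (nat_lit 14923745603) (nat_lit 76) (nat_lit 11742893536) (nat_lit 57) (nat_lit 5) (nat_lit 62) (nat_lit 5) (nat_lit 58) (nat_lit 5) (nat_lit 301) (nat_lit 271) (nat_lit 148)) (XT.lf (nat_lit 0) (nat_lit 13674859087) (nat_lit 304) (nat_lit 14081310362)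 (nat_lit 380) (nat_lit 19171524919) (nat_lit 53) (nat_lit 5) (nat_lit 57) (nat_lit 5) (nat_lit 58) (nat_lit 5) (nat_lit 302) (nat_lit 271) (nat_lit 147))))))) (XT.nd (nat_lit 780) (nat_lit 988) (nat_lit 0) (XT.nd (nat_lit 390) (nat_lit 760) (nat_lit 0) (XT.nd (nat_lit 156) (nat_lit 608) (nat_lit 0) (XT.nd (nat_lit 78) (nat_lit 228) (nat_lit 0) (XT.lf (nat_lit 0) (nat_lit 37508144171) (nat_lit 380) (nat_lit 4648080557) (nat_lit 76) (nat_lit 6435523446) (nat_lit 53) (nat_lit 5) (nat_lit 58) (nat_lit 5) (nat_lit 54) (nat_lit 5) (nat_lit 303) (nat_lit 271) (nat_lit 146)) (XT.lf (nat_lit 0) (nat_lit 25740651251) (nat_lit 228) (nat_lit 22391841976) (nat_lit 304) (nat_lit 2194978828) (nat_lit 50) (nat_lit 5) (nat_lit 53) (nat_lit 5) (nat_lit 54) (nat_lit 5) (nat_lit 304) (nat_lit 271) (nat_lit 145))) (XT.nd (nat_lit 78) (nat_lit 228) (nat_lit 0) (XT.lf (nat_lit 0) (nat_lit 5631866862) (nat_lit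 304) (nat_lit 1464706550) (nat_lit 380) (nat_lit 45048426536) (nat_lit 45) (nat_lit 5) (nat_lit 49) (nat_lit 5) (nat_lit 50) (nat_lit 5) (nat_lit 305) (nat_lit 271) (nat_lit 144)) (XT.nd (nat_lit 78) (nat_lit 228) (nat_lit 0) (XT.lf (nat_lit 0) (nat_lit 17255952491) (nat_lit 380) (nat_lit 16398626351) (nat_lit 76) (nat_lit 20384723456) (nat_lit 45) (nat_lit 5) (nat_lit 50) (nat_lit 5) (nat_lit 46) (nat_lit 5) (nat_lit 306) (nat_lit 271) (nat_lit 143)) (XT.lf (nat_lit 0) (nat_lit 15503355171) (nat_lit 228) (nat_lit 12579446448) (nat_lit 304) (nat_lit 27940742045) (nat_lit 42) (nat_lit 5) (nat_lit 45) (nat_lit 5) (nat_lit 46) (nat_lit 5) (nat_lit 307) (nat_lit 271) (nat_lit 142))))) (XT.nd (nat_lit 156) (nat_lit 532) (nat_lit 0) (XT.nd (nat_lit 78) (nat_lit 228) (nat_lit 0) (XT.lf (nat_lit 0) (nat_lit 39709092111) (nat_lit 304) (nat_lit 8858219246) (nat_lit 76) (nat_lit 9531951282) (nat_lit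 42) (nat_lit 5) (nat_lit 46) (nat_lit 5) (nat_lit 43) (nat_lit 5) (nat_lit 308) (nat_lit 271) (nat_lit 141)) (XT.lf (nat_lit 0) (nat_lit 24736931704) (nat_lit 228) (nat_lit 27540541300) (nat_lit 304) (nat_lit 7990479383) (nat_lit 39) (nat_lit 5) (nat_lit 42) (nat_lit 5) (nat_lit 43) (nat_lit 5) (nat_lit 309) (nat_lit 271) (nat_lit 140))) (XT.nd (nat_lit 78) (nat_lit 456) (nat_lit 0) (XT.lf (nat_lit 0) (nat_lit 2960240523) (nat_lit 304) (nat_lit 2380028856) (nat_lit 76) (nat_lit 57201323917) (nat_lit 38) (nat_lit 5) (nat_lit 42) (nat_lit 5) (nat_lit 39) (nat_lit 5) (nat_lit 310) (nat_lit 271) (nat_lit 139)) (XT.nd (nat_lit 78) (nat_lit 228) (nat_lit 0) (XT.lf (nat_lit 0) (nat_lit 14784820393) (nat_lit 304) (nat_lit 32107533883) (nat_lit 76) (nat_lit 18019448320) (nat_lit 35) (nat_lit 5) (nat_lit 39) (nat_lit 5) (nat_lit 36) (nat_lit 5) (nat_lit 311) (nat_lit 271) (nat_lit 138)) (XT.lf (nat_lit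 0) (nat_lit 2384863910) (nat_lit 228) (nat_lit 24913743130) (nat_lit 304) (nat_lit 40098982782) (nat_lit 32) (nat_lit 5) (nat_lit 35) (nat_lit 5) (nat_lit 36) (nat_lit 5) (nat_lit 312) (nat_lit 271) (nat_lit 137)))))) (XT.nd (nat_lit 390) (nat_lit 532) (nat_lit 0) (XT.nd (nat_lit 156) (nat_lit 304) (nat_lit 0) (XT.nd (nat_lit 78) (nat_lit 152) (nat_lit 0) (XT.lf (nat_lit 0) (nat_lit 39267725806) (nat_lit 228) (nat_lit 1497407318) (nat_lit 304) (nat_lit 29232728253) (nat_lit 32) (nat_lit 5) (nat_lit 35) (nat_lit 5) (nat_lit 36) (nat_lit 5) (nat_lit 313) (nat_lit 271) (nat_lit 136)) (XT.lf (nat_lit 0) (nat_lit 5139975172) (nat_lit 152) (nat_lit 50033053213) (nat_lit 228) (nat_lit 17547083001) (nat_lit 30) (nat_lit 5) (nat_lit 32) (nat_lit 5) (nat_lit 33) (nat_lit 5) (nat_lit 314) (nat_lit 271) (nat_lit 135))) (XT.nd (nat_lit 78) (nat_lit 304) (nat_lit 0) (XT.lf (nat_lit 0) (nat_lit 43425532687)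 (nat_lit 152) (nat_lit 27203884155) (nat_lit 228) (nat_lit 4939219971) (nat_lit 30) (nat_lit 5) (nat_lit 32) (nat_lit 5) (nat_lit 33) (nat_lit 5) (nat_lit 315) (nat_lit 271) (nat_lit 134)) (XT.nd (nat_lit 78) (nat_lit 0) (nat_lit 0) (XT.lf (nat_lit 0) (nat_lit 5080491416) (nat_lit 228) (nat_lit 3102347759) (nat_lit 304) (nat_lit 70372989090) (nat_lit 26) (nat_lit 5) (nat_lit 29) (nat_lit 5) (nat_lit 30) (nat_lit 5) (nat_lit 316) (nat_lit 271) (nat_lit 133)) (XT.lf (nat_lit 0) (nat_lit 22404401411) (nat_lit 304) (nat_lit 37116657597) (nat_lit 76) (nat_lit 22153491831) (nat_lit 26) (nat_lit 5) (nat_lit 30) (nat_lit 5) (nat_lit 27) (nat_lit 5) (nat_lit 317) (nat_lit 271) (nat_lit 132))))) (XT.nd (nat_lit 234) (nat_lit 380) (nat_lit 0) (XT.nd (nat_lit 78) (nat_lit 0) (nat_lit 0) (XT.lf (nat_lit 0) (nat_lit 1044648568) (nat_lit 152) (nat_lit 36330889866) (nat_lit 228) (nat_lit 47572521130) (nat_lit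 24) (nat_lit 5) (nat_lit 26) (nat_lit 5) (nat_lit 27) (nat_lit 5) (nat_lit 318) (nat_lit 271) (nat_lit 131)) (XT.nd (nat_lit 78) (nat_lit 0) (nat_lit 0) (XT.lf (nat_lit 0) (nat_lit 41885395391) (nat_lit 152) (nat_lit 11589157488) (nat_lit 228) (nat_lit 34899315918) (nat_lit 24) (nat_lit 5) (nat_lit 26) (nat_lit 5) (nat_lit 27) (nat_lit 5) (nat_lit 319) (nat_lit 271) (nat_lit 130)) (XT.lf (nat_lit 0) (nat_lit 70514195511) (nat_lit 228) (nat_lit 7345231990) (nat_lit 76) (nat_lit 14107475131) (nat_lit 24) (nat_lit 5) (nat_lit 27) (nat_lit 5) (nat_lit 25) (nat_lit 5) (nat_lit 320) (nat_lit 271) (nat_lit 129)))) (XT.nd (nat_lit 78) (nat_lit 228) (nat_lit 0) (XT.lf (nat_lit 0) (nat_lit 34303662743) (nat_lit 152) (nat_lit 54546358674) (nat_lit 228) (nat_lit 6876244961) (nat_lit 22) (nat_lit 5) (nat_lit 24) (nat_lit 5) (nat_lit 25) (nat_lit 5) (nat_lit 321) (nat_lit 271) (nat_lit 128)) (XT.nd (nat_lit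 78) (nat_lit 152) (nat_lit 0) (XT.lf (nat_lit 0) (nat_lit 8338457084) (nat_lit 228) (nat_lit 21568472764) (nat_lit 76) (nat_lit 69762024711) (nat_lit 21) (nat_lit 5) (nat_lit 24) (nat_lit 5) (nat_lit 22) (nat_lit 5) (nat_lit 322) (nat_lit 271) (nat_lit 127)) (XT.lf (nat_lit 0) (nat_lit 20607404726) (nat_lit 152) (nat_lit 3761344872) (nat_lit 228) (nat_lit 79432076847) (nat_lit 19) (nat_lit 5) (nat_lit 21) (nat_lit 5) (nat_lit 22) (nat_lit 5) (nat_lit 323) (nat_lit 271) (nat_lit 126))))))))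
noncomputable def xc105 : XT := (XT.nd (nat_lit 1560) (nat_lit 4256) (nat_lit 0) (XT.nd (nat_lit 780) (nat_lit 3040) (nat_lit 0) (XT.nd (nat_lit 390) (nat_lit 0) (nat_lit 228) (XT.nd (nat_lit 156) (nat_lit 0) (nat_lit 76) (XT.nd (nat_lit 78) (nat_lit 0) (nat_lit 76) (XT.lf (nat_lit 0) (nat_lit 516597042) (nat_lit 1140) (nat_lit 4683756077) (nat_lit 1140) (nat_lit 4683756077) (nat_lit 131) (nat_lit 3) (nat_lit 146) (nat_lit 3) (nat_lit 146) (nat_lit 5) (nat_lit 272) (nat_lit 272) (nat_lit 176)) (XT.lf (nat_lit 0) (nat_lit 1366662693) (nat_lit 1064) (nat_lit 16462402635) (nat_lit 1140) (nat_lit 2423381017) (nat_lit 132) (nat_lit 5) (nat_lit 146) (nat_lit 5) (nat_lit 147) (nat_lit 5) (nat_lit 273) (nat_lit 272) (nat_lit 175))) (XT.nd (nat_lit 78) (nat_lit 0) (nat_lit 76) (XT.lf (nat_lit 0) (nat_lit 1903334530) (nat_lit 1064) (nat_lit 3071627714) (nat_lit 1140) (nat_lit 15780375462) (nat_lit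 132) (nat_lit 5) (nat_lit 146) (nat_lit 5) (nat_lit 147) (nat_lit 5) (nat_lit 274) (nat_lit 272) (nat_lit 174)) (XT.nd (nat_lit 78) (nat_lit 0) (nat_lit 76) (XT.lf (nat_lit 0) (nat_lit 2642456760) (nat_lit 1064) (nat_lit 10164984014) (nat_lit 1140) (nat_lit 8470709978) (nat_lit 133) (nat_lit 5) (nat_lit 147) (nat_lit 5) (nat_lit 148) (nat_lit 5) (nat_lit 275) (nat_lit 272) (nat_lit 173)) (XT.lf (nat_lit 0) (nat_lit 3534470749) (nat_lit 1064) (nat_lit 17561801719) (nat_lit 1140) (nat_lit 727397364) (nat_lit 134) (nat_lit 5) (nat_lit 148) (nat_lit 5) (nat_lit 149) (nat_lit 5) (nat_lit 276) (nat_lit 272) (nat_lit 172))))) (XT.nd (nat_lit 156) (nat_lit 0) (nat_lit 76) (XT.nd (nat_lit 78) (nat_lit 0) (nat_lit 76) (XT.lf (nat_lit 0) (nat_lit 4692302230) (nat_lit 1064) (nat_lit 2910202706) (nat_lit 1140) (nat_lit 14787364806) (nat_lit 134) (nat_lit 5) (nat_lit 148) (nat_lit 5) (nat_lit 149) (nat_lit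 5) (nat_lit 277) (nat_lit 272) (nat_lit 171)) (XT.lf (nat_lit 0) (nat_lit 6081529654) (nat_lit 1064) (nat_lit 10332074854) (nat_lit 1140) (nat_lit 6565609419) (nat_lit 135) (nat_lit 5) (nat_lit 149) (nat_lit 5) (nat_lit 150) (nat_lit 5) (nat_lit 278) (nat_lit 272) (nat_lit 170))) (XT.nd (nat_lit 78) (nat_lit 0) (nat_lit 76) (XT.lf (nat_lit 76) (nat_lit 5466854863) (nat_lit 0) (nat_lit 2220411147) (nat_lit 1140) (nat_lit 15906385417) (nat_lit 136) (nat_lit 5) (nat_lit 135) (nat_lit 5) (nat_lit 150) (nat_lit 5) (nat_lit 279) (nat_lit 272) (nat_lit 169)) (XT.nd (nat_lit 78) (nat_lit 0) (nat_lit 76) (XT.lf (nat_lit 0) (nat_lit 9590666663) (nat_lit 1064) (nat_lit 2095946863) (nat_lit 1140) (nat_lit 12545711698) (nat_lit 136) (nat_lit 5) (nat_lit 150) (nat_lit 5) (nat_lit 151) (nat_lit 5) (nat_lit 280) (nat_lit 272) (nat_lit 168)) (XT.lf (nat_lit 0) (nat_lit 11775718390) (nat_lit 1064) (nat_lit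 9931460076) (nat_lit 1140) (nat_lit 3190193858) (nat_lit 137) (nat_lit 5) (nat_lit 151) (nat_lit 5) (nat_lit 152) (nat_lit 5) (nat_lit 281) (nat_lit 272) (nat_lit 167)))))) (XT.nd (nat_lit 390) (nat_lit 1520) (nat_lit 0) (XT.nd (nat_lit 156) (nat_lit 1976) (nat_lit 0) (XT.nd (nat_lit 78) (nat_lit 0) (nat_lit 76) (XT.lf (nat_lit 76) (nat_lit 7346104778) (nat_lit 0) (nat_lit 6923387461) (nat_lit 1140) (nat_lit 11320227878) (nat_lit 138) (nat_lit 5) (nat_lit 137) (nat_lit 5) (nat_lit 152) (nat_lit 5) (nat_lit 282) (nat_lit 272) (nat_lit 166)) (XT.lf (nat_lit 0) (nat_lit 17063432487) (nat_lit 1064) (nat_lit 711036356) (nat_lit 76) (nat_lit 8536983002) (nat_lit 138) (nat_lit 5) (nat_lit 152) (nat_lit 5) (nat_lit 139) (nat_lit 5) (nat_lit 283) (nat_lit 272) (nat_lit 165))) (XT.nd (nat_lit 78) (nat_lit 988) (nat_lit 0) (XT.lf (nat_lit 0) (nat_lit 17970555240) (nat_lit 1064) (nat_lit 2259200099)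 (nat_lit 1140) (nat_lit 6832563663) (nat_lit 124) (nat_lit 5) (nat_lit 138) (nat_lit 5) (nat_lit 139) (nat_lit 5) (nat_lit 284) (nat_lit 272) (nat_lit 164)) (XT.nd (nat_lit 78) (nat_lit 456) (nat_lit 0) (XT.lf (nat_lit 0) (nat_lit 9798326968) (nat_lit 532) (nat_lit 13982999557) (nat_lit 608) (nat_lit 4062623034) (nat_lit 117) (nat_lit 5) (nat_lit 124) (nat_lit 5) (nat_lit 125) (nat_lit 5) (nat_lit 285) (nat_lit 272) (nat_lit 163)) (XT.lf (nat_lit 0) (nat_lit 1131103695) (nat_lit 456) (nat_lit 26518157876) (nat_lit 532) (nat_lit 1011263187) (nat_lit 111) (nat_lit 5) (nat_lit 117) (nat_lit 5) (nat_lit 118) (nat_lit 5) (nat_lit 286) (nat_lit 272) (nat_lit 162))))) (XT.nd (nat_lit 156) (nat_lit 912) (nat_lit 0) (XT.nd (nat_lit 78) (nat_lit 532) (nat_lit 0) (XT.lf (nat_lit 0) (nat_lit 2469711711) (nat_lit 532) (nat_lit 8041156103) (nat_lit 76) (nat_lit 18996858236) (nat_lit 110) (nat_lit 5) (nat_lit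 117) (nat_lit 5) (nat_lit 111) (nat_lit 5) (nat_lit 287) (nat_lit 272) (nat_lit 161)) (XT.lf (nat_lit 0) (nat_lit 6278973445) (nat_lit 608) (nat_lit 17805396111) (nat_lit 76) (nat_lit 6307386388) (nat_lit 103) (nat_lit 5) (nat_lit 111) (nat_lit 5) (nat_lit 104) (nat_lit 5) (nat_lit 288) (nat_lit 272) (nat_lit 160))) (XT.nd (nat_lit 78) (nat_lit 456) (nat_lit 0) (XT.lf (nat_lit 0) (nat_lit 3040049859) (nat_lit 456) (nat_lit 7449407770) (nat_lit 532) (nat_lit 20824229294) (nat_lit 97) (nat_lit 5) (nat_lit 103) (nat_lit 5) (nat_lit 104) (nat_lit 5) (nat_lit 289) (nat_lit 272) (nat_lit 159)) (XT.nd (nat_lit 78) (nat_lit 456) (nat_lit 0) (XT.lf (nat_lit 0) (nat_lit 15184026879) (nat_lit 532) (nat_lit 7082644668) (nat_lit 76) (nat_lit 10006857385) (nat_lit 97) (nat_lit 5) (nat_lit 104) (nat_lit 5) (nat_lit 98) (nat_lit 5) (nat_lit 290) (nat_lit 272) (nat_lit 158)) (XT.lf (nat_lit 0) (nat_lit 15385147082)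 (nat_lit 456) (nat_lit 4943793647) (nat_lit 532) (nat_lit 12945974118) (nat_lit 91) (nat_lit 5) (nat_lit 97) (nat_lit 5) (nat_lit 98) (nat_lit 5) (nat_lit 291) (nat_lit 272) (nat_lit 157))))))) (XT.nd (nat_lit 780) (nat_lit 1672) (nat_lit 0) (XT.nd (nat_lit 390) (nat_lit 1368) (nat_lit 0) (XT.nd (nat_lit 156) (nat_lit 836) (nat_lit 0) (XT.nd (nat_lit 78) (nat_lit 0) (nat_lit 0) (XT.lf (nat_lit 0) (nat_lit 4757148773) (nat_lit 380) (nat_lit 21213447980) (nat_lit 456) (nat_lit 8348607735) (nat_lit 86) (nat_lit 5) (nat_lit 91) (nat_lit 5) (nat_lit 92) (nat_lit 5) (nat_lit 292) (nat_lit 272) (nat_lit 156)) (XT.lf (nat_lit 0) (nat_lit 28851796642) (nat_lit 380) (nat_lit 3269192586) (nat_lit 456) (nat_lit 3287938181) (nat_lit 86) (nat_lit 5) (nat_lit 91) (nat_lit 5) (nat_lit 92) (nat_lit 5) (nat_lit 293) (nat_lit 272) (nat_lit 155))) (XT.nd (nat_lit 78) (nat_lit 380) (nat_lit 0) (XT.lf (nat_lit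 0) (nat_lit 2303415196) (nat_lit 456) (nat_lit 18778269777) (nat_lit 76) (nat_lit 15461368923) (nat_lit 80) (nat_lit 5) (nat_lit 86) (nat_lit 5) (nat_lit 81) (nat_lit 5) (nat_lit 294) (nat_lit 272) (nat_lit 154)) (XT.nd (nat_lit 78) (nat_lit 0) (nat_lit 0) (XT.lf (nat_lit 0) (nat_lit 5745883173) (nat_lit 380) (nat_lit 2511056850) (nat_lit 456) (nat_lit 29471468175) (nat_lit 75) (nat_lit 5) (nat_lit 80) (nat_lit 5) (nat_lit 81) (nat_lit 5) (nat_lit 295) (nat_lit 272) (nat_lit 153)) (XT.lf (nat_lit 0) (nat_lit 14860462481) (nat_lit 456) (nat_lit 7251118510) (nat_lit 76) (nat_lit 16850895019) (nat_lit 75) (nat_lit 5) (nat_lit 81) (nat_lit 5) (nat_lit 76) (nat_lit 5) (nat_lit 296) (nat_lit 272) (nat_lit 152))))) (XT.nd (nat_lit 156) (nat_lit 684) (nat_lit 0) (XT.nd (nat_lit 78) (nat_lit 304) (nat_lit 0) (XT.lf (nat_lit 0) (nat_lit 19056393558) (nat_lit 380) (nat_lit 2940390795) (nat_lit 456)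 (nat_lit 18255398860) (nat_lit 70) (nat_lit 5) (nat_lit 75) (nat_lit 5) (nat_lit 76) (nat_lit 5) (nat_lit 297) (nat_lit 272) (nat_lit 151)) (XT.lf (nat_lit 0) (nat_lit 5154324557) (nat_lit 304) (nat_lit 24620064151) (nat_lit 380) (nat_lit 11823467079) (nat_lit 66) (nat_lit 5) (nat_lit 70) (nat_lit 5) (nat_lit 71) (nat_lit 5) (nat_lit 298) (nat_lit 272) (nat_lit 150))) (XT.nd (nat_lit 78) (nat_lit 684) (nat_lit 0) (XT.lf (nat_lit 0) (nat_lit 33227851707) (nat_lit 304) (nat_lit 4955109356) (nat_lit 380) (nat_lit 4820601626) (nat_lit 66) (nat_lit 5) (nat_lit 70) (nat_lit 5) (nat_lit 71) (nat_lit 5) (nat_lit 299) (nat_lit 272) (nat_lit 149)) (XT.nd (nat_lit 78) (nat_lit 304) (nat_lit 0) (XT.lf (nat_lit 0) (nat_lit 2808921878) (nat_lit 380) (nat_lit 26069775326) (nat_lit 76) (nat_lit 15590361836) (nat_lit 61) (nat_lit 5) (nat_lit 66) (nat_lit 5) (nat_lit 62) (nat_lit 5) (nat_lit 300) (nat_lit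 272) (nat_lit 148)) (XT.lf (nat_lit 0) (nat_lit 2117643611) (nat_lit 304) (nat_lit 8770389978) (nat_lit 380) (nat_lit 35113342214) (nat_lit 57) (nat_lit 5) (nat_lit 61) (nat_lit 5) (nat_lit 62) (nat_lit 5) (nat_lit 301) (nat_lit 272) (nat_lit 147)))))) (XT.nd (nat_lit 390) (nat_lit 760) (nat_lit 0) (XT.nd (nat_lit 156) (nat_lit 608) (nat_lit 0) (XT.nd (nat_lit 78) (nat_lit 304) (nat_lit 0) (XT.lf (nat_lit 0) (nat_lit 19755829116) (nat_lit 380) (nat_lit 15470824843) (nat_lit 76) (nat_lit 12372123783) (nat_lit 57) (nat_lit 5) (nat_lit 62) (nat_lit 5) (nat_lit 58) (nat_lit 5) (nat_lit 302) (nat_lit 272) (nat_lit 146)) (XT.lf (nat_lit 0) (nat_lit 14552002690) (nat_lit 304) (nat_lit 14738705819) (nat_lit 380) (nat_lit 19978641096) (nat_lit 53) (nat_lit 5) (nat_lit 57) (nat_lit 5) (nat_lit 58) (nat_lit 5) (nat_lit 303) (nat_lit 272) (nat_lit 145))) (XT.nd (nat_lit 78) (nat_lit 608) (nat_lit 0)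 (XT.lf (nat_lit 0) (nat_lit 39523722055) (nat_lit 380) (nat_lit 4692216481) (nat_lit 76) (nat_lit 6800879962) (nat_lit 53) (nat_lit 5) (nat_lit 58) (nat_lit 5) (nat_lit 54) (nat_lit 5) (nat_lit 304) (nat_lit 272) (nat_lit 144)) (XT.nd (nat_lit 78) (nat_lit 380) (nat_lit 0) (XT.lf (nat_lit 0) (nat_lit 27210555250) (nat_lit 228) (nat_lit 23463816391) (nat_lit 304) (nat_lit 2165119294) (nat_lit 50) (nat_lit 5) (nat_lit 53) (nat_lit 5) (nat_lit 54) (nat_lit 5) (nat_lit 305) (nat_lit 272) (nat_lit 143)) (XT.lf (nat_lit 0) (nat_lit 6094016030) (nat_lit 304) (nat_lit 1489487581) (nat_lit 380) (nat_lit 47164508568) (nat_lit 45) (nat_lit 5) (nat_lit 49) (nat_lit 5) (nat_lit 50) (nat_lit 5) (nat_lit 306) (nat_lit 272) (nat_lit 142))))) (XT.nd (nat_lit 234) (nat_lit 532) (nat_lit 0) (XT.nd (nat_lit 78) (nat_lit 228) (nat_lit 0) (XT.lf (nat_lit 0) (nat_lit 18245004688) (nat_lit 380) (nat_lit 17043007365)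 (nat_lit 76) (nat_lit 21449206084) (nat_lit 45) (nat_lit 5) (nat_lit 50) (nat_lit 5) (nat_lit 46) (nat_lit 5) (nat_lit 307) (nat_lit 272) (nat_lit 141)) (XT.nd (nat_lit 78) (nat_lit 0) (nat_lit 0) (XT.lf (nat_lit 0) (nat_lit 16449041119) (nat_lit 228) (nat_lit 13159782156) (nat_lit 304) (nat_lit 29211991946) (nat_lit 42) (nat_lit 5) (nat_lit 45) (nat_lit 5) (nat_lit 46) (nat_lit 5) (nat_lit 308) (nat_lit 272) (nat_lit 140)) (XT.lf (nat_lit 0) (nat_lit 41811069669) (nat_lit 304) (nat_lit 9135457550) (nat_lit 76) (nat_lit 10053965549) (nat_lit 42) (nat_lit 5) (nat_lit 46) (nat_lit 5) (nat_lit 43) (nat_lit 5) (nat_lit 309) (nat_lit 272) (nat_lit 139)))) (XT.nd (nat_lit 78) (nat_lit 304) (nat_lit 0) (XT.lf (nat_lit 0) (nat_lit 26134701974) (nat_lit 228) (nat_lit 28869165818) (nat_lit 304) (nat_lit 8273880568) (nat_lit 39) (nat_lit 5) (nat_lit 42) (nat_lit 5) (nat_lit 43) (nat_lit 5) (nat_lit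 310) (nat_lit 272) (nat_lit 138)) (XT.nd (nat_lit 78) (nat_lit 228) (nat_lit 0) (XT.lf (nat_lit 0) (nat_lit 3216687607) (nat_lit 304) (nat_lit 2343402595) (nat_lit 76) (nat_lit 60105120726) (nat_lit 38) (nat_lit 5) (nat_lit 42) (nat_lit 5) (nat_lit 39) (nat_lit 5) (nat_lit 311) (nat_lit 272) (nat_lit 137)) (XT.lf (nat_lit 0) (nat_lit 15629232432) (nat_lit 304) (nat_lit 33558849573) (nat_lit 76) (nat_lit 18965956560) (nat_lit 35) (nat_lit 5) (nat_lit 39) (nat_lit 5) (nat_lit 36) (nat_lit 5) (nat_lit 312) (nat_lit 272) (nat_lit 136))))))))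
noncomputable def xc106 : XT := (XT.nd (nat_lit 35178) (nat_lit 0) (nat_lit 2660) (XT.nd (nat_lit 34398) (nat_lit 0) (nat_lit 8284) (XT.nd (nat_lit 390) (nat_lit 304) (nat_lit 0) (XT.nd (nat_lit 156) (nat_lit 456) (nat_lit 0) (XT.nd (nat_lit 78) (nat_lit 0) (nat_lit 0) (XT.lf (nat_lit 0) (nat_lit 2653751982) (nat_lit 228) (nat_lit 26111386764) (nat_lit 304) (nat_lit 41999092974) (nat_lit 32) (nat_lit 5) (nat_lit 35) (nat_lit 5) (nat_lit 36) (nat_lit 5) (nat_lit 313) (nat_lit 272) (nat_lit 135)) (XT.lf (nat_lit 0) (nat_lit 41373631026) (nat_lit 228) (nat_lit 1526521948) (nat_lit 304) (nat_lit 30594518049) (nat_lit 32) (nat_lit 5) (nat_lit 35) (nat_lit 5) (nat_lit 36) (nat_lit 5) (nat_lit 314) (nat_lit 272) (nat_lit 134))) (XT.nd (nat_lit 78) (nat_lit 304) (nat_lit 0) (XT.lf (nat_lit 0) (nat_lit 5537975396) (nat_lit 152) (nat_lit 52487634112) (nat_lit 228) (nat_lit 18327517627) (nat_lit 30)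 (nat_lit 5) (nat_lit 32) (nat_lit 5) (nat_lit 33) (nat_lit 5) (nat_lit 315) (nat_lit 272) (nat_lit 133)) (XT.nd (nat_lit 78) (nat_lit 304) (nat_lit 0) (XT.lf (nat_lit 0) (nat_lit 45731096431) (nat_lit 152) (nat_lit 28519248113) (nat_lit 228) (nat_lit 5093876661) (nat_lit 30) (nat_lit 5) (nat_lit 32) (nat_lit 5) (nat_lit 33) (nat_lit 5) (nat_lit 316) (nat_lit 272) (nat_lit 132)) (XT.lf (nat_lit 0) (nat_lit 5466857758) (nat_lit 228) (nat_lit 3212588971) (nat_lit 304) (nat_lit 73801397577) (nat_lit 26) (nat_lit 5) (nat_lit 29) (nat_lit 5) (nat_lit 30) (nat_lit 5) (nat_lit 317) (nat_lit 272) (nat_lit 131))))) (XT.nd (nat_lit 156) (nat_lit 152) (nat_lit 0) (XT.nd (nat_lit 78) (nat_lit 152) (nat_lit 0) (XT.lf (nat_lit 0) (nat_lit 23608332885) (nat_lit 304) (nat_lit 38844218320) (nat_lit 76) (nat_lit 23303071641) (nat_lit 26) (nat_lit 5) (nat_lit 30) (nat_lit 5) (nat_lit 27) (nat_lit 5) (nat_lit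 318) (nat_lit 272) (nat_lit 130)) (XT.lf (nat_lit 0) (nat_lit 1221476258) (nat_lit 152) (nat_lit 38103761930) (nat_lit 228) (nat_lit 49867659342) (nat_lit 24) (nat_lit 5) (nat_lit 26) (nat_lit 5) (nat_lit 27) (nat_lit 5) (nat_lit 319) (nat_lit 272) (nat_lit 129))) (XT.nd (nat_lit 78) (nat_lit 152) (nat_lit 0) (XT.lf (nat_lit 0) (nat_lit 44098327314) (nat_lit 152) (nat_lit 12127022573) (nat_lit 228) (nat_lit 36564769481) (nat_lit 24) (nat_lit 5) (nat_lit 26) (nat_lit 5) (nat_lit 27) (nat_lit 5) (nat_lit 320) (nat_lit 272) (nat_lit 128)) (XT.nd (nat_lit 78) (nat_lit 152) (nat_lit 0) (XT.lf (nat_lit 0) (nat_lit 74113685458) (nat_lit 228) (nat_lit 7597536250) (nat_lit 76) (nat_lit 14851688092) (nat_lit 24) (nat_lit 5) (nat_lit 27) (nat_lit 5) (nat_lit 25) (nat_lit 5) (nat_lit 321) (nat_lit 272) (nat_lit 127)) (XT.lf (nat_lit 0) (nat_lit 36130507991) (nat_lit 152) (nat_lit 57233354691) (nat_lit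 228) (nat_lit 7146458182) (nat_lit 22) (nat_lit 5) (nat_lit 24) (nat_lit 5) (nat_lit 25) (nat_lit 5) (nat_lit 322) (nat_lit 272) (nat_lit 126)))))) (XT.nd (nat_lit 390) (nat_lit 0) (nat_lit 228) (XT.nd (nat_lit 156) (nat_lit 0) (nat_lit 76) (XT.nd (nat_lit 78) (nat_lit 0) (nat_lit 76) (XT.lf (nat_lit 0) (nat_lit 785779879) (nat_lit 1140) (nat_lit 4792248764) (nat_lit 1140) (nat_lit 4792248764) (nat_lit 131) (nat_lit 3) (nat_lit 146) (nat_lit 3) (nat_lit 146) (nat_lit 5) (nat_lit 273) (nat_lit 273) (nat_lit 174)) (XT.lf (nat_lit 0) (nat_lit 1898741527) (nat_lit 1064) (nat_lit 17023828074) (nat_lit 1140) (nat_lit 2327183530) (nat_lit 132) (nat_lit 5) (nat_lit 146) (nat_lit 5) (nat_lit 147) (nat_lit 5) (nat_lit 274) (nat_lit 273) (nat_lit 173))) (XT.nd (nat_lit 78) (nat_lit 0) (nat_lit 76) (XT.lf (nat_lit 0) (nat_lit 2440163827) (nat_lit 1064) (nat_lit 2975976058) (nat_lit 1140) (nat_lit 16362378485)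 (nat_lit 132) (nat_lit 5) (nat_lit 146) (nat_lit 5) (nat_lit 147) (nat_lit 5) (nat_lit 275) (nat_lit 273) (nat_lit 172)) (XT.nd (nat_lit 78) (nat_lit 0) (nat_lit 76) (XT.lf (nat_lit 0) (nat_lit 3195799097) (nat_lit 1064) (nat_lit 10415444309) (nat_lit 1140) (nat_lit 8716905590) (nat_lit 133) (nat_lit 5) (nat_lit 147) (nat_lit 5) (nat_lit 148) (nat_lit 5) (nat_lit 276) (nat_lit 273) (nat_lit 171)) (XT.lf (nat_lit 0) (nat_lit 4113290353) (nat_lit 1064) (nat_lit 18174700855) (nat_lit 1140) (nat_lit 613587129) (nat_lit 134) (nat_lit 5) (nat_lit 148) (nat_lit 5) (nat_lit 149) (nat_lit 5) (nat_lit 277) (nat_lit 273) (nat_lit 170))))) (XT.nd (nat_lit 156) (nat_lit 0) (nat_lit 76) (XT.nd (nat_lit 78) (nat_lit 0) (nat_lit 76) (XT.lf (nat_lit 0) (nat_lit 5309865976) (nat_lit 1064) (nat_lit 2803150032) (nat_lit 1140) (nat_lit 15383704377) (nat_lit 134) (nat_lit 5) (nat_lit 148) (nat_lit 5) (nat_lit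 149) (nat_lit 5) (nat_lit 278) (nat_lit 273) (nat_lit 169)) (XT.lf (nat_lit 0) (nat_lit 6751507001) (nat_lit 1064) (nat_lit 10590073582) (nat_lit 1140) (nat_lit 6774517599) (nat_lit 135) (nat_lit 5) (nat_lit 149) (nat_lit 5) (nat_lit 150) (nat_lit 5) (nat_lit 279) (nat_lit 273) (nat_lit 168))) (XT.nd (nat_lit 78) (nat_lit 0) (nat_lit 76) (XT.lf (nat_lit 76) (nat_lit 5991389760) (nat_lit 0) (nat_lit 2431131177) (nat_lit 1140) (nat_lit 16339239251) (nat_lit 136) (nat_lit 5) (nat_lit 135) (nat_lit 5) (nat_lit 150) (nat_lit 5) (nat_lit 280) (nat_lit 273) (nat_lit 167)) (XT.nd (nat_lit 78) (nat_lit 0) (nat_lit 76) (XT.lf (nat_lit 0) (nat_lit 10403469762) (nat_lit 1064) (nat_lit 1949578172) (nat_lit 1140) (nat_lit 13079898257) (nat_lit 136) (nat_lit 5) (nat_lit 150) (nat_lit 5) (nat_lit 151) (nat_lit 5) (nat_lit 281) (nat_lit 273) (nat_lit 166)) (XT.lf (nat_lit 0) (nat_lit 12683520811) (nat_lit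 1064) (nat_lit 10172796177) (nat_lit 1140) (nat_lit 3275403741) (nat_lit 137) (nat_lit 5) (nat_lit 151) (nat_lit 5) (nat_lit 152) (nat_lit 5) (nat_lit 282) (nat_lit 273) (nat_lit 165))))))) (XT.nd (nat_lit 780) (nat_lit 2584) (nat_lit 0) (XT.nd (nat_lit 390) (nat_lit 1520) (nat_lit 0) (XT.nd (nat_lit 156) (nat_lit 1976) (nat_lit 0) (XT.nd (nat_lit 78) (nat_lit 0) (nat_lit 76) (XT.lf (nat_lit 76) (nat_lit 7961330606) (nat_lit 0) (nat_lit 7327844649) (nat_lit 1140) (nat_lit 11569940124) (nat_lit 138) (nat_lit 5) (nat_lit 137) (nat_lit 5) (nat_lit 152) (nat_lit 5) (nat_lit 283) (nat_lit 273) (nat_lit 164)) (XT.lf (nat_lit 0) (nat_lit 18207697546) (nat_lit 1064) (nat_lit 500329479) (nat_lit 76) (nat_lit 8909403190) (nat_lit 138) (nat_lit 5) (nat_lit 152) (nat_lit 5) (nat_lit 139) (nat_lit 5) (nat_lit 284) (nat_lit 273) (nat_lit 163))) (XT.nd (nat_lit 78) (nat_lit 988) (nat_lit 0) (XT.lf (nat_lit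 0) (nat_lit 19108282742) (nat_lit 1064) (nat_lit 2412491541) (nat_lit 1140) (nat_lit 6885454334) (nat_lit 124) (nat_lit 5) (nat_lit 138) (nat_lit 5) (nat_lit 139) (nat_lit 5) (nat_lit 285) (nat_lit 273) (nat_lit 162)) (XT.nd (nat_lit 78) (nat_lit 456) (nat_lit 0) (XT.lf (nat_lit 0) (nat_lit 10529905458) (nat_lit 532) (nat_lit 14708661336) (nat_lit 608) (nat_lit 3988753690) (nat_lit 117) (nat_lit 5) (nat_lit 124) (nat_lit 5) (nat_lit 125) (nat_lit 5) (nat_lit 286) (nat_lit 273) (nat_lit 161)) (XT.lf (nat_lit 0) (nat_lit 1431214908) (nat_lit 456) (nat_lit 27858011995) (nat_lit 532) (nat_lit 795854899) (nat_lit 111) (nat_lit 5) (nat_lit 117) (nat_lit 5) (nat_lit 118) (nat_lit 5) (nat_lit 287) (nat_lit 273) (nat_lit 160))))) (XT.nd (nat_lit 156) (nat_lit 912) (nat_lit 0) (XT.nd (nat_lit 78) (nat_lit 532) (nat_lit 0) (XT.lf (nat_lit 0) (nat_lit 2841560522) (nat_lit 532) (nat_lit 8205624821) (nat_lit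 76) (nat_lit 19927788062) (nat_lit 110) (nat_lit 5) (nat_lit 117) (nat_lit 5) (nat_lit 111) (nat_lit 5) (nat_lit 288) (nat_lit 273) (nat_lit 159)) (XT.lf (nat_lit 0) (nat_lit 6831600237) (nat_lit 608) (nat_lit 18456992670) (nat_lit 76) (nat_lit 6614935204) (nat_lit 103) (nat_lit 5) (nat_lit 111) (nat_lit 5) (nat_lit 104) (nat_lit 5) (nat_lit 289) (nat_lit 273) (nat_lit 158))) (XT.nd (nat_lit 78) (nat_lit 456) (nat_lit 0) (XT.lf (nat_lit 0) (nat_lit 3423884077) (nat_lit 456) (nat_lit 7819587436) (nat_lit 532) (nat_lit 21628389443) (nat_lit 97) (nat_lit 5) (nat_lit 103) (nat_lit 5) (nat_lit 104) (nat_lit 5) (nat_lit 290) (nat_lit 273) (nat_lit 157)) (XT.nd (nat_lit 78) (nat_lit 456) (nat_lit 0) (XT.lf (nat_lit 0) (nat_lit 16161859673) (nat_lit 532) (nat_lit 7208853074) (nat_lit 76) (nat_lit 10509339323) (nat_lit 97) (nat_lit 5) (nat_lit 104) (nat_lit 5) (nat_lit 98) (nat_lit 5) (nat_lit 291)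 (nat_lit 273) (nat_lit 156)) (XT.lf (nat_lit 0) (nat_lit 16375794873) (nat_lit 456) (nat_lit 5179941462) (nat_lit 532) (nat_lit 13376047736) (nat_lit 91) (nat_lit 5) (nat_lit 97) (nat_lit 5) (nat_lit 98) (nat_lit 5) (nat_lit 292) (nat_lit 273) (nat_lit 155)))))) (XT.nd (nat_lit 390) (nat_lit 1368) (nat_lit 0) (XT.nd (nat_lit 156) (nat_lit 836) (nat_lit 0) (XT.nd (nat_lit 78) (nat_lit 0) (nat_lit 0) (XT.lf (nat_lit 0) (nat_lit 5216626841) (nat_lit 380) (nat_lit 22255063160) (nat_lit 456) (nat_lit 8556858704) (nat_lit 86) (nat_lit 5) (nat_lit 91) (nat_lit 5) (nat_lit 92) (nat_lit 5) (nat_lit 293) (nat_lit 273) (nat_lit 154)) (XT.lf (nat_lit 0) (nat_lit 30505453740) (nat_lit 380) (nat_lit 3414502483) (nat_lit 456) (nat_lit 3253116596) (nat_lit 86) (nat_lit 5) (nat_lit 91) (nat_lit 5) (nat_lit 92) (nat_lit 5) (nat_lit 294) (nat_lit 273) (nat_lit 153))) (XT.nd (nat_lit 78) (nat_lit 380) (nat_lit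 0) (XT.lf (nat_lit 0) (nat_lit 2606831338) (nat_lit 456) (nat_lit 19501994126) (nat_lit 76) (nat_lit 16255259023) (nat_lit 80) (nat_lit 5) (nat_lit 86) (nat_lit 5) (nat_lit 81) (nat_lit 5) (nat_lit 295) (nat_lit 273) (nat_lit 152)) (XT.nd (nat_lit 78) (nat_lit 0) (nat_lit 0) (XT.lf (nat_lit 0) (nat_lit 6242198118) (nat_lit 380) (nat_lit 2608879458) (nat_lit 456) (nat_lit 30757860180) (nat_lit 75) (nat_lit 5) (nat_lit 80) (nat_lit 5) (nat_lit 81) (nat_lit 5) (nat_lit 296) (nat_lit 273) (nat_lit 151)) (XT.lf (nat_lit 0) (nat_lit 15776397140) (nat_lit 456) (nat_lit 7409250551) (nat_lit 76) (nat_lit 17719334168) (nat_lit 75) (nat_lit 5) (nat_lit 81) (nat_lit 5) (nat_lit 76) (nat_lit 5) (nat_lit 297) (nat_lit 273) (nat_lit 150))))) (XT.nd (nat_lit 234) (nat_lit 684) (nat_lit 0) (XT.nd (nat_lit 78) (nat_lit 304) (nat_lit 0) (XT.lf (nat_lit 0) (nat_lit 20207777351) (nat_lit 380) (nat_lit 3055432592)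 (nat_lit 456) (nat_lit 18996174740) (nat_lit 70) (nat_lit 5) (nat_lit 75) (nat_lit 5) (nat_lit 76) (nat_lit 5) (nat_lit 298) (nat_lit 273) (nat_lit 149)) (XT.nd (nat_lit 78) (nat_lit 0) (nat_lit 0) (XT.lf (nat_lit 0) (nat_lit 5609867202) (nat_lit 304) (nat_lit 25814089009) (nat_lit 380) (nat_lit 12248576351) (nat_lit 66) (nat_lit 5) (nat_lit 70) (nat_lit 5) (nat_lit 71) (nat_lit 5) (nat_lit 299) (nat_lit 273) (nat_lit 148)) (XT.lf (nat_lit 0) (nat_lit 35077650404) (nat_lit 304) (nat_lit 5167647349) (nat_lit 380) (nat_lit 4903475439) (nat_lit 66) (nat_lit 5) (nat_lit 70) (nat_lit 5) (nat_lit 71) (nat_lit 5) (nat_lit 300) (nat_lit 273) (nat_lit 147)))) (XT.nd (nat_lit 78) (nat_lit 304) (nat_lit 0) (XT.lf (nat_lit 0) (nat_lit 3099199585) (nat_lit 380) (nat_lit 27182436311) (nat_lit 76) (nat_lit 16406037205) (nat_lit 61) (nat_lit 5) (nat_lit 66) (nat_lit 5) (nat_lit 62) (nat_lit 5) (nat_lit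 301) (nat_lit 273) (nat_lit 146)) (XT.nd (nat_lit 78) (nat_lit 0) (nat_lit 0) (XT.lf (nat_lit 0) (nat_lit 2408883533) (nat_lit 304) (nat_lit 9168030282) (nat_lit 380) (nat_lit 36719868859) (nat_lit 57) (nat_lit 5) (nat_lit 61) (nat_lit 5) (nat_lit 62) (nat_lit 5) (nat_lit 302) (nat_lit 273) (nat_lit 145)) (XT.lf (nat_lit 0) (nat_lit 20881593431) (nat_lit 380) (nat_lit 16063769222) (nat_lit 76) (nat_lit 13028902824) (nat_lit 57) (nat_lit 5) (nat_lit 62) (nat_lit 5) (nat_lit 58) (nat_lit 5) (nat_lit 303) (nat_lit 273) (nat_lit 144))))))))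
noncomputable def xc107 : XT := (XT.nd (nat_lit 35334) (nat_lit 0) (nat_lit 4256) (XT.nd (nat_lit 780) (nat_lit 836) (nat_lit 0) (XT.nd (nat_lit 390) (nat_lit 760) (nat_lit 0) (XT.nd (nat_lit 156) (nat_lit 608) (nat_lit 0) (XT.nd (nat_lit 78) (nat_lit 0) (nat_lit 0) (XT.lf (nat_lit 0) (nat_lit 15455022914) (nat_lit 304) (nat_lit 15433309988) (nat_lit 380) (nat_lit 20840194404) (nat_lit 53) (nat_lit 5) (nat_lit 57) (nat_lit 5) (nat_lit 58) (nat_lit 5) (nat_lit 304) (nat_lit 273) (nat_lit 143)) (XT.lf (nat_lit 0) (nat_lit 41627047092) (nat_lit 380) (nat_lit 4756062585) (nat_lit 76) (nat_lit 7180452616) (nat_lit 53) (nat_lit 5) (nat_lit 58) (nat_lit 5) (nat_lit 54) (nat_lit 5) (nat_lit 305) (nat_lit 273) (nat_lit 142))) (XT.nd (nat_lit 78) (nat_lit 380) (nat_lit 0) (XT.lf (nat_lit 0) (nat_lit 28736952797) (nat_lit 228) (nat_lit 24593816568) (nat_lit 304) (nat_lit 2146746256) (nat_lit 50) (nat_lit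 5) (nat_lit 53) (nat_lit 5) (nat_lit 54) (nat_lit 5) (nat_lit 306) (nat_lit 273) (nat_lit 141)) (XT.nd (nat_lit 78) (nat_lit 0) (nat_lit 0) (XT.lf (nat_lit 0) (nat_lit 6562486287) (nat_lit 304) (nat_lit 1520012485) (nat_lit 380) (nat_lit 49399070237) (nat_lit 45) (nat_lit 5) (nat_lit 49) (nat_lit 5) (nat_lit 50) (nat_lit 5) (nat_lit 307) (nat_lit 273) (nat_lit 140)) (XT.lf (nat_lit 0) (nat_lit 19271771542) (nat_lit 380) (nat_lit 17735928433) (nat_lit 76) (nat_lit 22562706258) (nat_lit 45) (nat_lit 5) (nat_lit 50) (nat_lit 5) (nat_lit 46) (nat_lit 5) (nat_lit 308) (nat_lit 273) (nat_lit 139))))) (XT.nd (nat_lit 156) (nat_lit 532) (nat_lit 0) (XT.nd (nat_lit 78) (nat_lit 0) (nat_lit 0) (XT.lf (nat_lit 0) (nat_lit 17426158199) (nat_lit 228) (nat_lit 13773656421) (nat_lit 304) (nat_lit 30558498843) (nat_lit 42) (nat_lit 5) (nat_lit 45) (nat_lit 5) (nat_lit 46) (nat_lit 5) (nat_lit 309) (nat_lit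 273) (nat_lit 138)) (XT.lf (nat_lit 0) (nat_lit 44007312905) (nat_lit 304) (nat_lit 9441960443) (nat_lit 76) (nat_lit 10597858116) (nat_lit 42) (nat_lit 5) (nat_lit 46) (nat_lit 5) (nat_lit 43) (nat_lit 5) (nat_lit 310) (nat_lit 273) (nat_lit 137))) (XT.nd (nat_lit 78) (nat_lit 304) (nat_lit 0) (XT.lf (nat_lit 0) (nat_lit 27587399599) (nat_lit 228) (nat_lit 30268721571) (nat_lit 304) (nat_lit 8582247808) (nat_lit 39) (nat_lit 5) (nat_lit 42) (nat_lit 5) (nat_lit 43) (nat_lit 5) (nat_lit 311) (nat_lit 273) (nat_lit 136)) (XT.nd (nat_lit 78) (nat_lit 228) (nat_lit 0) (XT.lf (nat_lit 0) (nat_lit 3475875781) (nat_lit 304) (nat_lit 2319413810) (nat_lit 76) (nat_lit 63150041718) (nat_lit 38) (nat_lit 5) (nat_lit 42) (nat_lit 5) (nat_lit 39) (nat_lit 5) (nat_lit 312) (nat_lit 273) (nat_lit 135)) (XT.lf (nat_lit 0) (nat_lit 16506087269) (nat_lit 304) (nat_lit 35097054179) (nat_lit 76) (nat_lit 19955556724)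 (nat_lit 35) (nat_lit 5) (nat_lit 39) (nat_lit 5) (nat_lit 36) (nat_lit 5) (nat_lit 313) (nat_lit 273) (nat_lit 134)))))) (XT.nd (nat_lit 390) (nat_lit 152) (nat_lit 0) (XT.nd (nat_lit 156) (nat_lit 456) (nat_lit 0) (XT.nd (nat_lit 78) (nat_lit 0) (nat_lit 0) (XT.lf (nat_lit 0) (nat_lit 2922171896) (nat_lit 228) (nat_lit 27373379211) (nat_lit 304) (nat_lit 44003955608) (nat_lit 32) (nat_lit 5) (nat_lit 35) (nat_lit 5) (nat_lit 36) (nat_lit 5) (nat_lit 314) (nat_lit 273) (nat_lit 133)) (XT.lf (nat_lit 0) (nat_lit 43571581449) (nat_lit 228) (nat_lit 1561346244) (nat_lit 304) (nat_lit 32033680128) (nat_lit 32) (nat_lit 5) (nat_lit 35) (nat_lit 5) (nat_lit 36) (nat_lit 5) (nat_lit 315) (nat_lit 273) (nat_lit 132))) (XT.nd (nat_lit 78) (nat_lit 304) (nat_lit 0) (XT.lf (nat_lit 0) (nat_lit 5942766651) (nat_lit 152) (nat_lit 55069320342) (nat_lit 228) (nat_lit 19155984644) (nat_lit 30) (nat_lit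 5) (nat_lit 32) (nat_lit 5) (nat_lit 33) (nat_lit 5) (nat_lit 316) (nat_lit 273) (nat_lit 131)) (XT.nd (nat_lit 78) (nat_lit 304) (nat_lit 0) (XT.lf (nat_lit 0) (nat_lit 48139453620) (nat_lit 152) (nat_lit 29904548161) (nat_lit 228) (nat_lit 5264847766) (nat_lit 30) (nat_lit 5) (nat_lit 32) (nat_lit 5) (nat_lit 33) (nat_lit 5) (nat_lit 317) (nat_lit 273) (nat_lit 130)) (XT.lf (nat_lit 0) (nat_lit 5860238534) (nat_lit 228) (nat_lit 3332514406) (nat_lit 304) (nat_lit 77409616238) (nat_lit 26) (nat_lit 5) (nat_lit 29) (nat_lit 5) (nat_lit 30) (nat_lit 5) (nat_lit 318) (nat_lit 273) (nat_lit 129))))) (XT.nd (nat_lit 234) (nat_lit 0) (nat_lit 0) (XT.nd (nat_lit 78) (nat_lit 152) (nat_lit 0) (XT.lf (nat_lit 0) (nat_lit 24864678239) (nat_lit 304) (nat_lit 40670082608) (nat_lit 76) (nat_lit 24506234491) (nat_lit 26) (nat_lit 5) (nat_lit 30) (nat_lit 5) (nat_lit 27) (nat_lit 5) (nat_lit 319) (nat_lit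 273) (nat_lit 128)) (XT.nd (nat_lit 78) (nat_lit 0) (nat_lit 0) (XT.lf (nat_lit 0) (nat_lit 1395561646) (nat_lit 152) (nat_lit 39969337846) (nat_lit 228) (nat_lit 52285316374) (nat_lit 24) (nat_lit 5) (nat_lit 26) (nat_lit 5) (nat_lit 27) (nat_lit 5) (nat_lit 320) (nat_lit 273) (nat_lit 127)) (XT.lf (nat_lit 0) (nat_lit 46410873752) (nat_lit 152) (nat_lit 12695647815) (nat_lit 228) (nat_lit 38320888017) (nat_lit 24) (nat_lit 5) (nat_lit 26) (nat_lit 5) (nat_lit 27) (nat_lit 5) (nat_lit 321) (nat_lit 273) (nat_lit 126)))) (XT.nd (nat_lit 33774) (nat_lit 0) (nat_lit 8132) (XT.lf (nat_lit 0) (nat_lit 77886290520) (nat_lit 228) (nat_lit 7873143367) (nat_lit 76) (nat_lit 15629500800) (nat_lit 24) (nat_lit 5) (nat_lit 27) (nat_lit 5) (nat_lit 25) (nat_lit 5) (nat_lit 322) (nat_lit 273) (nat_lit 125)) (XT.nd (nat_lit 78) (nat_lit 0) (nat_lit 76) (XT.lf (nat_lit 0) (nat_lit 1045797204) (nat_lit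 1140) (nat_lit 4917852025) (nat_lit 1140) (nat_lit 4917852025) (nat_lit 131) (nat_lit 3) (nat_lit 146) (nat_lit 3) (nat_lit 146) (nat_lit 5) (nat_lit 274) (nat_lit 274) (nat_lit 172)) (XT.lf (nat_lit 0) (nat_lit 2414309622) (nat_lit 1064) (nat_lit 17637654676) (nat_lit 1140) (nat_lit 2246384848) (nat_lit 132) (nat_lit 5) (nat_lit 146) (nat_lit 5) (nat_lit 147) (nat_lit 5) (nat_lit 275) (nat_lit 274) (nat_lit 171))))))) (XT.nd (nat_lit 780) (nat_lit 3952) (nat_lit 0) (XT.nd (nat_lit 390) (nat_lit 0) (nat_lit 228) (XT.nd (nat_lit 156) (nat_lit 0) (nat_lit 152) (XT.nd (nat_lit 78) (nat_lit 0) (nat_lit 76) (XT.lf (nat_lit 0) (nat_lit 2962772988) (nat_lit 1064) (nat_lit 2898713145) (nat_lit 1140) (nat_lit 16992728020) (nat_lit 132) (nat_lit 5) (nat_lit 146) (nat_lit 5) (nat_lit 147) (nat_lit 5) (nat_lit 276) (nat_lit 274) (nat_lit 170)) (XT.lf (nat_lit 0) (nat_lit 3737647554) (nat_lit 1064) (nat_lit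 10702394387) (nat_lit 1140) (nat_lit 8991898364) (nat_lit 133) (nat_lit 5) (nat_lit 147) (nat_lit 5) (nat_lit 148) (nat_lit 5) (nat_lit 277) (nat_lit 274) (nat_lit 169))) (XT.nd (nat_lit 78) (nat_lit 0) (nat_lit 0) (XT.lf (nat_lit 0) (nat_lit 4683667855) (nat_lit 1064) (nat_lit 18842899888) (nat_lit 1140) (nat_lit 508048706) (nat_lit 134) (nat_lit 5) (nat_lit 148) (nat_lit 5) (nat_lit 149) (nat_lit 5) (nat_lit 278) (nat_lit 274) (nat_lit 168)) (XT.nd (nat_lit 78) (nat_lit 0) (nat_lit 76) (XT.lf (nat_lit 0) (nat_lit 5922704974) (nat_lit 1064) (nat_lit 2714225620) (nat_lit 1140) (nat_lit 16023158377) (nat_lit 134) (nat_lit 5) (nat_lit 148) (nat_lit 5) (nat_lit 149) (nat_lit 5) (nat_lit 279) (nat_lit 274) (nat_lit 167)) (XT.lf (nat_lit 0) (nat_lit 7420965221) (nat_lit 1064) (nat_lit 10885014890) (nat_lit 1140) (nat_lit 7004969292) (nat_lit 135) (nat_lit 5) (nat_lit 149) (nat_lit 5) (nat_lit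 150) (nat_lit 5) (nat_lit 280) (nat_lit 274) (nat_lit 166))))) (XT.nd (nat_lit 156) (nat_lit 0) (nat_lit 152) (XT.nd (nat_lit 78) (nat_lit 0) (nat_lit 76) (XT.lf (nat_lit 76) (nat_lit 6518797935) (nat_lit 0) (nat_lit 2643118097) (nat_lit 1140) (nat_lit 16827434377) (nat_lit 136) (nat_lit 5) (nat_lit 135) (nat_lit 5) (nat_lit 150) (nat_lit 5) (nat_lit 281) (nat_lit 274) (nat_lit 165)) (XT.lf (nat_lit 0) (nat_lit 11225928752) (nat_lit 1064) (nat_lit 1819242084) (nat_lit 1140) (nat_lit 13649449609) (nat_lit 136) (nat_lit 5) (nat_lit 150) (nat_lit 5) (nat_lit 151) (nat_lit 5) (nat_lit 282) (nat_lit 274) (nat_lit 164))) (XT.nd (nat_lit 78) (nat_lit 0) (nat_lit 0) (XT.lf (nat_lit 0) (nat_lit 13607054223) (nat_lit 1064) (nat_lit 10449928590) (nat_lit 1140) (nat_lit 3371781811) (nat_lit 137) (nat_lit 5) (nat_lit 151) (nat_lit 5) (nat_lit 152) (nat_lit 5) (nat_lit 283) (nat_lit 274) (nat_lit 163))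 (XT.nd (nat_lit 78) (nat_lit 0) (nat_lit 76) (XT.lf (nat_lit 76) (nat_lit 8584268418) (nat_lit 0) (nat_lit 7747105649) (nat_lit 1140) (nat_lit 11861544479) (nat_lit 138) (nat_lit 5) (nat_lit 137) (nat_lit 5) (nat_lit 152) (nat_lit 5) (nat_lit 284) (nat_lit 274) (nat_lit 162)) (XT.lf (nat_lit 0) (nat_lit 19382112749) (nat_lit 1064) (nat_lit 301982057) (nat_lit 76) (nat_lit 9305504676) (nat_lit 138) (nat_lit 5) (nat_lit 152) (nat_lit 5) (nat_lit 139) (nat_lit 5) (nat_lit 285) (nat_lit 274) (nat_lit 161)))))) (XT.nd (nat_lit 390) (nat_lit 1748) (nat_lit 0) (XT.nd (nat_lit 156) (nat_lit 1064) (nat_lit 0) (XT.nd (nat_lit 78) (nat_lit 532) (nat_lit 0) (XT.lf (nat_lit 0) (nat_lit 20280658093) (nat_lit 1064) (nat_lit 2569697921) (nat_lit 1140) (nat_lit 6967833616) (nat_lit 124) (nat_lit 5) (nat_lit 138) (nat_lit 5) (nat_lit 139) (nat_lit 5) (nat_lit 286) (nat_lit 274) (nat_lit 160)) (XT.lf (nat_lit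 0) (nat_lit 11275595418) (nat_lit 532) (nat_lit 15468141389) (nat_lit 608) (nat_lit 3936943760) (nat_lit 117) (nat_lit 5) (nat_lit 124) (nat_lit 5) (nat_lit 125) (nat_lit 5) (nat_lit 287) (nat_lit 274) (nat_lit 159))) (XT.nd (nat_lit 78) (nat_lit 608) (nat_lit 0) (XT.lf (nat_lit 0) (nat_lit 1723688150) (nat_lit 456) (nat_lit 29263562232) (nat_lit 532) (nat_lit 594403700) (nat_lit 111) (nat_lit 5) (nat_lit 117) (nat_lit 5) (nat_lit 118) (nat_lit 5) (nat_lit 288) (nat_lit 274) (nat_lit 158)) (XT.nd (nat_lit 78) (nat_lit 532) (nat_lit 0) (XT.lf (nat_lit 0) (nat_lit 3208911315) (nat_lit 532) (nat_lit 8400405755) (nat_lit 76) (nat_lit 20907022739) (nat_lit 110) (nat_lit 5) (nat_lit 117) (nat_lit 5) (nat_lit 111) (nat_lit 5) (nat_lit 289) (nat_lit 274) (nat_lit 157)) (XT.lf (nat_lit 0) (nat_lit 7389668338) (nat_lit 608) (nat_lit 19163358633) (nat_lit 76) (nat_lit 6938588538) (nat_lit 103) (nat_lit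 5) (nat_lit 111) (nat_lit 5) (nat_lit 104) (nat_lit 5) (nat_lit 290) (nat_lit 274) (nat_lit 156))))) (XT.nd (nat_lit 234) (nat_lit 836) (nat_lit 0) (XT.nd (nat_lit 78) (nat_lit 456) (nat_lit 0) (XT.lf (nat_lit 0) (nat_lit 3805356490) (nat_lit 456) (nat_lit 8208489055) (nat_lit 532) (nat_lit 22494796385) (nat_lit 97) (nat_lit 5) (nat_lit 103) (nat_lit 5) (nat_lit 104) (nat_lit 5) (nat_lit 291) (nat_lit 274) (nat_lit 155)) (XT.nd (nat_lit 78) (nat_lit 456) (nat_lit 0) (XT.lf (nat_lit 0) (nat_lit 17168257827) (nat_lit 532) (nat_lit 7362562098) (nat_lit 76) (nat_lit 11036746488) (nat_lit 97) (nat_lit 5) (nat_lit 104) (nat_lit 5) (nat_lit 98) (nat_lit 5) (nat_lit 292) (nat_lit 274) (nat_lit 154)) (XT.lf (nat_lit 0) (nat_lit 17395392268) (nat_lit 456) (nat_lit 5428923236) (nat_lit 532) (nat_lit 13847820565) (nat_lit 91) (nat_lit 5) (nat_lit 97) (nat_lit 5) (nat_lit 98) (nat_lit 5) (nat_lit 293)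 (nat_lit 274) (nat_lit 153)))) (XT.nd (nat_lit 78) (nat_lit 456) (nat_lit 0) (XT.lf (nat_lit 0) (nat_lit 5678474627) (nat_lit 380) (nat_lit 23350530859) (nat_lit 456) (nat_lit 8794969740) (nat_lit 86) (nat_lit 5) (nat_lit 91) (nat_lit 5) (nat_lit 92) (nat_lit 5) (nat_lit 294) (nat_lit 274) (nat_lit 152)) (XT.nd (nat_lit 78) (nat_lit 456) (nat_lit 0) (XT.lf (nat_lit 0) (nat_lit 32222170659) (nat_lit 380) (nat_lit 3568765264) (nat_lit 456) (nat_lit 3235075380) (nat_lit 86) (nat_lit 5) (nat_lit 91) (nat_lit 5) (nat_lit 92) (nat_lit 5) (nat_lit 295) (nat_lit 274) (nat_lit 151)) (XT.lf (nat_lit 0) (nat_lit 2907917015) (nat_lit 456) (nat_lit 20281910940) (nat_lit 76) (nat_lit 17086907828) (nat_lit 80) (nat_lit 5) (nat_lit 86) (nat_lit 5) (nat_lit 81) (nat_lit 5) (nat_lit 296) (nat_lit 274) (nat_lit 150))))))))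
noncomputable def xc108 : XT := (XT.nd (nat_lit 1560) (nat_lit 608) (nat_lit 0) (XT.nd (nat_lit 780) (nat_lit 1596) (nat_lit 0) (XT.nd (nat_lit 390) (nat_lit 988) (nat_lit 0) (XT.nd (nat_lit 156) (nat_lit 684) (nat_lit 0) (XT.nd (nat_lit 78) (nat_lit 0) (nat_lit 0) (XT.lf (nat_lit 0) (nat_lit 6743896038) (nat_lit 380) (nat_lit 2714171291) (nat_lit 456) (nat_lit 32125974138) (nat_lit 75) (nat_lit 5) (nat_lit 80) (nat_lit 5) (nat_lit 81) (nat_lit 5) (nat_lit 297) (nat_lit 274) (nat_lit 149)) (XT.lf (nat_lit 0) (nat_lit 16722052856) (nat_lit 456) (nat_lit 7594294590) (nat_lit 76) (nat_lit 18628787858) (nat_lit 75) (nat_lit 5) (nat_lit 81) (nat_lit 5) (nat_lit 76) (nat_lit 5) (nat_lit 298) (nat_lit 274) (nat_lit 148))) (XT.nd (nat_lit 78) (nat_lit 304) (nat_lit 0) (XT.lf (nat_lit 0) (nat_lit 21398269724) (nat_lit 380) (nat_lit 3179199467) (nat_lit 456) (nat_lit 19789979791) (nat_lit 70) (nat_lit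 5) (nat_lit 75) (nat_lit 5) (nat_lit 76) (nat_lit 5) (nat_lit 299) (nat_lit 274) (nat_lit 147)) (XT.nd (nat_lit 78) (nat_lit 0) (nat_lit 0) (XT.lf (nat_lit 0) (nat_lit 6069794954) (nat_lit 304) (nat_lit 27071253007) (nat_lit 380) (nat_lit 12710380151) (nat_lit 66) (nat_lit 5) (nat_lit 70) (nat_lit 5) (nat_lit 71) (nat_lit 5) (nat_lit 300) (nat_lit 274) (nat_lit 146)) (XT.lf (nat_lit 0) (nat_lit 37002422821) (nat_lit 304) (nat_lit 5394086428) (nat_lit 380) (nat_lit 5005196813) (nat_lit 66) (nat_lit 5) (nat_lit 70) (nat_lit 5) (nat_lit 71) (nat_lit 5) (nat_lit 301) (nat_lit 274) (nat_lit 145))))) (XT.nd (nat_lit 156) (nat_lit 304) (nat_lit 0) (XT.nd (nat_lit 78) (nat_lit 304) (nat_lit 0) (XT.lf (nat_lit 0) (nat_lit 3390061254) (nat_lit 380) (nat_lit 28368471704) (nat_lit 76) (nat_lit 17259134782) (nat_lit 61) (nat_lit 5) (nat_lit 66) (nat_lit 5) (nat_lit 62) (nat_lit 5) (nat_lit 302) (nat_lit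 274) (nat_lit 144)) (XT.lf (nat_lit 0) (nat_lit 2697452645) (nat_lit 304) (nat_lit 9589353161) (nat_lit 380) (nat_lit 38420587502) (nat_lit 57) (nat_lit 5) (nat_lit 61) (nat_lit 5) (nat_lit 62) (nat_lit 5) (nat_lit 303) (nat_lit 274) (nat_lit 143))) (XT.nd (nat_lit 78) (nat_lit 304) (nat_lit 0) (XT.lf (nat_lit 0) (nat_lit 22050818553) (nat_lit 380) (nat_lit 16703151006) (nat_lit 76) (nat_lit 13714971867) (nat_lit 57) (nat_lit 5) (nat_lit 62) (nat_lit 5) (nat_lit 58) (nat_lit 5) (nat_lit 304) (nat_lit 274) (nat_lit 142)) (XT.nd (nat_lit 78) (nat_lit 0) (nat_lit 0) (XT.lf (nat_lit 0) (nat_lit 16386885252) (nat_lit 304) (nat_lit 16166579912) (nat_lit 380) (nat_lit 21757597551) (nat_lit 53) (nat_lit 5) (nat_lit 57) (nat_lit 5) (nat_lit 58) (nat_lit 5) (nat_lit 305) (nat_lit 274) (nat_lit 141)) (XT.lf (nat_lit 0) (nat_lit 43823718207) (nat_lit 380) (nat_lit 4838977080) (nat_lit 76) (nat_lit 7575328903)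 (nat_lit 53) (nat_lit 5) (nat_lit 58) (nat_lit 5) (nat_lit 54) (nat_lit 5) (nat_lit 306) (nat_lit 274) (nat_lit 140)))))) (XT.nd (nat_lit 390) (nat_lit 760) (nat_lit 0) (XT.nd (nat_lit 156) (nat_lit 228) (nat_lit 0) (XT.nd (nat_lit 78) (nat_lit 380) (nat_lit 0) (XT.lf (nat_lit 0) (nat_lit 30324249220) (nat_lit 228) (nat_lit 25784332210) (nat_lit 304) (nat_lit 2139227330) (nat_lit 50) (nat_lit 5) (nat_lit 53) (nat_lit 5) (nat_lit 54) (nat_lit 5) (nat_lit 307) (nat_lit 274) (nat_lit 139)) (XT.lf (nat_lit 0) (nat_lit 7039154326) (nat_lit 304) (nat_lit 1556149640) (nat_lit 380) (nat_lit 51756857074) (nat_lit 45) (nat_lit 5) (nat_lit 49) (nat_lit 5) (nat_lit 50) (nat_lit 5) (nat_lit 308) (nat_lit 274) (nat_lit 138))) (XT.nd (nat_lit 78) (nat_lit 228) (nat_lit 0) (XT.lf (nat_lit 0) (nat_lit 20339230068) (nat_lit 380) (nat_lit 18478299185) (nat_lit 76) (nat_lit 23728065942) (nat_lit 45) (nat_lit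 5) (nat_lit 50) (nat_lit 5) (nat_lit 46) (nat_lit 5) (nat_lit 309) (nat_lit 274) (nat_lit 137)) (XT.nd (nat_lit 78) (nat_lit 0) (nat_lit 0) (XT.lf (nat_lit 0) (nat_lit 18437751846) (nat_lit 228) (nat_lit 14422325779) (nat_lit 304) (nat_lit 31982938343) (nat_lit 42) (nat_lit 5) (nat_lit 45) (nat_lit 5) (nat_lit 46) (nat_lit 5) (nat_lit 310) (nat_lit 274) (nat_lit 136)) (XT.lf (nat_lit 0) (nat_lit 46303542271) (nat_lit 304) (nat_lit 9777759159) (nat_lit 76) (nat_lit 11165115456) (nat_lit 42) (nat_lit 5) (nat_lit 46) (nat_lit 5) (nat_lit 43) (nat_lit 5) (nat_lit 311) (nat_lit 274) (nat_lit 135))))) (XT.nd (nat_lit 156) (nat_lit 456) (nat_lit 0) (XT.nd (nat_lit 78) (nat_lit 76) (nat_lit 0) (XT.lf (nat_lit 0) (nat_lit 29099161893) (nat_lit 228) (nat_lit 31742336754) (nat_lit 304) (nat_lit 8915825696) (nat_lit 39) (nat_lit 5) (nat_lit 42) (nat_lit 5) (nat_lit 43) (nat_lit 5) (nat_lit 312) (nat_lit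 274) (nat_lit 134)) (XT.lf (nat_lit 0) (nat_lit 3738879361) (nat_lit 304) (nat_lit 2307349204) (nat_lit 76) (nat_lit 66343521087) (nat_lit 38) (nat_lit 5) (nat_lit 42) (nat_lit 5) (nat_lit 39) (nat_lit 5) (nat_lit 313) (nat_lit 274) (nat_lit 133))) (XT.nd (nat_lit 78) (nat_lit 228) (nat_lit 0) (XT.lf (nat_lit 0) (nat_lit 17417916090) (nat_lit 304) (nat_lit 36725160519) (nat_lit 76) (nat_lit 20990796995) (nat_lit 35) (nat_lit 5) (nat_lit 39) (nat_lit 5) (nat_lit 36) (nat_lit 5) (nat_lit 314) (nat_lit 274) (nat_lit 132)) (XT.nd (nat_lit 78) (nat_lit 0) (nat_lit 0) (XT.lf (nat_lit 0) (nat_lit 3191393701) (nat_lit 228) (nat_lit 28702522646) (nat_lit 304) (nat_lit 46117902128) (nat_lit 32) (nat_lit 5) (nat_lit 35) (nat_lit 5) (nat_lit 36) (nat_lit 5) (nat_lit 315) (nat_lit 274) (nat_lit 131)) (XT.lf (nat_lit 0) (nat_lit 45867411198) (nat_lit 228) (nat_lit 1601770199) (nat_lit 304) (nat_lit 33553220076)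 (nat_lit 32) (nat_lit 5) (nat_lit 35) (nat_lit 5) (nat_lit 36) (nat_lit 5) (nat_lit 316) (nat_lit 274) (nat_lit 130))))))) (XT.nd (nat_lit 34554) (nat_lit 0) (nat_lit 6612) (XT.nd (nat_lit 390) (nat_lit 0) (nat_lit 0) (XT.nd (nat_lit 156) (nat_lit 456) (nat_lit 0) (XT.nd (nat_lit 78) (nat_lit 0) (nat_lit 0) (XT.lf (nat_lit 0) (nat_lit 6355907238) (nat_lit 152) (nat_lit 57784060304) (nat_lit 228) (nat_lit 20034047944) (nat_lit 30) (nat_lit 5) (nat_lit 32) (nat_lit 5) (nat_lit 33) (nat_lit 5) (nat_lit 317) (nat_lit 274) (nat_lit 129)) (XT.lf (nat_lit 0) (nat_lit 50656904639) (nat_lit 152) (nat_lit 31362893612) (nat_lit 228) (nat_lit 5452151171) (nat_lit 30) (nat_lit 5) (nat_lit 32) (nat_lit 5) (nat_lit 33) (nat_lit 5) (nat_lit 318) (nat_lit 274) (nat_lit 128))) (XT.nd (nat_lit 78) (nat_lit 152) (nat_lit 0) (XT.lf (nat_lit 0) (nat_lit 6262128364) (nat_lit 228) (nat_lit 3462220386) (nat_lit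 304) (nat_lit 81205855583) (nat_lit 26) (nat_lit 5) (nat_lit 29) (nat_lit 5) (nat_lit 30) (nat_lit 5) (nat_lit 319) (nat_lit 274) (nat_lit 127)) (XT.nd (nat_lit 78) (nat_lit 152) (nat_lit 0) (XT.lf (nat_lit 0) (nat_lit 26176781730) (nat_lit 304) (nat_lit 42598056917) (nat_lit 76) (nat_lit 25766021743) (nat_lit 26) (nat_lit 5) (nat_lit 30) (nat_lit 5) (nat_lit 27) (nat_lit 5) (nat_lit 320) (nat_lit 274) (nat_lit 126)) (XT.lf (nat_lit 0) (nat_lit 1567844558) (nat_lit 152) (nat_lit 41931875322) (nat_lit 228) (nat_lit 54830896537) (nat_lit 24) (nat_lit 5) (nat_lit 26) (nat_lit 5) (nat_lit 27) (nat_lit 5) (nat_lit 321) (nat_lit 274) (nat_lit 125))))) (XT.nd (nat_lit 33930) (nat_lit 0) (nat_lit 8208) (XT.nd (nat_lit 33852) (nat_lit 0) (nat_lit 8132) (XT.lf (nat_lit 0) (nat_lit 48829041087) (nat_lit 152) (nat_lit 13296211714) (nat_lit 228) (nat_lit 40171517508) (nat_lit 24) (nat_lit 5) (nat_lit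 26) (nat_lit 5) (nat_lit 27) (nat_lit 5) (nat_lit 322) (nat_lit 274) (nat_lit 124)) (XT.lf (nat_lit 0) (nat_lit 1298294167) (nat_lit 1140) (nat_lit 5060334942) (nat_lit 1140) (nat_lit 5060334942) (nat_lit 131) (nat_lit 3) (nat_lit 146) (nat_lit 3) (nat_lit 146) (nat_lit 5) (nat_lit 275) (nat_lit 275) (nat_lit 170))) (XT.nd (nat_lit 78) (nat_lit 0) (nat_lit 0) (XT.lf (nat_lit 0) (nat_lit 2916549837) (nat_lit 1064) (nat_lit 18304240538) (nat_lit 1140) (nat_lit 2179876102) (nat_lit 132) (nat_lit 5) (nat_lit 146) (nat_lit 5) (nat_lit 147) (nat_lit 5) (nat_lit 276) (nat_lit 275) (nat_lit 169)) (XT.nd (nat_lit 78) (nat_lit 0) (nat_lit 76) (XT.lf (nat_lit 0) (nat_lit 3474268527) (nat_lit 1064) (nat_lit 2838604162) (nat_lit 1140) (nat_lit 17672052051) (nat_lit 132) (nat_lit 5) (nat_lit 146) (nat_lit 5) (nat_lit 147) (nat_lit 5) (nat_lit 277) (nat_lit 275) (nat_lit 168)) (XT.lf (nat_lit 0) (nat_lit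 4271068256) (nat_lit 1064) (nat_lit 11025430535) (nat_lit 1140) (nat_lit 9295595319) (nat_lit 133) (nat_lit 5) (nat_lit 147) (nat_lit 5) (nat_lit 148) (nat_lit 5) (nat_lit 278) (nat_lit 275) (nat_lit 167)))))) (XT.nd (nat_lit 390) (nat_lit 1748) (nat_lit 0) (XT.nd (nat_lit 156) (nat_lit 0) (nat_lit 76) (XT.nd (nat_lit 78) (nat_lit 0) (nat_lit 0) (XT.lf (nat_lit 0) (nat_lit 5248656676) (nat_lit 1064) (nat_lit 19566871631) (nat_lit 1140) (nat_lit 409897600) (nat_lit 134) (nat_lit 5) (nat_lit 148) (nat_lit 5) (nat_lit 149) (nat_lit 5) (nat_lit 279) (nat_lit 275) (nat_lit 166)) (XT.lf (nat_lit 0) (nat_lit 6533893012) (nat_lit 1064) (nat_lit 2642152852) (nat_lit 1140) (nat_lit 16706646256) (nat_lit 134) (nat_lit 5) (nat_lit 148) (nat_lit 5) (nat_lit 149) (nat_lit 5) (nat_lit 280) (nat_lit 275) (nat_lit 165))) (XT.nd (nat_lit 78) (nat_lit 0) (nat_lit 0) (XT.lf (nat_lit 0) (nat_lit 8093041029)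 (nat_lit 1064) (nat_lit 11216510650) (nat_lit 1140) (nat_lit 7257009877) (nat_lit 135) (nat_lit 5) (nat_lit 149) (nat_lit 5) (nat_lit 150) (nat_lit 5) (nat_lit 281) (nat_lit 275) (nat_lit 164)) (XT.nd (nat_lit 78) (nat_lit 0) (nat_lit 76) (XT.lf (nat_lit 76) (nat_lit 7051394238) (nat_lit 0) (nat_lit 2857297006) (nat_lit 1140) (nat_lit 17370604884) (nat_lit 136) (nat_lit 5) (nat_lit 135) (nat_lit 5) (nat_lit 150) (nat_lit 5) (nat_lit 282) (nat_lit 275) (nat_lit 163)) (XT.lf (nat_lit 0) (nat_lit 12061407051) (nat_lit 1064) (nat_lit 1703569270) (nat_lit 1140) (nat_lit 14255329290) (nat_lit 136) (nat_lit 5) (nat_lit 150) (nat_lit 5) (nat_lit 151) (nat_lit 5) (nat_lit 283) (nat_lit 275) (nat_lit 162))))) (XT.nd (nat_lit 234) (nat_lit 1976) (nat_lit 0) (XT.nd (nat_lit 78) (nat_lit 0) (nat_lit 0) (XT.lf (nat_lit 0) (nat_lit 14549862600) (nat_lit 1064) (nat_lit 10762440988) (nat_lit 1140) (nat_lit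 3479244265) (nat_lit 137) (nat_lit 5) (nat_lit 151) (nat_lit 5) (nat_lit 152) (nat_lit 5) (nat_lit 284) (nat_lit 275) (nat_lit 161)) (XT.nd (nat_lit 78) (nat_lit 0) (nat_lit 76) (XT.lf (nat_lit 76) (nat_lit 9217446721) (nat_lit 0) (nat_lit 8182414461) (nat_lit 1140) (nat_lit 12194401612) (nat_lit 138) (nat_lit 5) (nat_lit 137) (nat_lit 5) (nat_lit 152) (nat_lit 5) (nat_lit 285) (nat_lit 275) (nat_lit 160)) (XT.lf (nat_lit 0) (nat_lit 20590701675) (nat_lit 1064) (nat_lit 114483522) (nat_lit 76) (nat_lit 9726001068) (nat_lit 138) (nat_lit 5) (nat_lit 152) (nat_lit 5) (nat_lit 139) (nat_lit 5) (nat_lit 286) (nat_lit 275) (nat_lit 159)))) (XT.nd (nat_lit 78) (nat_lit 988) (nat_lit 0) (XT.lf (nat_lit 0) (nat_lit 21491481216) (nat_lit 1064) (nat_lit 2731363590) (nat_lit 1140) (nat_lit 7078680231) (nat_lit 124) (nat_lit 5) (nat_lit 138) (nat_lit 5) (nat_lit 139) (nat_lit 5) (nat_lit 287) (nat_lit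 275) (nat_lit 158)) (XT.nd (nat_lit 78) (nat_lit 456) (nat_lit 0) (XT.lf (nat_lit 0) (nat_lit 12038191231) (nat_lit 532) (nat_lit 16263359783) (nat_lit 608) (nat_lit 3905901955) (nat_lit 117) (nat_lit 5) (nat_lit 124) (nat_lit 5) (nat_lit 125) (nat_lit 5) (nat_lit 288) (nat_lit 275) (nat_lit 157)) (XT.lf (nat_lit 0) (nat_lit 2010246705) (nat_lit 456) (nat_lit 30738213938) (nat_lit 532) (nat_lit 405308517) (nat_lit 111) (nat_lit 5) (nat_lit 117) (nat_lit 5) (nat_lit 118) (nat_lit 5) (nat_lit 289) (nat_lit 275) (nat_lit 156))))))))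
noncomputable def xc109 : XT := (XT.nd (nat_lit 1638) (nat_lit 1444) (nat_lit 0) (XT.nd (nat_lit 780) (nat_lit 2280) (nat_lit 0) (XT.nd (nat_lit 390) (nat_lit 1216) (nat_lit 0) (XT.nd (nat_lit 156) (nat_lit 912) (nat_lit 0) (XT.nd (nat_lit 78) (nat_lit 532) (nat_lit 0) (XT.lf (nat_lit 0) (nat_lit 3573685921) (nat_lit 532) (nat_lit 8624960913) (nat_lit 76) (nat_lit 21936814034) (nat_lit 110) (nat_lit 5) (nat_lit 117) (nat_lit 5) (nat_lit 111) (nat_lit 5) (nat_lit 290) (nat_lit 275) (nat_lit 155)) (XT.lf (nat_lit 0) (nat_lit 7955512835) (nat_lit 608) (nat_lit 19925169495) (nat_lit 76) (nat_lit 7279084018) (nat_lit 103) (nat_lit 5) (nat_lit 111) (nat_lit 5) (nat_lit 104) (nat_lit 5) (nat_lit 291) (nat_lit 275) (nat_lit 154))) (XT.nd (nat_lit 78) (nat_lit 456) (nat_lit 0) (XT.lf (nat_lit 0) (nat_lit 4186352849) (nat_lit 456) (nat_lit 8617028924) (nat_lit 532) (nat_lit 23424513500) (nat_lit 97)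 (nat_lit 5) (nat_lit 103) (nat_lit 5) (nat_lit 104) (nat_lit 5) (nat_lit 292) (nat_lit 275) (nat_lit 153)) (XT.nd (nat_lit 78) (nat_lit 456) (nat_lit 0) (XT.lf (nat_lit 0) (nat_lit 18206539353) (nat_lit 532) (nat_lit 7543176707) (nat_lit 76) (nat_lit 11590343629) (nat_lit 97) (nat_lit 5) (nat_lit 104) (nat_lit 5) (nat_lit 98) (nat_lit 5) (nat_lit 293) (nat_lit 275) (nat_lit 152)) (XT.lf (nat_lit 0) (nat_lit 18447300342) (nat_lit 456) (nat_lit 5691285226) (nat_lit 532) (nat_lit 14361499977) (nat_lit 91) (nat_lit 5) (nat_lit 97) (nat_lit 5) (nat_lit 98) (nat_lit 5) (nat_lit 294) (nat_lit 275) (nat_lit 151))))) (XT.nd (nat_lit 156) (nat_lit 836) (nat_lit 0) (XT.nd (nat_lit 78) (nat_lit 0) (nat_lit 0) (XT.lf (nat_lit 0) (nat_lit 6144726199) (nat_lit 380) (nat_lit 24502378981) (nat_lit 456) (nat_lit 9062625801) (nat_lit 86) (nat_lit 5) (nat_lit 91) (nat_lit 5) (nat_lit 92) (nat_lit 5) (nat_lit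 295) (nat_lit 275) (nat_lit 150)) (XT.lf (nat_lit 0) (nat_lit 34006924754) (nat_lit 380) (nat_lit 3732271698) (nat_lit 456) (nat_lit 3232931601) (nat_lit 86) (nat_lit 5) (nat_lit 91) (nat_lit 5) (nat_lit 92) (nat_lit 5) (nat_lit 296) (nat_lit 275) (nat_lit 149))) (XT.nd (nat_lit 78) (nat_lit 380) (nat_lit 0) (XT.lf (nat_lit 0) (nat_lit 3208182807) (nat_lit 456) (nat_lit 21118969849) (nat_lit 76) (nat_lit 17958383245) (nat_lit 80) (nat_lit 5) (nat_lit 86) (nat_lit 5) (nat_lit 81) (nat_lit 5) (nat_lit 297) (nat_lit 275) (nat_lit 148)) (XT.nd (nat_lit 78) (nat_lit 0) (nat_lit 0) (XT.lf (nat_lit 0) (nat_lit 7253052758) (nat_lit 380) (nat_lit 2827066123) (nat_lit 456) (nat_lit 33578278241) (nat_lit 75) (nat_lit 5) (nat_lit 80) (nat_lit 5) (nat_lit 81) (nat_lit 5) (nat_lit 298) (nat_lit 275) (nat_lit 147)) (XT.lf (nat_lit 0) (nat_lit 17700410246) (nat_lit 456) (nat_lit 7805829284) (nat_lit 76)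 (nat_lit 19581530636) (nat_lit 75) (nat_lit 5) (nat_lit 81) (nat_lit 5) (nat_lit 76) (nat_lit 5) (nat_lit 299) (nat_lit 275) (nat_lit 146)))))) (XT.nd (nat_lit 390) (nat_lit 912) (nat_lit 0) (XT.nd (nat_lit 156) (nat_lit 684) (nat_lit 0) (XT.nd (nat_lit 78) (nat_lit 304) (nat_lit 0) (XT.lf (nat_lit 0) (nat_lit 22631542398) (nat_lit 380) (nat_lit 3311851272) (nat_lit 456) (nat_lit 20637978839) (nat_lit 70) (nat_lit 5) (nat_lit 75) (nat_lit 5) (nat_lit 76) (nat_lit 5) (nat_lit 300) (nat_lit 275) (nat_lit 145)) (XT.lf (nat_lit 0) (nat_lit 6536036984) (nat_lit 304) (nat_lit 28394393478) (nat_lit 380) (nat_lit 13209277827) (nat_lit 66) (nat_lit 5) (nat_lit 70) (nat_lit 5) (nat_lit 71) (nat_lit 5) (nat_lit 301) (nat_lit 275) (nat_lit 144))) (XT.nd (nat_lit 78) (nat_lit 684) (nat_lit 0) (XT.lf (nat_lit 0) (nat_lit 39007546136) (nat_lit 304) (nat_lit 5634817245) (nat_lit 380) (nat_lit 5125341100)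 (nat_lit 66) (nat_lit 5) (nat_lit 70) (nat_lit 5) (nat_lit 71) (nat_lit 5) (nat_lit 302) (nat_lit 275) (nat_lit 143)) (XT.nd (nat_lit 78) (nat_lit 304) (nat_lit 0) (XT.lf (nat_lit 0) (nat_lit 3682831155) (nat_lit 380) (nat_lit 29629900801) (nat_lit 76) (nat_lit 18151838204) (nat_lit 61) (nat_lit 5) (nat_lit 66) (nat_lit 5) (nat_lit 62) (nat_lit 5) (nat_lit 303) (nat_lit 275) (nat_lit 142)) (XT.lf (nat_lit 0) (nat_lit 2984819549) (nat_lit 304) (nat_lit 10035189405) (nat_lit 380) (nat_lit 40218918647) (nat_lit 57) (nat_lit 5) (nat_lit 61) (nat_lit 5) (nat_lit 62) (nat_lit 5) (nat_lit 304) (nat_lit 275) (nat_lit 141))))) (XT.nd (nat_lit 234) (nat_lit 608) (nat_lit 0) (XT.nd (nat_lit 78) (nat_lit 304) (nat_lit 0) (XT.lf (nat_lit 0) (nat_lit 23266870094) (nat_lit 380) (nat_lit 17389731070) (nat_lit 76) (nat_lit 14432125360) (nat_lit 57) (nat_lit 5) (nat_lit 62) (nat_lit 5) (nat_lit 58) (nat_lit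 5) (nat_lit 305) (nat_lit 275) (nat_lit 140)) (XT.nd (nat_lit 78) (nat_lit 0) (nat_lit 0) (XT.lf (nat_lit 0) (nat_lit 17350548056) (nat_lit 304) (nat_lit 16940082990) (nat_lit 380) (nat_lit 22732455593) (nat_lit 53) (nat_lit 5) (nat_lit 57) (nat_lit 5) (nat_lit 58) (nat_lit 5) (nat_lit 306) (nat_lit 275) (nat_lit 139)) (XT.lf (nat_lit 0) (nat_lit 46119501633) (nat_lit 380) (nat_lit 4940437376) (nat_lit 76) (nat_lit 7986615671) (nat_lit 53) (nat_lit 5) (nat_lit 58) (nat_lit 5) (nat_lit 54) (nat_lit 5) (nat_lit 307) (nat_lit 275) (nat_lit 138)))) (XT.nd (nat_lit 78) (nat_lit 380) (nat_lit 0) (XT.lf (nat_lit 0) (nat_lit 31976923162) (nat_lit 228) (nat_lit 27038015772) (nat_lit 304) (nat_lit 2142010703) (nat_lit 50) (nat_lit 5) (nat_lit 53) (nat_lit 5) (nat_lit 54) (nat_lit 5) (nat_lit 308) (nat_lit 275) (nat_lit 137)) (XT.nd (nat_lit 78) (nat_lit 0) (nat_lit 0) (XT.lf (nat_lit 0) (nat_lit 7525845578)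 (nat_lit 304) (nat_lit 1597799780) (nat_lit 380) (nat_lit 54242961447) (nat_lit 45) (nat_lit 5) (nat_lit 49) (nat_lit 5) (nat_lit 50) (nat_lit 5) (nat_lit 309) (nat_lit 275) (nat_lit 136)) (XT.lf (nat_lit 0) (nat_lit 21450404677) (nat_lit 380) (nat_lit 19271215805) (nat_lit 76) (nat_lit 24948232841) (nat_lit 45) (nat_lit 5) (nat_lit 50) (nat_lit 5) (nat_lit 46) (nat_lit 5) (nat_lit 310) (nat_lit 275) (nat_lit 135))))))) (XT.nd (nat_lit 780) (nat_lit 0) (nat_lit 0) (XT.nd (nat_lit 390) (nat_lit 684) (nat_lit 0) (XT.nd (nat_lit 156) (nat_lit 532) (nat_lit 0) (XT.nd (nat_lit 78) (nat_lit 0) (nat_lit 0) (XT.lf (nat_lit 0) (nat_lit 19486882736) (nat_lit 228) (nat_lit 15107148677) (nat_lit 304) (nat_lit 33488220914) (nat_lit 42) (nat_lit 5) (nat_lit 45) (nat_lit 5) (nat_lit 46) (nat_lit 5) (nat_lit 311) (nat_lit 275) (nat_lit 134)) (XT.lf (nat_lit 0) (nat_lit 48705670606) (nat_lit 304) (nat_lit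 10143019629) (nat_lit 76) (nat_lit 11757261873) (nat_lit 42) (nat_lit 5) (nat_lit 46) (nat_lit 5) (nat_lit 43) (nat_lit 5) (nat_lit 312) (nat_lit 275) (nat_lit 133))) (XT.nd (nat_lit 78) (nat_lit 304) (nat_lit 0) (XT.lf (nat_lit 0) (nat_lit 30674203718) (nat_lit 228) (nat_lit 33293334865) (nat_lit 304) (nat_lit 9274964371) (nat_lit 39) (nat_lit 5) (nat_lit 42) (nat_lit 5) (nat_lit 43) (nat_lit 5) (nat_lit 313) (nat_lit 275) (nat_lit 132)) (XT.nd (nat_lit 78) (nat_lit 228) (nat_lit 0) (XT.lf (nat_lit 0) (nat_lit 4006739238) (nat_lit 304) (nat_lit 2306584876) (nat_lit 76) (nat_lit 69693329598) (nat_lit 38) (nat_lit 5) (nat_lit 42) (nat_lit 5) (nat_lit 39) (nat_lit 5) (nat_lit 314) (nat_lit 275) (nat_lit 131)) (XT.lf (nat_lit 0) (nat_lit 18367292129) (nat_lit 304) (nat_lit 38446455851) (nat_lit 76) (nat_lit 22074316378) (nat_lit 35) (nat_lit 5) (nat_lit 39) (nat_lit 5) (nat_lit 36) (nat_lit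 5) (nat_lit 315) (nat_lit 275) (nat_lit 130))))) (XT.nd (nat_lit 156) (nat_lit 456) (nat_lit 0) (XT.nd (nat_lit 78) (nat_lit 0) (nat_lit 0) (XT.lf (nat_lit 0) (nat_lit 3462630697) (nat_lit 228) (nat_lit 30101797962) (nat_lit 304) (nat_lit 48345564798) (nat_lit 32) (nat_lit 5) (nat_lit 35) (nat_lit 5) (nat_lit 36) (nat_lit 5) (nat_lit 316) (nat_lit 275) (nat_lit 129)) (XT.lf (nat_lit 0) (nat_lit 48267131578) (nat_lit 228) (nat_lit 1647715075) (nat_lit 304) (nat_lit 35156373998) (nat_lit 32) (nat_lit 5) (nat_lit 35) (nat_lit 5) (nat_lit 36) (nat_lit 5) (nat_lit 317) (nat_lit 275) (nat_lit 128))) (XT.nd (nat_lit 78) (nat_lit 304) (nat_lit 0) (XT.lf (nat_lit 0) (nat_lit 6778920064) (nat_lit 152) (nat_lit 60638137646) (nat_lit 228) (nat_lit 20963427501) (nat_lit 30) (nat_lit 5) (nat_lit 32) (nat_lit 5) (nat_lit 33) (nat_lit 5) (nat_lit 318) (nat_lit 275) (nat_lit 127)) (XT.nd (nat_lit 78) (nat_lit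 304) (nat_lit 0) (XT.lf (nat_lit 0) (nat_lit 53289956979) (nat_lit 152) (nat_lit 32897585270) (nat_lit 228) (nat_lit 5655879834) (nat_lit 30) (nat_lit 5) (nat_lit 32) (nat_lit 5) (nat_lit 33) (nat_lit 5) (nat_lit 319) (nat_lit 275) (nat_lit 126)) (XT.lf (nat_lit 0) (nat_lit 6673990250) (nat_lit 228) (nat_lit 3601844113) (nat_lit 304) (nat_lit 85198809163) (nat_lit 26) (nat_lit 5) (nat_lit 29) (nat_lit 5) (nat_lit 30) (nat_lit 5) (nat_lit 320) (nat_lit 275) (nat_lit 125)))))) (XT.nd (nat_lit 34320) (nat_lit 0) (nat_lit 8208) (XT.nd (nat_lit 34086) (nat_lit 0) (nat_lit 8056) (XT.nd (nat_lit 34008) (nat_lit 0) (nat_lit 7980) (XT.lf (nat_lit 0) (nat_lit 27548087555) (nat_lit 304) (nat_lit 44632241105) (nat_lit 76) (nat_lit 27085593149) (nat_lit 26) (nat_lit 5) (nat_lit 30) (nat_lit 5) (nat_lit 27) (nat_lit 5) (nat_lit 321) (nat_lit 275) (nat_lit 124)) (XT.lf (nat_lit 0) (nat_lit 1544802619)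 (nat_lit 1140) (nat_lit 5219556057) (nat_lit 1140) (nat_lit 5219556057) (nat_lit 131) (nat_lit 3) (nat_lit 146) (nat_lit 3) (nat_lit 146) (nat_lit 5) (nat_lit 276) (nat_lit 276) (nat_lit 168))) (XT.nd (nat_lit 78) (nat_lit 0) (nat_lit 0) (XT.lf (nat_lit 0) (nat_lit 3408431509) (nat_lit 1064) (nat_lit 19024171955) (nat_lit 1140) (nat_lit 2126667649) (nat_lit 132) (nat_lit 5) (nat_lit 146) (nat_lit 5) (nat_lit 147) (nat_lit 5) (nat_lit 277) (nat_lit 276) (nat_lit 167)) (XT.nd (nat_lit 78) (nat_lit 0) (nat_lit 76) (XT.lf (nat_lit 0) (nat_lit 3977557364) (nat_lit 1064) (nat_lit 2794552838) (nat_lit 1140) (nat_lit 18401176313) (nat_lit 132) (nat_lit 5) (nat_lit 146) (nat_lit 5) (nat_lit 147) (nat_lit 5) (nat_lit 278) (nat_lit 276) (nat_lit 166)) (XT.lf (nat_lit 0) (nat_lit 4798942144) (nat_lit 1064) (nat_lit 11384336011) (nat_lit 1140) (nat_lit 9628041330) (nat_lit 133) (nat_lit 5) (nat_lit 147)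 (nat_lit 5) (nat_lit 148) (nat_lit 5) (nat_lit 279) (nat_lit 276) (nat_lit 165))))) (XT.nd (nat_lit 234) (nat_lit 0) (nat_lit 76) (XT.nd (nat_lit 78) (nat_lit 0) (nat_lit 0) (XT.lf (nat_lit 0) (nat_lit 5811139786) (nat_lit 1064) (nat_lit 20347325643) (nat_lit 1140) (nat_lit 318325775) (nat_lit 134) (nat_lit 5) (nat_lit 148) (nat_lit 5) (nat_lit 149) (nat_lit 5) (nat_lit 280) (nat_lit 276) (nat_lit 164)) (XT.nd (nat_lit 78) (nat_lit 0) (nat_lit 76) (XT.lf (nat_lit 0) (nat_lit 7146349830) (nat_lit 1064) (nat_lit 2585794237) (nat_lit 1140) (nat_lit 17435248374) (nat_lit 134) (nat_lit 5) (nat_lit 148) (nat_lit 5) (nat_lit 149) (nat_lit 5) (nat_lit 281) (nat_lit 276) (nat_lit 163)) (XT.lf (nat_lit 0) (nat_lit 8770733939) (nat_lit 1064) (nat_lit 11584361139) (nat_lit 1140) (nat_lit 7530782930) (nat_lit 135) (nat_lit 5) (nat_lit 149) (nat_lit 5) (nat_lit 150) (nat_lit 5) (nat_lit 282) (nat_lit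 276) (nat_lit 162)))) (XT.nd (nat_lit 78) (nat_lit 0) (nat_lit 76) (XT.lf (nat_lit 76) (nat_lit 7591407402) (nat_lit 0) (nat_lit 3074559138) (nat_lit 1140) (nat_lit 17968657839) (nat_lit 136) (nat_lit 5) (nat_lit 135) (nat_lit 5) (nat_lit 150) (nat_lit 5) (nat_lit 283) (nat_lit 276) (nat_lit 161)) (XT.nd (nat_lit 78) (nat_lit 0) (nat_lit 76) (XT.lf (nat_lit 0) (nat_lit 12913168434) (nat_lit 1064) (nat_lit 1601323772) (nat_lit 1140) (nat_lit 14898623828) (nat_lit 136) (nat_lit 5) (nat_lit 150) (nat_lit 5) (nat_lit 151) (nat_lit 5) (nat_lit 284) (nat_lit 276) (nat_lit 160)) (XT.lf (nat_lit 0) (nat_lit 15515410756) (nat_lit 1064) (nat_lit 11110101330) (nat_lit 1140) (nat_lit 3597762816) (nat_lit 137) (nat_lit 5) (nat_lit 151) (nat_lit 5) (nat_lit 152) (nat_lit 5) (nat_lit 285) (nat_lit 276) (nat_lit 159))))))))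
noncomputable def xc110 : XT := (XT.nd (nat_lit 1560) (nat_lit 2356) (nat_lit 0) (XT.nd (nat_lit 780) (nat_lit 2584) (nat_lit 0) (XT.nd (nat_lit 390) (nat_lit 1520) (nat_lit 0) (XT.nd (nat_lit 156) (nat_lit 988) (nat_lit 0) (XT.nd (nat_lit 78) (nat_lit 988) (nat_lit 0) (XT.lf (nat_lit 76) (nat_lit 9863321218) (nat_lit 0) (nat_lit 8635030450) (nat_lit 1140) (nat_lit 12568094399) (nat_lit 138) (nat_lit 5) (nat_lit 137) (nat_lit 5) (nat_lit 152) (nat_lit 5) (nat_lit 286) (nat_lit 276) (nat_lit 158)) (XT.lf (nat_lit 0) (nat_lit 64819187) (nat_lit 1064) (nat_lit 21773259056) (nat_lit 1140) (nat_lit 10107489286) (nat_lit 124) (nat_lit 5) (nat_lit 138) (nat_lit 5) (nat_lit 139) (nat_lit 5) (nat_lit 287) (nat_lit 276) (nat_lit 157))) (XT.nd (nat_lit 78) (nat_lit 988) (nat_lit 0) (XT.lf (nat_lit 0) (nat_lit 22744549805) (nat_lit 1064) (nat_lit 2898027709) (nat_lit 1140) (nat_lit 7217153865) (nat_lit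 124) (nat_lit 5) (nat_lit 138) (nat_lit 5) (nat_lit 139) (nat_lit 5) (nat_lit 288) (nat_lit 276) (nat_lit 156)) (XT.nd (nat_lit 78) (nat_lit 456) (nat_lit 0) (XT.lf (nat_lit 0) (nat_lit 12820432803) (nat_lit 532) (nat_lit 17096311287) (nat_lit 608) (nat_lit 3894495019) (nat_lit 117) (nat_lit 5) (nat_lit 124) (nat_lit 5) (nat_lit 125) (nat_lit 5) (nat_lit 289) (nat_lit 276) (nat_lit 155)) (XT.lf (nat_lit 0) (nat_lit 2292504298) (nat_lit 456) (nat_lit 32285531523) (nat_lit 532) (nat_lit 227101953) (nat_lit 111) (nat_lit 5) (nat_lit 117) (nat_lit 5) (nat_lit 118) (nat_lit 5) (nat_lit 290) (nat_lit 276) (nat_lit 154))))) (XT.nd (nat_lit 156) (nat_lit 912) (nat_lit 0) (XT.nd (nat_lit 78) (nat_lit 532) (nat_lit 0) (XT.lf (nat_lit 0) (nat_lit 3937702680) (nat_lit 532) (nat_lit 8878916323) (nat_lit 76) (nat_lit 23019541500) (nat_lit 110) (nat_lit 5) (nat_lit 117) (nat_lit 5) (nat_lit 111) (nat_lit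 5) (nat_lit 291) (nat_lit 276) (nat_lit 153)) (XT.lf (nat_lit 0) (nat_lit 8531393764) (nat_lit 608) (nat_lit 20743326318) (nat_lit 76) (nat_lit 7637202439) (nat_lit 103) (nat_lit 5) (nat_lit 111) (nat_lit 5) (nat_lit 104) (nat_lit 5) (nat_lit 292) (nat_lit 276) (nat_lit 152))) (XT.nd (nat_lit 78) (nat_lit 456) (nat_lit 0) (XT.lf (nat_lit 0) (nat_lit 4568666895) (nat_lit 456) (nat_lit 9046170998) (nat_lit 532) (nat_lit 24418847834) (nat_lit 97) (nat_lit 5) (nat_lit 103) (nat_lit 5) (nat_lit 104) (nat_lit 5) (nat_lit 293) (nat_lit 276) (nat_lit 151)) (XT.nd (nat_lit 78) (nat_lit 456) (nat_lit 0) (XT.lf (nat_lit 0) (nat_lit 19280012475) (nat_lit 532) (nat_lit 7750255273) (nat_lit 76) (nat_lit 12171457017) (nat_lit 97) (nat_lit 5) (nat_lit 104) (nat_lit 5) (nat_lit 98) (nat_lit 5) (nat_lit 294) (nat_lit 276) (nat_lit 150)) (XT.lf (nat_lit 0) (nat_lit 19534870311) (nat_lit 456) (nat_lit 5967609876)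 (nat_lit 532) (nat_lit 14917478271) (nat_lit 91) (nat_lit 5) (nat_lit 97) (nat_lit 5) (nat_lit 98) (nat_lit 5) (nat_lit 295) (nat_lit 276) (nat_lit 149)))))) (XT.nd (nat_lit 390) (nat_lit 1368) (nat_lit 0) (XT.nd (nat_lit 156) (nat_lit 836) (nat_lit 0) (XT.nd (nat_lit 78) (nat_lit 0) (nat_lit 0) (XT.lf (nat_lit 0) (nat_lit 6617339235) (nat_lit 380) (nat_lit 25713277140) (nat_lit 456) (nat_lit 9359664189) (nat_lit 86) (nat_lit 5) (nat_lit 91) (nat_lit 5) (nat_lit 92) (nat_lit 5) (nat_lit 296) (nat_lit 276) (nat_lit 148)) (XT.lf (nat_lit 0) (nat_lit 35864772636) (nat_lit 380) (nat_lit 3905341673) (nat_lit 456) (nat_lit 3245918273) (nat_lit 86) (nat_lit 5) (nat_lit 91) (nat_lit 5) (nat_lit 92) (nat_lit 5) (nat_lit 297) (nat_lit 276) (nat_lit 147))) (XT.nd (nat_lit 78) (nat_lit 380) (nat_lit 0) (XT.lf (nat_lit 0) (nat_lit 3509063549) (nat_lit 456) (nat_lit 22014340893) (nat_lit 76) (nat_lit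 18871839846) (nat_lit 80) (nat_lit 5) (nat_lit 86) (nat_lit 5) (nat_lit 81) (nat_lit 5) (nat_lit 298) (nat_lit 276) (nat_lit 146)) (XT.nd (nat_lit 78) (nat_lit 0) (nat_lit 0) (XT.lf (nat_lit 0) (nat_lit 7771679924) (nat_lit 380) (nat_lit 2947726701) (nat_lit 456) (nat_lit 35117514508) (nat_lit 75) (nat_lit 5) (nat_lit 80) (nat_lit 5) (nat_lit 81) (nat_lit 5) (nat_lit 299) (nat_lit 276) (nat_lit 145)) (XT.lf (nat_lit 0) (nat_lit 18714460008) (nat_lit 456) (nat_lit 8043576499) (nat_lit 76) (nat_lit 20579929966) (nat_lit 75) (nat_lit 5) (nat_lit 81) (nat_lit 5) (nat_lit 76) (nat_lit 5) (nat_lit 300) (nat_lit 276) (nat_lit 144))))) (XT.nd (nat_lit 156) (nat_lit 684) (nat_lit 0) (XT.nd (nat_lit 78) (nat_lit 304) (nat_lit 0) (XT.lf (nat_lit 0) (nat_lit 23911291117) (nat_lit 380) (nat_lit 3453581552) (nat_lit 456) (nat_lit 21541533163) (nat_lit 70) (nat_lit 5) (nat_lit 75) (nat_lit 5) (nat_lit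 76) (nat_lit 5) (nat_lit 301) (nat_lit 276) (nat_lit 143)) (XT.lf (nat_lit 0) (nat_lit 7010459952) (nat_lit 304) (nat_lit 29786519339) (nat_lit 380) (nat_lit 13745822144) (nat_lit 66) (nat_lit 5) (nat_lit 70) (nat_lit 5) (nat_lit 71) (nat_lit 5) (nat_lit 302) (nat_lit 276) (nat_lit 142))) (XT.nd (nat_lit 78) (nat_lit 684) (nat_lit 0) (XT.lf (nat_lit 0) (nat_lit 41098514984) (nat_lit 304) (nat_lit 5890278285) (nat_lit 380) (nat_lit 5263589512) (nat_lit 66) (nat_lit 5) (nat_lit 70) (nat_lit 5) (nat_lit 71) (nat_lit 5) (nat_lit 303) (nat_lit 276) (nat_lit 141)) (XT.nd (nat_lit 78) (nat_lit 304) (nat_lit 0) (XT.lf (nat_lit 0) (nat_lit 3978779370) (nat_lit 380) (nat_lit 30968997213) (nat_lit 76) (nat_lit 19086411231) (nat_lit 61) (nat_lit 5) (nat_lit 66) (nat_lit 5) (nat_lit 62) (nat_lit 5) (nat_lit 304) (nat_lit 276) (nat_lit 140)) (XT.lf (nat_lit 0) (nat_lit 3272377327) (nat_lit 304) (nat_lit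 10506444190) (nat_lit 380) (nat_lit 42118573667) (nat_lit 57) (nat_lit 5) (nat_lit 61) (nat_lit 5) (nat_lit 62) (nat_lit 5) (nat_lit 305) (nat_lit 276) (nat_lit 139))))))) (XT.nd (nat_lit 780) (nat_lit 912) (nat_lit 0) (XT.nd (nat_lit 390) (nat_lit 532) (nat_lit 0) (XT.nd (nat_lit 156) (nat_lit 608) (nat_lit 0) (XT.nd (nat_lit 78) (nat_lit 304) (nat_lit 0) (XT.lf (nat_lit 0) (nat_lit 24533171070) (nat_lit 380) (nat_lit 18124453465) (nat_lit 76) (nat_lit 15182216798) (nat_lit 57) (nat_lit 5) (nat_lit 62) (nat_lit 5) (nat_lit 58) (nat_lit 5) (nat_lit 306) (nat_lit 276) (nat_lit 138)) (XT.lf (nat_lit 0) (nat_lit 18348976631) (nat_lit 304) (nat_lit 17755499005) (nat_lit 380) (nat_lit 23766564236) (nat_lit 53) (nat_lit 5) (nat_lit 57) (nat_lit 5) (nat_lit 58) (nat_lit 5) (nat_lit 307) (nat_lit 276) (nat_lit 137))) (XT.nd (nat_lit 78) (nat_lit 608) (nat_lit 0) (XT.lf (nat_lit 0) (nat_lit 48520349745)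 (nat_lit 380) (nat_lit 5060031982) (nat_lit 76) (nat_lit 8415443346) (nat_lit 53) (nat_lit 5) (nat_lit 58) (nat_lit 5) (nat_lit 54) (nat_lit 5) (nat_lit 308) (nat_lit 276) (nat_lit 136)) (XT.nd (nat_lit 78) (nat_lit 380) (nat_lit 0) (XT.lf (nat_lit 0) (nat_lit 33699543907) (nat_lit 228) (nat_lit 28357687038) (nat_lit 304) (nat_lit 2154618727) (nat_lit 50) (nat_lit 5) (nat_lit 53) (nat_lit 5) (nat_lit 54) (nat_lit 5) (nat_lit 309) (nat_lit 276) (nat_lit 135)) (XT.lf (nat_lit 0) (nat_lit 8024345147) (nat_lit 304) (nat_lit 1644893994) (nat_lit 380) (nat_lit 56862829718) (nat_lit 45) (nat_lit 5) (nat_lit 49) (nat_lit 5) (nat_lit 50) (nat_lit 5) (nat_lit 310) (nat_lit 276) (nat_lit 134))))) (XT.nd (nat_lit 156) (nat_lit 304) (nat_lit 0) (XT.nd (nat_lit 78) (nat_lit 228) (nat_lit 0) (XT.lf (nat_lit 0) (nat_lit 22608378975) (nat_lit 380) (nat_lit 20115957240) (nat_lit 76) (nat_lit 26226269065)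 (nat_lit 45) (nat_lit 5) (nat_lit 50) (nat_lit 5) (nat_lit 46) (nat_lit 5) (nat_lit 311) (nat_lit 276) (nat_lit 133)) (XT.lf (nat_lit 0) (nat_lit 20576640296) (nat_lit 228) (nat_lit 15829586936) (nat_lit 304) (nat_lit 35077494230) (nat_lit 42) (nat_lit 5) (nat_lit 45) (nat_lit 5) (nat_lit 46) (nat_lit 5) (nat_lit 312) (nat_lit 276) (nat_lit 132))) (XT.nd (nat_lit 78) (nat_lit 304) (nat_lit 0) (XT.lf (nat_lit 0) (nat_lit 51219821457) (nat_lit 304) (nat_lit 10538036834) (nat_lit 76) (nat_lit 12375864779) (nat_lit 42) (nat_lit 5) (nat_lit 46) (nat_lit 5) (nat_lit 43) (nat_lit 5) (nat_lit 313) (nat_lit 276) (nat_lit 131)) (XT.nd (nat_lit 78) (nat_lit 76) (nat_lit 0) (XT.lf (nat_lit 0) (nat_lit 32316833389) (nat_lit 228) (nat_lit 34925240859) (nat_lit 304) (nat_lit 9660116119) (nat_lit 39) (nat_lit 5) (nat_lit 42) (nat_lit 5) (nat_lit 43) (nat_lit 5) (nat_lit 314) (nat_lit 276) (nat_lit 130))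 (XT.lf (nat_lit 0) (nat_lit 4280469316) (nat_lit 304) (nat_lit 2316579164) (nat_lit 76) (nat_lit 73207594678) (nat_lit 38) (nat_lit 5) (nat_lit 42) (nat_lit 5) (nat_lit 39) (nat_lit 5) (nat_lit 315) (nat_lit 276) (nat_lit 129)))))) (XT.nd (nat_lit 390) (nat_lit 304) (nat_lit 0) (XT.nd (nat_lit 156) (nat_lit 152) (nat_lit 0) (XT.nd (nat_lit 78) (nat_lit 228) (nat_lit 0) (XT.lf (nat_lit 0) (nat_lit 19356840621) (nat_lit 304) (nat_lit 40264504092) (nat_lit 76) (nat_lit 23208852636) (nat_lit 35) (nat_lit 5) (nat_lit 39) (nat_lit 5) (nat_lit 36) (nat_lit 5) (nat_lit 316) (nat_lit 276) (nat_lit 128)) (XT.lf (nat_lit 0) (nat_lit 3737047774) (nat_lit 228) (nat_lit 31574370113) (nat_lit 304) (nat_lit 50691883912) (nat_lit 32) (nat_lit 5) (nat_lit 35) (nat_lit 5) (nat_lit 36) (nat_lit 5) (nat_lit 317) (nat_lit 276) (nat_lit 127))) (XT.nd (nat_lit 78) (nat_lit 152) (nat_lit 0) (XT.lf (nat_lit 0) (nat_lit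 50776950578) (nat_lit 228) (nat_lit 1699131545) (nat_lit 304) (nat_lit 36846612578) (nat_lit 32) (nat_lit 5) (nat_lit 35) (nat_lit 5) (nat_lit 36) (nat_lit 5) (nat_lit 318) (nat_lit 276) (nat_lit 126)) (XT.nd (nat_lit 78) (nat_lit 0) (nat_lit 0) (XT.lf (nat_lit 0) (nat_lit 7213301409) (nat_lit 152) (nat_lit 63638184507) (nat_lit 228) (nat_lit 21945999927) (nat_lit 30) (nat_lit 5) (nat_lit 32) (nat_lit 5) (nat_lit 33) (nat_lit 5) (nat_lit 319) (nat_lit 276) (nat_lit 125)) (XT.lf (nat_lit 0) (nat_lit 56045345630) (nat_lit 152) (nat_lit 34512121656) (nat_lit 228) (nat_lit 5876198637) (nat_lit 30) (nat_lit 5) (nat_lit 32) (nat_lit 5) (nat_lit 33) (nat_lit 5) (nat_lit 320) (nat_lit 276) (nat_lit 124))))) (XT.nd (nat_lit 34242) (nat_lit 0) (nat_lit 8056) (XT.nd (nat_lit 34086) (nat_lit 0) (nat_lit 7980) (XT.lf (nat_lit 0) (nat_lit 7097263882) (nat_lit 228) (nat_lit 3751562357) (nat_lit 304) (nat_lit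 89397670983) (nat_lit 26) (nat_lit 5) (nat_lit 29) (nat_lit 5) (nat_lit 30) (nat_lit 5) (nat_lit 321) (nat_lit 276) (nat_lit 123)) (XT.nd (nat_lit 78) (nat_lit 0) (nat_lit 76) (XT.lf (nat_lit 0) (nat_lit 1786753630) (nat_lit 1140) (nat_lit 5395458457) (nat_lit 1140) (nat_lit 5395458457) (nat_lit 131) (nat_lit 3) (nat_lit 146) (nat_lit 3) (nat_lit 146) (nat_lit 5) (nat_lit 277) (nat_lit 277) (nat_lit 166)) (XT.lf (nat_lit 0) (nat_lit 3892734427) (nat_lit 1064) (nat_lit 19798255283) (nat_lit 1140) (nat_lit 2085878802) (nat_lit 132) (nat_lit 5) (nat_lit 146) (nat_lit 5) (nat_lit 147) (nat_lit 5) (nat_lit 278) (nat_lit 277) (nat_lit 165)))) (XT.nd (nat_lit 78) (nat_lit 0) (nat_lit 76) (XT.lf (nat_lit 0) (nat_lit 4475369844) (nat_lit 1064) (nat_lit 2765589747) (nat_lit 1140) (nat_lit 19181118720) (nat_lit 132) (nat_lit 5) (nat_lit 146) (nat_lit 5) (nat_lit 147) (nat_lit 5) (nat_lit 279) (nat_lit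 277) (nat_lit 164)) (XT.nd (nat_lit 78) (nat_lit 0) (nat_lit 76) (XT.lf (nat_lit 0) (nat_lit 5323987188) (nat_lit 1064) (nat_lit 11779071132) (nat_lit 1140) (nat_lit 9989412781) (nat_lit 133) (nat_lit 5) (nat_lit 147) (nat_lit 5) (nat_lit 148) (nat_lit 5) (nat_lit 280) (nat_lit 277) (nat_lit 163)) (XT.lf (nat_lit 0) (nat_lit 6373851220) (nat_lit 1064) (nat_lit 21185200252) (nat_lit 1140) (nat_lit 232594259) (nat_lit 134) (nat_lit 5) (nat_lit 148) (nat_lit 5) (nat_lit 149) (nat_lit 5) (nat_lit 281) (nat_lit 277) (nat_lit 162))))))))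
noncomputable def xc111 : XT := (XT.nd (nat_lit 1638) (nat_lit 3040) (nat_lit 0) (XT.nd (nat_lit 780) (nat_lit 3116) (nat_lit 0) (XT.nd (nat_lit 390) (nat_lit 1748) (nat_lit 0) (XT.nd (nat_lit 156) (nat_lit 0) (nat_lit 76) (XT.nd (nat_lit 78) (nat_lit 0) (nat_lit 76) (XT.lf (nat_lit 0) (nat_lit 7762862030) (nat_lit 1064) (nat_lit 2544139498) (nat_lit 1140) (nat_lit 18210203360) (nat_lit 134) (nat_lit 5) (nat_lit 148) (nat_lit 5) (nat_lit 149) (nat_lit 5) (nat_lit 282) (nat_lit 277) (nat_lit 161)) (XT.lf (nat_lit 0) (nat_lit 9456926744) (nat_lit 1064) (nat_lit 11988545143) (nat_lit 1140) (nat_lit 7826526211) (nat_lit 135) (nat_lit 5) (nat_lit 149) (nat_lit 5) (nat_lit 150) (nat_lit 5) (nat_lit 283) (nat_lit 277) (nat_lit 160))) (XT.nd (nat_lit 78) (nat_lit 0) (nat_lit 76) (XT.lf (nat_lit 76) (nat_lit 8140994509) (nat_lit 0) (nat_lit 3295767623) (nat_lit 1140) (nat_lit 18621759856) (nat_lit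 136) (nat_lit 5) (nat_lit 135) (nat_lit 5) (nat_lit 150) (nat_lit 5) (nat_lit 284) (nat_lit 277) (nat_lit 159)) (XT.nd (nat_lit 78) (nat_lit 0) (nat_lit 76) (XT.lf (nat_lit 0) (nat_lit 13784396951) (nat_lit 1064) (nat_lit 1511390902) (nat_lit 1140) (nat_lit 15580541934) (nat_lit 136) (nat_lit 5) (nat_lit 150) (nat_lit 5) (nat_lit 151) (nat_lit 5) (nat_lit 285) (nat_lit 277) (nat_lit 158)) (XT.lf (nat_lit 0) (nat_lit 16507104219) (nat_lit 1064) (nat_lit 11492852014) (nat_lit 1140) (nat_lit 3727361922) (nat_lit 137) (nat_lit 5) (nat_lit 151) (nat_lit 5) (nat_lit 152) (nat_lit 5) (nat_lit 286) (nat_lit 277) (nat_lit 157))))) (XT.nd (nat_lit 156) (nat_lit 988) (nat_lit 0) (XT.nd (nat_lit 78) (nat_lit 988) (nat_lit 0) (XT.lf (nat_lit 76) (nat_lit 10524289692) (nat_lit 0) (nat_lit 9106233460) (nat_lit 1140) (nat_lit 12982415406) (nat_lit 138) (nat_lit 5) (nat_lit 137) (nat_lit 5) (nat_lit 152)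 (nat_lit 5) (nat_lit 287) (nat_lit 277) (nat_lit 156)) (XT.lf (nat_lit 0) (nat_lit 238054935) (nat_lit 1064) (nat_lit 22890584808) (nat_lit 1140) (nat_lit 10407663391) (nat_lit 124) (nat_lit 5) (nat_lit 138) (nat_lit 5) (nat_lit 139) (nat_lit 5) (nat_lit 288) (nat_lit 277) (nat_lit 155))) (XT.nd (nat_lit 78) (nat_lit 988) (nat_lit 0) (XT.lf (nat_lit 0) (nat_lit 24043677094) (nat_lit 1064) (nat_lit 3070226999) (nat_lit 1140) (nat_lit 7382582645) (nat_lit 124) (nat_lit 5) (nat_lit 138) (nat_lit 5) (nat_lit 139) (nat_lit 5) (nat_lit 289) (nat_lit 277) (nat_lit 154)) (XT.nd (nat_lit 78) (nat_lit 456) (nat_lit 0) (XT.lf (nat_lit 0) (nat_lit 13625020893) (nat_lit 532) (nat_lit 17969071082) (nat_lit 608) (nat_lit 3901734931) (nat_lit 117) (nat_lit 5) (nat_lit 124) (nat_lit 5) (nat_lit 125) (nat_lit 5) (nat_lit 290) (nat_lit 277) (nat_lit 153)) (XT.lf (nat_lit 0) (nat_lit 2571977819) (nat_lit 456)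 (nat_lit 33909247453) (nat_lit 532) (nat_lit 58437106) (nat_lit 111) (nat_lit 5) (nat_lit 117) (nat_lit 5) (nat_lit 118) (nat_lit 5) (nat_lit 291) (nat_lit 277) (nat_lit 152)))))) (XT.nd (nat_lit 390) (nat_lit 1596) (nat_lit 0) (XT.nd (nat_lit 156) (nat_lit 912) (nat_lit 0) (XT.nd (nat_lit 78) (nat_lit 532) (nat_lit 0) (XT.lf (nat_lit 0) (nat_lit 4302689822) (nat_lit 532) (nat_lit 9162052492) (nat_lit 76) (nat_lit 24157717455) (nat_lit 110) (nat_lit 5) (nat_lit 117) (nat_lit 5) (nat_lit 111) (nat_lit 5) (nat_lit 292) (nat_lit 277) (nat_lit 151)) (XT.lf (nat_lit 0) (nat_lit 9119510198) (nat_lit 608) (nat_lit 21618949187) (nat_lit 76) (nat_lit 8013769336) (nat_lit 103) (nat_lit 5) (nat_lit 111) (nat_lit 5) (nat_lit 104) (nat_lit 5) (nat_lit 293) (nat_lit 277) (nat_lit 150))) (XT.nd (nat_lit 78) (nat_lit 456) (nat_lit 0) (XT.lf (nat_lit 0) (nat_lit 4954013077) (nat_lit 456) (nat_lit 9496929096)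 (nat_lit 532) (nat_lit 25479344564) (nat_lit 97) (nat_lit 5) (nat_lit 103) (nat_lit 5) (nat_lit 104) (nat_lit 5) (nat_lit 294) (nat_lit 277) (nat_lit 149)) (XT.nd (nat_lit 78) (nat_lit 456) (nat_lit 0) (XT.lf (nat_lit 0) (nat_lit 20391991470) (nat_lit 532) (nat_lit 7983500219) (nat_lit 76) (nat_lit 12781477674) (nat_lit 97) (nat_lit 5) (nat_lit 104) (nat_lit 5) (nat_lit 98) (nat_lit 5) (nat_lit 295) (nat_lit 277) (nat_lit 148)) (XT.lf (nat_lit 0) (nat_lit 20661459588) (nat_lit 456) (nat_lit 6258516800) (nat_lit 532) (nat_lit 15516325695) (nat_lit 91) (nat_lit 5) (nat_lit 97) (nat_lit 5) (nat_lit 98) (nat_lit 5) (nat_lit 296) (nat_lit 277) (nat_lit 147))))) (XT.nd (nat_lit 234) (nat_lit 760) (nat_lit 0) (XT.nd (nat_lit 78) (nat_lit 456) (nat_lit 0) (XT.lf (nat_lit 0) (nat_lit 7098207762) (nat_lit 380) (nat_lit 26986042321) (nat_lit 456) (nat_lit 9686066534) (nat_lit 86) (nat_lit 5) (nat_lit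 91) (nat_lit 5) (nat_lit 92) (nat_lit 5) (nat_lit 297) (nat_lit 277) (nat_lit 146)) (XT.nd (nat_lit 78) (nat_lit 456) (nat_lit 0) (XT.lf (nat_lit 0) (nat_lit 37800869901) (nat_lit 380) (nat_lit 4088324304) (nat_lit 456) (nat_lit 3273375269) (nat_lit 86) (nat_lit 5) (nat_lit 91) (nat_lit 5) (nat_lit 92) (nat_lit 5) (nat_lit 298) (nat_lit 277) (nat_lit 145)) (XT.lf (nat_lit 0) (nat_lit 3811928611) (nat_lit 456) (nat_lit 22969409458) (nat_lit 76) (nat_lit 19829524753) (nat_lit 80) (nat_lit 5) (nat_lit 86) (nat_lit 5) (nat_lit 81) (nat_lit 5) (nat_lit 299) (nat_lit 277) (nat_lit 144)))) (XT.nd (nat_lit 78) (nat_lit 380) (nat_lit 0) (XT.lf (nat_lit 0) (nat_lit 8301737416) (nat_lit 380) (nat_lit 3076344122) (nat_lit 456) (nat_lit 36746698491) (nat_lit 75) (nat_lit 5) (nat_lit 80) (nat_lit 5) (nat_lit 81) (nat_lit 5) (nat_lit 300) (nat_lit 277) (nat_lit 143)) (XT.nd (nat_lit 78) (nat_lit 380) (nat_lit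 0) (XT.lf (nat_lit 0) (nat_lit 19767216341) (nat_lit 456) (nat_lit 8307393192) (nat_lit 76) (nat_lit 21626452812) (nat_lit 75) (nat_lit 5) (nat_lit 81) (nat_lit 5) (nat_lit 76) (nat_lit 5) (nat_lit 301) (nat_lit 277) (nat_lit 142)) (XT.lf (nat_lit 0) (nat_lit 25241251682) (nat_lit 380) (nat_lit 3604616834) (nat_lit 456) (nat_lit 22502197469) (nat_lit 70) (nat_lit 5) (nat_lit 75) (nat_lit 5) (nat_lit 76) (nat_lit 5) (nat_lit 302) (nat_lit 277) (nat_lit 141))))))) (XT.nd (nat_lit 780) (nat_lit 1140) (nat_lit 0) (XT.nd (nat_lit 390) (nat_lit 912) (nat_lit 0) (XT.nd (nat_lit 156) (nat_lit 684) (nat_lit 0) (XT.nd (nat_lit 78) (nat_lit 0) (nat_lit 0) (XT.lf (nat_lit 0) (nat_lit 7494879655) (nat_lit 304) (nat_lit 31250816904) (nat_lit 380) (nat_lit 14320714544) (nat_lit 66) (nat_lit 5) (nat_lit 70) (nat_lit 5) (nat_lit 71) (nat_lit 5) (nat_lit 303) (nat_lit 277) (nat_lit 140)) (XT.lf (nat_lit 0)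 (nat_lit 43280961406) (nat_lit 304) (nat_lit 6160955626) (nat_lit 380) (nat_lit 5419722600) (nat_lit 66) (nat_lit 5) (nat_lit 70) (nat_lit 5) (nat_lit 71) (nat_lit 5) (nat_lit 304) (nat_lit 277) (nat_lit 139))) (XT.nd (nat_lit 78) (nat_lit 304) (nat_lit 0) (XT.lf (nat_lit 0) (nat_lit 4279130271) (nat_lit 380) (nat_lit 32388287320) (nat_lit 76) (nat_lit 20065204462) (nat_lit 61) (nat_lit 5) (nat_lit 66) (nat_lit 5) (nat_lit 62) (nat_lit 5) (nat_lit 305) (nat_lit 277) (nat_lit 138)) (XT.nd (nat_lit 78) (nat_lit 0) (nat_lit 0) (XT.lf (nat_lit 0) (nat_lit 3561453609) (nat_lit 304) (nat_lit 11004097751) (nat_lit 380) (nat_lit 44123558212) (nat_lit 57) (nat_lit 5) (nat_lit 61) (nat_lit 5) (nat_lit 62) (nat_lit 5) (nat_lit 306) (nat_lit 277) (nat_lit 137)) (XT.lf (nat_lit 0) (nat_lit 25853215085) (nat_lit 380) (nat_lit 18908441073) (nat_lit 76) (nat_lit 15967164527) (nat_lit 57) (nat_lit 5) (nat_lit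 62) (nat_lit 5) (nat_lit 58) (nat_lit 5) (nat_lit 307) (nat_lit 277) (nat_lit 136))))) (XT.nd (nat_lit 156) (nat_lit 608) (nat_lit 0) (XT.nd (nat_lit 78) (nat_lit 0) (nat_lit 0) (XT.lf (nat_lit 0) (nat_lit 19385156684) (nat_lit 304) (nat_lit 18614622586) (nat_lit 380) (nat_lit 24861909105) (nat_lit 53) (nat_lit 5) (nat_lit 57) (nat_lit 5) (nat_lit 58) (nat_lit 5) (nat_lit 308) (nat_lit 277) (nat_lit 135)) (XT.lf (nat_lit 0) (nat_lit 51032419867) (nat_lit 380) (nat_lit 5197453297) (nat_lit 76) (nat_lit 8862970064) (nat_lit 53) (nat_lit 5) (nat_lit 58) (nat_lit 5) (nat_lit 54) (nat_lit 5) (nat_lit 309) (nat_lit 277) (nat_lit 134))) (XT.nd (nat_lit 78) (nat_lit 380) (nat_lit 0) (XT.lf (nat_lit 0) (nat_lit 35496788300) (nat_lit 228) (nat_lit 29746338263) (nat_lit 304) (nat_lit 2176642170) (nat_lit 50) (nat_lit 5) (nat_lit 53) (nat_lit 5) (nat_lit 54) (nat_lit 5) (nat_lit 310) (nat_lit 277) (nat_lit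 133)) (XT.nd (nat_lit 78) (nat_lit 0) (nat_lit 0) (XT.lf (nat_lit 0) (nat_lit 8536408018) (nat_lit 304) (nat_lit 1697391959) (nat_lit 380) (nat_lit 59622270704) (nat_lit 45) (nat_lit 5) (nat_lit 49) (nat_lit 5) (nat_lit 50) (nat_lit 5) (nat_lit 311) (nat_lit 277) (nat_lit 132)) (XT.lf (nat_lit 0) (nat_lit 23816307279) (nat_lit 380) (nat_lit 21013982444) (nat_lit 76) (nat_lit 27565359917) (nat_lit 45) (nat_lit 5) (nat_lit 50) (nat_lit 5) (nat_lit 46) (nat_lit 5) (nat_lit 312) (nat_lit 277) (nat_lit 131)))))) (XT.nd (nat_lit 390) (nat_lit 380) (nat_lit 0) (XT.nd (nat_lit 156) (nat_lit 532) (nat_lit 0) (XT.nd (nat_lit 78) (nat_lit 0) (nat_lit 0) (XT.lf (nat_lit 0) (nat_lit 21710155687) (nat_lit 228) (nat_lit 16591207621) (nat_lit 304) (nat_lit 36754146512) (nat_lit 42) (nat_lit 5) (nat_lit 45) (nat_lit 5) (nat_lit 46) (nat_lit 5) (nat_lit 313) (nat_lit 277) (nat_lit 130)) (XT.lf (nat_lit 0)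 (nat_lit 53852347514) (nat_lit 304) (nat_lit 10963230035) (nat_lit 76) (nat_lit 13022539935) (nat_lit 42) (nat_lit 5) (nat_lit 46) (nat_lit 5) (nat_lit 43) (nat_lit 5) (nat_lit 314) (nat_lit 277) (nat_lit 129))) (XT.nd (nat_lit 78) (nat_lit 304) (nat_lit 0) (XT.lf (nat_lit 0) (nat_lit 34031468241) (nat_lit 228) (nat_lit 36641787936) (nat_lit 304) (nat_lit 10071832608) (nat_lit 39) (nat_lit 5) (nat_lit 42) (nat_lit 5) (nat_lit 43) (nat_lit 5) (nat_lit 315) (nat_lit 277) (nat_lit 128)) (XT.nd (nat_lit 78) (nat_lit 228) (nat_lit 0) (XT.lf (nat_lit 0) (nat_lit 4561062501) (nat_lit 304) (nat_lit 2336866212) (nat_lit 76) (nat_lit 76894821215) (nat_lit 38) (nat_lit 5) (nat_lit 42) (nat_lit 5) (nat_lit 39) (nat_lit 5) (nat_lit 316) (nat_lit 277) (nat_lit 127)) (XT.lf (nat_lit 0) (nat_lit 20389248535) (nat_lit 304) (nat_lit 42183149204) (nat_lit 76) (nat_lit 24397250314) (nat_lit 35) (nat_lit 5)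 (nat_lit 39) (nat_lit 5) (nat_lit 36) (nat_lit 5) (nat_lit 317) (nat_lit 277) (nat_lit 126))))) (XT.nd (nat_lit 234) (nat_lit 0) (nat_lit 0) (XT.nd (nat_lit 78) (nat_lit 152) (nat_lit 0) (XT.lf (nat_lit 0) (nat_lit 4015769136) (nat_lit 228) (nat_lit 33123594063) (nat_lit 304) (nat_lit 53162116089) (nat_lit 32) (nat_lit 5) (nat_lit 35) (nat_lit 5) (nat_lit 36) (nat_lit 5) (nat_lit 318) (nat_lit 277) (nat_lit 125)) (XT.nd (nat_lit 78) (nat_lit 152) (nat_lit 0) (XT.lf (nat_lit 0) (nat_lit 53403292367) (nat_lit 228) (nat_lit 1755998070) (nat_lit 304) (nat_lit 38627646047) (nat_lit 32) (nat_lit 5) (nat_lit 35) (nat_lit 5) (nat_lit 36) (nat_lit 5) (nat_lit 319) (nat_lit 277) (nat_lit 124)) (XT.lf (nat_lit 0) (nat_lit 7660529148) (nat_lit 152) (nat_lit 66791195753) (nat_lit 228) (nat_lit 22983799744) (nat_lit 30) (nat_lit 5) (nat_lit 32) (nat_lit 5) (nat_lit 33) (nat_lit 5) (nat_lit 320) (nat_lit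 277) (nat_lit 123)))) (XT.nd (nat_lit 34164) (nat_lit 0) (nat_lit 7676) (XT.lf (nat_lit 0) (nat_lit 58930053548) (nat_lit 152) (nat_lit 36210205855) (nat_lit 228) (nat_lit 6113341731) (nat_lit 30) (nat_lit 5) (nat_lit 32) (nat_lit 5) (nat_lit 33) (nat_lit 5) (nat_lit 321) (nat_lit 277) (nat_lit 122)) (XT.nd (nat_lit 78) (nat_lit 0) (nat_lit 76) (XT.lf (nat_lit 0) (nat_lit 2025488934) (nat_lit 1140) (nat_lit 5588065481) (nat_lit 1140) (nat_lit 5588065481) (nat_lit 131) (nat_lit 3) (nat_lit 146) (nat_lit 3) (nat_lit 146) (nat_lit 5) (nat_lit 278) (nat_lit 278) (nat_lit 164)) (XT.lf (nat_lit 0) (nat_lit 4372070779) (nat_lit 1064) (nat_lit 20627510206) (nat_lit 1140) (nat_lit 2056728544) (nat_lit 132) (nat_lit 5) (nat_lit 146) (nat_lit 5) (nat_lit 147) (nat_lit 5) (nat_lit 279) (nat_lit 278) (nat_lit 163))))))))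
noncomputable def xc112 : XT := (XT.nd (nat_lit 1560) (nat_lit 4104) (nat_lit 0) (XT.nd (nat_lit 780) (nat_lit 2888) (nat_lit 0) (XT.nd (nat_lit 390) (nat_lit 608) (nat_lit 0) (XT.nd (nat_lit 156) (nat_lit 0) (nat_lit 152) (XT.nd (nat_lit 78) (nat_lit 0) (nat_lit 76) (XT.lf (nat_lit 0) (nat_lit 4970280841) (nat_lit 1064) (nat_lit 2750861767) (nat_lit 1140) (nat_lit 20013084942) (nat_lit 132) (nat_lit 5) (nat_lit 146) (nat_lit 5) (nat_lit 147) (nat_lit 5) (nat_lit 280) (nat_lit 278) (nat_lit 162)) (XT.lf (nat_lit 0) (nat_lit 5848778780) (nat_lit 1064) (nat_lit 12209764663) (nat_lit 1140) (nat_lit 10380012113) (nat_lit 133) (nat_lit 5) (nat_lit 147) (nat_lit 5) (nat_lit 148) (nat_lit 5) (nat_lit 281) (nat_lit 278) (nat_lit 161))) (XT.nd (nat_lit 78) (nat_lit 0) (nat_lit 0) (XT.lf (nat_lit 0) (nat_lit 6939395885) (nat_lit 1064) (nat_lit 22081656025) (nat_lit 1140) (nat_lit 152026417) (nat_lit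 134) (nat_lit 5) (nat_lit 148) (nat_lit 5) (nat_lit 149) (nat_lit 5) (nat_lit 282) (nat_lit 278) (nat_lit 160)) (XT.nd (nat_lit 78) (nat_lit 0) (nat_lit 76) (XT.lf (nat_lit 0) (nat_lit 8386102374) (nat_lit 1064) (nat_lit 2516294817) (nat_lit 1140) (nat_lit 19032906333) (nat_lit 134) (nat_lit 5) (nat_lit 148) (nat_lit 5) (nat_lit 149) (nat_lit 5) (nat_lit 283) (nat_lit 278) (nat_lit 159)) (XT.lf (nat_lit 0) (nat_lit 10154404472) (nat_lit 1064) (nat_lit 12429211355) (nat_lit 1140) (nat_lit 8144568290) (nat_lit 135) (nat_lit 5) (nat_lit 149) (nat_lit 5) (nat_lit 150) (nat_lit 5) (nat_lit 284) (nat_lit 278) (nat_lit 158))))) (XT.nd (nat_lit 156) (nat_lit 836) (nat_lit 0) (XT.nd (nat_lit 78) (nat_lit 0) (nat_lit 76) (XT.lf (nat_lit 76) (nat_lit 8702254427) (nat_lit 0) (nat_lit 3521762832) (nat_lit 1140) (nat_lit 19330325513) (nat_lit 136) (nat_lit 5) (nat_lit 135) (nat_lit 5) (nat_lit 150) (nat_lit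 5) (nat_lit 285) (nat_lit 278) (nat_lit 157)) (XT.lf (nat_lit 0) (nat_lit 14678215525) (nat_lit 1064) (nat_lit 1432766290) (nat_lit 1140) (nat_lit 16302414305) (nat_lit 136) (nat_lit 5) (nat_lit 150) (nat_lit 5) (nat_lit 151) (nat_lit 5) (nat_lit 286) (nat_lit 278) (nat_lit 156))) (XT.nd (nat_lit 78) (nat_lit 988) (nat_lit 0) (XT.lf (nat_lit 0) (nat_lit 17528307889) (nat_lit 1064) (nat_lit 11910801297) (nat_lit 1140) (nat_lit 3868116380) (nat_lit 137) (nat_lit 5) (nat_lit 151) (nat_lit 5) (nat_lit 152) (nat_lit 5) (nat_lit 287) (nat_lit 278) (nat_lit 155)) (XT.nd (nat_lit 78) (nat_lit 988) (nat_lit 0) (XT.lf (nat_lit 76) (nat_lit 11202705911) (nat_lit 0) (nat_lit 9597328795) (nat_lit 1140) (nat_lit 13437355937) (nat_lit 138) (nat_lit 5) (nat_lit 137) (nat_lit 5) (nat_lit 152) (nat_lit 5) (nat_lit 288) (nat_lit 278) (nat_lit 154)) (XT.lf (nat_lit 0) (nat_lit 404147967) (nat_lit 1064) (nat_lit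 24061112052) (nat_lit 1140) (nat_lit 10741923786) (nat_lit 124) (nat_lit 5) (nat_lit 138) (nat_lit 5) (nat_lit 139) (nat_lit 5) (nat_lit 289) (nat_lit 278) (nat_lit 153)))))) (XT.nd (nat_lit 390) (nat_lit 1292) (nat_lit 0) (XT.nd (nat_lit 156) (nat_lit 1064) (nat_lit 0) (XT.nd (nat_lit 78) (nat_lit 532) (nat_lit 0) (XT.lf (nat_lit 0) (nat_lit 25392708839) (nat_lit 1064) (nat_lit 3248498353) (nat_lit 1140) (nat_lit 7574451992) (nat_lit 124) (nat_lit 5) (nat_lit 138) (nat_lit 5) (nat_lit 139) (nat_lit 5) (nat_lit 290) (nat_lit 278) (nat_lit 152)) (XT.lf (nat_lit 0) (nat_lit 14454631530) (nat_lit 532) (nat_lit 18883800583) (nat_lit 608) (nat_lit 3926767403) (nat_lit 117) (nat_lit 5) (nat_lit 124) (nat_lit 5) (nat_lit 125) (nat_lit 5) (nat_lit 291) (nat_lit 278) (nat_lit 151))) (XT.nd (nat_lit 78) (nat_lit 532) (nat_lit 0) (XT.lf (nat_lit 0) (nat_lit 99935522) (nat_lit 532) (nat_lit 35512326923)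 (nat_lit 76) (nat_lit 2749154309) (nat_lit 110) (nat_lit 5) (nat_lit 117) (nat_lit 5) (nat_lit 111) (nat_lit 5) (nat_lit 292) (nat_lit 278) (nat_lit 150)) (XT.nd (nat_lit 78) (nat_lit 532) (nat_lit 0) (XT.lf (nat_lit 0) (nat_lit 4670297789) (nat_lit 532) (nat_lit 9474296027) (nat_lit 76) (nat_lit 25353992334) (nat_lit 110) (nat_lit 5) (nat_lit 117) (nat_lit 5) (nat_lit 111) (nat_lit 5) (nat_lit 293) (nat_lit 278) (nat_lit 149)) (XT.lf (nat_lit 0) (nat_lit 9722013369) (nat_lit 608) (nat_lit 22553371977) (nat_lit 76) (nat_lit 8409656693) (nat_lit 103) (nat_lit 5) (nat_lit 111) (nat_lit 5) (nat_lit 104) (nat_lit 5) (nat_lit 294) (nat_lit 278) (nat_lit 148))))) (XT.nd (nat_lit 156) (nat_lit 836) (nat_lit 0) (XT.nd (nat_lit 78) (nat_lit 0) (nat_lit 0) (XT.lf (nat_lit 0) (nat_lit 5344038300) (nat_lit 456) (nat_lit 9970369246) (nat_lit 532) (nat_lit 26607782848) (nat_lit 97) (nat_lit 5) (nat_lit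 103) (nat_lit 5) (nat_lit 104) (nat_lit 5) (nat_lit 295) (nat_lit 278) (nat_lit 147)) (XT.lf (nat_lit 0) (nat_lit 21545811789) (nat_lit 532) (nat_lit 8242749772) (nat_lit 76) (nat_lit 13421864761) (nat_lit 97) (nat_lit 5) (nat_lit 104) (nat_lit 5) (nat_lit 98) (nat_lit 5) (nat_lit 296) (nat_lit 278) (nat_lit 146))) (XT.nd (nat_lit 78) (nat_lit 380) (nat_lit 0) (XT.lf (nat_lit 0) (nat_lit 21830447091) (nat_lit 456) (nat_lit 6564663891) (nat_lit 532) (nat_lit 16158784620) (nat_lit 91) (nat_lit 5) (nat_lit 97) (nat_lit 5) (nat_lit 98) (nat_lit 5) (nat_lit 297) (nat_lit 278) (nat_lit 145)) (XT.nd (nat_lit 78) (nat_lit 0) (nat_lit 0) (XT.lf (nat_lit 0) (nat_lit 7589173992) (nat_lit 380) (nat_lit 28323644958) (nat_lit 456) (nat_lit 10041951843) (nat_lit 86) (nat_lit 5) (nat_lit 91) (nat_lit 5) (nat_lit 92) (nat_lit 5) (nat_lit 298) (nat_lit 278) (nat_lit 144)) (XT.lf (nat_lit 0) (nat_lit 39820490388)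 (nat_lit 380) (nat_lit 4281598158) (nat_lit 456) (nat_lit 3314741158) (nat_lit 86) (nat_lit 5) (nat_lit 91) (nat_lit 5) (nat_lit 92) (nat_lit 5) (nat_lit 299) (nat_lit 278) (nat_lit 143))))))) (XT.nd (nat_lit 780) (nat_lit 1596) (nat_lit 0) (XT.nd (nat_lit 390) (nat_lit 988) (nat_lit 0) (XT.nd (nat_lit 156) (nat_lit 684) (nat_lit 0) (XT.nd (nat_lit 78) (nat_lit 380) (nat_lit 0) (XT.lf (nat_lit 0) (nat_lit 4118091376) (nat_lit 456) (nat_lit 23985772466) (nat_lit 76) (nat_lit 20833783680) (nat_lit 80) (nat_lit 5) (nat_lit 86) (nat_lit 5) (nat_lit 81) (nat_lit 5) (nat_lit 300) (nat_lit 278) (nat_lit 142)) (XT.lf (nat_lit 0) (nat_lit 8845144917) (nat_lit 380) (nat_lit 3213137370) (nat_lit 456) (nat_lit 38469120271) (nat_lit 75) (nat_lit 5) (nat_lit 80) (nat_lit 5) (nat_lit 81) (nat_lit 5) (nat_lit 301) (nat_lit 278) (nat_lit 141))) (XT.nd (nat_lit 78) (nat_lit 684) (nat_lit 0) (XT.lf (nat_lit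 0) (nat_lit 20861729841) (nat_lit 456) (nat_lit 8597264320) (nat_lit 76) (nat_lit 22723672367) (nat_lit 75) (nat_lit 5) (nat_lit 81) (nat_lit 5) (nat_lit 76) (nat_lit 5) (nat_lit 302) (nat_lit 278) (nat_lit 140)) (XT.nd (nat_lit 78) (nat_lit 304) (nat_lit 0) (XT.lf (nat_lit 0) (nat_lit 26625215408) (nat_lit 380) (nat_lit 3765216116) (nat_lit 456) (nat_lit 23521717907) (nat_lit 70) (nat_lit 5) (nat_lit 75) (nat_lit 5) (nat_lit 76) (nat_lit 5) (nat_lit 303) (nat_lit 278) (nat_lit 139)) (XT.lf (nat_lit 0) (nat_lit 7991071897) (nat_lit 304) (nat_lit 32790656250) (nat_lit 380) (nat_lit 14934801330) (nat_lit 66) (nat_lit 5) (nat_lit 70) (nat_lit 5) (nat_lit 71) (nat_lit 5) (nat_lit 304) (nat_lit 278) (nat_lit 138))))) (XT.nd (nat_lit 156) (nat_lit 608) (nat_lit 0) (XT.nd (nat_lit 78) (nat_lit 380) (nat_lit 0) (XT.lf (nat_lit 0) (nat_lit 45560674485) (nat_lit 304) (nat_lit 6447382933) (nat_lit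 380) (nat_lit 5593614501) (nat_lit 66) (nat_lit 5) (nat_lit 70) (nat_lit 5) (nat_lit 71) (nat_lit 5) (nat_lit 305) (nat_lit 278) (nat_lit 137)) (XT.lf (nat_lit 0) (nat_lit 4585070398) (nat_lit 380) (nat_lit 33890549982) (nat_lit 76) (nat_lit 21090662117) (nat_lit 61) (nat_lit 5) (nat_lit 66) (nat_lit 5) (nat_lit 62) (nat_lit 5) (nat_lit 306) (nat_lit 278) (nat_lit 136))) (XT.nd (nat_lit 78) (nat_lit 304) (nat_lit 0) (XT.lf (nat_lit 0) (nat_lit 3853319863) (nat_lit 304) (nat_lit 11529206359) (nat_lit 380) (nat_lit 46238176814) (nat_lit 57) (nat_lit 5) (nat_lit 61) (nat_lit 5) (nat_lit 62) (nat_lit 5) (nat_lit 307) (nat_lit 278) (nat_lit 135)) (XT.nd (nat_lit 78) (nat_lit 304) (nat_lit 0) (XT.lf (nat_lit 0) (nat_lit 27230579207) (nat_lit 380) (nat_lit 19742992319) (nat_lit 76) (nat_lit 16788957573) (nat_lit 57) (nat_lit 5) (nat_lit 62) (nat_lit 5) (nat_lit 58) (nat_lit 5) (nat_lit 308) (nat_lit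 278) (nat_lit 134)) (XT.lf (nat_lit 0) (nat_lit 20462107236) (nat_lit 304) (nat_lit 19519366078) (nat_lit 380) (nat_lit 26020665926) (nat_lit 53) (nat_lit 5) (nat_lit 57) (nat_lit 5) (nat_lit 58) (nat_lit 5) (nat_lit 309) (nat_lit 278) (nat_lit 133)))))) (XT.nd (nat_lit 390) (nat_lit 760) (nat_lit 0) (XT.nd (nat_lit 156) (nat_lit 608) (nat_lit 0) (XT.nd (nat_lit 78) (nat_lit 228) (nat_lit 0) (XT.lf (nat_lit 0) (nat_lit 53662093137) (nat_lit 380) (nat_lit 5352491237) (nat_lit 76) (nat_lit 9330385733) (nat_lit 53) (nat_lit 5) (nat_lit 58) (nat_lit 5) (nat_lit 54) (nat_lit 5) (nat_lit 310) (nat_lit 278) (nat_lit 132)) (XT.lf (nat_lit 0) (nat_lit 37373457374) (nat_lit 228) (nat_lit 31207139869) (nat_lit 304) (nat_lit 2207735055) (nat_lit 50) (nat_lit 5) (nat_lit 53) (nat_lit 5) (nat_lit 54) (nat_lit 5) (nat_lit 311) (nat_lit 278) (nat_lit 131))) (XT.nd (nat_lit 78) (nat_lit 228) (nat_lit 0)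 (XT.lf (nat_lit 0) (nat_lit 9063768658) (nat_lit 304) (nat_lit 1755280391) (nat_lit 380) (nat_lit 62527465418) (nat_lit 45) (nat_lit 5) (nat_lit 49) (nat_lit 5) (nat_lit 50) (nat_lit 5) (nat_lit 312) (nat_lit 278) (nat_lit 130)) (XT.nd (nat_lit 78) (nat_lit 228) (nat_lit 0) (XT.lf (nat_lit 0) (nat_lit 25077425913) (nat_lit 380) (nat_lit 21966928588) (nat_lit 76) (nat_lit 28968822832) (nat_lit 45) (nat_lit 5) (nat_lit 50) (nat_lit 5) (nat_lit 46) (nat_lit 5) (nat_lit 313) (nat_lit 278) (nat_lit 129)) (XT.lf (nat_lit 0) (nat_lit 22890614379) (nat_lit 228) (nat_lit 17393685315) (nat_lit 304) (nat_lit 38521810817) (nat_lit 42) (nat_lit 5) (nat_lit 45) (nat_lit 5) (nat_lit 46) (nat_lit 5) (nat_lit 314) (nat_lit 278) (nat_lit 128))))) (XT.nd (nat_lit 234) (nat_lit 456) (nat_lit 0) (XT.nd (nat_lit 78) (nat_lit 304) (nat_lit 0) (XT.lf (nat_lit 0) (nat_lit 56609849230) (nat_lit 304) (nat_lit 11419138801)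 (nat_lit 76) (nat_lit 13698956652) (nat_lit 42) (nat_lit 5) (nat_lit 46) (nat_lit 5) (nat_lit 43) (nat_lit 5) (nat_lit 315) (nat_lit 278) (nat_lit 127)) (XT.nd (nat_lit 78) (nat_lit 76) (nat_lit 0) (XT.lf (nat_lit 0) (nat_lit 35822649982) (nat_lit 228) (nat_lit 38446924984) (nat_lit 304) (nat_lit 10510762727) (nat_lit 39) (nat_lit 5) (nat_lit 42) (nat_lit 5) (nat_lit 43) (nat_lit 5) (nat_lit 316) (nat_lit 278) (nat_lit 126)) (XT.lf (nat_lit 0) (nat_lit 4849496323) (nat_lit 304) (nat_lit 2367050194) (nat_lit 76) (nat_lit 80763913118) (nat_lit 38) (nat_lit 5) (nat_lit 42) (nat_lit 5) (nat_lit 39) (nat_lit 5) (nat_lit 317) (nat_lit 278) (nat_lit 125)))) (XT.nd (nat_lit 78) (nat_lit 228) (nat_lit 0) (XT.lf (nat_lit 0) (nat_lit 21467274121) (nat_lit 304) (nat_lit 44206519732) (nat_lit 76) (nat_lit 25642468881) (nat_lit 35) (nat_lit 5) (nat_lit 39) (nat_lit 5) (nat_lit 36) (nat_lit 5) (nat_lit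 318) (nat_lit 278) (nat_lit 124)) (XT.nd (nat_lit 78) (nat_lit 0) (nat_lit 0) (XT.lf (nat_lit 0) (nat_lit 4299885460) (nat_lit 228) (nat_lit 34753021335) (nat_lit 304) (nat_lit 55761843645) (nat_lit 32) (nat_lit 5) (nat_lit 35) (nat_lit 5) (nat_lit 36) (nat_lit 5) (nat_lit 319) (nat_lit 278) (nat_lit 123)) (XT.lf (nat_lit 0) (nat_lit 56152816859) (nat_lit 228) (nat_lit 1818319468) (nat_lit 304) (nat_lit 40503430017) (nat_lit 32) (nat_lit 5) (nat_lit 35) (nat_lit 5) (nat_lit 36) (nat_lit 5) (nat_lit 320) (nat_lit 278) (nat_lit 122))))))))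
noncomputable def xc113 : XT := (XT.nd (nat_lit 35724) (nat_lit 0) (nat_lit 608) (XT.nd (nat_lit 34944) (nat_lit 0) (nat_lit 5092) (XT.nd (nat_lit 34554) (nat_lit 0) (nat_lit 7904) (XT.nd (nat_lit 34320) (nat_lit 0) (nat_lit 7752) (XT.nd (nat_lit 34242) (nat_lit 0) (nat_lit 7676) (XT.lf (nat_lit 0) (nat_lit 8122070497) (nat_lit 152) (nat_lit 70104544223) (nat_lit 228) (nat_lit 24079021314) (nat_lit 30) (nat_lit 5) (nat_lit 32) (nat_lit 5) (nat_lit 33) (nat_lit 5) (nat_lit 321) (nat_lit 278) (nat_lit 121)) (XT.lf (nat_lit 0) (nat_lit 2262271428) (nat_lit 1140) (nat_lit 5797477011) (nat_lit 1140) (nat_lit 5797477011) (nat_lit 131) (nat_lit 3) (nat_lit 146) (nat_lit 3) (nat_lit 146) (nat_lit 5) (nat_lit 279) (nat_lit 279) (nat_lit 162))) (XT.nd (nat_lit 78) (nat_lit 0) (nat_lit 0) (XT.lf (nat_lit 0) (nat_lit 4848905276) (nat_lit 1064) (nat_lit 21513164319) (nat_lit 1140) (nat_lit 2038527149)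 (nat_lit 132) (nat_lit 5) (nat_lit 146) (nat_lit 5) (nat_lit 147) (nat_lit 5) (nat_lit 280) (nat_lit 279) (nat_lit 161)) (XT.nd (nat_lit 78) (nat_lit 0) (nat_lit 76) (XT.lf (nat_lit 0) (nat_lit 5464729129) (nat_lit 1064) (nat_lit 2749622572) (nat_lit 1140) (nat_lit 20898465073) (nat_lit 132) (nat_lit 5) (nat_lit 146) (nat_lit 5) (nat_lit 147) (nat_lit 5) (nat_lit 281) (nat_lit 279) (nat_lit 160)) (XT.lf (nat_lit 0) (nat_lit 6375768497) (nat_lit 1064) (nat_lit 12676706387) (nat_lit 1140) (nat_lit 10800263234) (nat_lit 133) (nat_lit 5) (nat_lit 147) (nat_lit 5) (nat_lit 148) (nat_lit 5) (nat_lit 282) (nat_lit 279) (nat_lit 159))))) (XT.nd (nat_lit 156) (nat_lit 0) (nat_lit 76) (XT.nd (nat_lit 78) (nat_lit 0) (nat_lit 0) (XT.lf (nat_lit 0) (nat_lit 7510267814) (nat_lit 1064) (nat_lit 23038070582) (nat_lit 1140) (nat_lit 76001838) (nat_lit 134) (nat_lit 5) (nat_lit 148) (nat_lit 5) (nat_lit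 149) (nat_lit 5) (nat_lit 283) (nat_lit 279) (nat_lit 158)) (XT.lf (nat_lit 0) (nat_lit 9018647621) (nat_lit 1064) (nat_lit 2501473135) (nat_lit 1140) (nat_lit 19904907935) (nat_lit 134) (nat_lit 5) (nat_lit 148) (nat_lit 5) (nat_lit 149) (nat_lit 5) (nat_lit 284) (nat_lit 279) (nat_lit 157))) (XT.nd (nat_lit 78) (nat_lit 0) (nat_lit 0) (XT.lf (nat_lit 0) (nat_lit 10865871988) (nat_lit 1064) (nat_lit 12906670974) (nat_lit 1140) (nat_lit 8485325746) (nat_lit 135) (nat_lit 5) (nat_lit 149) (nat_lit 5) (nat_lit 150) (nat_lit 5) (nat_lit 285) (nat_lit 279) (nat_lit 156)) (XT.nd (nat_lit 78) (nat_lit 0) (nat_lit 76) (XT.lf (nat_lit 76) (nat_lit 9277240338) (nat_lit 0) (nat_lit 3753367371) (nat_lit 1140) (nat_lit 20095007471) (nat_lit 136) (nat_lit 5) (nat_lit 135) (nat_lit 5) (nat_lit 150) (nat_lit 5) (nat_lit 286) (nat_lit 279) (nat_lit 155)) (XT.lf (nat_lit 0) (nat_lit 15597703377) (nat_lit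 1064) (nat_lit 1364545958) (nat_lit 1140) (nat_lit 17065693999) (nat_lit 136) (nat_lit 5) (nat_lit 150) (nat_lit 5) (nat_lit 151) (nat_lit 5) (nat_lit 287) (nat_lit 279) (nat_lit 154)))))) (XT.nd (nat_lit 390) (nat_lit 1520) (nat_lit 0) (XT.nd (nat_lit 156) (nat_lit 1520) (nat_lit 0) (XT.nd (nat_lit 78) (nat_lit 0) (nat_lit 0) (XT.lf (nat_lit 0) (nat_lit 18582363608) (nat_lit 1064) (nat_lit 12364215904) (nat_lit 1140) (nat_lit 4020149285) (nat_lit 137) (nat_lit 5) (nat_lit 151) (nat_lit 5) (nat_lit 152) (nat_lit 5) (nat_lit 288) (nat_lit 279) (nat_lit 153)) (XT.lf (nat_lit 76) (nat_lit 11900892668) (nat_lit 0) (nat_lit 10109652072) (nat_lit 1140) (nat_lit 13933096533) (nat_lit 138) (nat_lit 5) (nat_lit 137) (nat_lit 5) (nat_lit 152) (nat_lit 5) (nat_lit 289) (nat_lit 279) (nat_lit 152))) (XT.nd (nat_lit 78) (nat_lit 532) (nat_lit 0) (XT.lf (nat_lit 0) (nat_lit 564210499) (nat_lit 1064) (nat_lit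 25287748611) (nat_lit 1140) (nat_lit 11110201133) (nat_lit 124) (nat_lit 5) (nat_lit 138) (nat_lit 5) (nat_lit 139) (nat_lit 5) (nat_lit 290) (nat_lit 279) (nat_lit 151)) (XT.nd (nat_lit 78) (nat_lit 532) (nat_lit 0) (XT.lf (nat_lit 0) (nat_lit 26795539646) (nat_lit 1064) (nat_lit 3433381324) (nat_lit 1140) (nat_lit 7792394741) (nat_lit 124) (nat_lit 5) (nat_lit 138) (nat_lit 5) (nat_lit 139) (nat_lit 5) (nat_lit 291) (nat_lit 279) (nat_lit 150)) (XT.lf (nat_lit 0) (nat_lit 15311929629) (nat_lit 532) (nat_lit 19842753375) (nat_lit 608) (nat_lit 3968861532) (nat_lit 117) (nat_lit 5) (nat_lit 124) (nat_lit 5) (nat_lit 125) (nat_lit 5) (nat_lit 292) (nat_lit 279) (nat_lit 149))))) (XT.nd (nat_lit 156) (nat_lit 988) (nat_lit 0) (XT.nd (nat_lit 78) (nat_lit 0) (nat_lit 0) (XT.lf (nat_lit 0) (nat_lit 250145132) (nat_lit 532) (nat_lit 37149029850) (nat_lit 76) (nat_lit 2875553935) (nat_lit 110)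 (nat_lit 5) (nat_lit 117) (nat_lit 5) (nat_lit 111) (nat_lit 5) (nat_lit 293) (nat_lit 279) (nat_lit 148)) (XT.lf (nat_lit 0) (nat_lit 5042110615) (nat_lit 532) (nat_lit 9815712334) (nat_lit 76) (nat_lit 26611160437) (nat_lit 110) (nat_lit 5) (nat_lit 117) (nat_lit 5) (nat_lit 111) (nat_lit 5) (nat_lit 294) (nat_lit 279) (nat_lit 147))) (XT.nd (nat_lit 78) (nat_lit 456) (nat_lit 0) (XT.lf (nat_lit 0) (nat_lit 10341018945) (nat_lit 608) (nat_lit 23548138381) (nat_lit 76) (nat_lit 8825784778) (nat_lit 103) (nat_lit 5) (nat_lit 111) (nat_lit 5) (nat_lit 104) (nat_lit 5) (nat_lit 295) (nat_lit 279) (nat_lit 146)) (XT.nd (nat_lit 78) (nat_lit 0) (nat_lit 0) (XT.lf (nat_lit 0) (nat_lit 5740332794) (nat_lit 456) (nat_lit 10467612148) (nat_lit 532) (nat_lit 27806172948) (nat_lit 97) (nat_lit 5) (nat_lit 103) (nat_lit 5) (nat_lit 104) (nat_lit 5) (nat_lit 296) (nat_lit 279) (nat_lit 145)) (XT.lf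 (nat_lit 0) (nat_lit 22744844550) (nat_lit 532) (nat_lit 8527970745) (nat_lit 76) (nat_lit 14094149112) (nat_lit 97) (nat_lit 5) (nat_lit 104) (nat_lit 5) (nat_lit 98) (nat_lit 5) (nat_lit 297) (nat_lit 279) (nat_lit 144))))))) (XT.nd (nat_lit 780) (nat_lit 1748) (nat_lit 0) (XT.nd (nat_lit 390) (nat_lit 1064) (nat_lit 0) (XT.nd (nat_lit 156) (nat_lit 836) (nat_lit 0) (XT.nd (nat_lit 78) (nat_lit 380) (nat_lit 0) (XT.lf (nat_lit 0) (nat_lit 23045247924) (nat_lit 456) (nat_lit 6886748561) (nat_lit 532) (nat_lit 16845764794) (nat_lit 91) (nat_lit 5) (nat_lit 97) (nat_lit 5) (nat_lit 98) (nat_lit 5) (nat_lit 298) (nat_lit 279) (nat_lit 143)) (XT.lf (nat_lit 0) (nat_lit 8092039350) (nat_lit 380) (nat_lit 29729215433) (nat_lit 456) (nat_lit 10427570508) (nat_lit 86) (nat_lit 5) (nat_lit 91) (nat_lit 5) (nat_lit 92) (nat_lit 5) (nat_lit 299) (nat_lit 279) (nat_lit 142))) (XT.nd (nat_lit 78) (nat_lit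 836) (nat_lit 0) (XT.lf (nat_lit 0) (nat_lit 41929045059) (nat_lit 380) (nat_lit 4485571615) (nat_lit 456) (nat_lit 3369545904) (nat_lit 86) (nat_lit 5) (nat_lit 91) (nat_lit 5) (nat_lit 92) (nat_lit 5) (nat_lit 300) (nat_lit 279) (nat_lit 141)) (XT.nd (nat_lit 78) (nat_lit 380) (nat_lit 0) (XT.lf (nat_lit 0) (nat_lit 4428818017) (nat_lit 456) (nat_lit 25065235725) (nat_lit 76) (nat_lit 21887067140) (nat_lit 80) (nat_lit 5) (nat_lit 86) (nat_lit 5) (nat_lit 81) (nat_lit 5) (nat_lit 301) (nat_lit 279) (nat_lit 140)) (XT.lf (nat_lit 0) (nat_lit 9403792758) (nat_lit 380) (nat_lit 3358353006) (nat_lit 456) (nat_lit 40288346675) (nat_lit 75) (nat_lit 5) (nat_lit 80) (nat_lit 5) (nat_lit 81) (nat_lit 5) (nat_lit 302) (nat_lit 279) (nat_lit 139))))) (XT.nd (nat_lit 156) (nat_lit 684) (nat_lit 0) (XT.nd (nat_lit 78) (nat_lit 380) (nat_lit 0) (XT.lf (nat_lit 0) (nat_lit 22001099946) (nat_lit 456)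 (nat_lit 8913296668) (nat_lit 76) (nat_lit 23874274955) (nat_lit 75) (nat_lit 5) (nat_lit 81) (nat_lit 5) (nat_lit 76) (nat_lit 5) (nat_lit 303) (nat_lit 279) (nat_lit 138)) (XT.lf (nat_lit 0) (nat_lit 28067044107) (nat_lit 380) (nat_lit 3935670518) (nat_lit 456) (nat_lit 24602031072) (nat_lit 70) (nat_lit 5) (nat_lit 75) (nat_lit 5) (nat_lit 76) (nat_lit 5) (nat_lit 304) (nat_lit 279) (nat_lit 137))) (XT.nd (nat_lit 78) (nat_lit 380) (nat_lit 0) (XT.lf (nat_lit 0) (nat_lit 8500782643) (nat_lit 304) (nat_lit 34409598135) (nat_lit 380) (nat_lit 15589070702) (nat_lit 66) (nat_lit 5) (nat_lit 70) (nat_lit 5) (nat_lit 71) (nat_lit 5) (nat_lit 305) (nat_lit 279) (nat_lit 136)) (XT.nd (nat_lit 78) (nat_lit 380) (nat_lit 0) (XT.lf (nat_lit 0) (nat_lit 47943619782) (nat_lit 304) (nat_lit 6750141672) (nat_lit 380) (nat_lit 5785227898) (nat_lit 66) (nat_lit 5) (nat_lit 70) (nat_lit 5) (nat_lit 71)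 (nat_lit 5) (nat_lit 306) (nat_lit 279) (nat_lit 135)) (XT.lf (nat_lit 0) (nat_lit 4897755766) (nat_lit 380) (nat_lit 35478817432) (nat_lit 76) (nat_lit 22165328948) (nat_lit 61) (nat_lit 5) (nat_lit 66) (nat_lit 5) (nat_lit 62) (nat_lit 5) (nat_lit 307) (nat_lit 279) (nat_lit 134)))))) (XT.nd (nat_lit 390) (nat_lit 912) (nat_lit 0) (XT.nd (nat_lit 156) (nat_lit 532) (nat_lit 0) (XT.nd (nat_lit 78) (nat_lit 0) (nat_lit 0) (XT.lf (nat_lit 0) (nat_lit 4149199982) (nat_lit 304) (nat_lit 12082903612) (nat_lit 380) (nat_lit 48467038662) (nat_lit 57) (nat_lit 5) (nat_lit 61) (nat_lit 5) (nat_lit 62) (nat_lit 5) (nat_lit 308) (nat_lit 279) (nat_lit 133)) (XT.lf (nat_lit 0) (nat_lit 28668936617) (nat_lit 380) (nat_lit 20629578845) (nat_lit 76) (nat_lit 17649661524) (nat_lit 57) (nat_lit 5) (nat_lit 62) (nat_lit 5) (nat_lit 58) (nat_lit 5) (nat_lit 309) (nat_lit 279) (nat_lit 132))) (XT.nd (nat_lit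 78) (nat_lit 228) (nat_lit 0) (XT.lf (nat_lit 0) (nat_lit 21582893067) (nat_lit 304) (nat_lit 20471762830) (nat_lit 380) (nat_lit 27245201596) (nat_lit 53) (nat_lit 5) (nat_lit 57) (nat_lit 5) (nat_lit 58) (nat_lit 5) (nat_lit 310) (nat_lit 279) (nat_lit 131)) (XT.nd (nat_lit 78) (nat_lit 228) (nat_lit 0) (XT.lf (nat_lit 0) (nat_lit 56415993510) (nat_lit 380) (nat_lit 5525027613) (nat_lit 76) (nat_lit 9818916055) (nat_lit 53) (nat_lit 5) (nat_lit 58) (nat_lit 5) (nat_lit 54) (nat_lit 5) (nat_lit 311) (nat_lit 279) (nat_lit 130)) (XT.lf (nat_lit 0) (nat_lit 39334492745) (nat_lit 228) (nat_lit 32743446696) (nat_lit 304) (nat_lit 2247610041) (nat_lit 50) (nat_lit 5) (nat_lit 53) (nat_lit 5) (nat_lit 54) (nat_lit 5) (nat_lit 312) (nat_lit 279) (nat_lit 129))))) (XT.nd (nat_lit 234) (nat_lit 304) (nat_lit 0) (XT.nd (nat_lit 78) (nat_lit 228) (nat_lit 0) (XT.lf (nat_lit 0) (nat_lit 9608150052)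 (nat_lit 304) (nat_lit 1818571699) (nat_lit 380) (nat_lit 65584978080) (nat_lit 45) (nat_lit 5) (nat_lit 49) (nat_lit 5) (nat_lit 50) (nat_lit 5) (nat_lit 313) (nat_lit 279) (nat_lit 128)) (XT.nd (nat_lit 78) (nat_lit 228) (nat_lit 0) (XT.lf (nat_lit 0) (nat_lit 26395064347) (nat_lit 380) (nat_lit 22976610185) (nat_lit 76) (nat_lit 30440116509) (nat_lit 45) (nat_lit 5) (nat_lit 50) (nat_lit 5) (nat_lit 46) (nat_lit 5) (nat_lit 314) (nat_lit 279) (nat_lit 127)) (XT.lf (nat_lit 0) (nat_lit 24121268371) (nat_lit 228) (nat_lit 18238804785) (nat_lit 304) (nat_lit 40384370273) (nat_lit 42) (nat_lit 5) (nat_lit 45) (nat_lit 5) (nat_lit 46) (nat_lit 5) (nat_lit 315) (nat_lit 279) (nat_lit 126)))) (XT.nd (nat_lit 78) (nat_lit 304) (nat_lit 0) (XT.lf (nat_lit 0) (nat_lit 59499193700) (nat_lit 304) (nat_lit 11906419791) (nat_lit 76) (nat_lit 14406843006) (nat_lit 42) (nat_lit 5) (nat_lit 46) (nat_lit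 5) (nat_lit 43) (nat_lit 5) (nat_lit 316) (nat_lit 279) (nat_lit 125)) (XT.nd (nat_lit 78) (nat_lit 76) (nat_lit 0) (XT.lf (nat_lit 0) (nat_lit 37695059877) (nat_lit 228) (nat_lit 40344824657) (nat_lit 304) (nat_lit 10977650967) (nat_lit 39) (nat_lit 5) (nat_lit 42) (nat_lit 5) (nat_lit 43) (nat_lit 5) (nat_lit 317) (nat_lit 279) (nat_lit 124)) (XT.lf (nat_lit 0) (nat_lit 5146738212) (nat_lit 304) (nat_lit 2406800138) (nat_lit 76) (nat_lit 84824195705) (nat_lit 38) (nat_lit 5) (nat_lit 42) (nat_lit 5) (nat_lit 39) (nat_lit 5) (nat_lit 318) (nat_lit 279) (nat_lit 123))))))))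
noncomputable def xc114 : XT := (XT.nd (nat_lit 35880) (nat_lit 0) (nat_lit 532) (XT.nd (nat_lit 35100) (nat_lit 0) (nat_lit 4940) (XT.nd (nat_lit 34710) (nat_lit 0) (nat_lit 7676) (XT.nd (nat_lit 34476) (nat_lit 0) (nat_lit 7524) (XT.nd (nat_lit 78) (nat_lit 228) (nat_lit 0) (XT.lf (nat_lit 0) (nat_lit 22593756339) (nat_lit 304) (nat_lit 46339034443) (nat_lit 76) (nat_lit 26947591010) (nat_lit 35) (nat_lit 5) (nat_lit 39) (nat_lit 5) (nat_lit 36) (nat_lit 5) (nat_lit 319) (nat_lit 279) (nat_lit 122)) (XT.lf (nat_lit 0) (nat_lit 4590460564) (nat_lit 228) (nat_lit 36466407159) (nat_lit 304) (nat_lit 58496985035) (nat_lit 32) (nat_lit 5) (nat_lit 35) (nat_lit 5) (nat_lit 36) (nat_lit 5) (nat_lit 320) (nat_lit 279) (nat_lit 121))) (XT.nd (nat_lit 78) (nat_lit 0) (nat_lit 76) (XT.lf (nat_lit 0) (nat_lit 2498294794) (nat_lit 1140) (nat_lit 6023866286) (nat_lit 1140) (nat_lit 6023866286) (nat_lit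 131) (nat_lit 3) (nat_lit 146) (nat_lit 3) (nat_lit 146) (nat_lit 5) (nat_lit 280) (nat_lit 280) (nat_lit 160)) (XT.nd (nat_lit 78) (nat_lit 0) (nat_lit 0) (XT.lf (nat_lit 0) (nat_lit 5325573630) (nat_lit 1064) (nat_lit 22456648932) (nat_lit 1140) (nat_lit 2030668634) (nat_lit 132) (nat_lit 5) (nat_lit 146) (nat_lit 5) (nat_lit 147) (nat_lit 5) (nat_lit 281) (nat_lit 280) (nat_lit 159)) (XT.lf (nat_lit 0) (nat_lit 5961035195) (nat_lit 1064) (nat_lit 2761224078) (nat_lit 1140) (nat_lit 21838831305) (nat_lit 132) (nat_lit 5) (nat_lit 146) (nat_lit 5) (nat_lit 147) (nat_lit 5) (nat_lit 282) (nat_lit 280) (nat_lit 158))))) (XT.nd (nat_lit 156) (nat_lit 0) (nat_lit 76) (XT.nd (nat_lit 78) (nat_lit 0) (nat_lit 76) (XT.lf (nat_lit 0) (nat_lit 6907301392) (nat_lit 1064) (nat_lit 13180340791) (nat_lit 1140) (nat_lit 11250707702) (nat_lit 133) (nat_lit 5) (nat_lit 147) (nat_lit 5) (nat_lit 148) (nat_lit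 5) (nat_lit 283) (nat_lit 280) (nat_lit 157)) (XT.lf (nat_lit 0) (nat_lit 8088867042) (nat_lit 1064) (nat_lit 24056034661) (nat_lit 1140) (nat_lit 3950773) (nat_lit 134) (nat_lit 5) (nat_lit 148) (nat_lit 5) (nat_lit 149) (nat_lit 5) (nat_lit 284) (nat_lit 280) (nat_lit 156))) (XT.nd (nat_lit 78) (nat_lit 0) (nat_lit 76) (XT.lf (nat_lit 0) (nat_lit 9662995085) (nat_lit 1064) (nat_lit 2498985410) (nat_lit 1140) (nat_lit 20827914135) (nat_lit 134) (nat_lit 5) (nat_lit 148) (nat_lit 5) (nat_lit 149) (nat_lit 5) (nat_lit 285) (nat_lit 280) (nat_lit 155)) (XT.nd (nat_lit 78) (nat_lit 0) (nat_lit 0) (XT.lf (nat_lit 0) (nat_lit 11593970388) (nat_lit 1064) (nat_lit 13421391418) (nat_lit 1140) (nat_lit 8849300915) (nat_lit 135) (nat_lit 5) (nat_lit 149) (nat_lit 5) (nat_lit 150) (nat_lit 5) (nat_lit 286) (nat_lit 280) (nat_lit 154)) (XT.lf (nat_lit 76) (nat_lit 9867971462) (nat_lit 0) (nat_lit 3991390748)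 (nat_lit 1140) (nat_lit 20916688168) (nat_lit 136) (nat_lit 5) (nat_lit 135) (nat_lit 5) (nat_lit 150) (nat_lit 5) (nat_lit 287) (nat_lit 280) (nat_lit 153)))))) (XT.nd (nat_lit 390) (nat_lit 2052) (nat_lit 0) (XT.nd (nat_lit 156) (nat_lit 912) (nat_lit 0) (XT.nd (nat_lit 78) (nat_lit 0) (nat_lit 76) (XT.lf (nat_lit 0) (nat_lit 16545912424) (nat_lit 1064) (nat_lit 1305917342) (nat_lit 1140) (nat_lit 17871957364) (nat_lit 136) (nat_lit 5) (nat_lit 150) (nat_lit 5) (nat_lit 151) (nat_lit 5) (nat_lit 288) (nat_lit 280) (nat_lit 152)) (XT.lf (nat_lit 0) (nat_lit 19672606801) (nat_lit 1064) (nat_lit 12853514718) (nat_lit 1140) (nat_lit 4183630297) (nat_lit 137) (nat_lit 5) (nat_lit 151) (nat_lit 5) (nat_lit 152) (nat_lit 5) (nat_lit 289) (nat_lit 280) (nat_lit 151))) (XT.nd (nat_lit 78) (nat_lit 988) (nat_lit 0) (XT.lf (nat_lit 76) (nat_lit 12621154045) (nat_lit 0) (nat_lit 10644573983) (nat_lit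 1140) (nat_lit 14469998797) (nat_lit 138) (nat_lit 5) (nat_lit 137) (nat_lit 5) (nat_lit 152) (nat_lit 5) (nat_lit 290) (nat_lit 280) (nat_lit 150)) (XT.nd (nat_lit 78) (nat_lit 0) (nat_lit 0) (XT.lf (nat_lit 0) (nat_lit 719273753) (nat_lit 1064) (nat_lit 26573524664) (nat_lit 1140) (nat_lit 11512587522) (nat_lit 124) (nat_lit 5) (nat_lit 138) (nat_lit 5) (nat_lit 139) (nat_lit 5) (nat_lit 291) (nat_lit 280) (nat_lit 149)) (XT.lf (nat_lit 0) (nat_lit 28256128751) (nat_lit 1064) (nat_lit 3625420506) (nat_lit 1140) (nat_lit 8036182414) (nat_lit 124) (nat_lit 5) (nat_lit 138) (nat_lit 5) (nat_lit 139) (nat_lit 5) (nat_lit 292) (nat_lit 280) (nat_lit 148))))) (XT.nd (nat_lit 156) (nat_lit 988) (nat_lit 0) (XT.nd (nat_lit 78) (nat_lit 532) (nat_lit 0) (XT.lf (nat_lit 0) (nat_lit 16199581914) (nat_lit 532) (nat_lit 20848281305) (nat_lit 608) (nat_lit 4027400536) (nat_lit 117) (nat_lit 5) (nat_lit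 124) (nat_lit 5) (nat_lit 125) (nat_lit 5) (nat_lit 293) (nat_lit 280) (nat_lit 147)) (XT.lf (nat_lit 0) (nat_lit 394364710) (nat_lit 532) (nat_lit 38880482777) (nat_lit 76) (nat_lit 3009301619) (nat_lit 110) (nat_lit 5) (nat_lit 117) (nat_lit 5) (nat_lit 111) (nat_lit 5) (nat_lit 294) (nat_lit 280) (nat_lit 146))) (XT.nd (nat_lit 78) (nat_lit 988) (nat_lit 0) (XT.lf (nat_lit 0) (nat_lit 5419656452) (nat_lit 532) (nat_lit 10186499316) (nat_lit 76) (nat_lit 27932166065) (nat_lit 110) (nat_lit 5) (nat_lit 117) (nat_lit 5) (nat_lit 111) (nat_lit 5) (nat_lit 295) (nat_lit 280) (nat_lit 145)) (XT.nd (nat_lit 78) (nat_lit 456) (nat_lit 0) (XT.lf (nat_lit 0) (nat_lit 10978618561) (nat_lit 608) (nat_lit 24604999092) (nat_lit 76) (nat_lit 9263124132) (nat_lit 103) (nat_lit 5) (nat_lit 111) (nat_lit 5) (nat_lit 104) (nat_lit 5) (nat_lit 296) (nat_lit 280) (nat_lit 144)) (XT.lf (nat_lit 0) (nat_lit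 6144440209) (nat_lit 456) (nat_lit 10989835785) (nat_lit 532) (nat_lit 29076754573) (nat_lit 97) (nat_lit 5) (nat_lit 103) (nat_lit 5) (nat_lit 104) (nat_lit 5) (nat_lit 297) (nat_lit 280) (nat_lit 143))))))) (XT.nd (nat_lit 780) (nat_lit 2052) (nat_lit 0) (XT.nd (nat_lit 390) (nat_lit 1064) (nat_lit 0) (XT.nd (nat_lit 156) (nat_lit 836) (nat_lit 0) (XT.nd (nat_lit 78) (nat_lit 456) (nat_lit 0) (XT.lf (nat_lit 0) (nat_lit 23992510517) (nat_lit 532) (nat_lit 8839252262) (nat_lit 76) (nat_lit 14799936943) (nat_lit 97) (nat_lit 5) (nat_lit 104) (nat_lit 5) (nat_lit 98) (nat_lit 5) (nat_lit 298) (nat_lit 280) (nat_lit 142)) (XT.lf (nat_lit 0) (nat_lit 24309327535) (nat_lit 456) (nat_lit 7225509096) (nat_lit 532) (nat_lit 17578339603) (nat_lit 91) (nat_lit 5) (nat_lit 97) (nat_lit 5) (nat_lit 98) (nat_lit 5) (nat_lit 299) (nat_lit 280) (nat_lit 141))) (XT.nd (nat_lit 78) (nat_lit 456) (nat_lit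 0) (XT.lf (nat_lit 0) (nat_lit 8608574796) (nat_lit 380) (nat_lit 31206051014) (nat_lit 456) (nat_lit 10843299212) (nat_lit 86) (nat_lit 5) (nat_lit 91) (nat_lit 5) (nat_lit 92) (nat_lit 5) (nat_lit 300) (nat_lit 280) (nat_lit 140)) (XT.nd (nat_lit 78) (nat_lit 456) (nat_lit 0) (XT.lf (nat_lit 0) (nat_lit 44132100624) (nat_lit 380) (nat_lit 4700683348) (nat_lit 456) (nat_lit 3437404323) (nat_lit 86) (nat_lit 5) (nat_lit 91) (nat_lit 5) (nat_lit 92) (nat_lit 5) (nat_lit 301) (nat_lit 280) (nat_lit 139)) (XT.lf (nat_lit 0) (nat_lit 4745335627) (nat_lit 456) (nat_lit 26209812373) (nat_lit 76) (nat_lit 22991936847) (nat_lit 80) (nat_lit 5) (nat_lit 86) (nat_lit 5) (nat_lit 81) (nat_lit 5) (nat_lit 302) (nat_lit 280) (nat_lit 138))))) (XT.nd (nat_lit 156) (nat_lit 684) (nat_lit 0) (XT.nd (nat_lit 78) (nat_lit 0) (nat_lit 0) (XT.lf (nat_lit 0) (nat_lit 9979552096) (nat_lit 380) (nat_lit 3512265003)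 (nat_lit 456) (nat_lit 42208224681) (nat_lit 75) (nat_lit 5) (nat_lit 80) (nat_lit 5) (nat_lit 81) (nat_lit 5) (nat_lit 303) (nat_lit 280) (nat_lit 137)) (XT.lf (nat_lit 0) (nat_lit 23188487018) (nat_lit 456) (nat_lit 9255713549) (nat_lit 76) (nat_lit 25081067133) (nat_lit 75) (nat_lit 5) (nat_lit 81) (nat_lit 5) (nat_lit 76) (nat_lit 5) (nat_lit 304) (nat_lit 280) (nat_lit 136))) (XT.nd (nat_lit 78) (nat_lit 304) (nat_lit 0) (XT.lf (nat_lit 0) (nat_lit 29570684683) (nat_lit 380) (nat_lit 4116303111) (nat_lit 456) (nat_lit 25745263936) (nat_lit 70) (nat_lit 5) (nat_lit 75) (nat_lit 5) (nat_lit 76) (nat_lit 5) (nat_lit 305) (nat_lit 280) (nat_lit 135)) (XT.nd (nat_lit 78) (nat_lit 0) (nat_lit 0) (XT.lf (nat_lit 0) (nat_lit 9025737559) (nat_lit 304) (nat_lit 36111401462) (nat_lit 380) (nat_lit 16284650591) (nat_lit 66) (nat_lit 5) (nat_lit 70) (nat_lit 5) (nat_lit 71) (nat_lit 5) (nat_lit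 306) (nat_lit 280) (nat_lit 134)) (XT.lf (nat_lit 0) (nat_lit 50435958660) (nat_lit 304) (nat_lit 7069861537) (nat_lit 380) (nat_lit 5994609630) (nat_lit 66) (nat_lit 5) (nat_lit 70) (nat_lit 5) (nat_lit 71) (nat_lit 5) (nat_lit 307) (nat_lit 280) (nat_lit 133)))))) (XT.nd (nat_lit 390) (nat_lit 1064) (nat_lit 0) (XT.nd (nat_lit 156) (nat_lit 304) (nat_lit 0) (XT.nd (nat_lit 78) (nat_lit 304) (nat_lit 0) (XT.lf (nat_lit 0) (nat_lit 5218318701) (nat_lit 380) (nat_lit 37156377307) (nat_lit 76) (nat_lit 23291857278) (nat_lit 61) (nat_lit 5) (nat_lit 66) (nat_lit 5) (nat_lit 62) (nat_lit 5) (nat_lit 308) (nat_lit 280) (nat_lit 132)) (XT.lf (nat_lit 0) (nat_lit 4450278236) (nat_lit 304) (nat_lit 12666402021) (nat_lit 380) (nat_lit 50815064525) (nat_lit 57) (nat_lit 5) (nat_lit 61) (nat_lit 5) (nat_lit 62) (nat_lit 5) (nat_lit 309) (nat_lit 280) (nat_lit 131))) (XT.nd (nat_lit 78) (nat_lit 304)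 (nat_lit 0) (XT.lf (nat_lit 0) (nat_lit 30172069118) (nat_lit 380) (nat_lit 21569844099) (nat_lit 76) (nat_lit 18551424484) (nat_lit 57) (nat_lit 5) (nat_lit 62) (nat_lit 5) (nat_lit 58) (nat_lit 5) (nat_lit 310) (nat_lit 280) (nat_lit 130)) (XT.nd (nat_lit 78) (nat_lit 0) (nat_lit 0) (XT.lf (nat_lit 0) (nat_lit 22750636786) (nat_lit 304) (nat_lit 21473970879) (nat_lit 380) (nat_lit 28538076073) (nat_lit 53) (nat_lit 5) (nat_lit 57) (nat_lit 5) (nat_lit 58) (nat_lit 5) (nat_lit 311) (nat_lit 280) (nat_lit 129)) (XT.lf (nat_lit 0) (nat_lit 59301006987) (nat_lit 380) (nat_lit 5715031206) (nat_lit 76) (nat_lit 10329826515) (nat_lit 53) (nat_lit 5) (nat_lit 58) (nat_lit 5) (nat_lit 54) (nat_lit 5) (nat_lit 312) (nat_lit 280) (nat_lit 128))))) (XT.nd (nat_lit 234) (nat_lit 456) (nat_lit 0) (XT.nd (nat_lit 78) (nat_lit 380) (nat_lit 0) (XT.lf (nat_lit 0) (nat_lit 41384992894) (nat_lit 228) (nat_lit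 34358804821) (nat_lit 304) (nat_lit 2296034292) (nat_lit 50) (nat_lit 5) (nat_lit 53) (nat_lit 5) (nat_lit 54) (nat_lit 5) (nat_lit 313) (nat_lit 280) (nat_lit 127)) (XT.nd (nat_lit 78) (nat_lit 0) (nat_lit 0) (XT.lf (nat_lit 0) (nat_lit 10171272259) (nat_lit 304) (nat_lit 1887302812) (nat_lit 380) (nat_lit 68801768383) (nat_lit 45) (nat_lit 5) (nat_lit 49) (nat_lit 5) (nat_lit 50) (nat_lit 5) (nat_lit 314) (nat_lit 280) (nat_lit 126)) (XT.lf (nat_lit 0) (nat_lit 27772656239) (nat_lit 380) (nat_lit 24045019077) (nat_lit 76) (nat_lit 31982850257) (nat_lit 45) (nat_lit 5) (nat_lit 50) (nat_lit 5) (nat_lit 46) (nat_lit 5) (nat_lit 315) (nat_lit 280) (nat_lit 125)))) (XT.nd (nat_lit 78) (nat_lit 228) (nat_lit 0) (XT.lf (nat_lit 0) (nat_lit 25405448137) (nat_lit 228) (nat_lit 19128464031) (nat_lit 304) (nat_lit 42345964220) (nat_lit 42) (nat_lit 5) (nat_lit 45) (nat_lit 5) (nat_lit 46) (nat_lit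 5) (nat_lit 316) (nat_lit 280) (nat_lit 124)) (XT.nd (nat_lit 78) (nat_lit 228) (nat_lit 0) (XT.lf (nat_lit 0) (nat_lit 62527533892) (nat_lit 304) (nat_lit 12425844227) (nat_lit 76) (nat_lit 15147991071) (nat_lit 42) (nat_lit 5) (nat_lit 46) (nat_lit 5) (nat_lit 43) (nat_lit 5) (nat_lit 317) (nat_lit 280) (nat_lit 123)) (XT.lf (nat_lit 0) (nat_lit 39653533865) (nat_lit 228) (nat_lit 42339892125) (nat_lit 304) (nat_lit 11473336329) (nat_lit 39) (nat_lit 5) (nat_lit 42) (nat_lit 5) (nat_lit 43) (nat_lit 5) (nat_lit 318) (nat_lit 280) (nat_lit 122))))))))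
noncomputable def xc115 : XT := (XT.nd (nat_lit 36036) (nat_lit 0) (nat_lit 304) (XT.nd (nat_lit 35178) (nat_lit 0) (nat_lit 4712) (XT.nd (nat_lit 34788) (nat_lit 0) (nat_lit 7448) (XT.nd (nat_lit 34554) (nat_lit 0) (nat_lit 7296) (XT.nd (nat_lit 78) (nat_lit 228) (nat_lit 0) (XT.lf (nat_lit 0) (nat_lit 5453750472) (nat_lit 304) (nat_lit 2455845301) (nat_lit 76) (nat_lit 89085438988) (nat_lit 38) (nat_lit 5) (nat_lit 42) (nat_lit 5) (nat_lit 39) (nat_lit 5) (nat_lit 319) (nat_lit 280) (nat_lit 121)) (XT.lf (nat_lit 0) (nat_lit 23771624212) (nat_lit 304) (nat_lit 48585409044) (nat_lit 76) (nat_lit 28315831047) (nat_lit 35) (nat_lit 5) (nat_lit 39) (nat_lit 5) (nat_lit 36) (nat_lit 5) (nat_lit 320) (nat_lit 280) (nat_lit 120))) (XT.nd (nat_lit 78) (nat_lit 0) (nat_lit 76) (XT.lf (nat_lit 0) (nat_lit 2734692340) (nat_lit 1140) (nat_lit 6267477218) (nat_lit 1140) (nat_lit 6267477218) (nat_lit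 131) (nat_lit 3) (nat_lit 146) (nat_lit 3) (nat_lit 146) (nat_lit 5) (nat_lit 281) (nat_lit 281) (nat_lit 158)) (XT.nd (nat_lit 78) (nat_lit 0) (nat_lit 0) (XT.lf (nat_lit 0) (nat_lit 5804299560) (nat_lit 1064) (nat_lit 23459596024) (nat_lit 1140) (nat_lit 2032623950) (nat_lit 132) (nat_lit 5) (nat_lit 146) (nat_lit 5) (nat_lit 147) (nat_lit 5) (nat_lit 282) (nat_lit 281) (nat_lit 157)) (XT.lf (nat_lit 0) (nat_lit 6461417667) (nat_lit 1064) (nat_lit 2785108754) (nat_lit 1140) (nat_lit 22835936570) (nat_lit 132) (nat_lit 5) (nat_lit 146) (nat_lit 5) (nat_lit 147) (nat_lit 5) (nat_lit 283) (nat_lit 281) (nat_lit 156))))) (XT.nd (nat_lit 156) (nat_lit 0) (nat_lit 76) (XT.nd (nat_lit 78) (nat_lit 0) (nat_lit 0) (XT.lf (nat_lit 0) (nat_lit 7445631967) (nat_lit 1064) (nat_lit 13721261762) (nat_lit 1140) (nat_lit 11732001641) (nat_lit 133) (nat_lit 5) (nat_lit 147) (nat_lit 5) (nat_lit 148) (nat_lit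 5) (nat_lit 284) (nat_lit 281) (nat_lit 155)) (XT.lf (nat_lit 76) (nat_lit 8612211464) (nat_lit 0) (nat_lit 65937603) (nat_lit 1140) (nat_lit 25072045593) (nat_lit 134) (nat_lit 5) (nat_lit 133) (nat_lit 5) (nat_lit 148) (nat_lit 5) (nat_lit 285) (nat_lit 281) (nat_lit 154))) (XT.nd (nat_lit 78) (nat_lit 0) (nat_lit 76) (XT.lf (nat_lit 0) (nat_lit 10321578021) (nat_lit 1064) (nat_lit 2508232748) (nat_lit 1140) (nat_lit 21803786760) (nat_lit 134) (nat_lit 5) (nat_lit 148) (nat_lit 5) (nat_lit 149) (nat_lit 5) (nat_lit 286) (nat_lit 281) (nat_lit 153)) (XT.nd (nat_lit 78) (nat_lit 0) (nat_lit 0) (XT.lf (nat_lit 0) (nat_lit 12341292309) (nat_lit 1064) (nat_lit 13973991052) (nat_lit 1140) (nat_lit 9237080139) (nat_lit 135) (nat_lit 5) (nat_lit 149) (nat_lit 5) (nat_lit 150) (nat_lit 5) (nat_lit 287) (nat_lit 281) (nat_lit 152)) (XT.lf (nat_lit 76) (nat_lit 10476444055) (nat_lit 0) (nat_lit 4236633763)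 (nat_lit 1140) (nat_lit 21796472984) (nat_lit 136) (nat_lit 5) (nat_lit 135) (nat_lit 5) (nat_lit 150) (nat_lit 5) (nat_lit 288) (nat_lit 281) (nat_lit 151)))))) (XT.nd (nat_lit 390) (nat_lit 2052) (nat_lit 0) (XT.nd (nat_lit 156) (nat_lit 912) (nat_lit 0) (XT.nd (nat_lit 78) (nat_lit 0) (nat_lit 76) (XT.lf (nat_lit 0) (nat_lit 17525882765) (nat_lit 1064) (nat_lit 1256151154) (nat_lit 1140) (nat_lit 18722905496) (nat_lit 136) (nat_lit 5) (nat_lit 150) (nat_lit 5) (nat_lit 151) (nat_lit 5) (nat_lit 289) (nat_lit 281) (nat_lit 150)) (XT.lf (nat_lit 0) (nat_lit 20802382276) (nat_lit 1064) (nat_lit 13379263488) (nat_lit 1140) (nat_lit 4358774213) (nat_lit 137) (nat_lit 5) (nat_lit 151) (nat_lit 5) (nat_lit 152) (nat_lit 5) (nat_lit 290) (nat_lit 281) (nat_lit 149))) (XT.nd (nat_lit 78) (nat_lit 988) (nat_lit 0) (XT.lf (nat_lit 76) (nat_lit 13365787026) (nat_lit 0) (nat_lit 11203505002) (nat_lit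 1140) (nat_lit 15048598453) (nat_lit 138) (nat_lit 5) (nat_lit 137) (nat_lit 5) (nat_lit 152) (nat_lit 5) (nat_lit 291) (nat_lit 281) (nat_lit 148)) (XT.nd (nat_lit 78) (nat_lit 0) (nat_lit 0) (XT.lf (nat_lit 0) (nat_lit 870296605) (nat_lit 1064) (nat_lit 27921601008) (nat_lit 1140) (nat_lit 11949329218) (nat_lit 124) (nat_lit 5) (nat_lit 138) (nat_lit 5) (nat_lit 139) (nat_lit 5) (nat_lit 292) (nat_lit 281) (nat_lit 147)) (XT.lf (nat_lit 0) (nat_lit 29778515345) (nat_lit 1064) (nat_lit 3825167828) (nat_lit 1140) (nat_lit 8305717554) (nat_lit 124) (nat_lit 5) (nat_lit 138) (nat_lit 5) (nat_lit 139) (nat_lit 5) (nat_lit 293) (nat_lit 281) (nat_lit 146))))) (XT.nd (nat_lit 234) (nat_lit 988) (nat_lit 0) (XT.nd (nat_lit 78) (nat_lit 532) (nat_lit 0) (XT.lf (nat_lit 0) (nat_lit 17120269221) (nat_lit 532) (nat_lit 21902840732) (nat_lit 608) (nat_lit 4101873444) (nat_lit 117) (nat_lit 5) (nat_lit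 124) (nat_lit 5) (nat_lit 125) (nat_lit 5) (nat_lit 294) (nat_lit 281) (nat_lit 145)) (XT.nd (nat_lit 78) (nat_lit 0) (nat_lit 0) (XT.lf (nat_lit 0) (nat_lit 533549903) (nat_lit 532) (nat_lit 40710222502) (nat_lit 76) (nat_lit 3150669182) (nat_lit 110) (nat_lit 5) (nat_lit 117) (nat_lit 5) (nat_lit 111) (nat_lit 5) (nat_lit 295) (nat_lit 281) (nat_lit 144)) (XT.lf (nat_lit 0) (nat_lit 5804417330) (nat_lit 532) (nat_lit 10586981984) (nat_lit 76) (nat_lit 29320110066) (nat_lit 110) (nat_lit 5) (nat_lit 117) (nat_lit 5) (nat_lit 111) (nat_lit 5) (nat_lit 296) (nat_lit 281) (nat_lit 143)))) (XT.nd (nat_lit 78) (nat_lit 456) (nat_lit 0) (XT.lf (nat_lit 0) (nat_lit 11636890686) (nat_lit 608) (nat_lit 25725910083) (nat_lit 76) (nat_lit 9722697676) (nat_lit 103) (nat_lit 5) (nat_lit 111) (nat_lit 5) (nat_lit 104) (nat_lit 5) (nat_lit 297) (nat_lit 281) (nat_lit 142)) (XT.nd (nat_lit 78) (nat_lit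 0) (nat_lit 0) (XT.lf (nat_lit 0) (nat_lit 6557867004) (nat_lit 456) (nat_lit 11538278168) (nat_lit 532) (nat_lit 30421996363) (nat_lit 97) (nat_lit 5) (nat_lit 103) (nat_lit 5) (nat_lit 104) (nat_lit 5) (nat_lit 298) (nat_lit 281) (nat_lit 141)) (XT.lf (nat_lit 0) (nat_lit 25292293629) (nat_lit 532) (nat_lit 9176800343) (nat_lit 76) (nat_lit 15540913723) (nat_lit 97) (nat_lit 5) (nat_lit 104) (nat_lit 5) (nat_lit 98) (nat_lit 5) (nat_lit 299) (nat_lit 281) (nat_lit 140))))))) (XT.nd (nat_lit 780) (nat_lit 1672) (nat_lit 0) (XT.nd (nat_lit 390) (nat_lit 1064) (nat_lit 0) (XT.nd (nat_lit 156) (nat_lit 836) (nat_lit 0) (XT.nd (nat_lit 78) (nat_lit 380) (nat_lit 0) (XT.lf (nat_lit 0) (nat_lit 25626215421) (nat_lit 456) (nat_lit 7581726144) (nat_lit 532) (nat_lit 18357743268) (nat_lit 91) (nat_lit 5) (nat_lit 97) (nat_lit 5) (nat_lit 98) (nat_lit 5) (nat_lit 300) (nat_lit 281) (nat_lit 139))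 (XT.lf (nat_lit 0) (nat_lit 9140530499) (nat_lit 380) (nat_lit 32757623233) (nat_lit 456) (nat_lit 11289636671) (nat_lit 86) (nat_lit 5) (nat_lit 91) (nat_lit 5) (nat_lit 92) (nat_lit 5) (nat_lit 301) (nat_lit 281) (nat_lit 138))) (XT.nd (nat_lit 78) (nat_lit 836) (nat_lit 0) (XT.lf (nat_lit 0) (nat_lit 46435398002) (nat_lit 380) (nat_lit 4927402914) (nat_lit 456) (nat_lit 3518010251) (nat_lit 86) (nat_lit 5) (nat_lit 91) (nat_lit 5) (nat_lit 92) (nat_lit 5) (nat_lit 302) (nat_lit 281) (nat_lit 137)) (XT.nd (nat_lit 78) (nat_lit 380) (nat_lit 0) (XT.lf (nat_lit 0) (nat_lit 5068839787) (nat_lit 456) (nat_lit 27421722367) (nat_lit 76) (nat_lit 24151072329) (nat_lit 80) (nat_lit 5) (nat_lit 86) (nat_lit 5) (nat_lit 81) (nat_lit 5) (nat_lit 303) (nat_lit 281) (nat_lit 136)) (XT.lf (nat_lit 0) (nat_lit 10574284531) (nat_lit 380) (nat_lit 3675174714) (nat_lit 456) (nat_lit 44232885957) (nat_lit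 75) (nat_lit 5) (nat_lit 80) (nat_lit 5) (nat_lit 81) (nat_lit 5) (nat_lit 304) (nat_lit 281) (nat_lit 135))))) (XT.nd (nat_lit 156) (nat_lit 684) (nat_lit 0) (XT.nd (nat_lit 78) (nat_lit 380) (nat_lit 0) (XT.lf (nat_lit 0) (nat_lit 24427124135) (nat_lit 456) (nat_lit 9624850290) (nat_lit 76) (nat_lit 26346983012) (nat_lit 75) (nat_lit 5) (nat_lit 81) (nat_lit 5) (nat_lit 76) (nat_lit 5) (nat_lit 305) (nat_lit 281) (nat_lit 134)) (XT.lf (nat_lit 0) (nat_lit 31140183426) (nat_lit 380) (nat_lit 4307468894) (nat_lit 456) (nat_lit 26953734671) (nat_lit 70) (nat_lit 5) (nat_lit 75) (nat_lit 5) (nat_lit 76) (nat_lit 5) (nat_lit 306) (nat_lit 281) (nat_lit 133))) (XT.nd (nat_lit 78) (nat_lit 380) (nat_lit 0) (XT.lf (nat_lit 0) (nat_lit 9567650998) (nat_lit 304) (nat_lit 37900031328) (nat_lit 380) (nat_lit 17022807252) (nat_lit 66) (nat_lit 5) (nat_lit 70) (nat_lit 5) (nat_lit 71) (nat_lit 5) (nat_lit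 307) (nat_lit 281) (nat_lit 132)) (XT.nd (nat_lit 78) (nat_lit 380) (nat_lit 0) (XT.lf (nat_lit 0) (nat_lit 53044067603) (nat_lit 304) (nat_lit 7407221083) (nat_lit 380) (nat_lit 6221886902) (nat_lit 66) (nat_lit 5) (nat_lit 70) (nat_lit 5) (nat_lit 71) (nat_lit 5) (nat_lit 308) (nat_lit 281) (nat_lit 131)) (XT.lf (nat_lit 0) (nat_lit 5547874224) (nat_lit 380) (nat_lit 38926775767) (nat_lit 76) (nat_lit 24473014207) (nat_lit 61) (nat_lit 5) (nat_lit 66) (nat_lit 5) (nat_lit 62) (nat_lit 5) (nat_lit 309) (nat_lit 281) (nat_lit 130)))))) (XT.nd (nat_lit 390) (nat_lit 836) (nat_lit 0) (XT.nd (nat_lit 156) (nat_lit 532) (nat_lit 0) (XT.nd (nat_lit 78) (nat_lit 0) (nat_lit 0) (XT.lf (nat_lit 0) (nat_lit 4757706665) (nat_lit 304) (nat_lit 13280994892) (nat_lit 380) (nat_lit 53287494785) (nat_lit 57) (nat_lit 5) (nat_lit 61) (nat_lit 5) (nat_lit 62) (nat_lit 5) (nat_lit 310) (nat_lit 281) (nat_lit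 129)) (XT.lf (nat_lit 0) (nat_lit 31743879530) (nat_lit 380) (nat_lit 22565602801) (nat_lit 76) (nat_lit 19496483132) (nat_lit 57) (nat_lit 5) (nat_lit 62) (nat_lit 5) (nat_lit 58) (nat_lit 5) (nat_lit 311) (nat_lit 281) (nat_lit 128))) (XT.nd (nat_lit 78) (nat_lit 228) (nat_lit 0) (XT.lf (nat_lit 0) (nat_lit 23968530590) (nat_lit 304) (nat_lit 22528277048) (nat_lit 380) (nat_lit 29902045089) (nat_lit 53) (nat_lit 5) (nat_lit 57) (nat_lit 5) (nat_lit 58) (nat_lit 5) (nat_lit 312) (nat_lit 281) (nat_lit 127)) (XT.nd (nat_lit 78) (nat_lit 228) (nat_lit 0) (XT.lf (nat_lit 0) (nat_lit 62324301147) (nat_lit 380) (nat_lit 5922553480) (nat_lit 76) (nat_lit 10864426373) (nat_lit 53) (nat_lit 5) (nat_lit 58) (nat_lit 5) (nat_lit 54) (nat_lit 5) (nat_lit 313) (nat_lit 281) (nat_lit 126)) (XT.lf (nat_lit 0) (nat_lit 43530229398) (nat_lit 228) (nat_lit 36056958932) (nat_lit 304) (nat_lit 2352825801)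 (nat_lit 50) (nat_lit 5) (nat_lit 53) (nat_lit 5) (nat_lit 54) (nat_lit 5) (nat_lit 314) (nat_lit 281) (nat_lit 125))))) (XT.nd (nat_lit 234) (nat_lit 228) (nat_lit 0) (XT.nd (nat_lit 78) (nat_lit 228) (nat_lit 0) (XT.lf (nat_lit 0) (nat_lit 10754860546) (nat_lit 304) (nat_lit 1961534192) (nat_lit 380) (nat_lit 72185205009) (nat_lit 45) (nat_lit 5) (nat_lit 49) (nat_lit 5) (nat_lit 50) (nat_lit 5) (nat_lit 315) (nat_lit 281) (nat_lit 124)) (XT.nd (nat_lit 78) (nat_lit 228) (nat_lit 0) (XT.lf (nat_lit 0) (nat_lit 29213750433) (nat_lit 380) (nat_lit 25174325254) (nat_lit 76) (nat_lit 33600793607) (nat_lit 45) (nat_lit 5) (nat_lit 50) (nat_lit 5) (nat_lit 46) (nat_lit 5) (nat_lit 316) (nat_lit 281) (nat_lit 123)) (XT.lf (nat_lit 0) (nat_lit 26746574374) (nat_lit 228) (nat_lit 20064677715) (nat_lit 304) (nat_lit 44410995251) (nat_lit 42) (nat_lit 5) (nat_lit 45) (nat_lit 5) (nat_lit 46) (nat_lit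 5) (nat_lit 317) (nat_lit 281) (nat_lit 122)))) (XT.nd (nat_lit 78) (nat_lit 228) (nat_lit 0) (XT.lf (nat_lit 0) (nat_lit 65702328281) (nat_lit 304) (nat_lit 12978296027) (nat_lit 76) (nat_lit 15924262203) (nat_lit 42) (nat_lit 5) (nat_lit 46) (nat_lit 5) (nat_lit 43) (nat_lit 5) (nat_lit 318) (nat_lit 281) (nat_lit 121)) (XT.nd (nat_lit 34632) (nat_lit 0) (nat_lit 6992) (XT.lf (nat_lit 0) (nat_lit 41703077674) (nat_lit 228) (nat_lit 44436774473) (nat_lit 304) (nat_lit 11998751731) (nat_lit 39) (nat_lit 5) (nat_lit 42) (nat_lit 5) (nat_lit 43) (nat_lit 5) (nat_lit 319) (nat_lit 281) (nat_lit 120)) (XT.lf (nat_lit 0) (nat_lit 2972545149) (nat_lit 1140) (nat_lit 6528622162) (nat_lit 1140) (nat_lit 6528622162) (nat_lit 131) (nat_lit 3) (nat_lit 146) (nat_lit 3) (nat_lit 146) (nat_lit 5) (nat_lit 282) (nat_lit 282) (nat_lit 156))))))))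
noncomputable def xc116 : XT := (XT.nd (nat_lit 1560) (nat_lit 3344) (nat_lit 0) (XT.nd (nat_lit 780) (nat_lit 3496) (nat_lit 0) (XT.nd (nat_lit 390) (nat_lit 0) (nat_lit 228) (XT.nd (nat_lit 156) (nat_lit 0) (nat_lit 76) (XT.nd (nat_lit 78) (nat_lit 0) (nat_lit 0) (XT.lf (nat_lit 0) (nat_lit 6287210454) (nat_lit 1064) (nat_lit 24523836275) (nat_lit 1140) (nat_lit 2043934861) (nat_lit 132) (nat_lit 5) (nat_lit 146) (nat_lit 5) (nat_lit 147) (nat_lit 5) (nat_lit 283) (nat_lit 282) (nat_lit 155)) (XT.lf (nat_lit 0) (nat_lit 6968008471) (nat_lit 1064) (nat_lit 2820802715) (nat_lit 1140) (nat_lit 23891714078) (nat_lit 132) (nat_lit 5) (nat_lit 146) (nat_lit 5) (nat_lit 147) (nat_lit 5) (nat_lit 284) (nat_lit 282) (nat_lit 154))) (XT.nd (nat_lit 78) (nat_lit 0) (nat_lit 0) (XT.lf (nat_lit 0) (nat_lit 7992938967) (nat_lit 1064) (nat_lit 14300208235) (nat_lit 1140) (nat_lit 12244913337) (nat_lit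 133) (nat_lit 5) (nat_lit 147) (nat_lit 5) (nat_lit 148) (nat_lit 5) (nat_lit 285) (nat_lit 282) (nat_lit 153)) (XT.nd (nat_lit 78) (nat_lit 0) (nat_lit 76) (XT.lf (nat_lit 76) (nat_lit 9146868176) (nat_lit 0) (nat_lit 132879358) (nat_lit 1140) (nat_lit 26152422474) (nat_lit 134) (nat_lit 5) (nat_lit 133) (nat_lit 5) (nat_lit 148) (nat_lit 5) (nat_lit 286) (nat_lit 282) (nat_lit 152)) (XT.lf (nat_lit 0) (nat_lit 10996779990) (nat_lit 1064) (nat_lit 2528699321) (nat_lit 1140) (nat_lit 22834544732) (nat_lit 134) (nat_lit 5) (nat_lit 148) (nat_lit 5) (nat_lit 149) (nat_lit 5) (nat_lit 287) (nat_lit 282) (nat_lit 151))))) (XT.nd (nat_lit 156) (nat_lit 0) (nat_lit 76) (XT.nd (nat_lit 78) (nat_lit 0) (nat_lit 0) (XT.lf (nat_lit 0) (nat_lit 13110396292) (nat_lit 1064) (nat_lit 14565234880) (nat_lit 1140) (nat_lit 9649332493) (nat_lit 135) (nat_lit 5) (nat_lit 149) (nat_lit 5) (nat_lit 150) (nat_lit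 5) (nat_lit 288) (nat_lit 282) (nat_lit 150)) (XT.lf (nat_lit 76) (nat_lit 11104641786) (nat_lit 0) (nat_lit 4489892642) (nat_lit 1140) (nat_lit 22735684757) (nat_lit 136) (nat_lit 5) (nat_lit 135) (nat_lit 5) (nat_lit 150) (nat_lit 5) (nat_lit 289) (nat_lit 282) (nat_lit 149))) (XT.nd (nat_lit 78) (nat_lit 0) (nat_lit 76) (XT.lf (nat_lit 0) (nat_lit 18540657375) (nat_lit 1064) (nat_lit 1214594037) (nat_lit 1140) (nat_lit 19620366202) (nat_lit 136) (nat_lit 5) (nat_lit 150) (nat_lit 5) (nat_lit 151) (nat_lit 5) (nat_lit 290) (nat_lit 282) (nat_lit 148)) (XT.nd (nat_lit 78) (nat_lit 0) (nat_lit 0) (XT.lf (nat_lit 0) (nat_lit 21975059335) (nat_lit 1064) (nat_lit 13942170457) (nat_lit 1140) (nat_lit 4545839819) (nat_lit 137) (nat_lit 5) (nat_lit 151) (nat_lit 5) (nat_lit 152) (nat_lit 5) (nat_lit 291) (nat_lit 282) (nat_lit 147)) (XT.lf (nat_lit 76) (nat_lit 14137092503) (nat_lit 0) (nat_lit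 11787900044) (nat_lit 1140) (nat_lit 15669599547) (nat_lit 138) (nat_lit 5) (nat_lit 137) (nat_lit 5) (nat_lit 152) (nat_lit 5) (nat_lit 292) (nat_lit 282) (nat_lit 146)))))) (XT.nd (nat_lit 390) (nat_lit 1824) (nat_lit 0) (XT.nd (nat_lit 156) (nat_lit 1064) (nat_lit 0) (XT.nd (nat_lit 78) (nat_lit 0) (nat_lit 0) (XT.lf (nat_lit 0) (nat_lit 1018173489) (nat_lit 1064) (nat_lit 29335277531) (nat_lit 1140) (nat_lit 12420820459) (nat_lit 124) (nat_lit 5) (nat_lit 138) (nat_lit 5) (nat_lit 139) (nat_lit 5) (nat_lit 293) (nat_lit 282) (nat_lit 145)) (XT.lf (nat_lit 0) (nat_lit 31366833545) (nat_lit 1064) (nat_lit 4033184764) (nat_lit 1140) (nat_lit 8601027032) (nat_lit 124) (nat_lit 5) (nat_lit 138) (nat_lit 5) (nat_lit 139) (nat_lit 5) (nat_lit 294) (nat_lit 282) (nat_lit 144))) (XT.nd (nat_lit 78) (nat_lit 532) (nat_lit 0) (XT.lf (nat_lit 0) (nat_lit 18076698294) (nat_lit 532) (nat_lit 23008998970)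 (nat_lit 608) (nat_lit 4191867689) (nat_lit 117) (nat_lit 5) (nat_lit 124) (nat_lit 5) (nat_lit 125) (nat_lit 5) (nat_lit 295) (nat_lit 282) (nat_lit 143)) (XT.nd (nat_lit 78) (nat_lit 0) (nat_lit 0) (XT.lf (nat_lit 0) (nat_lit 668587451) (nat_lit 532) (nat_lit 42642074295) (nat_lit 76) (nat_lit 3299950925) (nat_lit 110) (nat_lit 5) (nat_lit 117) (nat_lit 5) (nat_lit 111) (nat_lit 5) (nat_lit 296) (nat_lit 282) (nat_lit 142)) (XT.lf (nat_lit 0) (nat_lit 6197838247) (nat_lit 532) (nat_lit 11017607909) (nat_lit 76) (nat_lit 30778256792) (nat_lit 110) (nat_lit 5) (nat_lit 117) (nat_lit 5) (nat_lit 111) (nat_lit 5) (nat_lit 297) (nat_lit 282) (nat_lit 141))))) (XT.nd (nat_lit 156) (nat_lit 836) (nat_lit 0) (XT.nd (nat_lit 78) (nat_lit 456) (nat_lit 0) (XT.lf (nat_lit 0) (nat_lit 12317910909) (nat_lit 608) (nat_lit 26913031924) (nat_lit 76) (nat_lit 10205582979) (nat_lit 103) (nat_lit 5) (nat_lit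 111) (nat_lit 5) (nat_lit 104) (nat_lit 5) (nat_lit 298) (nat_lit 282) (nat_lit 140)) (XT.lf (nat_lit 0) (nat_lit 6982091225) (nat_lit 456) (nat_lit 12114240234) (nat_lit 532) (nat_lit 31844596463) (nat_lit 97) (nat_lit 5) (nat_lit 103) (nat_lit 5) (nat_lit 104) (nat_lit 5) (nat_lit 299) (nat_lit 282) (nat_lit 139))) (XT.nd (nat_lit 78) (nat_lit 836) (nat_lit 0) (XT.lf (nat_lit 0) (nat_lit 26647754194) (nat_lit 532) (nat_lit 9540933303) (nat_lit 76) (nat_lit 16318848236) (nat_lit 97) (nat_lit 5) (nat_lit 104) (nat_lit 5) (nat_lit 98) (nat_lit 5) (nat_lit 300) (nat_lit 282) (nat_lit 138)) (XT.nd (nat_lit 78) (nat_lit 380) (nat_lit 0) (XT.lf (nat_lit 0) (nat_lit 26999518491) (nat_lit 456) (nat_lit 7956224328) (nat_lit 532) (nat_lit 19185368921) (nat_lit 91) (nat_lit 5) (nat_lit 97) (nat_lit 5) (nat_lit 98) (nat_lit 5) (nat_lit 301) (nat_lit 282) (nat_lit 137)) (XT.lf (nat_lit 0) (nat_lit 9689644973)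 (nat_lit 380) (nat_lit 34387585727) (nat_lit 456) (nat_lit 11767200136) (nat_lit 86) (nat_lit 5) (nat_lit 91) (nat_lit 5) (nat_lit 92) (nat_lit 5) (nat_lit 302) (nat_lit 282) (nat_lit 136))))))) (XT.nd (nat_lit 780) (nat_lit 1140) (nat_lit 0) (XT.nd (nat_lit 390) (nat_lit 988) (nat_lit 0) (XT.nd (nat_lit 156) (nat_lit 760) (nat_lit 0) (XT.nd (nat_lit 78) (nat_lit 456) (nat_lit 0) (XT.lf (nat_lit 0) (nat_lit 48844870711) (nat_lit 380) (nat_lit 5166231471) (nat_lit 456) (nat_lit 3611131365) (nat_lit 86) (nat_lit 5) (nat_lit 91) (nat_lit 5) (nat_lit 92) (nat_lit 5) (nat_lit 303) (nat_lit 282) (nat_lit 135)) (XT.lf (nat_lit 0) (nat_lit 5400501621) (nat_lit 456) (nat_lit 28703392954) (nat_lit 76) (nat_lit 25367277772) (nat_lit 80) (nat_lit 5) (nat_lit 86) (nat_lit 5) (nat_lit 81) (nat_lit 5) (nat_lit 304) (nat_lit 282) (nat_lit 134))) (XT.nd (nat_lit 78) (nat_lit 380) (nat_lit 0) (XT.lf (nat_lit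 0) (nat_lit 11189851211) (nat_lit 380) (nat_lit 3847410964) (nat_lit 456) (nat_lit 46366752515) (nat_lit 75) (nat_lit 5) (nat_lit 80) (nat_lit 5) (nat_lit 81) (nat_lit 5) (nat_lit 305) (nat_lit 282) (nat_lit 133)) (XT.nd (nat_lit 78) (nat_lit 380) (nat_lit 0) (XT.lf (nat_lit 0) (nat_lit 25720328656) (nat_lit 456) (nat_lit 10021150458) (nat_lit 76) (nat_lit 27675091820) (nat_lit 75) (nat_lit 5) (nat_lit 81) (nat_lit 5) (nat_lit 76) (nat_lit 5) (nat_lit 306) (nat_lit 282) (nat_lit 132)) (XT.lf (nat_lit 0) (nat_lit 32779700088) (nat_lit 380) (nat_lit 4509554926) (nat_lit 456) (nat_lit 28229954319) (nat_lit 70) (nat_lit 5) (nat_lit 75) (nat_lit 5) (nat_lit 76) (nat_lit 5) (nat_lit 307) (nat_lit 282) (nat_lit 131))))) (XT.nd (nat_lit 156) (nat_lit 684) (nat_lit 0) (XT.nd (nat_lit 78) (nat_lit 0) (nat_lit 0) (XT.lf (nat_lit 0) (nat_lit 10128234510) (nat_lit 304) (nat_lit 39779667626) (nat_lit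 380) (nat_lit 17804944558) (nat_lit 66) (nat_lit 5) (nat_lit 70) (nat_lit 5) (nat_lit 71) (nat_lit 5) (nat_lit 308) (nat_lit 282) (nat_lit 130)) (XT.lf (nat_lit 0) (nat_lit 55774557614) (nat_lit 304) (nat_lit 7762948549) (nat_lit 380) (nat_lit 6467264051) (nat_lit 66) (nat_lit 5) (nat_lit 70) (nat_lit 5) (nat_lit 71) (nat_lit 5) (nat_lit 309) (nat_lit 282) (nat_lit 129))) (XT.nd (nat_lit 78) (nat_lit 304) (nat_lit 0) (XT.lf (nat_lit 0) (nat_lit 5887526065) (nat_lit 380) (nat_lit 40793821671) (nat_lit 76) (nat_lit 25711689013) (nat_lit 61) (nat_lit 5) (nat_lit 66) (nat_lit 5) (nat_lit 62) (nat_lit 5) (nat_lit 310) (nat_lit 282) (nat_lit 128)) (XT.nd (nat_lit 78) (nat_lit 0) (nat_lit 0) (XT.lf (nat_lit 0) (nat_lit 5072611968) (nat_lit 304) (nat_lit 13928058487) (nat_lit 380) (nat_lit 55889898580) (nat_lit 57) (nat_lit 5) (nat_lit 61) (nat_lit 5) (nat_lit 62) (nat_lit 5) (nat_lit 311) (nat_lit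 282) (nat_lit 127)) (XT.lf (nat_lit 0) (nat_lit 33388404080) (nat_lit 380) (nat_lit 23618841214) (nat_lit 76) (nat_lit 20487168897) (nat_lit 57) (nat_lit 5) (nat_lit 62) (nat_lit 5) (nat_lit 58) (nat_lit 5) (nat_lit 312) (nat_lit 282) (nat_lit 126)))))) (XT.nd (nat_lit 390) (nat_lit 228) (nat_lit 0) (XT.nd (nat_lit 156) (nat_lit 608) (nat_lit 0) (XT.nd (nat_lit 78) (nat_lit 0) (nat_lit 0) (XT.lf (nat_lit 0) (nat_lit 25239847790) (nat_lit 304) (nat_lit 23637101445) (nat_lit 380) (nat_lit 31340063637) (nat_lit 53) (nat_lit 5) (nat_lit 57) (nat_lit 5) (nat_lit 58) (nat_lit 5) (nat_lit 313) (nat_lit 282) (nat_lit 125)) (XT.lf (nat_lit 0) (nat_lit 65493345057) (nat_lit 380) (nat_lit 6147724886) (nat_lit 76) (nat_lit 11424072665) (nat_lit 53) (nat_lit 5) (nat_lit 58) (nat_lit 5) (nat_lit 54) (nat_lit 5) (nat_lit 314) (nat_lit 282) (nat_lit 124))) (XT.nd (nat_lit 78) (nat_lit 380) (nat_lit 0) (XT.lf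 (nat_lit 0) (nat_lit 45775663189) (nat_lit 228) (nat_lit 37841860274) (nat_lit 304) (nat_lit 2417850125) (nat_lit 50) (nat_lit 5) (nat_lit 53) (nat_lit 5) (nat_lit 54) (nat_lit 5) (nat_lit 315) (nat_lit 282) (nat_lit 123)) (XT.nd (nat_lit 78) (nat_lit 0) (nat_lit 0) (XT.lf (nat_lit 0) (nat_lit 11360653165) (nat_lit 304) (nat_lit 2041348987) (nat_lit 380) (nat_lit 75743080413) (nat_lit 45) (nat_lit 5) (nat_lit 49) (nat_lit 5) (nat_lit 50) (nat_lit 5) (nat_lit 316) (nat_lit 282) (nat_lit 122)) (XT.lf (nat_lit 0) (nat_lit 30722021975) (nat_lit 380) (nat_lit 26366878454) (nat_lit 76) (nat_lit 35297886201) (nat_lit 45) (nat_lit 5) (nat_lit 50) (nat_lit 5) (nat_lit 46) (nat_lit 5) (nat_lit 317) (nat_lit 282) (nat_lit 121))))) (XT.nd (nat_lit 34866) (nat_lit 0) (nat_lit 6840) (XT.nd (nat_lit 78) (nat_lit 0) (nat_lit 0) (XT.lf (nat_lit 0) (nat_lit 28148169605) (nat_lit 228) (nat_lit 21049580972)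 (nat_lit 304) (nat_lit 46584137140) (nat_lit 42) (nat_lit 5) (nat_lit 45) (nat_lit 5) (nat_lit 46) (nat_lit 5) (nat_lit 318) (nat_lit 282) (nat_lit 120)) (XT.nd (nat_lit 34710) (nat_lit 0) (nat_lit 6764) (XT.lf (nat_lit 0) (nat_lit 69031360970) (nat_lit 304) (nat_lit 13564770546) (nat_lit 76) (nat_lit 16737592392) (nat_lit 42) (nat_lit 5) (nat_lit 46) (nat_lit 5) (nat_lit 43) (nat_lit 5) (nat_lit 319) (nat_lit 282) (nat_lit 119)) (XT.lf (nat_lit 0) (nat_lit 3212889587) (nat_lit 1140) (nat_lit 6807680102) (nat_lit 1140) (nat_lit 6807680102) (nat_lit 131) (nat_lit 3) (nat_lit 146) (nat_lit 3) (nat_lit 146) (nat_lit 5) (nat_lit 283) (nat_lit 283) (nat_lit 154)))) (XT.nd (nat_lit 78) (nat_lit 0) (nat_lit 0) (XT.lf (nat_lit 0) (nat_lit 6776351853) (nat_lit 1064) (nat_lit 25651398111) (nat_lit 1140) (nat_lit 2064208441) (nat_lit 132) (nat_lit 5) (nat_lit 146) (nat_lit 5) (nat_lit 147) (nat_lit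 5) (nat_lit 284) (nat_lit 283) (nat_lit 153)) (XT.nd (nat_lit 78) (nat_lit 0) (nat_lit 76) (XT.lf (nat_lit 0) (nat_lit 7482866872) (nat_lit 1064) (nat_lit 2867909539) (nat_lit 1140) (nat_lit 25008277723) (nat_lit 132) (nat_lit 5) (nat_lit 146) (nat_lit 5) (nat_lit 147) (nat_lit 5) (nat_lit 285) (nat_lit 283) (nat_lit 152)) (XT.lf (nat_lit 0) (nat_lit 8551339115) (nat_lit 1064) (nat_lit 14918060719) (nat_lit 1140) (nat_lit 12790321466) (nat_lit 133) (nat_lit 5) (nat_lit 147) (nat_lit 5) (nat_lit 148) (nat_lit 5) (nat_lit 286) (nat_lit 283) (nat_lit 151))))))))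
noncomputable def xc117 : XT := (XT.nd (nat_lit 1560) (nat_lit 2508) (nat_lit 0) (XT.nd (nat_lit 780) (nat_lit 3192) (nat_lit 0) (XT.nd (nat_lit 390) (nat_lit 1216) (nat_lit 0) (XT.nd (nat_lit 156) (nat_lit 0) (nat_lit 152) (XT.nd (nat_lit 78) (nat_lit 0) (nat_lit 76) (XT.lf (nat_lit 76) (nat_lit 9698584500) (nat_lit 0) (nat_lit 197251104) (nat_lit 1140) (nat_lit 27302923055) (nat_lit 134) (nat_lit 5) (nat_lit 133) (nat_lit 5) (nat_lit 148) (nat_lit 5) (nat_lit 287) (nat_lit 283) (nat_lit 150)) (XT.lf (nat_lit 0) (nat_lit 11690948302) (nat_lit 1064) (nat_lit 2559946020) (nat_lit 1140) (nat_lit 23922365968) (nat_lit 134) (nat_lit 5) (nat_lit 148) (nat_lit 5) (nat_lit 149) (nat_lit 5) (nat_lit 288) (nat_lit 283) (nat_lit 149))) (XT.nd (nat_lit 78) (nat_lit 0) (nat_lit 0) (XT.lf (nat_lit 0) (nat_lit 13903820294) (nat_lit 1064) (nat_lit 15196031114) (nat_lit 1140) (nat_lit 10086808957) (nat_lit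 135) (nat_lit 5) (nat_lit 149) (nat_lit 5) (nat_lit 150) (nat_lit 5) (nat_lit 289) (nat_lit 283) (nat_lit 148)) (XT.nd (nat_lit 78) (nat_lit 0) (nat_lit 76) (XT.lf (nat_lit 76) (nat_lit 11754545556) (nat_lit 0) (nat_lit 4751962957) (nat_lit 1140) (nat_lit 23735859584) (nat_lit 136) (nat_lit 5) (nat_lit 135) (nat_lit 5) (nat_lit 150) (nat_lit 5) (nat_lit 290) (nat_lit 283) (nat_lit 147)) (XT.lf (nat_lit 0) (nat_lit 19593296114) (nat_lit 1064) (nat_lit 1180661902) (nat_lit 1140) (nat_lit 20566296469) (nat_lit 136) (nat_lit 5) (nat_lit 150) (nat_lit 5) (nat_lit 151) (nat_lit 5) (nat_lit 291) (nat_lit 283) (nat_lit 146))))) (XT.nd (nat_lit 156) (nat_lit 1520) (nat_lit 0) (XT.nd (nat_lit 78) (nat_lit 0) (nat_lit 0) (XT.lf (nat_lit 0) (nat_lit 23194046267) (nat_lit 1064) (nat_lit 14543082876) (nat_lit 1140) (nat_lit 4745128993) (nat_lit 137) (nat_lit 5) (nat_lit 151) (nat_lit 5) (nat_lit 152)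 (nat_lit 5) (nat_lit 292) (nat_lit 283) (nat_lit 145)) (XT.lf (nat_lit 76) (nat_lit 14937385790) (nat_lit 0) (nat_lit 12399263111) (nat_lit 1140) (nat_lit 16333869702) (nat_lit 138) (nat_lit 5) (nat_lit 137) (nat_lit 5) (nat_lit 152) (nat_lit 5) (nat_lit 293) (nat_lit 283) (nat_lit 144))) (XT.nd (nat_lit 78) (nat_lit 532) (nat_lit 0) (XT.lf (nat_lit 0) (nat_lit 1163741623) (nat_lit 1064) (nat_lit 30818001927) (nat_lit 1140) (nat_lit 12927598244) (nat_lit 124) (nat_lit 5) (nat_lit 138) (nat_lit 5) (nat_lit 139) (nat_lit 5) (nat_lit 294) (nat_lit 283) (nat_lit 143)) (XT.nd (nat_lit 78) (nat_lit 532) (nat_lit 0) (XT.lf (nat_lit 0) (nat_lit 33025327088) (nat_lit 1064) (nat_lit 4250044497) (nat_lit 1140) (nat_lit 8922256252) (nat_lit 124) (nat_lit 5) (nat_lit 138) (nat_lit 5) (nat_lit 139) (nat_lit 5) (nat_lit 295) (nat_lit 283) (nat_lit 142)) (XT.lf (nat_lit 0) (nat_lit 19071613128) (nat_lit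 532) (nat_lit 24169440938) (nat_lit 608) (nat_lit 4297062500) (nat_lit 117) (nat_lit 5) (nat_lit 124) (nat_lit 5) (nat_lit 125) (nat_lit 5) (nat_lit 296) (nat_lit 283) (nat_lit 141)))))) (XT.nd (nat_lit 390) (nat_lit 1672) (nat_lit 0) (XT.nd (nat_lit 156) (nat_lit 988) (nat_lit 0) (XT.nd (nat_lit 78) (nat_lit 0) (nat_lit 0) (XT.lf (nat_lit 0) (nat_lit 800302586) (nat_lit 532) (nat_lit 44680155940) (nat_lit 76) (nat_lit 3457463921) (nat_lit 110) (nat_lit 5) (nat_lit 117) (nat_lit 5) (nat_lit 111) (nat_lit 5) (nat_lit 297) (nat_lit 283) (nat_lit 140)) (XT.lf (nat_lit 0) (nat_lit 6601335647) (nat_lit 532) (nat_lit 11478943476) (nat_lit 76) (nat_lit 32310041488) (nat_lit 110) (nat_lit 5) (nat_lit 117) (nat_lit 5) (nat_lit 111) (nat_lit 5) (nat_lit 298) (nat_lit 283) (nat_lit 139))) (XT.nd (nat_lit 78) (nat_lit 456) (nat_lit 0) (XT.lf (nat_lit 0) (nat_lit 13023761727) (nat_lit 608) (nat_lit 28168730083)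 (nat_lit 76) (nat_lit 10712914663) (nat_lit 103) (nat_lit 5) (nat_lit 111) (nat_lit 5) (nat_lit 104) (nat_lit 5) (nat_lit 299) (nat_lit 283) (nat_lit 138)) (XT.nd (nat_lit 78) (nat_lit 0) (nat_lit 0) (XT.lf (nat_lit 0) (nat_lit 7418570725) (nat_lit 456) (nat_lit 12719088896) (nat_lit 532) (nat_lit 33347484138) (nat_lit 97) (nat_lit 5) (nat_lit 103) (nat_lit 5) (nat_lit 104) (nat_lit 5) (nat_lit 300) (nat_lit 283) (nat_lit 137)) (XT.lf (nat_lit 0) (nat_lit 28062541798) (nat_lit 532) (nat_lit 9932077875) (nat_lit 76) (nat_lit 17135596841) (nat_lit 97) (nat_lit 5) (nat_lit 104) (nat_lit 5) (nat_lit 98) (nat_lit 5) (nat_lit 301) (nat_lit 283) (nat_lit 136))))) (XT.nd (nat_lit 156) (nat_lit 836) (nat_lit 0) (XT.nd (nat_lit 78) (nat_lit 380) (nat_lit 0) (XT.lf (nat_lit 0) (nat_lit 28432934143) (nat_lit 456) (nat_lit 8349873981) (nat_lit 532) (nat_lit 20062767516) (nat_lit 91) (nat_lit 5) (nat_lit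 97) (nat_lit 5) (nat_lit 98) (nat_lit 5) (nat_lit 302) (nat_lit 283) (nat_lit 135)) (XT.lf (nat_lit 0) (nat_lit 10257653706) (nat_lit 380) (nat_lit 36099782548) (nat_lit 456) (nat_lit 12276722620) (nat_lit 86) (nat_lit 5) (nat_lit 91) (nat_lit 5) (nat_lit 92) (nat_lit 5) (nat_lit 303) (nat_lit 283) (nat_lit 134))) (XT.nd (nat_lit 78) (nat_lit 836) (nat_lit 0) (XT.lf (nat_lit 0) (nat_lit 51366663279) (nat_lit 380) (nat_lit 5417702601) (nat_lit 456) (nat_lit 3716604578) (nat_lit 86) (nat_lit 5) (nat_lit 91) (nat_lit 5) (nat_lit 92) (nat_lit 5) (nat_lit 304) (nat_lit 283) (nat_lit 133)) (XT.nd (nat_lit 78) (nat_lit 380) (nat_lit 0) (XT.lf (nat_lit 0) (nat_lit 5741474406) (nat_lit 456) (nat_lit 30057460078) (nat_lit 76) (nat_lit 26643489123) (nat_lit 80) (nat_lit 5) (nat_lit 86) (nat_lit 5) (nat_lit 81) (nat_lit 5) (nat_lit 305) (nat_lit 283) (nat_lit 132)) (XT.lf (nat_lit 0) (nat_lit 11828121508)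 (nat_lit 380) (nat_lit 4029330279) (nat_lit 456) (nat_lit 48614543439) (nat_lit 75) (nat_lit 5) (nat_lit 80) (nat_lit 5) (nat_lit 81) (nat_lit 5) (nat_lit 306) (nat_lit 283) (nat_lit 131))))))) (XT.nd (nat_lit 780) (nat_lit 608) (nat_lit 0) (XT.nd (nat_lit 390) (nat_lit 836) (nat_lit 0) (XT.nd (nat_lit 156) (nat_lit 684) (nat_lit 0) (XT.nd (nat_lit 78) (nat_lit 380) (nat_lit 0) (XT.lf (nat_lit 0) (nat_lit 27071513628) (nat_lit 456) (nat_lit 10445162769) (nat_lit 76) (nat_lit 29068605737) (nat_lit 75) (nat_lit 5) (nat_lit 81) (nat_lit 5) (nat_lit 76) (nat_lit 5) (nat_lit 307) (nat_lit 283) (nat_lit 130)) (XT.lf (nat_lit 0) (nat_lit 34493521819) (nat_lit 380) (nat_lit 4722980598) (nat_lit 456) (nat_lit 29576629281) (nat_lit 70) (nat_lit 5) (nat_lit 75) (nat_lit 5) (nat_lit 76) (nat_lit 5) (nat_lit 308) (nat_lit 283) (nat_lit 129))) (XT.nd (nat_lit 78) (nat_lit 380) (nat_lit 0) (XT.lf (nat_lit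 0) (nat_lit 10709204932) (nat_lit 304) (nat_lit 41754714257) (nat_lit 380) (nat_lit 18632603980) (nat_lit 66) (nat_lit 5) (nat_lit 70) (nat_lit 5) (nat_lit 71) (nat_lit 5) (nat_lit 309) (nat_lit 283) (nat_lit 128)) (XT.nd (nat_lit 78) (nat_lit 380) (nat_lit 0) (XT.lf (nat_lit 0) (nat_lit 58634293777) (nat_lit 304) (nat_lit 8137822880) (nat_lit 380) (nat_lit 6731019820) (nat_lit 66) (nat_lit 5) (nat_lit 70) (nat_lit 5) (nat_lit 71) (nat_lit 5) (nat_lit 310) (nat_lit 283) (nat_lit 127)) (XT.lf (nat_lit 0) (nat_lit 6238372328) (nat_lit 380) (nat_lit 42761591771) (nat_lit 76) (nat_lit 27010900762) (nat_lit 61) (nat_lit 5) (nat_lit 66) (nat_lit 5) (nat_lit 62) (nat_lit 5) (nat_lit 311) (nat_lit 283) (nat_lit 126))))) (XT.nd (nat_lit 156) (nat_lit 532) (nat_lit 0) (XT.nd (nat_lit 78) (nat_lit 0) (nat_lit 0) (XT.lf (nat_lit 0) (nat_lit 5396101950) (nat_lit 304) (nat_lit 14609054473) (nat_lit 380)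 (nat_lit 58628184036) (nat_lit 57) (nat_lit 5) (nat_lit 61) (nat_lit 5) (nat_lit 62) (nat_lit 5) (nat_lit 312) (nat_lit 283) (nat_lit 125)) (XT.lf (nat_lit 0) (nat_lit 35109824803) (nat_lit 380) (nat_lit 24731718217) (nat_lit 76) (nat_lit 21525914288) (nat_lit 57) (nat_lit 5) (nat_lit 62) (nat_lit 5) (nat_lit 58) (nat_lit 5) (nat_lit 313) (nat_lit 283) (nat_lit 124))) (XT.nd (nat_lit 78) (nat_lit 228) (nat_lit 0) (XT.lf (nat_lit 0) (nat_lit 26567954166) (nat_lit 304) (nat_lit 24803002363) (nat_lit 380) (nat_lit 32855290214) (nat_lit 53) (nat_lit 5) (nat_lit 57) (nat_lit 5) (nat_lit 58) (nat_lit 5) (nat_lit 314) (nat_lit 283) (nat_lit 123)) (XT.nd (nat_lit 78) (nat_lit 228) (nat_lit 0) (XT.lf (nat_lit 0) (nat_lit 68815929637) (nat_lit 380) (nat_lit 6390751703) (nat_lit 76) (nat_lit 12010174233) (nat_lit 53) (nat_lit 5) (nat_lit 58) (nat_lit 5) (nat_lit 54) (nat_lit 5) (nat_lit 315) (nat_lit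 283) (nat_lit 122)) (XT.lf (nat_lit 0) (nat_lit 48126960925) (nat_lit 228) (nat_lit 39717675189) (nat_lit 304) (nat_lit 2491017492) (nat_lit 50) (nat_lit 5) (nat_lit 53) (nat_lit 5) (nat_lit 54) (nat_lit 5) (nat_lit 316) (nat_lit 283) (nat_lit 121)))))) (XT.nd (nat_lit 35100) (nat_lit 0) (nat_lit 6840) (XT.nd (nat_lit 156) (nat_lit 228) (nat_lit 0) (XT.nd (nat_lit 78) (nat_lit 0) (nat_lit 0) (XT.lf (nat_lit 0) (nat_lit 11990408809) (nat_lit 304) (nat_lit 2126852341) (nat_lit 380) (nat_lit 79483626863) (nat_lit 45) (nat_lit 5) (nat_lit 49) (nat_lit 5) (nat_lit 50) (nat_lit 5) (nat_lit 317) (nat_lit 283) (nat_lit 120)) (XT.lf (nat_lit 0) (nat_lit 32301283183) (nat_lit 380) (nat_lit 27625210528) (nat_lit 76) (nat_lit 37078248006) (nat_lit 45) (nat_lit 5) (nat_lit 50) (nat_lit 5) (nat_lit 46) (nat_lit 5) (nat_lit 318) (nat_lit 283) (nat_lit 119))) (XT.nd (nat_lit 34788) (nat_lit 0) (nat_lit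 6764) (XT.lf (nat_lit 0) (nat_lit 29613869706) (nat_lit 228) (nat_lit 22085433601) (nat_lit 304) (nat_lit 48870343659) (nat_lit 42) (nat_lit 5) (nat_lit 45) (nat_lit 5) (nat_lit 46) (nat_lit 5) (nat_lit 319) (nat_lit 283) (nat_lit 118)) (XT.nd (nat_lit 78) (nat_lit 0) (nat_lit 76) (XT.lf (nat_lit 0) (nat_lit 3456724253) (nat_lit 1140) (nat_lit 7105095247) (nat_lit 1140) (nat_lit 7105095247) (nat_lit 131) (nat_lit 3) (nat_lit 146) (nat_lit 3) (nat_lit 146) (nat_lit 5) (nat_lit 284) (nat_lit 284) (nat_lit 152)) (XT.lf (nat_lit 0) (nat_lit 7273700853) (nat_lit 1064) (nat_lit 26844507719) (nat_lit 1140) (nat_lit 2093112140) (nat_lit 132) (nat_lit 5) (nat_lit 146) (nat_lit 5) (nat_lit 147) (nat_lit 5) (nat_lit 285) (nat_lit 284) (nat_lit 151))))) (XT.nd (nat_lit 234) (nat_lit 0) (nat_lit 152) (XT.nd (nat_lit 78) (nat_lit 0) (nat_lit 76) (XT.lf (nat_lit 0) (nat_lit 8007992508) (nat_lit 1064) (nat_lit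 2926104733) (nat_lit 1140) (nat_lit 26187923301) (nat_lit 132) (nat_lit 5) (nat_lit 146) (nat_lit 5) (nat_lit 147) (nat_lit 5) (nat_lit 286) (nat_lit 284) (nat_lit 150)) (XT.nd (nat_lit 78) (nat_lit 0) (nat_lit 0) (XT.lf (nat_lit 0) (nat_lit 9122899902) (nat_lit 1064) (nat_lit 15575838651) (nat_lit 1140) (nat_lit 13369213922) (nat_lit 133) (nat_lit 5) (nat_lit 147) (nat_lit 5) (nat_lit 148) (nat_lit 5) (nat_lit 287) (nat_lit 284) (nat_lit 149)) (XT.lf (nat_lit 76) (nat_lit 10269112741) (nat_lit 0) (nat_lit 259474456) (nat_lit 1140) (nat_lit 28525556243) (nat_lit 134) (nat_lit 5) (nat_lit 133) (nat_lit 5) (nat_lit 148) (nat_lit 5) (nat_lit 288) (nat_lit 284) (nat_lit 148)))) (XT.nd (nat_lit 78) (nat_lit 0) (nat_lit 76) (XT.lf (nat_lit 0) (nat_lit 12406406658) (nat_lit 1064) (nat_lit 2601604757) (nat_lit 1140) (nat_lit 25069589934) (nat_lit 134) (nat_lit 5) (nat_lit 148) (nat_lit 5) (nat_lit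 149) (nat_lit 5) (nat_lit 289) (nat_lit 284) (nat_lit 147)) (XT.nd (nat_lit 78) (nat_lit 0) (nat_lit 0) (XT.lf (nat_lit 0) (nat_lit 14724094472) (nat_lit 1064) (nat_lit 15867428579) (nat_lit 1140) (nat_lit 10550342003) (nat_lit 135) (nat_lit 5) (nat_lit 149) (nat_lit 5) (nat_lit 150) (nat_lit 5) (nat_lit 290) (nat_lit 284) (nat_lit 146)) (XT.lf (nat_lit 76) (nat_lit 12428142839) (nat_lit 0) (nat_lit 5023643357) (nat_lit 1140) (nat_lit 24798743800) (nat_lit 136) (nat_lit 5) (nat_lit 135) (nat_lit 5) (nat_lit 150) (nat_lit 5) (nat_lit 291) (nat_lit 284) (nat_lit 145))))))))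
noncomputable def xc118 : XT := (XT.nd (nat_lit 1560) (nat_lit 1596) (nat_lit 0) (XT.nd (nat_lit 780) (nat_lit 2356) (nat_lit 0) (XT.nd (nat_lit 390) (nat_lit 2052) (nat_lit 0) (XT.nd (nat_lit 156) (nat_lit 912) (nat_lit 0) (XT.nd (nat_lit 78) (nat_lit 0) (nat_lit 76) (XT.lf (nat_lit 0) (nat_lit 20686889146) (nat_lit 1064) (nat_lit 1153833921) (nat_lit 1140) (nat_lit 21562785402) (nat_lit 136) (nat_lit 5) (nat_lit 150) (nat_lit 5) (nat_lit 151) (nat_lit 5) (nat_lit 292) (nat_lit 284) (nat_lit 144)) (XT.lf (nat_lit 0) (nat_lit 24462804330) (nat_lit 1064) (nat_lit 15182984317) (nat_lit 1140) (nat_lit 4956986062) (nat_lit 137) (nat_lit 5) (nat_lit 151) (nat_lit 5) (nat_lit 152) (nat_lit 5) (nat_lit 293) (nat_lit 284) (nat_lit 143))) (XT.nd (nat_lit 78) (nat_lit 988) (nat_lit 0) (XT.lf (nat_lit 76) (nat_lit 15769006701) (nat_lit 0) (nat_lit 13039151948) (nat_lit 1140) (nat_lit 17042436364) (nat_lit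 138) (nat_lit 5) (nat_lit 137) (nat_lit 5) (nat_lit 152) (nat_lit 5) (nat_lit 294) (nat_lit 284) (nat_lit 142)) (XT.nd (nat_lit 78) (nat_lit 0) (nat_lit 0) (XT.lf (nat_lit 0) (nat_lit 1307787624) (nat_lit 1064) (nat_lit 32373378685) (nat_lit 1140) (nat_lit 13470338031) (nat_lit 124) (nat_lit 5) (nat_lit 138) (nat_lit 5) (nat_lit 139) (nat_lit 5) (nat_lit 295) (nat_lit 284) (nat_lit 141)) (XT.lf (nat_lit 0) (nat_lit 34758363843) (nat_lit 1064) (nat_lit 4476334019) (nat_lit 1140) (nat_lit 9269664183) (nat_lit 124) (nat_lit 5) (nat_lit 138) (nat_lit 5) (nat_lit 139) (nat_lit 5) (nat_lit 296) (nat_lit 284) (nat_lit 140))))) (XT.nd (nat_lit 156) (nat_lit 988) (nat_lit 0) (XT.nd (nat_lit 78) (nat_lit 532) (nat_lit 0) (XT.lf (nat_lit 0) (nat_lit 20107805956) (nat_lit 532) (nat_lit 25386976041) (nat_lit 608) (nat_lit 4417223042) (nat_lit 117) (nat_lit 5) (nat_lit 124) (nat_lit 5) (nat_lit 125) (nat_lit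 5) (nat_lit 297) (nat_lit 284) (nat_lit 139)) (XT.lf (nat_lit 0) (nat_lit 929465799) (nat_lit 532) (nat_lit 46828882948) (nat_lit 76) (nat_lit 3623548410) (nat_lit 110) (nat_lit 5) (nat_lit 117) (nat_lit 5) (nat_lit 111) (nat_lit 5) (nat_lit 298) (nat_lit 284) (nat_lit 138))) (XT.nd (nat_lit 78) (nat_lit 988) (nat_lit 0) (XT.lf (nat_lit 0) (nat_lit 7016305366) (nat_lit 532) (nat_lit 11971670851) (nat_lit 76) (nat_lit 33919078127) (nat_lit 110) (nat_lit 5) (nat_lit 117) (nat_lit 5) (nat_lit 111) (nat_lit 5) (nat_lit 299) (nat_lit 284) (nat_lit 137)) (XT.nd (nat_lit 78) (nat_lit 456) (nat_lit 0) (XT.lf (nat_lit 0) (nat_lit 13756541898) (nat_lit 608) (nat_lit 29495576169) (nat_lit 76) (nat_lit 11245886958) (nat_lit 103) (nat_lit 5) (nat_lit 111) (nat_lit 5) (nat_lit 104) (nat_lit 5) (nat_lit 300) (nat_lit 284) (nat_lit 136)) (XT.lf (nat_lit 0) (nat_lit 7868750907) (nat_lit 456) (nat_lit 13354260258)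 (nat_lit 532) (nat_lit 34933822384) (nat_lit 97) (nat_lit 5) (nat_lit 103) (nat_lit 5) (nat_lit 104) (nat_lit 5) (nat_lit 301) (nat_lit 284) (nat_lit 135)))))) (XT.nd (nat_lit 390) (nat_lit 1064) (nat_lit 0) (XT.nd (nat_lit 156) (nat_lit 836) (nat_lit 0) (XT.nd (nat_lit 78) (nat_lit 456) (nat_lit 0) (XT.lf (nat_lit 0) (nat_lit 29540408021) (nat_lit 532) (nat_lit 10350766038) (nat_lit 76) (nat_lit 17993107923) (nat_lit 97) (nat_lit 5) (nat_lit 104) (nat_lit 5) (nat_lit 98) (nat_lit 5) (nat_lit 302) (nat_lit 284) (nat_lit 134)) (XT.lf (nat_lit 0) (nat_lit 29930263142) (nat_lit 456) (nat_lit 8763593019) (nat_lit 532) (nat_lit 20991647524) (nat_lit 91) (nat_lit 5) (nat_lit 97) (nat_lit 5) (nat_lit 98) (nat_lit 5) (nat_lit 303) (nat_lit 284) (nat_lit 133))) (XT.nd (nat_lit 78) (nat_lit 456) (nat_lit 0) (XT.lf (nat_lit 0) (nat_lit 10846297375) (nat_lit 380) (nat_lit 37898256967) (nat_lit 456)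 (nat_lit 12819050793) (nat_lit 86) (nat_lit 5) (nat_lit 91) (nat_lit 5) (nat_lit 92) (nat_lit 5) (nat_lit 304) (nat_lit 284) (nat_lit 132)) (XT.nd (nat_lit 78) (nat_lit 456) (nat_lit 0) (XT.lf (nat_lit 0) (nat_lit 54007149761) (nat_lit 380) (nat_lit 5682383248) (nat_lit 456) (nat_lit 3834331990) (nat_lit 86) (nat_lit 5) (nat_lit 91) (nat_lit 5) (nat_lit 92) (nat_lit 5) (nat_lit 305) (nat_lit 284) (nat_lit 131)) (XT.lf (nat_lit 0) (nat_lit 6092899786) (nat_lit 456) (nat_lit 31486770702) (nat_lit 76) (nat_lit 27982781459) (nat_lit 80) (nat_lit 5) (nat_lit 86) (nat_lit 5) (nat_lit 81) (nat_lit 5) (nat_lit 306) (nat_lit 284) (nat_lit 130))))) (XT.nd (nat_lit 156) (nat_lit 684) (nat_lit 0) (XT.nd (nat_lit 78) (nat_lit 0) (nat_lit 0) (XT.lf (nat_lit 0) (nat_lit 12490981312) (nat_lit 380) (nat_lit 4221317216) (nat_lit 456) (nat_lit 50981282672) (nat_lit 75) (nat_lit 5) (nat_lit 80) (nat_lit 5)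 (nat_lit 81) (nat_lit 5) (nat_lit 307) (nat_lit 284) (nat_lit 129)) (XT.lf (nat_lit 0) (nat_lit 28484199095) (nat_lit 456) (nat_lit 10897538629) (nat_lit 76) (nat_lit 30530888020) (nat_lit 75) (nat_lit 5) (nat_lit 81) (nat_lit 5) (nat_lit 76) (nat_lit 5) (nat_lit 308) (nat_lit 284) (nat_lit 128))) (XT.nd (nat_lit 78) (nat_lit 304) (nat_lit 0) (XT.lf (nat_lit 0) (nat_lit 36286077027) (nat_lit 380) (nat_lit 4948198040) (nat_lit 456) (nat_lit 30996664597) (nat_lit 70) (nat_lit 5) (nat_lit 75) (nat_lit 5) (nat_lit 76) (nat_lit 5) (nat_lit 309) (nat_lit 284) (nat_lit 127)) (XT.nd (nat_lit 78) (nat_lit 0) (nat_lit 0) (XT.lf (nat_lit 0) (nat_lit 11312292114) (nat_lit 304) (nat_lit 43829808926) (nat_lit 380) (nat_lit 19507465194) (nat_lit 66) (nat_lit 5) (nat_lit 70) (nat_lit 5) (nat_lit 71) (nat_lit 5) (nat_lit 310) (nat_lit 284) (nat_lit 126)) (XT.lf (nat_lit 0) (nat_lit 61630415071) (nat_lit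 304) (nat_lit 8532674935) (nat_lit 380) (nat_lit 7013505111) (nat_lit 66) (nat_lit 5) (nat_lit 70) (nat_lit 5) (nat_lit 71) (nat_lit 5) (nat_lit 311) (nat_lit 284) (nat_lit 125))))))) (XT.nd (nat_lit 35646) (nat_lit 0) (nat_lit 5472) (XT.nd (nat_lit 390) (nat_lit 608) (nat_lit 0) (XT.nd (nat_lit 156) (nat_lit 304) (nat_lit 0) (XT.nd (nat_lit 78) (nat_lit 304) (nat_lit 0) (XT.lf (nat_lit 0) (nat_lit 6601510862) (nat_lit 380) (nat_lit 44834436907) (nat_lit 76) (nat_lit 28373806161) (nat_lit 61) (nat_lit 5) (nat_lit 66) (nat_lit 5) (nat_lit 62) (nat_lit 5) (nat_lit 312) (nat_lit 284) (nat_lit 124)) (XT.lf (nat_lit 0) (nat_lit 5729271567) (nat_lit 304) (nat_lit 15325532649) (nat_lit 380) (nat_lit 61508609589) (nat_lit 57) (nat_lit 5) (nat_lit 61) (nat_lit 5) (nat_lit 62) (nat_lit 5) (nat_lit 313) (nat_lit 284) (nat_lit 123))) (XT.nd (nat_lit 78) (nat_lit 304) (nat_lit 0) (XT.lf (nat_lit 0) (nat_lit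 36912482047) (nat_lit 380) (nat_lit 25906567114) (nat_lit 76) (nat_lit 22615259387) (nat_lit 57) (nat_lit 5) (nat_lit 62) (nat_lit 5) (nat_lit 58) (nat_lit 5) (nat_lit 314) (nat_lit 284) (nat_lit 122)) (XT.nd (nat_lit 78) (nat_lit 0) (nat_lit 0) (XT.lf (nat_lit 0) (nat_lit 27956319210) (nat_lit 304) (nat_lit 26028681593) (nat_lit 380) (nat_lit 34451091817) (nat_lit 53) (nat_lit 5) (nat_lit 57) (nat_lit 5) (nat_lit 58) (nat_lit 5) (nat_lit 315) (nat_lit 284) (nat_lit 121)) (XT.lf (nat_lit 0) (nat_lit 72300188547) (nat_lit 380) (nat_lit 6651913391) (nat_lit 76) (nat_lit 12624195811) (nat_lit 53) (nat_lit 5) (nat_lit 58) (nat_lit 5) (nat_lit 54) (nat_lit 5) (nat_lit 316) (nat_lit 284) (nat_lit 120))))) (XT.nd (nat_lit 35022) (nat_lit 0) (nat_lit 6536) (XT.nd (nat_lit 78) (nat_lit 380) (nat_lit 0) (XT.lf (nat_lit 0) (nat_lit 50590011536) (nat_lit 228) (nat_lit 41688794233) (nat_lit 304) (nat_lit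 2572280259) (nat_lit 50) (nat_lit 5) (nat_lit 53) (nat_lit 5) (nat_lit 54) (nat_lit 5) (nat_lit 317) (nat_lit 284) (nat_lit 119)) (XT.lf (nat_lit 0) (nat_lit 12645913816) (nat_lit 304) (nat_lit 2218170836) (nat_lit 380) (nat_lit 83415533766) (nat_lit 45) (nat_lit 5) (nat_lit 49) (nat_lit 5) (nat_lit 50) (nat_lit 5) (nat_lit 318) (nat_lit 284) (nat_lit 118))) (XT.nd (nat_lit 78) (nat_lit 0) (nat_lit 76) (XT.lf (nat_lit 0) (nat_lit 3705016417) (nat_lit 1140) (nat_lit 7421375987) (nat_lit 1140) (nat_lit 7421375987) (nat_lit 131) (nat_lit 3) (nat_lit 146) (nat_lit 3) (nat_lit 146) (nat_lit 5) (nat_lit 285) (nat_lit 285) (nat_lit 150)) (XT.nd (nat_lit 78) (nat_lit 0) (nat_lit 0) (XT.lf (nat_lit 0) (nat_lit 7781178556) (nat_lit 1064) (nat_lit 28105589979) (nat_lit 1140) (nat_lit 2130369359) (nat_lit 132) (nat_lit 5) (nat_lit 146) (nat_lit 5) (nat_lit 147) (nat_lit 5) (nat_lit 286) (nat_lit 285)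 (nat_lit 149)) (XT.lf (nat_lit 0) (nat_lit 8545337524) (nat_lit 1064) (nat_lit 2995130801) (nat_lit 1140) (nat_lit 27433130525) (nat_lit 132) (nat_lit 5) (nat_lit 146) (nat_lit 5) (nat_lit 147) (nat_lit 5) (nat_lit 287) (nat_lit 285) (nat_lit 148)))))) (XT.nd (nat_lit 390) (nat_lit 1216) (nat_lit 0) (XT.nd (nat_lit 156) (nat_lit 0) (nat_lit 76) (XT.nd (nat_lit 78) (nat_lit 0) (nat_lit 0) (XT.lf (nat_lit 0) (nat_lit 9709651546) (nat_lit 1064) (nat_lit 16274698516) (nat_lit 1140) (nat_lit 13982687210) (nat_lit 133) (nat_lit 5) (nat_lit 147) (nat_lit 5) (nat_lit 148) (nat_lit 5) (nat_lit 288) (nat_lit 285) (nat_lit 147)) (XT.lf (nat_lit 76) (nat_lit 10860209209) (nat_lit 0) (nat_lit 319940964) (nat_lit 1140) (nat_lit 29822570595) (nat_lit 134) (nat_lit 5) (nat_lit 133) (nat_lit 5) (nat_lit 148) (nat_lit 5) (nat_lit 289) (nat_lit 285) (nat_lit 146))) (XT.nd (nat_lit 78) (nat_lit 0) (nat_lit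 76) (XT.lf (nat_lit 0) (nat_lit 13145467074) (nat_lit 1064) (nat_lit 2653373373) (nat_lit 1140) (nat_lit 26278720830) (nat_lit 134) (nat_lit 5) (nat_lit 148) (nat_lit 5) (nat_lit 149) (nat_lit 5) (nat_lit 290) (nat_lit 285) (nat_lit 145)) (XT.nd (nat_lit 78) (nat_lit 0) (nat_lit 0) (XT.lf (nat_lit 0) (nat_lit 15573753312) (nat_lit 1064) (nat_lit 16580614892) (nat_lit 1140) (nat_lit 11040845586) (nat_lit 135) (nat_lit 5) (nat_lit 149) (nat_lit 5) (nat_lit 150) (nat_lit 5) (nat_lit 291) (nat_lit 285) (nat_lit 144)) (XT.lf (nat_lit 76) (nat_lit 13127436607) (nat_lit 0) (nat_lit 5305739132) (nat_lit 1140) (nat_lit 25926292090) (nat_lit 136) (nat_lit 5) (nat_lit 135) (nat_lit 5) (nat_lit 150) (nat_lit 5) (nat_lit 292) (nat_lit 285) (nat_lit 143))))) (XT.nd (nat_lit 234) (nat_lit 1444) (nat_lit 0) (XT.nd (nat_lit 78) (nat_lit 0) (nat_lit 76) (XT.lf (nat_lit 0) (nat_lit 21824569863) (nat_lit 1064)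 (nat_lit 1133647090) (nat_lit 1140) (nat_lit 22612057652) (nat_lit 136) (nat_lit 5) (nat_lit 150) (nat_lit 5) (nat_lit 151) (nat_lit 5) (nat_lit 293) (nat_lit 285) (nat_lit 142)) (XT.nd (nat_lit 78) (nat_lit 0) (nat_lit 0) (XT.lf (nat_lit 0) (nat_lit 25784861327) (nat_lit 1064) (nat_lit 15862992760) (nat_lit 1140) (nat_lit 5181797379) (nat_lit 137) (nat_lit 5) (nat_lit 151) (nat_lit 5) (nat_lit 152) (nat_lit 5) (nat_lit 294) (nat_lit 285) (nat_lit 141)) (XT.lf (nat_lit 76) (nat_lit 16634329255) (nat_lit 0) (nat_lit 13709182727) (nat_lit 1140) (nat_lit 17796483967) (nat_lit 138) (nat_lit 5) (nat_lit 137) (nat_lit 5) (nat_lit 152) (nat_lit 5) (nat_lit 295) (nat_lit 285) (nat_lit 140)))) (XT.nd (nat_lit 78) (nat_lit 532) (nat_lit 0) (XT.lf (nat_lit 0) (nat_lit 1451053577) (nat_lit 1064) (nat_lit 34005178378) (nat_lit 1140) (nat_lit 14049850283) (nat_lit 124) (nat_lit 5) (nat_lit 138) (nat_lit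 5) (nat_lit 139) (nat_lit 5) (nat_lit 296) (nat_lit 285) (nat_lit 139)) (XT.nd (nat_lit 78) (nat_lit 532) (nat_lit 0) (XT.lf (nat_lit 0) (nat_lit 36570450198) (nat_lit 1064) (nat_lit 4712656204) (nat_lit 1140) (nat_lit 9643619155) (nat_lit 124) (nat_lit 5) (nat_lit 138) (nat_lit 5) (nat_lit 139) (nat_lit 5) (nat_lit 297) (nat_lit 285) (nat_lit 138)) (XT.lf (nat_lit 0) (nat_lit 21188127930) (nat_lit 532) (nat_lit 26664545302) (nat_lit 608) (nat_lit 4552195229) (nat_lit 117) (nat_lit 5) (nat_lit 124) (nat_lit 5) (nat_lit 125) (nat_lit 5) (nat_lit 298) (nat_lit 285) (nat_lit 137))))))))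
noncomputable def xc119 : XT := (XT.nd (nat_lit 36582) (nat_lit 0) (nat_lit 2736) (XT.nd (nat_lit 780) (nat_lit 1900) (nat_lit 0) (XT.nd (nat_lit 390) (nat_lit 1672) (nat_lit 0) (XT.nd (nat_lit 156) (nat_lit 988) (nat_lit 0) (XT.nd (nat_lit 78) (nat_lit 0) (nat_lit 0) (XT.lf (nat_lit 0) (nat_lit 1056799028) (nat_lit 532) (nat_lit 49092974906) (nat_lit 76) (nat_lit 3798568272) (nat_lit 110) (nat_lit 5) (nat_lit 117) (nat_lit 5) (nat_lit 111) (nat_lit 5) (nat_lit 299) (nat_lit 285) (nat_lit 136)) (XT.lf (nat_lit 0) (nat_lit 7444130100) (nat_lit 532) (nat_lit 12496585642) (nat_lit 76) (nat_lit 35609167693) (nat_lit 110) (nat_lit 5) (nat_lit 117) (nat_lit 5) (nat_lit 111) (nat_lit 5) (nat_lit 300) (nat_lit 285) (nat_lit 135))) (XT.nd (nat_lit 78) (nat_lit 456) (nat_lit 0) (XT.lf (nat_lit 0) (nat_lit 14518375418) (nat_lit 608) (nat_lit 30896350063) (nat_lit 76) (nat_lit 11805756419) (nat_lit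 103) (nat_lit 5) (nat_lit 111) (nat_lit 5) (nat_lit 104) (nat_lit 5) (nat_lit 301) (nat_lit 285) (nat_lit 134)) (XT.nd (nat_lit 78) (nat_lit 0) (nat_lit 0) (XT.lf (nat_lit 0) (nat_lit 8334072031) (nat_lit 456) (nat_lit 14021262991) (nat_lit 532) (nat_lit 36607011497) (nat_lit 97) (nat_lit 5) (nat_lit 103) (nat_lit 5) (nat_lit 104) (nat_lit 5) (nat_lit 302) (nat_lit 285) (nat_lit 133)) (XT.lf (nat_lit 0) (nat_lit 31085219019) (nat_lit 532) (nat_lit 10797632475) (nat_lit 76) (nat_lit 18893426576) (nat_lit 97) (nat_lit 5) (nat_lit 104) (nat_lit 5) (nat_lit 98) (nat_lit 5) (nat_lit 303) (nat_lit 285) (nat_lit 132))))) (XT.nd (nat_lit 156) (nat_lit 836) (nat_lit 0) (XT.nd (nat_lit 78) (nat_lit 380) (nat_lit 0) (XT.lf (nat_lit 0) (nat_lit 31495422369) (nat_lit 456) (nat_lit 9198348941) (nat_lit 532) (nat_lit 21973875371) (nat_lit 91) (nat_lit 5) (nat_lit 97) (nat_lit 5) (nat_lit 98) (nat_lit 5)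 (nat_lit 304) (nat_lit 285) (nat_lit 131)) (XT.lf (nat_lit 0) (nat_lit 11457329690) (nat_lit 380) (nat_lit 39787260784) (nat_lit 456) (nat_lit 13395143508) (nat_lit 86) (nat_lit 5) (nat_lit 91) (nat_lit 5) (nat_lit 92) (nat_lit 5) (nat_lit 305) (nat_lit 285) (nat_lit 130))) (XT.nd (nat_lit 78) (nat_lit 836) (nat_lit 0) (XT.lf (nat_lit 0) (nat_lit 56772952435) (nat_lit 380) (nat_lit 5960874761) (nat_lit 456) (nat_lit 3964277328) (nat_lit 86) (nat_lit 5) (nat_lit 91) (nat_lit 5) (nat_lit 92) (nat_lit 5) (nat_lit 306) (nat_lit 285) (nat_lit 129)) (XT.nd (nat_lit 78) (nat_lit 380) (nat_lit 0) (XT.lf (nat_lit 0) (nat_lit 6455913627) (nat_lit 456) (nat_lit 32994385991) (nat_lit 76) (nat_lit 29388376659) (nat_lit 80) (nat_lit 5) (nat_lit 86) (nat_lit 5) (nat_lit 81) (nat_lit 5) (nat_lit 307) (nat_lit 285) (nat_lit 128)) (XT.lf (nat_lit 0) (nat_lit 13180341016) (nat_lit 380) (nat_lit 4423784821)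 (nat_lit 456) (nat_lit 53472307859) (nat_lit 75) (nat_lit 5) (nat_lit 80) (nat_lit 5) (nat_lit 81) (nat_lit 5) (nat_lit 308) (nat_lit 285) (nat_lit 127)))))) (XT.nd (nat_lit 390) (nat_lit 836) (nat_lit 0) (XT.nd (nat_lit 156) (nat_lit 684) (nat_lit 0) (XT.nd (nat_lit 78) (nat_lit 380) (nat_lit 0) (XT.lf (nat_lit 0) (nat_lit 29962023368) (nat_lit 456) (nat_lit 11379030274) (nat_lit 76) (nat_lit 32065461443) (nat_lit 75) (nat_lit 5) (nat_lit 81) (nat_lit 5) (nat_lit 76) (nat_lit 5) (nat_lit 309) (nat_lit 285) (nat_lit 126)) (XT.lf (nat_lit 0) (nat_lit 38161949238) (nat_lit 380) (nat_lit 5185692671) (nat_lit 456) (nat_lit 32493167987) (nat_lit 70) (nat_lit 5) (nat_lit 75) (nat_lit 5) (nat_lit 76) (nat_lit 5) (nat_lit 310) (nat_lit 285) (nat_lit 125))) (XT.nd (nat_lit 78) (nat_lit 380) (nat_lit 0) (XT.lf (nat_lit 0) (nat_lit 11939246343) (nat_lit 304) (nat_lit 46009833573) (nat_lit 380) (nat_lit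 20431347311) (nat_lit 66) (nat_lit 5) (nat_lit 70) (nat_lit 5) (nat_lit 71) (nat_lit 5) (nat_lit 311) (nat_lit 285) (nat_lit 124)) (XT.nd (nat_lit 78) (nat_lit 380) (nat_lit 0) (XT.lf (nat_lit 0) (nat_lit 64770354514) (nat_lit 304) (nat_lit 8948388872) (nat_lit 380) (nat_lit 7315141182) (nat_lit 66) (nat_lit 5) (nat_lit 70) (nat_lit 5) (nat_lit 71) (nat_lit 5) (nat_lit 312) (nat_lit 285) (nat_lit 123)) (XT.lf (nat_lit 0) (nat_lit 6978044380) (nat_lit 380) (nat_lit 47016989181) (nat_lit 76) (nat_lit 29803707680) (nat_lit 61) (nat_lit 5) (nat_lit 66) (nat_lit 5) (nat_lit 62) (nat_lit 5) (nat_lit 313) (nat_lit 285) (nat_lit 122))))) (XT.nd (nat_lit 234) (nat_lit 228) (nat_lit 0) (XT.nd (nat_lit 78) (nat_lit 304) (nat_lit 0) (XT.lf (nat_lit 0) (nat_lit 6073208633) (nat_lit 304) (nat_lit 16079133955) (nat_lit 380) (nat_lit 64537796396) (nat_lit 57) (nat_lit 5) (nat_lit 61) (nat_lit 5) (nat_lit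 62) (nat_lit 5) (nat_lit 314) (nat_lit 285) (nat_lit 121)) (XT.nd (nat_lit 78) (nat_lit 304) (nat_lit 0) (XT.lf (nat_lit 0) (nat_lit 38800887106) (nat_lit 380) (nat_lit 27145898178) (nat_lit 76) (nat_lit 23757858533) (nat_lit 57) (nat_lit 5) (nat_lit 62) (nat_lit 5) (nat_lit 58) (nat_lit 5) (nat_lit 315) (nat_lit 285) (nat_lit 120)) (XT.lf (nat_lit 0) (nat_lit 29408527311) (nat_lit 304) (nat_lit 27316990150) (nat_lit 380) (nat_lit 36131049667) (nat_lit 53) (nat_lit 5) (nat_lit 57) (nat_lit 5) (nat_lit 58) (nat_lit 5) (nat_lit 316) (nat_lit 285) (nat_lit 119)))) (XT.nd (nat_lit 78) (nat_lit 228) (nat_lit 0) (XT.lf (nat_lit 0) (nat_lit 75954619678) (nat_lit 380) (nat_lit 6931560401) (nat_lit 76) (nat_lit 13267662169) (nat_lit 53) (nat_lit 5) (nat_lit 58) (nat_lit 5) (nat_lit 54) (nat_lit 5) (nat_lit 317) (nat_lit 285) (nat_lit 118)) (XT.nd (nat_lit 35022) (nat_lit 0) (nat_lit 6156) (XT.lf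 (nat_lit 0) (nat_lit 53170943010) (nat_lit 228) (nat_lit 43759841912) (nat_lit 304) (nat_lit 2661630681) (nat_lit 50) (nat_lit 5) (nat_lit 53) (nat_lit 5) (nat_lit 54) (nat_lit 5) (nat_lit 318) (nat_lit 285) (nat_lit 117)) (XT.lf (nat_lit 0) (nat_lit 3958708010) (nat_lit 1140) (nat_lit 7757094200) (nat_lit 1140) (nat_lit 7757094200) (nat_lit 131) (nat_lit 3) (nat_lit 146) (nat_lit 3) (nat_lit 146) (nat_lit 5) (nat_lit 286) (nat_lit 286) (nat_lit 148))))))) (XT.nd (nat_lit 780) (nat_lit 3496) (nat_lit 0) (XT.nd (nat_lit 390) (nat_lit 0) (nat_lit 228) (XT.nd (nat_lit 156) (nat_lit 0) (nat_lit 76) (XT.nd (nat_lit 78) (nat_lit 0) (nat_lit 0) (XT.lf (nat_lit 0) (nat_lit 8300661664) (nat_lit 1064) (nat_lit 29437270270) (nat_lit 1140) (nat_lit 2175755502) (nat_lit 132) (nat_lit 5) (nat_lit 146) (nat_lit 5) (nat_lit 147) (nat_lit 5) (nat_lit 287) (nat_lit 286) (nat_lit 147)) (XT.lf (nat_lit 0) (nat_lit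 9096817906) (nat_lit 1064) (nat_lit 3074792857) (nat_lit 1140) (nat_lit 28746565789) (nat_lit 132) (nat_lit 5) (nat_lit 146) (nat_lit 5) (nat_lit 147) (nat_lit 5) (nat_lit 288) (nat_lit 286) (nat_lit 146))) (XT.nd (nat_lit 78) (nat_lit 0) (nat_lit 0) (XT.lf (nat_lit 0) (nat_lit 10313598205) (nat_lit 1064) (nat_lit 17015932700) (nat_lit 1140) (nat_lit 14631946370) (nat_lit 133) (nat_lit 5) (nat_lit 147) (nat_lit 5) (nat_lit 148) (nat_lit 5) (nat_lit 289) (nat_lit 286) (nat_lit 145)) (XT.nd (nat_lit 78) (nat_lit 0) (nat_lit 76) (XT.lf (nat_lit 76) (nat_lit 11473642192) (nat_lit 0) (nat_lit 379015369) (nat_lit 1140) (nat_lit 31196453356) (nat_lit 134) (nat_lit 5) (nat_lit 133) (nat_lit 5) (nat_lit 148) (nat_lit 5) (nat_lit 290) (nat_lit 286) (nat_lit 144)) (XT.lf (nat_lit 0) (nat_lit 13910441183) (nat_lit 1064) (nat_lit 2715011091) (nat_lit 1140) (nat_lit 27552431384) (nat_lit 134) (nat_lit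 5) (nat_lit 148) (nat_lit 5) (nat_lit 149) (nat_lit 5) (nat_lit 291) (nat_lit 286) (nat_lit 143))))) (XT.nd (nat_lit 156) (nat_lit 0) (nat_lit 76) (XT.nd (nat_lit 78) (nat_lit 0) (nat_lit 0) (XT.lf (nat_lit 0) (nat_lit 16455347206) (nat_lit 1064) (nat_lit 17336915372) (nat_lit 1140) (nat_lit 11559315514) (nat_lit 135) (nat_lit 5) (nat_lit 149) (nat_lit 5) (nat_lit 150) (nat_lit 5) (nat_lit 292) (nat_lit 286) (nat_lit 142)) (XT.lf (nat_lit 76) (nat_lit 13854453903) (nat_lit 0) (nat_lit 5599065641) (nat_lit 1140) (nat_lit 27120666648) (nat_lit 136) (nat_lit 5) (nat_lit 135) (nat_lit 5) (nat_lit 150) (nat_lit 5) (nat_lit 293) (nat_lit 286) (nat_lit 141))) (XT.nd (nat_lit 78) (nat_lit 0) (nat_lit 76) (XT.lf (nat_lit 0) (nat_lit 23009527390) (nat_lit 1064) (nat_lit 1119691324) (nat_lit 1140) (nat_lit 23716477296) (nat_lit 136) (nat_lit 5) (nat_lit 150) (nat_lit 5) (nat_lit 151) (nat_lit 5) (nat_lit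 294) (nat_lit 286) (nat_lit 140)) (XT.nd (nat_lit 78) (nat_lit 0) (nat_lit 0) (XT.lf (nat_lit 0) (nat_lit 27163824828) (nat_lit 1064) (nat_lit 16584359383) (nat_lit 1140) (nat_lit 5419991115) (nat_lit 137) (nat_lit 5) (nat_lit 151) (nat_lit 5) (nat_lit 152) (nat_lit 5) (nat_lit 295) (nat_lit 286) (nat_lit 139)) (XT.lf (nat_lit 76) (nat_lit 17535771086) (nat_lit 0) (nat_lit 14411034771) (nat_lit 1140) (nat_lit 18597351961) (nat_lit 138) (nat_lit 5) (nat_lit 137) (nat_lit 5) (nat_lit 152) (nat_lit 5) (nat_lit 296) (nat_lit 286) (nat_lit 138)))))) (XT.nd (nat_lit 390) (nat_lit 1824) (nat_lit 0) (XT.nd (nat_lit 156) (nat_lit 1064) (nat_lit 0) (XT.nd (nat_lit 78) (nat_lit 0) (nat_lit 0) (XT.lf (nat_lit 0) (nat_lit 1594242602) (nat_lit 1064) (nat_lit 35717347282) (nat_lit 1140) (nat_lit 14667077810) (nat_lit 124) (nat_lit 5) (nat_lit 138) (nat_lit 5) (nat_lit 139) (nat_lit 5) (nat_lit 297) (nat_lit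 286) (nat_lit 137)) (XT.lf (nat_lit 0) (nat_lit 38466245419) (nat_lit 1064) (nat_lit 4959631857) (nat_lit 1140) (nat_lit 10044595363) (nat_lit 124) (nat_lit 5) (nat_lit 138) (nat_lit 5) (nat_lit 139) (nat_lit 5) (nat_lit 298) (nat_lit 286) (nat_lit 136))) (XT.nd (nat_lit 78) (nat_lit 532) (nat_lit 0) (XT.lf (nat_lit 0) (nat_lit 22315499564) (nat_lit 532) (nat_lit 28005228765) (nat_lit 608) (nat_lit 4701901168) (nat_lit 117) (nat_lit 5) (nat_lit 124) (nat_lit 5) (nat_lit 125) (nat_lit 5) (nat_lit 299) (nat_lit 286) (nat_lit 135)) (XT.nd (nat_lit 78) (nat_lit 0) (nat_lit 0) (XT.lf (nat_lit 0) (nat_lit 1182981329) (nat_lit 532) (nat_lit 51477462935) (nat_lit 76) (nat_lit 3982911599) (nat_lit 110) (nat_lit 5) (nat_lit 117) (nat_lit 5) (nat_lit 111) (nat_lit 5) (nat_lit 300) (nat_lit 286) (nat_lit 134)) (XT.lf (nat_lit 0) (nat_lit 7886186462) (nat_lit 532) (nat_lit 13054595194) (nat_lit 76) (nat_lit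 37384306947) (nat_lit 110) (nat_lit 5) (nat_lit 117) (nat_lit 5) (nat_lit 111) (nat_lit 5) (nat_lit 301) (nat_lit 286) (nat_lit 133))))) (XT.nd (nat_lit 234) (nat_lit 836) (nat_lit 0) (XT.nd (nat_lit 78) (nat_lit 456) (nat_lit 0) (XT.lf (nat_lit 0) (nat_lit 15311420199) (nat_lit 608) (nat_lit 32374042927) (nat_lit 76) (nat_lit 12393844796) (nat_lit 103) (nat_lit 5) (nat_lit 111) (nat_lit 5) (nat_lit 104) (nat_lit 5) (nat_lit 302) (nat_lit 286) (nat_lit 132)) (XT.nd (nat_lit 78) (nat_lit 0) (nat_lit 0) (XT.lf (nat_lit 0) (nat_lit 8815976158) (nat_lit 456) (nat_lit 14721681896) (nat_lit 532) (nat_lit 38370693586) (nat_lit 97) (nat_lit 5) (nat_lit 103) (nat_lit 5) (nat_lit 104) (nat_lit 5) (nat_lit 303) (nat_lit 286) (nat_lit 131)) (XT.lf (nat_lit 0) (nat_lit 32700968040) (nat_lit 532) (nat_lit 11273412634) (nat_lit 76) (nat_lit 19838699498) (nat_lit 97) (nat_lit 5) (nat_lit 104) (nat_lit 5)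 (nat_lit 98) (nat_lit 5) (nat_lit 304) (nat_lit 286) (nat_lit 130)))) (XT.nd (nat_lit 78) (nat_lit 380) (nat_lit 0) (XT.lf (nat_lit 0) (nat_lit 33132457497) (nat_lit 456) (nat_lit 9655160965) (nat_lit 532) (nat_lit 23011476597) (nat_lit 91) (nat_lit 5) (nat_lit 97) (nat_lit 5) (nat_lit 98) (nat_lit 5) (nat_lit 305) (nat_lit 286) (nat_lit 129)) (XT.nd (nat_lit 78) (nat_lit 0) (nat_lit 0) (XT.lf (nat_lit 0) (nat_lit 12092524923) (nat_lit 380) (nat_lit 41771264156) (nat_lit 456) (nat_lit 14006070910) (nat_lit 86) (nat_lit 5) (nat_lit 91) (nat_lit 5) (nat_lit 92) (nat_lit 5) (nat_lit 306) (nat_lit 286) (nat_lit 128)) (XT.lf (nat_lit 0) (nat_lit 59670960770) (nat_lit 380) (nat_lit 6253814055) (nat_lit 456) (nat_lit 4106462838) (nat_lit 86) (nat_lit 5) (nat_lit 91) (nat_lit 5) (nat_lit 92) (nat_lit 5) (nat_lit 307) (nat_lit 286) (nat_lit 127))))))))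
noncomputable def xc120 : XT := (XT.nd (nat_lit 36582) (nat_lit 0) (nat_lit 304) (XT.nd (nat_lit 780) (nat_lit 0) (nat_lit 0) (XT.nd (nat_lit 390) (nat_lit 988) (nat_lit 0) (XT.nd (nat_lit 156) (nat_lit 684) (nat_lit 0) (XT.nd (nat_lit 78) (nat_lit 380) (nat_lit 0) (XT.lf (nat_lit 0) (nat_lit 6831651578) (nat_lit 456) (nat_lit 34583585338) (nat_lit 76) (nat_lit 30863651389) (nat_lit 80) (nat_lit 5) (nat_lit 86) (nat_lit 5) (nat_lit 81) (nat_lit 5) (nat_lit 308) (nat_lit 286) (nat_lit 126)) (XT.lf (nat_lit 0) (nat_lit 13898143226) (nat_lit 380) (nat_lit 4637175190) (nat_lit 456) (nat_lit 56093280216) (nat_lit 75) (nat_lit 5) (nat_lit 80) (nat_lit 5) (nat_lit 81) (nat_lit 5) (nat_lit 309) (nat_lit 286) (nat_lit 125))) (XT.nd (nat_lit 78) (nat_lit 684) (nat_lit 0) (XT.lf (nat_lit 0) (nat_lit 31508754303) (nat_lit 456) (nat_lit 11890489465) (nat_lit 76) (nat_lit 33676017075) (nat_lit 75) (nat_lit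 5) (nat_lit 81) (nat_lit 5) (nat_lit 76) (nat_lit 5) (nat_lit 310) (nat_lit 286) (nat_lit 124)) (XT.nd (nat_lit 78) (nat_lit 304) (nat_lit 0) (XT.lf (nat_lit 0) (nat_lit 40125891017) (nat_lit 380) (nat_lit 5435983860) (nat_lit 456) (nat_lit 34069454649) (nat_lit 70) (nat_lit 5) (nat_lit 75) (nat_lit 5) (nat_lit 76) (nat_lit 5) (nat_lit 311) (nat_lit 286) (nat_lit 123)) (XT.lf (nat_lit 0) (nat_lit 12591845507) (nat_lit 304) (nat_lit 48299925433) (nat_lit 380) (nat_lit 21406210692) (nat_lit 66) (nat_lit 5) (nat_lit 70) (nat_lit 5) (nat_lit 71) (nat_lit 5) (nat_lit 312) (nat_lit 286) (nat_lit 122))))) (XT.nd (nat_lit 156) (nat_lit 608) (nat_lit 0) (XT.nd (nat_lit 78) (nat_lit 380) (nat_lit 0) (XT.lf (nat_lit 0) (nat_lit 68061859712) (nat_lit 304) (nat_lit 9385903727) (nat_lit 380) (nat_lit 7636418256) (nat_lit 66) (nat_lit 5) (nat_lit 70) (nat_lit 5) (nat_lit 71) (nat_lit 5) (nat_lit 313) (nat_lit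 286) (nat_lit 121)) (XT.lf (nat_lit 0) (nat_lit 7369085352) (nat_lit 380) (nat_lit 49314170094) (nat_lit 76) (nat_lit 31304061964) (nat_lit 61) (nat_lit 5) (nat_lit 66) (nat_lit 5) (nat_lit 62) (nat_lit 5) (nat_lit 314) (nat_lit 286) (nat_lit 120))) (XT.nd (nat_lit 78) (nat_lit 304) (nat_lit 0) (XT.lf (nat_lit 0) (nat_lit 6428999212) (nat_lit 304) (nat_lit 16871593758) (nat_lit 380) (nat_lit 67722741841) (nat_lit 57) (nat_lit 5) (nat_lit 61) (nat_lit 5) (nat_lit 62) (nat_lit 5) (nat_lit 315) (nat_lit 286) (nat_lit 119)) (XT.nd (nat_lit 78) (nat_lit 304) (nat_lit 0) (XT.lf (nat_lit 0) (nat_lit 40779735049) (nat_lit 380) (nat_lit 28452401892) (nat_lit 76) (nat_lit 24956487221) (nat_lit 57) (nat_lit 5) (nat_lit 62) (nat_lit 5) (nat_lit 58) (nat_lit 5) (nat_lit 316) (nat_lit 286) (nat_lit 118)) (XT.lf (nat_lit 0) (nat_lit 30928288951) (nat_lit 304) (nat_lit 28670934422) (nat_lit 380) (nat_lit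 37898965651) (nat_lit 53) (nat_lit 5) (nat_lit 57) (nat_lit 5) (nat_lit 58) (nat_lit 5) (nat_lit 317) (nat_lit 286) (nat_lit 117)))))) (XT.nd (nat_lit 35412) (nat_lit 0) (nat_lit 6080) (XT.nd (nat_lit 35178) (nat_lit 0) (nat_lit 6004) (XT.nd (nat_lit 35100) (nat_lit 0) (nat_lit 5928) (XT.lf (nat_lit 0) (nat_lit 79788107310) (nat_lit 380) (nat_lit 7230112425) (nat_lit 76) (nat_lit 13942162346) (nat_lit 53) (nat_lit 5) (nat_lit 58) (nat_lit 5) (nat_lit 54) (nat_lit 5) (nat_lit 318) (nat_lit 286) (nat_lit 116)) (XT.lf (nat_lit 0) (nat_lit 4218721209) (nat_lit 1140) (nat_lit 8112884885) (nat_lit 1140) (nat_lit 8112884885) (nat_lit 131) (nat_lit 3) (nat_lit 146) (nat_lit 3) (nat_lit 146) (nat_lit 5) (nat_lit 287) (nat_lit 287) (nat_lit 146))) (XT.nd (nat_lit 78) (nat_lit 0) (nat_lit 0) (XT.lf (nat_lit 0) (nat_lit 8833993325) (nat_lit 1064) (nat_lit 30842377132) (nat_lit 1140) (nat_lit 2229094456)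 (nat_lit 132) (nat_lit 5) (nat_lit 146) (nat_lit 5) (nat_lit 147) (nat_lit 5) (nat_lit 288) (nat_lit 287) (nat_lit 145)) (XT.nd (nat_lit 78) (nat_lit 0) (nat_lit 76) (XT.lf (nat_lit 0) (nat_lit 9664324113) (nat_lit 1064) (nat_lit 3164954737) (nat_lit 1140) (nat_lit 30131085678) (nat_lit 132) (nat_lit 5) (nat_lit 146) (nat_lit 5) (nat_lit 147) (nat_lit 5) (nat_lit 289) (nat_lit 287) (nat_lit 144)) (XT.lf (nat_lit 0) (nat_lit 10936728529) (nat_lit 1064) (nat_lit 17800969026) (nat_lit 1140) (nat_lit 15318305412) (nat_lit 133) (nat_lit 5) (nat_lit 147) (nat_lit 5) (nat_lit 148) (nat_lit 5) (nat_lit 290) (nat_lit 287) (nat_lit 143))))) (XT.nd (nat_lit 156) (nat_lit 0) (nat_lit 152) (XT.nd (nat_lit 78) (nat_lit 0) (nat_lit 76) (XT.lf (nat_lit 76) (nat_lit 12111199605) (nat_lit 0) (nat_lit 437038570) (nat_lit 1140) (nat_lit 32649930656) (nat_lit 134) (nat_lit 5) (nat_lit 133) (nat_lit 5) (nat_lit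 148) (nat_lit 5) (nat_lit 291) (nat_lit 287) (nat_lit 142)) (XT.lf (nat_lit 0) (nat_lit 14703651002) (nat_lit 1064) (nat_lit 2786334480) (nat_lit 1140) (nat_lit 28893567250) (nat_lit 134) (nat_lit 5) (nat_lit 148) (nat_lit 5) (nat_lit 149) (nat_lit 5) (nat_lit 292) (nat_lit 287) (nat_lit 141))) (XT.nd (nat_lit 78) (nat_lit 0) (nat_lit 0) (XT.lf (nat_lit 0) (nat_lit 17371453549) (nat_lit 1064) (nat_lit 18137792647) (nat_lit 1140) (nat_lit 12106830178) (nat_lit 135) (nat_lit 5) (nat_lit 149) (nat_lit 5) (nat_lit 150) (nat_lit 5) (nat_lit 293) (nat_lit 287) (nat_lit 140)) (XT.nd (nat_lit 78) (nat_lit 0) (nat_lit 76) (XT.lf (nat_lit 76) (nat_lit 14611254118) (nat_lit 0) (nat_lit 5904451625) (nat_lit 1140) (nat_lit 28384237354) (nat_lit 136) (nat_lit 5) (nat_lit 135) (nat_lit 5) (nat_lit 150) (nat_lit 5) (nat_lit 294) (nat_lit 287) (nat_lit 139)) (XT.lf (nat_lit 0) (nat_lit 24245018756) (nat_lit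 1064) (nat_lit 1111605033) (nat_lit 1140) (nat_lit 24878552191) (nat_lit 136) (nat_lit 5) (nat_lit 150) (nat_lit 5) (nat_lit 151) (nat_lit 5) (nat_lit 295) (nat_lit 287) (nat_lit 138))))))) (XT.nd (nat_lit 780) (nat_lit 3040) (nat_lit 0) (XT.nd (nat_lit 390) (nat_lit 1520) (nat_lit 0) (XT.nd (nat_lit 156) (nat_lit 1520) (nat_lit 0) (XT.nd (nat_lit 78) (nat_lit 0) (nat_lit 0) (XT.lf (nat_lit 0) (nat_lit 28603395150) (nat_lit 1064) (nat_lit 17348468043) (nat_lit 1140) (nat_lit 5672037262) (nat_lit 137) (nat_lit 5) (nat_lit 151) (nat_lit 5) (nat_lit 152) (nat_lit 5) (nat_lit 296) (nat_lit 287) (nat_lit 137)) (XT.lf (nat_lit 76) (nat_lit 18475802605) (nat_lit 0) (nat_lit 15146455361) (nat_lit 1140) (nat_lit 19446533659) (nat_lit 138) (nat_lit 5) (nat_lit 137) (nat_lit 5) (nat_lit 152) (nat_lit 5) (nat_lit 297) (nat_lit 287) (nat_lit 136))) (XT.nd (nat_lit 78) (nat_lit 532) (nat_lit 0) (XT.lf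 (nat_lit 0) (nat_lit 1738023980) (nat_lit 1064) (nat_lit 37514017353) (nat_lit 1140) (nat_lit 15323093843) (nat_lit 124) (nat_lit 5) (nat_lit 138) (nat_lit 5) (nat_lit 139) (nat_lit 5) (nat_lit 298) (nat_lit 287) (nat_lit 135)) (XT.nd (nat_lit 78) (nat_lit 532) (nat_lit 0) (XT.lf (nat_lit 0) (nat_lit 40450576021) (nat_lit 1064) (nat_lit 5217901743) (nat_lit 1140) (nat_lit 10473170029) (nat_lit 124) (nat_lit 5) (nat_lit 138) (nat_lit 5) (nat_lit 139) (nat_lit 5) (nat_lit 299) (nat_lit 287) (nat_lit 134)) (XT.lf (nat_lit 0) (nat_lit 23492921017) (nat_lit 532) (nat_lit 29412253196) (nat_lit 608) (nat_lit 4866335163) (nat_lit 117) (nat_lit 5) (nat_lit 124) (nat_lit 5) (nat_lit 125) (nat_lit 5) (nat_lit 300) (nat_lit 287) (nat_lit 133))))) (XT.nd (nat_lit 156) (nat_lit 988) (nat_lit 0) (XT.nd (nat_lit 78) (nat_lit 0) (nat_lit 0) (XT.lf (nat_lit 0) (nat_lit 1308654068) (nat_lit 532) (nat_lit 53987698244)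 (nat_lit 76) (nat_lit 4176991341) (nat_lit 110) (nat_lit 5) (nat_lit 117) (nat_lit 5) (nat_lit 111) (nat_lit 5) (nat_lit 301) (nat_lit 287) (nat_lit 132)) (XT.lf (nat_lit 0) (nat_lit 8343851663) (nat_lit 532) (nat_lit 13646717489) (nat_lit 76) (nat_lit 39248697687) (nat_lit 110) (nat_lit 5) (nat_lit 117) (nat_lit 5) (nat_lit 111) (nat_lit 5) (nat_lit 302) (nat_lit 287) (nat_lit 131))) (XT.nd (nat_lit 78) (nat_lit 456) (nat_lit 0) (XT.lf (nat_lit 0) (nat_lit 16137876478) (nat_lit 608) (nat_lit 33931861047) (nat_lit 76) (nat_lit 13011542075) (nat_lit 103) (nat_lit 5) (nat_lit 111) (nat_lit 5) (nat_lit 104) (nat_lit 5) (nat_lit 303) (nat_lit 287) (nat_lit 130)) (XT.nd (nat_lit 78) (nat_lit 0) (nat_lit 0) (XT.lf (nat_lit 0) (nat_lit 9315913764) (nat_lit 456) (nat_lit 15457181642) (nat_lit 532) (nat_lit 40228757983) (nat_lit 97) (nat_lit 5) (nat_lit 103) (nat_lit 5) (nat_lit 104) (nat_lit 5)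 (nat_lit 304) (nat_lit 287) (nat_lit 129)) (XT.lf (nat_lit 0) (nat_lit 34391787934) (nat_lit 532) (nat_lit 11778941348) (nat_lit 76) (nat_lit 20831180136) (nat_lit 97) (nat_lit 5) (nat_lit 104) (nat_lit 5) (nat_lit 98) (nat_lit 5) (nat_lit 305) (nat_lit 287) (nat_lit 128)))))) (XT.nd (nat_lit 390) (nat_lit 1368) (nat_lit 0) (XT.nd (nat_lit 156) (nat_lit 836) (nat_lit 0) (XT.nd (nat_lit 78) (nat_lit 380) (nat_lit 0) (XT.lf (nat_lit 0) (nat_lit 34845555663) (nat_lit 456) (nat_lit 10135102303) (nat_lit 532) (nat_lit 24106637689) (nat_lit 91) (nat_lit 5) (nat_lit 97) (nat_lit 5) (nat_lit 98) (nat_lit 5) (nat_lit 306) (nat_lit 287) (nat_lit 127)) (XT.lf (nat_lit 0) (nat_lit 12753685181) (nat_lit 380) (nat_lit 43854965989) (nat_lit 456) (nat_lit 14653014117) (nat_lit 86) (nat_lit 5) (nat_lit 91) (nat_lit 5) (nat_lit 92) (nat_lit 5) (nat_lit 307) (nat_lit 287) (nat_lit 126))) (XT.nd (nat_lit 78)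 (nat_lit 836) (nat_lit 0) (XT.lf (nat_lit 0) (nat_lit 62708350725) (nat_lit 380) (nat_lit 6561874876) (nat_lit 456) (nat_lit 4260966610) (nat_lit 86) (nat_lit 5) (nat_lit 91) (nat_lit 5) (nat_lit 92) (nat_lit 5) (nat_lit 308) (nat_lit 287) (nat_lit 125)) (XT.nd (nat_lit 78) (nat_lit 380) (nat_lit 0) (XT.lf (nat_lit 0) (nat_lit 7221254356) (nat_lit 456) (nat_lit 36257871225) (nat_lit 76) (nat_lit 32412145429) (nat_lit 80) (nat_lit 5) (nat_lit 86) (nat_lit 5) (nat_lit 81) (nat_lit 5) (nat_lit 309) (nat_lit 287) (nat_lit 124)) (XT.lf (nat_lit 0) (nat_lit 14646370260) (nat_lit 380) (nat_lit 4861960143) (nat_lit 456) (nat_lit 58850195442) (nat_lit 75) (nat_lit 5) (nat_lit 80) (nat_lit 5) (nat_lit 81) (nat_lit 5) (nat_lit 310) (nat_lit 287) (nat_lit 123))))) (XT.nd (nat_lit 234) (nat_lit 684) (nat_lit 0) (XT.nd (nat_lit 78) (nat_lit 684) (nat_lit 0) (XT.lf (nat_lit 0) (nat_lit 33128300651) (nat_lit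 456) (nat_lit 12432866706) (nat_lit 76) (nat_lit 35366423425) (nat_lit 75) (nat_lit 5) (nat_lit 81) (nat_lit 5) (nat_lit 76) (nat_lit 5) (nat_lit 311) (nat_lit 287) (nat_lit 122)) (XT.nd (nat_lit 78) (nat_lit 304) (nat_lit 0) (XT.lf (nat_lit 0) (nat_lit 42182838011) (nat_lit 380) (nat_lit 5699625735) (nat_lit 456) (nat_lit 35729052790) (nat_lit 70) (nat_lit 5) (nat_lit 75) (nat_lit 5) (nat_lit 76) (nat_lit 5) (nat_lit 312) (nat_lit 287) (nat_lit 121)) (XT.lf (nat_lit 0) (nat_lit 13271902043) (nat_lit 304) (nat_lit 50705488764) (nat_lit 380) (nat_lit 22434159336) (nat_lit 66) (nat_lit 5) (nat_lit 70) (nat_lit 5) (nat_lit 71) (nat_lit 5) (nat_lit 313) (nat_lit 287) (nat_lit 120)))) (XT.nd (nat_lit 78) (nat_lit 684) (nat_lit 0) (XT.lf (nat_lit 0) (nat_lit 71513013898) (nat_lit 304) (nat_lit 9846215160) (nat_lit 380) (nat_lit 7977894511) (nat_lit 66) (nat_lit 5) (nat_lit 70) (nat_lit 5) (nat_lit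 71) (nat_lit 5) (nat_lit 314) (nat_lit 287) (nat_lit 119)) (XT.nd (nat_lit 78) (nat_lit 304) (nat_lit 0) (XT.lf (nat_lit 0) (nat_lit 7775760710) (nat_lit 380) (nat_lit 51731199646) (nat_lit 76) (nat_lit 32878488553) (nat_lit 61) (nat_lit 5) (nat_lit 66) (nat_lit 5) (nat_lit 62) (nat_lit 5) (nat_lit 315) (nat_lit 287) (nat_lit 118)) (XT.lf (nat_lit 0) (nat_lit 6797732753) (nat_lit 304) (nat_lit 17704745423) (nat_lit 380) (nat_lit 71070834149) (nat_lit 57) (nat_lit 5) (nat_lit 61) (nat_lit 5) (nat_lit 62) (nat_lit 5) (nat_lit 316) (nat_lit 287) (nat_lit 117))))))))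
noncomputable def xc121 : XT := (XT.nd (nat_lit 36738) (nat_lit 0) (nat_lit 0) (XT.nd (nat_lit 35958) (nat_lit 0) (nat_lit 3040) (XT.nd (nat_lit 35568) (nat_lit 0) (nat_lit 5776) (XT.nd (nat_lit 35334) (nat_lit 0) (nat_lit 5700) (XT.nd (nat_lit 35256) (nat_lit 0) (nat_lit 5624) (XT.lf (nat_lit 0) (nat_lit 42853917800) (nat_lit 380) (nat_lit 29828952877) (nat_lit 76) (nat_lit 26214049234) (nat_lit 57) (nat_lit 5) (nat_lit 62) (nat_lit 5) (nat_lit 58) (nat_lit 5) (nat_lit 317) (nat_lit 287) (nat_lit 116)) (XT.lf (nat_lit 0) (nat_lit 4485963662) (nat_lit 1140) (nat_lit 8489446114) (nat_lit 1140) (nat_lit 8489446114) (nat_lit 131) (nat_lit 3) (nat_lit 146) (nat_lit 3) (nat_lit 146) (nat_lit 5) (nat_lit 288) (nat_lit 288) (nat_lit 144))) (XT.nd (nat_lit 78) (nat_lit 0) (nat_lit 0) (XT.lf (nat_lit 0) (nat_lit 9382993287) (nat_lit 1064) (nat_lit 32323945738) (nat_lit 1140) (nat_lit 2290255464)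 (nat_lit 132) (nat_lit 5) (nat_lit 146) (nat_lit 5) (nat_lit 147) (nat_lit 5) (nat_lit 289) (nat_lit 288) (nat_lit 143)) (XT.nd (nat_lit 78) (nat_lit 0) (nat_lit 76) (XT.lf (nat_lit 0) (nat_lit 10249731077) (nat_lit 1064) (nat_lit 3265535569) (nat_lit 1140) (nat_lit 31589741186) (nat_lit 132) (nat_lit 5) (nat_lit 146) (nat_lit 5) (nat_lit 147) (nat_lit 5) (nat_lit 290) (nat_lit 288) (nat_lit 142)) (XT.lf (nat_lit 0) (nat_lit 11581025649) (nat_lit 1064) (nat_lit 18631370937) (nat_lit 1140) (nat_lit 16043188232) (nat_lit 133) (nat_lit 5) (nat_lit 147) (nat_lit 5) (nat_lit 148) (nat_lit 5) (nat_lit 291) (nat_lit 288) (nat_lit 141))))) (XT.nd (nat_lit 156) (nat_lit 0) (nat_lit 152) (XT.nd (nat_lit 78) (nat_lit 0) (nat_lit 76) (XT.lf (nat_lit 76) (nat_lit 12774696368) (nat_lit 0) (nat_lit 494330347) (nat_lit 1140) (nat_lit 34185968805) (nat_lit 134) (nat_lit 5) (nat_lit 133) (nat_lit 5) (nat_lit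 148) (nat_lit 5) (nat_lit 292) (nat_lit 288) (nat_lit 140)) (XT.lf (nat_lit 0) (nat_lit 15527439230) (nat_lit 1064) (nat_lit 2867213865) (nat_lit 1140) (nat_lit 30305152004) (nat_lit 134) (nat_lit 5) (nat_lit 148) (nat_lit 5) (nat_lit 149) (nat_lit 5) (nat_lit 293) (nat_lit 288) (nat_lit 139))) (XT.nd (nat_lit 78) (nat_lit 0) (nat_lit 0) (XT.lf (nat_lit 0) (nat_lit 18324687434) (nat_lit 1064) (nat_lit 18984846911) (nat_lit 1140) (nat_lit 12684551631) (nat_lit 135) (nat_lit 5) (nat_lit 149) (nat_lit 5) (nat_lit 150) (nat_lit 5) (nat_lit 294) (nat_lit 288) (nat_lit 138)) (XT.nd (nat_lit 78) (nat_lit 0) (nat_lit 76) (XT.lf (nat_lit 76) (nat_lit 15399937024) (nat_lit 0) (nat_lit 6222742416) (nat_lit 1140) (nat_lit 29719582894) (nat_lit 136) (nat_lit 5) (nat_lit 135) (nat_lit 5) (nat_lit 150) (nat_lit 5) (nat_lit 295) (nat_lit 288) (nat_lit 137)) (XT.lf (nat_lit 0) (nat_lit 25534380802) (nat_lit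 1064) (nat_lit 1109071129) (nat_lit 1140) (nat_lit 26100938786) (nat_lit 136) (nat_lit 5) (nat_lit 150) (nat_lit 5) (nat_lit 151) (nat_lit 5) (nat_lit 296) (nat_lit 288) (nat_lit 136)))))) (XT.nd (nat_lit 390) (nat_lit 1520) (nat_lit 0) (XT.nd (nat_lit 156) (nat_lit 1520) (nat_lit 0) (XT.nd (nat_lit 78) (nat_lit 0) (nat_lit 0) (XT.lf (nat_lit 0) (nat_lit 30107378131) (nat_lit 1064) (nat_lit 18156835381) (nat_lit 1140) (nat_lit 5938447825) (nat_lit 137) (nat_lit 5) (nat_lit 151) (nat_lit 5) (nat_lit 152) (nat_lit 5) (nat_lit 297) (nat_lit 288) (nat_lit 135)) (XT.lf (nat_lit 76) (nat_lit 19456955969) (nat_lit 0) (nat_lit 15917264615) (nat_lit 1140) (nat_lit 20345675852) (nat_lit 138) (nat_lit 5) (nat_lit 137) (nat_lit 5) (nat_lit 152) (nat_lit 5) (nat_lit 298) (nat_lit 288) (nat_lit 134))) (XT.nd (nat_lit 78) (nat_lit 532) (nat_lit 0) (XT.lf (nat_lit 0) (nat_lit 1883037875) (nat_lit 1064)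 (nat_lit 39399516595) (nat_lit 1140) (nat_lit 16019100819) (nat_lit 124) (nat_lit 5) (nat_lit 138) (nat_lit 5) (nat_lit 139) (nat_lit 5) (nat_lit 299) (nat_lit 288) (nat_lit 133)) (XT.nd (nat_lit 78) (nat_lit 532) (nat_lit 0) (XT.lf (nat_lit 0) (nat_lit 42528450247) (nat_lit 1064) (nat_lit 5488128615) (nat_lit 1140) (nat_lit 10930021182) (nat_lit 124) (nat_lit 5) (nat_lit 138) (nat_lit 5) (nat_lit 139) (nat_lit 5) (nat_lit 300) (nat_lit 288) (nat_lit 132)) (XT.lf (nat_lit 0) (nat_lit 24723482238) (nat_lit 532) (nat_lit 30889000088) (nat_lit 608) (nat_lit 5045560253) (nat_lit 117) (nat_lit 5) (nat_lit 124) (nat_lit 5) (nat_lit 125) (nat_lit 5) (nat_lit 301) (nat_lit 288) (nat_lit 131))))) (XT.nd (nat_lit 156) (nat_lit 988) (nat_lit 0) (XT.nd (nat_lit 78) (nat_lit 0) (nat_lit 0) (XT.lf (nat_lit 0) (nat_lit 1434425703) (nat_lit 532) (nat_lit 56629361761) (nat_lit 76) (nat_lit 4381246044) (nat_lit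 110) (nat_lit 5) (nat_lit 117) (nat_lit 5) (nat_lit 111) (nat_lit 5) (nat_lit 302) (nat_lit 288) (nat_lit 130)) (XT.lf (nat_lit 0) (nat_lit 8818509896) (nat_lit 532) (nat_lit 14274080607) (nat_lit 76) (nat_lit 41206756510) (nat_lit 110) (nat_lit 5) (nat_lit 117) (nat_lit 5) (nat_lit 111) (nat_lit 5) (nat_lit 303) (nat_lit 288) (nat_lit 129))) (XT.nd (nat_lit 78) (nat_lit 456) (nat_lit 0) (XT.lf (nat_lit 0) (nat_lit 16999995037) (nat_lit 608) (nat_lit 35573230492) (nat_lit 76) (nat_lit 13660309691) (nat_lit 103) (nat_lit 5) (nat_lit 111) (nat_lit 5) (nat_lit 104) (nat_lit 5) (nat_lit 304) (nat_lit 288) (nat_lit 128)) (XT.nd (nat_lit 78) (nat_lit 0) (nat_lit 0) (XT.lf (nat_lit 0) (nat_lit 9835350085) (nat_lit 456) (nat_lit 16229510703) (nat_lit 532) (nat_lit 42185347553) (nat_lit 97) (nat_lit 5) (nat_lit 103) (nat_lit 5) (nat_lit 104) (nat_lit 5) (nat_lit 305) (nat_lit 288) (nat_lit 127))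 (XT.lf (nat_lit 0) (nat_lit 36161963717) (nat_lit 532) (nat_lit 12315151981) (nat_lit 76) (nat_lit 21873234075) (nat_lit 97) (nat_lit 5) (nat_lit 104) (nat_lit 5) (nat_lit 98) (nat_lit 5) (nat_lit 306) (nat_lit 288) (nat_lit 126))))))) (XT.nd (nat_lit 780) (nat_lit 304) (nat_lit 0) (XT.nd (nat_lit 390) (nat_lit 1064) (nat_lit 0) (XT.nd (nat_lit 156) (nat_lit 836) (nat_lit 0) (XT.nd (nat_lit 78) (nat_lit 380) (nat_lit 0) (XT.lf (nat_lit 0) (nat_lit 36639058201) (nat_lit 456) (nat_lit 10639302580) (nat_lit 532) (nat_lit 25261708587) (nat_lit 91) (nat_lit 5) (nat_lit 97) (nat_lit 5) (nat_lit 98) (nat_lit 5) (nat_lit 307) (nat_lit 288) (nat_lit 125)) (XT.lf (nat_lit 0) (nat_lit 13442647456) (nat_lit 380) (nat_lit 46043304878) (nat_lit 456) (nat_lit 15337265422) (nat_lit 86) (nat_lit 5) (nat_lit 91) (nat_lit 5) (nat_lit 92) (nat_lit 5) (nat_lit 308) (nat_lit 288) (nat_lit 124))) (XT.nd (nat_lit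 78) (nat_lit 836) (nat_lit 0) (XT.lf (nat_lit 0) (nat_lit 65892604467) (nat_lit 380) (nat_lit 6885769181) (nat_lit 456) (nat_lit 4427920274) (nat_lit 86) (nat_lit 5) (nat_lit 91) (nat_lit 5) (nat_lit 92) (nat_lit 5) (nat_lit 309) (nat_lit 288) (nat_lit 123)) (XT.nd (nat_lit 78) (nat_lit 380) (nat_lit 0) (XT.lf (nat_lit 0) (nat_lit 7625872810) (nat_lit 456) (nat_lit 38020974872) (nat_lit 76) (nat_lit 34037570362) (nat_lit 80) (nat_lit 5) (nat_lit 86) (nat_lit 5) (nat_lit 81) (nat_lit 5) (nat_lit 310) (nat_lit 288) (nat_lit 122)) (XT.lf (nat_lit 0) (nat_lit 15427051469) (nat_lit 380) (nat_lit 5098642000) (nat_lit 456) (nat_lit 61749395658) (nat_lit 75) (nat_lit 5) (nat_lit 80) (nat_lit 5) (nat_lit 81) (nat_lit 5) (nat_lit 311) (nat_lit 288) (nat_lit 121))))) (XT.nd (nat_lit 156) (nat_lit 684) (nat_lit 0) (XT.nd (nat_lit 78) (nat_lit 380) (nat_lit 0) (XT.lf (nat_lit 0) (nat_lit 34824723513)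 (nat_lit 456) (nat_lit 13007210964) (nat_lit 76) (nat_lit 37140735976) (nat_lit 75) (nat_lit 5) (nat_lit 81) (nat_lit 5) (nat_lit 76) (nat_lit 5) (nat_lit 312) (nat_lit 288) (nat_lit 120)) (XT.lf (nat_lit 0) (nat_lit 44337923169) (nat_lit 380) (nat_lit 5977208093) (nat_lit 456) (nat_lit 37475709882) (nat_lit 70) (nat_lit 5) (nat_lit 75) (nat_lit 5) (nat_lit 76) (nat_lit 5) (nat_lit 313) (nat_lit 288) (nat_lit 119))) (XT.nd (nat_lit 78) (nat_lit 380) (nat_lit 0) (XT.lf (nat_lit 0) (nat_lit 13981269716) (nat_lit 304) (nat_lit 53232207246) (nat_lit 380) (nat_lit 23517443819) (nat_lit 66) (nat_lit 5) (nat_lit 70) (nat_lit 5) (nat_lit 71) (nat_lit 5) (nat_lit 314) (nat_lit 288) (nat_lit 118)) (XT.nd (nat_lit 78) (nat_lit 380) (nat_lit 0) (XT.lf (nat_lit 0) (nat_lit 75132257519) (nat_lit 304) (nat_lit 10330377388) (nat_lit 380) (nat_lit 8340195443) (nat_lit 66) (nat_lit 5) (nat_lit 70) (nat_lit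 5) (nat_lit 71) (nat_lit 5) (nat_lit 315) (nat_lit 288) (nat_lit 117)) (XT.lf (nat_lit 0) (nat_lit 8199216402) (nat_lit 380) (nat_lit 54273606384) (nat_lit 76) (nat_lit 34530778960) (nat_lit 61) (nat_lit 5) (nat_lit 66) (nat_lit 5) (nat_lit 62) (nat_lit 5) (nat_lit 316) (nat_lit 288) (nat_lit 116)))))) (XT.nd (nat_lit 35646) (nat_lit 0) (nat_lit 5776) (XT.nd (nat_lit 35412) (nat_lit 0) (nat_lit 5700) (XT.nd (nat_lit 35334) (nat_lit 0) (nat_lit 5624) (XT.lf (nat_lit 0) (nat_lit 7180506992) (nat_lit 304) (nat_lit 18580524171) (nat_lit 380) (nat_lit 74589868116) (nat_lit 57) (nat_lit 5) (nat_lit 61) (nat_lit 5) (nat_lit 62) (nat_lit 5) (nat_lit 317) (nat_lit 288) (nat_lit 115)) (XT.lf (nat_lit 0) (nat_lit 4761333403) (nat_lit 1140) (nat_lit 8887539267) (nat_lit 1140) (nat_lit 8887539267) (nat_lit 131) (nat_lit 3) (nat_lit 146) (nat_lit 3) (nat_lit 146) (nat_lit 5) (nat_lit 289) (nat_lit 289)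 (nat_lit 142))) (XT.nd (nat_lit 78) (nat_lit 0) (nat_lit 0) (XT.lf (nat_lit 0) (nat_lit 9949467484) (nat_lit 1064) (nat_lit 33885222163) (nat_lit 1140) (nat_lit 2359150355) (nat_lit 132) (nat_lit 5) (nat_lit 146) (nat_lit 5) (nat_lit 147) (nat_lit 5) (nat_lit 290) (nat_lit 289) (nat_lit 141)) (XT.nd (nat_lit 78) (nat_lit 0) (nat_lit 76) (XT.lf (nat_lit 0) (nat_lit 10854907661) (nat_lit 1064) (nat_lit 3376506764) (nat_lit 1140) (nat_lit 33125782643) (nat_lit 132) (nat_lit 5) (nat_lit 146) (nat_lit 5) (nat_lit 147) (nat_lit 5) (nat_lit 291) (nat_lit 289) (nat_lit 140)) (XT.lf (nat_lit 0) (nat_lit 12248476653) (nat_lit 1064) (nat_lit 19508838315) (nat_lit 1140) (nat_lit 16808130001) (nat_lit 133) (nat_lit 5) (nat_lit 147) (nat_lit 5) (nat_lit 148) (nat_lit 5) (nat_lit 292) (nat_lit 289) (nat_lit 139))))) (XT.nd (nat_lit 234) (nat_lit 0) (nat_lit 152) (XT.nd (nat_lit 78) (nat_lit 0) (nat_lit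 76) (XT.lf (nat_lit 76) (nat_lit 13465981557) (nat_lit 0) (nat_lit 551191851) (nat_lit 1140) (nat_lit 35807776647) (nat_lit 134) (nat_lit 5) (nat_lit 133) (nat_lit 5) (nat_lit 148) (nat_lit 5) (nat_lit 293) (nat_lit 289) (nat_lit 138)) (XT.nd (nat_lit 78) (nat_lit 0) (nat_lit 76) (XT.lf (nat_lit 0) (nat_lit 16384179154) (nat_lit 1064) (nat_lit 2957570170) (nat_lit 1140) (nat_lit 31790392726) (nat_lit 134) (nat_lit 5) (nat_lit 148) (nat_lit 5) (nat_lit 149) (nat_lit 5) (nat_lit 294) (nat_lit 289) (nat_lit 137)) (XT.lf (nat_lit 0) (nat_lit 19317712018) (nat_lit 1064) (nat_lit 19879816814) (nat_lit 1140) (nat_lit 13293727007) (nat_lit 135) (nat_lit 5) (nat_lit 149) (nat_lit 5) (nat_lit 150) (nat_lit 5) (nat_lit 295) (nat_lit 289) (nat_lit 136)))) (XT.nd (nat_lit 78) (nat_lit 0) (nat_lit 76) (XT.lf (nat_lit 76) (nat_lit 16222650609) (nat_lit 0) (nat_lit 6554803083) (nat_lit 1140) (nat_lit 31129492807)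 (nat_lit 136) (nat_lit 5) (nat_lit 135) (nat_lit 5) (nat_lit 150) (nat_lit 5) (nat_lit 296) (nat_lit 289) (nat_lit 135)) (XT.nd (nat_lit 78) (nat_lit 0) (nat_lit 76) (XT.lf (nat_lit 0) (nat_lit 26881041891) (nat_lit 1064) (nat_lit 1111813433) (nat_lit 1140) (nat_lit 27386447390) (nat_lit 136) (nat_lit 5) (nat_lit 150) (nat_lit 5) (nat_lit 151) (nat_lit 5) (nat_lit 297) (nat_lit 289) (nat_lit 134)) (XT.lf (nat_lit 0) (nat_lit 31679697808) (nat_lit 1064) (nat_lit 19011111560) (nat_lit 1140) (nat_lit 6219777200) (nat_lit 137) (nat_lit 5) (nat_lit 151) (nat_lit 5) (nat_lit 152) (nat_lit 5) (nat_lit 298) (nat_lit 289) (nat_lit 133))))))))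
noncomputable def xc122 : XT := (XT.nd (nat_lit 36972) (nat_lit 0) (nat_lit 1064) (XT.nd (nat_lit 780) (nat_lit 1900) (nat_lit 0) (XT.nd (nat_lit 390) (nat_lit 1444) (nat_lit 0) (XT.nd (nat_lit 156) (nat_lit 1064) (nat_lit 0) (XT.nd (nat_lit 78) (nat_lit 988) (nat_lit 0) (XT.lf (nat_lit 76) (nat_lit 20481833911) (nat_lit 0) (nat_lit 16725360486) (nat_lit 1140) (nat_lit 21296579155) (nat_lit 138) (nat_lit 5) (nat_lit 137) (nat_lit 5) (nat_lit 152) (nat_lit 5) (nat_lit 299) (nat_lit 289) (nat_lit 132)) (XT.lf (nat_lit 0) (nat_lit 2029899698) (nat_lit 1064) (nat_lit 41378379840) (nat_lit 1140) (nat_lit 16756429814) (nat_lit 124) (nat_lit 5) (nat_lit 138) (nat_lit 5) (nat_lit 139) (nat_lit 5) (nat_lit 300) (nat_lit 289) (nat_lit 131))) (XT.nd (nat_lit 78) (nat_lit 1064) (nat_lit 0) (XT.lf (nat_lit 0) (nat_lit 44705072692) (nat_lit 1064) (nat_lit 5770999250) (nat_lit 1140) (nat_lit 11415926006)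 (nat_lit 124) (nat_lit 5) (nat_lit 138) (nat_lit 5) (nat_lit 139) (nat_lit 5) (nat_lit 301) (nat_lit 289) (nat_lit 130)) (XT.nd (nat_lit 78) (nat_lit 532) (nat_lit 0) (XT.lf (nat_lit 0) (nat_lit 26010373057) (nat_lit 532) (nat_lit 32439014023) (nat_lit 608) (nat_lit 5239705233) (nat_lit 117) (nat_lit 5) (nat_lit 124) (nat_lit 5) (nat_lit 125) (nat_lit 5) (nat_lit 302) (nat_lit 289) (nat_lit 129)) (XT.lf (nat_lit 0) (nat_lit 1560876178) (nat_lit 532) (nat_lit 59408474843) (nat_lit 76) (nat_lit 4596140668) (nat_lit 110) (nat_lit 5) (nat_lit 117) (nat_lit 5) (nat_lit 111) (nat_lit 5) (nat_lit 303) (nat_lit 289) (nat_lit 128))))) (XT.nd (nat_lit 156) (nat_lit 912) (nat_lit 0) (XT.nd (nat_lit 78) (nat_lit 532) (nat_lit 0) (XT.lf (nat_lit 0) (nat_lit 9311558429) (nat_lit 532) (nat_lit 14937922726) (nat_lit 76) (nat_lit 43263125119) (nat_lit 110) (nat_lit 5) (nat_lit 117) (nat_lit 5) (nat_lit 111)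 (nat_lit 5) (nat_lit 304) (nat_lit 289) (nat_lit 127)) (XT.lf (nat_lit 0) (nat_lit 17900085250) (nat_lit 608) (nat_lit 37301802578) (nat_lit 76) (nat_lit 14341683916) (nat_lit 103) (nat_lit 5) (nat_lit 111) (nat_lit 5) (nat_lit 104) (nat_lit 5) (nat_lit 305) (nat_lit 289) (nat_lit 126))) (XT.nd (nat_lit 78) (nat_lit 456) (nat_lit 0) (XT.lf (nat_lit 0) (nat_lit 10375771225) (nat_lit 456) (nat_lit 17040505493) (nat_lit 532) (nat_lit 44244865880) (nat_lit 97) (nat_lit 5) (nat_lit 103) (nat_lit 5) (nat_lit 104) (nat_lit 5) (nat_lit 306) (nat_lit 289) (nat_lit 125)) (XT.nd (nat_lit 78) (nat_lit 456) (nat_lit 0) (XT.lf (nat_lit 0) (nat_lit 38015945248) (nat_lit 532) (nat_lit 12883076081) (nat_lit 76) (nat_lit 22967344697) (nat_lit 97) (nat_lit 5) (nat_lit 104) (nat_lit 5) (nat_lit 98) (nat_lit 5) (nat_lit 307) (nat_lit 289) (nat_lit 124)) (XT.lf (nat_lit 0) (nat_lit 38517473473) (nat_lit 456)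 (nat_lit 11168950394) (nat_lit 532) (nat_lit 26479205820) (nat_lit 91) (nat_lit 5) (nat_lit 97) (nat_lit 5) (nat_lit 98) (nat_lit 5) (nat_lit 308) (nat_lit 289) (nat_lit 123)))))) (XT.nd (nat_lit 390) (nat_lit 684) (nat_lit 0) (XT.nd (nat_lit 156) (nat_lit 836) (nat_lit 0) (XT.nd (nat_lit 78) (nat_lit 0) (nat_lit 0) (XT.lf (nat_lit 0) (nat_lit 14161290501) (nat_lit 380) (nat_lit 48341470656) (nat_lit 456) (nat_lit 16060229011) (nat_lit 86) (nat_lit 5) (nat_lit 91) (nat_lit 5) (nat_lit 92) (nat_lit 5) (nat_lit 309) (nat_lit 289) (nat_lit 122)) (XT.lf (nat_lit 0) (nat_lit 69231530568) (nat_lit 380) (nat_lit 7226248626) (nat_lit 456) (nat_lit 4607507066) (nat_lit 86) (nat_lit 5) (nat_lit 91) (nat_lit 5) (nat_lit 92) (nat_lit 5) (nat_lit 310) (nat_lit 289) (nat_lit 121))) (XT.nd (nat_lit 78) (nat_lit 380) (nat_lit 0) (XT.lf (nat_lit 0) (nat_lit 8046672787) (nat_lit 456) (nat_lit 39876862696)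 (nat_lit 76) (nat_lit 35743818641) (nat_lit 80) (nat_lit 5) (nat_lit 86) (nat_lit 5) (nat_lit 81) (nat_lit 5) (nat_lit 311) (nat_lit 289) (nat_lit 120)) (XT.nd (nat_lit 78) (nat_lit 0) (nat_lit 0) (XT.lf (nat_lit 0) (nat_lit 16242270434) (nat_lit 380) (nat_lit 5347754462) (nat_lit 456) (nat_lit 64797582398) (nat_lit 75) (nat_lit 5) (nat_lit 80) (nat_lit 5) (nat_lit 81) (nat_lit 5) (nat_lit 312) (nat_lit 289) (nat_lit 119)) (XT.lf (nat_lit 0) (nat_lit 36602247970) (nat_lit 456) (nat_lit 13614669856) (nat_lit 76) (nat_lit 39003207133) (nat_lit 75) (nat_lit 5) (nat_lit 81) (nat_lit 5) (nat_lit 76) (nat_lit 5) (nat_lit 313) (nat_lit 289) (nat_lit 118))))) (XT.nd (nat_lit 156) (nat_lit 0) (nat_lit 0) (XT.nd (nat_lit 78) (nat_lit 304) (nat_lit 0) (XT.lf (nat_lit 0) (nat_lit 46596491217) (nat_lit 380) (nat_lit 6269357451) (nat_lit 456) (nat_lit 39313399642) (nat_lit 70) (nat_lit 5) (nat_lit 75)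 (nat_lit 5) (nat_lit 76) (nat_lit 5) (nat_lit 314) (nat_lit 289) (nat_lit 117)) (XT.lf (nat_lit 0) (nat_lit 14721850274) (nat_lit 304) (nat_lit 55886057104) (nat_lit 380) (nat_lit 24658464778) (nat_lit 66) (nat_lit 5) (nat_lit 70) (nat_lit 5) (nat_lit 71) (nat_lit 5) (nat_lit 315) (nat_lit 289) (nat_lit 116))) (XT.nd (nat_lit 35490) (nat_lit 0) (nat_lit 4940) (XT.lf (nat_lit 0) (nat_lit 78928410463) (nat_lit 304) (nat_lit 10839505301) (nat_lit 380) (nat_lit 8724013566) (nat_lit 66) (nat_lit 5) (nat_lit 70) (nat_lit 5) (nat_lit 71) (nat_lit 5) (nat_lit 316) (nat_lit 289) (nat_lit 115)) (XT.nd (nat_lit 78) (nat_lit 0) (nat_lit 76) (XT.lf (nat_lit 0) (nat_lit 5045723482) (nat_lit 1140) (nat_lit 9307989561) (nat_lit 1140) (nat_lit 9307989561) (nat_lit 131) (nat_lit 3) (nat_lit 146) (nat_lit 3) (nat_lit 146) (nat_lit 5) (nat_lit 290) (nat_lit 290) (nat_lit 140)) (XT.lf (nat_lit 0) (nat_lit 10535217078)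 (nat_lit 1064) (nat_lit 35529668430) (nat_lit 1140) (nat_lit 2435731109) (nat_lit 132) (nat_lit 5) (nat_lit 146) (nat_lit 5) (nat_lit 147) (nat_lit 5) (nat_lit 291) (nat_lit 290) (nat_lit 139))))))) (XT.nd (nat_lit 780) (nat_lit 3344) (nat_lit 0) (XT.nd (nat_lit 390) (nat_lit 608) (nat_lit 0) (XT.nd (nat_lit 156) (nat_lit 0) (nat_lit 76) (XT.nd (nat_lit 78) (nat_lit 0) (nat_lit 76) (XT.lf (nat_lit 0) (nat_lit 11481725634) (nat_lit 1064) (nat_lit 3497889396) (nat_lit 1140) (nat_lit 34742665333) (nat_lit 132) (nat_lit 5) (nat_lit 146) (nat_lit 5) (nat_lit 147) (nat_lit 5) (nat_lit 292) (nat_lit 290) (nat_lit 138)) (XT.lf (nat_lit 0) (nat_lit 12941081639) (nat_lit 1064) (nat_lit 20435208875) (nat_lit 1140) (nat_lit 17614779003) (nat_lit 133) (nat_lit 5) (nat_lit 147) (nat_lit 5) (nat_lit 148) (nat_lit 5) (nat_lit 293) (nat_lit 290) (nat_lit 137))) (XT.nd (nat_lit 78) (nat_lit 0) (nat_lit 76)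 (XT.lf (nat_lit 76) (nat_lit 14186945370) (nat_lit 0) (nat_lit 607907894) (nat_lit 1140) (nat_lit 37518808929) (nat_lit 134) (nat_lit 5) (nat_lit 133) (nat_lit 5) (nat_lit 148) (nat_lit 5) (nat_lit 294) (nat_lit 290) (nat_lit 136)) (XT.nd (nat_lit 78) (nat_lit 0) (nat_lit 76) (XT.lf (nat_lit 0) (nat_lit 17276284222) (nat_lit 1064) (nat_lit 3057372135) (nat_lit 1140) (nat_lit 33352686168) (nat_lit 134) (nat_lit 5) (nat_lit 148) (nat_lit 5) (nat_lit 149) (nat_lit 5) (nat_lit 295) (nat_lit 290) (nat_lit 135)) (XT.lf (nat_lit 0) (nat_lit 20353248605) (nat_lit 1064) (nat_lit 20824580949) (nat_lit 1140) (nat_lit 13935690269) (nat_lit 135) (nat_lit 5) (nat_lit 149) (nat_lit 5) (nat_lit 150) (nat_lit 5) (nat_lit 296) (nat_lit 290) (nat_lit 134))))) (XT.nd (nat_lit 156) (nat_lit 836) (nat_lit 0) (XT.nd (nat_lit 78) (nat_lit 0) (nat_lit 76) (XT.lf (nat_lit 76) (nat_lit 17081598771) (nat_lit 0) (nat_lit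 6901521510) (nat_lit 1140) (nat_lit 32616970412) (nat_lit 136) (nat_lit 5) (nat_lit 135) (nat_lit 5) (nat_lit 150) (nat_lit 5) (nat_lit 297) (nat_lit 290) (nat_lit 133)) (XT.lf (nat_lit 0) (nat_lit 28288533485) (nat_lit 1064) (nat_lit 1119593444) (nat_lit 1140) (nat_lit 28738047913) (nat_lit 136) (nat_lit 5) (nat_lit 150) (nat_lit 5) (nat_lit 151) (nat_lit 5) (nat_lit 298) (nat_lit 290) (nat_lit 132))) (XT.nd (nat_lit 78) (nat_lit 988) (nat_lit 0) (XT.lf (nat_lit 0) (nat_lit 33324409021) (nat_lit 1064) (nat_lit 19913081568) (nat_lit 1140) (nat_lit 6516622735) (nat_lit 137) (nat_lit 5) (nat_lit 151) (nat_lit 5) (nat_lit 152) (nat_lit 5) (nat_lit 299) (nat_lit 290) (nat_lit 131)) (XT.nd (nat_lit 78) (nat_lit 988) (nat_lit 0) (XT.lf (nat_lit 76) (nat_lit 21553118481) (nat_lit 0) (nat_lit 17572723876) (nat_lit 1140) (nat_lit 22301199052) (nat_lit 138) (nat_lit 5) (nat_lit 137) (nat_lit 5) (nat_lit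 152) (nat_lit 5) (nat_lit 300) (nat_lit 290) (nat_lit 130)) (XT.lf (nat_lit 0) (nat_lit 2179204142) (nat_lit 1064) (nat_lit 43455359978) (nat_lit 1140) (nat_lit 17536540605) (nat_lit 124) (nat_lit 5) (nat_lit 138) (nat_lit 5) (nat_lit 139) (nat_lit 5) (nat_lit 301) (nat_lit 290) (nat_lit 129)))))) (XT.nd (nat_lit 390) (nat_lit 1748) (nat_lit 0) (XT.nd (nat_lit 156) (nat_lit 1064) (nat_lit 0) (XT.nd (nat_lit 78) (nat_lit 532) (nat_lit 0) (XT.lf (nat_lit 0) (nat_lit 46985859145) (nat_lit 1064) (nat_lit 6067226496) (nat_lit 1140) (nat_lit 11931759735) (nat_lit 124) (nat_lit 5) (nat_lit 138) (nat_lit 5) (nat_lit 139) (nat_lit 5) (nat_lit 302) (nat_lit 290) (nat_lit 128)) (XT.lf (nat_lit 0) (nat_lit 27356893259) (nat_lit 532) (nat_lit 34066011373) (nat_lit 608) (nat_lit 5448962121) (nat_lit 117) (nat_lit 5) (nat_lit 124) (nat_lit 5) (nat_lit 125) (nat_lit 5) (nat_lit 303) (nat_lit 290) (nat_lit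 127))) (XT.nd (nat_lit 78) (nat_lit 532) (nat_lit 0) (XT.lf (nat_lit 0) (nat_lit 1688560976) (nat_lit 532) (nat_lit 62331411051) (nat_lit 76) (nat_lit 4822167496) (nat_lit 110) (nat_lit 5) (nat_lit 117) (nat_lit 5) (nat_lit 111) (nat_lit 5) (nat_lit 304) (nat_lit 290) (nat_lit 126)) (XT.nd (nat_lit 78) (nat_lit 532) (nat_lit 0) (XT.lf (nat_lit 0) (nat_lit 9824413482) (nat_lit 532) (nat_lit 15639592639) (nat_lit 76) (nat_lit 45422681178) (nat_lit 110) (nat_lit 5) (nat_lit 117) (nat_lit 5) (nat_lit 111) (nat_lit 5) (nat_lit 305) (nat_lit 290) (nat_lit 125)) (XT.lf (nat_lit 0) (nat_lit 18840523039) (nat_lit 608) (nat_lit 39121460109) (nat_lit 76) (nat_lit 15057279442) (nat_lit 103) (nat_lit 5) (nat_lit 111) (nat_lit 5) (nat_lit 104) (nat_lit 5) (nat_lit 306) (nat_lit 290) (nat_lit 124))))) (XT.nd (nat_lit 234) (nat_lit 836) (nat_lit 0) (XT.nd (nat_lit 78) (nat_lit 456) (nat_lit 0) (XT.lf (nat_lit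 0) (nat_lit 10938690068) (nat_lit 456) (nat_lit 17892094717) (nat_lit 532) (nat_lit 46411985319) (nat_lit 97) (nat_lit 5) (nat_lit 103) (nat_lit 5) (nat_lit 104) (nat_lit 5) (nat_lit 307) (nat_lit 290) (nat_lit 123)) (XT.nd (nat_lit 78) (nat_lit 456) (nat_lit 0) (XT.lf (nat_lit 0) (nat_lit 39958360056) (nat_lit 532) (nat_lit 13483843490) (nat_lit 76) (nat_lit 24116119114) (nat_lit 97) (nat_lit 5) (nat_lit 104) (nat_lit 5) (nat_lit 98) (nat_lit 5) (nat_lit 308) (nat_lit 290) (nat_lit 122)) (XT.lf (nat_lit 0) (nat_lit 40485489879) (nat_lit 456) (nat_lit 11725296042) (nat_lit 532) (nat_lit 27761816273) (nat_lit 91) (nat_lit 5) (nat_lit 97) (nat_lit 5) (nat_lit 98) (nat_lit 5) (nat_lit 309) (nat_lit 290) (nat_lit 121)))) (XT.nd (nat_lit 78) (nat_lit 456) (nat_lit 0) (XT.lf (nat_lit 0) (nat_lit 14911541576) (nat_lit 380) (nat_lit 50754916556) (nat_lit 456) (nat_lit 16823422155) (nat_lit 86) (nat_lit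 5) (nat_lit 91) (nat_lit 5) (nat_lit 92) (nat_lit 5) (nat_lit 310) (nat_lit 290) (nat_lit 120)) (XT.nd (nat_lit 78) (nat_lit 456) (nat_lit 0) (XT.lf (nat_lit 0) (nat_lit 72733284764) (nat_lit 380) (nat_lit 7584106168) (nat_lit 456) (nat_lit 4799960223) (nat_lit 86) (nat_lit 5) (nat_lit 91) (nat_lit 5) (nat_lit 92) (nat_lit 5) (nat_lit 311) (nat_lit 290) (nat_lit 119)) (XT.lf (nat_lit 0) (nat_lit 8484839838) (nat_lit 456) (nat_lit 41829743546) (nat_lit 76) (nat_lit 37534973075) (nat_lit 80) (nat_lit 5) (nat_lit 86) (nat_lit 5) (nat_lit 81) (nat_lit 5) (nat_lit 312) (nat_lit 290) (nat_lit 118))))))))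
noncomputable def xc123 : XT := (XT.nd (nat_lit 37128) (nat_lit 0) (nat_lit 684) (XT.nd (nat_lit 36270) (nat_lit 0) (nat_lit 2812) (XT.nd (nat_lit 35880) (nat_lit 0) (nat_lit 5016) (XT.nd (nat_lit 156) (nat_lit 684) (nat_lit 0) (XT.nd (nat_lit 78) (nat_lit 0) (nat_lit 0) (XT.lf (nat_lit 0) (nat_lit 17094172065) (nat_lit 380) (nat_lit 5609863602) (nat_lit 456) (nat_lit 68001830639) (nat_lit 75) (nat_lit 5) (nat_lit 80) (nat_lit 5) (nat_lit 81) (nat_lit 5) (nat_lit 313) (nat_lit 290) (nat_lit 117)) (XT.lf (nat_lit 0) (nat_lit 38465274909) (nat_lit 456) (nat_lit 14256490281) (nat_lit 76) (nat_lit 40958296612) (nat_lit 75) (nat_lit 5) (nat_lit 81) (nat_lit 5) (nat_lit 76) (nat_lit 5) (nat_lit 314) (nat_lit 290) (nat_lit 116))) (XT.nd (nat_lit 78) (nat_lit 304) (nat_lit 0) (XT.lf (nat_lit 0) (nat_lit 48964113410) (nat_lit 380) (nat_lit 6576738207) (nat_lit 456) (nat_lit 41246329728) (nat_lit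 70) (nat_lit 5) (nat_lit 75) (nat_lit 5) (nat_lit 76) (nat_lit 5) (nat_lit 315) (nat_lit 290) (nat_lit 115)) (XT.nd (nat_lit 35568) (nat_lit 0) (nat_lit 4940) (XT.lf (nat_lit 0) (nat_lit 15495599996) (nat_lit 304) (nat_lit 58673320953) (nat_lit 380) (nat_lit 25859776922) (nat_lit 66) (nat_lit 5) (nat_lit 70) (nat_lit 5) (nat_lit 71) (nat_lit 5) (nat_lit 316) (nat_lit 290) (nat_lit 114)) (XT.lf (nat_lit 0) (nat_lit 5340026354) (nat_lit 1140) (nat_lit 9751686845) (nat_lit 1140) (nat_lit 9751686845) (nat_lit 131) (nat_lit 3) (nat_lit 146) (nat_lit 3) (nat_lit 146) (nat_lit 5) (nat_lit 291) (nat_lit 291) (nat_lit 138))))) (XT.nd (nat_lit 156) (nat_lit 0) (nat_lit 76) (XT.nd (nat_lit 78) (nat_lit 0) (nat_lit 0) (XT.lf (nat_lit 0) (nat_lit 11142047065) (nat_lit 1064) (nat_lit 37260968322) (nat_lit 1140) (nat_lit 2519987720) (nat_lit 132) (nat_lit 5) (nat_lit 146) (nat_lit 5) (nat_lit 147) (nat_lit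 5) (nat_lit 292) (nat_lit 291) (nat_lit 137)) (XT.lf (nat_lit 0) (nat_lit 12132068234) (nat_lit 1064) (nat_lit 3629751934) (nat_lit 1140) (nat_lit 36444055796) (nat_lit 132) (nat_lit 5) (nat_lit 146) (nat_lit 5) (nat_lit 147) (nat_lit 5) (nat_lit 293) (nat_lit 291) (nat_lit 136))) (XT.nd (nat_lit 78) (nat_lit 0) (nat_lit 0) (XT.lf (nat_lit 0) (nat_lit 13660862390) (nat_lit 1064) (nat_lit 21412460153) (nat_lit 1140) (nat_lit 18464898906) (nat_lit 133) (nat_lit 5) (nat_lit 147) (nat_lit 5) (nat_lit 148) (nat_lit 5) (nat_lit 294) (nat_lit 291) (nat_lit 135)) (XT.nd (nat_lit 78) (nat_lit 0) (nat_lit 76) (XT.lf (nat_lit 76) (nat_lit 14939525959) (nat_lit 0) (nat_lit 664749049) (nat_lit 1140) (nat_lit 39322770644) (nat_lit 134) (nat_lit 5) (nat_lit 133) (nat_lit 5) (nat_lit 148) (nat_lit 5) (nat_lit 295) (nat_lit 291) (nat_lit 134)) (XT.lf (nat_lit 0) (nat_lit 18206217354) (nat_lit 1064) (nat_lit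 3166633901) (nat_lit 1140) (nat_lit 34995625517) (nat_lit 134) (nat_lit 5) (nat_lit 148) (nat_lit 5) (nat_lit 149) (nat_lit 5) (nat_lit 296) (nat_lit 291) (nat_lit 133)))))) (XT.nd (nat_lit 390) (nat_lit 2432) (nat_lit 0) (XT.nd (nat_lit 156) (nat_lit 0) (nat_lit 76) (XT.nd (nat_lit 78) (nat_lit 0) (nat_lit 0) (XT.lf (nat_lit 0) (nat_lit 21434086532) (nat_lit 1064) (nat_lit 21821159923) (nat_lit 1140) (nat_lit 14611864272) (nat_lit 135) (nat_lit 5) (nat_lit 149) (nat_lit 5) (nat_lit 150) (nat_lit 5) (nat_lit 297) (nat_lit 291) (nat_lit 132)) (XT.lf (nat_lit 76) (nat_lit 17979048898) (nat_lit 0) (nat_lit 7263811439) (nat_lit 1140) (nat_lit 34185236587) (nat_lit 136) (nat_lit 5) (nat_lit 135) (nat_lit 5) (nat_lit 150) (nat_lit 5) (nat_lit 298) (nat_lit 291) (nat_lit 131))) (XT.nd (nat_lit 78) (nat_lit 0) (nat_lit 76) (XT.lf (nat_lit 0) (nat_lit 29760501655) (nat_lit 1064) (nat_lit 1132207438)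 (nat_lit 1140) (nat_lit 30158876071) (nat_lit 136) (nat_lit 5) (nat_lit 150) (nat_lit 5) (nat_lit 151) (nat_lit 5) (nat_lit 299) (nat_lit 291) (nat_lit 130)) (XT.nd (nat_lit 78) (nat_lit 0) (nat_lit 0) (XT.lf (nat_lit 0) (nat_lit 35045710037) (nat_lit 1064) (nat_lit 20864667103) (nat_lit 1140) (nat_lit 6829625458) (nat_lit 137) (nat_lit 5) (nat_lit 151) (nat_lit 5) (nat_lit 152) (nat_lit 5) (nat_lit 300) (nat_lit 291) (nat_lit 129)) (XT.lf (nat_lit 76) (nat_lit 22673579733) (nat_lit 0) (nat_lit 18461423893) (nat_lit 1140) (nat_lit 23361647612) (nat_lit 138) (nat_lit 5) (nat_lit 137) (nat_lit 5) (nat_lit 152) (nat_lit 5) (nat_lit 301) (nat_lit 291) (nat_lit 128))))) (XT.nd (nat_lit 234) (nat_lit 1064) (nat_lit 0) (XT.nd (nat_lit 78) (nat_lit 532) (nat_lit 0) (XT.lf (nat_lit 0) (nat_lit 2331528939) (nat_lit 1064) (nat_lit 45635439675) (nat_lit 1140) (nat_lit 18361022329) (nat_lit 124) (nat_lit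 5) (nat_lit 138) (nat_lit 5) (nat_lit 139) (nat_lit 5) (nat_lit 302) (nat_lit 291) (nat_lit 127)) (XT.nd (nat_lit 78) (nat_lit 532) (nat_lit 0) (XT.lf (nat_lit 0) (nat_lit 49376451711) (nat_lit 1064) (nat_lit 6377551342) (nat_lit 1140) (nat_lit 12478495050) (nat_lit 124) (nat_lit 5) (nat_lit 138) (nat_lit 5) (nat_lit 139) (nat_lit 5) (nat_lit 303) (nat_lit 291) (nat_lit 126)) (XT.lf (nat_lit 0) (nat_lit 28766462682) (nat_lit 532) (nat_lit 35773889401) (nat_lit 608) (nat_lit 5673584038) (nat_lit 117) (nat_lit 5) (nat_lit 124) (nat_lit 5) (nat_lit 125) (nat_lit 5) (nat_lit 304) (nat_lit 291) (nat_lit 125)))) (XT.nd (nat_lit 78) (nat_lit 532) (nat_lit 0) (XT.lf (nat_lit 0) (nat_lit 1818014865) (nat_lit 532) (nat_lit 65404909010) (nat_lit 76) (nat_lit 5059847112) (nat_lit 110) (nat_lit 5) (nat_lit 117) (nat_lit 5) (nat_lit 111) (nat_lit 5) (nat_lit 305) (nat_lit 291) (nat_lit 124)) (XT.nd (nat_lit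 78) (nat_lit 532) (nat_lit 0) (XT.lf (nat_lit 0) (nat_lit 10358515909) (nat_lit 532) (nat_lit 16380550754) (nat_lit 76) (nat_lit 47690549752) (nat_lit 110) (nat_lit 5) (nat_lit 117) (nat_lit 5) (nat_lit 111) (nat_lit 5) (nat_lit 306) (nat_lit 291) (nat_lit 123)) (XT.lf (nat_lit 0) (nat_lit 19823758737) (nat_lit 608) (nat_lit 41036324408) (nat_lit 76) (nat_lit 15808793146) (nat_lit 103) (nat_lit 5) (nat_lit 111) (nat_lit 5) (nat_lit 104) (nat_lit 5) (nat_lit 307) (nat_lit 291) (nat_lit 122))))))) (XT.nd (nat_lit 36426) (nat_lit 0) (nat_lit 3724) (XT.nd (nat_lit 390) (nat_lit 836) (nat_lit 0) (XT.nd (nat_lit 156) (nat_lit 836) (nat_lit 0) (XT.nd (nat_lit 78) (nat_lit 0) (nat_lit 0) (XT.lf (nat_lit 0) (nat_lit 11525652038) (nat_lit 456) (nat_lit 18786303943) (nat_lit 532) (nat_lit 48691655917) (nat_lit 97) (nat_lit 5) (nat_lit 103) (nat_lit 5) (nat_lit 104) (nat_lit 5) (nat_lit 308) (nat_lit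 291) (nat_lit 121)) (XT.lf (nat_lit 0) (nat_lit 41994026400) (nat_lit 532) (nat_lit 14118682926) (nat_lit 76) (nat_lit 25322294396) (nat_lit 97) (nat_lit 5) (nat_lit 104) (nat_lit 5) (nat_lit 98) (nat_lit 5) (nat_lit 309) (nat_lit 291) (nat_lit 120))) (XT.nd (nat_lit 78) (nat_lit 380) (nat_lit 0) (XT.lf (nat_lit 0) (nat_lit 42547989073) (nat_lit 456) (nat_lit 12309654383) (nat_lit 532) (nat_lit 29112401565) (nat_lit 91) (nat_lit 5) (nat_lit 97) (nat_lit 5) (nat_lit 98) (nat_lit 5) (nat_lit 310) (nat_lit 291) (nat_lit 119)) (XT.nd (nat_lit 78) (nat_lit 0) (nat_lit 0) (XT.lf (nat_lit 0) (nat_lit 15695383100) (nat_lit 380) (nat_lit 53289372014) (nat_lit 456) (nat_lit 17628476885) (nat_lit 86) (nat_lit 5) (nat_lit 91) (nat_lit 5) (nat_lit 92) (nat_lit 5) (nat_lit 311) (nat_lit 291) (nat_lit 118)) (XT.lf (nat_lit 0) (nat_lit 76406391330) (nat_lit 380) (nat_lit 7960177791) (nat_lit 456) (nat_lit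 5005561684) (nat_lit 86) (nat_lit 5) (nat_lit 91) (nat_lit 5) (nat_lit 92) (nat_lit 5) (nat_lit 312) (nat_lit 291) (nat_lit 117))))) (XT.nd (nat_lit 156) (nat_lit 0) (nat_lit 0) (XT.nd (nat_lit 78) (nat_lit 380) (nat_lit 0) (XT.lf (nat_lit 0) (nat_lit 8941583791) (nat_lit 456) (nat_lit 43884076723) (nat_lit 76) (nat_lit 39415316741) (nat_lit 80) (nat_lit 5) (nat_lit 86) (nat_lit 5) (nat_lit 81) (nat_lit 5) (nat_lit 313) (nat_lit 291) (nat_lit 116)) (XT.lf (nat_lit 0) (nat_lit 17984969657) (nat_lit 380) (nat_lit 5885568951) (nat_lit 456) (nat_lit 71369603914) (nat_lit 75) (nat_lit 5) (nat_lit 80) (nat_lit 5) (nat_lit 81) (nat_lit 5) (nat_lit 314) (nat_lit 291) (nat_lit 115))) (XT.nd (nat_lit 35724) (nat_lit 0) (nat_lit 4256) (XT.lf (nat_lit 0) (nat_lit 40418393113) (nat_lit 456) (nat_lit 14934019496) (nat_lit 76) (nat_lit 43010682303) (nat_lit 75) (nat_lit 5) (nat_lit 81) (nat_lit 5) (nat_lit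 76) (nat_lit 5) (nat_lit 315) (nat_lit 291) (nat_lit 114)) (XT.nd (nat_lit 78) (nat_lit 0) (nat_lit 76) (XT.lf (nat_lit 0) (nat_lit 5645138054) (nat_lit 1140) (nat_lit 10219586658) (nat_lit 1140) (nat_lit 10219586658) (nat_lit 131) (nat_lit 3) (nat_lit 146) (nat_lit 3) (nat_lit 146) (nat_lit 5) (nat_lit 292) (nat_lit 292) (nat_lit 136)) (XT.lf (nat_lit 0) (nat_lit 11771774482) (nat_lit 1064) (nat_lit 39083033945) (nat_lit 1140) (nat_lit 2611946340) (nat_lit 132) (nat_lit 5) (nat_lit 146) (nat_lit 5) (nat_lit 147) (nat_lit 5) (nat_lit 293) (nat_lit 292) (nat_lit 135)))))) (XT.nd (nat_lit 390) (nat_lit 608) (nat_lit 0) (XT.nd (nat_lit 156) (nat_lit 0) (nat_lit 76) (XT.nd (nat_lit 78) (nat_lit 0) (nat_lit 76) (XT.lf (nat_lit 0) (nat_lit 12807838373) (nat_lit 1064) (nat_lit 3772208299) (nat_lit 1140) (nat_lit 38233838808) (nat_lit 132) (nat_lit 5) (nat_lit 146) (nat_lit 5) (nat_lit 147) (nat_lit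 5) (nat_lit 294) (nat_lit 292) (nat_lit 134)) (XT.lf (nat_lit 0) (nat_lit 14409870743) (nat_lit 1064) (nat_lit 22442712035) (nat_lit 1140) (nat_lit 19360371474) (nat_lit 133) (nat_lit 5) (nat_lit 147) (nat_lit 5) (nat_lit 148) (nat_lit 5) (nat_lit 295) (nat_lit 292) (nat_lit 133))) (XT.nd (nat_lit 78) (nat_lit 0) (nat_lit 76) (XT.lf (nat_lit 76) (nat_lit 15725716152) (nat_lit 0) (nat_lit 721973586) (nat_lit 1140) (nat_lit 41223622345) (nat_lit 134) (nat_lit 5) (nat_lit 133) (nat_lit 5) (nat_lit 148) (nat_lit 5) (nat_lit 296) (nat_lit 292) (nat_lit 132)) (XT.nd (nat_lit 78) (nat_lit 0) (nat_lit 76) (XT.lf (nat_lit 0) (nat_lit 19176500032) (nat_lit 1064) (nat_lit 3285412905) (nat_lit 1140) (nat_lit 36723007736) (nat_lit 134) (nat_lit 5) (nat_lit 148) (nat_lit 5) (nat_lit 149) (nat_lit 5) (nat_lit 297) (nat_lit 292) (nat_lit 131)) (XT.lf (nat_lit 0) (nat_lit 22563092897) (nat_lit 1064) (nat_lit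 22871718987) (nat_lit 1140) (nat_lit 15323763144) (nat_lit 135) (nat_lit 5) (nat_lit 149) (nat_lit 5) (nat_lit 150) (nat_lit 5) (nat_lit 298) (nat_lit 292) (nat_lit 130))))) (XT.nd (nat_lit 234) (nat_lit 836) (nat_lit 0) (XT.nd (nat_lit 78) (nat_lit 0) (nat_lit 76) (XT.lf (nat_lit 76) (nat_lit 18917339382) (nat_lit 0) (nat_lit 7642615484) (nat_lit 1140) (nat_lit 35837734385) (nat_lit 136) (nat_lit 5) (nat_lit 135) (nat_lit 5) (nat_lit 150) (nat_lit 5) (nat_lit 299) (nat_lit 292) (nat_lit 129)) (XT.nd (nat_lit 78) (nat_lit 0) (nat_lit 76) (XT.lf (nat_lit 0) (nat_lit 31300718571) (nat_lit 1064) (nat_lit 1149483862) (nat_lit 1140) (nat_lit 31652240068) (nat_lit 136) (nat_lit 5) (nat_lit 150) (nat_lit 5) (nat_lit 151) (nat_lit 5) (nat_lit 300) (nat_lit 292) (nat_lit 128)) (XT.lf (nat_lit 0) (nat_lit 36847955234) (nat_lit 1064) (nat_lit 21867928990) (nat_lit 1140) (nat_lit 7159470983) (nat_lit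 137) (nat_lit 5) (nat_lit 151) (nat_lit 5) (nat_lit 152) (nat_lit 5) (nat_lit 301) (nat_lit 292) (nat_lit 127)))) (XT.nd (nat_lit 78) (nat_lit 988) (nat_lit 0) (XT.lf (nat_lit 76) (nat_lit 23846084413) (nat_lit 0) (nat_lit 19393623273) (nat_lit 1140) (nat_lit 24480195849) (nat_lit 138) (nat_lit 5) (nat_lit 137) (nat_lit 5) (nat_lit 152) (nat_lit 5) (nat_lit 302) (nat_lit 292) (nat_lit 126)) (XT.nd (nat_lit 78) (nat_lit 0) (nat_lit 0) (XT.lf (nat_lit 0) (nat_lit 2487438346) (nat_lit 1064) (nat_lit 47923843584) (nat_lit 1140) (nat_lit 19231594710) (nat_lit 124) (nat_lit 5) (nat_lit 138) (nat_lit 5) (nat_lit 139) (nat_lit 5) (nat_lit 303) (nat_lit 292) (nat_lit 125)) (XT.lf (nat_lit 0) (nat_lit 51882734259) (nat_lit 1064) (nat_lit 6702745029) (nat_lit 1140) (nat_lit 13057201959) (nat_lit 124) (nat_lit 5) (nat_lit 138) (nat_lit 5) (nat_lit 139) (nat_lit 5) (nat_lit 304) (nat_lit 292) (nat_lit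 124))))))))
noncomputable def xc124 : XT := (XT.nd (nat_lit 37284) (nat_lit 0) (nat_lit 836) (XT.nd (nat_lit 780) (nat_lit 380) (nat_lit 0) (XT.nd (nat_lit 390) (nat_lit 1292) (nat_lit 0) (XT.nd (nat_lit 156) (nat_lit 988) (nat_lit 0) (XT.nd (nat_lit 78) (nat_lit 532) (nat_lit 0) (XT.lf (nat_lit 0) (nat_lit 30242631404) (nat_lit 532) (nat_lit 37566735761) (nat_lit 608) (nat_lit 5913883476) (nat_lit 117) (nat_lit 5) (nat_lit 124) (nat_lit 5) (nat_lit 125) (nat_lit 5) (nat_lit 305) (nat_lit 292) (nat_lit 123)) (XT.lf (nat_lit 0) (nat_lit 1949755372) (nat_lit 532) (nat_lit 68636086348) (nat_lit 76) (nat_lit 5309729482) (nat_lit 110) (nat_lit 5) (nat_lit 117) (nat_lit 5) (nat_lit 111) (nat_lit 5) (nat_lit 306) (nat_lit 292) (nat_lit 122))) (XT.nd (nat_lit 78) (nat_lit 988) (nat_lit 0) (XT.lf (nat_lit 0) (nat_lit 10915336718) (nat_lit 532) (nat_lit 17162370566) (nat_lit 76) (nat_lit 50072115349)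 (nat_lit 110) (nat_lit 5) (nat_lit 117) (nat_lit 5) (nat_lit 111) (nat_lit 5) (nat_lit 307) (nat_lit 292) (nat_lit 121)) (XT.nd (nat_lit 78) (nat_lit 456) (nat_lit 0) (XT.lf (nat_lit 0) (nat_lit 20852324948) (nat_lit 608) (nat_lit 43050763118) (nat_lit 76) (nat_lit 16598008071) (nat_lit 103) (nat_lit 5) (nat_lit 111) (nat_lit 5) (nat_lit 104) (nat_lit 5) (nat_lit 308) (nat_lit 292) (nat_lit 120)) (XT.lf (nat_lit 0) (nat_lit 12138240732) (nat_lit 456) (nat_lit 19725260401) (nat_lit 532) (nat_lit 51089115205) (nat_lit 97) (nat_lit 5) (nat_lit 103) (nat_lit 5) (nat_lit 104) (nat_lit 5) (nat_lit 309) (nat_lit 292) (nat_lit 119))))) (XT.nd (nat_lit 156) (nat_lit 836) (nat_lit 0) (XT.nd (nat_lit 78) (nat_lit 456) (nat_lit 0) (XT.lf (nat_lit 0) (nat_lit 44127966578) (nat_lit 532) (nat_lit 14788922979) (nat_lit 76) (nat_lit 26588744105) (nat_lit 97) (nat_lit 5) (nat_lit 104) (nat_lit 5) (nat_lit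 98) (nat_lit 5) (nat_lit 310) (nat_lit 292) (nat_lit 118)) (XT.lf (nat_lit 0) (nat_lit 44710059457) (nat_lit 456) (nat_lit 12923407887) (nat_lit 532) (nat_lit 30534003029) (nat_lit 91) (nat_lit 5) (nat_lit 97) (nat_lit 5) (nat_lit 98) (nat_lit 5) (nat_lit 311) (nat_lit 292) (nat_lit 117))) (XT.nd (nat_lit 78) (nat_lit 456) (nat_lit 0) (XT.lf (nat_lit 0) (nat_lit 16514859235) (nat_lit 380) (nat_lit 55950856152) (nat_lit 456) (nat_lit 18477142110) (nat_lit 86) (nat_lit 5) (nat_lit 91) (nat_lit 5) (nat_lit 92) (nat_lit 5) (nat_lit 312) (nat_lit 292) (nat_lit 116)) (XT.nd (nat_lit 78) (nat_lit 456) (nat_lit 0) (XT.lf (nat_lit 0) (nat_lit 80259765163) (nat_lit 380) (nat_lit 8355344335) (nat_lit 456) (nat_lit 5224641083) (nat_lit 86) (nat_lit 5) (nat_lit 91) (nat_lit 5) (nat_lit 92) (nat_lit 5) (nat_lit 313) (nat_lit 292) (nat_lit 115)) (XT.lf (nat_lit 0) (nat_lit 9418143217) (nat_lit 456) (nat_lit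 46044580785) (nat_lit 76) (nat_lit 41389343361) (nat_lit 80) (nat_lit 5) (nat_lit 86) (nat_lit 5) (nat_lit 81) (nat_lit 5) (nat_lit 314) (nat_lit 292) (nat_lit 114)))))) (XT.nd (nat_lit 36114) (nat_lit 0) (nat_lit 4408) (XT.nd (nat_lit 35880) (nat_lit 0) (nat_lit 4332) (XT.nd (nat_lit 35802) (nat_lit 0) (nat_lit 4256) (XT.lf (nat_lit 0) (nat_lit 18916951916) (nat_lit 380) (nat_lit 6175504695) (nat_lit 456) (nat_lit 74908770497) (nat_lit 75) (nat_lit 5) (nat_lit 80) (nat_lit 5) (nat_lit 81) (nat_lit 5) (nat_lit 315) (nat_lit 292) (nat_lit 113)) (XT.lf (nat_lit 0) (nat_lit 5961962198) (nat_lit 1140) (nat_lit 10712711542) (nat_lit 1140) (nat_lit 10712711542) (nat_lit 131) (nat_lit 3) (nat_lit 146) (nat_lit 3) (nat_lit 146) (nat_lit 5) (nat_lit 293) (nat_lit 293) (nat_lit 134))) (XT.nd (nat_lit 78) (nat_lit 0) (nat_lit 0) (XT.lf (nat_lit 0) (nat_lit 12426236281) (nat_lit 1064) (nat_lit 41000013041)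 (nat_lit 1140) (nat_lit 2711667679) (nat_lit 132) (nat_lit 5) (nat_lit 146) (nat_lit 5) (nat_lit 147) (nat_lit 5) (nat_lit 294) (nat_lit 293) (nat_lit 133)) (XT.nd (nat_lit 78) (nat_lit 0) (nat_lit 76) (XT.lf (nat_lit 0) (nat_lit 13510966553) (nat_lit 1064) (nat_lit 3925416237) (nat_lit 1140) (nat_lit 40116125055) (nat_lit 132) (nat_lit 5) (nat_lit 146) (nat_lit 5) (nat_lit 147) (nat_lit 5) (nat_lit 295) (nat_lit 293) (nat_lit 132)) (XT.lf (nat_lit 0) (nat_lit 15190196691) (nat_lit 1064) (nat_lit 23528229835) (nat_lit 1140) (nat_lit 20303199683) (nat_lit 133) (nat_lit 5) (nat_lit 147) (nat_lit 5) (nat_lit 148) (nat_lit 5) (nat_lit 296) (nat_lit 293) (nat_lit 131))))) (XT.nd (nat_lit 156) (nat_lit 0) (nat_lit 152) (XT.nd (nat_lit 78) (nat_lit 0) (nat_lit 76) (XT.lf (nat_lit 76) (nat_lit 16547570119) (nat_lit 0) (nat_lit 779829257) (nat_lit 1140) (nat_lit 43225586382) (nat_lit 134) (nat_lit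 5) (nat_lit 133) (nat_lit 5) (nat_lit 148) (nat_lit 5) (nat_lit 297) (nat_lit 293) (nat_lit 130)) (XT.lf (nat_lit 0) (nat_lit 20189721234) (nat_lit 1064) (nat_lit 3413808093) (nat_lit 1140) (nat_lit 38538841518) (nat_lit 134) (nat_lit 5) (nat_lit 148) (nat_lit 5) (nat_lit 149) (nat_lit 5) (nat_lit 298) (nat_lit 293) (nat_lit 129))) (XT.nd (nat_lit 78) (nat_lit 0) (nat_lit 0) (XT.lf (nat_lit 0) (nat_lit 23743222180) (nat_lit 1064) (nat_lit 23978571211) (nat_lit 1140) (nat_lit 16072994983) (nat_lit 135) (nat_lit 5) (nat_lit 149) (nat_lit 5) (nat_lit 150) (nat_lit 5) (nat_lit 299) (nat_lit 293) (nat_lit 128)) (XT.nd (nat_lit 78) (nat_lit 0) (nat_lit 76) (XT.lf (nat_lit 76) (nat_lit 19898887111) (nat_lit 0) (nat_lit 8038908137) (nat_lit 1140) (nat_lit 37578134454) (nat_lit 136) (nat_lit 5) (nat_lit 135) (nat_lit 5) (nat_lit 150) (nat_lit 5) (nat_lit 300) (nat_lit 293) (nat_lit 127)) (XT.lf (nat_lit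 0) (nat_lit 32913094031) (nat_lit 1064) (nat_lit 1171281004) (nat_lit 1140) (nat_lit 33221627756) (nat_lit 136) (nat_lit 5) (nat_lit 150) (nat_lit 5) (nat_lit 151) (nat_lit 5) (nat_lit 301) (nat_lit 293) (nat_lit 126))))))) (XT.nd (nat_lit 780) (nat_lit 836) (nat_lit 0) (XT.nd (nat_lit 390) (nat_lit 1520) (nat_lit 0) (XT.nd (nat_lit 156) (nat_lit 1520) (nat_lit 0) (XT.nd (nat_lit 78) (nat_lit 0) (nat_lit 0) (XT.lf (nat_lit 0) (nat_lit 38735667913) (nat_lit 1064) (nat_lit 22925070139) (nat_lit 1140) (nat_lit 7506890565) (nat_lit 137) (nat_lit 5) (nat_lit 151) (nat_lit 5) (nat_lit 152) (nat_lit 5) (nat_lit 302) (nat_lit 293) (nat_lit 125)) (XT.lf (nat_lit 76) (nat_lit 25073604683) (nat_lit 0) (nat_lit 20371583969) (nat_lit 1140) (nat_lit 25659276713) (nat_lit 138) (nat_lit 5) (nat_lit 137) (nat_lit 5) (nat_lit 152) (nat_lit 5) (nat_lit 303) (nat_lit 293) (nat_lit 124))) (XT.nd (nat_lit 78)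 (nat_lit 532) (nat_lit 0) (XT.lf (nat_lit 0) (nat_lit 2647486418) (nat_lit 1064) (nat_lit 50326051115) (nat_lit 1140) (nat_lit 20150109833) (nat_lit 124) (nat_lit 5) (nat_lit 138) (nat_lit 5) (nat_lit 139) (nat_lit 5) (nat_lit 304) (nat_lit 293) (nat_lit 123)) (XT.nd (nat_lit 78) (nat_lit 532) (nat_lit 0) (XT.lf (nat_lit 0) (nat_lit 54510848262) (nat_lit 1064) (nat_lit 7043611187) (nat_lit 1140) (nat_lit 13669048140) (nat_lit 124) (nat_lit 5) (nat_lit 138) (nat_lit 5) (nat_lit 139) (nat_lit 5) (nat_lit 305) (nat_lit 293) (nat_lit 122)) (XT.lf (nat_lit 0) (nat_lit 31789090039) (nat_lit 532) (nat_lit 39448838436) (nat_lit 608) (nat_lit 6170230926) (nat_lit 117) (nat_lit 5) (nat_lit 124) (nat_lit 5) (nat_lit 125) (nat_lit 5) (nat_lit 306) (nat_lit 293) (nat_lit 121))))) (XT.nd (nat_lit 156) (nat_lit 988) (nat_lit 0) (XT.nd (nat_lit 78) (nat_lit 0) (nat_lit 0) (XT.lf (nat_lit 0) (nat_lit 2084286011)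 (nat_lit 532) (nat_lit 72032454736) (nat_lit 76) (nat_lit 5572395108) (nat_lit 110) (nat_lit 5) (nat_lit 117) (nat_lit 5) (nat_lit 111) (nat_lit 5) (nat_lit 307) (nat_lit 293) (nat_lit 120)) (XT.lf (nat_lit 0) (nat_lit 11496382478) (nat_lit 532) (nat_lit 17986740590) (nat_lit 76) (nat_lit 52573034595) (nat_lit 110) (nat_lit 5) (nat_lit 117) (nat_lit 5) (nat_lit 111) (nat_lit 5) (nat_lit 308) (nat_lit 293) (nat_lit 119))) (XT.nd (nat_lit 78) (nat_lit 456) (nat_lit 0) (XT.lf (nat_lit 0) (nat_lit 21928844392) (nat_lit 608) (nat_lit 45169398770) (nat_lit 76) (nat_lit 17426797606) (nat_lit 103) (nat_lit 5) (nat_lit 111) (nat_lit 5) (nat_lit 104) (nat_lit 5) (nat_lit 309) (nat_lit 293) (nat_lit 118)) (XT.nd (nat_lit 78) (nat_lit 0) (nat_lit 0) (XT.lf (nat_lit 0) (nat_lit 12778083464) (nat_lit 456) (nat_lit 20711198034) (nat_lit 532) (nat_lit 53609898850) (nat_lit 97) (nat_lit 5) (nat_lit 103)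 (nat_lit 5) (nat_lit 104) (nat_lit 5) (nat_lit 310) (nat_lit 293) (nat_lit 117)) (XT.lf (nat_lit 0) (nat_lit 46365420560) (nat_lit 532) (nat_lit 15495993532) (nat_lit 76) (nat_lit 27918485156) (nat_lit 97) (nat_lit 5) (nat_lit 104) (nat_lit 5) (nat_lit 98) (nat_lit 5) (nat_lit 311) (nat_lit 293) (nat_lit 116)))))) (XT.nd (nat_lit 36270) (nat_lit 0) (nat_lit 3496) (XT.nd (nat_lit 156) (nat_lit 0) (nat_lit 0) (XT.nd (nat_lit 78) (nat_lit 380) (nat_lit 0) (XT.lf (nat_lit 0) (nat_lit 46977009985) (nat_lit 456) (nat_lit 13568009832) (nat_lit 532) (nat_lit 32029847295) (nat_lit 91) (nat_lit 5) (nat_lit 97) (nat_lit 5) (nat_lit 98) (nat_lit 5) (nat_lit 312) (nat_lit 293) (nat_lit 115)) (XT.lf (nat_lit 0) (nat_lit 17372082450) (nat_lit 380) (nat_lit 58745691964) (nat_lit 456) (nat_lit 19371286183) (nat_lit 86) (nat_lit 5) (nat_lit 91) (nat_lit 5) (nat_lit 92) (nat_lit 5) (nat_lit 313) (nat_lit 293)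 (nat_lit 114))) (XT.nd (nat_lit 35958) (nat_lit 0) (nat_lit 3420) (XT.lf (nat_lit 0) (nat_lit 84302734615) (nat_lit 380) (nat_lit 8770533461) (nat_lit 456) (nat_lit 5457575010) (nat_lit 86) (nat_lit 5) (nat_lit 91) (nat_lit 5) (nat_lit 92) (nat_lit 5) (nat_lit 314) (nat_lit 293) (nat_lit 113)) (XT.nd (nat_lit 78) (nat_lit 0) (nat_lit 76) (XT.lf (nat_lit 0) (nat_lit 6291413814) (nat_lit 1140) (nat_lit 11232152608) (nat_lit 1140) (nat_lit 11232152608) (nat_lit 131) (nat_lit 3) (nat_lit 146) (nat_lit 3) (nat_lit 146) (nat_lit 5) (nat_lit 294) (nat_lit 294) (nat_lit 132)) (XT.lf (nat_lit 0) (nat_lit 13107296915) (nat_lit 1064) (nat_lit 43016297048) (nat_lit 1140) (nat_lit 2819245640) (nat_lit 132) (nat_lit 5) (nat_lit 146) (nat_lit 5) (nat_lit 147) (nat_lit 5) (nat_lit 295) (nat_lit 294) (nat_lit 131))))) (XT.nd (nat_lit 234) (nat_lit 0) (nat_lit 152) (XT.nd (nat_lit 78) (nat_lit 0) (nat_lit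 76) (XT.lf (nat_lit 0) (nat_lit 14243418519) (nat_lit 1064) (nat_lit 4089575958) (nat_lit 1140) (nat_lit 42095259477) (nat_lit 132) (nat_lit 5) (nat_lit 146) (nat_lit 5) (nat_lit 147) (nat_lit 5) (nat_lit 296) (nat_lit 294) (nat_lit 130)) (XT.nd (nat_lit 78) (nat_lit 0) (nat_lit 0) (XT.lf (nat_lit 0) (nat_lit 16003976286) (nat_lit 1064) (nat_lit 24671427902) (nat_lit 1140) (nat_lit 21295511263) (nat_lit 133) (nat_lit 5) (nat_lit 147) (nat_lit 5) (nat_lit 148) (nat_lit 5) (nat_lit 297) (nat_lit 294) (nat_lit 129)) (XT.lf (nat_lit 76) (nat_lit 17407209994) (nat_lit 0) (nat_lit 838554954) (nat_lit 1140) (nat_lit 45333154064) (nat_lit 134) (nat_lit 5) (nat_lit 133) (nat_lit 5) (nat_lit 148) (nat_lit 5) (nat_lit 298) (nat_lit 294) (nat_lit 128)))) (XT.nd (nat_lit 78) (nat_lit 0) (nat_lit 76) (XT.lf (nat_lit 0) (nat_lit 21248546253) (nat_lit 1064) (nat_lit 3551958401) (nat_lit 1140) (nat_lit 40447355834)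 (nat_lit 134) (nat_lit 5) (nat_lit 148) (nat_lit 5) (nat_lit 149) (nat_lit 5) (nat_lit 299) (nat_lit 294) (nat_lit 127)) (XT.nd (nat_lit 78) (nat_lit 0) (nat_lit 0) (XT.lf (nat_lit 0) (nat_lit 24977525818) (nat_lit 1064) (nat_lit 25144181199) (nat_lit 1140) (nat_lit 16861264851) (nat_lit 135) (nat_lit 5) (nat_lit 149) (nat_lit 5) (nat_lit 150) (nat_lit 5) (nat_lit 300) (nat_lit 294) (nat_lit 126)) (XT.lf (nat_lit 76) (nat_lit 20926194969) (nat_lit 0) (nat_lit 8453698787) (nat_lit 1140) (nat_lit 39410341267) (nat_lit 136) (nat_lit 5) (nat_lit 135) (nat_lit 5) (nat_lit 150) (nat_lit 5) (nat_lit 301) (nat_lit 294) (nat_lit 125))))))))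
noncomputable def xc125 : XT := (XT.nd (nat_lit 37596) (nat_lit 0) (nat_lit 836) (XT.nd (nat_lit 780) (nat_lit 836) (nat_lit 0) (XT.nd (nat_lit 390) (nat_lit 2052) (nat_lit 0) (XT.nd (nat_lit 156) (nat_lit 912) (nat_lit 0) (XT.nd (nat_lit 78) (nat_lit 0) (nat_lit 76) (XT.lf (nat_lit 0) (nat_lit 34601687083) (nat_lit 1064) (nat_lit 1197484918) (nat_lit 1140) (nat_lit 34870714301) (nat_lit 136) (nat_lit 5) (nat_lit 150) (nat_lit 5) (nat_lit 151) (nat_lit 5) (nat_lit 302) (nat_lit 294) (nat_lit 124)) (XT.lf (nat_lit 0) (nat_lit 40713553273) (nat_lit 1064) (nat_lit 24038439020) (nat_lit 1140) (nat_lit 7872662334) (nat_lit 137) (nat_lit 5) (nat_lit 151) (nat_lit 5) (nat_lit 152) (nat_lit 5) (nat_lit 303) (nat_lit 294) (nat_lit 123))) (XT.nd (nat_lit 78) (nat_lit 988) (nat_lit 0) (XT.lf (nat_lit 76) (nat_lit 26359226912) (nat_lit 0) (nat_lit 21397672947) (nat_lit 1140) (nat_lit 26901488686) (nat_lit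 138) (nat_lit 5) (nat_lit 137) (nat_lit 5) (nat_lit 152) (nat_lit 5) (nat_lit 304) (nat_lit 294) (nat_lit 122)) (XT.nd (nat_lit 78) (nat_lit 0) (nat_lit 0) (XT.lf (nat_lit 0) (nat_lit 2812220063) (nat_lit 1064) (nat_lit 52847809773) (nat_lit 1140) (nat_lit 21118554451) (nat_lit 124) (nat_lit 5) (nat_lit 138) (nat_lit 5) (nat_lit 139) (nat_lit 5) (nat_lit 305) (nat_lit 294) (nat_lit 121)) (XT.lf (nat_lit 0) (nat_lit 57267209079) (nat_lit 1064) (nat_lit 7400988033) (nat_lit 1140) (nat_lit 14315299716) (nat_lit 124) (nat_lit 5) (nat_lit 138) (nat_lit 5) (nat_lit 139) (nat_lit 5) (nat_lit 306) (nat_lit 294) (nat_lit 120))))) (XT.nd (nat_lit 156) (nat_lit 988) (nat_lit 0) (XT.nd (nat_lit 78) (nat_lit 532) (nat_lit 0) (XT.lf (nat_lit 0) (nat_lit 33409680199) (nat_lit 532) (nat_lit 41424696129) (nat_lit 608) (nat_lit 6443053833) (nat_lit 117) (nat_lit 5) (nat_lit 124) (nat_lit 5) (nat_lit 125)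 (nat_lit 5) (nat_lit 307) (nat_lit 294) (nat_lit 119)) (XT.lf (nat_lit 0) (nat_lit 2222099286) (nat_lit 532) (nat_lit 75601936041) (nat_lit 76) (nat_lit 5848456271) (nat_lit 110) (nat_lit 5) (nat_lit 117) (nat_lit 5) (nat_lit 111) (nat_lit 5) (nat_lit 308) (nat_lit 294) (nat_lit 118))) (XT.nd (nat_lit 78) (nat_lit 988) (nat_lit 0) (XT.lf (nat_lit 0) (nat_lit 12103200625) (nat_lit 532) (nat_lit 18855466731) (nat_lit 76) (nat_lit 55199249570) (nat_lit 110) (nat_lit 5) (nat_lit 117) (nat_lit 5) (nat_lit 111) (nat_lit 5) (nat_lit 309) (nat_lit 294) (nat_lit 117)) (XT.nd (nat_lit 78) (nat_lit 456) (nat_lit 0) (XT.lf (nat_lit 0) (nat_lit 23056037810) (nat_lit 608) (nat_lit 47397118138) (nat_lit 76) (nat_lit 18297129895) (nat_lit 103) (nat_lit 5) (nat_lit 111) (nat_lit 5) (nat_lit 104) (nat_lit 5) (nat_lit 310) (nat_lit 294) (nat_lit 116)) (XT.lf (nat_lit 0) (nat_lit 13446856749) (nat_lit 456)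 (nat_lit 21746462799) (nat_lit 532) (nat_lit 56259852191) (nat_lit 97) (nat_lit 5) (nat_lit 103) (nat_lit 5) (nat_lit 104) (nat_lit 5) (nat_lit 311) (nat_lit 294) (nat_lit 115)))))) (XT.nd (nat_lit 36348) (nat_lit 0) (nat_lit 3496) (XT.nd (nat_lit 156) (nat_lit 380) (nat_lit 0) (XT.nd (nat_lit 78) (nat_lit 456) (nat_lit 0) (XT.lf (nat_lit 0) (nat_lit 48711859981) (nat_lit 532) (nat_lit 16241427589) (nat_lit 76) (nat_lit 29314685011) (nat_lit 97) (nat_lit 5) (nat_lit 104) (nat_lit 5) (nat_lit 98) (nat_lit 5) (nat_lit 312) (nat_lit 294) (nat_lit 114)) (XT.lf (nat_lit 0) (nat_lit 49354384344) (nat_lit 456) (nat_lit 14244987693) (nat_lit 532) (nat_lit 33603352461) (nat_lit 91) (nat_lit 5) (nat_lit 97) (nat_lit 5) (nat_lit 98) (nat_lit 5) (nat_lit 313) (nat_lit 294) (nat_lit 113))) (XT.nd (nat_lit 36036) (nat_lit 0) (nat_lit 3420) (XT.lf (nat_lit 0) (nat_lit 18269240091) (nat_lit 380) (nat_lit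 61680521237) (nat_lit 456) (nat_lit 20312899895) (nat_lit 86) (nat_lit 5) (nat_lit 91) (nat_lit 5) (nat_lit 92) (nat_lit 5) (nat_lit 314) (nat_lit 294) (nat_lit 112)) (XT.nd (nat_lit 78) (nat_lit 0) (nat_lit 76) (XT.lf (nat_lit 0) (nat_lit 6634423059) (nat_lit 1140) (nat_lit 11779071339) (nat_lit 1140) (nat_lit 11779071339) (nat_lit 131) (nat_lit 3) (nat_lit 146) (nat_lit 3) (nat_lit 146) (nat_lit 5) (nat_lit 295) (nat_lit 295) (nat_lit 130)) (XT.lf (nat_lit 0) (nat_lit 13816855702) (nat_lit 1064) (nat_lit 45136529909) (nat_lit 1140) (nat_lit 2934806179) (nat_lit 132) (nat_lit 5) (nat_lit 146) (nat_lit 5) (nat_lit 147) (nat_lit 5) (nat_lit 296) (nat_lit 295) (nat_lit 129))))) (XT.nd (nat_lit 234) (nat_lit 0) (nat_lit 152) (XT.nd (nat_lit 78) (nat_lit 0) (nat_lit 76) (XT.lf (nat_lit 0) (nat_lit 15007202722) (nat_lit 1064) (nat_lit 4264929050) (nat_lit 1140) (nat_lit 44175830314) (nat_lit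 132) (nat_lit 5) (nat_lit 146) (nat_lit 5) (nat_lit 147) (nat_lit 5) (nat_lit 297) (nat_lit 295) (nat_lit 128)) (XT.nd (nat_lit 78) (nat_lit 0) (nat_lit 0) (XT.lf (nat_lit 0) (nat_lit 16853399374) (nat_lit 1064) (nat_lit 25874873742) (nat_lit 1140) (nat_lit 22339562650) (nat_lit 133) (nat_lit 5) (nat_lit 147) (nat_lit 5) (nat_lit 148) (nat_lit 5) (nat_lit 298) (nat_lit 295) (nat_lit 127)) (XT.lf (nat_lit 76) (nat_lit 18306832506) (nat_lit 0) (nat_lit 898382233) (nat_lit 1140) (nat_lit 47551093728) (nat_lit 134) (nat_lit 5) (nat_lit 133) (nat_lit 5) (nat_lit 148) (nat_lit 5) (nat_lit 299) (nat_lit 295) (nat_lit 126)))) (XT.nd (nat_lit 78) (nat_lit 0) (nat_lit 76) (XT.lf (nat_lit 0) (nat_lit 22355725454) (nat_lit 1064) (nat_lit 3700041494) (nat_lit 1140) (nat_lit 42453009105) (nat_lit 134) (nat_lit 5) (nat_lit 148) (nat_lit 5) (nat_lit 149) (nat_lit 5) (nat_lit 300) (nat_lit 295) (nat_lit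 125)) (XT.nd (nat_lit 78) (nat_lit 0) (nat_lit 0) (XT.lf (nat_lit 0) (nat_lit 26269161772) (nat_lit 1064) (nat_lit 26371169332) (nat_lit 1140) (nat_lit 17690378089) (nat_lit 135) (nat_lit 5) (nat_lit 149) (nat_lit 5) (nat_lit 150) (nat_lit 5) (nat_lit 301) (nat_lit 295) (nat_lit 124)) (XT.lf (nat_lit 76) (nat_lit 22001859368) (nat_lit 0) (nat_lit 8888034739) (nat_lit 1140) (nat_lit 41338500136) (nat_lit 136) (nat_lit 5) (nat_lit 135) (nat_lit 5) (nat_lit 150) (nat_lit 5) (nat_lit 302) (nat_lit 295) (nat_lit 123))))))) (XT.nd (nat_lit 780) (nat_lit 0) (nat_lit 0) (XT.nd (nat_lit 390) (nat_lit 2052) (nat_lit 0) (XT.nd (nat_lit 156) (nat_lit 912) (nat_lit 0) (XT.nd (nat_lit 78) (nat_lit 0) (nat_lit 76) (XT.lf (nat_lit 0) (nat_lit 36370717787) (nat_lit 1064) (nat_lit 1228007566) (nat_lit 1140) (nat_lit 36603370340) (nat_lit 136) (nat_lit 5) (nat_lit 150) (nat_lit 5) (nat_lit 151) (nat_lit 5)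 (nat_lit 303) (nat_lit 295) (nat_lit 122)) (XT.lf (nat_lit 0) (nat_lit 42786511631) (nat_lit 1064) (nat_lit 25210533646) (nat_lit 1140) (nat_lit 8257612676) (nat_lit 137) (nat_lit 5) (nat_lit 151) (nat_lit 5) (nat_lit 152) (nat_lit 5) (nat_lit 304) (nat_lit 295) (nat_lit 121))) (XT.nd (nat_lit 78) (nat_lit 988) (nat_lit 0) (XT.lf (nat_lit 76) (nat_lit 27706160589) (nat_lit 0) (nat_lit 22474368187) (nat_lit 1140) (nat_lit 28209599980) (nat_lit 138) (nat_lit 5) (nat_lit 137) (nat_lit 5) (nat_lit 152) (nat_lit 5) (nat_lit 305) (nat_lit 295) (nat_lit 120)) (XT.nd (nat_lit 78) (nat_lit 0) (nat_lit 0) (XT.lf (nat_lit 0) (nat_lit 2982181927) (nat_lit 1064) (nat_lit 55495149106) (nat_lit 1140) (nat_lit 22139052810) (nat_lit 124) (nat_lit 5) (nat_lit 138) (nat_lit 5) (nat_lit 139) (nat_lit 5) (nat_lit 306) (nat_lit 295) (nat_lit 119)) (XT.lf (nat_lit 0) (nat_lit 60158522734) (nat_lit 1064) (nat_lit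 7775750620) (nat_lit 1140) (nat_lit 14997322450) (nat_lit 124) (nat_lit 5) (nat_lit 138) (nat_lit 5) (nat_lit 139) (nat_lit 5) (nat_lit 307) (nat_lit 295) (nat_lit 118))))) (XT.nd (nat_lit 156) (nat_lit 988) (nat_lit 0) (XT.nd (nat_lit 78) (nat_lit 532) (nat_lit 0) (XT.lf (nat_lit 0) (nat_lit 35108405170) (nat_lit 532) (nat_lit 43499029140) (nat_lit 608) (nat_lit 6732835878) (nat_lit 117) (nat_lit 5) (nat_lit 124) (nat_lit 5) (nat_lit 125) (nat_lit 5) (nat_lit 308) (nat_lit 295) (nat_lit 117)) (XT.lf (nat_lit 0) (nat_lit 2363679512) (nat_lit 532) (nat_lit 79352879616) (nat_lit 76) (nat_lit 6138558366) (nat_lit 110) (nat_lit 5) (nat_lit 117) (nat_lit 5) (nat_lit 111) (nat_lit 5) (nat_lit 309) (nat_lit 295) (nat_lit 116))) (XT.nd (nat_lit 78) (nat_lit 988) (nat_lit 0) (XT.lf (nat_lit 0) (nat_lit 12737384715) (nat_lit 532) (nat_lit 19770475090) (nat_lit 76) (nat_lit 57957001840) (nat_lit 110)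 (nat_lit 5) (nat_lit 117) (nat_lit 5) (nat_lit 111) (nat_lit 5) (nat_lit 310) (nat_lit 295) (nat_lit 115)) (XT.nd (nat_lit 78) (nat_lit 456) (nat_lit 0) (XT.lf (nat_lit 0) (nat_lit 24236731944) (nat_lit 608) (nat_lit 49739082371) (nat_lit 76) (nat_lit 19211072476) (nat_lit 103) (nat_lit 5) (nat_lit 111) (nat_lit 5) (nat_lit 104) (nat_lit 5) (nat_lit 311) (nat_lit 295) (nat_lit 114)) (XT.lf (nat_lit 0) (nat_lit 14146291751) (nat_lit 456) (nat_lit 22833518243) (nat_lit 532) (nat_lit 59045142667) (nat_lit 97) (nat_lit 5) (nat_lit 103) (nat_lit 5) (nat_lit 104) (nat_lit 5) (nat_lit 312) (nat_lit 295) (nat_lit 113)))))) (XT.nd (nat_lit 36504) (nat_lit 0) (nat_lit 2736) (XT.nd (nat_lit 36270) (nat_lit 0) (nat_lit 2660) (XT.nd (nat_lit 36192) (nat_lit 0) (nat_lit 2584) (XT.lf (nat_lit 0) (nat_lit 51173002544) (nat_lit 532) (nat_lit 17026863486) (nat_lit 76) (nat_lit 30780669236) (nat_lit 97) (nat_lit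 5) (nat_lit 104) (nat_lit 5) (nat_lit 98) (nat_lit 5) (nat_lit 313) (nat_lit 295) (nat_lit 112)) (XT.lf (nat_lit 0) (nat_lit 6991938820) (nat_lit 1140) (nat_lit 12354701642) (nat_lit 1140) (nat_lit 12354701642) (nat_lit 131) (nat_lit 3) (nat_lit 146) (nat_lit 3) (nat_lit 146) (nat_lit 5) (nat_lit 296) (nat_lit 296) (nat_lit 128))) (XT.nd (nat_lit 78) (nat_lit 0) (nat_lit 0) (XT.lf (nat_lit 0) (nat_lit 14556853989) (nat_lit 1064) (nat_lit 47365617638) (nat_lit 1140) (nat_lit 3058506357) (nat_lit 132) (nat_lit 5) (nat_lit 146) (nat_lit 5) (nat_lit 147) (nat_lit 5) (nat_lit 297) (nat_lit 296) (nat_lit 127)) (XT.nd (nat_lit 78) (nat_lit 0) (nat_lit 76) (XT.lf (nat_lit 0) (nat_lit 15804377622) (nat_lit 1064) (nat_lit 4451757629) (nat_lit 1140) (nat_lit 46362678849) (nat_lit 132) (nat_lit 5) (nat_lit 146) (nat_lit 5) (nat_lit 147) (nat_lit 5) (nat_lit 298) (nat_lit 296) (nat_lit 126)) (XT.lf (nat_lit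 0) (nat_lit 17740717209) (nat_lit 1064) (nat_lit 27141292662) (nat_lit 1140) (nat_lit 23437743344) (nat_lit 133) (nat_lit 5) (nat_lit 147) (nat_lit 5) (nat_lit 148) (nat_lit 5) (nat_lit 299) (nat_lit 296) (nat_lit 125))))) (XT.nd (nat_lit 234) (nat_lit 0) (nat_lit 152) (XT.nd (nat_lit 78) (nat_lit 0) (nat_lit 76) (XT.lf (nat_lit 76) (nat_lit 19248715639) (nat_lit 0) (nat_lit 959536747) (nat_lit 1140) (nat_lit 49884459718) (nat_lit 134) (nat_lit 5) (nat_lit 133) (nat_lit 5) (nat_lit 148) (nat_lit 5) (nat_lit 300) (nat_lit 296) (nat_lit 124)) (XT.nd (nat_lit 78) (nat_lit 0) (nat_lit 76) (XT.lf (nat_lit 0) (nat_lit 23514103008) (nat_lit 1064) (nat_lit 3858272751) (nat_lit 1140) (nat_lit 44560498997) (nat_lit 134) (nat_lit 5) (nat_lit 148) (nat_lit 5) (nat_lit 149) (nat_lit 5) (nat_lit 301) (nat_lit 296) (nat_lit 123)) (XT.lf (nat_lit 0) (nat_lit 27621404136) (nat_lit 1064) (nat_lit 27662316527)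 (nat_lit 1140) (nat_lit 18562243927) (nat_lit 135) (nat_lit 5) (nat_lit 149) (nat_lit 5) (nat_lit 150) (nat_lit 5) (nat_lit 302) (nat_lit 296) (nat_lit 122)))) (XT.nd (nat_lit 78) (nat_lit 0) (nat_lit 76) (XT.lf (nat_lit 76) (nat_lit 23128577869) (nat_lit 0) (nat_lit 9343004289) (nat_lit 1140) (nat_lit 43367005011) (nat_lit 136) (nat_lit 5) (nat_lit 135) (nat_lit 5) (nat_lit 150) (nat_lit 5) (nat_lit 303) (nat_lit 296) (nat_lit 121)) (XT.nd (nat_lit 78) (nat_lit 0) (nat_lit 76) (XT.lf (nat_lit 0) (nat_lit 38224579163) (nat_lit 1064) (nat_lit 1262785179) (nat_lit 1140) (nat_lit 38423670670) (nat_lit 136) (nat_lit 5) (nat_lit 150) (nat_lit 5) (nat_lit 151) (nat_lit 5) (nat_lit 304) (nat_lit 296) (nat_lit 120)) (XT.lf (nat_lit 0) (nat_lit 44959651901) (nat_lit 1064) (nat_lit 26444006065) (nat_lit 1140) (nat_lit 8662617777) (nat_lit 137) (nat_lit 5) (nat_lit 151) (nat_lit 5) (nat_lit 152) (nat_lit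 5) (nat_lit 305) (nat_lit 296) (nat_lit 119))))))))
noncomputable def xc126 : XT := (XT.nd (nat_lit 37830) (nat_lit 0) (nat_lit 532) (XT.nd (nat_lit 37050) (nat_lit 0) (nat_lit 1596) (XT.nd (nat_lit 390) (nat_lit 532) (nat_lit 0) (XT.nd (nat_lit 156) (nat_lit 1064) (nat_lit 0) (XT.nd (nat_lit 78) (nat_lit 988) (nat_lit 0) (XT.lf (nat_lit 76) (nat_lit 29117747376) (nat_lit 0) (nat_lit 23604264910) (nat_lit 1140) (nat_lit 29586553321) (nat_lit 138) (nat_lit 5) (nat_lit 137) (nat_lit 5) (nat_lit 152) (nat_lit 5) (nat_lit 306) (nat_lit 296) (nat_lit 118)) (XT.lf (nat_lit 0) (nat_lit 3157913119) (nat_lit 1064) (nat_lit 58274395310) (nat_lit 1140) (nat_lit 23213869974) (nat_lit 124) (nat_lit 5) (nat_lit 138) (nat_lit 5) (nat_lit 139) (nat_lit 5) (nat_lit 307) (nat_lit 296) (nat_lit 117))) (XT.nd (nat_lit 78) (nat_lit 1064) (nat_lit 0) (XT.lf (nat_lit 0) (nat_lit 63191803248) (nat_lit 1064) (nat_lit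 8168813149) (nat_lit 1140) (nat_lit 15716583357) (nat_lit 124) (nat_lit 5) (nat_lit 138) (nat_lit 5) (nat_lit 139) (nat_lit 5) (nat_lit 308) (nat_lit 296) (nat_lit 116)) (XT.nd (nat_lit 78) (nat_lit 532) (nat_lit 0) (XT.lf (nat_lit 0) (nat_lit 36889440812) (nat_lit 532) (nat_lit 45676790759) (nat_lit 608) (nat_lit 7040116540) (nat_lit 117) (nat_lit 5) (nat_lit 124) (nat_lit 5) (nat_lit 125) (nat_lit 5) (nat_lit 309) (nat_lit 296) (nat_lit 115)) (XT.lf (nat_lit 0) (nat_lit 2509505447) (nat_lit 532) (nat_lit 83294080761) (nat_lit 76) (nat_lit 6443381324) (nat_lit 110) (nat_lit 5) (nat_lit 117) (nat_lit 5) (nat_lit 111) (nat_lit 5) (nat_lit 310) (nat_lit 296) (nat_lit 114))))) (XT.nd (nat_lit 36426) (nat_lit 0) (nat_lit 2128) (XT.nd (nat_lit 78) (nat_lit 532) (nat_lit 0) (XT.lf (nat_lit 0) (nat_lit 13400579627) (nat_lit 532) (nat_lit 20733815191) (nat_lit 76) (nat_lit 60852847208) (nat_lit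 110) (nat_lit 5) (nat_lit 117) (nat_lit 5) (nat_lit 111) (nat_lit 5) (nat_lit 311) (nat_lit 296) (nat_lit 113)) (XT.lf (nat_lit 0) (nat_lit 25473867628) (nat_lit 608) (nat_lit 52200737919) (nat_lit 76) (nat_lit 20170797152) (nat_lit 103) (nat_lit 5) (nat_lit 111) (nat_lit 5) (nat_lit 104) (nat_lit 5) (nat_lit 312) (nat_lit 296) (nat_lit 112))) (XT.nd (nat_lit 78) (nat_lit 0) (nat_lit 76) (XT.lf (nat_lit 0) (nat_lit 7364932230) (nat_lit 1140) (nat_lit 12960352130) (nat_lit 1140) (nat_lit 12960352130) (nat_lit 131) (nat_lit 3) (nat_lit 146) (nat_lit 3) (nat_lit 146) (nat_lit 5) (nat_lit 297) (nat_lit 297) (nat_lit 126)) (XT.nd (nat_lit 78) (nat_lit 0) (nat_lit 0) (XT.lf (nat_lit 0) (nat_lit 15329282178) (nat_lit 1064) (nat_lit 49708738640) (nat_lit 1140) (nat_lit 3190533598) (nat_lit 132) (nat_lit 5) (nat_lit 146) (nat_lit 5) (nat_lit 147) (nat_lit 5) (nat_lit 298) (nat_lit 297) (nat_lit 125))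 (XT.lf (nat_lit 0) (nat_lit 16637058874) (nat_lit 1064) (nat_lit 4650383720) (nat_lit 1140) (nat_lit 48660909860) (nat_lit 132) (nat_lit 5) (nat_lit 146) (nat_lit 5) (nat_lit 147) (nat_lit 5) (nat_lit 299) (nat_lit 297) (nat_lit 124)))))) (XT.nd (nat_lit 390) (nat_lit 684) (nat_lit 0) (XT.nd (nat_lit 156) (nat_lit 0) (nat_lit 76) (XT.nd (nat_lit 78) (nat_lit 0) (nat_lit 0) (XT.lf (nat_lit 0) (nat_lit 18668250000) (nat_lit 1064) (nat_lit 28473572926) (nat_lit 1140) (nat_lit 24592580681) (nat_lit 133) (nat_lit 5) (nat_lit 147) (nat_lit 5) (nat_lit 148) (nat_lit 5) (nat_lit 300) (nat_lit 297) (nat_lit 123)) (XT.lf (nat_lit 76) (nat_lit 20235225351) (nat_lit 0) (nat_lit 1022239573) (nat_lit 1140) (nat_lit 52338602253) (nat_lit 134) (nat_lit 5) (nat_lit 133) (nat_lit 5) (nat_lit 148) (nat_lit 5) (nat_lit 301) (nat_lit 297) (nat_lit 122))) (XT.nd (nat_lit 78) (nat_lit 0) (nat_lit 76) (XT.lf (nat_lit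 0) (nat_lit 24726625648) (nat_lit 1064) (nat_lit 4026904467) (nat_lit 1140) (nat_lit 46774772869) (nat_lit 134) (nat_lit 5) (nat_lit 148) (nat_lit 5) (nat_lit 149) (nat_lit 5) (nat_lit 302) (nat_lit 297) (nat_lit 121)) (XT.nd (nat_lit 78) (nat_lit 0) (nat_lit 0) (XT.lf (nat_lit 0) (nat_lit 29037652823) (nat_lit 1064) (nat_lit 29020569522) (nat_lit 1140) (nat_lit 19478879420) (nat_lit 135) (nat_lit 5) (nat_lit 149) (nat_lit 5) (nat_lit 150) (nat_lit 5) (nat_lit 303) (nat_lit 297) (nat_lit 120)) (XT.lf (nat_lit 76) (nat_lit 24309156906) (nat_lit 0) (nat_lit 9819739821) (nat_lit 1140) (nat_lit 45500507070) (nat_lit 136) (nat_lit 5) (nat_lit 135) (nat_lit 5) (nat_lit 150) (nat_lit 5) (nat_lit 304) (nat_lit 297) (nat_lit 119))))) (XT.nd (nat_lit 156) (nat_lit 912) (nat_lit 0) (XT.nd (nat_lit 78) (nat_lit 0) (nat_lit 76) (XT.lf (nat_lit 0) (nat_lit 40167849379) (nat_lit 1064) (nat_lit 1301776806)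 (nat_lit 1140) (nat_lit 40335903466) (nat_lit 136) (nat_lit 5) (nat_lit 150) (nat_lit 5) (nat_lit 151) (nat_lit 5) (nat_lit 305) (nat_lit 297) (nat_lit 118)) (XT.lf (nat_lit 0) (nat_lit 47238305416) (nat_lit 1064) (nat_lit 27741667354) (nat_lit 1140) (nat_lit 9088605325) (nat_lit 137) (nat_lit 5) (nat_lit 151) (nat_lit 5) (nat_lit 152) (nat_lit 5) (nat_lit 306) (nat_lit 297) (nat_lit 117))) (XT.nd (nat_lit 78) (nat_lit 988) (nat_lit 0) (XT.lf (nat_lit 76) (nat_lit 30597470353) (nat_lit 0) (nat_lit 24790082070) (nat_lit 1140) (nat_lit 31035471320) (nat_lit 138) (nat_lit 5) (nat_lit 137) (nat_lit 5) (nat_lit 152) (nat_lit 5) (nat_lit 307) (nat_lit 297) (nat_lit 116)) (XT.nd (nat_lit 78) (nat_lit 0) (nat_lit 0) (XT.lf (nat_lit 0) (nat_lit 3339955801) (nat_lit 1064) (nat_lit 61192186502) (nat_lit 1140) (nat_lit 24345415648) (nat_lit 124) (nat_lit 5) (nat_lit 138) (nat_lit 5) (nat_lit 139) (nat_lit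 5) (nat_lit 308) (nat_lit 297) (nat_lit 115)) (XT.lf (nat_lit 0) (nat_lit 66374390577) (nat_lit 1064) (nat_lit 8581131356) (nat_lit 1140) (nat_lit 16474652691) (nat_lit 124) (nat_lit 5) (nat_lit 138) (nat_lit 5) (nat_lit 139) (nat_lit 5) (nat_lit 309) (nat_lit 297) (nat_lit 114))))))) (XT.nd (nat_lit 37128) (nat_lit 0) (nat_lit 532) (XT.nd (nat_lit 36738) (nat_lit 0) (nat_lit 1672) (XT.nd (nat_lit 156) (nat_lit 0) (nat_lit 0) (XT.nd (nat_lit 78) (nat_lit 532) (nat_lit 0) (XT.lf (nat_lit 0) (nat_lit 38757146760) (nat_lit 532) (nat_lit 47963179198) (nat_lit 608) (nat_lit 7365490955) (nat_lit 117) (nat_lit 5) (nat_lit 124) (nat_lit 5) (nat_lit 125) (nat_lit 5) (nat_lit 310) (nat_lit 297) (nat_lit 113)) (XT.lf (nat_lit 0) (nat_lit 2660052792) (nat_lit 532) (nat_lit 87434800367) (nat_lit 76) (nat_lit 6763641129) (nat_lit 110) (nat_lit 5) (nat_lit 117) (nat_lit 5) (nat_lit 111) (nat_lit 5) (nat_lit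 311) (nat_lit 297) (nat_lit 112))) (XT.nd (nat_lit 36426) (nat_lit 0) (nat_lit 1596) (XT.lf (nat_lit 0) (nat_lit 14094486772) (nat_lit 532) (nat_lit 21747663635) (nat_lit 76) (nat_lit 63893671224) (nat_lit 110) (nat_lit 5) (nat_lit 117) (nat_lit 5) (nat_lit 111) (nat_lit 5) (nat_lit 312) (nat_lit 297) (nat_lit 111)) (XT.nd (nat_lit 78) (nat_lit 0) (nat_lit 76) (XT.lf (nat_lit 0) (nat_lit 7754400129) (nat_lit 1140) (nat_lit 13597408654) (nat_lit 1140) (nat_lit 13597408654) (nat_lit 131) (nat_lit 3) (nat_lit 146) (nat_lit 3) (nat_lit 146) (nat_lit 5) (nat_lit 298) (nat_lit 298) (nat_lit 124)) (XT.lf (nat_lit 0) (nat_lit 16136186640) (nat_lit 1064) (nat_lit 52171354819) (nat_lit 1140) (nat_lit 3331105105) (nat_lit 132) (nat_lit 5) (nat_lit 146) (nat_lit 5) (nat_lit 147) (nat_lit 5) (nat_lit 299) (nat_lit 298) (nat_lit 123))))) (XT.nd (nat_lit 156) (nat_lit 0) (nat_lit 76) (XT.nd (nat_lit 78)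 (nat_lit 0) (nat_lit 76) (XT.lf (nat_lit 0) (nat_lit 17507426440) (nat_lit 1064) (nat_lit 4861168856) (nat_lit 1140) (nat_lit 51075902808) (nat_lit 132) (nat_lit 5) (nat_lit 146) (nat_lit 5) (nat_lit 147) (nat_lit 5) (nat_lit 300) (nat_lit 298) (nat_lit 122)) (XT.lf (nat_lit 0) (nat_lit 19638394410) (nat_lit 1064) (nat_lit 29874771419) (nat_lit 1140) (nat_lit 25806745016) (nat_lit 133) (nat_lit 5) (nat_lit 147) (nat_lit 5) (nat_lit 148) (nat_lit 5) (nat_lit 301) (nat_lit 298) (nat_lit 121))) (XT.nd (nat_lit 78) (nat_lit 0) (nat_lit 76) (XT.lf (nat_lit 76) (nat_lit 21268822383) (nat_lit 0) (nat_lit 1086708458) (nat_lit 1140) (nat_lit 54919178215) (nat_lit 134) (nat_lit 5) (nat_lit 133) (nat_lit 5) (nat_lit 148) (nat_lit 5) (nat_lit 302) (nat_lit 298) (nat_lit 120)) (XT.nd (nat_lit 78) (nat_lit 0) (nat_lit 76) (XT.lf (nat_lit 0) (nat_lit 25996351479) (nat_lit 1064) (nat_lit 4206225272) (nat_lit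 1140) (nat_lit 49101038879) (nat_lit 134) (nat_lit 5) (nat_lit 148) (nat_lit 5) (nat_lit 149) (nat_lit 5) (nat_lit 303) (nat_lit 298) (nat_lit 119)) (XT.lf (nat_lit 0) (nat_lit 30521443384) (nat_lit 1064) (nat_lit 30449046677) (nat_lit 1140) (nat_lit 20442413682) (nat_lit 135) (nat_lit 5) (nat_lit 149) (nat_lit 5) (nat_lit 150) (nat_lit 5) (nat_lit 304) (nat_lit 298) (nat_lit 118)))))) (XT.nd (nat_lit 390) (nat_lit 532) (nat_lit 0) (XT.nd (nat_lit 156) (nat_lit 836) (nat_lit 0) (XT.nd (nat_lit 78) (nat_lit 0) (nat_lit 76) (XT.lf (nat_lit 76) (nat_lit 25546519643) (nat_lit 0) (nat_lit 10319420978) (nat_lit 1140) (nat_lit 47743924087) (nat_lit 136) (nat_lit 5) (nat_lit 135) (nat_lit 5) (nat_lit 150) (nat_lit 5) (nat_lit 305) (nat_lit 298) (nat_lit 117)) (XT.lf (nat_lit 0) (nat_lit 42205304214) (nat_lit 1064) (nat_lit 1344963032) (nat_lit 1140) (nat_lit 42344580058) (nat_lit 136) (nat_lit 5)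 (nat_lit 150) (nat_lit 5) (nat_lit 151) (nat_lit 5) (nat_lit 306) (nat_lit 298) (nat_lit 116))) (XT.nd (nat_lit 78) (nat_lit 988) (nat_lit 0) (XT.lf (nat_lit 0) (nat_lit 49628040114) (nat_lit 1064) (nat_lit 29106493113) (nat_lit 1140) (nat_lit 9536556371) (nat_lit 137) (nat_lit 5) (nat_lit 151) (nat_lit 5) (nat_lit 152) (nat_lit 5) (nat_lit 307) (nat_lit 298) (nat_lit 115)) (XT.nd (nat_lit 78) (nat_lit 988) (nat_lit 0) (XT.lf (nat_lit 76) (nat_lit 32148963470) (nat_lit 0) (nat_lit 26034669088) (nat_lit 1140) (nat_lit 32559662422) (nat_lit 138) (nat_lit 5) (nat_lit 137) (nat_lit 5) (nat_lit 152) (nat_lit 5) (nat_lit 308) (nat_lit 298) (nat_lit 114)) (XT.lf (nat_lit 0) (nat_lit 3528855655) (nat_lit 1064) (nat_lit 64255488731) (nat_lit 1140) (nat_lit 25536248494) (nat_lit 124) (nat_lit 5) (nat_lit 138) (nat_lit 5) (nat_lit 139) (nat_lit 5) (nat_lit 309) (nat_lit 298) (nat_lit 113))))) (XT.nd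 (nat_lit 36738) (nat_lit 0) (nat_lit 1140) (XT.nd (nat_lit 78) (nat_lit 532) (nat_lit 0) (XT.lf (nat_lit 0) (nat_lit 69713969215) (nat_lit 1064) (nat_lit 9013704976) (nat_lit 1140) (nat_lit 17273206339) (nat_lit 124) (nat_lit 5) (nat_lit 138) (nat_lit 5) (nat_lit 139) (nat_lit 5) (nat_lit 310) (nat_lit 298) (nat_lit 112)) (XT.nd (nat_lit 36582) (nat_lit 0) (nat_lit 1064) (XT.lf (nat_lit 0) (nat_lit 40716077938) (nat_lit 532) (nat_lit 50363650086) (nat_lit 608) (nat_lit 7709610027) (nat_lit 117) (nat_lit 5) (nat_lit 124) (nat_lit 5) (nat_lit 125) (nat_lit 5) (nat_lit 311) (nat_lit 298) (nat_lit 111)) (XT.lf (nat_lit 0) (nat_lit 8161368468) (nat_lit 1140) (nat_lit 14267337062) (nat_lit 1140) (nat_lit 14267337062) (nat_lit 131) (nat_lit 3) (nat_lit 146) (nat_lit 3) (nat_lit 146) (nat_lit 5) (nat_lit 299) (nat_lit 299) (nat_lit 122)))) (XT.nd (nat_lit 78) (nat_lit 0) (nat_lit 0) (XT.lf (nat_lit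 0) (nat_lit 16979676565) (nat_lit 1064) (nat_lit 54759223465) (nat_lit 1140) (nat_lit 3480467461) (nat_lit 132) (nat_lit 5) (nat_lit 146) (nat_lit 5) (nat_lit 147) (nat_lit 5) (nat_lit 300) (nat_lit 299) (nat_lit 121)) (XT.nd (nat_lit 78) (nat_lit 0) (nat_lit 76) (XT.lf (nat_lit 0) (nat_lit 18417731660) (nat_lit 1064) (nat_lit 5084513875) (nat_lit 1140) (nat_lit 53613323758) (nat_lit 132) (nat_lit 5) (nat_lit 146) (nat_lit 5) (nat_lit 147) (nat_lit 5) (nat_lit 301) (nat_lit 299) (nat_lit 120)) (XT.lf (nat_lit 0) (nat_lit 20653631056) (nat_lit 1064) (nat_lit 31348119828) (nat_lit 1140) (nat_lit 27083055329) (nat_lit 133) (nat_lit 5) (nat_lit 147) (nat_lit 5) (nat_lit 148) (nat_lit 5) (nat_lit 302) (nat_lit 299) (nat_lit 119))))))))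
noncomputable def xc127 : XT := (XT.nd (nat_lit 75036) (nat_lit 0) (nat_lit 532) (XT.nd (nat_lit 37440) (nat_lit 0) (nat_lit 532) (XT.nd (nat_lit 390) (nat_lit 684) (nat_lit 0) (XT.nd (nat_lit 156) (nat_lit 0) (nat_lit 152) (XT.nd (nat_lit 78) (nat_lit 0) (nat_lit 76) (XT.lf (nat_lit 76) (nat_lit 22352069184) (nat_lit 0) (nat_lit 1153158988) (nat_lit 1140) (nat_lit 57632162840) (nat_lit 134) (nat_lit 5) (nat_lit 133) (nat_lit 5) (nat_lit 148) (nat_lit 5) (nat_lit 303) (nat_lit 299) (nat_lit 118)) (XT.lf (nat_lit 0) (nat_lit 27326458892) (nat_lit 1064) (nat_lit 4396559739) (nat_lit 1140) (nat_lit 51544777777) (nat_lit 134) (nat_lit 5) (nat_lit 148) (nat_lit 5) (nat_lit 149) (nat_lit 5) (nat_lit 304) (nat_lit 299) (nat_lit 117))) (XT.nd (nat_lit 78) (nat_lit 0) (nat_lit 0) (XT.lf (nat_lit 0) (nat_lit 32076456976) (nat_lit 1064) (nat_lit 31951044298) (nat_lit 1140) (nat_lit 21455092454) (nat_lit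 135) (nat_lit 5) (nat_lit 149) (nat_lit 5) (nat_lit 150) (nat_lit 5) (nat_lit 305) (nat_lit 299) (nat_lit 116)) (XT.nd (nat_lit 78) (nat_lit 0) (nat_lit 76) (XT.lf (nat_lit 76) (nat_lit 26843714008) (nat_lit 0) (nat_lit 10843277891) (nat_lit 1140) (nat_lit 50102450598) (nat_lit 136) (nat_lit 5) (nat_lit 135) (nat_lit 5) (nat_lit 150) (nat_lit 5) (nat_lit 306) (nat_lit 299) (nat_lit 115)) (XT.lf (nat_lit 0) (nat_lit 44341929847) (nat_lit 1064) (nat_lit 1392344867) (nat_lit 1140) (nat_lit 44454445267) (nat_lit 136) (nat_lit 5) (nat_lit 150) (nat_lit 5) (nat_lit 151) (nat_lit 5) (nat_lit 307) (nat_lit 299) (nat_lit 114))))) (XT.nd (nat_lit 156) (nat_lit 988) (nat_lit 0) (XT.nd (nat_lit 78) (nat_lit 0) (nat_lit 0) (XT.lf (nat_lit 0) (nat_lit 52134675161) (nat_lit 1064) (nat_lit 30541629461) (nat_lit 1140) (nat_lit 10007507346) (nat_lit 137) (nat_lit 5) (nat_lit 151) (nat_lit 5) (nat_lit 152)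 (nat_lit 5) (nat_lit 308) (nat_lit 299) (nat_lit 113)) (XT.lf (nat_lit 76) (nat_lit 33776021258) (nat_lit 0) (nat_lit 27341012896) (nat_lit 1140) (nat_lit 34162627435) (nat_lit 138) (nat_lit 5) (nat_lit 137) (nat_lit 5) (nat_lit 152) (nat_lit 5) (nat_lit 309) (nat_lit 299) (nat_lit 112))) (XT.nd (nat_lit 36738) (nat_lit 0) (nat_lit 532) (XT.lf (nat_lit 0) (nat_lit 3725164256) (nat_lit 1064) (nat_lit 67471612741) (nat_lit 1140) (nat_lit 26789080931) (nat_lit 124) (nat_lit 5) (nat_lit 138) (nat_lit 5) (nat_lit 139) (nat_lit 5) (nat_lit 310) (nat_lit 299) (nat_lit 111)) (XT.nd (nat_lit 78) (nat_lit 0) (nat_lit 76) (XT.lf (nat_lit 0) (nat_lit 8586895697) (nat_lit 1140) (nat_lit 14971686205) (nat_lit 1140) (nat_lit 14971686205) (nat_lit 131) (nat_lit 3) (nat_lit 146) (nat_lit 3) (nat_lit 146) (nat_lit 5) (nat_lit 300) (nat_lit 300) (nat_lit 120)) (XT.lf (nat_lit 0) (nat_lit 17861930772) (nat_lit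 1064) (nat_lit 57478409948) (nat_lit 1140) (nat_lit 3638896367) (nat_lit 132) (nat_lit 5) (nat_lit 146) (nat_lit 5) (nat_lit 147) (nat_lit 5) (nat_lit 301) (nat_lit 300) (nat_lit 119)))))) (XT.nd (nat_lit 390) (nat_lit 76) (nat_lit 0) (XT.nd (nat_lit 156) (nat_lit 0) (nat_lit 76) (XT.nd (nat_lit 78) (nat_lit 0) (nat_lit 76) (XT.lf (nat_lit 0) (nat_lit 19370304318) (nat_lit 1064) (nat_lit 5320858911) (nat_lit 1140) (nat_lit 56279138073) (nat_lit 132) (nat_lit 5) (nat_lit 146) (nat_lit 5) (nat_lit 147) (nat_lit 5) (nat_lit 302) (nat_lit 300) (nat_lit 118)) (XT.lf (nat_lit 0) (nat_lit 21716532042) (nat_lit 1064) (nat_lit 32897031341) (nat_lit 1140) (nat_lit 28424485249) (nat_lit 133) (nat_lit 5) (nat_lit 147) (nat_lit 5) (nat_lit 148) (nat_lit 5) (nat_lit 303) (nat_lit 300) (nat_lit 117))) (XT.nd (nat_lit 78) (nat_lit 0) (nat_lit 76) (XT.lf (nat_lit 76) (nat_lit 23487636981) (nat_lit 0) (nat_lit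 1221805697) (nat_lit 1140) (nat_lit 60483862332) (nat_lit 134) (nat_lit 5) (nat_lit 133) (nat_lit 5) (nat_lit 148) (nat_lit 5) (nat_lit 304) (nat_lit 300) (nat_lit 116)) (XT.nd (nat_lit 78) (nat_lit 0) (nat_lit 76) (XT.lf (nat_lit 0) (nat_lit 28720255614) (nat_lit 1064) (nat_lit 4598268183) (nat_lit 1140) (nat_lit 54111755400) (nat_lit 134) (nat_lit 5) (nat_lit 148) (nat_lit 5) (nat_lit 149) (nat_lit 5) (nat_lit 305) (nat_lit 300) (nat_lit 115)) (XT.lf (nat_lit 0) (nat_lit 33706530549) (nat_lit 1064) (nat_lit 33530043485) (nat_lit 1140) (nat_lit 22519282983) (nat_lit 135) (nat_lit 5) (nat_lit 149) (nat_lit 5) (nat_lit 150) (nat_lit 5) (nat_lit 306) (nat_lit 300) (nat_lit 114))))) (XT.nd (nat_lit 234) (nat_lit 304) (nat_lit 0) (XT.nd (nat_lit 78) (nat_lit 0) (nat_lit 76) (XT.lf (nat_lit 76) (nat_lit 28203920917) (nat_lit 0) (nat_lit 11392594498) (nat_lit 1140) (nat_lit 52581568871) (nat_lit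 136) (nat_lit 5) (nat_lit 135) (nat_lit 5) (nat_lit 150) (nat_lit 5) (nat_lit 307) (nat_lit 300) (nat_lit 113)) (XT.nd (nat_lit 78) (nat_lit 0) (nat_lit 76) (XT.lf (nat_lit 0) (nat_lit 46582936020) (nat_lit 1064) (nat_lit 1443942776) (nat_lit 1140) (nat_lit 46670488353) (nat_lit 136) (nat_lit 5) (nat_lit 150) (nat_lit 5) (nat_lit 151) (nat_lit 5) (nat_lit 308) (nat_lit 300) (nat_lit 112)) (XT.lf (nat_lit 0) (nat_lit 54764296032) (nat_lit 1064) (nat_lit 32050399544) (nat_lit 1140) (nat_lit 10502552243) (nat_lit 137) (nat_lit 5) (nat_lit 151) (nat_lit 5) (nat_lit 152) (nat_lit 5) (nat_lit 309) (nat_lit 300) (nat_lit 111)))) (XT.nd (nat_lit 36816) (nat_lit 456) (nat_lit 0) (XT.lf (nat_lit 76) (nat_lit 35482608819) (nat_lit 0) (nat_lit 28712245267) (nat_lit 1140) (nat_lit 35848066645) (nat_lit 138) (nat_lit 5) (nat_lit 137) (nat_lit 5) (nat_lit 152) (nat_lit 5) (nat_lit 310) (nat_lit 300) (nat_lit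 110)) (XT.nd (nat_lit 78) (nat_lit 0) (nat_lit 76) (XT.lf (nat_lit 0) (nat_lit 9032076133) (nat_lit 1140) (nat_lit 15712091187) (nat_lit 1140) (nat_lit 15712091187) (nat_lit 131) (nat_lit 3) (nat_lit 146) (nat_lit 3) (nat_lit 146) (nat_lit 5) (nat_lit 301) (nat_lit 301) (nat_lit 118)) (XT.lf (nat_lit 0) (nat_lit 18785204525) (nat_lit 1064) (nat_lit 60335301249) (nat_lit 1140) (nat_lit 3806696544) (nat_lit 132) (nat_lit 5) (nat_lit 146) (nat_lit 5) (nat_lit 147) (nat_lit 5) (nat_lit 302) (nat_lit 301) (nat_lit 117))))))) (XT.nd (nat_lit 37674) (nat_lit 0) (nat_lit 0) (XT.nd (nat_lit 390) (nat_lit 76) (nat_lit 0) (XT.nd (nat_lit 156) (nat_lit 0) (nat_lit 76) (XT.nd (nat_lit 78) (nat_lit 0) (nat_lit 76) (XT.lf (nat_lit 0) (nat_lit 20367559738) (nat_lit 1064) (nat_lit 5570683574) (nat_lit 1140) (nat_lit 59079623889) (nat_lit 132) (nat_lit 5) (nat_lit 146) (nat_lit 5) (nat_lit 147) (nat_lit 5)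 (nat_lit 303) (nat_lit 301) (nat_lit 116)) (XT.lf (nat_lit 0) (nat_lit 22829768561) (nat_lit 1064) (nat_lit 34525107872) (nat_lit 1140) (nat_lit 29834169515) (nat_lit 133) (nat_lit 5) (nat_lit 147) (nat_lit 5) (nat_lit 148) (nat_lit 5) (nat_lit 304) (nat_lit 301) (nat_lit 115))) (XT.nd (nat_lit 78) (nat_lit 0) (nat_lit 76) (XT.lf (nat_lit 76) (nat_lit 24678313014) (nat_lit 0) (nat_lit 1292863111) (nat_lit 1140) (nat_lit 63480927422) (nat_lit 134) (nat_lit 5) (nat_lit 133) (nat_lit 5) (nat_lit 148) (nat_lit 5) (nat_lit 305) (nat_lit 301) (nat_lit 114)) (XT.nd (nat_lit 78) (nat_lit 0) (nat_lit 76) (XT.lf (nat_lit 0) (nat_lit 30181187921) (nat_lit 1064) (nat_lit 4811746632) (nat_lit 1140) (nat_lit 56808035899) (nat_lit 134) (nat_lit 5) (nat_lit 148) (nat_lit 5) (nat_lit 149) (nat_lit 5) (nat_lit 306) (nat_lit 301) (nat_lit 113)) (XT.lf (nat_lit 0) (nat_lit 35415667257) (nat_lit 1064) (nat_lit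 35189717517) (nat_lit 1140) (nat_lit 23637479248) (nat_lit 135) (nat_lit 5) (nat_lit 149) (nat_lit 5) (nat_lit 150) (nat_lit 5) (nat_lit 307) (nat_lit 301) (nat_lit 112))))) (XT.nd (nat_lit 37050) (nat_lit 304) (nat_lit 0) (XT.nd (nat_lit 78) (nat_lit 0) (nat_lit 76) (XT.lf (nat_lit 76) (nat_lit 29630462731) (nat_lit 0) (nat_lit 11968711943) (nat_lit 1140) (nat_lit 55187060686) (nat_lit 136) (nat_lit 5) (nat_lit 135) (nat_lit 5) (nat_lit 150) (nat_lit 5) (nat_lit 308) (nat_lit 301) (nat_lit 111)) (XT.lf (nat_lit 0) (nat_lit 48933769605) (nat_lit 1064) (nat_lit 1499795846) (nat_lit 1140) (nat_lit 48997954560) (nat_lit 136) (nat_lit 5) (nat_lit 150) (nat_lit 5) (nat_lit 151) (nat_lit 5) (nat_lit 309) (nat_lit 301) (nat_lit 110))) (XT.nd (nat_lit 78) (nat_lit 0) (nat_lit 76) (XT.lf (nat_lit 0) (nat_lit 9498043343) (nat_lit 1140) (nat_lit 16490276854) (nat_lit 1140) (nat_lit 16490276854) (nat_lit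 131) (nat_lit 3) (nat_lit 146) (nat_lit 3) (nat_lit 146) (nat_lit 5) (nat_lit 302) (nat_lit 302) (nat_lit 116)) (XT.nd (nat_lit 78) (nat_lit 0) (nat_lit 0) (XT.lf (nat_lit 0) (nat_lit 19751836374) (nat_lit 1064) (nat_lit 63336620328) (nat_lit 1140) (nat_lit 3984201764) (nat_lit 132) (nat_lit 5) (nat_lit 146) (nat_lit 5) (nat_lit 147) (nat_lit 5) (nat_lit 303) (nat_lit 302) (nat_lit 115)) (XT.lf (nat_lit 0) (nat_lit 21412005937) (nat_lit 1064) (nat_lit 5834507292) (nat_lit 1140) (nat_lit 62021386411) (nat_lit 132) (nat_lit 5) (nat_lit 146) (nat_lit 5) (nat_lit 147) (nat_lit 5) (nat_lit 304) (nat_lit 302) (nat_lit 114)))))) (XT.nd (nat_lit 37440) (nat_lit 0) (nat_lit 76) (XT.nd (nat_lit 156) (nat_lit 152) (nat_lit 0) (XT.nd (nat_lit 78) (nat_lit 0) (nat_lit 0) (XT.lf (nat_lit 0) (nat_lit 23996118592) (nat_lit 1064) (nat_lit 36236147813) (nat_lit 1140) (nat_lit 31315410873) (nat_lit 133) (nat_lit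 5) (nat_lit 147) (nat_lit 5) (nat_lit 148) (nat_lit 5) (nat_lit 305) (nat_lit 302) (nat_lit 113)) (XT.lf (nat_lit 76) (nat_lit 25927007969) (nat_lit 0) (nat_lit 1366546747) (nat_lit 1140) (nat_lit 66630367873) (nat_lit 134) (nat_lit 5) (nat_lit 133) (nat_lit 5) (nat_lit 148) (nat_lit 5) (nat_lit 306) (nat_lit 302) (nat_lit 112))) (XT.nd (nat_lit 78) (nat_lit 228) (nat_lit 0) (XT.lf (nat_lit 0) (nat_lit 31712850062) (nat_lit 1064) (nat_lit 5037426971) (nat_lit 1140) (nat_lit 59639995725) (nat_lit 134) (nat_lit 5) (nat_lit 148) (nat_lit 5) (nat_lit 149) (nat_lit 5) (nat_lit 307) (nat_lit 302) (nat_lit 111)) (XT.nd (nat_lit 37128) (nat_lit 304) (nat_lit 0) (XT.lf (nat_lit 0) (nat_lit 37208047155) (nat_lit 1064) (nat_lit 36933939771) (nat_lit 1140) (nat_lit 24812307509) (nat_lit 135) (nat_lit 5) (nat_lit 149) (nat_lit 5) (nat_lit 150) (nat_lit 5) (nat_lit 308) (nat_lit 302) (nat_lit 110)) (XT.lf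 (nat_lit 0) (nat_lit 9985973539) (nat_lit 1140) (nat_lit 17308061542) (nat_lit 1140) (nat_lit 17308061542) (nat_lit 131) (nat_lit 3) (nat_lit 146) (nat_lit 3) (nat_lit 146) (nat_lit 5) (nat_lit 303) (nat_lit 303) (nat_lit 114))))) (XT.nd (nat_lit 234) (nat_lit 0) (nat_lit 0) (XT.nd (nat_lit 78) (nat_lit 0) (nat_lit 0) (XT.lf (nat_lit 0) (nat_lit 20764255061) (nat_lit 1064) (nat_lit 66489441382) (nat_lit 1140) (nat_lit 4171775021) (nat_lit 132) (nat_lit 5) (nat_lit 146) (nat_lit 5) (nat_lit 147) (nat_lit 5) (nat_lit 304) (nat_lit 303) (nat_lit 113)) (XT.nd (nat_lit 78) (nat_lit 0) (nat_lit 76) (XT.lf (nat_lit 0) (nat_lit 22506250871) (nat_lit 1064) (nat_lit 6112889836) (nat_lit 1140) (nat_lit 65111373035) (nat_lit 132) (nat_lit 5) (nat_lit 146) (nat_lit 5) (nat_lit 147) (nat_lit 5) (nat_lit 305) (nat_lit 303) (nat_lit 112)) (XT.lf (nat_lit 0) (nat_lit 25218474728) (nat_lit 1064) (nat_lit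 38034154339) (nat_lit 1140) (nat_lit 32871687433) (nat_lit 133) (nat_lit 5) (nat_lit 147) (nat_lit 5) (nat_lit 148) (nat_lit 5) (nat_lit 306) (nat_lit 303) (nat_lit 111)))) (XT.nd (nat_lit 37362) (nat_lit 76) (nat_lit 0) (XT.lf (nat_lit 76) (nat_lit 27236763633) (nat_lit 0) (nat_lit 1443074066) (nat_lit 1140) (nat_lit 69939567972) (nat_lit 134) (nat_lit 5) (nat_lit 133) (nat_lit 5) (nat_lit 148) (nat_lit 5) (nat_lit 307) (nat_lit 303) (nat_lit 110)) (XT.nd (nat_lit 78) (nat_lit 0) (nat_lit 0) (XT.lf (nat_lit 0) (nat_lit 21824986516) (nat_lit 1064) (nat_lit 69801206002) (nat_lit 1140) (nat_lit 4369808823) (nat_lit 132) (nat_lit 5) (nat_lit 146) (nat_lit 5) (nat_lit 147) (nat_lit 5) (nat_lit 305) (nat_lit 304) (nat_lit 111)) (XT.lf (nat_lit 0) (nat_lit 23653009797) (nat_lit 1064) (nat_lit 6406431995) (nat_lit 1140) (nat_lit 68356889354) (nat_lit 132) (nat_lit 5) (nat_lit 146) (nat_lit 5) (nat_lit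 147) (nat_lit 5) (nat_lit 306) (nat_lit 304) (nat_lit 110))))))))

set_option maxRecDepth 10000000 in
noncomputable def Tp : PT := (PT.nd (nat_lit 4587180) (PT.nd (nat_lit 4286958) (PT.nd (nat_lit 4024410) (PT.nd (nat_lit 3799536) pc0 pc1) (PT.nd (nat_lit 150072) pc2 pc3)) (PT.nd (nat_lit 186810) (PT.nd (nat_lit 111774) pc4 pc5) (PT.nd (nat_lit 74724) pc6 pc7))) (PT.nd (nat_lit 223236) (PT.nd (nat_lit 112242) (PT.nd (nat_lit 74022) pc8 pc9) (PT.nd (nat_lit 38064) pc10 pc11)) (PT.nd (nat_lit 75036) (PT.nd (nat_lit 37596) pc12 pc13) (PT.nd (nat_lit 74568) pc14 pc15))))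

set_option maxRecDepth 10000000 in
noncomputable def Tx : XT := (XT.nd (nat_lit 7341750) (nat_lit 0) (nat_lit 152) XT.nil (XT.nd (nat_lit 4087668) (nat_lit 0) (nat_lit 0) (XT.nd (nat_lit 1912482) (nat_lit 0) (nat_lit 228) (XT.nd (nat_lit 1312350) (nat_lit 0) (nat_lit 76) (XT.nd (nat_lit 900432) (nat_lit 0) (nat_lit 0) (XT.nd (nat_lit 636012) (nat_lit 0) (nat_lit 0) (XT.nd (nat_lit 448422) (nat_lit 0) (nat_lit 0) (XT.nd (nat_lit 299364) (nat_lit 0) (nat_lit 0) (XT.nd (nat_lit 187590) (nat_lit 0) (nat_lit 0) xc0 xc1) (XT.nd (nat_lit 74802) (nat_lit 0) (nat_lit 0) xc2 xc3)) (XT.nd (nat_lit 76752) (nat_lit 0) (nat_lit 0) (XT.nd (nat_lit 38454) (nat_lit 0) (nat_lit 0) xc4 xc5) (XT.nd (nat_lit 72930) (nat_lit 0) (nat_lit 0) xc6 xc7))) (XT.nd (nat_lit 150150) (nat_lit 0) (nat_lit 0) (XT.nd (nat_lit 75348) (nat_lit 0) (nat_lit 0) (XT.nd (nat_lit 37752) (nat_lit 0) (nat_lit 0) xc8 xc9) (XT.nd (nat_lit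 37440) (nat_lit 0) (nat_lit 0) xc10 xc11)) (XT.nd (nat_lit 74100) (nat_lit 0) (nat_lit 0) (XT.nd (nat_lit 37128) (nat_lit 0) (nat_lit 0) xc12 xc13) (XT.nd (nat_lit 36894) (nat_lit 0) (nat_lit 0) xc14 xc15)))) (XT.nd (nat_lit 224640) (nat_lit 0) (nat_lit 0) (XT.nd (nat_lit 146094) (nat_lit 0) (nat_lit 0) (XT.nd (nat_lit 73320) (nat_lit 0) (nat_lit 0) (XT.nd (nat_lit 36738) (nat_lit 0) (nat_lit 0) xc16 xc17) (XT.nd (nat_lit 36426) (nat_lit 0) (nat_lit 0) xc18 xc19)) (XT.nd (nat_lit 39312) (nat_lit 0) (nat_lit 0) (XT.nd (nat_lit 3198) (nat_lit 152) (nat_lit 0) xc20 xc21) (XT.nd (nat_lit 35958) (nat_lit 0) (nat_lit 152) xc22 xc23))) (XT.nd (nat_lit 110214) (nat_lit 0) (nat_lit 76) (XT.nd (nat_lit 71448) (nat_lit 0) (nat_lit 76) (XT.nd (nat_lit 35802) (nat_lit 0) (nat_lit 0) xc24 xc25) (XT.nd (nat_lit 3198) (nat_lit 152) (nat_lit 0) xc26 xc27)) (XT.nd (nat_lit 38610) (nat_lit 0) (nat_lit 0) (XT.nd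 (nat_lit 35334) (nat_lit 0) (nat_lit 304) xc28 xc29) (XT.nd (nat_lit 35178) (nat_lit 0) (nat_lit 152) xc30 xc31))))) (XT.nd (nat_lit 332982) (nat_lit 0) (nat_lit 76) (XT.nd (nat_lit 183612) (nat_lit 0) (nat_lit 76) (XT.nd (nat_lit 108030) (nat_lit 0) (nat_lit 76) (XT.nd (nat_lit 38220) (nat_lit 0) (nat_lit 76) (XT.nd (nat_lit 35022) (nat_lit 0) (nat_lit 76) xc32 xc33) (XT.nd (nat_lit 34944) (nat_lit 0) (nat_lit 0) xc34 xc35)) (XT.nd (nat_lit 37830) (nat_lit 0) (nat_lit 0) (XT.nd (nat_lit 3198) (nat_lit 380) (nat_lit 0) xc36 xc37) (XT.nd (nat_lit 3198) (nat_lit 304) (nat_lit 0) xc38 xc39))) (XT.nd (nat_lit 74958) (nat_lit 0) (nat_lit 0) (XT.nd (nat_lit 37518) (nat_lit 0) (nat_lit 0) (XT.nd (nat_lit 3198) (nat_lit 304) (nat_lit 0) xc40 xc41) (XT.nd (nat_lit 3198) (nat_lit 304) (nat_lit 0) xc42 xc43)) (XT.nd (nat_lit 37284) (nat_lit 0) (nat_lit 0) (XT.nd (nat_lit 3198) (nat_lit 380) (nat_lit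 0) xc44 xc45) (XT.nd (nat_lit 3198) (nat_lit 608) (nat_lit 0) xc46 xc47)))) (XT.nd (nat_lit 117624) (nat_lit 0) (nat_lit 76) (XT.nd (nat_lit 74022) (nat_lit 0) (nat_lit 76) (XT.nd (nat_lit 36894) (nat_lit 0) (nat_lit 76) (XT.nd (nat_lit 3198) (nat_lit 684) (nat_lit 0) xc48 xc49) (XT.nd (nat_lit 3198) (nat_lit 1292) (nat_lit 0) xc50 xc51)) (XT.nd (nat_lit 37128) (nat_lit 0) (nat_lit 0) (XT.nd (nat_lit 3198) (nat_lit 1900) (nat_lit 0) xc52 xc53) (XT.nd (nat_lit 3198) (nat_lit 2584) (nat_lit 0) xc54 xc55))) (XT.nd (nat_lit 74568) (nat_lit 0) (nat_lit 0) (XT.nd (nat_lit 37206) (nat_lit 0) (nat_lit 0) (XT.nd (nat_lit 34008) (nat_lit 0) (nat_lit 152) xc56 xc57) (XT.nd (nat_lit 34086) (nat_lit 0) (nat_lit 228) xc58 xc59)) (XT.nd (nat_lit 37440) (nat_lit 0) (nat_lit 0) (XT.nd (nat_lit 34164) (nat_lit 0) (nat_lit 228) xc60 xc61) (XT.nd (nat_lit 34242) (nat_lit 0) (nat_lit 228) xc62 xc63)))))) (XT.nd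 (nat_lit 710580) (nat_lit 0) (nat_lit 760) (XT.nd (nat_lit 335166) (nat_lit 0) (nat_lit 228) (XT.nd (nat_lit 182442) (nat_lit 0) (nat_lit 152) (XT.nd (nat_lit 75270) (nat_lit 0) (nat_lit 76) (XT.nd (nat_lit 37518) (nat_lit 0) (nat_lit 76) (XT.nd (nat_lit 34320) (nat_lit 0) (nat_lit 304) xc64 xc65) (XT.nd (nat_lit 34476) (nat_lit 0) (nat_lit 152) xc66 xc67)) (XT.nd (nat_lit 37752) (nat_lit 0) (nat_lit 0) (XT.nd (nat_lit 34554) (nat_lit 0) (nat_lit 152) xc68 xc69) (XT.nd (nat_lit 34632) (nat_lit 0) (nat_lit 76) xc70 xc71))) (XT.nd (nat_lit 76128) (nat_lit 0) (nat_lit 76) (XT.nd (nat_lit 37986) (nat_lit 0) (nat_lit 76) (XT.nd (nat_lit 3198) (nat_lit 2128) (nat_lit 0) xc72 xc73) (XT.nd (nat_lit 3198) (nat_lit 1368) (nat_lit 0) xc74 xc75)) (XT.nd (nat_lit 38220) (nat_lit 0) (nat_lit 0) (XT.nd (nat_lit 3198) (nat_lit 836) (nat_lit 0) xc76 xc77) (XT.nd (nat_lit 3198) (nat_lit 380) (nat_lit 0) xc78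 xc79)))) (XT.nd (nat_lit 186498) (nat_lit 0) (nat_lit 304) (XT.nd (nat_lit 76908) (nat_lit 0) (nat_lit 76) (XT.nd (nat_lit 38376) (nat_lit 0) (nat_lit 76) (XT.nd (nat_lit 35178) (nat_lit 0) (nat_lit 2052) xc80 xc81) (XT.nd (nat_lit 35256) (nat_lit 0) (nat_lit 760) xc82 xc83)) (XT.nd (nat_lit 38532) (nat_lit 0) (nat_lit 0) (XT.nd (nat_lit 35334) (nat_lit 0) (nat_lit 228) xc84 xc85) (XT.nd (nat_lit 35412) (nat_lit 0) (nat_lit 152) xc86 xc87))) (XT.nd (nat_lit 77844) (nat_lit 0) (nat_lit 0) (XT.nd (nat_lit 38844) (nat_lit 0) (nat_lit 0) (XT.nd (nat_lit 3198) (nat_lit 532) (nat_lit 0) xc88 xc89) (XT.nd (nat_lit 35724) (nat_lit 0) (nat_lit 1064) xc90 xc91)) (XT.nd (nat_lit 71760) (nat_lit 0) (nat_lit 76) (XT.nd (nat_lit 35802) (nat_lit 0) (nat_lit 76) xc92 xc93) (XT.nd (nat_lit 3198) (nat_lit 1444) (nat_lit 0) xc94 xc95))))) (XT.nd (nat_lit 487032) (nat_lit 0) (nat_lit 1140) (XT.nd (nat_lit 224640)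 (nat_lit 0) (nat_lit 304) (XT.nd (nat_lit 111852) (nat_lit 0) (nat_lit 152) (XT.nd (nat_lit 39312) (nat_lit 0) (nat_lit 0) (XT.nd (nat_lit 36114) (nat_lit 0) (nat_lit 836) xc96 xc97) (XT.nd (nat_lit 36192) (nat_lit 0) (nat_lit 76) xc98 xc99)) (XT.nd (nat_lit 39624) (nat_lit 0) (nat_lit 152) (XT.nd (nat_lit 3198) (nat_lit 152) (nat_lit 0) xc100 xc101) (XT.nd (nat_lit 36504) (nat_lit 0) (nat_lit 0) xc102 xc103))) (XT.nd (nat_lit 113646) (nat_lit 0) (nat_lit 380) (XT.nd (nat_lit 39858) (nat_lit 0) (nat_lit 228) (XT.nd (nat_lit 36660) (nat_lit 0) (nat_lit 1216) xc104 xc105) (XT.nd (nat_lit 36816) (nat_lit 0) (nat_lit 152) xc106 xc107)) (XT.nd (nat_lit 74178) (nat_lit 0) (nat_lit 152) (XT.nd (nat_lit 36972) (nat_lit 0) (nat_lit 152) xc108 xc109) (XT.nd (nat_lit 37206) (nat_lit 0) (nat_lit 304) xc110 xc111)))) (XT.nd (nat_lit 302328) (nat_lit 0) (nat_lit 1748) (XT.nd (nat_lit 150306) (nat_lit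 0) (nat_lit 912) (XT.nd (nat_lit 40560) (nat_lit 0) (nat_lit 152) (XT.nd (nat_lit 3198) (nat_lit 152) (nat_lit 0) xc112 xc113) (XT.nd (nat_lit 37518) (nat_lit 0) (nat_lit 228) xc114 xc115)) (XT.nd (nat_lit 75738) (nat_lit 0) (nat_lit 228) (XT.nd (nat_lit 37830) (nat_lit 0) (nat_lit 0) xc116 xc117) (XT.nd (nat_lit 38064) (nat_lit 0) (nat_lit 380) xc118 xc119))) (XT.nd (nat_lit 224874) (nat_lit 0) (nat_lit 1672) (XT.nd (nat_lit 111852) (nat_lit 0) (nat_lit 988) (XT.nd (nat_lit 38220) (nat_lit 0) (nat_lit 304) xc120 xc121) (XT.nd (nat_lit 38610) (nat_lit 0) (nat_lit 0) xc122 xc123)) (XT.nd (nat_lit 150150) (nat_lit 0) (nat_lit 2128) (XT.nd (nat_lit 74802) (nat_lit 0) (nat_lit 836) xc124 xc125) (XT.nd (nat_lit 112320) (nat_lit 0) (nat_lit 1596) xc126 xc127))))))) XT.nil))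

set_option maxRecDepth 10000000 in
noncomputable def Te : XT := XT.nil

set_option maxRecDepth 10000000 in
noncomputable def Tz : ZL := (ZL.cons (nat_lit 76) (nat_lit 3) (nat_lit 80967072726231340602) (ZL.cons (nat_lit 152) (nat_lit 6) (nat_lit 158708632360610032220) (ZL.cons (nat_lit 228) (nat_lit 6) (nat_lit 155678380507362528902) (ZL.cons (nat_lit 304) (nat_lit 3) (nat_lit 77752230035828147838) (ZL.cons (nat_lit 380) (nat_lit 6) (nat_lit 152496616061452650416) (ZL.cons (nat_lit 456) (nat_lit 6) (nat_lit 149677938796641468720) (ZL.cons (nat_lit 532) (nat_lit 3) (nat_lit 74756150143222528061) (ZL.cons (nat_lit 608) (nat_lit 6) (nat_lit 146718327668589727936) (ZL.cons (nat_lit 684) (nat_lit 6) (nat_lit 144108045892129867456) (ZL.cons (nat_lit 760) (nat_lit 3) (nat_lit 71975147465019022969) (ZL.cons (nat_lit 836) (nat_lit 6) (nat_lit 141675240000454855970) (ZL.cons (nat_lit 912) (nat_lit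 6) (nat_lit 141367250026847013954) (ZL.cons (nat_lit 988) (nat_lit 6) (nat_lit 138963042852104272392) (ZL.cons (nat_lit 1064) (nat_lit 3) (nat_lit 69406401920294125947) (ZL.cons (nat_lit 1140) (nat_lit 6) (nat_lit 136731949103012814718) (ZL.cons (nat_lit 1216) (nat_lit 6) (nat_lit 136438625318624393748) (ZL.cons (nat_lit 1292) (nat_lit 6) (nat_lit 134668656651598613652) (ZL.cons (nat_lit 1368) (nat_lit 6) (nat_lit 134239061654950763662) (ZL.cons (nat_lit 1444) (nat_lit 3) (nat_lit 67047988441039181595) (ZL.cons (nat_lit 1520) (nat_lit 6) (nat_lit 132208875793225281564) (ZL.cons (nat_lit 1596) (nat_lit 6) (nat_lit 131929519808093452072) (ZL.cons (nat_lit 1672) (nat_lit 6) (nat_lit 130343233957586696308) (ZL.cons (nat_lit 1748) (nat_lit 6) (nat_lit 129934095865541124890) (ZL.cons (nat_lit 1824) (nat_lit 3) (nat_lit 64898912326640847935) (ZL.cons (nat_lit 1900) (nat_lit 6) (nat_lit 128637694143664439834)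 (ZL.cons (nat_lit 1976) (nat_lit 6) (nat_lit 128104954045034352296) (ZL.cons (nat_lit 2052) (nat_lit 6) (nat_lit 127838900725861181350) (ZL.cons (nat_lit 2128) (nat_lit 6) (nat_lit 126437739247000499118) (ZL.cons (nat_lit 2204) (nat_lit 6) (nat_lit 126048083921242812052) (ZL.cons (nat_lit 2280) (nat_lit 3) (nat_lit 62959150907164535063) (ZL.cons (nat_lit 2356) (nat_lit 6) (nat_lit 124928481912396627606) (ZL.cons (nat_lit 2432) (nat_lit 6) (nat_lit 124421110389891782334) (ZL.cons (nat_lit 2508) (nat_lit 6) (nat_lit 124167726276393524288) (ZL.cons (nat_lit 2584) (nat_lit 6) (nat_lit 123573588571378442832) (ZL.cons (nat_lit 2660) (nat_lit 6) (nat_lit 122954106385304875456) (ZL.cons (nat_lit 2736) (nat_lit 6) (nat_lit 122583006075059459204) (ZL.cons (nat_lit 2812) (nat_lit 3) (nat_lit 61229702034237471542) (ZL.cons (nat_lit 2888) (nat_lit 6) (nat_lit 122369833287419711020) (ZL.cons (nat_lit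 2964) (nat_lit 6) (nat_lit 121643579040804503544) (ZL.cons (nat_lit 3040) (nat_lit 6) (nat_lit 121160368066990365188) (ZL.cons (nat_lit 3116) (nat_lit 6) (nat_lit 120919049863658690862) (ZL.cons (nat_lit 3192) (nat_lit 6) (nat_lit 120486408053189475242) (ZL.cons (nat_lit 3268) (nat_lit 6) (nat_lit 119896425018833696786) (ZL.cons (nat_lit 3344) (nat_lit 6) (nat_lit 119542996151933300356) (ZL.cons (nat_lit 3420) (nat_lit 3) (nat_lit 59712639977593071075) (ZL.cons (nat_lit 3496) (nat_lit 6) (nat_lit 119479838253441659524) (ZL.cons (nat_lit 3572) (nat_lit 6) (nat_lit 118788167542379557166) (ZL.cons (nat_lit 3648) (nat_lit 6) (nat_lit 118327966614937520636) (ZL.cons (nat_lit 3724) (nat_lit 6) (nat_lit 118098139754621640326) (ZL.cons (nat_lit 3800) (nat_lit 6) (nat_lit 118621473046799752072) (ZL.cons (nat_lit 3876) (nat_lit 6) (nat_lit 117832956929350674568) (ZL.cons (nat_lit 3952) (nat_lit 6)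 (nat_lit 117271068325202314136) (ZL.cons (nat_lit 4028) (nat_lit 6) (nat_lit 116934469404344793726) (ZL.cons (nat_lit 4104) (nat_lit 3) (nat_lit 58411179370388035811) (ZL.cons (nat_lit 4180) (nat_lit 6) (nat_lit 116493286487343670884) (ZL.cons (nat_lit 4256) (nat_lit 6) (nat_lit 116634380242911250604) (ZL.cons (nat_lit 4332) (nat_lit 6) (nat_lit 116916903691559666186) (ZL.cons (nat_lit 4408) (nat_lit 6) (nat_lit 117341529508166651950) (ZL.cons (nat_lit 4484) (nat_lit 6) (nat_lit 117909268706581272150) (ZL.cons (nat_lit 4560) (nat_lit 6) (nat_lit 117028518868763646886) (ZL.cons (nat_lit 4636) (nat_lit 6) (nat_lit 116369784858228311308) (ZL.cons (nat_lit 4712) (nat_lit 6) (nat_lit 115931498260664466996) (ZL.cons (nat_lit 4788) (nat_lit 6) (nat_lit 115712615536554104792) (ZL.cons (nat_lit 4864) (nat_lit 3) (nat_lit 57606606454472465742) (ZL.cons (nat_lit 4940) (nat_lit 6) (nat_lit 115285480442284423536)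 (ZL.cons (nat_lit 5016) (nat_lit 6) (nat_lit 115502455107858469910) (ZL.cons (nat_lit 5092) (nat_lit 6) (nat_lit 115864653512013675478) (ZL.cons (nat_lit 5168) (nat_lit 6) (nat_lit 116372938031902790728) (ZL.cons (nat_lit 5244) (nat_lit 6) (nat_lit 115621970300998907390) (ZL.cons (nat_lit 5320) (nat_lit 6) (nat_lit 115086838297048087932) (ZL.cons (nat_lit 5396) (nat_lit 6) (nat_lit 114766267896231401826) (ZL.cons (nat_lit 5472) (nat_lit 3) (nat_lit 57329747917844880863) (ZL.cons (nat_lit 5548) (nat_lit 6) (nat_lit 114135188970799426062) (ZL.cons (nat_lit 5624) (nat_lit 6) (nat_lit 114283337414145384768) (ZL.cons (nat_lit 5700) (nat_lit 6) (nat_lit 114579987035226221128) (ZL.cons (nat_lit 5776) (nat_lit 6) (nat_lit 115025844142663556182) (ZL.cons (nat_lit 5852) (nat_lit 6) (nat_lit 114398478418344188964) (ZL.cons (nat_lit 5928) (nat_lit 6) (nat_lit 113981062611140527712) (ZL.cons (nat_lit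 6004) (nat_lit 6) (nat_lit 113772602873892563710) (ZL.cons (nat_lit 6080) (nat_lit 3) (nat_lit 56590383519619218380) (ZL.cons (nat_lit 6156) (nat_lit 6) (nat_lit 113256647949244903414) (ZL.cons (nat_lit 6232) (nat_lit 6) (nat_lit 113484471348097652106) (ZL.cons (nat_lit 6308) (nat_lit 6) (nat_lit 113864779672460617952) (ZL.cons (nat_lit 6384) (nat_lit 6) (nat_lit 113355130144888408940) (ZL.cons (nat_lit 6460) (nat_lit 6) (nat_lit 113049825001253469792) (ZL.cons (nat_lit 6536) (nat_lit 3) (nat_lit 56474068662273572945) (ZL.cons (nat_lit 6612) (nat_lit 6) (nat_lit 112419942214431072318) (ZL.cons (nat_lit 6688) (nat_lit 6) (nat_lit 112575498079944328958) (ZL.cons (nat_lit 6764) (nat_lit 6) (nat_lit 112886980182079207136) (ZL.cons (nat_lit 6840) (nat_lit 6) (nat_lit 112489441318075720228) (ZL.cons (nat_lit 6916) (nat_lit 6) (nat_lit 112290908234982421180) (ZL.cons (nat_lit 6992) (nat_lit 3)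 (nat_lit 55885614026596214990) (ZL.cons (nat_lit 7068) (nat_lit 6) (nat_lit 111850903008699219966) (ZL.cons (nat_lit 7144) (nat_lit 6) (nat_lit 112090117577494606092) (ZL.cons (nat_lit 7220) (nat_lit 6) (nat_lit 111799350774032759284) (ZL.cons (nat_lit 7296) (nat_lit 3) (nat_lit 55851252683822892069) (ZL.cons (nat_lit 7372) (nat_lit 6) (nat_lit 111308960908002217728) (ZL.cons (nat_lit 7448) (nat_lit 6) (nat_lit 111472294566791137200) (ZL.cons (nat_lit 7524) (nat_lit 6) (nat_lit 111283215440035614294) (ZL.cons (nat_lit 7600) (nat_lit 3) (nat_lit 55474190719759164689) (ZL.cons (nat_lit 7676) (nat_lit 6) (nat_lit 111032040142800458864) (ZL.cons (nat_lit 7752) (nat_lit 3) (nat_lit 55469903211215955552) (ZL.cons (nat_lit 7828) (nat_lit 6) (nat_lit 110768306080703545660) (ZL.cons (nat_lit 7904) (nat_lit 1) (nat_lit 18446744073709551617) ZL.nil))))))))))))))))))))))))))))))))))))))))))))))))))))))))))))))))))))))))))))))))))))))))))))))))))))))))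

noncomputable def vl : XL := ⟨(nat_lit 0), (nat_lit 76), (nat_lit 176756743), (nat_lit 152), (nat_lit 279802221), (nat_lit 152), (nat_lit 279802221), (nat_lit 1), (nat_lit 4), (nat_lit 2), (nat_lit 5), (nat_lit 2), (nat_lit 4), (nat_lit 0), (nat_lit 0), (nat_lit 0)⟩

noncomputable def cp0 : Nat := (nat_lit 53685838211836700004618405523329094007044117283341416849646433035096398725269217129432580955703213861676190122197679944484934729798841594759141084183372215171531557029648803534262093766829841200949872092287651991658545496109002581128100414476477093450966801357575140776160615738748023155052356172584912093839201266822204250656747048949156945350435780700502468434575344037341866880204323157326763454266830082569320971061683710502123730135858192589956420676024160488619396341626207914489242093998236465173336177435550378080836094758001403394125551873935212978927011828224052444564358539678910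636894108797587806034645966125306057454458803485276035054810112745069944891998459218648342402581110177028038693248053501647020674175074859819831857057536723474245715448855812159659977123704683664524970278399079396890317729824141455436118662235702785734570373594342690844301828958868080630062863849866693868943619653280757751413816687213791319046078743962310247485270575571226466626755577907098164584258696999351939301087469538858016831866655595480103327317265062612291424516381847944459601159709861936698024223971195621492961856229496004765801527848697028988038741338902665358513477943879769287445243005326565858901345635309111971090485610493777316082083184341596396380859310834531410044914702073236777393475246527260166257262694078099630871020914882507901979426585222953866843049062149462121200818089483017765675124168759592330791993125589586543710423845197678817100581439598258536240713112255029582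15619847474210597662748329902880093102296214628586895098606344737777850719794378452646195207902132395133263092976638887362065879186219377602498117727695270003274225815074564926745536529673899739685339275547500140393983284748405224335938125672584831515511401614680413948009610857270135120336755129015905185053532581802846600526176951492006596074752328226916309533546903360709359028713913669616041315661951081448251664653891582767839608082320214177174367604378831204386497582894381150732369530986709936925441297418267758962807900479331252956446221560825523891190406812277008837477858685182086168921155400416326574515740809316157972773954748566764676035927714264662033039013080633039016095388923056460355430431981525922520954829530276693317732936172056446275249899960219880280433773766134174277139182238077082001717386310658644820097216309424131619882198404298406447131315953354211264057237102333788148054622208)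

noncomputable def cp1 : Nat := (nat_lit 431631360824918393154928491745619722079906904309513158939761804248710963822781889660414441637882305659916496160690963431919751812151419843867616843188657061094825776163832011619875393122565853694700090682256898576766304312895028659783831979906188434830458024535640328871089549327981111559379821861781169455686948273939947705729770989846057351776222150508643744866432288397616781035044627972795539156777553327341578836667204106458869643458185440626688366381304457745186888084131577259039230401928640794439134854165236612100519616403896413900372745660689148964633015871736250621397769725261596179088560252860162029311354083932263241371333036682424915232495050942567303668055836151027965697758873327718289111954505144057935110239106237326558900735477879463976506682030091881256614649018101370737762866732214019367939301298583352608545689878159126721326601658182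333332201565518452390070013718363781638452794363218895548623872589522047260070281142865119323573730878828794237724411743562457908980569393548038719833504157725302894076386775914034092376311462204278951842476666887494982210204407763793968798432996015807633108173076534325340799835466034250547287142455422016865858950274317971644725646967573804545527901196238196286734075462204147303912004753697612756028490676776459066409865056120679331524195011054292645110428887813008118518683341309799813569727505435034477700315935400513770818558614720584858783988910937868414751681826292180563084465330500022207009305325995912246956956142839139020244785638146876653565128315817590418720452245441352028110086247495030890526139951463177736482212569132048751139326858829551774657935165447563091602847267098652602063873324790571686531478317873683951622654068463515732282399075818226460312816568942609551012568262167733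361125275171115444489336121982437481709777273060725406644234211827148726772986617651684247611139042641021586753157413618507871282811569820366966166126947722726198061300519758124323003470326282035602636618493291214791877995984462508359515150673610155219904428555522696056422026604879816781688081800871135213682645826941267561628804270815885877493942902562271755105786306772834073524283016509496509342799014841169339963871984181142177332360484956492084984940438152521989879221044711053919971331260821488454567742453366361880348064448320654462387685034263858265555796380836364689708241730889508887488818165250293214928744408919885090102219490291337330703377813666519399226306434122431483473956915469213908895228834774868348128310719089474794853758148995398236356717003920342194852181070773884977703141494782939001580167564308045299618067759324843413919235667626443796119235548513880369278817585458764245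692455329618091266478425548002017395971534744804087880192511312651773059533438772159604673794795021851681105644554267892632706790186001562066152269512948653672221017449137329155061912540413445714834129860261426616138224805294199362599728174891484317679316133962722060873850984901230258415461554160054494651791075606421538525172195110467515946102021313140361783118138892583057413128986858874112371220081376742897075706868366507954013006412189444999341785411662223708999014075403945102373731376839498822321247221470627025463192577838105568853989130826858621357434667526864704682065956603191719362886064393022536659092441032534346090770916678883099769327300130009486849794456779916160506649858816915460101421235323912933974668247992990290344711686050807367259263713131729550933138170626373621465461711360729381565892635922520524184769303772572530903723763565236928147310414704545474895181054739184610873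356624795106505044247460363423824705192428684711304398653883722852545082841004804249873341248683509388505274853608473858879703451999629492914083952780838064535125089571494925177454325180950740597642066965663007403140201532684993694444654760998584213189943378344839935478587205836730801941598009436876178302926804584891126867073523158064894942913094855854577361926886801094906266611152893166027830491637238295215586034326283774107579293743122222064549844851452979557252209857188465674330979014421686982093970595281426776041763037086763636038757230417887106389192526479405006312328319659377945298303892233697873642541482260917727047301695008097259576947539504963286731588662484877538219615029805116679852288910597868111540033044579695278711432173331990612851529179769769983487104870302364692567515735349400438180030746883003143620624686316771061105175987494647938119581425015305389749653628407920636215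0206500218371401570255771036028515707335411306364563516864675286060983122540851948677585424485017068510416880388758248096842754987723612397013792213677854379016867391720380049659464699242179393517038902226395468382202059773208178209499972760259691267285946708519783082532796958670283997789200096001554349162810550224878537612019424703497506078242722011649003660372375425285939131204491430790757634096415010694682645285787889564585399591563000778612709178920838457015792958365938259987526219378462807073588270591213271465210411159118053001714316108189670105045800020870003221638719115794800532754445928470496309771041509947314360764565983594388489005335249989279619226041187680853458205676733347888506814641239614506097011154596498107567646241944505139791950095683733620540440065610060184030397884692467264297755800420191802334757276415647618439569219655904350457283208587848586011246695897804159585453605783722667770117753043936816831661206128663162243636247314929465256392388464471783027935804616129572402204573605781957567420447113045455489280829555824475837995363649217630267913242213458395818106826324280170445275136)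

noncomputable def rc0 : Nat := (nat_lit 431631360824918393154928491745619722079906904309513158939761804248710963822781889660414441637882305659916496160690963431919751812151419843867616843188657061094825776163832011619875393122565853694700090682256898576766304312895028659783831979906188434830458024535640328871089549327981111559379821861781169455686948273939947705729770989846057351776222150508643744866432288397616781035044627972795539156777553327341578836667204106458869643458185440626688366381304457745186888084131577259039230401928640794439134854165236612100519616403896413900372745660689148964633015871736250621397769725261596179088560252860162029311354083932263241371333036682424915232495050942567303668055836151027965697758873327718289111954505144057935110239106237326558900735477879463976506682030091881256614649018101370737762866732214019367939301298583352608545689878159126721326601658182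333332201565518452390070013718363781638452794363218895548623872589522047260070281142865119323573730878828794237724411743562457908980569393548038719833504157725302894076386775914034092376311462204278951842476666887494982210204407763793968798432996015807633108173076534325340799835466034250547287142455422016865858950274317971644725646967573804545527901196238196286734075462204147303912004753697612756028490676776459066409865056120679331524195011054292645110428887813008118518683341309799813569727505435034477700315935400513770818558614720584858783988910937868414751681826292180563084465330500022207009305325995912246956956142839139020244785638146876653565128315817590418720452245441352028110086247495030890526139951463177736482212569132048751139326858829551774657935165447563091602847267098652602063873324790571686531478317873683951622654068463515732282399075818226460312816568942609551012568262167733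361125275171115444489336121982437481709777273060725406644234211827148726772986617651684247611139042641021586753157413618507871282811569820366966166126947722726198061300519758124323003470326282035602636618493291214791877995984462508359515150673610155219904428555522696056422026604879816781688081800871135213682645826941267561628804270815885877493942902562271755105786306772834073524283016509496509342799014841169339963871984181142177332360484956492084984940438152521989879221044711053919971331260821488454567742453366361880348064448320654462387685034263858265555796380836364689708241730889508887488818165250293214928744408919885090102219490291337330703377813666519399226306434122431483473956915469213908895228834774868348128310719089474794853758148995398236356717003920342194852181070773884977703141494782939001580167564308045299618067759324843413919235667626443796119235548513880369278817585458764245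692455329618091266478425548002017395971534744804087880192511312651773059533438772159604673794795021851681105644554267892632706790186001562066152269512948653672221017449137329155061912540413445714834129860261426616138224805294199362599728174891484317679316133962722060873850984901230258415461554160054494651791075606421538525172195110467515946102021313140361783118138892583057413128986858874112371220081376742897075706868366507954013006412189444999341785411662223708999014075403945102373731376839498822321247221470627025463192577838105568853989130826858621357434667526864704682065956603191719362886064393022536659092441032534346090770916678883099769327300130009486849794456779916160506649858816915460101421235323912933974668247992990290344711686050807367259263713131729550933138170626373621465461711360729381565892635922520524184769303772572530903723763565236928147310414704545474895181054739184610873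356624795106505044247460363423824705192428684711304398653883722852545082841004804249873341248683509388505274853608473858879703451999629492914083952780838064535125089571494925177454325180950740597642066965663007403140201532684993694444654760998584213189943378344839935478587205836730801941598009436876178302926804584891126867073523158064894942913094855854577361926886801094906266611152893166027830491637238295215586034326283774107579293743122222064549844851452979557252209857188465674330979014421686982093970595281426776041763037086763636038757230417887106389192526479405006312328319659377945298303892233697873642541482260917727047301695008097259576947539504963286731588662484877538219615029805116679852288910597868111540033044579695278711432173331990612851529179769769983487104870302364692567515735349400438180030746883003143620624686316771061105175987494647938119581425015305389749653628407920636215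0206500218371401570255771036028515707335411306364563516864675286060983122540851948677585424485017068510416880388758248096842754987723612397013792213677854379016867391720380049659464699242179393517038902226395468382202059773208178209499972760259691267285946708519783082532796958670283997789200096001554349162810550224878537612019424703497506078242722011649003660372375425285939131204491430790757634096415010694682645285787889564585399591563000778612709178920838457015792958365938259987526219378462807073588270591213271465210411159118053001714316108189670105045800020870003221638719115794800532754445928470496309771041509947314360764565983594388489005335249989279619226041187680853458205676733347888506814641239614506097011154596498107567646241944505139791950095683733620540440065610060184030397884692467264297755800420191802334757276415647618439569219655904350457283208587848586011246695897804159585453605783722667770117753043936816831661206128663162243636247314929465256392388464471783027935804616129572402204573605781957567420447113045455489280829555824475837995363649217630267913242213458395818106826324280170445275136)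

end Vale.Agent.Lib.P154.PChain.BW.S5
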